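import Mathlib

-- ▼ part R122/Flow_671
section

/-!
# General autonomous flows (row 122, block F1a)

`gflow F U t x` is the flow at time `t` of the autonomous vector field `F`, started at `x`, inside the
set `U` (identity where no global solution inside `U` exists).
-/

set_option autoImplicit false

open MeasureTheory Set Filter Topology
open scoped NNReal

namespace Crest.Agent.R122.Flow671

variable {E : Type*} [NormedAddCommGroup E] [NormedSpace ℝ E]

/-- `γ` is a global solution of `γ' = F γ` inside `U`. -/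
def IsSol (F : E → E) (U : Set E) (γ : ℝ → E) : Prop :=
  ∀ t, γ t ∈ U ∧ HasDerivAt γ (F (γ t)) t

/-- The flow of `F` inside `U`. -/
noncomputable def gflow (F : E → E) (U : Set E) (t : ℝ) (x : E) : E :=
  open scoped Classical in
  if h : ∃ γ : ℝ → E, γ 0 = x ∧ IsSol F U γ then h.choose t else x

theorem IsSol.continuous {F : E → E} {U : Set E} {γ : ℝ → E} (h : IsSol F U γ) : Continuous γ :=
  continuous_iff_continuousAt.2 fun t => (h t).2.continuousAt

theorem IsSol.shift {F : E → E} {U : Set E} {γ : ℝ → E} (h : IsSol F U γ) (s : ℝ) :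
    IsSol F U (fun t => γ (s + t)) := by
  intro t
  refine ⟨(h (s + t)).1, ?_⟩
  have := (h (s + t)).2.scomp t ((hasDerivAt_id t).const_add s)
  simpa [Function.comp_def] using this

theorem IsSol.mono {F : E → E} {U V : Set E} {γ : ℝ → E} (h : IsSol F U γ) (hUV : U ⊆ V) :
    IsSol F V γ := fun t => ⟨hUV (h t).1, (h t).2⟩

theorem IsSol.congr {F G : E → E} {U : Set E} {γ : ℝ → E} (h : IsSol F U γ) (hFG : EqOn F G U) :
    IsSol G U γ := fun t => ⟨(h t).1, by rw [← hFG (h t).1]; exact (h t).2⟩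

/-- Uniqueness, forward in time, on a closed interval, for curves solving the equation (one-sided
derivatives suffice) in an open set on which the field is locally Lipschitz. -/
theorem unique_Icc_right {F : E → E} {U : Set E} (hF : LocallyLipschitzOn U F)
    {γ₁ γ₂ : ℝ → E} {a b : ℝ}
    (h₁c : ContinuousOn γ₁ (Icc a b)) (h₂c : ContinuousOn γ₂ (Icc a b))
    (h₁ : ∀ t ∈ Ico a b, HasDerivWithinAt γ₁ (F (γ₁ t)) (Ici t) t)
    (h₂ : ∀ t ∈ Ico a b, HasDerivWithinAt γ₂ (F (γ₂ t)) (Ici t) t)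
    (hU₁ : ∀ t ∈ Icc a b, γ₁ t ∈ U) (hU₂ : ∀ t ∈ Icc a b, γ₂ t ∈ U)
    (h0 : γ₁ a = γ₂ a) : EqOn γ₁ γ₂ (Icc a b) := by
  classical
  set K : Set E := γ₁ '' Icc a b ∪ γ₂ '' Icc a b with hK
  have hKc : IsCompact K := (isCompact_Icc.image_of_continuousOn h₁c).union
    (isCompact_Icc.image_of_continuousOn h₂c)
  have hKU : K ⊆ U := by
    rintro x (⟨t, ht, rfl⟩ | ⟨t, ht, rfl⟩)
    · exact hU₁ t ht
    · exact hU₂ t ht
  obtain ⟨C, hC⟩ := (hF.mono hKU).exists_lipschitzOnWith_of_compact hKc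
  exact ODE_solution_unique_of_mem_Icc_right (v := fun _ => F) (s := fun _ => K) (K := C)
    (fun t _ => hC) h₁c h₁ (fun t ht => Or.inl ⟨t, Ico_subset_Icc_self ht, rfl⟩)
    h₂c h₂ (fun t ht => Or.inr ⟨t, Ico_subset_Icc_self ht, rfl⟩) h0

/-- Uniqueness, backward in time. -/
theorem unique_Icc_left {F : E → E} {U : Set E} (hF : LocallyLipschitzOn U F)
    {γ₁ γ₂ : ℝ → E} {a b : ℝ}
    (h₁c : ContinuousOn γ₁ (Icc a b)) (h₂c : ContinuousOn γ₂ (Icc a b))
    (h₁ : ∀ t ∈ Ioc a b, HasDerivWithinAt γ₁ (F (γ₁ t)) (Iic t) t)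
    (h₂ : ∀ t ∈ Ioc a b, HasDerivWithinAt γ₂ (F (γ₂ t)) (Iic t) t)
    (hU₁ : ∀ t ∈ Icc a b, γ₁ t ∈ U) (hU₂ : ∀ t ∈ Icc a b, γ₂ t ∈ U)
    (h0 : γ₁ b = γ₂ b) : EqOn γ₁ γ₂ (Icc a b) := by
  classical
  set K : Set E := γ₁ '' Icc a b ∪ γ₂ '' Icc a b with hK
  have hKc : IsCompact K := (isCompact_Icc.image_of_continuousOn h₁c).union
    (isCompact_Icc.image_of_continuousOn h₂c)
  have hKU : K ⊆ U := by
    rintro x (⟨t, ht, rfl⟩ | ⟨t, ht, rfl⟩)
    · exact hU₁ t ht
    · exact hU₂ t ht
  obtain ⟨C, hC⟩ := (hF.mono hKU).exists_lipschitzOnWith_of_compact hKc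
  exact ODE_solution_unique_of_mem_Icc_left (v := fun _ => F) (s := fun _ => K) (K := C)
    (fun t _ => hC) h₁c h₁ (fun t ht => Or.inl ⟨t, Ioc_subset_Icc_self ht, rfl⟩)
    h₂c h₂ (fun t ht => Or.inr ⟨t, Ioc_subset_Icc_self ht, rfl⟩) h0

/-- Uniqueness on a closed interval for two curves which solve the equation at every point of the
interval (derivative within the interval) and agree at one point of the interval. -/
theorem unique_Icc {F : E → E} {U : Set E} (hF : LocallyLipschitzOn U F)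
    {γ₁ γ₂ : ℝ → E} {a b t₀ : ℝ} (ht₀ : t₀ ∈ Icc a b)
    (h₁ : ∀ t ∈ Icc a b, HasDerivWithinAt γ₁ (F (γ₁ t)) (Icc a b) t)
    (h₂ : ∀ t ∈ Icc a b, HasDerivWithinAt γ₂ (F (γ₂ t)) (Icc a b) t)
    (hU₁ : ∀ t ∈ Icc a b, γ₁ t ∈ U) (hU₂ : ∀ t ∈ Icc a b, γ₂ t ∈ U)
    (h0 : γ₁ t₀ = γ₂ t₀) : EqOn γ₁ γ₂ (Icc a b) := by
  have c₁ : ContinuousOn γ₁ (Icc a b) := fun t ht => (h₁ t ht).continuousWithinAt
  have c₂ : ContinuousOn γ₂ (Icc a b) := fun t ht => (h₂ t ht).continuousWithinAt
  have hsR : Icc t₀ b ⊆ Icc a b := Icc_subset_Icc_left ht₀.1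
  have hsL : Icc a t₀ ⊆ Icc a b := Icc_subset_Icc_right ht₀.2
  have hR : EqOn γ₁ γ₂ (Icc t₀ b) := by
    refine unique_Icc_right hF (c₁.mono hsR) (c₂.mono hsR) ?_ ?_ (fun t ht => hU₁ t (hsR ht))
      (fun t ht => hU₂ t (hsR ht)) h0
    · intro t ht
      refine (h₁ t (hsR (Ico_subset_Icc_self ht))).mono_of_mem_nhdsWithin ?_
      exact mem_of_superset (Icc_mem_nhdsGE ht.2) (Icc_subset_Icc_left (ht₀.1.trans ht.1))
    · intro t ht
      refine (h₂ t (hsR (Ico_subset_Icc_self ht))).mono_of_mem_nhdsWithin ?_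
      exact mem_of_superset (Icc_mem_nhdsGE ht.2) (Icc_subset_Icc_left (ht₀.1.trans ht.1))
  have hL : EqOn γ₁ γ₂ (Icc a t₀) := by
    refine unique_Icc_left hF (c₁.mono hsL) (c₂.mono hsL) ?_ ?_ (fun t ht => hU₁ t (hsL ht))
      (fun t ht => hU₂ t (hsL ht)) h0
    · intro t ht
      refine (h₁ t (hsL (Ioc_subset_Icc_self ht))).mono_of_mem_nhdsWithin ?_
      exact mem_of_superset (Icc_mem_nhdsLE ht.1) (Icc_subset_Icc_right (ht.2.trans ht₀.2))
    · intro t ht
      refine (h₂ t (hsL (Ioc_subset_Icc_self ht))).mono_of_mem_nhdsWithin ?_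
      exact mem_of_superset (Icc_mem_nhdsLE ht.1) (Icc_subset_Icc_right (ht.2.trans ht₀.2))
  intro t ht
  rcases le_total t t₀ with h | h
  · exact hL ⟨ht.1, h⟩
  · exact hR ⟨h, ht.2⟩

theorem IsSol.unique {F : E → E} {U : Set E} (hF : LocallyLipschitzOn U F)
    {γ₁ γ₂ : ℝ → E} (h₁ : IsSol F U γ₁) (h₂ : IsSol F U γ₂) {t₀ : ℝ} (h0 : γ₁ t₀ = γ₂ t₀) :
    γ₁ = γ₂ := by
  funext t
  have ht : t ∈ Icc (min t t₀) (max t t₀) := ⟨min_le_left _ _, le_max_left _ _⟩
  have ht₀ : t₀ ∈ Icc (min t t₀) (max t t₀) := ⟨min_le_right _ _, le_max_right _ _⟩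
  exact unique_Icc hF ht₀ (fun s _ => (h₁ s).2.hasDerivWithinAt)
    (fun s _ => (h₂ s).2.hasDerivWithinAt) (fun s _ => (h₁ s).1) (fun s _ => (h₂ s).1) h0 ht

/-- A vector field which is locally Lipschitz on `U` and complete on `U`. -/
structure Complete (F : E → E) (U : Set E) : Prop where
  lip : LocallyLipschitzOn U F
  exists_sol : ∀ x ∈ U, ∃ γ : ℝ → E, γ 0 = x ∧ IsSol F U γ

namespace Complete

variable {F : E → E} {U : Set E}

theorem isSol (h : Complete F U) {x : E} (hx : x ∈ U) : IsSol F U (fun t => gflow F U t x) := by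
  classical
  have hex := h.exists_sol x hx
  have : (fun t => gflow F U t x) = hex.choose := by
    funext t
    rw [gflow, dif_pos hex]
  rw [this]
  exact hex.choose_spec.2

theorem flow_zero (_h : Complete F U) (x : E) : gflow F U 0 x = x := by
  classical
  by_cases hex : ∃ γ : ℝ → E, γ 0 = x ∧ IsSol F U γ
  · rw [gflow, dif_pos hex]; exact hex.choose_spec.1
  · rw [gflow, dif_neg hex]

theorem flow_of_not_mem {x : E} (hx : x ∉ U) (t : ℝ) : gflow F U t x = x := by
  classical
  rw [gflow, dif_neg]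
  rintro ⟨γ, h0, hγ⟩
  exact hx (h0 ▸ (hγ 0).1)

theorem hasDerivAt (h : Complete F U) {x : E} (hx : x ∈ U) (t : ℝ) :
    HasDerivAt (fun t => gflow F U t x) (F (gflow F U t x)) t := (h.isSol hx t).2

theorem flow_mem (h : Complete F U) {x : E} (hx : x ∈ U) (t : ℝ) : gflow F U t x ∈ U :=
  (h.isSol hx t).1

theorem eq_flow (h : Complete F U) {γ : ℝ → E} (hγ : IsSol F U γ) (t : ℝ) :
    γ t = gflow F U t (γ 0) := by
  have := IsSol.unique h.lip hγ (h.isSol (hγ 0).1) (t₀ := 0) (by rw [h.flow_zero])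
  exact congrFun this t

/-- Uniqueness on a closed interval: every curve solving the equation inside `U` at all points of an
interval containing `0` is the flow there. -/
theorem eq_flow_Icc (h : Complete F U) {γ : ℝ → E} {a b : ℝ} (h0 : (0 : ℝ) ∈ Icc a b)
    (hγ : ∀ t ∈ Icc a b, HasDerivWithinAt γ (F (γ t)) (Icc a b) t)
    (hU : ∀ t ∈ Icc a b, γ t ∈ U) {t : ℝ} (ht : t ∈ Icc a b) :
    γ t = gflow F U t (γ 0) := by
  have hx := hU 0 h0
  exact unique_Icc h.lip h0 hγ (fun s _ => (h.hasDerivAt hx s).hasDerivWithinAt) hU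
    (fun s _ => h.flow_mem hx s) (by rw [h.flow_zero]) ht

theorem flow_add (h : Complete F U) (s t : ℝ) (x : E) :
    gflow F U (s + t) x = gflow F U t (gflow F U s x) := by
  by_cases hx : x ∈ U
  · have := h.eq_flow ((h.isSol hx).shift s) t
    simpa using this
  · rw [flow_of_not_mem hx, flow_of_not_mem hx, flow_of_not_mem hx]

theorem flow_neg_flow (h : Complete F U) (t : ℝ) (x : E) :
    gflow F U (-t) (gflow F U t x) = x := by
  rw [← h.flow_add, add_neg_cancel, h.flow_zero]

theorem flow_flow_neg (h : Complete F U) (t : ℝ) (x : E) :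
    gflow F U t (gflow F U (-t) x) = x := by
  rw [← h.flow_add, neg_add_cancel, h.flow_zero]

/-- The time-`t` map as a bijection of the whole space. -/
noncomputable def equiv (h : Complete F U) (t : ℝ) : E ≃ E where
  toFun := gflow F U t
  invFun := gflow F U (-t)
  left_inv := h.flow_neg_flow t
  right_inv := h.flow_flow_neg t

theorem bijective (h : Complete F U) (t : ℝ) : Function.Bijective (gflow F U t) :=
  (h.equiv t).bijective


theorem mem_iff (h : Complete F U) (t : ℝ) (x : E) : gflow F U t x ∈ U ↔ x ∈ U := by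
  constructor
  · intro hx
    by_contra hn
    rw [flow_of_not_mem hn] at hx
    exact hn hx
  · intro hx
    exact h.flow_mem hx t


end Complete

/-- Gluing: a uniform local existence time gives global solutions. -/
theorem exists_global_of_uniform {F : E → E} (hF : LocallyLipschitz F) {ε : ℝ} (hε : 0 < ε)
    (h : ∀ x : E, ∃ γ : ℝ → E, γ 0 = x ∧ ∀ t ∈ Icc (-ε) ε, HasDerivWithinAt γ (F (γ t)) (Icc (-ε) ε) t)
    (x : E) : ∃ γ : ℝ → E, γ 0 = x ∧ IsSol F univ γ := by
  choose φ hφ0 hφ using h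
  have hFU : LocallyLipschitzOn univ F := hF.locallyLipschitzOn
  set h : ℝ := ε / 2 with hh
  have hpos : 0 < h := by positivity
  -- shift property
  have hshift : ∀ (x : E) (s : ℝ), s ∈ Icc (-h) h → ∀ r ∈ Icc (-h) h,
      φ (φ x s) r = φ x (s + r) := by
    intro x s hs r hr
    have hsub : ∀ u ∈ Icc (-h) h, s + u ∈ Icc (-ε) ε := by
      intro u hu
      constructor <;> [linarith [hs.1, hu.1]; linarith [hs.2, hu.2]]
    have hmaps : MapsTo (fun u => s + u) (Icc (-h) h) (Icc (-ε) ε) := hsub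
    have h2 : ∀ u ∈ Icc (-h) h, HasDerivWithinAt (fun u => φ x (s + u)) (F (φ x (s + u)))
        (Icc (-h) h) u := by
      intro u hu
      have h1 := hφ x (s + u) (hsub u hu)
      have h3 := h1.scomp u (((hasDerivAt_id u).const_add s).hasDerivWithinAt (s := Icc (-h) h)) hmaps
      simpa [Function.comp_def] using h3
    have hsub' : Icc (-h) h ⊆ Icc (-ε) ε := Icc_subset_Icc (by linarith) (by linarith)
    have h3 : ∀ u ∈ Icc (-h) h, HasDerivWithinAt (φ (φ x s)) (F (φ (φ x s) u)) (Icc (-h) h) u :=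
      fun u hu => (hφ (φ x s) u (hsub' hu)).mono hsub'
    have h0mem : (0 : ℝ) ∈ Icc (-h) h := ⟨by linarith, by linarith⟩
    exact unique_Icc hFU h0mem h3 h2 (fun _ _ => mem_univ _) (fun _ _ => mem_univ _)
      (by simp [hφ0]) hr
  have hmemh : h ∈ Icc (-h) h := ⟨by linarith, le_rfl⟩
  have hmemnh : -h ∈ Icc (-h) h := ⟨le_rfl, by linarith⟩
  let T : Equiv.Perm E :=
    { toFun := fun x => φ x h
      invFun := fun x => φ x (-h)
      left_inv := fun x => by
        change φ (φ x h) (-h) = x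
        rw [hshift x h hmemh (-h) hmemnh, add_neg_cancel, hφ0]
      right_inv := fun x => by
        change φ (φ x (-h)) h = x
        rw [hshift x (-h) hmemnh h hmemh, neg_add_cancel, hφ0] }
  have hT : ∀ (n : ℤ), (T ^ (n + 1)) x = φ ((T ^ n) x) h := by
    intro n
    rw [add_comm, zpow_add, zpow_one, Equiv.Perm.mul_apply]
    rfl
  let γ : ℝ → E := fun t => φ ((T ^ ⌊t / h⌋) x) (t - ⌊t / h⌋ * h)
  have hloc : ∀ (n : ℤ) (t : ℝ), t ∈ Ioo (((n : ℝ) - 1) * h) (((n : ℝ) + 1) * h) →
      γ t = φ ((T ^ n) x) (t - n * h) := by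
    intro n t ht
    rcases le_or_gt ((n : ℝ) * h) t with hle | hlt
    · have : ⌊t / h⌋ = n := by
        rw [Int.floor_eq_iff]
        constructor
        · rw [le_div_iff₀ hpos]; exact hle
        · rw [div_lt_iff₀ hpos]; exact ht.2
      change φ ((T ^ ⌊t / h⌋) x) (t - ⌊t / h⌋ * h) = _
      rw [this]
    · have : ⌊t / h⌋ = n - 1 := by
        rw [Int.floor_eq_iff]
        push_cast
        constructor
        · rw [le_div_iff₀ hpos]; exact ht.1.le
        · rw [div_lt_iff₀ hpos]; linarith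
      change φ ((T ^ ⌊t / h⌋) x) (t - ⌊t / h⌋ * h) = _
      rw [this]
      have hT' := hT (n - 1)
      rw [sub_add_cancel] at hT'
      rw [hT', hshift _ h hmemh (t - n * h)]
      · congr 1
        push_cast
        ring
      · constructor
        · nlinarith [ht.1]
        · nlinarith [ht.2]
  refine ⟨γ, ?_, fun t => ⟨mem_univ _, ?_⟩⟩
  · change φ ((T ^ ⌊(0 : ℝ) / h⌋) x) (0 - ⌊(0 : ℝ) / h⌋ * h) = x
    simp [hφ0]
  · set n : ℤ := ⌊t / h⌋ with hn
    have h1 : (n : ℝ) * h ≤ t := by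
      have := Int.floor_le (t / h)
      rwa [le_div_iff₀ hpos] at this
    have h2 : t < ((n : ℝ) + 1) * h := by
      have := Int.lt_floor_add_one (t / h)
      rwa [div_lt_iff₀ hpos] at this
    have ht : t ∈ Ioo (((n : ℝ) - 1) * h) (((n : ℝ) + 1) * h) := ⟨by nlinarith, h2⟩
    have hev : γ =ᶠ[𝓝 t] fun t => φ ((T ^ n) x) (t - n * h) := by
      filter_upwards [Ioo_mem_nhds ht.1 ht.2] with s hs using hloc n s hs
    have hmem : t - n * h ∈ Ioo (-ε) ε := by
      constructor
      · linarith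
      · nlinarith
    have h3 : HasDerivAt (φ ((T ^ n) x)) (F (φ ((T ^ n) x) (t - n * h))) (t - n * h) :=
      (hφ ((T ^ n) x) (t - n * h) (Ioo_subset_Icc_self hmem)).hasDerivAt (Icc_mem_nhds hmem.1 hmem.2)
    have h4 := h3.scomp t ((hasDerivAt_id t).sub_const (n * h))
    rw [hloc n t ht]
    refine HasDerivAt.congr_of_eventuallyEq ?_ hev
    simpa [Function.comp_def] using h4

/-- Global existence for globally Lipschitz vector fields. -/
theorem complete_of_lipschitz [CompleteSpace E] {F : E → E} {K : ℝ≥0}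
    (hL : LipschitzWith K F) : Complete F univ := by
  refine ⟨(hL.locallyLipschitz).locallyLipschitzOn, fun x _ => ?_⟩
  -- uniform local existence time
  set ε : ℝ := 1 / (2 * (1 + (K : ℝ))) with hε
  have hKpos : (0 : ℝ) < 1 + K := by positivity
  have hεpos : 0 < ε := by positivity
  refine exists_global_of_uniform hL.locallyLipschitz hεpos (fun x => ?_) x
  set A : ℝ := ‖F x‖ + 1 with hA
  have hApos : 0 < A := by positivity
  have hpl : IsPicardLindelof (fun _ : ℝ => F) (tmin := -ε) (tmax := ε)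
      ⟨0, ⟨by linarith, hεpos.le⟩⟩ x ⟨A, hApos.le⟩ 0 ⟨‖F x‖ + K * A, by positivity⟩ K := by
    refine ⟨fun t _ => hL.lipschitzOnWith, fun y _ => continuousOn_const, ?_, ?_⟩
    · intro t _ y hy
      have h1 := hL.dist_le_mul y x
      rw [dist_eq_norm] at h1
      have h2 : dist y x ≤ A := hy
      have h3 : ‖F y‖ ≤ ‖F x‖ + ‖F y - F x‖ := by
        have := norm_add_le (F x) (F y - F x)
        simpa using this
      have h4 : (K : ℝ) * dist y x ≤ K * A := by gcongr
      change ‖F y‖ ≤ ‖F x‖ + K * A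
      linarith
    · change (‖F x‖ + K * A) * max (ε - 0) (0 - -ε) ≤ A - 0
      have h1 : max (ε - 0) (0 - -ε) = ε := by simp
      rw [h1, sub_zero]
      have h2 : ‖F x‖ + K * A ≤ (1 + K) * A := by nlinarith [norm_nonneg (F x)]
      have h3 : (1 + (K : ℝ)) * ε = 1 / 2 := by rw [hε]; field_simp
      calc (‖F x‖ + K * A) * ε ≤ ((1 + K) * A) * ε := by gcongr
        _ = ((1 + K) * ε) * A := by ring
        _ = A / 2 := by rw [h3]; ring
        _ ≤ A := by linarith
  obtain ⟨α, h0, hα⟩ := hpl.exists_eq_forall_mem_Icc_hasDerivWithinAt₀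
  exact ⟨α, h0, hα⟩

end Crest.Agent.R122.Flow671
end

-- ▼ part R122/FlowLip_671

/-!
# Flows of globally Lipschitz fields: continuity, and Liouville's theorem through one-step schemes
(row 122, block F1a)
-/

set_option autoImplicit false

open MeasureTheory Set Filter Topology
open scoped NNReal ENNReal

namespace Crest.Agent.R122.Flow671

variable {E : Type*} [NormedAddCommGroup E] [NormedSpace ℝ E]

theorem IsSol.neg {F : E → E} {U : Set E} {γ : ℝ → E} (h : IsSol F U γ) :
    IsSol (fun x => -F x) U (fun t => γ (-t)) := by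
  intro t
  refine ⟨(h (-t)).1, ?_⟩
  have := (h (-t)).2.scomp t (hasDerivAt_neg t)
  simpa [Function.comp_def] using this

theorem Complete.neg {F : E → E} {U : Set E} (h : Complete F U) : Complete (fun x => -F x) U := by
  refine ⟨?_, fun x hx => ?_⟩
  · intro x hx
    obtain ⟨K, t, ht, hK⟩ := h.lip hx
    refine ⟨K, t, ht, ?_⟩
    intro a ha b hb
    have := hK ha hb
    simpa [edist_neg_neg] using this
  · obtain ⟨γ, h0, hγ⟩ := h.exists_sol x hx
    exact ⟨fun t => γ (-t), by simpa using h0, hγ.neg⟩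

theorem Complete.gflow_neg {F : E → E} {U : Set E} (h : Complete F U) (t : ℝ) (x : E) :
    gflow (fun x => -F x) U t x = gflow F U (-t) x := by
  by_cases hx : x ∈ U
  · have := h.neg.eq_flow ((h.isSol hx).neg) t
    simpa [h.flow_zero] using this.symm
  · rw [Complete.flow_of_not_mem hx, Complete.flow_of_not_mem hx]

/-- Lipschitz dependence on the initial point. -/
theorem dist_flow_le [CompleteSpace E] {F : E → E} {K : ℝ≥0} (hL : LipschitzWith K F) (t : ℝ) (x y : E) :
    dist (gflow F univ t x) (gflow F univ t y) ≤ Real.exp (K * |t|) * dist x y := by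
  have hc := complete_of_lipschitz hL
  -- forward estimate for a Lipschitz field
  have fwd : ∀ (G : E → E), LipschitzWith K G → ∀ t : ℝ, 0 ≤ t → ∀ x y : E,
      dist (gflow G univ t x) (gflow G univ t y) ≤ Real.exp (K * t) * dist x y := by
    intro G hG t ht x y
    have hcG := complete_of_lipschitz hG
    have := dist_le_of_trajectories_ODE (v := fun _ => G) (K := K) (a := 0) (b := t)
      (f := fun s => gflow G univ s x) (g := fun s => gflow G univ s y) (δ := dist x y)
      (fun _ => hG)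
      (HasDerivAt.continuousOn fun s _ => hcG.hasDerivAt (mem_univ x) s)
      (fun s _ => (hcG.hasDerivAt (mem_univ x) s).hasDerivWithinAt)
      (HasDerivAt.continuousOn fun s _ => hcG.hasDerivAt (mem_univ y) s)
      (fun s _ => (hcG.hasDerivAt (mem_univ y) s).hasDerivWithinAt)
      (by simp [hcG.flow_zero]) t ⟨ht, le_rfl⟩
    simp only [sub_zero] at this
    linarith [this, mul_comm (dist x y) (Real.exp (K * t))]
  rcases le_total 0 t with ht | ht
  · rw [abs_of_nonneg ht]; exact fwd F hL t ht x y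
  · rw [abs_of_nonpos ht]
    have hLn : LipschitzWith K (fun x => -F x) := by
      intro a b
      have := hL a b
      simpa [edist_neg_neg] using this
    have := fwd (fun x => -F x) hLn (-t) (by linarith) x y
    rwa [hc.gflow_neg, hc.gflow_neg, neg_neg] at this

theorem lipschitzWith_flow [CompleteSpace E] {F : E → E} {K : ℝ≥0} (hL : LipschitzWith K F) (t : ℝ) :
    LipschitzWith ⟨Real.exp (K * |t|), (Real.exp_pos _).le⟩ (gflow F univ t) :=
  LipschitzWith.of_dist_le_mul fun x y => dist_flow_le hL t x y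

theorem continuous_flow_fixed [CompleteSpace E] {F : E → E} {K : ℝ≥0} (hL : LipschitzWith K F) (t : ℝ) :
    Continuous (gflow F univ t) := (lipschitzWith_flow hL t).continuous

theorem continuous_flow [CompleteSpace E] {F : E → E} {K : ℝ≥0} (hL : LipschitzWith K F) :
    Continuous (fun p : ℝ × E => gflow F univ p.1 p.2) := by
  have hc := complete_of_lipschitz hL
  rw [continuous_iff_continuousAt]
  rintro ⟨t₀, x₀⟩
  rw [Metric.continuousAt_iff']
  intro ε hε
  -- neighbourhood in time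
  have h1 : ContinuousAt (fun t => gflow F univ t x₀) t₀ := (hc.hasDerivAt (mem_univ x₀) t₀).continuousAt
  have h2 := Metric.continuousAt_iff'.1 h1 (ε / 2) (by positivity)
  set M : ℝ := Real.exp (K * (|t₀| + 1)) with hM
  have hMpos : 0 < M := Real.exp_pos _
  have h3 : ∀ᶠ p : ℝ × E in 𝓝 (t₀, x₀), dist (gflow F univ p.1 x₀) (gflow F univ t₀ x₀) < ε / 2 :=
    (continuous_fst.tendsto (t₀, x₀)).eventually h2
  have h4 : ∀ᶠ p : ℝ × E in 𝓝 (t₀, x₀), |p.1| < |t₀| + 1 :=
    (continuous_abs.comp continuous_fst).tendsto (t₀, x₀) |>.eventually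
      (gt_mem_nhds (by simp))
  have h5 : ∀ᶠ p : ℝ × E in 𝓝 (t₀, x₀), dist p.2 x₀ < ε / (2 * M) := by
    have : Tendsto (fun p : ℝ × E => dist p.2 x₀) (𝓝 (t₀, x₀)) (𝓝 (dist x₀ x₀)) :=
      ((continuous_snd.dist continuous_const).tendsto _)
    exact this.eventually (gt_mem_nhds (by simpa using by positivity))
  filter_upwards [h3, h4, h5] with p h3 h4 h5
  calc dist (gflow F univ p.1 p.2) (gflow F univ t₀ x₀)
      ≤ dist (gflow F univ p.1 p.2) (gflow F univ p.1 x₀)
        + dist (gflow F univ p.1 x₀) (gflow F univ t₀ x₀) := dist_triangle _ _ _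
    _ < M * (ε / (2 * M)) + ε / 2 := by
        refine add_lt_add_of_le_of_lt ?_ h3
        calc dist (gflow F univ p.1 p.2) (gflow F univ p.1 x₀)
            ≤ Real.exp (K * |p.1|) * dist p.2 x₀ := dist_flow_le hL _ _ _
          _ ≤ M * (ε / (2 * M)) := by
              have hMle : Real.exp (K * |p.1|) ≤ M := by
                rw [hM]
                exact Real.exp_le_exp.2 (mul_le_mul_of_nonneg_left h4.le K.2)
              exact mul_le_mul hMle h5.le dist_nonneg hMpos.le
    _ = ε := by field_simp; ring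

/-- Second-order Taylor bound along a trajectory. -/
theorem norm_flow_sub_le [CompleteSpace E] {F : E → E} {K : ℝ≥0} (hL : LipschitzWith K F) (x : E)
    {T M : ℝ} (hM : ∀ s, |s| ≤ T → ‖F (gflow F univ s x)‖ ≤ M) {s h : ℝ}
    (hs : |s| ≤ T) (hsh : |s + h| ≤ T) :
    ‖gflow F univ (s + h) x - gflow F univ s x - h • F (gflow F univ s x)‖ ≤ K * M * h ^ 2 := by
  have hc := complete_of_lipschitz hL
  set γ : ℝ → E := fun u => gflow F univ u x with hγ
  have hγd : ∀ u, HasDerivAt γ (F (γ u)) u := fun u => hc.hasDerivAt (mem_univ x) u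
  have hM0 : 0 ≤ M := (norm_nonneg _).trans (hM s hs)
  set I : Set ℝ := uIcc s (s + h) with hI
  have hIsub : ∀ u ∈ I, |u| ≤ T := by
    intro u hu
    have h1 := hs
    have h2 := hsh
    rw [abs_le] at h1 h2 ⊢
    rw [hI, mem_uIcc] at hu
    rcases hu with hu | hu
    · exact ⟨h1.1.trans hu.1, hu.2.trans h2.2⟩
    · exact ⟨h2.1.trans hu.1, hu.2.trans h1.2⟩
  have hdist : ∀ u ∈ I, |u - s| ≤ |h| := by
    intro u hu
    have := abs_sub_left_of_mem_uIcc hu
    simpa using this
  have hconv : Convex ℝ I := convex_uIcc _ _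
  have hsI : s ∈ I := left_mem_uIcc
  have h1 : ∀ u ∈ I, ‖γ u - γ s‖ ≤ M * |h| := by
    intro u hu
    have := hconv.norm_image_sub_le_of_norm_hasDerivWithin_le (f := γ) (f' := fun u => F (γ u))
      (C := M) (fun v _ => (hγd v).hasDerivWithinAt) (fun v hv => hM v (hIsub v hv)) hsI hu
    refine this.trans ?_
    rw [Real.norm_eq_abs]
    exact mul_le_mul_of_nonneg_left (hdist u hu) hM0
  have h2 : ∀ u ∈ I, ‖F (γ u) - F (γ s)‖ ≤ K * (M * |h|) := by
    intro u hu
    have := hL.dist_le_mul (γ u) (γ s)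
    rw [dist_eq_norm, dist_eq_norm] at this
    exact this.trans (mul_le_mul_of_nonneg_left (h1 u hu) K.2)
  have hshI : s + h ∈ I := right_mem_uIcc
  have h3 := hconv.norm_image_sub_le_of_norm_hasDerivWithin_le
    (f := fun u => γ u - (u - s) • F (γ s)) (f' := fun u => F (γ u) - F (γ s))
    (C := K * (M * |h|)) (fun v _ => by
      have ha := (hγd v).fun_sub (((hasDerivAt_id v).sub_const s).smul_const (F (γ s)))
      simpa using ha.hasDerivWithinAt) h2 hsI hshI
  have h4 : (γ (s + h) - (s + h - s) • F (γ s)) - (γ s - (s - s) • F (γ s))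
      = γ (s + h) - γ s - h • F (γ s) := by
    simp only [add_sub_cancel_left, sub_self, zero_smul, sub_zero]
    abel
  rw [h4] at h3
  refine h3.trans (le_of_eq ?_)
  rw [add_sub_cancel_left, Real.norm_eq_abs]
  have : |h| * |h| = h ^ 2 := by rw [← sq, sq_abs]
  calc K * (M * |h|) * |h| = K * M * (|h| * |h|) := by ring
    _ = K * M * h ^ 2 := by rw [this]

/-- Convergence of a consistent and stable one-step scheme. -/
theorem tendsto_scheme [CompleteSpace E] {F : E → E} {K : ℝ≥0} (hL : LipschitzWith K F)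
    {S : ℝ → E → E} {C : ℝ} (hC : 0 ≤ C)
    (hcons : ∀ h x, |h| ≤ 1 → ‖S h x - x - h • F x‖ ≤ C * h ^ 2 * (1 + ‖x‖))
    (hstab : ∀ h x y, |h| ≤ 1 → ‖S h x - S h y‖ ≤ (1 + C * |h|) * ‖x - y‖) (t : ℝ) (x : E) :
    Tendsto (fun N : ℕ => (S (t / (N + 1)))^[N + 1] x) atTop (𝓝 (gflow F univ t x)) := by
  have hc := complete_of_lipschitz hL
  set γ : ℝ → E := fun u => gflow F univ u x with hγ
  have hγc : Continuous γ := continuous_iff_continuousAt.2 fun u =>
    (hc.hasDerivAt (mem_univ x) u).continuousAt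
  -- bounds along the trajectory
  obtain ⟨M, hM⟩ := (isCompact_Icc (a := -|t|) (b := |t|)).exists_bound_of_continuousOn
    ((hL.continuous.comp hγc).continuousOn (s := Icc (-|t|) |t|))
  obtain ⟨R, hR⟩ := (isCompact_Icc (a := -|t|) (b := |t|)).exists_bound_of_continuousOn
    (hγc.continuousOn (s := Icc (-|t|) |t|))
  have hM' : ∀ s, |s| ≤ |t| → ‖F (gflow F univ s x)‖ ≤ M := fun s hs => hM s (abs_le.1 hs)
  have hR' : ∀ s, |s| ≤ |t| → ‖gflow F univ s x‖ ≤ R := fun s hs => hR s (abs_le.1 hs)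
  have hM0 : 0 ≤ M := (norm_nonneg _).trans (hM' 0 (by simp))
  have hR0 : 0 ≤ R := (norm_nonneg _).trans (hR' 0 (by simp))
  set D : ℝ := C * (1 + R) + K * M with hD
  have hD0 : 0 ≤ D := by positivity
  -- error estimate
  have herr : ∀ (N : ℕ) (h : ℝ), |h| ≤ 1 → ∀ k : ℕ, k ≤ N → (N : ℝ) * |h| ≤ |t| →
      ‖(S h)^[k] x - γ (k * h)‖ ≤ k * (D * h ^ 2) * (1 + C * |h|) ^ k := by
    intro N h hh k
    induction k with
    | zero =>
      intro _ _
      simp [hγ, hc.flow_zero]
    | succ k ih =>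
      intro hk hN
      have ih' := ih (by omega) hN
      have hkN : (k : ℝ) + 1 ≤ N := by exact_mod_cast hk
      have hs1 : |(k : ℝ) * h| ≤ |t| := by
        rw [abs_mul, Nat.abs_cast]
        refine le_trans ?_ hN
        exact mul_le_mul_of_nonneg_right (by linarith) (abs_nonneg h)
      have hs2 : |(k : ℝ) * h + h| ≤ |t| := by
        have : (k : ℝ) * h + h = (k + 1) * h := by ring
        rw [this, abs_mul, abs_of_nonneg (by positivity : (0:ℝ) ≤ k + 1)]
        refine le_trans ?_ hN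
        exact mul_le_mul_of_nonneg_right (by linarith) (abs_nonneg h)
      have e1 := hstab h ((S h)^[k] x) (γ (k * h)) hh
      have e2 := hcons h (γ (k * h)) hh
      have e3 := norm_flow_sub_le hL x hM' hs1 hs2
      have e4 : ‖γ (k * h)‖ ≤ R := hR' _ hs1
      rw [Function.iterate_succ_apply']
      have e5 : S h ((S h)^[k] x) - γ (((k + 1 : ℕ) : ℝ) * h)
          = (S h ((S h)^[k] x) - S h (γ (k * h)))
            + (S h (γ (k * h)) - γ (k * h) - h • F (γ (k * h)))
            - (γ (k * h + h) - γ (k * h) - h • F (γ (k * h))) := by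
        have : (((k + 1 : ℕ) : ℝ) * h) = k * h + h := by push_cast; ring
        rw [this]
        abel
      have e6 : (1 : ℝ) ≤ 1 + C * |h| := by
        have : 0 ≤ C * |h| := by positivity
        linarith
      have e7 : C * h ^ 2 * (1 + ‖γ (k * h)‖) ≤ C * h ^ 2 * (1 + R) := by gcongr
      calc ‖S h ((S h)^[k] x) - γ (((k + 1 : ℕ) : ℝ) * h)‖
          ≤ ‖S h ((S h)^[k] x) - S h (γ (k * h))‖
            + ‖S h (γ (k * h)) - γ (k * h) - h • F (γ (k * h))‖
            + ‖γ (k * h + h) - γ (k * h) - h • F (γ (k * h))‖ := by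
              rw [e5]
              exact (norm_sub_le _ _).trans (add_le_add_left (norm_add_le _ _) _)
        _ ≤ (1 + C * |h|) * (k * (D * h ^ 2) * (1 + C * |h|) ^ k)
            + C * h ^ 2 * (1 + R) + K * M * h ^ 2 := by
              gcongr
              · exact e1.trans (mul_le_mul_of_nonneg_left ih' (by positivity))
              · exact e2.trans e7
        _ = k * (D * h ^ 2) * (1 + C * |h|) ^ (k + 1) + D * h ^ 2 := by rw [hD]; ring
        _ ≤ k * (D * h ^ 2) * (1 + C * |h|) ^ (k + 1) + D * h ^ 2 * (1 + C * |h|) ^ (k + 1) := by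
              have h7 : (1 : ℝ) ≤ (1 + C * |h|) ^ (k + 1) := one_le_pow₀ e6
              have h8 : 0 ≤ D * h ^ 2 := by positivity
              nlinarith
        _ = ((k + 1 : ℕ) : ℝ) * (D * h ^ 2) * (1 + C * |h|) ^ (k + 1) := by push_cast; ring
  -- conclusion
  rw [tendsto_iff_norm_sub_tendsto_zero]
  have hbound : ∀ᶠ N : ℕ in atTop, ‖(S (t / (N + 1)))^[N + 1] x - gflow F univ t x‖
      ≤ (|t| ^ 2 * D * Real.exp (C * |t|)) * (1 / ((N : ℝ) + 1)) := by
    have hev : ∀ᶠ N : ℕ in atTop, |t| ≤ N := eventually_atTop.2 ⟨⌈|t|⌉₊, fun N hN =>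
      (Nat.le_ceil _).trans (by exact_mod_cast hN)⟩
    filter_upwards [hev] with N hN
    have hNpos : (0 : ℝ) < N + 1 := by positivity
    have habs : |t / ((N : ℝ) + 1)| = |t| / (N + 1) := by
      rw [abs_div, abs_of_pos hNpos]
    have h1 : |t / ((N : ℝ) + 1)| ≤ 1 := by
      rw [habs, div_le_one hNpos]; linarith
    have h2 := herr (N + 1) (t / (N + 1)) h1 (N + 1) le_rfl (by
      rw [habs]; push_cast; rw [mul_div_cancel₀ _ hNpos.ne'])
    have h3 : (((N + 1 : ℕ) : ℝ) * (t / (N + 1))) = t := by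
      push_cast; field_simp
    rw [h3] at h2
    refine h2.trans ?_
    have h4 : (1 + C * |t / ((N : ℝ) + 1)|) ^ (N + 1) ≤ Real.exp (C * |t|) := by
      have h5 : 1 + C * |t / ((N : ℝ) + 1)| ≤ Real.exp (C * |t / ((N : ℝ) + 1)|) := by
        have := Real.add_one_le_exp (C * |t / ((N : ℝ) + 1)|)
        linarith
      calc (1 + C * |t / ((N : ℝ) + 1)|) ^ (N + 1)
          ≤ (Real.exp (C * |t / ((N : ℝ) + 1)|)) ^ (N + 1) := by gcongr
        _ = Real.exp (C * |t|) := by
            rw [← Real.exp_nat_mul, habs]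
            congr 1
            push_cast
            field_simp
    have h6 : (((N + 1 : ℕ) : ℝ) * (D * (t / (N + 1)) ^ 2)) = |t| ^ 2 * D * (1 / ((N : ℝ) + 1)) := by
      rw [sq_abs]
      push_cast
      field_simp
    rw [h6]
    calc |t| ^ 2 * D * (1 / ((N : ℝ) + 1)) * (1 + C * |t / ((N : ℝ) + 1)|) ^ (N + 1)
        ≤ |t| ^ 2 * D * (1 / ((N : ℝ) + 1)) * Real.exp (C * |t|) := by gcongr
      _ = _ := by ring
  refine squeeze_zero' (Eventually.of_forall fun N => norm_nonneg _) hbound ?_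
  have := (tendsto_one_div_add_atTop_nhds_zero_nat (𝕜 := ℝ)).const_mul (|t| ^ 2 * D * Real.exp (C * |t|))
  simpa using this

/-- **Liouville's theorem through schemes.** If a Lipschitz field admits a consistent, stable one-step
scheme made of measure preserving maps, its flow is measure preserving. -/
theorem measurePreserving_of_scheme [CompleteSpace E] [MeasurableSpace E] [BorelSpace E]
    {μ : Measure E} [μ.OuterRegular] {F : E → E} {K : ℝ≥0}
    (hL : LipschitzWith K F) {S : ℝ → E → E} {C : ℝ} (hC : 0 ≤ C)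
    (hS : ∀ h, MeasurePreserving (S h) μ μ)
    (hcons : ∀ h x, |h| ≤ 1 → ‖S h x - x - h • F x‖ ≤ C * h ^ 2 * (1 + ‖x‖))
    (hstab : ∀ h x y, |h| ≤ 1 → ‖S h x - S h y‖ ≤ (1 + C * |h|) * ‖x - y‖) (t : ℝ) :
    MeasurePreserving (gflow F univ t) μ μ := by
  have hc := complete_of_lipschitz hL
  -- inequality on open sets
  have hopen : ∀ (t : ℝ) (V : Set E), IsOpen V → μ (gflow F univ t ⁻¹' V) ≤ μ V := by
    intro t V hV
    have hmeas : MeasurableSet (gflow F univ t ⁻¹' V) :=
      (hV.preimage (continuous_flow_fixed hL t)).measurableSet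
    have hSN : ∀ N : ℕ, MeasurePreserving ((S (t / (N + 1)))^[N + 1]) μ μ := fun N =>
      (hS _).iterate _
    rw [← lintegral_indicator_one hmeas]
    calc ∫⁻ x, (gflow F univ t ⁻¹' V).indicator 1 x ∂μ
        ≤ ∫⁻ x, liminf (fun N : ℕ => (((S (t / (N + 1)))^[N + 1]) ⁻¹' V).indicator
            (1 : E → ℝ≥0∞) x) atTop ∂μ := by
          refine lintegral_mono fun x => ?_
          by_cases hx : gflow F univ t x ∈ V
          · have hev : ∀ᶠ N : ℕ in atTop, (((S (t / (N + 1)))^[N + 1]) ⁻¹' V).indicator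
                (1 : E → ℝ≥0∞) x = 1 := by
              have := (tendsto_scheme hL hC hcons hstab t x).eventually (hV.mem_nhds hx)
              filter_upwards [this] with N hN
              rw [indicator_of_mem (show x ∈ _ ⁻¹' V from hN)]
              rfl
            have : liminf (fun N : ℕ => (((S (t / (N + 1)))^[N + 1]) ⁻¹' V).indicator
                (1 : E → ℝ≥0∞) x) atTop = 1 := by
              rw [liminf_congr hev]
              simp
            rw [this]
            exact indicator_le_self' (fun _ _ => zero_le_one) x |>.trans (le_of_eq rfl)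
          · rw [indicator_of_notMem (show x ∉ gflow F univ t ⁻¹' V from hx)]
            exact zero_le
      _ ≤ liminf (fun N : ℕ => ∫⁻ x, (((S (t / (N + 1)))^[N + 1]) ⁻¹' V).indicator
            (1 : E → ℝ≥0∞) x ∂μ) atTop := by
          refine lintegral_liminf_le fun N => ?_
          exact measurable_one.indicator ((hSN N).measurable hV.measurableSet)
      _ = μ V := by
          have : ∀ N : ℕ, ∫⁻ x, (((S (t / (N + 1)))^[N + 1]) ⁻¹' V).indicator
              (1 : E → ℝ≥0∞) x ∂μ = μ V := by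
            intro N
            rw [lintegral_indicator_one ((hSN N).measurable hV.measurableSet)]
            exact (hSN N).measure_preimage hV.measurableSet.nullMeasurableSet
          simp only [this]
          simp
  -- inequality on all sets
  have hall : ∀ (t : ℝ) (A : Set E), μ (gflow F univ t ⁻¹' A) ≤ μ A := by
    intro t A
    rw [A.measure_eq_iInf_isOpen μ]
    refine le_iInf fun V => le_iInf fun hAV => le_iInf fun hV => ?_
    exact (measure_mono (preimage_mono hAV)).trans (hopen t V hV)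
  refine ⟨(continuous_flow_fixed hL t).measurable, ?_⟩
  ext A hA
  rw [Measure.map_apply (continuous_flow_fixed hL t).measurable hA]
  refine le_antisymm (hall t A) ?_
  have h1 : A = gflow F univ (-t) ⁻¹' (gflow F univ t ⁻¹' A) := by
    ext x
    simp only [mem_preimage]
    rw [hc.flow_flow_neg]
  calc μ A = μ (gflow F univ (-t) ⁻¹' (gflow F univ t ⁻¹' A)) := by rw [← h1]
    _ ≤ μ (gflow F univ t ⁻¹' A) := hall _ _

end Crest.Agent.R122.Flow671
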