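import Mathlib
import Crest.Prelude.Def_KineticLimit
import Crest.Agent.R122.NewtonCut_671

/-!
# Locality, stability and symmetries of Newton's equations (row 122, block F1c, helper45)

Everything here is about the vector field `nf Φ ε` (helper671) and about solution curves, for an
arbitrary finite index type. The flow versions are in `LocFlow_45.lean`.
-/

set_option autoImplicit false
set_option linter.unusedSectionVars false

open MeasureTheory Set Filter Topology
open Crest.AnalysisR.Kinetic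
open Crest.Agent.R122.Flow671

namespace Crest.Agent.R122.Loc45

noncomputable section

variable {Φ : Space3 → ℝ}

/-! ### Isometries and the potential -/

/-- Chain rule for the gradient along a linear isometric automorphism; no differentiability is
needed. -/
theorem gradient_comp_isometry (F : Space3 → ℝ) (L : Space3 ≃ₗᵢ[ℝ] Space3) (q : Space3) :
    gradient (fun x => F (L x)) q = L.symm (gradient F (L q)) := by
  have h : fderiv ℝ (fun x => F (L x)) q
      = (fderiv ℝ F (L q)).comp (L.toContinuousLinearEquiv : Space3 →L[ℝ] Space3) := by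
    have := L.toContinuousLinearEquiv.comp_right_fderiv (f := F) (x := q)
    simpa [Function.comp_def] using this
  apply ext_inner_right ℝ
  intro v
  rw [gradient, InnerProductSpace.toDual_symm_apply, h, LinearIsometryEquiv.inner_map_eq_flip]
  simp [gradient, InnerProductSpace.toDual_symm_apply]

theorem gradient_isometry (hΦ : AdmissiblePotential Φ) (L : Space3 ≃ₗᵢ[ℝ] Space3) (q : Space3) :
    gradient Φ (L q) = L (gradient Φ q) := by
  have h : (fun x => Φ (L x)) = Φ := by
    funext x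
    exact hΦ.radial _ _ (L.norm_map x)
  have := gradient_comp_isometry Φ L q
  rw [h] at this
  rw [this, LinearIsometryEquiv.apply_symm_apply]

/-! ### Locality of the vector field -/

section Field

variable {ι κ : Type*} [Fintype ι] [Fintype κ]

/-- Cross distances between the range of `e` and its complement are at least `ε`. -/
def CrossFar (ε : ℝ) (e : ι → κ) (Z : κ → PhasePoint) : Prop :=
  ∀ i, ∀ j, j ∉ Set.range e → ε ≤ dist (Z (e i)).1 (Z j).1

omit [Fintype ι] [Fintype κ] in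
theorem one_le_norm_smul {ε : ℝ} (hε : 0 < ε) {x y : Space3} (h : ε ≤ dist x y) :
    1 ≤ ‖(1 / ε) • (x - y)‖ := by
  rw [norm_smul, ← dist_eq_norm, Real.norm_eq_abs, abs_of_pos (by positivity), one_div,
    ← div_eq_inv_mul, one_le_div hε]
  exact h

/-- No force at distance at least `ε`. -/
theorem grad_far (hΦ : AdmissiblePotential Φ) {ε : ℝ} (hε : 0 < ε) {x y : Space3}
    (h : ε ≤ dist x y) : gradient Φ ((1 / ε) • (x - y)) = 0 :=
  grad_zero hΦ (one_le_norm_smul hε h)

/-- Locality of the force. -/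
theorem force_comp (hΦ : AdmissiblePotential Φ) {ε : ℝ} (hε : 0 < ε) (e : ι ↪ κ)
    (Z : κ → PhasePoint) (hZ : CrossFar ε e Z) (i : ι) :
    ∑ j, gradient Φ ((1 / ε) • ((Z (e i)).1 - (Z (e j)).1))
      = ∑ j, gradient Φ ((1 / ε) • ((Z (e i)).1 - (Z j).1)) := by
  classical
  symm
  rw [← Finset.sum_subset (Finset.subset_univ (Finset.univ.map e)), Finset.sum_map]
  intro j _ hj
  have hj' : j ∉ Set.range e := by
    rintro ⟨k, rfl⟩
    exact hj (by simp)
  exact grad_far hΦ hε (hZ i j hj')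

/-- **Locality of Newton's field**: the sub-family `Z ∘ e` feels exactly its own interactions. -/
theorem nf_comp (hΦ : AdmissiblePotential Φ) {ε : ℝ} (hε : 0 < ε) (e : ι ↪ κ)
    (Z : κ → PhasePoint) (hZ : CrossFar ε e Z) :
    nf Φ ε (fun k => Z (e k)) = fun i => nf Φ ε Z (e i) := by
  funext i
  simp only [nf, force_comp hΦ hε e Z hZ i]

/-- Locality of Newton's field for one single particle index. -/
theorem nf_comp_apply (hΦ : AdmissiblePotential Φ) {ε : ℝ} (hε : 0 < ε) (e : ι ↪ κ)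
    (Z : κ → PhasePoint) (i : ι)
    (hZ : ∀ j, j ∉ Set.range e → ε ≤ dist (Z (e i)).1 (Z j).1) :
    nf Φ ε (fun k => Z (e k)) i = nf Φ ε Z (e i) := by
  classical
  have : ∑ j, gradient Φ ((1 / ε) • ((Z (e i)).1 - (Z (e j)).1))
      = ∑ j, gradient Φ ((1 / ε) • ((Z (e i)).1 - (Z j).1)) := by
    symm
    rw [← Finset.sum_subset (Finset.subset_univ (Finset.univ.map e)), Finset.sum_map]
    intro j _ hj
    have hj' : j ∉ Set.range e := by
      rintro ⟨k, rfl⟩
      exact hj (by simp)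
    exact grad_far hΦ hε (hZ j hj')
  simp only [nf, this]

/-- Relabelling. -/
theorem nf_equiv (Φ : Space3 → ℝ) (ε : ℝ) (σ : ι ≃ κ) (Z : κ → PhasePoint) :
    nf Φ ε (fun k => Z (σ k)) = fun i => nf Φ ε Z (σ i) := by
  funext i
  simp only [nf]
  congr 2
  exact Fintype.sum_equiv σ _ _ fun j => rfl

/-- A particle at distance at least `ε` from all others feels no force. -/
theorem nf_free (hΦ : AdmissiblePotential Φ) {ε : ℝ} (hε : 0 < ε)
    (Z : ι → PhasePoint) (i : ι) (h : ∀ j, j ≠ i → ε ≤ dist (Z i).1 (Z j).1) :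
    nf Φ ε Z i = ((Z i).2, 0) := by
  have : ∑ j, gradient Φ ((1 / ε) • ((Z i).1 - (Z j).1)) = 0 := by
    refine Finset.sum_eq_zero fun j _ => ?_
    by_cases hj : j = i
    · rw [hj, sub_self, smul_zero, grad_origin hΦ]
    · exact grad_far hΦ hε (h j hj)
  simp only [nf, this, smul_zero]

/-- Gluing two groups at cross distance at least `ε`. -/
theorem nf_sum_elim (hΦ : AdmissiblePotential Φ) {ε : ℝ} (hε : 0 < ε)
    (Z : ι → PhasePoint) (W : κ → PhasePoint)
    (h : ∀ i j, ε ≤ dist (Z i).1 (W j).1) :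
    nf Φ ε (Sum.elim Z W) = Sum.elim (nf Φ ε Z) (nf Φ ε W) := by
  funext k
  rcases k with i | j
  · have := nf_comp hΦ hε (Function.Embedding.inl : ι ↪ ι ⊕ κ) (Sum.elim Z W) (by
      intro i' j' hj'
      rcases j' with j' | j'
      · exact absurd ⟨j', rfl⟩ hj'
      · simpa using h i' j')
    have h2 := congrFun this i
    simpa using h2.symm
  · have := nf_comp hΦ hε (Function.Embedding.inr : κ ↪ ι ⊕ κ) (Sum.elim Z W) (by
      intro i' j' hj'
      rcases j' with j' | j'
      · simpa [dist_comm] using h j' i'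
      · exact absurd ⟨j', rfl⟩ hj')
    have h2 := congrFun this j
    simpa using h2.symm

theorem append_eq_elim {m k : ℕ} (Z : Config m) (W : Config k) :
    Fin.append Z W = fun i => Sum.elim Z W (finSumFinEquiv.symm i) := by
  funext i
  refine Fin.addCases (fun i => ?_) (fun i => ?_) i <;> simp


/-! ### Symmetries of the vector field -/

/-- Space translation of a configuration. -/
def shiftX (a : Space3) (Z : ι → PhasePoint) : ι → PhasePoint := fun i => ((Z i).1 + a, (Z i).2)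


/-- Velocity reversal of a configuration. -/
def rev (Z : ι → PhasePoint) : ι → PhasePoint := fun i => ((Z i).1, -(Z i).2)

/-- Action of a linear isometry on a configuration. -/
def rot (L : Space3 ≃ₗᵢ[ℝ] Space3) (Z : ι → PhasePoint) : ι → PhasePoint :=
  fun i => (L (Z i).1, L (Z i).2)


theorem nf_shiftX (Φ : Space3 → ℝ) (ε : ℝ) (a : Space3) (Z : ι → PhasePoint) :
    nf Φ ε (shiftX a Z) = nf Φ ε Z := by
  funext i
  simp [nf, shiftX]


theorem nf_rev (Φ : Space3 → ℝ) (ε : ℝ) (Z : ι → PhasePoint) :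
    nf Φ ε (rev Z) = fun i => (-(nf Φ ε Z i).1, (nf Φ ε Z i).2) := by
  funext i
  simp [nf, rev]

theorem nf_rot (hΦ : AdmissiblePotential Φ) (ε : ℝ) (L : Space3 ≃ₗᵢ[ℝ] Space3)
    (Z : ι → PhasePoint) : nf Φ ε (rot L Z) = rot L (nf Φ ε Z) := by
  funext i
  simp only [nf, rot]
  refine Prod.ext rfl ?_
  simp only [map_smul, map_sum, ← map_sub]
  simp only [← map_smul, gradient_isometry hΦ L]


end Field

/-! ### Solution curves -/

theorem deriv_fst {f : ℝ → PhasePoint} {f' : PhasePoint} {s : Set ℝ} {t : ℝ}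
    (h : HasDerivWithinAt f f' s t) : HasDerivWithinAt (fun u => (f u).1) f'.1 s t :=
  (ContinuousLinearMap.fst ℝ Space3 Space3).hasFDerivAt.comp_hasDerivWithinAt t h

theorem deriv_snd {f : ℝ → PhasePoint} {f' : PhasePoint} {s : Set ℝ} {t : ℝ}
    (h : HasDerivWithinAt f f' s t) : HasDerivWithinAt (fun u => (f u).2) f'.2 s t :=
  (ContinuousLinearMap.snd ℝ Space3 Space3).hasFDerivAt.comp_hasDerivWithinAt t h

section Curves

variable {ι κ : Type*} [Fintype ι] [Fintype κ]

/-- `γ` solves Newton's equations on the set `s` of times (one-sided at end points). -/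
def SolOn (Φ : Space3 → ℝ) (ε : ℝ) (γ : ℝ → ι → PhasePoint) (s : Set ℝ) : Prop :=
  ∀ t ∈ s, HasDerivWithinAt γ (nf Φ ε (γ t)) s t

theorem SolOn.mono {ε : ℝ} {γ : ℝ → ι → PhasePoint} {s u : Set ℝ} (h : SolOn Φ ε γ s)
    (hus : u ⊆ s) : SolOn Φ ε γ u := fun t ht => (h t (hus ht)).mono hus

theorem SolOn.continuousOn {ε : ℝ} {γ : ℝ → ι → PhasePoint} {s : Set ℝ} (h : SolOn Φ ε γ s) :
    ContinuousOn γ s := fun t ht => (h t ht).continuousWithinAt

theorem SolOn.congr {ε : ℝ} {γ γ' : ℝ → ι → PhasePoint} {s : Set ℝ} (h : SolOn Φ ε γ s)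
    (he : ∀ t ∈ s, γ' t = γ t) : SolOn Φ ε γ' s := by
  intro t ht
  rw [he t ht]
  exact (h t ht).congr he (he t ht)

theorem SolOn.of_hasDerivAt {ε : ℝ} {γ : ℝ → ι → PhasePoint} {s : Set ℝ}
    (h : ∀ t, HasDerivAt γ (nf Φ ε (γ t)) t) : SolOn Φ ε γ s :=
  fun t _ => (h t).hasDerivWithinAt

/-- Locality of solution curves. -/
theorem SolOn.comp (hΦ : AdmissiblePotential Φ) {ε : ℝ} (hε : 0 < ε) {γ : ℝ → κ → PhasePoint}
    {s : Set ℝ} (h : SolOn Φ ε γ s) (e : ι ↪ κ) (hfar : ∀ t ∈ s, CrossFar ε e (γ t)) :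
    SolOn Φ ε (fun t i => γ t (e i)) s := by
  intro t ht
  rw [nf_comp hΦ hε e (γ t) (hfar t ht), hasDerivWithinAt_pi]
  exact fun i => (hasDerivWithinAt_pi.1 (h t ht)) (e i)

theorem SolOn.equiv {ε : ℝ} {γ : ℝ → κ → PhasePoint} {s : Set ℝ} (h : SolOn Φ ε γ s)
    (σ : ι ≃ κ) : SolOn Φ ε (fun t i => γ t (σ i)) s := by
  intro t ht
  rw [nf_equiv Φ ε σ (γ t), hasDerivWithinAt_pi]
  exact fun i => (hasDerivWithinAt_pi.1 (h t ht)) (σ i)

/-- Gluing of solution curves of two groups at cross distance at least `ε`. -/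
theorem SolOn.sum_elim (hΦ : AdmissiblePotential Φ) {ε : ℝ} (hε : 0 < ε)
    {γ : ℝ → ι → PhasePoint} {η : ℝ → κ → PhasePoint} {s : Set ℝ}
    (h : SolOn Φ ε γ s) (h' : SolOn Φ ε η s)
    (hfar : ∀ t ∈ s, ∀ i j, ε ≤ dist (γ t i).1 (η t j).1) :
    SolOn Φ ε (fun t => Sum.elim (γ t) (η t)) s := by
  intro t ht
  rw [nf_sum_elim hΦ hε (γ t) (η t) (hfar t ht), hasDerivWithinAt_pi]
  rintro (i | j)
  · exact (hasDerivWithinAt_pi.1 (h t ht)) i
  · exact (hasDerivWithinAt_pi.1 (h' t ht)) j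

theorem SolOn.append (hΦ : AdmissiblePotential Φ) {ε : ℝ} (hε : 0 < ε) {m k : ℕ}
    {γ : ℝ → Config m} {η : ℝ → Config k} {s : Set ℝ}
    (h : SolOn Φ ε γ s) (h' : SolOn Φ ε η s)
    (hfar : ∀ t ∈ s, ∀ i j, ε ≤ dist (γ t i).1 (η t j).1) :
    SolOn Φ ε (fun t => Fin.append (γ t) (η t) : ℝ → Config (m + k)) s := by
  have := (SolOn.sum_elim hΦ hε h h' hfar).equiv (finSumFinEquiv (m := m) (n := k)).symm
  refine this.congr fun t _ => append_eq_elim _ _


/-! ### Symmetries of solution curves -/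

theorem hasDerivWithinAt_mk {ι : Type*} [Fintype ι] {γ : ℝ → ι → PhasePoint}
    {γ' : ι → PhasePoint} {s : Set ℝ} {t : ℝ} :
    HasDerivWithinAt γ γ' s t ↔
      (∀ i, HasDerivWithinAt (fun u => (γ u i).1) (γ' i).1 s t) ∧
        ∀ i, HasDerivWithinAt (fun u => (γ u i).2) (γ' i).2 s t := by
  rw [hasDerivWithinAt_pi]
  constructor
  · exact fun h => ⟨fun i => deriv_fst (h i), fun i => deriv_snd (h i)⟩
  · intro h i
    exact (h.1 i).prodMk (h.2 i)

theorem SolOn.shiftX {ε : ℝ} {γ : ℝ → ι → PhasePoint} {s : Set ℝ} (h : SolOn Φ ε γ s)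
    (a : Space3) : SolOn Φ ε (fun t => shiftX a (γ t)) s := by
  intro t ht
  rw [nf_shiftX]
  have := hasDerivWithinAt_mk.1 (h t ht)
  exact hasDerivWithinAt_mk.2 ⟨fun i => (this.1 i).add_const a, this.2⟩


/-- Rotation invariance. -/
theorem SolOn.rot (hΦ : AdmissiblePotential Φ) {ε : ℝ} {γ : ℝ → ι → PhasePoint} {s : Set ℝ}
    (h : SolOn Φ ε γ s) (L : Space3 ≃ₗᵢ[ℝ] Space3) : SolOn Φ ε (fun t => Loc45.rot L (γ t)) s := by
  intro t ht
  rw [nf_rot hΦ]
  have := hasDerivWithinAt_mk.1 (h t ht)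
  exact hasDerivWithinAt_mk.2
    ⟨fun i => L.toContinuousLinearEquiv.toContinuousLinearMap.hasFDerivAt.comp_hasDerivWithinAt t
        (this.1 i),
      fun i => L.toContinuousLinearEquiv.toContinuousLinearMap.hasFDerivAt.comp_hasDerivWithinAt t
        (this.2 i)⟩

/-- Time translation of solution curves. -/
theorem SolOn.shiftT {ε : ℝ} {γ : ℝ → ι → PhasePoint} {s : Set ℝ} (h : SolOn Φ ε γ s)
    (a : ℝ) : SolOn Φ ε (fun t => γ (t + a)) ((fun t => t + a) ⁻¹' s) := by
  intro t ht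
  have h1 := h (t + a) ht
  have h2 : HasDerivWithinAt (fun t : ℝ => t + a) 1 ((fun t => t + a) ⁻¹' s) t :=
    (hasDerivWithinAt_id t _).add_const a
  have h3 := h1.scomp t h2 (fun x hx => hx)
  simpa [Function.comp_def] using h3

/-- Time reversal of solution curves. -/
theorem SolOn.rev {ε : ℝ} {γ : ℝ → ι → PhasePoint} {s : Set ℝ} (h : SolOn Φ ε γ s)
    (a : ℝ) : SolOn Φ ε (fun t => Loc45.rev (γ (a - t))) ((fun t => a - t) ⁻¹' s) := by
  intro t ht
  rw [nf_rev]
  have h1 := h (a - t) ht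
  have h2 : HasDerivWithinAt (fun t : ℝ => a - t) (-1) ((fun t => a - t) ⁻¹' s) t :=
    (hasDerivWithinAt_id t _).const_sub a
  have h3 := h1.scomp t h2 (fun x hx => hx)
  have h4 := hasDerivWithinAt_mk.1 h3
  refine hasDerivWithinAt_mk.2 ⟨fun i => ?_, fun i => ?_⟩
  · simpa [Function.comp_def, Loc45.rev] using h4.1 i
  · simpa [Function.comp_def, Loc45.rev] using (h4.2 i).fun_neg



end Curves

end

end Crest.Agent.R122.Loc45
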