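import Mathlib
import Crest.Prelude.Def_KineticLimit
import Crest.Agent.R122.NewtonCut_671

/-!
# The Newton flow of an admissible potential (row 122, block F1b, part 4)

`flow Φ ε t : (ι → PhasePoint) → (ι → PhasePoint)` for an arbitrary finite index type `ι`.
-/

set_option autoImplicit false
set_option linter.unusedSectionVars false

open MeasureTheory Set Filter Topology
open scoped NNReal ENNReal
open Crest.AnalysisR.Kinetic

namespace Crest.Agent.R122.Flow671

section General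

variable {E : Type*} [NormedAddCommGroup E] [NormedSpace ℝ E]

/-- Forward uniqueness with no domain hypothesis on the curve except at the start. -/
theorem Complete.eq_flow_forward {F : E → E} {U : Set E} (h : Complete F U) (hU : IsOpen U)
    {γ : ℝ → E} {b : ℝ} (hγ : ∀ t ∈ Icc 0 b, HasDerivWithinAt γ (F (γ t)) (Icc 0 b) t)
    (hx : γ 0 ∈ U) : ∀ t ∈ Icc 0 b, γ t = gflow F U t (γ 0) := by
  set φ : ℝ → E := fun t => gflow F U t (γ 0) with hφ
  have hφd : ∀ t, HasDerivAt φ (F (φ t)) t := fun t => h.hasDerivAt hx t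
  have hγc : ContinuousOn γ (Icc 0 b) := fun t ht => (hγ t ht).continuousWithinAt
  have hφc : Continuous φ := continuous_iff_continuousAt.2 fun t => (hφd t).continuousAt
  have hcl : IsClosed ({t | γ t = φ t} ∩ Icc 0 b) := by
    have h1 : ContinuousOn (fun t => γ t - φ t) (Icc 0 b) := hγc.sub hφc.continuousOn
    have h2 := h1.preimage_isClosed_of_isClosed isClosed_Icc (isClosed_singleton (x := (0 : E)))
    have h3 : {t | γ t = φ t} ∩ Icc 0 b = Icc 0 b ∩ (fun t => γ t - φ t) ⁻¹' {0} := by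
      ext t
      simp [sub_eq_zero, and_comm]
    rw [h3]; exact h2
  have key := hcl.Icc_subset_of_forall_mem_nhdsWithin
    (show γ 0 = φ 0 by simp [hφ, h.flow_zero]) ?_
  · exact fun t ht => key ht
  · rintro t₀ ⟨ht₀, ht₀b⟩
    have ht₀' : γ t₀ = φ t₀ := ht₀
    have hmemU : γ t₀ ∈ U := by rw [ht₀']; exact h.flow_mem hx t₀
    -- γ stays in `U` on a right neighbourhood inside `[0, b]`
    have h1 : ∀ᶠ t in 𝓝[Icc 0 b] t₀, γ t ∈ U :=
      (hγc t₀ (Ico_subset_Icc_self ht₀b)).eventually (hU.mem_nhds hmemU)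
    have h2 : ∀ᶠ t in 𝓝[≥] t₀, γ t ∈ U := by
      refine (nhdsWithin_le_of_mem ?_) h1
      exact mem_of_superset (Icc_mem_nhdsGE ht₀b.2) (Icc_subset_Icc_left ht₀b.1)
    rw [Filter.Eventually, mem_nhdsGE_iff_exists_Icc_subset] at h2
    obtain ⟨c, hc, hcsub⟩ := h2
    set d := min b c with hd
    have hd₀ : t₀ < d := lt_min ht₀b.2 hc
    have hsub : Icc t₀ d ⊆ Icc 0 b := Icc_subset_Icc ht₀b.1 (min_le_left _ _)
    have hEq : EqOn γ φ (Icc t₀ d) := by
      refine unique_Icc_right h.lip (hγc.mono hsub) hφc.continuousOn ?_ ?_ ?_ ?_ ht₀'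
      · intro t ht
        refine (hγ t (hsub (Ico_subset_Icc_self ht))).mono_of_mem_nhdsWithin ?_
        refine mem_of_superset (Icc_mem_nhdsGE (lt_of_lt_of_le ht.2 (min_le_left _ _))) ?_
        exact Icc_subset_Icc_left (ht₀b.1.trans ht.1)
      · intro t _
        exact (hφd t).hasDerivWithinAt
      · intro t ht
        exact hcsub ⟨ht.1, ht.2.trans (min_le_right _ _)⟩
      · intro t _
        exact h.flow_mem hx t
    have : Ioo t₀ d ∈ 𝓝[>] t₀ := Ioo_mem_nhdsGT hd₀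
    filter_upwards [this] with t ht
    exact hEq (Ioo_subset_Icc_self ht)

/-- Uniqueness on an interval containing `0`, with no domain hypothesis except at time `0`. -/
theorem Complete.eq_flow_of_start {F : E → E} {U : Set E} (h : Complete F U) (hU : IsOpen U)
    {γ : ℝ → E} {a b : ℝ} (h0 : (0 : ℝ) ∈ Icc a b)
    (hγ : ∀ t ∈ Icc a b, HasDerivWithinAt γ (F (γ t)) (Icc a b) t)
    (hx : γ 0 ∈ U) {t : ℝ} (ht : t ∈ Icc a b) : γ t = gflow F U t (γ 0) := by
  rcases le_total 0 t with h1 | h1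
  · refine h.eq_flow_forward hU (b := b) (fun s hs => ?_) hx t ⟨h1, ht.2⟩
    exact (hγ s ⟨h0.1.trans hs.1, hs.2⟩).mono (Icc_subset_Icc_left h0.1)
  · have h2 := h.neg.eq_flow_forward hU (γ := fun s => γ (-s)) (b := -a) (fun s hs => ?_)
      (by simpa using hx) (-t) ⟨by linarith, by linarith [ht.1]⟩
    · rw [h.gflow_neg] at h2
      simpa using h2
    · have hs' : -s ∈ Icc a b := ⟨by linarith [hs.2], by linarith [hs.1, h0.2]⟩
      have h3 := (hγ (-s) hs').scomp s ((hasDerivAt_neg s).hasDerivWithinAt (s := Icc 0 (-a)))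
        (fun u hu => ⟨by linarith [hu.2], by linarith [hu.1, h0.2]⟩)
      simpa [Function.comp_def] using h3

/-- A curve solving the equation for all times is the flow. -/
theorem Complete.eq_flow_of_start_univ {F : E → E} {U : Set E} (h : Complete F U) (hU : IsOpen U)
    {γ : ℝ → E} (hγ : ∀ t, HasDerivAt γ (F (γ t)) t) (hx : γ 0 ∈ U) (t : ℝ) :
    γ t = gflow F U t (γ 0) := by
  refine h.eq_flow_of_start hU (a := -|t|) (b := |t|) ⟨by simp, abs_nonneg t⟩
    (fun s _ => (hγ s).hasDerivWithinAt) hx ?_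
  exact ⟨neg_abs_le t, le_abs_self t⟩

end General

variable {ι κ : Type*} [Fintype ι] [Fintype κ]

/-- **The Newton flow.** -/
noncomputable def flow (Φ : Space3 → ℝ) (ε t : ℝ) (Z : ι → PhasePoint) : ι → PhasePoint :=
  gflow (nf Φ ε) (Dom Φ ι) t Z

section Basic

variable {Φ : Space3 → ℝ} {ε : ℝ}

theorem flow_zero (hΦ : AdmissiblePotential Φ) (hε : 0 < ε) (Z : ι → PhasePoint) :
    flow Φ ε 0 Z = Z := (complete (ι := ι) hΦ hε).flow_zero Z

theorem flow_add (hΦ : AdmissiblePotential Φ) (hε : 0 < ε) (s t : ℝ) (Z : ι → PhasePoint) :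
    flow Φ ε (s + t) Z = flow Φ ε t (flow Φ ε s Z) := (complete (ι := ι) hΦ hε).flow_add s t Z

theorem flow_neg_flow (hΦ : AdmissiblePotential Φ) (hε : 0 < ε) (t : ℝ) (Z : ι → PhasePoint) :
    flow Φ ε (-t) (flow Φ ε t Z) = Z := (complete (ι := ι) hΦ hε).flow_neg_flow t Z

theorem flow_flow_neg (hΦ : AdmissiblePotential Φ) (hε : 0 < ε) (t : ℝ) (Z : ι → PhasePoint) :
    flow Φ ε t (flow Φ ε (-t) Z) = Z := (complete (ι := ι) hΦ hε).flow_flow_neg t Z

theorem flow_of_not_mem {Z : ι → PhasePoint} (hZ : Z ∉ Dom Φ ι) (t : ℝ) : flow Φ ε t Z = Z :=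
  Complete.flow_of_not_mem hZ t

theorem flow_mem (hΦ : AdmissiblePotential Φ) (hε : 0 < ε) {Z : ι → PhasePoint} (hZ : Z ∈ Dom Φ ι)
    (t : ℝ) : flow Φ ε t Z ∈ Dom Φ ι := (complete (ι := ι) hΦ hε).flow_mem hZ t

theorem flow_mem_iff (hΦ : AdmissiblePotential Φ) (hε : 0 < ε) (Z : ι → PhasePoint) (t : ℝ) :
    flow Φ ε t Z ∈ Dom Φ ι ↔ Z ∈ Dom Φ ι := (complete (ι := ι) hΦ hε).mem_iff t Z

theorem flow_bijective (hΦ : AdmissiblePotential Φ) (hε : 0 < ε) (t : ℝ) :
    Function.Bijective (flow (ι := ι) Φ ε t) := (complete (ι := ι) hΦ hε).bijective t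

theorem flow_hasDerivAt (hΦ : AdmissiblePotential Φ) (hε : 0 < ε) {Z : ι → PhasePoint}
    (hZ : Z ∈ Dom Φ ι) (t : ℝ) : HasDerivAt (fun s => flow Φ ε s Z) (nf Φ ε (flow Φ ε t Z)) t :=
  (complete (ι := ι) hΦ hε).hasDerivAt hZ t

theorem flow_continuous_time (hΦ : AdmissiblePotential Φ) (hε : 0 < ε) (Z : ι → PhasePoint) :
    Continuous fun s => flow Φ ε s Z := by
  by_cases hZ : Z ∈ Dom Φ ι
  · exact continuous_iff_continuousAt.2 fun t => (flow_hasDerivAt hΦ hε hZ t).continuousAt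
  · have : (fun s => flow Φ ε s Z) = fun _ => Z := funext fun s => flow_of_not_mem hZ s
    rw [this]; exact continuous_const

/-- **Uniqueness**: every solution of Newton's equations on an interval containing `0` (derivative
within the interval), started in `Dom`, is the flow. -/
theorem eq_flow (hΦ : AdmissiblePotential Φ) (hε : 0 < ε) {γ : ℝ → ι → PhasePoint} {a b : ℝ}
    (h0 : (0 : ℝ) ∈ Icc a b)
    (hγ : ∀ t ∈ Icc a b, HasDerivWithinAt γ (nf Φ ε (γ t)) (Icc a b) t)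
    (hx : γ 0 ∈ Dom Φ ι) {t : ℝ} (ht : t ∈ Icc a b) : γ t = flow Φ ε t (γ 0) :=
  (complete (ι := ι) hΦ hε).eq_flow_of_start (isOpen_Dom Φ) h0 hγ hx ht

theorem eq_flow_univ (hΦ : AdmissiblePotential Φ) (hε : 0 < ε) {γ : ℝ → ι → PhasePoint}
    (hγ : ∀ t, HasDerivAt γ (nf Φ ε (γ t)) t) (hx : γ 0 ∈ Dom Φ ι) (t : ℝ) :
    γ t = flow Φ ε t (γ 0) :=
  (complete (ι := ι) hΦ hε).eq_flow_of_start_univ (isOpen_Dom Φ) hγ hx t

/-- `PairExcluded` data are regular. -/
theorem pairExcluded_subset_Dom (hε : 0 < ε) (n : ℕ) : PairExcluded ε n ⊆ Dom Φ (Fin n) := by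
  intro Z hZ
  refine Or.inr fun i j hij h => ?_
  have := hZ i j hij
  rw [h, dist_self] at this
  linarith

/-- Any Newtonian evolution coincides with `flow` on pair-excluded data. -/
theorem newtonian_eq_flow (hΦ : AdmissiblePotential Φ) (hε : 0 < ε)
    {Ψ : (n : ℕ) → ℝ → Config n → Config n} (hΨ : IsNewtonianEvolution Φ ε Ψ) {n : ℕ}
    {Z : Config n} (hZ : Z ∈ PairExcluded ε n) (t : ℝ) : Ψ n t Z = flow Φ ε t Z := by
  have h0 : Ψ n 0 Z = Z := hΨ.initial n Z hZ
  have h1 := eq_flow_univ (ι := Fin n) hΦ hε (γ := fun s => Ψ n s Z) (fun s => by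
    have := hΨ.newton n Z hZ s
    rwa [newtonField_eq_nf hΦ] at this) (by
      change Ψ n 0 Z ∈ _
      rw [h0]; exact pairExcluded_subset_Dom hε n hZ) t
  change Ψ n t Z = flow Φ ε t (Ψ n 0 Z) at h1
  rwa [h0] at h1

/-! ## Energy and momentum -/

theorem energy_flow (hΦ : AdmissiblePotential Φ) (hε : 0 < ε) (t : ℝ) (Z : ι → PhasePoint) :
    energy Φ ε (flow Φ ε t Z) = energy Φ ε Z := by
  by_cases hZ : Z ∈ Dom Φ ι
  · have hder : ∀ s, HasDerivAt (fun s => energy Φ ε (flow Φ ε s Z)) 0 s := by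
      intro s
      refine energy_hasDerivAt_zero (grad_neg hΦ) (flow_hasDerivAt hΦ hε hZ s) ?_
      intro i j hij
      rcases flow_mem hΦ hε hZ s with h | h
      · exact (h.differentiable (by norm_num)) _
      · have h1 : rel ε (flow Φ ε s Z) i j ≠ 0 := rel_ne_zero hε (h i j hij)
        exact (hΦ.contDiff_away_from_origin.contDiffAt (isOpen_ne.mem_nhds h1)).differentiableAt
          (by norm_num)
    have := is_const_of_deriv_eq_zero (fun s => (hder s).differentiableAt) (fun s => (hder s).deriv)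
      t 0
    simpa [flow_zero hΦ hε] using this
  · rw [flow_of_not_mem hZ]


/-! ## Local agreement with the truncated flows -/

theorem flow_eq_cut (hΦ : AdmissiblePotential Φ) (hε : 0 < ε) {M L : ℝ} (hM : 0 ≤ M)
    (hlow : ∀ q, q ≠ 0 → -M ≤ Φ q) (hL : 0 ≤ L) {Z : ι → PhasePoint} (hZ : Z ∈ Low Φ ε M L ι)
    (t : ℝ) : flow Φ ε t Z = gflow (nf (cut Φ L) ε) univ t Z := by
  have hc := (cut_nice hΦ hL).complete (ι := ι) hε
  have h := eq_flow_univ hΦ hε (γ := fun t => gflow (nf (cut Φ L) ε) univ t Z) (fun s => by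
    rw [nf_eq_cut hΦ hL (cut_flow_good hΦ hε hM hlow hL hZ s)]
    exact hc.hasDerivAt (mem_univ Z) s) (by
      rw [hc.flow_zero]; exact hZ.1) t
  change gflow (nf (cut Φ L) ε) univ t Z = flow Φ ε t (gflow _ _ 0 Z) at h
  rw [hc.flow_zero] at h
  exact h.symm

theorem flow_mem_Low (hΦ : AdmissiblePotential Φ) (hε : 0 < ε) {M L : ℝ} {Z : ι → PhasePoint}
    (hZ : Z ∈ Low Φ ε M L ι) (t : ℝ) : flow Φ ε t Z ∈ Low Φ ε M L ι := by
  refine ⟨flow_mem hΦ hε hZ.1 t, ?_⟩
  rw [energy_flow hΦ hε]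
  exact hZ.2

theorem flow_mem_Low_iff (hΦ : AdmissiblePotential Φ) (hε : 0 < ε) {M L : ℝ} {Z : ι → PhasePoint}
    (t : ℝ) : flow Φ ε t Z ∈ Low Φ ε M L ι ↔ Z ∈ Low Φ ε M L ι := by
  refine ⟨fun h => ?_, fun h => flow_mem_Low hΦ hε h t⟩
  have := flow_mem_Low hΦ hε h (-t)
  rwa [flow_neg_flow hΦ hε] at this

theorem continuousOn_energy (hΦ : AdmissiblePotential Φ) (hε : 0 < ε) :
    ContinuousOn (fun Z : ι → PhasePoint => energy Φ ε Z) (Dom Φ ι) := by
  classical
  have hK : Continuous fun Z : ι → PhasePoint => (1 / 2 : ℝ) * ∑ i, ‖(Z i).2‖ ^ 2 := by fun_prop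
  simp only [energy_eq]
  refine hK.continuousOn.add (continuousOn_const.mul (continuousOn_finsetSum _ fun p hp => ?_))
  rw [Finset.mem_offDiag] at hp
  intro Z hZ
  rcases hZ with h | h
  · exact (h.continuous.comp (continuous_rel ε p.1 p.2)).continuousAt.continuousWithinAt
  · have h1 : rel ε Z p.1 p.2 ≠ 0 := rel_ne_zero hε (h p.1 p.2 hp.2.2)
    have h2 : ContinuousAt Φ (rel ε Z p.1 p.2) :=
      (hΦ.contDiff_away_from_origin.contDiffAt (isOpen_ne.mem_nhds h1)).continuousAt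
    exact (ContinuousAt.comp (f := fun Z : ι → PhasePoint => rel ε Z p.1 p.2) h2
      (continuous_rel ε p.1 p.2).continuousAt).continuousWithinAt

theorem isOpen_Low (hΦ : AdmissiblePotential Φ) (hε : 0 < ε) (M L : ℝ) : IsOpen (Low Φ ε M L ι) := by
  by_cases h : ContDiff ℝ 2 Φ
  · have : Low Φ ε M L ι = univ := eq_univ_of_forall fun Z => ⟨Or.inl h, Or.inl h⟩
    rw [this]; exact isOpen_univ
  · have : Low Φ ε M L ι = Dom Φ ι ∩ (fun Z => energy Φ ε Z) ⁻¹'
        (Iio (L - (1 / 2) * (M * (Fintype.card ι : ℝ) ^ 2))) := by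
      ext Z
      constructor
      · rintro ⟨h1, h2⟩
        exact ⟨h1, by
          have := h2.resolve_left h
          change energy Φ ε Z < _
          linarith⟩
      · rintro ⟨h1, h2⟩
        exact ⟨h1, Or.inr (by
          have h3 : energy Φ ε Z < L - (1 / 2) * (M * (Fintype.card ι : ℝ) ^ 2) := h2
          linarith)⟩
    rw [this]
    exact (continuousOn_energy hΦ hε).isOpen_inter_preimage (isOpen_Dom Φ) isOpen_Iio

/-- **Joint continuity** of the flow on `ℝ × Dom`. -/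
theorem continuousOn_flow (hΦ : AdmissiblePotential Φ) (hε : 0 < ε) :
    ContinuousOn (fun p : ℝ × (ι → PhasePoint) => flow Φ ε p.1 p.2) (univ ×ˢ Dom Φ ι) := by
  obtain ⟨M, hM, hlow⟩ := exists_lower hΦ
  rintro ⟨t₀, Z₀⟩ ⟨-, hZ₀⟩
  obtain ⟨L, hL, hZL⟩ := exists_Low (Φ := Φ) (ε := ε) (M := M) hZ₀
  obtain ⟨K, hK⟩ := (cut_nice hΦ hL).nf_lipschitz (ι := ι) hε
  have h1 : ContinuousAt (fun p : ℝ × (ι → PhasePoint) => gflow (nf (cut Φ L) ε) univ p.1 p.2)
      (t₀, Z₀) := (continuous_flow hK).continuousAt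
  have h2 : (fun p : ℝ × (ι → PhasePoint) => flow Φ ε p.1 p.2) =ᶠ[𝓝 (t₀, Z₀)]
      fun p => gflow (nf (cut Φ L) ε) univ p.1 p.2 := by
    have h3 : ∀ᶠ p : ℝ × (ι → PhasePoint) in 𝓝 (t₀, Z₀), p.2 ∈ Low Φ ε M L ι :=
      (continuous_snd.tendsto (t₀, Z₀)).eventually ((isOpen_Low hΦ hε M L).mem_nhds hZL)
    filter_upwards [h3] with p hp
    exact flow_eq_cut hΦ hε hM hlow hL hp p.1
  exact (h1.congr_of_eventuallyEq h2).continuousWithinAt


/-- Joint measurability of the flow. -/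
theorem measurable_flow_joint (hΦ : AdmissiblePotential Φ) (hε : 0 < ε) :
    Measurable (fun p : ℝ × (ι → PhasePoint) => flow Φ ε p.1 p.2) := by
  classical
  have hs : MeasurableSet ((univ : Set ℝ) ×ˢ Dom Φ ι) := MeasurableSet.univ.prod (measurableSet_Dom Φ)
  have h1 := (continuousOn_flow (ι := ι) hΦ hε).measurable_piecewise
    (g := fun p : ℝ × (ι → PhasePoint) => p.2) continuous_snd.continuousOn hs
  convert h1 using 1
  funext p
  by_cases hp : p ∈ (univ : Set ℝ) ×ˢ Dom Φ ι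
  · rw [piecewise_eq_of_mem _ _ _ hp]
  · rw [piecewise_eq_of_notMem _ _ _ hp]
    exact flow_of_not_mem (fun h => hp ⟨mem_univ _, h⟩) p.1

theorem measurable_flow (hΦ : AdmissiblePotential Φ) (hε : 0 < ε) (t : ℝ) :
    Measurable (flow (ι := ι) Φ ε t) :=
  (measurable_flow_joint hΦ hε).comp measurable_prodMk_left

/-! ## Liouville -/

/-- Irregular configurations are negligible. -/
theorem volume_compl_Dom (Φ : Space3 → ℝ) : volume (Dom Φ ι)ᶜ = 0 := by
  have hsub : (Dom Φ ι)ᶜ ⊆ ⋃ i, ⋃ j, ⋃ (_ : i ≠ j), {Z : ι → PhasePoint | (Z i).1 = (Z j).1} := by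
    intro Z hZ
    by_contra hcon
    apply hZ
    refine Or.inr fun i j hij h => hcon ?_
    simp only [mem_iUnion]
    exact ⟨i, j, hij, h⟩
  refine measure_mono_null hsub ?_
  refine measure_iUnion_null fun i => measure_iUnion_null fun j => measure_iUnion_null fun hij => ?_
  let f : (ι → PhasePoint) →ₗ[ℝ] Space3 :=
    { toFun := fun Z => (Z i).1 - (Z j).1
      map_add' := fun Z W => by simp; abel
      map_smul' := fun c Z => by simp [smul_sub] }
  have h1 : {Z : ι → PhasePoint | (Z i).1 = (Z j).1} = (LinearMap.ker f : Set (ι → PhasePoint)) := by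
    ext Z
    simp [f, sub_eq_zero]
  rw [h1]
  refine Measure.addHaar_submodule _ _ ?_
  intro htop
  classical
  obtain ⟨e, he⟩ : ∃ e : Space3, e ≠ 0 := exists_ne 0
  have h2 : (fun k => if k = i then (e, (0 : Space3)) else 0 : ι → PhasePoint) ∈ LinearMap.ker f := by
    rw [htop]; trivial
  rw [LinearMap.mem_ker] at h2
  have h3 : f (fun k => if k = i then (e, (0 : Space3)) else 0) = e := by
    change ((if i = i then (e, (0 : Space3)) else 0 : PhasePoint)).1
      - ((if j = i then (e, (0 : Space3)) else 0 : PhasePoint)).1 = e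
    rw [if_pos rfl, if_neg hij.symm]
    simp
  exact he (h3.symm.trans h2)

theorem ae_mem_Dom (Φ : Space3 → ℝ) : ∀ᵐ Z : ι → PhasePoint, Z ∈ Dom Φ ι := by
  rw [ae_iff]
  exact volume_compl_Dom Φ

/-- **Liouville's theorem** for the Newton flow of an admissible potential. -/
theorem measurePreserving_flow (hΦ : AdmissiblePotential Φ) (hε : 0 < ε) (t : ℝ) :
    MeasurePreserving (flow (ι := ι) Φ ε t) volume volume := by
  obtain ⟨M, hM, hlow⟩ := exists_lower hΦ
  have hmeas := measurable_flow (ι := ι) hΦ hε t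
  refine ⟨hmeas, ?_⟩
  ext A hA
  rw [Measure.map_apply hmeas hA]
  -- exhaustion
  have hmono : Monotone fun n : ℕ => Low Φ ε M n ι := by
    intro a b hab Z hZ
    refine ⟨hZ.1, hZ.2.imp id fun h => lt_of_lt_of_le h ?_⟩
    exact_mod_cast hab
  have hunion : ⋃ n : ℕ, Low Φ ε M n ι = Dom Φ ι := by
    ext Z
    rw [mem_iUnion]
    constructor
    · rintro ⟨n, hn⟩; exact hn.1
    · intro hZ
      obtain ⟨L, hL, hZL⟩ := exists_Low (Φ := Φ) (ε := ε) (M := M) hZ
      obtain ⟨n, hn⟩ := exists_nat_ge L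
      exact ⟨n, hZL.1, hZL.2.imp id fun h => lt_of_lt_of_le h hn⟩
  have hstep : ∀ n : ℕ, volume (flow (ι := ι) Φ ε t ⁻¹' (A ∩ Low Φ ε M n ι))
      = volume (A ∩ Low Φ ε M n ι) := by
    intro n
    have hn0 : (0 : ℝ) ≤ n := Nat.cast_nonneg n
    have hc := (cut_nice hΦ hn0).complete (ι := ι) hε
    have hmp := (cut_nice hΦ hn0).measurePreserving_flow (ι := ι) hε t
    have hset : flow (ι := ι) Φ ε t ⁻¹' (A ∩ Low Φ ε M n ι)
        = gflow (nf (cut Φ n) ε) univ t ⁻¹' (A ∩ Low Φ ε M n ι) := by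
      ext Z
      constructor
      · rintro ⟨h1, h2⟩
        have h3 := (flow_mem_Low_iff hΦ hε t).1 h2
        rw [mem_preimage, ← flow_eq_cut hΦ hε hM hlow hn0 h3]
        exact ⟨h1, h2⟩
      · intro h1
        have h1' : gflow (nf (cut Φ n) ε) univ t Z ∈ A ∩ Low Φ ε M n ι := h1
        have h2 := flow_eq_cut hΦ hε hM hlow hn0 h1'.2 (-t)
        rw [hc.flow_neg_flow] at h2
        have h3 : Z ∈ Low Φ ε M n ι := by
          rw [← h2]; exact flow_mem_Low hΦ hε h1'.2 (-t)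
        rw [mem_preimage, flow_eq_cut hΦ hε hM hlow hn0 h3]
        exact h1'
    rw [hset]
    exact hmp.measure_preimage
      (hA.inter (isOpen_Low hΦ hε M n).measurableSet).nullMeasurableSet
  have hA1 : volume (A ∩ Dom Φ ι) = volume A := by
    refine measure_inter_conull ?_
    exact volume_compl_Dom Φ
  have hA2 : volume (flow (ι := ι) Φ ε t ⁻¹' (A ∩ Dom Φ ι)) = volume (flow (ι := ι) Φ ε t ⁻¹' A) := by
    rw [preimage_inter]
    have : flow (ι := ι) Φ ε t ⁻¹' Dom Φ ι = Dom Φ ι := by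
      ext Z; exact flow_mem_iff hΦ hε Z t
    rw [this]
    refine measure_inter_conull ?_
    exact volume_compl_Dom Φ
  rw [← hA1, ← hA2, ← hunion, inter_iUnion, preimage_iUnion]
  rw [Monotone.measure_iUnion (fun a b hab => inter_subset_inter_right A (hmono hab)),
    Monotone.measure_iUnion (fun a b hab => preimage_mono (inter_subset_inter_right A (hmono hab)))]
  exact iSup_congr hstep

end Basic

end Crest.Agent.R122.Flow671
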