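import Crest.Agent.R122.BoltzDefs_814

-- ▼ part R122/BoltzFrame_814
section

/-!
Row 122, Boltzmann side (helper814): measurable orthonormal frame of the plane orthogonal to `g`,
and the kernel `g ↦ μHE[2].restrict (impactDisc g)`.
-/

set_option autoImplicit false

open MeasureTheory ProbabilityTheory
open Crest.AnalysisR.Kinetic
open scoped ENNReal Classical

noncomputable section

namespace Crest.Agent.R122.Boltz814

/-- The parameter plane of the impact disc. -/
abbrev Plane : Type := EuclideanSpace ℝ (Fin 2)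

/-- sign used in the frame -/
def sgn3 (n : Space3) : ℝ := if 0 ≤ n 2 then 1 else -1

/-- first frame vector, for a unit vector `n` -/
def fr1 (n : Space3) : Space3 :=
  !₂[1 - sgn3 n * n 0 ^ 2 / (sgn3 n + n 2), -(sgn3 n * n 0 * n 1) / (sgn3 n + n 2),
    -(sgn3 n * n 0)]

/-- second frame vector, for a unit vector `n` -/
def fr2 (n : Space3) : Space3 :=
  !₂[-(n 0 * n 1) / (sgn3 n + n 2), sgn3 n - n 1 ^ 2 / (sgn3 n + n 2), -(n 1)]

lemma sgn3_cases (n : Space3) : sgn3 n = 1 ∨ sgn3 n = -1 := by
  unfold sgn3; split_ifs <;> simp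

lemma sgn3_add_ne (n : Space3) : sgn3 n + n 2 ≠ 0 := by
  unfold sgn3; split_ifs with h
  · linarith
  · push Not at h; linarith

lemma norm_sq_eq3 (n : Space3) : ‖n‖ ^ 2 = n 0 ^ 2 + n 1 ^ 2 + n 2 ^ 2 := by
  rw [EuclideanSpace.norm_sq_eq, Fin.sum_univ_three]
  simp [Real.norm_eq_abs, sq_abs]

lemma inner_eq3 (a b : Space3) : inner ℝ a b = a 0 * b 0 + a 1 * b 1 + a 2 * b 2 := by
  rw [PiLp.inner_apply, Fin.sum_univ_three]
  simp [mul_comm]

lemma norm_sq_eq2 (n : Plane) : ‖n‖ ^ 2 = n 0 ^ 2 + n 1 ^ 2 := by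
  rw [EuclideanSpace.norm_sq_eq, Fin.sum_univ_two]
  simp [Real.norm_eq_abs, sq_abs]

lemma inner_fr1_fr1 {n : Space3} (hn : ‖n‖ = 1) : inner ℝ (fr1 n) (fr1 n) = (1 : ℝ) := by
  have h1 : n 0 ^ 2 + n 1 ^ 2 + n 2 ^ 2 = 1 := by rw [← norm_sq_eq3, hn]; norm_num
  have hs := sgn3_cases n
  have hd := sgn3_add_ne n
  rw [inner_eq3]
  simp only [fr1, PiLp.toLp_apply, Matrix.cons_val_zero, Matrix.cons_val_one, Matrix.cons_val]
  generalize sgn3 n = s at *
  generalize n 0 = x at *
  generalize n 1 = y at *
  generalize n 2 = z at *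
  rcases hs with rfl | rfl
  · field_simp
    linear_combination x^2 * h1
  · field_simp
    linear_combination x^2 * h1

lemma inner_fr2_fr2 {n : Space3} (hn : ‖n‖ = 1) : inner ℝ (fr2 n) (fr2 n) = (1 : ℝ) := by
  have h1 : n 0 ^ 2 + n 1 ^ 2 + n 2 ^ 2 = 1 := by rw [← norm_sq_eq3, hn]; norm_num
  have hs := sgn3_cases n
  have hd := sgn3_add_ne n
  rw [inner_eq3]
  simp only [fr2, PiLp.toLp_apply, Matrix.cons_val_zero, Matrix.cons_val_one, Matrix.cons_val]
  generalize sgn3 n = s at *
  generalize n 0 = x at *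
  generalize n 1 = y at *
  generalize n 2 = z at *
  rcases hs with rfl | rfl
  · field_simp
    linear_combination y^2 * h1
  · field_simp
    linear_combination y^2 * h1

lemma inner_fr1_fr2 {n : Space3} (hn : ‖n‖ = 1) : inner ℝ (fr1 n) (fr2 n) = (0 : ℝ) := by
  have h1 : n 0 ^ 2 + n 1 ^ 2 + n 2 ^ 2 = 1 := by rw [← norm_sq_eq3, hn]; norm_num
  have hs := sgn3_cases n
  have hd := sgn3_add_ne n
  rw [inner_eq3]
  simp only [fr1, fr2, PiLp.toLp_apply, Matrix.cons_val_zero, Matrix.cons_val_one,
    Matrix.cons_val]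
  generalize sgn3 n = s at *
  generalize n 0 = x at *
  generalize n 1 = y at *
  generalize n 2 = z at *
  rcases hs with rfl | rfl
  · field_simp
    linear_combination x * y * h1
  · field_simp
    linear_combination (-x) * y * h1

lemma inner_fr1_self {n : Space3} (hn : ‖n‖ = 1) : inner ℝ (fr1 n) n = (0 : ℝ) := by
  have h1 : n 0 ^ 2 + n 1 ^ 2 + n 2 ^ 2 = 1 := by rw [← norm_sq_eq3, hn]; norm_num
  have hs := sgn3_cases n
  have hd := sgn3_add_ne n
  rw [inner_eq3]
  simp only [fr1, PiLp.toLp_apply, Matrix.cons_val_zero, Matrix.cons_val_one,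
    Matrix.cons_val]
  generalize sgn3 n = s at *
  generalize n 0 = x at *
  generalize n 1 = y at *
  generalize n 2 = z at *
  rcases hs with rfl | rfl
  · field_simp
    linear_combination (-x) * h1
  · field_simp
    linear_combination x * h1

lemma inner_fr2_self {n : Space3} (hn : ‖n‖ = 1) : inner ℝ (fr2 n) n = (0 : ℝ) := by
  have h1 : n 0 ^ 2 + n 1 ^ 2 + n 2 ^ 2 = 1 := by rw [← norm_sq_eq3, hn]; norm_num
  have hs := sgn3_cases n
  have hd := sgn3_add_ne n
  rw [inner_eq3]
  simp only [fr2, PiLp.toLp_apply, Matrix.cons_val_zero, Matrix.cons_val_one,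
    Matrix.cons_val]
  generalize sgn3 n = s at *
  generalize n 0 = x at *
  generalize n 1 = y at *
  generalize n 2 = z at *
  rcases hs with rfl | rfl
  · field_simp
    linear_combination (-y) * h1
  · field_simp
    linear_combination (-y) * h1

/-- unit vector in the direction of `g` -/
def dir (g : Space3) : Space3 := ‖g‖⁻¹ • g

lemma norm_dir {g : Space3} (hg : g ≠ 0) : ‖dir g‖ = 1 := by
  unfold dir
  rw [norm_smul, norm_inv, norm_norm, inv_mul_cancel₀ (norm_ne_zero_iff.2 hg)]

/-- The parametrisation of the plane orthogonal to `g`. -/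
def frameMap (g : Space3) : Plane →ₗ[ℝ] Space3 where
  toFun y := y 0 • fr1 (dir g) + y 1 • fr2 (dir g)
  map_add' y z := by simp only [PiLp.add_apply]; module
  map_smul' c y := by simp only [PiLp.smul_apply, smul_eq_mul, RingHom.id_apply]; module

lemma frameMap_apply (g : Space3) (y : Plane) :
    frameMap g y = y 0 • fr1 (dir g) + y 1 • fr2 (dir g) := rfl

lemma norm_frameMap {g : Space3} (hg : g ≠ 0) (y : Plane) : ‖frameMap g y‖ = ‖y‖ := by
  have hn := norm_dir hg
  have h : ‖frameMap g y‖ ^ 2 = ‖y‖ ^ 2 := by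
    rw [← real_inner_self_eq_norm_sq, frameMap_apply, norm_sq_eq2]
    simp only [inner_add_left, inner_add_right, inner_smul_left, inner_smul_right,
      RCLike.conj_to_real, inner_fr1_fr1 hn, inner_fr2_fr2 hn, inner_fr1_fr2 hn,
      real_inner_comm (fr1 (dir g)) (fr2 (dir g))]
    ring
  exact (sq_eq_sq₀ (norm_nonneg _) (norm_nonneg _)).1 h

lemma isometry_frameMap {g : Space3} (hg : g ≠ 0) : Isometry (frameMap g) := by
  apply AddMonoidHomClass.isometry_of_norm
  exact norm_frameMap hg

lemma inner_frameMap {g : Space3} (hg : g ≠ 0) (y : Plane) : inner ℝ (frameMap g y) g = (0 : ℝ) := by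
  have hn := norm_dir hg
  have h : inner ℝ (frameMap g y) (dir g) = (0 : ℝ) := by
    rw [frameMap_apply, inner_add_left, inner_smul_left, inner_smul_left, inner_fr1_self hn,
      inner_fr2_self hn]
    simp
  unfold dir at h
  rw [inner_smul_right] at h
  rcases mul_eq_zero.1 h with h | h
  · exact absurd h (inv_ne_zero (norm_ne_zero_iff.2 hg))
  · exact h

lemma range_frameMap {g : Space3} (hg : g ≠ 0) :
    Set.range (frameMap g) = {b : Space3 | inner ℝ b g = (0 : ℝ)} := by
  have hle : LinearMap.range (frameMap g) ≤ (ℝ ∙ g)ᗮ := by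
    rintro _ ⟨y, rfl⟩
    rw [Submodule.mem_orthogonal_singleton_iff_inner_left]
    exact inner_frameMap hg y
  have hinj : Function.Injective (frameMap g) := (isometry_frameMap hg).injective
  have hfr : Module.finrank ℝ (LinearMap.range (frameMap g)) = 2 := by
    rw [LinearMap.finrank_range_of_inj hinj]; simp
  have hfo : Module.finrank ℝ ((ℝ ∙ g)ᗮ : Submodule ℝ Space3) = 2 := by
    have : Fact (Module.finrank ℝ Space3 = 2 + 1) := ⟨by simp⟩
    exact Submodule.finrank_orthogonal_span_singleton hg
  have heq := Submodule.eq_of_le_of_finrank_eq hle (by rw [hfr, hfo])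
  ext b
  constructor
  · rintro ⟨y, rfl⟩
    exact inner_frameMap hg y
  · intro hb
    have : b ∈ ((ℝ ∙ g)ᗮ : Submodule ℝ Space3) := by
      rw [Submodule.mem_orthogonal_singleton_iff_inner_left]; exact hb
    rw [← heq] at this
    exact this

/-- Image of planar Lebesgue measure on the unit disc. -/
lemma restrict_impactDisc {g : Space3} (hg : g ≠ 0) :
    (μHE[2] : Measure Space3).restrict (impactDisc g) =
      ((volume : Measure Plane).restrict (Metric.ball 0 1)).map (frameMap g) := by
  have hiso := isometry_frameMap hg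
  have hmeas : Measurable (frameMap g) := hiso.continuous.measurable
  have h1 : (volume : Measure Plane).map (frameMap g) =
      (μHE[2] : Measure Space3).restrict {b : Space3 | inner ℝ b g = (0 : ℝ)} := by
    rw [← range_frameMap hg, ← hiso.map_euclideanHausdorffMeasure,
      EuclideanSpace.euclideanHausdorffMeasure_eq_volume]
  have hpre : (frameMap g) ⁻¹' (Metric.ball 0 1) = Metric.ball 0 1 := by
    ext y; simp [norm_frameMap hg]
  have h2 : impactDisc g = Metric.ball 0 1 ∩ {b : Space3 | inner ℝ b g = (0 : ℝ)} := by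
    ext b; simp [impactDisc, and_comm]
  rw [h2, ← Measure.restrict_restrict measurableSet_ball, ← h1,
    Measure.restrict_map hmeas measurableSet_ball, hpre]

lemma measurable_frameMap_uncurry :
    Measurable (fun p : Space3 × Plane => frameMap p.1 p.2) := by
  have hcoord : ∀ i : Fin 3, Measurable (fun g : Space3 => dir g i) := by
    intro i
    unfold dir
    fun_prop
  have hs : Measurable (fun g : Space3 => sgn3 (dir g)) := by
    unfold sgn3
    exact Measurable.ite (measurableSet_le measurable_const (hcoord 2)) measurable_const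
      measurable_const
  have h1 : Measurable (fun g : Space3 => fr1 (dir g)) := by
    unfold fr1
    refine (PiLp.continuous_toLp 2 _).measurable.comp ?_
    refine measurable_pi_iff.2 fun i => ?_
    fin_cases i
    · simp only [Fin.zero_eta, Matrix.cons_val_zero]
      exact measurable_const.sub ((hs.mul ((hcoord 0).pow_const 2)).div (hs.add (hcoord 2)))
    · simp only [Fin.mk_one, Matrix.cons_val_one, Matrix.cons_val_zero]
      exact ((hs.mul (hcoord 0)).mul (hcoord 1)).neg.div (hs.add (hcoord 2))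
    · simp only [Fin.reduceFinMk, Matrix.cons_val]
      exact (hs.mul (hcoord 0)).neg
  have h2 : Measurable (fun g : Space3 => fr2 (dir g)) := by
    unfold fr2
    refine (PiLp.continuous_toLp 2 _).measurable.comp ?_
    refine measurable_pi_iff.2 fun i => ?_
    fin_cases i
    · simp only [Fin.zero_eta, Matrix.cons_val_zero]
      exact ((hcoord 0).mul (hcoord 1)).neg.div (hs.add (hcoord 2))
    · simp only [Fin.mk_one, Matrix.cons_val_one, Matrix.cons_val_zero]
      exact hs.sub (((hcoord 1).pow_const 2).div (hs.add (hcoord 2)))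
    · simp only [Fin.reduceFinMk, Matrix.cons_val]
      exact (hcoord 1).neg
  simp only [frameMap_apply]
  have e0 : Measurable (fun p : Space3 × Plane => p.2 0) := by fun_prop
  have e1 : Measurable (fun p : Space3 × Plane => p.2 1) := by fun_prop
  exact (e0.smul (h1.comp measurable_fst)).add (e1.smul (h2.comp measurable_fst))


/-- `μHE[2] (impactDisc g) = π`. -/
lemma hausdorff_impactDisc {g : Space3} (hg : g ≠ 0) :
    (μHE[2] : Measure Space3) (impactDisc g) = ENNReal.ofReal Real.pi := by
  have h : (μHE[2] : Measure Space3) (impactDisc g) =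
      (μHE[2] : Measure Space3).restrict (impactDisc g) Set.univ := by simp
  rw [h, restrict_impactDisc hg, Measure.map_apply (isometry_frameMap hg).continuous.measurable
    MeasurableSet.univ]
  simp

/-- Change of variables to the unit disc of the plane. -/
lemma lintegral_impactDisc {g : Space3} (hg : g ≠ 0) {F : Space3 → ℝ≥0∞} (hF : Measurable F) :
    ∫⁻ b in impactDisc g, F b ∂μHE[2] = ∫⁻ y in Metric.ball (0 : Plane) 1, F (frameMap g y) := by
  rw [restrict_impactDisc hg, lintegral_map hF (isometry_frameMap hg).continuous.measurable]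

/-- Image of Lebesgue measure on the unit disc under the frame map. -/
def discMeas (g : Space3) : Measure Space3 :=
  ((volume : Measure Plane).restrict (Metric.ball 0 1)).map (frameMap g)

lemma measurable_discMeas : Measurable discMeas := by
  refine Measure.measurable_of_measurable_coe _ fun s hs => ?_
  have h : ∀ g : Space3, discMeas g s =
      ((volume : Measure Plane).restrict (Metric.ball 0 1))
        (Prod.mk g ⁻¹' ((fun p : Space3 × Plane => frameMap p.1 p.2) ⁻¹' s)) := by
    intro g
    have hm : Measurable (frameMap g) :=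
      (LinearMap.continuous_of_finiteDimensional (frameMap g)).measurable
    unfold discMeas
    rw [Measure.map_apply hm hs]
    rfl
  rw [show (fun g : Space3 => discMeas g s) = _ from funext h]
  exact measurable_measure_prodMk_left (measurable_frameMap_uncurry hs)

/-- The kernel `g ↦ μHE[2].restrict (impactDisc g)` (put to `0` at `g = 0`). -/
def discKernel : Kernel Space3 Space3 where
  toFun g := if g = 0 then 0 else discMeas g
  measurable' := Measurable.ite (measurableSet_singleton 0) measurable_const measurable_discMeas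

lemma discKernel_apply {g : Space3} (hg : g ≠ 0) :
    discKernel g = (μHE[2] : Measure Space3).restrict (impactDisc g) := by
  rw [restrict_impactDisc hg]
  show (if g = 0 then 0 else discMeas g) = _
  rw [if_neg hg, discMeas]

lemma discKernel_zero : discKernel 0 = 0 := by
  show (if (0 : Space3) = 0 then (0 : Measure Space3) else discMeas 0) = _
  rw [if_pos rfl]

instance : IsFiniteKernel discKernel := by
  refine ⟨⟨ENNReal.ofReal Real.pi, ENNReal.ofReal_lt_top, fun g => ?_⟩⟩
  by_cases hg : g = 0
  · subst hg; simp [discKernel_zero]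
  · rw [discKernel_apply hg]
    simp [hausdorff_impactDisc hg]

/-- Measurability of disc integrals with parameters (via the kernel). -/
lemma measurable_lintegral_discKernel {α : Type*} [MeasurableSpace α] {G : α → Space3}
    (hG : Measurable G) {F : α × Space3 → ℝ≥0∞} (hF : Measurable F) :
    Measurable (fun a => ∫⁻ b, F (a, b) ∂(discKernel (G a))) := by
  have := Measurable.lintegral_kernel_prod_right' (κ := discKernel.comap G hG) hF
  simpa [Kernel.comap_apply] using this

/-- Measurability of disc integrals with parameters, weighted by `‖G a‖` (harmless at `G a = 0`). -/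
lemma measurable_norm_mul_lintegral_impactDisc {α : Type*} [MeasurableSpace α] {G : α → Space3}
    (hG : Measurable G) {F : α × Space3 → ℝ≥0∞} (hF : Measurable F) :
    Measurable (fun a => ENNReal.ofReal ‖G a‖ * ∫⁻ b in impactDisc (G a), F (a, b) ∂μHE[2]) := by
  have h : (fun a => ENNReal.ofReal ‖G a‖ * ∫⁻ b in impactDisc (G a), F (a, b) ∂μHE[2]) =
      fun a => ENNReal.ofReal ‖G a‖ * ∫⁻ b, F (a, b) ∂(discKernel (G a)) := by
    funext a
    by_cases hg : G a = 0
    · simp [hg]
    · rw [discKernel_apply hg]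
  rw [h]
  exact (ENNReal.measurable_ofReal.comp hG.norm).mul (measurable_lintegral_discKernel hG hF)

lemma measurableSet_impactDisc (g : Space3) : MeasurableSet (impactDisc g) := by
  have h : impactDisc g = {b : Space3 | inner ℝ b g = (0 : ℝ)} ∩ Metric.ball 0 1 := by
    ext b; simp [impactDisc]
  rw [h]
  refine MeasurableSet.inter ?_ measurableSet_ball
  exact (isClosed_eq (by fun_prop) continuous_const).measurableSet


end Crest.Agent.R122.Boltz814

end
end

-- ▼ part R122/BoltzGauss_814

/-!
Row 122, Boltzmann side (helper814): Gaussian integrals on `Space3`.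
-/

set_option autoImplicit false

open MeasureTheory ProbabilityTheory
open Crest.AnalysisR.Kinetic
open scoped ENNReal Classical

noncomputable section

namespace Crest.Agent.R122.Boltz814

lemma integrable_gauss {γ : ℝ} (hγ : 0 < γ) :
    Integrable (fun w : Space3 => Real.exp (-γ * ‖w‖ ^ 2)) := by
  have h := GaussianFourier.integrable_cexp_neg_mul_sq_norm_add (V := Space3) (b := (γ : ℂ))
    (by simpa using hγ) 0 0
  have h2 := h.norm
  refine h2.congr (Filter.Eventually.of_forall fun w => ?_)
  simp only [Complex.norm_exp]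
  congr 1
  simp [← Complex.ofReal_pow]

/-- `(1+r)^k exp(-γ r²) ≤ C exp(-(γ/2) r²)`. -/
lemma one_add_pow_mul_exp_le {γ : ℝ} (hγ : 0 < γ) (k : ℕ) {r : ℝ} (hr : 0 ≤ r) :
    (1 + r) ^ k * Real.exp (-γ * r ^ 2) ≤
      Real.exp ((k : ℝ) ^ 2 / (2 * γ)) * Real.exp (-(γ / 2) * r ^ 2) := by
  have h1 : (1 + r) ^ k ≤ Real.exp (k * r) := by
    have : 1 + r ≤ Real.exp r := by linarith [Real.add_one_le_exp r]
    calc (1 + r) ^ k ≤ (Real.exp r) ^ k := pow_le_pow_left₀ (by linarith) this k
      _ = Real.exp (k * r) := by rw [← Real.exp_nat_mul]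
  have h2 : (k : ℝ) * r + -γ * r ^ 2 ≤ (k : ℝ) ^ 2 / (2 * γ) + -(γ / 2) * r ^ 2 := by
    have h3 : (k : ℝ) ^ 2 / (2 * γ) - k * r + (γ / 2) * r ^ 2 =
        (k - γ * r) ^ 2 / (2 * γ) := by field_simp; ring
    have h4 : 0 ≤ ((k : ℝ) - γ * r) ^ 2 / (2 * γ) := by positivity
    linarith
  calc (1 + r) ^ k * Real.exp (-γ * r ^ 2)
      ≤ Real.exp (k * r) * Real.exp (-γ * r ^ 2) := by gcongr
    _ = Real.exp (k * r + -γ * r ^ 2) := by rw [Real.exp_add]
    _ ≤ Real.exp ((k : ℝ) ^ 2 / (2 * γ) + -(γ / 2) * r ^ 2) := Real.exp_le_exp.2 h2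
    _ = _ := by rw [Real.exp_add]

lemma integrable_one_add_pow_mul_gauss {γ : ℝ} (hγ : 0 < γ) (k : ℕ) :
    Integrable (fun w : Space3 => (1 + ‖w‖) ^ k * Real.exp (-γ * ‖w‖ ^ 2)) := by
  have h := (integrable_gauss (half_pos hγ)).const_mul (Real.exp ((k : ℝ) ^ 2 / (2 * γ)))
  refine h.mono' (by fun_prop) (Filter.Eventually.of_forall fun w => ?_)
  rw [Real.norm_eq_abs, abs_of_nonneg (by positivity)]
  exact one_add_pow_mul_exp_le hγ k (norm_nonneg w)

/-- Moments of the Gaussian. -/
def gaussMoment (γ : ℝ) (k : ℕ) : ℝ :=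
  ∫ w : Space3, (1 + ‖w‖) ^ k * Real.exp (-γ * ‖w‖ ^ 2)

lemma gaussMoment_nonneg (γ : ℝ) (k : ℕ) : 0 ≤ gaussMoment γ k :=
  integral_nonneg fun w => by positivity

lemma norm_sub_le_mul (v w : Space3) : ‖v - w‖ ≤ (1 + ‖v‖) * (1 + ‖w‖) := by
  have h1 := norm_sub_le v w
  nlinarith [norm_nonneg v, norm_nonneg w, mul_nonneg (norm_nonneg v) (norm_nonneg w)]

lemma integrable_norm_sub_mul_gauss {γ : ℝ} (hγ : 0 < γ) (v : Space3) :
    Integrable (fun w : Space3 => ‖v - w‖ * Real.exp (-γ * ‖w‖ ^ 2)) := by
  have h := (integrable_one_add_pow_mul_gauss hγ 1).const_mul (1 + ‖v‖)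
  refine h.mono' (by fun_prop) (Filter.Eventually.of_forall fun w => ?_)
  rw [Real.norm_eq_abs, abs_of_nonneg (by positivity), pow_one, ← mul_assoc]
  gcongr
  exact norm_sub_le_mul v w

lemma lintegral_norm_sub_mul_gauss_le {γ : ℝ} (hγ : 0 < γ) (v : Space3) :
    ∫⁻ w : Space3, ENNReal.ofReal ‖v - w‖ * ENNReal.ofReal (Real.exp (-γ * ‖w‖ ^ 2)) ≤
      ENNReal.ofReal ((1 + ‖v‖) * gaussMoment γ 1) := by
  have h := (integrable_one_add_pow_mul_gauss hγ 1).const_mul (1 + ‖v‖)
  have h2 : (1 + ‖v‖) * gaussMoment γ 1 =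
      ∫ w : Space3, (1 + ‖v‖) * ((1 + ‖w‖) ^ 1 * Real.exp (-γ * ‖w‖ ^ 2)) := by
    rw [integral_const_mul]; rfl
  rw [h2, ofReal_integral_eq_lintegral_ofReal h
    (Filter.Eventually.of_forall fun w => by positivity)]
  refine lintegral_mono fun w => ?_
  rw [← ENNReal.ofReal_mul (norm_nonneg _)]
  refine ENNReal.ofReal_le_ofReal ?_
  rw [pow_one, ← mul_assoc]
  gcongr
  exact norm_sub_le_mul v w

end Crest.Agent.R122.Boltz814

end
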