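import Mathlib
import Crest.Prelude.Def_KineticLimit
import Crest.Agent.R122.PiTrans_399

/-!
# Row 122 (helper973): integrals of products over the parts of a partition of the index set

`lintegral_prod_parts` : for a partition `π` of the finite type `J` and measurable `F P`,
`∫ ∏ P ∈ π.parts, F P (Z|P) = ∏ P ∈ π.parts, ∫ F P`.
-/

set_option autoImplicit false
set_option linter.unusedSectionVars false

open MeasureTheory Set
open Crest.AnalysisR.Kinetic
open scoped ENNReal Classical

noncomputable section

namespace Crest.Agent.R122.PartProd973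

theorem sf_pi (κ : Type) [Fintype κ] : SigmaFinite (volume : Measure (κ → PhasePoint)) := by
  have : ∀ i : κ, SigmaFinite (volume : Measure PhasePoint) := fun i => inferInstance
  infer_instance

theorem lintegral_relabel {κ κ' : Type} [Fintype κ] [Fintype κ'] (σ : κ ≃ κ')
    (H : (κ → PhasePoint) → ℝ≥0∞) :
    ∫⁻ Z : κ' → PhasePoint, H (fun i => Z (σ i)) = ∫⁻ Z : κ → PhasePoint, H Z := by
  have h := volume_measurePreserving_piCongrLeft (fun _ : κ => PhasePoint) σ.symm
  have h2 := h.lintegral_comp_emb (MeasurableEquiv.measurableEmbedding _) H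
  rw [← h2]
  refine lintegral_congr fun Z => ?_
  congr 1
  ext i : 1
  obtain ⟨j, rfl⟩ := σ.symm.surjective i
  rw [MeasurableEquiv.coe_piCongrLeft]
  refine Eq.trans ?_ (Equiv.piCongrLeft_apply_apply (fun _ : κ => PhasePoint) σ.symm Z j).symm
  simp

/-- Product formula for an arbitrary finite index type. -/
theorem lintegral_pi_prod' {ι : Type} [Fintype ι] {X : ι → Type} [∀ i, MeasureSpace (X i)]
    [∀ i, SigmaFinite (volume : Measure (X i))] {w : ∀ i, X i → ℝ≥0∞}
    (hw : ∀ i, Measurable (w i)) :
    ∫⁻ x : ∀ i, X i, ∏ i, w i (x i) = ∏ i, ∫⁻ x, w i x := by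
  let e : Fin (Fintype.card ι) ≃ ι := (Fintype.equivFin ι).symm
  have h := volume_measurePreserving_piCongrLeft X e
  rw [← h.lintegral_comp_emb (MeasurableEquiv.measurableEmbedding _)]
  have h1 : ∀ x : ∀ j, X (e j), ∏ i, w i (MeasurableEquiv.piCongrLeft X e x i) =
      ∏ j, w (e j) (x j) := by
    intro x
    rw [← e.prod_comp]
    refine Finset.prod_congr rfl fun j _ => ?_
    rw [MeasurableEquiv.coe_piCongrLeft]
    rw [Equiv.piCongrLeft_apply_apply]
  simp_rw [h1]
  rw [volume_pi, PiTrans399.lintegral_pi_prod (fun j => (volume : Measure (X (e j))))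
    (w := fun j => w (e j)) fun j => hw _]
  exact e.prod_comp (fun i => ∫⁻ x, w i x)

section curry

variable {ι : Type} [Fintype ι] {κ : ι → Type} [∀ i, Fintype (κ i)]

/-- uncurried configuration -/
def unc (W : (i : ι) → κ i → PhasePoint) : (Σ i, κ i) → PhasePoint := fun k => W k.1 k.2

theorem measurable_unc : Measurable (unc : ((i : ι) → κ i → PhasePoint) → _) :=
  measurable_pi_lambda _ fun k => (measurable_pi_apply k.2).comp (measurable_pi_apply k.1)

theorem measurePreserving_unc :
    MeasurePreserving (unc : ((i : ι) → κ i → PhasePoint) → _) volume volume := by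
  refine ⟨measurable_unc, ?_⟩
  have h0 : ∀ i, SigmaFinite (volume : Measure (κ i → PhasePoint)) := fun i => sf_pi (κ i)
  refine (Measure.pi_eq fun A hA => ?_).symm
  rw [Measure.map_apply measurable_unc (MeasurableSet.univ_pi hA)]
  have h : (unc ⁻¹' univ.pi A : Set ((i : ι) → κ i → PhasePoint)) =
      univ.pi fun i => univ.pi fun j => A ⟨i, j⟩ := by
    ext W
    simp only [mem_preimage, Set.mem_pi, mem_univ, true_implies, unc]
    constructor
    · exact fun h i j => h ⟨i, j⟩
    · exact fun h k => h k.1 k.2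
  rw [h, volume_pi, Measure.pi_pi]
  simp_rw [volume_pi, Measure.pi_pi]
  rw [Fintype.prod_sigma]

end curry

variable {J : Type} [Fintype J]

/-- Every label belongs to exactly one part. -/
def partEquiv (π : Finpartition (Finset.univ : Finset J)) : J ≃ Σ a : π.parts, (a.1 : Finset J) :=
  (Equiv.subtypeUnivEquiv (fun _ => Finset.mem_univ _)).symm.trans π.equivSigmaParts


/-- **Products over the parts.** -/
theorem lintegral_prod_parts (π : Finpartition (Finset.univ : Finset J))
    (F : (P : Finset J) → (P → PhasePoint) → ℝ≥0∞) (hF : ∀ P, Measurable (F P)) :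
    ∫⁻ Z : J → PhasePoint, ∏ P ∈ π.parts, F P (fun j : P => Z j) =
      ∏ P ∈ π.parts, ∫⁻ z : P → PhasePoint, F P z := by
  have h1 : (∫⁻ Z : J → PhasePoint, ∏ P ∈ π.parts, F P (fun j : P => Z j)) =
      ∫⁻ V : (Σ a : π.parts, (a.1 : Finset J)) → PhasePoint,
        ∏ a : π.parts, F a.1 (fun j : (a.1 : Finset J) => V ⟨a, j⟩) := by
    rw [← lintegral_relabel (partEquiv π).symm]
    refine lintegral_congr fun Z => ?_
    rw [← Finset.prod_coe_sort]
    rfl
  have hmeas : Measurable fun V : (Σ a : π.parts, (a.1 : Finset J)) → PhasePoint =>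
        ∏ a : π.parts, F a.1 (fun j : (a.1 : Finset J) => V ⟨a, j⟩) :=
    Finset.measurable_prod _ fun a _ => (hF a.1).comp
      (measurable_pi_lambda _ fun j => measurable_pi_apply _)
  rw [h1, ← measurePreserving_unc.lintegral_comp hmeas]
  have h0 : ∀ a : π.parts, SigmaFinite (volume : Measure ((a.1 : Finset J) → PhasePoint)) :=
    fun a => sf_pi _
  have h2 := lintegral_pi_prod' (ι := π.parts) (X := fun a => (a.1 : Finset J) → PhasePoint)
    (w := fun a z => F a.1 z) fun a => hF a.1
  rw [← Finset.prod_coe_sort (s := π.parts) (f := fun P => ∫⁻ z : P → PhasePoint, F P z)]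
  exact h2

end Crest.Agent.R122.PartProd973
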