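import Mathlib
import Crest.Prelude.Def_KineticLimit

/-!
# Virtual contact structures of all sub-worlds (row 122, block VC, part A)

For a finite set `S` of particles every subset `A` evolves as an isolated sub-world.  A *virtual
contact* of `i` and `j` at time `s` is a contact (distance at most `ε`) between the path of `i` in
some sub-world and the path of `j` in some (possibly different) sub-world.

* `Sys.tr_of_conn`: if the virtual contact graph is connected, the set is obtained by successive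
  merges `P ∪ Q` at contact times between sub-worlds of `P` and sub-worlds of `Q`, with no virtual
  contact between `P` and `Q` before (Kruskal order).
-/

set_option autoImplicit false

open MeasureTheory Set
open scoped ENNReal
open Crest.AnalysisR.Kinetic

namespace Crest.Agent.R122.VConn581

/-- The paths of all sub-worlds of one configuration of particles labelled by `S`. -/
structure Sys (S : Type*) [DecidableEq S] (ε T : ℝ) where
  /-- position of a particle of the sub-world `A` at a time -/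
  X : Finset S → ℝ → S → Space3
  /-- the particle exists in the sub-world `A` at this time -/
  al : Finset S → ℝ → S → Prop
  closed : ∀ A B i j, i ∈ A → j ∈ B →
    IsClosed {s | s ∈ Icc 0 T ∧ al A s i ∧ al B s j ∧ dist (X A s i) (X B s j) ≤ ε}
  fact : ∀ A B, Disjoint A B → ∀ s ∈ Icc 0 T,
    (∀ u ∈ Ico 0 s, ∀ i ∈ A, ∀ j ∈ B, ¬ (al A u i ∧ al B u j ∧ dist (X A u i) (X B u j) ≤ ε)) →
    ∀ i ∈ A, X (A ∪ B) s i = X A s i ∧ (al (A ∪ B) s i ↔ al A s i)

variable {S : Type*} [DecidableEq S] {ε T : ℝ}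

namespace Sys

variable (W : Sys S ε T)

/-- Contact of `i` in the sub-world `A` with `j` in the sub-world `B` at time `s`. -/
def Ct (A B : Finset S) (i j : S) (s : ℝ) : Prop :=
  i ∈ A ∧ j ∈ B ∧ W.al A s i ∧ W.al B s j ∧ dist (W.X A s i) (W.X B s j) ≤ ε

/-- Virtual contact of `i` and `j` at time `s` through sub-worlds contained in `P`. -/
def VC (P : Finset S) (i j : S) (s : ℝ) : Prop := ∃ A ⊆ P, ∃ B ⊆ P, W.Ct A B i j s

theorem Ct.symm {W : Sys S ε T} {A B : Finset S} {i j : S} {s : ℝ} (h : W.Ct A B i j s) :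
    W.Ct B A j i s :=
  ⟨h.2.1, h.1, h.2.2.2.1, h.2.2.1, by rw [dist_comm]; exact h.2.2.2.2⟩

theorem VC.symm {W : Sys S ε T} {P : Finset S} {i j : S} {s : ℝ} (h : W.VC P i j s) :
    W.VC P j i s := by
  obtain ⟨A, hA, B, hB, h⟩ := h
  exact ⟨B, hB, A, hA, h.symm⟩

theorem VC.mono {W : Sys S ε T} {P Q : Finset S} (hPQ : P ⊆ Q) {i j : S} {s : ℝ}
    (h : W.VC P i j s) : W.VC Q i j s := by
  obtain ⟨A, hA, B, hB, h⟩ := h
  exact ⟨A, hA.trans hPQ, B, hB.trans hPQ, h⟩

/-- `P` is virtually connected before time `s`, by successive merges in the order of first virtual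
contact. -/
inductive Tr : Finset S → ℝ → Prop
  | single (i : S) (s : ℝ) : Tr {i} s
  | merge {P Q A B : Finset S} {i j : S} {s : ℝ} (hP : Tr P s) (hQ : Tr Q s)
      (hd : Disjoint P Q) (hA : A ⊆ P) (hB : B ⊆ Q) (hc : W.Ct A B i j s) (hs : s ∈ Icc 0 T)
      (hno : ∀ u ∈ Ico 0 s, ∀ a ∈ P, ∀ b ∈ Q, ¬ W.VC (P ∪ Q) a b u) : Tr (P ∪ Q) s
  | mono {P : Finset S} {s s' : ℝ} (h : Tr P s) (hss : s ≤ s') : Tr P s'

/-- Restriction to a block: if the particles of `P` outside the block `K` have no virtual contact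
with the block before `s`, then the path in `A ⊆ P` of a particle of `K` is its path in `A ∩ K`. -/
theorem restrict {P K : Finset S} {s : ℝ} (hs : s ∈ Icc 0 T)
    (hno : ∀ u ∈ Ico 0 s, ∀ a ∈ P, a ∈ K → ∀ b ∈ P, b ∉ K → ¬ W.VC P a b u)
    {A : Finset S} (hA : A ⊆ P) {i : S} (hi : i ∈ A) (hiK : i ∈ K) :
    W.X A s i = W.X (A.filter (· ∈ K)) s i ∧ (W.al A s i ↔ W.al (A.filter (· ∈ K)) s i) := by
  have hun : A.filter (· ∈ K) ∪ A.filter (fun k => ¬ k ∈ K) = A := by
    rw [Finset.filter_union_filter_not_eq]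
  have hdis : Disjoint (A.filter (· ∈ K)) (A.filter (fun k => ¬ k ∈ K)) :=
    Finset.disjoint_filter_filter_not _ _ _
  have h := W.fact _ _ hdis s hs ?_ i (Finset.mem_filter.2 ⟨hi, hiK⟩)
  · rw [hun] at h
    exact h
  · rintro u hu a ha b hb ⟨h1, h2, h3⟩
    have ha' := Finset.mem_filter.1 ha
    have hb' := Finset.mem_filter.1 hb
    exact hno u hu a (hA ha'.1) ha'.2 b (hA hb'.1) hb'.2
      ⟨_, (Finset.filter_subset _ _).trans hA, _, (Finset.filter_subset _ _).trans hA,
        ha, hb, h1, h2, h3⟩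



end Sys

end Crest.Agent.R122.VConn581
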