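import Crest.Agent.R122.CausalDyn_291

/-!
# Contacts with births (row 122, captain's decision 2 (a))

`CtB b z ε s j k`: the particles `j` and `k` are both born at time `s`, are at distance at most `ε`,
and are not two different particles born at this very instant.

`BirthSep b z ε`: two different particles born at the same instant are at distance larger than `ε`
immediately after their birth. Under this condition the contact sets are closed.
-/

set_option autoImplicit false

open Set Filter Topology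
open Crest.AnalysisR.Kinetic
open Crest.Agent.R122.Causal291

namespace Crest.Agent.R122.Inf879

variable {ι : Type*} {b : ι → ℝ} {z : ℝ → ι → PhasePoint} {ε s : ℝ} {j k : ι}

/-- Contact relation of a world with births. -/
def CtB (b : ι → ℝ) (z : ℝ → ι → PhasePoint) (ε : ℝ) (s : ℝ) (j k : ι) : Prop :=
  b j ≤ s ∧ b k ≤ s ∧ (j = k ∨ b j < s ∨ b k < s) ∧ dist (z s j).1 (z s k).1 ≤ ε

/-- Two different particles born at the same instant separate immediately. -/
def BirthSep (b : ι → ℝ) (z : ℝ → ι → PhasePoint) (ε : ℝ) : Prop :=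
  ∀ j k, j ≠ k → b j = b k → ∃ δ > 0, ∀ s, b j < s → s < b j + δ →
    ε < dist (z s j).1 (z s k).1

theorem CtB.symm (h : CtB b z ε s j k) : CtB b z ε s k j := by
  obtain ⟨h1, h2, h3, h4⟩ := h
  refine ⟨h2, h1, ?_, by rwa [dist_comm] at h4⟩
  rcases h3 with h3 | h3 | h3
  · exact Or.inl h3.symm
  · exact Or.inr (Or.inr h3)
  · exact Or.inr (Or.inl h3)


theorem CtB.born (h : CtB b z ε s j k) : b j ≤ s := h.1

theorem CtB.born' (h : CtB b z ε s j k) : b k ≤ s := h.2.1

theorem CtB.ct (h : CtB b z ε s j k) : Ct z ε s j k := h.2.2.2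



/-- If the two particles are not born at the same instant, then contact means: both born and at
distance at most `ε`. -/
theorem ctB_iff_of_ne (h : b j ≠ b k) :
    CtB b z ε s j k ↔ b j ≤ s ∧ b k ≤ s ∧ Ct z ε s j k := by
  refine ⟨fun h => ⟨h.1, h.2.1, h.ct⟩, fun ⟨h1, h2, h3⟩ => ⟨h1, h2, Or.inr ?_, h3⟩⟩
  rcases lt_or_gt_of_ne h with h4 | h4
  · exact Or.inl (h4.trans_le h2)
  · exact Or.inr (h4.trans_le h1)

/-- If the particles of a world born at time `b₀` (the gas, `b₀ = 0`) are at distance larger than `ε`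
at time `b₀`, then for them contact is the ordinary relation for all times `s ≥ b₀`. -/
theorem ctB_iff_ct_of_excl (hj : b j ≤ s) (hk : b k ≤ s)
    (h : j ≠ k → b j = s → b k = s → ε < dist (z s j).1 (z s k).1) :
    CtB b z ε s j k ↔ Ct z ε s j k := by
  refine ⟨fun h => h.ct, fun hc => ⟨hj, hk, ?_, hc⟩⟩
  by_contra hno
  push Not at hno
  exact absurd hc (not_le.2 (h hno.1 (le_antisymm hj hno.2.1) (le_antisymm hk hno.2.2)))


/-- The version relative to a bounded time interval. -/
theorem isClosed_ctB_Icc {t₀ T : ℝ} (hz : ∀ i, ContinuousOn (fun s => (z s i).1) (Icc t₀ T))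
    (hsep : BirthSep b z ε) (j k : ι) : IsClosed {s | s ∈ Icc t₀ T ∧ CtB b z ε s j k} := by
  have hcl : IsClosed {s | s ∈ Icc t₀ T ∧ b j ≤ s ∧ b k ≤ s ∧ Ct z ε s j k} := by
    have h1 : {s | s ∈ Icc t₀ T ∧ b j ≤ s ∧ b k ≤ s ∧ Ct z ε s j k} =
        (Ici (b j) ∩ Ici (b k)) ∩ (Icc t₀ T ∩ {s | dist (z s j).1 (z s k).1 ≤ ε}) := by
      ext s
      simp only [Ct, mem_ofPred_eq, mem_inter_iff, mem_Ici]
      tauto
    rw [h1]
    refine (isClosed_Ici.inter isClosed_Ici).inter ?_
    have h2 : ContinuousOn (fun s => dist (z s j).1 (z s k).1) (Icc t₀ T) :=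
      continuous_dist.comp_continuousOn ((hz j).prodMk (hz k))
    exact ContinuousOn.preimage_isClosed_of_isClosed h2 isClosed_Icc isClosed_Iic
  by_cases hjk : j = k
  · subst hjk
    have : {s | s ∈ Icc t₀ T ∧ CtB b z ε s j j} =
        {s | s ∈ Icc t₀ T ∧ b j ≤ s ∧ b j ≤ s ∧ Ct z ε s j j} := by
      ext s
      exact ⟨fun h => ⟨h.1, h.2.1, h.2.1, h.2.ct⟩, fun h => ⟨h.1, h.2.1, h.2.1, Or.inl rfl, h.2.2.2⟩⟩
    rw [this]
    exact hcl
  · by_cases hbb : b j = b k
    · obtain ⟨δ, hδ, hδ'⟩ := hsep j k hjk hbb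
      have : {s | s ∈ Icc t₀ T ∧ CtB b z ε s j k} =
          {s | s ∈ Icc t₀ T ∧ b j ≤ s ∧ b k ≤ s ∧ Ct z ε s j k} ∩ Ici (b j + δ) := by
        ext s
        constructor
        · rintro ⟨hs, h⟩
          refine ⟨⟨hs, h.1, h.2.1, h.ct⟩, ?_⟩
          by_contra hlt
          rw [mem_Ici, not_le] at hlt
          have h1 : b j < s := by
            rcases h.2.2.1 with h1 | h1 | h1
            · exact absurd h1 hjk
            · exact h1
            · rw [hbb]; exact h1
          exact absurd h.ct (not_le.2 (hδ' s h1 hlt))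
        · rintro ⟨⟨hs, h1, h2, h3⟩, h4⟩
          have h5 : b j < s := lt_of_lt_of_le (by linarith) h4
          exact ⟨hs, h1, h2, Or.inr (Or.inl h5), h3⟩
      rw [this]
      exact hcl.inter isClosed_Ici
    · have : {s | s ∈ Icc t₀ T ∧ CtB b z ε s j k} =
          {s | s ∈ Icc t₀ T ∧ b j ≤ s ∧ b k ≤ s ∧ Ct z ε s j k} := by
        ext s
        exact and_congr_right fun _ => ctB_iff_of_ne hbb
      rw [this]
      exact hcl

/-- Coherence: contact depends only on the births and the positions of the two particles. -/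
theorem ctB_congr {ι₂ : Type*} {b₂ : ι₂ → ℝ} {z₂ : ℝ → ι₂ → PhasePoint} {j₂ k₂ : ι₂}
    (hjk : j = k ↔ j₂ = k₂) (hbj : b j = b₂ j₂) (hbk : b k = b₂ k₂)
    (hj : (z s j).1 = (z₂ s j₂).1) (hk : (z s k).1 = (z₂ s k₂).1) :
    CtB b z ε s j k ↔ CtB b₂ z₂ ε s j₂ k₂ := by
  unfold CtB
  rw [hbj, hbk, hj, hk, hjk]

end Crest.Agent.R122.Inf879
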