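import Crest.Agent.R122.CausalDyn_291

/-!
# First hits of a protected family (row 122, helper167), deterministic part

Worlds are families of paths `z : ℝ → ι → PhasePoint` over finite index types (as in
`CausalDyn_291`). A *family* `A : ℝ → Set ι` (antitone) is isolated in the world `z` on `[0, t)`
(`Iso z ε A t`) if at every time `s < t` the members of `A s` are at distance `> ε` from all other
particles.

* `Iso.agree`: states of a family isolated in two worlds agree.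
* `iso_or_first_touch`: a family isolated in the isolated world `zV` is isolated in the real world
  `z`, or there is a first touching time.
* `preAct z ε j σ s`: the backward exploration of `(j, σ⁻)`.
* `Iso.past_iff`, `preAct_eq`: explorations coincide in the two worlds.
* `hit_iff`: the first-hit dictionary between the real world and the isolated world `V ∪ B`.
-/

set_option autoImplicit false

open Set Filter Topology
open Crest.AnalysisR.Kinetic

namespace Crest.Agent.R122.Hit167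

open Causal291

/-- The family `A` is isolated in the world `z` on `[0, t)`. -/
def Iso {ι : Type*} (z : ℝ → ι → PhasePoint) (ε : ℝ) (A : ℝ → Set ι) (t : ℝ) : Prop :=
  ∀ s ∈ Ico 0 t, ∀ k ∈ A s, ∀ j, j ∉ A s → ε < dist (z s k).1 (z s j).1

/-- Antitone on `[0, t]`. -/
def Anti {ι : Type*} (A : ℝ → Set ι) (t : ℝ) : Prop :=
  ∀ s s', 0 ≤ s → s ≤ s' → s' ≤ t → A s' ⊆ A s

/-- The particle `j` (outside of the family) touches the family at time `s`. -/
def TouchAt {ι : Type*} (z : ℝ → ι → PhasePoint) (ε : ℝ) (A : ℝ → Set ι) (s : ℝ) (j : ι) : Prop :=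
  j ∉ A s ∧ ∃ k ∈ A s, dist (z s k).1 (z s j).1 ≤ ε

section iso

variable {ι : Type*} {z : ℝ → ι → PhasePoint} {ε : ℝ} {A B : ℝ → Set ι} {t t' : ℝ}

theorem Iso.mono (h : Iso z ε A t) (ht : t' ≤ t) : Iso z ε A t' :=
  fun s hs k hk j hj => h s ⟨hs.1, hs.2.trans_le ht⟩ k hk j hj

theorem Iso.union (hA : Iso z ε A t) (hB : Iso z ε B t) : Iso z ε (fun s => A s ∪ B s) t := by
  rintro s hs k (hk | hk) j hj
  · exact hA s hs k hk j (fun h => hj (Or.inl h))
  · exact hB s hs k hk j (fun h => hj (Or.inr h))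

theorem Iso.congr (h : Iso z ε A t) (hAB : ∀ s ∈ Ico 0 t, A s = B s) : Iso z ε B t := by
  intro s hs k hk j hj
  rw [← hAB s hs] at hk hj
  exact h s hs k hk j hj

theorem Anti.mono (h : Anti A t) (ht : t' ≤ t) : Anti A t' :=
  fun s s' h0 h1 h2 => h s s' h0 h1 (h2.trans ht)

theorem Anti.union (hA : Anti A t) (hB : Anti B t) : Anti (fun s => A s ∪ B s) t :=
  fun s s' h0 h1 h2 => union_subset_union (hA s s' h0 h1 h2) (hB s s' h0 h1 h2)

theorem TouchAt.not_iso {s : ℝ} {j : ι} (h : TouchAt z ε A s j) (hs : s ∈ Ico 0 t) :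
    ¬ Iso z ε A t := by
  obtain ⟨hj, k, hk, hd⟩ := h
  intro hI
  exact absurd hd (not_le.2 (hI s hs k hk j hj))

theorem not_iso_iff : ¬ Iso z ε A t ↔ ∃ s ∈ Ico 0 t, ∃ j, TouchAt z ε A s j := by
  constructor
  · intro h
    unfold Iso at h
    push Not at h
    obtain ⟨s, hs, k, hk, j, hj, hd⟩ := h
    exact ⟨s, hs, j, hj, k, hk, hd⟩
  · rintro ⟨s, hs, j, h⟩
    exact h.not_iso hs

/-- Inside an isolated family, a contact partner of a member is a member. -/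
theorem Iso.mem_of_ct (h : Iso z ε A t) {s : ℝ} (hs : s ∈ Ico 0 t) {k j : ι} (hk : k ∈ A s)
    (hc : Ct z ε s k j) : j ∈ A s := by
  by_contra hj
  exact absurd hc (not_le.2 (h s hs k hk j hj))

/-- The backward exploration of a member stays in the family. -/
theorem Iso.past_subset (h : Iso z ε A t) (hA : Anti A t) {s' s : ℝ} (hs' : s' ∈ Ico 0 t) {j k : ι}
    (hj : j ∈ A s') (hp : Past (Ct z ε) s' j s k) (hs : 0 ≤ s) : k ∈ A s := by
  induction hp with
  | root h1 => exact hA _ _ hs h1 hs'.2.le hj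
  | @step s r l k hp hc hsr ih =>
    have hr0 : 0 ≤ r := hs.trans hsr
    have hr : r ≤ s' := hp.le
    have hl := ih hr0
    have hk : k ∈ A r := h.mem_of_ct ⟨hr0, hr.trans_lt hs'.2⟩ hl hc
    exact hA _ _ hs hsr (hr.trans hs'.2.le) hk

end iso

/-! ### The backward exploration just before a time -/

/-- The backward exploration of `(j, σ⁻)`: particles active at time `s` in the exploration from
`(j, s')` for some `s' ∈ [s, σ)`. -/
def preAct {ι : Type*} (z : ℝ → ι → PhasePoint) (ε : ℝ) (j : ι) (σ s : ℝ) : Set ι :=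
  {k | ∃ s' ∈ Ico s σ, Past (Ct z ε) s' j s k}

section preAct

variable {ι : Type*} {z : ℝ → ι → PhasePoint} {ε : ℝ} {σ : ℝ} {j : ι}

theorem mem_preAct_self {s : ℝ} (hs : s < σ) : j ∈ preAct z ε j σ s :=
  ⟨s, ⟨le_rfl, hs⟩, .root le_rfl⟩

theorem Past.extend {C : ℝ → ι → ι → Prop} {s' r s : ℝ} {i k : ι} (hr : s' ≤ r)
    (h : Past C s' i s k) : Past C r i s k := by
  induction h with
  | root h => exact .root (h.trans hr)
  | step _ hc hs ih => exact .step ih hc hs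

theorem preAct_anti : Anti (preAct z ε j σ) σ := by
  rintro s s' h0 h1 h2 k ⟨r, hr, hp⟩
  exact ⟨r, ⟨h1.trans hr.1, hr.2⟩, hp.mono h1⟩

theorem iso_preAct : Iso z ε (preAct z ε j σ) σ := by
  rintro s hs k ⟨r, hr, hp⟩ i hi
  by_contra hle
  push Not at hle
  exact hi ⟨r, hr, Past.contact hp hle⟩



end preAct

/-! ### Two worlds -/

section two

variable {κ ι : Type} [Finite κ] [Finite ι]
variable {zV : ℝ → κ → PhasePoint} {z : ℝ → ι → PhasePoint} {e : κ → ι}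
variable {ε T : ℝ} {A : ℝ → Set κ} {t : ℝ}

/-- **Agreement of states** of a family which is isolated in both worlds. -/
theorem Iso.agree (hzV : ∀ j, ContinuousOn (fun s => zV s j) (Icc 0 T))
    (hz : ∀ j, ContinuousOn (fun s => z s j) (Icc 0 T))
    (hloc : LocUniq ε T zV z) (he : Function.Injective e)
    (htT : t ≤ T) (hA : Anti A t) (h0 : ∀ k ∈ A 0, zV 0 k = z 0 (e k))
    (hI1 : Iso zV ε A t) (hI2 : Iso z ε (fun s => e '' A s) t) :
    ∀ s ∈ Icc 0 t, ∀ k ∈ A s, zV s k = z s (e k) := by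
  have hsub : Icc 0 t ⊆ Icc 0 T := Icc_subset_Icc_right htT
  have hloc' : LocUniq ε t zV z := by
    intro κ' _ f₁ f₂ a b hf₁ hf₂ ha hab hb
    exact hloc κ' f₁ f₂ a b hf₁ hf₂ ha hab (hb.trans htT)
  refine agree_of_antitone (e₁ := id) (fun j => (hzV j).mono hsub) (fun j => (hz j).mono hsub) hloc'
    Function.injective_id he A hA h0 ?_
  intro s hs _
  constructor
  · intro k hk j hj
    rw [image_id] at hj
    exact hI1 s hs k hk j hj
  · intro k hk j hj
    exact hI2 s hs (e k) ⟨k, hk, rfl⟩ j hj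

/-- Contact relations between members agree. -/
theorem Iso.ct_iff (hagree : ∀ s ∈ Icc 0 t, ∀ k ∈ A s, zV s k = z s (e k)) {s : ℝ}
    (hs : s ∈ Icc 0 t) {k l : κ} (hk : k ∈ A s) (hl : l ∈ A s) :
    Ct zV ε s k l ↔ Ct z ε s (e k) (e l) := by
  unfold Ct
  rw [hagree s hs k hk, hagree s hs l hl]

/-- **Explorations of members coincide.** -/
theorem Iso.past_iff (he : Function.Injective e) (hA : Anti A t)
    (hI1 : Iso zV ε A t) (hI2 : Iso z ε (fun s => e '' A s) t)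
    (hagree : ∀ s ∈ Icc 0 t, ∀ k ∈ A s, zV s k = z s (e k))
    {s' s : ℝ} (hs' : s' ∈ Ico 0 t) (hs : 0 ≤ s) {j : κ} (hj : j ∈ A s') {i : ι} :
    Past (Ct z ε) s' (e j) s i ↔ ∃ k, e k = i ∧ Past (Ct zV ε) s' j s k := by
  constructor
  · intro hp
    induction hp with
    | root h => exact ⟨j, rfl, .root h⟩
    | @step s r l i hp hc hsr ih =>
      have hr0 : 0 ≤ r := hs.trans hsr
      have hr : r ≤ s' := hp.le
      obtain ⟨m, rfl, hm⟩ := ih hr0
      have hmA : m ∈ A r := hI1.past_subset hA hs' hj hm hr0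
      have hrt : r ∈ Ico 0 t := ⟨hr0, hr.trans_lt hs'.2⟩
      obtain ⟨k, hk, rfl⟩ := hI2.mem_of_ct hrt ⟨m, hmA, rfl⟩ hc
      refine ⟨k, rfl, .step hm ?_ hsr⟩
      rwa [Iso.ct_iff hagree ⟨hr0, hrt.2.le⟩ hmA hk]
  · rintro ⟨k, rfl, hp⟩
    induction hp with
    | root h => exact .root h
    | @step s r l k hp hc hsr ih =>
      have hr0 : 0 ≤ r := hs.trans hsr
      have hr : r ≤ s' := hp.le
      have hlA : l ∈ A r := hI1.past_subset hA hs' hj hp hr0
      have hrt : r ∈ Ico 0 t := ⟨hr0, hr.trans_lt hs'.2⟩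
      have hkA : k ∈ A r := hI1.mem_of_ct hrt hlA hc
      refine .step (ih hr0) ?_ hsr
      rwa [← Iso.ct_iff hagree ⟨hr0, hrt.2.le⟩ hlA hkA]

/-- The explorations of `(j, σ⁻)` coincide if `j` is a member of a family isolated in both
worlds. -/
theorem preAct_eq (he : Function.Injective e) (hA : Anti A t)
    (hI1 : Iso zV ε A t) (hI2 : Iso z ε (fun s => e '' A s) t)
    (hagree : ∀ s ∈ Icc 0 t, ∀ k ∈ A s, zV s k = z s (e k)) {j : κ} {σ : ℝ} (hσ : σ ≤ t)
    (hj : ∀ s ∈ Ico 0 σ, j ∈ A s) {s : ℝ} (hs : 0 ≤ s) :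
    preAct z ε (e j) σ s = e '' preAct zV ε j σ s := by
  ext i
  constructor
  · rintro ⟨r, hr, hp⟩
    have hr0 : 0 ≤ r := hs.trans hr.1
    obtain ⟨k, rfl, hk⟩ := (Iso.past_iff he hA hI1 hI2 hagree ⟨hr0, hr.2.trans_le hσ⟩ hs
      (hj r ⟨hr0, hr.2⟩)).1 hp
    exact ⟨k, ⟨r, hr, hk⟩, rfl⟩
  · rintro ⟨k, ⟨r, hr, hp⟩, rfl⟩
    have hr0 : 0 ≤ r := hs.trans hr.1
    exact ⟨r, hr, (Iso.past_iff he hA hI1 hI2 hagree ⟨hr0, hr.2.trans_le hσ⟩ hs
      (hj r ⟨hr0, hr.2⟩)).2 ⟨k, rfl, hp⟩⟩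

/-- **First touch.** A family which is isolated in the world `zV` on `[0, t)` is isolated in the
real world `z` on `[0, t)`, or there is a first touching time `σ < t`: the family is isolated in
`z` on `[0, σ)` and some particle outside of the family touches it at time `σ`. -/
theorem iso_or_first_touch (hzV : ∀ j, ContinuousOn (fun s => zV s j) (Icc 0 T))
    (hz : ∀ j, ContinuousOn (fun s => z s j) (Icc 0 T))
    (hloc : LocUniq ε T zV z) (he : Function.Injective e)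
    (htT : t ≤ T) (hA : Anti A t) (h0 : ∀ k ∈ A 0, zV 0 k = z 0 (e k))
    (hI1 : Iso zV ε A t) :
    Iso z ε (fun s => e '' A s) t ∨
      ∃ σ ∈ Ico 0 t, Iso z ε (fun s => e '' A s) σ ∧ ∃ j, TouchAt z ε (fun s => e '' A s) σ j := by
  classical
  by_cases hI : Iso z ε (fun s => e '' A s) t
  · exact Or.inl hI
  right
  -- the set of touching times
  set S : Set ℝ := {s | s ∈ Ico 0 t ∧ ∃ j, TouchAt z ε (fun s => e '' A s) s j} with hS
  have hne : S.Nonempty := by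
    obtain ⟨s, hs, j, hj⟩ := not_iso_iff.1 hI
    exact ⟨s, hs, j, hj⟩
  have hbdd : BddBelow S := ⟨0, fun s hs => hs.1.1⟩
  set σ := sInf S with hσ
  have hσ0 : 0 ≤ σ := le_csInf hne fun s hs => hs.1.1
  have hσt : σ < t := by
    obtain ⟨s, hs⟩ := hne
    exact (csInf_le hbdd hs).trans_lt hs.1.2
  have hIσ : Iso z ε (fun s => e '' A s) σ := by
    by_contra h
    obtain ⟨s, hs, j, hj⟩ := not_iso_iff.1 h
    exact absurd (csInf_le hbdd (show s ∈ S from ⟨⟨hs.1, hs.2.trans hσt⟩, j, hj⟩))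
      (not_le.2 hs.2)
  refine ⟨σ, ⟨hσ0, hσt⟩, hIσ, ?_⟩
  by_contra hno
  push Not at hno
  -- no touch at time `σ`
  have hσT : σ < T := hσt.trans_le htT
  have hag : ∀ s ∈ Icc 0 σ, ∀ k ∈ A s, zV s k = z s (e k) :=
    Iso.agree hzV hz hloc he hσT.le (hA.mono hσt.le) h0 (hI1.mono hσt.le) hIσ
  have hiso1 : ∀ k ∈ A σ, ∀ j ∈ (A σ)ᶜ, ε < dist (zV σ k).1 (zV σ j).1 := fun k hk j hj =>
    hI1 σ ⟨hσ0, hσt⟩ k hk j hj
  have hiso2 : ∀ k ∈ e '' A σ, ∀ j ∈ (e '' A σ)ᶜ, ε < dist (z σ k).1 (z σ j).1 := by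
    intro k hk j hj
    by_contra hle
    push Not at hle
    exact hno j ⟨hj, k, hk, hle⟩
  obtain ⟨δ₁, hδ₁, hδ₁T, hi₁⟩ := exists_isolated (ε := ε) hzV ⟨hσ0, hσT⟩ (A σ) (A σ)ᶜ hiso1
  obtain ⟨δ₂, hδ₂, hδ₂T, hi₂⟩ := exists_isolated (ε := ε) hz ⟨hσ0, hσT⟩ (e '' A σ) (e '' A σ)ᶜ
    hiso2
  set δ := min (min δ₁ δ₂) (t - σ) with hδ
  have hδ0 : 0 < δ := lt_min (lt_min hδ₁ hδ₂) (sub_pos.2 hσt)
  have hδle₁ : δ ≤ δ₁ := (min_le_left _ _).trans (min_le_left _ _)
  have hδle₂ : δ ≤ δ₂ := (min_le_left _ _).trans (min_le_right _ _)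
  have hδt : δ ≤ t - σ := min_le_right _ _
  have hmem : ∀ k : A σ, e (k : κ) ∈ e '' A σ := fun k => ⟨k, k.2, rfl⟩
  -- the whole group `A σ` has the same states in both worlds on `[σ, σ + δ]`
  have key := hloc (A σ) (fun k => (k : κ)) (fun k => e k) σ (σ + δ)
    Subtype.coe_injective (fun k l h => Subtype.ext (he h)) hσ0 (by linarith) (by linarith)
    (fun s' hs' k j hj => (hi₁ s' ⟨hs'.1, hs'.2.trans (by linarith)⟩ _ k.2 j (by
      intro hl
      exact hj ⟨⟨j, hl⟩, rfl⟩)).le)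
    (fun s' hs' k j hj => (hi₂ s' ⟨hs'.1, hs'.2.trans (by linarith)⟩ _ (hmem k) j (by
      rintro ⟨l, hl, rfl⟩
      exact hj ⟨⟨l, hl⟩, rfl⟩)).le) (fun k => hag σ ⟨hσ0, le_rfl⟩ k k.2)
  -- a touching time in `[σ, σ + δ)`
  obtain ⟨s, hsS, hslt⟩ := exists_lt_of_csInf_lt hne (show sInf S < σ + δ by linarith)
  have hσs : σ ≤ s := csInf_le hbdd hsS
  obtain ⟨hst, j, hj, k', ⟨k, hk, rfl⟩, hd⟩ := hsS
  have hsδ : s ∈ Icc σ (σ + δ) := ⟨hσs, hslt.le⟩
  have hkσ : k ∈ A σ := hA σ s hσ0 hσs hst.2.le hk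
  by_cases hjσ : j ∈ e '' A σ
  · obtain ⟨l, hl, rfl⟩ := hjσ
    have hls : l ∉ A s := fun h => hj ⟨l, h, rfl⟩
    have h1 := hI1 s hst k hk l hls
    rw [key s hsδ ⟨k, hkσ⟩, key s hsδ ⟨l, hl⟩] at h1
    exact absurd hd (not_le.2 h1)
  · exact absurd hd (not_le.2 (hi₂ s ⟨hsδ.1, hsδ.2.trans (by linarith)⟩ (e k) ⟨k, hkσ, rfl⟩ j hjσ))

end two

end Crest.Agent.R122.Hit167
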