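import Crest.Agent.R122.CausalForest_291
import Crest.Agent.R122.Hit1_167
import Crest.Agent.R122.CtB_879

-- ▼ part R122/CausalInf_291
section

/-!
# Causal-past calculus (row 122, block F4): infection processes and their first discrepancy

An infection rule `P` of a world says which particles are infected at which times of `[a, T]`. It is
hereditary: an exploration which meets an infected pair `(j, s)` is infected. For two worlds with
coherent rules (equal histories give equal infection status) the first time at which the two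
infection processes differ is attained and produced by a particle whose history is different in the
two worlds, hence (`touch_of_not_histEq`) by a new or altered particle which comes within `ε` of a
protected tube.
-/

set_option autoImplicit false

open Set Filter Topology MeasureTheory
open Crest.AnalysisR.Kinetic
open Crest.Agent.R122.Flow671 Crest.Agent.R122.Loc45

namespace Crest.Agent.R122.Causal291

/-- An infection rule on the window `[a, T]` for the world `z`. -/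
structure IsRule {ι : Type*} (z : ℝ → ι → PhasePoint) (ε a T : ℝ) (P : ℝ → ι → Prop) : Prop where
  /-- an exploration which meets an infected pair is infected -/
  hered : ∀ i t j s, a ≤ s → t ≤ T → Past (Ct z ε) t i s j → P s j → P t i
  /-- infection times are attained -/
  closed : ∀ i, IsClosed {s | s ∈ Icc a T ∧ P s i}

section rule

variable {ι : Type*} {z : ℝ → ι → PhasePoint} {ε a T : ℝ} {P : ℝ → ι → Prop}

theorem IsRule.mono (h : IsRule z ε a T P) {i : ι} {s t : ℝ} (ha : a ≤ s) (hst : s ≤ t)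
    (ht : t ≤ T) (hP : P s i) : P t i := h.hered i t i s ha ht (.root hst) hP

theorem IsRule.contact (h : IsRule z ε a T P) {i j : ι} {s : ℝ} (ha : a ≤ s) (ht : s ≤ T)
    (hc : Ct z ε s i j) (hP : P s i) : P s j :=
  h.hered j s i s ha ht (Past.contact (.root le_rfl) hc.symm) hP

/-- Infected and non-infected particles are more than `ε` apart. -/
theorem IsRule.isolated (h : IsRule z ε a T P) {i j : ι} {s : ℝ} (ha : a ≤ s) (ht : s ≤ T)
    (hi : P s i) (hj : ¬ P s j) : ε < dist (z s i).1 (z s j).1 := by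
  by_contra hle
  push Not at hle
  exact hj (h.contact ha ht hle hi)

/-- With finitely many particles the infected set is constant just after each time. -/
theorem IsRule.eventually_const [Finite ι] (h : IsRule z ε a T P) {s : ℝ} (ha : a ≤ s)
    (ht : s < T) : ∃ δ > 0, s + δ ≤ T ∧ ∀ s', s ≤ s' → s' ≤ s + δ → ∀ i, (P s' i ↔ P s i) := by
  classical
  have := Fintype.ofFinite ι
  have key : ∀ i, ∃ δ > 0, ∀ s', s ≤ s' → s' ≤ s + δ → s' ≤ T → (P s' i ↔ P s i) := by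
    intro i
    by_cases hi : P s i
    · exact ⟨1, one_pos, fun s' h1 _ h3 => ⟨fun _ => hi, fun _ => h.mono ha h1 h3 hi⟩⟩
    · -- closedness: not infected at `s` implies not infected shortly after
      by_contra hno
      push Not at hno
      have hx : ∀ n : ℕ, ∃ s', s ≤ s' ∧ s' ≤ s + 1 / ((n : ℝ) + 1) ∧ s' ≤ T ∧ P s' i := by
        intro n
        obtain ⟨s', h1, h2, h3, h4⟩ := hno (1 / ((n : ℝ) + 1)) (by positivity)
        refine ⟨s', h1, h2, h3, ?_⟩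
        rcases h4 with h4 | h4
        · exact h4.1
        · exact absurd h4.2 hi
      choose u hu1 hu2 hu3 hu4 using hx
      have hlim : Tendsto u atTop (𝓝 s) := by
        have h1 : Tendsto (fun n : ℕ => s + 1 / ((n : ℝ) + 1)) atTop (𝓝 s) := by
          simpa using (tendsto_const_nhds (x := s)).add
            (tendsto_one_div_add_atTop_nhds_zero_nat (𝕜 := ℝ))
        exact tendsto_of_tendsto_of_tendsto_of_le_of_le tendsto_const_nhds h1 hu1 hu2
      exact hi ((h.closed i).mem_of_tendsto hlim (Eventually.of_forall fun n =>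
        ⟨⟨ha.trans (hu1 n), hu3 n⟩, hu4 n⟩)).2
  choose δ hδ hδ' using key
  have hmin : ∃ η > 0, ∀ i, η ≤ δ i := by
    by_cases hne : Nonempty ι
    · obtain ⟨i₀, hi₀⟩ := Finite.exists_min δ
      exact ⟨δ i₀, hδ i₀, hi₀⟩
    · exact ⟨1, one_pos, fun i => absurd ⟨i⟩ hne⟩
  obtain ⟨η, hη, hηδ⟩ := hmin
  refine ⟨min η (T - s), lt_min hη (sub_pos.2 ht), by linarith [min_le_right η (T - s)], ?_⟩
  intro s' h1 h2 i
  exact hδ' i s' h1 (h2.trans (by linarith [min_le_left η (T - s), hηδ i]))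
    (h2.trans (by linarith [min_le_right η (T - s)]))

end rule

section two

variable {ι₁ ι₂ κ : Type} {z₁ : ℝ → ι₁ → PhasePoint} {z₂ : ℝ → ι₂ → PhasePoint} {e₁ : κ → ι₁}
  {e₂ : κ → ι₂} {ε a T : ℝ}

/-- The histories of the common particle `i` up to time `t` are equal in both worlds: explorations
inside the common part, equal, with equal states. -/
structure HistEq (z₁ : ℝ → ι₁ → PhasePoint) (z₂ : ℝ → ι₂ → PhasePoint) (e₁ : κ → ι₁) (e₂ : κ → ι₂)
    (ε : ℝ) (t : ℝ) (i : κ) : Prop where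
  sub₁ : ∀ s j, 0 ≤ s → Past (Ct z₁ ε) t (e₁ i) s j → j ∈ range e₁
  sub₂ : ∀ s j, 0 ≤ s → Past (Ct z₂ ε) t (e₂ i) s j → j ∈ range e₂
  iff : ∀ s k, 0 ≤ s → (Past (Ct z₁ ε) t (e₁ i) s (e₁ k) ↔ Past (Ct z₂ ε) t (e₂ i) s (e₂ k))
  eq : ∀ s k, 0 ≤ s → Past (Ct z₁ ε) t (e₁ i) s (e₁ k) → z₁ s (e₁ k) = z₂ s (e₂ k)

theorem HistEq.symm {t : ℝ} {i : κ} (h : HistEq z₁ z₂ e₁ e₂ ε t i) :
    HistEq z₂ z₁ e₂ e₁ ε t i :=
  ⟨h.sub₂, h.sub₁, fun s k hs => (h.iff s k hs).symm,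
    fun s k hs hk => (h.eq s k hs ((h.iff s k hs).2 hk)).symm⟩

theorem HistEq.of_past (he₁ : Function.Injective e₁) (he₂ : Function.Injective e₂) {t s : ℝ}
    {i k : κ} (h : HistEq z₁ z₂ e₁ e₂ ε t i)
    (hk : Past (Ct z₁ ε) t (e₁ i) s (e₁ k)) (hs : 0 ≤ s) : HistEq z₁ z₂ e₁ e₂ ε s k := by
  have hk2 := (h.iff s k hs).1 hk
  have aux : ∀ (r : ℝ) (j : ι₁), Past (Ct z₁ ε) s (e₁ k) r j → 0 ≤ r →
      ∀ l, e₁ l = j → Past (Ct z₂ ε) s (e₂ k) r (e₂ l) := by
    intro r j hj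
    induction hj with
    | @root r hr =>
      intro _ l hl
      rw [he₁ hl]
      exact .root hr
    | @step r r' j l' hj hc hrr' ih =>
      intro hr l hl
      subst hl
      have hr' : 0 ≤ r' := hr.trans hrr'
      obtain ⟨m, rfl⟩ := h.sub₁ r' j hr' (hk.trans hj)
      refine .step (ih hr' m rfl) ?_ hrr'
      change dist (z₂ r' (e₂ m)).1 (z₂ r' (e₂ l)).1 ≤ ε
      rw [← h.eq r' m hr' (hk.trans hj), ← h.eq r' l hr' ((hk.trans hj).contact hc)]
      exact hc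
  have aux2 : ∀ (r : ℝ) (j : ι₂), Past (Ct z₂ ε) s (e₂ k) r j → 0 ≤ r →
      ∀ l, e₂ l = j → Past (Ct z₁ ε) s (e₁ k) r (e₁ l) := by
    intro r j hj
    induction hj with
    | @root r hr =>
      intro _ l hl
      rw [he₂ hl]
      exact .root hr
    | @step r r' j l' hj hc hrr' ih =>
      intro hr l hl
      subst hl
      have hr' : 0 ≤ r' := hr.trans hrr'
      obtain ⟨m, rfl⟩ := h.sub₂ r' j hr' (hk2.trans hj)
      refine .step (ih hr' m rfl) ?_ hrr'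
      change dist (z₁ r' (e₁ m)).1 (z₁ r' (e₁ l)).1 ≤ ε
      rw [h.eq r' m hr' ((h.iff r' m hr').2 (hk2.trans hj)),
        h.eq r' l hr' ((h.iff r' l hr').2 ((hk2.trans hj).contact hc))]
      exact hc
  exact ⟨fun r j hr hj => h.sub₁ r j hr (hk.trans hj), fun r j hr hj => h.sub₂ r j hr (hk2.trans hj),
    fun r l hr => ⟨fun hl => aux r _ hl hr l rfl, fun hl => aux2 r _ hl hr l rfl⟩,
    fun r l hr hl => h.eq r l hr (hk.trans hl)⟩


/-- The infection processes agree at time `u`: no new particle is infected, the same common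
particles are infected, and these have equal states. -/
structure AgreeAt (z₁ : ℝ → ι₁ → PhasePoint) (z₂ : ℝ → ι₂ → PhasePoint) (e₁ : κ → ι₁)
    (e₂ : κ → ι₂) (P₁ : ℝ → ι₁ → Prop) (P₂ : ℝ → ι₂ → Prop) (u : ℝ) : Prop where
  new₁ : ∀ j, P₁ u j → j ∈ range e₁
  new₂ : ∀ j, P₂ u j → j ∈ range e₂
  iff : ∀ k, P₁ u (e₁ k) ↔ P₂ u (e₂ k)
  eq : ∀ k, P₁ u (e₁ k) → z₁ u (e₁ k) = z₂ u (e₂ k)

theorem AgreeAt.symm {P₁ : ℝ → ι₁ → Prop} {P₂ : ℝ → ι₂ → Prop} {u : ℝ}
    (h : AgreeAt z₁ z₂ e₁ e₂ P₁ P₂ u) : AgreeAt z₂ z₁ e₂ e₁ P₂ P₁ u :=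
  ⟨h.new₂, h.new₁, fun k => (h.iff k).symm, fun k hk => (h.eq k ((h.iff k).2 hk)).symm⟩

/-- Agreement of the infection processes at time `s` persists for a short time. -/
theorem AgreeAt.eventually [Finite ι₁] [Finite ι₂] [Finite κ]
    (hz₁ : ∀ j, ContinuousOn (fun s => z₁ s j) (Icc 0 T))
    (hz₂ : ∀ j, ContinuousOn (fun s => z₂ s j) (Icc 0 T))
    (hloc : LocUniq ε T z₁ z₂) (he₁ : Function.Injective e₁) (he₂ : Function.Injective e₂)
    (ha : 0 ≤ a) {P₁ : ℝ → ι₁ → Prop} {P₂ : ℝ → ι₂ → Prop} (hP₁ : IsRule z₁ ε a T P₁)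
    (hP₂ : IsRule z₂ ε a T P₂) {s : ℝ} (has : a ≤ s) (hsT : s < T)
    (h : AgreeAt z₁ z₂ e₁ e₂ P₁ P₂ s) :
    ∃ δ > 0, ∀ s' ∈ Icc s (s + δ), AgreeAt z₁ z₂ e₁ e₂ P₁ P₂ s' := by
  obtain ⟨δ₁, hδ₁, hδ₁T, hc₁⟩ := hP₁.eventually_const has hsT
  obtain ⟨δ₂, hδ₂, hδ₂T, hc₂⟩ := hP₂.eventually_const has hsT
  let G : Set κ := {k | P₁ s (e₁ k)}
  have hs0 : s ∈ Ico 0 T := ⟨ha.trans has, hsT⟩
  obtain ⟨δ₃, hδ₃, hδ₃T, hi₁⟩ := exists_isolated (ε := ε) hz₁ hs0 (e₁ '' G) (e₁ '' G)ᶜ (by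
    rintro _ ⟨k, hk, rfl⟩ j hj
    refine hP₁.isolated has hsT.le hk fun hPj => ?_
    obtain ⟨l, rfl⟩ := h.new₁ j hPj
    exact hj ⟨l, hPj, rfl⟩)
  obtain ⟨δ₄, hδ₄, hδ₄T, hi₂⟩ := exists_isolated (ε := ε) hz₂ hs0 (e₂ '' G) (e₂ '' G)ᶜ (by
    rintro _ ⟨k, hk, rfl⟩ j hj
    refine hP₂.isolated has hsT.le ((h.iff k).1 hk) fun hPj => ?_
    obtain ⟨l, rfl⟩ := h.new₂ j hPj
    exact hj ⟨l, (h.iff l).2 hPj, rfl⟩)
  set δ := min (min δ₁ δ₂) (min δ₃ δ₄) with hδ
  have hδ0 : 0 < δ := lt_min (lt_min hδ₁ hδ₂) (lt_min hδ₃ hδ₄)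
  have l₁ : δ ≤ δ₁ := (min_le_left _ _).trans (min_le_left _ _)
  have l₂ : δ ≤ δ₂ := (min_le_left _ _).trans (min_le_right _ _)
  have l₃ : δ ≤ δ₃ := (min_le_right _ _).trans (min_le_left _ _)
  have l₄ : δ ≤ δ₄ := (min_le_right _ _).trans (min_le_right _ _)
  have key := hloc G (fun k => e₁ k) (fun k => e₂ k) s (s + δ)
    (fun k l h => Subtype.ext (he₁ h)) (fun k l h => Subtype.ext (he₂ h)) hs0.1
    (by linarith) (by linarith)
    (fun s' hs' k j hj => (hi₁ s' ⟨hs'.1, hs'.2.trans (by linarith)⟩ _ ⟨k, k.2, rfl⟩ j (by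
      rintro ⟨l, hl, rfl⟩
      exact hj ⟨⟨l, hl⟩, rfl⟩)).le)
    (fun s' hs' k j hj => (hi₂ s' ⟨hs'.1, hs'.2.trans (by linarith)⟩ _ ⟨k, k.2, rfl⟩ j (by
      rintro ⟨l, hl, rfl⟩
      exact hj ⟨⟨l, hl⟩, rfl⟩)).le)
    (fun k => h.eq k k.2)
  refine ⟨δ, hδ0, fun s' hs' => ?_⟩
  have q₁ := fun j => hc₁ s' hs'.1 (hs'.2.trans (by linarith)) j
  have q₂ := fun j => hc₂ s' hs'.1 (hs'.2.trans (by linarith)) j
  refine ⟨fun j hj => h.new₁ j ((q₁ j).1 hj), fun j hj => h.new₂ j ((q₂ j).1 hj), fun k => ?_,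
    fun k hk => ?_⟩
  · rw [q₁, q₂]
    exact h.iff k
  · exact key s' hs' ⟨k, (q₁ _).1 hk⟩



end two

end Crest.Agent.R122.Causal291
end

-- ▼ part R122/CausalFour_291
section

/-!
# Causal-past calculus (row 122, block F4): four worlds `Z`, `Z+A`, `Z+L`, `Z+A+L`

If the forward closures of `A` and of `L` (with respect to `Z`) are unlinked, the world `Z+A+L` is
glued from `Z+A` and `Z+L` (`glueA`, `glueL`, `histA`, `histL`), and the infection processes of
`Z, Z+L` agree exactly when those of `Z+A, Z+A+L` agree (`agreeAt_iff`).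
-/

set_option autoImplicit false

open Set Filter Topology MeasureTheory
open Crest.AnalysisR.Kinetic
open Crest.Agent.R122.Flow671 Crest.Agent.R122.Loc45

namespace Crest.Agent.R122.Causal291

section tools

variable {ι₁ ι₂ κ : Type} [Finite ι₁] [Finite ι₂] [Finite κ]
variable {z₁ : ℝ → ι₁ → PhasePoint} {z₂ : ℝ → ι₂ → PhasePoint} {e₁ : κ → ι₁} {e₂ : κ → ι₂}
variable {ε T : ℝ}

/-- Right step: agreement at one time of a group which is strictly isolated in both worlds. -/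
theorem extend_agree
    (hz₁ : ∀ j, ContinuousOn (fun s => z₁ s j) (Icc 0 T))
    (hz₂ : ∀ j, ContinuousOn (fun s => z₂ s j) (Icc 0 T))
    (hloc : LocUniq ε T z₁ z₂) (he₁ : Function.Injective e₁) (he₂ : Function.Injective e₂)
    {s : ℝ} (hs : s ∈ Ico 0 T) (G : Set κ)
    (h1 : ∀ k ∈ G, ∀ j, j ∉ e₁ '' G → ε < dist (z₁ s (e₁ k)).1 (z₁ s j).1)
    (h2 : ∀ k ∈ G, ∀ j, j ∉ e₂ '' G → ε < dist (z₂ s (e₂ k)).1 (z₂ s j).1)
    (hsG : ∀ k ∈ G, z₁ s (e₁ k) = z₂ s (e₂ k)) :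
    ∃ δ > 0, s + δ ≤ T ∧ ∀ s' ∈ Icc s (s + δ), ∀ k ∈ G, z₁ s' (e₁ k) = z₂ s' (e₂ k) := by
  obtain ⟨δ₁, hδ₁, hδ₁T, hi₁⟩ := exists_isolated (ε := ε) hz₁ hs (e₁ '' G) (e₁ '' G)ᶜ
    (by rintro _ ⟨k, hk, rfl⟩ j hj; exact h1 k hk j hj)
  obtain ⟨δ₂, hδ₂, hδ₂T, hi₂⟩ := exists_isolated (ε := ε) hz₂ hs (e₂ '' G) (e₂ '' G)ᶜ
    (by rintro _ ⟨k, hk, rfl⟩ j hj; exact h2 k hk j hj)
  have hδ0 : 0 < min δ₁ δ₂ := lt_min hδ₁ hδ₂
  have l₁ : min δ₁ δ₂ ≤ δ₁ := min_le_left _ _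
  have l₂ : min δ₁ δ₂ ≤ δ₂ := min_le_right _ _
  refine ⟨min δ₁ δ₂, hδ0, by linarith, fun s' hs' k hk => ?_⟩
  exact hloc G (fun k => e₁ k) (fun k => e₂ k) s (s + min δ₁ δ₂)
    (fun k l h => Subtype.ext (he₁ h)) (fun k l h => Subtype.ext (he₂ h)) hs.1
    (by linarith) (by linarith)
    (fun s' hs' k j hj => (hi₁ s' ⟨hs'.1, hs'.2.trans (by linarith)⟩ _ ⟨k, k.2, rfl⟩ j (by
      rintro ⟨l, hl, rfl⟩
      exact hj ⟨⟨l, hl⟩, rfl⟩)).le)
    (fun s' hs' k j hj => (hi₂ s' ⟨hs'.1, hs'.2.trans (by linarith)⟩ _ ⟨k, k.2, rfl⟩ j (by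
      rintro ⟨l, hl, rfl⟩
      exact hj ⟨⟨l, hl⟩, rfl⟩)).le) (fun k => hsG k k.2) s' hs' ⟨k, hk⟩

omit [Finite ι₁] [Finite ι₂] [Finite κ] in
/-- Left step: the set of times up to which an antitone family agrees is closed. -/
theorem closed_agree
    (hz₁ : ∀ j, ContinuousOn (fun s => z₁ s j) (Icc 0 T))
    (hz₂ : ∀ j, ContinuousOn (fun s => z₂ s j) (Icc 0 T))
    (G : ℝ → Set κ) (hG : ∀ s s', 0 ≤ s → s ≤ s' → s' ≤ T → G s' ⊆ G s) :
    IsClosed ({s | ∀ s' ∈ Icc 0 s, ∀ k ∈ G s', z₁ s' (e₁ k) = z₂ s' (e₂ k)} ∩ Icc 0 T) := by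
  rw [← isSeqClosed_iff_isClosed]
  intro u σ hu hlim
  have hσ : σ ∈ Icc 0 T := isClosed_Icc.mem_of_tendsto hlim
    (Eventually.of_forall fun n => (hu n).2)
  refine ⟨?_, hσ⟩
  intro s' hs' k hk
  rcases lt_or_eq_of_le hs'.2 with h1 | h1
  · obtain ⟨n, hn⟩ := (hlim.eventually (lt_mem_nhds h1)).exists
    exact (hu n).1 s' ⟨hs'.1, hn.le⟩ k hk
  · subst h1
    by_cases h2 : ∃ n, s' ≤ u n
    · obtain ⟨n, hn⟩ := h2
      exact (hu n).1 s' ⟨hs'.1, hn⟩ k hk
    · push Not at h2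
      have h3 : ∀ n, z₁ (u n) (e₁ k) = z₂ (u n) (e₂ k) := fun n =>
        (hu n).1 (u n) ⟨(hu n).2.1, le_rfl⟩ k
          (hG (u n) s' (hu n).2.1 (h2 n).le hσ.2 hk)
      have hlim' : Tendsto u atTop (𝓝[Icc 0 T] s') :=
        tendsto_nhdsWithin_iff.2 ⟨hlim, Eventually.of_forall fun n => (hu n).2⟩
      have h4 : Tendsto (fun n => z₁ (u n) (e₁ k)) atTop (𝓝 (z₁ s' (e₁ k))) :=
        (hz₁ (e₁ k) s' hσ).tendsto.comp hlim'
      have h5 : Tendsto (fun n => z₂ (u n) (e₂ k)) atTop (𝓝 (z₂ s' (e₂ k))) :=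
        (hz₂ (e₂ k) s' hσ).tendsto.comp hlim'
      simp only [h3] at h4
      exact tendsto_nhds_unique h4 h5

end tools

/-- Four worlds over `κ` (base `Z`), `ιA` (`Z+A`), `ιL` (`Z+L`), `ι` (`Z+A+L`). -/
structure Four (κ ιA ιL ι : Type) where
  z₀ : ℝ → κ → PhasePoint
  zA : ℝ → ιA → PhasePoint
  zL : ℝ → ιL → PhasePoint
  z : ℝ → ι → PhasePoint
  eA : κ → ιA
  eL : κ → ιL
  fA : ιA → ι
  fL : ιL → ι
  eA_inj : Function.Injective eA
  eL_inj : Function.Injective eL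
  fA_inj : Function.Injective fA
  fL_inj : Function.Injective fL
  comm : ∀ k, fA (eA k) = fL (eL k)
  cover : ∀ j, j ∈ range fA ∨ j ∈ range fL
  pull : ∀ x y, fA x = fL y → ∃ k, x = eA k ∧ y = eL k

namespace Four

variable {κ ιA ιL ι : Type}

/-- The symmetric system (roles of `A` and `L` exchanged). -/
def swap (F : Four κ ιA ιL ι) : Four κ ιL ιA ι where
  z₀ := F.z₀
  zA := F.zL
  zL := F.zA
  z := F.z
  eA := F.eL
  eL := F.eA
  fA := F.fL
  fL := F.fA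
  eA_inj := F.eL_inj
  eL_inj := F.eA_inj
  fA_inj := F.fL_inj
  fL_inj := F.fA_inj
  comm := fun k => (F.comm k).symm
  cover := fun j => (F.cover j).symm
  pull := fun x y h => by
    obtain ⟨k, hk, hk'⟩ := F.pull y x h.symm
    exact ⟨k, hk', hk⟩

/-- Forward closure of `A` with respect to `Z`. -/
def FA (F : Four κ ιA ιL ι) (ε s : ℝ) : Set κ := {k | Fut F.z₀ F.zA id F.eA ε s k}

/-- Forward closure of `L` with respect to `Z`. -/
def FL (F : Four κ ιA ιL ι) (ε s : ℝ) : Set κ := {k | Fut F.z₀ F.zL id F.eL ε s k}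

/-- `A` and the particles influenced by `A`, in `Z+A`. -/
def IA (F : Four κ ιA ιL ι) (ε s : ℝ) : Set ιA := {x | ∀ k, x = F.eA k → k ∈ F.FA ε s}

/-- `L` and the particles influenced by `L`, in `Z+L`. -/
def IL (F : Four κ ιA ιL ι) (ε s : ℝ) : Set ιL := {y | ∀ k, y = F.eL k → k ∈ F.FL ε s}


/-- The influences of `A` and `L` are unlinked on `[0, T]`. -/
structure Unlinked (F : Four κ ιA ιL ι) (ε T : ℝ) : Prop where
  disj : ∀ s ∈ Icc 0 T, ∀ k, k ∈ F.FA ε s → k ∉ F.FL ε s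
  far : ∀ s ∈ Icc 0 T, ∀ x ∈ F.IA ε s, ∀ y ∈ F.IL ε s, ε < dist (F.zA s x).1 (F.zL s y).1

/-- Dynamical hypotheses: continuity, equal initial data, local uniqueness for all pairs. -/
structure Dyn (F : Four κ ιA ιL ι) (ε T : ℝ) : Prop where
  c₀ : ∀ j, ContinuousOn (fun s => F.z₀ s j) (Icc 0 T)
  cA : ∀ j, ContinuousOn (fun s => F.zA s j) (Icc 0 T)
  cL : ∀ j, ContinuousOn (fun s => F.zL s j) (Icc 0 T)
  c : ∀ j, ContinuousOn (fun s => F.z s j) (Icc 0 T)
  u₀A : LocUniq ε T F.z₀ F.zA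
  u₀L : LocUniq ε T F.z₀ F.zL
  uA : LocUniq ε T F.zA F.z
  uL : LocUniq ε T F.zL F.z
  initA : ∀ x, F.zA 0 x = F.z 0 (F.fA x)
  initL : ∀ y, F.zL 0 y = F.z 0 (F.fL y)

variable {F : Four κ ιA ιL ι} {ε T : ℝ}

theorem Unlinked.swap (h : F.Unlinked ε T) : F.swap.Unlinked ε T where
  disj := fun s hs k hk hk' => h.disj s hs k hk' hk
  far := fun s hs x hx y hy => by
    rw [dist_comm]
    exact h.far s hs y hy x hx

theorem Dyn.swap (h : F.Dyn ε T) : F.swap.Dyn ε T where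
  c₀ := h.c₀
  cA := h.cL
  cL := h.cA
  c := h.c
  u₀A := h.u₀L
  u₀L := h.u₀A
  uA := h.uL
  uL := h.uA
  initA := h.initL
  initL := h.initA

theorem Unlinked.mono (h : F.Unlinked ε T) {T' : ℝ} (hT : T' ≤ T) : F.Unlinked ε T' where
  disj := fun s hs => h.disj s ⟨hs.1, hs.2.trans hT⟩
  far := fun s hs => h.far s ⟨hs.1, hs.2.trans hT⟩

theorem FA_mono {s s' : ℝ} (h : s ≤ s') : F.FA ε s ⊆ F.FA ε s' := fun _ hk => Fut.mono hk h

theorem FL_mono {s s' : ℝ} (h : s ≤ s') : F.FL ε s ⊆ F.FL ε s' := fun _ hk => Fut.mono hk h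

variable [Finite κ] [Finite ιA] [Finite ιL] [Finite ι]

/-- Outside `FA` the worlds `Z` and `Z+A` agree. -/
theorem agreeA (hd : F.Dyn ε T) {s : ℝ} (hs : s ∈ Icc 0 T) {k : κ} (hk : k ∉ F.FA ε s) :
    F.z₀ s k = F.zA s (F.eA k) :=
  agree_of_not_fut (e₁ := id) hd.c₀ hd.cA hd.u₀A Function.injective_id F.eA_inj hs hk


/-- In `Z+A`, the particles influenced by `L` (in `Z+L`) are isolated from all other particles. -/
theorem isoA (hd : F.Dyn ε T) (hu : F.Unlinked ε T) {s : ℝ} (hs : s ∈ Icc 0 T) {x y : ιA}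
    (hx : ∀ k, x = F.eA k → k ∉ F.FL ε s) (hy : ¬ ∀ k, y = F.eA k → k ∉ F.FL ε s) :
    ε < dist (F.zA s x).1 (F.zA s y).1 := by
  push Not at hy
  obtain ⟨l, rfl, hl⟩ := hy
  by_contra hle
  push Not at hle
  have hlA : l ∉ F.FA ε s := fun h => hu.disj s hs l h hl
  by_cases hxA : x ∈ F.IA ε s
  · -- contact of an influenced particle
    apply hlA
    by_cases hxr : x ∈ range F.eA
    · obtain ⟨k, rfl⟩ := hxr
      exact .chain₂ (hxA k rfl) hle le_rfl
    · exact .new₂ x hxr hle hs.1 le_rfl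
  · simp only [IA, mem_ofPred_eq, not_forall] at hxA
    obtain ⟨k, rfl, hk⟩ := hxA
    have hkL := hx k rfl
    rw [← agreeA hd hs hk, ← agreeA hd hs hlA] at hle
    exact hkL (.chain₁ (e₁ := id) hl (Ct.symm hle) le_rfl)

omit [Finite κ] [Finite ιA] [Finite ιL] [Finite ι] in
/-- In the glued world, at a time at which it is known to be glued, the particles of `Z+A` not
influenced by `L` are isolated from all others. -/
theorem isoZ (hu : F.Unlinked ε T) {s : ℝ} (hs : s ∈ Icc 0 T)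
    (hA : ∀ x, (∀ k, x = F.eA k → k ∉ F.FL ε s) → F.zA s x = F.z s (F.fA x))
    (hL : ∀ y, (∀ k, y = F.eL k → k ∉ F.FA ε s) → F.zL s y = F.z s (F.fL y))
    {x : ιA} (hx : ∀ k, x = F.eA k → k ∉ F.FL ε s) {j : ι}
    (hj : ∀ x', (∀ k, x' = F.eA k → k ∉ F.FL ε s) → F.fA x' ≠ j) :
    ε < dist (F.z s (F.fA x)).1 (F.z s j).1 := by
  -- `j` is influenced by `L` or belongs to `L`
  have hjL : ∃ y ∈ F.IL ε s, j = F.fL y := by
    rcases F.cover j with ⟨x', rfl⟩ | ⟨y, rfl⟩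
    · have : ¬ ∀ k, x' = F.eA k → k ∉ F.FL ε s := fun h => hj x' h rfl
      push Not at this
      obtain ⟨k, rfl, hk⟩ := this
      refine ⟨F.eL k, ?_, F.comm k⟩
      intro k' hk'
      rw [← F.eL_inj hk']
      exact hk
    · by_cases hy : y ∈ range F.eL
      · obtain ⟨k, rfl⟩ := hy
        refine ⟨F.eL k, ?_, rfl⟩
        intro k' hk'
        rw [← F.eL_inj hk']
        by_contra hk
        exact hj (F.eA k) (fun k'' hk'' => by rw [← F.eA_inj hk'']; exact hk) (F.comm k)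
      · exact ⟨y, fun k hk => absurd ⟨k, hk.symm⟩ hy, rfl⟩
  obtain ⟨y, hyL, rfl⟩ := hjL
  have hyA : ∀ k, y = F.eL k → k ∉ F.FA ε s := fun k hk hkA => hu.disj s hs k hkA (hyL k hk)
  rw [← hL y hyA]
  by_cases hxA : x ∈ F.IA ε s
  · rw [← hA x hx]
    exact hu.far s hs x hxA y hyL
  · simp only [IA, mem_ofPred_eq, not_forall] at hxA
    obtain ⟨k, rfl, hk⟩ := hxA
    have hkL := hx k rfl
    rw [F.comm k, ← hL (F.eL k) (fun k' hk' => by rw [← F.eL_inj hk']; exact hk)]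
    by_contra hle
    push Not at hle
    apply hkL
    by_cases hyr : y ∈ range F.eL
    · obtain ⟨l, rfl⟩ := hyr
      exact .chain₂ (hyL l rfl) (Ct.symm hle) le_rfl
    · exact .new₂ y hyr (Ct.symm hle) hs.1 le_rfl

/-- **Glueing.** Under unlinked influences the world `Z+A+L` agrees with `Z+A` outside the influence
of `L`, and with `Z+L` outside the influence of `A`. -/
theorem glue (hd : F.Dyn ε T) (hu : F.Unlinked ε T) :
    (∀ s ∈ Icc 0 T, ∀ x, (∀ k, x = F.eA k → k ∉ F.FL ε s) → F.zA s x = F.z s (F.fA x)) ∧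
    (∀ s ∈ Icc 0 T, ∀ y, (∀ k, y = F.eL k → k ∉ F.FA ε s) → F.zL s y = F.z s (F.fL y)) := by
  rcases lt_or_ge T 0 with hT | hT
  · exact ⟨fun s hs => absurd (hs.1.trans hs.2) (not_le.2 hT),
      fun s hs => absurd (hs.1.trans hs.2) (not_le.2 hT)⟩
  let SA : ℝ → Set ιA := fun s => {x | ∀ k, x = F.eA k → k ∉ F.FL ε s}
  let SL : ℝ → Set ιL := fun s => {y | ∀ k, y = F.eL k → k ∉ F.FA ε s}
  have hSA : ∀ s s', 0 ≤ s → s ≤ s' → s' ≤ T → SA s' ⊆ SA s :=
    fun s s' _ hss' _ x hx k hk hk' => hx k hk (FL_mono hss' hk')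
  have hSL : ∀ s s', 0 ≤ s → s ≤ s' → s' ≤ T → SL s' ⊆ SL s :=
    fun s s' _ hss' _ x hx k hk hk' => hx k hk (FA_mono hss' hk')
  set EA : Set ℝ := {s | ∀ s' ∈ Icc 0 s, ∀ k ∈ SA s', F.zA s' (id k) = F.z s' (F.fA k)} with hEA
  set EL : Set ℝ := {s | ∀ s' ∈ Icc 0 s, ∀ k ∈ SL s', F.zL s' (id k) = F.z s' (F.fL k)} with hEL
  have hcA : IsClosed (EA ∩ Icc 0 T) := closed_agree hd.cA hd.c SA hSA
  have hcL : IsClosed (EL ∩ Icc 0 T) := closed_agree hd.cL hd.c SL hSL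
  have hmain : Icc 0 T ⊆ EA ∩ EL := by
    refine IsClosed.Icc_subset_of_forall_exists_gt ?_ ?_ ?_
    · have : EA ∩ EL ∩ Icc 0 T = (EA ∩ Icc 0 T) ∩ (EL ∩ Icc 0 T) := by
        ext s
        simp only [mem_inter_iff]
        tauto
      rw [this]
      exact hcA.inter hcL
    · constructor
      · intro s' hs' x _
        have : s' = 0 := le_antisymm hs'.2 hs'.1
        subst this
        exact hd.initA x
      · intro s' hs' x _
        have : s' = 0 := le_antisymm hs'.2 hs'.1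
        subst this
        exact hd.initL x
    · rintro s ⟨⟨hsA, hsL⟩, hs⟩ y hy
      have hsI : s ∈ Icc 0 T := ⟨hs.1, hs.2.le⟩
      have hA : ∀ x, (∀ k, x = F.eA k → k ∉ F.FL ε s) → F.zA s x = F.z s (F.fA x) :=
        fun x hx => hsA s ⟨hs.1, le_rfl⟩ x hx
      have hL : ∀ y, (∀ k, y = F.eL k → k ∉ F.FA ε s) → F.zL s y = F.z s (F.fL y) :=
        fun y hy => hsL s ⟨hs.1, le_rfl⟩ y hy
      obtain ⟨δ₁, hδ₁, hδ₁T, h1⟩ := extend_agree (e₁ := id) hd.cA hd.c hd.uA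
        Function.injective_id F.fA_inj hs (SA s)
        (fun x hx j hj => isoA hd hu hsI hx (fun h => hj ⟨j, h, rfl⟩))
        (fun x hx j hj => isoZ hu hsI hA hL hx fun x' hx' h => hj ⟨x', hx', h⟩)
        (fun x hx => hA x hx)
      obtain ⟨δ₂, hδ₂, hδ₂T, h2⟩ := extend_agree (e₁ := id) hd.cL hd.c hd.uL
        Function.injective_id F.fL_inj hs (SL s)
        (fun x hx j hj => isoA (F := F.swap) hd.swap hu.swap hsI hx (fun h => hj ⟨j, h, rfl⟩))
        (fun x hx j hj => isoZ (F := F.swap) hu.swap hsI hL hA hx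
          fun x' hx' h => hj ⟨x', hx', h⟩)
        (fun x hx => hL x hx)
      set δ := min (min δ₁ δ₂) (y - s) with hδ
      have hδ0 : 0 < δ := lt_min (lt_min hδ₁ hδ₂) (sub_pos.2 hy)
      have l₁ : δ ≤ δ₁ := (min_le_left _ _).trans (min_le_left _ _)
      have l₂ : δ ≤ δ₂ := (min_le_left _ _).trans (min_le_right _ _)
      have l₃ : δ ≤ y - s := min_le_right _ _
      refine ⟨s + δ, ⟨?_, ?_⟩, by linarith, by linarith⟩
      · intro s' hs' x hx
        rcases le_total s' s with h3 | h3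
        · exact hsA s' ⟨hs'.1, h3⟩ x hx
        · exact h1 s' ⟨h3, hs'.2.trans (by linarith)⟩ x
            (hSA s s' hs.1 h3 (hs'.2.trans (by linarith)) hx)
      · intro s' hs' x hx
        rcases le_total s' s with h3 | h3
        · exact hsL s' ⟨hs'.1, h3⟩ x hx
        · exact h2 s' ⟨h3, hs'.2.trans (by linarith)⟩ x
            (hSL s s' hs.1 h3 (hs'.2.trans (by linarith)) hx)
  exact ⟨fun s hs x hx => (hmain hs).1 s ⟨hs.1, le_rfl⟩ x hx,
    fun s hs x hx => (hmain hs).2 s ⟨hs.1, le_rfl⟩ x hx⟩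

theorem glueA (hd : F.Dyn ε T) (hu : F.Unlinked ε T) {s : ℝ} (hs : s ∈ Icc 0 T) {x : ιA}
    (hx : ∀ k, x = F.eA k → k ∉ F.FL ε s) : F.zA s x = F.z s (F.fA x) := (glue hd hu).1 s hs x hx

theorem glueL (hd : F.Dyn ε T) (hu : F.Unlinked ε T) {s : ℝ} (hs : s ∈ Icc 0 T) {y : ιL}
    (hy : ∀ k, y = F.eL k → k ∉ F.FA ε s) : F.zL s y = F.z s (F.fL y) := (glue hd hu).2 s hs y hy

/-- In the glued world, influence of `L` spreads only to particles influenced by `L`: a contact in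
`Z+A+L` of a particle influenced by `L` (or in `L`). -/
theorem contact_IL (hd : F.Dyn ε T) (hu : F.Unlinked ε T) {s : ℝ} (hs : s ∈ Icc 0 T) {y : ιL}
    (hy : y ∈ F.IL ε s) {j : ι} (hc : Ct F.z ε s (F.fL y) j) :
    ∃ y' ∈ F.IL ε s, j = F.fL y' := by
  by_contra hno
  push Not at hno
  -- `j` comes from `Z+A` and is not influenced by `L`
  have hj : ∃ x, (∀ k, x = F.eA k → k ∉ F.FL ε s) ∧ F.fA x = j := by
    rcases F.cover j with ⟨x, rfl⟩ | ⟨y', rfl⟩
    · refine ⟨x, fun k hk hkL => ?_, rfl⟩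
      subst hk
      exact hno (F.eL k) (fun k' hk' => by rw [← F.eL_inj hk']; exact hkL) (F.comm k)
    · by_cases hy' : y' ∈ range F.eL
      · obtain ⟨k, rfl⟩ := hy'
        refine ⟨F.eA k, fun k' hk' hkL => ?_, F.comm k⟩
        rw [← F.eA_inj hk'] at hkL
        exact hno (F.eL k) (fun k'' hk'' => by rw [← F.eL_inj hk'']; exact hkL) rfl
      · exact absurd rfl (hno y' fun k hk => absurd ⟨k, hk.symm⟩ hy')
  obtain ⟨x, hx, rfl⟩ := hj
  have h1 := isoZ hu hs (fun x hx => glueA hd hu hs hx) (fun y hy => glueL hd hu hs hy) hx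
    (j := F.fL y) (by
      intro x' hx' h
      obtain ⟨k, rfl, rfl⟩ := F.pull x' y h
      exact hx' k rfl (hy k rfl))
  have h2 : dist (F.z s (F.fA x)).1 (F.z s (F.fL y)).1 ≤ ε := Ct.symm hc
  exact absurd h2 (not_le.2 h1)

/-- An exploration in `Z+A+L` which meets the influence of `L` starts in the influence of `L`. -/
theorem past_IL (hd : F.Dyn ε T) (hu : F.Unlinked ε T) {t s : ℝ} (hs : 0 ≤ s) (ht : t ≤ T)
    {i j : ι} (h : Past (Ct F.z ε) t i s j) :
    ∀ y ∈ F.IL ε s, j = F.fL y → ∃ y' ∈ F.IL ε t, i = F.fL y' := by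
  have monoIL : ∀ {r r' : ℝ}, r ≤ r' → F.IL ε r ⊆ F.IL ε r' :=
    fun hr y hy k hk => FL_mono hr (hy k hk)
  induction h with
  | @root s h =>
    intro y hy hj
    exact ⟨y, monoIL h hy, hj⟩
  | @step s s' j k h hc hss' ih =>
    intro y hy hj
    subst hj
    have hs' : 0 ≤ s' := hs.trans hss'
    obtain ⟨y', hy', hj'⟩ := contact_IL hd hu (s := s') ⟨hs', h.le.trans ht⟩ (monoIL hss' hy)
      (Ct.symm hc)
    exact ih hs' y' hy' hj'

/-- The history in `Z+A+L` of a particle not influenced by `L` is its history in `Z+A`. -/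
theorem histA (hd : F.Dyn ε T) (hu : F.Unlinked ε T) {t : ℝ} (ht : t ∈ Icc 0 T) {x : ιA}
    (hx : ∀ k, x = F.eA k → k ∉ F.FL ε t) :
    HistEq F.zA F.z id F.fA ε t x := by
  -- no exploration from `(x, t)` in the glued world meets the influence of `L`
  have hno : ∀ s j, 0 ≤ s → Past (Ct F.z ε) t (F.fA x) s j →
      ∃ x', (∀ k, x' = F.eA k → k ∉ F.FL ε s) ∧ j = F.fA x' := by
    intro s j hs hj
    have hnoIL : ∀ y ∈ F.IL ε s, j ≠ F.fL y := by
      intro y hy hjy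
      obtain ⟨y', hy', hxy'⟩ := past_IL hd hu hs ht.2 hj y hy hjy
      obtain ⟨k, rfl, rfl⟩ := F.pull x y' hxy'
      exact hx k rfl (hy' k rfl)
    rcases F.cover j with ⟨x', rfl⟩ | ⟨y, rfl⟩
    · refine ⟨x', fun k hk hkL => ?_, rfl⟩
      subst hk
      exact hnoIL (F.eL k) (fun k' hk' => by rw [← F.eL_inj hk']; exact hkL) (F.comm k)
    · by_cases hy' : y ∈ range F.eL
      · obtain ⟨k, rfl⟩ := hy'
        refine ⟨F.eA k, fun k' hk' hkL => ?_, (F.comm k).symm⟩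
        rw [← F.eA_inj hk'] at hkL
        exact hnoIL (F.eL k) (fun k'' hk'' => by rw [← F.eL_inj hk'']; exact hkL) rfl
      · exact absurd rfl (hnoIL y fun k hk => absurd ⟨k, hk.symm⟩ hy')
  have hback : ∀ (s : ℝ) (j : ι), Past (Ct F.z ε) t (F.fA x) s j → 0 ≤ s →
      ∀ x', F.fA x' = j → Past (Ct F.zA ε) t x s x' := by
    intro s j hj
    induction hj with
    | @root s h =>
      intro _ x' hx'
      rw [F.fA_inj hx']
      exact .root h
    | @step s s' j k h hc hss' ih =>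
      intro hs x' hx'
      subst hx'
      have hs' : 0 ≤ s' := hs.trans hss'
      have hs'T : s' ∈ Icc 0 T := ⟨hs', h.le.trans ht.2⟩
      obtain ⟨x₁, hx₁, rfl⟩ := hno s' j hs' h
      obtain ⟨x₂, hx₂, hx₂'⟩ := hno s' _ hs' (Past.contact h hc)
      have : x' = x₂ := F.fA_inj hx₂'
      subst this
      refine .step (ih hs' x₁ rfl) ?_ hss'
      change dist (F.zA s' x₁).1 (F.zA s' x').1 ≤ ε
      rw [glueA hd hu hs'T hx₁, glueA hd hu hs'T hx₂]
      exact hc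
  have hforw : ∀ (s : ℝ) (x' : ιA), Past (Ct F.zA ε) t x s x' → 0 ≤ s →
      Past (Ct F.z ε) t (F.fA x) s (F.fA x') ∧ (∀ k, x' = F.eA k → k ∉ F.FL ε s) := by
    intro s x' hx'
    induction hx' with
    | @root s h => exact fun hs => ⟨.root h, fun k hk hkL => hx k hk (FL_mono h hkL)⟩
    | @step s s' j k h hc hss' ih =>
      intro hs
      have hs' : 0 ≤ s' := hs.trans hss'
      have hs'T : s' ∈ Icc 0 T := ⟨hs', h.le.trans ht.2⟩
      obtain ⟨h1, h2⟩ := ih hs'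
      -- `k` is not influenced by `L` at time `s'`
      have hk : ∀ l, k = F.eA l → l ∉ F.FL ε s' := by
        by_contra hno'
        exact absurd hc (not_le.2 (isoA hd hu hs'T h2 hno'))
      refine ⟨.step h1 ?_ hss', fun l hl hlL => hk l hl (FL_mono hss' hlL)⟩
      change dist (F.z s' (F.fA j)).1 (F.z s' (F.fA k)).1 ≤ ε
      rw [← glueA hd hu hs'T h2, ← glueA hd hu hs'T hk]
      exact hc
  refine ⟨fun s j _ _ => ⟨j, rfl⟩, fun s j hs hj => ?_, fun s k hs => ⟨fun hk => (hforw s k hk hs).1,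
    fun hk => hback s _ hk hs k rfl⟩, fun s k hs hk => ?_⟩
  · obtain ⟨x', _, rfl⟩ := hno s j hs hj
    exact ⟨x', rfl⟩
  · have hkt : s ≤ t := hk.le
    exact glueA hd hu ⟨hs, hkt.trans ht.2⟩ (hforw s k hk hs).2

/-- The history in `Z+A+L` of a particle not influenced by `A` is its history in `Z+L`. -/
theorem histL (hd : F.Dyn ε T) (hu : F.Unlinked ε T) {t : ℝ} (ht : t ∈ Icc 0 T) {y : ιL}
    (hy : ∀ k, y = F.eL k → k ∉ F.FA ε t) : HistEq F.zL F.z id F.fL ε t y :=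
  histA (F := F.swap) hd.swap hu.swap ht hy

/-- The history in `Z+A` of a particle not influenced by `A` is its history in `Z`. -/
theorem hist₀A (hd : F.Dyn ε T) {t : ℝ} (ht : t ∈ Icc 0 T) {k : κ} (hk : k ∉ F.FA ε t) :
    HistEq F.z₀ F.zA id F.eA ε t k := by
  -- explorations (in either world) from an uninfluenced particle stay uninfluenced
  have hforw : ∀ (s : ℝ) (j : κ), Past (Ct F.z₀ ε) t k s j → 0 ≤ s →
      Past (Ct F.zA ε) t (F.eA k) s (F.eA j) ∧ j ∉ F.FA ε s := by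
    intro s j hj
    induction hj with
    | @root s h => exact fun _ => ⟨.root h, fun h' => hk (FA_mono h h')⟩
    | @step s s' j l h hc hss' ih =>
      intro hs
      have hs' : 0 ≤ s' := hs.trans hss'
      have hs'T : s' ∈ Icc 0 T := ⟨hs', h.le.trans ht.2⟩
      obtain ⟨h1, h2⟩ := ih hs'
      have hl : l ∉ F.FA ε s' := fun h' => h2 (.chain₁ (e₁ := id) h' (Ct.symm hc) le_rfl)
      refine ⟨.step h1 ?_ hss', fun h' => hl (FA_mono hss' h')⟩
      change dist (F.zA s' (F.eA j)).1 (F.zA s' (F.eA l)).1 ≤ ε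
      rw [← agreeA hd hs'T h2, ← agreeA hd hs'T hl]
      exact hc
  have hback : ∀ (s : ℝ) (x : ιA), Past (Ct F.zA ε) t (F.eA k) s x → 0 ≤ s →
      ∃ j, F.eA j = x ∧ Past (Ct F.z₀ ε) t k s j ∧ j ∉ F.FA ε s := by
    intro s x hx
    induction hx with
    | @root s h => exact fun _ => ⟨k, rfl, .root h, fun h' => hk (FA_mono h h')⟩
    | @step s s' x y h hc hss' ih =>
      intro hs
      have hs' : 0 ≤ s' := hs.trans hss'
      have hs'T : s' ∈ Icc 0 T := ⟨hs', h.le.trans ht.2⟩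
      obtain ⟨j, rfl, h1, h2⟩ := ih hs'
      have hy : y ∈ range F.eA := by
        by_contra hy
        exact h2 (.new₂ y hy (Ct.symm hc) hs' le_rfl)
      obtain ⟨l, rfl⟩ := hy
      have hl : l ∉ F.FA ε s' := fun h' => h2 (.chain₂ h' (Ct.symm hc) le_rfl)
      refine ⟨l, rfl, .step h1 ?_ hss', fun h' => hl (FA_mono hss' h')⟩
      change dist (F.z₀ s' j).1 (F.z₀ s' l).1 ≤ ε
      rw [agreeA hd hs'T h2, agreeA hd hs'T hl]
      exact hc
  refine ⟨fun s j _ _ => ⟨j, rfl⟩, fun s j hs hj => ?_, fun s j hs => ⟨fun hj => (hforw s j hj hs).1,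
    fun hj => ?_⟩, fun s j hs hj => ?_⟩
  · obtain ⟨l, rfl, _⟩ := hback s j hj hs
    exact ⟨l, rfl⟩
  · obtain ⟨l, hl, hl', _⟩ := hback s _ hj hs
    rw [F.eA_inj hl] at hl'
    exact hl'
  · have hjt : s ≤ t := Past.le hj
    exact agreeA hd ⟨hs, hjt.trans ht.2⟩ (hforw s j hj hs).2


/-! ### World consistency of infection processes -/

/-- Infection status in the four worlds, coherent. -/
structure Status (F : Four κ ιA ιL ι) (ε a T : ℝ) (P₀ : ℝ → κ → Prop) (PA : ℝ → ιA → Prop)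
    (PL : ℝ → ιL → Prop) (P : ℝ → ι → Prop) : Prop where
  coh₀A : ∀ s ∈ Icc a T, ∀ k, HistEq F.z₀ F.zA id F.eA ε s k → (P₀ s k ↔ PA s (F.eA k))
  coh₀L : ∀ s ∈ Icc a T, ∀ k, HistEq F.z₀ F.zL id F.eL ε s k → (P₀ s k ↔ PL s (F.eL k))
  cohA : ∀ s ∈ Icc a T, ∀ x, HistEq F.zA F.z id F.fA ε s x → (PA s x ↔ P s (F.fA x))
  cohL : ∀ s ∈ Icc a T, ∀ y, HistEq F.zL F.z id F.fL ε s y → (PL s y ↔ P s (F.fL y))


end Four

end Crest.Agent.R122.Causal291
end

-- ▼ part R122/CausalTheta_291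
section

/-!
# Causal-past calculus (row 122, block F4): touch times (decision D2)

Worlds `z₀ = Z` over `κ` and `z₁ = Z + O` over `ι₁` with the embedding `e`. `Fut z₀ z₁ id e ε s` is
the set of particles of `Z` influenced by `O` before `s` (closed under contacts in both worlds).
`Touched s`: an influenced particle (or a particle of `O`) is infected in one of the worlds.
-/

set_option autoImplicit false

open Set Filter Topology MeasureTheory
open Crest.AnalysisR.Kinetic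
open Crest.Agent.R122.Flow671 Crest.Agent.R122.Loc45

namespace Crest.Agent.R122.Causal291

section fut

variable {ι₁ ι₂ κ : Type} {z₁ : ℝ → ι₁ → PhasePoint} {z₂ : ℝ → ι₂ → PhasePoint} {e₁ : κ → ι₁}
  {e₂ : κ → ι₂} {ε T : ℝ}

/-- First entrance: if `k` is in the forward closure at `σ' > σ` and not at `σ`, then some particle
enters at a time in `(σ, σ']` through a contact with a source or with a member at that time. -/
theorem Fut.enter {σ s : ℝ} {k : κ} (h : Fut z₁ z₂ e₁ e₂ ε s k) (hσ : 0 ≤ σ)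
    (hk : ¬ Fut z₁ z₂ e₁ e₂ ε σ k) :
    ∃ s' k', σ < s' ∧ s' ≤ s ∧ ¬ Fut z₁ z₂ e₁ e₂ ε σ k' ∧ Fut z₁ z₂ e₁ e₂ ε s' k' ∧
      ((∃ j, j ∉ range e₁ ∧ Ct z₁ ε s' j (e₁ k')) ∨ (∃ j, j ∉ range e₂ ∧ Ct z₂ ε s' j (e₂ k')) ∨
        (∃ l, Fut z₁ z₂ e₁ e₂ ε σ l ∧ (Ct z₁ ε s' (e₁ l) (e₁ k') ∨ Ct z₂ ε s' (e₂ l) (e₂ k')))) := by
  induction h with
  | @init s k h hs => exact absurd (.init h hσ) hk
  | @new₁ s s' k j hj hc h0 hs =>
    have h1 : σ < s' := by
      by_contra hle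
      push Not at hle
      exact hk (.new₁ j hj hc h0 hle)
    exact ⟨s', k, h1, hs, hk, .new₁ j hj hc h0 le_rfl, Or.inl ⟨j, hj, hc⟩⟩
  | @new₂ s s' k j hj hc h0 hs =>
    have h1 : σ < s' := by
      by_contra hle
      push Not at hle
      exact hk (.new₂ j hj hc h0 hle)
    exact ⟨s', k, h1, hs, hk, .new₂ j hj hc h0 le_rfl, Or.inr (Or.inl ⟨j, hj, hc⟩)⟩
  | @chain₁ s s' k l h hc hs ih =>
    by_cases hl : Fut z₁ z₂ e₁ e₂ ε σ l
    · have h1 : σ < s' := by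
        by_contra hle
        push Not at hle
        exact hk ((Fut.chain₁ h hc le_rfl).mono hle)
      exact ⟨s', k, h1, hs, hk, .chain₁ h hc le_rfl, Or.inr (Or.inr ⟨l, hl, Or.inl hc⟩)⟩
    · obtain ⟨s'', k', h1, h2, h3, h4, h5⟩ := ih hl
      exact ⟨s'', k', h1, h2.trans hs, h3, h4, h5⟩
  | @chain₂ s s' k l h hc hs ih =>
    by_cases hl : Fut z₁ z₂ e₁ e₂ ε σ l
    · have h1 : σ < s' := by
        by_contra hle
        push Not at hle
        exact hk ((Fut.chain₂ h hc le_rfl).mono hle)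
      exact ⟨s', k, h1, hs, hk, .chain₂ h hc le_rfl, Or.inr (Or.inr ⟨l, hl, Or.inr hc⟩)⟩
    · obtain ⟨s'', k', h1, h2, h3, h4, h5⟩ := ih hl
      exact ⟨s'', k', h1, h2.trans hs, h3, h4, h5⟩

/-- The times at which a given particle is influenced form a closed set. -/
theorem isClosed_fut [Finite ι₁] [Finite ι₂] [Finite κ]
    (hC₁ : ∀ j k, IsClosed {s | Ct z₁ ε s j k}) (hC₂ : ∀ j k, IsClosed {s | Ct z₂ ε s j k}) (k : κ) :
    IsClosed {s | Fut z₁ z₂ e₁ e₂ ε s k} := by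
  rw [← isSeqClosed_iff_isClosed]
  intro u σ hu hlim
  have hσ : 0 ≤ σ := ge_of_tendsto' hlim fun n => (hu n).nonneg
  by_contra hk
  change ¬ Fut z₁ z₂ e₁ e₂ ε σ k at hk
  have hlt : ∀ n, σ < u n := by
    intro n
    by_contra h
    push Not at h
    exact hk ((hu n).mono h)
  -- data: the entering particle and the partner
  have hex : ∀ n, ∃ (p : κ × (ι₁ ⊕ ι₂ ⊕ (κ ⊕ κ))) (s' : ℝ), σ < s' ∧ s' ≤ u n ∧
      ¬ Fut z₁ z₂ e₁ e₂ ε σ p.1 ∧
      (match p.2 with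
        | .inl j => j ∉ range e₁ ∧ Ct z₁ ε s' j (e₁ p.1)
        | .inr (.inl j) => j ∉ range e₂ ∧ Ct z₂ ε s' j (e₂ p.1)
        | .inr (.inr (.inl l)) => Fut z₁ z₂ e₁ e₂ ε σ l ∧ Ct z₁ ε s' (e₁ l) (e₁ p.1)
        | .inr (.inr (.inr l)) => Fut z₁ z₂ e₁ e₂ ε σ l ∧ Ct z₂ ε s' (e₂ l) (e₂ p.1)) := by
    intro n
    obtain ⟨s', k', h1, h2, h3, _, h5⟩ := Fut.enter (hu n) hσ hk
    rcases h5 with ⟨j, hj, hc⟩ | ⟨j, hj, hc⟩ | ⟨l, hl, hc | hc⟩
    · exact ⟨(k', .inl j), s', h1, h2, h3, hj, hc⟩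
    · exact ⟨(k', .inr (.inl j)), s', h1, h2, h3, hj, hc⟩
    · exact ⟨(k', .inr (.inr (.inl l))), s', h1, h2, h3, hl, hc⟩
    · exact ⟨(k', .inr (.inr (.inr l))), s', h1, h2, h3, hl, hc⟩
  choose p s' h1 h2 h3 h4 using hex
  have hs' : Tendsto s' atTop (𝓝 σ) :=
    tendsto_of_tendsto_of_tendsto_of_le_of_le tendsto_const_nhds hlim (fun n => (h1 n).le) h2
  obtain ⟨q, hq⟩ := Finite.exists_infinite_fiber p
  have hinf : Set.Infinite (p ⁻¹' {q}) := Set.infinite_coe_iff.1 hq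
  obtain ⟨φ, hφ, hφ'⟩ := Filter.extraction_of_frequently_atTop
    (Nat.frequently_atTop_iff_infinite.2 hinf)
  have hlim' : Tendsto (fun n => s' (φ n)) atTop (𝓝 σ) := hs'.comp hφ.tendsto_atTop
  have hpq : ∀ n, p (φ n) = q := fun n => hφ' n
  obtain ⟨k', j'⟩ := q
  have h3' : ¬ Fut z₁ z₂ e₁ e₂ ε σ k' := by
    have := h3 (φ 0)
    rwa [hpq 0] at this
  have h4' : ∀ n, (match j' with
        | .inl j => j ∉ range e₁ ∧ Ct z₁ ε (s' (φ n)) j (e₁ k')
        | .inr (.inl j) => j ∉ range e₂ ∧ Ct z₂ ε (s' (φ n)) j (e₂ k')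
        | .inr (.inr (.inl l)) => Fut z₁ z₂ e₁ e₂ ε σ l ∧ Ct z₁ ε (s' (φ n)) (e₁ l) (e₁ k')
        | .inr (.inr (.inr l)) => Fut z₁ z₂ e₁ e₂ ε σ l ∧ Ct z₂ ε (s' (φ n)) (e₂ l) (e₂ k')) := by
    intro n
    have := h4 (φ n)
    rw [hpq n] at this
    exact this
  apply h3'
  rcases j' with j | j | l | l
  · exact .new₁ j (h4' 0).1 ((hC₁ j (e₁ k')).mem_of_tendsto hlim'
      (Eventually.of_forall fun n => (h4' n).2)) hσ le_rfl
  · exact .new₂ j (h4' 0).1 ((hC₂ j (e₂ k')).mem_of_tendsto hlim'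
      (Eventually.of_forall fun n => (h4' n).2)) hσ le_rfl
  · exact .chain₁ (h4' 0).1 ((hC₁ (e₁ l) (e₁ k')).mem_of_tendsto hlim'
      (Eventually.of_forall fun n => (h4' n).2)) le_rfl
  · exact .chain₂ (h4' 0).1 ((hC₂ (e₂ l) (e₂ k')).mem_of_tendsto hlim'
      (Eventually.of_forall fun n => (h4' n).2)) le_rfl

end fut

section touched

variable {κ ι₁ : Type} {z₀ : ℝ → κ → PhasePoint} {z₁ : ℝ → ι₁ → PhasePoint} {e : κ → ι₁}
  {ε a T : ℝ} {P₀ : ℝ → κ → Prop} {P₁ : ℝ → ι₁ → Prop}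

/-- At time `s` a particle influenced by `O` (or a particle of `O`) is infected in `Z` or `Z+O`. -/
def Touched (z₀ : ℝ → κ → PhasePoint) (z₁ : ℝ → ι₁ → PhasePoint) (e : κ → ι₁) (ε : ℝ)
    (P₀ : ℝ → κ → Prop) (P₁ : ℝ → ι₁ → Prop) (s : ℝ) : Prop :=
  (∃ k, Fut z₀ z₁ id e ε s k ∧ (P₀ s k ∨ P₁ s (e k))) ∨ ∃ j, j ∉ range e ∧ P₁ s j

theorem Touched.mono (hP₀ : IsRule z₀ ε a T P₀) (hP₁ : IsRule z₁ ε a T P₁) {s s' : ℝ}
    (ha : a ≤ s) (hss' : s ≤ s') (hT : s' ≤ T) (h : Touched z₀ z₁ e ε P₀ P₁ s) :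
    Touched z₀ z₁ e ε P₀ P₁ s' := by
  rcases h with ⟨k, hk, hP | hP⟩ | ⟨j, hj, hP⟩
  · exact Or.inl ⟨k, hk.mono hss', Or.inl (hP₀.mono ha hss' hT hP)⟩
  · exact Or.inl ⟨k, hk.mono hss', Or.inr (hP₁.mono ha hss' hT hP)⟩
  · exact Or.inr ⟨j, hj, hP₁.mono ha hss' hT hP⟩

/-- The touched times form a closed subset of `[a, T]`. -/
theorem isClosed_touched [Finite κ] [Finite ι₁]
    (hC₀ : ∀ j k, IsClosed {s | Ct z₀ ε s j k}) (hC₁ : ∀ j k, IsClosed {s | Ct z₁ ε s j k})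
    (hP₀ : IsRule z₀ ε a T P₀) (hP₁ : IsRule z₁ ε a T P₁) :
    IsClosed {s | s ∈ Icc a T ∧ Touched z₀ z₁ e ε P₀ P₁ s} := by
  have : {s | s ∈ Icc a T ∧ Touched z₀ z₁ e ε P₀ P₁ s} =
      (⋃ k, {s | Fut z₀ z₁ id e ε s k} ∩ {s | s ∈ Icc a T ∧ P₀ s k}) ∪
      (⋃ k, {s | Fut z₀ z₁ id e ε s k} ∩ {s | s ∈ Icc a T ∧ P₁ s (e k)}) ∪
      ⋃ j ∈ {j : ι₁ | j ∉ range e}, {s | s ∈ Icc a T ∧ P₁ s j} := by
    ext s
    simp only [Touched, mem_union, mem_iUnion, mem_inter_iff, mem_ofPred_eq, exists_prop]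
    constructor
    · rintro ⟨hs, ⟨k, hk, hP | hP⟩ | ⟨j, hj, hP⟩⟩
      · exact Or.inl (Or.inl ⟨k, hk, hs, hP⟩)
      · exact Or.inl (Or.inr ⟨k, hk, hs, hP⟩)
      · exact Or.inr ⟨j, hj, hs, hP⟩
    · rintro ((⟨k, hk, hs, hP⟩ | ⟨k, hk, hs, hP⟩) | ⟨j, hj, hs, hP⟩)
      · exact ⟨hs, Or.inl ⟨k, hk, Or.inl hP⟩⟩
      · exact ⟨hs, Or.inl ⟨k, hk, Or.inr hP⟩⟩
      · exact ⟨hs, Or.inr ⟨j, hj, hP⟩⟩
  rw [this]
  refine IsClosed.union (IsClosed.union ?_ ?_) ?_
  · exact isClosed_iUnion_of_finite fun k => (isClosed_fut hC₀ hC₁ k).inter (hP₀.closed k)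
  · exact isClosed_iUnion_of_finite fun k => (isClosed_fut hC₀ hC₁ k).inter (hP₁.closed (e k))
  · exact Set.Finite.isClosed_biUnion (Set.toFinite _) fun j _ => hP₁.closed j

/-- If not touched at `s`, then the infection processes agree at `s`, and no influenced particle is
infected. -/
theorem agreeAt_of_not_touched [Finite κ] [Finite ι₁]
    (hz₀ : ∀ j, ContinuousOn (fun s => z₀ s j) (Icc 0 T))
    (hz₁ : ∀ j, ContinuousOn (fun s => z₁ s j) (Icc 0 T))
    (hloc : LocUniq ε T z₀ z₁) (he : Function.Injective e)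
    (hcoh : ∀ s ∈ Icc a T, ∀ k, HistEq z₀ z₁ id e ε s k → (P₀ s k ↔ P₁ s (e k)))
    (hhist : ∀ s ∈ Icc 0 T, ∀ k, ¬ Fut z₀ z₁ id e ε s k → HistEq z₀ z₁ id e ε s k)
    (ha : 0 ≤ a) {s : ℝ} (hs : s ∈ Icc a T) (h : ¬ Touched z₀ z₁ e ε P₀ P₁ s) :
    AgreeAt z₀ z₁ id e P₀ P₁ s ∧
      ∀ k, Fut z₀ z₁ id e ε s k → ¬ P₀ s k ∧ ¬ P₁ s (e k) := by
  have h1 : ∀ k, Fut z₀ z₁ id e ε s k → ¬ P₀ s k ∧ ¬ P₁ s (e k) :=
    fun k hk => ⟨fun hP => h (Or.inl ⟨k, hk, Or.inl hP⟩), fun hP => h (Or.inl ⟨k, hk, Or.inr hP⟩)⟩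
  have h2 : ∀ j, P₁ s j → j ∈ range e := by
    intro j hj
    by_contra hjr
    exact h (Or.inr ⟨j, hjr, hj⟩)
  have hs0 : s ∈ Icc 0 T := ⟨ha.trans hs.1, hs.2⟩
  refine ⟨⟨fun j _ => ⟨j, rfl⟩, h2, fun k => ?_, fun k hk => ?_⟩, h1⟩
  · by_cases hk : Fut z₀ z₁ id e ε s k
    · exact ⟨fun hP => absurd hP (h1 k hk).1, fun hP => absurd hP (h1 k hk).2⟩
    · exact hcoh s hs k (hhist s hs0 k hk)
  · by_cases hkf : Fut z₀ z₁ id e ε s k
    · exact absurd hk (h1 k hkf).1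
    · exact agree_of_not_fut (e₁ := id) hz₀ hz₁ hloc Function.injective_id he hs0 hkf

/-- The history of a particle outside the forward closure is the same in both worlds (two-world
version of `Four.hist₀A`). -/
theorem histEq_of_not_fut [Finite κ] [Finite ι₁]
    (hz₀ : ∀ j, ContinuousOn (fun s => z₀ s j) (Icc 0 T))
    (hz₁ : ∀ j, ContinuousOn (fun s => z₁ s j) (Icc 0 T))
    (hloc : LocUniq ε T z₀ z₁) (he : Function.Injective e) {t : ℝ} (ht : t ∈ Icc 0 T) {k : κ}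
    (hk : ¬ Fut z₀ z₁ id e ε t k) : HistEq z₀ z₁ id e ε t k := by
  have ag : ∀ {s : ℝ}, s ∈ Icc 0 T → ∀ {j : κ}, ¬ Fut z₀ z₁ id e ε s j → z₀ s j = z₁ s (e j) :=
    fun hs _ hj => agree_of_not_fut (e₁ := id) hz₀ hz₁ hloc Function.injective_id he hs hj
  have hforw : ∀ (s : ℝ) (j : κ), Past (Ct z₀ ε) t k s j → 0 ≤ s →
      Past (Ct z₁ ε) t (e k) s (e j) ∧ ¬ Fut z₀ z₁ id e ε s j := by
    intro s j hj
    induction hj with
    | @root s h => exact fun _ => ⟨.root h, fun h' => hk (h'.mono h)⟩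
    | @step s s' j l h hc hss' ih =>
      intro hs
      have hs' : 0 ≤ s' := hs.trans hss'
      have hs'T : s' ∈ Icc 0 T := ⟨hs', h.le.trans ht.2⟩
      obtain ⟨h1, h2⟩ := ih hs'
      have hl : ¬ Fut z₀ z₁ id e ε s' l := fun h' => h2 (.chain₁ (e₁ := id) h' (Ct.symm hc) le_rfl)
      refine ⟨.step h1 ?_ hss', fun h' => hl (h'.mono hss')⟩
      change dist (z₁ s' (e j)).1 (z₁ s' (e l)).1 ≤ ε
      rw [← ag hs'T h2, ← ag hs'T hl]
      exact hc
  have hback : ∀ (s : ℝ) (x : ι₁), Past (Ct z₁ ε) t (e k) s x → 0 ≤ s →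
      ∃ j, e j = x ∧ Past (Ct z₀ ε) t k s j ∧ ¬ Fut z₀ z₁ id e ε s j := by
    intro s x hx
    induction hx with
    | @root s h => exact fun _ => ⟨k, rfl, .root h, fun h' => hk (h'.mono h)⟩
    | @step s s' x y h hc hss' ih =>
      intro hs
      have hs' : 0 ≤ s' := hs.trans hss'
      have hs'T : s' ∈ Icc 0 T := ⟨hs', h.le.trans ht.2⟩
      obtain ⟨j, rfl, h1, h2⟩ := ih hs'
      have hy : y ∈ range e := by
        by_contra hy
        exact h2 (.new₂ y hy (Ct.symm hc) hs' le_rfl)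
      obtain ⟨l, rfl⟩ := hy
      have hl : ¬ Fut z₀ z₁ id e ε s' l := fun h' => h2 (.chain₂ h' (Ct.symm hc) le_rfl)
      refine ⟨l, rfl, .step h1 ?_ hss', fun h' => hl (h'.mono hss')⟩
      change dist (z₀ s' j).1 (z₀ s' l).1 ≤ ε
      rw [ag hs'T h2, ag hs'T hl]
      exact hc
  refine ⟨fun s j _ _ => ⟨j, rfl⟩, fun s j hs hj => ?_, fun s j hs => ⟨fun hj => (hforw s j hj hs).1,
    fun hj => ?_⟩, fun s j hs hj => ?_⟩
  · obtain ⟨l, rfl, _⟩ := hback s j hj hs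
    exact ⟨l, rfl⟩
  · obtain ⟨l, hl, hl', _⟩ := hback s _ hj hs
    rw [he hl] at hl'
    exact hl'
  · have hjt : s ≤ t := Past.le hj
    exact ag ⟨hs, hjt.trans ht.2⟩ (hforw s j hj hs).2

/-- The touch time: first touched time in `[a, T]`, and `T + 1` if there is none. -/
noncomputable def theta (z₀ : ℝ → κ → PhasePoint) (z₁ : ℝ → ι₁ → PhasePoint) (e : κ → ι₁)
    (ε a T : ℝ) (P₀ : ℝ → κ → Prop) (P₁ : ℝ → ι₁ → Prop) : ℝ :=
  open scoped Classical in
  if ∃ s ∈ Icc a T, Touched z₀ z₁ e ε P₀ P₁ s then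
    sInf {s | s ∈ Icc a T ∧ Touched z₀ z₁ e ε P₀ P₁ s} else T + 1

theorem touched_iff_theta_le [Finite κ] [Finite ι₁]
    (hC₀ : ∀ j k, IsClosed {s | Ct z₀ ε s j k}) (hC₁ : ∀ j k, IsClosed {s | Ct z₁ ε s j k})
    (hP₀ : IsRule z₀ ε a T P₀) (hP₁ : IsRule z₁ ε a T P₁) {s : ℝ} (hs : s ∈ Icc a T) :
    Touched z₀ z₁ e ε P₀ P₁ s ↔ theta z₀ z₁ e ε a T P₀ P₁ ≤ s := by
  classical
  unfold theta
  by_cases hex : ∃ s ∈ Icc a T, Touched z₀ z₁ e ε P₀ P₁ s
  · rw [if_pos hex]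
    obtain ⟨s₁, hs₁, hs₁'⟩ := hex
    have hbd : BddBelow {s | s ∈ Icc a T ∧ Touched z₀ z₁ e ε P₀ P₁ s} := ⟨a, fun s hs => hs.1.1⟩
    constructor
    · intro h
      exact csInf_le hbd ⟨hs, h⟩
    · intro h
      have hmem := (isClosed_touched (e := e) hC₀ hC₁ hP₀ hP₁).csInf_mem ⟨s₁, hs₁, hs₁'⟩ hbd
      exact hmem.2.mono hP₀ hP₁ hmem.1.1 h hs.2
  · rw [if_neg hex]
    constructor
    · intro h
      exact absurd ⟨s, hs, h⟩ hex
    · intro h
      linarith [hs.2]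

theorem le_theta (haT : a ≤ T) : a ≤ theta z₀ z₁ e ε a T P₀ P₁ := by
  classical
  unfold theta
  split_ifs with h
  · obtain ⟨s₁, hs₁, hs₁'⟩ := h
    exact le_csInf ⟨s₁, hs₁, hs₁'⟩ fun s hs => hs.1.1
  · linarith

end touched

namespace Four

variable {κ ιA ιL ι : Type} {F : Four κ ιA ιL ι} {ε T : ℝ}
variable [Finite κ] [Finite ιA] [Finite ιL] [Finite ι]

/-- Under unlinked influences, the influence of `L` in `Z+A` is the influence of `L` in `Z`. -/
theorem fut_iff (hd : F.Dyn ε T) (hu : F.Unlinked ε T) {s : ℝ} (hs : s ≤ T) {x : ιA} :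
    Fut F.zA F.z id F.fA ε s x ↔ ∃ k, x = F.eA k ∧ k ∈ F.FL ε s := by
  constructor
  · intro h
    induction h with
    | init h _ => exact absurd (hd.initA _) h
    | new₁ j hj _ _ _ => exact absurd ⟨j, rfl⟩ hj
    | @new₂ s s' x j hj hc h0 hss' =>
      have hs'T : s' ∈ Icc 0 T := ⟨h0, hss'.trans hs⟩
      rcases F.cover j with h | ⟨y, rfl⟩
      · exact absurd h hj
      · have hy' : y ∈ F.IL ε s' := by
          intro k hk
          exact absurd ⟨F.eA k, by rw [F.comm k, hk]⟩ hj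
        obtain ⟨y', hy'', hxy⟩ := contact_IL hd hu hs'T hy' hc
        obtain ⟨k, hk, hk'⟩ := F.pull x y' hxy
        exact ⟨k, hk, FL_mono hss' (hy'' k hk')⟩
    | @chain₁ s s' x l h hc hss' ih =>
      have h0 : 0 ≤ s' := h.nonneg
      have hs'T : s' ∈ Icc 0 T := ⟨h0, hss'.trans hs⟩
      obtain ⟨k, rfl, hk⟩ := ih hs'T.2
      by_contra hno
      push Not at hno
      have h1 := isoA hd hu hs'T (x := x) (y := F.eA k)
        (fun k' hk' hk'' => hno k' hk' (FL_mono hss' hk''))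
        (fun h' => h' k rfl hk)
      exact absurd (Ct.symm hc) (not_le.2 h1)
    | @chain₂ s s' x l h hc hss' ih =>
      have h0 : 0 ≤ s' := h.nonneg
      have hs'T : s' ∈ Icc 0 T := ⟨h0, hss'.trans hs⟩
      obtain ⟨k, rfl, hk⟩ := ih hs'T.2
      have hc' : Ct F.z ε s' (F.fL (F.eL k)) (F.fA x) := by
        rw [← F.comm k]; exact hc
      obtain ⟨y', hy', hxy⟩ := contact_IL hd hu hs'T (y := F.eL k)
        (fun k' hk' => by rw [← F.eL_inj hk']; exact hk) hc'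
      obtain ⟨k', hk', hk''⟩ := F.pull x y' hxy
      exact ⟨k', hk', FL_mono hss' (hy' k' hk'')⟩
  · rintro ⟨k, rfl, hk⟩
    change Fut F.z₀ F.zL id F.eL ε s k at hk
    induction hk with
    | @init s k h h0 =>
      exfalso
      have h1 : k ∈ F.FL ε 0 := .init h le_rfl
      have h2 : k ∈ F.FA ε 0 := by
        refine .init ?_ le_rfl
        intro h3
        apply h
        rw [h3, hd.initA, F.comm k, ← hd.initL]
      exact hu.disj 0 ⟨le_rfl, h0.trans hs⟩ k h2 h1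
    | new₁ j hj _ _ _ => exact absurd ⟨j, rfl⟩ hj
    | @new₂ s s' k y hy hc h0 hss' =>
      have hs'T : s' ∈ Icc 0 T := ⟨h0, hss'.trans hs⟩
      have hkL : k ∈ F.FL ε s' := .new₂ y hy hc h0 le_rfl
      have hkA : k ∉ F.FA ε s' := fun h' => hu.disj s' hs'T k h' hkL
      refine .new₂ (F.fL y) ?_ ?_ h0 hss'
      · rintro ⟨x, hx⟩
        obtain ⟨k', _, hk'⟩ := F.pull x y hx
        exact hy ⟨k', hk'.symm⟩
      · change dist (F.z s' (F.fL y)).1 (F.z s' (F.fA (F.eA k))).1 ≤ ε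
        rw [F.comm k, ← glueL hd hu hs'T (y := y) (fun k' hk' => absurd ⟨k', hk'.symm⟩ hy),
          ← glueL hd hu hs'T (y := F.eL k) (fun k' hk' => by rw [← F.eL_inj hk']; exact hkA)]
        exact hc
    | @chain₁ s s' k l h hc hss' ih =>
      have h0 : 0 ≤ s' := h.nonneg
      have hs'T : s' ∈ Icc 0 T := ⟨h0, hss'.trans hs⟩
      have hlL : l ∈ F.FL ε s' := h
      have hkL : k ∈ F.FL ε s' := .chain₁ h hc le_rfl
      have hlA : l ∉ F.FA ε s' := fun h' => hu.disj s' hs'T l h' hlL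
      have hkA : k ∉ F.FA ε s' := fun h' => hu.disj s' hs'T k h' hkL
      refine .chain₁ (ih hs'T.2) ?_ hss'
      change dist (F.zA s' (F.eA l)).1 (F.zA s' (F.eA k)).1 ≤ ε
      rw [← agreeA hd hs'T hlA, ← agreeA hd hs'T hkA]
      exact hc
    | @chain₂ s s' k l h hc hss' ih =>
      have h0 : 0 ≤ s' := h.nonneg
      have hs'T : s' ∈ Icc 0 T := ⟨h0, hss'.trans hs⟩
      have hlL : l ∈ F.FL ε s' := h
      have hkL : k ∈ F.FL ε s' := .chain₂ h hc le_rfl
      have hlA : l ∉ F.FA ε s' := fun h' => hu.disj s' hs'T l h' hlL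
      have hkA : k ∉ F.FA ε s' := fun h' => hu.disj s' hs'T k h' hkL
      refine .chain₂ (ih hs'T.2) ?_ hss'
      change dist (F.z s' (F.fA (F.eA l))).1 (F.z s' (F.fA (F.eA k))).1 ≤ ε
      rw [F.comm k, F.comm l,
        ← glueL hd hu hs'T (y := F.eL l) (fun k' hk' => by rw [← F.eL_inj hk']; exact hlA),
        ← glueL hd hu hs'T (y := F.eL k) (fun k' hk' => by rw [← F.eL_inj hk']; exact hkA)]
      exact hc

/-- **World consistency (W1) for touches.** Under unlinked influences on `[0, T]`: `L` touches `Z`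
before `s` if and only if `L` touches `Z+A` before `s`. -/
theorem touched_iff (hd : F.Dyn ε T) (hu : F.Unlinked ε T) {a : ℝ} (ha : 0 ≤ a)
    {P₀ : ℝ → κ → Prop} {PA : ℝ → ιA → Prop} {PL : ℝ → ιL → Prop} {P : ℝ → ι → Prop}
    (hS : F.Status ε a T P₀ PA PL P) {s : ℝ} (hs : s ∈ Icc a T) :
    Touched F.zA F.z F.fA ε PA P s ↔ Touched F.z₀ F.zL F.eL ε P₀ PL s := by
  have hsT : s ∈ Icc 0 T := ⟨ha.trans hs.1, hs.2⟩
  have key : ∀ k, k ∈ F.FL ε s → (P₀ s k ↔ PA s (F.eA k)) ∧ (PL s (F.eL k) ↔ P s (F.fA (F.eA k))) := by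
    intro k hk
    have hkA : k ∉ F.FA ε s := fun h' => hu.disj s hsT k h' hk
    refine ⟨hS.coh₀A s hs k (hist₀A hd hsT hkA), ?_⟩
    rw [F.comm k]
    exact hS.cohL s hs _ (histL hd hu hsT fun k' hk' => by rw [← F.eL_inj hk']; exact hkA)
  have keyL : ∀ y, y ∉ range F.eL → (PL s y ↔ P s (F.fL y)) := fun y hy =>
    hS.cohL s hs _ (histL hd hu hsT fun k hk => absurd ⟨k, hk.symm⟩ hy)
  constructor
  · rintro (⟨x, hx, hP⟩ | ⟨j, hj, hP⟩)
    · obtain ⟨k, rfl, hk⟩ := (fut_iff hd hu hs.2).1 hx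
      refine Or.inl ⟨k, hk, ?_⟩
      rcases hP with hP | hP
      · exact Or.inl ((key k hk).1.2 hP)
      · exact Or.inr ((key k hk).2.2 hP)
    · rcases F.cover j with h | ⟨y, rfl⟩
      · exact absurd h hj
      · have hy : y ∉ range F.eL := by
          rintro ⟨k, rfl⟩
          exact hj ⟨F.eA k, F.comm k⟩
        exact Or.inr ⟨y, hy, (keyL y hy).2 hP⟩
  · rintro (⟨k, hk, hP⟩ | ⟨y, hy, hP⟩)
    · refine Or.inl ⟨F.eA k, (fut_iff hd hu hs.2).2 ⟨k, rfl, hk⟩, ?_⟩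
      rcases hP with hP | hP
      · exact Or.inl ((key k hk).1.1 hP)
      · exact Or.inr ((key k hk).2.1 hP)
    · refine Or.inr ⟨F.fL y, ?_, (keyL y hy).1 hP⟩
      rintro ⟨x, hx⟩
      obtain ⟨k, _, hk⟩ := F.pull x y hx
      exact hy ⟨k, hk.symm⟩

end Four

end Crest.Agent.R122.Causal291
end

-- ▼ part R122/InfRule_879

/-!
# The infection rule with marks (row 122, section E, captain's decision "MARKS")

Everything is stated for an arbitrary contact relation `C : ℝ → ι → ι → Prop` with closed contact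
sets `{s | C s j k}` over a finite index type, and marks `m : ι → ℕ`.

* `CtB b z ε` (file `CtB_879`): the contact relation of a world with births `b`.
* `msize C m t i`: the sum of the marks of the members of the backward cluster of `(i, t)`.
* `Infd C m K t i`: `K < msize C m t i` (infected).
* `pre C j σ s`: the backward exploration of `(j, σ⁻)`; `msizePre`.
* `isClosed_infd`, `Infd.of_past`, `isRule_infd`: hereditary, attained, for every `K`.
* `Act_eq_pre`: the exploration of `(i, t)` is the union of the explorations of `(j, t⁻)` over the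
  contact cluster of `i` at time `t`.
* `infd_alternative`: what happens at an infection time.
-/

set_option autoImplicit false
set_option linter.unusedSectionVars false

open Set Filter Topology MeasureTheory
open Crest.AnalysisR.Kinetic
open Crest.Agent.R122.Causal291

namespace Crest.Agent.R122.Inf879

/-! ### Dependence of the exploration on the root time -/

section root

variable {ι : Type*} {C : ℝ → ι → ι → Prop}

theorem past_root_mono {s' r s : ℝ} {i k : ι} (hr : s' ≤ r) (h : Past C s' i s k) :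
    Past C r i s k := by
  induction h with
  | root h => exact .root (h.trans hr)
  | step _ hc hs ih => exact .step ih hc hs

theorem BC_root_mono {s t : ℝ} (h : s ≤ t) (i : ι) : BC C s i ⊆ BC C t i :=
  fun _ hk => past_root_mono h hk

/-- If for a sequence of root times decreasing to `t` the particle `j` is active at time `t`, then it
is active at time `t` in the exploration from `(i, t)`. -/
theorem past_of_frequently [Finite ι] (hC : ∀ j k, IsClosed {s | C s j k}) {t : ℝ} {i : ι}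
    {u : ℕ → ℝ} (hu : Tendsto u atTop (𝓝 t)) (m : ℕ) :
    ∀ j, (∃ᶠ n in atTop, PastN C (u n) i m t j) → Past C t i t j := by
  induction m with
  | zero =>
    intro j hj
    obtain ⟨n, hn⟩ := hj.exists
    rw [hn.1]
    exact .root le_rfl
  | succ m ih =>
    intro j hj
    have h1 : (∃ᶠ n in atTop, PastN C (u n) i m t j) ∨
        ∃ᶠ n in atTop, ∃ s' l, t ≤ s' ∧ PastN C (u n) i m s' l ∧ C s' l j := by
      rw [← frequently_or_distrib]
      exact hj
    rcases h1 with h1 | h1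
    · exact ih j h1
    · -- the partner is constant along a subsequence
      have h2 : ∃ l, ∃ᶠ n in atTop, ∃ s', t ≤ s' ∧ PastN C (u n) i m s' l ∧ C s' l j := by
        by_contra hno
        have h3 : ∀ᶠ n in atTop, ∀ l, ¬ ∃ s', t ≤ s' ∧ PastN C (u n) i m s' l ∧ C s' l j := by
          rw [eventually_all]
          exact fun l => not_frequently.1 fun hl => hno ⟨l, hl⟩
        obtain ⟨n, ⟨s', l, h4, h5, h6⟩, hn⟩ := (h1.and_eventually h3).exists
        exact hn l ⟨s', h4, h5, h6⟩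
      obtain ⟨l, hl⟩ := h2
      have h3 : Past C t i t l := by
        refine ih l (hl.mono ?_)
        rintro n ⟨s', h4, h5, -⟩
        exact h5.mono h4
      refine Past.contact h3 ?_
      -- closedness of the contact set
      obtain ⟨φ, hφ, hφ'⟩ := extraction_of_frequently_atTop hl
      choose s' h4 h5 h6 using hφ'
      have h7 : Tendsto s' atTop (𝓝 t) :=
        tendsto_of_tendsto_of_tendsto_of_le_of_le tendsto_const_nhds (hu.comp hφ.tendsto_atTop)
          h4 fun n => (h5 n).past.le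
      exact (hC l j).mem_of_tendsto h7 (Eventually.of_forall h6)

/-- The set of root times for which a given pair `(k, s)` is explored is closed. -/
theorem isClosed_past_root [Finite ι] (hC : ∀ j k, IsClosed {s | C s j k}) (i : ι) (s : ℝ) (k : ι) :
    IsClosed {t | Past C t i s k} := by
  rw [← isSeqClosed_iff_isClosed]
  intro u t hu hlim
  by_cases hfr : ∃ n, u n ≤ t
  · obtain ⟨n, hn⟩ := hfr
    exact past_root_mono hn (hu n)
  push Not at hfr
  have hst : s ≤ t := ge_of_tendsto' hlim fun n => (hu n).le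
  have h1 : ∀ n, ∃ j, Past C (u n) i t j ∧ Past C t j s k :=
    fun n => (hu n).split hst (hfr n).le
  choose j hj hj' using h1
  obtain ⟨l, hl⟩ := Finite.exists_infinite_fiber j
  have hinf : Set.Infinite (j ⁻¹' {l}) := Set.infinite_coe_iff.1 hl
  have hfreq : ∃ᶠ n in atTop, j n = l := Nat.frequently_atTop_iff_infinite.2 hinf
  obtain ⟨n, hn⟩ := hfreq.exists
  have h2 : Past C t i t l := by
    refine past_of_frequently hC hlim (Nat.card ι - 1) l (hfreq.mono fun n hn => ?_)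
    rw [← hn]
    exact pastN_of_past (hj n)
  have h3 := hj' n
  rw [hn] at h3
  exact h2.trans h3

end root

/-! ### Size with marks -/

section size

variable {ι : Type*} [Fintype ι] {C : ℝ → ι → ι → Prop} {m : ι → ℕ} {K : ℕ}

open scoped Classical in
/-- The sum of the marks of the members of the backward cluster of `(i, t)`. -/
noncomputable def msize (C : ℝ → ι → ι → Prop) (m : ι → ℕ) (t : ℝ) (i : ι) : ℕ :=
  ∑ k, if k ∈ BC C t i then m k else 0

/-- Infected: the backward cluster has size (with marks) larger than `K`. -/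
def Infd (C : ℝ → ι → ι → Prop) (m : ι → ℕ) (K : ℕ) (t : ℝ) (i : ι) : Prop := K < msize C m t i

theorem msize_eq_filter (t : ℝ) (i : ι) [DecidablePred fun k => k ∈ BC C t i] :
    msize C m t i = ∑ k ∈ Finset.univ.filter (fun k => k ∈ BC C t i), m k := by
  classical
  unfold msize
  rw [Finset.sum_filter]
  exact Finset.sum_congr rfl fun k _ => by congr

/-- With all marks equal to `1` the size is the number of particles of the backward cluster. -/
theorem msize_one (t : ℝ) (i : ι) : msize C (fun _ => 1) t i = (BC C t i).ncard := by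
  classical
  rw [msize_eq_filter, Finset.sum_const, smul_eq_mul, mul_one, ← Set.ncard_coe_finset]
  congr 1
  ext k
  simp

theorem msize_mono_of_subset {C' : ℝ → ι → ι → Prop} {s t : ℝ} {i j : ι}
    (h : BC C s j ⊆ BC C' t i) : msize C m s j ≤ msize C' m t i := by
  classical
  unfold msize
  refine Finset.sum_le_sum fun k _ => ?_
  by_cases hk : k ∈ BC C s j
  · rw [if_pos hk, if_pos (h hk)]
  · rw [if_neg hk]; exact Nat.zero_le _

theorem msize_of_past {s t : ℝ} {i j : ι} (h : Past C t i s j) :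
    msize C m s j ≤ msize C m t i := msize_mono_of_subset (BC_subset_of_mem h)

theorem msize_mono {s t : ℝ} (h : s ≤ t) (i : ι) : msize C m s i ≤ msize C m t i :=
  msize_mono_of_subset (BC_root_mono h i)



theorem msize_congr {C' : ℝ → ι → ι → Prop} {t : ℝ} {i : ι} (h : BC C t i = BC C' t i) :
    msize C m t i = msize C' m t i :=
  le_antisymm (msize_mono_of_subset h.le) (msize_mono_of_subset h.ge)

theorem msize_of_neg {t : ℝ} (ht : t < 0) (i : ι) : msize C m t i = 0 := by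
  classical
  unfold msize
  refine Finset.sum_eq_zero fun k _ => if_neg fun hk => ?_
  exact absurd (Past.le hk) (not_le.2 ht)

/-- Transport of the size between two worlds whose backward clusters correspond to each other. -/
theorem msize_transport {ι₂ κ : Type*} [Fintype ι₂] [Finite κ] {C₂ : ℝ → ι₂ → ι₂ → Prop}
    {m₂ : ι₂ → ℕ} {e₁ : κ → ι} {e₂ : κ → ι₂} (he₁ : Function.Injective e₁)
    (he₂ : Function.Injective e₂) {t : ℝ} {i : ι} {i₂ : ι₂}
    (h₁ : BC C t i ⊆ range e₁) (h₂ : BC C₂ t i₂ ⊆ range e₂)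
    (hiff : ∀ k, e₁ k ∈ BC C t i ↔ e₂ k ∈ BC C₂ t i₂)
    (hm : ∀ k, e₁ k ∈ BC C t i → m (e₁ k) = m₂ (e₂ k)) :
    msize C m t i = msize C₂ m₂ t i₂ := by
  classical
  have := Fintype.ofFinite κ
  have h1 : msize C m t i = ∑ k : κ, if e₁ k ∈ BC C t i then m (e₁ k) else 0 := by
    unfold msize
    rw [← Finset.sum_subset (Finset.subset_univ (Finset.univ.map ⟨e₁, he₁⟩)), Finset.sum_map]
    · rfl
    · intro x _ hx
      refine if_neg fun hxB => hx ?_
      obtain ⟨k, rfl⟩ := h₁ hxB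
      exact Finset.mem_map.2 ⟨k, Finset.mem_univ k, rfl⟩
  have h2 : msize C₂ m₂ t i₂ = ∑ k : κ, if e₂ k ∈ BC C₂ t i₂ then m₂ (e₂ k) else 0 := by
    unfold msize
    rw [← Finset.sum_subset (Finset.subset_univ (Finset.univ.map ⟨e₂, he₂⟩)), Finset.sum_map]
    · rfl
    · intro x _ hx
      refine if_neg fun hxB => hx ?_
      obtain ⟨k, rfl⟩ := h₂ hxB
      exact Finset.mem_map.2 ⟨k, Finset.mem_univ k, rfl⟩
  rw [h1, h2]
  refine Finset.sum_congr rfl fun k _ => ?_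
  by_cases hk : e₁ k ∈ BC C t i
  · rw [if_pos hk, if_pos ((hiff k).1 hk), hm k hk]
  · rw [if_neg hk, if_neg fun h => hk ((hiff k).2 h)]

/-! ### The rule -/

theorem Infd.of_past {s t : ℝ} {i j : ι} (h : Past C t i s j) (hj : Infd C m K s j) :
    Infd C m K t i := lt_of_lt_of_le hj (msize_of_past h)

theorem Infd.mono {s t : ℝ} {i : ι} (h : Infd C m K s i) (hst : s ≤ t) : Infd C m K t i :=
  lt_of_lt_of_le h (msize_mono hst i)

theorem Infd.anti {K' : ℕ} {t : ℝ} {i : ι} (h : Infd C m K' t i) (hK : K ≤ K') : Infd C m K t i :=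
  lt_of_le_of_lt hK h

theorem Infd.nonneg {t : ℝ} {i : ι} (h : Infd C m K t i) : 0 ≤ t := by
  by_contra hlt
  push Not at hlt
  rw [Infd, msize_of_neg hlt] at h
  exact absurd h (Nat.not_lt_zero _)

theorem Infd.contact (hs : ∀ s j k, C s j k → C s k j) {s : ℝ} {i j : ι} (hc : C s i j)
    (h : Infd C m K s i) : Infd C m K s j :=
  h.of_past (Past.contact (.root le_rfl) (hs _ _ _ hc))

/-- Infection times are attained. -/
theorem isClosed_infd (hC : ∀ j k, IsClosed {s | C s j k}) (i : ι) :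
    IsClosed {t | Infd C m K t i} := by
  classical
  have h1 : {t | Infd C m K t i} =
      ⋃ S ∈ {S : Finset ι | K < ∑ k ∈ S, m k}, ⋂ k ∈ S, {t | k ∈ BC C t i} := by
    ext t
    simp only [mem_ofPred_eq, mem_iUnion, mem_iInter, exists_prop]
    constructor
    · intro h
      refine ⟨Finset.univ.filter fun k => k ∈ BC C t i, ?_, fun k hk => ?_⟩
      · rw [← msize_eq_filter]; exact h
      · simpa using hk
    · rintro ⟨S, hS, hS'⟩
      refine lt_of_lt_of_le hS ?_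
      rw [msize_eq_filter]
      refine Finset.sum_le_sum_of_subset fun k hk => ?_
      simpa using hS' k hk
  rw [h1]
  refine Set.Finite.isClosed_biUnion (Set.toFinite _) fun S _ => ?_
  exact isClosed_biInter fun k _ => isClosed_past_root hC i 0 k


/-- Equal histories give equal sizes. -/
theorem msize_eq_of_histEq {ι₁ ι₂ κ : Type} [Fintype ι₁] [Fintype ι₂] [Finite κ]
    {z₁ : ℝ → ι₁ → PhasePoint} {z₂ : ℝ → ι₂ → PhasePoint} {e₁ : κ → ι₁} {e₂ : κ → ι₂}
    (he₁ : Function.Injective e₁) (he₂ : Function.Injective e₂) {m₁ : ι₁ → ℕ} {m₂ : ι₂ → ℕ}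
    (hm : ∀ k, m₁ (e₁ k) = m₂ (e₂ k)) {ε t : ℝ} {i : κ} (h : HistEq z₁ z₂ e₁ e₂ ε t i) :
    msize (Ct z₁ ε) m₁ t (e₁ i) = msize (Ct z₂ ε) m₂ t (e₂ i) :=
  msize_transport he₁ he₂ (fun j hj => h.sub₁ 0 j le_rfl hj) (fun j hj => h.sub₂ 0 j le_rfl hj)
    (fun k => h.iff 0 k le_rfl) fun k _ => hm k

theorem infd_iff_of_histEq {ι₁ ι₂ κ : Type} [Fintype ι₁] [Fintype ι₂] [Finite κ]
    {z₁ : ℝ → ι₁ → PhasePoint} {z₂ : ℝ → ι₂ → PhasePoint} {e₁ : κ → ι₁} {e₂ : κ → ι₂}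
    (he₁ : Function.Injective e₁) (he₂ : Function.Injective e₂) {m₁ : ι₁ → ℕ} {m₂ : ι₂ → ℕ}
    (hm : ∀ k, m₁ (e₁ k) = m₂ (e₂ k)) {ε t : ℝ} {i : κ} (h : HistEq z₁ z₂ e₁ e₂ ε t i) (K : ℕ) :
    Infd (Ct z₁ ε) m₁ K t (e₁ i) ↔ Infd (Ct z₂ ε) m₂ K t (e₂ i) := by
  unfold Infd
  rw [msize_eq_of_histEq he₁ he₂ hm h]

end size

/-! ### Explorations just before a time -/

section pre

variable {ι : Type*} {C : ℝ → ι → ι → Prop} {m : ι → ℕ} {K : ℕ}

/-- The backward exploration of `(j, σ⁻)`. -/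
def pre (C : ℝ → ι → ι → Prop) (j : ι) (σ s : ℝ) : Set ι := {k | ∃ s' ∈ Ico s σ, Past C s' j s k}


theorem mem_pre_self {σ s : ℝ} {j : ι} (hs : s < σ) : j ∈ pre C j σ s :=
  ⟨s, ⟨le_rfl, hs⟩, .root le_rfl⟩

theorem pre_anti {σ s s' : ℝ} {j : ι} (h : s ≤ s') : pre C j σ s' ⊆ pre C j σ s := by
  rintro k ⟨r, hr, hp⟩
  exact ⟨r, ⟨h.trans hr.1, hr.2⟩, hp.mono h⟩


theorem Act_subset_pre {r σ s : ℝ} {j : ι} (hr : r < σ) : Act C r j s ⊆ pre C j σ s := by
  intro k hk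
  exact ⟨r, ⟨Past.le hk, hr⟩, hk⟩

/-- Just before `σ` the exploration of `(j, r)` is the exploration of `(j, σ⁻)`. -/
theorem exists_Act_eq_pre [Finite ι] {σ s : ℝ} {j : ι} (hs : s < σ) :
    ∃ r ∈ Ico s σ, ∀ r' ∈ Ico r σ, Act C r' j s = pre C j σ s := by
  classical
  have := Fintype.ofFinite ι
  have h1 : ∀ k, ∃ r ∈ Ico s σ, k ∈ pre C j σ s → Past C r j s k := by
    intro k
    by_cases hk : k ∈ pre C j σ s
    · obtain ⟨r, hr, hp⟩ := hk
      exact ⟨r, hr, fun _ => hp⟩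
    · exact ⟨s, ⟨le_rfl, hs⟩, fun h => absurd h hk⟩
  choose r hr hr' using h1
  have hne : (Finset.univ : Finset ι).Nonempty := ⟨j, Finset.mem_univ j⟩
  refine ⟨Finset.univ.sup' hne r, ⟨(hr j).1.trans (Finset.le_sup' r (Finset.mem_univ j)), ?_⟩, ?_⟩
  · rw [Finset.sup'_lt_iff]
    exact fun k _ => (hr k).2
  · intro r' hr''
    refine Subset.antisymm (Act_subset_pre hr''.2) fun k hk => ?_
    exact past_root_mono ((Finset.le_sup' r (Finset.mem_univ k)).trans hr''.1) (hr' k hk)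

/-- The exploration from `(i, t)` is the union of the explorations from `(j, t⁻)` over the contact
cluster of `i` at time `t`. -/
theorem Act_eq_biUnion_pre [Finite ι] (hC : ∀ j k, IsClosed {s | C s j k}) {t s : ℝ} {i : ι}
    (hs : s < t) : Act C t i s = ⋃ j ∈ Act C t i t, pre C j t s := by
  ext k
  simp only [mem_iUnion, exists_prop]
  constructor
  · intro hk
    obtain ⟨δ, hδ, hδ'⟩ := eventually_Act_eq_left (C := C) (t := t) (i := i) hC t
    set r := max s (t - δ / 2) with hr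
    have hrt : r < t := max_lt hs (by linarith)
    have hrδ : t - δ < r := lt_of_lt_of_le (by linarith) (le_max_right _ _)
    obtain ⟨j, hj, hjk⟩ := Past.split (show Past C t i s k from hk) (le_max_left s (t - δ / 2))
      hrt.le
    have h1 : j ∈ Act C t i r := hj
    rw [hδ' r hrδ hrt.le] at h1
    exact ⟨j, h1, r, ⟨le_max_left _ _, hrt⟩, hjk⟩
  · rintro ⟨j, hj, r, hr, hp⟩
    exact Past.trans (show Past C t i t j from hj) (past_root_mono hr.2.le hp)

variable [Fintype ι]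

open scoped Classical in
/-- The size of the backward cluster of `(j, σ⁻)`. -/
noncomputable def msizePre (C : ℝ → ι → ι → Prop) (m : ι → ℕ) (σ : ℝ) (j : ι) : ℕ :=
  ∑ k, if k ∈ pre C j σ 0 then m k else 0


/-- `(j, σ⁻)` is clean if and only if `j` is not infected before `σ`. -/
theorem msizePre_le_iff {σ : ℝ} (hσ : 0 < σ) (j : ι) :
    msizePre C m σ j ≤ K ↔ ∀ u < σ, ¬ Infd C m K u j := by
  classical
  obtain ⟨r, hr, hr'⟩ := exists_Act_eq_pre (C := C) (j := j) hσ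
  have h1 : msizePre C m σ j = msize C m r j := by
    unfold msizePre msize
    refine Finset.sum_congr rfl fun k _ => ?_
    have h2 : k ∈ pre C j σ 0 ↔ k ∈ BC C r j := by
      rw [← hr' r ⟨le_rfl, hr.2⟩]
      exact Iff.rfl
    by_cases hk : k ∈ pre C j σ 0
    · rw [if_pos hk, if_pos (h2.1 hk)]
    · rw [if_neg hk, if_neg fun h => hk (h2.2 h)]
  constructor
  · intro h u hu hI
    have h3 : msize C m u j ≤ msizePre C m σ j := by
      unfold msizePre msize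
      refine Finset.sum_le_sum fun k _ => ?_
      by_cases hk : k ∈ BC C u j
      · rw [if_pos hk, if_pos (Act_subset_pre hu hk)]
      · rw [if_neg hk]; exact Nat.zero_le _
    exact absurd (lt_of_lt_of_le hI h3) (not_lt.2 h)
  · intro h
    rw [h1]
    exact not_lt.1 (h r hr.2)



end pre

end Crest.Agent.R122.Inf879
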