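import Crest.Agent.R122.MeasS_416
import Crest.Agent.R122.InfRule_879
import Crest.Agent.R122.BirthsEvo_45

/-!
# Measurability for worlds with births (row 122, helper416)

* `continuous_evo`: the total evolution with births is continuous in the final time.
* `RSE.ctB_evo`: contacts (with births) along the evolution are random sigma-closed events, jointly
  in the births, the configuration and any parameter.
* `RSE.infd`, `measurable_msize`.
-/

set_option autoImplicit false
set_option linter.unusedSectionVars false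

open Set Filter Topology MeasureTheory
open Crest.AnalysisR.Kinetic
open Crest.Agent.R122.Flow671 Crest.Agent.R122.Causal291 Crest.Agent.R122.Ins45
open Crest.Agent.R122.Inf879
open scoped ENNReal

namespace Crest.Agent.R122.MeasE416

noncomputable section

/-! ### Continuity in time of the total evolution -/

section evo

variable {Φ : Space3 → ℝ} {ε : ℝ} {ι : Type*} [Fintype ι]

/-- The first birth after `s` (only meaningful when there is one). -/
theorem nxt_eq_of_min {b : ι → ℝ} {s : ℝ} {i₀ : ι} (hi₀ : s < b i₀)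
    (hmin : ∀ i, s < b i → b i₀ ≤ b i) (t : ℝ) : nxt b s t = min t (b i₀) := by
  refine le_antisymm (le_min (nxt_le b s t) (nxt_le_birth hi₀)) ?_
  exact le_nxt (min_le_left _ _) fun i hi => (min_le_right _ _).trans (hmin i hi)

theorem continuous_evoN (hΦ : AdmissiblePotential Φ) (hε : 0 < ε) (b : ι → ℝ) (n : ℕ) :
    ∀ (s : ℝ) (Z : ι → PhasePoint), Continuous fun t => evoN Φ ε b n s t Z := by
  induction n with
  | zero =>
    intro s Z
    exact (continuous_flowA hΦ hε (alive b s) Z).comp (continuous_id.sub continuous_const)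
  | succ n ih =>
    intro s Z
    have hfl : Continuous fun t => flowA Φ ε (alive b s) (t - s) Z :=
      (continuous_flowA hΦ hε (alive b s) Z).comp (continuous_id.sub continuous_const)
    by_cases h0 : ∀ i, b i ≤ s
    · have : (fun t => evoN Φ ε b (n + 1) s t Z) = fun t => flowA Φ ε (alive b s) (t - s) Z := by
        funext t
        exact evoN_of_no_birth b _ Z fun i hi => absurd (h0 i) (not_le.2 hi)
      rw [this]
      exact hfl
    · push Not at h0
      obtain ⟨i₁, hi₁⟩ := h0
      obtain ⟨i₀, hi₀, hmin⟩ := (Set.toFinite {i | s < b i}).exists_minimalFor b {i | s < b i}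
        ⟨i₁, hi₁⟩
      have hmin' : ∀ i, s < b i → b i₀ ≤ b i := by
        intro i hi
        rcases le_total (b i) (b i₀) with h1 | h1
        · exact hmin hi h1
        · exact h1
      have h2 : (fun t => evoN Φ ε b (n + 1) s t Z) = fun t => if t ≤ b i₀ then
          flowA Φ ε (alive b s) (t - s) Z else
          evoN Φ ε b n (b i₀) t (flowA Φ ε (alive b s) (b i₀ - s) Z) := by
        funext t
        simp only [evoN, nxt_eq_of_min hi₀ hmin' t]
        rcases le_or_gt t (b i₀) with h | h
        · rw [min_eq_left h, if_neg (lt_irrefl _), if_pos h]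
        · rw [min_eq_right h.le, if_pos h, if_neg (not_le.2 h)]
      rw [h2]
      refine Continuous.if_le hfl (ih (b i₀) _) continuous_id continuous_const ?_
      intro t ht
      rw [ht, evoN_self hΦ hε]

/-- The total evolution with births is continuous in the final time. -/
theorem continuous_evo (hΦ : AdmissiblePotential Φ) (hε : 0 < ε) (b : ι → ℝ) (s : ℝ)
    (Z : ι → PhasePoint) : Continuous fun t => evo Φ ε b s t Z := continuous_evoN hΦ hε b _ s Z

variable {Ω : Type*} [MeasurableSpace Ω]

/-- Distances along the evolution with births are continuous in time and measurable. -/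
theorem CF0.dist_evo (hΦ : AdmissiblePotential Φ) (hε : 0 < ε) {b : Ω → ι → ℝ} {t₀ : Ω → ℝ}
    {Z : Ω → ι → PhasePoint} (hb : ∀ i, Measurable fun ω => b ω i) (ht₀ : Measurable t₀)
    (hZ : Measurable Z) (j k : ι) :
    CF0 fun ω s => dist (evo Φ ε (b ω) (t₀ ω) s (Z ω) j).1 (evo Φ ε (b ω) (t₀ ω) s (Z ω) k).1 := by
  refine ⟨fun ω => ?_, fun s => ?_⟩
  · have h := continuous_evo hΦ hε (b ω) (t₀ ω) (Z ω)
    exact (((continuous_apply j).comp h).fst).dist (((continuous_apply k).comp h).fst)
  · have h := measurable_evo hΦ hε hb ht₀ (measurable_const (a := s)) hZ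
    exact (((measurable_pi_apply j).comp h).fst).dist (((measurable_pi_apply k).comp h).fst)

/-- Distances between particles of the world and a random continuous path. -/
theorem CF0.dist_evo_path (hΦ : AdmissiblePotential Φ) (hε : 0 < ε) {b : Ω → ι → ℝ} {t₀ : Ω → ℝ}
    {Z : Ω → ι → PhasePoint} (hb : ∀ i, Measurable fun ω => b ω i) (ht₀ : Measurable t₀)
    (hZ : Measurable Z) (j : ι) {c : Ω → ℝ → Space3} (hc : ∀ ω, Continuous (c ω))
    (hcm : ∀ s, Measurable fun ω => c ω s) :
    CF0 fun ω s => dist (evo Φ ε (b ω) (t₀ ω) s (Z ω) j).1 (c ω s) := by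
  refine ⟨fun ω => ?_, fun s => ?_⟩
  · have h := continuous_evo hΦ hε (b ω) (t₀ ω) (Z ω)
    exact (((continuous_apply j).comp h).fst).dist (hc ω)
  · have h := measurable_evo hΦ hε hb ht₀ (measurable_const (a := s)) hZ
    exact (((measurable_pi_apply j).comp h).fst).dist (hcm s)

/-- **Contacts with births** (`CtB` of helper879), for general random continuous distances. -/
theorem RSE.ctB {b : Ω → ι → ℝ} {z : Ω → ℝ → ι → PhasePoint}
    (hb : ∀ i, Measurable fun ω => b ω i)
    (hz : ∀ j k, CF0 fun ω s => dist (z ω s j).1 (z ω s k).1) (ε' : ℝ) (j k : ι) :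
    RSE fun ω s => CtB (b ω) (z ω) ε' s j k :=
  (RSE.le_time (hb j)).and ((RSE.le_time (hb k)).and
    (((RSE.const' (j = k)).or ((RSE.lt_time (hb j)).or (RSE.lt_time (hb k)))).and
      (RCE.of_le (hz j k) ε').rse))

/-- **Contacts with births** along the evolution are random sigma-closed events. -/
theorem RSE.ctB_evo (hΦ : AdmissiblePotential Φ) (hε : 0 < ε) {b : Ω → ι → ℝ} {t₀ : Ω → ℝ}
    {Z : Ω → ι → PhasePoint} (hb : ∀ i, Measurable fun ω => b ω i) (ht₀ : Measurable t₀)
    (hZ : Measurable Z) (ε' : ℝ) (j k : ι) :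
    RSE fun ω s => CtB (b ω) (fun r => evo Φ ε (b ω) (t₀ ω) r (Z ω)) ε' s j k :=
  RSE.ctB (z := fun ω r => evo Φ ε (b ω) (t₀ ω) r (Z ω)) hb
    (fun j k => CF0.dist_evo hΦ hε hb ht₀ hZ j k) ε' j k


/-- Distances along the Newton flow. -/
theorem CF0.dist_flow (hΦ : AdmissiblePotential Φ) (hε : 0 < ε) {Z : Ω → ι → PhasePoint}
    (hZ : Measurable Z) (j k : ι) :
    CF0 fun ω s => dist (flow Φ ε s (Z ω) j).1 (flow Φ ε s (Z ω) k).1 := by
  refine ⟨fun ω => ?_, fun s => ?_⟩
  · have h := flow_continuous_time hΦ hε (Z ω)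
    exact (((continuous_apply j).comp h).fst).dist (((continuous_apply k).comp h).fst)
  · have h : Measurable fun ω => flow Φ ε s (Z ω) :=
      (measurable_flow_joint (ι := ι) hΦ hε).comp (measurable_const.prodMk hZ)
    exact (((measurable_pi_apply j).comp h).fst).dist (((measurable_pi_apply k).comp h).fst)


theorem CF0.dist_flow_path (hΦ : AdmissiblePotential Φ) (hε : 0 < ε) {Z : Ω → ι → PhasePoint}
    (hZ : Measurable Z) (j : ι) {c : Ω → ℝ → Space3} (hc : ∀ ω, Continuous (c ω))
    (hcm : ∀ s, Measurable fun ω => c ω s) :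
    CF0 fun ω s => dist (flow Φ ε s (Z ω) j).1 (c ω s) := by
  refine ⟨fun ω => ?_, fun s => ?_⟩
  · have h := flow_continuous_time hΦ hε (Z ω)
    exact (((continuous_apply j).comp h).fst).dist (hc ω)
  · have h : Measurable fun ω => flow Φ ε s (Z ω) :=
      (measurable_flow_joint (ι := ι) hΦ hε).comp (measurable_const.prodMk hZ)
    exact (((measurable_pi_apply j).comp h).fst).dist (hcm s)

end evo

/-! ### Sizes and infection (rule of helper879) -/

section infd

variable {Ω : Type*} [MeasurableSpace Ω] {ι : Type*} [Fintype ι] {C : Ω → ℝ → ι → ι → Prop}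

theorem msize_eq_msz (C : ℝ → ι → ι → Prop) (m : ι → ℕ) (t : ℝ) (i : ι) :
    msize C m t i = msz C m 0 t i := by
  classical
  unfold msize msz
  exact Finset.sum_congr rfl fun k _ => by
    congr

theorem RCE.infd (hC : ∀ j k, RCE fun ω s => C ω s j k) {m : Ω → ι → ℕ}
    (hm : ∀ k, Measurable fun ω => m ω k) (K : ℕ) (i : ι) :
    RCE fun ω t => Infd (C ω) (m ω) K t i :=
  (RCE.lt_msz hC hm (measurable_const (a := (0 : ℝ))) i K).congr fun ω t => by
    rw [Infd, msize_eq_msz]

theorem RSE.infd (hC : ∀ j k, RSE fun ω s => C ω s j k) {m : Ω → ι → ℕ}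
    (hm : ∀ k, Measurable fun ω => m ω k) (K : ℕ) (i : ι) :
    RSE fun ω t => Infd (C ω) (m ω) K t i :=
  (RSE.lt_msz hC hm (measurable_const (a := (0 : ℝ))) i K).congr fun ω t => by
    rw [Infd, msize_eq_msz]

theorem measurable_msize (hC : ∀ j k, RSE fun ω s => C ω s j k) {m : Ω → ι → ℕ}
    (hm : ∀ k, Measurable fun ω => m ω k) {τ : Ω → ℝ} (hτ : Measurable τ) (i : ι) :
    Measurable fun ω => msize (C ω) (m ω) (τ ω) i := by
  simp only [msize_eq_msz]
  exact RSE.measurable_msz hC hm measurable_const hτ i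

end infd

end

end Crest.Agent.R122.MeasE416
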