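import Crest.Agent.R122.VLDefs_581
import Crest.Agent.R122.MeasEvo_416

/-!
# Row 122, D2/D3/H11 (helper973): measurability of `VCt`, `Conn`, `TreeLike`

Everything is joint in the births and the configuration: `Ω` is any measurable space,
`b : Ω → J → ℝ`, `Z : Ω → J → PhasePoint` are measurable.

* `RSE.ok`, `RSE.vct` : random sigma-closed events (helper416).
* `measurableSet_conn`.
* `TLQ` : tree-like with rational times; `TreeLike C ℓ ς → TLQ C ℓ' ς → TreeLike C ℓ' ς` (`ℓ < ℓ'`),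
  `measurableSet_tlq`.
-/

set_option autoImplicit false
set_option linter.unusedSectionVars false

open MeasureTheory Set Filter Topology
open Crest.AnalysisR.Kinetic
open Crest.Agent.R122.Ins45 Crest.Agent.R122.GIV566 Crest.Agent.R122.VL581
open Crest.Agent.R122.MeasE416
open scoped Classical ENNReal NNReal

noncomputable section

namespace Crest.Agent.R122.VLMeas973

variable {J κ : Type} [Fintype J] {Ω : Type*} [MeasurableSpace Ω]

/-- The same system with other births. -/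
def wb (M : VSys J κ) (b : J → ℝ) : VSys J κ := { M with b := b }

@[simp] theorem wb_Φ (M : VSys J κ) (b : J → ℝ) : (wb M b).Φ = M.Φ := rfl
@[simp] theorem wb_T (M : VSys J κ) (b : J → ℝ) : (wb M b).T = M.T := rfl
@[simp] theorem wb_ε (M : VSys J κ) (b : J → ℝ) : (wb M b).ε = M.ε := rfl
@[simp] theorem wb_o (M : VSys J κ) (b : J → ℝ) : (wb M b).o = M.o := rfl
@[simp] theorem wb_S (M : VSys J κ) (b : J → ℝ) : (wb M b).S = M.S := rfl
@[simp] theorem wb_b (M : VSys J κ) (b : J → ℝ) : (wb M b).b = b := rfl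


/-- State with a fixed set `B` of interacting members. -/
def stB (Φ : Space3 → ℝ) (ε : ℝ) (c : J → ℝ) (B : Finset J) (t : ℝ) (Z : J → PhasePoint) (i : J) :
    PhasePoint :=
  if h : i ∈ B then
    evo Φ ε (fun j : B => c j) (-1) t (fun j : B => ((Z j).1 - (Z j).2, (Z j).2)) ⟨i, h⟩
  else ((Z i).1 + t • (Z i).2, (Z i).2)

theorem st_eq (M : VSys J κ) (A : Finset J) (t : ℝ) (Z : J → PhasePoint) (i : J) :
    M.st A t Z i = stB M.Φ M.ε M.bb (M.mem A t) t Z i := rfl

section basic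

variable {Φ : Space3 → ℝ} {ε : ℝ} {c : Ω → J → ℝ} {Z : Ω → J → PhasePoint}

theorem continuous_stB (hΦ : AdmissiblePotential Φ) (hε : 0 < ε) (c : J → ℝ) (B : Finset J)
    (Z : J → PhasePoint) (i : J) : Continuous fun t => stB Φ ε c B t Z i := by
  unfold stB
  by_cases h : i ∈ B
  · simp only [dif_pos h]
    exact (continuous_apply _).comp (continuous_evo hΦ hε _ _ _)
  · simp only [dif_neg h]
    exact (continuous_const.add (continuous_id.smul continuous_const)).prodMk continuous_const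

theorem measurable_stB (hΦ : AdmissiblePotential Φ) (hε : 0 < ε) (hc : ∀ i, Measurable fun ω => c ω i)
    (hZ : Measurable Z) (B : Finset J) {τ : Ω → ℝ} (hτ : Measurable τ) (i : J) :
    Measurable fun ω => stB Φ ε (c ω) B (τ ω) (Z ω) i := by
  have hZi : ∀ j, Measurable fun ω => Z ω j := fun j => (measurable_pi_apply j).comp hZ
  unfold stB
  by_cases h : i ∈ B
  · simp only [dif_pos h]
    refine (measurable_pi_apply _).comp (measurable_evo hΦ hε (fun j => hc j) measurable_const hτ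
      (measurable_pi_lambda _ fun j => ?_))
    exact ((hZi j).fst.sub (hZi j).snd).prodMk (hZi j).snd
  · simp only [dif_neg h]
    exact ((hZi i).fst.add (hτ.smul (hZi i).snd)).prodMk (hZi i).snd

end basic

section sys

variable {M : VSys J κ} {b : Ω → J → ℝ} {Z : Ω → J → PhasePoint}

/-- Standing hypotheses on the system. -/
structure Good (M : VSys J κ) : Prop where
  adm : AdmissiblePotential M.Φ
  eps : 0 < M.ε
  T0 : 0 ≤ M.T
  tubes : ∀ k, ContinuousOn (M.S.c k) (Icc 0 M.T)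

theorem measurable_bb (M : VSys J κ) (hb : Measurable b) (i : J) : Measurable fun ω => (wb M (b ω)).bb i :=
  ((measurable_pi_apply i).comp hb).max measurable_const

theorem rse_mem_eq (hb : Measurable b) (A B : Finset J) :
    RSE fun ω t => (wb M (b ω)).mem A t = B := by
  have h : ∀ i, RSE fun ω t => (i ∈ (wb M (b ω)).mem A t ↔ i ∈ B) := by
    intro i
    by_cases hi : i ∈ B
    · refine ((RSE.const' (i ∈ A ∧ M.o ≠ some i)).and (RSE.lt_time (measurable_bb M hb i))).congr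
        fun ω t => ?_
      simp only [VSys.mem, Finset.mem_filter, hi, iff_true, wb_o, and_assoc]
    · refine ((RSE.const' (¬ (i ∈ A ∧ M.o ≠ some i))).or
        (RSE.time_le (measurable_bb M hb i))).congr fun ω t => ?_
      simp only [VSys.mem, Finset.mem_filter, hi, iff_false, wb_o, ← and_assoc]
      rw [not_and_or, not_lt]
  exact (RSE.forall_finite h).congr fun ω t => Finset.ext_iff

theorem measurable_st (hM : Good M) (hb : Measurable b) (hZ : Measurable Z) (A : Finset J)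
    {τ : Ω → ℝ} (hτ : Measurable τ) (i : J) :
    Measurable fun ω => (wb M (b ω)).st A (τ ω) (Z ω) i := by
  intro s hs
  have h : (fun ω => (wb M (b ω)).st A (τ ω) (Z ω) i) ⁻¹' s =
      ⋃ B : Finset J, {ω | (wb M (b ω)).mem A (τ ω) = B} ∩
        (fun ω => stB M.Φ M.ε (wb M (b ω)).bb B (τ ω) (Z ω) i) ⁻¹' s := by
    ext ω
    simp only [mem_preimage, mem_iUnion, mem_inter_iff, mem_ofPred_eq, exists_eq_left']
    rw [st_eq]
    rfl
  rw [h]
  refine MeasurableSet.iUnion fun B => ((rse_mem_eq hb A B).measurableSet_at hτ).inter ?_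
  exact measurable_stB hM.adm hM.eps (fun i => measurable_bb M hb i) hZ B hτ i hs

/-- **`ok`** is a random sigma-closed event. -/
theorem rse_ok (hM : Good M) (hb : Measurable b) (hZ : Measurable Z) (A : Finset J) :
    RSE fun ω t => (wb M (b ω)).ok A t (Z ω) := by
  unfold VSys.ok
  refine RSE.forall_finite fun i => ?_
  refine ((RSE.const' (¬ (i ∈ A ∧ M.o ≠ some i))).or ((RSE.time_le (measurable_bb M hb i)).or
    (RSE.const (A := fun ω => ∀ j ∈ A, M.o ≠ some j → j ≠ i →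
      (wb M (b ω)).bb j ≤ (wb M (b ω)).bb i →
      M.ε < dist ((wb M (b ω)).st A ((wb M (b ω)).bb i) (Z ω) i).1
        ((wb M (b ω)).st A ((wb M (b ω)).bb i) (Z ω) j).1) ?_))).congr fun ω t => ?_
  · have h : {ω | ∀ j ∈ A, M.o ≠ some j → j ≠ i → (wb M (b ω)).bb j ≤ (wb M (b ω)).bb i →
      M.ε < dist ((wb M (b ω)).st A ((wb M (b ω)).bb i) (Z ω) i).1
        ((wb M (b ω)).st A ((wb M (b ω)).bb i) (Z ω) j).1} =
      ⋂ j : J, {ω | (j ∈ A ∧ M.o ≠ some j ∧ j ≠ i) → (wb M (b ω)).bb j ≤ (wb M (b ω)).bb i →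
      M.ε < dist ((wb M (b ω)).st A ((wb M (b ω)).bb i) (Z ω) i).1
        ((wb M (b ω)).st A ((wb M (b ω)).bb i) (Z ω) j).1} := by
      ext ω
      simp only [mem_ofPred_eq, mem_iInter, and_imp]
    rw [h]
    refine MeasurableSet.iInter fun j => ?_
    by_cases hj : j ∈ A ∧ M.o ≠ some j ∧ j ≠ i
    · simp only [hj, true_and, ne_eq, not_false_eq_true, forall_const]
      have h1 := measurable_st hM hb hZ A (measurable_bb M hb i) i
      have h2 := measurable_st hM hb hZ A (measurable_bb M hb i) j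
      have h3 : MeasurableSet {ω | (wb M (b ω)).bb j ≤ (wb M (b ω)).bb i} :=
        measurableSet_le (measurable_bb M hb j) (measurable_bb M hb i)
      have h4 : MeasurableSet {ω | M.ε < dist ((wb M (b ω)).st A ((wb M (b ω)).bb i) (Z ω) i).1
        ((wb M (b ω)).st A ((wb M (b ω)).bb i) (Z ω) j).1} :=
        measurableSet_lt measurable_const (h1.fst.dist h2.fst)
      exact h3.imp h4
    · simp only [hj, false_imp_iff]
      exact MeasurableSet.univ
  · show (i ∈ A → M.o ≠ some i → (wb M (b ω)).bb i < t → _) ↔ _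
    constructor
    · intro h
      by_cases h1 : i ∈ A ∧ M.o ≠ some i
      · by_cases h2 : t ≤ (wb M (b ω)).bb i
        · exact Or.inr (Or.inl h2)
        · exact Or.inr (Or.inr (h h1.1 h1.2 (not_le.1 h2)))
      · exact Or.inl h1
    · rintro (h | h | h) h1 h2 h3
      · exact absurd ⟨h1, h2⟩ h
      · exact absurd h3 (not_lt.2 h)
      · exact h

/-- Position with a fixed set `B` of interacting members. -/
def posB (M : VSys J κ) (c : J → ℝ) (B : Finset J) (k : κ) (t : ℝ) (Z : J → PhasePoint) (i : J) :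
    Space3 :=
  if M.o = some i then (Z i).1 + M.S.c k (max 0 (min t M.T)) else (stB M.Φ M.ε c B t Z i).1

theorem continuous_posB (hM : Good M) (c : J → ℝ) (B : Finset J) (k : κ) (Z : J → PhasePoint)
    (i : J) : Continuous fun t => posB M c B k t Z i := by
  unfold posB
  by_cases h : M.o = some i
  · simp only [if_pos h]
    refine continuous_const.add ((hM.tubes k).comp_continuous
      (continuous_const.max (continuous_id.min continuous_const)) fun t => ?_)
    exact ⟨le_max_left _ _, max_le hM.T0 (min_le_right _ _)⟩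
  · simp only [if_neg h]
    exact (continuous_stB hM.adm hM.eps c B Z i).fst

theorem measurable_posB (hM : Good M) {c : Ω → J → ℝ} (hc : ∀ i, Measurable fun ω => c ω i)
    (hZ : Measurable Z) (B : Finset J) (k : κ) (t : ℝ) (i : J) :
    Measurable fun ω => posB M (c ω) B k t (Z ω) i := by
  unfold posB
  by_cases h : M.o = some i
  · simp only [if_pos h]
    exact (((measurable_pi_apply i).comp hZ).fst).add_const _
  · simp only [if_neg h]
    exact (measurable_stB hM.adm hM.eps hc hZ B measurable_const i).fst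


/-- **`Ct`** is a random sigma-closed event. -/
theorem rse_ct (hM : Good M) (hb : Measurable b) (hZ : Measurable Z) (C : ℝ) (A : Finset J) (k : κ)
    (i : J) (B : Finset J) (l : κ) (j : J) :
    RSE fun ω t => (wb M (b ω)).Ct C A k i B l j t (Z ω) := by
  have hd : ∀ B₁ B₂ : Finset J, RSE fun ω t =>
      dist (posB M (wb M (b ω)).bb B₁ k t (Z ω) i) (posB M (wb M (b ω)).bb B₂ l t (Z ω) j) ≤
        C * M.ε := by
    intro B₁ B₂
    refine (RCE.of_le (f := fun ω t => dist (posB M (wb M (b ω)).bb B₁ k t (Z ω) i)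
      (posB M (wb M (b ω)).bb B₂ l t (Z ω) j)) ⟨fun ω => ?_, fun t => ?_⟩ (C * M.ε)).rse
    · exact (continuous_posB hM _ B₁ k _ i).dist (continuous_posB hM _ B₂ l _ j)
    · exact (measurable_posB hM (fun i => measurable_bb M hb i) hZ B₁ k t i).dist
        (measurable_posB hM (fun i => measurable_bb M hb i) hZ B₂ l t j)
  have hd' : RSE fun ω t => dist ((wb M (b ω)).pos A k t (Z ω) i)
      ((wb M (b ω)).pos B l t (Z ω) j) ≤ C * M.ε := by
    refine (RSE.exists_finite (κ := Finset J × Finset J) (E := fun B' ω t =>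
      (wb M (b ω)).mem A t = B'.1 ∧ (wb M (b ω)).mem B t = B'.2 ∧
      dist (posB M (wb M (b ω)).bb B'.1 k t (Z ω) i)
        (posB M (wb M (b ω)).bb B'.2 l t (Z ω) j) ≤ C * M.ε) fun B' =>
      (rse_mem_eq hb A B'.1).and ((rse_mem_eq hb B B'.2).and (hd B'.1 B'.2))).congr fun ω t => ?_
    constructor
    · intro h
      exact ⟨(_, _), rfl, rfl, h⟩
    · rintro ⟨B', h1, h2, h3⟩
      rw [← h1, ← h2] at h3
      exact h3
  have ha : ∀ (i : J) (k : κ), RSE fun (_ : Ω) t => (M.o = some i → t ≤ M.S.b k) := by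
    intro i k
    by_cases h : M.o = some i
    · refine (RSE.time_le (measurable_const (a := M.S.b k))).congr fun ω t => ?_
      simp [h]
    · refine (RSE.const' True).congr fun ω t => ?_
      simp [h]
  exact (RSE.const' (i ∈ A)).and ((RSE.const' (j ∈ B)).and ((rse_ok hM hb hZ A).and
    ((rse_ok hM hb hZ B).and ((ha i k).and ((ha j l).and hd')))))

/-- **`VCt`** is a random sigma-closed event. -/
theorem rse_vct [Finite κ] (hM : Good M) (hb : Measurable b) (hZ : Measurable Z) (C : ℝ)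
    (P : Finset J) (i j : J) : RSE fun ω t => (wb M (b ω)).VCt C P i j t (Z ω) := by
  unfold VSys.VCt
  refine RSE.exists_finite fun A => (RSE.const' (A ⊆ P)).and ?_
  refine RSE.exists_finite fun B => (RSE.const' (B ⊆ P)).and ?_
  exact RSE.exists_finite fun k => RSE.exists_finite fun l => rse_ct hM hb hZ C A k i B l j

/-- **`Conn`** is measurable. -/
theorem measurableSet_conn [Finite κ] (hM : Good M) (hb : Measurable b) (hZ : Measurable Z) (C : ℝ)
    (P : Finset J) : MeasurableSet {ω | (wb M (b ω)).Conn C P (Z ω)} := by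
  have h : {ω | (wb M (b ω)).Conn C P (Z ω)} = {_ω : Ω | P.Nonempty} ∩
      ⋂ Q : Finset J, {ω | (Q ⊆ P ∧ Q.Nonempty ∧ Q ≠ P) →
        ∃ i ∈ Q, ∃ j ∈ P \ Q, ∃ t ∈ Icc 0 M.T, (wb M (b ω)).VCt C P i j t (Z ω)} := by
    ext ω
    simp only [VSys.Conn, mem_ofPred_eq, mem_inter_iff, mem_iInter, and_imp, wb_T]
  rw [h]
  refine (MeasurableSet.const _).inter (MeasurableSet.iInter fun Q => ?_)
  by_cases hQ : Q ⊆ P ∧ Q.Nonempty ∧ Q ≠ P
  · have h2 : {ω | (Q ⊆ P ∧ Q.Nonempty ∧ Q ≠ P) →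
        ∃ i ∈ Q, ∃ j ∈ P \ Q, ∃ t ∈ Icc 0 M.T, (wb M (b ω)).VCt C P i j t (Z ω)} =
        ⋃ i ∈ Q, ⋃ j ∈ P \ Q, {ω | ∃ t ∈ Icc 0 M.T, (wb M (b ω)).VCt C P i j t (Z ω)} := by
      ext ω
      simp only [hQ, ne_eq, not_false_eq_true, and_self, forall_const, mem_ofPred_eq, mem_iUnion,
        exists_prop]
    rw [h2]
    refine Finset.measurableSet_biUnion _ fun i _ => Finset.measurableSet_biUnion _ fun j _ => ?_
    exact (rse_vct hM hb hZ C P i j).existsIcc measurable_const measurable_const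
  · simp only [hQ, false_imp_iff]
    exact MeasurableSet.univ

/-- Tree-like with prescribed edges and times. -/
def TLE (M : VSys J κ) (C ℓ ς : ℝ) (P : Finset J) (E : Finset (J × J)) (σ : J × J → ℝ)
    (Z : J → PhasePoint) : Prop :=
  (∀ A ⊆ P, M.ok A M.T Z) ∧ E.card + 1 = P.card ∧
    (∀ e ∈ E, e.1 ∈ P ∧ e.2 ∈ P ∧ e.1 ≠ e.2) ∧
    (∀ e ∈ E, ς < σ e ∧ σ e < M.T - ς) ∧
    (∀ e ∈ E, ∀ i, ς < |σ e - M.b i|) ∧
    (∀ e ∈ E, ∀ e' ∈ E, e ≠ e' → ς < |σ e - σ e'|) ∧
    (∀ i ∈ P, ∀ j ∈ P, i ≠ j → ∀ t ∈ Icc 0 M.T, M.VCt C P i j t Z →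
      ∃ e ∈ E, (e = (i, j) ∨ e = (j, i)) ∧ |t - σ e| ≤ ℓ)

theorem treeLike_iff (M : VSys J κ) (C ℓ ς : ℝ) (P : Finset J) (Z : J → PhasePoint) :
    M.TreeLike C ℓ ς P Z ↔ ∃ E σ, TLE M C ℓ ς P E σ Z := by
  unfold VSys.TreeLike TLE
  constructor
  · rintro ⟨h1, E, σ, h⟩
    exact ⟨E, σ, h1, h⟩
  · rintro ⟨E, σ, h1, h⟩
    exact ⟨h1, E, σ, h⟩

/-- Tree-like with rational times. -/
def TLQ (M : VSys J κ) (C ℓ ς : ℝ) (P : Finset J) (Z : J → PhasePoint) : Prop :=
  ∃ (E : Finset (J × J)) (σ : J × J → ℚ), TLE M C ℓ ς P E (fun e => (σ e : ℝ)) Z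

theorem TLQ.treeLike {M : VSys J κ} {C ℓ ς : ℝ} {P : Finset J} {Z : J → PhasePoint}
    (h : TLQ M C ℓ ς P Z) : M.TreeLike C ℓ ς P Z := by
  obtain ⟨E, σ, h⟩ := h
  exact (treeLike_iff M C ℓ ς P Z).2 ⟨E, _, h⟩

theorem tlq_of_treeLike {M : VSys J κ} {C ℓ ℓ' ς : ℝ} {P : Finset J} {Z : J → PhasePoint}
    (hℓ : ℓ < ℓ') (h : M.TreeLike C ℓ ς P Z) : TLQ M C ℓ' ς P Z := by
  obtain ⟨h1, E, σ, h2, h3, h4, h5, h6, h7⟩ := h
  -- a neighbourhood of `σ` on which all strict inequalities persist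
  have hev : ∀ᶠ σ' in 𝓝 σ, (∀ e ∈ E, ς < σ' e ∧ σ' e < M.T - ς) ∧
      (∀ e ∈ E, ∀ i, ς < |σ' e - M.b i|) ∧
      (∀ e ∈ E, ∀ e' ∈ E, e ≠ e' → ς < |σ' e - σ' e'|) ∧ (∀ e ∈ E, |σ e - σ' e| < ℓ' - ℓ) := by
    have hc : ∀ e : J × J, Tendsto (fun σ' : J × J → ℝ => σ' e) (𝓝 σ) (𝓝 (σ e)) := fun e =>
      (continuous_apply e).tendsto σ
    refine Filter.Eventually.and ?_ (Filter.Eventually.and ?_ (Filter.Eventually.and ?_ ?_))
    · refine (Finset.eventually_all E).2 fun e he => ?_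
      exact ((hc e).eventually_const_lt (h4 e he).1).and ((hc e).eventually_lt_const (h4 e he).2)
    · refine (Finset.eventually_all E).2 fun e he => ?_
      refine eventually_all.2 fun i => ?_
      exact ((hc e).sub_const (M.b i)).abs.eventually_const_lt (h5 e he i)
    · refine (Finset.eventually_all E).2 fun e he => ?_
      refine (Finset.eventually_all E).2 fun e' he' => ?_
      by_cases hee : e = e'
      · exact Filter.Eventually.of_forall fun _ h => absurd hee h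
      · filter_upwards [((hc e).sub (hc e')).abs.eventually_const_lt (h6 e he e' he' hee)]
          with σ' hσ' _
        exact hσ'
    · refine (Finset.eventually_all E).2 fun e he => ?_
      have := (tendsto_const_nhds (x := σ e)).sub (hc e)
      rw [sub_self] at this
      have h := this.abs
      rw [abs_zero] at h
      exact h.eventually_lt_const (by linarith)
  -- rational points are dense
  have hdense : DenseRange fun (σ' : J × J → ℚ) (e : J × J) => ((σ' e : ℚ) : ℝ) := by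
    have : DenseRange (Pi.map fun (_ : J × J) (x : ℚ) => (x : ℝ)) :=
      DenseRange.piMap fun _ => Rat.denseRange_cast
    exact this
  obtain ⟨U, hU, hUo, hσU⟩ := eventually_nhds_iff.1 hev
  obtain ⟨σ', hσ'⟩ := hdense.exists_mem_open hUo ⟨σ, hσU⟩
  obtain ⟨g1, g2, g3, g4⟩ := hU _ hσ'
  refine ⟨E, σ', h1, h2, h3, g1, g2, g3, ?_⟩
  intro i hi j hj hij t ht hc
  obtain ⟨e, he, heq, hle⟩ := h7 i hi j hj hij t ht hc
  refine ⟨e, he, heq, ?_⟩
  have h8 := g4 e he
  have h9 : |t - (σ' e : ℝ)| ≤ |t - σ e| + |σ e - (σ' e : ℝ)| := abs_sub_le _ _ _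
  linarith

/-- **`TLQ`** is measurable. -/
theorem measurableSet_tlq [Finite κ] (hM : Good M) (hb : Measurable b) (hZ : Measurable Z)
    (C ℓ ς : ℝ) (P : Finset J) : MeasurableSet {ω | TLQ (wb M (b ω)) C ℓ ς P (Z ω)} := by
  have h : {ω | TLQ (wb M (b ω)) C ℓ ς P (Z ω)} = ⋃ (E : Finset (J × J)) (σ : J × J → ℚ),
      {ω | TLE (wb M (b ω)) C ℓ ς P E (fun e => (σ e : ℝ)) (Z ω)} := by
    ext ω
    simp only [TLQ, mem_ofPred_eq, mem_iUnion]
  rw [h]
  refine MeasurableSet.iUnion fun E => MeasurableSet.iUnion fun σ => ?_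
  have hbi : ∀ i, Measurable fun ω => b ω i := fun i => (measurable_pi_apply i).comp hb
  have h1 : MeasurableSet {ω | ∀ A ⊆ P, (wb M (b ω)).ok A M.T (Z ω)} := by
    have : {ω | ∀ A ⊆ P, (wb M (b ω)).ok A M.T (Z ω)} =
        ⋂ A : Finset J, {ω | A ⊆ P → (wb M (b ω)).ok A M.T (Z ω)} := by
      ext ω; simp only [mem_ofPred_eq, mem_iInter]
    rw [this]
    refine MeasurableSet.iInter fun A => ?_
    exact (MeasurableSet.const (A ⊆ P)).imp ((rse_ok hM hb hZ A).measurableSet M.T)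
  have h2 : MeasurableSet {ω | ∀ e ∈ E, ∀ i, ς < |(σ e : ℝ) - b ω i|} := by
    have : {ω | ∀ e ∈ E, ∀ i, ς < |(σ e : ℝ) - b ω i|} =
        ⋂ e ∈ E, ⋂ i, {ω | ς < |(σ e : ℝ) - b ω i|} := by
      ext ω; simp only [mem_ofPred_eq, mem_iInter]
    rw [this]
    refine Finset.measurableSet_biInter _ fun e _ => MeasurableSet.iInter fun i => ?_
    exact measurableSet_lt measurable_const (measurable_const.sub (hbi i)).abs
  have h3 : ∀ i j : J, MeasurableSet {ω | ∀ t ∈ Icc 0 M.T, (wb M (b ω)).VCt C P i j t (Z ω) →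
      ∃ e ∈ E, (e = (i, j) ∨ e = (j, i)) ∧ |t - (σ e : ℝ)| ≤ ℓ} := by
    intro i j
    have : {ω | ∀ t ∈ Icc 0 M.T, (wb M (b ω)).VCt C P i j t (Z ω) →
      ∃ e ∈ E, (e = (i, j) ∨ e = (j, i)) ∧ |t - (σ e : ℝ)| ≤ ℓ} =
      {ω | ∃ t ∈ Icc 0 M.T, (wb M (b ω)).VCt C P i j t (Z ω) ∧
        ∀ e ∈ E, ((e = (i, j) ∨ e = (j, i)) → ℓ < |t - (σ e : ℝ)|)}ᶜ := by
      ext ω
      simp only [mem_ofPred_eq, mem_compl_iff, not_exists, not_and, not_forall, not_lt,
        exists_prop]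
    rw [this]
    refine MeasurableSet.compl (RSE.existsIcc ?_ measurable_const measurable_const)
    refine (rse_vct hM hb hZ C P i j).and (RSE.forall_finset E fun e _ => ?_)
    by_cases he : e = (i, j) ∨ e = (j, i)
    · refine (RSE.gt_of_CF0 (f := fun (_ : Ω) t => |t - (σ e : ℝ)|) ⟨fun _ => ?_, fun t => ?_⟩
        ℓ).congr fun ω t => ?_
      · exact (continuous_id.sub continuous_const).abs
      · exact measurable_const
      · simp [he]
    · refine (RSE.const' True).congr fun ω t => ?_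
      simp only [he, false_imp_iff]
  have h4 : MeasurableSet {ω | ∀ i ∈ P, ∀ j ∈ P, i ≠ j → ∀ t ∈ Icc 0 M.T,
      (wb M (b ω)).VCt C P i j t (Z ω) →
      ∃ e ∈ E, (e = (i, j) ∨ e = (j, i)) ∧ |t - (σ e : ℝ)| ≤ ℓ} := by
    have : {ω | ∀ i ∈ P, ∀ j ∈ P, i ≠ j → ∀ t ∈ Icc 0 M.T,
      (wb M (b ω)).VCt C P i j t (Z ω) →
      ∃ e ∈ E, (e = (i, j) ∨ e = (j, i)) ∧ |t - (σ e : ℝ)| ≤ ℓ} =
      ⋂ i ∈ P, ⋂ j ∈ P, {ω | i ≠ j → ω ∈ {ω | ∀ t ∈ Icc 0 M.T,
        (wb M (b ω)).VCt C P i j t (Z ω) →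
        ∃ e ∈ E, (e = (i, j) ∨ e = (j, i)) ∧ |t - (σ e : ℝ)| ≤ ℓ}} := by
      ext ω; simp only [mem_ofPred_eq, mem_iInter]
    rw [this]
    refine Finset.measurableSet_biInter _ fun i _ => Finset.measurableSet_biInter _ fun j _ => ?_
    exact (MeasurableSet.const (i ≠ j)).imp (h3 i j)
  have h5 : {ω | TLE (wb M (b ω)) C ℓ ς P E (fun e => (σ e : ℝ)) (Z ω)} =
      {ω | ∀ A ⊆ P, (wb M (b ω)).ok A M.T (Z ω)} ∩ ({_ω : Ω | E.card + 1 = P.card ∧
        (∀ e ∈ E, e.1 ∈ P ∧ e.2 ∈ P ∧ e.1 ≠ e.2) ∧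
        (∀ e ∈ E, ς < (σ e : ℝ) ∧ (σ e : ℝ) < M.T - ς) ∧
        (∀ e ∈ E, ∀ e' ∈ E, e ≠ e' → ς < |(σ e : ℝ) - (σ e' : ℝ)|)} ∩
      ({ω | ∀ e ∈ E, ∀ i, ς < |(σ e : ℝ) - b ω i|} ∩
      {ω | ∀ i ∈ P, ∀ j ∈ P, i ≠ j → ∀ t ∈ Icc 0 M.T,
      (wb M (b ω)).VCt C P i j t (Z ω) →
      ∃ e ∈ E, (e = (i, j) ∨ e = (j, i)) ∧ |t - (σ e : ℝ)| ≤ ℓ})) := by
    ext ω
    simp only [TLE, mem_ofPred_eq, mem_inter_iff, wb_T, wb_b]
    tauto
  rw [h5]
  exact h1.inter ((MeasurableSet.const _).inter (h2.inter h4))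

end sys

end Crest.Agent.R122.VLMeas973
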