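import Mathlib
import Crest.Prelude.Def_KineticLimit
import Crest.Agent.R122.VConnA_581
import Crest.Agent.R122.VLKru_442
import Crest.Agent.R122.VLMeas_973
import Crest.Agent.R122.BoltzGauss_814
import Crest.Agent.R122.PartProd_973

-- ▼ part R122/VConnB_581
section

/-!
# Volume of virtually connected configurations (row 122, block VC, part B)

Discretised merge structures and their volume.
-/

set_option autoImplicit false

open MeasureTheory Set Function
open scoped ENNReal
open Crest.AnalysisR.Kinetic

namespace Crest.Agent.R122.VConn581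

variable {S : Type*} [DecidableEq S]

/-- Discretised merge structures: successive merges at grid times, for positions `p A n i` of the
particle `i` of the sub-world `A` at the `n`-th grid time. -/
inductive GTr (r : ℝ) (N : ℕ) (p : Finset S → ℕ → S → Space3) : Finset S → Prop
  | single (i : S) : GTr r N p {i}
  | merge {P Q A B : Finset S} {i j : S} {n : ℕ} (hP : GTr r N p P) (hQ : GTr r N p Q)
      (hd : Disjoint P Q) (hA : A ⊆ P) (hB : B ⊆ Q) (hi : i ∈ A) (hj : j ∈ B) (hn : n ≤ N)
      (hc : dist (p A n i) (p B n j) ≤ r) : GTr r N p (P ∪ Q)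

theorem GTr.nonempty {r : ℝ} {N : ℕ} {p : Finset S → ℕ → S → Space3} {P : Finset S}
    (h : GTr r N p P) : P.Nonempty := by
  induction h with
  | single i => exact ⟨i, Finset.mem_singleton_self i⟩
  | merge _ _ _ _ _ _ _ _ _ ih _ => exact ih.mono Finset.subset_union_left

theorem gtr_iff {r : ℝ} {N : ℕ} {p : Finset S → ℕ → S → Space3} {P : Finset S} :
    GTr r N p P ↔ (∃ i, P = {i}) ∨ ∃ P₁ ∈ P.powerset, ∃ P₂ ∈ P.powerset, ∃ A ∈ P.powerset,
      ∃ B ∈ P.powerset, ∃ i ∈ P, ∃ j ∈ P, ∃ n ∈ Finset.range (N + 1),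
      (P₁ ∪ P₂ = P ∧ Disjoint P₁ P₂ ∧ A ⊆ P₁ ∧ B ⊆ P₂ ∧ i ∈ A ∧ j ∈ B) ∧
        GTr r N p P₁ ∧ GTr r N p P₂ ∧ dist (p A n i) (p B n j) ≤ r := by
  constructor
  · intro h
    cases h with
    | single i => exact Or.inl ⟨i, rfl⟩
    | @merge P Q A B i j n hP hQ hd hA hB hi hj hn hc =>
      refine Or.inr ⟨P, ?_, Q, ?_, A, ?_, B, ?_, i, ?_, j, ?_, n, ?_, ⟨rfl, hd, hA, hB, hi, hj⟩,
        hP, hQ, hc⟩
      · exact Finset.mem_powerset.2 Finset.subset_union_left
      · exact Finset.mem_powerset.2 Finset.subset_union_right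
      · exact Finset.mem_powerset.2 (hA.trans Finset.subset_union_left)
      · exact Finset.mem_powerset.2 (hB.trans Finset.subset_union_right)
      · exact Finset.mem_union_left _ (hA hi)
      · exact Finset.mem_union_right _ (hB hj)
      · exact Finset.mem_range.2 (Nat.lt_succ_of_le hn)
  · rintro (⟨i, rfl⟩ | ⟨P₁, _, P₂, _, A, _, B, _, i, _, j, _, n, hn, ⟨rfl, hd, hA, hB, hi, hj⟩,
      h1, h2, h3⟩)
    · exact GTr.single i
    · exact GTr.merge h1 h2 hd hA hB hi hj (Nat.le_of_lt_succ (Finset.mem_range.1 hn)) h3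

/-- Merge structures depend only on the paths of sub-worlds of the set. -/
theorem GTr.congr {r : ℝ} {N : ℕ} {p p' : Finset S → ℕ → S → Space3} {P : Finset S}
    (h : GTr r N p P) (hp : ∀ A ⊆ P, ∀ n, ∀ i ∈ A, p A n i = p' A n i) : GTr r N p' P := by
  induction h with
  | single i => exact GTr.single i
  | @merge P Q A B i j n hP hQ hd hA hB hi hj hn hc ih1 ih2 =>
    refine GTr.merge (ih1 fun A' hA' => hp A' (hA'.trans Finset.subset_union_left))
      (ih2 fun A' hA' => hp A' (hA'.trans Finset.subset_union_right)) hd hA hB hi hj hn ?_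
    rw [← hp A (hA.trans Finset.subset_union_left) n i hi,
      ← hp B (hB.trans Finset.subset_union_right) n j hj]
    exact hc

/-- Merge structures are invariant under a common translation. -/
theorem GTr.translate {r : ℝ} {N : ℕ} {p p' : Finset S → ℕ → S → Space3} {P : Finset S}
    (h : GTr r N p P) (y : ℕ → Space3) (hp : ∀ A ⊆ P, ∀ n, ∀ i ∈ A, p' A n i = p A n i + y n) :
    GTr r N p' P := by
  induction h with
  | single i => exact GTr.single i
  | @merge P Q A B i j n hP hQ hd hA hB hi hj hn hc ih1 ih2 =>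
    refine GTr.merge (ih1 fun A' hA' => hp A' (hA'.trans Finset.subset_union_left))
      (ih2 fun A' hA' => hp A' (hA'.trans Finset.subset_union_right)) hd hA hB hi hj hn ?_
    rw [hp A (hA.trans Finset.subset_union_left) n i hi,
      hp B (hB.trans Finset.subset_union_right) n j hj, dist_add_right]
    exact hc

theorem measurableSet_gtr {Ω : Type*} [MeasurableSpace Ω] {r : ℝ} {N : ℕ}
    {p : Ω → Finset S → ℕ → S → Space3} :
    ∀ (n : ℕ) (P : Finset S), P.card ≤ n →
      (∀ A ⊆ P, ∀ n, ∀ i ∈ A, Measurable fun ω => p ω A n i) →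
      MeasurableSet {ω | GTr r N (p ω) P} := by
  intro n
  induction n with
  | zero =>
    intro P hP _
    have hP' : P = ∅ := Finset.card_eq_zero.1 (Nat.le_zero.1 hP)
    have : {ω | GTr r N (p ω) P} = ∅ := by
      ext ω
      simp only [mem_setOf_eq, mem_empty_iff_false, iff_false]
      intro h
      exact absurd hP' h.nonempty.ne_empty
    rw [this]; exact MeasurableSet.empty
  | succ n ih =>
    intro P hP hm
    have hset : {ω | GTr r N (p ω) P} = {_ω | ∃ i, P = {i}} ∪
        ⋃ (P₁ ∈ P.powerset) (P₂ ∈ P.powerset) (A ∈ P.powerset) (B ∈ P.powerset) (i ∈ P) (j ∈ P)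
          (n ∈ Finset.range (N + 1)),
          {ω | (P₁ ∪ P₂ = P ∧ Disjoint P₁ P₂ ∧ A ⊆ P₁ ∧ B ⊆ P₂ ∧ i ∈ A ∧ j ∈ B) ∧
            GTr r N (p ω) P₁ ∧ GTr r N (p ω) P₂ ∧ dist (p ω A n i) (p ω B n j) ≤ r} := by
      ext ω
      simp only [mem_setOf_eq, mem_union, mem_iUnion, exists_prop]
      exact gtr_iff
    rw [hset]
    refine (MeasurableSet.const _).union ?_
    refine Finset.measurableSet_biUnion _ fun P₁ hP₁ => Finset.measurableSet_biUnion _ fun P₂ hP₂ =>
      Finset.measurableSet_biUnion _ fun A _ => Finset.measurableSet_biUnion _ fun B _ =>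
      Finset.measurableSet_biUnion _ fun i _ => Finset.measurableSet_biUnion _ fun j _ =>
      Finset.measurableSet_biUnion _ fun k _ => ?_
    by_cases hcond : P₁ ∪ P₂ = P ∧ Disjoint P₁ P₂ ∧ A ⊆ P₁ ∧ B ⊆ P₂ ∧ i ∈ A ∧ j ∈ B
    · obtain ⟨hU, hd, hA, hB, hi, hj⟩ := hcond
      by_cases hne : P₁.Nonempty ∧ P₂.Nonempty
      · have hc := Finset.card_union_of_disjoint hd
        rw [hU] at hc
        have h1 : 0 < P₁.card := Finset.card_pos.2 hne.1
        have h2 : 0 < P₂.card := Finset.card_pos.2 hne.2
        have hs1 : P₁ ⊆ P := Finset.mem_powerset.1 hP₁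
        have hs2 : P₂ ⊆ P := Finset.mem_powerset.1 hP₂
        have m1 := ih P₁ (by omega) fun A' hA' => hm A' (hA'.trans hs1)
        have m2 := ih P₂ (by omega) fun A' hA' => hm A' (hA'.trans hs2)
        have m3 : MeasurableSet {ω | dist (p ω A k i) (p ω B k j) ≤ r} :=
          measurableSet_le ((hm A (hA.trans hs1) k i hi).dist (hm B (hB.trans hs2) k j hj))
            measurable_const
        have : {ω | (P₁ ∪ P₂ = P ∧ Disjoint P₁ P₂ ∧ A ⊆ P₁ ∧ B ⊆ P₂ ∧ i ∈ A ∧ j ∈ B) ∧
            GTr r N (p ω) P₁ ∧ GTr r N (p ω) P₂ ∧ dist (p ω A k i) (p ω B k j) ≤ r} =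
            {ω | GTr r N (p ω) P₁} ∩ ({ω | GTr r N (p ω) P₂} ∩
              {ω | dist (p ω A k i) (p ω B k j) ≤ r}) := by
          ext ω
          simp only [mem_setOf_eq, mem_inter_iff]
          exact ⟨fun h => h.2, fun h => ⟨⟨hU, hd, hA, hB, hi, hj⟩, h⟩⟩
        rw [this]
        exact m1.inter (m2.inter m3)
      · have : {ω | (P₁ ∪ P₂ = P ∧ Disjoint P₁ P₂ ∧ A ⊆ P₁ ∧ B ⊆ P₂ ∧ i ∈ A ∧ j ∈ B) ∧
            GTr r N (p ω) P₁ ∧ GTr r N (p ω) P₂ ∧ dist (p ω A k i) (p ω B k j) ≤ r} = ∅ := by
          ext ω
          simp only [mem_setOf_eq, mem_empty_iff_false, iff_false]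
          rintro ⟨_, h1, h2, _⟩
          exact hne ⟨h1.nonempty, h2.nonempty⟩
        rw [this]; exact MeasurableSet.empty
    · have : {ω | (P₁ ∪ P₂ = P ∧ Disjoint P₁ P₂ ∧ A ⊆ P₁ ∧ B ⊆ P₂ ∧ i ∈ A ∧ j ∈ B) ∧
            GTr r N (p ω) P₁ ∧ GTr r N (p ω) P₂ ∧ dist (p ω A k i) (p ω B k j) ≤ r} = ∅ := by
        ext ω
        simp only [mem_setOf_eq, mem_empty_iff_false, iff_false]
        rintro ⟨h, _⟩
        exact hcond h
      rw [this]; exact MeasurableSet.empty

/-! ### Translations of a block of coordinates -/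

/-- Translate the coordinates in `Q` by `y`. -/
def sh (Q : Finset S) (y : Space3) (x : S → Space3) : S → Space3 :=
  fun k => if k ∈ Q then x k + y else x k


theorem measurable_sh_joint (Q : Finset S) :
    Measurable fun z : Space3 × (S → Space3) => sh Q z.1 z.2 := by
  refine measurable_pi_lambda _ fun k => ?_
  by_cases h : k ∈ Q
  · simp only [sh, h, if_true]
    exact ((measurable_pi_apply k).comp measurable_snd).add measurable_fst
  · simp only [sh, h, if_false]
    exact (measurable_pi_apply k).comp measurable_snd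

theorem sh_sh (Q : Finset S) (y z : Space3) (x : S → Space3) :
    sh Q y (sh Q z x) = sh Q (z + y) x := by
  funext k
  by_cases h : k ∈ Q <;> simp [sh, h, add_assoc]

theorem sh_zero (Q : Finset S) (x : S → Space3) : sh Q 0 x = x := by
  funext k
  by_cases h : k ∈ Q <;> simp [sh, h]

/-- Lebesgue integral over the coordinates in `Q`. -/
noncomputable abbrev mg (Q : Finset S) (f : (S → Space3) → ℝ≥0∞) : (S → Space3) → ℝ≥0∞ :=
  lmarginal (fun _ => (volume : Measure Space3)) Q f

theorem mg_sh (Q : Finset S) (y : Space3) (f : (S → Space3) → ℝ≥0∞) (x : S → Space3) :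
    mg Q (fun x => f (sh Q y x)) x = mg Q f x := by
  unfold mg lmarginal
  have h : ∀ z : (i : Q) → Space3, sh Q y (updateFinset x Q z) =
      updateFinset x Q (z + fun _ => y) := by
    intro z
    funext k
    by_cases hk : k ∈ Q
    · simp [sh, updateFinset, hk]
    · simp [sh, updateFinset, hk]
  simp only [h]
  exact lintegral_add_right_eq_self (μ := Measure.pi fun _ : Q => (volume : Measure Space3))
    (fun z => f (updateFinset x Q z)) (fun _ => y)

/-- Fubini between a parameter and the coordinates of `Q`. -/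
theorem mg_lintegral (Q : Finset S) (f : Space3 → (S → Space3) → ℝ≥0∞)
    (hf : Measurable fun z : Space3 × (S → Space3) => f z.1 z.2) (x : S → Space3) :
    mg Q (fun x => ∫⁻ y, f y x) x = ∫⁻ y, mg Q (f y) x := by
  unfold mg lmarginal
  rw [lintegral_lintegral_swap]
  refine Measurable.aemeasurable ?_
  have h1 : Measurable fun z : ((i : Q) → Space3) × Space3 => (z.2, updateFinset x Q z.1) := by
    refine measurable_snd.prodMk ?_
    exact measurable_updateFinset.comp measurable_fst
  exact hf.comp h1

/-- **Translation lemma.** If `E` is invariant under translations of the block `Q` and the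
integral of `h` over the translations of the block is at most `κ`, then the integral of `h` over
`E` is at most `κ` times the volume of `E` modulo translations. -/
theorem mg_translation_le {Q : Finset S} {E : Set (S → Space3)} (hE : MeasurableSet E)
    (hinv : ∀ x y, x ∈ E → sh Q y x ∈ E) {j : S} (hj : j ∈ Q) {ρ : Space3 → ℝ≥0∞}
    (hρ : Measurable ρ) (hρ1 : ∫⁻ y, ρ y = 1) {h : (S → Space3) → ℝ≥0∞} (hh : Measurable h)
    {κ : ℝ≥0∞} (hκ : ∀ x, ∫⁻ y, h (sh Q y x) ≤ κ) (x : S → Space3) :
    mg Q (E.indicator h) x ≤ κ * mg Q (E.indicator fun x => ρ (x j)) x := by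
  have hinv' : ∀ x y, sh Q y x ∈ E ↔ x ∈ E := by
    intro x y
    refine ⟨fun hx => ?_, fun hx => hinv x y hx⟩
    have := hinv _ (-y) hx
    rwa [sh_sh, add_neg_cancel, sh_zero] at this
  have hρj : Measurable fun x : S → Space3 => ρ (x j) := hρ.comp (measurable_pi_apply j)
  have hρadd : ∀ a : Space3, Measurable fun y : Space3 => ρ (a + y) := fun a =>
    hρ.comp (measurable_const.add measurable_id)
  -- insert the constant one
  have h1 : ∀ x : S → Space3, E.indicator h x =
      ∫⁻ y, E.indicator (fun x => h x * ρ (x j + y)) x := by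
    intro x
    by_cases hx : x ∈ E
    · simp only [indicator_of_mem hx]
      have e1 : ∫⁻ y, h x * ρ (x j + y) = h x * ∫⁻ y, ρ (x j + y) :=
        lintegral_const_mul _ (hρadd (x j))
      have e2 : ∫⁻ y, ρ (x j + y) = ∫⁻ y, ρ y := lintegral_add_left_eq_self (fun y => ρ y) (x j)
      rw [e1, e2, hρ1, mul_one]
    · simp only [indicator_of_notMem hx, lintegral_const, zero_mul]
  have hm2 : Measurable fun z : Space3 × (S → Space3) =>
      E.indicator (fun x => h x * ρ (x j + z.1)) z.2 := by
    have hset : MeasurableSet {z : Space3 × (S → Space3) | z.2 ∈ E} := measurable_snd hE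
    have hf : Measurable fun z : Space3 × (S → Space3) => h z.2 * ρ (z.2 j + z.1) :=
      (hh.comp measurable_snd).mul
        (hρ.comp (((measurable_pi_apply j).comp measurable_snd).add measurable_fst))
    have he : (fun z : Space3 × (S → Space3) => E.indicator (fun x => h x * ρ (x j + z.1)) z.2) =
        {z : Space3 × (S → Space3) | z.2 ∈ E}.indicator (fun z => h z.2 * ρ (z.2 j + z.1)) := by
      funext z
      by_cases hz : z.2 ∈ E
      · rw [indicator_of_mem hz, indicator_of_mem (show z ∈ {z | z.2 ∈ E} from hz)]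
      · rw [indicator_of_notMem hz, indicator_of_notMem (show z ∉ {z | z.2 ∈ E} from hz)]
    rw [he]
    exact hf.indicator hset
  have h2 : mg Q (E.indicator h) x =
      ∫⁻ y, mg Q (E.indicator fun x => h x * ρ (x j + y)) x := by
    rw [← mg_lintegral Q (fun y => E.indicator fun x => h x * ρ (x j + y)) hm2 x]
    exact congrFun (congrArg (mg Q) (funext h1)) x
  have h3 : ∀ y, mg Q (E.indicator fun x => h x * ρ (x j + y)) x =
      mg Q (E.indicator fun x => h (sh Q (-y) x) * ρ (x j)) x := by
    intro y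
    rw [← mg_sh Q (-y) (E.indicator fun x => h x * ρ (x j + y)) x]
    refine congrFun (congrArg (mg Q) (funext fun x => ?_)) x
    by_cases hx : x ∈ E
    · rw [indicator_of_mem hx, indicator_of_mem ((hinv' x (-y)).2 hx)]
      simp [sh, hj]
    · rw [indicator_of_notMem hx, indicator_of_notMem (mt (hinv' x (-y)).1 hx)]
  have hm4 : Measurable fun z : Space3 × (S → Space3) =>
      E.indicator (fun x => h (sh Q (-z.1) x) * ρ (x j)) z.2 := by
    have hset : MeasurableSet {z : Space3 × (S → Space3) | z.2 ∈ E} := measurable_snd hE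
    have hs : Measurable fun z : Space3 × (S → Space3) => sh Q (-z.1) z.2 :=
      (measurable_sh_joint Q).comp (measurable_fst.neg.prodMk measurable_snd)
    have hf : Measurable fun z : Space3 × (S → Space3) => h (sh Q (-z.1) z.2) * ρ (z.2 j) :=
      (hh.comp hs).mul (hρj.comp measurable_snd)
    have he : (fun z : Space3 × (S → Space3) =>
        E.indicator (fun x => h (sh Q (-z.1) x) * ρ (x j)) z.2) =
        {z : Space3 × (S → Space3) | z.2 ∈ E}.indicator
          (fun z => h (sh Q (-z.1) z.2) * ρ (z.2 j)) := by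
      funext z
      by_cases hz : z.2 ∈ E
      · rw [indicator_of_mem hz, indicator_of_mem (show z ∈ {z | z.2 ∈ E} from hz)]
      · rw [indicator_of_notMem hz, indicator_of_notMem (show z ∉ {z | z.2 ∈ E} from hz)]
    rw [he]
    exact hf.indicator hset
  have h4 : ∀ x : S → Space3, ∫⁻ y, E.indicator (fun x => h (sh Q (-y) x) * ρ (x j)) x ≤
      κ * E.indicator (fun x => ρ (x j)) x := by
    intro x
    by_cases hx : x ∈ E
    · simp only [indicator_of_mem hx]
      have hm : Measurable fun y : Space3 => h (sh Q (-y) x) :=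
        hh.comp ((measurable_sh_joint Q).comp (measurable_neg.prodMk measurable_const))
      have e1 : ∫⁻ y, h (sh Q (-y) x) * ρ (x j) = (∫⁻ y, h (sh Q (-y) x)) * ρ (x j) :=
        lintegral_mul_const _ hm
      have e2 : ∫⁻ y, h (sh Q (-y) x) = ∫⁻ y, h (sh Q y x) :=
        lintegral_neg_eq_self (fun y => h (sh Q y x))
      rw [e1, e2]
      gcongr
      exact hκ x
    · simp only [indicator_of_notMem hx, lintegral_const, zero_mul, mul_zero, le_refl]
  calc mg Q (E.indicator h) x
      = ∫⁻ y, mg Q (E.indicator fun x => h (sh Q (-y) x) * ρ (x j)) x := by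
        rw [h2]; exact lintegral_congr h3
    _ = mg Q (fun x => ∫⁻ y, E.indicator (fun x => h (sh Q (-y) x) * ρ (x j)) x) x :=
        (mg_lintegral Q (fun y => E.indicator fun x => h (sh Q (-y) x) * ρ (x j)) hm4 x).symm
    _ ≤ mg Q (fun x => κ * E.indicator (fun x => ρ (x j)) x) x :=
        lmarginal_mono (fun x => h4 x) x
    _ = κ * mg Q (E.indicator fun x => ρ (x j)) x := by
        unfold mg lmarginal
        refine lintegral_const_mul _ ?_
        exact (hρj.indicator hE).comp measurable_updateFinset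

/-! ### The volume bound -/

/-- Positions of all sub-worlds at grid times as a function of the initial positions: locality,
translation covariance and measurability. -/
structure Cov (p : (S → Space3) → Finset S → ℕ → S → Space3) : Prop where
  local' : ∀ (A : Finset S) (n : ℕ) (i : S) (x x' : S → Space3), i ∈ A → (∀ k ∈ A, x k = x' k) →
    p x A n i = p x' A n i
  shift : ∀ (A : Finset S) (n : ℕ) (i : S) (x : S → Space3) (y : Space3), i ∈ A →
    p (fun k => x k + y) A n i = p x A n i + y
  meas : ∀ (A : Finset S) (n : ℕ) (i : S), i ∈ A → Measurable fun x => p x A n i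

theorem Cov.sh_eq {p : (S → Space3) → Finset S → ℕ → S → Space3} (hp : Cov p) {A Q : Finset S}
    (hA : A ⊆ Q) (n : ℕ) {i : S} (hi : i ∈ A) (y : Space3) (x : S → Space3) :
    p (sh Q y x) A n i = p x A n i + y := by
  rw [← hp.shift A n i x y hi]
  refine hp.local' A n i _ _ hi fun k hk => ?_
  simp [sh, hA hk]

theorem Cov.sh_eq_of_disjoint {p : (S → Space3) → Finset S → ℕ → S → Space3} (hp : Cov p)
    {A Q : Finset S} (hA : Disjoint A Q) (n : ℕ) {i : S} (hi : i ∈ A) (y : Space3)
    (x : S → Space3) : p (sh Q y x) A n i = p x A n i := by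
  refine hp.local' A n i _ _ hi fun k hk => ?_
  simp [sh, Finset.disjoint_left.1 hA hk]

/-- Factor out a function which does not depend on the integrated coordinates. -/
theorem mg_mul_left (Q : Finset S) {f k : (S → Space3) → ℝ≥0∞} (hk : Measurable k)
    (x : S → Space3) (hf : ∀ z, f (updateFinset x Q z) = f x) :
    mg Q (fun x => f x * k x) x = f x * mg Q k x := by
  unfold mg lmarginal
  simp only [hf]
  exact lintegral_const_mul _ (hk.comp measurable_updateFinset)

/-- Close position sets. -/
def nearSet (r : ℝ) (p : (S → Space3) → Finset S → ℕ → S → Space3) (A B : Finset S) (i j : S)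
    (n : ℕ) : Set (S → Space3) := {x | dist (p x A n i) (p x B n j) ≤ r}

theorem lintegral_near_right (r : ℝ) {p : (S → Space3) → Finset S → ℕ → S → Space3} (hp : Cov p)
    {A B Q : Finset S} (hA : Disjoint A Q) (hB : B ⊆ Q) {i j : S} (hi : i ∈ A) (hj : j ∈ B)
    (n : ℕ) (x : S → Space3) :
    ∫⁻ y, (nearSet r p A B i j n).indicator (fun _ => (1 : ℝ≥0∞)) (sh Q y x) =
      volume (Metric.closedBall (0 : Space3) r) := by
  have h1 : (fun y => (nearSet r p A B i j n).indicator (fun _ => (1 : ℝ≥0∞)) (sh Q y x)) =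
      (Metric.closedBall (p x A n i - p x B n j) r).indicator (fun _ => (1 : ℝ≥0∞)) := by
    funext y
    have h2 : sh Q y x ∈ nearSet r p A B i j n ↔
        y ∈ Metric.closedBall (p x A n i - p x B n j) r := by
      simp only [nearSet, mem_setOf_eq, Metric.mem_closedBall]
      rw [hp.sh_eq_of_disjoint hA n hi y x, hp.sh_eq hB n hj y x, dist_comm, dist_eq_norm,
        dist_eq_norm]
      have : p x B n j + y - p x A n i = y - (p x A n i - p x B n j) := by abel
      rw [this]
    by_cases h : sh Q y x ∈ nearSet r p A B i j n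
    · rw [indicator_of_mem h, indicator_of_mem (h2.1 h)]
    · rw [indicator_of_notMem h, indicator_of_notMem (mt h2.2 h)]
  rw [h1, lintegral_indicator measurableSet_closedBall]
  simp only [lintegral_const, one_mul, Measure.restrict_apply, MeasurableSet.univ, univ_inter]
  exact Measure.addHaar_closedBall_center volume _ r

theorem lintegral_near_left (r : ℝ) {p : (S → Space3) → Finset S → ℕ → S → Space3} (hp : Cov p)
    {A B Q : Finset S} (hA : A ⊆ Q) (hB : Disjoint B Q) {i j : S} (hi : i ∈ A) (hj : j ∈ B)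
    (n : ℕ) (x : S → Space3) :
    ∫⁻ y, (nearSet r p A B i j n).indicator (fun _ => (1 : ℝ≥0∞)) (sh Q y x) =
      volume (Metric.closedBall (0 : Space3) r) := by
  have h := lintegral_near_right r hp hB hA hj hi n x
  rw [← h]
  have : nearSet r p A B i j n = nearSet r p B A j i n := by
    ext x; simp only [nearSet, mem_setOf_eq, dist_comm]
  rw [this]

/-- **Volume bound.** -/
theorem mg_gtr_le (M N : ℕ) (r : ℝ) {p : (S → Space3) → Finset S → ℕ → S → Space3} (hp : Cov p)
    {ρ : Space3 → ℝ≥0∞} (hρ : Measurable ρ) (hρ1 : ∫⁻ y, ρ y = 1) :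
    ∀ (n : ℕ) (P : Finset S), P.card ≤ n → P.card ≤ M → ∀ i₀ ∈ P, ∀ x : S → Space3,
      mg P ({x | GTr r N (p x) P}.indicator fun x => ρ (x i₀)) x ≤
        (((2 ^ M) ^ 4 * M ^ 2 * (N + 1) : ℕ) * volume (Metric.closedBall (0 : Space3) r)) ^
          (P.card - 1) := by
  intro n
  set b : ℝ≥0∞ := volume (Metric.closedBall (0 : Space3) r) with hb
  set a : ℕ := (2 ^ M) ^ 4 * M ^ 2 * (N + 1) with ha
  induction n with
  | zero =>
    intro P hP _ i₀ hi₀
    rw [Finset.card_eq_zero.1 (Nat.le_zero.1 hP)] at hi₀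
    exact absurd hi₀ (Finset.notMem_empty _)
  | succ n ih =>
    intro P hP hPM i₀ hi₀ x
    have hmeas : ∀ P : Finset S, MeasurableSet {x | GTr r N (p x) P} := fun P =>
      measurableSet_gtr P.card P le_rfl fun A _ n i hi => hp.meas A n i hi
    have hρi : ∀ i : S, Measurable fun x : S → Space3 => ρ (x i) := fun i =>
      hρ.comp (measurable_pi_apply i)
    have hcard : 0 < P.card := Finset.card_pos.2 ⟨i₀, hi₀⟩
    rcases Nat.eq_or_lt_of_le hcard with h1 | h2
    · -- a single particle
      obtain ⟨i, rfl⟩ := Finset.card_eq_one.1 h1.symm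
      have hi : i₀ = i := Finset.mem_singleton.1 hi₀
      subst hi
      calc mg {i₀} ({x | GTr r N (p x) {i₀}}.indicator fun x => ρ (x i₀)) x
          ≤ mg {i₀} (fun x => ρ (x i₀)) x :=
            lmarginal_mono (fun x => indicator_le_self _ _ x) x
        _ = ∫⁻ y, ρ y := by
            unfold mg
            rw [lmarginal_singleton]
            simp
        _ ≤ _ := by rw [hρ1]; simp
    · -- sum over the last merge
      set t : Finset (Finset S × Finset S × Finset S × Finset S × S × S × ℕ) :=
        P.powerset ×ˢ P.powerset ×ˢ P.powerset ×ˢ P.powerset ×ˢ P ×ˢ P ×ˢ Finset.range (N + 1)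
        with ht
      let cond : Finset S × Finset S × Finset S × Finset S × S × S × ℕ → Prop := fun τ =>
        τ.1 ∪ τ.2.1 = P ∧ Disjoint τ.1 τ.2.1 ∧ τ.2.2.1 ⊆ τ.1 ∧ τ.2.2.2.1 ⊆ τ.2.1 ∧
          τ.2.2.2.2.1 ∈ τ.2.2.1 ∧ τ.2.2.2.2.2.1 ∈ τ.2.2.2.1
      let g : Finset S × Finset S × Finset S × Finset S × S × S × ℕ → (S → Space3) → ℝ≥0∞ :=
        fun τ => ({x | cond τ} ∩ ({x | GTr r N (p x) τ.1} ∩ ({x | GTr r N (p x) τ.2.1} ∩
          nearSet r p τ.2.2.1 τ.2.2.2.1 τ.2.2.2.2.1 τ.2.2.2.2.2.1 τ.2.2.2.2.2.2))).indicator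
            fun x => ρ (x i₀)
      have hgm : ∀ τ, Measurable (g τ) := by
        intro τ
        by_cases hc : cond τ
        · refine (hρi i₀).indicator ?_
          refine (MeasurableSet.const _).inter ((hmeas _).inter ((hmeas _).inter ?_))
          exact measurableSet_le ((hp.meas _ _ _ hc.2.2.2.2.1).dist (hp.meas _ _ _ hc.2.2.2.2.2))
            measurable_const
        · have : g τ = 0 := by
            funext x
            simp only [g]
            rw [indicator_of_notMem]
            · rfl
            · rintro ⟨h, _⟩; exact hc h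
          rw [this]; exact measurable_const
      have hle : ∀ x : S → Space3, ({x | GTr r N (p x) P}.indicator fun x => ρ (x i₀)) x ≤
          ∑ τ ∈ t, g τ x := by
        intro x
        by_cases hx : GTr r N (p x) P
        · rw [indicator_of_mem (show x ∈ {x | GTr r N (p x) P} from hx)]
          rcases gtr_iff.1 hx with ⟨i, hi⟩ | ⟨P₁, hP₁, P₂, hP₂, A, hA, B, hB, i, hi, j, hj, k, hk,
            hcond, hG1, hG2, hnear⟩
          · rw [hi, Finset.card_singleton] at h2
            exact absurd h2 (lt_irrefl _)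
          · have hmem : (P₁, P₂, A, B, i, j, k) ∈ t := by
              simp only [ht, Finset.mem_product]
              exact ⟨hP₁, hP₂, hA, hB, hi, hj, hk⟩
            have hval : g (P₁, P₂, A, B, i, j, k) x = ρ (x i₀) := by
              have hx' : x ∈ {x | cond (P₁, P₂, A, B, i, j, k)} ∩ ({x | GTr r N (p x) P₁} ∩
                  ({x | GTr r N (p x) P₂} ∩ nearSet r p A B i j k)) :=
                ⟨hcond, hG1, hG2, hnear⟩
              exact indicator_of_mem hx' _
            rw [← hval]
            exact Finset.single_le_sum (f := fun τ => g τ x) (fun _ _ => bot_le) hmem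
        · rw [indicator_of_notMem (show x ∉ {x | GTr r N (p x) P} from hx)]
          exact bot_le
      have hterm : ∀ τ ∈ t, mg P (g τ) x ≤ b * (a * b) ^ (P.card - 2) := by
        intro τ _
        obtain ⟨P₁, P₂, A, B, i, j, k⟩ := τ
        by_cases hc : cond (P₁, P₂, A, B, i, j, k)
        · obtain ⟨hU, hd, hA, hB, hi, hj⟩ := hc
          simp only at hU hd hA hB hi hj
          have hcu := Finset.card_union_of_disjoint hd
          rw [hU] at hcu
          have hc1 : 0 < P₁.card := Finset.card_pos.2 ⟨i, hA hi⟩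
          have hc2 : 0 < P₂.card := Finset.card_pos.2 ⟨j, hB hj⟩
          have hnm : MeasurableSet (nearSet r p A B i j k) :=
            measurableSet_le ((hp.meas _ _ _ hi).dist (hp.meas _ _ _ hj)) measurable_const
          have hinv : ∀ (Q : Finset S) (x : S → Space3) (y : Space3),
              x ∈ {x | GTr r N (p x) Q} → sh Q y x ∈ {x | GTr r N (p x) Q} := by
            intro Q x y hx
            exact GTr.translate hx (fun _ => y) fun A' hA' n i' hi' => hp.sh_eq hA' n hi' y x
          have hindep : ∀ (Q R : Finset S) (_ : Disjoint Q R) (x : S → Space3)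
              (z : (k : R) → Space3), (updateFinset x R z ∈ {x | GTr r N (p x) Q} ↔
                x ∈ {x | GTr r N (p x) Q}) := by
            intro Q R hQR x z
            have he : ∀ A' ⊆ Q, ∀ n, ∀ i' ∈ A', p (updateFinset x R z) A' n i' = p x A' n i' := by
              intro A' hA' n i' hi'
              refine hp.local' A' n i' _ _ hi' fun k hk => ?_
              have : k ∉ R := Finset.disjoint_left.1 hQR (hA' hk)
              simp [updateFinset, this]
            exact ⟨fun h => GTr.congr h he, fun h => GTr.congr h fun A' hA' n i' hi' =>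
              (he A' hA' n i' hi').symm⟩
          rcases Finset.mem_union.1 (hU.symm ▸ hi₀ : i₀ ∈ P₁ ∪ P₂) with hi₀1 | hi₀2
          · -- the root is in the first block
            have hgeq : g (P₁, P₂, A, B, i, j, k) = fun x =>
                ({x | GTr r N (p x) P₁}.indicator fun x => ρ (x i₀)) x *
                  ({x | GTr r N (p x) P₂}.indicator
                    ((nearSet r p A B i j k).indicator fun _ => 1)) x := by
              funext x
              simp only [g]
              by_cases h1 : x ∈ {x | GTr r N (p x) P₁}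
              · by_cases h2 : x ∈ {x | GTr r N (p x) P₂}
                · by_cases h3 : x ∈ nearSet r p A B i j k
                  · rw [indicator_of_mem, indicator_of_mem h1, indicator_of_mem h2,
                      indicator_of_mem h3, mul_one]
                    exact ⟨⟨hU, hd, hA, hB, hi, hj⟩, h1, h2, h3⟩
                  · rw [indicator_of_notMem, indicator_of_mem h2, indicator_of_notMem h3, mul_zero]
                    exact fun h => h3 h.2.2.2
                · rw [indicator_of_notMem, indicator_of_notMem h2, mul_zero]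
                  exact fun h => h2 h.2.2.1
              · rw [indicator_of_notMem, indicator_of_notMem h1, zero_mul]
                exact fun h => h1 h.2.1
            have hk : Measurable ({x | GTr r N (p x) P₂}.indicator
                ((nearSet r p A B i j k).indicator fun _ => (1 : ℝ≥0∞))) :=
              (measurable_const.indicator hnm).indicator (hmeas _)
            have hinner : ∀ x : S → Space3, mg P₂ (g (P₁, P₂, A, B, i, j, k)) x ≤
                (b * (a * b) ^ (P₂.card - 1)) *
                  ({x | GTr r N (p x) P₁}.indicator fun x => ρ (x i₀)) x := by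
              intro x
              rw [hgeq, mg_mul_left P₂ hk x, mul_comm]
              · gcongr
                calc mg P₂ ({x | GTr r N (p x) P₂}.indicator
                      ((nearSet r p A B i j k).indicator fun _ => 1)) x
                    ≤ b * mg P₂ ({x | GTr r N (p x) P₂}.indicator fun x => ρ (x j)) x :=
                      mg_translation_le (hmeas _) (hinv P₂) (hB hj) hρ hρ1
                        (measurable_const.indicator hnm)
                        (fun x => (lintegral_near_right r hp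
                          (Finset.disjoint_of_subset_left hA hd) hB hi hj k x).le) x
                  _ ≤ b * (a * b) ^ (P₂.card - 1) := by
                      gcongr
                      exact ih P₂ (by omega) (by omega) j (hB hj) x
              · intro z
                have h1 := hindep P₁ P₂ hd x z
                have h2 : updateFinset x P₂ z i₀ = x i₀ := by
                  have : i₀ ∉ P₂ := Finset.disjoint_left.1 hd hi₀1
                  simp [updateFinset, this]
                by_cases h : x ∈ {x | GTr r N (p x) P₁}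
                · rw [indicator_of_mem h, indicator_of_mem (h1.2 h), h2]
                · rw [indicator_of_notMem h, indicator_of_notMem (mt h1.1 h)]
            calc mg P (g (P₁, P₂, A, B, i, j, k)) x
                = mg P₁ (mg P₂ (g (P₁, P₂, A, B, i, j, k))) x := by
                  rw [← hU]
                  exact congrFun (lmarginal_union _ _ (hgm _) hd) x
              _ ≤ mg P₁ (fun x => (b * (a * b) ^ (P₂.card - 1)) *
                  ({x | GTr r N (p x) P₁}.indicator fun x => ρ (x i₀)) x) x :=
                  lmarginal_mono hinner x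
              _ = (b * (a * b) ^ (P₂.card - 1)) *
                  mg P₁ ({x | GTr r N (p x) P₁}.indicator fun x => ρ (x i₀)) x := by
                  unfold mg lmarginal
                  refine lintegral_const_mul _ ?_
                  exact ((hρi i₀).indicator (hmeas _)).comp measurable_updateFinset
              _ ≤ (b * (a * b) ^ (P₂.card - 1)) * (a * b) ^ (P₁.card - 1) := by
                  gcongr
                  exact ih P₁ (by omega) (by omega) i₀ hi₀1 x
              _ = b * (a * b) ^ (P.card - 2) := by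
                  rw [mul_assoc, ← pow_add]
                  congr 2
                  omega
          · -- the root is in the second block
            have hgeq : g (P₁, P₂, A, B, i, j, k) = fun x =>
                ({x | GTr r N (p x) P₂}.indicator fun x => ρ (x i₀)) x *
                  ({x | GTr r N (p x) P₁}.indicator
                    ((nearSet r p A B i j k).indicator fun _ => 1)) x := by
              funext x
              simp only [g]
              by_cases h1 : x ∈ {x | GTr r N (p x) P₁}
              · by_cases h2 : x ∈ {x | GTr r N (p x) P₂}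
                · by_cases h3 : x ∈ nearSet r p A B i j k
                  · rw [indicator_of_mem, indicator_of_mem h1, indicator_of_mem h2,
                      indicator_of_mem h3, mul_one]
                    exact ⟨⟨hU, hd, hA, hB, hi, hj⟩, h1, h2, h3⟩
                  · rw [indicator_of_notMem, indicator_of_mem h1, indicator_of_notMem h3, mul_zero]
                    exact fun h => h3 h.2.2.2
                · rw [indicator_of_notMem, indicator_of_notMem h2, zero_mul]
                  exact fun h => h2 h.2.2.1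
              · rw [indicator_of_notMem, indicator_of_notMem h1, mul_zero]
                exact fun h => h1 h.2.1
            have hk : Measurable ({x | GTr r N (p x) P₁}.indicator
                ((nearSet r p A B i j k).indicator fun _ => (1 : ℝ≥0∞))) :=
              (measurable_const.indicator hnm).indicator (hmeas _)
            have hinner : ∀ x : S → Space3, mg P₁ (g (P₁, P₂, A, B, i, j, k)) x ≤
                (b * (a * b) ^ (P₁.card - 1)) *
                  ({x | GTr r N (p x) P₂}.indicator fun x => ρ (x i₀)) x := by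
              intro x
              rw [hgeq, mg_mul_left P₁ hk x, mul_comm]
              · gcongr
                calc mg P₁ ({x | GTr r N (p x) P₁}.indicator
                      ((nearSet r p A B i j k).indicator fun _ => 1)) x
                    ≤ b * mg P₁ ({x | GTr r N (p x) P₁}.indicator fun x => ρ (x i)) x :=
                      mg_translation_le (hmeas _) (hinv P₁) (hA hi) hρ hρ1
                        (measurable_const.indicator hnm)
                        (fun x => (lintegral_near_left r hp hA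
                          (Finset.disjoint_of_subset_left hB hd.symm) hi hj k x).le) x
                  _ ≤ b * (a * b) ^ (P₁.card - 1) := by
                      gcongr
                      exact ih P₁ (by omega) (by omega) i (hA hi) x
              · intro z
                have h1 := hindep P₂ P₁ hd.symm x z
                have h2 : updateFinset x P₁ z i₀ = x i₀ := by
                  have : i₀ ∉ P₁ := Finset.disjoint_right.1 hd hi₀2
                  simp [updateFinset, this]
                by_cases h : x ∈ {x | GTr r N (p x) P₂}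
                · rw [indicator_of_mem h, indicator_of_mem (h1.2 h), h2]
                · rw [indicator_of_notMem h, indicator_of_notMem (mt h1.1 h)]
            calc mg P (g (P₁, P₂, A, B, i, j, k)) x
                = mg P₂ (mg P₁ (g (P₁, P₂, A, B, i, j, k))) x := by
                  rw [← hU, Finset.union_comm]
                  exact congrFun (lmarginal_union _ _ (hgm _) hd.symm) x
              _ ≤ mg P₂ (fun x => (b * (a * b) ^ (P₁.card - 1)) *
                  ({x | GTr r N (p x) P₂}.indicator fun x => ρ (x i₀)) x) x :=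
                  lmarginal_mono hinner x
              _ = (b * (a * b) ^ (P₁.card - 1)) *
                  mg P₂ ({x | GTr r N (p x) P₂}.indicator fun x => ρ (x i₀)) x := by
                  unfold mg lmarginal
                  refine lintegral_const_mul _ ?_
                  exact ((hρi i₀).indicator (hmeas _)).comp measurable_updateFinset
              _ ≤ (b * (a * b) ^ (P₁.card - 1)) * (a * b) ^ (P₂.card - 1) := by
                  gcongr
                  exact ih P₂ (by omega) (by omega) i₀ hi₀2 x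
              _ = b * (a * b) ^ (P.card - 2) := by
                  rw [mul_assoc, ← pow_add]
                  congr 2
                  omega
        · have : g (P₁, P₂, A, B, i, j, k) = 0 := by
            funext x
            simp only [g]
            rw [indicator_of_notMem]
            · rfl
            · rintro ⟨h, _⟩; exact hc h
          rw [this]
          unfold mg lmarginal
          simp
      have hcardt : t.card ≤ a := by
        simp only [ht, Finset.card_product, Finset.card_powerset, Finset.card_range]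
        calc 2 ^ P.card * (2 ^ P.card * (2 ^ P.card * (2 ^ P.card * (P.card * (P.card * (N + 1))))))
            ≤ 2 ^ M * (2 ^ M * (2 ^ M * (2 ^ M * (M * (M * (N + 1)))))) := by
              gcongr <;> norm_num
          _ = a := by rw [ha]; ring
      calc mg P ({x | GTr r N (p x) P}.indicator fun x => ρ (x i₀)) x
          ≤ mg P (fun x => ∑ τ ∈ t, g τ x) x := lmarginal_mono hle x
        _ = ∑ τ ∈ t, mg P (g τ) x := by
            unfold mg lmarginal
            exact lintegral_finset_sum _ fun τ _ => (hgm τ).comp measurable_updateFinset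
        _ ≤ ∑ τ ∈ t, b * (a * b) ^ (P.card - 2) := Finset.sum_le_sum hterm
        _ = t.card * (b * (a * b) ^ (P.card - 2)) := by
            rw [Finset.sum_const, nsmul_eq_mul]
        _ ≤ a * (b * (a * b) ^ (P.card - 2)) := by
            gcongr
        _ = (a * b) ^ (P.card - 1) := by
            have : P.card - 1 = (P.card - 2) + 1 := by omega
            rw [this, pow_succ]
            ring

end Crest.Agent.R122.VConn581
end

-- ▼ part R122/VCA_442
section

/-!
# Row 122, D3 (helper442): the crude volume bound, discretisation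

`gtr_of_vtr`: a virtually connected configuration (Kruskal form `VTr`) is grid-connected (`GTr` of
`VConnB_581`) for the positions `gpos` at the grid times.
-/

set_option autoImplicit false
set_option linter.unusedSectionVars false

open MeasureTheory Set Filter Topology
open scoped NNReal ENNReal
open Crest.AnalysisR.Kinetic
open Crest.Agent.R122.Flow671 Crest.Agent.R122.Loc45 Crest.Agent.R122.Ins45
open Crest.Agent.R122.VL581 Crest.Agent.R122.VL581.VSys Crest.Agent.R122.VConn581

noncomputable section

namespace Crest.Agent.R122.VLInst442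

/-! ### Translations (unconditional) -/

section shift

variable {Φ : Space3 → ℝ} {ε : ℝ} {ι : Type*} [Fintype ι]

theorem flowA_shiftX (hΦ : AdmissiblePotential Φ) (hε : 0 < ε) (A : Finset ι) (a : Space3)
    (t : ℝ) (Z : ι → PhasePoint) :
    flowA Φ ε A t (shiftX a Z) = shiftX a (flowA Φ ε A t Z) := by
  funext i
  by_cases h : i ∈ A
  · have h1 := flow_shiftX hΦ hε a t (fun b : A => Z b)
    have h2 := congrFun h1 ⟨i, h⟩
    rw [flowA_mem A t _ h]
    unfold shiftX at h2 ⊢
    rw [flowA_mem A t _ h]
    exact h2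
  · rw [flowA_not_mem A t _ h]
    unfold shiftX
    rw [flowA_not_mem A t _ h]
    refine Prod.ext ?_ rfl
    simp only
    abel

theorem evoN_shiftX (hΦ : AdmissiblePotential Φ) (hε : 0 < ε) (b : ι → ℝ) (a : Space3) :
    ∀ (n : ℕ) (s t : ℝ) (Z : ι → PhasePoint),
      evoN Φ ε b n s t (shiftX a Z) = shiftX a (evoN Φ ε b n s t Z) := by
  intro n
  induction n with
  | zero => exact fun s t Z => flowA_shiftX hΦ hε _ a _ Z
  | succ n ih =>
    intro s t Z
    unfold evoN
    split_ifs
    · rw [flowA_shiftX hΦ hε, ih]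
    · rw [flowA_shiftX hΦ hε]

end shift

variable {J κ : Type} [Fintype J] {M : VSys J κ}

theorem st_shiftX (hΦ : AdmissiblePotential M.Φ) (hε : 0 < M.ε) (A : Finset J) (t : ℝ)
    (Z : J → PhasePoint) (a : Space3) (i : J) :
    M.st A t (shiftX a Z) i = ((M.st A t Z i).1 + a, (M.st A t Z i).2) := by
  by_cases h : i ∈ M.mem A t
  · rw [st_of_mem M h, st_of_mem M h]
    have h1 := evoN_shiftX hΦ hε (fun j : M.mem A t => M.bb j) a (Fintype.card (M.mem A t)) (-1) t
      (fun j : M.mem A t => ((Z j).1 - (Z j).2, (Z j).2))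
    have h2 : (fun j : M.mem A t => ((shiftX a Z j).1 - (shiftX a Z j).2, (shiftX a Z j).2)) =
        shiftX a (fun j : M.mem A t => ((Z j).1 - (Z j).2, (Z j).2)) := by
      funext j
      unfold shiftX
      refine Prod.ext ?_ rfl
      simp only
      abel
    unfold ev evo
    rw [h2, h1]
    rfl
  · rw [st_of_not_mem M h, st_of_not_mem M h]
    unfold fl shiftX
    refine Prod.ext ?_ rfl
    simp only
    abel

theorem pos_shiftX (hΦ : AdmissiblePotential M.Φ) (hε : 0 < M.ε) (A : Finset J) (k : κ) (t : ℝ)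
    (Z : J → PhasePoint) (a : Space3) (i : J) :
    M.pos A k t (shiftX a Z) i = M.pos A k t Z i + a := by
  unfold VSys.pos
  split_ifs
  · unfold shiftX
    simp only
    abel
  · rw [st_shiftX hΦ hε]

/-! ### The grid -/

section grid

variable [Fintype κ]

/-- positions and velocities -/
def zip (x v : J → Space3) : J → PhasePoint := fun j => (x j, v j)

/-- The positions of all sub-worlds (and tubes) at the grid times: the number `a` encodes the grid
time `(a / c) h` and the tube `a % c`. -/
def gpos (M : VSys J κ) (h : ℝ) (e : Fin (Fintype.card κ) ≃ κ) (hc : 0 < Fintype.card κ)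
    (v : J → Space3) (x : J → Space3) (A : Finset J) (a : ℕ) (i : J) : Space3 :=
  M.pos A (e ⟨a % Fintype.card κ, Nat.mod_lt _ hc⟩) ((a / Fintype.card κ : ℕ) * h) (zip x v) i

theorem gpos_cov (hM : VLMeas973.Good M) (h : ℝ) (e : Fin (Fintype.card κ) ≃ κ)
    (hc : 0 < Fintype.card κ) (v : J → Space3) : Cov (gpos M h e hc v) where
  local' A n i x x' hi hx := by
    unfold gpos
    exact pos_congr (fun j hj => by simp only [zip, hx j hj]) hi _ _
  shift A n i x y hi := by
    unfold gpos
    exact pos_shiftX hM.adm hM.eps A _ _ (zip x v) y i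
  meas A n i hi := by
    unfold gpos VSys.pos
    by_cases ho : M.o = some i
    · simp only [ho, if_true, zip]
      exact (measurable_pi_apply i).add measurable_const
    · simp only [ho, if_false]
      have hz : Measurable fun x : J → Space3 => zip x v := by
        refine measurable_pi_lambda _ fun j => ?_
        exact (measurable_pi_apply j).prodMk measurable_const
      have h1 := VLMeas973.measurable_st (M := M) hM (b := fun _ : J → Space3 => M.b)
        measurable_const hz A (τ := fun _ => ((n / Fintype.card κ : ℕ) : ℝ) * h) measurable_const i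
      exact h1.fst

/-- Positions at an earlier time. -/
theorem dist_pos_le (hΦ : AdmissiblePotential M.Φ) (hε : 0 < M.ε) {L : ℝ≥0}
    (hL : ∀ k, LipschitzOnWith L (M.S.c k) (Icc 0 M.T)) {A : Finset J} {t s V : ℝ}
    {Z : J → PhasePoint} (hok : M.ok A t Z) (hV : ∀ j, ‖(Z j).2‖ ≤ V) (hs0 : 0 ≤ s) (hst : s ≤ t)
    (htT : t ≤ M.T) (k : κ) (i : J) :
    dist (M.pos A k s Z i) (M.pos A k t Z i) ≤ (spd M.Φ (Fintype.card J) V + L) * (t - s) := by
  have h1 : 0 ≤ t - s := sub_nonneg.2 hst
  unfold VSys.pos
  split_ifs with ho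
  · have hs : max 0 (min s M.T) = s := by
      rw [min_eq_left (hst.trans htT), max_eq_right hs0]
    have ht : max 0 (min t M.T) = t := by
      rw [min_eq_left htT, max_eq_right (hs0.trans hst)]
    rw [hs, ht, dist_add_left]
    have h2 := (hL k).dist_le_mul s ⟨hs0, hst.trans htT⟩ t ⟨hs0.trans hst, htT⟩
    rw [Real.dist_eq, abs_sub_comm, abs_of_nonneg h1] at h2
    refine h2.trans (mul_le_mul_of_nonneg_right ?_ h1)
    have := spd_nonneg M.Φ (Fintype.card J) V
    linarith
  · refine (st_lipschitz hΦ hε hok hV i hst).trans (mul_le_mul_of_nonneg_right ?_ h1)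
    have := L.2
    change spd M.Φ (Fintype.card J) V ≤ spd M.Φ (Fintype.card J) V + (L : ℝ)
    have h3 : (0 : ℝ) ≤ L := L.2
    linarith

theorem pos_tube_irrel {A : Finset J} {t : ℝ} {Z : J → PhasePoint} {i : J} (h : M.o ≠ some i)
    (k l : κ) : M.pos A k t Z i = M.pos A l t Z i := by
  unfold VSys.pos
  rw [if_neg h, if_neg h]

/-- **Discretisation.** -/
theorem gtr_of_vtr [DecidableEq J] (hΦ : AdmissiblePotential M.Φ) (hε : 0 < M.ε) {L : ℝ≥0}
    (hL : ∀ k, LipschitzOnWith L (M.S.c k) (Icc 0 M.T)) {C : ℝ}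
    {e : Fin (Fintype.card κ) ≃ κ} {hc : 0 < Fintype.card κ} {x v : J → Space3} {V h : ℝ}
    (hV : ∀ j, ‖v j‖ ≤ V) (hh : 0 < h)
    (hSh : (spd M.Φ (Fintype.card J) V + L) * h ≤ M.ε) {P : Finset J} {s : ℝ}
    (hP : VTr M C (zip x v) P s) :
    GTr ((C + 2) * M.ε) ((⌊M.T / h⌋₊ + 1) * Fintype.card κ) (gpos M h e hc v x) P := by
  induction hP with
  | single i s => exact GTr.single i
  | mono _ _ ih => exact ih
  | @merge P Q A B k l i j s hP hQ hd hA hB hct hs hno ih1 ih2 =>
    obtain ⟨hi, hj, hokA, hokB, -, -, hdist⟩ := hct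
    have hij : i ≠ j := fun hij => Finset.disjoint_left.1 hd (hA hi) (hij ▸ hB hj)
    -- the tube
    obtain ⟨m, hmi, hmj⟩ : ∃ m : κ, (M.o = some i → m = k) ∧ (M.o = some j → m = l) := by
      by_cases ho : M.o = some i
      · refine ⟨k, fun _ => rfl, fun h => ?_⟩
        rw [ho] at h
        exact absurd (Option.some.inj h) hij
      · exact ⟨l, fun h => absurd h ho, fun _ => rfl⟩
    have hposi : ∀ t, M.pos A k t (zip x v) i = M.pos A m t (zip x v) i := by
      intro t
      by_cases ho : M.o = some i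
      · rw [hmi ho]
      · exact pos_tube_irrel ho _ _
    have hposj : ∀ t, M.pos B l t (zip x v) j = M.pos B m t (zip x v) j := by
      intro t
      by_cases ho : M.o = some j
      · rw [hmj ho]
      · exact pos_tube_irrel ho _ _
    -- the time
    set n := ⌊s / h⌋₊ with hn
    have hn1 : (n : ℝ) * h ≤ s := by
      have := Nat.floor_le (div_nonneg hs.1 hh.le)
      rwa [le_div_iff₀ hh] at this
    have hn2 : s < (n + 1 : ℝ) * h := by
      have := Nat.lt_floor_add_one (s / h)
      rwa [div_lt_iff₀ hh] at this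
    have hnN : n ≤ ⌊M.T / h⌋₊ := Nat.floor_mono (div_le_div_of_nonneg_right hs.2 hh.le)
    obtain ⟨a, ha⟩ : ∃ a : ℕ, a = n * Fintype.card κ + (e.symm m : ℕ) := ⟨_, rfl⟩
    have ha1 : a / Fintype.card κ = n := by
      rw [ha, Nat.add_comm, Nat.add_mul_div_right _ _ hc, Nat.div_eq_of_lt (e.symm m).2, zero_add]
    have ha2 : a % Fintype.card κ = (e.symm m : ℕ) := by
      rw [ha, Nat.add_comm, Nat.add_mul_mod_self_right, Nat.mod_eq_of_lt (e.symm m).2]
    have haN : a ≤ (⌊M.T / h⌋₊ + 1) * Fintype.card κ := by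
      have h1 : n * Fintype.card κ ≤ ⌊M.T / h⌋₊ * Fintype.card κ := Nat.mul_le_mul_right _ hnN
      have h2 := (e.symm m).2
      rw [add_mul, one_mul]
      omega
    have hg : ∀ (D : Finset J) (b : J), gpos M h e hc v x D a b =
        M.pos D m ((n : ℝ) * h) (zip x v) b := by
      intro D b
      unfold gpos
      have h3 : (⟨a % Fintype.card κ, Nat.mod_lt _ hc⟩ : Fin (Fintype.card κ)) = e.symm m :=
        Fin.ext ha2
      rw [h3, Equiv.apply_symm_apply, ha1]
    refine GTr.merge ih1 ih2 hd hA hB hi hj haN ?_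
    rw [hg, hg]
    have hn0 : (0 : ℝ) ≤ (n : ℝ) * h := by positivity
    have hV' : ∀ j, ‖(zip x v j).2‖ ≤ V := hV
    have hS0 : 0 ≤ spd M.Φ (Fintype.card J) V + (L : ℝ) :=
      add_nonneg (spd_nonneg _ _ _) L.2
    have hgap : (spd M.Φ (Fintype.card J) V + (L : ℝ)) * (s - n * h) ≤ M.ε := by
      refine (mul_le_mul_of_nonneg_left ?_ hS0).trans hSh
      nlinarith
    have d1 := (dist_pos_le hΦ hε hL hokA hV' hn0 hn1 hs.2 m i).trans hgap
    have d2 := (dist_pos_le hΦ hε hL hokB hV' hn0 hn1 hs.2 m j).trans hgap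
    rw [hposi, hposj] at hdist
    calc dist (M.pos A m (n * h) (zip x v) i) (M.pos B m (n * h) (zip x v) j)
        ≤ dist (M.pos A m (n * h) (zip x v) i) (M.pos A m s (zip x v) i) +
          dist (M.pos A m s (zip x v) i) (M.pos B m s (zip x v) j) +
          dist (M.pos B m s (zip x v) j) (M.pos B m (n * h) (zip x v) j) := dist_triangle4 _ _ _ _
      _ ≤ M.ε + C * M.ε + M.ε := by
        refine add_le_add (add_le_add d1 hdist) ?_
        rw [dist_comm]
        exact d2
      _ = (C + 2) * M.ε := by ring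

end grid


end Crest.Agent.R122.VLInst442

end
end

-- ▼ part R122/VC_973
section

/-!
# Row 122, D3 (helper973): from the fixed-velocity bound of helper442 to `VC`

* `gaussK` : Gaussian integral of a power of the speed bound.
* `VcB` : the fixed-velocity bound; `vc_of_vcB : VcB Φ → VC Φ`.
-/

set_option autoImplicit false

open MeasureTheory Set Filter Topology
open scoped NNReal ENNReal Nat
open Crest.AnalysisR.Kinetic
open Crest.Agent.R122.Loc45 Crest.Agent.R122.GC311
open Crest.Agent.R122.VL581 Crest.Agent.R122.VL581.VSys Crest.Agent.R122.VLInst442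

noncomputable section

namespace Crest.Agent.R122.VC973

theorem one_add_sum_le_prod {J : Type} (s : Finset J) (a : J → ℝ) (ha : ∀ j, 0 ≤ a j) :
    1 + ∑ j ∈ s, a j ≤ ∏ j ∈ s, (1 + a j) := by
  classical
  induction s using Finset.induction_on with
  | empty => simp
  | insert i s hi ih =>
    rw [Finset.sum_insert hi, Finset.prod_insert hi]
    have h0 : 0 ≤ ∑ j ∈ s, a j := Finset.sum_nonneg fun j _ => ha j
    have h1 := ha i
    nlinarith

theorem pow_le_gauss {β : ℝ} (hβ : 0 < β) (n : ℕ) {r : ℝ} (hr : 0 ≤ r) :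
    (1 + r) ^ n ≤ ((n ! : ℝ) * Real.exp (1 + 1 / (2 * β))) * Real.exp (β / 2 * r ^ 2) := by
  have h1 := Real.pow_div_factorial_le_exp (1 + r) (by positivity) n
  have h0 : (0 : ℝ) < (n ! : ℝ) := by exact_mod_cast Nat.factorial_pos n
  rw [div_le_iff₀ h0] at h1
  refine h1.trans ?_
  rw [mul_comm, mul_assoc, ← Real.exp_add]
  refine mul_le_mul_of_nonneg_left (Real.exp_le_exp.2 ?_) h0.le
  have h2 : 0 ≤ (β * r - 1) ^ 2 / (2 * β) := by positivity
  have h3 : (β * r - 1) ^ 2 / (2 * β) = β / 2 * r ^ 2 - r + 1 / (2 * β) := by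
    field_simp
    ring
  rw [h3] at h2
  linarith

/-- One-particle Gaussian moment. -/
theorem gauss_one {β : ℝ} (hβ : 0 < β) (n : ℕ) :
    ∫⁻ v : Space3, ENNReal.ofReal (Real.exp (-β * ‖v‖ ^ 2)) * ENNReal.ofReal ((1 + ‖v‖) ^ n) < ⊤ := by
  set c : ℝ := (n ! : ℝ) * Real.exp (1 + 1 / (2 * β)) with hc
  have hc0 : 0 ≤ c := by positivity
  have hG := lintegral_gaussian_lt_top (γ := β / 2) (by positivity)
  have hle : ∀ v : Space3, ENNReal.ofReal (Real.exp (-β * ‖v‖ ^ 2)) *
      ENNReal.ofReal ((1 + ‖v‖) ^ n) ≤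
      ENNReal.ofReal c * ENNReal.ofReal (Real.exp (-(β / 2 * ‖v‖ ^ 2))) := by
    intro v
    rw [← ENNReal.ofReal_mul (Real.exp_pos _).le, ← ENNReal.ofReal_mul hc0]
    refine ENNReal.ofReal_le_ofReal ?_
    calc Real.exp (-β * ‖v‖ ^ 2) * (1 + ‖v‖) ^ n
        ≤ Real.exp (-β * ‖v‖ ^ 2) * (c * Real.exp (β / 2 * ‖v‖ ^ 2)) :=
          mul_le_mul_of_nonneg_left (pow_le_gauss hβ n (norm_nonneg v)) (Real.exp_pos _).le
      _ = c * (Real.exp (-β * ‖v‖ ^ 2) * Real.exp (β / 2 * ‖v‖ ^ 2)) := by ring
      _ = _ := by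
          rw [← Real.exp_add]
          congr 2
          ring
  refine (lintegral_mono hle).trans_lt ?_
  rw [lintegral_const_mul' _ _ ENNReal.ofReal_ne_top]
  exact ENNReal.mul_lt_top ENNReal.ofReal_lt_top hG

theorem spd_le (Φ : Space3 → ℝ) (m : ℕ) {V : ℝ} (hV : 0 ≤ V) :
    spd Φ m V ≤ ((m + 1) * (2 * stabB Φ + 3)) * (1 + V) := by
  have hB := stabB_nonneg Φ
  unfold spd
  refine Real.sqrt_le_iff.2 ⟨by positivity, ?_⟩
  have hm : (0 : ℝ) ≤ m := by positivity
  have e1 : (m : ℝ) * (V ^ 2 + 2 * stabB Φ + 3) ≤ (m + 1) * ((2 * stabB Φ + 3) * (1 + V) ^ 2) := by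
    have : V ^ 2 + 2 * stabB Φ + 3 ≤ (2 * stabB Φ + 3) * (1 + V) ^ 2 := by nlinarith
    have h2 : 0 ≤ V ^ 2 + 2 * stabB Φ + 3 := by positivity
    nlinarith
  refine e1.trans ?_
  have e2 : ((m : ℝ) + 1) * (2 * stabB Φ + 3) ≤ ((m + 1) * (2 * stabB Φ + 3)) ^ 2 := by
    have : (1 : ℝ) ≤ (m + 1) * (2 * stabB Φ + 3) := by nlinarith
    nlinarith
  calc ((m : ℝ) + 1) * ((2 * stabB Φ + 3) * (1 + V) ^ 2)
      = (((m : ℝ) + 1) * (2 * stabB Φ + 3)) * (1 + V) ^ 2 := by ring
    _ ≤ ((m + 1) * (2 * stabB Φ + 3)) ^ 2 * (1 + V) ^ 2 :=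
        mul_le_mul_of_nonneg_right e2 (by positivity)
    _ = _ := by ring

theorem measurable_gaussI {J : Type} [Fintype J] (Φ : Space3 → ℝ) (β a L : ℝ) (m n : ℕ) :
    Measurable fun v : J → Space3 => (∏ j, ENNReal.ofReal (Real.exp (-β * ‖v j‖ ^ 2))) *
      ENNReal.ofReal ((a * (1 + (spd Φ m (∑ j, ‖v j‖) + L))) ^ n) := by
  unfold spd
  fun_prop

/-- **Gaussian integral of a power of the speed bound.** -/
theorem gaussK {J : Type} [Fintype J] (Φ : Space3 → ℝ) {β a L : ℝ} (hβ : 0 < β) (ha : 0 ≤ a)
    (hL : 0 ≤ L) (m n : ℕ) :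
    ∫⁻ v : J → Space3, (∏ j, ENNReal.ofReal (Real.exp (-β * ‖v j‖ ^ 2))) *
      ENNReal.ofReal ((a * (1 + (spd Φ m (∑ j, ‖v j‖) + L))) ^ n) < ⊤ := by
  have hB := stabB_nonneg Φ
  set c : ℝ := (m + 1) * (2 * stabB Φ + 3) with hc
  have hc0 : 0 ≤ c := by positivity
  set D : ℝ := (a * (1 + c + L)) ^ n with hD
  have hD0 : 0 ≤ D := by positivity
  have hle : ∀ v : J → Space3, (∏ j, ENNReal.ofReal (Real.exp (-β * ‖v j‖ ^ 2))) *
      ENNReal.ofReal ((a * (1 + (spd Φ m (∑ j, ‖v j‖) + L))) ^ n) ≤
      ENNReal.ofReal D * ∏ j, (ENNReal.ofReal (Real.exp (-β * ‖v j‖ ^ 2)) *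
        ENNReal.ofReal ((1 + ‖v j‖) ^ n)) := by
    intro v
    set V : ℝ := ∑ j, ‖v j‖ with hV
    have hV0 : 0 ≤ V := Finset.sum_nonneg fun j _ => norm_nonneg _
    have h1 := spd_le Φ m hV0
    have h2 : 1 + (spd Φ m V + L) ≤ (1 + c + L) * (1 + V) := by nlinarith [h1, hV0, hL]
    have h3 := one_add_sum_le_prod Finset.univ (fun j => ‖v j‖) fun j => norm_nonneg _
    have h0 : 0 ≤ 1 + (spd Φ m V + L) := by
      have := spd_nonneg Φ m V
      linarith
    have h4 : (a * (1 + (spd Φ m V + L))) ^ n ≤ D * ∏ j, (1 + ‖v j‖) ^ n := by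
      rw [hD, Finset.prod_pow, ← mul_pow]
      refine pow_le_pow_left₀ (mul_nonneg ha h0) ?_ n
      calc a * (1 + (spd Φ m V + L)) ≤ a * ((1 + c + L) * (1 + V)) :=
            mul_le_mul_of_nonneg_left h2 ha
        _ ≤ a * ((1 + c + L) * ∏ j, (1 + ‖v j‖)) := by
            refine mul_le_mul_of_nonneg_left (mul_le_mul_of_nonneg_left h3 ?_) ha
            positivity
        _ = _ := by ring
    calc (∏ j, ENNReal.ofReal (Real.exp (-β * ‖v j‖ ^ 2))) *
          ENNReal.ofReal ((a * (1 + (spd Φ m V + L))) ^ n)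
        ≤ (∏ j, ENNReal.ofReal (Real.exp (-β * ‖v j‖ ^ 2))) *
          ENNReal.ofReal (D * ∏ j, (1 + ‖v j‖) ^ n) :=
          mul_le_mul_right (ENNReal.ofReal_le_ofReal h4) _
      _ = _ := by
          rw [ENNReal.ofReal_mul hD0, ENNReal.ofReal_prod_of_nonneg fun j _ => by positivity,
            Finset.prod_mul_distrib]
          ring
  refine (lintegral_mono hle).trans_lt ?_
  rw [lintegral_const_mul' _ _ ENNReal.ofReal_ne_top,
    PartProd973.lintegral_pi_prod' (ι := J) (X := fun _ => Space3)
      (w := fun _ v => ENNReal.ofReal (Real.exp (-β * ‖v‖ ^ 2)) * ENNReal.ofReal ((1 + ‖v‖) ^ n))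
      (fun _ => by fun_prop)]
  exact ENNReal.mul_lt_top ENNReal.ofReal_lt_top
    (ENNReal.prod_lt_top fun _ _ => gauss_one hβ n)

/-- **The bound at fixed velocities** (helper442). -/
def VcB (Φ : Space3 → ℝ) : Prop :=
  ∀ (J κ : Type) [Fintype J] [Fintype κ] (T C : ℝ) (L : ℝ≥0), ∃ K₁ : ℝ, 0 ≤ K₁ ∧
    ∀ M : VSys J κ, M.Φ = Φ → M.T = T → 0 < M.ε → M.ε ≤ 1 →
      (∀ k, LipschitzOnWith L (M.S.c k) (Icc 0 T)) →
      ∀ i₀ : J, (∀ j, M.o = some j → i₀ = j) → ∀ ρ : Space3 → ℝ≥0∞, Measurable ρ →
      ∀ v : J → Space3,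
        ∫⁻ x : J → Space3, {x | M.Conn C Finset.univ (zip x v)}.indicator (fun x => ρ (x i₀)) x ≤
          ENNReal.ofReal ((K₁ * (1 + (spd Φ (Fintype.card J) (∑ j, ‖v j‖) + L)) * M.ε ^ 2) ^
            (Fintype.card J - 1)) * ∫⁻ x, ρ x

/-- Integral over `J → Space3 × Space3` in the order positions, velocities. -/
theorem lintegral_zip_le {J : Type} [Fintype J] (f : (J → PhasePoint) → ℝ≥0∞) :
    ∫⁻ Z, f Z ≤ ∫⁻ v : J → Space3, ∫⁻ x : J → Space3, f (zip x v) := by
  have h1 := volume_measurePreserving_arrowProdEquivProdArrow Space3 Space3 J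
  have h2 := (h1.symm _).lintegral_comp_emb (MeasurableEquiv.measurableEmbedding _) f
  rw [← h2]
  have h3 : MeasurePreserving (Prod.swap : (J → Space3) × (J → Space3) → _)
      (volume.prod volume) (volume.prod volume) := Measure.measurePreserving_swap
  have h4 := h3.lintegral_comp_emb MeasurableEquiv.prodComm.measurableEmbedding
    (fun p => f ((MeasurableEquiv.arrowProdEquivProdArrow Space3 Space3 J).symm p))
  have h5 : ∫⁻ p : (J → Space3) × (J → Space3),
      f ((MeasurableEquiv.arrowProdEquivProdArrow Space3 Space3 J).symm p) =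
      ∫⁻ p : (J → Space3) × (J → Space3),
        f ((MeasurableEquiv.arrowProdEquivProdArrow Space3 Space3 J).symm p.swap) := h4.symm
  rw [h5]
  exact lintegral_prod_le _

/-- **VC from the fixed-velocity bound.** -/
theorem vc_of_vcB {Φ : Space3 → ℝ} (h : VcB Φ) : VC Φ := by
  classical
  intro J κ _ _ β T C L hβ
  obtain ⟨K₁, hK₁, hb⟩ := h J κ T C L
  set n : ℕ := Fintype.card J - 1 with hn
  set I : ℝ≥0∞ := ∫⁻ v : J → Space3, (∏ j, ENNReal.ofReal (Real.exp (-β * ‖v j‖ ^ 2))) *
      ENNReal.ofReal ((K₁ * (1 + (spd Φ (Fintype.card J) (∑ j, ‖v j‖) + L))) ^ n) with hI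
  have hIt : I < ⊤ := gaussK Φ hβ hK₁ L.2 (Fintype.card J) n
  refine ⟨I.toNNReal, ?_⟩
  intro M hMΦ hMT hε hε1 hL i₀ ho ρ hρ
  rw [ENNReal.coe_toNNReal hIt.ne]
  refine (lintegral_zip_le _).trans ?_
  have hin : ∀ v : J → Space3, ∫⁻ x : J → Space3,
      {Z | M.Conn C Finset.univ Z}.indicator (wgt β ρ i₀) (zip x v) ≤
      ((∏ j, ENNReal.ofReal (Real.exp (-β * ‖v j‖ ^ 2))) *
      ENNReal.ofReal ((K₁ * (1 + (spd Φ (Fintype.card J) (∑ j, ‖v j‖) + L))) ^ n)) *
        (ENNReal.ofReal (M.ε ^ (2 * n)) * ∫⁻ x, ρ x) := by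
    intro v
    have h1 : ∀ x : J → Space3, {Z | M.Conn C Finset.univ Z}.indicator (wgt β ρ i₀) (zip x v) =
        (∏ j, ENNReal.ofReal (Real.exp (-β * ‖v j‖ ^ 2))) *
        {x | M.Conn C Finset.univ (zip x v)}.indicator (fun x => ρ (x i₀)) x := by
      intro x
      by_cases hx : M.Conn C Finset.univ (zip x v)
      · rw [indicator_of_mem (show zip x v ∈ {Z | M.Conn C Finset.univ Z} from hx),
          indicator_of_mem (show x ∈ {x | M.Conn C Finset.univ (zip x v)} from hx)]
        unfold wgt
        rw [mul_comm]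
        rfl
      · rw [indicator_of_notMem (show zip x v ∉ {Z | M.Conn C Finset.univ Z} from hx),
          indicator_of_notMem (show x ∉ {x | M.Conn C Finset.univ (zip x v)} from hx), mul_zero]
    simp_rw [h1]
    rw [lintegral_const_mul' _ _ (ENNReal.prod_ne_top fun _ _ => ENNReal.ofReal_ne_top)]
    have h2 := hb M hMΦ hMT hε hε1 hL i₀ ho ρ hρ v
    refine (mul_le_mul_right h2 _).trans (le_of_eq ?_)
    have hS : 0 ≤ K₁ * (1 + (spd Φ (Fintype.card J) (∑ j, ‖v j‖) + L)) := by
      have := spd_nonneg Φ (Fintype.card J) (∑ j, ‖v j‖)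
      have h3 : (0 : ℝ) ≤ L := L.2
      exact mul_nonneg hK₁ (by linarith)
    rw [mul_pow, ← pow_mul, ENNReal.ofReal_mul (pow_nonneg hS _)]
    ring
  refine (lintegral_mono hin).trans (le_of_eq ?_)
  rw [lintegral_mul_const _ (measurable_gaussI Φ β K₁ L _ n)]
  ring

end Crest.Agent.R122.VC973

end
end

-- ▼ part R122/VCB_442
section

/-!
# Row 122, D3 (helper442): the crude volume bound for fixed velocities

`vcB` : for fixed velocities `v`, the volume (modulo the root `i₀`) of the connected configurations is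
at most `(K₁ (1 + S v) ε²) ^ (card J - 1)`, `S v` the speed bound.
-/

set_option autoImplicit false
set_option linter.unusedSectionVars false

open MeasureTheory Set Filter Topology
open scoped NNReal ENNReal
open Crest.AnalysisR.Kinetic
open Crest.Agent.R122.Flow671 Crest.Agent.R122.Loc45 Crest.Agent.R122.Ins45
open Crest.Agent.R122.VL581 Crest.Agent.R122.VL581.VSys Crest.Agent.R122.VConn581

noncomputable section

namespace Crest.Agent.R122.VLInst442

variable {J κ : Type} [Fintype J] {M : VSys J κ}

/-- Removing the normalisation of the density of the root. -/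
theorem lintegral_root_le {E : Set (J → Space3)} (hE : MeasurableSet E) {i₀ : J} {D : ℝ≥0∞}
    (hD : D ≠ 0)
    (h : ∀ ρ : Space3 → ℝ≥0∞, Measurable ρ → ∫⁻ y, ρ y = 1 →
      ∫⁻ x, E.indicator (fun x => ρ (x i₀)) x ≤ D) {ρ : Space3 → ℝ≥0∞} (hρ : Measurable ρ) :
    ∫⁻ x, E.indicator (fun x => ρ (x i₀)) x ≤ D * ∫⁻ y, ρ y := by
  set c := ∫⁻ y, ρ y with hc
  have hm : Measurable fun x : J → Space3 => ρ (x i₀) := hρ.comp (measurable_pi_apply i₀)
  by_cases hc0 : c = 0
  · -- the density vanishes almost everywhere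
    have h1 : ρ =ᵐ[volume] 0 := (lintegral_eq_zero_iff hρ).1 hc0
    have h2 : (fun x : J → Space3 => ρ (x i₀)) =ᵐ[volume] 0 := by
      have := (Measure.quasiMeasurePreserving_eval (fun _ : J => (volume : Measure Space3)) i₀).ae
        h1
      exact this
    have h3 : ∫⁻ x, E.indicator (fun x => ρ (x i₀)) x = 0 := by
      rw [lintegral_eq_zero_iff (hm.indicator hE)]
      filter_upwards [h2] with x hx
      by_cases hxE : x ∈ E
      · rw [indicator_of_mem hxE]; exact hx
      · rw [indicator_of_notMem hxE]; rfl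
    rw [h3]
    exact bot_le
  by_cases hct : c = ⊤
  · rw [hct, ENNReal.mul_top hD]
    exact le_top
  · have h1 : ∫⁻ y, c⁻¹ * ρ y = 1 := by
      rw [lintegral_const_mul _ hρ, ← hc, ENNReal.inv_mul_cancel hc0 hct]
    have h2 := h (fun y => c⁻¹ * ρ y) (hρ.const_mul _) h1
    have h3 : ∫⁻ x, E.indicator (fun x => c⁻¹ * ρ (x i₀)) x =
        c⁻¹ * ∫⁻ x, E.indicator (fun x => ρ (x i₀)) x := by
      rw [← lintegral_const_mul _ (hm.indicator hE)]
      refine lintegral_congr fun x => ?_
      by_cases hxE : x ∈ E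
      · rw [indicator_of_mem hxE, indicator_of_mem hxE]
      · rw [indicator_of_notMem hxE, indicator_of_notMem hxE, mul_zero]
    rw [h3] at h2
    rw [ENNReal.inv_mul_le_iff hc0 hct] at h2
    rwa [mul_comm] at h2

/-- The speed bound of the configurations with velocities `v`. -/
def vS (Φ : Space3 → ℝ) (L : ℝ≥0) (v : J → Space3) : ℝ :=
  spd Φ (Fintype.card J) (∑ j, ‖v j‖) + L

theorem vS_nonneg (Φ : Space3 → ℝ) (L : ℝ≥0) (v : J → Space3) : 0 ≤ vS Φ L v :=
  add_nonneg (spd_nonneg _ _ _) L.2

/-- The constant. -/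
def vK (m c : ℕ) (T C : ℝ) : ℝ :=
  ((2 ^ m) ^ 4 * m ^ 2 : ℕ) * ((|T| + 2) * c) * ((max C 1 + 2) ^ 3 *
    (volume (Metric.closedBall (0 : Space3) 1)).toReal) + 1

theorem vK_pos (m c : ℕ) (T C : ℝ) : 0 < vK m c T C := by
  unfold vK
  have h1 : (0 : ℝ) ≤ max C 1 + 2 := by
    have := le_max_right C 1
    linarith
  positivity

theorem le_univ_card_two {C : ℝ} {Z : J → PhasePoint} (h2 : 2 ≤ Fintype.card J)
    (h : M.Conn C Finset.univ Z) : 0 ≤ M.T ∧ Nonempty κ := by
  obtain ⟨i, hi⟩ := h.1
  have hne : ({i} : Finset J) ≠ Finset.univ := by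
    intro he
    have := congrArg Finset.card he
    rw [Finset.card_singleton, Finset.card_univ] at this
    omega
  obtain ⟨_, _, _, _, t, ht, A, _, B, _, k, l, _⟩ :=
    h.2 {i} (Finset.subset_univ _) (Finset.singleton_nonempty i) hne
  exact ⟨ht.1.trans ht.2, ⟨k⟩⟩

/-- **Fixed velocities.** -/
theorem vcB [Fintype κ] (hΦ : AdmissiblePotential M.Φ) (hε : 0 < M.ε) (hε1 : M.ε ≤ 1) {L : ℝ≥0}
    (hL : ∀ k, LipschitzOnWith L (M.S.c k) (Icc 0 M.T)) (C : ℝ) (i₀ : J) {ρ : Space3 → ℝ≥0∞}
    (hρ : Measurable ρ) (v : J → Space3) :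
    ∫⁻ x, {x | M.Conn C Finset.univ (zip x v)}.indicator (fun x => ρ (x i₀)) x ≤
      ENNReal.ofReal ((vK (Fintype.card J) (Fintype.card κ) M.T C * (1 + vS M.Φ L v) * M.ε ^ 2) ^
        (Fintype.card J - 1)) * ∫⁻ y, ρ y := by
  classical
  set m := Fintype.card J with hm
  have hm1 : 0 < m := Fintype.card_pos_iff.2 ⟨i₀⟩
  set S := vS M.Φ L v with hS
  have hS0 : 0 ≤ S := vS_nonneg _ _ _
  have hK := vK_pos m (Fintype.card κ) M.T C
  rcases Nat.lt_or_ge m 2 with hm2 | hm2
  · -- a single particle
    have hm1' : m = 1 := by omega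
    have hu : Unique J := by
      have := Fintype.card_eq_one_iff_nonempty_unique.1 (hm.symm.trans hm1')
      exact this.some
    have he : (fun x : J → Space3 => ρ (x i₀)) = fun x => ρ (MeasurableEquiv.funUnique J Space3 x) := by
      funext x
      rw [Subsingleton.elim i₀ default]
      rfl
    calc ∫⁻ x, {x | M.Conn C Finset.univ (zip x v)}.indicator (fun x => ρ (x i₀)) x
        ≤ ∫⁻ x : J → Space3, ρ (x i₀) := lintegral_mono fun x => indicator_le_self _ _ x
      _ = ∫⁻ y, ρ y := by
          rw [he]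
          convert (volume_preserving_funUnique J Space3).lintegral_comp hρ
      _ = _ := by rw [hm1']; simp
  by_cases hcase : 0 ≤ M.T ∧ Nonempty κ
  · obtain ⟨hT, hκ⟩ := hcase
    have hc : 0 < Fintype.card κ := Fintype.card_pos
    have hgood : VLMeas973.Good M := ⟨hΦ, hε, hT, fun k => (hL k).continuousOn⟩
    set e := (Fintype.equivFin κ).symm with he
    set h := M.ε / (1 + S) with hh
    have hh0 : 0 < h := div_pos hε (by linarith)
    have hSh : S * h ≤ M.ε := by
      rw [hh, mul_div_assoc', div_le_iff₀ (by linarith)]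
      nlinarith
    set C' := max C 1 with hC'
    set r := (C' + 2) * M.ε with hr
    have hr0 : 0 ≤ r := by
      have := le_max_right C 1
      have h3 : 0 ≤ C' + 2 := by linarith
      exact mul_nonneg h3 hε.le
    set N' := (⌊M.T / h⌋₊ + 1) * Fintype.card κ with hN'
    have hcov := gpos_cov hgood h e hc v
    -- inclusion
    set E : Set (J → Space3) := {x | GTr r N' (gpos M h e hc v x) Finset.univ} with hE
    have hEm : MeasurableSet E := measurableSet_gtr _ Finset.univ le_rfl
      fun A _ n i hi => hcov.meas A n i hi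
    have hsub : {x | M.Conn C Finset.univ (zip x v)} ⊆ E := by
      intro x hx
      have h1 : M.Conn C' Finset.univ (zip x v) := Conn_monoC hε (le_max_left _ _) hx
      have h2 := vtr_of_conn hΦ hε hT hgood.tubes (le_max_right _ _) h1
      refine gtr_of_vtr hΦ hε hL (V := ∑ j, ‖v j‖) ?_ hh0 hSh h2
      exact fun j => Finset.single_le_sum (f := fun j => ‖v j‖) (fun _ _ => norm_nonneg _)
        (Finset.mem_univ j)
    -- the bound with a probability density
    have key : ∀ ρ : Space3 → ℝ≥0∞, Measurable ρ → ∫⁻ y, ρ y = 1 →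
        ∫⁻ x, E.indicator (fun x => ρ (x i₀)) x ≤
          ENNReal.ofReal ((vK m (Fintype.card κ) M.T C * (1 + S) * M.ε ^ 2) ^ (m - 1)) := by
      intro ρ hρ hρ1
      have h1 := mg_gtr_le m N' r hcov hρ hρ1 m Finset.univ (by rw [Finset.card_univ])
        (by rw [Finset.card_univ]) i₀ (Finset.mem_univ _) (fun _ => 0)
      rw [mg, lmarginal_univ, Finset.card_univ, ← hm] at h1
      refine le_trans h1 ?_
      rw [ENNReal.ofReal_pow (by positivity)]
      gcongr
      have hvol : volume (Metric.closedBall (0 : Space3) r) =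
          ENNReal.ofReal (r ^ 3 * (volume (Metric.closedBall (0 : Space3) 1)).toReal) := by
        rw [Measure.addHaar_closedBall' volume (0 : Space3) hr0,
          ENNReal.ofReal_mul (by positivity), ENNReal.ofReal_toReal]
        · simp
        · exact (measure_closedBall_lt_top).ne
      rw [hvol, ← ENNReal.ofReal_natCast, ← ENNReal.ofReal_mul (by positivity)]
      refine ENNReal.ofReal_le_ofReal ?_
      set B := (volume (Metric.closedBall (0 : Space3) 1)).toReal with hB
      have hB0 : 0 ≤ B := ENNReal.toReal_nonneg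
      have hfl : (⌊M.T / h⌋₊ : ℝ) ≤ M.T * (1 + S) / M.ε := by
        refine (Nat.floor_le (by positivity)).trans (le_of_eq ?_)
        rw [hh]
        field_simp
      have hN : ((N' + 1 : ℕ) : ℝ) ≤ (|M.T| + 2) * Fintype.card κ * ((1 + S) / M.ε) := by
        have hc1 : (1 : ℝ) ≤ Fintype.card κ := by exact_mod_cast hc
        have h1e : 1 ≤ (1 + S) / M.ε := by
          rw [le_div_iff₀ hε]
          linarith
        rw [abs_of_nonneg hT, hN']
        push_cast
        have h3 : M.T * (1 + S) / M.ε = M.T * ((1 + S) / M.ε) := by ring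
        rw [h3] at hfl
        set q := (1 + S) / M.ε with hq
        set c : ℝ := (Fintype.card κ : ℝ) with hcdef
        have h4 : ((⌊M.T / h⌋₊ : ℝ) + 1) * c + 1 ≤ (M.T * q + 1) * c + 1 * c := by
          refine add_le_add (mul_le_mul_of_nonneg_right (by linarith) (by linarith)) ?_
          linarith
        refine h4.trans ?_
        have h5 : (M.T * q + 1) * c + 1 * c = (M.T * q + 2) * c := by ring
        rw [h5]
        have h6 : M.T * q + 2 ≤ (M.T + 2) * q := by nlinarith
        calc (M.T * q + 2) * c ≤ (M.T + 2) * q * c := mul_le_mul_of_nonneg_right h6 (by linarith)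
          _ = (M.T + 2) * c * q := by ring
      have hε0 : M.ε ≠ 0 := hε.ne'
      have hKle : (((2 ^ m) ^ 4 * m ^ 2 : ℕ) : ℝ) * ((|M.T| + 2) * Fintype.card κ) *
          ((C' + 2) ^ 3 * B) ≤ vK m (Fintype.card κ) M.T C := by
        unfold vK
        linarith
      calc (((2 ^ m) ^ 4 * m ^ 2 * (N' + 1) : ℕ) : ℝ) * (r ^ 3 * B)
          = (((2 ^ m) ^ 4 * m ^ 2 : ℕ) : ℝ) * ((N' + 1 : ℕ) : ℝ) * (r ^ 3 * B) := by
            push_cast; ring
        _ ≤ (((2 ^ m) ^ 4 * m ^ 2 : ℕ) : ℝ) * ((|M.T| + 2) * Fintype.card κ * ((1 + S) / M.ε)) *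
            (r ^ 3 * B) := by
            have hr3 : 0 ≤ r ^ 3 * B := by positivity
            exact mul_le_mul_of_nonneg_right (mul_le_mul_of_nonneg_left hN (by positivity)) hr3
        _ = (((2 ^ m) ^ 4 * m ^ 2 : ℕ) : ℝ) * ((|M.T| + 2) * Fintype.card κ) *
            ((C' + 2) ^ 3 * B) * ((1 + S) * M.ε ^ 2) := by
            rw [hr]
            field_simp
        _ ≤ vK m (Fintype.card κ) M.T C * ((1 + S) * M.ε ^ 2) :=
            mul_le_mul_of_nonneg_right hKle (by positivity)
        _ = vK m (Fintype.card κ) M.T C * (1 + S) * M.ε ^ 2 := by ring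
    have hD : ENNReal.ofReal ((vK m (Fintype.card κ) M.T C * (1 + S) * M.ε ^ 2) ^ (m - 1)) ≠ 0 := by
      rw [Ne, ENNReal.ofReal_eq_zero, not_le]
      have : 0 < 1 + S := by linarith
      positivity
    refine le_trans (lintegral_mono fun x => ?_) (lintegral_root_le hEm hD key hρ)
    exact indicator_le_indicator_of_subset hsub (fun _ => bot_le) x
  · have hempty : {x | M.Conn C Finset.univ (zip x v)} = ∅ := by
      ext x
      simp only [mem_setOf_eq, mem_empty_iff_false, iff_false]
      intro hx
      exact hcase (le_univ_card_two hm2 hx)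
    rw [hempty]
    simp

end Crest.Agent.R122.VLInst442

end
end

-- ▼ part R122/VCFin_973

/-!
# Row 122, D3 (helper973): `VC`

`vc : AdmissiblePotential Φ → VC Φ` (fixed-velocity bound `vcB` of helper442, `vc_of_vcB`).
-/

set_option autoImplicit false

open MeasureTheory Set Filter Topology
open scoped NNReal ENNReal
open Crest.AnalysisR.Kinetic
open Crest.Agent.R122.VL581 Crest.Agent.R122.VL581.VSys Crest.Agent.R122.VLInst442

noncomputable section

namespace Crest.Agent.R122.VC973

theorem vcB_holds {Φ : Space3 → ℝ} (hΦ : AdmissiblePotential Φ) : VcB Φ := by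
  intro J κ _ _ T C L
  refine ⟨vK (Fintype.card J) (Fintype.card κ) T C, (vK_pos _ _ _ _).le, ?_⟩
  intro M hMΦ hMT hε hε1 hL i₀ _ ρ hρ v
  subst hMΦ
  subst hMT
  exact VLInst442.vcB hΦ hε hε1 hL C i₀ hρ v

/-- **VC.** -/
theorem vc {Φ : Space3 → ℝ} (hΦ : AdmissiblePotential Φ) : VC Φ := vc_of_vcB (vcB_holds hΦ)

end Crest.Agent.R122.VC973

end
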