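import Crest.Agent.R122.VLClass2_973
import Crest.Agent.R122.VCFin_973
import Crest.Agent.R122.NGmaj_416

-- ▼ part R122/BHCurve_167
section

/-!
# Row 122, BadHit (helper167), part 1: the curves of the sub-worlds

* `HitClass T BP` : the hit estimate (helper416) for a predicate `BP ε k V i t x` on gas particles
  (`x` is a possible real position of the root `i` at time `t` after a bad past `V`).
* `thr`, `crv` : every position of an ok sub-world at a time in `[0, T]` lies on one of finitely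
  many covariant Lipschitz curves (`exists_crv`).
* shift covariance (`ok_shiftX`, `conn_shiftX`, `crv_shiftX`), measurability (`measurable_crv`),
  Lipschitz bound (`lip_crv`).
* `lam_mul_gv_le` : absorption of the Lipschitz constant.
-/

set_option autoImplicit false
set_option linter.unusedSectionVars false

open MeasureTheory Set Filter Topology
open Crest.AnalysisR.Kinetic
open Crest.Agent.R122.Ins45 Crest.Agent.R122.GIV566 Crest.Agent.R122.VL581
open Crest.Agent.R122.VLMeas973 Crest.Agent.R122.Loc45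
open Crest.Agent.R122.MeasE416
open scoped Classical ENNReal NNReal

noncomputable section

namespace Crest.Agent.R122.BH167

/-- Predicates on the real positions of the root of a gas-only past. -/
abbrev PosPred : Type := ℝ → (k : ℕ) → Config k → Fin k → ℝ → Space3 → Prop

/-- **The hit estimate** (helper416). -/
def HitClass (T : ℝ) (BP : PosPred) : Prop :=
  ∀ (J : Type) [Fintype J] (j₀ : J) (γ R : ℝ) (K : ℕ), 0 < γ →
    ∃ η : ℝ → ℝ≥0∞, Tendsto η (𝓝[>] 0) (𝓝 0) ∧ ∀ ε : ℝ, 0 < ε → ε ≤ 1 →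
      ∀ (Ω : Type) [MeasurableSpace Ω] (G : Ω → (J → PhasePoint) → ℝ≥0∞)
        (c : Ω → (J → PhasePoint) → ℝ → Space3) (Lam : Ω → (J → PhasePoint) → ℝ≥0),
        Measurable (fun p : Ω × (J → PhasePoint) => G p.1 p.2) →
        (∀ ω a Z, G ω (shiftX a Z) = G ω Z) →
        (∀ t, Measurable fun p : Ω × (J → PhasePoint) => c p.1 p.2 t) →
        (∀ ω a Z t, c ω (shiftX a Z) t = c ω Z t + a) →
        (∀ ω Z, LipschitzOnWith (Lam ω Z) (c ω Z) (Icc 0 T)) →
        Measurable (fun p : Ω × (J → PhasePoint) => Lam p.1 p.2) →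
        (∀ ω a Z, Lam ω (shiftX a Z) = Lam ω Z) →
        ∃ H : (k : ℕ) → Ω × (J → PhasePoint) × Config k → ℝ≥0∞, (∀ k, Measurable (H k)) ∧
          (∀ k ≤ K, ∀ ω Z, ∀ V ∈ PairExcluded ε k, ∀ i t x, t ∈ Icc 0 T → BP ε k V i t x →
            dist x (c ω Z t) ≤ R * ε → 1 ≤ H k (ω, Z, V)) ∧
          ∀ k ≤ K, ∀ (ω : Ω) (i : Fin k) (env : Space3 → ℝ≥0∞), Measurable env →
            ∫⁻ Z, G ω Z * ∫⁻ V : Config k, env (V i).1 *
              ((∏ l, ENNReal.ofReal (Real.exp (-γ * ‖(V l).2‖ ^ 2))) * H k (ω, Z, V)) ≤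
            η ε * ENNReal.ofReal (ε ^ 2) ^ k * (∫⁻ x, env x) *
              ∫⁻ Z, NG416.hb (Z j₀).1 * (G ω Z * (1 + (Lam ω Z : ℝ≥0∞)))

variable {J κ : Type} [Fintype J]

/-! ### Translations -/

section shift

variable {M : VSys J κ} (hΦ : AdmissiblePotential M.Φ) (hε : 0 < M.ε)
include hΦ hε

theorem ok_shiftX (A : Finset J) (t : ℝ) (Z : J → PhasePoint) (a : Space3) :
    M.ok A t (shiftX a Z) ↔ M.ok A t Z := by
  unfold VSys.ok
  simp only [VLInst442.st_shiftX hΦ hε, dist_add_right]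

theorem ct_shiftX (C : ℝ) (A : Finset J) (k : κ) (i : J) (B : Finset J) (l : κ) (j : J) (t : ℝ)
    (Z : J → PhasePoint) (a : Space3) :
    M.Ct C A k i B l j t (shiftX a Z) ↔ M.Ct C A k i B l j t Z := by
  unfold VSys.Ct
  rw [ok_shiftX hΦ hε, ok_shiftX hΦ hε, VLInst442.pos_shiftX hΦ hε, VLInst442.pos_shiftX hΦ hε,
    dist_add_right]

theorem conn_shiftX (C : ℝ) (P : Finset J) (Z : J → PhasePoint) (a : Space3) :
    M.Conn C P (shiftX a Z) ↔ M.Conn C P Z := by
  unfold VSys.Conn VSys.VCt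
  simp only [ct_shiftX hΦ hε]

end shift

/-! ### The thresholds -/

/-- Thresholds: the horizon and the birth times. -/
def thr (M : VSys J κ) : Option J → ℝ
  | none => M.T
  | some i => min (M.bb i) M.T

theorem thr_nonneg {M : VSys J κ} (hT : 0 ≤ M.T) (r : Option J) : 0 ≤ thr M r := by
  cases r with
  | none => exact hT
  | some i => exact le_min (le_max_right _ _) hT

theorem thr_le (M : VSys J κ) (r : Option J) : thr M r ≤ M.T := by
  cases r with
  | none => exact le_rfl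
  | some i => exact min_le_right _ _

/-- The last threshold until which the sub-world is ok. -/
theorem exists_thr {M : VSys J κ} {A : Finset J} {t : ℝ} {Z : J → PhasePoint} (ht : t ≤ M.T)
    (hok : M.ok A t Z) : ∃ r, t ≤ thr M r ∧ M.ok A (thr M r) Z := by
  rw [VLInst442.ok_iff] at hok
  by_cases h : ∃ i, VLInst442.Bad M A Z i
  · obtain ⟨i₁, hi₁⟩ := h
    obtain ⟨i₀, hi₀, hmin⟩ :=
      (Set.toFinite {i | VLInst442.Bad M A Z i}).exists_minimalFor M.bb _ ⟨i₁, hi₁⟩
    refine ⟨some i₀, le_min (hok i₀ hi₀) ht, VLInst442.ok_iff.2 fun i hi => ?_⟩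
    refine (min_le_left _ _).trans ?_
    rcases le_total (M.bb i) (M.bb i₀) with h1 | h1
    · exact hmin hi h1
    · exact h1
  · push Not at h
    exact ⟨none, ht, VLInst442.ok_iff.2 fun i hi => absurd hi (h i)⟩

/-- The curve of the label `j` in the sub-world `A` (tube `q`) until the threshold `r`. -/
def crv (M : VSys J κ) (A : Finset J) (q : κ) (j : J) (r : Option J) (Z : J → PhasePoint) (t : ℝ) :
    Space3 :=
  if M.ok A (thr M r) Z then M.pos A q (min (max t 0) (thr M r)) Z j else (Z j).1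

/-- Every position of an ok sub-world lies on one of the curves. -/
theorem exists_crv {M : VSys J κ} {A : Finset J} {t : ℝ} {Z : J → PhasePoint}
    (ht : t ∈ Icc 0 M.T) (hok : M.ok A t Z) (q : κ) (j : J) :
    ∃ r, crv M A q j r Z t = M.pos A q t Z j := by
  obtain ⟨r, h1, h2⟩ := exists_thr ht.2 hok
  refine ⟨r, ?_⟩
  unfold crv
  rw [if_pos h2, max_eq_left ht.1, min_eq_left h1]

theorem crv_shiftX {M : VSys J κ} (hΦ : AdmissiblePotential M.Φ) (hε : 0 < M.ε) (A : Finset J)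
    (q : κ) (j : J) (r : Option J) (a : Space3) (Z : J → PhasePoint) (t : ℝ) :
    crv M A q j r (shiftX a Z) t = crv M A q j r Z t + a := by
  unfold crv
  by_cases h : M.ok A (thr M r) Z
  · rw [if_pos h, if_pos ((ok_shiftX hΦ hε A _ Z a).2 h), VLInst442.pos_shiftX hΦ hε]
  · rw [if_neg h, if_neg fun h' => h ((ok_shiftX hΦ hε A _ Z a).1 h')]
    rfl

/-- The Lipschitz constant of the curves. -/
def lam (M : VSys J κ) (L : ℝ≥0) (Z : J → PhasePoint) : ℝ≥0 :=
  Real.toNNReal (VLInst442.spd M.Φ (Fintype.card J) (∑ j, ‖(Z j).2‖)) + L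

theorem lam_shiftX (M : VSys J κ) (L : ℝ≥0) (a : Space3) (Z : J → PhasePoint) :
    lam M L (shiftX a Z) = lam M L Z := rfl

theorem measurable_lam (M : VSys J κ) (L : ℝ≥0) : Measurable (lam M L) := by
  unfold lam VLInst442.spd
  fun_prop

theorem abs_clamp_sub_le (r t t' : ℝ) :
    |min (max t 0) r - min (max t' 0) r| ≤ |t - t'| :=
  (abs_min_sub_min_le_max _ _ _ _).trans (by
    rw [sub_self, abs_zero, max_eq_left (abs_nonneg _)]
    refine (abs_max_sub_max_le_max _ _ _ _).trans ?_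
    rw [sub_self, abs_zero, max_eq_left (abs_nonneg _)])

theorem lip_crv [Fintype κ] {M : VSys J κ} (hΦ : AdmissiblePotential M.Φ) (hε : 0 < M.ε) (hT : 0 ≤ M.T)
    {L : ℝ≥0} (hL : ∀ k, LipschitzOnWith L (M.S.c k) (Icc 0 M.T)) (A : Finset J) (q : κ) (j : J)
    (r : Option J) (Z : J → PhasePoint) :
    LipschitzWith (lam M L Z) (crv M A q j r Z) := by
  set V : ℝ := ∑ j, ‖(Z j).2‖ with hV
  have hV' : ∀ j, ‖(Z j).2‖ ≤ V := fun j =>
    Finset.single_le_sum (f := fun j => ‖(Z j).2‖) (fun j _ => norm_nonneg _) (Finset.mem_univ j)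
  have hlam : (lam M L Z : ℝ) = VLInst442.spd M.Φ (Fintype.card J) V + L := by
    unfold lam
    rw [NNReal.coe_add, Real.coe_toNNReal _ (VLInst442.spd_nonneg _ _ _)]
  refine LipschitzWith.of_dist_le_mul fun t t' => ?_
  rw [hlam]
  unfold crv
  by_cases h : M.ok A (thr M r) Z
  · rw [if_pos h, if_pos h]
    have h0 : ∀ s : ℝ, 0 ≤ min (max s 0) (thr M r) := fun s =>
      le_min (le_max_right _ _) (thr_nonneg hT r)
    have h1 : ∀ s : ℝ, min (max s 0) (thr M r) ≤ M.T := fun s =>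
      (min_le_right _ _).trans (thr_le M r)
    have h2 : ∀ s : ℝ, M.ok A (min (max s 0) (thr M r)) Z := fun s =>
      VLInst442.ok_anti (min_le_right _ _) h
    have hS : 0 ≤ VLInst442.spd M.Φ (Fintype.card J) V + (L : ℝ) :=
      add_nonneg (VLInst442.spd_nonneg _ _ _) L.2
    have hcl := abs_clamp_sub_le (thr M r) t t'
    rcases le_total (min (max t 0) (thr M r)) (min (max t' 0) (thr M r)) with hle | hle
    · have h3 := VLInst442.dist_pos_le hΦ hε hL (h2 t') hV' (h0 t) hle (h1 t') q j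
      refine h3.trans (mul_le_mul_of_nonneg_left ?_ hS)
      rw [Real.dist_eq]
      refine le_trans ?_ hcl
      rw [abs_sub_comm]
      exact le_abs_self _
    · have h3 := VLInst442.dist_pos_le hΦ hε hL (h2 t) hV' (h0 t') hle (h1 t) q j
      rw [dist_comm]
      refine h3.trans (mul_le_mul_of_nonneg_left ?_ hS)
      rw [Real.dist_eq]
      exact (le_abs_self _).trans hcl
  · rw [if_neg h, if_neg h, dist_self]
    exact mul_nonneg (add_nonneg (VLInst442.spd_nonneg _ _ _) L.2) dist_nonneg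

/-! ### Measurability -/

section meas

variable {Ω : Type} [MeasurableSpace Ω] {M : VSys J κ} {b : Ω → J → ℝ} {Z : Ω → J → PhasePoint}

theorem measurable_thr (M : VSys J κ) (hb : Measurable b) (r : Option J) :
    Measurable fun ω => thr (wb M (b ω)) r := by
  cases r with
  | none => exact measurable_const
  | some i => exact (measurable_bb M hb i).min measurable_const

theorem measurable_pos (hM : Good M) (hb : Measurable b) (hZ : Measurable Z) (A : Finset J)
    (q : κ) {τ : Ω → ℝ} (hτ : Measurable τ) (j : J) :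
    Measurable fun ω => (wb M (b ω)).pos A q (τ ω) (Z ω) j := by
  unfold VSys.pos
  by_cases h : M.o = some j
  · have h' : ∀ ω, (wb M (b ω)).o = some j := fun _ => h
    simp only [h', if_true]
    have hc : Continuous fun t : ℝ => M.S.c q (max 0 (min t M.T)) :=
      (hM.tubes q).comp_continuous (continuous_const.max (continuous_id.min continuous_const))
        fun t => ⟨le_max_left _ _, max_le hM.T0 (min_le_right _ _)⟩
    exact (((measurable_pi_apply j).comp hZ).fst).add (hc.measurable.comp hτ)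
  · have h' : ∀ ω, ¬ (wb M (b ω)).o = some j := fun _ => h
    simp only [h', if_false]
    exact (measurable_st hM hb hZ A hτ j).fst

theorem measurable_crv (hM : Good M) (hb : Measurable b) (hZ : Measurable Z) (A : Finset J)
    (q : κ) (j : J) (r : Option J) (t : ℝ) :
    Measurable fun ω => crv (wb M (b ω)) A q j r (Z ω) t := by
  unfold crv
  have hthr := measurable_thr (κ := κ) M hb r
  refine Measurable.ite ((rse_ok hM hb hZ A).measurableSet_at hthr) ?_ ?_
  · exact measurable_pos hM hb hZ A q (measurable_const.min hthr) j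
  · exact ((measurable_pi_apply j).comp hZ).fst

end meas

/-! ### Absorption of the Lipschitz constant -/

theorem lam_mul_gv_le (Φ : Space3 → ℝ) {γ : ℝ} (hγ : 0 < γ) (L : ℝ≥0) (m : ℕ) :
    ∃ D : ℝ≥0∞, D ≠ ∞ ∧ ∀ v : J → Space3,
      (1 + ((Real.toNNReal (VLInst442.spd Φ m (∑ j, ‖v j‖)) + L : ℝ≥0) : ℝ≥0∞)) *
        ∏ j, ENNReal.ofReal (Real.exp (-γ * ‖v j‖ ^ 2)) ≤
      D * ∏ j, ENNReal.ofReal (Real.exp (-(γ / 2) * ‖v j‖ ^ 2)) := by
  have hB := stabB_nonneg Φ
  set c : ℝ := (m + 1) * (2 * stabB Φ + 3) with hc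
  have hc0 : 0 ≤ c := by positivity
  set c' : ℝ := (Nat.factorial 1 : ℝ) * Real.exp (1 + 1 / (2 * γ)) with hc'
  have hc'0 : 0 ≤ c' := by positivity
  refine ⟨ENNReal.ofReal ((1 + c + L) * c' ^ Fintype.card J), ENNReal.ofReal_ne_top, fun v => ?_⟩
  set V : ℝ := ∑ j, ‖v j‖ with hV
  have hV0 : 0 ≤ V := Finset.sum_nonneg fun j _ => norm_nonneg _
  have hL0 : (0 : ℝ) ≤ L := L.2
  have hS0 := VLInst442.spd_nonneg Φ m V
  have e1 : (1 + ((Real.toNNReal (VLInst442.spd Φ m V) + L : ℝ≥0) : ℝ≥0∞)) =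
      ENNReal.ofReal (1 + (VLInst442.spd Φ m V + L)) := by
    rw [ENNReal.ofReal_add zero_le_one (by positivity), ENNReal.ofReal_one,
      ENNReal.ofReal_add hS0 hL0, ENNReal.coe_add, ENNReal.ofReal_coe_nnreal]
    rfl
  rw [e1, ← ENNReal.ofReal_prod_of_nonneg fun j _ => (Real.exp_pos _).le,
    ← ENNReal.ofReal_prod_of_nonneg fun j _ => (Real.exp_pos _).le,
    ← ENNReal.ofReal_mul (by positivity), ← ENNReal.ofReal_mul (by positivity)]
  refine ENNReal.ofReal_le_ofReal ?_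
  have h1 := VC973.spd_le Φ m hV0
  have h2 : 1 + (VLInst442.spd Φ m V + L) ≤ (1 + c + L) * (1 + V) := by nlinarith [h1, hV0, hL0]
  have h3 := VC973.one_add_sum_le_prod Finset.univ (fun j => ‖v j‖) fun j => norm_nonneg _
  have h4 : ∏ j, (1 + ‖v j‖) ≤ ∏ j, (c' * Real.exp (γ / 2 * ‖v j‖ ^ 2)) := by
    refine Finset.prod_le_prod (fun j _ => by positivity) fun j _ => ?_
    have := VC973.pow_le_gauss hγ 1 (norm_nonneg (v j))
    rwa [pow_one] at this
  calc (1 + (VLInst442.spd Φ m V + L)) * ∏ j, Real.exp (-γ * ‖v j‖ ^ 2)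
      ≤ ((1 + c + L) * ∏ j, (c' * Real.exp (γ / 2 * ‖v j‖ ^ 2))) *
        ∏ j, Real.exp (-γ * ‖v j‖ ^ 2) := by
        refine mul_le_mul_of_nonneg_right ?_ (Finset.prod_nonneg fun j _ => (Real.exp_pos _).le)
        exact h2.trans (mul_le_mul_of_nonneg_left (h3.trans h4) (by positivity))
    _ = (1 + c + L) * ∏ j, (c' * Real.exp (-(γ / 2) * ‖v j‖ ^ 2)) := by
        rw [mul_assoc, ← Finset.prod_mul_distrib]
        congr 1
        refine Finset.prod_congr rfl fun j _ => ?_
        rw [mul_assoc, ← Real.exp_add]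
        congr 2
        ring
    _ = (1 + c + L) * c' ^ Fintype.card J * ∏ j, Real.exp (-(γ / 2) * ‖v j‖ ^ 2) := by
        rw [Finset.prod_mul_distrib, Finset.prod_const, Finset.card_univ]
        ring

end Crest.Agent.R122.BH167

end
end

-- ▼ part R122/BHPart_167
section

/-!
# Row 122, BadHit (helper167), part 2: the estimate for one part

* `HitEv BP R M P Z V` : some position of an ok sub-world of `P` is within `R ε` of a possible
  position of a root of the bad past `V`, at the same time in `[0, T]`.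
* `part_hit` : for a connected part `J` the hits have mass `o(1) ε^(2 k + 2 (|J| - 1))`.
-/

set_option autoImplicit false
set_option linter.unusedSectionVars false

open MeasureTheory Set Filter Topology
open Crest.AnalysisR.Kinetic
open Crest.Agent.R122.Ins45 Crest.Agent.R122.GIV566 Crest.Agent.R122.VL581
open Crest.Agent.R122.VLMeas973 Crest.Agent.R122.Loc45
open Crest.Agent.R122.MeasE416
open scoped Classical ENNReal NNReal

noncomputable section

namespace Crest.Agent.R122.BH167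

/-- Hit between the positions of the ok sub-worlds of `P` and the possible positions of the roots of
the bad past `V`. -/
def HitEv {J κ : Type} [Fintype J] (BP : PosPred) (R : ℝ) (M : VSys J κ) (P : Finset J)
    (Z : J → PhasePoint) {k : ℕ} (V : Config k) : Prop :=
  ∃ B ⊆ P, ∃ j ∈ B, ∃ q : κ, ∃ i : Fin k, ∃ t ∈ Icc 0 M.T, ∃ x, M.ok B t Z ∧ BP M.ε k V i t x ∧
    dist x (M.pos B q t Z j) ≤ R * M.ε

/-- The indicator of connectedness with the Gaussian weights. -/
def gC {J κ : Type} [Fintype J] (M : VSys J κ) (C γ : ℝ) (b : J → ℝ) (Z : J → PhasePoint) :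
    ℝ≥0∞ :=
  {Z | (wb M b).Conn C Finset.univ Z}.indicator (fun Z => ∏ j, gv γ (Z j)) Z

section one

variable {J κ : Type} [Fintype J] {M : VSys J κ}

theorem measurable_prod_gv (γ : ℝ) : Measurable fun Z : J → PhasePoint => ∏ j, gv γ (Z j) :=
  Finset.measurable_prod _ fun j _ => (measurable_gv γ).comp (measurable_pi_apply j)

theorem measurable_gC [Finite κ] (hM : Good M) (C γ : ℝ) :
    Measurable fun p : (J → ℝ) × (J → PhasePoint) => gC M C γ p.1 p.2 := by
  have hS : MeasurableSet {p : (J → ℝ) × (J → PhasePoint) |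
      (wb M p.1).Conn C Finset.univ p.2} :=
    measurableSet_conn hM measurable_fst measurable_snd C Finset.univ
  have e : (fun p : (J → ℝ) × (J → PhasePoint) => gC M C γ p.1 p.2) =
      {p : (J → ℝ) × (J → PhasePoint) | (wb M p.1).Conn C Finset.univ p.2}.indicator
        (fun p => ∏ j, gv γ (p.2 j)) := by
    funext p
    unfold gC
    by_cases h : (wb M p.1).Conn C Finset.univ p.2
    · rw [indicator_of_mem (show p.2 ∈ {Z | (wb M p.1).Conn C Finset.univ Z} from h),
        indicator_of_mem (show p ∈ {p : (J → ℝ) × (J → PhasePoint) |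
          (wb M p.1).Conn C Finset.univ p.2} from h)]
    · rw [indicator_of_notMem (show p.2 ∉ {Z | (wb M p.1).Conn C Finset.univ Z} from h),
        indicator_of_notMem (show p ∉ {p : (J → ℝ) × (J → PhasePoint) |
          (wb M p.1).Conn C Finset.univ p.2} from h)]
  rw [e]
  exact ((measurable_prod_gv γ).comp measurable_snd).indicator hS

theorem gC_shiftX (hΦ : AdmissiblePotential M.Φ) (hε : 0 < M.ε) (C γ : ℝ) (b : J → ℝ)
    (a : Space3) (Z : J → PhasePoint) : gC M C γ b (shiftX a Z) = gC M C γ b Z := by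
  unfold gC
  have h := conn_shiftX (M := wb M b) hΦ hε C Finset.univ Z a
  by_cases hc : (wb M b).Conn C Finset.univ Z
  · rw [indicator_of_mem (show Z ∈ {Z | (wb M b).Conn C Finset.univ Z} from hc),
      indicator_of_mem (show shiftX a Z ∈ {Z | (wb M b).Conn C Finset.univ Z} from h.2 hc)]
    rfl
  · rw [indicator_of_notMem (show Z ∉ {Z | (wb M b).Conn C Finset.univ Z} from hc),
      indicator_of_notMem (show shiftX a Z ∉ {Z | (wb M b).Conn C Finset.univ Z} from
        fun h' => hc (h.1 h'))]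

/-- The pinned mass with the Lipschitz constant. -/
theorem pinned_le {Φ : Space3 → ℝ} {T γ C : ℝ} {L : ℝ≥0} {K₁ : ℝ≥0} {D : ℝ≥0∞}
    (hD : D ≠ ∞)
    (hVC : ∀ M : VSys J κ, M.Φ = Φ → M.T = T → 0 < M.ε → M.ε ≤ 1 →
      (∀ k, LipschitzOnWith L (M.S.c k) (Icc 0 T)) →
      ∀ i₀ : J, (∀ j, M.o = some j → i₀ = j) → ∀ ρ : Space3 → ℝ≥0∞, Measurable ρ →
        ∫⁻ Z, {Z | M.Conn C Finset.univ Z}.indicator (wgt (γ / 2) ρ i₀) Z ≤
          K₁ * ENNReal.ofReal (M.ε ^ (2 * (Fintype.card J - 1))) * ∫⁻ x, ρ x)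
    (hDl : ∀ v : J → Space3,
      (1 + ((Real.toNNReal (VLInst442.spd Φ (Fintype.card J) (∑ j, ‖v j‖)) + L : ℝ≥0) : ℝ≥0∞)) *
        ∏ j, ENNReal.ofReal (Real.exp (-γ * ‖v j‖ ^ 2)) ≤
      D * ∏ j, ENNReal.ofReal (Real.exp (-(γ / 2) * ‖v j‖ ^ 2)))
    (hMΦ : M.Φ = Φ) (hMT : M.T = T) (hε : 0 < M.ε) (hε1 : M.ε ≤ 1)
    (hL : ∀ k, LipschitzOnWith L (M.S.c k) (Icc 0 T)) (b : J → ℝ) (j₀ : J)
    (hj₀ : ∀ j, M.o = some j → j₀ = j) :
    ∫⁻ Z, NG416.hb (Z j₀).1 * (gC M C γ b Z * (1 + (lam M L Z : ℝ≥0∞))) ≤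
      D * K₁ * ENNReal.ofReal (M.ε ^ 2) ^ (Fintype.card J - 1) := by
  have h1 := hVC (wb M b) hMΦ hMT hε hε1 hL j₀ hj₀ NG416.hb NG416.measurable_hb
  rw [NG416.lintegral_hb, mul_one, wb_ε, pow_mul, ENNReal.ofReal_pow (by positivity)] at h1
  have h2 : ∀ Z : J → PhasePoint, NG416.hb (Z j₀).1 * (gC M C γ b Z * (1 + (lam M L Z : ℝ≥0∞))) ≤
      D * {Z | (wb M b).Conn C Finset.univ Z}.indicator (wgt (γ / 2) NG416.hb j₀) Z := by
    intro Z
    unfold gC
    by_cases hc : (wb M b).Conn C Finset.univ Z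
    · rw [indicator_of_mem (show Z ∈ {Z | (wb M b).Conn C Finset.univ Z} from hc),
        indicator_of_mem (show Z ∈ {Z | (wb M b).Conn C Finset.univ Z} from hc)]
      have h3 := hDl fun j => (Z j).2
      unfold wgt lam gv
      rw [hMΦ]
      calc NG416.hb (Z j₀).1 * ((∏ j, ENNReal.ofReal (Real.exp (-γ * ‖(Z j).2‖ ^ 2))) *
            (1 + ((Real.toNNReal (VLInst442.spd Φ (Fintype.card J) (∑ j, ‖(Z j).2‖)) + L : ℝ≥0) :
              ℝ≥0∞)))
          = NG416.hb (Z j₀).1 * ((1 + ((Real.toNNReal (VLInst442.spd Φ (Fintype.card J)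
              (∑ j, ‖(Z j).2‖)) + L : ℝ≥0) : ℝ≥0∞)) *
              ∏ j, ENNReal.ofReal (Real.exp (-γ * ‖(Z j).2‖ ^ 2))) := by ring
        _ ≤ NG416.hb (Z j₀).1 * (D * ∏ j, ENNReal.ofReal (Real.exp (-(γ / 2) * ‖(Z j).2‖ ^ 2))) :=
            mul_le_mul_right h3 _
        _ = _ := by ring
    · rw [indicator_of_notMem (show Z ∉ {Z | (wb M b).Conn C Finset.univ Z} from hc), zero_mul,
        mul_zero]
      exact bot_le
  calc ∫⁻ Z, NG416.hb (Z j₀).1 * (gC M C γ b Z * (1 + (lam M L Z : ℝ≥0∞)))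
      ≤ ∫⁻ Z, D * {Z | (wb M b).Conn C Finset.univ Z}.indicator (wgt (γ / 2) NG416.hb j₀) Z :=
        lintegral_mono h2
    _ = D * ∫⁻ Z, {Z | (wb M b).Conn C Finset.univ Z}.indicator (wgt (γ / 2) NG416.hb j₀) Z :=
        lintegral_const_mul' _ _ hD
    _ ≤ D * (K₁ * ENNReal.ofReal (M.ε ^ 2) ^ (Fintype.card J - 1)) := mul_le_mul_right h1 _
    _ = _ := by ring

end one

/-- **The estimate for one part.** -/
theorem part_hit {Φ : Space3 → ℝ} (hΦ : AdmissiblePotential Φ) (hVC : VC Φ) {T : ℝ} (hT : 0 ≤ T)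
    {BP : PosPred} (hHC : HitClass T BP) (J κ : Type) [Fintype J] [Nonempty J] [Fintype κ]
    {γ : ℝ} (hγ : 0 < γ) (C R : ℝ) (L : ℝ≥0) (K : ℕ) :
    ∃ η : ℝ → ℝ≥0∞, Tendsto η (𝓝[>] 0) (𝓝 0) ∧ ∀ M : VSys J κ, M.Φ = Φ → M.T = T → 0 < M.ε →
      M.ε ≤ 1 → (∀ k, LipschitzOnWith L (M.S.c k) (Icc 0 T)) →
      ∃ H : (k : ℕ) → (J → ℝ) × (J → PhasePoint) × Config k → ℝ≥0∞, (∀ k, Measurable (H k)) ∧
        (∀ k ≤ K, ∀ b Z, ∀ V ∈ PairExcluded M.ε k, HitEv BP R (wb M b) Finset.univ Z V →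
          1 ≤ H k (b, Z, V)) ∧
        ∀ k ≤ K, ∀ (b : J → ℝ) (i : Fin k) (env : Space3 → ℝ≥0∞), Measurable env →
          ∫⁻ Z, gC M C γ b Z * ∫⁻ V : Config k, env (V i).1 *
            ((∏ l, gv γ (V l)) * H k (b, Z, V)) ≤
          η M.ε * ENNReal.ofReal (M.ε ^ 2) ^ (k + (Fintype.card J - 1)) * ∫⁻ x, env x := by
  choose η hη h using fun j₀ => hHC J j₀ γ R K hγ
  obtain ⟨K₁, hK₁⟩ := hVC J κ (γ / 2) T C L (by positivity)
  obtain ⟨D, hD, hDl⟩ := lam_mul_gv_le (J := J) Φ hγ L (Fintype.card J)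
  let ι : Type := Finset J × κ × J × Option J
  refine ⟨fun ε => (Fintype.card ι : ℝ≥0∞) * (D * K₁) * ∑ j₀, η j₀ ε, ?_, ?_⟩
  · have h1 : Tendsto (fun ε => ∑ j₀, η j₀ ε) (𝓝[>] (0 : ℝ)) (𝓝 (∑ _j₀ : J, (0 : ℝ≥0∞))) :=
      tendsto_finsetSum _ fun j₀ _ => hη j₀
    rw [Finset.sum_const_zero] at h1
    have h2 := ENNReal.Tendsto.const_mul (a := (Fintype.card ι : ℝ≥0∞) * (D * K₁)) h1
      (Or.inr (ENNReal.mul_ne_top (ENNReal.natCast_ne_top _)
        (ENNReal.mul_ne_top hD ENNReal.coe_ne_top)))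
    rwa [mul_zero] at h2
  intro M hMΦ hMT hε hε1 hL
  have hM : Good M := ⟨hMΦ ▸ hΦ, hε, hMT ▸ hT, fun k => hMT ▸ (hL k).continuousOn⟩
  -- the root
  obtain ⟨j₀, hj₀⟩ : ∃ j₀ : J, ∀ j, M.o = some j → j₀ = j := by
    by_cases ho : ∃ j, M.o = some j
    · obtain ⟨j, hj⟩ := ho
      refine ⟨j, fun j' hj' => ?_⟩
      rw [hj] at hj'
      exact Option.some.inj hj'
    · exact ⟨Classical.arbitrary J, fun j hj => absurd ⟨j, hj⟩ ho⟩
  have hL' : ∀ k, LipschitzOnWith L (M.S.c k) (Icc 0 M.T) := fun k => hMT ▸ hL k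
  choose H hHm hH1 hH2 using fun α : ι => h j₀ M.ε hε hε1 (J → ℝ) (gC M C γ)
    (fun b Z t => crv (wb M b) α.1 α.2.1 α.2.2.1 α.2.2.2 Z t) (fun _ Z => lam M L Z)
    (measurable_gC hM C γ) (fun b a Z => gC_shiftX (hMΦ ▸ hΦ) hε C γ b a Z)
    (fun t => measurable_crv (Ω := (J → ℝ) × (J → PhasePoint)) hM measurable_fst measurable_snd
      α.1 α.2.1 α.2.2.1 α.2.2.2 t)
    (fun b a Z t => crv_shiftX (M := wb M b) (hMΦ ▸ hΦ) hε α.1 α.2.1 α.2.2.1 α.2.2.2 a Z t)
    (fun b Z => (lip_crv (M := wb M b) (hMΦ ▸ hΦ) hε (hMT ▸ hT) hL' α.1 α.2.1 α.2.2.1 α.2.2.2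
      Z).lipschitzOnWith)
    ((measurable_lam M L).comp measurable_snd) (fun _ a Z => lam_shiftX M L a Z)
  refine ⟨fun k p => ∑ α : ι, H α k p, fun k => Finset.measurable_sum _ fun α _ => hHm α k,
    ?_, ?_⟩
  · rintro k hk b Z V hV ⟨B, -, j, hj, q, i, t, ht, x, hok, hBP, hd⟩
    obtain ⟨r, hr⟩ := exists_crv (M := wb M b) (A := B) ht hok q j
    have h1 := hH1 (B, q, j, r) k hk b Z V hV i t x (by rw [← hMT]; exact ht) hBP (by
      show dist x (crv (wb M b) B q j r Z t) ≤ R * M.ε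
      rw [hr]
      exact hd)
    exact h1.trans (Finset.single_le_sum (f := fun α : ι => H α k (b, Z, V))
      (fun _ _ => bot_le) (Finset.mem_univ ((B, q, j, r) : ι)))
  · intro k hk b i env henv
    have hgv : Measurable fun V : Config k => ∏ l, gv γ (V l) :=
      Finset.measurable_prod _ fun l _ => (measurable_gv γ).comp (measurable_pi_apply l)
    have henv' : Measurable fun V : Config k => env (V i).1 :=
      henv.comp (measurable_pi_apply i).fst
    have hHV : ∀ α Z, Measurable fun V : Config k => H α k (b, Z, V) := fun α Z =>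
      (hHm α k).comp (measurable_const.prodMk (measurable_const.prodMk measurable_id))
    have hjoint : ∀ α, Measurable fun p : (J → PhasePoint) × Config k =>
        env (p.2 i).1 * ((∏ l, gv γ (p.2 l)) * H α k (b, p.1, p.2)) := fun α =>
      (henv'.comp measurable_snd).mul ((hgv.comp measurable_snd).mul
        ((hHm α k).comp (measurable_const.prodMk (measurable_fst.prodMk measurable_snd))))
    have hint : ∀ α, Measurable fun Z : J → PhasePoint => ∫⁻ V : Config k, env (V i).1 *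
        ((∏ l, gv γ (V l)) * H α k (b, Z, V)) := fun α => (hjoint α).lintegral_prod_right'
    have hgC : Measurable fun Z => gC M C γ b Z :=
      (measurable_gC hM C γ).comp (measurable_const.prodMk measurable_id)
    have hA : ∀ α Z, Measurable fun V : Config k =>
        env (V i).1 * ((∏ l, gv γ (V l)) * H α k (b, Z, V)) := fun α Z =>
      henv'.mul (hgv.mul (hHV α Z))
    have e1 : ∀ Z : J → PhasePoint, gC M C γ b Z * ∫⁻ V : Config k, env (V i).1 *
        ((∏ l, gv γ (V l)) * ∑ α : ι, H α k (b, Z, V)) =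
        ∑ α : ι, gC M C γ b Z * ∫⁻ V : Config k, env (V i).1 *
          ((∏ l, gv γ (V l)) * H α k (b, Z, V)) := by
      intro Z
      rw [← Finset.mul_sum]
      congr 1
      rw [← lintegral_finsetSum _ fun α _ => hA α Z]
      refine lintegral_congr fun V => ?_
      simp only [Finset.mul_sum]
    have hB : ∀ α, Measurable fun Z : J → PhasePoint => gC M C γ b Z *
        ∫⁻ V : Config k, env (V i).1 * ((∏ l, gv γ (V l)) * H α k (b, Z, V)) := fun α =>
      hgC.mul (hint α)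
    simp only [e1]
    rw [lintegral_finsetSum _ fun α _ => hB α]
    have hI := pinned_le (M := M) hD hK₁ hDl hMΦ hMT hε hε1 hL b j₀ hj₀
    have hα : ∀ α : ι, ∫⁻ Z, gC M C γ b Z * ∫⁻ V : Config k, env (V i).1 *
          ((∏ l, gv γ (V l)) * H α k (b, Z, V)) ≤
        (D * K₁) * (∑ j₀, η j₀ M.ε) *
          ENNReal.ofReal (M.ε ^ 2) ^ (k + (Fintype.card J - 1)) * ∫⁻ x, env x := by
      intro α
      calc ∫⁻ Z, gC M C γ b Z * ∫⁻ V : Config k, env (V i).1 *
            ((∏ l, gv γ (V l)) * H α k (b, Z, V))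
          ≤ η j₀ M.ε * ENNReal.ofReal (M.ε ^ 2) ^ k * (∫⁻ x, env x) *
              ∫⁻ Z, NG416.hb (Z j₀).1 * (gC M C γ b Z * (1 + (lam M L Z : ℝ≥0∞))) :=
            hH2 α k hk b i env henv
        _ ≤ η j₀ M.ε * ENNReal.ofReal (M.ε ^ 2) ^ k * (∫⁻ x, env x) *
              (D * K₁ * ENNReal.ofReal (M.ε ^ 2) ^ (Fintype.card J - 1)) :=
            mul_le_mul_right hI _
        _ ≤ (∑ j₀, η j₀ M.ε) * ENNReal.ofReal (M.ε ^ 2) ^ k * (∫⁻ x, env x) *
              (D * K₁ * ENNReal.ofReal (M.ε ^ 2) ^ (Fintype.card J - 1)) := by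
            gcongr
            exact Finset.single_le_sum (f := fun j₀ => η j₀ M.ε) (fun _ _ => bot_le)
              (Finset.mem_univ j₀)
        _ = _ := by rw [pow_add]; ring
    refine (Finset.sum_le_sum fun α _ => hα α).trans (le_of_eq ?_)
    rw [Finset.sum_const, nsmul_eq_mul, Finset.card_univ]
    ring

end Crest.Agent.R122.BH167

end
end

-- ▼ part R122/BHClass_167

/-!
# Row 122, BadHit (helper167), part 3: class form

* `BadHitP` : partition of the structure into at most `s` connected parts meeting the anchors, one of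
  which is hit by a root of the bad past `V`.
* `class_hit` : measurable majorant, mass `o(1) ε^(2 (k + |J| - s))`, uniformly in all births and in
  the system (obstacle with Lipschitz tubes allowed).
-/

set_option autoImplicit false
set_option linter.unusedSectionVars false

open MeasureTheory Set Filter Topology
open Crest.AnalysisR.Kinetic
open Crest.Agent.R122.Ins45 Crest.Agent.R122.GIV566 Crest.Agent.R122.VL581
open Crest.Agent.R122.VLMeas973 Crest.Agent.R122.Loc45
open Crest.Agent.R122.MeasE416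
open scoped Classical ENNReal NNReal

noncomputable section

namespace Crest.Agent.R122.BH167

variable {J κ : Type} [Fintype J]

/-- **Bad hit of a structure**: the labels are partitioned into at most `s` connected parts meeting
the anchors `A`; one of the parts is hit by a root of the bad past `V`. -/
def BadHitP (BP : PosPred) (C R : ℝ) (s : ℕ) (A : Finset J) (M : VSys J κ) (Z : J → PhasePoint)
    {k : ℕ} (V : Config k) : Prop :=
  ∃ π : Finpartition (Finset.univ : Finset J),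
    (∀ P ∈ π.parts, M.Conn C P Z ∧ ∃ x ∈ P, x ∈ A) ∧ π.parts.card ≤ s ∧
      ∃ P ∈ π.parts, HitEv BP R M P Z V

theorem hitEv_pull {BP : PosPred} {R : ℝ} {M : VSys J κ} (hΦ : AdmissiblePotential M.Φ)
    (hε : 0 < M.ε) {P : Finset J} {Z : J → PhasePoint} {k : ℕ} {V : Config k}
    (h : HitEv BP R M P Z V) :
    HitEv BP R (pull M (sub P)) Finset.univ (fun j => Z (sub P j)) V := by
  obtain ⟨B, hB, j, hj, q, i, t, ht, x, hok, hBP, hd⟩ := h
  have hB' : B ⊆ (Finset.univ : Finset P).map (sub P) := by rwa [VLMeas973.map_sub]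
  obtain ⟨B', -, rfl⟩ := Finset.subset_map_iff.1 hB'
  obtain ⟨j', hj', rfl⟩ := Finset.mem_map.1 hj
  refine ⟨B', Finset.subset_univ _, j', hj', q, i, t, ht, x, ?_, hBP, ?_⟩
  · exact (ok_pull M (sub P) hΦ hε B' t Z).2 hok
  · rw [pos_pull M (sub P) hΦ hε]
    exact hd

/-- The weight of a part is at most the Gaussian weight. -/
theorem wP_le {γ : ℝ} {ρ : Space3 → ℝ≥0∞} (h1 : ∀ x, ρ x ≤ 1) (o : Option J) (A P : Finset J)
    (z : P → PhasePoint) : wP γ ρ o A P z ≤ ∏ j, gv γ (z j) := by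
  unfold wP
  split_ifs with h
  · unfold wgt
    calc ρ (z (rt o A P h)).1 * ∏ j, ENNReal.ofReal (Real.exp (-γ * ‖(z j).2‖ ^ 2))
        ≤ 1 * ∏ j, ENNReal.ofReal (Real.exp (-γ * ‖(z j).2‖ ^ 2)) := by
          gcongr
          exact h1 _
      _ = ∏ j, gv γ (z j) := by rw [one_mul]; rfl
  · exact bot_le

/-- **Class form.** -/
theorem class_hit {Φ : Space3 → ℝ} (hΦ : AdmissiblePotential Φ) (hVC : VC Φ) {T : ℝ} (hT : 0 ≤ T)
    {BP : PosPred} (hHC : HitClass T BP) (J κ : Type) [Fintype J] [Fintype κ]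
    {γ : ℝ} (hγ : 0 < γ) (C R : ℝ) (L : ℝ≥0) (K : ℕ) (s : ℕ)
    (A : Finset J) {ρ : Space3 → ℝ≥0∞} (hρ : Measurable ρ) (hρ1 : ∀ x, ρ x ≤ 1)
    (hρf : ∫⁻ x, ρ x < ∞) :
    ∃ η : ℝ → ℝ≥0∞, Tendsto η (𝓝[>] 0) (𝓝 0) ∧ ∀ M : VSys J κ, M.Φ = Φ → M.T = T → 0 < M.ε →
      M.ε ≤ 1 → (∀ k, LipschitzOnWith L (M.S.c k) (Icc 0 T)) → (∀ j, M.o = some j → j ∈ A) →
      ∃ E : (k : ℕ) → Set ((J → ℝ) × (J → PhasePoint) × Config k), (∀ k, MeasurableSet (E k)) ∧
        (∀ k ≤ K, ∀ b Z, ∀ V ∈ PairExcluded M.ε k, BadHitP BP C R s A (wb M b) Z V →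
          (b, Z, V) ∈ E k) ∧
        ∀ k ≤ K, ∀ (b : J → ℝ) (i : Fin k),
          ∫⁻ Z, wA γ ρ A Z * ∫⁻ V : Config k, ρ (V i).1 *
            ((∏ l, gv γ (V l)) * (if (b, Z, V) ∈ E k then 1 else 0)) ≤
          η M.ε * ENNReal.ofReal (M.ε ^ 2) ^ (k + (Fintype.card J - s)) := by
  -- the estimates for all parts
  have hpart : ∀ P : Finset J, ∃ η : ℝ → ℝ≥0∞, Tendsto η (𝓝[>] 0) (𝓝 0) ∧
      ∀ M : VSys P κ, M.Φ = Φ → M.T = T → 0 < M.ε →
      M.ε ≤ 1 → (∀ k, LipschitzOnWith L (M.S.c k) (Icc 0 T)) →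
      ∃ H : (k : ℕ) → (P → ℝ) × (P → PhasePoint) × Config k → ℝ≥0∞, (∀ k, Measurable (H k)) ∧
        (P.Nonempty → (∀ k ≤ K, ∀ b Z, ∀ V ∈ PairExcluded M.ε k,
          HitEv BP R (wb M b) Finset.univ Z V → 1 ≤ H k (b, Z, V)) ∧
        ∀ k ≤ K, ∀ (b : P → ℝ) (i : Fin k) (env : Space3 → ℝ≥0∞), Measurable env →
          ∫⁻ Z, gC M C γ b Z * ∫⁻ V : Config k, env (V i).1 *
            ((∏ l, gv γ (V l)) * H k (b, Z, V)) ≤
          η M.ε * ENNReal.ofReal (M.ε ^ 2) ^ (k + (P.card - 1)) * ∫⁻ x, env x) := by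
    intro P
    by_cases hP : P.Nonempty
    · have : Nonempty P := hP.to_subtype
      obtain ⟨η, hη, h⟩ := part_hit hΦ hVC hT hHC P κ hγ C R L K
      refine ⟨η, hη, fun M h1 h2 h3 h4 h5 => ?_⟩
      obtain ⟨H, hH1, hH2, hH3⟩ := h M h1 h2 h3 h4 h5
      refine ⟨H, hH1, fun _ => ⟨hH2, fun k hk b i env henv => ?_⟩⟩
      have := hH3 k hk b i env henv
      rwa [Fintype.card_coe] at this
    · exact ⟨fun _ => 0, tendsto_const_nhds, fun M _ _ _ _ _ => ⟨fun _ _ => 0,
        fun _ => measurable_const, fun h => absurd h hP⟩⟩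
  choose η hη hp using hpart
  obtain ⟨K₁, hK₁⟩ := exists_aP_bound (J := J) (κ := κ) (C := C) (T := T) hVC hγ L
  set m := Fintype.card J with hm
  set I : ℝ≥0∞ := ∫⁻ x, ρ x with hI
  have hIt : I ≠ ∞ := hρf.ne
  set B : ℝ≥0∞ := K₁ * I with hB
  have hBt : B ≠ ∞ := ENNReal.mul_ne_top ENNReal.coe_ne_top hIt
  set N : ℝ≥0∞ := (Fintype.card (Finpartition (Finset.univ : Finset J)) : ℝ≥0∞) with hN
  set Q : ℝ≥0∞ := N * (m * ((B + 1) ^ m * I)) with hQ
  have hQt : Q ≠ ∞ := by
    refine ENNReal.mul_ne_top (ENNReal.natCast_ne_top _) (ENNReal.mul_ne_top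
      (ENNReal.natCast_ne_top _) (ENNReal.mul_ne_top (ENNReal.pow_ne_top
        (ENNReal.add_ne_top.2 ⟨hBt, ENNReal.one_ne_top⟩)) hIt))
  refine ⟨fun ε => Q * ∑ P, η P ε, ?_, ?_⟩
  · have h1 : Tendsto (fun ε => ∑ P, η P ε) (𝓝[>] (0 : ℝ)) (𝓝 (∑ _P : Finset J, (0 : ℝ≥0∞))) :=
      tendsto_finsetSum _ fun P _ => hη P
    rw [Finset.sum_const_zero] at h1
    have h2 := ENNReal.Tendsto.const_mul (a := Q) h1 (Or.inr hQt)
    rwa [mul_zero] at h2
  intro M hMΦ hMT hε hε1 hL ho
  have hM : Good M := ⟨hMΦ ▸ hΦ, hε, hMT ▸ hT, fun k => hMT ▸ (hL k).continuousOn⟩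
  have hΦM : AdmissiblePotential M.Φ := hMΦ ▸ hΦ
  choose H hHm hH using fun P : Finset J => hp P (pull M (sub P)) hMΦ hMT hε hε1 hL
  set x : ℝ≥0∞ := ENNReal.ofReal (M.ε ^ 2) with hx
  have hx1 : x ≤ 1 := by
    rw [hx, ← ENNReal.ofReal_one]
    exact ENNReal.ofReal_le_ofReal (pow_le_one₀ hε.le hε1)
  -- restriction of the births and of the states
  let rb : (P : Finset J) → (J → ℝ) → P → ℝ := fun P b j => b (sub P j)
  let rz : (P : Finset J) → (J → PhasePoint) → P → PhasePoint := fun P Z j => Z (sub P j)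
  have hrb : ∀ P, Measurable (rb P) := fun P =>
    measurable_pi_lambda _ fun j => measurable_pi_apply _
  have hrz : ∀ P, Measurable (rz P) := fun P =>
    measurable_pi_lambda _ fun j => measurable_pi_apply _
  have hcs : ∀ (b : J → ℝ) (P : Finset J) (Z : J → PhasePoint),
      (wb (pull M (sub P)) (rb P b)).Conn C Finset.univ (rz P Z) ↔ (wb M b).Conn C P Z := by
    intro b P Z
    exact conn_sub (M := wb M b) ⟨hΦM, hε, hM.T0, hM.tubes⟩ C P Z
  -- the majorant
  obtain ⟨E, hE⟩ : ∃ E : (k : ℕ) → Set ((J → ℝ) × (J → PhasePoint) × Config k), ∀ k p, p ∈ E k ↔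
      ∃ π : Finpartition (Finset.univ : Finset J),
        (∀ P ∈ π.parts, (wb M p.1).Conn C P p.2.1 ∧ ∃ x ∈ P, x ∈ A) ∧ π.parts.card ≤ s ∧
          ∃ P ∈ π.parts, 1 ≤ H P k (rb P p.1, rz P p.2.1, p.2.2) :=
    ⟨fun k => {p | ∃ π : Finpartition (Finset.univ : Finset J),
        (∀ P ∈ π.parts, (wb M p.1).Conn C P p.2.1 ∧ ∃ x ∈ P, x ∈ A) ∧ π.parts.card ≤ s ∧
          ∃ P ∈ π.parts, 1 ≤ H P k (rb P p.1, rz P p.2.1, p.2.2)}, fun k p => Iff.rfl⟩
  have hmap : ∀ (k : ℕ) (P : Finset J), Measurable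
      fun p : (J → ℝ) × (J → PhasePoint) × Config k => H P k (rb P p.1, rz P p.2.1, p.2.2) :=
    fun k P => (hHm P k).comp (((hrb P).comp measurable_fst).prodMk
      (((hrz P).comp measurable_snd.fst).prodMk measurable_snd.snd))
  refine ⟨E, fun k => ?_, ?_, ?_⟩
  · have h : E k = ⋃ π : Finpartition (Finset.univ : Finset J),
        (⋂ P ∈ π.parts, ({p : (J → ℝ) × (J → PhasePoint) × Config k |
            (wb M p.1).Conn C P p.2.1} ∩ {_p | ∃ x ∈ P, x ∈ A})) ∩
        ({_p | π.parts.card ≤ s} ∩ ⋃ P ∈ π.parts,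
          {p | 1 ≤ H P k (rb P p.1, rz P p.2.1, p.2.2)}) := by
      ext p
      rw [hE]
      simp only [mem_ofPred_eq, mem_iUnion, mem_inter_iff, mem_iInter, exists_prop]
    rw [h]
    refine MeasurableSet.iUnion fun π => ?_
    refine (Finset.measurableSet_biInter _ fun P _ =>
      (measurableSet_conn (Ω := (J → ℝ) × (J → PhasePoint) × Config k) hM measurable_fst
        measurable_snd.fst C P).inter (MeasurableSet.const _)).inter ?_
    refine (MeasurableSet.const _).inter (Finset.measurableSet_biUnion _ fun P _ => ?_)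
    exact measurableSet_le measurable_const (hmap k P)
  · rintro k hk b Z V hV ⟨π, h1, h2, P, hP, h3⟩
    refine (hE k _).2 ⟨π, h1, h2, P, hP, ?_⟩
    have hPn := π.nonempty_of_mem_parts hP
    exact (hH P hPn).1 k hk _ _ V hV (hitEv_pull (M := wb M b) hΦM hε h3)
  intro k hk b i
  have hgv : Measurable fun V : Config k => ∏ l, gv γ (V l) :=
    Finset.measurable_prod _ fun l _ => (measurable_gv γ).comp (measurable_pi_apply l)
  have hρ' : Measurable fun V : Config k => ρ (V i).1 := hρ.comp (measurable_pi_apply i).fst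
  -- functions of the parts
  let F : (P : Finset J) → (P → PhasePoint) → ℝ≥0∞ := fun P =>
    {z | (pull (wb M b) (sub P)).Conn C Finset.univ z}.indicator (wP γ ρ M.o A P)
  let D : (P : Finset J) → (P → PhasePoint) → ℝ≥0∞ := fun P z =>
    gC (pull M (sub P)) C γ (rb P b) z * ∫⁻ V : Config k, ρ (V i).1 *
      ((∏ l, gv γ (V l)) * H P k (rb P b, z, V))
  have hF : ∀ P, Measurable (F P) := fun P =>
    (measurable_wP hρ M.o A P).indicator
      (measurableSet_conn' (M := pull (wb M b) (sub P)) ⟨hΦM, hε, hM.T0, hM.tubes⟩ C Finset.univ)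
  have hVm : ∀ P z, Measurable fun V : Config k => ρ (V i).1 *
      ((∏ l, gv γ (V l)) * H P k (rb P b, z, V)) := fun P z =>
    hρ'.mul (hgv.mul ((hHm P k).comp (measurable_const.prodMk
      (measurable_const.prodMk measurable_id))))
  have hD : ∀ P, Measurable (D P) := by
    intro P
    refine Measurable.mul ?_ ?_
    · exact (measurable_gC (M := pull M (sub P)) (hM.pull (sub P)) C γ).comp
        (measurable_const.prodMk measurable_id)
    · have h1 : Measurable fun p : (P → PhasePoint) × Config k => ρ (p.2 i).1 *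
          ((∏ l, gv γ (p.2 l)) * H P k (rb P b, p.1, p.2)) :=
        (hρ'.comp measurable_snd).mul ((hgv.comp measurable_snd).mul ((hHm P k).comp
          (measurable_const.prodMk (measurable_fst.prodMk measurable_snd))))
      exact h1.lintegral_prod_right'
  have hDF : ∀ P P₀ : Finset J, Measurable (if P = P₀ then D P else F P) := by
    intro P P₀
    by_cases h : P = P₀
    · simp only [if_pos h]; exact hD P
    · simp only [if_neg h]; exact hF P
  -- the pointwise bound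
  have hpt : ∀ Z, wA γ ρ A Z * ∫⁻ V : Config k, ρ (V i).1 *
      ((∏ l, gv γ (V l)) * (if (b, Z, V) ∈ E k then 1 else 0)) ≤
      ∑ π : Finpartition (Finset.univ : Finset J), (if π.parts.card ≤ s then
        ∑ P₀ ∈ π.parts, ∏ P ∈ π.parts, (if P = P₀ then D P else F P) (rz P Z) else 0) := by
    intro Z
    -- the good partitions
    set G : Finpartition (Finset.univ : Finset J) → Prop := fun π =>
      (∀ P ∈ π.parts, (wb M b).Conn C P Z ∧ ∃ x ∈ P, x ∈ A) ∧ π.parts.card ≤ s with hG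
    have h1 : ∫⁻ V : Config k, ρ (V i).1 *
        ((∏ l, gv γ (V l)) * (if (b, Z, V) ∈ E k then 1 else 0)) ≤
        ∑ π : Finpartition (Finset.univ : Finset J), ∑ P₀ ∈ π.parts, (if G π then
          ∫⁻ V : Config k, ρ (V i).1 * ((∏ l, gv γ (V l)) * H P₀ k (rb P₀ b, rz P₀ Z, V))
          else 0) := by
      have h2 : ∀ V : Config k, ρ (V i).1 *
          ((∏ l, gv γ (V l)) * (if (b, Z, V) ∈ E k then 1 else 0)) ≤
          ∑ π : Finpartition (Finset.univ : Finset J), ∑ P₀ ∈ π.parts, (if G π then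
            ρ (V i).1 * ((∏ l, gv γ (V l)) * H P₀ k (rb P₀ b, rz P₀ Z, V)) else 0) := by
        intro V
        by_cases hEb : (b, Z, V) ∈ E k
        · obtain ⟨π, h3, h4, P, hP, h5⟩ := (hE k _).1 hEb
          refine le_trans ?_ (Finset.single_le_sum (f := fun π : Finpartition _ =>
            ∑ P₀ ∈ π.parts, (if G π then ρ (V i).1 *
              ((∏ l, gv γ (V l)) * H P₀ k (rb P₀ b, rz P₀ Z, V)) else 0))
            (fun _ _ => bot_le) (Finset.mem_univ π))
          refine le_trans ?_ (Finset.single_le_sum (f := fun P₀ => (if G π then ρ (V i).1 *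
              ((∏ l, gv γ (V l)) * H P₀ k (rb P₀ b, rz P₀ Z, V)) else 0))
            (fun _ _ => bot_le) hP)
          simp only [if_pos hEb]
          rw [if_pos (show G π from ⟨h3, h4⟩)]
          gcongr
        · rw [if_neg hEb, mul_zero, mul_zero]
          exact bot_le
      refine (lintegral_mono h2).trans (le_of_eq ?_)
      have hm1 : ∀ (π : Finpartition (Finset.univ : Finset J)) (P₀ : Finset J),
          Measurable fun V : Config k => (if G π then
            ρ (V i).1 * ((∏ l, gv γ (V l)) * H P₀ k (rb P₀ b, rz P₀ Z, V)) else 0) := by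
        intro π P₀
        by_cases h : G π
        · simp only [if_pos h]; exact hVm P₀ _
        · simp only [if_neg h]; exact measurable_const
      rw [lintegral_finsetSum _ fun π _ => Finset.measurable_sum _ fun P₀ _ => hm1 π P₀]
      refine Finset.sum_congr rfl fun π _ => ?_
      rw [lintegral_finsetSum _ fun P₀ _ => hm1 π P₀]
      refine Finset.sum_congr rfl fun P₀ _ => ?_
      by_cases h : G π
      · simp only [if_pos h]
      · simp only [if_neg h, lintegral_zero]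
    refine (mul_le_mul_right h1 _).trans ?_
    rw [Finset.mul_sum]
    refine Finset.sum_le_sum fun π _ => ?_
    by_cases hg : G π
    · rw [if_pos hg.2, Finset.mul_sum]
      refine Finset.sum_le_sum fun P₀ hP₀ => ?_
      rw [if_pos hg, ← Finset.mul_prod_erase _ _ hP₀]
      have hw := wA_le (β := γ) hρ1 ho π (fun P hP => (hg.1 P hP).2) Z
      rw [← Finset.mul_prod_erase _ _ hP₀] at hw
      have hc₀ : (wb (pull M (sub P₀)) (rb P₀ b)).Conn C Finset.univ (rz P₀ Z) :=
        (hcs b P₀ Z).2 (hg.1 P₀ hP₀).1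
      have e1 : (if P₀ = P₀ then D P₀ else F P₀) (rz P₀ Z) = D P₀ (rz P₀ Z) := by rw [if_pos rfl]
      rw [e1]
      have h3 : wP γ ρ M.o A P₀ (fun j => Z (sub P₀ j)) *
          ∫⁻ V : Config k, ρ (V i).1 * ((∏ l, gv γ (V l)) * H P₀ k (rb P₀ b, rz P₀ Z, V)) ≤
          D P₀ (rz P₀ Z) := by
        show _ ≤ gC (pull M (sub P₀)) C γ (rb P₀ b) (rz P₀ Z) * _
        refine mul_le_mul' ?_ le_rfl
        unfold gC
        rw [indicator_of_mem (show rz P₀ Z ∈ {Z | (wb (pull M (sub P₀)) (rb P₀ b)).Conn C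
          Finset.univ Z} from hc₀)]
        exact wP_le hρ1 _ _ _ _
      have h4 : ∏ P ∈ π.parts.erase P₀, wP γ ρ M.o A P (fun j => Z (sub P j)) ≤
          ∏ P ∈ π.parts.erase P₀, (if P = P₀ then D P else F P) (rz P Z) := by
        refine Finset.prod_le_prod' fun P hP => ?_
        rw [if_neg (Finset.ne_of_mem_erase hP)]
        show _ ≤ indicator _ _ _
        rw [indicator_of_mem]
        exact (hcs b P Z).2 (hg.1 P (Finset.mem_of_mem_erase hP)).1
      calc wA γ ρ A Z * ∫⁻ V : Config k, ρ (V i).1 *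
            ((∏ l, gv γ (V l)) * H P₀ k (rb P₀ b, rz P₀ Z, V))
          ≤ (wP γ ρ M.o A P₀ (fun j => Z (sub P₀ j)) *
              ∏ P ∈ π.parts.erase P₀, wP γ ρ M.o A P (fun j => Z (sub P j))) *
            ∫⁻ V : Config k, ρ (V i).1 *
              ((∏ l, gv γ (V l)) * H P₀ k (rb P₀ b, rz P₀ Z, V)) := mul_le_mul' hw le_rfl
        _ = (wP γ ρ M.o A P₀ (fun j => Z (sub P₀ j)) *
            ∫⁻ V : Config k, ρ (V i).1 *
              ((∏ l, gv γ (V l)) * H P₀ k (rb P₀ b, rz P₀ Z, V))) *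
              ∏ P ∈ π.parts.erase P₀, wP γ ρ M.o A P (fun j => Z (sub P j)) := by ring
        _ ≤ _ := mul_le_mul' h3 h4
    · have h0 : ∀ P₀ ∈ π.parts, (if G π then ∫⁻ V : Config k, ρ (V i).1 *
          ((∏ l, gv γ (V l)) * H P₀ k (rb P₀ b, rz P₀ Z, V)) else 0) = 0 := fun P₀ _ => if_neg hg
      rw [Finset.sum_eq_zero h0, mul_zero]
      exact bot_le
  refine (lintegral_mono hpt).trans ?_
  -- integration
  have hm2 : ∀ (π : Finpartition (Finset.univ : Finset J)) (P₀ : Finset J),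
      Measurable fun Z : J → PhasePoint =>
        ∏ P ∈ π.parts, (if P = P₀ then D P else F P) (rz P Z) := fun π P₀ =>
    Finset.measurable_prod _ fun P _ => (hDF P P₀).comp (hrz P)
  have hm3 : ∀ π : Finpartition (Finset.univ : Finset J), Measurable fun Z : J → PhasePoint =>
      (if π.parts.card ≤ s then
        ∑ P₀ ∈ π.parts, ∏ P ∈ π.parts, (if P = P₀ then D P else F P) (rz P Z) else 0) := by
    intro π
    by_cases h : π.parts.card ≤ s
    · simp only [if_pos h]
      exact Finset.measurable_sum _ fun P₀ _ => hm2 π P₀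
    · simp only [if_neg h]
      exact measurable_const
  rw [lintegral_finsetSum _ fun π _ => hm3 π]
  -- bounds
  have haP : ∀ P : Finset J, ∫⁻ z, F P z ≤ B * x ^ (P.card - 1) := fun P =>
    hK₁ (wb M b) hMΦ hMT hε hε1 hL A ρ hρ P
  have hdP : ∀ P : Finset J, P.Nonempty → ∫⁻ z, D P z ≤
      (∑ P, η P M.ε) * x ^ (k + (P.card - 1)) * I := by
    intro P hP
    refine ((hH P hP).2 k hk (rb P b) i ρ hρ).trans ?_
    have : η P (pull M (sub P)).ε ≤ ∑ P, η P M.ε :=
      Finset.single_le_sum (f := fun P => η P M.ε) (fun _ _ => bot_le) (Finset.mem_univ P)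
    exact mul_le_mul' (mul_le_mul' this le_rfl) le_rfl
  have hB1 : (1 : ℝ≥0∞) ≤ B + 1 := le_add_self
  have key : ∀ π : Finpartition (Finset.univ : Finset J), ∫⁻ Z, (if π.parts.card ≤ s then
        ∑ P₀ ∈ π.parts, ∏ P ∈ π.parts, (if P = P₀ then D P else F P) (rz P Z) else 0) ≤
      (m * ((B + 1) ^ m * I)) * (∑ P, η P M.ε) * x ^ (k + (m - s)) := by
    intro π
    by_cases h : π.parts.card ≤ s
    swap
    · simp only [if_neg h, lintegral_zero]
      exact bot_le
    simp only [if_pos h]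
    rw [lintegral_finsetSum _ fun P₀ _ => hm2 π P₀]
    have hpm := card_parts_le π
    have hpow : ∏ P ∈ π.parts, x ^ (P.card - 1) = x ^ (m - π.parts.card) := by
      rw [Finset.prod_pow_eq_pow_sum, sum_card_sub]
    have h2 : ∀ P₀ ∈ π.parts, ∫⁻ Z : J → PhasePoint,
        ∏ P ∈ π.parts, (if P = P₀ then D P else F P) (rz P Z) ≤
        ((B + 1) ^ m * I) * (∑ P, η P M.ε) * x ^ (k + (m - s)) := by
      intro P₀ hP₀
      rw [show (∫⁻ Z : J → PhasePoint, ∏ P ∈ π.parts,
          (if P = P₀ then D P else F P) (rz P Z)) =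
        ∏ P ∈ π.parts, ∫⁻ z : P → PhasePoint, (if P = P₀ then D P else F P) z from
        PartProd973.lintegral_prod_parts π (fun P => if P = P₀ then D P else F P)
          fun P => hDF P P₀]
      rw [← Finset.mul_prod_erase _ _ hP₀]
      have e1 : (∫⁻ z : P₀ → PhasePoint, (if P₀ = P₀ then D P₀ else F P₀) z) =
          ∫⁻ z, D P₀ z := by rw [if_pos rfl]
      have e2 : ∏ P ∈ π.parts.erase P₀, ∫⁻ z : P → PhasePoint,
          (if P = P₀ then D P else F P) z ≤ ∏ P ∈ π.parts.erase P₀, (B * x ^ (P.card - 1)) := by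
        refine Finset.prod_le_prod' fun P hP => ?_
        rw [if_neg (Finset.ne_of_mem_erase hP)]
        exact haP P
      rw [e1]
      calc (∫⁻ z, D P₀ z) * ∏ P ∈ π.parts.erase P₀, ∫⁻ z : P → PhasePoint,
            (if P = P₀ then D P else F P) z
          ≤ ((∑ P, η P M.ε) * x ^ (k + (P₀.card - 1)) * I) *
            ∏ P ∈ π.parts.erase P₀, (B * x ^ (P.card - 1)) :=
            mul_le_mul' (hdP P₀ (π.nonempty_of_mem_parts hP₀)) e2
        _ = B ^ (π.parts.erase P₀).card * I * (∑ P, η P M.ε) * (x ^ k * (x ^ (P₀.card - 1) *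
              ∏ P ∈ π.parts.erase P₀, x ^ (P.card - 1))) := by
            rw [Finset.prod_mul_distrib, Finset.prod_const, pow_add]; ring
        _ = B ^ (π.parts.erase P₀).card * I * (∑ P, η P M.ε) *
              x ^ (k + (m - π.parts.card)) := by
            rw [Finset.mul_prod_erase _ (fun P => x ^ (P.card - 1)) hP₀, hpow, pow_add]
        _ ≤ ((B + 1) ^ m * I) * (∑ P, η P M.ε) * x ^ (k + (m - s)) := by
            have h5 : B ^ (π.parts.erase P₀).card ≤ (B + 1) ^ m :=
              (pow_le_pow_left' le_self_add _).trans (pow_le_pow_right' hB1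
                ((Finset.card_erase_le).trans hpm))
            have h6 : x ^ (k + (m - π.parts.card)) ≤ x ^ (k + (m - s)) :=
              pow_le_pow_right_of_le_one' hx1 (by omega)
            gcongr
    calc ∑ P₀ ∈ π.parts, ∫⁻ Z : J → PhasePoint,
          ∏ P ∈ π.parts, (if P = P₀ then D P else F P) (rz P Z)
        ≤ ∑ _P₀ ∈ π.parts, ((B + 1) ^ m * I) * (∑ P, η P M.ε) * x ^ (k + (m - s)) :=
          Finset.sum_le_sum h2
      _ = (π.parts.card : ℝ≥0∞) * (((B + 1) ^ m * I) * (∑ P, η P M.ε) * x ^ (k + (m - s))) := by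
          rw [Finset.sum_const, nsmul_eq_mul]
      _ ≤ (m : ℝ≥0∞) * (((B + 1) ^ m * I) * (∑ P, η P M.ε) * x ^ (k + (m - s))) := by
          gcongr
      _ = _ := by ring
  refine (Finset.sum_le_sum fun π _ => key π).trans (le_of_eq ?_)
  rw [Finset.sum_const, nsmul_eq_mul, Finset.card_univ]
  ring

end Crest.Agent.R122.BH167

end
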