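import Crest.Agent.R122.Scat5_818
import Crest.Agent.R122.NewtonFlow_671
import Crest.Agent.R122.TreeDefs_674

/-!
# Row 122, block F2: two-body scattering, part 6

* bridge to the two-body data of `TreeDefs_674` (`NT`, `tau`, `qpath`, `qx`);
* the two-particle Newton flow at range `ε` in terms of the relative flow.
-/

set_option autoImplicit false
set_option linter.unusedSectionVars false

open MeasureTheory Filter Set
open scoped Topology NNReal ENNReal
open Crest.AnalysisR.Kinetic

noncomputable section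

namespace Crest.Agent.R122.Scat818

open Flow671

variable {Φ : Space3 → ℝ}

/-! ### Bridge to `Tree674` -/














/-! ### The two-particle Newton flow -/



lemma hasDerivAt_rescale {f f' : ℝ → Space3} (h : ∀ s, HasDerivAt f (f' s) s) (ε s₀ u : ℝ) :
    HasDerivAt (fun u => f ((u - s₀) / ε)) ((1 / ε) • f' ((u - s₀) / ε)) u := by
  have h1 : HasDerivAt (fun u : ℝ => (u - s₀) / ε) (1 / ε) u :=
    ((hasDerivAt_id u).sub_const s₀).div_const ε
  exact (h ((u - s₀) / ε)).scomp u h1

variable {ι : Type*}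

/-- Two-particle configuration from centre of mass and relative coordinates at range `ε`. -/
def pairConf (ε : ℝ) (i : ι) (c V q p : Space3) : ι → PhasePoint :=
  open scoped Classical in
  fun k => if k = i then (c + (ε / 2) • q, V + (1 / 2 : ℝ) • p)
    else (c - (ε / 2) • q, V - (1 / 2 : ℝ) • p)

lemma pairConf_left (ε : ℝ) (i : ι) (c V q p : Space3) :
    pairConf ε i c V q p i = (c + (ε / 2) • q, V + (1 / 2 : ℝ) • p) := by
  classical
  simp [pairConf]

lemma pairConf_right (ε : ℝ) {i j : ι} (hij : j ≠ i) (c V q p : Space3) :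
    pairConf ε i c V q p j = (c - (ε / 2) • q, V - (1 / 2 : ℝ) • p) := by
  classical
  simp [pairConf, hij]

lemma dom_of_reg {i j : ι} (htwo : ∀ k, k = i ∨ k = j)
    {Z : ι → PhasePoint} (h : Reg Φ ((Z i).1 - (Z j).1)) : Z ∈ Dom Φ ι := by
  rcases h with h | h
  · refine Or.inr fun k l hkl => ?_
    have h' : (Z i).1 ≠ (Z j).1 := sub_ne_zero.1 h
    rcases htwo k with rfl | rfl <;> rcases htwo l with rfl | rfl
    · exact absurd rfl hkl
    · exact h'
    · exact h'.symm
    · exact absurd rfl hkl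
  · exact Or.inl h

/-- Centre-of-mass and relative coordinates of a two-particle configuration. -/
lemma eq_pairConf {ε : ℝ} (hε : 0 < ε) {i j : ι} (hij : i ≠ j) (htwo : ∀ k, k = i ∨ k = j)
    (Z : ι → PhasePoint) :
    Z = pairConf ε i ((1 / 2 : ℝ) • ((Z i).1 + (Z j).1)) ((1 / 2 : ℝ) • ((Z i).2 + (Z j).2))
      ((1 / ε) • ((Z i).1 - (Z j).1)) ((Z i).2 - (Z j).2) := by
  have h1 : (ε / 2) • (1 / ε) • ((Z i).1 - (Z j).1) = (1 / 2 : ℝ) • ((Z i).1 - (Z j).1) := by
    rw [smul_smul]; congr 1; field_simp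
  funext k
  rcases htwo k with rfl | rfl
  · rw [pairConf_left, h1]
    ext1
    · show (Z k).1 = _
      module
    · show (Z k).2 = _
      module
  · rw [pairConf_right ε hij.symm, h1]
    ext1
    · show (Z k).1 = _
      module
    · show (Z k).2 = _
      module

variable [Fintype ι]

lemma sum_two {M : Type*} [AddCommMonoid M] {i j : ι} (hij : i ≠ j) (htwo : ∀ k, k = i ∨ k = j)
    (f : ι → M) : ∑ k, f k = f i + f j := by
  classical
  have : (Finset.univ : Finset ι) = {i, j} := by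
    ext k
    simpa using htwo k
  rw [this, Finset.sum_pair hij]

lemma nf_pairConf (hΦ : AdmissiblePotential Φ) {ε : ℝ} (hε : 0 < ε) {i j : ι} (hij : i ≠ j)
    (htwo : ∀ k, k = i ∨ k = j) (c V q p : Space3) :
    nf Φ ε (pairConf ε i c V q p) i
        = (V + (1 / 2 : ℝ) • p, (1 / 2 : ℝ) • (1 / ε) • force Φ q) ∧
      nf Φ ε (pairConf ε i c V q p) j
        = (V - (1 / 2 : ℝ) • p, -((1 / 2 : ℝ) • (1 / ε) • force Φ q)) := by
  have hji : j ≠ i := hij.symm
  have h1 : (1 / ε) • ((c + (ε / 2) • q) - (c - (ε / 2) • q)) = q := by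
    have : (c + (ε / 2) • q) - (c - (ε / 2) • q) = ε • q := by
      rw [add_sub_sub_cancel, ← add_smul]; congr 1; ring
    rw [this, smul_smul, one_div, inv_mul_cancel₀ hε.ne', one_smul]
  have h2 : (1 / ε) • ((c - (ε / 2) • q) - (c + (ε / 2) • q)) = -q := by
    have h3 : (c - (ε / 2) • q) - (c + (ε / 2) • q) = -((c + (ε / 2) • q) - (c - (ε / 2) • q)) := by
      rw [neg_sub]
    rw [h3, smul_neg, h1]
  constructor
  · unfold nf
    rw [sum_two hij htwo, pairConf_left, pairConf_right ε hji]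
    simp only [sub_self, smul_zero, grad_origin hΦ, zero_add]
    rw [h1]
    ext1
    · rfl
    · simp only [force, smul_smul]
      congr 1
      ring
  · unfold nf
    rw [sum_two hij htwo, pairConf_left, pairConf_right ε hji]
    simp only [sub_self, smul_zero, grad_origin hΦ, add_zero]
    rw [h2, grad_neg hΦ]
    ext1
    · rfl
    · simp only [force, smul_smul, smul_neg, ← neg_smul]
      congr 1
      ring

/-- **A relative solution gives a two-particle solution of Newton's equations at range `ε`.** -/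
theorem hasDerivAt_pairConf (hΦ : AdmissiblePotential Φ) {ε : ℝ} (hε : 0 < ε) {i j : ι}
    (hij : i ≠ j) (htwo : ∀ k, k = i ∨ k = j) {q p : ℝ → Space3} (h : IsRel Φ q p)
    (c V : Space3) (s₀ u : ℝ) :
    HasDerivAt (fun u => pairConf ε i (c + (u - s₀) • V) V (q ((u - s₀) / ε)) (p ((u - s₀) / ε)))
      (nf Φ ε (pairConf ε i (c + (u - s₀) • V) V (q ((u - s₀) / ε)) (p ((u - s₀) / ε)))) u := by
  obtain ⟨hn1, hn2⟩ := nf_pairConf hΦ hε hij htwo (c + (u - s₀) • V) V
    (q ((u - s₀) / ε)) (p ((u - s₀) / ε))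
  have hq := hasDerivAt_rescale h.pos ε s₀ u
  have hp := hasDerivAt_rescale h.vel ε s₀ u
  have hc : HasDerivAt (fun u : ℝ => c + (u - s₀) • V) V u := by
    simpa using (((hasDerivAt_id u).sub_const s₀).smul_const V).const_add c
  rw [hasDerivAt_pi]
  intro k
  rcases htwo k with rfl | rfl
  · rw [hn1]
    simp only [pairConf_left]
    refine HasDerivAt.prodMk ?_ ?_
    · have h1 := hc.add (hq.const_smul (ε / 2))
      have h2 : V + (ε / 2) • (1 / ε) • p ((u - s₀) / ε) = V + (1 / 2 : ℝ) • p ((u - s₀) / ε) := by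
        rw [smul_smul]; congr 2; field_simp
      rw [h2] at h1
      exact h1
    · exact (hp.const_smul (1 / 2 : ℝ)).const_add V
  · rw [hn2]
    simp only [pairConf_right ε hij.symm]
    refine HasDerivAt.prodMk ?_ ?_
    · have h1 := hc.sub (hq.const_smul (ε / 2))
      have h2 : V - (ε / 2) • (1 / ε) • p ((u - s₀) / ε) = V - (1 / 2 : ℝ) • p ((u - s₀) / ε) := by
        rw [smul_smul]; congr 2; field_simp
      rw [h2] at h1
      exact h1
    · exact (hp.const_smul (1 / 2 : ℝ)).const_sub V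

/-- **The two-particle Newton flow at range `ε`**: centre of mass and relative flow. -/
theorem flow_pair (hΦ : AdmissiblePotential Φ) {ε : ℝ} (hε : 0 < ε) {i j : ι} (hij : i ≠ j)
    (htwo : ∀ k, k = i ∨ k = j) {Z : ι → PhasePoint} (hZ : Reg Φ ((Z i).1 - (Z j).1)) (t : ℝ) :
    flow Φ ε t Z =
      pairConf ε i
        ((1 / 2 : ℝ) • ((Z i).1 + (Z j).1) + t • ((1 / 2 : ℝ) • ((Z i).2 + (Z j).2)))
        ((1 / 2 : ℝ) • ((Z i).2 + (Z j).2))
        (relFlow Φ (t / ε) ((1 / ε) • ((Z i).1 - (Z j).1), (Z i).2 - (Z j).2)).1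
        (relFlow Φ (t / ε) ((1 / ε) • ((Z i).1 - (Z j).1), (Z i).2 - (Z j).2)).2 := by
  have hreg : Reg Φ ((1 / ε) • ((Z i).1 - (Z j).1)) := by
    rcases hZ with h | h
    · exact Or.inl (smul_ne_zero (by positivity) h)
    · exact Or.inr h
  have hrel := isRel_relFlow hΦ (z := ((1 / ε) • ((Z i).1 - (Z j).1), (Z i).2 - (Z j).2)) hreg
  have hsol := fun u => hasDerivAt_pairConf hΦ hε hij htwo hrel
    ((1 / 2 : ℝ) • ((Z i).1 + (Z j).1)) ((1 / 2 : ℝ) • ((Z i).2 + (Z j).2)) 0 u
  have h0 : pairConf ε i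
      ((1 / 2 : ℝ) • ((Z i).1 + (Z j).1) + ((0 : ℝ) - 0) • ((1 / 2 : ℝ) • ((Z i).2 + (Z j).2)))
      ((1 / 2 : ℝ) • ((Z i).2 + (Z j).2))
      (relFlow Φ (((0 : ℝ) - 0) / ε) ((1 / ε) • ((Z i).1 - (Z j).1), (Z i).2 - (Z j).2)).1
      (relFlow Φ (((0 : ℝ) - 0) / ε) ((1 / ε) • ((Z i).1 - (Z j).1), (Z i).2 - (Z j).2)).2 = Z := by
    rw [sub_zero, zero_div, relFlow_zero hΦ, zero_smul, add_zero]
    exact (eq_pairConf hε hij htwo Z).symm
  have h := eq_flow_univ hΦ hε hsol (by rw [h0]; exact dom_of_reg htwo hZ) t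
  rw [h0] at h
  rw [← h, sub_zero]



/-! ### Lines through the interaction region -/

/-- Half length (in time) of the free chord. -/
def chord (b g : Space3) : ℝ := Real.sqrt (1 - ‖b‖ ^ 2) / ‖g‖

lemma chord_pos {b g : Space3} (hb : b ∈ impactDisc g) (hg : g ≠ 0) : 0 < chord b g :=
  div_pos (sqrt_pos_of_mem hb) (norm_pos_iff.2 hg)

lemma entrancePoint_eq_chord (b g : Space3) : entrancePoint b g = b - chord b g • g := rfl

/-- A point of the incoming half line is on the trajectory of the entrance point. -/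
lemma line_eq_relFlow (hΦ : AdmissiblePotential Φ) {b g : Space3} (hb : b ∈ impactDisc g)
    (hg : g ≠ 0) {s : ℝ} (hs : s ≤ -chord b g) :
    ((b + s • g, g) : Space3 × Space3) = relFlow Φ (s + chord b g) (inc b g) := by
  rw [relFlow_before hΦ hb hg (by linarith), entrancePoint_eq_chord]
  ext1
  · show b + s • g = b - chord b g • g + (s + chord b g) • g
    module
  · rfl

/-- The relative flow from an incoming line, in terms of the passage. -/
theorem relFlow_line (hΦ : AdmissiblePotential Φ) {b g : Space3} (hb : b ∈ impactDisc g)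
    (hg : g ≠ 0) {s : ℝ} (hs : s ≤ -chord b g) (t : ℝ) :
    relFlow Φ t (b + s • g, g) = relFlow Φ (s + chord b g + t) (inc b g) := by
  rw [line_eq_relFlow hΦ hb hg hs, ← relFlow_add hΦ]


/-- A line which misses the open unit ball is not deflected. -/
theorem relFlow_line_miss (hΦ : AdmissiblePotential Φ) {b g : Space3} (hb : inner ℝ b g = 0)
    (hb1 : 1 ≤ ‖b‖) (s t : ℝ) : relFlow Φ t (b + s • g, g) = (b + (s + t) • g, g) := by
  have h := relFlow_free hΦ (x := b + s • g) (v := g) (a := -|t|) (b := |t|)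
    ⟨by simp, abs_nonneg t⟩ (fun u _ => by
      have h1 : b + s • g + u • g = b + (s + u) • g := by module
      rw [h1, one_le_norm_iff, norm_sq_line, hb]
      have h2 := one_le_norm_iff.1 hb1
      have h3 : 0 ≤ (s + u) ^ 2 * ‖g‖ ^ 2 := by positivity
      linarith) (t := t) ⟨neg_abs_le t, le_abs_self t⟩
  rw [h]
  ext1
  · show b + s • g + t • g = _
    module
  · rfl


end Crest.Agent.R122.Scat818
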