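import Crest.Agent.R122.TwoBody_674

/-!
Row 122, block C (helper674), **Theorem A**: the change of variables from tree parameters
`(root line, node parameters)` to the configuration of all particles of the tree at time `0`.

`Skel Φ ε P T` = configurations of the particles of `P` which come from a valid parameter; `inv` is
the (measurable) left inverse of `lines` on it; `treeMeasure` is the integral identity.
-/

set_option autoImplicit false
set_option synthInstance.maxSize 1024

open MeasureTheory Set Filter Topology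
open Crest.AnalysisR.Kinetic
open scoped ENNReal

noncomputable section

namespace Crest.Agent.R122.Tree674

open Kin796 Kin796.CTree Disc416 Scat818 Flow671 Flux663

variable {Φ : Space3 → ℝ}

/-! ### Measurable versions -/

/-- pre-collisional velocities, measurable version -/
def preM (Φ : Space3 → ℝ) (z : Space3 × NodeP) : Space3 × Space3 :=
  ((inM Φ 0 ((0, z.1), z.2)).1.2, (inM Φ 0 ((0, z.1), z.2)).2.2)

/-- entrance time, measurable version -/
def sM (Φ : Space3 → ℝ) (ε : ℝ) (z : Space3 × NodeP) : ℝ :=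
  (NS Φ).indicator (fun z => Tree674.sin Φ ε z.1 z.2) z

theorem measurable_preM (hΦ : AdmissiblePotential Φ) : Measurable (preM Φ) := by
  have h : Measurable fun z : Space3 × NodeP => inM Φ 0 ((0, z.1), z.2) :=
    (measurable_inM hΦ 0).comp ((measurable_const.prodMk measurable_fst).prodMk measurable_snd)
  exact h.fst.snd.prodMk h.snd.snd

theorem measurable_sM (hΦ : AdmissiblePotential Φ) (ε : ℝ) : Measurable (sM Φ ε) :=
  measurable_sin hΦ ε

theorem preM_of_adm {z : Space3 × NodeP} (h : Adm1 Φ z.1 z.2) : preM Φ z = preV Φ z.1 z.2 := by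
  unfold preM
  rw [inM_of_adm (z := ((0, z.1), z.2)) h]
  rfl

theorem sM_of_adm {ε : ℝ} {z : Space3 × NodeP} (h : Adm1 Φ z.1 z.2) :
    sM Φ ε z = Tree674.sin Φ ε z.1 z.2 := by
  unfold sM
  rw [indicator_of_mem]
  exact h

/-! ### Validity -/

theorem valid_leaf {ε T : ℝ} {v : Space3} {p : Par leaf} : Valid Φ ε leaf T v p :=
  ⟨trivial, trivial⟩

theorem valid_node_iff {ε T : ℝ} {l r : CTree} {v : Space3} {p : Par (node l r)} :
    Valid Φ ε (node l r) T v p ↔ (Adm1 Φ v p.1 ∧ p.1.1 < T ∧ 0 < Tree674.sin Φ ε v p.1) ∧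
      Valid Φ ε l (Tree674.sin Φ ε v p.1) (preV Φ v p.1).1 p.2.1 ∧
      Valid Φ ε r (Tree674.sin Φ ε v p.1) (preV Φ v p.1).2 p.2.2 := by
  simp only [Valid, Adm, Tree674.Ord]
  tauto

/-- the last collision of the root is before `T` -/
def TopLt : ∀ P : CTree, ℝ → Par P → Prop
  | leaf => fun _ _ => True
  | node _ _ => fun T p => p.1.1 < T

theorem valid_iff_top {ε T T' : ℝ} (hT : T' ≤ T) : ∀ {P : CTree} {v : Space3} {p : Par P},
    Valid Φ ε P T' v p ↔ Valid Φ ε P T v p ∧ TopLt P T' p
  | leaf, v, p => by simp [valid_leaf, TopLt]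
  | node l r, v, p => by
      rw [valid_node_iff, valid_node_iff]
      have h : TopLt (node l r) T' p ↔ p.1.1 < T' := Iff.rfl
      rw [h]
      constructor
      · rintro ⟨⟨h1, h2, h3⟩, h4⟩
        exact ⟨⟨⟨h1, h2.trans_le hT, h3⟩, h4⟩, h2⟩
      · rintro ⟨⟨⟨h1, h2, h3⟩, h4⟩, h5⟩
        exact ⟨⟨h1, h5, h3⟩, h4⟩

theorem measurableSet_topLt : ∀ P : CTree, MeasurableSet {q : ℝ × Par P | TopLt P q.1 q.2}
  | leaf => by
      have : {q : ℝ × Par leaf | TopLt leaf q.1 q.2} = univ := by
        ext q; simp [TopLt]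
      rw [this]; exact MeasurableSet.univ
  | node l r => by
      have h : Measurable fun q : ℝ × Par (node l r) => q.2.1.1 := by
        have h1 : Measurable fun q : ℝ × Par (node l r) => q.2 := measurable_snd
        have h2 : Measurable fun p : Par (node l r) => p.1 :=
          (measurable_fst : Measurable (Prod.fst : NodeP × (Par l × Par r) → NodeP))
        exact (h2.comp h1).fst
      exact measurableSet_lt h measurable_fst

/-! ### The parameters of a node -/

theorem measurable_par1 (l r : CTree) : Measurable fun p : Par (node l r) => p.1 :=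
  (measurable_fst : Measurable (Prod.fst : NodeP × (Par l × Par r) → NodeP))

theorem measurable_parL (l r : CTree) : Measurable fun p : Par (node l r) => p.2.1 :=
  ((measurable_fst.comp measurable_snd :
    Measurable (fun p : NodeP × (Par l × Par r) => p.2.1)))

theorem measurable_parR (l r : CTree) : Measurable fun p : Par (node l r) => p.2.2 :=
  ((measurable_snd.comp measurable_snd :
    Measurable (fun p : NodeP × (Par l × Par r) => p.2.2)))

/-- the set of valid parameters, jointly in the final time -/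
theorem measurableSet_valid3 (hΦ : AdmissiblePotential Φ) (ε : ℝ) : ∀ P : CTree,
    MeasurableSet {q : ℝ × Space3 × Par P | Valid Φ ε P q.1 q.2.1 q.2.2}
  | leaf => by
      have : {q : ℝ × Space3 × Par leaf | Valid Φ ε leaf q.1 q.2.1 q.2.2} = univ := by
        ext q; simp [valid_leaf]
      rw [this]; exact MeasurableSet.univ
  | node l r => by
      have hv : Measurable fun q : ℝ × Space3 × Par (node l r) => q.2.1 := measurable_snd.fst
      have hp : Measurable fun q : ℝ × Space3 × Par (node l r) => q.2.2 := measurable_snd.snd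
      have ha : Measurable fun q : ℝ × Space3 × Par (node l r) => q.2.2.1 :=
        (measurable_par1 l r).comp hp
      have hz : Measurable fun q : ℝ × Space3 × Par (node l r) => (q.2.1, q.2.2.1) :=
        hv.prodMk ha
      have hs := (measurable_sM hΦ ε).comp hz
      have hpre := (measurable_preM hΦ).comp hz
      have hl := (measurable_parL l r).comp hp
      have hr := (measurable_parR l r).comp hp
      have e : {q : ℝ × Space3 × Par (node l r) | Valid Φ ε (node l r) q.1 q.2.1 q.2.2} =
          ({q | (q.2.1, q.2.2.1) ∈ NS Φ} ∩ ({q | q.2.2.1.1 < q.1} ∩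
            {q | 0 < sM Φ ε (q.2.1, q.2.2.1)})) ∩
          ((fun q => (sM Φ ε (q.2.1, q.2.2.1), (preM Φ (q.2.1, q.2.2.1)).1, q.2.2.2.1)) ⁻¹'
              {q : ℝ × Space3 × Par l | Valid Φ ε l q.1 q.2.1 q.2.2} ∩
           (fun q => (sM Φ ε (q.2.1, q.2.2.1), (preM Φ (q.2.1, q.2.2.1)).2, q.2.2.2.2)) ⁻¹'
              {q : ℝ × Space3 × Par r | Valid Φ ε r q.1 q.2.1 q.2.2}) := by
        ext q
        have h1 := valid_node_iff (Φ := Φ) (ε := ε) (T := q.1) (v := q.2.1) (p := q.2.2)
        simp only [mem_ofPred_eq, mem_inter_iff, mem_preimage]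
        rw [h1]
        constructor
        · rintro ⟨⟨h2, h3, h4⟩, h5, h6⟩
          have e1 : sM Φ ε (q.2.1, q.2.2.1) = _ := sM_of_adm (z := (q.2.1, q.2.2.1)) h2
          have e2 : preM Φ (q.2.1, q.2.2.1) = _ := preM_of_adm (z := (q.2.1, q.2.2.1)) h2
          rw [e1, e2]
          exact ⟨⟨h2, h3, h4⟩, h5, h6⟩
        · rintro ⟨⟨h2, h3, h4⟩, h5, h6⟩
          have h2' : Adm1 Φ q.2.1 q.2.2.1 := h2
          have e1 : sM Φ ε (q.2.1, q.2.2.1) = _ := sM_of_adm (z := (q.2.1, q.2.2.1)) h2'
          have e2 : preM Φ (q.2.1, q.2.2.1) = _ := preM_of_adm (z := (q.2.1, q.2.2.1)) h2'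
          rw [e1] at h4 h5 h6
          rw [e2] at h5 h6
          exact ⟨⟨h2', h3, h4⟩, h5, h6⟩
      rw [e]
      refine ((hz (measurableSet_NS hΦ)).inter ((measurableSet_lt ha.fst measurable_fst).inter
        (measurableSet_lt measurable_const hs))).inter (MeasurableSet.inter ?_ ?_)
      · exact (hs.prodMk (hpre.fst.prodMk hl)) (measurableSet_valid3 hΦ ε l)
      · exact (hs.prodMk (hpre.snd.prodMk hr)) (measurableSet_valid3 hΦ ε r)

theorem measurableSet_valid (hΦ : AdmissiblePotential Φ) (ε : ℝ) (P : CTree) (T : ℝ) :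
    MeasurableSet {z : PhasePoint × Par P | Valid Φ ε P T z.1.2 z.2} :=
  (measurable_const.prodMk (measurable_fst.snd.prodMk measurable_snd))
    (measurableSet_valid3 hΦ ε P)

/-! ### Lines and weight -/

/-- measurable version of `lines` -/
def linesM (Φ : Space3 → ℝ) (ε : ℝ) : ∀ P : CTree, PhasePoint → Par P → (Idx P → PhasePoint)
  | leaf => fun ℓ _ _ => ℓ
  | node l r => fun ℓ p => Sum.elim (linesM Φ ε l (inM Φ ε (ℓ, p.1)).1 p.2.1)
      (linesM Φ ε r (inM Φ ε (ℓ, p.1)).2 p.2.2)

/-- measurable version of `wt` -/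
def wtM (Φ : Space3 → ℝ) : ∀ P : CTree, Space3 → Par P → ℝ≥0∞
  | leaf => fun _ _ => 1
  | node l r => fun v p => ENNReal.ofReal ‖v - p.1.2.1‖ *
      (wtM Φ l (preM Φ (v, p.1)).1 p.2.1 * wtM Φ r (preM Φ (v, p.1)).2 p.2.2)

theorem linesM_of_adm (ε : ℝ) : ∀ {P : CTree} {ℓ : PhasePoint} {p : Par P}, Adm Φ P ℓ.2 p →
    linesM Φ ε P ℓ p = lines Φ ε P ℓ p
  | leaf, _, _, _ => rfl
  | node l r, ℓ, p, h => by
      have h1 : Adm1 Φ ℓ.2 p.1 := h.1
      have e : inM Φ ε (ℓ, p.1) = inMap Φ ε ℓ p.1 := inM_of_adm (z := (ℓ, p.1)) h1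
      show Sum.elim (linesM Φ ε l (inM Φ ε (ℓ, p.1)).1 p.2.1)
        (linesM Φ ε r (inM Φ ε (ℓ, p.1)).2 p.2.2) = Sum.elim (lines Φ ε l (inMap Φ ε ℓ p.1).1 p.2.1)
        (lines Φ ε r (inMap Φ ε ℓ p.1).2 p.2.2)
      rw [e, linesM_of_adm ε (P := l) (ℓ := (inMap Φ ε ℓ p.1).1) h.2.1,
        linesM_of_adm ε (P := r) (ℓ := (inMap Φ ε ℓ p.1).2) h.2.2]

theorem wtM_of_adm : ∀ {P : CTree} {v : Space3} {p : Par P}, Adm Φ P v p →
    wtM Φ P v p = wt Φ P v p
  | leaf, _, _, _ => rfl
  | node l r, v, p, h => by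
      have h1 : Adm1 Φ v p.1 := h.1
      have e : preM Φ (v, p.1) = preV Φ v p.1 := preM_of_adm (z := (v, p.1)) h1
      show ENNReal.ofReal ‖v - p.1.2.1‖ *
        (wtM Φ l (preM Φ (v, p.1)).1 p.2.1 * wtM Φ r (preM Φ (v, p.1)).2 p.2.2) =
        ENNReal.ofReal ‖v - p.1.2.1‖ *
        (wt Φ l (preV Φ v p.1).1 p.2.1 * wt Φ r (preV Φ v p.1).2 p.2.2)
      rw [e, wtM_of_adm (P := l) h.2.1, wtM_of_adm (P := r) h.2.2]

theorem measurable_linesM (hΦ : AdmissiblePotential Φ) (ε : ℝ) : ∀ P : CTree,
    Measurable fun z : PhasePoint × Par P => linesM Φ ε P z.1 z.2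
  | leaf => measurable_pi_iff.2 fun _ => measurable_fst
  | node l r => by
      have hp : Measurable fun z : PhasePoint × Par (node l r) => z.2 := measurable_snd
      have hz : Measurable fun z : PhasePoint × Par (node l r) => (z.1, z.2.1) :=
        measurable_fst.prodMk ((measurable_par1 l r).comp hp)
      have hi := (measurable_inM hΦ ε).comp hz
      have hl := (measurable_linesM hΦ ε l).comp (hi.fst.prodMk ((measurable_parL l r).comp hp))
      have hr := (measurable_linesM hΦ ε r).comp (hi.snd.prodMk ((measurable_parR l r).comp hp))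
      refine measurable_pi_iff.2 fun i => ?_
      cases i with
      | inl i => exact (measurable_pi_apply i).comp hl
      | inr i => exact (measurable_pi_apply i).comp hr

theorem measurable_wtM (hΦ : AdmissiblePotential Φ) : ∀ P : CTree,
    Measurable fun z : Space3 × Par P => wtM Φ P z.1 z.2
  | leaf => measurable_const
  | node l r => by
      have hp : Measurable fun z : Space3 × Par (node l r) => z.2 := measurable_snd
      have ha : Measurable fun z : Space3 × Par (node l r) => z.2.1 :=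
        (measurable_par1 l r).comp hp
      have hz : Measurable fun z : Space3 × Par (node l r) => (z.1, z.2.1) :=
        measurable_fst.prodMk ha
      have hi := (measurable_preM hΦ).comp hz
      have hl := (measurable_wtM hΦ l).comp (hi.fst.prodMk ((measurable_parL l r).comp hp))
      have hr := (measurable_wtM hΦ r).comp (hi.snd.prodMk ((measurable_parR l r).comp hp))
      have hn : Measurable fun z : Space3 × Par (node l r) => ENNReal.ofReal ‖z.1 - z.2.1.2.1‖ :=
        (measurable_fst.sub ha.snd.fst).norm.ennreal_ofReal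
      exact hn.mul (hl.mul hr)


theorem measurable_wt (hΦ : AdmissiblePotential Φ) (ε : ℝ) (P : CTree) (T : ℝ) :
    Measurable ({z : PhasePoint × Par P | Valid Φ ε P T z.1.2 z.2}.indicator
      fun z => wt Φ P z.1.2 z.2) := by
  have h0 : Measurable fun z : PhasePoint × Par P => wtM Φ P z.1.2 z.2 :=
    (measurable_wtM hΦ P).comp (measurable_fst.snd.prodMk measurable_snd)
  have h := h0.indicator (measurableSet_valid hΦ ε P T)
  convert h using 1
  funext z
  by_cases hz : Valid Φ ε P T z.1.2 z.2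
  · rw [indicator_of_mem (show z ∈ {z : PhasePoint × Par P | Valid Φ ε P T z.1.2 z.2} from hz),
      indicator_of_mem (show z ∈ {z : PhasePoint × Par P | Valid Φ ε P T z.1.2 z.2} from hz),
      wtM_of_adm hz.1]
  · rw [indicator_of_notMem (show z ∉ {z : PhasePoint × Par P | Valid Φ ε P T z.1.2 z.2} from hz),
      indicator_of_notMem (show z ∉ {z : PhasePoint × Par P | Valid Φ ε P T z.1.2 z.2} from hz)]

/-! ### The inverse -/

/-- the parameters of a configuration (all collisions before `T`) -/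
def inv (Φ : Space3 → ℝ) (ε : ℝ) : ∀ P : CTree, ℝ → (Idx P → PhasePoint) → PhasePoint × Par P
  | leaf => fun _ V => (V (), ())
  | node l r => fun T V =>
      ((outD Φ ε T ((inv Φ ε l T (fun i => V (Sum.inl i))).1,
          (inv Φ ε r T (fun i => V (Sum.inr i))).1)).1,
        ((outD Φ ε T ((inv Φ ε l T (fun i => V (Sum.inl i))).1,
          (inv Φ ε r T (fun i => V (Sum.inr i))).1)).2,
          (inv Φ ε l T (fun i => V (Sum.inl i))).2, (inv Φ ε r T (fun i => V (Sum.inr i))).2))

theorem measurable_inv (hΦ : AdmissiblePotential Φ) {ε : ℝ} (hε : 0 < ε) : ∀ (P : CTree) (T : ℝ),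
    Measurable (inv Φ ε P T)
  | leaf, T => (measurable_pi_apply ()).prodMk measurable_const
  | node l r, T => by
      have hL : Measurable fun V : Idx (node l r) → PhasePoint =>
          (fun i => V (Sum.inl i) : Idx l → PhasePoint) :=
        measurable_pi_iff.2 fun i => measurable_pi_apply (Sum.inl i)
      have hR : Measurable fun V : Idx (node l r) → PhasePoint =>
          (fun i => V (Sum.inr i) : Idx r → PhasePoint) :=
        measurable_pi_iff.2 fun i => measurable_pi_apply (Sum.inr i)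
      have hl := (measurable_inv hΦ hε l T).comp hL
      have hr := (measurable_inv hΦ hε r T).comp hR
      have ho := (measurable_outD hΦ hε T).comp (hl.fst.prodMk hr.fst)
      have h2 : Measurable fun V : Idx (node l r) → PhasePoint =>
          ((outD Φ ε T ((inv Φ ε l T (fun i => V (Sum.inl i))).1,
            (inv Φ ε r T (fun i => V (Sum.inr i))).1)).2,
            ((inv Φ ε l T (fun i => V (Sum.inl i))).2, (inv Φ ε r T (fun i => V (Sum.inr i))).2)) :=
        ho.snd.prodMk (hl.snd.prodMk hr.snd)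
      exact ho.fst.prodMk h2

/-- **`inv` is a left inverse of `lines`** -/
theorem inv_lines (hΦ : AdmissiblePotential Φ) {ε : ℝ} (hε : 0 < ε) : ∀ {P : CTree} {T T' : ℝ}
    {ℓ : PhasePoint} {p : Par P}, Valid Φ ε P T' ℓ.2 p → T' ≤ T →
    inv Φ ε P T (lines Φ ε P ℓ p) = (ℓ, p)
  | leaf, _, _, _, _, _, _ => rfl
  | node l r, T, T', ℓ, p, h, hT => by
      obtain ⟨⟨h1, h2, h3⟩, h4, h5⟩ := valid_node_iff.1 h
      have hs : Tree674.sin Φ ε ℓ.2 p.1 ≤ T := (sin_le Φ hε.le ℓ.2 p.1).trans (h2.le.trans hT)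
      have e1 : inv Φ ε l T (fun i => lines Φ ε (node l r) ℓ p (Sum.inl i)) =
          ((inMap Φ ε ℓ p.1).1, p.2.1) :=
        inv_lines hΦ hε (P := l) (ℓ := (inMap Φ ε ℓ p.1).1) h4 hs
      have e2 : inv Φ ε r T (fun i => lines Φ ε (node l r) ℓ p (Sum.inr i)) =
          ((inMap Φ ε ℓ p.1).2, p.2.2) :=
        inv_lines hΦ hε (P := r) (ℓ := (inMap Φ ε ℓ p.1).2) h5 hs
      have e3 : outD Φ ε T (inMap Φ ε ℓ p.1) = (ℓ, p.1) :=
        outD_inMap hΦ hε (z := (ℓ, p.1)) ⟨h1, h2.trans_le hT, h3⟩
      simp only [inv, e1, e2]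
      rw [e3]
      rfl

/-- configurations following the tree -/
def Skel (Φ : Space3 → ℝ) (ε : ℝ) (P : CTree) (T : ℝ) : Set (Idx P → PhasePoint) :=
  {V | ∃ (ℓ : PhasePoint) (p : Par P), Valid Φ ε P T ℓ.2 p ∧ lines Φ ε P ℓ p = V}

theorem mem_skel_lines {ε : ℝ} {P : CTree} {T : ℝ} {ℓ : PhasePoint} {p : Par P}
    (h : Valid Φ ε P T ℓ.2 p) : lines Φ ε P ℓ p ∈ Skel Φ ε P T := ⟨ℓ, p, h, rfl⟩

theorem lines_inv (hΦ : AdmissiblePotential Φ) {ε : ℝ} (hε : 0 < ε) {P : CTree} {T : ℝ}
    {V : Idx P → PhasePoint} (hV : V ∈ Skel Φ ε P T) :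
    Valid Φ ε P T (inv Φ ε P T V).1.2 (inv Φ ε P T V).2 ∧
      lines Φ ε P (inv Φ ε P T V).1 (inv Φ ε P T V).2 = V := by
  obtain ⟨ℓ, p, h1, rfl⟩ := hV
  rw [inv_lines hΦ hε h1 le_rfl]
  exact ⟨h1, rfl⟩


theorem skel_leaf (ε T : ℝ) : Skel Φ ε leaf T = univ := by
  ext V
  simp only [mem_univ, iff_true]
  exact ⟨V (), (), valid_leaf, funext fun i => by cases i; rfl⟩

/-- **Recursion for the skeletons** -/
theorem mem_skel_node (hΦ : AdmissiblePotential Φ) {ε : ℝ} (hε : 0 < ε) {l r : CTree} {T : ℝ}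
    {V1 : Idx l → PhasePoint} {V2 : Idx r → PhasePoint} :
    (Sum.elim V1 V2 : Idx (node l r) → PhasePoint) ∈ Skel Φ ε (node l r) T ↔
      (V1 ∈ Skel Φ ε l T ∧ V2 ∈ Skel Φ ε r T) ∧
      outD Φ ε T ((inv Φ ε l T V1).1, (inv Φ ε r T V2).1) ∈ Vset Φ ε T ∧
      TopLt l (sinM Φ ε (outD Φ ε T ((inv Φ ε l T V1).1, (inv Φ ε r T V2).1))) (inv Φ ε l T V1).2 ∧
      TopLt r (sinM Φ ε (outD Φ ε T ((inv Φ ε l T V1).1, (inv Φ ε r T V2).1)))
        (inv Φ ε r T V2).2 := by
  constructor
  · rintro ⟨ℓ, p, hV, hl⟩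
    obtain ⟨⟨h1, h2, h3⟩, h4, h5⟩ := valid_node_iff.1 hV
    have hs : Tree674.sin Φ ε ℓ.2 p.1 ≤ T := (sin_le Φ hε.le ℓ.2 p.1).trans h2.le
    have e1 : lines Φ ε l (inMap Φ ε ℓ p.1).1 p.2.1 = V1 :=
      funext fun i => congrFun hl (Sum.inl i)
    have e2 : lines Φ ε r (inMap Φ ε ℓ p.1).2 p.2.2 = V2 :=
      funext fun i => congrFun hl (Sum.inr i)
    have i1 : inv Φ ε l T V1 = ((inMap Φ ε ℓ p.1).1, p.2.1) := by
      rw [← e1]; exact inv_lines hΦ hε (P := l) (ℓ := (inMap Φ ε ℓ p.1).1) h4 hs
    have i2 : inv Φ ε r T V2 = ((inMap Φ ε ℓ p.1).2, p.2.2) := by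
      rw [← e2]; exact inv_lines hΦ hε (P := r) (ℓ := (inMap Φ ε ℓ p.1).2) h5 hs
    have hz : ((ℓ, p.1) : PhasePoint × NodeP) ∈ Vset Φ ε T := ⟨h1, h2, h3⟩
    have e3 : outD Φ ε T ((inMap Φ ε ℓ p.1).1, (inMap Φ ε ℓ p.1).2) = (ℓ, p.1) :=
      outD_inMap hΦ hε (z := (ℓ, p.1)) hz
    obtain ⟨h4a, h4b⟩ := (valid_iff_top hs (P := l)).1 h4
    obtain ⟨h5a, h5b⟩ := (valid_iff_top hs (P := r)).1 h5
    rw [i1, i2]
    simp only [e3]
    rw [sinM_of_adm (z := (ℓ, p.1)) h1]
    exact ⟨⟨⟨(inMap Φ ε ℓ p.1).1, p.2.1, h4a, e1⟩, ⟨(inMap Φ ε ℓ p.1).2, p.2.2, h5a, e2⟩⟩,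
      hz, h4b, h5b⟩
  · rintro ⟨⟨h1, h2⟩, h3, h4, h5⟩
    obtain ⟨a1, a2⟩ := lines_inv hΦ hε h1
    obtain ⟨b1, b2⟩ := lines_inv hΦ hε h2
    set A := inv Φ ε l T V1 with hA
    set B := inv Φ ε r T V2 with hB
    set O := outD Φ ε T (A.1, B.1) with hO
    have hin : inMap Φ ε O.1 O.2 = (A.1, B.1) := inMap_outD hΦ hε h3
    have hs : Tree674.sin Φ ε O.1.2 O.2 ≤ T := (sin_le Φ hε.le O.1.2 O.2).trans h3.2.1.le
    rw [sinM_of_adm h3.1] at h4 h5
    have c1 : Valid Φ ε l (Tree674.sin Φ ε O.1.2 O.2) A.1.2 A.2 :=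
      (valid_iff_top hs (P := l)).2 ⟨a1, h4⟩
    have c2 : Valid Φ ε r (Tree674.sin Φ ε O.1.2 O.2) B.1.2 B.2 :=
      (valid_iff_top hs (P := r)).2 ⟨b1, h5⟩
    have d1 : (preV Φ O.1.2 O.2).1 = A.1.2 := by
      have : (inMap Φ ε O.1 O.2).1.2 = A.1.2 := by rw [hin]
      exact this
    have d2 : (preV Φ O.1.2 O.2).2 = B.1.2 := by
      have : (inMap Φ ε O.1 O.2).2.2 = B.1.2 := by rw [hin]
      exact this
    refine ⟨O.1, (O.2, A.2, B.2), ?_, ?_⟩
    · rw [valid_node_iff]
      refine ⟨⟨h3.1, h3.2.1, h3.2.2⟩, ?_, ?_⟩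
      · show Valid Φ ε l (Tree674.sin Φ ε O.1.2 O.2) (preV Φ O.1.2 O.2).1 A.2
        rw [d1]; exact c1
      · show Valid Φ ε r (Tree674.sin Φ ε O.1.2 O.2) (preV Φ O.1.2 O.2).2 B.2
        rw [d2]; exact c2
    · show Sum.elim (lines Φ ε l (inMap Φ ε O.1 O.2).1 A.2)
        (lines Φ ε r (inMap Φ ε O.1 O.2).2 B.2) = Sum.elim V1 V2
      rw [hin, a2, b2]

theorem measurableSet_skel (hΦ : AdmissiblePotential Φ) {ε : ℝ} (hε : 0 < ε) :
    ∀ (P : CTree) (T : ℝ), MeasurableSet (Skel Φ ε P T)
  | leaf, T => by rw [skel_leaf]; exact MeasurableSet.univ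
  | node l r, T => by
      have hL : Measurable fun V : Idx (node l r) → PhasePoint =>
          (fun i => V (Sum.inl i) : Idx l → PhasePoint) :=
        measurable_pi_iff.2 fun i => measurable_pi_apply (Sum.inl i)
      have hR : Measurable fun V : Idx (node l r) → PhasePoint =>
          (fun i => V (Sum.inr i) : Idx r → PhasePoint) :=
        measurable_pi_iff.2 fun i => measurable_pi_apply (Sum.inr i)
      have hl := (measurable_inv hΦ hε l T).comp hL
      have hr := (measurable_inv hΦ hε r T).comp hR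
      have ho := (measurable_outD hΦ hε T).comp (hl.fst.prodMk hr.fst)
      have hs := (measurable_sinM hΦ ε).comp ho
      have e : Skel Φ ε (node l r) T =
          (((fun V : Idx (node l r) → PhasePoint => (fun i => V (Sum.inl i) : Idx l → PhasePoint)) ⁻¹'
              Skel Φ ε l T) ∩
            ((fun V : Idx (node l r) → PhasePoint => (fun i => V (Sum.inr i) : Idx r → PhasePoint)) ⁻¹'
              Skel Φ ε r T)) ∩
          ((fun V : Idx (node l r) → PhasePoint => outD Φ ε T
              ((inv Φ ε l T (fun i => V (Sum.inl i))).1, (inv Φ ε r T (fun i => V (Sum.inr i))).1)) ⁻¹'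
              Vset Φ ε T ∩
            ((fun V : Idx (node l r) → PhasePoint => (sinM Φ ε (outD Φ ε T
              ((inv Φ ε l T (fun i => V (Sum.inl i))).1, (inv Φ ε r T (fun i => V (Sum.inr i))).1)),
              (inv Φ ε l T (fun i => V (Sum.inl i))).2)) ⁻¹' {q : ℝ × Par l | TopLt l q.1 q.2} ∩
             (fun V : Idx (node l r) → PhasePoint => (sinM Φ ε (outD Φ ε T
              ((inv Φ ε l T (fun i => V (Sum.inl i))).1, (inv Φ ε r T (fun i => V (Sum.inr i))).1)),
              (inv Φ ε r T (fun i => V (Sum.inr i))).2)) ⁻¹' {q : ℝ × Par r | TopLt r q.1 q.2})) := by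
        ext V
        have hV : V = (Sum.elim (fun i => V (Sum.inl i)) (fun i => V (Sum.inr i)) :
            Idx (node l r) → PhasePoint) := by
          funext i
          cases i with
          | inl i => rfl
          | inr i => rfl
        have h := mem_skel_node hΦ hε (l := l) (r := r) (T := T)
          (V1 := fun i => V (Sum.inl i)) (V2 := fun i => V (Sum.inr i))
        rw [← hV] at h
        exact h
      rw [e]
      refine ((hL (measurableSet_skel hΦ hε l T)).inter (hR (measurableSet_skel hΦ hε r T))).inter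
        ((ho (measurableSet_Vset hΦ ε T)).inter (MeasurableSet.inter ?_ ?_))
      · exact (hs.prodMk hl.snd) (measurableSet_topLt l)
      · exact (hs.prodMk hr.snd) (measurableSet_topLt r)

/-! ### The change of variables -/

/-- reordering of a fourfold integral -/
theorem lintegral_four {α β γ δ : Type*} [MeasurableSpace α] [MeasurableSpace β]
    [MeasurableSpace γ] [MeasurableSpace δ] (μ : Measure α) (ν : Measure β) (ρ : Measure γ)
    (σ : Measure δ) [SFinite μ] [SFinite ν] [SFinite ρ] [SFinite σ]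
    {L : (α × β) × (γ × δ) → ℝ≥0∞} (hL : Measurable L) :
    ∫⁻ q, ∫⁻ y, L (q, y) ∂(ρ.prod σ) ∂(μ.prod ν) =
      ∫⁻ z1, ∫⁻ z2, L ((z1.1, z2.1), (z1.2, z2.2)) ∂(ν.prod σ) ∂(μ.prod ρ) := by
  have m1 : Measurable fun q : α × β => ∫⁻ y, L (q, y) ∂(ρ.prod σ) := hL.lintegral_prod_right'
  have hL' : Measurable fun z : (α × γ) × (β × δ) => L ((z.1.1, z.2.1), (z.1.2, z.2.2)) :=
    hL.comp ((measurable_fst.fst.prodMk measurable_snd.fst).prodMk
      (measurable_fst.snd.prodMk measurable_snd.snd))
  have m2 : Measurable fun z1 : α × γ =>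
      ∫⁻ z2, L ((z1.1, z2.1), (z1.2, z2.2)) ∂(ν.prod σ) := hL'.lintegral_prod_right'
  rw [lintegral_prod _ m1.aemeasurable, lintegral_prod _ m2.aemeasurable]
  refine lintegral_congr fun a => ?_
  -- left: ∫ b ∫ (c,d);  right: ∫ c ∫ (b,d)
  have e1 : ∀ b, ∫⁻ y, L ((a, b), y) ∂(ρ.prod σ) = ∫⁻ c, ∫⁻ d, L ((a, b), (c, d)) ∂σ ∂ρ := by
    intro b
    exact lintegral_prod _ (hL.comp (measurable_const.prodMk measurable_id)).aemeasurable
  have e2 : ∀ c, ∫⁻ z2, L ((a, z2.1), (c, z2.2)) ∂(ν.prod σ) =
      ∫⁻ b, ∫⁻ d, L ((a, b), (c, d)) ∂σ ∂ν := by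
    intro c
    have hm : Measurable fun z2 : β × δ => L ((a, z2.1), (c, z2.2)) :=
      hL.comp ((measurable_const.prodMk measurable_fst).prodMk
        (measurable_const.prodMk measurable_snd))
    exact lintegral_prod _ hm.aemeasurable
  simp only [e1, e2]
  refine lintegral_lintegral_swap ?_
  have hm : Measurable fun z : (β × γ) × δ => L ((a, z.1.1), (z.1.2, z.2)) :=
    hL.comp ((measurable_const.prodMk measurable_fst.fst).prodMk
      (measurable_fst.snd.prodMk measurable_snd))
  exact (hm.lintegral_prod_right' : Measurable fun z : β × γ =>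
    ∫⁻ d, L ((a, z.1), (z.2, d)) ∂σ).aemeasurable

/-- gluing of two configurations -/
def glue (l r : CTree) (V1 : Idx l → PhasePoint) (V2 : Idx r → PhasePoint) :
    Idx (node l r) → PhasePoint := Sum.elim V1 V2

/-- the volume of the configurations of a node -/
theorem lintegral_idx_node (l r : CTree) {G : (Idx (node l r) → PhasePoint) → ℝ≥0∞}
    (hG : Measurable G) :
    ∫⁻ V : Idx (node l r) → PhasePoint, G V =
      ∫⁻ V1 : Idx l → PhasePoint, ∫⁻ V2 : Idx r → PhasePoint, G (glue l r V1 V2) := by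
  have h := (volume_measurePreserving_sumPiEquivProdPi_symm
    (fun _ : Idx l ⊕ Idx r => PhasePoint))
  have h2 : ∫⁻ V : Idx (node l r) → PhasePoint, G V =
      ∫⁻ W : (Idx l → PhasePoint) × (Idx r → PhasePoint),
        G ((MeasurableEquiv.sumPiEquivProdPi (fun _ : Idx l ⊕ Idx r => PhasePoint)).symm W) :=
    (h.lintegral_comp hG).symm
  have e : ∀ W : (Idx l → PhasePoint) × (Idx r → PhasePoint),
      ((MeasurableEquiv.sumPiEquivProdPi (fun _ : Idx l ⊕ Idx r => PhasePoint)).symm W :
        Idx (node l r) → PhasePoint) = glue l r W.1 W.2 := by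
    intro W
    funext i
    cases i with
    | inl i => rfl
    | inr i => rfl
  rw [h2]
  simp only [e]
  have hm : Measurable fun W : (Idx l → PhasePoint) × (Idx r → PhasePoint) =>
      G (glue l r W.1 W.2) := by
    refine hG.comp (measurable_pi_iff.2 fun i => ?_)
    cases i with
    | inl i => exact (measurable_pi_apply i).comp measurable_fst
    | inr i => exact (measurable_pi_apply i).comp measurable_snd
  rw [Measure.volume_eq_prod, lintegral_prod _ hm.aemeasurable]

theorem measurable_glue (l r : CTree) :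
    Measurable fun W : (Idx l → PhasePoint) × (Idx r → PhasePoint) => glue l r W.1 W.2 := by
  refine measurable_pi_iff.2 fun i => ?_
  cases i with
  | inl i => exact (measurable_pi_apply i).comp measurable_fst
  | inr i => exact (measurable_pi_apply i).comp measurable_snd

theorem measurable_parMk (l r : CTree) :
    Measurable fun q : NodeP × (Par l × Par r) => (q : Par (node l r)) := measurable_id

/-- restriction of a function to the valid parameters, with the weight -/
def vw (Φ : Space3 → ℝ) (ε : ℝ) (P : CTree) (T : ℝ) (z : PhasePoint × Par P) : ℝ≥0∞ :=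
  {z : PhasePoint × Par P | Valid Φ ε P T z.1.2 z.2}.indicator (fun z => wt Φ P z.1.2 z.2) z

theorem measurable_vw (hΦ : AdmissiblePotential Φ) (ε : ℝ) (P : CTree) (T : ℝ) :
    Measurable (vw Φ ε P T) := measurable_wt hΦ ε P T

theorem vw_of_valid {ε : ℝ} {P : CTree} {T : ℝ} {z : PhasePoint × Par P}
    (h : Valid Φ ε P T z.1.2 z.2) : vw Φ ε P T z = wt Φ P z.1.2 z.2 :=
  indicator_of_mem (show z ∈ {z : PhasePoint × Par P | Valid Φ ε P T z.1.2 z.2} from h) _

theorem vw_of_not_valid {ε : ℝ} {P : CTree} {T : ℝ} {z : PhasePoint × Par P}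
    (h : ¬ Valid Φ ε P T z.1.2 z.2) : vw Φ ε P T z = 0 :=
  indicator_of_notMem (show z ∉ {z : PhasePoint × Par P | Valid Φ ε P T z.1.2 z.2} from h) _

/-- indicator of `TopLt` -/
def topI (P : CTree) (q : ℝ × Par P) : ℝ≥0∞ := {q : ℝ × Par P | TopLt P q.1 q.2}.indicator 1 q

theorem measurable_topI (P : CTree) : Measurable (topI P) :=
  measurable_one.indicator (measurableSet_topLt P)

/-- indicator of `Vset` -/
def vI (Φ : Space3 → ℝ) (ε T : ℝ) (o : PhasePoint × NodeP) : ℝ≥0∞ := (Vset Φ ε T).indicator 1 o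

theorem measurable_vI (hΦ : AdmissiblePotential Φ) (ε T : ℝ) : Measurable (vI Φ ε T) :=
  measurable_one.indicator (measurableSet_Vset hΦ ε T)

/-- the weight of a node factorises -/
theorem vw_node {ε : ℝ} (hε : 0 < ε) {l r : CTree} {T : ℝ}
    (ℓ : PhasePoint) (a : NodeP) (pl : Par l) (pr : Par r) :
    vw Φ ε (node l r) T (ℓ, ((a, (pl, pr)) : Par (node l r))) =
      vI Φ ε T (ℓ, a) * (ENNReal.ofReal ‖ℓ.2 - a.2.1‖ *
        ((topI l (sinM Φ ε (ℓ, a), pl) * vw Φ ε l T ((inM Φ ε (ℓ, a)).1, pl)) *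
         (topI r (sinM Φ ε (ℓ, a), pr) * vw Φ ε r T ((inM Φ ε (ℓ, a)).2, pr)))) := by
  by_cases hz : ((ℓ, a) : PhasePoint × NodeP) ∈ Vset Φ ε T
  · have h1 : Adm1 Φ ℓ.2 a := hz.1
    have h2 : a.1 < T := hz.2.1
    have h3 : 0 < Tree674.sin Φ ε ℓ.2 a := hz.2.2
    have hs : Tree674.sin Φ ε ℓ.2 a ≤ T := (sin_le Φ hε.le ℓ.2 a).trans h2.le
    have hvI : vI Φ ε T (ℓ, a) = 1 := by
      unfold vI; rw [indicator_of_mem hz]; rfl
    rw [hvI, one_mul, sinM_of_adm (z := (ℓ, a)) h1, inM_of_adm (z := (ℓ, a)) h1]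
    have hnode := valid_node_iff (Φ := Φ) (ε := ε) (T := T) (l := l) (r := r) (v := ℓ.2)
      (p := ((a, (pl, pr)) : Par (node l r)))
    by_cases hl : Valid Φ ε l T (inMap Φ ε ℓ a).1.2 pl ∧ TopLt l (Tree674.sin Φ ε ℓ.2 a) pl
    · by_cases hr : Valid Φ ε r T (inMap Φ ε ℓ a).2.2 pr ∧ TopLt r (Tree674.sin Φ ε ℓ.2 a) pr
      · have hl' := (valid_iff_top hs (P := l)).2 hl
        have hr' := (valid_iff_top hs (P := r)).2 hr
        have hv : Valid Φ ε (node l r) T ℓ.2 ((a, (pl, pr)) : Par (node l r)) :=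
          hnode.2 ⟨⟨h1, h2, h3⟩, hl', hr'⟩
        rw [vw_of_valid (P := node l r) (z := (ℓ, ((a, (pl, pr)) : Par (node l r)))) hv,
          vw_of_valid (z := ((inMap Φ ε ℓ a).1, pl)) hl.1,
          vw_of_valid (z := ((inMap Φ ε ℓ a).2, pr)) hr.1]
        have t1 : topI l (Tree674.sin Φ ε ℓ.2 a, pl) = 1 := by
          unfold topI; rw [indicator_of_mem (show (Tree674.sin Φ ε ℓ.2 a, pl) ∈
            {q : ℝ × Par l | TopLt l q.1 q.2} from hl.2)]; rfl
        have t2 : topI r (Tree674.sin Φ ε ℓ.2 a, pr) = 1 := by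
          unfold topI; rw [indicator_of_mem (show (Tree674.sin Φ ε ℓ.2 a, pr) ∈
            {q : ℝ × Par r | TopLt r q.1 q.2} from hr.2)]; rfl
        rw [t1, t2, one_mul, one_mul]
        rfl
      · have hv : ¬ Valid Φ ε (node l r) T ℓ.2 ((a, (pl, pr)) : Par (node l r)) := fun h =>
          hr ((valid_iff_top hs (P := r)).1 (hnode.1 h).2.2)
        rw [vw_of_not_valid (P := node l r) (z := (ℓ, ((a, (pl, pr)) : Par (node l r)))) hv]
        have : topI r (Tree674.sin Φ ε ℓ.2 a, pr) * vw Φ ε r T ((inMap Φ ε ℓ a).2, pr) = 0 := by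
          by_cases h4 : Valid Φ ε r T (inMap Φ ε ℓ a).2.2 pr
          · have h5 : ¬ TopLt r (Tree674.sin Φ ε ℓ.2 a) pr := fun h => hr ⟨h4, h⟩
            unfold topI
            rw [indicator_of_notMem (show (Tree674.sin Φ ε ℓ.2 a, pr) ∉
              {q : ℝ × Par r | TopLt r q.1 q.2} from h5), zero_mul]
          · rw [vw_of_not_valid (z := ((inMap Φ ε ℓ a).2, pr)) h4, mul_zero]
        rw [this, mul_zero, mul_zero]
    · have hv : ¬ Valid Φ ε (node l r) T ℓ.2 ((a, (pl, pr)) : Par (node l r)) := fun h =>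
        hl ((valid_iff_top hs (P := l)).1 (hnode.1 h).2.1)
      rw [vw_of_not_valid (P := node l r) (z := (ℓ, ((a, (pl, pr)) : Par (node l r)))) hv]
      have : topI l (Tree674.sin Φ ε ℓ.2 a, pl) * vw Φ ε l T ((inMap Φ ε ℓ a).1, pl) = 0 := by
        by_cases h4 : Valid Φ ε l T (inMap Φ ε ℓ a).1.2 pl
        · have h5 : ¬ TopLt l (Tree674.sin Φ ε ℓ.2 a) pl := fun h => hl ⟨h4, h⟩
          unfold topI
          rw [indicator_of_notMem (show (Tree674.sin Φ ε ℓ.2 a, pl) ∉
            {q : ℝ × Par l | TopLt l q.1 q.2} from h5), zero_mul]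
        · rw [vw_of_not_valid (z := ((inMap Φ ε ℓ a).1, pl)) h4, mul_zero]
      rw [this, zero_mul, mul_zero]
  · have hvI : vI Φ ε T (ℓ, a) = 0 := indicator_of_notMem hz _
    have hv : ¬ Valid Φ ε (node l r) T ℓ.2 ((a, (pl, pr)) : Par (node l r)) := fun h =>
      hz (valid_node_iff.1 h).1
    rw [vw_of_not_valid (P := node l r) (z := (ℓ, ((a, (pl, pr)) : Par (node l r)))) hv, hvI, zero_mul]


theorem lintegral_pair {α β : Type*} [MeasureSpace α] [MeasureSpace β]
    [SFinite (volume : Measure α)] [SFinite (volume : Measure β)] {f : α × β → ℝ≥0∞}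
    (hf : Measurable f) : ∫⁻ z : α × β, f z = ∫⁻ x : α, ∫⁻ y : β, f (x, y) := by
  rw [Measure.volume_eq_prod]
  exact lintegral_prod _ hf.aemeasurable

theorem lintegral_par_leaf (f : Par leaf → ℝ≥0∞) : ∫⁻ p : Par leaf, f p = f () :=
  lintegral_dirac (α := Unit) () f

theorem lintegral_par_node (l r : CTree) {f : Par (node l r) → ℝ≥0∞} (hf : Measurable f) :
    ∫⁻ p : Par (node l r), f p = ∫⁻ a : NodeP, ∫⁻ y : Par l × Par r, f ((a, y) : Par (node l r)) :=
  lintegral_prod (μ := (volume : Measure NodeP)) (ν := (volume : Measure (Par l × Par r)))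
    (f : NodeP × (Par l × Par r) → ℝ≥0∞) hf.aemeasurable

theorem lintegral_idx_leaf {G : (Idx leaf → PhasePoint) → ℝ≥0∞} (hG : Measurable G) :
    ∫⁻ V : Idx leaf → PhasePoint, G V = ∫⁻ x : PhasePoint, G (fun _ => x) := by
  have h := (volume_preserving_funUnique Unit PhasePoint).symm
  have h2 := h.lintegral_comp (f := G) hG
  rw [show (∫⁻ x : PhasePoint, G (fun _ => x)) = ∫⁻ x : PhasePoint, G
    ((MeasurableEquiv.funUnique Unit PhasePoint).symm x) from rfl, h2]
  congr 1


/-- the indicator of the skeletons of a node -/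
theorem skel_ind_node (hΦ : AdmissiblePotential Φ) {ε : ℝ} (hε : 0 < ε) (l r : CTree) (T : ℝ)
    (V1 : Idx l → PhasePoint) (V2 : Idx r → PhasePoint) :
    (Skel Φ ε (node l r) T).indicator (1 : (Idx (node l r) → PhasePoint) → ℝ≥0∞)
        (glue l r V1 V2) =
      (Skel Φ ε l T).indicator 1 V1 * ((Skel Φ ε r T).indicator 1 V2 *
        (vI Φ ε T (outD Φ ε T ((inv Φ ε l T V1).1, (inv Φ ε r T V2).1)) *
          (topI l (sinM Φ ε (outD Φ ε T ((inv Φ ε l T V1).1, (inv Φ ε r T V2).1)),
              (inv Φ ε l T V1).2) *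
            topI r (sinM Φ ε (outD Φ ε T ((inv Φ ε l T V1).1, (inv Φ ε r T V2).1)),
              (inv Φ ε r T V2).2)))) := by
  have hiff : glue l r V1 V2 ∈ Skel Φ ε (node l r) T ↔ _ :=
    mem_skel_node hΦ hε (l := l) (r := r) (T := T) (V1 := V1) (V2 := V2)
  by_cases h1 : V1 ∈ Skel Φ ε l T
  · by_cases h2 : V2 ∈ Skel Φ ε r T
    · rw [indicator_of_mem h1, indicator_of_mem h2]
      simp only [Pi.one_apply, one_mul]
      by_cases h3 : outD Φ ε T ((inv Φ ε l T V1).1, (inv Φ ε r T V2).1) ∈ Vset Φ ε T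
      · by_cases h4 : TopLt l (sinM Φ ε (outD Φ ε T ((inv Φ ε l T V1).1, (inv Φ ε r T V2).1)))
            (inv Φ ε l T V1).2
        · by_cases h5 : TopLt r (sinM Φ ε (outD Φ ε T
              ((inv Φ ε l T V1).1, (inv Φ ε r T V2).1))) (inv Φ ε r T V2).2
          · have h6 := hiff.2 ⟨⟨h1, h2⟩, h3, h4, h5⟩
            rw [indicator_of_mem h6]
            unfold vI topI
            rw [indicator_of_mem h3, indicator_of_mem (by exact h4),
              indicator_of_mem (by exact h5)]
            simp only [Pi.one_apply, one_mul]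
          · rw [indicator_of_notMem (fun h => h5 (hiff.1 h).2.2.2)]
            unfold topI
            rw [indicator_of_notMem (s := {q : ℝ × Par r | TopLt r q.1 q.2}) (by exact h5)]
            simp
        · rw [indicator_of_notMem (fun h => h4 (hiff.1 h).2.2.1)]
          unfold topI
          rw [indicator_of_notMem (s := {q : ℝ × Par l | TopLt l q.1 q.2}) (by exact h4)]
          simp
      · rw [indicator_of_notMem (fun h => h3 (hiff.1 h).2.1)]
        unfold vI
        rw [indicator_of_notMem h3]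
        simp
    · rw [indicator_of_notMem h2, indicator_of_notMem (fun h => h2 (hiff.1 h).1.2)]
      simp
  · rw [indicator_of_notMem h1, indicator_of_notMem (fun h => h1 (hiff.1 h).1.1)]
    simp

/-- the integrand of the change of variables on the parameter side -/
theorem treeMeasure_aux (hΦ : AdmissiblePotential Φ) {ε : ℝ} (hε : 0 < ε) (T : ℝ) :
    ∀ (P : CTree) {H : (PhasePoint × Par P) × (Idx P → PhasePoint) → ℝ≥0∞}, Measurable H →
    ENNReal.ofReal (ε ^ 2) ^ P.size * ∫⁻ z : PhasePoint × Par P,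
        vw Φ ε P T z * H (z, linesM Φ ε P z.1 z.2) =
      ∫⁻ V : Idx P → PhasePoint, (Skel Φ ε P T).indicator 1 V * H (inv Φ ε P T V, V)
  | leaf, H, hH => by
      have e1 : ∀ z : PhasePoint × Par leaf, vw Φ ε leaf T z = 1 := fun z => by
        rw [vw_of_valid (z := z) valid_leaf]; rfl
      simp only [e1, one_mul, skel_leaf, indicator_univ, Pi.one_apply, CTree.size, pow_zero]
      have hH' : Measurable fun z : PhasePoint × Par leaf => H (z, linesM Φ ε leaf z.1 z.2) :=
        hH.comp (measurable_id.prodMk (measurable_linesM hΦ ε leaf))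
      rw [Measure.volume_eq_prod, lintegral_prod _ hH'.aemeasurable]
      simp only [lintegral_par_leaf]
      rw [lintegral_idx_leaf (G := fun V => H (inv Φ ε leaf T V, V))
        (hH.comp ((measurable_inv hΦ hε leaf T).prodMk measurable_id))]
      rfl
  | node l r, H, hH => by
      -- measurability toolbox
      have mo := measurable_outD hΦ hε T
      have ms := measurable_sinM hΦ ε
      have mvl := measurable_vw hΦ ε l T
      have mvr := measurable_vw hΦ ε r T
      have mll := measurable_linesM hΦ ε l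
      have mlr := measurable_linesM hΦ ε r
      have mil := measurable_inv hΦ hε l T
      have mir := measurable_inv hΦ hε r T
      -- the function `L`
      set L : ((PhasePoint × NodeP) × (PhasePoint × PhasePoint)) × (Par l × Par r) → ℝ≥0∞ :=
        fun w => (topI l (sinM Φ ε w.1.1, w.2.1) * vw Φ ε l T (w.1.2.1, w.2.1)) *
          (topI r (sinM Φ ε w.1.1, w.2.2) * vw Φ ε r T (w.1.2.2, w.2.2)) *
          H ((w.1.1.1, ((w.1.1.2, w.2) : Par (node l r))),
            glue l r (linesM Φ ε l w.1.2.1 w.2.1) (linesM Φ ε r w.1.2.2 w.2.2)) with hLdef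
      have m11 : Measurable fun w : ((PhasePoint × NodeP) × (PhasePoint × PhasePoint)) ×
          (Par l × Par r) => w.1.1 := measurable_fst.fst
      have m121 : Measurable fun w : ((PhasePoint × NodeP) × (PhasePoint × PhasePoint)) ×
          (Par l × Par r) => w.1.2.1 := measurable_fst.snd.fst
      have m122 : Measurable fun w : ((PhasePoint × NodeP) × (PhasePoint × PhasePoint)) ×
          (Par l × Par r) => w.1.2.2 := measurable_fst.snd.snd
      have m21 : Measurable fun w : ((PhasePoint × NodeP) × (PhasePoint × PhasePoint)) ×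
          (Par l × Par r) => w.2.1 := measurable_snd.fst
      have m22 : Measurable fun w : ((PhasePoint × NodeP) × (PhasePoint × PhasePoint)) ×
          (Par l × Par r) => w.2.2 := measurable_snd.snd
      have mp : Measurable fun w : ((PhasePoint × NodeP) × (PhasePoint × PhasePoint)) ×
          (Par l × Par r) => ((w.1.1.2, w.2) : Par (node l r)) :=
        (measurable_parMk l r).comp (m11.snd.prodMk measurable_snd)
      have hL : Measurable L := by
        refine Measurable.mul (Measurable.mul ?_ ?_) ?_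
        · exact ((measurable_topI l).comp ((ms.comp m11).prodMk m21)).mul
            (mvl.comp (m121.prodMk m21))
        · exact ((measurable_topI r).comp ((ms.comp m11).prodMk m22)).mul
            (mvr.comp (m122.prodMk m22))
        · exact hH.comp ((m11.fst.prodMk mp).prodMk ((measurable_glue l r).comp
            ((mll.comp (m121.prodMk m21)).prodMk (mlr.comp (m122.prodMk m22)))))
      set K : (PhasePoint × NodeP) × (PhasePoint × PhasePoint) → ℝ≥0∞ :=
        fun w => ∫⁻ y : Par l × Par r, L (w, y) with hKdef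
      have hK : Measurable K := hL.lintegral_prod_right'
      -- Step 1: the left side
      have hF : Measurable fun z : PhasePoint × Par (node l r) =>
          vw Φ ε (node l r) T z * H (z, linesM Φ ε (node l r) z.1 z.2) :=
        (measurable_vw hΦ ε (node l r) T).mul
          (hH.comp (measurable_id.prodMk (measurable_linesM hΦ ε (node l r))))
      have step1 : ∫⁻ z : PhasePoint × Par (node l r),
          vw Φ ε (node l r) T z * H (z, linesM Φ ε (node l r) z.1 z.2) =
          ∫⁻ z : PhasePoint × NodeP, (Vset Φ ε T).indicator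
            (fun z => ENNReal.ofReal ‖z.1.2 - z.2.2.1‖ * K (z, inMap Φ ε z.1 z.2)) z := by
        have hin : ∀ z : PhasePoint × NodeP, (Vset Φ ε T).indicator
            (fun z => ENNReal.ofReal ‖z.1.2 - z.2.2.1‖ * K (z, inMap Φ ε z.1 z.2)) z =
            vI Φ ε T z * (ENNReal.ofReal ‖z.1.2 - z.2.2.1‖ * K (z, inM Φ ε z)) := by
          intro z
          unfold vI
          by_cases hz : z ∈ Vset Φ ε T
          · rw [indicator_of_mem hz, indicator_of_mem hz, inM_of_adm hz.1, Pi.one_apply, one_mul]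
          · rw [indicator_of_notMem hz, indicator_of_notMem hz, zero_mul]
        simp only [hin]
        have hmz : Measurable fun z : PhasePoint × NodeP =>
            vI Φ ε T z * (ENNReal.ofReal ‖z.1.2 - z.2.2.1‖ * K (z, inM Φ ε z)) := by
          have h1 : Measurable fun z : PhasePoint × NodeP => ENNReal.ofReal ‖z.1.2 - z.2.2.1‖ := by
            fun_prop
          exact (measurable_vI hΦ ε T).mul
            (h1.mul (hK.comp (measurable_id.prodMk (measurable_inM hΦ ε))))
        rw [lintegral_pair hF, lintegral_pair hmz]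
        refine lintegral_congr fun ℓ => ?_
        have hFℓ : Measurable fun y : Par (node l r) =>
            vw Φ ε (node l r) T (ℓ, y) * H ((ℓ, y), linesM Φ ε (node l r) (ℓ, y).1 (ℓ, y).2) :=
          hF.comp (measurable_const.prodMk measurable_id)
        rw [lintegral_par_node l r hFℓ]
        refine lintegral_congr fun a => ?_
        have hLa : Measurable fun y : Par l × Par r => L (((ℓ, a), inM Φ ε (ℓ, a)), y) :=
          hL.comp (measurable_const.prodMk measurable_id)
        simp only [hKdef]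
        rw [← lintegral_const_mul _ hLa, ← lintegral_const_mul _ (hLa.const_mul _)]
        refine lintegral_congr fun y => ?_
        have hv := vw_node hε (Φ := Φ) (l := l) (r := r) (T := T) ℓ a y.1 y.2
        have hv' : vw Φ ε (node l r) T (ℓ, ((a, y) : Par (node l r))) = _ := hv
        rw [hv']
        simp only [hLdef]
        have hlm : linesM Φ ε (node l r) ℓ ((a, y) : Par (node l r)) =
          glue l r (linesM Φ ε l (inM Φ ε (ℓ, a)).1 y.1) (linesM Φ ε r (inM Φ ε (ℓ, a)).2 y.2) := rfl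
        rw [hlm]
        ring
      -- Step 2: two-body identity
      have step2 := twoBody hΦ hε T hK
      -- Step 3: after the two-body identity, reorder
      set M : ((PhasePoint × Par l) × (Idx l → PhasePoint)) ×
          ((PhasePoint × Par r) × (Idx r → PhasePoint)) → ℝ≥0∞ :=
        fun w => vI Φ ε T (outD Φ ε T (w.1.1.1, w.2.1.1)) *
          (topI l (sinM Φ ε (outD Φ ε T (w.1.1.1, w.2.1.1)), w.1.1.2) *
            topI r (sinM Φ ε (outD Φ ε T (w.1.1.1, w.2.1.1)), w.2.1.2)) *
          H (((outD Φ ε T (w.1.1.1, w.2.1.1)).1,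
              (((outD Φ ε T (w.1.1.1, w.2.1.1)).2, (w.1.1.2, w.2.1.2)) : Par (node l r))),
            glue l r w.1.2 w.2.2) with hMdef
      have n1 : Measurable fun w : ((PhasePoint × Par l) × (Idx l → PhasePoint)) ×
          ((PhasePoint × Par r) × (Idx r → PhasePoint)) => outD Φ ε T (w.1.1.1, w.2.1.1) :=
        mo.comp (measurable_fst.fst.fst.prodMk measurable_snd.fst.fst)
      have n2 : Measurable fun w : ((PhasePoint × Par l) × (Idx l → PhasePoint)) ×
          ((PhasePoint × Par r) × (Idx r → PhasePoint)) => w.1.1.2 := measurable_fst.fst.snd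
      have n3 : Measurable fun w : ((PhasePoint × Par l) × (Idx l → PhasePoint)) ×
          ((PhasePoint × Par r) × (Idx r → PhasePoint)) => w.2.1.2 := measurable_snd.fst.snd
      have hM : Measurable M := by
        refine Measurable.mul (Measurable.mul ?_ (Measurable.mul ?_ ?_)) ?_
        · exact (measurable_vI hΦ ε T).comp n1
        · exact (measurable_topI l).comp ((ms.comp n1).prodMk n2)
        · exact (measurable_topI r).comp ((ms.comp n1).prodMk n3)
        · exact hH.comp ((n1.fst.prodMk ((measurable_parMk l r).comp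
            (n1.snd.prodMk (n2.prodMk n3)))).prodMk ((measurable_glue l r).comp
            (measurable_fst.snd.prodMk measurable_snd.snd)))
      have step3 : ∫⁻ q : PhasePoint × PhasePoint, (outD Φ ε T ⁻¹' Vset Φ ε T).indicator
          (fun q => K (outD Φ ε T q, q)) q =
          ∫⁻ z1 : PhasePoint × Par l, ∫⁻ z2 : PhasePoint × Par r, vw Φ ε l T z1 *
            (vw Φ ε r T z2 * M ((z1, linesM Φ ε l z1.1 z1.2), (z2, linesM Φ ε r z2.1 z2.2))) := by
        have hin : ∀ q : PhasePoint × PhasePoint, (outD Φ ε T ⁻¹' Vset Φ ε T).indicator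
          (fun q => K (outD Φ ε T q, q)) q = ∫⁻ y : Par l × Par r,
            vI Φ ε T (outD Φ ε T q) * L ((outD Φ ε T q, q), y) := by
          intro q
          have hLa : Measurable fun y : Par l × Par r => L ((outD Φ ε T q, q), y) :=
            hL.comp (measurable_const.prodMk measurable_id)
          rw [lintegral_const_mul _ hLa]
          unfold vI
          by_cases hz : outD Φ ε T q ∈ Vset Φ ε T
          · rw [indicator_of_mem hz, indicator_of_mem (by exact hz), Pi.one_apply, one_mul]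
          · rw [indicator_of_notMem hz, indicator_of_notMem (by exact hz), zero_mul]
        simp only [hin]
        have hL2 : Measurable fun w : (PhasePoint × PhasePoint) × (Par l × Par r) =>
            vI Φ ε T (outD Φ ε T w.1) * L ((outD Φ ε T w.1, w.1), w.2) :=
          ((measurable_vI hΦ ε T).comp (mo.comp measurable_fst)).mul
            (hL.comp (((mo.comp measurable_fst).prodMk measurable_fst).prodMk measurable_snd))
        have h4 := lintegral_four (volume : Measure PhasePoint) (volume : Measure PhasePoint)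
          (volume : Measure (Par l)) (volume : Measure (Par r)) hL2
        rw [← Measure.volume_eq_prod, ← Measure.volume_eq_prod, ← Measure.volume_eq_prod,
          ← Measure.volume_eq_prod] at h4
        rw [h4]
        refine lintegral_congr fun z1 => lintegral_congr fun z2 => ?_
        simp only [hLdef, hMdef]
        ring
      -- Step 4: induction hypothesis for `r`
      set G : (PhasePoint × Par l) × (Idx l → PhasePoint) → ℝ≥0∞ := fun w =>
        ∫⁻ V2 : Idx r → PhasePoint, (Skel Φ ε r T).indicator 1 V2 * M (w, (inv Φ ε r T V2, V2))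
        with hGdef
      have hG : Measurable G := by
        have h5 : Measurable fun w : ((PhasePoint × Par l) × (Idx l → PhasePoint)) ×
            (Idx r → PhasePoint) =>
            (Skel Φ ε r T).indicator (1 : (Idx r → PhasePoint) → ℝ≥0∞) w.2 *
              M (w.1, (inv Φ ε r T w.2, w.2)) :=
          ((measurable_one.indicator (measurableSet_skel hΦ hε r T)).comp measurable_snd).mul
            (hM.comp (measurable_fst.prodMk ((mir.comp measurable_snd).prodMk measurable_snd)))
        exact h5.lintegral_prod_right'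
      have ihr : ∀ w : (PhasePoint × Par l) × (Idx l → PhasePoint),
          ENNReal.ofReal (ε ^ 2) ^ r.size * ∫⁻ z2 : PhasePoint × Par r,
            vw Φ ε r T z2 * M (w, (z2, linesM Φ ε r z2.1 z2.2)) = G w := fun w =>
        treeMeasure_aux hΦ hε T r (H := fun v => M (w, v))
          (hM.comp (measurable_const.prodMk measurable_id))
      have ihl : ENNReal.ofReal (ε ^ 2) ^ l.size * ∫⁻ z1 : PhasePoint × Par l,
            vw Φ ε l T z1 * G (z1, linesM Φ ε l z1.1 z1.2) =
          ∫⁻ V1 : Idx l → PhasePoint, (Skel Φ ε l T).indicator 1 V1 * G (inv Φ ε l T V1, V1) :=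
        treeMeasure_aux hΦ hε T l hG
      have e1 : (node l r).size = l.size + r.size + 1 := rfl
      rw [e1, pow_succ, pow_add, mul_assoc, step1, step2, step3]
      have hMr : ∀ z1 : PhasePoint × Par l, Measurable fun z2 : PhasePoint × Par r =>
          vw Φ ε r T z2 * M ((z1, linesM Φ ε l z1.1 z1.2), (z2, linesM Φ ε r z2.1 z2.2)) :=
        fun z1 => mvr.mul (hM.comp (measurable_const.prodMk (measurable_id.prodMk mlr)))
      have e2 : ENNReal.ofReal (ε ^ 2) ^ l.size * ENNReal.ofReal (ε ^ 2) ^ r.size *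
          ∫⁻ z1 : PhasePoint × Par l, ∫⁻ z2 : PhasePoint × Par r, vw Φ ε l T z1 *
            (vw Φ ε r T z2 * M ((z1, linesM Φ ε l z1.1 z1.2), (z2, linesM Φ ε r z2.1 z2.2))) =
          ENNReal.ofReal (ε ^ 2) ^ l.size * ∫⁻ z1 : PhasePoint × Par l,
            vw Φ ε l T z1 * G (z1, linesM Φ ε l z1.1 z1.2) := by
        rw [mul_assoc]
        congr 1
        rw [← lintegral_const_mul' _ _ (by
          exact ENNReal.pow_ne_top ENNReal.ofReal_ne_top)]
        refine lintegral_congr fun z1 => ?_
        rw [lintegral_const_mul _ (hMr z1), ← ihr (z1, linesM Φ ε l z1.1 z1.2)]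
        ring
      rw [e2, ihl]
      -- Step 5: the configurations of the node
      have hRm : Measurable fun V : Idx (node l r) → PhasePoint =>
          (Skel Φ ε (node l r) T).indicator (1 : (Idx (node l r) → PhasePoint) → ℝ≥0∞) V *
            H (inv Φ ε (node l r) T V, V) :=
        (measurable_one.indicator (measurableSet_skel hΦ hε (node l r) T)).mul
          (hH.comp ((measurable_inv hΦ hε (node l r) T).prodMk measurable_id))
      rw [lintegral_idx_node l r hRm]
      refine lintegral_congr fun V1 => ?_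
      have hG2 : Measurable fun V2 : Idx r → PhasePoint =>
          (Skel Φ ε r T).indicator (1 : (Idx r → PhasePoint) → ℝ≥0∞) V2 *
            M ((inv Φ ε l T V1, V1), (inv Φ ε r T V2, V2)) :=
        (measurable_one.indicator (measurableSet_skel hΦ hε r T)).mul
          (hM.comp (measurable_const.prodMk (mir.prodMk measurable_id)))
      simp only [hGdef]
      rw [← lintegral_const_mul _ hG2]
      refine lintegral_congr fun V2 => ?_
      have hMV : M ((inv Φ ε l T V1, V1), (inv Φ ε r T V2, V2)) =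
          vI Φ ε T (outD Φ ε T ((inv Φ ε l T V1).1, (inv Φ ε r T V2).1)) *
          (topI l (sinM Φ ε (outD Φ ε T ((inv Φ ε l T V1).1, (inv Φ ε r T V2).1)),
              (inv Φ ε l T V1).2) *
            topI r (sinM Φ ε (outD Φ ε T ((inv Φ ε l T V1).1, (inv Φ ε r T V2).1)),
              (inv Φ ε r T V2).2)) * H (inv Φ ε (node l r) T (glue l r V1 V2), glue l r V1 V2) :=
        rfl
      rw [skel_ind_node hΦ hε l r T V1 V2, hMV]
      ring

/-- **Theorem A** (change of variables from tree parameters to configurations). -/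
theorem treeMeasure (hΦ : AdmissiblePotential Φ) {ε : ℝ} (hε : 0 < ε) (P : CTree) (T : ℝ)
    {H : (PhasePoint × Par P) × (Idx P → PhasePoint) → ℝ≥0∞} (hH : Measurable H) :
    ENNReal.ofReal (ε ^ 2) ^ P.size * ∫⁻ z : PhasePoint × Par P,
        {z : PhasePoint × Par P | Valid Φ ε P T z.1.2 z.2}.indicator
          (fun z => wt Φ P z.1.2 z.2 * H (z, lines Φ ε P z.1 z.2)) z =
      ∫⁻ V : Idx P → PhasePoint,
        (Skel Φ ε P T).indicator (fun V => H (inv Φ ε P T V, V)) V := by
  have h := treeMeasure_aux hΦ hε T P hH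
  have e1 : ∀ z : PhasePoint × Par P,
      {z : PhasePoint × Par P | Valid Φ ε P T z.1.2 z.2}.indicator
          (fun z => wt Φ P z.1.2 z.2 * H (z, lines Φ ε P z.1 z.2)) z =
        vw Φ ε P T z * H (z, linesM Φ ε P z.1 z.2) := by
    intro z
    by_cases hz : Valid Φ ε P T z.1.2 z.2
    · rw [indicator_of_mem (show z ∈ {z : PhasePoint × Par P | Valid Φ ε P T z.1.2 z.2} from hz),
        vw_of_valid hz, linesM_of_adm ε hz.1]
    · rw [indicator_of_notMem
        (show z ∉ {z : PhasePoint × Par P | Valid Φ ε P T z.1.2 z.2} from hz),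
        vw_of_not_valid hz, zero_mul]
  have e2 : ∀ V : Idx P → PhasePoint,
      (Skel Φ ε P T).indicator (fun V => H (inv Φ ε P T V, V)) V =
        (Skel Φ ε P T).indicator 1 V * H (inv Φ ε P T V, V) := by
    intro V
    by_cases hV : V ∈ Skel Φ ε P T
    · rw [indicator_of_mem hV, indicator_of_mem hV, Pi.one_apply, one_mul]
    · rw [indicator_of_notMem hV, indicator_of_notMem hV, zero_mul]
  simp only [e1, e2]
  exact h

end Crest.Agent.R122.Tree674

end
private theorem rz_4289aa91a6 : type_of% @_root_.Crest.Agent.R122.Tree674.TopLt.eq_1 := @_root_.Crest.Agent.R122.Tree674.TopLt.eq_1 -- L68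
private theorem rz_a5ee25fd3a : type_of% @_root_.Crest.Agent.R122.Tree674.inv.eq_def := @_root_.Crest.Agent.R122.Tree674.inv.eq_def -- L264
private theorem rz_cf732f6b5a : type_of% @_root_.Crest.Agent.R122.Tree674.inv.eq_1 := @_root_.Crest.Agent.R122.Tree674.inv.eq_1 -- L264
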