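import Crest.Agent.R122.PathCausal_968
import Crest.Agent.R122.Scat6_818
import Crest.Agent.R122.TreeMeas_674
import Crest.Agent.R122.ChainHist_726

-- ▼ part R122/SurjPair_968
section

/-!
# Row 122, block C, SURJ (helper968), part 1: the passage of an isolated pair

Given an isolated pair of particles which is at distance `ε` at the times `s' < s`, outgoing at time
`s`, the outgoing parameters define an admissible node whose two-body motion is the motion of the
pair on `[s', s]`.
-/

set_option autoImplicit false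

open MeasureTheory Set Filter Topology
open Crest.AnalysisR.Kinetic
open scoped Classical

noncomputable section

namespace Crest.Agent.R122.Surj968

open Kin796 Kin796.CTree Disc416 Tree674 Flow671 Loc45 Causal291 PathFlow968

variable {Φ : Space3 → ℝ} {ε : ℝ}

/-- The line through the phase point `z` at time `s`. -/
def lineOf (z : PhasePoint) (s : ℝ) : PhasePoint := (z.1 - s • z.2, z.2)

theorem onLine_lineOf (z : PhasePoint) (s : ℝ) : onLine (lineOf z s) s = z := by
  unfold onLine lineOf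
  ext1
  · simp
  · rfl




/-- Impact parameter of a unit vector `e` with respect to a velocity `g` with `e · g < 0`. -/
theorem exists_impact {e g : Space3} (he : ‖e‖ = 1) (hg : inner ℝ e g < 0) :
    ∃ b ∈ impactDisc g, entrancePoint b g = e := by
  have hg0 : g ≠ 0 := by
    rintro rfl
    simp at hg
  have hn : 0 < ‖g‖ := norm_pos_iff.2 hg0
  set c : ℝ := inner ℝ e g with hc
  refine ⟨e - (c / ‖g‖ ^ 2) • g, ⟨?_, ?_⟩, ?_⟩
  · rw [inner_sub_left, inner_smul_left, real_inner_self_eq_norm_sq]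
    simp only [conj_trivial]
    field_simp
    rw [hc]
    ring
  · have h1 : ‖e - (c / ‖g‖ ^ 2) • g‖ ^ 2 = 1 - c ^ 2 / ‖g‖ ^ 2 := by
      rw [norm_sub_sq_real, he, inner_smul_right, norm_smul, mul_pow, Real.norm_eq_abs, sq_abs,
        ← hc]
      field_simp
      ring
    have h2 : 0 < c ^ 2 / ‖g‖ ^ 2 := by
      have : c ≠ 0 := hg.ne
      positivity
    by_contra h3
    rw [not_lt] at h3
    nlinarith [norm_nonneg (e - (c / ‖g‖ ^ 2) • g)]
  · have h1 : ‖e - (c / ‖g‖ ^ 2) • g‖ ^ 2 = 1 - c ^ 2 / ‖g‖ ^ 2 := by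
      rw [norm_sub_sq_real, he, inner_smul_right, norm_smul, mul_pow, Real.norm_eq_abs, sq_abs,
        ← hc]
      field_simp
      ring
    have h2 : Real.sqrt (1 - ‖e - (c / ‖g‖ ^ 2) • g‖ ^ 2) = -c / ‖g‖ := by
      rw [h1]
      have h3 : 1 - (1 - c ^ 2 / ‖g‖ ^ 2) = (-c / ‖g‖) ^ 2 := by
        rw [div_pow, neg_sq]
        ring
      rw [h3, Real.sqrt_sq]
      exact div_nonneg (by linarith) hn.le
    unfold entrancePoint
    rw [h2]
    have h4 : -c / ‖g‖ / ‖g‖ = -(c / ‖g‖ ^ 2) := by
      field_simp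
    rw [h4, neg_smul]
    abel



end Crest.Agent.R122.Surj968

end
end

-- ▼ part R122/Graft_968
section

/-!
# Row 122, block D, D5 (helper968): grafting a cherry at a leaf of a tree

`graft P m` is the tree `P` with the leaf `m` replaced by a cherry `node leaf leaf`.  `old` are the
particles of `P`, `new` is the additional particle; `gpar` are the parameters.  All objects attached
to trees are computed for the grafted tree.
-/

set_option autoImplicit false

open MeasureTheory Set Filter Topology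
open Crest.AnalysisR.Kinetic
open scoped Classical ENNReal

noncomputable section

namespace Crest.Agent.R122.Graft968

open Kin796 Kin796.CTree Disc416 Tree674 Flow671 Loc45 Causal291 PathFlow968

variable {Φ : Space3 → ℝ} {ε : ℝ}

/-! ### Definitions -/

/-- `P` with the leaf `m` replaced by a cherry. -/
def graft : ∀ P : CTree, Idx P → CTree
  | leaf, _ => node leaf leaf
  | node l r, Sum.inl m => node (graft l m) r
  | node l r, Sum.inr m => node l (graft r m)

/-- The particles of `P` in the grafted tree. -/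
def old : ∀ (P : CTree) (m : Idx P), Idx P → Idx (graft P m)
  | leaf, _, _ => (Sum.inl () : Unit ⊕ Unit)
  | node _ _, Sum.inl _, Sum.inr k => (Sum.inr k : _ ⊕ _)
  | node l _, Sum.inl m, Sum.inl k => (Sum.inl (old l m k) : _ ⊕ _)
  | node _ _, Sum.inr _, Sum.inl k => (Sum.inl k : _ ⊕ _)
  | node _ r, Sum.inr m, Sum.inr k => (Sum.inr (old r m k) : _ ⊕ _)

/-- The additional particle of the grafted tree. -/
def new : ∀ (P : CTree) (m : Idx P), Idx (graft P m)
  | leaf, _ => (Sum.inr () : Unit ⊕ Unit)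
  | node l _, Sum.inl m => (Sum.inl (new l m) : _ ⊕ _)
  | node _ r, Sum.inr m => (Sum.inr (new r m) : _ ⊕ _)

/-- Parameters of the grafted tree. -/
def gpar : ∀ (P : CTree) (m : Idx P), NodeP × Par P → Par (graft P m)
  | leaf, _ => fun q => (q.1, (), ())
  | node l _, Sum.inl m => fun q => (q.2.1, gpar l m (q.1, q.2.2.1), q.2.2.2)
  | node _ r, Sum.inr m => fun q => (q.2.1, q.2.2.1, gpar r m (q.1, q.2.2.2))

/-- All entrance times are after `s`. -/
def After (Φ : Space3 → ℝ) (ε s : ℝ) : ∀ P : CTree, Space3 → Par P → Prop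
  | leaf, _, _ => True
  | node l r, v, p => s < Tree674.sin Φ ε v p.1 ∧ After Φ ε s l (preV Φ v p.1).1 p.2.1 ∧
      After Φ ε s r (preV Φ v p.1).2 p.2.2

/-- The entrance time of the first node of the leaf `m` (`T` if there is none). -/
def entr (Φ : Space3 → ℝ) (ε : ℝ) : ∀ P : CTree, ℝ → Space3 → Par P → Idx P → ℝ
  | leaf, T, _, _, _ => T
  | node l _, _, v, p, Sum.inl m =>
      entr Φ ε l (Tree674.sin Φ ε v p.1) (preV Φ v p.1).1 p.2.1 m
  | node _ r, _, v, p, Sum.inr m =>
      entr Φ ε r (Tree674.sin Φ ε v p.1) (preV Φ v p.1).2 p.2.2 m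


/-! ### Particles -/

theorem old_injective : ∀ (P : CTree) (m : Idx P), Function.Injective (old P m)
  | leaf, _, _, _, _ => rfl
  | node l r, Sum.inl m, k, k', h => by
      rcases k with k | k <;> rcases k' with k' | k'
      · exact congrArg Sum.inl (old_injective l m (Sum.inl_injective h))
      · exact absurd h (by rintro ⟨⟩)
      · exact absurd h (by rintro ⟨⟩)
      · exact congrArg Sum.inr (Sum.inr_injective h)
  | node l r, Sum.inr m, k, k', h => by
      rcases k with k | k <;> rcases k' with k' | k'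
      · exact congrArg Sum.inl (Sum.inl_injective h)
      · exact absurd h (by rintro ⟨⟩)
      · exact absurd h (by rintro ⟨⟩)
      · exact congrArg Sum.inr (old_injective r m (Sum.inr_injective h))

theorem old_ne_new : ∀ (P : CTree) (m k : Idx P), old P m k ≠ new P m
  | leaf, _, _ => by rintro ⟨⟩
  | node l r, Sum.inl m, Sum.inl k => fun h => old_ne_new l m k (Sum.inl_injective h)
  | node l r, Sum.inl m, Sum.inr k => by rintro ⟨⟩
  | node l r, Sum.inr m, Sum.inl k => by rintro ⟨⟩
  | node l r, Sum.inr m, Sum.inr k => fun h => old_ne_new r m k (Sum.inr_injective h)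

theorem eq_new_or_old : ∀ (P : CTree) (m : Idx P) (x : Idx (graft P m)),
    x = new P m ∨ ∃ k, x = old P m k
  | leaf, _, Sum.inl _ => Or.inr ⟨(), rfl⟩
  | leaf, _, Sum.inr _ => Or.inl rfl
  | node l r, Sum.inl m, Sum.inl x => by
      rcases eq_new_or_old l m x with h | ⟨k, h⟩
      · exact Or.inl (congrArg Sum.inl h)
      · exact Or.inr ⟨Sum.inl k, congrArg Sum.inl h⟩
  | node l r, Sum.inl m, Sum.inr x => Or.inr ⟨Sum.inr x, rfl⟩
  | node l r, Sum.inr m, Sum.inl x => Or.inr ⟨Sum.inl x, rfl⟩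
  | node l r, Sum.inr m, Sum.inr x => by
      rcases eq_new_or_old r m x with h | ⟨k, h⟩
      · exact Or.inl (congrArg Sum.inr h)
      · exact Or.inr ⟨Sum.inr k, congrArg Sum.inr h⟩

/-- The particles of the grafted tree. -/
def gE (P : CTree) (m : Idx P) : Option (Idx P) ≃ Idx (graft P m) :=
  Equiv.ofBijective (fun o => o.elim (new P m) (old P m)) ⟨by
    rintro (_ | k) (_ | k') h
    · rfl
    · exact absurd h.symm (old_ne_new P m k')
    · exact absurd h (old_ne_new P m k)
    · exact congrArg some (old_injective P m h), by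
    intro x
    rcases eq_new_or_old P m x with h | ⟨k, h⟩
    · exact ⟨none, h.symm⟩
    · exact ⟨some k, h.symm⟩⟩

@[simp] theorem gE_none (P : CTree) (m : Idx P) : gE P m none = new P m := rfl

@[simp] theorem gE_some (P : CTree) (m k : Idx P) : gE P m (some k) = old P m k := rfl

@[simp] theorem gE_symm_new (P : CTree) (m : Idx P) : (gE P m).symm (new P m) = none :=
  (gE P m).symm_apply_eq.2 rfl

@[simp] theorem gE_symm_old (P : CTree) (m k : Idx P) : (gE P m).symm (old P m k) = some k :=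
  (gE P m).symm_apply_eq.2 rfl

/-- Case distinction on the particles of the grafted tree. -/
theorem gcases {P : CTree} {m : Idx P} {motive : Idx (graft P m) → Prop} (hn : motive (new P m))
    (ho : ∀ k, motive (old P m k)) (x : Idx (graft P m)) : motive x := by
  rcases eq_new_or_old P m x with h | ⟨k, h⟩
  · rw [h]; exact hn
  · rw [h]; exact ho k

theorem root_graft : ∀ (P : CTree) (m : Idx P), root (graft P m) = old P m (root P)
  | leaf, _ => rfl
  | node l _, Sum.inl m => congrArg Sum.inl (root_graft l m)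
  | node _ _, Sum.inr _ => rfl



/-! ### Lines, validity, weight -/

theorem lines_snd : ∀ (P : CTree) (ℓ : PhasePoint) (p : Par P) (k : Idx P),
    (lines Φ ε P ℓ p k).2 = vels Φ P ℓ.2 p k
  | leaf, _, _, _ => rfl
  | node l _, ℓ, p, Sum.inl k => lines_snd l (inMap Φ ε ℓ p.1).1 p.2.1 k
  | node _ r, ℓ, p, Sum.inr k => lines_snd r (inMap Φ ε ℓ p.1).2 p.2.2 k

theorem adm_graft : ∀ (P : CTree) (m : Idx P) (v : Space3) (a : NodeP) (p : Par P),
    Adm Φ (graft P m) v (gpar P m (a, p)) ↔ Adm Φ P v p ∧ Adm1 Φ (vels Φ P v p m) a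
  | leaf, _, v, a, _ => by
      show (Adm1 Φ v a ∧ True ∧ True) ↔ True ∧ Adm1 Φ v a
      tauto
  | node l r, Sum.inl m, v, a, p => by
      show (Adm1 Φ v p.1 ∧ Adm Φ (graft l m) (preV Φ v p.1).1 (gpar l m (a, p.2.1)) ∧
          Adm Φ r (preV Φ v p.1).2 p.2.2) ↔
        (Adm1 Φ v p.1 ∧ Adm Φ l (preV Φ v p.1).1 p.2.1 ∧ Adm Φ r (preV Φ v p.1).2 p.2.2) ∧
          Adm1 Φ (vels Φ l (preV Φ v p.1).1 p.2.1 m) a
      rw [adm_graft l m]
      tauto
  | node l r, Sum.inr m, v, a, p => by
      show (Adm1 Φ v p.1 ∧ Adm Φ l (preV Φ v p.1).1 p.2.1 ∧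
          Adm Φ (graft r m) (preV Φ v p.1).2 (gpar r m (a, p.2.2))) ↔
        (Adm1 Φ v p.1 ∧ Adm Φ l (preV Φ v p.1).1 p.2.1 ∧ Adm Φ r (preV Φ v p.1).2 p.2.2) ∧
          Adm1 Φ (vels Φ r (preV Φ v p.1).2 p.2.2 m) a
      rw [adm_graft r m]
      tauto

theorem ord_graft : ∀ (P : CTree) (m : Idx P) (T : ℝ) (v : Space3) (a : NodeP) (p : Par P),
    Ord Φ ε (graft P m) T v (gpar P m (a, p)) ↔ Ord Φ ε P T v p ∧ a.1 < entr Φ ε P T v p m ∧
      0 < Tree674.sin Φ ε (vels Φ P v p m) a
  | leaf, _, T, v, a, _ => by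
      show (a.1 < T ∧ 0 < Tree674.sin Φ ε v a ∧ True ∧ True) ↔
        True ∧ a.1 < T ∧ 0 < Tree674.sin Φ ε v a
      tauto
  | node l r, Sum.inl m, T, v, a, p => by
      show (p.1.1 < T ∧ 0 < Tree674.sin Φ ε v p.1 ∧
          Ord Φ ε (graft l m) (Tree674.sin Φ ε v p.1) (preV Φ v p.1).1 (gpar l m (a, p.2.1)) ∧
          Ord Φ ε r (Tree674.sin Φ ε v p.1) (preV Φ v p.1).2 p.2.2) ↔
        (p.1.1 < T ∧ 0 < Tree674.sin Φ ε v p.1 ∧
          Ord Φ ε l (Tree674.sin Φ ε v p.1) (preV Φ v p.1).1 p.2.1 ∧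
          Ord Φ ε r (Tree674.sin Φ ε v p.1) (preV Φ v p.1).2 p.2.2) ∧
        a.1 < entr Φ ε l (Tree674.sin Φ ε v p.1) (preV Φ v p.1).1 p.2.1 m ∧
          0 < Tree674.sin Φ ε (vels Φ l (preV Φ v p.1).1 p.2.1 m) a
      rw [ord_graft l m]
      tauto
  | node l r, Sum.inr m, T, v, a, p => by
      show (p.1.1 < T ∧ 0 < Tree674.sin Φ ε v p.1 ∧
          Ord Φ ε l (Tree674.sin Φ ε v p.1) (preV Φ v p.1).1 p.2.1 ∧
          Ord Φ ε (graft r m) (Tree674.sin Φ ε v p.1) (preV Φ v p.1).2 (gpar r m (a, p.2.2))) ↔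
        (p.1.1 < T ∧ 0 < Tree674.sin Φ ε v p.1 ∧
          Ord Φ ε l (Tree674.sin Φ ε v p.1) (preV Φ v p.1).1 p.2.1 ∧
          Ord Φ ε r (Tree674.sin Φ ε v p.1) (preV Φ v p.1).2 p.2.2) ∧
        a.1 < entr Φ ε r (Tree674.sin Φ ε v p.1) (preV Φ v p.1).2 p.2.2 m ∧
          0 < Tree674.sin Φ ε (vels Φ r (preV Φ v p.1).2 p.2.2 m) a
      rw [ord_graft r m]
      tauto

/-- **Validity of the grafted tree.** -/
theorem valid_graft {P : CTree} {m : Idx P} {T : ℝ} {v : Space3} {a : NodeP} {p : Par P} :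
    Valid Φ ε (graft P m) T v (gpar P m (a, p)) ↔ Valid Φ ε P T v p ∧
      Adm1 Φ (vels Φ P v p m) a ∧ a.1 < entr Φ ε P T v p m ∧
        0 < Tree674.sin Φ ε (vels Φ P v p m) a := by
  unfold Valid
  rw [adm_graft, ord_graft]
  tauto






theorem prot_graft_old : ∀ (P : CTree) (m : Idx P) (T : ℝ) (a : NodeP) (p : Par P) (k : Idx P),
    prot (graft P m) T (gpar P m (a, p)) (old P m k) = prot P T p k
  | leaf, _, _, _, _, _ => rfl
  | node l _, Sum.inl m, T, a, p, Sum.inl k => prot_graft_old l m T a p.2.1 k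
  | node _ _, Sum.inl _, _, _, _, Sum.inr _ => rfl
  | node _ _, Sum.inr _, _, _, _, Sum.inl _ => rfl
  | node _ r, Sum.inr m, _, a, p, Sum.inr k => prot_graft_old r m p.1.1 a p.2.2 k

theorem prot_graft_new : ∀ (P : CTree) (m : Idx P) (T : ℝ) (a : NodeP) (p : Par P),
    prot (graft P m) T (gpar P m (a, p)) (new P m) = a.1
  | leaf, _, _, _, _ => rfl
  | node l _, Sum.inl m, T, a, p => prot_graft_new l m T a p.2.1
  | node _ r, Sum.inr m, _, a, p => prot_graft_new r m p.1.1 a p.2.2


/-! ### Windows -/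




/-! ### Final lines -/



/-! ### Paths -/

theorem entr_le (hε : 0 ≤ ε) : ∀ (P : CTree) (T : ℝ) (v : Space3) (p : Par P) (m : Idx P),
    Ord Φ ε P T v p → entr Φ ε P T v p m ≤ T
  | leaf, _, _, _, _, _ => le_rfl
  | node l _, _, v, p, Sum.inl m, h =>
      (entr_le hε l _ _ _ m h.2.2.1).trans ((sin_le hε v p.1).trans h.1.le)
  | node _ r, _, v, p, Sum.inr m, h =>
      (entr_le hε r _ _ _ m h.2.2.2).trans ((sin_le hε v p.1).trans h.1.le)

/-- The path of a leaf before its first entrance time. -/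
theorem path_of_le_entr (hε : 0 ≤ ε) : ∀ (P : CTree) (T : ℝ) (ℓ : PhasePoint) (p : Par P)
    (m : Idx P), Ord Φ ε P T ℓ.2 p → ∀ u, u ≤ entr Φ ε P T ℓ.2 p m →
    path Φ ε P ℓ p u m = onLine (lines Φ ε P ℓ p m) u
  | leaf, _, _, _, _, _, _, _ => rfl
  | node l _, _, ℓ, p, Sum.inl m, h, u, hu => by
      have hu' : u ≤ entr Φ ε l (Tree674.sin Φ ε ℓ.2 p.1) (preV Φ ℓ.2 p.1).1 p.2.1 m := hu
      rw [path_node_before ℓ p (hu'.trans (entr_le hε l _ _ _ m h.2.2.1))]
      exact path_of_le_entr hε l _ (inMap Φ ε ℓ p.1).1 p.2.1 m h.2.2.1 u hu'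
  | node _ r, _, ℓ, p, Sum.inr m, h, u, hu => by
      have hu' : u ≤ entr Φ ε r (Tree674.sin Φ ε ℓ.2 p.1) (preV Φ ℓ.2 p.1).2 p.2.2 m := hu
      rw [path_node_before ℓ p (hu'.trans (entr_le hε r _ _ _ m h.2.2.2))]
      exact path_of_le_entr hε r _ (inMap Φ ε ℓ p.1).2 p.2.2 m h.2.2.2 u hu'

/-- The path of a node after the entrance time (unconditional). -/
theorem path_node_gt {l r : CTree} (ℓ : PhasePoint) (p : Par (node l r)) {u : ℝ}
    (hu : Tree674.sin Φ ε ℓ.2 p.1 < u) : path Φ ε (node l r) ℓ p u =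
      Sum.elim
        (Function.update (path Φ ε l (inMap Φ ε ℓ p.1).1 p.2.1 u) (root l)
          (colPath Φ ε ℓ p.1 u).1)
        (Function.update (path Φ ε r (inMap Φ ε ℓ p.1).2 p.2.2 u) (root r)
          (colPath Φ ε ℓ p.1 u).2) := by
  simp only [path]
  rw [if_neg (not_le.2 hu)]

/-- Replacing the left branch. -/
theorem path_congr_left {l l' r : CTree} (f : Idx l → Idx l') (hf : Function.Injective f)
    (hr : root l' = f (root l)) (ℓ : PhasePoint) (a : NodeP) (q : Par l) (q' : Par l')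
    (q₂ : Par r) (u : ℝ) (k : Idx l)
    (h : path Φ ε l' (inMap Φ ε ℓ a).1 q' u (f k) = path Φ ε l (inMap Φ ε ℓ a).1 q u k) :
    path Φ ε (node l' r) ℓ (a, q', q₂) u (Sum.inl (f k)) =
      path Φ ε (node l r) ℓ (a, q, q₂) u (Sum.inl k) := by
  rcases le_or_gt u (Tree674.sin Φ ε ℓ.2 a) with h1 | h1
  · rw [path_node_before (l := l') (r := r) ℓ (a, q', q₂) h1,
      path_node_before (l := l) (r := r) ℓ (a, q, q₂) h1]
    exact h
  · rw [path_node_gt (l := l') (r := r) ℓ (a, q', q₂) h1,
      path_node_gt (l := l) (r := r) ℓ (a, q, q₂) h1, Sum.elim_inl, Sum.elim_inl, hr]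
    by_cases hk : k = root l
    · subst hk
      rw [Function.update_self, Function.update_self]
    · rw [Function.update_of_ne hk, Function.update_of_ne (hf.ne hk)]
      exact h

theorem path_congr_left' {l l' r : CTree} (ℓ : PhasePoint) (a : NodeP) (q : Par l) (q' : Par l')
    (q₂ : Par r) (u : ℝ) (k : Idx r) :
    path Φ ε (node l' r) ℓ (a, q', q₂) u (Sum.inr k) =
      path Φ ε (node l r) ℓ (a, q, q₂) u (Sum.inr k) := by
  rcases le_or_gt u (Tree674.sin Φ ε ℓ.2 a) with h1 | h1
  · rw [path_node_before (l := l') (r := r) ℓ (a, q', q₂) h1,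
      path_node_before (l := l) (r := r) ℓ (a, q, q₂) h1]
    rfl
  · rw [path_node_gt (l := l') (r := r) ℓ (a, q', q₂) h1,
      path_node_gt (l := l) (r := r) ℓ (a, q, q₂) h1]
    rfl

/-- Replacing the right branch. -/
theorem path_congr_right {l r r' : CTree} (f : Idx r → Idx r') (hf : Function.Injective f)
    (hr : root r' = f (root r)) (ℓ : PhasePoint) (a : NodeP) (q : Par l) (q₂ : Par r)
    (q₂' : Par r') (u : ℝ) (k : Idx r)
    (h : path Φ ε r' (inMap Φ ε ℓ a).2 q₂' u (f k) = path Φ ε r (inMap Φ ε ℓ a).2 q₂ u k) :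
    path Φ ε (node l r') ℓ (a, q, q₂') u (Sum.inr (f k)) =
      path Φ ε (node l r) ℓ (a, q, q₂) u (Sum.inr k) := by
  rcases le_or_gt u (Tree674.sin Φ ε ℓ.2 a) with h1 | h1
  · rw [path_node_before (l := l) (r := r') ℓ (a, q, q₂') h1,
      path_node_before (l := l) (r := r) ℓ (a, q, q₂) h1]
    exact h
  · rw [path_node_gt (l := l) (r := r') ℓ (a, q, q₂') h1,
      path_node_gt (l := l) (r := r) ℓ (a, q, q₂) h1, Sum.elim_inr, Sum.elim_inr, hr]
    by_cases hk : k = root r
    · subst hk
      rw [Function.update_self, Function.update_self]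
    · rw [Function.update_of_ne hk, Function.update_of_ne (hf.ne hk)]
      exact h

theorem path_congr_right' {l r r' : CTree} (ℓ : PhasePoint) (a : NodeP) (q : Par l) (q₂ : Par r)
    (q₂' : Par r') (u : ℝ) (k : Idx l) :
    path Φ ε (node l r') ℓ (a, q, q₂') u (Sum.inl k) =
      path Φ ε (node l r) ℓ (a, q, q₂) u (Sum.inl k) := by
  rcases le_or_gt u (Tree674.sin Φ ε ℓ.2 a) with h1 | h1
  · rw [path_node_before (l := l) (r := r') ℓ (a, q, q₂') h1,
      path_node_before (l := l) (r := r) ℓ (a, q, q₂) h1]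
    rfl
  · rw [path_node_gt (l := l) (r := r') ℓ (a, q, q₂') h1,
      path_node_gt (l := l) (r := r) ℓ (a, q, q₂) h1]
    rfl

/-- The other particles are not changed (and `m` is not changed after the exit time). -/
theorem path_graft_old (hΦ : AdmissiblePotential Φ) (hε : 0 < ε) : ∀ (P : CTree) (m : Idx P)
    (T : ℝ) (ℓ : PhasePoint) (a : NodeP) (p : Par P),
    Valid Φ ε (graft P m) T ℓ.2 (gpar P m (a, p)) → ∀ u k, (k ≠ m ∨ a.1 ≤ u) →
    path Φ ε (graft P m) ℓ (gpar P m (a, p)) u (old P m k) = path Φ ε P ℓ p u k := by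
  intro P
  induction P with
  | leaf =>
    intro m T ℓ a p hv u k hk
    rcases hk with hk | hk
    · exact absurd rfl hk
    have h1 : Tree674.sin Φ ε ℓ.2 a ≤ u := (sin_le hε.le ℓ.2 a).trans hk
    have h2 := congrFun (path_node_after hΦ hε (l := leaf) (r := leaf)
      (p := gpar leaf () (a, ())) hv h1) (Sum.inl (root leaf))
    refine h2.trans ?_
    rw [Sum.elim_inl, Function.update_self]
    have h3 : pairPath Φ ε ℓ a u = _ := pairPath_after hΦ hε hv.1.1 hk
    exact congrArg Prod.fst h3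
  | node l r ihl ihr =>
    intro m T ℓ a p hv u k hk
    rcases m with m | m
    · have hvl : Valid Φ ε (graft l m) (Tree674.sin Φ ε ℓ.2 p.1) (preV Φ ℓ.2 p.1).1
        (gpar l m (a, p.2.1)) := ⟨hv.1.2.1, hv.2.2.2.1⟩
      rcases k with k | k
      · exact path_congr_left (old l m) (old_injective l m) (root_graft l m) ℓ p.1 p.2.1 _ p.2.2
          u k (ihl m _ (inMap Φ ε ℓ p.1).1 a p.2.1 hvl u k
            (hk.imp_left fun h' h'' => h' (congrArg Sum.inl h'')))
      · exact path_congr_left' ℓ p.1 p.2.1 _ p.2.2 u k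
    · have hvr : Valid Φ ε (graft r m) (Tree674.sin Φ ε ℓ.2 p.1) (preV Φ ℓ.2 p.1).2
        (gpar r m (a, p.2.2)) := ⟨hv.1.2.2, hv.2.2.2.2⟩
      rcases k with k | k
      · exact path_congr_right' ℓ p.1 p.2.1 p.2.2 _ u k
      · exact path_congr_right (old r m) (old_injective r m) (root_graft r m) ℓ p.1 p.2.1 p.2.2 _
          u k (ihr m _ (inMap Φ ε ℓ p.1).2 a p.2.2 hvr u k
            (hk.imp_left fun h' h'' => h' (congrArg Sum.inr h'')))

/-- The path of a cherry. -/
theorem path_cherry (hΦ : AdmissiblePotential Φ) (hε : 0 < ε) {ℓ : PhasePoint} {a : NodeP}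
    (ha : Adm1 Φ ℓ.2 a) (x y : Unit) (u : ℝ) : path Φ ε (node leaf leaf) ℓ (a, x, y) u =
      Sum.elim (fun _ => (pairPath Φ ε ℓ a u).1) (fun _ => (pairPath Φ ε ℓ a u).2) := by
  rcases le_or_gt u (Tree674.sin Φ ε ℓ.2 a) with h1 | h1
  · rw [path_node_before (l := leaf) (r := leaf) ℓ (a, x, y) h1, pairPath_before hΦ hε ha h1]
    rfl
  · rw [path_node_gt (l := leaf) (r := leaf) ℓ (a, x, y) h1]
    funext i
    rcases i with i | i
    · rw [Sum.elim_inl, Sum.elim_inl]
      have : i = root leaf := rfl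
      rw [this, Function.update_self, colPath_eq hΦ hε ha]
    · rw [Sum.elim_inr, Sum.elim_inr]
      have : i = root leaf := rfl
      rw [this, Function.update_self, colPath_eq hΦ hε ha]

/-- The path of the additional particle. -/
theorem path_graft_new (hΦ : AdmissiblePotential Φ) (hε : 0 < ε) : ∀ (P : CTree) (m : Idx P)
    (ℓ : PhasePoint) (a : NodeP) (p : Par P), Adm1 Φ (lines Φ ε P ℓ p m).2 a → ∀ u,
    path Φ ε (graft P m) ℓ (gpar P m (a, p)) u (new P m) =
      (pairPath Φ ε (lines Φ ε P ℓ p m) a u).2 := by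
  intro P
  induction P with
  | leaf =>
    intro m ℓ a p ha u
    exact congrFun (path_cherry hΦ hε ha () () u) (Sum.inr ())
  | node l r ihl ihr =>
    intro m ℓ a p ha u
    rcases m with m | m
    · have h := ihl m (inMap Φ ε ℓ p.1).1 a p.2.1 ha u
      refine Eq.trans ?_ h
      rcases le_or_gt u (Tree674.sin Φ ε ℓ.2 p.1) with h1 | h1
      · exact congrFun (path_node_before (l := graft l m) (r := r) ℓ
          (p.1, gpar l m (a, p.2.1), p.2.2) h1) (Sum.inl (new l m))
      · refine (congrFun (path_node_gt (l := graft l m) (r := r) ℓ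
          (p.1, gpar l m (a, p.2.1), p.2.2) h1) (Sum.inl (new l m))).trans ?_
        rw [Sum.elim_inl, root_graft, Function.update_of_ne (old_ne_new l m _).symm]
    · have h := ihr m (inMap Φ ε ℓ p.1).2 a p.2.2 ha u
      refine Eq.trans ?_ h
      rcases le_or_gt u (Tree674.sin Φ ε ℓ.2 p.1) with h1 | h1
      · exact congrFun (path_node_before (l := l) (r := graft r m) ℓ
          (p.1, p.2.1, gpar r m (a, p.2.2)) h1) (Sum.inr (new r m))
      · refine (congrFun (path_node_gt (l := l) (r := graft r m) ℓ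
          (p.1, p.2.1, gpar r m (a, p.2.2)) h1) (Sum.inr (new r m))).trans ?_
        rw [Sum.elim_inr, root_graft, Function.update_of_ne (old_ne_new r m _).symm]

/-- The additional particle after its exit time. -/
theorem path_graft_new_after (hΦ : AdmissiblePotential Φ) (hε : 0 < ε) {P : CTree} {m : Idx P}
    {ℓ : PhasePoint} {a : NodeP} {p : Par P} (ha : Adm1 Φ (lines Φ ε P ℓ p m).2 a) {u : ℝ}
    (hu : a.1 ≤ u) : path Φ ε (graft P m) ℓ (gpar P m (a, p)) u (new P m) =
      onLine (outLine ε (lines Φ ε P ℓ p m) a) u := by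
  rw [path_graft_new hΦ hε P m ℓ a p ha u, pairPath_after hΦ hε ha hu]


end Crest.Agent.R122.Graft968

end
private theorem rz_37425923bb : type_of% @_root_.Crest.Agent.R122.Graft968.After.eq_def := @_root_.Crest.Agent.R122.Graft968.After.eq_def -- L56
end

-- ▼ part R122/Graft2_968
section

/-!
# Row 122, block D, D5 (helper968): good configurations, the graft step

`Good0 Φ ε T i W σ P e ℓ p`: `W` is the configuration at time `0` of a valid separated tree with
root `i` and release times `σ`.  `good_graft`: the pull back to time `0` of the state in which the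
additional particle leaves the leaf `m` at the time `a.1` is good if the grafted tree is valid and
separated.
-/

set_option autoImplicit false

open MeasureTheory Set Filter Topology
open Crest.AnalysisR.Kinetic
open scoped Classical ENNReal

noncomputable section

namespace Crest.Agent.R122.Graft968

open Kin796 Kin796.CTree Disc416 Tree674 Flow671 Loc45 Causal291 PathFlow968 Surj968

variable {Φ : Space3 → ℝ} {ε : ℝ}

/-! ### Good configurations -/

/-- `W` is the initial configuration of a valid separated tree with root `i` and protected times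
`σ`. -/
structure Good0 (Φ : Space3 → ℝ) (ε T : ℝ) {κ : Type*} (i : κ) (W : κ → PhasePoint) (σ : κ → ℝ)
    (P : CTree) (e : Idx P ≃ κ) (ℓ : PhasePoint) (p : Par P) : Prop where
  valid : Valid Φ ε P T ℓ.2 p
  sep : Sep Φ ε P T ℓ p
  root : e (root P) = i
  state : ∀ x, W (e x) = lines Φ ε P ℓ p x
  rel : ∀ x, σ (e x) = prot P T p x

/-- `Z` is the configuration at time `s` of a valid separated tree with root `i`, protected times
`σ` and all collisions after `s`. -/
structure GoodAt (Φ : Space3 → ℝ) (ε T : ℝ) {κ : Type*} (i : κ) (s : ℝ) (Z : κ → PhasePoint)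
    (σ : κ → ℝ) (P : CTree) (e : Idx P ≃ κ) (ℓ : PhasePoint) (p : Par P) : Prop where
  valid : Valid Φ ε P T ℓ.2 p
  after : After Φ ε s P ℓ.2 p
  sep : Sep Φ ε P T ℓ p
  root : e (root P) = i
  state : ∀ x, Z (e x) = path Φ ε P ℓ p s x
  rel : ∀ x, σ (e x) = prot P T p x

/-- A single particle. -/
theorem good0_leaf (Φ : Space3 → ℝ) (ε T : ℝ) {κ : Type*} [Subsingleton κ] (i : κ)
    (W : κ → PhasePoint) (σ : κ → ℝ) (h : σ i = T) (e : Idx leaf ≃ κ) :
    Good0 Φ ε T i W σ leaf e (W i) () where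
  valid := ⟨trivial, trivial⟩
  sep := fun a b hab => absurd (Subsingleton.elim (α := Unit) a b) hab
  root := Subsingleton.elim _ _
  state _ := congrArg W (Subsingleton.elim _ _)
  rel _ := (congrArg σ (Subsingleton.elim _ _)).trans h

theorem exists_good0_leaf (Φ : Space3 → ℝ) (ε T : ℝ) {κ : Type*} [Subsingleton κ] (i : κ)
    (W : κ → PhasePoint) (σ : κ → ℝ) (h : σ i = T) :
    ∃ e : Idx leaf ≃ κ, Good0 Φ ε T i W σ leaf e (W i) () :=
  ⟨⟨fun _ => i, fun _ => (), fun _ => rfl, fun _ => Subsingleton.elim _ _⟩,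
    good0_leaf Φ ε T i W σ h _⟩

section good

variable {κ : Type*} [Fintype κ] {T : ℝ} {i : κ} {W : κ → PhasePoint} {σ : κ → ℝ} {P : CTree}
  {e : Idx P ≃ κ} {ℓ : PhasePoint} {p : Par P}

/-- The isolated motion of a good configuration is the path of the tree. -/
theorem Good0.flow_eq (hΦ : AdmissiblePotential Φ) (hε : 0 < ε)
    (h : Good0 Φ ε T i W σ P e ℓ p) {u : ℝ} (hu : u ∈ Icc 0 T) (x : Idx P) :
    flow Φ ε u W (e x) = path Φ ε P ℓ p u x := by
  have h1 : (fun x => W (e x)) = lines Φ ε P ℓ p := funext h.state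
  have h2 := path_eq_flow hΦ hε h.valid h.sep hu
  rw [← h1] at h2
  rw [h2, flow_equiv hΦ hε e u W]



/-- Relabelling of the particles of a grafted tree. -/
def gLabel {κ' : Type*} (P : CTree) (m : Idx P) (e : Idx P ≃ κ) (f : Option κ ≃ κ') :
    Idx (graft P m) ≃ κ' :=
  (gE P m).symm.trans ((Equiv.optionCongr e).trans f)

omit [Fintype κ] in
theorem gLabel_new {κ' : Type*} (m : Idx P) (f : Option κ ≃ κ') :
    gLabel P m e f (new P m) = f none := by
  simp [gLabel]

omit [Fintype κ] in
theorem gLabel_old {κ' : Type*} (m : Idx P) (f : Option κ ≃ κ') (k : Idx P) :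
    gLabel P m e f (old P m k) = f (some (e k)) := by
  simp [gLabel]

/-- **The graft step** (pull back to time `0`). -/
theorem good_graft0 (hΦ : AdmissiblePotential Φ) (hε : 0 < ε)
    (h : Good0 Φ ε T i W σ P e ℓ p) (m : Idx P) (a : NodeP)
    (hv : Valid Φ ε (graft P m) T ℓ.2 (gpar P m (a, p)))
    (hs : Sep Φ ε (graft P m) T ℓ (gpar P m (a, p)))
    {κ' : Type*} [Fintype κ'] (f : Option κ ≃ κ') {W' : κ' → PhasePoint} {σ' : κ' → ℝ}
    (h1 : ∀ k, flow Φ ε a.1 W' (f (some k)) = flow Φ ε a.1 W k)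
    (h2 : flow Φ ε a.1 W' (f none) = onLine (outLine ε (lines Φ ε P ℓ p m) a) a.1)
    (h3 : ∀ k, σ' (f (some k)) = σ k) (h4 : σ' (f none) = a.1) :
    Good0 Φ ε T (f (some i)) W' σ' (graft P m) (gLabel P m e f) ℓ (gpar P m (a, p)) := by
  obtain ⟨hvP, hadm, hent, hsin⟩ := valid_graft.1 hv
  have hadm' : Adm1 Φ (lines Φ ε P ℓ p m).2 a := by
    rw [lines_snd]
    exact hadm
  have ha0 : 0 ≤ a.1 := hsin.le.trans (sin_le hε.le _ a)
  have haT : a.1 ≤ T := hent.le.trans (entr_le hε.le P T _ p m hvP.2)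
  refine ⟨hv, hs, ?_, ?_, ?_⟩
  · rw [root_graft, gLabel_old, h.root]
  · -- the states agree at the time `a.1`
    have key : (fun x => flow Φ ε a.1 W' (gLabel P m e f x)) =
        path Φ ε (graft P m) ℓ (gpar P m (a, p)) a.1 := by
      funext x
      induction x using gcases with
      | hn => rw [gLabel_new, h2, path_graft_new_after hΦ hε hadm' le_rfl]
      | ho k =>
        rw [gLabel_old, h1, path_graft_old hΦ hε P m T ℓ a p hv a.1 k (Or.inr le_rfl),
          h.flow_eq hΦ hε ⟨ha0, haT⟩]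
    rw [← flow_equiv hΦ hε (gLabel P m e f) a.1 W',
      path_eq_flow hΦ hε hv hs ⟨ha0, haT⟩] at key
    exact fun x => congrFun ((flow_bijective hΦ hε a.1).1 key) x
  · intro x
    induction x using gcases with
    | hn => rw [gLabel_new, h4, prot_graft_new]
    | ho k => rw [gLabel_old, h3, prot_graft_old, h.rel]


end good

/-- **The node parameter** of a particle `z` which leaves the particle on the line `ℓ` at time
`s`. -/
theorem exists_node (hε : 0 < ε) {ℓ z : PhasePoint} {s : ℝ}
    (hd : dist z.1 (onLine ℓ s).1 = ε)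
    (ho : 0 < inner ℝ (z.1 - (onLine ℓ s).1) (z.2 - (onLine ℓ s).2)) :
    ∃ a : NodeP, a.1 = s ∧ a.2.1 = z.2 ∧ ‖a.2.2‖ < 1 ∧ ℓ.2 ≠ a.2.1 ∧
      onLine (outLine ε ℓ a) s = z := by
  set e : Space3 := (1 / ε) • (z.1 - (onLine ℓ s).1) with hedef
  set g : Space3 := ℓ.2 - z.2 with hgdef
  have henorm : ‖e‖ = 1 := by
    rw [hedef, norm_smul, ← dist_eq_norm, hd, Real.norm_eq_abs, abs_of_pos (by positivity),
      one_div, inv_mul_cancel₀ hε.ne']
  have heg : inner ℝ e g < 0 := by
    rw [hedef, inner_smul_left, hgdef]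
    simp only [conj_trivial]
    have h1 : 0 < 1 / ε * inner ℝ (z.1 - (onLine ℓ s).1) (z.2 - (onLine ℓ s).2) :=
      mul_pos (by positivity) ho
    have h2 : ℓ.2 - z.2 = -(z.2 - (onLine ℓ s).2) := (neg_sub _ _).symm
    rw [h2, inner_neg_right]
    linarith
  obtain ⟨b, hb, hbe⟩ := exists_impact henorm heg
  have hg0 : g ≠ 0 := by
    rintro h
    rw [h] at heg
    simp at heg
  obtain ⟨y, hy⟩ : b ∈ Set.range (frameMap g) := by
    rw [range_frameMap hg0]
    exact hb.1
  have hynorm : ‖y‖ < 1 := by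
    rw [← norm_frameMap hg0 y, hy]
    exact hb.2
  refine ⟨(s, z.2, y), rfl, rfl, hynorm, sub_ne_zero.1 hg0, ?_⟩
  have hnb : nb ℓ.2 (s, z.2, y) = b := hy
  have hng : ng ℓ.2 (s, z.2, y) = g := rfl
  unfold outLine
  rw [hnb, hng, hbe, hedef]
  unfold onLine
  refine Prod.ext ?_ rfl
  simp only
  rw [smul_smul, mul_one_div_cancel hε.ne', one_smul]
  abel

/-- **One release**: at the time `s`, before the first collision of the leaf `m` of a good
configuration, the particle `z` leaves `m`; the node parameter `a`; if the grafted tree is valid and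
separated, then the pull back `W'` to time `0` is good. -/
theorem exists_graft (hΦ : AdmissiblePotential Φ) (hε : 0 < ε) {κ : Type*} [Fintype κ] {T : ℝ}
    {i : κ} {W : κ → PhasePoint} {σ : κ → ℝ} {P : CTree} {e : Idx P ≃ κ} {ℓ : PhasePoint}
    {p : Par P} (h : Good0 Φ ε T i W σ P e ℓ p) {s : ℝ} (hs : 0 ≤ s) (m : Idx P)
    (hm : s ≤ entr Φ ε P T ℓ.2 p m) {z : PhasePoint}
    (hd : dist z.1 (flow Φ ε s W (e m)).1 = ε)
    (ho : 0 < inner ℝ (z.1 - (flow Φ ε s W (e m)).1) (z.2 - (flow Φ ε s W (e m)).2)) :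
    flow Φ ε s W (e m) = onLine (lines Φ ε P ℓ p m) s ∧
    ∃ a : NodeP, a.1 = s ∧ a.2.1 = z.2 ∧ ‖a.2.2‖ < 1 ∧ (lines Φ ε P ℓ p m).2 ≠ a.2.1 ∧
      onLine (outLine ε (lines Φ ε P ℓ p m) a) s = z ∧
      (Valid Φ ε (graft P m) T ℓ.2 (gpar P m (a, p)) →
        Sep Φ ε (graft P m) T ℓ (gpar P m (a, p)) →
        ∀ {κ' : Type*} [Fintype κ'] (f : Option κ ≃ κ') {W' : κ' → PhasePoint} {σ' : κ' → ℝ},
          (∀ k, flow Φ ε s W' (f (some k)) = flow Φ ε s W k) → flow Φ ε s W' (f none) = z →
          (∀ k, σ' (f (some k)) = σ k) → σ' (f none) = s →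
          Good0 Φ ε T (f (some i)) W' σ' (graft P m) (gLabel P m e f) ℓ (gpar P m (a, p))) := by
  have hsT : s ≤ T := hm.trans (entr_le hε.le P T _ p m h.valid.2)
  have h1 : flow Φ ε s W (e m) = onLine (lines Φ ε P ℓ p m) s := by
    rw [h.flow_eq hΦ hε ⟨hs, hsT⟩, path_of_le_entr hε.le P T ℓ p m h.valid.2 s hm]
  rw [h1] at hd ho ⊢
  obtain ⟨a, ha1, ha2, ha3, ha4, ha5⟩ := exists_node hε hd ho
  refine ⟨rfl, a, ha1, ha2, ha3, ha4, ha5, ?_⟩
  intro hv hsep κ' _ f W' σ' g1 g2 g3 g4
  subst ha1
  exact good_graft0 hΦ hε h m a hv hsep f g1 (g2.trans ha5.symm) g3 g4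

/-! ### The measure on the parameters -/

theorem measurable_gpar : ∀ (P : CTree) (m : Idx P),
    Measurable fun q : NodeP × Par P => gpar P m (q.1, q.2)
  | leaf, _ => measurable_fst.prodMk (measurable_const.prodMk measurable_const)
  | node l r, Sum.inl m => by
      have h2 : Measurable fun q : NodeP × Par (node l r) => q.2 := measurable_snd
      have h1 := (measurable_par1 l r).comp h2
      have hl := (measurable_parL l r).comp h2
      have hr := (measurable_parR l r).comp h2
      exact h1.prodMk (((measurable_gpar l m).comp (measurable_fst.prodMk hl)).prodMk hr)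
  | node l r, Sum.inr m => by
      have h2 : Measurable fun q : NodeP × Par (node l r) => q.2 := measurable_snd
      have h1 := (measurable_par1 l r).comp h2
      have hl := (measurable_parL l r).comp h2
      have hr := (measurable_parR l r).comp h2
      exact h1.prodMk (hl.prodMk ((measurable_gpar r m).comp (measurable_fst.prodMk hr)))

/-- Integration over the parameters of a node, all variables separated. -/
theorem lintegral_par_node3 (l r : CTree) {f : Par (node l r) → ℝ≥0∞} (hf : Measurable f) :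
    ∫⁻ p : Par (node l r), f p =
      ∫⁻ a : NodeP, ∫⁻ x : Par l, ∫⁻ y : Par r, f ((a, (x, y)) : Par (node l r)) := by
  rw [lintegral_par_node l r hf]
  refine lintegral_congr fun a => ?_
  have h : Measurable fun y : Par l × Par r => f ((a, y) : Par (node l r)) :=
    hf.comp (measurable_const.prodMk measurable_id)
  exact lintegral_pair h

theorem measurable_mk3 {α : Type*} [MeasurableSpace α] {l r : CTree} {f : Par (node l r) → ℝ≥0∞}
    (hf : Measurable f) {A : α → NodeP} {X : α → Par l} {Y : α → Par r} (hA : Measurable A)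
    (hX : Measurable X) (hY : Measurable Y) :
    Measurable fun z => f ((A z, (X z, Y z)) : Par (node l r)) :=
  hf.comp (hA.prodMk (hX.prodMk hY))

/-- **Integration over the parameters of the grafted tree.** -/
theorem lintegral_gpar (P : CTree) : ∀ (m : Idx P) {f : Par (graft P m) → ℝ≥0∞}
    (_ : Measurable f), ∫⁻ q, f q = ∫⁻ a : NodeP, ∫⁻ p : Par P, f (gpar P m (a, p)) := by
  induction P with
  | leaf =>
    intro m f hf
    have h1 := lintegral_par_node3 leaf leaf (f := f) hf
    refine h1.trans (lintegral_congr fun a => ?_)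
    rw [lintegral_par_leaf, lintegral_par_leaf]
    exact (lintegral_par_leaf fun p : Par leaf => f (gpar leaf m (a, p))).symm
  | node l r ihl ihr =>
    intro m f hf
    rcases m with m | m
    · have h1 := lintegral_par_node3 (graft l m) r (f := f) hf
      have h2 : ∀ a : NodeP, ∫⁻ p : Par (node l r), f (gpar (node l r) (Sum.inl m) (a, p)) =
          ∫⁻ a₀ : NodeP, ∫⁻ x : Par l, ∫⁻ y : Par r,
            f ((a₀, (gpar l m (a, x), y)) : Par (node (graft l m) r)) := fun a =>
        lintegral_par_node3 l r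
          (f := fun p => f (gpar (node l r) (Sum.inl m) (a, p)))
          (hf.comp ((measurable_gpar (node l r) (Sum.inl m)).comp
            (measurable_const.prodMk measurable_id)))
      have hg : Measurable fun z : (NodeP × Par (graft l m)) × Par r =>
          f ((z.1.1, (z.1.2, z.2)) : Par (node (graft l m) r)) :=
        measurable_mk3 (l := graft l m) (r := r) hf measurable_fst.fst measurable_fst.snd
          measurable_snd
      have hg1 : Measurable fun z : NodeP × Par (graft l m) => ∫⁻ y : Par r,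
          f ((z.1, (z.2, y)) : Par (node (graft l m) r)) := hg.lintegral_prod_right'
      refine h1.trans ?_
      simp_rw [h2]
      have h3 : ∀ a₀ : NodeP, ∫⁻ x' : Par (graft l m), ∫⁻ y : Par r,
          f ((a₀, (x', y)) : Par (node (graft l m) r)) =
          ∫⁻ a : NodeP, ∫⁻ x : Par l, ∫⁻ y : Par r,
            f ((a₀, (gpar l m (a, x), y)) : Par (node (graft l m) r)) := fun a₀ =>
        ihl m (f := fun x' => ∫⁻ y : Par r, f ((a₀, (x', y)) : Par (node (graft l m) r)))
          (hg1.comp (measurable_const.prodMk measurable_id))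
      have hG : Measurable fun z : ((NodeP × NodeP) × Par l) × Par r =>
          f ((z.1.1.1, (gpar l m (z.1.1.2, z.1.2), z.2)) : Par (node (graft l m) r)) :=
        measurable_mk3 (l := graft l m) (r := r) hf measurable_fst.fst.fst
          ((measurable_gpar l m).comp (measurable_fst.fst.snd.prodMk measurable_fst.snd))
          measurable_snd
      have hG0 : Measurable fun z : (NodeP × NodeP) × Par l => ∫⁻ y : Par r,
          f ((z.1.1, (gpar l m (z.1.2, z.2), y)) : Par (node (graft l m) r)) :=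
        hG.lintegral_prod_right'
      have hG1 : Measurable fun z : NodeP × NodeP => ∫⁻ x : Par l, ∫⁻ y : Par r,
          f ((z.1, (gpar l m (z.2, x), y)) : Par (node (graft l m) r)) :=
        hG0.lintegral_prod_right'
      rw [lintegral_congr h3]
      exact lintegral_lintegral_swap (f := fun a₀ a => ∫⁻ x : Par l, ∫⁻ y : Par r,
            f ((a₀, (gpar l m (a, x), y)) : Par (node (graft l m) r))) hG1.aemeasurable
    · have h1 := lintegral_par_node3 l (graft r m) (f := f) hf
      have h2 : ∀ a : NodeP, ∫⁻ p : Par (node l r), f (gpar (node l r) (Sum.inr m) (a, p)) =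
          ∫⁻ a₀ : NodeP, ∫⁻ x : Par l, ∫⁻ y : Par r,
            f ((a₀, (x, gpar r m (a, y))) : Par (node l (graft r m))) := fun a =>
        lintegral_par_node3 l r
          (f := fun p => f (gpar (node l r) (Sum.inr m) (a, p)))
          (hf.comp ((measurable_gpar (node l r) (Sum.inr m)).comp
            (measurable_const.prodMk measurable_id)))
      refine h1.trans ?_
      simp_rw [h2]
      have h3 : ∀ (a₀ : NodeP) (x : Par l), ∫⁻ y' : Par (graft r m),
          f ((a₀, (x, y')) : Par (node l (graft r m))) =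
          ∫⁻ a : NodeP, ∫⁻ y : Par r,
            f ((a₀, (x, gpar r m (a, y))) : Par (node l (graft r m))) := fun a₀ x =>
        ihr m (f := fun y' => f ((a₀, (x, y')) : Par (node l (graft r m))))
          (measurable_mk3 (l := l) (r := graft r m) hf measurable_const measurable_const
            measurable_id)
      have hG : Measurable fun z : ((NodeP × Par l) × NodeP) × Par r =>
          f ((z.1.1.1, (z.1.1.2, gpar r m (z.1.2, z.2))) : Par (node l (graft r m))) :=
        measurable_mk3 (l := l) (r := graft r m) hf measurable_fst.fst.fst measurable_fst.fst.snd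
          ((measurable_gpar r m).comp (measurable_fst.snd.prodMk measurable_snd))
      have hG' : Measurable fun z : ((NodeP × NodeP) × Par l) × Par r =>
          f ((z.1.1.1, (z.1.2, gpar r m (z.1.1.2, z.2))) : Par (node l (graft r m))) :=
        measurable_mk3 (l := l) (r := graft r m) hf measurable_fst.fst.fst measurable_fst.snd
          ((measurable_gpar r m).comp (measurable_fst.fst.snd.prodMk measurable_snd))
      have hG1 : Measurable fun z : (NodeP × Par l) × NodeP => ∫⁻ y : Par r,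
          f ((z.1.1, (z.1.2, gpar r m (z.2, y))) : Par (node l (graft r m))) :=
        hG.lintegral_prod_right'
      have hG0 : Measurable fun z : (NodeP × NodeP) × Par l => ∫⁻ y : Par r,
          f ((z.1.1, (z.2, gpar r m (z.1.2, y))) : Par (node l (graft r m))) :=
        hG'.lintegral_prod_right'
      have hG2 : Measurable fun z : NodeP × NodeP => ∫⁻ x : Par l, ∫⁻ y : Par r,
          f ((z.1, (x, gpar r m (z.2, y))) : Par (node l (graft r m))) :=
        hG0.lintegral_prod_right'
      have h4 : ∀ a₀ : NodeP, ∫⁻ x : Par l, ∫⁻ y' : Par (graft r m),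
          f ((a₀, (x, y')) : Par (node l (graft r m))) =
          ∫⁻ a : NodeP, ∫⁻ x : Par l, ∫⁻ y : Par r,
            f ((a₀, (x, gpar r m (a, y))) : Par (node l (graft r m))) := by
        intro a₀
        rw [lintegral_congr (h3 a₀)]
        refine lintegral_lintegral_swap (f := fun (x : Par l) (a : NodeP) => ∫⁻ y : Par r,
          f ((a₀, (x, gpar r m (a, y))) : Par (node l (graft r m)))) ?_
        exact (hG1.comp ((measurable_const.prodMk measurable_fst).prodMk
          measurable_snd)).aemeasurable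
      rw [lintegral_congr h4]
      exact lintegral_lintegral_swap (f := fun a₀ a => ∫⁻ x : Par l, ∫⁻ y : Par r,
            f ((a₀, (x, gpar r m (a, y))) : Par (node l (graft r m)))) hG2.aemeasurable

theorem measurePreserving_gpar (P : CTree) (m : Idx P) :
    MeasurePreserving (gpar P m) volume volume := by
  have hm : Measurable (gpar P m) := measurable_gpar P m
  refine ⟨hm, ?_⟩
  ext S hS
  have h1 : Measurable (S.indicator (1 : Par (graft P m) → ℝ≥0∞)) :=
    measurable_const.indicator hS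
  have h2 : Measurable ((gpar P m ⁻¹' S).indicator (1 : NodeP × Par P → ℝ≥0∞)) :=
    measurable_const.indicator (hm hS)
  rw [Measure.map_apply hm hS, ← lintegral_indicator_one hS, lintegral_gpar P m h1,
    ← lintegral_indicator_one (hm hS), lintegral_pair h2]
  rfl

end Crest.Agent.R122.Graft968

end
end

-- ▼ part R122/BadDefs_726

/-!
# Bad release chains (row 122, D5, helper726): definitions

All states are time-`0` pull-backs, `T` is the horizon of the trees.
-/

set_option autoImplicit false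
set_option linter.unusedSectionVars false

open Set Filter Topology
open Crest.AnalysisR.Kinetic
open scoped Classical

noncomputable section

namespace Crest.Agent.R122.Chain726

open Kin796 Kin796.CTree Disc416 Tree674 Flow671 Loc45 Causal291 PathFlow968 Surj968 Graft968

/-- **Bad graft**: `W'` is the configuration at time `0` of a valid separated tree with root `i` and
all exit times `≥ s`; at time `s` the partner `z` leaves the particle `m` with the planar impact
parameter `y`; a collision window of the tree is not after `s`, or the grafted tree is not valid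
or not separated. -/
def BadGraft (Φ : Space3 → ℝ) (ε T : ℝ) {κ : Type*} [Fintype κ] (i : κ) (s : ℝ)
    (W' : κ → PhasePoint) (m : κ) (z : PhasePoint) : Prop :=
  ∃ (P : CTree) (e : Idx P ≃ κ) (ℓ : PhasePoint) (p : Par P) (y : Plane),
    Valid Φ ε P T ℓ.2 p ∧ Sep Φ ε P T ℓ p ∧ e (root P) = i ∧ (∀ x, W' (e x) = lines Φ ε P ℓ p x) ∧
    (∀ x, s ≤ prot P T p x) ∧ ‖y‖ < 1 ∧ (flow Φ ε s W' m).2 ≠ z.2 ∧
    z.1 = (flow Φ ε s W' m).1 + ε • entrancePoint (frameMap ((flow Φ ε s W' m).2 - z.2) y)
      ((flow Φ ε s W' m).2 - z.2) ∧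
    ¬ (After Φ ε s P ℓ.2 p ∧
      Valid Φ ε (graft P (e.symm m)) T ℓ.2 (gpar P (e.symm m) ((s, z.2, y), p)) ∧
      Sep Φ ε (graft P (e.symm m)) T ℓ (gpar P (e.symm m) ((s, z.2, y), p)))

/-- **Badness of the release step** `W → W'` at time `s`: at least two particles are released
together (and the chain of the remaining group goes on to the root), or one particle is released and
the release is grazing, or the graft is bad. -/
def BadAt (Φ : Space3 → ℝ) (ε T : ℝ) {ι : Type*} (i : ι) (s : ℝ) {A A' : Finset ι}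
    (W : A → PhasePoint) (W' : A' → PhasePoint) : Prop :=
  (A'.card + 2 ≤ A.card ∧ ∃ W'' : ({i} : Finset ι) → PhasePoint,
      Chain Φ ε T A' W' {i} W'') ∨
    (A'.card + 1 = A.card ∧ ∃ (j : A) (m : A') (i' : A'), (i' : ι) = i ∧ (j : ι) ∉ A' ∧
      dist (flow Φ ε s W j).1 (flow Φ ε s W' m).1 = ε ∧
      (inner ℝ ((flow Φ ε s W j).1 - (flow Φ ε s W' m).1)
          ((flow Φ ε s W j).2 - (flow Φ ε s W' m).2) = 0 ∨
        0 < inner ℝ ((flow Φ ε s W j).1 - (flow Φ ε s W' m).1)
          ((flow Φ ε s W j).2 - (flow Φ ε s W' m).2) ∧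
        BadGraft Φ ε T i' s W' m (flow Φ ε s W j)))

/-- **Bad release step** from the group `A`. -/
def BadStep (Φ : Space3 → ℝ) (ε T : ℝ) {ι : Type*} (i : ι) {A : Finset ι} (W : A → PhasePoint) :
    Prop :=
  ∃ s ∈ Icc 0 T, ∃ (A' : Finset ι) (W' : A' → PhasePoint), Step Φ ε s W W' ∧
    BadAt Φ ε T i s W W'

/-- **Bad terminal group**: at least three particles which are contact-connected at a time in
`[0, te]`, or two particles in contact at the horizon `T`. -/
def TermBad (Φ : Space3 → ℝ) (ε T te : ℝ) {ι : Type*} (i : ι) {A : Finset ι}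
    (W : A → PhasePoint) : Prop :=
  ∃ i' : A, (i' : ι) = i ∧
    ((3 ≤ A.card ∧ ∃ u ∈ Icc 0 te, ∀ k : A,
        Relation.ReflTransGen (fun a b => dst (flow Φ ε u W) a b ≤ ε) i' k) ∨
      (A.card = 2 ∧ ∃ j : A, j ≠ i' ∧ dst (flow Φ ε T W) i' j ≤ ε))

/-- **Bad group**: a chain of releases leads to a bad step or to a bad terminal group. -/
def BadGrp (Φ : Space3 → ℝ) (ε T te : ℝ) {ι : Type*} (i : ι) (A : Finset ι)
    (W : A → PhasePoint) : Prop :=
  ∃ (A' : Finset ι) (W' : A' → PhasePoint), Chain Φ ε T A W A' W' ∧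
    (BadStep Φ ε T i W' ∨ TermBad Φ ε T te i W')

/-- **Bad configuration.** -/
def BadCh (Φ : Space3 → ℝ) (ε T te : ℝ) {ι : Type*} [Fintype ι] (V : ι → PhasePoint) (i : ι) :
    Prop :=
  BadGrp Φ ε T te i Finset.univ (grp Finset.univ V)

theorem BadGrp.of_chain {Φ : Space3 → ℝ} {ε T te : ℝ} {ι : Type*} {i : ι} {A A' : Finset ι}
    {W : A → PhasePoint} {W' : A' → PhasePoint} (h : Chain Φ ε T A W A' W')
    (h' : BadGrp Φ ε T te i A' W') : BadGrp Φ ε T te i A W := by
  obtain ⟨A₁, W₁, hc, hb⟩ := h'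
  exact ⟨A₁, W₁, h.trans hc, hb⟩

theorem BadGrp.of_step {Φ : Space3 → ℝ} {ε T te : ℝ} {ι : Type*} {i : ι} {A : Finset ι}
    {W : A → PhasePoint} (h : BadStep Φ ε T i W) : BadGrp Φ ε T te i A W :=
  ⟨A, W, .refl _ _, Or.inl h⟩

theorem BadGrp.of_term {Φ : Space3 → ℝ} {ε T te : ℝ} {ι : Type*} {i : ι} {A : Finset ι}
    {W : A → PhasePoint} (h : TermBad Φ ε T te i W) : BadGrp Φ ε T te i A W :=
  ⟨A, W, .refl _ _, Or.inr h⟩

end Crest.Agent.R122.Chain726

end
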