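import Crest.Prelude.Def_KineticLimit
import Crest.Agent.R122.FlowLip_671

-- ▼ part R122/Scat1_818
section

/-!
# Row 122, block F2: two-body scattering, part 1

Radial profile, gradient of a radial potential, cut-off forces.
-/

set_option autoImplicit false

open MeasureTheory Filter Set
open scoped Topology NNReal
open Crest.AnalysisR.Kinetic

noncomputable section

namespace Crest.Agent.R122.Scat818

/-! ### Gradient of a radial potential -/

lemma gradient_comp_isometry {Φ : Space3 → ℝ} (hrad : ∀ q q' : Space3, ‖q‖ = ‖q'‖ → Φ q = Φ q')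
    (R : Space3 ≃ₗᵢ[ℝ] Space3) (q : Space3) :
    gradient Φ (R q) = R (gradient Φ q) := by
  have hcomp : Φ ∘ R = Φ := by
    funext x; exact hrad _ _ (R.norm_map x)
  have h1 : fderiv ℝ (Φ ∘ R.toContinuousLinearEquiv) q
      = (fderiv ℝ Φ (R.toContinuousLinearEquiv q)).comp
        (R.toContinuousLinearEquiv : Space3 →L[ℝ] Space3) :=
    R.toContinuousLinearEquiv.comp_right_fderiv
  have h2 : Φ ∘ R.toContinuousLinearEquiv = Φ := hcomp
  rw [h2] at h1
  apply ext_inner_right ℝ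
  intro y
  rw [← R.apply_symm_apply y, R.inner_map_map, inner_gradient_left, inner_gradient_left, h1]
  simp

lemma exists_gradient_eq_smul {Φ : Space3 → ℝ} (hrad : ∀ q q' : Space3, ‖q‖ = ‖q'‖ → Φ q = Φ q')
    (q : Space3) : ∃ c : ℝ, gradient Φ q = c • q := by
  have h := gradient_comp_isometry hrad ((Submodule.span ℝ {q}).reflection) q
  have h2 : (Submodule.span ℝ {q}).reflection q = q :=
    Submodule.reflection_mem_subspace_eq_self (Submodule.mem_span_singleton_self q)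
  rw [h2] at h
  have h3 : gradient Φ q ∈ Submodule.span ℝ {q} :=
    (Submodule.reflection_eq_self_iff _).1 h.symm
  obtain ⟨c, hc⟩ := Submodule.mem_span_singleton.1 h3
  exact ⟨c, hc.symm⟩

lemma gradient_zero {Φ : Space3 → ℝ} (hrad : ∀ q q' : Space3, ‖q‖ = ‖q'‖ → Φ q = Φ q') :
    gradient Φ 0 = 0 := by
  obtain ⟨c, hc⟩ := exists_gradient_eq_smul hrad 0
  rw [hc, smul_zero]

/-! ### The radial profile -/

/-- a fixed unit vector -/
def e0 : Space3 := EuclideanSpace.single 0 1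

@[simp] lemma norm_e0 : ‖e0‖ = 1 := by simp [e0]

/-- radial profile of the potential -/
def prof (Φ : Space3 → ℝ) (r : ℝ) : ℝ := Φ (r • e0)

variable {Φ : Space3 → ℝ}

lemma eq_prof (hΦ : AdmissiblePotential Φ) (q : Space3) : Φ q = prof Φ ‖q‖ := by
  apply hΦ.radial
  rw [norm_smul, norm_e0, mul_one, norm_norm]


lemma prof_abs (hΦ : AdmissiblePotential Φ) (r : ℝ) : prof Φ |r| = prof Φ r := by
  apply hΦ.radial
  rw [norm_smul, norm_smul, Real.norm_eq_abs, abs_abs, Real.norm_eq_abs]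

lemma prof_eq_zero (hΦ : AdmissiblePotential Φ) {r : ℝ} (hr : 1 ≤ r) : prof Φ r = 0 := by
  apply hΦ.eq_zero_of_one_le_norm
  rw [norm_smul, norm_e0, mul_one, Real.norm_eq_abs]
  exact hr.trans (le_abs_self r)

lemma contDiffAt_of_ne (hΦ : AdmissiblePotential Φ) {q : Space3} (hq : q ≠ 0) :
    ContDiffAt ℝ 2 Φ q :=
  hΦ.contDiff_away_from_origin.contDiffAt (isOpen_ne.mem_nhds hq)

lemma prof_contDiffAt (hΦ : AdmissiblePotential Φ) {r : ℝ} (hr : r ≠ 0) :
    ContDiffAt ℝ 2 (prof Φ) r := by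
  have h1 : ContDiffAt ℝ 2 (fun s : ℝ => s • e0) r := by fun_prop
  have h2 : r • e0 ≠ 0 := by
    intro h
    have := congrArg norm h
    rw [norm_smul, norm_e0, mul_one, norm_zero, norm_eq_zero] at this
    exact hr this
  exact ContDiffAt.comp r (contDiffAt_of_ne hΦ h2) h1

lemma prof_contDiffOn (hΦ : AdmissiblePotential Φ) : ContDiffOn ℝ 2 (prof Φ) (Ioi 0) :=
  fun _ hr => (prof_contDiffAt hΦ (ne_of_gt hr)).contDiffWithinAt

lemma prof_differentiableAt (hΦ : AdmissiblePotential Φ) {r : ℝ} (hr : r ≠ 0) :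
    DifferentiableAt ℝ (prof Φ) r :=
  (prof_contDiffAt hΦ hr).differentiableAt (by norm_num)

lemma prof_hasDerivAt (hΦ : AdmissiblePotential Φ) {r : ℝ} (hr : r ≠ 0) :
    HasDerivAt (prof Φ) (deriv (prof Φ) r) r :=
  (prof_differentiableAt hΦ hr).hasDerivAt

lemma prof_continuousAt (hΦ : AdmissiblePotential Φ) {r : ℝ} (hr : r ≠ 0) :
    ContinuousAt (prof Φ) r :=
  (prof_differentiableAt hΦ hr).continuousAt

lemma deriv_prof_contDiffOn (hΦ : AdmissiblePotential Φ) :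
    ContDiffOn ℝ 1 (deriv (prof Φ)) (Ioi 0) :=
  (prof_contDiffOn hΦ).deriv_of_isOpen isOpen_Ioi (by norm_num)

lemma deriv_prof_contDiffAt (hΦ : AdmissiblePotential Φ) {r : ℝ} (hr : 0 < r) :
    ContDiffAt ℝ 1 (deriv (prof Φ)) r :=
  (deriv_prof_contDiffOn hΦ).contDiffAt (isOpen_Ioi.mem_nhds hr)

lemma deriv_prof_continuousAt (hΦ : AdmissiblePotential Φ) {r : ℝ} (hr : 0 < r) :
    ContinuousAt (deriv (prof Φ)) r :=
  (deriv_prof_contDiffAt hΦ hr).continuousAt

lemma deriv_prof_eq_zero (hΦ : AdmissiblePotential Φ) {r : ℝ} (hr : 1 ≤ r) :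
    deriv (prof Φ) r = 0 := by
  have hr0 : r ≠ 0 := by linarith
  have h1 : HasDerivWithinAt (prof Φ) (deriv (prof Φ) r) (Ici r) r :=
    (prof_hasDerivAt hΦ hr0).hasDerivWithinAt
  have h2 : HasDerivWithinAt (prof Φ) 0 (Ici r) r := by
    have h3 : HasDerivWithinAt (fun _ : ℝ => (0:ℝ)) 0 (Ici r) r := hasDerivWithinAt_const _ _ _
    refine h3.congr (fun y hy => prof_eq_zero hΦ (hr.trans hy)) (prof_eq_zero hΦ hr)
  exact (uniqueDiffWithinAt_Ici r).eq_deriv _ h1 h2

lemma inner_gradient_self (hΦ : AdmissiblePotential Φ) (q : Space3) :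
    inner ℝ q (gradient Φ q) = deriv (prof Φ) ‖q‖ * ‖q‖ := by
  by_cases hq : q = 0
  · rw [hq, inner_zero_left, norm_zero, mul_zero]
  have hnq : ‖q‖ ≠ 0 := norm_ne_zero_iff.2 hq
  have hd : DifferentiableAt ℝ Φ q := (contDiffAt_of_ne hΦ hq).differentiableAt (by norm_num)
  rw [real_inner_comm, inner_gradient_left]
  -- derivative of t ↦ Φ (t • q) at 1
  have h1 : HasDerivAt (fun t : ℝ => Φ (t • q)) (fderiv ℝ Φ q q) 1 := by
    have h2 : HasDerivAt (fun t : ℝ => t • q) q 1 := by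
      simpa using (hasDerivAt_id (1:ℝ)).smul_const q
    have h3 : HasFDerivAt Φ (fderiv ℝ Φ q) ((1:ℝ) • q) := by
      rw [one_smul]; exact hd.hasFDerivAt
    exact h3.comp_hasDerivAt (1:ℝ) h2
  have h4 : HasDerivAt (fun t : ℝ => Φ (t • q)) (deriv (prof Φ) ‖q‖ * ‖q‖) 1 := by
    have h5 : (fun t : ℝ => Φ (t • q)) = fun t => prof Φ (t * ‖q‖) := by
      funext t
      rw [eq_prof hΦ, norm_smul, Real.norm_eq_abs]
      have : |t| * ‖q‖ = |t * ‖q‖| := by rw [abs_mul, abs_of_nonneg (norm_nonneg q)]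
      rw [this, prof_abs hΦ]
    rw [h5]
    have h6 : HasDerivAt (fun t : ℝ => t * ‖q‖) ‖q‖ 1 := by
      simpa using (hasDerivAt_id (1:ℝ)).mul_const ‖q‖
    have h7 : HasDerivAt (prof Φ) (deriv (prof Φ) ‖q‖) ((1:ℝ) * ‖q‖) := by
      rw [one_mul]; exact prof_hasDerivAt hΦ hnq
    exact h7.comp (1:ℝ) h6
  exact h1.unique h4

lemma gradient_eq (hΦ : AdmissiblePotential Φ) (q : Space3) :
    gradient Φ q = (deriv (prof Φ) ‖q‖ / ‖q‖) • q := by
  by_cases hq : q = 0
  · rw [hq, gradient_zero hΦ.radial, smul_zero]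
  have hnq : ‖q‖ ≠ 0 := norm_ne_zero_iff.2 hq
  obtain ⟨c, hc⟩ := exists_gradient_eq_smul hΦ.radial q
  have h := inner_gradient_self hΦ q
  rw [hc, inner_smul_right, real_inner_self_eq_norm_sq] at h
  rw [hc]
  congr 1
  field_simp
  have : (c * ‖q‖) * ‖q‖ = deriv (prof Φ) ‖q‖ * ‖q‖ := by rw [← h]; ring
  exact mul_right_cancel₀ hnq this

lemma gradient_eq_zero (hΦ : AdmissiblePotential Φ) {q : Space3} (hq : 1 ≤ ‖q‖) :
    gradient Φ q = 0 := by
  rw [gradient_eq hΦ, deriv_prof_eq_zero hΦ hq, zero_div, zero_smul]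


/-- lower bound from stability -/
lemma exists_lower_bound (hΦ : AdmissiblePotential Φ) :
    ∃ C : ℝ, 0 ≤ C ∧ ∀ q : Space3, q ≠ 0 → -C ≤ Φ q := by
  obtain ⟨B, hB, h⟩ := hΦ.stable
  refine ⟨2 * B, by linarith, fun q hq => ?_⟩
  have h2 := h 2 ![q, 0] (by
    intro i j hij
    fin_cases i <;> fin_cases j <;> simp_all)
  simp only [pairEnergy, Fin.sum_univ_two] at h2
  simp at h2
  linarith


/-! ### Regularity of the force -/

/-- the relative acceleration -/
def force (Φ : Space3 → ℝ) (q : Space3) : Space3 := -(2 : ℝ) • gradient Φ q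

lemma gradient_apply (q : Space3) (i : Fin 3) :
    (gradient Φ q) i = fderiv ℝ Φ q (EuclideanSpace.single i 1) := by
  rw [← inner_gradient_left, real_inner_comm, EuclideanSpace.inner_single_left]
  simp

lemma contDiffAt_gradient {q : Space3} (h : ContDiffAt ℝ 2 Φ q) :
    ContDiffAt ℝ 1 (gradient Φ) q := by
  rw [contDiffAt_euclidean]
  intro i
  have h1 : (fun x => (gradient Φ x) i) = fun x => fderiv ℝ Φ x (EuclideanSpace.single i 1) := by
    funext x; exact gradient_apply x i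
  rw [h1]
  have h2 : ContDiffAt ℝ 1 (fderiv ℝ Φ) q := h.fderiv_right (by norm_num)
  exact h2.clm_apply contDiffAt_const

lemma contDiffAt_force {q : Space3} (h : ContDiffAt ℝ 2 Φ q) :
    ContDiffAt ℝ 1 (force Φ) q :=
  (contDiffAt_gradient h).const_smul (-(2 : ℝ))

lemma contDiffAt_force_of_ne (hΦ : AdmissiblePotential Φ) {q : Space3} (hq : q ≠ 0) :
    ContDiffAt ℝ 1 (force Φ) q :=
  contDiffAt_force (contDiffAt_of_ne hΦ hq)

lemma force_eq_zero (hΦ : AdmissiblePotential Φ) {q : Space3} (hq : 1 ≤ ‖q‖) :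
    force Φ q = 0 := by
  rw [force, gradient_eq_zero hΦ hq, smul_zero]

lemma force_isometry (hΦ : AdmissiblePotential Φ) (R : Space3 ≃ₗᵢ[ℝ] Space3) (q : Space3) :
    force Φ (R q) = R (force Φ q) := by
  rw [force, force, gradient_comp_isometry hΦ.radial, map_smul]

lemma exists_force_eq_smul (hΦ : AdmissiblePotential Φ) (q : Space3) :
    ∃ c : ℝ, force Φ q = c • q := by
  obtain ⟨c, hc⟩ := exists_gradient_eq_smul hΦ.radial q
  exact ⟨-2 * c, by rw [force, hc, smul_smul]⟩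

lemma inner_force_self (hΦ : AdmissiblePotential Φ) (q : Space3) :
    inner ℝ q (force Φ q) = -2 * (deriv (prof Φ) ‖q‖ * ‖q‖) := by
  rw [force, inner_smul_right, inner_gradient_self hΦ]

lemma hasCompactSupport_of_eq_zero {f : Space3 → Space3} (h : ∀ q : Space3, 1 ≤ ‖q‖ → f q = 0) :
    HasCompactSupport f := by
  apply HasCompactSupport.intro (isCompact_closedBall (0 : Space3) 1)
  intro x hx
  apply h
  rw [mem_closedBall_zero_iff, not_le] at hx
  exact hx.le

/-- For every `δ > 0` there is a globally Lipschitz acceleration agreeing with the true one at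
distance at least `δ` from the origin (everywhere if the potential is twice continuously
differentiable). -/
lemma exists_lipschitz_force (hΦ : AdmissiblePotential Φ) {δ : ℝ} (hδ : 0 < δ) :
    ∃ a : Space3 → Space3, (∃ K : ℝ≥0, LipschitzWith K a) ∧
      (∀ q, δ ≤ ‖q‖ → a q = force Φ q) ∧ (ContDiff ℝ 2 Φ → ∀ q, a q = force Φ q) := by
  by_cases hC : ContDiff ℝ 2 Φ
  · refine ⟨force Φ, ?_, fun _ _ => rfl, fun _ _ => rfl⟩
    have h1 : ContDiff ℝ 1 (force Φ) := by
      rw [contDiff_iff_contDiffAt]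
      exact fun q => contDiffAt_force hC.contDiffAt
    exact h1.lipschitzWith_of_hasCompactSupport
      (hasCompactSupport_of_eq_zero fun q hq => force_eq_zero hΦ hq) (by norm_num)
  · let χ : ContDiffBump (0 : Space3) := ⟨δ / 4, δ / 2, by linarith, by linarith⟩
    refine ⟨fun q => (1 - χ q) • force Φ q, ?_, ?_, fun h => absurd h hC⟩
    · have h1 : ContDiff ℝ 1 (fun q => (1 - χ q) • force Φ q) := by
        rw [contDiff_iff_contDiffAt]
        intro q
        by_cases hq : q = 0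
        · have h2 : (fun q => (1 - χ q) • force Φ q) =ᶠ[𝓝 q] fun _ => 0 := by
            rw [hq]
            filter_upwards [χ.eventuallyEq_one] with x hx
            rw [hx]; simp
          exact contDiffAt_const.congr_of_eventuallyEq h2
        · have h3 : ContDiffAt ℝ 1 (fun q => 1 - χ q) q :=
            contDiffAt_const.sub (χ.contDiff.contDiffAt)
          exact h3.smul (contDiffAt_force_of_ne hΦ hq)
      exact h1.lipschitzWith_of_hasCompactSupport
        (hasCompactSupport_of_eq_zero fun q hq => by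
          show (1 - χ q) • force Φ q = 0
          rw [force_eq_zero hΦ hq, smul_zero]) (by norm_num)
    · intro q hq
      have h4 : χ q = 0 := by
        apply χ.zero_of_le_dist
        rw [dist_zero_right]
        show δ / 2 ≤ ‖q‖
        linarith
      show (1 - χ q) • force Φ q = force Φ q
      rw [h4, sub_zero, one_smul]

end Crest.Agent.R122.Scat818
end
end

-- ▼ part R122/Scat2_818
section

/-!
# Row 122, block F2: two-body scattering, part 2

The relative flow `q'' = -2 ∇Φ(q)`: conservation laws, uniqueness, completeness, continuity.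
-/

set_option autoImplicit false

open MeasureTheory Filter Set
open scoped Topology NNReal
open Crest.AnalysisR.Kinetic

noncomputable section

namespace Crest.Agent.R122.Scat818

open Flow671

variable {Φ : Space3 → ℝ}

/-- Global solutions of the relative problem. -/
structure IsRel (Φ : Space3 → ℝ) (q p : ℝ → Space3) : Prop where
  pos : ∀ s, HasDerivAt q (p s) s
  vel : ∀ s, HasDerivAt p (force Φ (q s)) s

/-- Regular positions: nonzero, or arbitrary if the potential is `C²`. -/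
def Reg (Φ : Space3 → ℝ) (x : Space3) : Prop := x ≠ 0 ∨ ContDiff ℝ 2 Φ

lemma Reg.contDiffAt (hΦ : AdmissiblePotential Φ) {x : Space3} (h : Reg Φ x) :
    ContDiffAt ℝ 2 Φ x := by
  rcases h with h | h
  · exact contDiffAt_of_ne hΦ h
  · exact h.contDiffAt

lemma Reg.differentiableAt (hΦ : AdmissiblePotential Φ) {x : Space3} (h : Reg Φ x) :
    DifferentiableAt ℝ Φ x := (h.contDiffAt hΦ).differentiableAt (by norm_num)

lemma reg_of_norm_pos {x : Space3} (h : 0 < ‖x‖) : Reg Φ x := Or.inl (norm_pos_iff.1 h)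

lemma isOpen_reg (Φ : Space3 → ℝ) : IsOpen {x : Space3 | Reg Φ x} := by
  by_cases h : ContDiff ℝ 2 Φ
  · have : {x : Space3 | Reg Φ x} = univ := eq_univ_of_forall fun x => Or.inr h
    rw [this]; exact isOpen_univ
  · have : {x : Space3 | Reg Φ x} = {x | x ≠ 0} := by
      ext x
      exact ⟨fun hx => hx.resolve_right h, fun hx => Or.inl hx⟩
    rw [this]; exact isOpen_ne

lemma reg_isometry {x : Space3} (R : Space3 ≃ₗᵢ[ℝ] Space3) (h : Reg Φ x) : Reg Φ (R x) := by
  rcases h with h | h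
  · exact Or.inl (fun h0 => h (by simpa using h0))
  · exact Or.inr h

namespace IsRel

variable {q p : ℝ → Space3}

lemma shift (h : IsRel Φ q p) (c : ℝ) : IsRel Φ (fun s => q (c + s)) (fun s => p (c + s)) := by
  refine ⟨fun s => ?_, fun s => ?_⟩
  · simpa [Function.comp_def] using (h.pos (c + s)).scomp s ((hasDerivAt_id s).const_add c)
  · simpa [Function.comp_def] using (h.vel (c + s)).scomp s ((hasDerivAt_id s).const_add c)

lemma reverse (h : IsRel Φ q p) : IsRel Φ (fun s => q (-s)) (fun s => -p (-s)) := by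
  refine ⟨fun s => ?_, fun s => ?_⟩
  · simpa [Function.comp_def] using (h.pos (-s)).scomp s (hasDerivAt_neg s)
  · simpa [Function.comp_def] using ((h.vel (-s)).scomp s (hasDerivAt_neg s)).fun_neg

lemma isometry (hΦ : AdmissiblePotential Φ) (h : IsRel Φ q p) (R : Space3 ≃ₗᵢ[ℝ] Space3) :
    IsRel Φ (fun s => R (q s)) (fun s => R (p s)) := by
  refine ⟨fun s => ?_, fun s => ?_⟩
  · exact (R.toContinuousLinearEquiv : Space3 →L[ℝ] Space3).hasFDerivAt.comp_hasDerivAt s (h.pos s)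
  · rw [force_isometry hΦ]
    exact (R.toContinuousLinearEquiv : Space3 →L[ℝ] Space3).hasFDerivAt.comp_hasDerivAt s (h.vel s)

lemma continuous_q (h : IsRel Φ q p) : Continuous q :=
  continuous_iff_continuousAt.2 fun s => (h.pos s).continuousAt

lemma continuous_p (h : IsRel Φ q p) : Continuous p :=
  continuous_iff_continuousAt.2 fun s => (h.vel s).continuousAt

end IsRel

/-- Energy of the relative motion. -/
def en (Φ : Space3 → ℝ) (x v : Space3) : ℝ := ‖v‖ ^ 2 + 4 * Φ x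

lemma hasDerivAt_norm_sq {p : ℝ → Space3} {p' : Space3} {s : ℝ} (h : HasDerivAt p p' s) :
    HasDerivAt (fun s => ‖p s‖ ^ 2) (2 * inner ℝ (p s) p') s := by
  have := h.norm_sq
  simpa using this

lemma IsRel.hasDerivAt_en (hΦ : AdmissiblePotential Φ) {q p : ℝ → Space3} (h : IsRel Φ q p) {s : ℝ}
    (hs : Reg Φ (q s)) : HasDerivAt (fun s => en Φ (q s) (p s)) 0 s := by
  have h1 := hasDerivAt_norm_sq (h.vel s)
  have h2 : HasDerivAt (fun s => Φ (q s)) (fderiv ℝ Φ (q s) (p s)) s :=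
    (hs.differentiableAt hΦ).hasFDerivAt.comp_hasDerivAt s (h.pos s)
  have h3 := h1.add (h2.const_mul 4)
  have h4 : 2 * inner ℝ (p s) (force Φ (q s)) + 4 * fderiv ℝ Φ (q s) (p s) = 0 := by
    rw [← inner_gradient_left, force, inner_smul_right, real_inner_comm]; ring
  rw [h4] at h3
  exact h3

lemma IsRel.energy_Icc (hΦ : AdmissiblePotential Φ) {q p : ℝ → Space3} (h : IsRel Φ q p) {a b : ℝ}
    (hab : a ≤ b) (hreg : ∀ s ∈ Icc a b, Reg Φ (q s)) :
    en Φ (q b) (p b) = en Φ (q a) (p a) := by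
  have := constant_of_has_deriv_right_zero (f := fun s => en Φ (q s) (p s)) (a := a) (b := b)
    (fun s hs => (h.hasDerivAt_en hΦ (hreg s hs)).continuousAt.continuousWithinAt)
    (fun s hs => (h.hasDerivAt_en hΦ (hreg s (Ico_subset_Icc_self hs))).hasDerivWithinAt)
  exact this b ⟨hab, le_rfl⟩

lemma IsRel.reg_pos (hΦ : AdmissiblePotential Φ) {q p : ℝ → Space3} (h : IsRel Φ q p)
    (h0 : Reg Φ (q 0)) {s : ℝ} (hs : 0 ≤ s) : Reg Φ (q s) := by
  by_cases hC : ContDiff ℝ 2 Φ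
  · exact Or.inr hC
  have hcore := hΦ.origin.resolve_left hC
  have h0' : q 0 ≠ 0 := h0.resolve_right hC
  left
  intro hqs
  -- first vanishing time
  have hcomp : IsCompact {t ∈ Icc 0 s | q t = 0} := by
    apply isCompact_Icc.of_isClosed_subset _ (sep_subset _ _)
    exact isClosed_Icc.inter (isClosed_eq h.continuous_q continuous_const)
  obtain ⟨t1, ⟨⟨ht10, ht1s⟩, hqt1⟩, hleast⟩ := hcomp.exists_isLeast ⟨s, ⟨⟨hs, le_rfl⟩, hqs⟩⟩
  have ht1pos : 0 < t1 := by
    rcases lt_or_eq_of_le ht10 with h' | h'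
    · exact h'
    · exact absurd (h' ▸ hqt1) h0'
  have hne : ∀ t ∈ Ico 0 t1, q t ≠ 0 := by
    intro t ht hqt
    have := hleast ⟨⟨ht.1, ht.2.le.trans ht1s⟩, hqt⟩
    linarith [ht.2]
  have hE : ∀ t ∈ Ico 0 t1, 4 * Φ (q t) ≤ en Φ (q 0) (p 0) := by
    intro t ht
    have := h.energy_Icc hΦ ht.1 (fun u hu => Or.inl (hne u ⟨hu.1, hu.2.trans_lt ht.2⟩))
    rw [← this, en]
    nlinarith [sq_nonneg ‖p t‖]
  have hlim : Tendsto q (𝓝[<] t1) (𝓝[≠] 0) := by
    rw [tendsto_nhdsWithin_iff]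
    refine ⟨?_, ?_⟩
    · have := (h.continuous_q.tendsto t1).mono_left (nhdsWithin_le_nhds (s := Iio t1))
      rwa [hqt1] at this
    · filter_upwards [Ioo_mem_nhdsLT ht1pos] with t ht
      exact hne t ⟨ht.1.le, ht.2⟩
  have hinf := hcore.comp hlim
  have h1 := hinf.eventually_gt_atTop (en Φ (q 0) (p 0) / 4)
  have h2 : ∀ᶠ t in 𝓝[<] t1, t ∈ Ioo 0 t1 := Ioo_mem_nhdsLT ht1pos
  obtain ⟨t, ht1, ht2⟩ := (h1.and h2).exists
  have h3 := hE t ⟨ht2.1.le, ht2.2⟩
  simp only [Function.comp_apply] at ht1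
  linarith

lemma IsRel.reg (hΦ : AdmissiblePotential Φ) {q p : ℝ → Space3} (h : IsRel Φ q p)
    (h0 : Reg Φ (q 0)) (s : ℝ) : Reg Φ (q s) := by
  rcases le_total 0 s with hs | hs
  · exact h.reg_pos hΦ h0 hs
  · have := h.reverse.reg_pos hΦ (by simpa using h0) (s := -s) (by linarith)
    simpa using this

lemma IsRel.energy (hΦ : AdmissiblePotential Φ) {q p : ℝ → Space3} (h : IsRel Φ q p)
    (h0 : Reg Φ (q 0)) (s : ℝ) : en Φ (q s) (p s) = en Φ (q 0) (p 0) := by
  rcases le_total 0 s with hs | hs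
  · exact h.energy_Icc hΦ hs fun u _ => h.reg hΦ h0 u
  · exact (h.energy_Icc hΦ hs fun u _ => h.reg hΦ h0 u).symm

/-- squared angular momentum -/
def am (x v : Space3) : ℝ := ‖x‖ ^ 2 * ‖v‖ ^ 2 - (inner ℝ x v) ^ 2


lemma IsRel.hasDerivAt_inner (hΦ : AdmissiblePotential Φ) {q p : ℝ → Space3} (h : IsRel Φ q p)
    (s : ℝ) : HasDerivAt (fun s => inner ℝ (q s) (p s))
      (‖p s‖ ^ 2 - 2 * (deriv (prof Φ) ‖q s‖ * ‖q s‖)) s := by
  have h1 := (h.pos s).inner ℝ (h.vel s)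
  have h2 : inner ℝ (q s) (force Φ (q s)) + inner ℝ (p s) (p s)
      = ‖p s‖ ^ 2 - 2 * (deriv (prof Φ) ‖q s‖ * ‖q s‖) := by
    rw [inner_force_self hΦ, real_inner_self_eq_norm_sq]; ring
  rw [h2] at h1
  exact h1

lemma IsRel.am_const (hΦ : AdmissiblePotential Φ) {q p : ℝ → Space3} (h : IsRel Φ q p) (s : ℝ) :
    am (q s) (p s) = am (q 0) (p 0) := by
  have hd : ∀ s, HasDerivAt (fun s => am (q s) (p s)) 0 s := by
    intro s
    obtain ⟨c, hc⟩ := exists_force_eq_smul hΦ (q s)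
    have h1 := hasDerivAt_norm_sq (h.pos s)
    have h2 := hasDerivAt_norm_sq (h.vel s)
    have h3 := (h.pos s).inner ℝ (h.vel s)
    have h4 := (h1.mul h2).sub (h3.pow 2)
    have h5 : 2 * inner ℝ (q s) (p s) * ‖p s‖ ^ 2 + ‖q s‖ ^ 2 * (2 * inner ℝ (p s) (force Φ (q s)))
        - (2 : ℕ) * (inner ℝ (q s) (p s)) ^ (2 - 1)
          * (inner ℝ (q s) (force Φ (q s)) + inner ℝ (p s) (p s)) = 0 := by
      rw [hc, inner_smul_right, inner_smul_right, real_inner_self_eq_norm_sq,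
        real_inner_self_eq_norm_sq, real_inner_comm (q s) (p s)]
      push_cast
      ring
    rw [h5] at h4
    exact h4
  exact is_const_of_deriv_eq_zero (fun s => (hd s).differentiableAt) (fun s => (hd s).deriv) s 0

/-! ### Cut-off forces and completeness -/

/-- The phase-space field of an acceleration. -/
def fld (a : Space3 → Space3) (z : Space3 × Space3) : Space3 × Space3 := (z.2, a z.1)

lemma lipschitzWith_fld {a : Space3 → Space3} {K : ℝ≥0} (ha : LipschitzWith K a) :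
    LipschitzWith (max 1 K) (fld a) := by
  have h1 : LipschitzWith 1 (fun z : Space3 × Space3 => z.2) := LipschitzWith.prod_snd
  have h2 : LipschitzWith K (fun z : Space3 × Space3 => a z.1) := by
    have := ha.comp (LipschitzWith.prod_fst (α := Space3) (β := Space3))
    rw [mul_one] at this
    exact this
  exact h1.prodMk h2

/-- The set of regular phase points. -/
def RegSet (Φ : Space3 → ℝ) : Set (Space3 × Space3) := {z | Reg Φ z.1}

lemma isOpen_regSet (Φ : Space3 → ℝ) : IsOpen (RegSet Φ) :=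
  (isOpen_reg Φ).preimage continuous_fst

lemma isSol_iff (hΦ : AdmissiblePotential Φ) {γ : ℝ → Space3 × Space3} :
    IsSol (fld (force Φ)) (RegSet Φ) γ ↔
      IsRel Φ (fun t => (γ t).1) (fun t => (γ t).2) ∧ Reg Φ (γ 0).1 := by
  constructor
  · intro h
    refine ⟨⟨fun s => ?_, fun s => ?_⟩, (h 0).1⟩
    · exact (h s).2.fst
    · exact (h s).2.snd
  · rintro ⟨h, h0⟩ t
    refine ⟨h.reg hΦ h0 t, ?_⟩
    exact (h.pos t).prodMk (h.vel t)

/-- **Cut-off data at energy `E`.** -/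
lemma exists_cut (hΦ : AdmissiblePotential Φ) (E : ℝ) :
    ∃ δ : ℝ, 0 < δ ∧ ∃ a : Space3 → Space3, (∃ K : ℝ≥0, LipschitzWith K a) ∧
      (∀ x, Reg Φ x → 4 * Φ x ≤ E → δ ≤ ‖x‖ ∨ ContDiff ℝ 2 Φ) ∧
      (∀ x, δ / 2 ≤ ‖x‖ → a x = force Φ x) ∧ (ContDiff ℝ 2 Φ → ∀ x, a x = force Φ x) := by
  by_cases hC : ContDiff ℝ 2 Φ
  · obtain ⟨a, ha, _, h2⟩ := exists_lipschitz_force hΦ one_pos
    exact ⟨1, one_pos, a, ha, fun _ _ _ => Or.inr hC, fun x _ => h2 hC x, fun _ x => h2 hC x⟩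
  · have hcore := hΦ.origin.resolve_left hC
    have h1 : ∀ᶠ x in 𝓝[≠] (0 : Space3), E / 4 < Φ x := hcore.eventually_gt_atTop _
    rw [eventually_nhdsWithin_iff, Metric.eventually_nhds_iff] at h1
    obtain ⟨δ, hδ, h1⟩ := h1
    obtain ⟨a, ha, h2, h3⟩ := exists_lipschitz_force hΦ (half_pos hδ)
    refine ⟨δ, hδ, a, ha, fun x hx hE => Or.inl ?_, h2, h3⟩
    by_contra hlt
    rw [not_le] at hlt
    have := h1 (y := x) (by rwa [dist_zero_right]) (hx.resolve_right hC)
    linarith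

/-- In the cut-off flow, a solution started at a regular point of energy at most `E` is a true
solution. -/
lemma isRel_of_cut (hΦ : AdmissiblePotential Φ) {E δ : ℝ} (hδ : 0 < δ) {a : Space3 → Space3}
    (h1 : ∀ x, Reg Φ x → 4 * Φ x ≤ E → δ ≤ ‖x‖ ∨ ContDiff ℝ 2 Φ)
    (h2 : ∀ x, δ / 2 ≤ ‖x‖ → a x = force Φ x) (h3 : ContDiff ℝ 2 Φ → ∀ x, a x = force Φ x)
    {q p : ℝ → Space3} (hq : ∀ s, HasDerivAt q (p s) s) (hp : ∀ s, HasDerivAt p (a (q s)) s)
    (h0 : Reg Φ (q 0)) (hE : en Φ (q 0) (p 0) ≤ E) : IsRel Φ q p := by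
  by_cases hC : ContDiff ℝ 2 Φ
  · exact ⟨hq, fun s => by rw [← h3 hC]; exact hp s⟩
  -- it suffices to bound the norm from below
  have key : ∀ (q p : ℝ → Space3), (∀ s, HasDerivAt q (p s) s) → (∀ s, HasDerivAt p (a (q s)) s) →
      Reg Φ (q 0) → en Φ (q 0) (p 0) ≤ E → ∀ s, 0 ≤ s → δ ≤ ‖q s‖ := by
    intro q p hq hp h0 hE s hs
    by_contra hlt
    rw [not_le] at hlt
    have hqc : Continuous q := continuous_iff_continuousAt.2 fun s => (hq s).continuousAt
    have hx0 : δ ≤ ‖q 0‖ := by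
      refine (h1 (q 0) h0 ?_).resolve_right hC
      have : 4 * Φ (q 0) ≤ en Φ (q 0) (p 0) := by unfold en; nlinarith [sq_nonneg ‖p 0‖]
      linarith
    -- choose a level c
    obtain ⟨c, hc1, hc2⟩ : ∃ c, max (δ / 2) ‖q s‖ < c ∧ c < δ :=
      exists_between (max_lt (by linarith) hlt)
    have hcδ : δ / 2 < c := (le_max_left _ _).trans_lt hc1
    have hcs : ‖q s‖ < c := (le_max_right _ _).trans_lt hc1
    have hcomp : IsCompact {t ∈ Icc 0 s | ‖q t‖ ≤ c} := by
      apply isCompact_Icc.of_isClosed_subset _ (sep_subset _ _)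
      exact isClosed_Icc.inter (isClosed_le hqc.norm continuous_const)
    obtain ⟨t1, ⟨⟨ht10, ht1s⟩, hqt1⟩, hleast⟩ := hcomp.exists_isLeast ⟨s, ⟨⟨hs, le_rfl⟩, hcs.le⟩⟩
    have hgt : ∀ t ∈ Ico 0 t1, c < ‖q t‖ := by
      intro t ht
      by_contra hle
      rw [not_lt] at hle
      have := hleast ⟨⟨ht.1, ht.2.le.trans ht1s⟩, hle⟩
      linarith [ht.2]
    have ht1pos : 0 < t1 := by
      rcases lt_or_eq_of_le ht10 with h' | h'
      · exact h'
      · rw [← h'] at hqt1; linarith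
    have hge : c ≤ ‖q t1‖ := by
      have hcl : t1 ∈ closure (Ico 0 t1) := by
        rw [closure_Ico (ne_of_lt ht1pos)]; exact ⟨ht10, le_rfl⟩
      have : closure (Ico 0 t1) ⊆ {t | c ≤ ‖q t‖} :=
        closure_minimal (fun t ht => (hgt t ht).le) (isClosed_le continuous_const hqc.norm)
      exact this hcl
    have hall : ∀ t ∈ Icc 0 t1, c ≤ ‖q t‖ := by
      intro t ht
      rcases lt_or_eq_of_le ht.2 with h' | h'
      · exact (hgt t ⟨ht.1, h'⟩).le
      · rw [h']; exact hge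
    -- energy on [0,t1]
    have hreg : ∀ t ∈ Icc 0 t1, Reg Φ (q t) := fun t ht =>
      reg_of_norm_pos (by linarith [hall t ht])
    have hder : ∀ t ∈ Icc 0 t1, HasDerivAt (fun s => en Φ (q s) (p s)) 0 t := by
      intro t ht
      have hat : a (q t) = force Φ (q t) := h2 _ (by linarith [hall t ht])
      have e1 := hasDerivAt_norm_sq (hp t)
      have e2 : HasDerivAt (fun s => Φ (q s)) (fderiv ℝ Φ (q t) (p t)) t :=
        ((hreg t ht).differentiableAt hΦ).hasFDerivAt.comp_hasDerivAt t (hq t)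
      have e3 := e1.add (e2.const_mul 4)
      have e4 : 2 * inner ℝ (p t) (a (q t)) + 4 * fderiv ℝ Φ (q t) (p t) = 0 := by
        rw [hat, ← inner_gradient_left, force, inner_smul_right, real_inner_comm]; ring
      rw [e4] at e3
      exact e3
    have hen : en Φ (q t1) (p t1) = en Φ (q 0) (p 0) :=
      constant_of_has_deriv_right_zero (f := fun s => en Φ (q s) (p s)) (a := 0) (b := t1)
        (fun s hs => (hder s hs).continuousAt.continuousWithinAt)
        (fun s hs => (hder s (Ico_subset_Icc_self hs)).hasDerivWithinAt) t1 ⟨ht10, le_rfl⟩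
    have : δ ≤ ‖q t1‖ := by
      refine (h1 (q t1) (hreg t1 ⟨ht10, le_rfl⟩) ?_).resolve_right hC
      have : 4 * Φ (q t1) ≤ en Φ (q t1) (p t1) := by unfold en; nlinarith [sq_nonneg ‖p t1‖]
      linarith
    linarith
  have hbd : ∀ s, δ ≤ ‖q s‖ := by
    intro s
    rcases le_total 0 s with hs | hs
    · exact key q p hq hp h0 hE s hs
    · have := key (fun s => q (-s)) (fun s => -p (-s))
        (fun s => by simpa [Function.comp_def] using (hq (-s)).scomp s (hasDerivAt_neg s))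
        (fun s => by
          simpa [Function.comp_def] using ((hp (-s)).scomp s (hasDerivAt_neg s)).fun_neg)
        (by simpa using h0) (by simpa [en] using hE) (-s) (by linarith)
      simpa using this
  exact ⟨hq, fun s => by rw [← h2 (q s) (by linarith [hbd s])]; exact hp s⟩

/-- The relative field is complete on regular phase points. -/
theorem complete_rel (hΦ : AdmissiblePotential Φ) : Complete (fld (force Φ)) (RegSet Φ) := by
  refine ⟨?_, ?_⟩
  · intro z hz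
    have h1 : ContDiffAt ℝ 1 (fld (force Φ)) z := by
      have h2 : ContDiffAt ℝ 1 (force Φ) z.1 :=
        contDiffAt_force (Reg.contDiffAt hΦ hz)
      exact contDiffAt_snd.prodMk (h2.comp z contDiffAt_fst)
    obtain ⟨K, t, ht, hK⟩ := h1.exists_lipschitzOnWith
    exact ⟨K, t, mem_nhdsWithin_of_mem_nhds ht, hK⟩
  · intro z hz
    obtain ⟨δ, hδ, a, ⟨K, hK⟩, h1, h2, h3⟩ := exists_cut hΦ (en Φ z.1 z.2)
    have hc := complete_of_lipschitz (lipschitzWith_fld hK)
    refine ⟨fun t => gflow (fld a) univ t z, hc.flow_zero z, ?_⟩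
    rw [isSol_iff hΦ]
    have hd := fun t => hc.hasDerivAt (mem_univ z) t
    refine ⟨isRel_of_cut hΦ hδ h1 h2 h3 (fun s => (hd s).fst) (fun s => (hd s).snd) ?_ ?_, ?_⟩
    · rw [hc.flow_zero]; exact hz
    · rw [hc.flow_zero]
    · rw [hc.flow_zero]; exact hz

/-- **The relative flow.** -/
def relFlow (Φ : Space3 → ℝ) (t : ℝ) (z : Space3 × Space3) : Space3 × Space3 :=
  gflow (fld (force Φ)) (RegSet Φ) t z

lemma isRel_relFlow (hΦ : AdmissiblePotential Φ) {z : Space3 × Space3} (hz : Reg Φ z.1) :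
    IsRel Φ (fun t => (relFlow Φ t z).1) (fun t => (relFlow Φ t z).2) :=
  ((isSol_iff hΦ).1 ((complete_rel hΦ).isSol (x := z) hz)).1

lemma relFlow_zero (hΦ : AdmissiblePotential Φ) (z : Space3 × Space3) : relFlow Φ 0 z = z :=
  (complete_rel hΦ).flow_zero z

lemma relFlow_add (hΦ : AdmissiblePotential Φ) (s t : ℝ) (z : Space3 × Space3) :
    relFlow Φ (s + t) z = relFlow Φ t (relFlow Φ s z) := (complete_rel hΦ).flow_add s t z

lemma reg_relFlow (hΦ : AdmissiblePotential Φ) {z : Space3 × Space3} (hz : Reg Φ z.1) (t : ℝ) :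
    Reg Φ (relFlow Φ t z).1 := (complete_rel hΦ).flow_mem (x := z) hz t

/-- Uniqueness. -/
lemma IsRel.eq_relFlow (hΦ : AdmissiblePotential Φ) {q p : ℝ → Space3} (h : IsRel Φ q p)
    (h0 : Reg Φ (q 0)) (t : ℝ) : (q t, p t) = relFlow Φ t (q 0, p 0) :=
  (complete_rel hΦ).eq_flow (γ := fun t => (q t, p t)) ((isSol_iff hΦ).2 ⟨h, h0⟩) t

lemma IsRel.q_eq (hΦ : AdmissiblePotential Φ) {q p : ℝ → Space3} (h : IsRel Φ q p)
    (h0 : Reg Φ (q 0)) (t : ℝ) : q t = (relFlow Φ t (q 0, p 0)).1 := by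
  rw [← h.eq_relFlow hΦ h0 t]


lemma relFlow_isometry (hΦ : AdmissiblePotential Φ) (R : Space3 ≃ₗᵢ[ℝ] Space3) {z : Space3 × Space3}
    (hz : Reg Φ z.1) (t : ℝ) :
    relFlow Φ t (R z.1, R z.2) = (R (relFlow Φ t z).1, R (relFlow Φ t z).2) := by
  have h := ((isRel_relFlow hΦ hz).isometry hΦ R).eq_relFlow hΦ
    (by
      show Reg Φ (R (relFlow Φ 0 z).1)
      rw [relFlow_zero hΦ]; exact reg_isometry R hz) t
  simp only [relFlow_zero hΦ] at h
  exact h.symm

lemma relFlow_reverse (hΦ : AdmissiblePotential Φ) {z : Space3 × Space3}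
    (hz : Reg Φ z.1) (t : ℝ) :
    relFlow Φ t (z.1, -z.2) = ((relFlow Φ (-t) z).1, -(relFlow Φ (-t) z).2) := by
  have h := ((isRel_relFlow hΦ hz).reverse).eq_relFlow hΦ
    (by
      show Reg Φ (relFlow Φ (-0) z).1
      rw [neg_zero, relFlow_zero hΦ]; exact hz) t
  simp only [neg_zero, relFlow_zero hΦ] at h
  exact h.symm

lemma en_relFlow (hΦ : AdmissiblePotential Φ) {z : Space3 × Space3} (hz : Reg Φ z.1) (t : ℝ) :
    en Φ (relFlow Φ t z).1 (relFlow Φ t z).2 = en Φ z.1 z.2 := by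
  have := (isRel_relFlow hΦ hz).energy hΦ
    (by
      show Reg Φ (relFlow Φ 0 z).1
      rw [relFlow_zero hΦ]; exact hz) t
  simpa only [relFlow_zero hΦ] using this

lemma am_relFlow (hΦ : AdmissiblePotential Φ) {z : Space3 × Space3} (hz : Reg Φ z.1) (t : ℝ) :
    am (relFlow Φ t z).1 (relFlow Φ t z).2 = am z.1 z.2 := by
  have := (isRel_relFlow hΦ hz).am_const hΦ t
  simpa only [relFlow_zero hΦ] using this

/-- Below a given energy, the relative flow is the flow of a globally Lipschitz field. -/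
theorem exists_relFlow_eq_cut (hΦ : AdmissiblePotential Φ) (E : ℝ) :
    ∃ a : Space3 → Space3, (∃ K : ℝ≥0, LipschitzWith K a) ∧
      ∀ z : Space3 × Space3, Reg Φ z.1 → en Φ z.1 z.2 ≤ E → ∀ t : ℝ,
        relFlow Φ t z = gflow (fld a) univ t z := by
  obtain ⟨δ, hδ, a, ⟨K, hK⟩, h1, h2, h3⟩ := exists_cut hΦ E
  have hc := complete_of_lipschitz (lipschitzWith_fld hK)
  refine ⟨a, ⟨K, hK⟩, fun z hz hE t => ?_⟩
  have hd := fun t => hc.hasDerivAt (mem_univ z) t
  have hrel : IsRel Φ (fun t => (gflow (fld a) univ t z).1) (fun t => (gflow (fld a) univ t z).2) :=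
    isRel_of_cut hΦ hδ h1 h2 h3 (fun s => (hd s).fst) (fun s => (hd s).snd)
      (by rw [hc.flow_zero]; exact hz) (by rw [hc.flow_zero]; exact hE)
  have h := hrel.eq_relFlow hΦ (by
    show Reg Φ (gflow (fld a) univ 0 z).1
    rw [hc.flow_zero]; exact hz) t
  simp only [hc.flow_zero] at h
  exact h.symm

/-- Joint continuity of the relative flow on regular data. -/
theorem continuousOn_relFlow (hΦ : AdmissiblePotential Φ) :
    ContinuousOn (fun p : ℝ × (Space3 × Space3) => relFlow Φ p.1 p.2) (univ ×ˢ RegSet Φ) := by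
  rintro ⟨t0, z0⟩ ⟨_, hz0⟩
  have hz0' : Reg Φ z0.1 := hz0
  obtain ⟨a, ⟨K, hK⟩, h⟩ := exists_relFlow_eq_cut hΦ (en Φ z0.1 z0.2 + 1)
  have hcont := continuous_flow (lipschitzWith_fld hK)
  apply ContinuousAt.continuousWithinAt
  have hΦc : ContinuousAt Φ z0.1 := (hz0'.differentiableAt hΦ).continuousAt
  have hen : ContinuousAt (fun z : Space3 × Space3 => en Φ z.1 z.2) z0 := by
    unfold en
    have h1 : ContinuousAt (fun z : Space3 × Space3 => Φ z.1) z0 :=
      ContinuousAt.comp (f := fun z : Space3 × Space3 => z.1) hΦc continuous_fst.continuousAt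
    exact ((continuous_snd.norm.pow 2).continuousAt).add (h1.const_mul 4)
  have hev1 : ∀ᶠ z in 𝓝 z0, en Φ z.1 z.2 < en Φ z0.1 z0.2 + 1 :=
    hen.eventually_lt continuousAt_const (by linarith)
  have hev2 : ∀ᶠ z in 𝓝 z0, Reg Φ z.1 := (isOpen_regSet Φ).mem_nhds hz0
  have hev : (fun p : ℝ × (Space3 × Space3) => gflow (fld a) univ p.1 p.2) =ᶠ[𝓝 (t0, z0)]
      fun p => relFlow Φ p.1 p.2 := by
    have := (continuous_snd.tendsto (t0, z0)).eventually (hev1.and hev2)
    filter_upwards [this] with p hp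
    exact (h p.2 hp.2 hp.1.le p.1).symm
  exact hcont.continuousAt.congr hev

end Crest.Agent.R122.Scat818
end
end

-- ▼ part R122/Scat3_818

/-!
# Row 122, block F2: two-body scattering, part 3

Passages: existence by the turning point, uniqueness, exit velocity.
-/

set_option autoImplicit false

open MeasureTheory Filter Set
open scoped Topology NNReal
open Crest.AnalysisR.Kinetic

noncomputable section

namespace Crest.Agent.R122.Scat818

open Flow671

variable {Φ : Space3 → ℝ}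

/-! ### Free flight -/

lemma norm_sq_line (x v : Space3) (s : ℝ) :
    ‖x + s • v‖ ^ 2 = ‖x‖ ^ 2 + 2 * s * inner ℝ x v + s ^ 2 * ‖v‖ ^ 2 := by
  rw [norm_add_sq_real, inner_smul_right, norm_smul, mul_pow, Real.norm_eq_abs, sq_abs]; ring

lemma one_le_norm_iff {x : Space3} : 1 ≤ ‖x‖ ↔ 1 ≤ ‖x‖ ^ 2 := by
  constructor
  · intro h; nlinarith
  · intro h; nlinarith [norm_nonneg x, sq_nonneg (‖x‖ - 1)]

lemma hasDerivAt_line (x v : Space3) (s : ℝ) : HasDerivAt (fun s : ℝ => x + s • v) v s := by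
  simpa using ((hasDerivAt_id s).smul_const v).const_add x

lemma relFlow_free (hΦ : AdmissiblePotential Φ) {x v : Space3} {a b : ℝ} (h0 : (0 : ℝ) ∈ Icc a b)
    (h : ∀ s ∈ Icc a b, 1 ≤ ‖x + s • v‖) {t : ℝ} (ht : t ∈ Icc a b) :
    relFlow Φ t (x, v) = (x + t • v, v) := by
  have := (complete_rel hΦ).eq_flow_Icc (γ := fun s : ℝ => (x + s • v, v)) h0
    (fun s hs => by
      have h1 : fld (force Φ) (x + s • v, v) = (v, 0) := by
        show (v, force Φ (x + s • v)) = (v, 0)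
        rw [force_eq_zero hΦ (h s hs)]
      rw [h1]
      exact ((hasDerivAt_line x v s).prodMk (hasDerivAt_const s v)).hasDerivWithinAt)
    (fun s hs => reg_of_norm_pos (by linarith [h s hs])) ht
  simp only [zero_smul, add_zero] at this
  exact this.symm

lemma relFlow_free_pos (hΦ : AdmissiblePotential Φ) {x v : Space3} (hx : 1 ≤ ‖x‖)
    (hv : 0 ≤ inner ℝ x v) {t : ℝ} (ht : 0 ≤ t) : relFlow Φ t (x, v) = (x + t • v, v) := by
  refine relFlow_free hΦ (a := 0) (b := t) ⟨le_rfl, ht⟩ (fun s hs => ?_) ⟨ht, le_rfl⟩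
  rw [one_le_norm_iff, norm_sq_line]
  have h1 : 0 ≤ s := hs.1
  have h2 := one_le_norm_iff.1 hx
  have h3 : 0 ≤ 2 * s * inner ℝ x v := by positivity
  have h4 : 0 ≤ s ^ 2 * ‖v‖ ^ 2 := by positivity
  linarith

lemma relFlow_free_neg (hΦ : AdmissiblePotential Φ) {x v : Space3} (hx : 1 ≤ ‖x‖)
    (hv : inner ℝ x v ≤ 0) {t : ℝ} (ht : t ≤ 0) : relFlow Φ t (x, v) = (x + t • v, v) := by
  refine relFlow_free hΦ (a := t) (b := 0) ⟨ht, le_rfl⟩ (fun s hs => ?_) ⟨le_rfl, ht⟩
  rw [one_le_norm_iff, norm_sq_line]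
  have h1 : s ≤ 0 := hs.2
  have h2 := one_le_norm_iff.1 hx
  have h3 : 0 ≤ 2 * s * inner ℝ x v := by nlinarith
  have h4 : 0 ≤ s ^ 2 * ‖v‖ ^ 2 := by positivity
  linarith

/-! ### Exits -/

/-- The relative flow from `z` is in the open unit ball on `(0,τ)` and on the unit sphere at
time `τ > 0`. -/
def HasExit (Φ : Space3 → ℝ) (z : Space3 × Space3) (τ : ℝ) : Prop :=
  0 < τ ∧ (∀ s ∈ Ioo 0 τ, ‖(relFlow Φ s z).1‖ < 1) ∧ ‖(relFlow Φ τ z).1‖ = 1

lemma HasExit.unique {z : Space3 × Space3} {τ τ' : ℝ} (h : HasExit Φ z τ) (h' : HasExit Φ z τ') :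
    τ = τ' := by
  rcases lt_trichotomy τ τ' with hlt | heq | hgt
  · have := h'.2.1 τ ⟨h.1, hlt⟩
    linarith [h.2.2]
  · exact heq
  · have := h.2.1 τ' ⟨h'.1, hgt⟩
    linarith [h'.2.2]

/-- Incoming phase point for impact parameter `b` and velocity `g`. -/
def inc (b g : Space3) : Space3 × Space3 := (entrancePoint b g, g)

lemma passage_iff (hΦ : AdmissiblePotential Φ) {b g : Space3} (hreg : Reg Φ (entrancePoint b g))
    {q : ℝ → Space3} {τ : ℝ} :
    IsScatteringPassage Φ b g q τ ↔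
      HasExit Φ (inc b g) τ ∧ ∀ s, q s = (relFlow Φ s (inc b g)).1 := by
  constructor
  · rintro ⟨hτ, h0, hd0, hq, hp, hin, hout⟩
    have hrel : IsRel Φ q (deriv q) := ⟨hq, hp⟩
    have heq : ∀ s, q s = (relFlow Φ s (inc b g)).1 := by
      intro s
      have := hrel.q_eq hΦ (by rw [h0]; exact hreg) s
      rw [h0, hd0] at this
      exact this
    refine ⟨⟨hτ, fun s hs => ?_, ?_⟩, heq⟩
    · rw [← heq]; exact hin s hs
    · rw [← heq]; exact hout
  · rintro ⟨⟨hτ, hin, hout⟩, heq⟩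
    have hrel := isRel_relFlow hΦ (z := inc b g) hreg
    have hqf : q = fun s => (relFlow Φ s (inc b g)).1 := funext heq
    have hd : deriv q = fun s => (relFlow Φ s (inc b g)).2 := by
      rw [hqf]; funext s; exact (hrel.pos s).deriv
    refine ⟨hτ, ?_, ?_, fun s => ?_, fun s => ?_, fun s hs => ?_, ?_⟩
    · rw [heq, relFlow_zero hΦ]; rfl
    · rw [hd]; show (relFlow Φ 0 (inc b g)).2 = g
      rw [relFlow_zero hΦ]; rfl
    · rw [hd, hqf]; exact hrel.pos s
    · rw [hd, hqf]; exact hrel.vel s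
    · rw [heq]; exact hin s hs
    · rw [heq]; exact hout

lemma exists_passage_iff (hΦ : AdmissiblePotential Φ) {b g : Space3}
    (hreg : Reg Φ (entrancePoint b g)) :
    (∃ p : (ℝ → Space3) × ℝ, IsScatteringPassage Φ b g p.1 p.2) ↔
      ∃ τ, HasExit Φ (inc b g) τ := by
  constructor
  · rintro ⟨p, hp⟩
    exact ⟨p.2, ((passage_iff hΦ hreg).1 hp).1⟩
  · rintro ⟨τ, hτ⟩
    exact ⟨(fun s => (relFlow Φ s (inc b g)).1, τ), (passage_iff hΦ hreg).2 ⟨hτ, fun _ => rfl⟩⟩

/-- **The exit velocity is the velocity of the relative flow at the exit time.** -/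
theorem exitVelocity_eq (hΦ : AdmissiblePotential Φ) {b g : Space3}
    (hreg : Reg Φ (entrancePoint b g)) {τ : ℝ} (hτ : HasExit Φ (inc b g) τ) :
    exitVelocity Φ b g = (relFlow Φ τ (inc b g)).2 := by
  have hex : ∃ p : (ℝ → Space3) × ℝ, IsScatteringPassage Φ b g p.1 p.2 :=
    (exists_passage_iff hΦ hreg).2 ⟨τ, hτ⟩
  rw [exitVelocity, dif_pos hex]
  obtain ⟨h1, h2⟩ := (passage_iff hΦ hreg).1 hex.choose_spec
  have hτ' : hex.choose.2 = τ := h1.unique hτ
  have hd : deriv hex.choose.1 = fun s => (relFlow Φ s (inc b g)).2 := by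
    rw [funext h2]; funext s; exact ((isRel_relFlow hΦ (z := inc b g) hreg).pos s).deriv
  rw [hd, hτ']

theorem exitVelocity_of_not (hΦ : AdmissiblePotential Φ) {b g : Space3}
    (hreg : Reg Φ (entrancePoint b g)) (h : ¬ ∃ τ, HasExit Φ (inc b g) τ) :
    exitVelocity Φ b g = g := by
  rw [exitVelocity, dif_neg]
  rwa [exists_passage_iff hΦ hreg]

/-! ### One-sided derivative tests -/

lemma eventually_lt_right {u : ℝ → ℝ} {u' a : ℝ} (h : HasDerivAt u u' a) (hu : u' < 0) :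
    ∀ᶠ s in 𝓝[>] a, u s < u a := by
  have h1 := hasDerivAt_iff_tendsto_slope.1 h
  have h2 : ∀ᶠ s in 𝓝[>] a, slope u a s < 0 :=
    (h1.mono_left (nhdsWithin_mono a (fun x (hx : a < x) => ne_of_gt hx))).eventually_lt_const hu
  filter_upwards [h2, self_mem_nhdsWithin] with s hs hsa
  have hsa' : 0 < s - a := sub_pos.2 hsa
  rw [slope_def_field, div_lt_iff₀ hsa', zero_mul] at hs
  linarith

lemma eventually_lt_left {u : ℝ → ℝ} {u' a : ℝ} (h : HasDerivAt u u' a) (hu : u' < 0) :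
    ∀ᶠ s in 𝓝[<] a, u a < u s := by
  have h1 := hasDerivAt_iff_tendsto_slope.1 h
  have h2 : ∀ᶠ s in 𝓝[<] a, slope u a s < 0 :=
    (h1.mono_left (nhdsWithin_mono a (fun x (hx : x < a) => ne_of_lt hx))).eventually_lt_const hu
  filter_upwards [h2, self_mem_nhdsWithin] with s hs hsa
  have hsa' : s - a < 0 := sub_neg.2 hsa
  rw [slope_def_field, div_neg_iff] at hs
  rcases hs with ⟨h3, _⟩ | ⟨_, h4⟩
  · linarith
  · linarith

/-! ### Radial velocity at exit -/

lemma continuous_relFlow (hΦ : AdmissiblePotential Φ) {z : Space3 × Space3} (hz : Reg Φ z.1) :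
    Continuous (fun t => relFlow Φ t z) := by
  have h := isRel_relFlow hΦ hz
  exact h.continuous_q.prodMk h.continuous_p

lemma hasDerivAt_normSq_relFlow (hΦ : AdmissiblePotential Φ) {z : Space3 × Space3}
    (hz : Reg Φ z.1) (s : ℝ) :
    HasDerivAt (fun s => ‖(relFlow Φ s z).1‖ ^ 2)
      (2 * inner ℝ (relFlow Φ s z).1 (relFlow Φ s z).2) s :=
  hasDerivAt_norm_sq ((isRel_relFlow hΦ hz).pos s)

theorem HasExit.inner_pos (hΦ : AdmissiblePotential Φ) {z : Space3 × Space3} (hz : Reg Φ z.1)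
    {τ : ℝ} (h : HasExit Φ z τ) : 0 < inner ℝ (relFlow Φ τ z).1 (relFlow Φ τ z).2 := by
  obtain ⟨hτ, hin, hout⟩ := h
  have hnn : 0 ≤ inner ℝ (relFlow Φ τ z).1 (relFlow Φ τ z).2 := by
    by_contra hneg
    rw [not_le] at hneg
    have h1 := eventually_lt_left (hasDerivAt_normSq_relFlow hΦ hz τ) (by linarith)
    have h2 : ∀ᶠ s in 𝓝[<] τ, s ∈ Ioo 0 τ := Ioo_mem_nhdsLT hτ
    obtain ⟨s, hs1, hs2⟩ := (h1.and h2).exists
    have h3 := hin s hs2
    rw [hout] at hs1
    nlinarith [norm_nonneg (relFlow Φ s z).1]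
  rcases lt_or_eq_of_le hnn with h | h
  · exact h
  exfalso
  set x := (relFlow Φ τ z).1 with hx
  set v := (relFlow Φ τ z).2 with hv
  have hfree : relFlow Φ (-(τ / 2)) (x, v) = (x + (-(τ / 2)) • v, v) :=
    relFlow_free_neg hΦ hout.ge h.ge (by linarith)
  have h1 : relFlow Φ (-(τ / 2)) (x, v) = relFlow Φ (τ / 2) z := by
    have : (x, v) = relFlow Φ τ z := rfl
    rw [this, ← relFlow_add hΦ]
    congr 1; ring
  have h2 := hin (τ / 2) ⟨by linarith, by linarith⟩
  rw [← h1, hfree] at h2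
  have h3 : 1 ≤ ‖x + (-(τ / 2)) • v‖ := by
    rw [one_le_norm_iff, norm_sq_line, hout, ← h]
    nlinarith [sq_nonneg (τ / 2), sq_nonneg ‖v‖, mul_nonneg (sq_nonneg (-(τ/2))) (sq_nonneg ‖v‖)]
  exact absurd h2 (not_lt.2 h3)

/-- After the exit the motion is free. -/
theorem HasExit.after (hΦ : AdmissiblePotential Φ) {z : Space3 × Space3} (hz : Reg Φ z.1)
    {τ : ℝ} (h : HasExit Φ z τ) {s : ℝ} (hs : τ ≤ s) :
    relFlow Φ s z =
      ((relFlow Φ τ z).1 + (s - τ) • (relFlow Φ τ z).2, (relFlow Φ τ z).2) := by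
  have h1 : relFlow Φ s z = relFlow Φ (s - τ) (relFlow Φ τ z) := by
    rw [← relFlow_add hΦ]; congr 1; ring
  rw [h1]
  exact relFlow_free_pos hΦ (x := (relFlow Φ τ z).1) (v := (relFlow Φ τ z).2) h.2.2.ge
    (h.inner_pos hΦ hz).le (by linarith)

theorem HasExit.one_lt_norm (hΦ : AdmissiblePotential Φ) {z : Space3 × Space3} (hz : Reg Φ z.1)
    {τ : ℝ} (h : HasExit Φ z τ) {s : ℝ} (hs : τ < s) : 1 < ‖(relFlow Φ s z).1‖ := by
  rw [h.after hΦ hz hs.le]
  have h1 := norm_sq_line (relFlow Φ τ z).1 (relFlow Φ τ z).2 (s - τ)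
  rw [h.2.2] at h1
  have h2 : 0 < 2 * (s - τ) * inner ℝ (relFlow Φ τ z).1 (relFlow Φ τ z).2 :=
    mul_pos (by linarith) (h.inner_pos hΦ hz)
  have h3 : 0 ≤ (s - τ) ^ 2 * ‖(relFlow Φ τ z).2‖ ^ 2 := by positivity
  have h4 : 1 < ‖(relFlow Φ τ z).1 + (s - τ) • (relFlow Φ τ z).2‖ ^ 2 := by
    rw [h1]; linarith
  by_contra h5
  rw [not_lt] at h5
  nlinarith [norm_nonneg ((relFlow Φ τ z).1 + (s - τ) • (relFlow Φ τ z).2)]

/-- The trajectory enters the open unit ball immediately after time `0`. -/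
def Enters (Φ : Space3 → ℝ) (z : Space3 × Space3) : Prop :=
  ∀ᶠ s in 𝓝[>] (0 : ℝ), ‖(relFlow Φ s z).1‖ < 1

lemma exists_exit_le (hΦ : AdmissiblePotential Φ) {z : Space3 × Space3} (hz : Reg Φ z.1)
    (hent : Enters Φ z) {c : ℝ} (hc : 0 < c) (h : 1 ≤ ‖(relFlow Φ c z).1‖) :
    ∃ τ ≤ c, HasExit Φ z τ := by
  have hcont : Continuous fun t => (relFlow Φ t z).1 := (isRel_relFlow hΦ hz).continuous_q
  obtain ⟨ε, hε, hball⟩ := (mem_nhdsGT_iff_exists_Ioo_subset.1 hent)
  have hε' : (0 : ℝ) < ε := hε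
  have hcε : ε ≤ c := by
    by_contra hlt
    rw [not_le] at hlt
    have h' : ‖(relFlow Φ c z).1‖ < 1 := hball ⟨hc, hlt⟩
    linarith
  have hcomp : IsCompact {t ∈ Icc (ε / 2) c | 1 ≤ ‖(relFlow Φ t z).1‖} := by
    apply isCompact_Icc.of_isClosed_subset _ (sep_subset _ _)
    exact isClosed_Icc.inter (isClosed_le continuous_const hcont.norm)
  obtain ⟨τ, ⟨⟨h1, h2⟩, h3⟩, hleast⟩ :=
    hcomp.exists_isLeast ⟨c, ⟨⟨by linarith, le_rfl⟩, h⟩⟩
  have hτ : 0 < τ := by linarith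
  have hin : ∀ s ∈ Ioo 0 τ, ‖(relFlow Φ s z).1‖ < 1 := by
    intro s hs
    by_cases hse : s < ε / 2
    · exact hball ⟨hs.1, by linarith⟩
    · rw [not_lt] at hse
      by_contra hge
      rw [not_lt] at hge
      have := hleast ⟨⟨hse, hs.2.le.trans h2⟩, hge⟩
      linarith [hs.2]
  refine ⟨τ, h2, hτ, hin, le_antisymm ?_ h3⟩
  have hcl : τ ∈ closure (Ioo 0 τ) := by
    rw [closure_Ioo (ne_of_lt hτ)]; exact ⟨hτ.le, le_rfl⟩
  have : closure (Ioo 0 τ) ⊆ {t | ‖(relFlow Φ t z).1‖ ≤ 1} :=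
    closure_minimal (fun t ht => (hin t ht).le) (isClosed_le hcont.norm continuous_const)
  exact this hcl

theorem exit_lt_iff (hΦ : AdmissiblePotential Φ) {z : Space3 × Space3} (hz : Reg Φ z.1)
    (hent : Enters Φ z) {c : ℝ} (hc : 0 < c) :
    (∃ τ < c, HasExit Φ z τ) ↔ 1 < ‖(relFlow Φ c z).1‖ := by
  constructor
  · rintro ⟨τ, hτ, h⟩
    exact h.one_lt_norm hΦ hz hτ
  · intro h
    obtain ⟨τ, hτ, h'⟩ := exists_exit_le hΦ hz hent hc h.le
    refine ⟨τ, lt_of_le_of_ne hτ ?_, h'⟩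
    rintro rfl
    linarith [h'.2.2]

/-! ### Incoming data -/

lemma norm_sq_entrance {b g : Space3} (hb : b ∈ impactDisc g) (hg : g ≠ 0) :
    ‖entrancePoint b g‖ ^ 2 = 1 := by
  have hng : ‖g‖ ≠ 0 := norm_ne_zero_iff.2 hg
  have h1 : 0 ≤ 1 - ‖b‖ ^ 2 := by nlinarith [norm_nonneg b, hb.2]
  have h2 : entrancePoint b g = b + (-(Real.sqrt (1 - ‖b‖ ^ 2) / ‖g‖)) • g := by
    rw [entrancePoint, neg_smul, sub_eq_add_neg]
  rw [h2, norm_sq_line, hb.1]
  have h3 : (-(Real.sqrt (1 - ‖b‖ ^ 2) / ‖g‖)) ^ 2 * ‖g‖ ^ 2 = 1 - ‖b‖ ^ 2 := by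
    rw [neg_sq, div_pow, Real.sq_sqrt h1]
    field_simp
  rw [h3]; ring

lemma norm_entrance {b g : Space3} (hb : b ∈ impactDisc g) (hg : g ≠ 0) :
    ‖entrancePoint b g‖ = 1 := by
  have := norm_sq_entrance hb hg
  nlinarith [norm_nonneg (entrancePoint b g)]

lemma inner_entrance {b g : Space3} (hb : b ∈ impactDisc g) (hg : g ≠ 0) :
    inner ℝ (entrancePoint b g) g = -(‖g‖ * Real.sqrt (1 - ‖b‖ ^ 2)) := by
  have hng : ‖g‖ ≠ 0 := norm_ne_zero_iff.2 hg
  rw [entrancePoint, inner_sub_left, inner_smul_left, hb.1, real_inner_self_eq_norm_sq]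
  simp only [conj_trivial]
  field_simp
  ring

lemma sqrt_pos_of_mem {b g : Space3} (hb : b ∈ impactDisc g) : 0 < Real.sqrt (1 - ‖b‖ ^ 2) := by
  apply Real.sqrt_pos.2
  nlinarith [norm_nonneg b, hb.2]

lemma inner_entrance_neg {b g : Space3} (hb : b ∈ impactDisc g) (hg : g ≠ 0) :
    inner ℝ (entrancePoint b g) g < 0 := by
  rw [inner_entrance hb hg]
  have := mul_pos (norm_pos_iff.2 hg) (sqrt_pos_of_mem hb)
  linarith

lemma am_entrance {b g : Space3} (hb : b ∈ impactDisc g) (hg : g ≠ 0) :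
    am (entrancePoint b g) g = ‖g‖ ^ 2 * ‖b‖ ^ 2 := by
  have h1 : 0 ≤ 1 - ‖b‖ ^ 2 := by nlinarith [norm_nonneg b, hb.2]
  rw [am, norm_sq_entrance hb hg, inner_entrance hb hg, neg_sq, mul_pow, Real.sq_sqrt h1]; ring

lemma en_of_norm_eq_one (hΦ : AdmissiblePotential Φ) {x v : Space3} (hx : ‖x‖ = 1) :
    en Φ x v = ‖v‖ ^ 2 := by
  rw [en, hΦ.eq_zero_of_one_le_norm x hx.ge]; ring

lemma reg_entrance (Φ : Space3 → ℝ) {b g : Space3} (hb : b ∈ impactDisc g) (hg : g ≠ 0) :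
    Reg Φ (entrancePoint b g) :=
  reg_of_norm_pos (by rw [norm_entrance hb hg]; exact one_pos)

lemma enters_inc (hΦ : AdmissiblePotential Φ) {b g : Space3} (hb : b ∈ impactDisc g)
    (hg : g ≠ 0) : Enters Φ (inc b g) := by
  have h1 := eventually_lt_right (hasDerivAt_normSq_relFlow hΦ (z := inc b g)
    (reg_entrance Φ hb hg) 0) (by
      rw [relFlow_zero hΦ]
      have := inner_entrance_neg hb hg
      show 2 * inner ℝ (entrancePoint b g) g < 0
      linarith)
  rw [relFlow_zero hΦ] at h1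
  filter_upwards [h1] with s hs
  have h2 : ‖(inc b g).1‖ ^ 2 = 1 := norm_sq_entrance hb hg
  rw [h2] at hs
  nlinarith [norm_nonneg (relFlow Φ s (inc b g)).1]

/-- Conservation of the norm of the velocity. -/
theorem HasExit.norm_velocity (hΦ : AdmissiblePotential Φ) {b g : Space3} (hb : b ∈ impactDisc g)
    (hg : g ≠ 0) {τ : ℝ} (h : HasExit Φ (inc b g) τ) : ‖(relFlow Φ τ (inc b g)).2‖ = ‖g‖ := by
  have hen := en_relFlow hΦ (z := inc b g) (reg_entrance Φ hb hg) τ
  rw [en_of_norm_eq_one hΦ h.2.2, en_of_norm_eq_one hΦ (x := (inc b g).1) (norm_entrance hb hg)]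
    at hen
  have h2 : ‖(relFlow Φ τ (inc b g)).2‖ ^ 2 = ‖g‖ ^ 2 := hen
  exact (pow_left_inj₀ (norm_nonneg _) (norm_nonneg _) (by norm_num)).1 h2

/-- **The exit velocity always has the norm of the incoming velocity.** -/
theorem norm_exitVelocity (hΦ : AdmissiblePotential Φ) {b g : Space3} (hb : b ∈ impactDisc g)
    (hg : g ≠ 0) : ‖exitVelocity Φ b g‖ = ‖g‖ := by
  by_cases h : ∃ τ, HasExit Φ (inc b g) τ
  · obtain ⟨τ, hτ⟩ := h
    rw [exitVelocity_eq hΦ (reg_entrance Φ hb hg) hτ]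
    exact hτ.norm_velocity hΦ hb hg
  · rw [exitVelocity_of_not hΦ (reg_entrance Φ hb hg) h]

/-! ### Turning points -/

/-- Time-reflection symmetry about a turning point. -/
theorem relFlow_reflect (hΦ : AdmissiblePotential Φ) {z : Space3 × Space3} (hz : Reg Φ z.1)
    {s0 : ℝ} (h0 : inner ℝ (relFlow Φ s0 z).1 (relFlow Φ s0 z).2 = 0) (t : ℝ) :
    relFlow Φ (s0 - t) z =
      ((Submodule.span ℝ {(relFlow Φ s0 z).1}).reflection (relFlow Φ (s0 + t) z).1,
        -(Submodule.span ℝ {(relFlow Φ s0 z).1}).reflection (relFlow Φ (s0 + t) z).2) := by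
  set x := (relFlow Φ s0 z).1 with hx
  set v := (relFlow Φ s0 z).2 with hv
  set σ := (Submodule.span ℝ {x}).reflection with hσ
  have hσx : σ x = x :=
    Submodule.reflection_mem_subspace_eq_self (Submodule.mem_span_singleton_self x)
  have hσv : σ v = -v := by
    apply Submodule.reflection_mem_subspace_orthogonalComplement_eq_neg
    rw [Submodule.mem_orthogonal_singleton_iff_inner_right]
    exact h0
  have hreg : Reg Φ x := reg_relFlow hΦ hz s0
  have h1 := relFlow_isometry hΦ σ (z := (x, v)) hreg t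
  have h2 := relFlow_reverse hΦ (z := (x, v)) hreg t
  simp only [hσx, hσv] at h1
  rw [h1] at h2
  have h3 : relFlow Φ t (x, v) = relFlow Φ (s0 + t) z := by
    rw [show (x, v) = relFlow Φ s0 z from rfl, ← relFlow_add hΦ]
  have h4 : relFlow Φ (-t) (x, v) = relFlow Φ (s0 - t) z := by
    rw [show (x, v) = relFlow Φ s0 z from rfl, ← relFlow_add hΦ]; rfl
  rw [h3, h4] at h2
  rw [Prod.mk.injEq] at h2
  ext1
  · exact h2.1.symm
  · show (relFlow Φ (s0 - t) z).2 = -σ (relFlow Φ (s0 + t) z).2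
    rw [h2.2, neg_neg]

lemma strictAntiOn_normSq (hΦ : AdmissiblePotential Φ) {z : Space3 × Space3} (hz : Reg Φ z.1)
    {s0 : ℝ} (hneg : ∀ s ∈ Ico 0 s0, inner ℝ (relFlow Φ s z).1 (relFlow Φ s z).2 < 0) :
    StrictAntiOn (fun s => ‖(relFlow Φ s z).1‖ ^ 2) (Icc 0 s0) := by
  apply strictAntiOn_of_deriv_neg (convex_Icc 0 s0)
  · exact fun s _ => (hasDerivAt_normSq_relFlow hΦ hz s).continuousAt.continuousWithinAt
  · intro s hs
    rw [interior_Icc] at hs
    rw [(hasDerivAt_normSq_relFlow hΦ hz s).deriv]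
    linarith [hneg s ⟨hs.1.le, hs.2⟩]

/-- A first turning point at `s0` gives an exit at time `2 s0`. -/
theorem hasExit_of_turning (hΦ : AdmissiblePotential Φ) {b g : Space3} (hb : b ∈ impactDisc g)
    (hg : g ≠ 0) {s0 : ℝ} (hs0 : 0 < s0)
    (h0 : inner ℝ (relFlow Φ s0 (inc b g)).1 (relFlow Φ s0 (inc b g)).2 = 0)
    (hneg : ∀ s ∈ Ico 0 s0, inner ℝ (relFlow Φ s (inc b g)).1 (relFlow Φ s (inc b g)).2 < 0) :
    HasExit Φ (inc b g) (2 * s0) := by
  have hz : Reg Φ (inc b g).1 := reg_entrance Φ hb hg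
  have hanti := strictAntiOn_normSq hΦ hz hneg
  have hfirst : ∀ s ∈ Ioc 0 s0, ‖(relFlow Φ s (inc b g)).1‖ < 1 := by
    intro s hs
    have h1 := hanti (a := 0) (b := s) ⟨le_rfl, hs0.le⟩ ⟨hs.1.le, hs.2⟩ hs.1
    simp only [relFlow_zero hΦ] at h1
    have h2 : ‖(inc b g).1‖ ^ 2 = 1 := norm_sq_entrance hb hg
    rw [h2] at h1
    nlinarith [norm_nonneg (relFlow Φ s (inc b g)).1]
  have hnorm : ∀ t, ‖(relFlow Φ (s0 - t) (inc b g)).1‖ = ‖(relFlow Φ (s0 + t) (inc b g)).1‖ := by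
    intro t
    rw [relFlow_reflect hΦ hz h0 t]
    simp
  refine ⟨by linarith, fun s hs => ?_, ?_⟩
  · by_cases hss : s ≤ s0
    · exact hfirst s ⟨hs.1, hss⟩
    · rw [not_le] at hss
      have h1 := hnorm (s - s0)
      have h2 : s0 + (s - s0) = s := by ring
      rw [h2] at h1
      rw [← h1]
      exact hfirst _ ⟨by linarith [hs.2], by linarith⟩
  · have h1 := hnorm s0
    rw [sub_self, relFlow_zero hΦ] at h1
    rw [two_mul, ← h1]
    exact norm_entrance hb hg

/-- If there is no exit, the radial velocity stays negative. -/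
theorem inner_neg_of_no_exit (hΦ : AdmissiblePotential Φ) {b g : Space3} (hb : b ∈ impactDisc g)
    (hg : g ≠ 0) (h : ¬ ∃ τ, HasExit Φ (inc b g) τ) {s : ℝ} (hs : 0 ≤ s) :
    inner ℝ (relFlow Φ s (inc b g)).1 (relFlow Φ s (inc b g)).2 < 0 := by
  by_contra hge
  rw [not_lt] at hge
  have hz : Reg Φ (inc b g).1 := reg_entrance Φ hb hg
  have hcont : Continuous fun t => inner ℝ (relFlow Φ t (inc b g)).1 (relFlow Φ t (inc b g)).2 :=
    (isRel_relFlow hΦ hz).continuous_q.inner (isRel_relFlow hΦ hz).continuous_p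
  have hcomp : IsCompact {t ∈ Icc 0 s |
      0 ≤ inner ℝ (relFlow Φ t (inc b g)).1 (relFlow Φ t (inc b g)).2} := by
    apply isCompact_Icc.of_isClosed_subset _ (sep_subset _ _)
    exact isClosed_Icc.inter (isClosed_le continuous_const hcont)
  obtain ⟨s0, ⟨⟨h1, h2⟩, h3⟩, hleast⟩ := hcomp.exists_isLeast ⟨s, ⟨⟨hs, le_rfl⟩, hge⟩⟩
  have hs0 : 0 < s0 := by
    rcases lt_or_eq_of_le h1 with h' | h'
    · exact h'
    · exfalso
      rw [← h', relFlow_zero hΦ] at h3
      have := inner_entrance_neg hb hg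
      exact absurd h3 (not_le.2 this)
  have hneg : ∀ t ∈ Ico 0 s0, inner ℝ (relFlow Φ t (inc b g)).1 (relFlow Φ t (inc b g)).2 < 0 := by
    intro t ht
    by_contra hge'
    rw [not_lt] at hge'
    have := hleast ⟨⟨ht.1, ht.2.le.trans h2⟩, hge'⟩
    linarith [ht.2]
  have h4 : inner ℝ (relFlow Φ s0 (inc b g)).1 (relFlow Φ s0 (inc b g)).2 ≤ 0 := by
    have hcl : s0 ∈ closure (Ico 0 s0) := by
      rw [closure_Ico (ne_of_lt hs0)]; exact ⟨hs0.le, le_rfl⟩
    have : closure (Ico 0 s0) ⊆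
        {t | inner ℝ (relFlow Φ t (inc b g)).1 (relFlow Φ t (inc b g)).2 ≤ 0} :=
      closure_minimal (fun t ht => (hneg t ht).le) (isClosed_le hcont continuous_const)
    exact this hcl
  exact h ⟨_, hasExit_of_turning hΦ hb hg hs0 (le_antisymm h4 h3) hneg⟩

/-- Structure of a passage: there is a turning point at half time. -/
theorem HasExit.turning (hΦ : AdmissiblePotential Φ) {b g : Space3} (hb : b ∈ impactDisc g)
    (hg : g ≠ 0) {τ : ℝ} (h : HasExit Φ (inc b g) τ) :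
    inner ℝ (relFlow Φ (τ / 2) (inc b g)).1 (relFlow Φ (τ / 2) (inc b g)).2 = 0 ∧
      ∀ s ∈ Ico 0 (τ / 2), inner ℝ (relFlow Φ s (inc b g)).1 (relFlow Φ s (inc b g)).2 < 0 := by
  have hz : Reg Φ (inc b g).1 := reg_entrance Φ hb hg
  have hcont : Continuous fun t => inner ℝ (relFlow Φ t (inc b g)).1 (relFlow Φ t (inc b g)).2 :=
    (isRel_relFlow hΦ hz).continuous_q.inner (isRel_relFlow hΦ hz).continuous_p
  have hcomp : IsCompact {t ∈ Icc 0 τ |
      0 ≤ inner ℝ (relFlow Φ t (inc b g)).1 (relFlow Φ t (inc b g)).2} := by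
    apply isCompact_Icc.of_isClosed_subset _ (sep_subset _ _)
    exact isClosed_Icc.inter (isClosed_le continuous_const hcont)
  obtain ⟨s0, ⟨⟨h1, h2⟩, h3⟩, hleast⟩ := hcomp.exists_isLeast
    ⟨τ, ⟨⟨h.1.le, le_rfl⟩, (h.inner_pos hΦ hz).le⟩⟩
  have hs0 : 0 < s0 := by
    rcases lt_or_eq_of_le h1 with h' | h'
    · exact h'
    · exfalso
      rw [← h', relFlow_zero hΦ] at h3
      have := inner_entrance_neg hb hg
      exact absurd h3 (not_le.2 this)
  have hneg : ∀ t ∈ Ico 0 s0, inner ℝ (relFlow Φ t (inc b g)).1 (relFlow Φ t (inc b g)).2 < 0 := by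
    intro t ht
    by_contra hge'
    rw [not_lt] at hge'
    have := hleast ⟨⟨ht.1, ht.2.le.trans h2⟩, hge'⟩
    linarith [ht.2]
  have h4 : inner ℝ (relFlow Φ s0 (inc b g)).1 (relFlow Φ s0 (inc b g)).2 ≤ 0 := by
    have hcl : s0 ∈ closure (Ico 0 s0) := by
      rw [closure_Ico (ne_of_lt hs0)]; exact ⟨hs0.le, le_rfl⟩
    have : closure (Ico 0 s0) ⊆
        {t | inner ℝ (relFlow Φ t (inc b g)).1 (relFlow Φ t (inc b g)).2 ≤ 0} :=
      closure_minimal (fun t ht => (hneg t ht).le) (isClosed_le hcont continuous_const)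
    exact this hcl
  have h5 := hasExit_of_turning hΦ hb hg hs0 (le_antisymm h4 h3) hneg
  have h6 : τ = 2 * s0 := h.unique h5
  have h7 : τ / 2 = s0 := by rw [h6]; ring
  rw [h7]
  exact ⟨le_antisymm h4 h3, hneg⟩

/-! ### Outgoing data -/

/-- Exit phase point (junk value: the entrance point moved freely; only used when an exit
exists). -/
def exitTime (Φ : Space3 → ℝ) (b g : Space3) : ℝ :=
  open scoped Classical in
  if h : ∃ τ, HasExit Φ (inc b g) τ then h.choose else 0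

lemma exitTime_eq {b g : Space3} {τ : ℝ} (h : HasExit Φ (inc b g) τ) : exitTime Φ b g = τ := by
  classical
  have hex : ∃ τ, HasExit Φ (inc b g) τ := ⟨τ, h⟩
  rw [exitTime, dif_pos hex]
  exact hex.choose_spec.unique h

/-- Outgoing impact parameter: for a passage with exit phase point `(x', g')`, the component of
`x'` orthogonal to `g'`; for trapped data, `b` itself. -/
def exitImpact (Φ : Space3 → ℝ) (b g : Space3) : Space3 :=
  open scoped Classical in
  if ∃ τ, HasExit Φ (inc b g) τ then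
    (relFlow Φ (exitTime Φ b g) (inc b g)).1 -
      (Real.sqrt (1 - ‖b‖ ^ 2) / ‖g‖) • exitVelocity Φ b g
  else b

lemma exitImpact_eq (hΦ : AdmissiblePotential Φ) {b g : Space3} (hb : b ∈ impactDisc g)
    (hg : g ≠ 0) {τ : ℝ} (h : HasExit Φ (inc b g) τ) :
    exitImpact Φ b g = (relFlow Φ τ (inc b g)).1 -
      (Real.sqrt (1 - ‖b‖ ^ 2) / ‖g‖) • (relFlow Φ τ (inc b g)).2 := by
  classical
  rw [exitImpact, if_pos ⟨τ, h⟩, exitTime_eq h, exitVelocity_eq hΦ (reg_entrance Φ hb hg) h]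

lemma exitImpact_of_not {b g : Space3} (h : ¬ ∃ τ, HasExit Φ (inc b g) τ) :
    exitImpact Φ b g = b := by
  classical
  rw [exitImpact, if_neg h]

/-- The radial velocity at exit. -/
theorem HasExit.inner_eq (hΦ : AdmissiblePotential Φ) {b g : Space3} (hb : b ∈ impactDisc g)
    (hg : g ≠ 0) {τ : ℝ} (h : HasExit Φ (inc b g) τ) :
    inner ℝ (relFlow Φ τ (inc b g)).1 (relFlow Φ τ (inc b g)).2
      = ‖g‖ * Real.sqrt (1 - ‖b‖ ^ 2) := by
  have hz : Reg Φ (inc b g).1 := reg_entrance Φ hb hg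
  have h1 := am_relFlow hΦ hz τ
  have h2 : am (inc b g).1 (inc b g).2 = ‖g‖ ^ 2 * ‖b‖ ^ 2 := am_entrance hb hg
  rw [h2, am, h.2.2, h.norm_velocity hΦ hb hg] at h1
  have h3 := h.inner_pos hΦ hz
  have h4 : 0 ≤ 1 - ‖b‖ ^ 2 := by nlinarith [norm_nonneg b, hb.2]
  have h5 : (inner ℝ (relFlow Φ τ (inc b g)).1 (relFlow Φ τ (inc b g)).2) ^ 2
      = (‖g‖ * Real.sqrt (1 - ‖b‖ ^ 2)) ^ 2 := by
    rw [mul_pow, Real.sq_sqrt h4]; linarith
  exact (pow_left_inj₀ h3.le (by positivity) (by norm_num)).1 h5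

theorem inner_exitImpact (hΦ : AdmissiblePotential Φ) {b g : Space3} (hb : b ∈ impactDisc g)
    (hg : g ≠ 0) : inner ℝ (exitImpact Φ b g) (exitVelocity Φ b g) = 0 := by
  by_cases h : ∃ τ, HasExit Φ (inc b g) τ
  · obtain ⟨τ, hτ⟩ := h
    have hng : ‖g‖ ≠ 0 := norm_ne_zero_iff.2 hg
    rw [exitImpact_eq hΦ hb hg hτ, exitVelocity_eq hΦ (reg_entrance Φ hb hg) hτ, inner_sub_left,
      inner_smul_left, hτ.inner_eq hΦ hb hg, real_inner_self_eq_norm_sq,
      hτ.norm_velocity hΦ hb hg]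
    simp only [conj_trivial]
    field_simp
    ring
  · rw [exitImpact_of_not h, exitVelocity_of_not hΦ (reg_entrance Φ hb hg) h]
    exact hb.1

theorem norm_exitImpact (hΦ : AdmissiblePotential Φ) {b g : Space3} (hb : b ∈ impactDisc g)
    (hg : g ≠ 0) : ‖exitImpact Φ b g‖ = ‖b‖ := by
  by_cases h : ∃ τ, HasExit Φ (inc b g) τ
  · obtain ⟨τ, hτ⟩ := h
    have hng : ‖g‖ ≠ 0 := norm_ne_zero_iff.2 hg
    have h4 : 0 ≤ 1 - ‖b‖ ^ 2 := by nlinarith [norm_nonneg b, hb.2]
    have h1 : ‖exitImpact Φ b g‖ ^ 2 = ‖b‖ ^ 2 := by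
      rw [exitImpact_eq hΦ hb hg hτ, sub_eq_add_neg, ← neg_smul, norm_sq_line, hτ.2.2,
        hτ.inner_eq hΦ hb hg, hτ.norm_velocity hΦ hb hg, neg_sq, div_pow, Real.sq_sqrt h4]
      have h5 : Real.sqrt (1 - ‖b‖ ^ 2) * Real.sqrt (1 - ‖b‖ ^ 2) = 1 - ‖b‖ ^ 2 :=
        Real.mul_self_sqrt h4
      field_simp
      nlinarith [h5]
    exact (pow_left_inj₀ (norm_nonneg _) (norm_nonneg _) (by norm_num)).1 h1
  · rw [exitImpact_of_not h]

theorem exitImpact_mem (hΦ : AdmissiblePotential Φ) {b g : Space3} (hb : b ∈ impactDisc g)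
    (hg : g ≠ 0) : exitImpact Φ b g ∈ impactDisc (exitVelocity Φ b g) := by
  refine ⟨inner_exitImpact hΦ hb hg, ?_⟩
  rw [norm_exitImpact hΦ hb hg]
  exact hb.2

theorem exitVelocity_ne_zero (hΦ : AdmissiblePotential Φ) {b g : Space3} (hb : b ∈ impactDisc g)
    (hg : g ≠ 0) : exitVelocity Φ b g ≠ 0 := by
  rw [← norm_pos_iff, norm_exitVelocity hΦ hb hg]
  exact norm_pos_iff.2 hg

/-- The exit point in terms of the outgoing impact parameter. -/
theorem exitPoint_eq (hΦ : AdmissiblePotential Φ) {b g : Space3} (hb : b ∈ impactDisc g)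
    (hg : g ≠ 0) {τ : ℝ} (h : HasExit Φ (inc b g) τ) :
    (relFlow Φ τ (inc b g)).1 =
      exitImpact Φ b g + (Real.sqrt (1 - ‖b‖ ^ 2) / ‖g‖) • exitVelocity Φ b g := by
  rw [exitImpact_eq hΦ hb hg h, exitVelocity_eq hΦ (reg_entrance Φ hb hg) h]
  abel

lemma mem_impactDisc_neg {b g : Space3} : b ∈ impactDisc (-g) ↔ b ∈ impactDisc g := by
  simp [impactDisc]

/-- The exit point with reversed velocity is the incoming phase point of `(b', -g')`. -/
theorem inc_exit (hΦ : AdmissiblePotential Φ) {b g : Space3} (hb : b ∈ impactDisc g)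
    (hg : g ≠ 0) {τ : ℝ} (h : HasExit Φ (inc b g) τ) :
    inc (exitImpact Φ b g) (-exitVelocity Φ b g) =
      ((relFlow Φ τ (inc b g)).1, -(relFlow Φ τ (inc b g)).2) := by
  rw [inc, entrancePoint, norm_exitImpact hΦ hb hg, norm_neg, norm_exitVelocity hΦ hb hg,
    exitPoint_eq hΦ hb hg h, exitVelocity_eq hΦ (reg_entrance Φ hb hg) h, smul_neg, sub_neg_eq_add]

/-- **Reversibility.** -/
theorem HasExit.reverse (hΦ : AdmissiblePotential Φ) {b g : Space3} (hb : b ∈ impactDisc g)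
    (hg : g ≠ 0) {τ : ℝ} (h : HasExit Φ (inc b g) τ) :
    HasExit Φ (inc (exitImpact Φ b g) (-exitVelocity Φ b g)) τ ∧
      relFlow Φ τ (inc (exitImpact Φ b g) (-exitVelocity Φ b g)) = (entrancePoint b g, -g) := by
  have hz : Reg Φ (inc b g).1 := reg_entrance Φ hb hg
  have key : ∀ s, relFlow Φ s (inc (exitImpact Φ b g) (-exitVelocity Φ b g)) =
      ((relFlow Φ (τ - s) (inc b g)).1, -(relFlow Φ (τ - s) (inc b g)).2) := by
    intro s
    rw [inc_exit hΦ hb hg h, relFlow_reverse hΦ (z := relFlow Φ τ (inc b g))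
      (reg_relFlow hΦ hz τ), ← relFlow_add hΦ]
    rfl
  refine ⟨⟨h.1, fun s hs => ?_, ?_⟩, ?_⟩
  · rw [key]
    exact h.2.1 _ ⟨by linarith [hs.2], by linarith [hs.1]⟩
  · rw [key, sub_self, relFlow_zero hΦ]
    exact norm_entrance hb hg
  · rw [key, sub_self, relFlow_zero hΦ]
    rfl

/-- **Involution property**: scattering of `(b', -g')` is `(b, -g)`. -/
theorem exit_exit (hΦ : AdmissiblePotential Φ) {b g : Space3} (hb : b ∈ impactDisc g)
    (hg : g ≠ 0) {τ : ℝ} (h : HasExit Φ (inc b g) τ) :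
    exitVelocity Φ (exitImpact Φ b g) (-exitVelocity Φ b g) = -g ∧
      exitImpact Φ (exitImpact Φ b g) (-exitVelocity Φ b g) = b := by
  obtain ⟨h1, h2⟩ := h.reverse hΦ hb hg
  have hb' : exitImpact Φ b g ∈ impactDisc (-exitVelocity Φ b g) :=
    mem_impactDisc_neg.2 (exitImpact_mem hΦ hb hg)
  have hg' : -exitVelocity Φ b g ≠ 0 := neg_ne_zero.2 (exitVelocity_ne_zero hΦ hb hg)
  have h3 : exitVelocity Φ (exitImpact Φ b g) (-exitVelocity Φ b g) = -g := by
    rw [exitVelocity_eq hΦ (reg_entrance Φ hb' hg') h1, h2]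
  refine ⟨h3, ?_⟩
  rw [exitImpact_eq hΦ hb' hg' h1, h2, norm_neg, norm_exitVelocity hΦ hb hg,
    norm_exitImpact hΦ hb hg, entrancePoint, smul_neg, sub_neg_eq_add, sub_add_cancel]

/-! ### Equivariance -/

lemma entrancePoint_isometry (R : Space3 ≃ₗᵢ[ℝ] Space3) (b g : Space3) :
    entrancePoint (R b) (R g) = R (entrancePoint b g) := by
  rw [entrancePoint, entrancePoint, map_sub, map_smul, R.norm_map, R.norm_map]

lemma mem_impactDisc_isometry (R : Space3 ≃ₗᵢ[ℝ] Space3) {b g : Space3} :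
    R b ∈ impactDisc (R g) ↔ b ∈ impactDisc g := by
  simp [impactDisc]

lemma hasExit_isometry (hΦ : AdmissiblePotential Φ) (R : Space3 ≃ₗᵢ[ℝ] Space3) {b g : Space3}
    (hb : b ∈ impactDisc g) (hg : g ≠ 0) {τ : ℝ} :
    HasExit Φ (inc (R b) (R g)) τ ↔ HasExit Φ (inc b g) τ := by
  have hz : Reg Φ (inc b g).1 := reg_entrance Φ hb hg
  have key : ∀ s, relFlow Φ s (inc (R b) (R g)) =
      (R (relFlow Φ s (inc b g)).1, R (relFlow Φ s (inc b g)).2) := by
    intro s
    rw [← relFlow_isometry hΦ R hz s, inc, entrancePoint_isometry]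
    rfl
  unfold HasExit
  simp only [key, R.norm_map]

/-- **Rotation equivariance** of the exit velocity. -/
theorem exitVelocity_isometry (hΦ : AdmissiblePotential Φ) (R : Space3 ≃ₗᵢ[ℝ] Space3)
    {b g : Space3} (hb : b ∈ impactDisc g) (hg : g ≠ 0) :
    exitVelocity Φ (R b) (R g) = R (exitVelocity Φ b g) := by
  have hz : Reg Φ (inc b g).1 := reg_entrance Φ hb hg
  have hRb : R b ∈ impactDisc (R g) := (mem_impactDisc_isometry R).2 hb
  have hRg : R g ≠ 0 := by simpa using hg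
  by_cases h : ∃ τ, HasExit Φ (inc b g) τ
  · obtain ⟨τ, hτ⟩ := h
    rw [exitVelocity_eq hΦ hz hτ,
      exitVelocity_eq hΦ (reg_entrance Φ hRb hRg) ((hasExit_isometry hΦ R hb hg).2 hτ)]
    have : relFlow Φ τ (inc (R b) (R g)) =
      (R (relFlow Φ τ (inc b g)).1, R (relFlow Φ τ (inc b g)).2) := by
      rw [← relFlow_isometry hΦ R hz τ, inc, entrancePoint_isometry]
      rfl
    rw [this]
  · have h' : ¬ ∃ τ, HasExit Φ (inc (R b) (R g)) τ := by
      rintro ⟨τ, hτ⟩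
      exact h ⟨τ, (hasExit_isometry hΦ R hb hg).1 hτ⟩
    rw [exitVelocity_of_not hΦ (reg_entrance Φ hb hg) h,
      exitVelocity_of_not hΦ (reg_entrance Φ hRb hRg) h']

theorem exitImpact_isometry (hΦ : AdmissiblePotential Φ) (R : Space3 ≃ₗᵢ[ℝ] Space3)
    {b g : Space3} (hb : b ∈ impactDisc g) (hg : g ≠ 0) :
    exitImpact Φ (R b) (R g) = R (exitImpact Φ b g) := by
  have hz : Reg Φ (inc b g).1 := reg_entrance Φ hb hg
  have hRb : R b ∈ impactDisc (R g) := (mem_impactDisc_isometry R).2 hb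
  have hRg : R g ≠ 0 := by simpa using hg
  by_cases h : ∃ τ, HasExit Φ (inc b g) τ
  · obtain ⟨τ, hτ⟩ := h
    rw [exitImpact_eq hΦ hb hg hτ, exitImpact_eq hΦ hRb hRg ((hasExit_isometry hΦ R hb hg).2 hτ)]
    have : relFlow Φ τ (inc (R b) (R g)) =
      (R (relFlow Φ τ (inc b g)).1, R (relFlow Φ τ (inc b g)).2) := by
      rw [← relFlow_isometry hΦ R hz τ, inc, entrancePoint_isometry]
      rfl
    rw [this, map_sub, map_smul, R.norm_map, R.norm_map]
  · have h' : ¬ ∃ τ, HasExit Φ (inc (R b) (R g)) τ := by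
      rintro ⟨τ, hτ⟩
      exact h ⟨τ, (hasExit_isometry hΦ R hb hg).1 hτ⟩
    rw [exitImpact_of_not h, exitImpact_of_not h']

end Crest.Agent.R122.Scat818
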