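import Mathlib
import Crest.Agent.R122.TreeSpec_674
import Crest.Agent.R122.Scat3_818
import Crest.Agent.R122.KinQ_416

-- ▼ part R122/Generic1_491
section

/-!
Row 122, Theorem C (helper491), part 1: isometry-invariant measures on space charge no line away
from the origin; the laws of `α • g + β • g_out` are isometry invariant.
-/

set_option autoImplicit false

open MeasureTheory Crest.AnalysisR.Kinetic Set
open scoped Classical ENNReal

noncomputable section

namespace Crest.Agent.R122.Generic491

open Disc416 Kin416 Boltz814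

/-! ### Invariant measures -/

/-- an isometry sending `x` to `y` when the norms agree -/
lemma exists_isometry {x y : Space3} (h : ‖x‖ = ‖y‖) : ∃ R : Space3 ≃ₗᵢ[ℝ] Space3, R x = y :=
  ⟨(ℝ ∙ (x - y))ᗮ.reflection, Submodule.reflection_sub h⟩

/-- a vector linearly independent of `C` -/
lemma exists_indep {C : Space3} (hC : C ≠ 0) : ∃ F : Space3, ∀ a b : ℝ, a • C + b • F = 0 →
    a = 0 ∧ b = 0 := by
  obtain ⟨F, hF⟩ : ∃ F : Space3, F ∉ Submodule.span ℝ {C} := by
    by_contra hcon
    push Not at hcon
    have htop : Submodule.span ℝ {C} = ⊤ := by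
      ext x; simp [hcon x]
    have h1 := finrank_span_singleton (K := ℝ) hC
    rw [htop, finrank_top] at h1
    have h2 : Module.finrank ℝ Space3 = 3 := by simp [Space3]
    omega
  refine ⟨F, fun a b h => ?_⟩
  have hb : b = 0 := by
    by_contra hb
    apply hF
    rw [Submodule.mem_span_singleton]
    refine ⟨-(b⁻¹ * a), ?_⟩
    have : b • F = -(a • C) := by rw [eq_neg_iff_add_eq_zero, add_comm]; exact h
    have h3 : F = b⁻¹ • (b • F) := by rw [smul_smul, inv_mul_cancel₀ hb, one_smul]
    rw [h3, this, smul_neg, smul_smul, neg_smul]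
  subst hb
  rw [zero_smul, add_zero, smul_eq_zero] at h
  exact ⟨h.resolve_right hC, rfl⟩

/-- an uncountable family of isometries sending `C` into different directions -/
lemma exists_family {C : Space3} (hC : C ≠ 0) : ∃ (F : Space3) (R : ℝ → Space3 ≃ₗᵢ[ℝ] Space3)
    (ρ : ℝ → ℝ), (∀ a b : ℝ, a • C + b • F = 0 → a = 0 ∧ b = 0) ∧
    (∀ t, ρ t ≠ 0) ∧ (∀ t, R t C = ρ t • (C + t • F)) := by
  obtain ⟨F, hF⟩ := exists_indep hC
  have hne : ∀ t : ℝ, C + t • F ≠ 0 := by
    intro t h
    have := (hF 1 t (by rwa [one_smul])).1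
    exact one_ne_zero this
  have hex : ∀ t : ℝ, ∃ R : Space3 ≃ₗᵢ[ℝ] Space3,
      R C = (‖C‖ / ‖C + t • F‖) • (C + t • F) := by
    intro t
    apply exists_isometry
    rw [norm_smul, norm_div, norm_norm, norm_norm, div_mul_cancel₀ _ (norm_ne_zero_iff.2 (hne t))]
  choose R hR using hex
  refine ⟨F, R, fun t => ‖C‖ / ‖C + t • F‖, hF, fun t => ?_, hR⟩
  exact div_ne_zero (norm_ne_zero_iff.2 hC) (norm_ne_zero_iff.2 (hne t))

/-- the line `B + ℝ C` without the origin -/
def lineSet (B C : Space3) : Set Space3 := {z | z ≠ 0 ∧ ∃ l : ℝ, z = B + l • C}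

lemma isClosed_line (B C : Space3) : IsClosed {z : Space3 | ∃ l : ℝ, z = B + l • C} := by
  have h : {z : Space3 | ∃ l : ℝ, z = B + l • C} =
      (fun z => z - B) ⁻¹' (Submodule.span ℝ {C} : Set Space3) := by
    ext z
    simp only [mem_ofPred_eq, mem_preimage, SetLike.mem_coe, Submodule.mem_span_singleton]
    constructor
    · rintro ⟨l, rfl⟩; exact ⟨l, by abel⟩
    · rintro ⟨l, hl⟩; exact ⟨l, by rw [hl]; abel⟩
  rw [h]
  exact (Submodule.closed_of_finiteDimensional _).preimage (by fun_prop)

lemma measurableSet_lineSet (B C : Space3) : MeasurableSet (lineSet B C) := by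
  have : lineSet B C = {0}ᶜ ∩ {z : Space3 | ∃ l : ℝ, z = B + l • C} := by
    ext z; simp [lineSet]
  rw [this]
  exact (measurableSet_singleton _).compl.inter (isClosed_line B C).measurableSet

lemma not_countable_of_pos {As : ℝ → ℝ≥0∞} {c : ℝ≥0∞} (hc : c ≠ 0) (h : ∀ t, As t = c)
    (hco : Set.Countable {t | 0 < As t}) : False := by
  have : {t | 0 < As t} = univ := by
    ext t; simp [h t, pos_iff_ne_zero, hc]
  rw [this] at hco
  exact Set.not_countable_univ hco

/-- An isometry-invariant s-finite measure has no atoms except possibly `0`. -/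
lemma measure_singleton (μ : Measure Space3) [SFinite μ]
    (hinv : ∀ R : Space3 ≃ₗᵢ[ℝ] Space3, μ.map R = μ) {x : Space3} (hx : x ≠ 0) : μ {x} = 0 := by
  by_contra hne
  obtain ⟨F, R, ρ, hF, hρ, hR⟩ := exists_family hx
  have hinj : Function.Injective fun t => R t x := by
    intro t t' h
    simp only [hR] at h
    have h1 : (ρ t - ρ t') • x + (ρ t * t - ρ t' * t') • F = 0 := by
      have : ρ t • (x + t • F) - ρ t' • (x + t' • F) = 0 := sub_eq_zero.2 h
      rw [← this]; module
    obtain ⟨h2, h3⟩ := hF _ _ h1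
    have h4 : ρ t = ρ t' := sub_eq_zero.1 h2
    rw [← h4] at h3
    have h5 : ρ t * (t - t') = 0 := by linarith
    exact sub_eq_zero.1 ((mul_eq_zero.1 h5).resolve_left (hρ t))
  have hval : ∀ t, μ {R t x} = μ {x} := by
    intro t
    conv_lhs => rw [← hinv (R t)]
    rw [Measure.map_apply (R t).continuous.measurable (measurableSet_singleton _)]
    congr 1
    ext z
    simp
  have hdisj : Pairwise (Function.onFun Disjoint fun t => ({R t x} : Set Space3)) := by
    intro t t' h
    simp only [Function.onFun, disjoint_singleton]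
    exact fun h' => h (hinj h')
  exact not_countable_of_pos hne hval
    (Measure.countable_meas_pos_of_disjoint_iUnion (fun t => measurableSet_singleton _) hdisj)

/-- **An isometry-invariant s-finite measure on `ℝ³` charges no line away from the origin.** -/
theorem measure_lineSet (μ : Measure Space3) [SFinite μ]
    (hinv : ∀ R : Space3 ≃ₗᵢ[ℝ] Space3, μ.map R = μ) (B C : Space3) : μ (lineSet B C) = 0 := by
  by_cases hC : C = 0
  · subst hC
    by_cases hB : B = 0
    · have : lineSet B 0 = ∅ := by
        ext z; simp [lineSet, hB]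
      rw [this]; simp
    · refine measure_mono_null ?_ (measure_singleton μ hinv hB)
      rintro z ⟨-, l, rfl⟩
      simp
  by_contra hne
  obtain ⟨F, R, ρ, hF, hρ, hR⟩ := exists_family hC
  have himg : ∀ t, (R t) ⁻¹' (lineSet (R t B) (C + t • F)) = lineSet B C := by
    intro t
    ext z
    simp only [lineSet, mem_preimage, mem_ofPred_eq, ne_eq, EmbeddingLike.map_eq_zero_iff]
    refine and_congr_right fun _ => ?_
    constructor
    · rintro ⟨l, hl⟩
      refine ⟨l / ρ t, (R t).injective ?_⟩
      rw [hl, map_add, map_smul, hR, smul_smul, div_mul_cancel₀ _ (hρ t)]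
    · rintro ⟨l, rfl⟩
      refine ⟨l * ρ t, ?_⟩
      rw [map_add, map_smul, hR, smul_smul]
  have hval : ∀ t, μ (lineSet (R t B) (C + t • F)) = μ (lineSet B C) := by
    intro t
    conv_lhs => rw [← hinv (R t)]
    rw [Measure.map_apply (R t).continuous.measurable (measurableSet_lineSet _ _), himg]
  have hdisj : Pairwise (Function.onFun (AEDisjoint μ)
      fun t => lineSet (R t B) (C + t • F)) := by
    intro t t' htt
    simp only [Function.onFun, AEDisjoint]
    -- the intersection has at most one point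
    have hsub : ∀ z z', z ∈ lineSet (R t B) (C + t • F) ∩ lineSet (R t' B) (C + t' • F) →
        z' ∈ lineSet (R t B) (C + t • F) ∩ lineSet (R t' B) (C + t' • F) → z = z' := by
      rintro z z' ⟨⟨-, l, hl⟩, ⟨-, m, hm⟩⟩ ⟨⟨-, l', hl'⟩, ⟨-, m', hm'⟩⟩
      have e1 : z - z' = (l - l') • (C + t • F) := by rw [hl, hl']; module
      have e2 : z - z' = (m - m') • (C + t' • F) := by rw [hm, hm']; module
      have e3 : ((l - l') - (m - m')) • C + ((l - l') * t - (m - m') * t') • F = 0 := by
        have : (l - l') • (C + t • F) - (m - m') • (C + t' • F) = 0 := by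
          rw [← e1, ← e2, sub_self]
        rw [← this]; module
      obtain ⟨h1, h2⟩ := hF _ _ e3
      have h3 : l - l' = m - m' := sub_eq_zero.1 h1
      rw [← h3] at h2
      have h4 : (l - l') * (t - t') = 0 := by linarith
      have h5 : l - l' = 0 := (mul_eq_zero.1 h4).resolve_right (sub_ne_zero.2 htt)
      rw [h5, zero_smul] at e1
      exact sub_eq_zero.1 e1
    rcases (lineSet (R t B) (C + t • F) ∩ lineSet (R t' B) (C + t' • F)).eq_empty_or_nonempty with
      h | ⟨z, hz⟩
    · rw [h]; simp
    · refine measure_mono_null (t := {z}) (fun z' hz' => ?_) (measure_singleton μ hinv hz.1.1)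
      exact hsub _ _ hz' hz
  exact not_countable_of_pos hne hval
    (Measure.countable_meas_pos_of_disjoint_iUnion₀
      (fun t => (measurableSet_lineSet _ _).nullMeasurableSet) hdisj)

/-! ### The laws of relative velocities -/

variable {Φ : Space3 → ℝ}

/-- `α • g + β • g_out` in planar coordinates -/
def dl (Φ : Space3 → ℝ) (α β : ℝ) (p : Space3 × Plane) : Space3 :=
  α • p.1 + β • exitM Φ (frameMap p.1 p.2, p.1)

lemma measurable_dl (S : ScatFacts Φ) (α β : ℝ) : Measurable (dl Φ α β) := by
  unfold dl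
  exact (measurable_fst.const_smul α).add
    (((measurable_exitM S).comp (measurable_frameMap.prodMk measurable_fst)).const_smul β)

lemma exitM_isometry (hΦ : AdmissiblePotential Φ) (R : Space3 ≃ₗᵢ[ℝ] Space3) (b : Space3)
    {g : Space3} (hg : g ≠ 0) : exitM Φ (R b, R g) = R (exitM Φ (b, g)) := by
  unfold exitM
  simp only [Scat818.mem_impactDisc_isometry]
  split_ifs with h
  · exact Scat818.exitVelocity_isometry hΦ R h hg
  · rfl

/-- law of `α • g + β • g_out` -/
def law (Φ : Space3 → ℝ) (α β : ℝ) : Measure Space3 :=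
  ((volume : Measure Space3).prod (volume.restrict (Metric.ball (0 : Plane) 1))).map (dl Φ α β)

instance (α β : ℝ) : SFinite (law Φ α β) := by unfold law; infer_instance

lemma lintegral_disc_isometry (R : Space3 ≃ₗᵢ[ℝ] Space3) (g : Space3) (H : Space3 → ℝ≥0∞) :
    ∫⁻ b in impactDisc g, H (R b) ∂μHE[2] = ∫⁻ b in impactDisc (R g), H b ∂μHE[2] := by
  have hmp := IsometryEquiv.measurePreserving_euclideanHausdorffMeasure R.toIsometryEquiv 2
  have hpre : (R.toIsometryEquiv) ⁻¹' (impactDisc (R g)) = impactDisc g := by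
    ext b
    exact Scat818.mem_impactDisc_isometry R
  have hemb : MeasurableEmbedding (R.toIsometryEquiv) :=
    R.toIsometryEquiv.toHomeomorph.measurableEmbedding
  have := hmp.setLIntegral_comp_preimage_emb hemb H (impactDisc (R g))
  rw [hpre] at this
  exact this

lemma ae_ne_zero : ∀ᵐ g : Space3, g ≠ 0 :=
  compl_mem_ae_iff.2 (MeasureTheory.measure_singleton (0 : Space3))

lemma law_apply (S : ScatFacts Φ) (α β : ℝ) {A : Set Space3} (hA : MeasurableSet A) :
    law Φ α β A = ∫⁻ g : Space3, ∫⁻ b in impactDisc g,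
      A.indicator 1 (α • g + β • exitM Φ (b, g)) ∂μHE[2] := by
  unfold law
  rw [Measure.map_apply (measurable_dl S α β) hA, ← lintegral_indicator_one
    (measurable_dl S α β hA), lintegral_prod _
    (measurable_one.indicator (measurable_dl S α β hA)).aemeasurable]
  refine lintegral_congr_ae ?_
  filter_upwards [ae_ne_zero] with g hg
  rw [lintegral_impactDisc hg]
  rfl

lemma law_invariant (hΦ : AdmissiblePotential Φ) (S : ScatFacts Φ) (α β : ℝ)
    (R : Space3 ≃ₗᵢ[ℝ] Space3) : (law Φ α β).map R = law Φ α β := by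
  ext A hA
  rw [Measure.map_apply R.continuous.measurable hA,
    law_apply S α β (R.continuous.measurable hA), law_apply S α β hA]
  have hmp : MeasurePreserving R (volume : Measure Space3) volume := R.measurePreserving
  have hemb : MeasurableEmbedding R := R.toHomeomorph.measurableEmbedding
  conv_rhs => rw [← hmp.lintegral_comp_emb hemb]
  refine lintegral_congr_ae ?_
  filter_upwards [ae_ne_zero] with g hg
  rw [← lintegral_disc_isometry R g]
  refine lintegral_congr fun b => ?_
  rw [exitM_isometry hΦ R b hg]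
  have : R (α • g + β • exitM Φ (b, g)) = α • R g + β • R (exitM Φ (b, g)) := by
    rw [map_add, map_smul, map_smul]
  rw [← this]
  rfl

/-- for almost all `(g, y)`, `α • g + β • g_out` is `0` or off a given line -/
theorem ae_dl (hΦ : AdmissiblePotential Φ) (S : ScatFacts Φ) (α β : ℝ) (B C : Space3) :
    ∀ᵐ p : Space3 × Plane, ‖p.2‖ < 1 → dl Φ α β p ≠ 0 → ∀ l : ℝ, dl Φ α β p ≠ B + l • C := by
  have h := measure_lineSet (law Φ α β) (law_invariant hΦ S α β) B C
  unfold law at h
  rw [Measure.map_apply (measurable_dl S α β) (measurableSet_lineSet _ _)] at h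
  have h2 : (volume : Measure Space3).prod (volume.restrict (Metric.ball (0 : Plane) 1)) =
      (volume : Measure (Space3 × Plane)).restrict (univ ×ˢ Metric.ball (0 : Plane) 1) := by
    rw [Measure.volume_eq_prod, ← Measure.prod_restrict, Measure.restrict_univ]
  rw [h2] at h
  have h3 := (measure_eq_zero_iff_ae_notMem.1 h)
  rw [ae_restrict_iff' (MeasurableSet.univ.prod measurableSet_ball)] at h3
  filter_upwards [h3] with p hp hp1 hp2 l hl
  exact hp ⟨mem_univ _, by simpa using hp1⟩ ⟨hp2, l, hl⟩

end Crest.Agent.R122.Generic491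

end
end

-- ▼ part R122/Generic2_491
section

/-!
Row 122, Theorem C (helper491), part 2: covariance of collision trees under translations and Galilean
boosts, for every `ε`.
-/

set_option autoImplicit false

open MeasureTheory Crest.AnalysisR.Kinetic Set
open scoped Classical ENNReal

noncomputable section

namespace Crest.Agent.R122.Generic491

open Kin796 Kin796.CTree Disc416 Tree674

variable {Φ : Space3 → ℝ} {ε : ℝ} {l r : CTree}

/-! ### Constructors and equation lemmas -/

/-- parameters of a node tree -/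
def mkP (a : NodeP) (pl : Par l) (pr : Par r) : Par (node l r) := (a, pl, pr)

/-- particle of the left branch -/
def inlI (l r : CTree) (i : Idx l) : Idx (node l r) := Sum.inl i

/-- particle of the right branch -/
def inrI (l r : CTree) (i : Idx r) : Idx (node l r) := Sum.inr i

lemma exists_mkP (p : Par (node l r)) : ∃ a pl pr, p = mkP a pl pr := ⟨p.1, p.2.1, p.2.2, rfl⟩

lemma idx_cases (i : Idx (node l r)) : (∃ i', i = inlI l r i') ∨ (∃ j', i = inrI l r j') := by
  rcases i with i | i
  · exact Or.inl ⟨i, rfl⟩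
  · exact Or.inr ⟨i, rfl⟩

lemma inlI_inj {i j : Idx l} : inlI l r i = inlI l r j ↔ i = j := Sum.inl_injective.eq_iff
lemma inrI_inj {i j : Idx r} : inrI l r i = inrI l r j ↔ i = j := Sum.inr_injective.eq_iff
lemma inlI_ne_inrI (i : Idx l) (j : Idx r) : inlI l r i ≠ inrI l r j := Sum.inl_ne_inr

lemma root_node (l r : CTree) : root (node l r) = inlI l r (root l) := rfl

lemma idx_leaf (i j : Idx leaf) : i = j := by
  cases i; cases j; rfl

lemma path_leaf (ℓ : PhasePoint) (p : Par leaf) (u : ℝ) (i : Idx leaf) :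
    path Φ ε leaf ℓ p u i = onLine ℓ u := rfl

lemma path_inl (ℓ : PhasePoint) (a : NodeP) (pl : Par l) (pr : Par r) (u : ℝ) (i : Idx l) :
    path Φ ε (node l r) ℓ (mkP a pl pr) u (inlI l r i) =
      if u ≤ sin Φ ε ℓ.2 a ∨ i ≠ root l then path Φ ε l (inMap Φ ε ℓ a).1 pl u i
      else (colPath Φ ε ℓ a u).1 := by
  show (if u ≤ sin Φ ε ℓ.2 a then
        Sum.elim (path Φ ε l (inMap Φ ε ℓ a).1 pl u) (path Φ ε r (inMap Φ ε ℓ a).2 pr u)
      else
        Sum.elim
          (Function.update (path Φ ε l (inMap Φ ε ℓ a).1 pl u) (root l)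
            (colPath Φ ε ℓ a u).1)
          (Function.update (path Φ ε r (inMap Φ ε ℓ a).2 pr u) (root r)
            (colPath Φ ε ℓ a u).2)) (Sum.inl i) = _
  by_cases h : u ≤ sin Φ ε ℓ.2 a
  · rw [if_pos h, if_pos (Or.inl h)]; rfl
  · rw [if_neg h]
    by_cases hi : i = root l
    · subst hi
      rw [if_neg (by simp [h])]
      simp
    · rw [if_pos (Or.inr hi)]
      simp [hi]

lemma path_inr (ℓ : PhasePoint) (a : NodeP) (pl : Par l) (pr : Par r) (u : ℝ) (i : Idx r) :
    path Φ ε (node l r) ℓ (mkP a pl pr) u (inrI l r i) =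
      if u ≤ sin Φ ε ℓ.2 a ∨ i ≠ root r then path Φ ε r (inMap Φ ε ℓ a).2 pr u i
      else (colPath Φ ε ℓ a u).2 := by
  show (if u ≤ sin Φ ε ℓ.2 a then
        Sum.elim (path Φ ε l (inMap Φ ε ℓ a).1 pl u) (path Φ ε r (inMap Φ ε ℓ a).2 pr u)
      else
        Sum.elim
          (Function.update (path Φ ε l (inMap Φ ε ℓ a).1 pl u) (root l)
            (colPath Φ ε ℓ a u).1)
          (Function.update (path Φ ε r (inMap Φ ε ℓ a).2 pr u) (root r)
            (colPath Φ ε ℓ a u).2)) (Sum.inr i) = _
  by_cases h : u ≤ sin Φ ε ℓ.2 a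
  · rw [if_pos h, if_pos (Or.inl h)]; rfl
  · rw [if_neg h]
    by_cases hi : i = root r
    · subst hi
      rw [if_neg (by simp [h])]
      simp
    · rw [if_pos (Or.inr hi)]
      simp [hi]

lemma lines_inl (ℓ : PhasePoint) (a : NodeP) (pl : Par l) (pr : Par r) (i : Idx l) :
    lines Φ ε (node l r) ℓ (mkP a pl pr) (inlI l r i) = lines Φ ε l (inMap Φ ε ℓ a).1 pl i := rfl

lemma lines_inr (ℓ : PhasePoint) (a : NodeP) (pl : Par l) (pr : Par r) (i : Idx r) :
    lines Φ ε (node l r) ℓ (mkP a pl pr) (inrI l r i) = lines Φ ε r (inMap Φ ε ℓ a).2 pr i := rfl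


lemma adm_node (v : Space3) (a : NodeP) (pl : Par l) (pr : Par r) :
    Adm Φ (node l r) v (mkP a pl pr) ↔ Adm1 Φ v a ∧ Adm Φ l (preV Φ v a).1 pl ∧
      Adm Φ r (preV Φ v a).2 pr := Iff.rfl

lemma ord_node (T : ℝ) (v : Space3) (a : NodeP) (pl : Par l) (pr : Par r) :
    Tree674.Ord Φ ε (node l r) T v (mkP a pl pr) ↔ a.1 < T ∧ 0 < sin Φ ε v a ∧
      Tree674.Ord Φ ε l (sin Φ ε v a) (preV Φ v a).1 pl ∧
      Tree674.Ord Φ ε r (sin Φ ε v a) (preV Φ v a).2 pr := Iff.rfl



lemma inWindow_node (v : Space3) (a : NodeP) (pl : Par l) (pr : Par r) (i j : Idx (node l r))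
    (u : ℝ) : InWindow Φ ε (node l r) v (mkP a pl pr) i j u ↔
      (i = inlI l r (root l) ∧ j = inrI l r (root r) ∧ sin Φ ε v a ≤ u ∧ u ≤ a.1) ∨
      (∃ i' j', i = inlI l r i' ∧ j = inlI l r j' ∧ InWindow Φ ε l (preV Φ v a).1 pl i' j' u) ∨
      (∃ i' j', i = inrI l r i' ∧ j = inrI l r j' ∧ InWindow Φ ε r (preV Φ v a).2 pr i' j' u) :=
  Iff.rfl

lemma inWindow_inl_inl (v : Space3) (a : NodeP) (pl : Par l) (pr : Par r) (i j : Idx l)
    (u : ℝ) : InWindow Φ ε (node l r) v (mkP a pl pr) (inlI l r i) (inlI l r j) u ↔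
      InWindow Φ ε l (preV Φ v a).1 pl i j u := by
  rw [inWindow_node]
  constructor
  · rintro (⟨-, h, -⟩ | ⟨i', j', h1, h2, h⟩ | ⟨i', j', h1, h2, h⟩)
    · exact absurd h (inlI_ne_inrI _ _)
    · rw [inlI_inj] at h1 h2; subst h1 h2; exact h
    · exact absurd h1 (inlI_ne_inrI _ _)
  · intro h
    exact Or.inr (Or.inl ⟨i, j, rfl, rfl, h⟩)

lemma inWindow_inr_inr (v : Space3) (a : NodeP) (pl : Par l) (pr : Par r) (i j : Idx r)
    (u : ℝ) : InWindow Φ ε (node l r) v (mkP a pl pr) (inrI l r i) (inrI l r j) u ↔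
      InWindow Φ ε r (preV Φ v a).2 pr i j u := by
  rw [inWindow_node]
  constructor
  · rintro (⟨h, -⟩ | ⟨i', j', h1, h2, h⟩ | ⟨i', j', h1, h2, h⟩)
    · exact absurd h.symm (inlI_ne_inrI _ _)
    · exact absurd h1.symm (inlI_ne_inrI _ _)
    · rw [inrI_inj] at h1 h2; subst h1 h2; exact h
  · intro h
    exact Or.inr (Or.inr ⟨i, j, rfl, rfl, h⟩)

lemma inWindow_inl_inr (v : Space3) (a : NodeP) (pl : Par l) (pr : Par r) (i : Idx l) (j : Idx r)
    (u : ℝ) : InWindow Φ ε (node l r) v (mkP a pl pr) (inlI l r i) (inrI l r j) u ↔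
      i = root l ∧ j = root r ∧ sin Φ ε v a ≤ u ∧ u ≤ a.1 := by
  rw [inWindow_node, inlI_inj, inrI_inj]
  constructor
  · rintro (h | ⟨i', j', h1, h2, h⟩ | ⟨i', j', h1, h2, h⟩)
    · exact h
    · exact absurd h2.symm (inlI_ne_inrI _ _)
    · exact absurd h1 (inlI_ne_inrI _ _)
  · intro h
    exact Or.inl h


/-! ### Boosts -/

/-- translate and boost a line -/
def shL (A c : Space3) (ℓ : PhasePoint) : PhasePoint := (ℓ.1 + A, ℓ.2 + c)

/-- boost a node -/
def boostN (c : Space3) (a : NodeP) : NodeP := (a.1, a.2.1 + c, a.2.2)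

/-- boost all nodes of a tree -/
def boostP : ∀ P : CTree, Space3 → Par P → Par P
  | leaf => fun _ p => p
  | node l r => fun c p => (boostN c p.1, boostP l c p.2.1, boostP r c p.2.2)

@[simp] lemma shL_fst (A c : Space3) (ℓ : PhasePoint) : (shL A c ℓ).1 = ℓ.1 + A := rfl
@[simp] lemma shL_snd (A c : Space3) (ℓ : PhasePoint) : (shL A c ℓ).2 = ℓ.2 + c := rfl
@[simp] lemma boostN_fst (c : Space3) (a : NodeP) : (boostN c a).1 = a.1 := rfl
@[simp] lemma boostN_snd (c : Space3) (a : NodeP) : (boostN c a).2.1 = a.2.1 + c := rfl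
@[simp] lemma boostN_thd (c : Space3) (a : NodeP) : (boostN c a).2.2 = a.2.2 := rfl

lemma boostP_mk (c : Space3) (a : NodeP) (pl : Par l) (pr : Par r) :
    boostP (node l r) c (mkP a pl pr) = mkP (boostN c a) (boostP l c pl) (boostP r c pr) := rfl

@[simp] lemma shL_shL (A B c d : Space3) (ℓ : PhasePoint) :
    shL A c (shL B d ℓ) = shL (A + B) (c + d) ℓ := by
  apply Prod.ext
  · simp only [shL_fst]; abel
  · simp only [shL_snd]; abel

@[simp] lemma shL_zero (ℓ : PhasePoint) : shL 0 0 ℓ = ℓ := by
  apply Prod.ext <;> simp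

lemma shL_self (ℓ : PhasePoint) : shL ℓ.1 ℓ.2 0 = ℓ := by
  apply Prod.ext <;> simp [shL]

lemma boostN_boostN (c d : Space3) (a : NodeP) : boostN c (boostN d a) = boostN (c + d) a := by
  unfold boostN
  simp only [add_assoc, add_comm c d]

lemma boostN_zero (a : NodeP) : boostN 0 a = a := by
  unfold boostN
  simp

lemma boostP_boostP (P : CTree) (c d : Space3) (p : Par P) :
    boostP P c (boostP P d p) = boostP P (c + d) p := by
  induction P with
  | leaf => rfl
  | node l r hl hr =>
    obtain ⟨a, pl, pr, rfl⟩ := exists_mkP p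
    rw [boostP_mk, boostP_mk, boostP_mk, boostN_boostN, hl, hr]

lemma boostP_zero (P : CTree) (p : Par P) : boostP P 0 p = p := by
  induction P with
  | leaf => rfl
  | node l r hl hr =>
    obtain ⟨a, pl, pr, rfl⟩ := exists_mkP p
    rw [boostP_mk, boostN_zero, hl, hr]

lemma boostP_neg_cancel (P : CTree) (c : Space3) (p : Par P) :
    boostP P c (boostP P (-c) p) = p := by
  rw [boostP_boostP, add_neg_cancel, boostP_zero]


/-! ### Node covariance -/

@[simp] lemma ng_boost (v c : Space3) (a : NodeP) : ng (v + c) (boostN c a) = ng v a := by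
  unfold ng; simp

@[simp] lemma nb_boost (v c : Space3) (a : NodeP) : nb (v + c) (boostN c a) = nb v a := by
  unfold nb; simp

@[simp] lemma sin_boost (v c : Space3) (a : NodeP) :
    sin Φ ε (v + c) (boostN c a) = sin Φ ε v a := by
  unfold sin; simp

@[simp] lemma adm1_boost (v c : Space3) (a : NodeP) :
    Adm1 Φ (v + c) (boostN c a) ↔ Adm1 Φ v a := by
  unfold Adm1; simp

@[simp] lemma cmv_boost (v c : Space3) (a : NodeP) : cmv (v + c) (boostN c a) = cmv v a + c := by
  unfold cmv
  simp only [boostN_snd]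
  module

lemma preV_boost (v c : Space3) (a : NodeP) :
    preV Φ (v + c) (boostN c a) = ((preV Φ v a).1 + c, (preV Φ v a).2 + c) := by
  unfold preV postVelocities
  simp only [nb_boost, boostN_snd]
  have h : v + c - (a.2.1 + c) = v - a.2.1 := by abel
  rw [h]
  apply Prod.ext <;> dsimp only <;> module

@[simp] lemma preV_boost_fst (v c : Space3) (a : NodeP) :
    (preV Φ (v + c) (boostN c a)).1 = (preV Φ v a).1 + c := by rw [preV_boost]

@[simp] lemma preV_boost_snd (v c : Space3) (a : NodeP) :
    (preV Φ (v + c) (boostN c a)).2 = (preV Φ v a).2 + c := by rw [preV_boost]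

lemma cms_boost (A c : Space3) (ℓ : PhasePoint) (a : NodeP) :
    cms ε (shL A c ℓ) (boostN c a) = cms ε ℓ a + (A + a.1 • c) := by
  unfold cms
  simp only [shL_fst, shL_snd, boostN_fst, nb_boost, ng_boost]
  module

lemma xin_boost (A c : Space3) (ℓ : PhasePoint) (a : NodeP) :
    xin Φ ε (shL A c ℓ) (boostN c a) =
      ((xin Φ ε ℓ a).1 + (A + sin Φ ε ℓ.2 a • c), (xin Φ ε ℓ a).2 + (A + sin Φ ε ℓ.2 a • c)) := by
  unfold xin
  simp only [cms_boost, shL_snd, cmv_boost, nb_boost, ng_boost, sin]
  apply Prod.ext <;> dsimp only <;> module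

lemma inMap_boost (A c : Space3) (ℓ : PhasePoint) (a : NodeP) :
    inMap Φ ε (shL A c ℓ) (boostN c a) =
      (shL A c (inMap Φ ε ℓ a).1, shL A c (inMap Φ ε ℓ a).2) := by
  unfold inMap
  simp only [xin_boost, shL_snd, sin_boost, preV_boost]
  unfold shL
  apply Prod.ext <;> apply Prod.ext <;> dsimp only
  module
  module

@[simp] lemma inMap_boost_fst (A c : Space3) (ℓ : PhasePoint) (a : NodeP) :
    (inMap Φ ε (shL A c ℓ) (boostN c a)).1 = shL A c (inMap Φ ε ℓ a).1 := by rw [inMap_boost]

@[simp] lemma inMap_boost_snd (A c : Space3) (ℓ : PhasePoint) (a : NodeP) :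
    (inMap Φ ε (shL A c ℓ) (boostN c a)).2 = shL A c (inMap Φ ε ℓ a).2 := by rw [inMap_boost]



lemma outLine_boost (A c : Space3) (ℓ : PhasePoint) (a : NodeP) :
    outLine ε (shL A c ℓ) (boostN c a) = shL A c (outLine ε ℓ a) := by
  unfold outLine
  simp only [shL_fst, shL_snd, boostN_fst, boostN_snd, nb_boost, ng_boost]
  apply Prod.ext
  · dsimp only [shL]; module
  · rfl

lemma onLine_boost (A c : Space3) (ℓ : PhasePoint) (u : ℝ) :
    onLine (shL A c ℓ) u = shL (A + u • c) c (onLine ℓ u) := by
  unfold onLine shL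
  apply Prod.ext
  · dsimp only; module
  · rfl

lemma pairPath_boost (A c : Space3) (ℓ : PhasePoint) (a : NodeP) (u : ℝ) :
    pairPath Φ ε (shL A c ℓ) (boostN c a) u =
      (shL (A + u • c) c (pairPath Φ ε ℓ a u).1, shL (A + u • c) c (pairPath Φ ε ℓ a u).2) := by
  unfold pairPath
  simp only [cms_boost, shL_snd, cmv_boost, nb_boost, ng_boost, boostN_fst]
  unfold shL
  apply Prod.ext <;> apply Prod.ext <;> dsimp only <;> module

lemma colPath_boost (A c : Space3) (ℓ : PhasePoint) (a : NodeP) (u : ℝ) :
    colPath Φ ε (shL A c ℓ) (boostN c a) u =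
      (shL (A + u • c) c (colPath Φ ε ℓ a u).1, shL (A + u • c) c (colPath Φ ε ℓ a u).2) := by
  unfold colPath
  by_cases h : a.1 ≤ u
  · have h' : (boostN c a).1 ≤ u := h
    rw [if_pos h, if_pos h', outLine_boost, onLine_boost, onLine_boost]
  · have h' : ¬ (boostN c a).1 ≤ u := h
    rw [if_neg h, if_neg h', pairPath_boost]

/-! ### Tree covariance -/

theorem path_boost (P : CTree) (A c : Space3) (ℓ : PhasePoint) (p : Par P) (u : ℝ) (i : Idx P) :
    path Φ ε P (shL A c ℓ) (boostP P c p) u i = shL (A + u • c) c (path Φ ε P ℓ p u i) := by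
  induction P generalizing ℓ with
  | leaf => exact onLine_boost A c ℓ u
  | node l r hl hr =>
    obtain ⟨a, pl, pr, rfl⟩ := exists_mkP p
    rw [boostP_mk]
    rcases idx_cases i with ⟨i, rfl⟩ | ⟨i, rfl⟩
    · rw [path_inl, path_inl, shL_snd, sin_boost, inMap_boost_fst, hl, colPath_boost]
      split_ifs <;> rfl
    · rw [path_inr, path_inr, shL_snd, sin_boost, inMap_boost_snd, hr, colPath_boost]
      split_ifs <;> rfl

theorem lines_boost (P : CTree) (A c : Space3) (ℓ : PhasePoint) (p : Par P) (i : Idx P) :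
    lines Φ ε P (shL A c ℓ) (boostP P c p) i = shL A c (lines Φ ε P ℓ p i) := by
  induction P generalizing ℓ with
  | leaf => rfl
  | node l r hl hr =>
    obtain ⟨a, pl, pr, rfl⟩ := exists_mkP p
    rw [boostP_mk]
    rcases idx_cases i with ⟨i, rfl⟩ | ⟨i, rfl⟩
    · rw [lines_inl, lines_inl, inMap_boost_fst, hl]
    · rw [lines_inr, lines_inr, inMap_boost_snd, hr]


theorem adm_boost (P : CTree) (c v : Space3) (p : Par P) :
    Adm Φ P (v + c) (boostP P c p) ↔ Adm Φ P v p := by
  induction P generalizing v with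
  | leaf => rfl
  | node l r hl hr =>
    obtain ⟨a, pl, pr, rfl⟩ := exists_mkP p
    rw [boostP_mk, adm_node, adm_node, preV_boost_fst, preV_boost_snd, hl, hr, adm1_boost]

theorem ord_boost (P : CTree) (T : ℝ) (c v : Space3) (p : Par P) :
    Tree674.Ord Φ ε P T (v + c) (boostP P c p) ↔ Tree674.Ord Φ ε P T v p := by
  induction P generalizing v T with
  | leaf => rfl
  | node l r hl hr =>
    obtain ⟨a, pl, pr, rfl⟩ := exists_mkP p
    rw [boostP_mk, ord_node, ord_node, preV_boost_fst, preV_boost_snd, hl, hr, boostN_fst,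
      sin_boost]

theorem valid_boost (P : CTree) (T : ℝ) (c v : Space3) (p : Par P) :
    Valid Φ ε P T (v + c) (boostP P c p) ↔ Valid Φ ε P T v p := by
  unfold Valid
  rw [adm_boost, ord_boost]

theorem inWindow_boost (P : CTree) (c v : Space3) (p : Par P) (i j : Idx P) (u : ℝ) :
    InWindow Φ ε P (v + c) (boostP P c p) i j u ↔ InWindow Φ ε P v p i j u := by
  induction P generalizing v with
  | leaf => rfl
  | node l r hl hr =>
    obtain ⟨a, pl, pr, rfl⟩ := exists_mkP p
    rw [boostP_mk, inWindow_node, inWindow_node, preV_boost_fst, preV_boost_snd, boostN_fst,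
      sin_boost]
    simp only [hl, hr]

theorem gen_boost (P : CTree) (A c : Space3) (ℓ : PhasePoint) (p : Par P) :
    Gen Φ P (shL A c ℓ) (boostP P c p) ↔ Gen Φ P ℓ p := by
  unfold Gen
  simp only [path_boost, shL_fst, shL_snd, inWindow_boost, ne_eq, add_left_inj]

theorem sep_boost (P : CTree) (T : ℝ) (A c : Space3) (ℓ : PhasePoint) (p : Par P) :
    Tree674.Sep Φ ε P T (shL A c ℓ) (boostP P c p) ↔ Tree674.Sep Φ ε P T ℓ p := by
  unfold Tree674.Sep
  simp only [path_boost, shL_fst, shL_snd, inWindow_boost, dist_add_right]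

/-! ### Reduction to the rest frame of the root line -/

theorem gen_rest (P : CTree) (ℓ : PhasePoint) (p : Par P) :
    Gen Φ P ℓ p ↔ Gen Φ P 0 (boostP P (-ℓ.2) p) := by
  have h := gen_boost (Φ := Φ) P ℓ.1 ℓ.2 0 (boostP P (-ℓ.2) p)
  rwa [shL_self, boostP_neg_cancel] at h

theorem valid_rest (P : CTree) (T : ℝ) (v : Space3) (p : Par P) :
    Valid Φ ε P T v p ↔ Valid Φ ε P T 0 (boostP P (-v) p) := by
  have h := valid_boost (Φ := Φ) (ε := ε) P T v 0 (boostP P (-v) p)
  rwa [zero_add, boostP_neg_cancel] at h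

theorem inWindow_rest (P : CTree) (v : Space3) (p : Par P) (i j : Idx P) (u : ℝ) :
    InWindow Φ ε P v p i j u ↔ InWindow Φ ε P 0 (boostP P (-v) p) i j u := by
  have h := inWindow_boost (Φ := Φ) (ε := ε) P v 0 (boostP P (-v) p) i j u
  rwa [zero_add, boostP_neg_cancel] at h

theorem path_rest (P : CTree) (ℓ : PhasePoint) (p : Par P) (u : ℝ) (i : Idx P) :
    path Φ ε P ℓ p u i = shL (ℓ.1 + u • ℓ.2) ℓ.2 (path Φ ε P 0 (boostP P (-ℓ.2) p) u i) := by
  have h := path_boost (Φ := Φ) (ε := ε) P ℓ.1 ℓ.2 0 (boostP P (-ℓ.2) p) u i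
  rwa [shL_self, boostP_neg_cancel] at h

/-! ### Measurability and measure preservation -/

lemma measurable_boostN : Measurable fun q : Space3 × NodeP => boostN q.1 q.2 := by
  unfold boostN
  fun_prop

lemma measurable_boostP (P : CTree) : Measurable fun q : Space3 × Par P => boostP P q.1 q.2 := by
  induction P with
  | leaf => exact measurable_snd
  | node l r hl hr =>
    show Measurable fun q : Space3 × (NodeP × Par l × Par r) =>
      ((boostN q.1 q.2.1, boostP l q.1 q.2.2.1, boostP r q.1 q.2.2.2) : NodeP × Par l × Par r)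
    refine Measurable.prodMk ?_ (Measurable.prodMk ?_ ?_)
    · exact measurable_boostN.comp (f := fun q : Space3 × (NodeP × Par l × Par r) => (q.1, q.2.1))
        (by fun_prop)
    · exact hl.comp (f := fun q : Space3 × (NodeP × Par l × Par r) => (q.1, q.2.2.1))
        (by fun_prop)
    · exact hr.comp (f := fun q : Space3 × (NodeP × Par l × Par r) => (q.1, q.2.2.2))
        (by fun_prop)

lemma measurePreserving_boostN (c : Space3) :
    MeasurePreserving (boostN c) (volume : Measure NodeP) volume := by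
  have h := (MeasurePreserving.id (volume : Measure ℝ)).prod
    ((measurePreserving_add_right (volume : Measure Space3) c).prod
      (MeasurePreserving.id (volume : Measure Plane)))
  exact h

theorem measurePreserving_boostP (P : CTree) (c : Space3) :
    MeasurePreserving (boostP P c) (volume : Measure (Par P)) volume := by
  induction P with
  | leaf => exact MeasurePreserving.id _
  | node l r hl hr => exact (measurePreserving_boostN c).prod (hl.prod hr)

end Crest.Agent.R122.Generic491

end
end

-- ▼ part R122/Generic3_491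
section

/-!
Row 122, Theorem C (helper491), part 3: straight-line trees in the rest frame of the root, candidate
lines, final lines.
-/

set_option autoImplicit false

open MeasureTheory Crest.AnalysisR.Kinetic Set
open scoped Classical ENNReal

noncomputable section

namespace Crest.Agent.R122.Generic491

open Kin796 Kin796.CTree Disc416 Tree674 Kin416 Boltz814

variable {Φ : Space3 → ℝ} {l r : CTree}

/-! ### Fubini for null sets -/

lemma ae_prod_of_left {α β : Type*} [MeasurableSpace α] [MeasurableSpace β] {μ : Measure α}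
    {ν : Measure β} [SFinite ν] {p : α × β → Prop} (hm : MeasurableSet {z | p z})
    (h : ∀ a, ∀ᵐ b ∂ν, p (a, b)) : ∀ᵐ z ∂(μ.prod ν), p z := by
  have := (Measure.ae_prod_mem_iff_ae_ae_mem (μ := μ) (ν := ν) hm).2 (Filter.Eventually.of_forall h)
  exact this

lemma ae_prod_of_right {α β : Type*} [MeasurableSpace α] [MeasurableSpace β] {μ : Measure α}
    {ν : Measure β} [SFinite μ] [SFinite ν] {p : α × β → Prop} (hm : MeasurableSet {z | p z})
    (h : ∀ b, ∀ᵐ a ∂μ, p (a, b)) : ∀ᵐ z ∂(μ.prod ν), p z := by
  have h1 : ∀ᵐ z ∂(ν.prod μ), p z.swap :=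
    ae_prod_of_left (p := fun z : β × α => p z.swap) (measurable_swap hm) h
  have h2 := (Measure.measurePreserving_swap (μ := μ) (ν := ν)).quasiMeasurePreserving.ae h1
  simpa using h2

/-! ### Straight-line nodes -/

@[simp] lemma sin_zero' (v : Space3) (a : NodeP) : sin Φ 0 v a = a.1 := by
  unfold sin; simp

/-- relative velocity and planar impact parameter (root at rest) -/
def gy (a : NodeP) : Space3 × Plane := (0 - a.2.1, a.2.2)

lemma measurable_gy : Measurable gy := by unfold gy; fun_prop

/-- measurable version of the velocity of the left incoming line (root at rest) -/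
def vM (Φ : Space3 → ℝ) (a : NodeP) : Space3 := -dl Φ (1 / 2) (-(1 / 2)) (gy a)

/-- measurable version of the velocity of the right incoming line (root at rest) -/
def wM (Φ : Space3 → ℝ) (a : NodeP) : Space3 := -dl Φ (1 / 2) (1 / 2) (gy a)

lemma measurable_vM (S : ScatFacts Φ) : Measurable (vM Φ) :=
  ((measurable_dl S _ _).comp measurable_gy).neg

lemma measurable_wM (S : ScatFacts Φ) : Measurable (wM Φ) :=
  ((measurable_dl S _ _).comp measurable_gy).neg

lemma exitM_gy {a : NodeP} (h : Adm1 Φ 0 a) :
    exitM Φ (frameMap (gy a).1 (gy a).2, (gy a).1) = exitVelocity Φ (nb 0 a) (0 - a.2.1) := by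
  have hg : (0 : Space3) - a.2.1 ≠ 0 := sub_ne_zero.2 h.2.1
  have hy : a.2.2 ∈ Metric.ball (0 : Plane) 1 := by simpa using h.1
  unfold exitM gy nb
  rw [if_pos (frameMap_mem_impactDisc hg hy)]

lemma preV_zero {a : NodeP} (h : Adm1 Φ 0 a) : preV Φ 0 a = (vM Φ a, wM Φ a) := by
  unfold vM wM dl preV postVelocities
  rw [exitM_gy h]
  unfold gy
  apply Prod.ext <;> dsimp only <;> module


lemma dl_one : ∀ a : NodeP, dl Φ 0 1 (gy a) = vM Φ a - wM Φ a := by
  intro a
  unfold vM wM dl
  module

lemma dl_neg_vM (a : NodeP) : dl Φ (1 / 2) (-(1 / 2)) (gy a) = -vM Φ a := by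
  unfold vM; simp

lemma dl_neg_wM (a : NodeP) : dl Φ (1 / 2) (1 / 2) (gy a) = -wM Φ a := by
  unfold wM; simp

lemma dl_w_sub_wM (a : NodeP) : dl Φ (-(1 / 2)) (1 / 2) (gy a) = a.2.1 - wM Φ a := by
  unfold wM dl gy
  module

lemma dl_w_sub_vM (a : NodeP) : dl Φ (-(1 / 2)) (-(1 / 2)) (gy a) = a.2.1 - vM Φ a := by
  unfold vM dl gy
  module

lemma inMap_zero_fst (a : NodeP) :
    (inMap Φ 0 0 a).1 = (-(a.1 • (preV Φ 0 a).1), (preV Φ 0 a).1) := by
  unfold inMap xin cms sin
  apply Prod.ext
  · simp
  · simp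

lemma inMap_zero_snd (a : NodeP) :
    (inMap Φ 0 0 a).2 = (-(a.1 • (preV Φ 0 a).2), (preV Φ 0 a).2) := by
  unfold inMap xin cms sin
  apply Prod.ext
  · simp
  · simp

/-- relative position (root line `0`) -/
def rp (Φ : Space3 → ℝ) (P : CTree) (q : Par P) (u : ℝ) (i : Idx P) : Space3 :=
  (path Φ 0 P 0 q u i).1

lemma rp_leaf (q : Par leaf) (u : ℝ) (i : Idx leaf) : rp Φ leaf q u i = 0 := by
  unfold rp
  rw [path_leaf]
  simp [onLine]

lemma rp_inl {a : NodeP} (ha : Adm1 Φ 0 a) (pl : Par l) (pr : Par r) (u : ℝ) (i : Idx l) :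
    rp Φ (node l r) (mkP a pl pr) u (inlI l r i) =
      if u ≤ a.1 ∨ i ≠ root l then
        rp Φ l (boostP l (-vM Φ a) pl) u i + (u - a.1) • vM Φ a
      else 0 := by
  unfold rp
  rw [path_inl, sin_zero']
  by_cases h : u ≤ a.1 ∨ i ≠ root l
  · rw [if_pos h, if_pos h, path_rest, inMap_zero_fst, preV_zero ha]
    simp only [shL_fst]
    module
  · rw [if_neg h, if_neg h]
    push Not at h
    unfold colPath
    rw [if_pos h.1.le]
    simp [onLine]

lemma rp_inr {a : NodeP} (ha : Adm1 Φ 0 a) (pl : Par l) (pr : Par r) (u : ℝ) (i : Idx r) :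
    rp Φ (node l r) (mkP a pl pr) u (inrI l r i) =
      if u ≤ a.1 ∨ i ≠ root r then
        rp Φ r (boostP r (-wM Φ a) pr) u i + (u - a.1) • wM Φ a
      else (u - a.1) • a.2.1 := by
  unfold rp
  rw [path_inr, sin_zero']
  by_cases h : u ≤ a.1 ∨ i ≠ root r
  · rw [if_pos h, if_pos h, path_rest, inMap_zero_snd, preV_zero ha]
    simp only [shL_fst]
    module
  · rw [if_neg h, if_neg h]
    push Not at h
    unfold colPath
    rw [if_pos h.1.le]
    simp only [onLine, outLine]
    simp
    module

lemma valid_left {T : ℝ} {a : NodeP} {pl : Par l} {pr : Par r}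
    (h : Valid Φ 0 (node l r) T 0 (mkP a pl pr)) :
    Valid Φ 0 l a.1 0 (boostP l (-vM Φ a) pl) := by
  obtain ⟨h1, h2⟩ := h
  rw [adm_node] at h1
  rw [ord_node] at h2
  rw [preV_zero h1.1] at h1 h2
  rw [sin_zero'] at h2
  rw [← valid_rest]
  exact ⟨h1.2.1, h2.2.2.1⟩

lemma valid_right {T : ℝ} {a : NodeP} {pl : Par l} {pr : Par r}
    (h : Valid Φ 0 (node l r) T 0 (mkP a pl pr)) :
    Valid Φ 0 r a.1 0 (boostP r (-wM Φ a) pr) := by
  obtain ⟨h1, h2⟩ := h
  rw [adm_node] at h1
  rw [ord_node] at h2
  rw [preV_zero h1.1] at h1 h2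
  rw [sin_zero'] at h2
  rw [← valid_rest]
  exact ⟨h1.2.2, h2.2.2.2⟩

/-- relative coordinates of a node tree -/
def relM (Φ : Space3 → ℝ) (l r : CTree) (z : Par (node l r)) : NodeP × (Par l × Par r) :=
  (z.1, (boostP l (-vM Φ z.1) z.2.1, boostP r (-wM Φ z.1) z.2.2))

lemma relM_mkP (a : NodeP) (pl : Par l) (pr : Par r) :
    relM Φ l r (mkP a pl pr) = (a, (boostP l (-vM Φ a) pl, boostP r (-wM Φ a) pr)) := rfl

theorem measurePreserving_relM (S : ScatFacts Φ) (l r : CTree) :
    MeasurePreserving (relM Φ l r) (volume : Measure (Par (node l r)))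
      ((volume : Measure NodeP).prod
        ((volume : Measure (Par l)).prod (volume : Measure (Par r)))) := by
  have h := MeasurePreserving.skew_product (μa := (volume : Measure NodeP))
    (μb := (volume : Measure NodeP))
    (μc := (volume : Measure (Par l)).prod (volume : Measure (Par r)))
    (μd := (volume : Measure (Par l)).prod (volume : Measure (Par r)))
    (f := id) (MeasurePreserving.id _)
    (g := fun a q => (boostP l (-vM Φ a) q.1, boostP r (-wM Φ a) q.2)) ?_ ?_
  · exact h
  · refine Measurable.prodMk ?_ ?_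
    · exact (measurable_boostP l).comp (f := fun z : NodeP × (Par l × Par r) => (-vM Φ z.1, z.2.1))
        ((((measurable_vM S).comp measurable_fst).neg).prodMk
          (measurable_fst.comp measurable_snd))
    · exact (measurable_boostP r).comp (f := fun z : NodeP × (Par l × Par r) => (-wM Φ z.1, z.2.2))
        ((((measurable_wM S).comp measurable_fst).neg).prodMk
          (measurable_snd.comp measurable_snd))
  · refine Filter.Eventually.of_forall fun a => ?_
    exact ((measurePreserving_boostP l _).prod (measurePreserving_boostP r _)).map_eq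

/-! ### Candidate lines -/

/-- Every particle is at any time on one of countably many lines depending measurably on the
parameters. -/
theorem exists_cand (S : ScatFacts Φ) (P : CTree) :
    ∃ (ι : Type) (_ : Countable ι) (L : ι → Par P → PhasePoint), (∀ k, Measurable (L k)) ∧
      ∀ q : Par P, Adm Φ P 0 q → ∀ (i : Idx P) (u : ℝ), ∃ k,
        rp Φ P q u i = (L k q).1 + u • (L k q).2 := by
  induction P with
  | leaf =>
    refine ⟨Unit, inferInstance, fun _ _ => 0, fun _ => measurable_const, fun q _ i u => ⟨(), ?_⟩⟩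
    rw [rp_leaf]; simp
  | node l r hl hr =>
    obtain ⟨ιl, hιl, Ll, hLl, hcl⟩ := hl
    obtain ⟨ιr, hιr, Lr, hLr, hcr⟩ := hr
    have hm := (measurePreserving_relM S l r).measurable
    refine ⟨ιl ⊕ ιr ⊕ Bool, inferInstance, fun k z => match k with
      | Sum.inl k => shL (-((relM Φ l r z).1.1 • vM Φ (relM Φ l r z).1)) (vM Φ (relM Φ l r z).1)
          (Ll k (relM Φ l r z).2.1)
      | Sum.inr (Sum.inl k) => shL (-((relM Φ l r z).1.1 • wM Φ (relM Φ l r z).1))
          (wM Φ (relM Φ l r z).1) (Lr k (relM Φ l r z).2.2)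
      | Sum.inr (Sum.inr true) => 0
      | Sum.inr (Sum.inr false) => (-((relM Φ l r z).1.1 • (relM Φ l r z).1.2.1),
          (relM Φ l r z).1.2.1), ?_, ?_⟩
    · have hmeas : ∀ {f : NodeP × (Par l × Par r) → PhasePoint}, Measurable f →
          Measurable fun z => f (relM Φ l r z) := fun hf => hf.comp hm
      have hfst : Measurable fun z : NodeP × (Par l × Par r) => z.1.1 :=
        measurable_fst.comp measurable_fst
      have hw : Measurable fun z : NodeP × (Par l × Par r) => z.1.2.1 :=
        measurable_fst.comp (measurable_snd.comp measurable_fst)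
      have hv1 : Measurable fun z : NodeP × (Par l × Par r) => vM Φ z.1 :=
        (measurable_vM S).comp measurable_fst
      have hw1 : Measurable fun z : NodeP × (Par l × Par r) => wM Φ z.1 :=
        (measurable_wM S).comp measurable_fst
      rintro (k | k | b)
      · refine hmeas (f := fun z => shL (-(z.1.1 • vM Φ z.1)) (vM Φ z.1) (Ll k z.2.1)) ?_
        have h1 : Measurable fun z : NodeP × (Par l × Par r) => Ll k z.2.1 :=
          (hLl k).comp (measurable_fst.comp measurable_snd)
        exact ((measurable_fst.comp h1).add (hfst.smul hv1).neg).prodMk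
          ((measurable_snd.comp h1).add hv1)
      · refine hmeas (f := fun z => shL (-(z.1.1 • wM Φ z.1)) (wM Φ z.1) (Lr k z.2.2)) ?_
        have h1 : Measurable fun z : NodeP × (Par l × Par r) => Lr k z.2.2 :=
          (hLr k).comp (measurable_snd.comp measurable_snd)
        exact ((measurable_fst.comp h1).add (hfst.smul hw1).neg).prodMk
          ((measurable_snd.comp h1).add hw1)
      · cases b with
        | true => exact measurable_const
        | false =>
          exact hmeas (f := fun z => (-(z.1.1 • z.1.2.1), z.1.2.1)) ((hfst.smul hw).neg.prodMk hw)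
    · intro q hq i u
      obtain ⟨a, pl, pr, rfl⟩ := exists_mkP q
      rw [adm_node] at hq
      have ha := hq.1
      rw [preV_zero ha] at hq
      rcases idx_cases i with ⟨i, rfl⟩ | ⟨i, rfl⟩
      · rw [rp_inl ha]
        split_ifs with h
        · have hq1 : Adm Φ l 0 (boostP l (-vM Φ a) pl) := by
            have := (adm_boost (Φ := Φ) l (-vM Φ a) (vM Φ a) pl).2 hq.2.1
            rwa [add_neg_cancel] at this
          obtain ⟨k, hk⟩ := hcl _ hq1 i u
          refine ⟨Sum.inl k, ?_⟩
          simp only [relM_mkP, shL_fst, shL_snd]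
          rw [hk]; module
        · refine ⟨Sum.inr (Sum.inr true), ?_⟩
          simp
      · rw [rp_inr ha]
        split_ifs with h
        · have hq1 : Adm Φ r 0 (boostP r (-wM Φ a) pr) := by
            have := (adm_boost (Φ := Φ) r (-wM Φ a) (wM Φ a) pr).2 hq.2.2
            rwa [add_neg_cancel] at this
          obtain ⟨k, hk⟩ := hcr _ hq1 i u
          refine ⟨Sum.inr (Sum.inl k), ?_⟩
          simp only [relM_mkP, shL_fst, shL_snd]
          rw [hk]; module
        · refine ⟨Sum.inr (Sum.inr false), ?_⟩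
          simp only [relM_mkP]
          module

/-! ### Final lines -/

/-- After all nodes, a non-root particle is on a line with diffuse velocity. -/
theorem exists_final (S : ScatFacts Φ) (P : CTree) (i : Idx P) (hi : i ≠ root P) :
    ∃ L : Par P → PhasePoint, Measurable L ∧
      (∀ (q : Par P) (T : ℝ), Valid Φ 0 P T 0 q → ∀ u, T ≤ u →
        rp Φ P q u i = (L q).1 + u • (L q).2) ∧
      ∀ c : Space3, ∀ᵐ q : Par P, (L q).2 ≠ c := by
  induction P with
  | leaf => exact absurd (idx_leaf _ _) hi
  | node l r hl hr =>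
    have hmp := measurePreserving_relM S l r
    have hm := hmp.measurable
    have hfst : Measurable fun z : NodeP × (Par l × Par r) => z.1.1 :=
      measurable_fst.comp measurable_fst
    have hw : Measurable fun z : NodeP × (Par l × Par r) => z.1.2.1 :=
      measurable_fst.comp (measurable_snd.comp measurable_fst)
    have hv1 : Measurable fun z : NodeP × (Par l × Par r) => vM Φ z.1 :=
      (measurable_vM S).comp measurable_fst
    have hw1 : Measurable fun z : NodeP × (Par l × Par r) => wM Φ z.1 :=
      (measurable_wM S).comp measurable_fst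
    rcases idx_cases i with ⟨i, rfl⟩ | ⟨i, rfl⟩
    · have hi' : i ≠ root l := fun h => hi (by rw [h]; rfl)
      obtain ⟨L, hL, hLq, hLc⟩ := hl i hi'
      have h1 : Measurable fun z : NodeP × (Par l × Par r) => L z.2.1 :=
        hL.comp (measurable_fst.comp measurable_snd)
      have hF : Measurable fun z : NodeP × (Par l × Par r) =>
          shL (-(z.1.1 • vM Φ z.1)) (vM Φ z.1) (L z.2.1) :=
        ((measurable_fst.comp h1).add (hfst.smul hv1).neg).prodMk
          ((measurable_snd.comp h1).add hv1)
      refine ⟨fun z => shL (-((relM Φ l r z).1.1 • vM Φ (relM Φ l r z).1))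
        (vM Φ (relM Φ l r z).1) (L (relM Φ l r z).2.1), hF.comp hm, ?_, ?_⟩
      · intro q T hq u hu
        obtain ⟨a, pl, pr, rfl⟩ := exists_mkP q
        have ha : Adm1 Φ 0 a := hq.1.1
        have hT : a.1 < T := hq.2.1
        rw [rp_inl ha, if_pos (Or.inr hi')]
        simp only [relM_mkP, shL_fst, shL_snd]
        rw [hLq _ a.1 (valid_left hq) u (hT.le.trans hu)]
        module
      · intro c
        have h2 : ∀ᵐ z ∂((volume : Measure NodeP).prod
            ((volume : Measure (Par l)).prod (volume : Measure (Par r)))),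
            (L z.2.1).2 + vM Φ z.1 ≠ c := by
          refine ae_prod_of_left ?_ ?_
          · exact ((measurable_snd.comp h1).add hv1) (measurableSet_singleton c).compl
          · intro a
            have h3 := (Measure.quasiMeasurePreserving_fst (μ := (volume : Measure (Par l)))
              (ν := (volume : Measure (Par r)))).ae (hLc (c - vM Φ a))
            filter_upwards [h3] with b hb h
            exact hb (by rw [← h]; simp)
        exact hmp.quasiMeasurePreserving.ae h2
    · by_cases hi' : i = root r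
      · have hF : Measurable fun z : NodeP × (Par l × Par r) =>
          ((-(z.1.1 • z.1.2.1), z.1.2.1) : PhasePoint) := (hfst.smul hw).neg.prodMk hw
        refine ⟨fun z => (-((relM Φ l r z).1.1 • (relM Φ l r z).1.2.1),
          (relM Φ l r z).1.2.1), hF.comp hm, ?_, ?_⟩
        · intro q T hq u hu
          obtain ⟨a, pl, pr, rfl⟩ := exists_mkP q
          have ha : Adm1 Φ 0 a := hq.1.1
          have hT : a.1 < T := hq.2.1
          rw [rp_inr ha, if_neg (by
            push Not
            exact ⟨hT.trans_le hu, hi'⟩)]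
          simp only [relM_mkP]
          module
        · intro c
          have h2 : ∀ᵐ z ∂((volume : Measure NodeP).prod
              ((volume : Measure (Par l)).prod (volume : Measure (Par r)))),
              z.1.2.1 ≠ c := by
            refine ae_prod_of_right (hw (measurableSet_singleton c).compl) ?_
            intro b
            refine ae_prod_of_left (p := fun a : ℝ × (Space3 × Plane) => a.2.1 ≠ c)
              ((measurable_fst.comp measurable_snd) (measurableSet_singleton c).compl) ?_
            intro s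
            exact (Measure.quasiMeasurePreserving_fst (μ := (volume : Measure Space3))
              (ν := (volume : Measure Plane))).ae
              (compl_mem_ae_iff.2 (MeasureTheory.measure_singleton c))
          exact hmp.quasiMeasurePreserving.ae h2
      · obtain ⟨L, hL, hLq, hLc⟩ := hr i hi'
        have h1 : Measurable fun z : NodeP × (Par l × Par r) => L z.2.2 :=
          hL.comp (measurable_snd.comp measurable_snd)
        have hF : Measurable fun z : NodeP × (Par l × Par r) =>
            shL (-(z.1.1 • wM Φ z.1)) (wM Φ z.1) (L z.2.2) :=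
          ((measurable_fst.comp h1).add (hfst.smul hw1).neg).prodMk
            ((measurable_snd.comp h1).add hw1)
        refine ⟨fun z => shL (-((relM Φ l r z).1.1 • wM Φ (relM Φ l r z).1))
          (wM Φ (relM Φ l r z).1) (L (relM Φ l r z).2.2), hF.comp hm, ?_, ?_⟩
        · intro q T hq u hu
          obtain ⟨a, pl, pr, rfl⟩ := exists_mkP q
          have ha : Adm1 Φ 0 a := hq.1.1
          have hT : a.1 < T := hq.2.1
          rw [rp_inr ha, if_pos (Or.inr hi')]
          simp only [relM_mkP, shL_fst, shL_snd]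
          rw [hLq _ a.1 (valid_right hq) u (hT.le.trans hu)]
          module
        · intro c
          have h2 : ∀ᵐ z ∂((volume : Measure NodeP).prod
              ((volume : Measure (Par l)).prod (volume : Measure (Par r)))),
              (L z.2.2).2 + wM Φ z.1 ≠ c := by
            refine ae_prod_of_left ?_ ?_
            · exact ((measurable_snd.comp h1).add hw1) (measurableSet_singleton c).compl
            · intro a
              have h3 := (Measure.quasiMeasurePreserving_snd (μ := (volume : Measure (Par l)))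
                (ν := (volume : Measure (Par r)))).ae (hLc (c - wM Φ a))
              filter_upwards [h3] with b hb h
              exact hb (by rw [← h]; simp)
          exact hmp.quasiMeasurePreserving.ae h2

end Crest.Agent.R122.Generic491

end
end

-- ▼ part R122/Generic4_491

/-!
Row 122, Theorem C (helper491), part 4: almost every valid straight-line tree is generic.
-/

set_option autoImplicit false

open MeasureTheory Crest.AnalysisR.Kinetic Set
open scoped Classical ENNReal

noncomputable section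

namespace Crest.Agent.R122.Generic491

open Kin796 Kin796.CTree Disc416 Tree674 Kin416 Boltz814

variable {Φ : Space3 → ℝ} {l r : CTree}

/-! ### Null sets in the parameters of a node -/

lemma measurableSet_coll : MeasurableSet {p : Space3 × Space3 | ∃ t : ℝ, p.1 = t • p.2} := by
  have h : {p : Space3 × Space3 | ∃ t : ℝ, p.1 = t • p.2} =
      range fun q : ℝ × Space3 => (q.1 • q.2, q.2) := by
    ext p
    constructor
    · rintro ⟨t, ht⟩
      exact ⟨(t, p.2), Prod.ext ht.symm rfl⟩
    · rintro ⟨⟨t, c⟩, rfl⟩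
      exact ⟨t, rfl⟩
  rw [h]
  obtain ⟨K, hK, hKu⟩ := isSigmaCompact_range (f := fun q : ℝ × Space3 => (q.1 • q.2, q.2))
    (by fun_prop)
  rw [← hKu]
  exact MeasurableSet.iUnion fun n => (hK n).isClosed.measurableSet

theorem ae_node (hΦ : AdmissiblePotential Φ) (S : ScatFacts Φ) (α β : ℝ) (l r : CTree)
    {B C : ℝ × (Par l × Par r) → Space3} (hB : Measurable B) (hC : Measurable C) :
    ∀ᵐ z ∂((volume : Measure NodeP).prod
      ((volume : Measure (Par l)).prod (volume : Measure (Par r)))),
      ‖z.1.2.2‖ < 1 → dl Φ α β (gy z.1) ≠ 0 →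
        ∀ t : ℝ, dl Φ α β (gy z.1) ≠ B (z.1.1, z.2) + t • C (z.1.1, z.2) := by
  have hd : Measurable fun z : NodeP × (Par l × Par r) => dl Φ α β (gy z.1) :=
    (measurable_dl S α β).comp (measurable_gy.comp measurable_fst)
  have hs : Measurable fun z : NodeP × (Par l × Par r) => (z.1.1, z.2) :=
    (measurable_fst.comp measurable_fst).prodMk measurable_snd
  have hy : Measurable fun z : NodeP × (Par l × Par r) => ‖z.1.2.2‖ :=
    (measurable_snd.comp (measurable_snd.comp measurable_fst)).norm
  refine ae_prod_of_right ?_ ?_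
  · have hset : {z : NodeP × (Par l × Par r) | ‖z.1.2.2‖ < 1 → dl Φ α β (gy z.1) ≠ 0 →
        ∀ t : ℝ, dl Φ α β (gy z.1) ≠ B (z.1.1, z.2) + t • C (z.1.1, z.2)} =
        {z | ‖z.1.2.2‖ < 1}ᶜ ∪ ({z | dl Φ α β (gy z.1) = 0} ∪
          ((fun z : NodeP × (Par l × Par r) => (dl Φ α β (gy z.1) - B (z.1.1, z.2),
            C (z.1.1, z.2))) ⁻¹' {p : Space3 × Space3 | ∃ t : ℝ, p.1 = t • p.2})ᶜ) := by
      ext z
      simp only [mem_ofPred_eq, mem_union, mem_compl_iff, mem_preimage, not_exists,
        sub_eq_iff_eq_add']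
      tauto
    rw [hset]
    refine (measurableSet_lt hy measurable_const).compl.union
      ((hd (measurableSet_singleton 0)).union ?_)
    exact (((hd.sub (hB.comp hs)).prodMk (hC.comp hs)) measurableSet_coll).compl
  · intro b
    have hd1 : Measurable fun a : NodeP => dl Φ α β (gy a) :=
      (measurable_dl S α β).comp measurable_gy
    have hs1 : Measurable fun a : NodeP => (a.1, b) := measurable_fst.prodMk measurable_const
    refine ae_prod_of_left (α := ℝ) (β := Space3 × Plane) (p := fun a : NodeP =>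
      ‖a.2.2‖ < 1 → dl Φ α β (gy a) ≠ 0 →
        ∀ t : ℝ, dl Φ α β (gy a) ≠ B (a.1, b) + t • C (a.1, b)) ?_ ?_
    · have hset : {a : NodeP | ‖a.2.2‖ < 1 → dl Φ α β (gy a) ≠ 0 →
          ∀ t : ℝ, dl Φ α β (gy a) ≠ B (a.1, b) + t • C (a.1, b)} =
          {a | ‖a.2.2‖ < 1}ᶜ ∪ ({a | dl Φ α β (gy a) = 0} ∪
            ((fun a : NodeP => (dl Φ α β (gy a) - B (a.1, b), C (a.1, b))) ⁻¹'
              {p : Space3 × Space3 | ∃ t : ℝ, p.1 = t • p.2})ᶜ) := by
        ext z
        simp only [mem_ofPred_eq, mem_union, mem_compl_iff, mem_preimage, not_exists,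
          sub_eq_iff_eq_add']
        tauto
      rw [hset]
      refine (measurableSet_lt (measurable_snd.comp measurable_snd).norm
        measurable_const).compl.union ((hd1 (measurableSet_singleton 0)).union ?_)
      exact (((hd1.sub (hB.comp hs1)).prodMk (hC.comp hs1)) measurableSet_coll).compl
    · intro s
      have hneg : MeasurePreserving (fun c : Space3 => 0 - c) (volume : Measure Space3) volume := by
        have := Measure.measurePreserving_neg (volume : Measure Space3)
        simpa only [zero_sub] using this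
      have hqmp : MeasurePreserving (fun c : Space3 × Plane => (0 - c.1, c.2))
          (volume : Measure (Space3 × Plane)) volume :=
        hneg.prod (MeasurePreserving.id _)
      exact hqmp.quasiMeasurePreserving.ae (ae_dl hΦ S α β (B (s, b)) (C (s, b)))

lemma no_meet {X A B D : Space3} {s u : ℝ} (hX : X = A + u • B) (hu : u ≠ s)
    (hD : ∀ t : ℝ, D ≠ B + t • (A + s • B)) : X ≠ (u - s) • D := by
  intro h
  apply hD (u - s)⁻¹
  have hne : u - s ≠ 0 := sub_ne_zero.2 hu
  have h1 : A + s • B = (u - s) • (D - B) := by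
    rw [smul_sub, ← h, hX]; module
  rw [h1, smul_smul, inv_mul_cancel₀ hne, one_smul]
  abel

/-! ### Deterministic facts -/

lemma inWindow_lt (P : CTree) (T : ℝ) (v : Space3) (p : Par P) (h : Tree674.Ord Φ 0 P T v p)
    (i j : Idx P) (u : ℝ) (hw : InWindow Φ 0 P v p i j u) : u < T := by
  induction P generalizing T v with
  | leaf => exact absurd hw id
  | node l r hl hr =>
    obtain ⟨a, pl, pr, rfl⟩ := exists_mkP p
    rw [ord_node, sin_zero'] at h
    rw [inWindow_node] at hw
    rcases hw with ⟨-, -, -, h1⟩ | ⟨i', j', -, -, h1⟩ | ⟨i', j', -, -, h1⟩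
    · exact h1.trans_lt h.1
    · exact (hl _ _ _ h.2.2.1 _ _ h1).trans h.1
    · exact (hr _ _ _ h.2.2.2 _ _ h1).trans h.1

lemma rp_root (P : CTree) (T : ℝ) (q : Par P) (h : Valid Φ 0 P T 0 q) (u : ℝ) (hu : T ≤ u) :
    rp Φ P q u (root P) = 0 := by
  cases P with
  | leaf => exact rp_leaf _ _ _
  | node l r =>
    obtain ⟨a, pl, pr, rfl⟩ := exists_mkP q
    have hT : a.1 < T := h.2.1
    have ha : Adm1 Φ 0 a := h.1.1
    rw [root_node, rp_inl ha, if_neg]
    push Not
    exact ⟨hT.trans_le hu, rfl⟩

/-- The deterministic part of the induction step. -/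
theorem gen_node {T : ℝ} {a : NodeP} {pl : Par l} {pr : Par r}
    (hV : Valid Φ 0 (node l r) T 0 (mkP a pl pr))
    (hGl : Gen Φ l 0 (boostP l (-vM Φ a) pl)) (hGr : Gen Φ r 0 (boostP r (-wM Φ a) pr))
    (h1 : ∀ i u, u ≠ a.1 → -vM Φ a ≠ 0 →
      rp Φ l (boostP l (-vM Φ a) pl) u i ≠ (u - a.1) • (-vM Φ a))
    (h2 : ∀ i u, u ≠ a.1 → a.2.1 - vM Φ a ≠ 0 →
      rp Φ l (boostP l (-vM Φ a) pl) u i ≠ (u - a.1) • (a.2.1 - vM Φ a))
    (h3 : ∀ i u, u ≠ a.1 → -wM Φ a ≠ 0 →
      rp Φ r (boostP r (-wM Φ a) pr) u i ≠ (u - a.1) • (-wM Φ a))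
    (h4 : ∀ i u, u ≠ a.1 → a.2.1 - wM Φ a ≠ 0 →
      rp Φ r (boostP r (-wM Φ a) pr) u i ≠ (u - a.1) • (a.2.1 - wM Φ a))
    (h5 : ∀ i j u, u ≠ a.1 →
      rp Φ r (boostP r (-wM Φ a) pr) u j - rp Φ l (boostP l (-vM Φ a) pl) u i ≠
        (u - a.1) • (vM Φ a - wM Φ a))
    (h6 : ∀ i j, i ≠ root l → j ≠ root r →
      rp Φ l (boostP l (-vM Φ a) pl) a.1 i ≠ rp Φ r (boostP r (-wM Φ a) pr) a.1 j) :
    Gen Φ (node l r) 0 (mkP a pl pr) := by
  have ha : Adm1 Φ 0 a := hV.1.1
  have hVl := valid_left hV
  have hVr := valid_right hV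
  set ql := boostP l (-vM Φ a) pl with hql
  set qr := boostP r (-wM Φ a) pr with hqr
  -- windows of the branches
  have hwl : ∀ i j u, InWindow Φ 0 l (preV Φ 0 a).1 pl i j u ↔ InWindow Φ 0 l 0 ql i j u := by
    intro i j u
    rw [preV_zero ha, hql]
    exact inWindow_rest l _ pl i j u
  have hwr : ∀ i j u, InWindow Φ 0 r (preV Φ 0 a).2 pr i j u ↔ InWindow Φ 0 r 0 qr i j u := by
    intro i j u
    rw [preV_zero ha, hqr]
    exact inWindow_rest r _ pr i j u
  have hGl' : ∀ i j, i ≠ j → ∀ u, 0 ≤ u → ¬ InWindow Φ 0 l 0 ql i j u →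
      ¬ InWindow Φ 0 l 0 ql j i u → rp Φ l ql u i ≠ rp Φ l ql u j := hGl
  have hGr' : ∀ i j, i ≠ j → ∀ u, 0 ≤ u → ¬ InWindow Φ 0 r 0 qr i j u →
      ¬ InWindow Φ 0 r 0 qr j i u → rp Φ r qr u i ≠ rp Φ r qr u j := hGr
  -- after the node time the branches have no coincidence
  have hafl : ∀ i j, i ≠ j → ∀ u, 0 ≤ u → a.1 ≤ u → rp Φ l ql u i ≠ rp Φ l ql u j := by
    intro i j hij u hu hau
    refine hGl' i j hij u hu ?_ ?_
    · intro hw; exact absurd (inWindow_lt l a.1 0 ql hVl.2 i j u hw) (not_lt.2 hau)
    · intro hw; exact absurd (inWindow_lt l a.1 0 ql hVl.2 j i u hw) (not_lt.2 hau)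
  have hafr : ∀ i j, i ≠ j → ∀ u, 0 ≤ u → a.1 ≤ u → rp Φ r qr u i ≠ rp Φ r qr u j := by
    intro i j hij u hu hau
    refine hGr' i j hij u hu ?_ ?_
    · intro hw; exact absurd (inWindow_lt r a.1 0 qr hVr.2 i j u hw) (not_lt.2 hau)
    · intro hw; exact absurd (inWindow_lt r a.1 0 qr hVr.2 j i u hw) (not_lt.2 hau)
  -- outgoing root against a released particle of a branch
  have hL0 : ∀ j, j ≠ root l → ∀ u, 0 ≤ u → a.1 < u →
      rp Φ l ql u j + (u - a.1) • vM Φ a ≠ 0 := by
    intro j hj u hu hau h
    by_cases hv : -vM Φ a = 0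
    · have hv' : vM Φ a = 0 := neg_eq_zero.1 hv
      rw [hv', smul_zero, add_zero] at h
      refine hafl j (root l) hj u hu hau.le ?_
      rw [h, rp_root l a.1 ql hVl u hau.le]
    · refine h1 j u hau.ne' hv ?_
      rw [smul_neg]
      exact eq_neg_of_add_eq_zero_left h
  have hLw : ∀ j, j ≠ root l → ∀ u, 0 ≤ u → a.1 < u →
      rp Φ l ql u j + (u - a.1) • vM Φ a ≠ (u - a.1) • a.2.1 := by
    intro j hj u hu hau h
    have h' : rp Φ l ql u j = (u - a.1) • (a.2.1 - vM Φ a) := by
      rw [smul_sub, ← h, add_sub_cancel_right]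
    by_cases hv : a.2.1 - vM Φ a = 0
    · rw [hv, smul_zero] at h'
      refine hafl j (root l) hj u hu hau.le ?_
      rw [h', rp_root l a.1 ql hVl u hau.le]
    · exact h2 j u hau.ne' hv h'
  have hR0 : ∀ j, j ≠ root r → ∀ u, 0 ≤ u → a.1 < u →
      rp Φ r qr u j + (u - a.1) • wM Φ a ≠ 0 := by
    intro j hj u hu hau h
    by_cases hv : -wM Φ a = 0
    · have hv' : wM Φ a = 0 := neg_eq_zero.1 hv
      rw [hv', smul_zero, add_zero] at h
      refine hafr j (root r) hj u hu hau.le ?_
      rw [h, rp_root r a.1 qr hVr u hau.le]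
    · refine h3 j u hau.ne' hv ?_
      rw [smul_neg]
      exact eq_neg_of_add_eq_zero_left h
  have hRw : ∀ j, j ≠ root r → ∀ u, 0 ≤ u → a.1 < u →
      rp Φ r qr u j + (u - a.1) • wM Φ a ≠ (u - a.1) • a.2.1 := by
    intro j hj u hu hau h
    have h' : rp Φ r qr u j = (u - a.1) • (a.2.1 - wM Φ a) := by
      rw [smul_sub, ← h, add_sub_cancel_right]
    by_cases hv : a.2.1 - wM Φ a = 0
    · rw [hv, smul_zero] at h'
      refine hafr j (root r) hj u hu hau.le ?_
      rw [h', rp_root r a.1 qr hVr u hau.le]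
    · exact h4 j u hau.ne' hv h'
  -- the two branches against each other
  have hcross : ∀ i j u, 0 ≤ u → ¬ (i = root l ∧ j = root r ∧ u = a.1) →
      rp Φ l ql u i + (u - a.1) • vM Φ a ≠ rp Φ r qr u j + (u - a.1) • wM Φ a := by
    intro i j u hu hn h
    by_cases hua : u = a.1
    · subst hua
      simp only [sub_self, zero_smul, add_zero] at h
      by_cases hi : i = root l
      · by_cases hj : j = root r
        · exact hn ⟨hi, hj, rfl⟩
        · subst hi
          rw [rp_root l a.1 ql hVl a.1 le_rfl] at h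
          refine hafr j (root r) hj a.1 hu le_rfl ?_
          rw [← h, rp_root r a.1 qr hVr a.1 le_rfl]
      · by_cases hj : j = root r
        · subst hj
          rw [rp_root r a.1 qr hVr a.1 le_rfl] at h
          refine hafl i (root l) hi a.1 hu le_rfl ?_
          rw [h, rp_root l a.1 ql hVl a.1 le_rfl]
        · exact h6 i j hi hj h
    · refine h5 i j u hua ?_
      rw [smul_sub]
      rw [sub_eq_sub_iff_add_eq_add, ← h]
      abel
  -- main case distinction
  intro i j hij u hu hw1 hw2
  show rp Φ (node l r) (mkP a pl pr) u i ≠ rp Φ (node l r) (mkP a pl pr) u j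
  have hw1' : ¬ InWindow Φ 0 (node l r) 0 (mkP a pl pr) i j u := hw1
  have hw2' : ¬ InWindow Φ 0 (node l r) 0 (mkP a pl pr) j i u := hw2
  have hlr : ∀ (i : Idx l) (j : Idx r), ¬ (i = root l ∧ j = root r ∧ u = a.1) →
      rp Φ (node l r) (mkP a pl pr) u (inlI l r i) ≠
        rp Φ (node l r) (mkP a pl pr) u (inrI l r j) := by
    intro i j hn
    rw [rp_inl ha, rp_inr ha]
    by_cases hua : u ≤ a.1
    · rw [if_pos (Or.inl hua), if_pos (Or.inl hua)]
      exact hcross i j u hu hn
    · have hau : a.1 < u := not_le.1 hua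
      by_cases hi : i = root l
      · rw [if_neg (by push Not; exact ⟨hau, hi⟩)]
        by_cases hj : j = root r
        · rw [if_neg (by push Not; exact ⟨hau, hj⟩)]
          intro h
          rcases smul_eq_zero.1 h.symm with h | h
          · exact absurd h (sub_ne_zero.2 hau.ne')
          · exact ha.2.1 h.symm
        · rw [if_pos (Or.inr hj)]
          exact fun h => hR0 j hj u hu hau h.symm
      · rw [if_pos (Or.inr hi)]
        by_cases hj : j = root r
        · rw [if_neg (by push Not; exact ⟨hau, hj⟩)]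
          exact hLw i hi u hu hau
        · rw [if_pos (Or.inr hj)]
          exact hcross i j u hu hn
  rcases idx_cases i with ⟨i, rfl⟩ | ⟨i, rfl⟩ <;> rcases idx_cases j with ⟨j, rfl⟩ | ⟨j, rfl⟩
  · have hij' : i ≠ j := fun h => hij (by rw [h])
    rw [inWindow_inl_inl, hwl] at hw1' hw2'
    rw [rp_inl ha, rp_inl ha]
    by_cases hua : u ≤ a.1
    · rw [if_pos (Or.inl hua), if_pos (Or.inl hua)]
      exact fun h => hGl' i j hij' u hu hw1' hw2' (add_right_cancel h)
    · have hau : a.1 < u := not_le.1 hua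
      by_cases hi : i = root l
      · rw [if_neg (by push Not; exact ⟨hau, hi⟩)]
        have hj : j ≠ root l := fun h => hij' (hi.trans h.symm)
        rw [if_pos (Or.inr hj)]
        exact fun h => hL0 j hj u hu hau h.symm
      · rw [if_pos (Or.inr hi)]
        by_cases hj : j = root l
        · rw [if_neg (by push Not; exact ⟨hau, hj⟩)]
          exact hL0 i hi u hu hau
        · rw [if_pos (Or.inr hj)]
          exact fun h => hGl' i j hij' u hu hw1' hw2' (add_right_cancel h)
  · refine hlr i j ?_
    rintro ⟨h1, h2, h3⟩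
    apply hw1'
    rw [inWindow_inl_inr, sin_zero']
    exact ⟨h1, h2, h3.ge, h3.le⟩
  · refine (hlr j i ?_).symm
    rintro ⟨h1, h2, h3⟩
    apply hw2'
    rw [inWindow_inl_inr, sin_zero']
    exact ⟨h1, h2, h3.ge, h3.le⟩
  · have hij' : i ≠ j := fun h => hij (by rw [h])
    rw [inWindow_inr_inr, hwr] at hw1' hw2'
    rw [rp_inr ha, rp_inr ha]
    by_cases hua : u ≤ a.1
    · rw [if_pos (Or.inl hua), if_pos (Or.inl hua)]
      exact fun h => hGr' i j hij' u hu hw1' hw2' (add_right_cancel h)
    · have hau : a.1 < u := not_le.1 hua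
      by_cases hi : i = root r
      · rw [if_neg (by push Not; exact ⟨hau, hi⟩)]
        have hj : j ≠ root r := fun h => hij' (hi.trans h.symm)
        rw [if_pos (Or.inr hj)]
        exact fun h => hRw j hj u hu hau h.symm
      · rw [if_pos (Or.inr hi)]
        by_cases hj : j = root r
        · rw [if_neg (by push Not; exact ⟨hau, hj⟩)]
          exact hRw i hi u hu hau
        · rw [if_pos (Or.inr hj)]
          exact fun h => hGr' i j hij' u hu hw1' hw2' (add_right_cancel h)

lemma ord_mono (P : CTree) {T T' : ℝ} (hT : T ≤ T') {v : Space3} {p : Par P}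
    (h : Tree674.Ord Φ 0 P T v p) : Tree674.Ord Φ 0 P T' v p := by
  cases P with
  | leaf => trivial
  | node l r => exact ⟨h.1.trans_le hT, h.2⟩

/-- **Genericity in the rest frame.** -/
theorem gen_ae_rest (hΦ : AdmissiblePotential Φ) (S : ScatFacts Φ) (P : CTree) (T : ℝ) :
    ∀ᵐ q : Par P, Valid Φ 0 P T 0 q → Gen Φ P 0 q := by
  induction P with
  | leaf =>
    refine Filter.Eventually.of_forall fun q _ i j hij => absurd (idx_leaf i j) hij
  | node l r hl hr =>
    obtain ⟨ιl, hιl, Ll, hLl, hcl⟩ := exists_cand S l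
    obtain ⟨ιr, hιr, Lr, hLr, hcr⟩ := exists_cand S r
    -- null sets in relative coordinates
    have hsl : ∀ k, Measurable fun z : ℝ × (Par l × Par r) => Ll k z.2.1 := fun k =>
      (hLl k).comp (measurable_fst.comp measurable_snd)
    have hsr : ∀ k, Measurable fun z : ℝ × (Par l × Par r) => Lr k z.2.2 := fun k =>
      (hLr k).comp (measurable_snd.comp measurable_snd)
    have hBl : ∀ k, Measurable fun z : ℝ × (Par l × Par r) => (Ll k z.2.1).2 := fun k =>
      measurable_snd.comp (hsl k)
    have hCl : ∀ k, Measurable fun z : ℝ × (Par l × Par r) =>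
        (Ll k z.2.1).1 + z.1 • (Ll k z.2.1).2 := fun k =>
      (measurable_fst.comp (hsl k)).add (measurable_fst.smul (hBl k))
    have hBr : ∀ k, Measurable fun z : ℝ × (Par l × Par r) => (Lr k z.2.2).2 := fun k =>
      measurable_snd.comp (hsr k)
    have hCr : ∀ k, Measurable fun z : ℝ × (Par l × Par r) =>
        (Lr k z.2.2).1 + z.1 • (Lr k z.2.2).2 := fun k =>
      (measurable_fst.comp (hsr k)).add (measurable_fst.smul (hBr k))
    have e1 := ae_all_iff.2 fun k => ae_node hΦ S (1 / 2) (-(1 / 2)) l r (hBl k) (hCl k)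
    have e2 := ae_all_iff.2 fun k => ae_node hΦ S (-(1 / 2)) (-(1 / 2)) l r (hBl k) (hCl k)
    have e3 := ae_all_iff.2 fun k => ae_node hΦ S (1 / 2) (1 / 2) l r (hBr k) (hCr k)
    have e4 := ae_all_iff.2 fun k => ae_node hΦ S (-(1 / 2)) (1 / 2) l r (hBr k) (hCr k)
    have e5 := ae_all_iff.2 fun k => ae_all_iff.2 fun k' => ae_node hΦ S 0 1 l r
      ((hBr k').sub (hBl k)) ((hCr k').sub (hCl k))
    -- final lines
    have hfl := fun (i : Idx l) (hi : i ≠ root l) => exists_final S l i hi
    choose Fl hFlm hFlp hFld using hfl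
    have hfr := fun (i : Idx r) (hi : i ≠ root r) => exists_final S r i hi
    choose Fr hFrm hFrp hFrd using hfr
    have e6 : ∀ᵐ z ∂((volume : Measure NodeP).prod
        ((volume : Measure (Par l)).prod (volume : Measure (Par r)))),
        ∀ (i : Idx l) (hi : i ≠ root l) (j : Idx r) (hj : j ≠ root r),
          (Fl i hi z.2.1).1 + z.1.1 • (Fl i hi z.2.1).2 ≠
            (Fr j hj z.2.2).1 + z.1.1 • (Fr j hj z.2.2).2 := by
      have : Countable (Idx l) := Finite.to_countable
      have : Countable (Idx r) := Finite.to_countable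
      refine ae_all_iff.2 fun i => ae_all_iff.2 fun hi => ae_all_iff.2 fun j =>
        ae_all_iff.2 fun hj => ?_
      have g1 : Measurable fun z : NodeP × (Par l × Par r) => Fl i hi z.2.1 :=
        (hFlm i hi).comp (measurable_fst.comp measurable_snd)
      have g2 : Measurable fun z : NodeP × (Par l × Par r) => Fr j hj z.2.2 :=
        (hFrm j hj).comp (measurable_snd.comp measurable_snd)
      have g3 : Measurable fun z : NodeP × (Par l × Par r) => z.1.1 :=
        measurable_fst.comp measurable_fst
      -- velocities are different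
      have hvel : ∀ᵐ b : Par l × Par r ∂((volume : Measure (Par l)).prod volume),
          (Fl i hi b.1).2 ≠ (Fr j hj b.2).2 := by
        refine ae_prod_of_right ?_ ?_
        · exact (measurableSet_eq_fun
            (measurable_snd.comp ((hFlm i hi).comp measurable_fst))
            (measurable_snd.comp ((hFrm j hj).comp measurable_snd))).compl
        · intro b; exact hFld i hi (Fr j hj b).2
      have hvel' := (Measure.quasiMeasurePreserving_snd (μ := (volume : Measure NodeP))
        (ν := (volume : Measure (Par l)).prod (volume : Measure (Par r)))).ae hvel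
      have hmain : ∀ᵐ z ∂((volume : Measure NodeP).prod
          ((volume : Measure (Par l)).prod (volume : Measure (Par r)))),
          (Fl i hi z.2.1).2 ≠ (Fr j hj z.2.2).2 →
          (Fl i hi z.2.1).1 + z.1.1 • (Fl i hi z.2.1).2 ≠
            (Fr j hj z.2.2).1 + z.1.1 • (Fr j hj z.2.2).2 := by
        refine ae_prod_of_right ?_ ?_
        · have m1 : MeasurableSet {z : NodeP × (Par l × Par r) |
              (Fl i hi z.2.1).2 = (Fr j hj z.2.2).2} :=
            measurableSet_eq_fun (measurable_snd.comp g1) (measurable_snd.comp g2)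
          have m2 : MeasurableSet {z : NodeP × (Par l × Par r) |
              (Fl i hi z.2.1).1 + z.1.1 • (Fl i hi z.2.1).2 =
                (Fr j hj z.2.2).1 + z.1.1 • (Fr j hj z.2.2).2} :=
            measurableSet_eq_fun
              ((measurable_fst.comp g1).add (g3.smul (measurable_snd.comp g1)))
              ((measurable_fst.comp g2).add (g3.smul (measurable_snd.comp g2)))
          have hset : {z : NodeP × (Par l × Par r) | (Fl i hi z.2.1).2 ≠ (Fr j hj z.2.2).2 →
              (Fl i hi z.2.1).1 + z.1.1 • (Fl i hi z.2.1).2 ≠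
                (Fr j hj z.2.2).1 + z.1.1 • (Fr j hj z.2.2).2} =
              {z | (Fl i hi z.2.1).2 = (Fr j hj z.2.2).2} ∪
              {z | (Fl i hi z.2.1).1 + z.1.1 • (Fl i hi z.2.1).2 =
                (Fr j hj z.2.2).1 + z.1.1 • (Fr j hj z.2.2).2}ᶜ := by
            ext z
            simp only [mem_ofPred_eq, mem_union, mem_compl_iff]
            tauto
          rw [hset]
          exact m1.union m2.compl
        · intro b
          by_cases hb : (Fl i hi b.1).2 = (Fr j hj b.2).2
          · exact Filter.Eventually.of_forall fun a h => absurd hb h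
          · -- at most one time
            have hnull : ∀ᵐ s : ℝ, (Fl i hi b.1).1 + s • (Fl i hi b.1).2 ≠
                (Fr j hj b.2).1 + s • (Fr j hj b.2).2 := by
              have hsub : Set.Subsingleton {s : ℝ | (Fl i hi b.1).1 + s • (Fl i hi b.1).2 =
                  (Fr j hj b.2).1 + s • (Fr j hj b.2).2} := by
                intro s hs t ht
                simp only [mem_ofPred_eq] at hs ht
                have h7 : (s - t) • ((Fl i hi b.1).2 - (Fr j hj b.2).2) = 0 := by
                  have h8 : (s - t) • ((Fl i hi b.1).2 - (Fr j hj b.2).2) =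
                      (((Fl i hi b.1).1 + s • (Fl i hi b.1).2) -
                        ((Fr j hj b.2).1 + s • (Fr j hj b.2).2)) -
                      (((Fl i hi b.1).1 + t • (Fl i hi b.1).2) -
                        ((Fr j hj b.2).1 + t • (Fr j hj b.2).2)) := by module
                  rw [h8, hs, ht]; simp
                rcases smul_eq_zero.1 h7 with h | h
                · exact sub_eq_zero.1 h
                · exact absurd (sub_eq_zero.1 h) hb
              have := hsub.countable.measure_zero (volume : Measure ℝ)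
              exact measure_eq_zero_iff_ae_notMem.1 this
            have h9 := (Measure.quasiMeasurePreserving_fst (μ := (volume : Measure ℝ))
              (ν := (volume : Measure (Space3 × Plane)))).ae hnull
            filter_upwards [h9] with a ha _ using ha
      filter_upwards [hvel', hmain] with z hz1 hz2 using hz2 hz1
    -- genericity of the branches
    have e7 : ∀ᵐ z ∂((volume : Measure NodeP).prod
        ((volume : Measure (Par l)).prod (volume : Measure (Par r)))),
        Valid Φ 0 l T 0 z.2.1 → Gen Φ l 0 z.2.1 :=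
      ((Measure.quasiMeasurePreserving_fst (μ := (volume : Measure (Par l)))
        (ν := (volume : Measure (Par r)))).comp
        (Measure.quasiMeasurePreserving_snd (μ := (volume : Measure NodeP))
        (ν := (volume : Measure (Par l)).prod (volume : Measure (Par r))))).ae hl
    have e8 : ∀ᵐ z ∂((volume : Measure NodeP).prod
        ((volume : Measure (Par l)).prod (volume : Measure (Par r)))),
        Valid Φ 0 r T 0 z.2.2 → Gen Φ r 0 z.2.2 :=
      ((Measure.quasiMeasurePreserving_snd (μ := (volume : Measure (Par l)))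
        (ν := (volume : Measure (Par r)))).comp
        (Measure.quasiMeasurePreserving_snd (μ := (volume : Measure NodeP))
        (ν := (volume : Measure (Par l)).prod (volume : Measure (Par r))))).ae hr
    have hq := (measurePreserving_relM S l r).quasiMeasurePreserving
    have e1' := hq.ae e1
    have e2' := hq.ae e2
    have e3' := hq.ae e3
    have e4' := hq.ae e4
    have e5' := hq.ae e5
    have e6' := hq.ae e6
    have e7' := hq.ae e7
    have e8' := hq.ae e8
    filter_upwards [e1', e2', e3', e4', e5', e6', e7', e8'] with q f1 f2 f3 f4 f5 f6 f7 f8 hV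
    obtain ⟨a, pl, pr, rfl⟩ := exists_mkP q
    rw [relM_mkP] at f1 f2 f3 f4 f5 f6 f7 f8
    have ha : Adm1 Φ 0 a := hV.1.1
    have hy : ‖a.2.2‖ < 1 := ha.1
    have hVl := valid_left hV
    have hVr := valid_right hV
    have hT : a.1 < T := hV.2.1
    have hVlT : Valid Φ 0 l T 0 (boostP l (-vM Φ a) pl) := ⟨hVl.1, ord_mono l hT.le hVl.2⟩
    have hVrT : Valid Φ 0 r T 0 (boostP r (-wM Φ a) pr) := ⟨hVr.1, ord_mono r hT.le hVr.2⟩
    have hg : (0 : Space3) - a.2.1 ≠ 0 := sub_ne_zero.2 ha.2.1
    have hne : vM Φ a - wM Φ a ≠ 0 := by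
      rw [← dl_one]
      unfold dl
      rw [zero_smul, zero_add, one_smul]
      intro h
      have h1 := norm_exitM S (frameMap (gy a).1 (gy a).2) (g := (gy a).1) hg
      rw [h, norm_zero] at h1
      exact hg (norm_eq_zero.1 h1.symm)
    refine gen_node hV (f7 hVlT) (f8 hVrT) ?_ ?_ ?_ ?_ ?_ ?_
    · intro i u hu hv
      obtain ⟨k, hk⟩ := hcl _ hVl.1 i u
      exact no_meet hk hu (by simpa only [dl_neg_vM] using f1 k hy (by rw [dl_neg_vM]; exact hv))
    · intro i u hu hv
      obtain ⟨k, hk⟩ := hcl _ hVl.1 i u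
      exact no_meet hk hu
        (by simpa only [dl_w_sub_vM] using f2 k hy (by rw [dl_w_sub_vM]; exact hv))
    · intro i u hu hv
      obtain ⟨k, hk⟩ := hcr _ hVr.1 i u
      exact no_meet hk hu (by simpa only [dl_neg_wM] using f3 k hy (by rw [dl_neg_wM]; exact hv))
    · intro i u hu hv
      obtain ⟨k, hk⟩ := hcr _ hVr.1 i u
      exact no_meet hk hu
        (by simpa only [dl_w_sub_wM] using f4 k hy (by rw [dl_w_sub_wM]; exact hv))
    · intro i j u hu
      obtain ⟨k, hk⟩ := hcl _ hVl.1 i u
      obtain ⟨k', hk'⟩ := hcr _ hVr.1 j u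
      have h7 := f5 k k' hy (by rw [dl_one]; exact hne)
      simp only [dl_one] at h7
      refine no_meet (A := (Lr k' (boostP r (-wM Φ a) pr)).1 - (Ll k (boostP l (-vM Φ a) pl)).1)
        (B := (Lr k' (boostP r (-wM Φ a) pr)).2 - (Ll k (boostP l (-vM Φ a) pl)).2)
        ?_ hu ?_
      · rw [hk, hk']; module
      · intro t ht
        refine h7 t ?_
        rw [ht]; simp only [Pi.sub_apply]; module
    · intro i j hi hj
      rw [hFlp i hi _ a.1 hVl a.1 le_rfl, hFrp j hj _ a.1 hVr a.1 le_rfl]
      exact f6 i hi j hj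

/-- **Theorem C** under the facts on the scattering map. -/
theorem gen_ae (hΦ : AdmissiblePotential Φ) (S : ScatFacts Φ) (P : CTree) (T : ℝ) :
    ∀ᵐ z : PhasePoint × Par P, Valid Φ 0 P T z.1.2 z.2 → Gen Φ P z.1 z.2 := by
  have hmp : MeasurePreserving (fun z : PhasePoint × Par P => (z.1, boostP P (-z.1.2) z.2))
      ((volume : Measure PhasePoint).prod (volume : Measure (Par P)))
      ((volume : Measure PhasePoint).prod (volume : Measure (Par P))) := by
    refine MeasurePreserving.skew_product (f := id) (MeasurePreserving.id _)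
      (g := fun (ℓ : PhasePoint) q => boostP P (-ℓ.2) q) ?_ ?_
    · exact (measurable_boostP P).comp (f := fun z : PhasePoint × Par P => (-z.1.2, z.2))
        ((measurable_snd.comp measurable_fst).neg.prodMk measurable_snd)
    · exact Filter.Eventually.of_forall fun ℓ => (measurePreserving_boostP P _).map_eq
  have h1 := ((Measure.quasiMeasurePreserving_snd (μ := (volume : Measure PhasePoint))
    (ν := (volume : Measure (Par P)))).comp hmp.quasiMeasurePreserving).ae
    (gen_ae_rest hΦ S P T)
  have h2 : (volume : Measure (PhasePoint × Par P)) =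
      (volume : Measure PhasePoint).prod (volume : Measure (Par P)) := rfl
  rw [h2]
  filter_upwards [h1] with z hz hV
  rw [gen_rest]
  exact hz ((valid_rest P T z.1.2 z.2).1 hV)


end Crest.Agent.R122.Generic491

end
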