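import Crest.Agent.R122.TreeSpec_674
import Crest.Agent.R122.KinQ_416
import Crest.Agent.R122.Scat4_818

/-!
Row 122, block C, Theorem D (helper399): `Tree674.Stmt_F`, the tree series as an integral over the
tree parameters.
-/

set_option autoImplicit false

open MeasureTheory ProbabilityTheory Set
open scoped ENNReal
open Crest.AnalysisR.Kinetic Crest.Agent.R122.Kin796 Crest.Agent.R122.Disc416
  Crest.Agent.R122.Kin416 Crest.Agent.R122.Boltz814 Crest.Agent.R122.Tree674
  Crest.Agent.R122.Scat818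

noncomputable section

namespace Crest.Agent.R122.TreeF399

variable {Φ : Space3 → ℝ}

/-! ### Admissible nodes -/

theorem nt_iff (hΦ : AdmissiblePotential Φ) {b g : Space3} (hb : b ∈ impactDisc g) (hg : g ≠ 0) :
    NT Φ b g ↔ ∃ τ, HasExit Φ (inc b g) τ := by
  constructor
  · rintro ⟨p, hp⟩
    exact ⟨p.2, ((passage_iff hΦ (reg_entrance Φ hb hg)).mp hp).1⟩
  · rintro ⟨τ, hτ⟩
    exact ⟨(fun s => (relFlow Φ s (inc b g)).1, τ),
      (passage_iff hΦ (reg_entrance Φ hb hg)).mpr ⟨hτ, fun _ => rfl⟩⟩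

theorem adm1_iff (hΦ : AdmissiblePotential Φ) (v : Space3) (a : NodeP) :
    Adm1 Φ v a ↔ ‖a.2.2‖ < 1 ∧ v ≠ a.2.1 ∧
      (frameMap (v - a.2.1) a.2.2, v - a.2.1) ∈
        {p : Space3 × Space3 | p ∈ incid ∧ ∃ τ, HasExit Φ (inc p.1 p.2) τ} := by
  unfold Adm1
  constructor
  · rintro ⟨h1, h2, h3⟩
    have hg : v - a.2.1 ≠ 0 := sub_ne_zero.mpr h2
    have hb : frameMap (v - a.2.1) a.2.2 ∈ impactDisc (v - a.2.1) :=
      frameMap_mem_impactDisc hg (by simpa using h1)
    exact ⟨h1, h2, ⟨hb, fun h => hg (congrArg Prod.snd h)⟩, (nt_iff hΦ hb hg).mp h3⟩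
  · rintro ⟨h1, h2, h3, h4⟩
    have hg : v - a.2.1 ≠ 0 := sub_ne_zero.mpr h2
    exact ⟨h1, h2, (nt_iff hΦ h3.1 hg).mpr h4⟩

theorem measurableSet_adm1 (hΦ : AdmissiblePotential Φ) :
    MeasurableSet {z : Space3 × NodeP | Adm1 Φ z.1 z.2} := by
  have h : {z : Space3 × NodeP | Adm1 Φ z.1 z.2} =
      {z | ‖z.2.2.2‖ < 1} ∩ ({z | z.1 = z.2.2.1}ᶜ ∩
        (fun z : Space3 × NodeP => (frameMap (z.1 - z.2.2.1) z.2.2.2, z.1 - z.2.2.1)) ⁻¹'
          {p : Space3 × Space3 | p ∈ incid ∧ ∃ τ, HasExit Φ (inc p.1 p.2) τ}) := by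
    ext z
    exact adm1_iff hΦ z.1 z.2
  rw [h]
  refine MeasurableSet.inter ?_ (MeasurableSet.inter (MeasurableSet.compl ?_) ?_)
  · exact measurableSet_lt (by fun_prop) measurable_const
  · exact measurableSet_eq_fun measurable_fst (by fun_prop)
  · refine (measurableSet_hasExit hΦ).preimage ?_
    have h1 : Measurable fun z : Space3 × NodeP => z.1 - z.2.2.1 := by fun_prop
    have h2 : Measurable fun z : Space3 × NodeP => z.2.2.2 := by fun_prop
    exact (measurable_frameMap.comp (h1.prodMk h2)).prodMk h1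

/-- for almost every impact parameter the node is admissible -/
theorem ae_adm1 (hΦ : AdmissiblePotential Φ) {v w : Space3} (hvw : v ≠ w) (s : ℝ) :
    ∀ᵐ y : Plane, y ∈ Metric.ball (0 : Plane) 1 → Adm1 Φ v (s, w, y) := by
  have hg : v - w ≠ 0 := sub_ne_zero.mpr hvw
  have h := volume_trapped_plane hΦ hg
  have h' : ∀ᵐ y : Plane, y ∉ {y : Plane | frameMap (v - w) y ∈ trapped Φ (v - w)} :=
    measure_eq_zero_iff_ae_notMem.mp h
  filter_upwards [h'] with y hy hball
  have hb : frameMap (v - w) y ∈ impactDisc (v - w) := frameMap_mem_impactDisc hg hball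
  refine ⟨by simpa using hball, hvw, ?_⟩
  by_contra hnt
  exact hy ⟨hb, fun he => hnt ((nt_iff hΦ hb hg).mpr he)⟩

theorem preV_eq {v : Space3} {a : NodeP} (h : Adm1 Φ v a) : preV Φ v a = outV Φ v a.2 := by
  have h1 : a.2.2 ∈ Metric.ball (0 : Plane) 1 := by simpa using h.1
  have := outV_eq (Φ := Φ) h.2.1 h1
  rw [show a.2 = (a.2.1, a.2.2) from rfl, this]
  rfl

/-! ### The recursive weight -/

/-- the factor of one collision -/
def nodeWt (Φ : Space3 → ℝ) (D : ℝ → ℝ → Space3 → Space3 → ℝ≥0∞) (t : ℝ) (x v : Space3)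
    (q : NodeP) : ℝ≥0∞ :=
  {q : NodeP | Adm1 Φ v q ∧ 0 < q.1 ∧ q.1 < t}.indicator
    (fun q => D q.1 t x v * rate v q.2) q

/-- the weight of a collision tree with parameters -/
def Wt (Φ : Space3 → ℝ) (D : ℝ → ℝ → Space3 → Space3 → ℝ≥0∞) (f0 : Space3 → Space3 → ℝ≥0∞) :
    (P : CTree) → ℝ → Space3 → Space3 → Par P → ℝ≥0∞
  | .leaf => fun t x v _ => D 0 t x v * f0 (x - t • v) v
  | .node l r => fun t x v p => nodeWt Φ D t x v p.1 *
      (Wt Φ D f0 l p.1.1 (x - (t - p.1.1) • v) (outV Φ v p.1.2).1 p.2.1 *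
        Wt Φ D f0 r p.1.1 (x - (t - p.1.1) • v) (outV Φ v p.1.2).2 p.2.2)

variable {D : ℝ → ℝ → Space3 → Space3 → ℝ≥0∞} {f0 : Space3 → Space3 → ℝ≥0∞}

theorem measurable_nodeWt (hΦ : AdmissiblePotential Φ) (hD : Meas4 D) :
    Measurable fun z : (ℝ × Space3 × Space3) × NodeP =>
      nodeWt Φ D z.1.1 z.1.2.1 z.1.2.2 z.2 := by
  have hs : MeasurableSet {z : (ℝ × Space3 × Space3) × NodeP |
      Adm1 Φ z.1.2.2 z.2 ∧ 0 < z.2.1 ∧ z.2.1 < z.1.1} := by
    refine MeasurableSet.inter ?_ (MeasurableSet.inter ?_ ?_)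
    · exact (measurableSet_adm1 hΦ).preimage
        (f := fun z : (ℝ × Space3 × Space3) × NodeP => (z.1.2.2, z.2)) (by fun_prop)
    · exact measurableSet_lt measurable_const (measurable_fst.comp measurable_snd)
    · exact measurableSet_lt (measurable_fst.comp measurable_snd)
        (measurable_fst.comp measurable_fst)
  have he : (fun z : (ℝ × Space3 × Space3) × NodeP => nodeWt Φ D z.1.1 z.1.2.1 z.1.2.2 z.2) =
      {z : (ℝ × Space3 × Space3) × NodeP |
        Adm1 Φ z.1.2.2 z.2 ∧ 0 < z.2.1 ∧ z.2.1 < z.1.1}.indicator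
        (fun z => D z.2.1 z.1.1 z.1.2.1 z.1.2.2 * rate z.1.2.2 z.2.2) := by
    funext z
    unfold nodeWt
    by_cases h : Adm1 Φ z.1.2.2 z.2 ∧ 0 < z.2.1 ∧ z.2.1 < z.1.1
    · rw [indicator_of_mem (by exact h), indicator_of_mem (by exact h)]
    · rw [indicator_of_notMem (by exact h), indicator_of_notMem (by exact h)]
  rw [he]
  refine Measurable.indicator (Measurable.mul ?_ ?_) hs
  · exact hD.comp (f := fun z : (ℝ × Space3 × Space3) × NodeP =>
      (z.2.1, z.1.1, z.1.2.1, z.1.2.2)) (by fun_prop)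
  · exact measurable_rate.comp (f := fun z : (ℝ × Space3 × Space3) × NodeP => (z.1.2.2, z.2.2))
      (by fun_prop)

theorem measurable_Wt (hΦ : AdmissiblePotential Φ) (hD : Meas4 D)
    (hf : Measurable fun p : Space3 × Space3 => f0 p.1 p.2) (P : CTree) :
    Measurable fun z : (ℝ × Space3 × Space3) × Par P => Wt Φ D f0 P z.1.1 z.1.2.1 z.1.2.2 z.2 := by
  have S := scatFacts hΦ
  induction P with
  | leaf =>
    exact (meas_mul3 (meas_D0 hD) (meas_free hf)).comp
      (f := fun z : (ℝ × Space3 × Space3) × Par .leaf => z.1) measurable_fst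
  | node l r hl hr =>
    have hp : Measurable fun z : (ℝ × Space3 × Space3) × Par (.node l r) =>
        ((z.1, z.2.1) : (ℝ × Space3 × Space3) × NodeP) :=
      measurable_fst.prodMk (measurable_fst.comp measurable_snd)
    have hq : Measurable fun z : (ℝ × Space3 × Space3) × NodeP =>
        outV Φ z.1.2.2 z.2.2 :=
      (measurable_outV S).comp (f := fun z : (ℝ × Space3 × Space3) × NodeP =>
        (z.1.2.2, z.2.2)) (by fun_prop)
    have hx : Measurable fun z : (ℝ × Space3 × Space3) × NodeP =>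
        z.1.2.1 - (z.1.1 - z.2.1) • z.1.2.2 := by fun_prop
    have hs : Measurable fun z : (ℝ × Space3 × Space3) × NodeP => z.2.1 := by fun_prop
    refine ((measurable_nodeWt hΦ hD).comp hp).mul (Measurable.mul ?_ ?_)
    · refine hl.comp (f := fun z : (ℝ × Space3 × Space3) × Par (.node l r) =>
        (((z.2.1.1, z.1.2.1 - (z.1.1 - z.2.1.1) • z.1.2.2, (outV Φ z.1.2.2 z.2.1.2).1), z.2.2.1) :
          (ℝ × Space3 × Space3) × Par l)) ?_
      exact ((hs.comp hp).prodMk ((hx.comp hp).prodMk (measurable_fst.comp (hq.comp hp)))).prodMk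
        (measurable_fst.comp (measurable_snd.comp measurable_snd))
    · refine hr.comp (f := fun z : (ℝ × Space3 × Space3) × Par (.node l r) =>
        (((z.2.1.1, z.1.2.1 - (z.1.1 - z.2.1.1) • z.1.2.2, (outV Φ z.1.2.2 z.2.1.2).2), z.2.2.2) :
          (ℝ × Space3 × Space3) × Par r)) ?_
      exact ((hs.comp hp).prodMk ((hx.comp hp).prodMk (measurable_snd.comp (hq.comp hp)))).prodMk
        (measurable_snd.comp (measurable_snd.comp measurable_snd))

theorem measurable_Wt_slice (hΦ : AdmissiblePotential Φ) (hD : Meas4 D)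
    (hf : Measurable fun p : Space3 × Space3 => f0 p.1 p.2) (P : CTree) (t : ℝ) (x v : Space3) :
    Measurable (Wt Φ D f0 P t x v) :=
  (measurable_Wt hΦ hD hf P).comp (f := fun p : Par P => (((t, x, v), p) :
    (ℝ × Space3 × Space3) × Par P)) (measurable_const.prodMk measurable_id)

theorem measurable_rate_right (v : Space3) : Measurable (rate v) :=
  measurable_rate.of_uncurry_left

/-- the gain term as an integral over partner velocity and impact parameter -/
theorem Q_eq (hΦ : AdmissiblePotential Φ) {h k : Space3 → ℝ≥0∞} (hh : Measurable h)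
    (hk : Measurable k) (v : Space3) (s : ℝ) :
    Q (kapQ Φ) h k v = ∫⁻ u : Space3 × Plane, {u : Space3 × Plane | Adm1 Φ v (s, u)}.indicator
      (fun u => rate v u * (h (outV Φ v u).1 * k (outV Φ v u).2)) u := by
  have S := scatFacts hΦ
  unfold Q
  have hm : Measurable (fun p : Space3 × Space3 => h p.1 * k p.2) :=
    (hh.comp measurable_fst).mul (hk.comp measurable_snd)
  have hm2 : Measurable (fun p : Space3 × Plane => h (outV Φ v p).1 * k (outV Φ v p).2) :=
    hm.comp (measurable_outV_right S v)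
  have hset : MeasurableSet {u : Space3 × Plane | Adm1 Φ v (s, u)} :=
    (measurableSet_adm1 hΦ).preimage (f := fun u : Space3 × Plane => (v, ((s, u) : NodeP)))
      (by fun_prop)
  have hm3 : Measurable fun u : Space3 × Plane =>
      {u : Space3 × Plane | Adm1 Φ v (s, u)}.indicator
      (fun u => rate v u * (h (outV Φ v u).1 * k (outV Φ v u).2)) u :=
    ((measurable_rate_right v).mul hm2).indicator hset
  rw [lintegral_kapQ_aux S v hm, lintegral_kapP v hm2, Measure.volume_eq_prod,
    lintegral_prod _ hm3.aemeasurable]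
  refine lintegral_congr fun w => ?_
  by_cases hvw : v = w
  · have h0 : ∀ y : Plane, {u : Space3 × Plane | Adm1 Φ v (s, u)}.indicator
        (fun u => rate v u * (h (outV Φ v u).1 * k (outV Φ v u).2)) (w, y) = 0 := by
      intro y
      apply indicator_of_notMem
      intro hmem
      exact hmem.2.1 hvw
    simp only [h0, lintegral_zero]
    rw [hvw, sub_self, norm_zero, ENNReal.ofReal_zero, zero_mul]
  · have hmw : Measurable fun y : Plane => h (outV Φ v (w, y)).1 * k (outV Φ v (w, y)).2 :=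
      hm2.comp (measurable_const.prodMk measurable_id)
    rw [← lintegral_indicator measurableSet_ball,
      ← lintegral_const_mul _ (hmw.indicator measurableSet_ball)]
    refine lintegral_congr_ae ?_
    filter_upwards [ae_adm1 hΦ hvw s] with y hy
    by_cases hb : y ∈ Metric.ball (0 : Plane) 1
    · rw [indicator_of_mem hb, indicator_of_mem (by exact hy hb)]
      rfl
    · rw [indicator_of_notMem hb, indicator_of_notMem, mul_zero]
      intro hmem
      apply hb
      simpa using hmem.1

theorem lintegral_Wt (hΦ : AdmissiblePotential Φ) (hD : Meas4 D)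
    (hf : Measurable fun p : Space3 × Space3 => f0 p.1 p.2) (P : CTree) (t : ℝ) (x v : Space3) :
    ∫⁻ p : Par P, Wt Φ D f0 P t x v p = F (kapQ Φ) D f0 P t x v := by
  have S := scatFacts hΦ
  induction P generalizing t x v with
  | leaf =>
    change ∫⁻ _ : Unit, D 0 t x v * f0 (x - t • v) v ∂(Measure.dirac ()) =
      D 0 t x v * f0 (x - t • v) v
    rw [lintegral_const]
    simp
  | node l r hl hr =>
    have hWl := measurable_Wt_slice hΦ hD hf l
    have hWr := measurable_Wt_slice hΦ hD hf r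
    have hmeas := measurable_Wt_slice hΦ hD hf (.node l r) t x v
    have h1 : ∫⁻ p : Par (.node l r), Wt Φ D f0 (.node l r) t x v p =
        ∫⁻ q : NodeP, nodeWt Φ D t x v q *
          (F (kapQ Φ) D f0 l q.1 (x - (t - q.1) • v) (outV Φ v q.2).1 *
            F (kapQ Φ) D f0 r q.1 (x - (t - q.1) • v) (outV Φ v q.2).2) := by
      change ∫⁻ p : NodeP × Par l × Par r, Wt Φ D f0 (.node l r) t x v p
        ∂((volume : Measure NodeP).prod ((volume : Measure (Par l)).prod
          (volume : Measure (Par r)))) = _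
      rw [lintegral_prod _ hmeas.aemeasurable]
      refine lintegral_congr fun q => ?_
      change ∫⁻ p : Par l × Par r, nodeWt Φ D t x v q *
        (Wt Φ D f0 l q.1 (x - (t - q.1) • v) (outV Φ v q.2).1 p.1 *
        Wt Φ D f0 r q.1 (x - (t - q.1) • v) (outV Φ v q.2).2 p.2)
          ∂((volume : Measure (Par l)).prod (volume : Measure (Par r))) = _
      rw [lintegral_const_mul, lintegral_prod_mul, hl, hr]
      · exact (hWl _ _ _).aemeasurable
      · exact (hWr _ _ _).aemeasurable
      · exact ((hWl _ _ _).comp measurable_fst).mul ((hWr _ _ _).comp measurable_snd)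
    rw [h1]
    have hFl := meas_F (kapQ Φ) hD hf l
    have hFr := meas_F (kapQ Φ) hD hf r
    have hnode : Measurable fun q : NodeP => nodeWt Φ D t x v q :=
      (measurable_nodeWt hΦ hD).comp (f := fun q : NodeP => (((t, x, v), q) :
        (ℝ × Space3 × Space3) × NodeP)) (measurable_const.prodMk measurable_id)
    have hout : Measurable fun q : NodeP => outV Φ v q.2 :=
      (measurable_outV_right S v).comp measurable_snd
    have hx : Measurable fun q : NodeP => x - (t - q.1) • v := by fun_prop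
    have hml : Measurable fun q : NodeP =>
        F (kapQ Φ) D f0 l q.1 (x - (t - q.1) • v) (outV Φ v q.2).1 :=
      hFl.comp (f := fun q : NodeP => (q.1, x - (t - q.1) • v, (outV Φ v q.2).1))
        (measurable_fst.prodMk (hx.prodMk (measurable_fst.comp hout)))
    have hmr : Measurable fun q : NodeP =>
        F (kapQ Φ) D f0 r q.1 (x - (t - q.1) • v) (outV Φ v q.2).2 :=
      hFr.comp (f := fun q : NodeP => (q.1, x - (t - q.1) • v, (outV Φ v q.2).2))
        (measurable_fst.prodMk (hx.prodMk (measurable_snd.comp hout)))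
    have hall : Measurable fun q : NodeP => nodeWt Φ D t x v q *
          (F (kapQ Φ) D f0 l q.1 (x - (t - q.1) • v) (outV Φ v q.2).1 *
            F (kapQ Φ) D f0 r q.1 (x - (t - q.1) • v) (outV Φ v q.2).2) := hnode.mul (hml.mul hmr)
    rw [Measure.volume_eq_prod, lintegral_prod _ hall.aemeasurable]
    change _ = ∫⁻ s in Ioc 0 t, D s t x v *
      Q (kapQ Φ) (F (kapQ Φ) D f0 l s (x - (t - s) • v)) (F (kapQ Φ) D f0 r s (x - (t - s) • v)) v
    rw [restrict_Ioo_eq_restrict_Ioc.symm, ← lintegral_indicator measurableSet_Ioo]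
    refine lintegral_congr fun s => ?_
    have hsl : Measurable (F (kapQ Φ) D f0 l s (x - (t - s) • v)) := meas_slice hD hf hFl s _
    have hsr : Measurable (F (kapQ Φ) D f0 r s (x - (t - s) • v)) := meas_slice hD hf hFr s _
    by_cases hs : s ∈ Ioo 0 t
    · rw [indicator_of_mem hs, Q_eq hΦ hsl hsr v s]
      have hset : MeasurableSet {u : Space3 × Plane | Adm1 Φ v (s, u)} :=
        (measurableSet_adm1 hΦ).preimage (f := fun u : Space3 × Plane => (v, ((s, u) : NodeP)))
          (by fun_prop)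
      rw [← lintegral_const_mul]
      · refine lintegral_congr fun u => ?_
        simp only [nodeWt]
        by_cases hu : Adm1 Φ v (s, u)
        · rw [indicator_of_mem (show (s, u) ∈ {q : NodeP | Adm1 Φ v q ∧ 0 < q.1 ∧ q.1 < t} from
            ⟨hu, hs.1, hs.2⟩), indicator_of_mem (show u ∈ {u : Space3 × Plane | Adm1 Φ v (s, u)}
            from hu)]
          ring
        · rw [indicator_of_notMem (show (s, u) ∉ {q : NodeP | Adm1 Φ v q ∧ 0 < q.1 ∧ q.1 < t} from
            fun h => hu h.1), indicator_of_notMem (show u ∉ {u : Space3 × Plane | Adm1 Φ v (s, u)}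
            from hu), zero_mul, mul_zero]
      · refine Measurable.indicator (Measurable.mul (measurable_rate_right v) ?_) hset
        exact (hsl.comp (measurable_fst.comp (measurable_outV_right S v))).mul
          (hsr.comp (measurable_snd.comp (measurable_outV_right S v)))
    · rw [indicator_of_notMem hs]
      have h0 : ∀ u : Space3 × Plane, nodeWt Φ D t x v (s, u) = 0 := by
        intro u
        unfold nodeWt
        apply indicator_of_notMem
        intro h
        exact hs ⟨h.2.1, h.2.2⟩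
      simp only [h0, zero_mul, lintegral_zero]

/-! ### Comparison with the explicit weight -/

theorem inMap_zero (x v : Space3) (t : ℝ) (a : NodeP) :
    inMap Φ 0 (x - t • v, v) a =
      (((x - (t - a.1) • v) - a.1 • (preV Φ v a).1, (preV Φ v a).1),
       ((x - (t - a.1) • v) - a.1 • (preV Φ v a).2, (preV Φ v a).2)) := by
  have h : x - t • v + a.1 • v = x - (t - a.1) • v := by
    rw [sub_smul]; abel
  simp [inMap, xin, cms, Tree674.sin, h]

theorem valid_node (P Q : CTree) (t : ℝ) (v : Space3) (p : Par (.node P Q)) :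
    Valid Φ 0 (.node P Q) t v p ↔ (Adm1 Φ v p.1 ∧ 0 < p.1.1 ∧ p.1.1 < t) ∧
      Valid Φ 0 P p.1.1 (preV Φ v p.1).1 p.2.1 ∧ Valid Φ 0 Q p.1.1 (preV Φ v p.1).2 p.2.2 := by
  simp only [Valid, Adm, Tree674.Ord, Tree674.sin, zero_mul, sub_zero]
  tauto

theorem weight_eq (P : CTree) (t : ℝ) (x v : Space3) (p : Par P) :
    {p | Valid Φ 0 P t v p}.indicator
      (fun p => wt Φ P v p * dens Φ D f0 P t (x - t • v, v) p) p = Wt Φ D f0 P t x v p := by
  induction P generalizing t x v with
  | leaf =>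
    rw [indicator_of_mem (show p ∈ {p | Valid Φ 0 .leaf t v p} from ⟨trivial, trivial⟩)]
    simp [wt, dens, Wt]
  | node l r hl hr =>
    by_cases hA : Adm1 Φ v p.1 ∧ 0 < p.1.1 ∧ p.1.1 < t
    · have hpre := preV_eq hA.1
      have hL := hl p.1.1 (x - (t - p.1.1) • v) (preV Φ v p.1).1 p.2.1
      have hR := hr p.1.1 (x - (t - p.1.1) • v) (preV Φ v p.1).2 p.2.2
      have hW : Wt Φ D f0 (.node l r) t x v p = D p.1.1 t x v * rate v p.1.2 *
          (Wt Φ D f0 l p.1.1 (x - (t - p.1.1) • v) (preV Φ v p.1).1 p.2.1 *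
            Wt Φ D f0 r p.1.1 (x - (t - p.1.1) • v) (preV Φ v p.1).2 p.2.2) := by
        rw [hpre]
        change nodeWt Φ D t x v p.1 * _ = _
        unfold nodeWt
        rw [indicator_of_mem (by exact hA)]
      rw [hW, ← hL, ← hR]
      by_cases hV : Valid Φ 0 l p.1.1 (preV Φ v p.1).1 p.2.1 ∧
          Valid Φ 0 r p.1.1 (preV Φ v p.1).2 p.2.2
      · rw [indicator_of_mem (show p ∈ {p | Valid Φ 0 (.node l r) t v p} from
          (valid_node l r t v p).mpr ⟨hA, hV⟩),
          indicator_of_mem (show p.2.1 ∈ {q | Valid Φ 0 l p.1.1 (preV Φ v p.1).1 q} from hV.1),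
          indicator_of_mem (show p.2.2 ∈ {q | Valid Φ 0 r p.1.1 (preV Φ v p.1).2 q} from hV.2)]
        have hx : x - t • v + t • v = x := by abel
        simp only [wt, dens, inMap_zero, hx, rate]
        ring
      · rw [indicator_of_notMem (show p ∉ {p | Valid Φ 0 (.node l r) t v p} from
          fun h => hV ((valid_node l r t v p).mp h).2)]
        rcases not_and_or.mp hV with h | h
        · rw [indicator_of_notMem (show p.2.1 ∉ {q | Valid Φ 0 l p.1.1 (preV Φ v p.1).1 q} from h),
            zero_mul, mul_zero]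
        · rw [indicator_of_notMem (show p.2.2 ∉ {q | Valid Φ 0 r p.1.1 (preV Φ v p.1).2 q} from h),
            mul_zero, mul_zero]
    · rw [indicator_of_notMem (show p ∉ {p | Valid Φ 0 (.node l r) t v p} from
        fun h => hA ((valid_node l r t v p).mp h).1)]
      change _ = nodeWt Φ D t x v p.1 * _
      unfold nodeWt
      rw [indicator_of_notMem (by exact hA), zero_mul]

/-! ### The kernel given by its integration formula -/

theorem F_kernel_eq (hΦ : AdmissiblePotential Φ) (κ : Kernel Space3 (Space3 × Space3))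
    [IsSFiniteKernel κ]
    (hκ : ∀ (v : Space3) (H : Space3 × Space3 → ℝ≥0∞), Measurable H → ∫⁻ p, H p ∂(κ v) =
      ∫⁻ w, ENNReal.ofReal ‖v - w‖ * ∫⁻ b in impactDisc (v - w), H (postVelocities Φ b v w) ∂μHE[2])
    (hD : Meas4 D) (hf : Measurable fun p : Space3 × Space3 => f0 p.1 p.2) (P : CTree) :
    F κ D f0 P = F (kapQ Φ) D f0 P := by
  have S := scatFacts hΦ
  induction P with
  | leaf => rfl
  | node l r hl hr =>
    funext t x v
    change ∫⁻ s in Ioc 0 t, D s t x v *
      Q κ (F κ D f0 l s (x - (t - s) • v)) (F κ D f0 r s (x - (t - s) • v)) v =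
      ∫⁻ s in Ioc 0 t, D s t x v *
      Q (kapQ Φ) (F (kapQ Φ) D f0 l s (x - (t - s) • v)) (F (kapQ Φ) D f0 r s (x - (t - s) • v)) v
    rw [hl, hr]
    refine lintegral_congr fun s => ?_
    have hsl : Measurable (F (kapQ Φ) D f0 l s (x - (t - s) • v)) :=
      meas_slice hD hf (meas_F (kapQ Φ) hD hf l) s _
    have hsr : Measurable (F (kapQ Φ) D f0 r s (x - (t - s) • v)) :=
      meas_slice hD hf (meas_F (kapQ Φ) hD hf r) s _
    have hm : Measurable (fun p : Space3 × Space3 =>
        F (kapQ Φ) D f0 l s (x - (t - s) • v) p.1 * F (kapQ Φ) D f0 r s (x - (t - s) • v) p.2) :=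
      (hsl.comp measurable_fst).mul (hsr.comp measurable_snd)
    congr 1
    unfold Q
    rw [hκ v _ hm, lintegral_kapQ S v hm]

/-- **Theorem D** -/
theorem stmt_F : Stmt_F := by
  intro Φ hΦ κ _ hκ D hD f0 hf P t x v _
  rw [F_kernel_eq hΦ κ hκ hD hf P, ← lintegral_Wt hΦ hD hf P t x v]
  exact lintegral_congr fun p => (weight_eq P t x v p).symm

end Crest.Agent.R122.TreeF399
end
private theorem rz_8fdfa4b0df : type_of% @_root_.Crest.Agent.R122.TreeF399.Wt.eq_def := @_root_.Crest.Agent.R122.TreeF399.Wt.eq_def -- L95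
private theorem rz_036d4b082b : type_of% @_root_.Crest.Agent.R122.TreeF399.Wt.eq_1 := @_root_.Crest.Agent.R122.TreeF399.Wt.eq_1 -- L95
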