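import Crest.Agent.R122.Scat4_818
import Crest.Agent.R122.NewtonLiou_671

/-!
# Row 122, block F2: two-body scattering, part 5

Joint measurability of the exit time, exit point and outgoing impact parameter; Liouville's theorem
for the relative flow; free flight before the entrance.
-/

set_option autoImplicit false

open MeasureTheory Filter Set
open scoped Topology NNReal ENNReal
open Crest.AnalysisR.Kinetic

noncomputable section

namespace Crest.Agent.R122.Scat818

open Flow671

variable {Φ : Space3 → ℝ}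

/-! ### Free flight before entrance and after exit -/

/-- Before the entrance time `0` the motion is free. -/
theorem relFlow_before (hΦ : AdmissiblePotential Φ) {b g : Space3} (hb : b ∈ impactDisc g)
    (hg : g ≠ 0) {t : ℝ} (ht : t ≤ 0) :
    relFlow Φ t (inc b g) = (entrancePoint b g + t • g, g) :=
  relFlow_free_neg hΦ (norm_entrance hb hg).ge (inner_entrance_neg hb hg).le ht

/-- Exit point. -/
def exitPoint (Φ : Space3 → ℝ) (b g : Space3) : Space3 :=
  (relFlow Φ (exitTime Φ b g) (inc b g)).1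

/-- Data with a passage. -/
def HasPass (Φ : Space3 → ℝ) (b g : Space3) : Prop := ∃ τ, HasExit Φ (inc b g) τ

lemma HasPass.hasExit {b g : Space3} (h : HasPass Φ b g) :
    HasExit Φ (inc b g) (exitTime Φ b g) := by
  obtain ⟨τ, hτ⟩ := h
  rwa [exitTime_eq hτ]

lemma HasPass.exitTime_pos {b g : Space3} (h : HasPass Φ b g) : 0 < exitTime Φ b g :=
  h.hasExit.1

lemma exitTime_nonneg (b g : Space3) : 0 ≤ exitTime Φ b g := by
  classical
  by_cases h : ∃ τ, HasExit Φ (inc b g) τ
  · exact (HasPass.exitTime_pos h).le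
  · rw [exitTime, dif_neg h]

lemma HasPass.relFlow_exit (hΦ : AdmissiblePotential Φ) {b g : Space3} (hb : b ∈ impactDisc g)
    (hg : g ≠ 0) (h : HasPass Φ b g) :
    relFlow Φ (exitTime Φ b g) (inc b g) = (exitPoint Φ b g, exitVelocity Φ b g) := by
  ext1
  · rfl
  · exact (exitVelocity_eq hΦ (reg_entrance Φ hb hg) h.hasExit).symm


lemma HasPass.norm_lt {b g : Space3} (h : HasPass Φ b g) {s : ℝ}
    (hs : s ∈ Ioo 0 (exitTime Φ b g)) : ‖(relFlow Φ s (inc b g)).1‖ < 1 := h.hasExit.2.1 s hs

/-- After the exit the motion is free. -/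
theorem HasPass.after (hΦ : AdmissiblePotential Φ) {b g : Space3} (hb : b ∈ impactDisc g)
    (hg : g ≠ 0) (h : HasPass Φ b g) {t : ℝ} (ht : exitTime Φ b g ≤ t) :
    relFlow Φ t (inc b g) =
      (exitPoint Φ b g + (t - exitTime Φ b g) • exitVelocity Φ b g, exitVelocity Φ b g) := by
  have := h.hasExit.after hΦ (reg_entrance Φ hb hg) ht
  rw [this, h.relFlow_exit hΦ hb hg]

lemma HasPass.one_le_norm (hΦ : AdmissiblePotential Φ) {b g : Space3} (hb : b ∈ impactDisc g)
    (hg : g ≠ 0) (h : HasPass Φ b g) {t : ℝ} (ht : t ≤ 0 ∨ exitTime Φ b g ≤ t) :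
    1 ≤ ‖(relFlow Φ t (inc b g)).1‖ := by
  rcases ht with ht | ht
  · rw [relFlow_before hΦ hb hg ht, one_le_norm_iff, norm_sq_line, norm_sq_entrance hb hg]
    have h1 := inner_entrance_neg hb hg
    have h2 : 0 ≤ 2 * t * inner ℝ (entrancePoint b g) g := by nlinarith
    have h3 : 0 ≤ t ^ 2 * ‖g‖ ^ 2 := by positivity
    linarith
  · rcases eq_or_lt_of_le ht with h' | h'
    · rw [← h', h.hasExit.2.2]
    · exact (h.hasExit.one_lt_norm hΦ (reg_entrance Φ hb hg) h').le

lemma HasPass.exitPoint_eq (hΦ : AdmissiblePotential Φ) {b g : Space3} (hb : b ∈ impactDisc g)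
    (hg : g ≠ 0) (h : HasPass Φ b g) : exitPoint Φ b g =
      exitImpact Φ b g + (Real.sqrt (1 - ‖b‖ ^ 2) / ‖g‖) • exitVelocity Φ b g :=
  Scat818.exitPoint_eq hΦ hb hg h.hasExit


/-! ### Joint measurability -/

/-- Nondegenerate incidence data. -/
def gincid : Set (Space3 × Space3) := {p | p.1 ∈ impactDisc p.2 ∧ p.2 ≠ 0}

lemma measurableSet_gincid : MeasurableSet gincid :=
  measurableSet_impact.inter
    ((measurableSet_singleton (0 : Space3)).compl.preimage measurable_snd)

lemma gincid_subset_incid : gincid ⊆ incid := by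
  rintro p ⟨h1, h2⟩
  exact ⟨h1, fun h => h2 (by rw [h]; rfl)⟩

/-- Data with a passage, as a set. -/
def passSet (Φ : Space3 → ℝ) : Set (Space3 × Space3) := {p | p ∈ gincid ∧ HasPass Φ p.1 p.2}

lemma measurableSet_passSet (hΦ : AdmissiblePotential Φ) : MeasurableSet (passSet Φ) := by
  have h1 : passSet Φ =
      gincid ∩ {p : Space3 × Space3 | p ∈ incid ∧ ∃ τ, HasExit Φ (inc p.1 p.2) τ} := by
    ext p
    constructor
    · rintro ⟨h1, h2⟩
      exact ⟨h1, gincid_subset_incid h1, h2⟩
    · rintro ⟨h1, _, h2⟩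
      exact ⟨h1, h2⟩
  rw [h1]
  exact measurableSet_gincid.inter (measurableSet_hasExit hΦ)

/-- Total version of the exit time: zero unless there is a passage. -/
def tauM (Φ : Space3 → ℝ) (p : Space3 × Space3) : ℝ :=
  open scoped Classical in
  if p ∈ passSet Φ then exitTime Φ p.1 p.2 else 0

lemma tauM_of_mem {p : Space3 × Space3} (hp : p ∈ passSet Φ) : tauM Φ p = exitTime Φ p.1 p.2 := by
  classical
  rw [tauM, if_pos hp]

lemma tauM_of_not {p : Space3 × Space3} (hp : p ∉ passSet Φ) : tauM Φ p = 0 := by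
  classical
  rw [tauM, if_neg hp]

lemma tauM_nonneg (p : Space3 × Space3) : 0 ≤ tauM Φ p := by
  by_cases hp : p ∈ passSet Φ
  · rw [tauM_of_mem hp]; exact exitTime_nonneg _ _
  · rw [tauM_of_not hp]

theorem measurable_tauM (hΦ : AdmissiblePotential Φ) : Measurable (tauM Φ) := by
  refine measurable_of_Iio fun c => ?_
  have hP := measurableSet_passSet hΦ
  rcases le_or_gt c 0 with hc | hc
  · have : tauM Φ ⁻¹' Iio c = ∅ := by
      ext p
      simp only [mem_preimage, mem_Iio, mem_empty_iff_false, iff_false, not_lt]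
      exact hc.trans (tauM_nonneg p)
    rw [this]; exact MeasurableSet.empty
  · have h1 : tauM Φ ⁻¹' Iio c =
        (passSet Φ)ᶜ ∪ (passSet Φ ∩ {p | 1 < ‖(relFlow Φ c (inc p.1 p.2)).1‖}) := by
      ext p
      simp only [mem_preimage, mem_Iio, mem_union, mem_compl_iff, mem_inter_iff]
      by_cases hp : p ∈ passSet Φ
      · have hz : Reg Φ (inc p.1 p.2).1 := reg_entrance Φ hp.1.1 hp.1.2
        have hent := enters_inc hΦ hp.1.1 hp.1.2
        rw [tauM_of_mem hp]
        constructor
        · intro h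
          exact Or.inr ⟨hp, (exit_lt_iff hΦ hz hent hc).1 ⟨_, h, hp.2.hasExit⟩⟩
        · rintro (h | ⟨_, h⟩)
          · exact absurd hp h
          · obtain ⟨τ, h2, h3⟩ := (exit_lt_iff hΦ hz hent hc).2 h
            rwa [exitTime_eq h3]
      · rw [tauM_of_not hp]
        exact ⟨fun _ => Or.inl hp, fun _ => hc⟩
    rw [h1]
    refine hP.compl.union (hP.inter ?_)
    have h2 : Measurable fun p : Space3 × Space3 => relFlow Φ c (inc p.1 p.2) :=
      (measurable_relFlow hΦ _).comp measurable_inc
    exact measurableSet_lt measurable_const h2.fst.norm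

/-- The relative flow is jointly measurable in time and phase point. -/
theorem measurable_relFlow_joint (hΦ : AdmissiblePotential Φ) :
    Measurable (fun p : ℝ × (Space3 × Space3) => relFlow Φ p.1 p.2) := by
  classical
  have hU : MeasurableSet ((univ : Set ℝ) ×ˢ RegSet Φ) :=
    MeasurableSet.univ.prod (isOpen_regSet Φ).measurableSet
  have h1 := continuousOn_relFlow hΦ
  have h3 : (fun p : ℝ × (Space3 × Space3) => relFlow Φ p.1 p.2) =
      ((univ : Set ℝ) ×ˢ RegSet Φ).piecewise (fun p => relFlow Φ p.1 p.2) (fun p => p.2) := by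
    funext p
    by_cases hp : p ∈ (univ : Set ℝ) ×ˢ RegSet Φ
    · rw [Set.piecewise_eq_of_mem _ _ _ hp]
    · rw [Set.piecewise_eq_of_notMem _ _ _ hp]
      exact Complete.flow_of_not_mem (fun h => hp ⟨mem_univ _, h⟩) p.1
  rw [h3]
  exact h1.measurable_piecewise continuousOn_snd hU

/-- Total version of the exit phase point `(x', g')`: `(entrancePoint b g, g)` unless there is a
passage. -/
def exitM (Φ : Space3 → ℝ) (p : Space3 × Space3) : Space3 × Space3 :=
  relFlow Φ (tauM Φ p) (inc p.1 p.2)

theorem measurable_exitM (hΦ : AdmissiblePotential Φ) : Measurable (exitM Φ) :=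
  (measurable_relFlow_joint hΦ).comp ((measurable_tauM hΦ).prodMk measurable_inc)

lemma exitM_of_mem (hΦ : AdmissiblePotential Φ) {p : Space3 × Space3} (hp : p ∈ passSet Φ) :
    exitM Φ p = (exitPoint Φ p.1 p.2, exitVelocity Φ p.1 p.2) := by
  rw [exitM, tauM_of_mem hp]
  exact hp.2.relFlow_exit hΦ hp.1.1 hp.1.2

lemma exitM_of_not (hΦ : AdmissiblePotential Φ) {p : Space3 × Space3} (hp : p ∉ passSet Φ) :
    exitM Φ p = inc p.1 p.2 := by
  rw [exitM, tauM_of_not hp, relFlow_zero hΦ]

/-- **The scattering map** `(b, g) ↦ (b', g')` in total, jointly measurable form. -/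
def scat (Φ : Space3 → ℝ) (p : Space3 × Space3) : Space3 × Space3 :=
  open scoped Classical in
  if p ∈ passSet Φ then (exitImpact Φ p.1 p.2, exitVelocity Φ p.1 p.2) else p

lemma scat_of_mem {p : Space3 × Space3} (hp : p ∈ passSet Φ) :
    scat Φ p = (exitImpact Φ p.1 p.2, exitVelocity Φ p.1 p.2) := by
  classical
  rw [scat, if_pos hp]

lemma scat_of_not {p : Space3 × Space3} (hp : p ∉ passSet Φ) : scat Φ p = p := by
  classical
  rw [scat, if_neg hp]

/-- On all nondegenerate incidence data the second component is the frozen exit velocity. -/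
lemma scat_of_gincid (hΦ : AdmissiblePotential Φ) {p : Space3 × Space3} (hp : p ∈ gincid) :
    scat Φ p = (exitImpact Φ p.1 p.2, exitVelocity Φ p.1 p.2) := by
  by_cases h : p ∈ passSet Φ
  · exact scat_of_mem h
  · have h2 : ¬ ∃ τ, HasExit Φ (inc p.1 p.2) τ := fun h' => h ⟨hp, h'⟩
    rw [scat_of_not h, exitImpact_of_not h2, exitVelocity_of_not hΦ (reg_entrance Φ hp.1 hp.2) h2]

lemma scat_eq (hΦ : AdmissiblePotential Φ) (p : Space3 × Space3) :
    scat Φ p = open scoped Classical in if p ∈ passSet Φ then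
      ((exitM Φ p).1 - (Real.sqrt (1 - ‖p.1‖ ^ 2) / ‖p.2‖) • (exitM Φ p).2, (exitM Φ p).2)
      else p := by
  classical
  by_cases hp : p ∈ passSet Φ
  · rw [scat_of_mem hp, if_pos hp, exitM_of_mem hΦ hp, hp.2.exitPoint_eq hΦ hp.1.1 hp.1.2]
    simp
  · rw [scat_of_not hp, if_neg hp]

theorem measurable_scat (hΦ : AdmissiblePotential Φ) : Measurable (scat Φ) := by
  classical
  have h : scat Φ = fun p => if p ∈ passSet Φ then
      ((exitM Φ p).1 - (Real.sqrt (1 - ‖p.1‖ ^ 2) / ‖p.2‖) • (exitM Φ p).2, (exitM Φ p).2)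
      else p := by
    funext p
    rw [scat_eq hΦ]
  rw [h]
  refine Measurable.ite (measurableSet_passSet hΦ) ?_ measurable_id
  have h1 := measurable_exitM hΦ
  have h2 : Measurable fun p : Space3 × Space3 => Real.sqrt (1 - ‖p.1‖ ^ 2) / ‖p.2‖ := by
    fun_prop
  exact (h1.fst.sub (h2.smul h1.snd)).prodMk h1.snd


/-- Velocity reversal on incidence data. -/
def rev (p : Space3 × Space3) : Space3 × Space3 := (p.1, -p.2)









/-! ### Liouville's theorem for the relative flow -/




lemma measurable_en (hΦ : AdmissiblePotential Φ) :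
    Measurable (fun z : Space3 × Space3 => en Φ z.1 z.2) := by
  classical
  have h1 : Measurable Φ := by
    have hc : ContinuousOn Φ {x : Space3 | x ≠ 0} := hΦ.contDiff_away_from_origin.continuousOn
    have h3 : Φ = {x : Space3 | x ≠ 0}.piecewise Φ (fun _ => Φ 0) := by
      funext x
      by_cases hx : x ∈ {x : Space3 | x ≠ 0}
      · rw [Set.piecewise_eq_of_mem _ _ _ hx]
      · rw [Set.piecewise_eq_of_notMem _ _ _ hx]
        have : x = 0 := by
          by_contra h; exact hx h
        rw [this]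
    rw [h3]
    exact hc.measurable_piecewise continuousOn_const isOpen_ne.measurableSet
  unfold en
  exact (measurable_snd.norm.pow_const 2).add ((h1.comp measurable_fst).const_mul 4)


end Crest.Agent.R122.Scat818
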