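import Crest.Agent.R122.TreeDefs_674
import Crest.Agent.R122.Scat5_818
import Crest.Agent.R122.LocFlow_45

/-!
# Row 122, block C, Theorem B (helper968): the explicit path of tree data is the Newton flow

Part 1: the two-body motion `pairPath`, the final lines of a tree, `path` as a solution curve, and
`path = flow` on `[0, T]`.
-/

set_option autoImplicit false

open MeasureTheory Set Filter Topology
open Crest.AnalysisR.Kinetic
open scoped Classical

noncomputable section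

namespace Crest.Agent.R122.PathFlow968

open Kin796 Kin796.CTree Disc416 Tree674 Flow671 Loc45

variable {Φ : Space3 → ℝ} {ε : ℝ}

/-! ### Elementary facts on nodes -/

theorem tau_nonneg (Φ : Space3 → ℝ) (b g : Space3) : 0 ≤ tau Φ b g := by
  by_cases h : NT Φ b g
  · exact (passage_spec h).1.le
  · unfold tau
    rw [dif_neg h]

theorem tau_pos {b g : Space3} (h : NT Φ b g) : 0 < tau Φ b g := (passage_spec h).1

theorem sin_le (hε : 0 ≤ ε) (v : Space3) (a : NodeP) : Tree674.sin Φ ε v a ≤ a.1 := by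
  unfold Tree674.sin
  have := mul_nonneg hε (tau_nonneg Φ (nb v a) (ng v a))
  linarith

theorem sin_lt (hε : 0 < ε) {v : Space3} {a : NodeP} (h : Adm1 Φ v a) :
    Tree674.sin Φ ε v a < a.1 := by
  unfold Tree674.sin
  have := mul_pos hε (tau_pos h.2.2)
  linarith

theorem ng_ne {v : Space3} {a : NodeP} (h : Adm1 Φ v a) : ng v a ≠ 0 := sub_ne_zero.2 h.2.1

theorem nb_mem {v : Space3} {a : NodeP} (h : Adm1 Φ v a) : nb v a ∈ impactDisc (ng v a) := by
  refine ⟨inner_frameMap_self _ _, ?_⟩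
  unfold nb
  rw [norm_frameMap (sub_ne_zero.2 h.2.1)]
  exact h.1

theorem norm_entrance {v : Space3} {a : NodeP} (h : Adm1 Φ v a) :
    ‖entrancePoint (nb v a) (ng v a)‖ = 1 := Scat818.norm_entrance (nb_mem h) (ng_ne h)

/-- The passage of a node is the relative flow. -/
theorem qpath_eq (hΦ : AdmissiblePotential Φ) {v : Space3} {a : NodeP} (h : Adm1 Φ v a) (s : ℝ) :
    qpath Φ (nb v a) (ng v a) s = (Scat818.relFlow Φ s (Scat818.inc (nb v a) (ng v a))).1 :=
  ((Scat818.passage_iff hΦ (Scat818.reg_entrance Φ (nb_mem h) (ng_ne h))).1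
    (passage_spec h.2.2)).2 s

theorem hasExit (hΦ : AdmissiblePotential Φ) {v : Space3} {a : NodeP} (h : Adm1 Φ v a) :
    Scat818.HasExit Φ (Scat818.inc (nb v a) (ng v a)) (tau Φ (nb v a) (ng v a)) :=
  ((Scat818.passage_iff hΦ (Scat818.reg_entrance Φ (nb_mem h) (ng_ne h))).1
    (passage_spec h.2.2)).1

theorem hasDerivAt_qpath {v : Space3} {a : NodeP} (h : Adm1 Φ v a) (s : ℝ) :
    HasDerivAt (qpath Φ (nb v a) (ng v a)) (deriv (qpath Φ (nb v a) (ng v a)) s) s :=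
  (passage_spec h.2.2).2.2.2.1 s

theorem hasDerivAt_deriv_qpath {v : Space3} {a : NodeP} (h : Adm1 Φ v a) (s : ℝ) :
    HasDerivAt (deriv (qpath Φ (nb v a) (ng v a)))
      (-(2 : ℝ) • gradient Φ (qpath Φ (nb v a) (ng v a) s)) s :=
  (passage_spec h.2.2).2.2.2.2.1 s

theorem deriv_qpath_eq (hΦ : AdmissiblePotential Φ) {v : Space3} {a : NodeP} (h : Adm1 Φ v a)
    (s : ℝ) : deriv (qpath Φ (nb v a) (ng v a)) s =
      (Scat818.relFlow Φ s (Scat818.inc (nb v a) (ng v a))).2 := by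
  have h1 : qpath Φ (nb v a) (ng v a) =
      fun s => (Scat818.relFlow Φ s (Scat818.inc (nb v a) (ng v a))).1 :=
    funext (qpath_eq hΦ h)
  rw [h1]
  exact ((Scat818.isRel_relFlow hΦ (z := Scat818.inc (nb v a) (ng v a))
    (Scat818.reg_entrance Φ (nb_mem h) (ng_ne h))).pos s).deriv

/-- Before the entrance the passage is free. -/
theorem qpath_neg (hΦ : AdmissiblePotential Φ) {v : Space3} {a : NodeP} (h : Adm1 Φ v a) {s : ℝ}
    (hs : s ≤ 0) :
    qpath Φ (nb v a) (ng v a) s = entrancePoint (nb v a) (ng v a) + s • ng v a := by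
  rw [qpath_eq hΦ h, Scat818.relFlow_before hΦ (nb_mem h) (ng_ne h) hs]

theorem deriv_qpath_neg (hΦ : AdmissiblePotential Φ) {v : Space3} {a : NodeP} (h : Adm1 Φ v a)
    {s : ℝ} (hs : s ≤ 0) : deriv (qpath Φ (nb v a) (ng v a)) s = ng v a := by
  rw [deriv_qpath_eq hΦ h, Scat818.relFlow_before hΦ (nb_mem h) (ng_ne h) hs]

/-- After the exit the passage is free. -/
theorem qpath_after (hΦ : AdmissiblePotential Φ) {v : Space3} {a : NodeP} (h : Adm1 Φ v a) {s : ℝ}
    (hs : tau Φ (nb v a) (ng v a) ≤ s) :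
    qpath Φ (nb v a) (ng v a) s = qx Φ (nb v a) (ng v a) +
      (s - tau Φ (nb v a) (ng v a)) • exitVelocity Φ (nb v a) (ng v a) := by
  rw [Tree674.exitVelocity_eq h.2.2, deriv_qpath_eq hΦ h, qx, qpath_eq hΦ h, qpath_eq hΦ h,
    (hasExit hΦ h).after hΦ (Scat818.reg_entrance Φ (nb_mem h) (ng_ne h)) hs]

theorem deriv_qpath_after (hΦ : AdmissiblePotential Φ) {v : Space3} {a : NodeP} (h : Adm1 Φ v a)
    {s : ℝ} (hs : tau Φ (nb v a) (ng v a) ≤ s) :
    deriv (qpath Φ (nb v a) (ng v a)) s = exitVelocity Φ (nb v a) (ng v a) := by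
  rw [Tree674.exitVelocity_eq h.2.2, deriv_qpath_eq hΦ h, deriv_qpath_eq hΦ h,
    (hasExit hΦ h).after hΦ (Scat818.reg_entrance Φ (nb_mem h) (ng_ne h)) hs]

theorem norm_qx {v : Space3} {a : NodeP} (h : Adm1 Φ v a) : ‖qx Φ (nb v a) (ng v a)‖ = 1 :=
  (passage_spec h.2.2).2.2.2.2.2.2

theorem norm_qpath_lt {v : Space3} {a : NodeP} (h : Adm1 Φ v a) {s : ℝ}
    (hs : s ∈ Ioo 0 (tau Φ (nb v a) (ng v a))) : ‖qpath Φ (nb v a) (ng v a) s‖ < 1 :=
  (passage_spec h.2.2).2.2.2.2.2.1 s hs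

theorem norm_qpath_le {v : Space3} {a : NodeP} (h : Adm1 Φ v a) {s : ℝ}
    (hs : s ∈ Icc 0 (tau Φ (nb v a) (ng v a))) : ‖qpath Φ (nb v a) (ng v a) s‖ ≤ 1 := by
  rcases eq_or_lt_of_le hs.1 with h0 | h0
  · rw [← h0, (passage_spec h.2.2).2.1, norm_entrance h]
  · rcases eq_or_lt_of_le hs.2 with h1 | h1
    · rw [h1]
      exact (norm_qx h).le
    · exact (norm_qpath_lt h ⟨h0, h1⟩).le

theorem lt_norm_qpath (hΦ : AdmissiblePotential Φ) {v : Space3} {a : NodeP} (h : Adm1 Φ v a)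
    {s : ℝ} (hs : s < 0 ∨ tau Φ (nb v a) (ng v a) < s) : 1 < ‖qpath Φ (nb v a) (ng v a) s‖ := by
  rcases hs with hs | hs
  · rw [qpath_neg hΦ h hs.le]
    have h1 := Scat818.norm_sq_line (entrancePoint (nb v a) (ng v a)) (ng v a) s
    rw [norm_entrance h] at h1
    have h2 : 0 < s * inner ℝ (entrancePoint (nb v a) (ng v a)) (ng v a) :=
      mul_pos_of_neg_of_neg hs (Scat818.inner_entrance_neg (nb_mem h) (ng_ne h))
    have h3 : 0 ≤ s ^ 2 * ‖ng v a‖ ^ 2 := by positivity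
    by_contra h4
    rw [not_lt] at h4
    nlinarith [norm_nonneg (entrancePoint (nb v a) (ng v a) + s • ng v a)]
  · rw [qpath_eq hΦ h]
    exact (hasExit hΦ h).one_lt_norm hΦ (Scat818.reg_entrance Φ (nb_mem h) (ng_ne h)) hs

theorem one_le_norm_qpath (hΦ : AdmissiblePotential Φ) {v : Space3} {a : NodeP} (h : Adm1 Φ v a)
    {s : ℝ} (hs : s ≤ 0 ∨ tau Φ (nb v a) (ng v a) ≤ s) : 1 ≤ ‖qpath Φ (nb v a) (ng v a) s‖ := by
  rcases hs with hs | hs
  · rcases eq_or_lt_of_le hs with h0 | h0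
    · rw [h0, (passage_spec h.2.2).2.1, norm_entrance h]
    · exact (lt_norm_qpath hΦ h (Or.inl h0)).le
  · rcases eq_or_lt_of_le hs with h0 | h0
    · rw [← h0]
      exact (norm_qx h).ge
    · exact (lt_norm_qpath hΦ h (Or.inr h0)).le

/-! ### The two-body motion -/

/-- After the exit time the pair moves on the outgoing lines. -/
theorem pairPath_after (hΦ : AdmissiblePotential Φ) (hε : 0 < ε) {ℓ : PhasePoint} {a : NodeP}
    (h : Adm1 Φ ℓ.2 a) {u : ℝ} (hu : a.1 ≤ u) :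
    pairPath Φ ε ℓ a u = (onLine ℓ u, onLine (outLine ε ℓ a) u) := by
  have h1 : (a.1 - u) / ε ≤ 0 := div_nonpos_of_nonpos_of_nonneg (by linarith) hε.le
  have h2 : ε * ((a.1 - u) / ε) = a.1 - u := by field_simp
  unfold pairPath
  rw [qpath_neg hΦ h h1, deriv_qpath_neg hΦ h h1]
  simp only [onLine, outLine, cms, cmv, ng] at *
  set E := entrancePoint (nb ℓ.2 a) (ℓ.2 - a.2.1)
  set c := (a.1 - u) / ε
  refine Prod.ext (Prod.ext ?_ ?_) (Prod.ext ?_ ?_)
  · have : (ε / 2) • (E + c • (ℓ.2 - a.2.1)) =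
        (ε / 2) • E + ((a.1 - u) / 2) • (ℓ.2 - a.2.1) := by
      rw [smul_add, smul_smul, ← h2]
      congr 2
      ring
    simp only [this]
    module
  · simp only
    module
  · have : (ε / 2) • (E + c • (ℓ.2 - a.2.1)) =
        (ε / 2) • E + ((a.1 - u) / 2) • (ℓ.2 - a.2.1) := by
      rw [smul_add, smul_smul, ← h2]
      congr 2
      ring
    simp only [this]
    module
  · simp only
    module

/-- Before the entrance time the pair moves on the incoming lines. -/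
theorem pairPath_before (hΦ : AdmissiblePotential Φ) (hε : 0 < ε) {ℓ : PhasePoint} {a : NodeP}
    (h : Adm1 Φ ℓ.2 a) {u : ℝ} (hu : u ≤ Tree674.sin Φ ε ℓ.2 a) :
    pairPath Φ ε ℓ a u = (onLine (inMap Φ ε ℓ a).1 u, onLine (inMap Φ ε ℓ a).2 u) := by
  have h1 : tau Φ (nb ℓ.2 a) (ng ℓ.2 a) ≤ (a.1 - u) / ε := by
    rw [le_div_iff₀ hε]
    unfold Tree674.sin at hu
    linarith
  have h2 : ε * ((a.1 - u) / ε) = a.1 - u := by field_simp
  unfold pairPath
  rw [qpath_after hΦ h h1, deriv_qpath_after hΦ h h1]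
  simp only [onLine, inMap, xin, preV, postVelocities, cmv, Tree674.sin, ng] at *
  set G := exitVelocity Φ (nb ℓ.2 a) (ℓ.2 - a.2.1)
  set C := cms ε ℓ a
  set Q := qx Φ (nb ℓ.2 a) (ℓ.2 - a.2.1)
  set t := tau Φ (nb ℓ.2 a) (ℓ.2 - a.2.1)
  set c := (a.1 - u) / ε
  have h3 : (ε / 2) • (Q + (c - t) • G) = (ε / 2) • Q + ((a.1 - u - ε * t) / 2) • G := by
    rw [smul_add, smul_smul, ← h2]
    congr 2
    ring
  refine Prod.ext (Prod.ext ?_ ?_) (Prod.ext ?_ ?_)
  · simp only [h3]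
    module
  · simp only
  · simp only [h3]
    module
  · simp only

/-- `colPath` is the two-body motion. -/
theorem colPath_eq (hΦ : AdmissiblePotential Φ) (hε : 0 < ε) {ℓ : PhasePoint} {a : NodeP}
    (h : Adm1 Φ ℓ.2 a) (u : ℝ) : colPath Φ ε ℓ a u = pairPath Φ ε ℓ a u := by
  unfold colPath
  split_ifs with hu
  · exact (pairPath_after hΦ hε h hu).symm
  · rfl

theorem pairPath_sub (ℓ : PhasePoint) (a : NodeP) (u : ℝ) :
    (pairPath Φ ε ℓ a u).1.1 - (pairPath Φ ε ℓ a u).2.1 =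
      -(ε • qpath Φ (nb ℓ.2 a) (ng ℓ.2 a) ((a.1 - u) / ε)) := by
  simp only [pairPath]
  module

theorem pairPath_dist (hε : 0 < ε) (ℓ : PhasePoint) (a : NodeP) (u : ℝ) :
    dist (pairPath Φ ε ℓ a u).1.1 (pairPath Φ ε ℓ a u).2.1 =
      ε * ‖qpath Φ (nb ℓ.2 a) (ng ℓ.2 a) ((a.1 - u) / ε)‖ := by
  rw [dist_eq_norm, pairPath_sub, norm_neg, norm_smul, Real.norm_eq_abs, abs_of_pos hε]

/-- In the (closed) collision window the distance of the pair is at most `ε`. -/
theorem pairPath_dist_le (hε : 0 < ε) {ℓ : PhasePoint} {a : NodeP} (h : Adm1 Φ ℓ.2 a) {u : ℝ}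
    (h1 : Tree674.sin Φ ε ℓ.2 a ≤ u) (h2 : u ≤ a.1) :
    dist (pairPath Φ ε ℓ a u).1.1 (pairPath Φ ε ℓ a u).2.1 ≤ ε := by
  rw [pairPath_dist hε]
  have h3 : ‖qpath Φ (nb ℓ.2 a) (ng ℓ.2 a) ((a.1 - u) / ε)‖ ≤ 1 := by
    refine norm_qpath_le h ⟨div_nonneg (by linarith) hε.le, ?_⟩
    rw [div_le_iff₀ hε]
    unfold Tree674.sin at h1
    linarith
  nlinarith

/-- Outside of the open collision window the distance of the pair is at least `ε`. -/
theorem le_pairPath_dist (hΦ : AdmissiblePotential Φ) (hε : 0 < ε) {ℓ : PhasePoint} {a : NodeP}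
    (h : Adm1 Φ ℓ.2 a) {u : ℝ} (hu : u ≤ Tree674.sin Φ ε ℓ.2 a ∨ a.1 ≤ u) :
    ε ≤ dist (pairPath Φ ε ℓ a u).1.1 (pairPath Φ ε ℓ a u).2.1 := by
  rw [pairPath_dist hε]
  have h3 : 1 ≤ ‖qpath Φ (nb ℓ.2 a) (ng ℓ.2 a) ((a.1 - u) / ε)‖ := by
    refine one_le_norm_qpath hΦ h ?_
    rcases hu with hu | hu
    · right
      rw [le_div_iff₀ hε]
      unfold Tree674.sin at hu
      linarith
    · left
      exact div_nonpos_of_nonpos_of_nonneg (by linarith) hε.le
  nlinarith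


theorem hasDerivAt_arg (s : ℝ) (u : ℝ) : HasDerivAt (fun u : ℝ => (s - u) / ε) (-(1 / ε)) u := by
  have := ((hasDerivAt_id u).const_sub s).div_const ε
  simpa [neg_div] using this

/-- Equation of motion of the pair, positions. -/
theorem pairPath_pos (hε : 0 < ε) {ℓ : PhasePoint} {a : NodeP} (h : Adm1 Φ ℓ.2 a) (u : ℝ) :
    HasDerivAt (fun u => (pairPath Φ ε ℓ a u).1.1) ((pairPath Φ ε ℓ a u).1.2) u ∧
      HasDerivAt (fun u => (pairPath Φ ε ℓ a u).2.1) ((pairPath Φ ε ℓ a u).2.2) u := by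
  have hq := (hasDerivAt_qpath h ((a.1 - u) / ε)).scomp u (hasDerivAt_arg (ε := ε) a.1 u)
  have hq2 := hq.fun_const_smul (ε / 2)
  have hl : HasDerivAt (fun u : ℝ => cms ε ℓ a + (u - a.1) • cmv ℓ.2 a) (cmv ℓ.2 a) u := by
    have := (((hasDerivAt_id u).sub_const a.1).smul_const (cmv ℓ.2 a)).const_add (cms ε ℓ a)
    simpa using this
  have hs : (ε / 2) • (-(1 / ε)) • deriv (qpath Φ (nb ℓ.2 a) (ng ℓ.2 a)) ((a.1 - u) / ε) =
      -((1 / 2 : ℝ) • deriv (qpath Φ (nb ℓ.2 a) (ng ℓ.2 a)) ((a.1 - u) / ε)) := by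
    rw [smul_smul, ← neg_smul]
    congr 1
    field_simp
  rw [hs] at hq2
  constructor
  · have := hl.fun_sub hq2
    simpa [pairPath, Function.comp_def, sub_neg_eq_add] using this
  · have := hl.fun_add hq2
    simpa [pairPath, Function.comp_def, sub_eq_add_neg] using this

/-- Equation of motion of the pair, velocities. -/
theorem pairPath_vel (_hε : 0 < ε) {ℓ : PhasePoint} {a : NodeP} (h : Adm1 Φ ℓ.2 a) (u : ℝ) :
    HasDerivAt (fun u => (pairPath Φ ε ℓ a u).1.2)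
        ((1 / ε) • gradient Φ (qpath Φ (nb ℓ.2 a) (ng ℓ.2 a) ((a.1 - u) / ε))) u ∧
      HasDerivAt (fun u => (pairPath Φ ε ℓ a u).2.2)
        (-(1 / ε) • gradient Φ (qpath Φ (nb ℓ.2 a) (ng ℓ.2 a) ((a.1 - u) / ε))) u := by
  have hq := (hasDerivAt_deriv_qpath h ((a.1 - u) / ε)).scomp u (hasDerivAt_arg (ε := ε) a.1 u)
  have hq2 := hq.const_smul (1 / 2 : ℝ)
  have hs : (1 / 2 : ℝ) • (-(1 / ε)) • (-(2 : ℝ)) •
      gradient Φ (qpath Φ (nb ℓ.2 a) (ng ℓ.2 a) ((a.1 - u) / ε)) =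
      (1 / ε) • gradient Φ (qpath Φ (nb ℓ.2 a) (ng ℓ.2 a) ((a.1 - u) / ε)) := by
    rw [smul_smul, smul_smul]
    congr 1
    ring
  rw [hs] at hq2
  constructor
  · have := hq2.const_add (cmv ℓ.2 a)
    simpa [pairPath, Function.comp_def] using this
  · have := hq2.const_sub (cmv ℓ.2 a)
    rw [neg_smul]
    simpa [pairPath, Function.comp_def] using this

/-- The force on the first particle of the pair. -/
theorem pair_force_fst (hΦ : AdmissiblePotential Φ) (hε : 0 < ε) (ℓ : PhasePoint) (a : NodeP)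
    (u : ℝ) :
    -(1 / ε) • gradient Φ ((1 / ε) • ((pairPath Φ ε ℓ a u).1.1 - (pairPath Φ ε ℓ a u).2.1)) =
      (1 / ε) • gradient Φ (qpath Φ (nb ℓ.2 a) (ng ℓ.2 a) ((a.1 - u) / ε)) := by
  have h1 : (1 / ε) • ((pairPath Φ ε ℓ a u).1.1 - (pairPath Φ ε ℓ a u).2.1) =
      -qpath Φ (nb ℓ.2 a) (ng ℓ.2 a) ((a.1 - u) / ε) := by
    rw [pairPath_sub, smul_neg, smul_smul, one_div_mul_cancel hε.ne', one_smul]
  rw [h1, grad_neg hΦ, neg_smul, smul_neg, neg_neg]

theorem pair_force_snd (_hΦ : AdmissiblePotential Φ) (hε : 0 < ε) (ℓ : PhasePoint) (a : NodeP)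
    (u : ℝ) :
    -(1 / ε) • gradient Φ ((1 / ε) • ((pairPath Φ ε ℓ a u).2.1 - (pairPath Φ ε ℓ a u).1.1)) =
      -(1 / ε) • gradient Φ (qpath Φ (nb ℓ.2 a) (ng ℓ.2 a) ((a.1 - u) / ε)) := by
  have h1 : (1 / ε) • ((pairPath Φ ε ℓ a u).2.1 - (pairPath Φ ε ℓ a u).1.1) =
      qpath Φ (nb ℓ.2 a) (ng ℓ.2 a) ((a.1 - u) / ε) := by
    have h2 : (pairPath Φ ε ℓ a u).2.1 - (pairPath Φ ε ℓ a u).1.1 =
        ε • qpath Φ (nb ℓ.2 a) (ng ℓ.2 a) ((a.1 - u) / ε) := by
      rw [← neg_sub, pairPath_sub, neg_neg]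
    rw [h2, smul_smul, one_div_mul_cancel hε.ne', one_smul]
  rw [h1]

theorem continuous_pairPath (hε : 0 < ε) {ℓ : PhasePoint} {a : NodeP} (h : Adm1 Φ ℓ.2 a) :
    Continuous (pairPath Φ ε ℓ a) := by
  have h1 : Continuous fun u => (pairPath Φ ε ℓ a u).1.1 :=
    continuous_iff_continuousAt.2 fun u => (pairPath_pos hε h u).1.continuousAt
  have h2 : Continuous fun u => (pairPath Φ ε ℓ a u).2.1 :=
    continuous_iff_continuousAt.2 fun u => (pairPath_pos hε h u).2.continuousAt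
  have h3 : Continuous fun u => (pairPath Φ ε ℓ a u).1.2 :=
    continuous_iff_continuousAt.2 fun u => (pairPath_vel hε h u).1.continuousAt
  have h4 : Continuous fun u => (pairPath Φ ε ℓ a u).2.2 :=
    continuous_iff_continuousAt.2 fun u => (pairPath_vel hε h u).2.continuousAt
  exact (h1.prodMk h3).prodMk (h2.prodMk h4)

/-! ### Final lines -/

/-- The lines on which the particles of a tree are at the final time (and later, when extended
freely). -/
def fin (Φ : Space3 → ℝ) (ε : ℝ) : ∀ P : CTree, PhasePoint → Par P → (Idx P → PhasePoint)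
  | leaf => fun ℓ _ _ => ℓ
  | node l r => fun ℓ p => Sum.elim
        (Function.update (fin Φ ε l (inMap Φ ε ℓ p.1).1 p.2.1) (root l) ℓ)
        (Function.update (fin Φ ε r (inMap Φ ε ℓ p.1).2 p.2.2) (root r) (outLine ε ℓ p.1))

theorem fin_root : ∀ (P : CTree) (ℓ : PhasePoint) (p : Par P), fin Φ ε P ℓ p (root P) = ℓ
  | leaf, _, _ => rfl
  | node l r, ℓ, p => by
      simp [fin, root]

theorem onLine_fst (ℓ : PhasePoint) (u : ℝ) : (onLine ℓ u).1 = ℓ.1 + u • ℓ.2 := rfl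


theorem onLine_zero (ℓ : PhasePoint) : onLine ℓ 0 = ℓ := by
  simp [onLine]


/-- The path of a node before the entrance time. -/
theorem path_node_before {l r : CTree} (ℓ : PhasePoint) (p : Par (node l r)) {u : ℝ}
    (hu : u ≤ Tree674.sin Φ ε ℓ.2 p.1) : path Φ ε (node l r) ℓ p u =
      Sum.elim (path Φ ε l (inMap Φ ε ℓ p.1).1 p.2.1 u) (path Φ ε r (inMap Φ ε ℓ p.1).2 p.2.2 u) := by
  simp only [path]
  rw [if_pos hu]

/-- **After the final time** all the particles of a tree are on their final lines. -/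
theorem path_after (hε : 0 ≤ ε) : ∀ (P : CTree) (T : ℝ) (ℓ : PhasePoint) (p : Par P),
    Ord Φ ε P T ℓ.2 p → ∀ u, T ≤ u → ∀ i, path Φ ε P ℓ p u i = onLine (fin Φ ε P ℓ p i) u
  | leaf, _, _, _, _, _, _, _ => rfl
  | node l r, T, ℓ, p, h, u, hu, i => by
      have h1 : Tree674.sin Φ ε ℓ.2 p.1 < u :=
        ((sin_le hε ℓ.2 p.1).trans_lt h.1).trans_le hu
      have hs : p.1.1 ≤ u := h.1.le.trans hu
      have hl := path_after hε l (Tree674.sin Φ ε ℓ.2 p.1) (inMap Φ ε ℓ p.1).1 p.2.1 h.2.2.1 u h1.le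
      have hr := path_after hε r (Tree674.sin Φ ε ℓ.2 p.1) (inMap Φ ε ℓ p.1).2 p.2.2 h.2.2.2 u h1.le
      simp only [path, fin]
      rw [if_neg (not_le.2 h1)]
      rcases i with i | i
      · simp only [Sum.elim_inl]
        by_cases hi : i = root l
        · subst hi
          simp [colPath, hs]
        · rw [Function.update_of_ne hi, Function.update_of_ne hi, hl]
      · simp only [Sum.elim_inr]
        by_cases hi : i = root r
        · subst hi
          simp [colPath, hs]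
        · rw [Function.update_of_ne hi, Function.update_of_ne hi, hr]

/-- The root is on its line after the final time. -/
theorem path_root_after (hε : 0 ≤ ε) {P : CTree} {T : ℝ} {ℓ : PhasePoint} {p : Par P}
    (h : Ord Φ ε P T ℓ.2 p) {u : ℝ} (hu : T ≤ u) : path Φ ε P ℓ p u (root P) = onLine ℓ u := by
  rw [path_after hε P T ℓ p h u hu, fin_root]

/-- The path of a node after the entrance time. -/
theorem path_node_after (hΦ : AdmissiblePotential Φ) (hε : 0 < ε) {l r : CTree} {T : ℝ}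
    {ℓ : PhasePoint} {p : Par (node l r)} (hv : Valid Φ ε (node l r) T ℓ.2 p) {u : ℝ}
    (hu : Tree674.sin Φ ε ℓ.2 p.1 ≤ u) : path Φ ε (node l r) ℓ p u =
      Sum.elim
        (Function.update (path Φ ε l (inMap Φ ε ℓ p.1).1 p.2.1 u) (root l)
          (pairPath Φ ε ℓ p.1 u).1)
        (Function.update (path Φ ε r (inMap Φ ε ℓ p.1).2 p.2.2 u) (root r)
          (pairPath Φ ε ℓ p.1 u).2) := by
  rcases eq_or_lt_of_le hu with h | h
  · have h1 := path_root_after hε.le (P := l) (ℓ := (inMap Φ ε ℓ p.1).1) hv.2.2.2.1 hu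
    have h2 := path_root_after hε.le (P := r) (ℓ := (inMap Φ ε ℓ p.1).2) hv.2.2.2.2 hu
    rw [path_node_before ℓ p h.ge, pairPath_before hΦ hε hv.1.1 h.ge, ← h1, ← h2,
      Function.update_eq_self, Function.update_eq_self]
  · have h1 : path Φ ε (node l r) ℓ p u = Sum.elim
          (Function.update (path Φ ε l (inMap Φ ε ℓ p.1).1 p.2.1 u) (root l)
            (colPath Φ ε ℓ p.1 u).1)
          (Function.update (path Φ ε r (inMap Φ ε ℓ p.1).2 p.2.2 u) (root r)
            (colPath Φ ε ℓ p.1 u).2) := by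
      simp only [path]
      rw [if_neg (not_le.2 h)]
    rw [h1, colPath_eq hΦ hε hv.1.1]

/-! ### Windows -/

/-- Collision windows are inside of `(0, T)`. -/
theorem InWindow.mem (hε : 0 ≤ ε) : ∀ (P : CTree) (T : ℝ) (v : Space3) (p : Par P),
    Ord Φ ε P T v p → ∀ (i j : Idx P) (u : ℝ), InWindow Φ ε P v p i j u → 0 < u ∧ u < T
  | leaf, _, _, _, _, _, _, _, h => h.elim
  | node l r, T, v, p, ho, i, j, u, h => by
      have h1 := sin_le hε v p.1 (Φ := Φ)
      rcases h with h | ⟨i', j', -, -, h⟩ | ⟨i', j', -, -, h⟩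
      · exact ⟨ho.2.1.trans_le h.2.2.1, h.2.2.2.trans_lt ho.1⟩
      · have := InWindow.mem hε l _ _ p.2.1 ho.2.2.1 i' j' u h
        exact ⟨this.1, this.2.trans (h1.trans_lt ho.1)⟩
      · have := InWindow.mem hε r _ _ p.2.2 ho.2.2.2 i' j' u h
        exact ⟨this.1, this.2.trans (h1.trans_lt ho.1)⟩

theorem inWindow_inl {l r : CTree} {v : Space3} {p : Par (node l r)} {i j : Idx l} {u : ℝ} :
    InWindow Φ ε (node l r) v p (Sum.inl i) (Sum.inl j) u ↔
      InWindow Φ ε l (preV Φ v p.1).1 p.2.1 i j u := by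
  constructor
  · rintro (h | ⟨i', j', hi, hj, h⟩ | ⟨i', j', hi, hj, h⟩)
    · exact absurd h.2.1 (by simp)
    · cases hi
      cases hj
      exact h
    · cases hi
  · intro h
    exact Or.inr (Or.inl ⟨i, j, rfl, rfl, h⟩)

theorem inWindow_inr {l r : CTree} {v : Space3} {p : Par (node l r)} {i j : Idx r} {u : ℝ} :
    InWindow Φ ε (node l r) v p (Sum.inr i) (Sum.inr j) u ↔
      InWindow Φ ε r (preV Φ v p.1).2 p.2.2 i j u := by
  constructor
  · rintro (h | ⟨i', j', hi, hj, h⟩ | ⟨i', j', hi, hj, h⟩)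
    · exact absurd h.1 (by simp)
    · cases hi
    · cases hi
      cases hj
      exact h
  · intro h
    exact Or.inr (Or.inr ⟨i, j, rfl, rfl, h⟩)

theorem inWindow_inl_inr {l r : CTree} {v : Space3} {p : Par (node l r)} {i : Idx l} {j : Idx r}
    {u : ℝ} : InWindow Φ ε (node l r) v p (Sum.inl i) (Sum.inr j) u ↔
      i = root l ∧ j = root r ∧ Tree674.sin Φ ε v p.1 ≤ u ∧ u ≤ p.1.1 := by
  constructor
  · rintro (h | ⟨i', j', hi, hj, h⟩ | ⟨i', j', hi, hj, h⟩)
    · exact ⟨Sum.inl_injective h.1, Sum.inr_injective h.2.1, h.2.2⟩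
    · cases hj
    · cases hi
  · rintro ⟨rfl, rfl, h⟩
    exact Or.inl ⟨rfl, rfl, h⟩

theorem inWindow_inr_inl {l r : CTree} {v : Space3} {p : Par (node l r)} {i : Idx r} {j : Idx l}
    {u : ℝ} : ¬ InWindow Φ ε (node l r) v p (Sum.inr i) (Sum.inl j) u := by
  rintro (h | ⟨i', j', hi, hj, h⟩ | ⟨i', j', hi, hj, h⟩)
  · exact absurd h.1 (by simp)
  · cases hi
  · cases hj

/-! ### Restriction of validity and separation to the branches -/

theorem Valid.left {l r : CTree} {T : ℝ} {v : Space3} {p : Par (node l r)}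
    (h : Valid Φ ε (node l r) T v p) :
    Valid Φ ε l (Tree674.sin Φ ε v p.1) (preV Φ v p.1).1 p.2.1 := ⟨h.1.2.1, h.2.2.2.1⟩

theorem Valid.right {l r : CTree} {T : ℝ} {v : Space3} {p : Par (node l r)}
    (h : Valid Φ ε (node l r) T v p) :
    Valid Φ ε r (Tree674.sin Φ ε v p.1) (preV Φ v p.1).2 p.2.2 := ⟨h.1.2.2, h.2.2.2.2⟩

theorem Valid.sin_lt {l r : CTree} {T : ℝ} {v : Space3} {p : Par (node l r)} (hε : 0 ≤ ε)
    (h : Valid Φ ε (node l r) T v p) : Tree674.sin Φ ε v p.1 < T :=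
  (sin_le hε v p.1).trans_lt h.2.1

theorem Sep.left {l r : CTree} {T : ℝ} {ℓ : PhasePoint} {p : Par (node l r)} (hε : 0 ≤ ε)
    (hv : Valid Φ ε (node l r) T ℓ.2 p) (h : Sep Φ ε (node l r) T ℓ p) :
    Sep Φ ε l (Tree674.sin Φ ε ℓ.2 p.1) (inMap Φ ε ℓ p.1).1 p.2.1 := by
  intro i j hij u hu h1 h2
  have h3 := h (Sum.inl i) (Sum.inl j) (fun h' => hij (Sum.inl_injective h')) u
    ⟨hu.1, hu.2.trans (Valid.sin_lt hε hv).le⟩ (fun h' => h1 (inWindow_inl.1 h'))
    (fun h' => h2 (inWindow_inl.1 h'))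
  rwa [path_node_before ℓ p hu.2, Sum.elim_inl, Sum.elim_inl] at h3

theorem Sep.right {l r : CTree} {T : ℝ} {ℓ : PhasePoint} {p : Par (node l r)} (hε : 0 ≤ ε)
    (hv : Valid Φ ε (node l r) T ℓ.2 p) (h : Sep Φ ε (node l r) T ℓ p) :
    Sep Φ ε r (Tree674.sin Φ ε ℓ.2 p.1) (inMap Φ ε ℓ p.1).2 p.2.2 := by
  intro i j hij u hu h1 h2
  have h3 := h (Sum.inr i) (Sum.inr j) (fun h' => hij (Sum.inr_injective h')) u
    ⟨hu.1, hu.2.trans (Valid.sin_lt hε hv).le⟩ (fun h' => h1 (inWindow_inr.1 h'))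
    (fun h' => h2 (inWindow_inr.1 h'))
  rwa [path_node_before ℓ p hu.2, Sum.elim_inr, Sum.elim_inr] at h3

/-- Distances of a separated node after the entrance time, except the colliding pair. -/
theorem Sep.after {l r : CTree} {T : ℝ} {ℓ : PhasePoint} {p : Par (node l r)} (hε : 0 ≤ ε)
    (hv : Valid Φ ε (node l r) T ℓ.2 p) (h : Sep Φ ε (node l r) T ℓ p) {i j : Idx (node l r)}
    (hij : i ≠ j) {u : ℝ} (h1 : Tree674.sin Φ ε ℓ.2 p.1 ≤ u) (h2 : u ≤ T)
    (hn : ¬ (i = Sum.inl (root l) ∧ j = Sum.inr (root r)))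
    (hn' : ¬ (j = Sum.inl (root l) ∧ i = Sum.inr (root r))) :
    ε < dist (path Φ ε (node l r) ℓ p u i).1 (path Φ ε (node l r) ℓ p u j).1 := by
  have key : ∀ i j : Idx (node l r), ¬ (i = Sum.inl (root l) ∧ j = Sum.inr (root r)) →
      ¬ InWindow Φ ε (node l r) ℓ.2 p i j u := by
    intro i j hn hw
    rcases hw with hw | ⟨i', j', hi, hj, hw⟩ | ⟨i', j', hi, hj, hw⟩
    · exact hn ⟨hw.1, hw.2.1⟩
    · exact absurd (InWindow.mem hε l _ _ p.2.1 hv.2.2.2.1 i' j' u hw).2 (not_lt.2 h1)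
    · exact absurd (InWindow.mem hε r _ _ p.2.2 hv.2.2.2.2 i' j' u hw).2 (not_lt.2 h1)
  exact h i j hij u ⟨hv.2.2.1.le.trans h1, h2⟩ (key i j hn) (key j i hn')

/-! ### Gluing in time -/

theorem SolOn.glue {ι : Type*} [Fintype ι] {γ : ℝ → ι → PhasePoint} {a b c : ℝ} (hab : a ≤ b)
    (hbc : b ≤ c) (h1 : SolOn Φ ε γ (Icc a b)) (h2 : SolOn Φ ε γ (Icc b c)) :
    SolOn Φ ε γ (Icc a c) := by
  intro t ht
  rcases lt_trichotomy t b with h | h | h
  · refine (h1 t ⟨ht.1, h.le⟩).mono_of_mem_nhdsWithin ?_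
    rw [mem_nhdsWithin]
    exact ⟨Iio b, isOpen_Iio, h, fun x hx => ⟨hx.2.1, le_of_lt hx.1⟩⟩
  · subst h
    have := (h1 t ⟨ht.1, le_rfl⟩).union (h2 t ⟨le_rfl, ht.2⟩)
    rwa [Icc_union_Icc_eq_Icc hab hbc] at this
  · refine (h2 t ⟨h.le, ht.2⟩).mono_of_mem_nhdsWithin ?_
    rw [mem_nhdsWithin]
    exact ⟨Ioi b, isOpen_Ioi, h, fun x hx => ⟨le_of_lt hx.1, hx.2.2⟩⟩

theorem hasDerivAt_onLine (ℓ : PhasePoint) (u : ℝ) : HasDerivAt (onLine ℓ) (ℓ.2, 0) u := by
  have h1 : HasDerivAt (fun u : ℝ => ℓ.1 + u • ℓ.2) ℓ.2 u := by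
    simpa using ((hasDerivAt_id u).smul_const ℓ.2).const_add ℓ.1
  exact h1.prodMk (hasDerivAt_const u ℓ.2)

/-! ### The path is a solution curve -/

/-- The path of a node is a solution curve after the entrance time. -/
theorem solOn_after (hΦ : AdmissiblePotential Φ) (hε : 0 < ε) {l r : CTree} {T : ℝ}
    {ℓ : PhasePoint} {p : Par (node l r)} (hv : Valid Φ ε (node l r) T ℓ.2 p)
    (hs : Sep Φ ε (node l r) T ℓ p) :
    SolOn Φ ε (path Φ ε (node l r) ℓ p) (Icc (Tree674.sin Φ ε ℓ.2 p.1) T) := by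
  set s0 := Tree674.sin Φ ε ℓ.2 p.1 with hs0
  -- explicit form of the path
  have hform : ∀ u ∈ Icc s0 T, path Φ ε (node l r) ℓ p u = Sum.elim
      (Function.update (fun i => onLine (fin Φ ε l (inMap Φ ε ℓ p.1).1 p.2.1 i) u) (root l)
        (pairPath Φ ε ℓ p.1 u).1)
      (Function.update (fun i => onLine (fin Φ ε r (inMap Φ ε ℓ p.1).2 p.2.2 i) u) (root r)
        (pairPath Φ ε ℓ p.1 u).2) := by
    intro u hu
    rw [path_node_after hΦ hε hv hu.1]
    have hl := path_after hε.le l s0 (inMap Φ ε ℓ p.1).1 p.2.1 hv.2.2.2.1 u hu.1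
    have hr := path_after hε.le r s0 (inMap Φ ε ℓ p.1).2 p.2.2 hv.2.2.2.2 u hu.1
    rw [funext hl, funext hr]
  intro u hu
  have hfar : ∀ i j : Idx (node l r), i ≠ j → ¬ (i = Sum.inl (root l) ∧ j = Sum.inr (root r)) →
      ¬ (j = Sum.inl (root l) ∧ i = Sum.inr (root r)) →
      ε ≤ dist (path Φ ε (node l r) ℓ p u i).1 (path Φ ε (node l r) ℓ p u j).1 :=
    fun i j hij hn hn' => (Sep.after hε.le hv hs hij hu.1 hu.2 hn hn').le
  rw [hasDerivWithinAt_pi]
  intro k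
  -- the values at time `u`
  have hroot1 : path Φ ε (node l r) ℓ p u (Sum.inl (root l)) = (pairPath Φ ε ℓ p.1 u).1 := by
    rw [hform u hu]
    simp
  have hroot2 : path Φ ε (node l r) ℓ p u (Sum.inr (root r)) = (pairPath Φ ε ℓ p.1 u).2 := by
    rw [hform u hu]
    simp
  rcases k with i | i
  · by_cases hi : i = root l
    · subst hi
      have hnf : nf Φ ε (path Φ ε (node l r) ℓ p u) (Sum.inl (root l)) =
          ((pairPath Φ ε ℓ p.1 u).1.2,
            (1 / ε) • gradient Φ (qpath Φ (nb ℓ.2 p.1) (ng ℓ.2 p.1) ((p.1.1 - u) / ε))) := by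
        have h1 : ∑ j, gradient Φ ((1 / ε) • ((path Φ ε (node l r) ℓ p u (Sum.inl (root l))).1 -
            (path Φ ε (node l r) ℓ p u j).1)) = gradient Φ ((1 / ε) •
              ((pairPath Φ ε ℓ p.1 u).1.1 - (pairPath Φ ε ℓ p.1 u).2.1)) := by
          refine (Finset.sum_eq_single (Sum.inr (root r) : Idx (node l r)) ?_ ?_).trans ?_
          · intro j _ hj
            by_cases hj' : j = Sum.inl (root l)
            · rw [hj', sub_self, smul_zero, grad_origin hΦ]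
            · exact grad_far hΦ hε (hfar _ _ (Ne.symm hj') (fun h => hj h.2) (fun h => hj' h.1))
          · intro h
            exact absurd (Finset.mem_univ _) h
          · rw [hroot1, hroot2]
        simp only [nf]
        rw [h1, pair_force_fst hΦ hε, hroot1]
      rw [hnf]
      refine HasDerivWithinAt.congr (f := fun u => (pairPath Φ ε ℓ p.1 u).1) ?_ (fun u hu => ?_) hroot1
      · exact ((pairPath_pos hε hv.1.1 u).1.prodMk
          (pairPath_vel hε hv.1.1 u).1).hasDerivWithinAt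
      · rw [hform u hu]
        simp
    · have hval : ∀ u ∈ Icc s0 T, path Φ ε (node l r) ℓ p u (Sum.inl i) =
          onLine (fin Φ ε l (inMap Φ ε ℓ p.1).1 p.2.1 i) u := by
        intro u hu
        rw [hform u hu, Sum.elim_inl, Function.update_of_ne hi]
      have hnf := nf_free hΦ hε (path Φ ε (node l r) ℓ p u) (Sum.inl i) (fun j hj =>
        hfar _ _ (Ne.symm hj) (fun h => hi (Sum.inl_injective h.1)) (fun h => by cases h.2))
      rw [hnf]
      have := (hasDerivAt_onLine (fin Φ ε l (inMap Φ ε ℓ p.1).1 p.2.1 i) u).hasDerivWithinAt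
        (s := Icc s0 T)
      have h2 := this.congr (f₁ := fun u => path Φ ε (node l r) ℓ p u (Sum.inl i)) hval (hval u hu)
      rw [hval u hu]
      exact h2
  · by_cases hi : i = root r
    · subst hi
      have hnf : nf Φ ε (path Φ ε (node l r) ℓ p u) (Sum.inr (root r)) =
          ((pairPath Φ ε ℓ p.1 u).2.2,
            -(1 / ε) • gradient Φ (qpath Φ (nb ℓ.2 p.1) (ng ℓ.2 p.1) ((p.1.1 - u) / ε))) := by
        have h1 : ∑ j, gradient Φ ((1 / ε) • ((path Φ ε (node l r) ℓ p u (Sum.inr (root r))).1 -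
            (path Φ ε (node l r) ℓ p u j).1)) = gradient Φ ((1 / ε) •
              ((pairPath Φ ε ℓ p.1 u).2.1 - (pairPath Φ ε ℓ p.1 u).1.1)) := by
          refine (Finset.sum_eq_single (Sum.inl (root l) : Idx (node l r)) ?_ ?_).trans ?_
          · intro j _ hj
            by_cases hj' : j = Sum.inr (root r)
            · rw [hj', sub_self, smul_zero, grad_origin hΦ]
            · exact grad_far hΦ hε (hfar _ _ (Ne.symm hj') (fun h => hj' h.2) (fun h => hj h.1))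
          · intro h
            exact absurd (Finset.mem_univ _) h
          · rw [hroot1, hroot2]
        simp only [nf]
        rw [h1, pair_force_snd hΦ hε, hroot2]
      rw [hnf]
      refine HasDerivWithinAt.congr (f := fun u => (pairPath Φ ε ℓ p.1 u).2) ?_ (fun u hu => ?_) hroot2
      · exact ((pairPath_pos hε hv.1.1 u).2.prodMk
          (pairPath_vel hε hv.1.1 u).2).hasDerivWithinAt
      · rw [hform u hu]
        simp
    · have hval : ∀ u ∈ Icc s0 T, path Φ ε (node l r) ℓ p u (Sum.inr i) =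
          onLine (fin Φ ε r (inMap Φ ε ℓ p.1).2 p.2.2 i) u := by
        intro u hu
        rw [hform u hu, Sum.elim_inr, Function.update_of_ne hi]
      have hnf := nf_free hΦ hε (path Φ ε (node l r) ℓ p u) (Sum.inr i) (fun j hj =>
        hfar _ _ (Ne.symm hj) (fun h => by cases h.1) (fun h => hi (Sum.inr_injective h.2)))
      rw [hnf]
      have := (hasDerivAt_onLine (fin Φ ε r (inMap Φ ε ℓ p.1).2 p.2.2 i) u).hasDerivWithinAt
        (s := Icc s0 T)
      have h2 := this.congr (f₁ := fun u => path Φ ε (node l r) ℓ p u (Sum.inr i)) hval (hval u hu)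
      rw [hval u hu]
      exact h2

/-- Cross distances of the two branches before (and at) the entrance time. -/
theorem cross_before (hΦ : AdmissiblePotential Φ) (hε : 0 < ε) {l r : CTree} {T : ℝ}
    {ℓ : PhasePoint} {p : Par (node l r)} (hv : Valid Φ ε (node l r) T ℓ.2 p)
    (hs : Sep Φ ε (node l r) T ℓ p) {u : ℝ} (h0 : 0 ≤ u) (hu : u ≤ Tree674.sin Φ ε ℓ.2 p.1)
    (i : Idx l) (j : Idx r) :
    ε ≤ dist (path Φ ε l (inMap Φ ε ℓ p.1).1 p.2.1 u i).1
      (path Φ ε r (inMap Φ ε ℓ p.1).2 p.2.2 u j).1 := by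
  by_cases hw : InWindow Φ ε (node l r) ℓ.2 p (Sum.inl i) (Sum.inr j) u
  · obtain ⟨rfl, rfl, h1, -⟩ := inWindow_inl_inr.1 hw
    have h1' := path_root_after hε.le (P := l) (ℓ := (inMap Φ ε ℓ p.1).1) hv.2.2.2.1 h1
    have h2' := path_root_after hε.le (P := r) (ℓ := (inMap Φ ε ℓ p.1).2) hv.2.2.2.2 h1
    have h3 := le_pairPath_dist hΦ hε hv.1.1 (ℓ := ℓ) (u := u) (Or.inl hu)
    rw [pairPath_before hΦ hε hv.1.1 hu] at h3
    rw [h1', h2']
    exact h3
  · have h3 := hs (Sum.inl i) (Sum.inr j) (by simp) u ⟨h0, hu.trans (Valid.sin_lt hε.le hv).le⟩ hw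
      inWindow_inr_inl
    rw [path_node_before ℓ p hu, Sum.elim_inl, Sum.elim_inr] at h3
    exact h3.le

/-- **Theorem B (main part)**: the path of a valid separated tree is a solution of Newton's
equations on `[0, T]`. -/
theorem solOn_path (hΦ : AdmissiblePotential Φ) (hε : 0 < ε) : ∀ (P : CTree) (T : ℝ)
    (ℓ : PhasePoint) (p : Par P), Valid Φ ε P T ℓ.2 p → Sep Φ ε P T ℓ p →
    SolOn Φ ε (path Φ ε P ℓ p) (Icc 0 T)
  | leaf, T, ℓ, p, _, _ => by
      intro u _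
      rw [hasDerivWithinAt_pi]
      intro i
      rw [nf_free hΦ hε _ i (fun j hj => absurd (Subsingleton.elim (α := Unit) j i) hj)]
      exact (hasDerivAt_onLine ℓ u).hasDerivWithinAt
  | node l r, T, ℓ, p, hv, hs => by
      have hl := solOn_path hΦ hε l _ (inMap Φ ε ℓ p.1).1 p.2.1 (Valid.left hv) (Sep.left hε.le hv hs)
      have hr := solOn_path hΦ hε r _ (inMap Φ ε ℓ p.1).2 p.2.2 (Valid.right hv)
        (Sep.right hε.le hv hs)
      refine SolOn.glue hv.2.2.1.le (Valid.sin_lt hε.le hv).le ?_ (solOn_after hΦ hε hv hs)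
      refine (SolOn.sum_elim hΦ hε hl hr fun u hu i j => ?_).congr fun u hu =>
        path_node_before ℓ p hu.2
      exact cross_before hΦ hε hv hs hu.1 hu.2 i j

/-- The path of a tree at time `0` is its initial configuration. -/
theorem path_zero : ∀ (P : CTree) (T : ℝ) (ℓ : PhasePoint) (p : Par P), Ord Φ ε P T ℓ.2 p →
    path Φ ε P ℓ p 0 = lines Φ ε P ℓ p
  | leaf, _, ℓ, p, _ => by
      funext i
      exact onLine_zero ℓ
  | node l r, T, ℓ, p, h => by
      rw [path_node_before ℓ p h.2.1.le, path_zero l _ (inMap Φ ε ℓ p.1).1 p.2.1 h.2.2.1,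
        path_zero r _ (inMap Φ ε ℓ p.1).2 p.2.2 h.2.2.2]
      rfl

/-- Distances at time zero. -/
theorem Sep.zero {P : CTree} {T : ℝ} {ℓ : PhasePoint} {p : Par P} (hε : 0 ≤ ε) (hT : 0 ≤ T)
    (hv : Ord Φ ε P T ℓ.2 p) (h : Sep Φ ε P T ℓ p) {i j : Idx P} (hij : i ≠ j) :
    ε < dist (lines Φ ε P ℓ p i).1 (lines Φ ε P ℓ p j).1 := by
  rw [← path_zero P T ℓ p hv]
  refine h i j hij 0 ⟨le_rfl, hT⟩ (fun h' => ?_) (fun h' => ?_)
  · exact absurd (InWindow.mem hε P T ℓ.2 p hv i j 0 h').1 (lt_irrefl _)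
  · exact absurd (InWindow.mem hε P T ℓ.2 p hv j i 0 h').1 (lt_irrefl _)

theorem lines_mem_Dom {P : CTree} {T : ℝ} {ℓ : PhasePoint} {p : Par P} (hε : 0 < ε) (hT : 0 ≤ T)
    (hv : Ord Φ ε P T ℓ.2 p) (h : Sep Φ ε P T ℓ p) : lines Φ ε P ℓ p ∈ Dom Φ (Idx P) :=
  Dom_of_far hε fun _ _ hij => (Sep.zero hε.le hT hv h hij).le

/-- **Theorem B**: the path of a valid separated tree is the Newton flow of its initial
configuration, on `[0, T]`. -/
theorem path_eq_flow (hΦ : AdmissiblePotential Φ) (hε : 0 < ε) {P : CTree} {T : ℝ}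
    {ℓ : PhasePoint} {p : Par P} (hv : Valid Φ ε P T ℓ.2 p) (hs : Sep Φ ε P T ℓ p) {u : ℝ}
    (hu : u ∈ Icc 0 T) : path Φ ε P ℓ p u = flow Φ ε u (lines Φ ε P ℓ p) := by
  have hT : 0 ≤ T := hu.1.trans hu.2
  have h0 := path_zero P T ℓ p hv.2
  have h1 := Flow671.eq_flow hΦ hε (a := 0) (b := T) ⟨le_rfl, hT⟩
    (solOn_path hΦ hε P T ℓ p hv hs) (by rw [h0]; exact lines_mem_Dom hε hT hv.2 hs) hu
  rw [h1, h0]

/-- The root at the final time. -/
theorem flow_root (hΦ : AdmissiblePotential Φ) (hε : 0 < ε) {P : CTree} {T : ℝ} (hT : 0 ≤ T)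
    {ℓ : PhasePoint} {p : Par P} (hv : Valid Φ ε P T ℓ.2 p) (hs : Sep Φ ε P T ℓ p) :
    flow Φ ε T (lines Φ ε P ℓ p) (root P) = onLine ℓ T := by
  rw [← path_eq_flow hΦ hε hv hs ⟨hT, le_rfl⟩, path_root_after hε.le hv.2 le_rfl]

end Crest.Agent.R122.PathFlow968

end
private theorem rz_8a02b1bf71 : type_of% @_root_.Crest.Agent.R122.PathFlow968.fin.eq_def := @_root_.Crest.Agent.R122.PathFlow968.fin.eq_def -- L364
private theorem rz_14f41800f9 : type_of% @_root_.Crest.Agent.R122.PathFlow968.fin.eq_1 := @_root_.Crest.Agent.R122.PathFlow968.fin.eq_1 -- L364
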