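import Crest.Agent.R122.TreeMeas_674
import Crest.Agent.R122.PathFlow_968

/-!
Row 122, block C (helper674): joint measurability of the explicit trajectory `path` (in the time and
the parameters), continuity in time, measurability of separation, of protected times and of windows.
-/

set_option autoImplicit false
set_option synthInstance.maxSize 1024

open MeasureTheory Set Filter Topology
open Crest.AnalysisR.Kinetic
open scoped ENNReal Classical

noncomputable section

namespace Crest.Agent.R122.Tree674

open Kin796 Kin796.CTree Disc416 Scat818 Flow671 Flux663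

variable {Φ : Space3 → ℝ}

/-! ### A general lemma -/

/-- A condition of the form `h > 0 → d > 0` for all points of a compact separable space is
measurable. -/
theorem measurableSet_forall_open {Z : Type*} [MeasurableSpace Z] {K : Type*} [TopologicalSpace K]
    [CompactSpace K] [TopologicalSpace.SeparableSpace K] {h d : Z → K → ℝ}
    (hm : ∀ k, Measurable fun z => h z k) (dm : ∀ k, Measurable fun z => d z k) {A : Set Z}
    (hA : MeasurableSet A) (hc : ∀ z ∈ A, Continuous (h z)) (dc : ∀ z ∈ A, Continuous (d z)) :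
    MeasurableSet {z | z ∈ A ∧ ∀ k, 0 < h z k → 0 < d z k} := by
  obtain ⟨D, hDc, hDd⟩ := TopologicalSpace.exists_countable_dense K
  have key : {z | z ∈ A ∧ ∀ k, 0 < h z k → 0 < d z k} =
      A ∩ ⋂ n : ℕ, ⋃ m : ℕ, ⋂ k ∈ D,
        {z | h z k ≤ 1 / ((n : ℝ) + 1)} ∪ {z | 1 / ((m : ℝ) + 1) ≤ d z k} := by
    ext z
    simp only [mem_ofPred_eq, mem_inter_iff, mem_iInter, mem_iUnion, mem_union]
    constructor
    · rintro ⟨hz, H⟩
      refine ⟨hz, fun n => ?_⟩
      have hK : IsCompact {k | 1 / ((n : ℝ) + 1) ≤ h z k} :=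
        (isClosed_le continuous_const (hc z hz)).isCompact
      rcases {k | 1 / ((n : ℝ) + 1) ≤ h z k}.eq_empty_or_nonempty with he | hne
      · refine ⟨0, fun k _ => Or.inl ?_⟩
        by_contra hlt
        have : k ∈ {k | 1 / ((n : ℝ) + 1) ≤ h z k} := (not_le.1 hlt).le
        rw [he] at this; exact this
      · obtain ⟨k0, hk0, hmin⟩ := hK.exists_isMinOn hne (dc z hz).continuousOn
        have hpos : 0 < d z k0 := H k0 (lt_of_lt_of_le (by positivity) hk0)
        obtain ⟨m, hm'⟩ := exists_nat_one_div_lt hpos
        refine ⟨m, fun k _ => ?_⟩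
        rcases le_or_gt (h z k) (1 / ((n : ℝ) + 1)) with h1 | h1
        · exact Or.inl h1
        · exact Or.inr (hm'.le.trans (hmin (show k ∈ {k | 1 / ((n : ℝ) + 1) ≤ h z k} from h1.le)))
    · rintro ⟨hz, H⟩
      refine ⟨hz, fun k hk => ?_⟩
      obtain ⟨n, hn⟩ := exists_nat_one_div_lt hk
      obtain ⟨m, hm'⟩ := H n
      have hcl : k ∈ closure D := hDd k
      have hopen : IsOpen {k | 1 / ((n : ℝ) + 1) < h z k} :=
        isOpen_lt continuous_const (hc z hz)
      have h2 : 1 / ((m : ℝ) + 1) ≤ d z k := by
        have hclosed : IsClosed {k | 1 / ((m : ℝ) + 1) ≤ d z k} :=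
          isClosed_le continuous_const (dc z hz)
        have h3 : k ∈ closure (D ∩ {k | 1 / ((n : ℝ) + 1) < h z k}) := by
          rw [mem_closure_iff] at hcl ⊢
          intro o ho hko
          obtain ⟨y, hy1, hy2⟩ := hcl (o ∩ {k | 1 / ((n : ℝ) + 1) < h z k}) (ho.inter hopen)
            ⟨hko, hn⟩
          exact ⟨y, hy1.1, hy2, hy1.2⟩
        have h4 : D ∩ {k | 1 / ((n : ℝ) + 1) < h z k} ⊆ {k | 1 / ((m : ℝ) + 1) ≤ d z k} := by
          rintro y ⟨hy1, hy2⟩
          rcases hm' y hy1 with h5 | h5
          · exact absurd h5 (not_le.2 hy2)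
          · exact h5
        exact (closure_minimal h4 hclosed) h3
      exact lt_of_lt_of_le (by positivity) h2
  rw [key]
  refine hA.inter (MeasurableSet.iInter fun n => MeasurableSet.iUnion fun m =>
    MeasurableSet.biInter hDc fun k _ => ?_)
  exact (measurableSet_le (hm k) measurable_const).union (measurableSet_le measurable_const (dm k))

/-! ### The path -/

/-- relative motion of a node at time `u` -/
def relM (Φ : Space3 → ℝ) (ε : ℝ) (w : ℝ × (PhasePoint × NodeP)) : Space3 × Space3 :=
  relFlow Φ ((w.2.2.1 - w.1) / ε) (inc (nb w.2.1.2 w.2.2) (ng w.2.1.2 w.2.2))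

theorem measurable_relM (hΦ : AdmissiblePotential Φ) (ε : ℝ) : Measurable (relM Φ ε) := by
  have h1 : Measurable fun w : ℝ × (PhasePoint × NodeP) => (w.2.2.1 - w.1) / ε :=
    ((measurable_snd.snd.fst).sub measurable_fst).div_const ε
  have h2 : Measurable fun w : ℝ × (PhasePoint × NodeP) =>
      inc (nb w.2.1.2 w.2.2) (ng w.2.1.2 w.2.2) :=
    measurable_inc.comp (measurable_nbng.comp (measurable_snd.fst.snd.prodMk measurable_snd.snd))
  exact (measurable_relFlow_joint hΦ).comp (h1.prodMk h2)

/-- measurable version of `pairPath` -/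
def pairM (Φ : Space3 → ℝ) (ε : ℝ) (w : ℝ × (PhasePoint × NodeP)) : PhasePoint × PhasePoint :=
  ((cms ε w.2.1 w.2.2 + (w.1 - w.2.2.1) • cmv w.2.1.2 w.2.2 - (ε / 2) • (relM Φ ε w).1,
    cmv w.2.1.2 w.2.2 + (1 / 2 : ℝ) • (relM Φ ε w).2),
   (cms ε w.2.1 w.2.2 + (w.1 - w.2.2.1) • cmv w.2.1.2 w.2.2 + (ε / 2) • (relM Φ ε w).1,
    cmv w.2.1.2 w.2.2 - (1 / 2 : ℝ) • (relM Φ ε w).2))

theorem pairM_of_adm (hΦ : AdmissiblePotential Φ) {ε : ℝ} {ℓ : PhasePoint} {a : NodeP}
    (h : Adm1 Φ ℓ.2 a) (u : ℝ) : pairM Φ ε (u, (ℓ, a)) = pairPath Φ ε ℓ a u := by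
  unfold pairM pairPath relM
  rw [qpath_eq hΦ h.nb_mem h.ng_ne h.nt, deriv_qpath hΦ h.nb_mem h.ng_ne h.nt]

theorem measurable_cms (ε : ℝ) :
    Measurable fun z : PhasePoint × NodeP => cms ε z.1 z.2 := by
  have he : Measurable fun z : PhasePoint × NodeP => entrancePoint (nb z.1.2 z.2) (ng z.1.2 z.2) :=
    measurable_entrancePoint.comp (measurable_nbng.comp measurable_zv)
  unfold cms
  exact (by fun_prop : Measurable fun z : PhasePoint × NodeP => z.1.1 + z.2.1 • z.1.2).add
    (he.const_smul (ε / 2))

theorem measurable_cmv : Measurable fun z : PhasePoint × NodeP => cmv z.1.2 z.2 := by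
  unfold cmv; fun_prop

theorem measurable_pairM (hΦ : AdmissiblePotential Φ) (ε : ℝ) : Measurable (pairM Φ ε) := by
  have h1 := measurable_relM hΦ ε
  have h2 : Measurable fun w : ℝ × (PhasePoint × NodeP) => cms ε w.2.1 w.2.2 :=
    (measurable_cms ε).comp measurable_snd
  have h3 : Measurable fun w : ℝ × (PhasePoint × NodeP) => cmv w.2.1.2 w.2.2 :=
    measurable_cmv.comp measurable_snd
  have h4 : Measurable fun w : ℝ × (PhasePoint × NodeP) => w.1 - w.2.2.1 :=
    measurable_fst.sub measurable_snd.snd.fst
  have h5 := h2.add (h4.smul h3)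
  exact ((h5.sub (h1.fst.const_smul (ε / 2))).prodMk (h3.add (h1.snd.const_smul (1 / 2 : ℝ)))).prodMk
    ((h5.add (h1.fst.const_smul (ε / 2))).prodMk (h3.sub (h1.snd.const_smul (1 / 2 : ℝ))))

/-- measurable version of `colPath` -/
def colM (Φ : Space3 → ℝ) (ε : ℝ) (w : ℝ × (PhasePoint × NodeP)) : PhasePoint × PhasePoint :=
  if w.2.2.1 ≤ w.1 then (onLine w.2.1 w.1, onLine (outLine ε w.2.1 w.2.2) w.1) else pairM Φ ε w

theorem colM_of_adm (hΦ : AdmissiblePotential Φ) {ε : ℝ} {ℓ : PhasePoint} {a : NodeP}
    (h : Adm1 Φ ℓ.2 a) (u : ℝ) : colM Φ ε (u, (ℓ, a)) = colPath Φ ε ℓ a u := by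
  unfold colM colPath
  simp only
  split_ifs
  · rfl
  · exact pairM_of_adm hΦ h u

theorem measurable_outLine2 (ε : ℝ) :
    Measurable fun z : PhasePoint × NodeP => outLine ε z.1 z.2 := by
  unfold outLine
  have h1 : Measurable fun z : PhasePoint × NodeP => entrancePoint (nb z.1.2 z.2) (ng z.1.2 z.2) :=
    measurable_entrancePoint.comp (measurable_nbng.comp measurable_zv)
  have h2 : Measurable fun z : PhasePoint × NodeP => z.1.1 + z.2.1 • z.1.2 := by fun_prop
  have h3 : Measurable fun z : PhasePoint × NodeP => z.2.1 • z.2.2.1 := by fun_prop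
  have h4 : Measurable fun z : PhasePoint × NodeP => z.2.2.1 := by fun_prop
  exact ((h2.add (h1.const_smul ε)).sub h3).prodMk h4

theorem measurable_onLine2 : Measurable fun z : PhasePoint × ℝ => onLine z.1 z.2 := by
  unfold onLine; fun_prop

theorem measurable_colM (hΦ : AdmissiblePotential Φ) (ε : ℝ) : Measurable (colM Φ ε) := by
  unfold colM
  refine Measurable.ite ?_ ?_ (measurable_pairM hΦ ε)
  · exact measurableSet_le measurable_snd.snd.fst measurable_fst
  · exact (measurable_onLine2.comp (measurable_snd.fst.prodMk measurable_fst)).prodMk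
      (measurable_onLine2.comp (((measurable_outLine2 ε).comp measurable_snd).prodMk measurable_fst))

/-- measurable version of `path` -/
def pathM (Φ : Space3 → ℝ) (ε : ℝ) : ∀ P : CTree, ℝ → PhasePoint → Par P → (Idx P → PhasePoint)
  | leaf => fun u ℓ _ _ => onLine ℓ u
  | node l r => fun u ℓ p =>
      if u ≤ sinM Φ ε (ℓ, p.1) then
        Sum.elim (pathM Φ ε l u (inM Φ ε (ℓ, p.1)).1 p.2.1) (pathM Φ ε r u (inM Φ ε (ℓ, p.1)).2 p.2.2)
      else
        Sum.elim
          (Function.update (pathM Φ ε l u (inM Φ ε (ℓ, p.1)).1 p.2.1) (root l)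
            (colM Φ ε (u, (ℓ, p.1))).1)
          (Function.update (pathM Φ ε r u (inM Φ ε (ℓ, p.1)).2 p.2.2) (root r)
            (colM Φ ε (u, (ℓ, p.1))).2)

theorem pathM_of_adm (hΦ : AdmissiblePotential Φ) (ε : ℝ) : ∀ {P : CTree} {ℓ : PhasePoint}
    {p : Par P} (u : ℝ), Adm Φ P ℓ.2 p → pathM Φ ε P u ℓ p = path Φ ε P ℓ p u
  | leaf, _, _, _, _ => rfl
  | node l r, ℓ, p, u, h => by
      have h1 : Adm1 Φ ℓ.2 p.1 := h.1
      have e1 : inM Φ ε (ℓ, p.1) = inMap Φ ε ℓ p.1 := inM_of_adm (z := (ℓ, p.1)) h1
      have e2 : sinM Φ ε (ℓ, p.1) = Tree674.sin Φ ε ℓ.2 p.1 := sinM_of_adm (z := (ℓ, p.1)) h1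
      have e3 := colM_of_adm hΦ (ε := ε) h1 u
      have e4 := pathM_of_adm hΦ ε (P := l) (ℓ := (inMap Φ ε ℓ p.1).1) (p := p.2.1) u h.2.1
      have e5 := pathM_of_adm hΦ ε (P := r) (ℓ := (inMap Φ ε ℓ p.1).2) (p := p.2.2) u h.2.2
      simp only [pathM, path, e1, e2, e3, e4, e5]

theorem measurable_pathM (hΦ : AdmissiblePotential Φ) (ε : ℝ) : ∀ P : CTree,
    Measurable fun w : ℝ × (PhasePoint × Par P) => pathM Φ ε P w.1 w.2.1 w.2.2
  | leaf => measurable_pi_iff.2 fun _ =>
      measurable_onLine2.comp (measurable_snd.fst.prodMk measurable_fst)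
  | node l r => by
      have hp : Measurable fun w : ℝ × (PhasePoint × Par (node l r)) => w.2.2 := measurable_snd.snd
      have ha : Measurable fun w : ℝ × (PhasePoint × Par (node l r)) => w.2.2.1 :=
        (measurable_par1 l r).comp hp
      have hz : Measurable fun w : ℝ × (PhasePoint × Par (node l r)) => (w.2.1, w.2.2.1) :=
        measurable_snd.fst.prodMk ha
      have hi := (measurable_inM hΦ ε).comp hz
      have hs := (measurable_sinM hΦ ε).comp hz
      have hc := (measurable_colM hΦ ε).comp (measurable_fst.prodMk hz)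
      have hl := (measurable_pathM hΦ ε l).comp
        (measurable_fst.prodMk (hi.fst.prodMk ((measurable_parL l r).comp hp)))
      have hr := (measurable_pathM hΦ ε r).comp
        (measurable_fst.prodMk (hi.snd.prodMk ((measurable_parR l r).comp hp)))
      have hset : MeasurableSet {w : ℝ × (PhasePoint × Par (node l r)) |
          w.1 ≤ sinM Φ ε (w.2.1, w.2.2.1)} := measurableSet_le measurable_fst hs
      refine measurable_pi_iff.2 fun i => ?_
      have e : (fun w : ℝ × (PhasePoint × Par (node l r)) =>
          pathM Φ ε (node l r) w.1 w.2.1 w.2.2 i) = fun w =>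
          if w.1 ≤ sinM Φ ε (w.2.1, w.2.2.1) then
            (Sum.elim (pathM Φ ε l w.1 (inM Φ ε (w.2.1, w.2.2.1)).1 w.2.2.2.1)
              (pathM Φ ε r w.1 (inM Φ ε (w.2.1, w.2.2.1)).2 w.2.2.2.2) : Idx (node l r) → PhasePoint) i
          else
            (Sum.elim
              (Function.update (pathM Φ ε l w.1 (inM Φ ε (w.2.1, w.2.2.1)).1 w.2.2.2.1) (root l)
                (colM Φ ε (w.1, (w.2.1, w.2.2.1))).1)
              (Function.update (pathM Φ ε r w.1 (inM Φ ε (w.2.1, w.2.2.1)).2 w.2.2.2.2) (root r)
                (colM Φ ε (w.1, (w.2.1, w.2.2.1))).2) : Idx (node l r) → PhasePoint) i := by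
        funext w
        simp only [pathM]
        split_ifs <;> rfl
      rw [e]
      refine Measurable.ite hset ?_ ?_
      · cases i with
        | inl i => exact (measurable_pi_apply i).comp hl
        | inr i => exact (measurable_pi_apply i).comp hr
      · cases i with
        | inl i =>
            by_cases hi0 : i = root l
            · subst hi0
              simp only [Sum.elim_inl, Function.update_self]
              exact hc.fst
            · simp only [Sum.elim_inl, Function.update_of_ne hi0]
              exact (measurable_pi_apply i).comp hl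
        | inr i =>
            by_cases hi0 : i = root r
            · subst hi0
              simp only [Sum.elim_inr, Function.update_self]
              exact hc.snd
            · simp only [Sum.elim_inr, Function.update_of_ne hi0]
              exact (measurable_pi_apply i).comp hr

/-! ### Continuity in time -/

/-- **The explicit trajectory is continuous in time** (`ε > 0`). -/
theorem continuous_path (hΦ : AdmissiblePotential Φ) {ε : ℝ} (hε : 0 < ε) : ∀ {P : CTree} {T : ℝ}
    {ℓ : PhasePoint} {p : Par P}, Valid Φ ε P T ℓ.2 p → Continuous fun u => path Φ ε P ℓ p u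
  | leaf, _, ℓ, _, _ => by
      refine continuous_pi fun _ => ?_
      show Continuous fun u => onLine ℓ u
      unfold onLine
      fun_prop
  | node l r, T, ℓ, p, hv => by
      obtain ⟨⟨h1, h2, h3⟩, h4, h5⟩ := valid_node_iff.1 hv
      have cl := continuous_path hΦ hε (P := l) (ℓ := (inMap Φ ε ℓ p.1).1) (p := p.2.1) h4
      have cr := continuous_path hΦ hε (P := r) (ℓ := (inMap Φ ε ℓ p.1).2) (p := p.2.2) h5
      have cp := PathFlow968.continuous_pairPath hε h1
      have e : (fun u => path Φ ε (node l r) ℓ p u) = fun u =>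
          if u ≤ Tree674.sin Φ ε ℓ.2 p.1 then
            (Sum.elim (path Φ ε l (inMap Φ ε ℓ p.1).1 p.2.1 u)
              (path Φ ε r (inMap Φ ε ℓ p.1).2 p.2.2 u) : Idx (node l r) → PhasePoint)
          else (Sum.elim
            (Function.update (path Φ ε l (inMap Φ ε ℓ p.1).1 p.2.1 u) (root l)
              (pairPath Φ ε ℓ p.1 u).1)
            (Function.update (path Φ ε r (inMap Φ ε ℓ p.1).2 p.2.2 u) (root r)
              (pairPath Φ ε ℓ p.1 u).2) : Idx (node l r) → PhasePoint) := by
        funext u
        split_ifs with hu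
        · exact PathFlow968.path_node_before ℓ p hu
        · exact PathFlow968.path_node_after hΦ hε hv (not_le.1 hu).le
      rw [e]
      refine Continuous.if_le ?_ ?_ continuous_id continuous_const ?_
      · refine continuous_pi fun i => ?_
        cases i with
        | inl i => exact (continuous_apply i).comp cl
        | inr i => exact (continuous_apply i).comp cr
      · refine continuous_pi fun i => ?_
        cases i with
        | inl i =>
            by_cases hi0 : i = root l
            · subst hi0
              simp only [Sum.elim_inl, Function.update_self]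
              exact cp.fst
            · simp only [Sum.elim_inl, Function.update_of_ne hi0]
              exact (continuous_apply i).comp cl
        | inr i =>
            by_cases hi0 : i = root r
            · subst hi0
              simp only [Sum.elim_inr, Function.update_self]
              exact cp.snd
            · simp only [Sum.elim_inr, Function.update_of_ne hi0]
              exact (continuous_apply i).comp cr
      · intro u hu
        have hu' : u = Tree674.sin Φ ε ℓ.2 p.1 := hu
        exact (PathFlow968.path_node_before ℓ p hu'.le).symm.trans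
          (PathFlow968.path_node_after hΦ hε hv hu'.ge)

/-! ### Windows -/

/-- the window of a pair of particles (`(1, 0)` if there is none), measurable version -/
def win (Φ : Space3 → ℝ) (ε : ℝ) : ∀ P : CTree, Idx P → Idx P → Space3 → Par P → ℝ × ℝ
  | leaf => fun _ _ _ _ => (1, 0)
  | node l r => fun i j v p =>
      Sum.elim
        (fun i' => Sum.elim (fun j' => win Φ ε l i' j' (preM Φ (v, p.1)).1 p.2.1)
          (fun j' => if i' = root l ∧ j' = root r then (sM Φ ε (v, p.1), p.1.1) else (1, 0)) j)
        (fun i' => Sum.elim (fun _ => (1, 0))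
          (fun j' => win Φ ε r i' j' (preM Φ (v, p.1)).2 p.2.2) j) i

theorem win_iff {ε : ℝ} : ∀ {P : CTree} {v : Space3} {p : Par P}, Adm Φ P v p →
    ∀ (i j : Idx P) (u : ℝ), InWindow Φ ε P v p i j u ↔
      (win Φ ε P i j v p).1 ≤ u ∧ u ≤ (win Φ ε P i j v p).2
  | leaf, v, p, _, i, j, u => by
      simp only [InWindow, win, false_iff, not_and]
      intro h; linarith
  | node l r, v, p, h, i, j, u => by
      have h1 : Adm1 Φ v p.1 := h.1
      have e1 : preM Φ (v, p.1) = preV Φ v p.1 := preM_of_adm (z := (v, p.1)) h1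
      have e2 : sM Φ ε (v, p.1) = Tree674.sin Φ ε v p.1 := sM_of_adm (z := (v, p.1)) h1
      rcases i with i | i
      · rcases j with j | j
        · have := win_iff (ε := ε) (P := l) h.2.1 i j u
          simp only [win, Sum.elim_inl, e1]
          rw [← this]
          exact PathFlow968.inWindow_inl
        · simp only [win, Sum.elim_inl, Sum.elim_inr, e2]
          by_cases hij : i = root l ∧ j = root r
          · obtain ⟨rfl, rfl⟩ := hij
            simp only [and_self, if_true]
            rw [show InWindow Φ ε (node l r) v p (Sum.inl (root l)) (Sum.inr (root r)) u ↔ _ from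
              PathFlow968.inWindow_inl_inr]
            simp
          · rw [if_neg hij, show InWindow Φ ε (node l r) v p (Sum.inl i) (Sum.inr j) u ↔ _ from
              PathFlow968.inWindow_inl_inr]
            constructor
            · rintro ⟨a1, a2, _⟩
              exact absurd ⟨a1, a2⟩ hij
            · rintro ⟨a1, a2⟩
              simp only at a1 a2
              linarith
      · rcases j with j | j
        · refine iff_of_false PathFlow968.inWindow_inr_inl fun h0 => ?_
          have h' : (1 : ℝ) ≤ u ∧ u ≤ 0 := h0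
          linarith [h'.1, h'.2]
        · have := win_iff (ε := ε) (P := r) h.2.2 i j u
          simp only [win, Sum.elim_inr, e1]
          rw [← this]
          exact PathFlow968.inWindow_inr

theorem measurable_win (hΦ : AdmissiblePotential Φ) (ε : ℝ) : ∀ (P : CTree) (i j : Idx P),
    Measurable fun z : Space3 × Par P => win Φ ε P i j z.1 z.2
  | leaf, _, _ => measurable_const
  | node l r, i, j => by
      have hp : Measurable fun z : Space3 × Par (node l r) => z.2 := measurable_snd
      have ha : Measurable fun z : Space3 × Par (node l r) => z.2.1 :=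
        (measurable_par1 l r).comp hp
      have hz : Measurable fun z : Space3 × Par (node l r) => (z.1, z.2.1) :=
        measurable_fst.prodMk ha
      have hi := (measurable_preM hΦ).comp hz
      have hs := (measurable_sM hΦ ε).comp hz
      rcases i with i | i
      · rcases j with j | j
        · exact (measurable_win hΦ ε l i j).comp (hi.fst.prodMk ((measurable_parL l r).comp hp))
        · by_cases hij : i = root l ∧ j = root r
          · simp only [win, Sum.elim_inl, Sum.elim_inr, if_pos hij]
            exact hs.prodMk ha.fst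
          · simp only [win, Sum.elim_inl, Sum.elim_inr, if_neg hij]
            exact measurable_const
      · rcases j with j | j
        · exact measurable_const
        · exact (measurable_win hΦ ε r i j).comp (hi.snd.prodMk ((measurable_parR l r).comp hp))

/-! ### Separation -/

/-- **Separation is measurable.** -/
theorem measurableSet_validSep (hΦ : AdmissiblePotential Φ) {ε : ℝ} (hε : 0 < ε) (P : CTree)
    (T : ℝ) : MeasurableSet {z : PhasePoint × Par P | Valid Φ ε P T z.1.2 z.2 ∧
      Sep Φ ε P T z.1 z.2} := by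
  set A : Set (PhasePoint × Par P) := {z | Valid Φ ε P T z.1.2 z.2} with hAdef
  have hA : MeasurableSet A := measurableSet_valid hΦ ε P T
  have hw : ∀ i j, Measurable fun z : PhasePoint × Par P => win Φ ε P i j z.1.2 z.2 := fun i j =>
    (measurable_win hΦ ε P i j).comp (measurable_fst.snd.prodMk measurable_snd)
  -- the condition for one pair
  have hpair : ∀ i j : Idx P, MeasurableSet {z : PhasePoint × Par P | z ∈ A ∧
      ∀ u : Icc (0 : ℝ) T, 0 < min
        (max ((win Φ ε P i j z.1.2 z.2).1 - u) (u - (win Φ ε P i j z.1.2 z.2).2))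
        (max ((win Φ ε P j i z.1.2 z.2).1 - u) (u - (win Φ ε P j i z.1.2 z.2).2)) →
        0 < dist (pathM Φ ε P u z.1 z.2 i).1 (pathM Φ ε P u z.1 z.2 j).1 - ε} := by
    intro i j
    refine measurableSet_forall_open (K := Icc (0 : ℝ) T)
      (h := fun z u => min
        (max ((win Φ ε P i j z.1.2 z.2).1 - u) (u - (win Φ ε P i j z.1.2 z.2).2))
        (max ((win Φ ε P j i z.1.2 z.2).1 - u) (u - (win Φ ε P j i z.1.2 z.2).2)))
      (d := fun z u => dist (pathM Φ ε P u z.1 z.2 i).1 (pathM Φ ε P u z.1 z.2 j).1 - ε)
      ?_ ?_ hA ?_ ?_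
    · intro u
      exact (((hw i j).fst.sub measurable_const).max (measurable_const.sub (hw i j).snd)).min
        (((hw j i).fst.sub measurable_const).max (measurable_const.sub (hw j i).snd))
    · intro u
      have hp : Measurable fun z : PhasePoint × Par P => pathM Φ ε P u z.1 z.2 :=
        (measurable_pathM hΦ ε P).comp (measurable_const.prodMk measurable_id)
      exact (((measurable_pi_apply i).comp hp).fst.dist ((measurable_pi_apply j).comp hp).fst).sub
        measurable_const
    · intro z _
      fun_prop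
    · intro z hz
      have hz' : Valid Φ ε P T z.1.2 z.2 := hz
      have hc := continuous_path hΦ hε hz'
      have e : ∀ u : ℝ, pathM Φ ε P u z.1 z.2 = path Φ ε P z.1 z.2 u := fun u =>
        pathM_of_adm hΦ ε u hz'.1
      simp only [e]
      have h1 : Continuous fun u : Icc (0 : ℝ) T => (path Φ ε P z.1 z.2 u i).1 :=
        (((continuous_apply i).comp hc).fst).comp continuous_subtype_val
      have h2 : Continuous fun u : Icc (0 : ℝ) T => (path Φ ε P z.1 z.2 u j).1 :=
        (((continuous_apply j).comp hc).fst).comp continuous_subtype_val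
      exact (h1.dist h2).sub continuous_const
  have hall : MeasurableSet (A ∩ ⋂ i : Idx P, ⋂ j : Idx P, ⋂ _ : i ≠ j,
      {z : PhasePoint × Par P | z ∈ A ∧
      ∀ u : Icc (0 : ℝ) T, 0 < min
        (max ((win Φ ε P i j z.1.2 z.2).1 - u) (u - (win Φ ε P i j z.1.2 z.2).2))
        (max ((win Φ ε P j i z.1.2 z.2).1 - u) (u - (win Φ ε P j i z.1.2 z.2).2)) →
        0 < dist (pathM Φ ε P u z.1 z.2 i).1 (pathM Φ ε P u z.1 z.2 j).1 - ε}) :=
    hA.inter (MeasurableSet.iInter fun i => MeasurableSet.iInter fun j =>
      MeasurableSet.iInter fun _ => hpair i j)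
  convert hall using 1
  ext z
  simp only [mem_ofPred_eq, mem_inter_iff, mem_iInter]
  have hnot : ∀ {S E u : ℝ}, ¬ (S ≤ u ∧ u ≤ E) ↔ 0 < max (S - u) (u - E) := by
    intro S E u
    rw [lt_max_iff, sub_pos, sub_pos, not_and_or, not_le, not_le]
  constructor
  · rintro ⟨hv, hs⟩
    refine ⟨hv, fun i j hij => ⟨hv, fun u hu => ?_⟩⟩
    rw [pathM_of_adm hΦ ε _ hv.1, sub_pos]
    rw [lt_min_iff, ← hnot, ← hnot, ← win_iff hv.1, ← win_iff hv.1] at hu
    exact hs i j hij u u.2 hu.1 hu.2
  · rintro ⟨hv, hs⟩
    refine ⟨hv, fun i j hij u hu h1 h2 => ?_⟩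
    have h := (hs i j hij).2 ⟨u, hu⟩ (by
      rw [lt_min_iff, ← hnot, ← hnot, ← win_iff hv.1, ← win_iff hv.1]
      exact ⟨h1, h2⟩)
    rw [pathM_of_adm hΦ ε _ hv.1, sub_pos] at h
    exact h

theorem measurable_prot : ∀ (P : CTree) (i : Idx P),
    Measurable fun q : ℝ × Par P => prot P q.1 q.2 i
  | leaf, _ => measurable_fst
  | node l r, i => by
      have hp : Measurable fun q : ℝ × Par (node l r) => q.2 := measurable_snd
      rcases i with i | i
      · exact (measurable_prot l i).comp (measurable_fst.prodMk ((measurable_parL l r).comp hp))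
      · exact (measurable_prot r i).comp ((((measurable_par1 l r).comp hp).fst).prodMk
          ((measurable_parR l r).comp hp))


end Crest.Agent.R122.Tree674

end
private theorem rz_22508359f7 : type_of% @_root_.Crest.Agent.R122.Tree674.pathM.eq_def := @_root_.Crest.Agent.R122.Tree674.pathM.eq_def -- L166
private theorem rz_e36f21f638 : type_of% @_root_.Crest.Agent.R122.Tree674.pathM.eq_1 := @_root_.Crest.Agent.R122.Tree674.pathM.eq_1 -- L166
private theorem rz_a463b8b55d : type_of% @_root_.Crest.Agent.R122.Tree674.win.eq_def := @_root_.Crest.Agent.R122.Tree674.win.eq_def -- L303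
private theorem rz_a346a3cefa : type_of% @_root_.Crest.Agent.R122.Tree674.win.eq_1 := @_root_.Crest.Agent.R122.Tree674.win.eq_1 -- L303
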