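import Crest.Agent.R122.TreeDom_974
import Crest.Agent.R122.TreeMeas2_674
import Crest.Agent.R122.GenericMain_491
import Crest.Agent.R122.Quench1_815

/-!
# Row 122 (helper974): limit of integrals over tree parameters

Abstract limit theorem: the integral over the parameters of the valid and separated trees at
`ε → 0` of `wt * ∏ f₀(lines ε) * φ(root at time T) * U ε` converges (in `L¹`) to the same expression
at `ε = 0`, for bounded compactly supported `φ`, as soon as `U ε → U 0` in `L¹_loc` of the root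
position for almost every `(v, p)`.
-/

set_option autoImplicit false

open MeasureTheory Set Filter
open scoped ENNReal Topology Classical
open Crest.AnalysisR.Kinetic Crest.Agent.R122.Kin796 Crest.Agent.R122.Disc416
  Crest.Agent.R122.Tree674 Crest.Agent.R122.TreeEps399 Crest.Agent.R122.TreeDom974
open Crest.Agent.R122.Quench815 (absd absd_comm absd_self le_add_absd le_add_absd' absd_le_add
  absd_le_iff absd_triangle absd_mul_le measurable_absd absd_lintegral_le)

noncomputable section

namespace Crest.Agent.R122.TreeLim974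

open CTree

variable {Φ : Space3 → ℝ}

/-! ### Elementary facts on `absd` -/

theorem absd_mul_left (c a b : ℝ≥0∞) : absd (a * c) (b * c) ≤ absd a b * c := by
  rw [mul_comm a c, mul_comm b c, mul_comm (absd a b) c]
  exact absd_mul_le c a b

theorem tendsto_absd {α : Type*} {F : Filter α} {f : α → ℝ≥0∞} {b : ℝ≥0∞} (hb : b ≠ ∞)
    (hf : Tendsto f F (𝓝 b)) : Tendsto (fun a => absd (f a) b) F (𝓝 0) := by
  have h1 : Tendsto (fun a => f a - b) F (𝓝 (b - b)) :=
    ENNReal.Tendsto.sub hf tendsto_const_nhds (Or.inr hb)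
  have h2 : Tendsto (fun a => b - f a) F (𝓝 (b - b)) :=
    ENNReal.Tendsto.sub tendsto_const_nhds hf (Or.inl hb)
  rw [tsub_self] at h1 h2
  have := h1.add h2
  rw [add_zero] at this
  exact this

/-! ### Good sets and integrands -/

/-- valid and separated trees -/
def goodS (Φ : Space3 → ℝ) (ε : ℝ) (P : CTree) (T : ℝ) : Set (PhasePoint × Par P) :=
  {z | Valid Φ ε P T z.1.2 z.2 ∧ Sep Φ ε P T z.1 z.2}

/-- valid straight-line trees -/
def good0 (Φ : Space3 → ℝ) (P : CTree) (T : ℝ) : Set (PhasePoint × Par P) :=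
  {z | Valid Φ 0 P T z.1.2 z.2}

/-- weight times initial densities -/
def tA (Φ : Space3 → ℝ) (k : PhasePoint → ℝ≥0∞) (ε : ℝ) (P : CTree) (z : PhasePoint × Par P) :
    ℝ≥0∞ := wt Φ P z.1.2 z.2 * ∏ i, k (lines Φ ε P z.1 z.2 i)

theorem measurableSet_goodS (hΦ : AdmissiblePotential Φ) {ε : ℝ} (hε : 0 < ε) (P : CTree) (T : ℝ) :
    MeasurableSet (goodS Φ ε P T) := measurableSet_validSep hΦ hε P T

theorem measurableSet_good0 (hΦ : AdmissiblePotential Φ) (P : CTree) (T : ℝ) :
    MeasurableSet (good0 Φ P T) := measurableSet_valid hΦ 0 P T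

/-- measurable version of `tA` -/
def tAM (Φ : Space3 → ℝ) (k : PhasePoint → ℝ≥0∞) (ε : ℝ) (P : CTree) (z : PhasePoint × Par P) :
    ℝ≥0∞ := wtM Φ P z.1.2 z.2 * ∏ i, k (linesM Φ ε P z.1 z.2 i)

theorem measurable_tAM (hΦ : AdmissiblePotential Φ) {k : PhasePoint → ℝ≥0∞} (hk : Measurable k)
    (ε : ℝ) (P : CTree) : Measurable (tAM Φ k ε P) := by
  have h0 : Measurable fun z : PhasePoint × Par P => wtM Φ P z.1.2 z.2 :=
    (measurable_wtM hΦ P).comp (measurable_fst.snd.prodMk measurable_snd)
  refine h0.mul (Finset.measurable_prod _ fun i _ => ?_)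
  exact hk.comp ((measurable_pi_apply i).comp (measurable_linesM hΦ ε P))

theorem tAM_of_adm {k : PhasePoint → ℝ≥0∞} {ε : ℝ} {P : CTree} {z : PhasePoint × Par P}
    (h : Adm Φ P z.1.2 z.2) : tAM Φ k ε P z = tA Φ k ε P z := by
  unfold tAM tA
  rw [wtM_of_adm h, linesM_of_adm ε h]

theorem measurable_ind_tA (hΦ : AdmissiblePotential Φ) {k : PhasePoint → ℝ≥0∞} (hk : Measurable k)
    (ε : ℝ) (P : CTree) {S : Set (PhasePoint × Par P)}
    (hSA : ∀ z ∈ S, Adm Φ P z.1.2 z.2) {G : PhasePoint × Par P → ℝ≥0∞}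
    (hG : Measurable (S.indicator G)) :
    Measurable (S.indicator fun z => tA Φ k ε P z * G z) := by
  have h : (S.indicator fun z => tA Φ k ε P z * G z) =
      fun z => tAM Φ k ε P z * S.indicator G z := by
    funext z
    by_cases hz : z ∈ S
    · rw [indicator_of_mem hz, indicator_of_mem hz, tAM_of_adm (hSA z hz)]
    · rw [indicator_of_notMem hz, indicator_of_notMem hz, mul_zero]
  rw [h]
  exact (measurable_tAM hΦ hk ε P).mul hG

/-! ### Convergence of the initial densities -/

theorem tendsto_prod_lines {α : Type*} {F : Filter α} {e : α → ℝ} (he : Tendsto e F L)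
    {k : PhasePoint → ℝ≥0∞} (hk : Continuous k) (hk1 : ∀ z, k z ≠ ∞) (P : CTree) (X v : Space3)
    (p : Par P) :
    Tendsto (fun a => ∏ i, k (lines Φ (e a) P (X, v) p i)) F
      (𝓝 (∏ i, k (lines Φ 0 P (X, v) p i))) := by
  have h1 : ∀ i : Idx P, Tendsto (fun a => k (lines Φ (e a) P (X, v) p i)) F
      (𝓝 (k (lines Φ 0 P (X, v) p i))) := by
    intro i
    obtain ⟨h2, h3⟩ := lines_close (Φ := Φ) P v p (fun _ => X) X tendsto_const_nhds i
    have h4 : Tendsto (fun ε => lines Φ ε P (X, v) p i) L (𝓝 (lines Φ 0 P (X, v) p i)) := by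
      have e1 : (fun ε => lines Φ ε P (X, v) p i) = fun ε =>
          ((lines Φ ε P (X, v) p i).1, (lines Φ 0 P (X, v) p i).2) := by
        funext ε
        exact Prod.ext rfl (h3 ε)
      rw [e1]
      exact h2.prodMk_nhds tendsto_const_nhds
    exact ((hk.tendsto _).comp h4).comp he
  have h5 : ∀ s : Finset (Idx P), Tendsto (fun a => ∏ i ∈ s, k (lines Φ (e a) P (X, v) p i)) F
      (𝓝 (∏ i ∈ s, k (lines Φ 0 P (X, v) p i))) := by
    intro s
    induction s using Finset.induction_on with
    | empty => simpa using tendsto_const_nhds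
    | insert i s hi ih =>
      simp only [Finset.prod_insert hi]
      exact ENNReal.Tendsto.mul (h1 i) (Or.inr (ENNReal.prod_ne_top fun j _ => hk1 _)) ih
        (Or.inr (hk1 _))
  exact h5 Finset.univ

/-- local `L¹` convergence of the product of the initial densities, in the root position -/
theorem tendsto_lintegral_absd_prod {α : Type*} {F : Filter α} [F.IsCountablyGenerated]
    {e : α → ℝ} (he : Tendsto e F L)
    {k : PhasePoint → ℝ≥0∞} (hk : Continuous k) {C : ℝ≥0∞} (hC : C ≠ ∞) (hkC : ∀ z, k z ≤ C)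
    (P : CTree) (v : Space3) (p : Par P) {B : Set Space3} (hB : volume B ≠ ∞) :
    Tendsto (fun a => ∫⁻ x in B, absd (∏ i, k (lines Φ (e a) P (x, v) p i))
      (∏ i, k (lines Φ 0 P (x, v) p i))) F (𝓝 0) := by
  have hk1 : ∀ z, k z ≠ ∞ := fun z => ne_top_of_le_ne_top hC (hkC z)
  have hm : ∀ ε, Measurable fun x : Space3 => ∏ i, k (lines Φ ε P (x, v) p i) := by
    intro ε
    refine Finset.measurable_prod _ fun i _ => hk.measurable.comp ?_
    have : (fun x : Space3 => lines Φ ε P (x, v) p i) = fun x =>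
        ((lines Φ ε P (0, v) p i).1 + x, (lines Φ ε P (0, v) p i).2) := by
      funext x
      exact Hid424.lines_shift ε P x v p i
    rw [this]
    fun_prop
  have hb : ∀ ε x, ∏ i, k (lines Φ ε P (x, v) p i) ≤ C ^ Fintype.card (Idx P) := by
    intro ε x
    calc ∏ i, k (lines Φ ε P (x, v) p i) ≤ ∏ _i : Idx P, C := Finset.prod_le_prod' fun i _ => hkC _
      _ = C ^ Fintype.card (Idx P) := by rw [Finset.prod_const, Finset.card_univ]
  have h0 : (0 : ℝ≥0∞) = ∫⁻ _x in B, (0 : ℝ≥0∞) := by simp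
  rw [h0]
  refine tendsto_lintegral_filter_of_dominated_convergence
    (fun _ => C ^ Fintype.card (Idx P) + C ^ Fintype.card (Idx P)) ?_ ?_ ?_ ?_
  · exact Eventually.of_forall fun a => measurable_absd (hm _) (hm _)
  · exact Eventually.of_forall fun a => Eventually.of_forall fun x =>
      (absd_le_add _ _).trans (add_le_add (hb _ _) (hb _ _))
  · rw [lintegral_const, Measure.restrict_apply_univ]
    exact ENNReal.mul_ne_top (ENNReal.add_ne_top.2 ⟨ENNReal.pow_ne_top hC, ENNReal.pow_ne_top hC⟩) hB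
  · exact Eventually.of_forall fun x =>
      tendsto_absd (ENNReal.prod_ne_top fun j _ => hk1 _) (tendsto_prod_lines he hk hk1 P x v p)

/-! ### The limit theorem -/

/-- integrand at `ε` -/
def gE (Φ : Space3 → ℝ) (k : PhasePoint → ℝ≥0∞) (ε : ℝ) (P : CTree) (T : ℝ)
    (φ : PhasePoint → ℝ≥0∞) (U : PhasePoint × Par P → ℝ≥0∞) : PhasePoint × Par P → ℝ≥0∞ :=
  (goodS Φ ε P T).indicator fun z => tA Φ k ε P z * (φ (onLine z.1 T) * U z)

/-- integrand at `0` -/
def g0 (Φ : Space3 → ℝ) (k : PhasePoint → ℝ≥0∞) (P : CTree) (T : ℝ)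
    (φ : PhasePoint → ℝ≥0∞) (U : PhasePoint × Par P → ℝ≥0∞) : PhasePoint × Par P → ℝ≥0∞ :=
  (good0 Φ P T).indicator fun z => tA Φ k 0 P z * (φ (onLine z.1 T) * U z)

theorem measurable_onLineT (T : ℝ) : Measurable fun ℓ : PhasePoint => onLine ℓ T := by
  unfold onLine; fun_prop

theorem measurable_ind_mul {P : CTree} {S : Set (PhasePoint × Par P)}
    {φ : PhasePoint → ℝ≥0∞} (hφ : Measurable φ) (T : ℝ) {U : PhasePoint × Par P → ℝ≥0∞}
    (hU : Measurable (S.indicator U)) :
    Measurable (S.indicator fun z => φ (onLine z.1 T) * U z) := by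
  have h : (S.indicator fun z => φ (onLine z.1 T) * U z) =
      fun z => φ (onLine z.1 T) * S.indicator U z := by
    funext z
    by_cases hz : z ∈ S
    · rw [indicator_of_mem hz, indicator_of_mem hz]
    · rw [indicator_of_notMem hz, indicator_of_notMem hz, mul_zero]
  rw [h]
  exact (hφ.comp ((measurable_onLineT T).comp measurable_fst)).mul hU

theorem measurable_gE (hΦ : AdmissiblePotential Φ) {k : PhasePoint → ℝ≥0∞} (hk : Measurable k)
    (ε : ℝ) (P : CTree) (T : ℝ) {φ : PhasePoint → ℝ≥0∞} (hφ : Measurable φ)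
    {U : PhasePoint × Par P → ℝ≥0∞} (hU : Measurable ((goodS Φ ε P T).indicator U)) :
    Measurable (gE Φ k ε P T φ U) :=
  measurable_ind_tA hΦ hk ε P (fun _ hz => hz.1.1) (measurable_ind_mul hφ T hU)


/-- integral over the parameters, position of the root line inside -/
theorem lintegral_split (P : CTree) {G : PhasePoint × Par P → ℝ≥0∞} (hG : Measurable G) :
    ∫⁻ z, G z = ∫⁻ q : Space3 × Par P, ∫⁻ x : Space3, G ((x, q.1), q.2) := by
  have h1 : MeasurePreserving (MeasurableEquiv.prodAssoc (α := Space3) (β := Space3) (γ := Par P))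
      (((volume : Measure Space3).prod (volume : Measure Space3)).prod (volume : Measure (Par P)))
      ((volume : Measure Space3).prod ((volume : Measure Space3).prod
        (volume : Measure (Par P)))) := measurePreserving_prodAssoc _ _ _
  have h2 : ∫⁻ z : PhasePoint × Par P, G z =
      ∫⁻ y : Space3 × (Space3 × Par P), G ((y.1, y.2.1), y.2.2)
        ∂((volume : Measure Space3).prod ((volume : Measure Space3).prod
          (volume : Measure (Par P)))) := by
    have hG' : Measurable fun y : Space3 × (Space3 × Par P) => G ((y.1, y.2.1), y.2.2) :=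
      hG.comp (by fun_prop)
    exact (h1.lintegral_comp hG').symm ▸ rfl
  have hG' : Measurable fun y : Space3 × (Space3 × Par P) => G ((y.1, y.2.1), y.2.2) :=
    hG.comp (by fun_prop)
  rw [h2, lintegral_prod_symm (fun y : Space3 × (Space3 × Par P) => G ((y.1, y.2.1), y.2.2))
    hG'.aemeasurable]
  rfl

theorem prod_le_pow {k : PhasePoint → ℝ≥0∞} {C : ℝ≥0∞} (hkC : ∀ z, k z ≤ C) (ε : ℝ) (P : CTree)
    (ℓ : PhasePoint) (p : Par P) :
    ∏ i, k (lines Φ ε P ℓ p i) ≤ C ^ Fintype.card (Idx P) := by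
  calc ∏ i, k (lines Φ ε P ℓ p i) ≤ ∏ _i : Idx P, C := Finset.prod_le_prod' fun i _ => hkC _
    _ = C ^ Fintype.card (Idx P) := by rw [Finset.prod_const, Finset.card_univ]

theorem wt_ne_top (P : CTree) : ∀ (v : Space3) (p : Par P), wt Φ P v p ≠ ∞ := by
  induction P with
  | leaf => intro v p; simp [wt]
  | node l r hl hr =>
    intro v p
    simp only [wt]
    exact ENNReal.mul_ne_top ENNReal.ofReal_ne_top (ENNReal.mul_ne_top (hl _ _) (hr _ _))

/-- test functions: bounded, supported in `‖x‖ ≤ R` -/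
structure TestF (φ : PhasePoint → ℝ≥0∞) (M : ℝ≥0∞) (R : ℝ) : Prop where
  meas : Measurable φ
  M_fin : M ≠ ∞
  le : ∀ z, φ z ≤ M
  supp : ∀ z : PhasePoint, R < ‖z.1‖ → φ z = 0



/-- almost every `(v, p)` is generic -/
theorem gen_ae_q (hΦ : AdmissiblePotential Φ) (P : CTree) (T : ℝ) :
    ∀ᵐ q : Space3 × Par P, Valid Φ 0 P T q.1 q.2 → Gen Φ P (0, q.1) q.2 := by
  have h1 : MeasurePreserving
      (MeasurableEquiv.prodAssoc (α := Space3) (β := Space3) (γ := Par P)).symm
      ((volume : Measure Space3).prod ((volume : Measure Space3).prod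
        (volume : Measure (Par P))))
      (((volume : Measure Space3).prod (volume : Measure Space3)).prod (volume : Measure (Par P))) :=
    (measurePreserving_prodAssoc _ _ _).symm _
  have h2 := h1.quasiMeasurePreserving.ae (Generic491.gen_ae' hΦ P T)
  have h3 := Measure.ae_ae_of_ae_prod h2
  obtain ⟨x, hx⟩ := h3.exists
  filter_upwards [hx] with q hq hV
  have h4 : Gen Φ P (x, q.1) q.2 := hq hV
  exact (Hid424.gen_shift x).1 h4




end Crest.Agent.R122.TreeLim974
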