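import Crest.Agent.R122.VolFlux5_350
import Crest.Agent.R122.TreeLim_974
import Crest.Agent.R122.TreeMeas2_674
import Crest.Agent.R122.TreeF_399
import Crest.Agent.R122.GenericMain_491
import Crest.Agent.R122.BadDefs_726
import Crest.Agent.R122.VolFlux1_350

-- ▼ part R122/BadOne_350
section

/-!
Row 122, helper350: the bad release steps of one particle have small measure (case (B2) of
`BadStep`), from the flux step and a measurable set `C m` of bad data `(s, W', u)` (time, kept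
group, state of the released particle).
-/

set_option autoImplicit false
set_option linter.unusedSectionVars false

open MeasureTheory Set Filter Topology
open Crest.AnalysisR.Kinetic
open Crest.Agent.R122.Flow671 Crest.Agent.R122.Loc45 Crest.Agent.R122.Causal291
open Crest.Agent.R122.Omega969 Crest.Agent.R122.Disc416 Crest.Agent.R122.Chain726
open scoped Classical ENNReal

noncomputable section

namespace Crest.Agent.R122.Flux350

variable {Φ : Space3 → ℝ} {ε : ℝ} {ι : Type*}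

/-- a grazing partner does not appear in impact parameter coordinates -/
lemma inner_entrance_pos (hε : 0 < ε) {g : Space3} (hg : g ≠ 0) {y : Plane} (hy : ‖y‖ < 1) :
    inner ℝ (ε • entrancePoint (frameMap g y) g) (-g) ≠ 0 := by
  have h1 : inner ℝ g (entrancePoint (frameMap g y) g) = -(‖g‖ * Real.sqrt (1 - ‖y‖ ^ 2)) := by
    rw [← entrance_eq hg, inner_cyl hg]
    unfold hgt
    rw [one_pow]; ring
  have h2 : 0 < Real.sqrt (1 - ‖y‖ ^ 2) := Real.sqrt_pos.2 (by nlinarith [norm_nonneg y])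
  have h3 : 0 < ‖g‖ := norm_pos_iff.2 hg
  rw [inner_neg_right, real_inner_smul_left, real_inner_comm, h1]
  have : 0 < ε * (‖g‖ * Real.sqrt (1 - ‖y‖ ^ 2)) := by positivity
  intro h
  linarith

/-- **Bad one-particle releases.** -/
theorem bad_one_of (hΦ : AdmissiblePotential Φ) (hε : 0 < ε) {T : ℝ} (hT : 0 ≤ T)
    {A A' : Finset ι} (h : A' ⊆ A) (hc : A'.card + 1 = A.card) (i : A')
    {Ψ : Space3 → ℝ≥0∞} (hΨ : Measurable Ψ)
    {C : A' → Set (ℝ × ((A' → PhasePoint) × PhasePoint))} (hC : ∀ m, MeasurableSet (C m))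
    (γ : ℝ) {B : A' → ℝ≥0∞}
    (hB : ∀ m, ∫⁻ s in Icc 0 T, ∫⁻ W : A' → PhasePoint, ∫⁻ w : Space3,
      ∫⁻ y in Metric.ball (0 : Plane) 1,
        ENNReal.ofReal (Real.exp (-(γ * (energy Φ ε W + ‖w‖ ^ 2 / 2)))) *
        (ENNReal.ofReal ‖(flow Φ ε s W m).2 - w‖ * (Ψ (W i).1 * (C m).indicator 1 (s, (W,
          ((flow Φ ε s W m).1 + ε • entrancePoint (frameMap ((flow Φ ε s W m).2 - w) y)
            ((flow Φ ε s W m).2 - w), w))))) ≤ B m) :
    ∃ M : (A → PhasePoint) → ℝ≥0∞, Measurable M ∧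
      (∀ (W : A → PhasePoint) (W' : A' → PhasePoint) (s : ℝ), s ∈ Icc 0 T → Step Φ ε s W W' →
        ∀ (j : A) (m : A'), (j : ι) ∉ A' → dist (flow Φ ε s W j).1 (flow Φ ε s W' m).1 = ε →
          (inner ℝ ((flow Φ ε s W j).1 - (flow Φ ε s W' m).1)
            ((flow Φ ε s W j).2 - (flow Φ ε s W' m).2) = 0 ∨
            (s, (W', flow Φ ε s W j)) ∈ C m) → Ψ (W' i).1 ≤ M W) ∧
      ∫⁻ W, ENNReal.ofReal (Real.exp (-(γ * energy Φ ε W))) * M W ≤
        ENNReal.ofReal (ε ^ 2) * ∑ m : A', B m := by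
  -- the released particle
  obtain ⟨j0, hj0, hj0'⟩ : ∃ j : ι, j ∈ A ∧ j ∉ A' := by
    by_contra hcon
    push Not at hcon
    have := Finset.card_le_card (show A ⊆ A' from hcon)
    omega
  have huniq : ∀ j : A, (j : ι) ∉ A' → j = ⟨j0, hj0⟩ := by
    intro j hj
    by_contra hne
    have hne' : (j : ι) ≠ j0 := fun he => hne (Subtype.ext he)
    have h1 : insert (j : ι) (insert j0 A') ⊆ A := by
      intro x hx
      rw [Finset.mem_insert, Finset.mem_insert] at hx
      rcases hx with rfl | rfl | hx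
      · exact j.2
      · exact hj0
      · exact h hx
    have h2 := Finset.card_le_card h1
    rw [Finset.card_insert_of_notMem (by
      rw [Finset.mem_insert]; push Not; exact ⟨hne', hj⟩), Finset.card_insert_of_notMem hj0'] at h2
    omega
  -- the functional
  set G : ℝ → (A' → PhasePoint) → A' → PhasePoint → ℝ≥0∞ := fun s W' m u =>
    Ψ (W' i).1 * ((C m).indicator 1 (s, (W', u)) +
      {q : ℝ × ((A' → PhasePoint) × PhasePoint) | inner ℝ (q.2.2.1 - (flow Φ ε q.1 q.2.1 m).1)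
        (q.2.2.2 - (flow Φ ε q.1 q.2.1 m).2) = 0}.indicator (fun _ => ∞) (s, (W', u))) with hGd
  have hgr : ∀ m : A', MeasurableSet {q : ℝ × ((A' → PhasePoint) × PhasePoint) |
      inner ℝ (q.2.2.1 - (flow Φ ε q.1 q.2.1 m).1) (q.2.2.2 - (flow Φ ε q.1 q.2.1 m).2) = 0} := by
    intro m
    have h1 : Measurable (fun q : ℝ × ((A' → PhasePoint) × PhasePoint) => flow Φ ε q.1 q.2.1 m) := by
      have h := (measurable_flow_apply (κ := A') hΦ hε m).comp
        (measurable_fst.prodMk (measurable_fst.comp measurable_snd) :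
          Measurable fun q : ℝ × ((A' → PhasePoint) × PhasePoint) => (q.1, q.2.1))
      exact h
    have h2 : Measurable (fun q : ℝ × ((A' → PhasePoint) × PhasePoint) => q.2.2) :=
      measurable_snd.comp measurable_snd
    have h3 : Measurable (fun q : Space3 × Space3 => inner ℝ q.1 q.2) :=
      Continuous.measurable (by fun_prop)
    have h4 := h3.comp ((h2.fst.sub h1.fst).prodMk (h2.snd.sub h1.snd))
    exact measurableSet_eq_fun h4 measurable_const
  have hG : ∀ m, Measurable fun p : ℝ × (A' → PhasePoint) × PhasePoint => G p.1 p.2.1 m p.2.2 := by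
    intro m
    have h1 : Measurable (fun p : ℝ × (A' → PhasePoint) × PhasePoint => Ψ (p.2.1 i).1) :=
      hΨ.comp (((measurable_pi_apply i).comp (measurable_fst.comp measurable_snd)).fst)
    have h2 : Measurable (fun p : ℝ × (A' → PhasePoint) × PhasePoint =>
        (C m).indicator (1 : ℝ × ((A' → PhasePoint) × PhasePoint) → ℝ≥0∞) (p.1, (p.2.1, p.2.2))) :=
      measurable_one.indicator (hC m)
    have h3 : Measurable (fun p : ℝ × (A' → PhasePoint) × PhasePoint =>
        {q : ℝ × ((A' → PhasePoint) × PhasePoint) | inner ℝ (q.2.2.1 - (flow Φ ε q.1 q.2.1 m).1)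
        (q.2.2.2 - (flow Φ ε q.1 q.2.1 m).2) = 0}.indicator (fun _ => (∞ : ℝ≥0∞))
          (p.1, (p.2.1, p.2.2))) :=
      measurable_const.indicator (hgr m)
    exact h1.mul (h2.add h3)
  obtain ⟨M, hM, hM1, hM2⟩ := FS1fin hΦ hε hT h hc ⟨j0, hj0⟩ hj0' hG γ
  refine ⟨M, hM, ?_, hM2.trans ?_⟩
  · intro W W' s hs hS j m hj hd hbad
    have hjj := huniq j hj
    have hfl : flow Φ ε s W' m = flow Φ ε s W ⟨m, h m.2⟩ := by
      have := congrFun (hS.flow_eq hΦ hε) m
      exact this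
    have h1 := hM1 W W' s hs hS m (by rw [← hjj, ← hfl]; exact hd)
    rw [← hjj] at h1
    refine le_trans ?_ h1
    rw [hGd]
    simp only
    rcases hbad with hb | hb
    · have : (s, (W', flow Φ ε s W j)) ∈ {q : ℝ × ((A' → PhasePoint) × PhasePoint) |
        inner ℝ (q.2.2.1 - (flow Φ ε q.1 q.2.1 m).1) (q.2.2.2 - (flow Φ ε q.1 q.2.1 m).2) = 0} := hb
      rw [indicator_of_mem this, add_top]
      by_cases h0 : Ψ (W' i).1 = 0
      · rw [h0]; exact zero_le
      · rw [ENNReal.mul_top h0]; exact le_top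
    · rw [indicator_of_mem hb]
      calc Ψ (W' i).1 = Ψ (W' i).1 * 1 := (mul_one _).symm
        _ ≤ _ := mul_le_mul_right (le_trans (le_of_eq rfl) le_self_add) _
  · refine mul_le_mul_right (Finset.sum_le_sum fun m _ => ?_) _
    refine le_trans (le_of_eq ?_) (hB m)
    refine lintegral_congr fun s => ?_
    rw [← lintegral_flow (κ := A') hΦ hε s (fun Z : A' → PhasePoint => ∫⁻ w : Space3,
      ∫⁻ y in Metric.ball (0 : Plane) 1,
        ENNReal.ofReal (Real.exp (-(γ * (energy Φ ε Z + ‖w‖ ^ 2 / 2)))) *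
          (ENNReal.ofReal ‖(Z m).2 - w‖ * G s (flow Φ ε (-s) Z) m
            ((Z m).1 + ε • entrancePoint (frameMap ((Z m).2 - w) y) ((Z m).2 - w), w)))]
    refine lintegral_congr fun W => lintegral_congr fun w => ?_
    refine setLIntegral_congr_fun measurableSet_ball fun y hy => ?_
    have hy1 : ‖y‖ < 1 := by simpa using hy
    simp only [flow_neg_flow hΦ hε, energy_flow hΦ hε]
    congr 1
    by_cases hg : (flow Φ ε s W m).2 - w = 0
    · rw [hg, norm_zero, ENNReal.ofReal_zero, zero_mul, zero_mul]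
    · congr 1
      rw [hGd]
      simp only
      have hni : (s, (W, ((flow Φ ε s W m).1 + ε • entrancePoint (frameMap ((flow Φ ε s W m).2 - w) y)
            ((flow Φ ε s W m).2 - w), w))) ∉ {q : ℝ × ((A' → PhasePoint) × PhasePoint) |
        inner ℝ (q.2.2.1 - (flow Φ ε q.1 q.2.1 m).1) (q.2.2.2 - (flow Φ ε q.1 q.2.1 m).2) = 0} := by
        intro hcon
        have h1 : inner ℝ ((flow Φ ε s W m).1 + ε • entrancePoint
          (frameMap ((flow Φ ε s W m).2 - w) y) ((flow Φ ε s W m).2 - w) - (flow Φ ε s W m).1)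
          (w - (flow Φ ε s W m).2) = 0 := hcon
        rw [add_sub_cancel_left, ← neg_sub (flow Φ ε s W m).2 w] at h1
        exact inner_entrance_pos hε hg hy1 h1
      rw [indicator_of_notMem hni, add_zero]

end Crest.Agent.R122.Flux350

end
end

-- ▼ part R122/Cherry1_796
section

/-!
# Row 122 (helper796), D5 (b): the measure step, preliminaries

`Aft s` (all entrance times of a tree are after `s`): then all particles are on their initial lines
at time `s`; measurability; the free transport and relabellings preserve the volume.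
-/

set_option autoImplicit false
set_option synthInstance.maxSize 1024

open MeasureTheory Set Filter Topology
open Crest.AnalysisR.Kinetic
open scoped ENNReal

noncomputable section

namespace Crest.Agent.R122.Cherry796

open Kin796 Kin796.CTree Disc416 Tree674 TreeEps399 TreeDom974 TreeLim974

variable {Φ : Space3 → ℝ}

/-! ### All entrance times after `s` -/

/-- all entrance times are after `s` -/
def Aft (Φ : Space3 → ℝ) (ε : ℝ) : ∀ P : CTree, ℝ → Space3 → Par P → Prop
  | leaf => fun _ _ _ => True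
  | node l r => fun s v p => s < Tree674.sin Φ ε v p.1 ∧ Aft Φ ε l s (preV Φ v p.1).1 p.2.1 ∧
      Aft Φ ε r s (preV Φ v p.1).2 p.2.2



/-- `Aft` at `ε` implies `Aft` at `0`. -/
theorem aft_zero {ε s : ℝ} (hε : 0 ≤ ε) : ∀ {P : CTree} {v : Space3} {p : Par P},
    Aft Φ ε P s v p → Aft Φ 0 P s v p
  | leaf, _, _, _ => trivial
  | node l r, v, p, h => by
      obtain ⟨h1, h2, h3⟩ := h
      refine ⟨?_, aft_zero hε h2, aft_zero hε h3⟩
      rw [sin_zero]
      exact h1.trans_le (sin_le hε v p.1)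

/-- the set `Adm ∧ Aft` is measurable, jointly in the time -/
theorem measurableSet_aft3 (hΦ : AdmissiblePotential Φ) (ε : ℝ) : ∀ P : CTree,
    MeasurableSet {q : ℝ × Space3 × Par P | Adm Φ P q.2.1 q.2.2 ∧ Aft Φ ε P q.1 q.2.1 q.2.2}
  | leaf => by
      have : {q : ℝ × Space3 × Par leaf | Adm Φ leaf q.2.1 q.2.2 ∧ Aft Φ ε leaf q.1 q.2.1 q.2.2} =
          univ := by
        ext q; simp [Adm, Aft]
      rw [this]; exact MeasurableSet.univ
  | node l r => by
      have hv : Measurable fun q : ℝ × Space3 × Par (node l r) => q.2.1 := measurable_snd.fst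
      have hp : Measurable fun q : ℝ × Space3 × Par (node l r) => q.2.2 := measurable_snd.snd
      have ha : Measurable fun q : ℝ × Space3 × Par (node l r) => q.2.2.1 :=
        (measurable_par1 l r).comp hp
      have hz : Measurable fun q : ℝ × Space3 × Par (node l r) => (q.2.1, q.2.2.1) :=
        hv.prodMk ha
      have hs := (measurable_sM hΦ ε).comp hz
      have hpre := (measurable_preM hΦ).comp hz
      have hl := (measurable_parL l r).comp hp
      have hr := (measurable_parR l r).comp hp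
      have e : {q : ℝ × Space3 × Par (node l r) | Adm Φ (node l r) q.2.1 q.2.2 ∧
            Aft Φ ε (node l r) q.1 q.2.1 q.2.2} =
          ({q | (q.2.1, q.2.2.1) ∈ NS Φ} ∩ {q | q.1 < sM Φ ε (q.2.1, q.2.2.1)}) ∩
          ((fun q => (q.1, (preM Φ (q.2.1, q.2.2.1)).1, q.2.2.2.1)) ⁻¹'
              {q : ℝ × Space3 × Par l | Adm Φ l q.2.1 q.2.2 ∧ Aft Φ ε l q.1 q.2.1 q.2.2} ∩
           (fun q => (q.1, (preM Φ (q.2.1, q.2.2.1)).2, q.2.2.2.2)) ⁻¹'
              {q : ℝ × Space3 × Par r | Adm Φ r q.2.1 q.2.2 ∧ Aft Φ ε r q.1 q.2.1 q.2.2}) := by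
        ext q
        simp only [mem_ofPred_eq, mem_inter_iff, mem_preimage]
        constructor
        · rintro ⟨⟨h2, h3, h4⟩, h5, h6, h7⟩
          have e1 : sM Φ ε (q.2.1, q.2.2.1) = _ := sM_of_adm (z := (q.2.1, q.2.2.1)) h2
          have e2 : preM Φ (q.2.1, q.2.2.1) = _ := preM_of_adm (z := (q.2.1, q.2.2.1)) h2
          rw [e1, e2]
          exact ⟨⟨h2, h5⟩, ⟨h3, h6⟩, h4, h7⟩
        · rintro ⟨⟨h2, h3⟩, h5, h6⟩
          have h2' : Adm1 Φ q.2.1 q.2.2.1 := h2
          have e1 : sM Φ ε (q.2.1, q.2.2.1) = _ := sM_of_adm (z := (q.2.1, q.2.2.1)) h2'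
          have e2 : preM Φ (q.2.1, q.2.2.1) = _ := preM_of_adm (z := (q.2.1, q.2.2.1)) h2'
          rw [e1] at h3
          rw [e2] at h5 h6
          exact ⟨⟨h2', h5.1, h6.1⟩, h3, h5.2, h6.2⟩
      rw [e]
      refine ((hz (measurableSet_NS hΦ)).inter (measurableSet_lt measurable_fst hs)).inter
        (MeasurableSet.inter ?_ ?_)
      · exact (measurable_fst.prodMk (hpre.fst.prodMk hl)) (measurableSet_aft3 hΦ ε l)
      · exact (measurable_fst.prodMk (hpre.snd.prodMk hr)) (measurableSet_aft3 hΦ ε r)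

/-- all exit times are at least `s` -/
def Exs : ∀ P : CTree, ℝ → Par P → Prop
  | leaf => fun _ _ => True
  | node l r => fun s p => s ≤ p.1.1 ∧ Exs l s p.2.1 ∧ Exs r s p.2.2

theorem measurableSet_exs : ∀ P : CTree, MeasurableSet {q : ℝ × Par P | Exs P q.1 q.2}
  | leaf => by
      have : {q : ℝ × Par leaf | Exs leaf q.1 q.2} = univ := by
        ext q; simp [Exs]
      rw [this]; exact MeasurableSet.univ
  | node l r => by
      have hp : Measurable fun q : ℝ × Par (node l r) => q.2 := measurable_snd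
      have ha := ((measurable_par1 l r).comp hp).fst
      have hl := (measurable_parL l r).comp hp
      have hr := (measurable_parR l r).comp hp
      have e : {q : ℝ × Par (node l r) | Exs (node l r) q.1 q.2} =
          {q | q.1 ≤ q.2.1.1} ∩
          ((fun q => (q.1, q.2.2.1)) ⁻¹' {q : ℝ × Par l | Exs l q.1 q.2} ∩
           (fun q => (q.1, q.2.2.2)) ⁻¹' {q : ℝ × Par r | Exs r q.1 q.2}) := rfl
      rw [e]
      exact (measurableSet_le measurable_fst ha).inter
        (((measurable_fst.prodMk hl) (measurableSet_exs l)).inter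
          ((measurable_fst.prodMk hr) (measurableSet_exs r)))

/-- `s` is the exit time of a node -/
def IsEx : ∀ P : CTree, ℝ → Par P → Prop
  | leaf => fun _ _ => False
  | node l r => fun s p => s = p.1.1 ∨ IsEx l s p.2.1 ∨ IsEx r s p.2.2

theorem finite_isEx : ∀ (P : CTree) (p : Par P), {s | IsEx P s p}.Finite
  | leaf, p => by simp [IsEx]
  | node l r, p => by
      have e : {s | IsEx (node l r) s p} = {p.1.1} ∪ ({s | IsEx l s p.2.1} ∪
          {s | IsEx r s p.2.2}) := rfl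
      rw [e]
      exact (finite_singleton _).union ((finite_isEx l p.2.1).union (finite_isEx r p.2.2))

/-- all exit times after `s`: for small `ε` all entrance times are after `s` -/
theorem aft_eventually {s : ℝ} : ∀ {P : CTree} {v : Space3} {p : Par P}, Exs P s p →
    ¬ IsEx P s p → ∀ᶠ ε in 𝓝[>] (0 : ℝ), Aft Φ ε P s v p
  | leaf, _, _, _, _ => Filter.Eventually.of_forall fun _ => trivial
  | node l r, v, p, h, hn => by
      obtain ⟨h1, h2, h3⟩ := h
      have h1' : s < p.1.1 := lt_of_le_of_ne h1 fun h => hn (Or.inl h)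
      filter_upwards [(tendsto_sin v p.1).eventually (lt_mem_nhds h1'),
        aft_eventually (v := (preV Φ v p.1).1) h2 (fun h => hn (Or.inr (Or.inl h))),
        aft_eventually (v := (preV Φ v p.1).2) h3 (fun h => hn (Or.inr (Or.inr h)))]
        with ε e1 e2 e3
      exact ⟨e1, e2, e3⟩

/-! ### Free transport -/






/-- relabelling -/
theorem measurePreserving_relabel {ι κ : Type*} [Fintype ι] [Fintype κ] (e : ι ≃ κ) :
    MeasurePreserving (fun (V : κ → PhasePoint) (x : ι) => V (e x)) volume volume := by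
  exact (volume_measurePreserving_piCongrLeft (fun _ : κ => PhasePoint) e).symm

end Crest.Agent.R122.Cherry796

end
private theorem rz_edb89714ea : type_of% @_root_.Crest.Agent.R122.Cherry796.Aft.eq_def := @_root_.Crest.Agent.R122.Cherry796.Aft.eq_def -- L31
private theorem rz_4b9ec4a442 : type_of% @_root_.Crest.Agent.R122.Cherry796.Aft.eq_1 := @_root_.Crest.Agent.R122.Cherry796.Aft.eq_1 -- L31
private theorem rz_9b88ae9482 : type_of% @_root_.Crest.Agent.R122.Cherry796.Exs.eq_def := @_root_.Crest.Agent.R122.Cherry796.Exs.eq_def -- L111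
private theorem rz_0ee8b53954 : type_of% @_root_.Crest.Agent.R122.Cherry796.Exs.eq_1 := @_root_.Crest.Agent.R122.Cherry796.Exs.eq_1 -- L111
private theorem rz_799618f4f6 : type_of% @_root_.Crest.Agent.R122.Cherry796.IsEx.eq_def := @_root_.Crest.Agent.R122.Cherry796.IsEx.eq_def -- L135
private theorem rz_6123054f65 : type_of% @_root_.Crest.Agent.R122.Cherry796.IsEx.eq_1 := @_root_.Crest.Agent.R122.Cherry796.IsEx.eq_1 -- L135
end

-- ▼ part R122/Cherry2_796
section

/-!
# Row 122 (helper796), D5 (b): the measure step for an abstract grafted tree, definitions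

`P'` is the tree `P` with one more node (parameter `a = (s, w, y)`) attached at the particle `m`.
`CW` = configurations `W` (at time `0`) of the tree `P` (valid and separated), all exit times `≥ s`,
together with a partner `c = (w, y)` of `m` at the time `s`, such that a window of `P` is open at
time `s` or the grafted tree is not valid or not separated.
-/

set_option autoImplicit false
set_option synthInstance.maxSize 1024

open MeasureTheory Set Filter Topology
open Crest.AnalysisR.Kinetic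
open scoped ENNReal

noncomputable section

namespace Crest.Agent.R122.Cherry796

open Kin796 Kin796.CTree Disc416 Tree674 TreeEps399 TreeDom974 TreeLim974

variable {Φ : Space3 → ℝ}

/-! ### The weights -/

/-- weight of the partner -/
def gW (b : ℝ) (c : Space3 × Plane) : ℝ≥0∞ :=
  ENNReal.ofReal (Real.exp (-b * ‖c.1‖ ^ 2)) *
    (Metric.ball (0 : Plane) 1).indicator (1 : Plane → ℝ≥0∞) c.2

theorem measurable_gW (b : ℝ) : Measurable (gW b) := by
  unfold gW
  have h1 : Measurable fun c : Space3 × Plane => ENNReal.ofReal (Real.exp (-b * ‖c.1‖ ^ 2)) := by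
    fun_prop
  exact h1.mul ((measurable_one.indicator measurableSet_ball).comp measurable_snd)

theorem lintegral_gW_ne_top {b : ℝ} (hb : 0 < b) : ∫⁻ c, gW b c ≠ ∞ := by
  have h2 : ∫⁻ q : Space3 × Plane, gW b q =
      (∫⁻ w : Space3, ENNReal.ofReal (Real.exp (-b * ‖w‖ ^ 2))) *
        ∫⁻ y : Plane, (Metric.ball (0 : Plane) 1).indicator (1 : Plane → ℝ≥0∞) y :=
    lintegral_prod_mul (f := fun w : Space3 => ENNReal.ofReal (Real.exp (-b * ‖w‖ ^ 2)))
      (by fun_prop) (measurable_one.indicator measurableSet_ball).aemeasurable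
  rw [h2, lintegral_indicator_one measurableSet_ball]
  exact ENNReal.mul_ne_top (Boltz814.integrable_gauss hb).lintegral_lt_top.ne
    measure_ball_lt_top.ne

/-- weight of a configuration `W` (at time `0`) with an outgoing partner `c = (w, y)` of a particle
with velocity `u` at the collision time; the particle `i0` is localised by `Ψ` -/
def kerW (b : ℝ) {κ : Type*} [Fintype κ] (i0 : κ) (Ψ : Space3 → ℝ≥0∞) (u : Space3)
    (W : κ → PhasePoint) (c : Space3 × Plane) : ℝ≥0∞ :=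
  (ENNReal.ofReal ‖u - c.1‖ * (Metric.ball (0 : Plane) 1).indicator (1 : Plane → ℝ≥0∞) c.2) *
    (ENNReal.ofReal (Real.exp (-b * (∑ x, ‖(W x).2‖ ^ 2 + ‖c.1‖ ^ 2))) * Ψ (W i0).1)

theorem measurable_kerW (b : ℝ) {κ : Type*} [Fintype κ] (i0 : κ) {Ψ : Space3 → ℝ≥0∞}
    (hΨ : Measurable Ψ) :
    Measurable fun z : Space3 × ((κ → PhasePoint) × (Space3 × Plane)) =>
      kerW b i0 Ψ z.1 z.2.1 z.2.2 := by
  unfold kerW
  have hv : ∀ x : κ, Measurable fun z : Space3 × ((κ → PhasePoint) × (Space3 × Plane)) =>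
      (z.2.1 x).2 := fun x => ((measurable_pi_apply x).comp measurable_snd.fst).snd
  have hx : Measurable fun z : Space3 × ((κ → PhasePoint) × (Space3 × Plane)) => (z.2.1 i0).1 :=
    ((measurable_pi_apply i0).comp measurable_snd.fst).fst
  have hw : Measurable fun z : Space3 × ((κ → PhasePoint) × (Space3 × Plane)) => z.2.2.1 :=
    measurable_snd.snd.fst
  refine (Measurable.mul ?_ ?_).mul (Measurable.mul ?_ ?_)
  · exact (measurable_fst.sub hw).norm.ennreal_ofReal
  · exact (measurable_one.indicator measurableSet_ball).comp measurable_snd.snd.snd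
  · refine (Real.measurable_exp.comp ((?_ : Measurable _).const_mul (-b))).ennreal_ofReal
    exact (Finset.measurable_sum _ fun x _ => (hv x).norm.pow_const 2).add (hw.norm.pow_const 2)
  · exact hΨ.comp hx

/-- domination of the weights; `u` is the velocity of a particle of the tree at any time -/
theorem dom_le (hΦ : AdmissiblePotential Φ) {b : ℝ} (hb : 0 < b) (P : CTree) (i0 : Idx P)
    {c0 : ℝ} (hc0 : 0 ≤ c0) :
    ∃ C : ℝ, 0 ≤ C ∧ ∀ (ε T : ℝ) (v : Space3) (p : Par P) (Ψ : Space3 → ℝ≥0∞)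
      (W : Idx P → PhasePoint) (u : Space3) (c : Space3 × Plane), 0 ≤ ε → Valid Φ ε P T v p →
      (∀ x, (W x).2 = vels Φ P v p x) → ‖u‖ ^ 2 ≤ ∑ x, ‖(W x).2‖ ^ 2 + c0 →
      wt Φ P v p * kerW b i0 Ψ u W c ≤ Ψ (W i0).1 * (domG C (b / 2) T P v p * gW (b / 2) c) := by
  have hδ : 0 < b / 2 := half_pos hb
  refine ⟨(P.size + 1).factorial / (b / 2) ^ (P.size + 1) * Real.exp (b / 2) *
    Real.exp ((b / 2) * c0), by positivity, fun ε T v p Ψ W u c hε hV hW hu => ?_⟩
  set E := ‖v‖ ^ 2 + nodeE P p with hE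
  have hE0 : 0 ≤ E := by
    have := nodeE_nonneg P p
    positivity
  have hs : ∑ x, ‖(W x).2‖ ^ 2 = E := by
    rw [hE, ← sum_vels_sq hΦ hV.1]
    exact Finset.sum_congr rfl fun x _ => by rw [hW x]
  rw [hs] at hu
  have hw0 : 0 ≤ ‖c.1‖ ^ 2 := by positivity
  set F := E + ‖c.1‖ ^ 2 with hF
  have hF0 : 0 ≤ F := by positivity
  set F' := F + c0 with hF'
  have hF'0 : 0 ≤ F' := by positivity
  have h1 : wt Φ P v p ≤ ENNReal.ofReal ((1 + F') ^ P.size) :=
    wt_le hΦ (E := F') hV.1 (by rw [hF', hF]; linarith)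
  have h2 : ‖u - c.1‖ ≤ 1 + F' := by
    refine norm_sub_le_energy _ _ ?_
    rw [hF', hF]; linarith
  have h3 := one_add_pow_le hδ hF'0 (P.size + 1)
  have hbox : boxI T P p = 1 := boxI_of_valid hε hV le_rfl
  unfold kerW domG gW
  rw [hs, hbox, one_mul]
  set A : ℝ := (P.size + 1).factorial / (b / 2) ^ (P.size + 1) * Real.exp (b / 2) with hA
  have hA0 : 0 ≤ A := by positivity
  have h4 : ENNReal.ofReal ((1 + F') ^ P.size) * (ENNReal.ofReal (1 + F') *
      ENNReal.ofReal (Real.exp (-b * F))) ≤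
      ENNReal.ofReal (A * Real.exp ((b / 2) * c0) * Real.exp (-(b / 2) * E)) *
        ENNReal.ofReal (Real.exp (-(b / 2) * ‖c.1‖ ^ 2)) := by
    rw [← ENNReal.ofReal_mul (by positivity), ← ENNReal.ofReal_mul (by positivity),
      ← ENNReal.ofReal_mul (by positivity)]
    refine ENNReal.ofReal_le_ofReal ?_
    have e1 : Real.exp ((b / 2) * c0) * (Real.exp (-(b / 2) * E) *
        Real.exp (-(b / 2) * ‖c.1‖ ^ 2)) = Real.exp ((b / 2) * F') * Real.exp (-b * F) := by
      rw [← Real.exp_add, ← Real.exp_add, ← Real.exp_add, hF', hF]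
      congr 1
      ring
    calc (1 + F') ^ P.size * ((1 + F') * Real.exp (-b * F))
        = (1 + F') ^ (P.size + 1) * Real.exp (-b * F) := by ring
      _ ≤ (A * Real.exp ((b / 2) * F')) * Real.exp (-b * F) := by
          gcongr
      _ = A * Real.exp ((b / 2) * c0) * Real.exp (-(b / 2) * E) *
          Real.exp (-(b / 2) * ‖c.1‖ ^ 2) := by
          rw [mul_assoc A, ← e1]; ring
  calc wt Φ P v p * (ENNReal.ofReal ‖u - c.1‖ *
          (Metric.ball (0 : Plane) 1).indicator (1 : Plane → ℝ≥0∞) c.2 *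
          (ENNReal.ofReal (Real.exp (-b * (E + ‖c.1‖ ^ 2))) * Ψ (W i0).1))
      ≤ ENNReal.ofReal ((1 + F') ^ P.size) * (ENNReal.ofReal (1 + F') *
          (Metric.ball (0 : Plane) 1).indicator (1 : Plane → ℝ≥0∞) c.2 *
          (ENNReal.ofReal (Real.exp (-b * F)) * Ψ (W i0).1)) := by
        gcongr
    _ = (ENNReal.ofReal ((1 + F') ^ P.size) * (ENNReal.ofReal (1 + F') *
          ENNReal.ofReal (Real.exp (-b * F)))) *
          ((Metric.ball (0 : Plane) 1).indicator (1 : Plane → ℝ≥0∞) c.2 * Ψ (W i0).1) := by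
        ring
    _ ≤ (ENNReal.ofReal (A * Real.exp ((b / 2) * c0) * Real.exp (-(b / 2) * E)) *
        ENNReal.ofReal (Real.exp (-(b / 2) * ‖c.1‖ ^ 2))) *
          ((Metric.ball (0 : Plane) 1).indicator (1 : Plane → ℝ≥0∞) c.2 * Ψ (W i0).1) := by
        gcongr
    _ = _ := by ring

/-! ### Abstract grafts -/

/-- What is used of the grafted tree. -/
structure IsGraft (Φ : Space3 → ℝ) (P P' : CTree) (m : Idx P) (g : NodeP × Par P ≃ᵐ Par P') :
    Prop where
  mp : MeasurePreserving g volume volume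
  valid0 : ∀ (T : ℝ) (v : Space3) (p : Par P) (a : NodeP), Valid Φ 0 P T v p →
    Aft Φ 0 P a.1 v p → Adm1 Φ (vels Φ P v p m) a → 0 < a.1 → a.1 < T →
    Valid Φ 0 P' T v (g (a, p))

/-- the **measurable bad set**: `s`, `W`, `(w, y)` -/
def CW1 (Φ : Space3 → ℝ) (ε T : ℝ) {P P' : CTree} (g : NodeP × Par P ≃ᵐ Par P') :
    Set (ℝ × ((Idx P → PhasePoint) × (Space3 × Plane))) :=
  {c | (c.2.1 ∈ Skel Φ ε P T ∧ inv Φ ε P T c.2.1 ∈ goodS Φ ε P T ∧
      Exs P c.1 (inv Φ ε P T c.2.1).2) ∧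
    ¬ (Aft Φ ε P c.1 (inv Φ ε P T c.2.1).1.2 (inv Φ ε P T c.2.1).2 ∧
      ((inv Φ ε P T c.2.1).1, g ((c.1, c.2.2), (inv Φ ε P T c.2.1).2)) ∈ goodS Φ ε P' T)}

theorem mem_CW1 (hΦ : AdmissiblePotential Φ) {ε T : ℝ} (hε : 0 < ε) {P P' : CTree}
    {g : NodeP × Par P ≃ᵐ Par P'} {s : ℝ} {ℓ : PhasePoint}
    {p : Par P} {c : Space3 × Plane} (hG : (ℓ, p) ∈ goodS Φ ε P T) (hs : Exs P s p)
    (hB : ¬ (Aft Φ ε P s ℓ.2 p ∧ (ℓ, g ((s, c), p)) ∈ goodS Φ ε P' T)) :
    (s, (lines Φ ε P ℓ p, c)) ∈ CW1 Φ ε T g := by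
  have e2 : inv Φ ε P T (lines Φ ε P ℓ p) = (ℓ, p) := inv_lines hΦ hε hG.1 le_rfl
  show (_ ∧ _ ∧ _) ∧ _
  simp only [e2]
  exact ⟨⟨mem_skel_lines hG.1, hG, hs⟩, hB⟩

theorem measurableSet_CW1 (hΦ : AdmissiblePotential Φ) {ε T : ℝ} (hε : 0 < ε) {P P' : CTree}
    (g : NodeP × Par P ≃ᵐ Par P') : MeasurableSet (CW1 Φ ε T g) := by
  have hs : Measurable fun c : ℝ × ((Idx P → PhasePoint) × (Space3 × Plane)) => c.1 :=
    measurable_fst
  have hW : Measurable fun c : ℝ × ((Idx P → PhasePoint) × (Space3 × Plane)) => c.2.1 :=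
    measurable_snd.fst
  have hi := (measurable_inv hΦ hε P T).comp hW
  have ha : Measurable fun c : ℝ × ((Idx P → PhasePoint) × (Space3 × Plane)) =>
      ((c.1, c.2.2) : NodeP) := hs.prodMk measurable_snd.snd
  have h1 := (measurableSet_skel hΦ hε P T).preimage hW
  have h2 := (measurableSet_goodS hΦ hε P T).preimage hi
  have h3 := (measurableSet_exs P).preimage (hs.prodMk hi.snd)
  have h4 := (measurableSet_aft3 hΦ ε P).preimage (hs.prodMk (hi.fst.snd.prodMk hi.snd))
  have h5 := (measurableSet_goodS hΦ hε P' T).preimage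
    (hi.fst.prodMk (g.measurable.comp (ha.prodMk hi.snd)))
  have h6 := (h1.inter (h2.inter h3)).inter ((h4.inter h5).compl)
  convert h6 using 1
  ext c
  constructor
  · rintro ⟨⟨a1, a2, a3⟩, a4⟩
    exact ⟨⟨a1, a2, a3⟩, fun h => a4 ⟨h.1.2, h.2⟩⟩
  · rintro ⟨⟨a1, a2, a3⟩, a4⟩
    exact ⟨⟨a1, a2, a3⟩, fun h => a4 ⟨⟨a2.1.1, h.1⟩, h.2⟩⟩

end Crest.Agent.R122.Cherry796

end
end

-- ▼ part R122/Cherry3_796
section

/-!
# Row 122 (helper796), D5 (b): the measure step for an abstract grafted tree, limits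
-/

set_option autoImplicit false
set_option synthInstance.maxSize 1024

open MeasureTheory Set Filter Topology
open Crest.AnalysisR.Kinetic
open scoped ENNReal

noncomputable section

namespace Crest.Agent.R122.Cherry796

open Kin796 Kin796.CTree Disc416 Tree674 TreeEps399 TreeDom974 TreeLim974 Flow671

variable {Φ : Space3 → ℝ}

/-! ### The two null sets -/

/-- valid straight-line trees which are not good at `ε` -/
def N1 (Φ : Space3 → ℝ) (ε : ℝ) (P : CTree) (T : ℝ) : Set (Space3 × Par P) :=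
  {u | Valid Φ 0 P T u.1 u.2 ∧ ((((0 : Space3), u.1), u.2) : PhasePoint × Par P) ∉ goodS Φ ε P T}

theorem measurableSet_N1 (hΦ : AdmissiblePotential Φ) {ε : ℝ} (hε : 0 < ε) (P : CTree) (T : ℝ) :
    MeasurableSet (N1 Φ ε P T) := by
  have h0 : Measurable fun u : Space3 × Par P => ((((0 : Space3), u.1), u.2) : PhasePoint × Par P) :=
    (measurable_const.prodMk measurable_fst).prodMk measurable_snd
  have h1 : MeasurableSet {u : Space3 × Par P | Valid Φ 0 P T u.1 u.2} :=
    (measurableSet_valid hΦ 0 P T).preimage h0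
  exact h1.inter ((measurableSet_goodS hΦ hε P T).preimage h0).compl

theorem goodS_shift {ε T : ℝ} {P : CTree} {v : Space3} {p : Par P} (X : Space3) :
    (((X, v), p) : PhasePoint × Par P) ∈ goodS Φ ε P T ↔
      ((((0 : Space3), v), p) : PhasePoint × Par P) ∈ goodS Φ ε P T := by
  unfold goodS
  simp only [mem_ofPred_eq]
  rw [Hid424.sep_shift X]

theorem tendsto_N1 (hΦ : AdmissiblePotential Φ) (P : CTree) (T : ℝ)
    {F : Space3 × Par P → ℝ≥0∞} (hF : Measurable F) (hFi : ∫⁻ u, F u ≠ ∞) :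
    Tendsto (fun ε => ∫⁻ u, F u * (N1 Φ ε P T).indicator (1 : Space3 × Par P → ℝ≥0∞) u)
      (𝓝[>] 0) (𝓝 0) := by
  have h0 : ∫⁻ _u : Space3 × Par P, (0 : ℝ≥0∞) = 0 := lintegral_zero
  rw [← h0]
  refine tendsto_lintegral_filter_of_dominated_convergence F ?_ ?_ hFi ?_
  · filter_upwards [eventually_pos] with ε hε
    exact hF.mul (measurable_one.indicator (measurableSet_N1 hΦ hε P T))
  · refine Filter.Eventually.of_forall fun ε => Filter.Eventually.of_forall fun u => ?_
    calc F u * (N1 Φ ε P T).indicator (1 : Space3 × Par P → ℝ≥0∞) u ≤ F u * 1 := by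
          gcongr
          exact indicator_le_self' (fun _ _ => bot_le) u
      _ = F u := mul_one _
  · filter_upwards [gen_ae_q hΦ P T] with u hu
    by_cases hV : Valid Φ 0 P T u.1 u.2
    · refine (tendsto_congr' ?_).mpr tendsto_const_nhds
      filter_upwards [Hid424.eventually_good hΦ hV (hu hV)] with ε hε
      rw [indicator_of_notMem, mul_zero]
      exact fun h => h.2 ⟨hε.2.1, hε.2.2 0⟩
    · refine (tendsto_congr' ?_).mpr tendsto_const_nhds
      refine Filter.Eventually.of_forall fun ε => ?_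
      show _ * _ = _
      rw [indicator_of_notMem, mul_zero]
      exact fun h => hV h.1

/-- a window is open at `s` -/
def N2 (Φ : Space3 → ℝ) (ε : ℝ) (P : CTree) (T : ℝ) : Set (ℝ × (Space3 × Par P)) :=
  {z | Valid Φ 0 P T z.2.1 z.2.2 ∧ Exs P z.1 z.2.2 ∧ ¬ Aft Φ ε P z.1 z.2.1 z.2.2}

theorem measurableSet_N2 (hΦ : AdmissiblePotential Φ) (ε : ℝ) (P : CTree) (T : ℝ) :
    MeasurableSet (N2 Φ ε P T) := by
  have h0 : Measurable fun z : ℝ × (Space3 × Par P) =>
      ((((0 : Space3), z.2.1), z.2.2) : PhasePoint × Par P) :=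
    (measurable_const.prodMk measurable_snd.fst).prodMk measurable_snd.snd
  have h1 := (measurableSet_valid hΦ 0 P T).preimage h0
  have h2 := (measurableSet_exs P).preimage (measurable_fst.prodMk measurable_snd.snd :
    Measurable fun z : ℝ × (Space3 × Par P) => (z.1, z.2.2))
  have h3 := measurableSet_aft3 hΦ ε P
  have h4 := (h1.inter h2).inter h3.compl
  convert h4 using 1
  ext z
  constructor
  · rintro ⟨a1, a2, a3⟩
    exact ⟨⟨a1, a2⟩, fun h => a3 h.2⟩
  · rintro ⟨⟨a1, a2⟩, a3⟩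
    exact ⟨a1, a2, fun h => a3 ⟨a1.1, h⟩⟩

theorem measurableSet_isEx : ∀ P : CTree, MeasurableSet {q : ℝ × Par P | IsEx P q.1 q.2}
  | leaf => by
      have : {q : ℝ × Par leaf | IsEx leaf q.1 q.2} = ∅ := by
        ext q; simp [IsEx]
      rw [this]; exact MeasurableSet.empty
  | node l r => by
      have hp : Measurable fun q : ℝ × Par (node l r) => q.2 := measurable_snd
      have ha := ((measurable_par1 l r).comp hp).fst
      have hl := (measurable_parL l r).comp hp
      have hr := (measurable_parR l r).comp hp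
      have e : {q : ℝ × Par (node l r) | IsEx (node l r) q.1 q.2} =
          {q | q.1 = q.2.1.1} ∪
          ((fun q => (q.1, q.2.2.1)) ⁻¹' {q : ℝ × Par l | IsEx l q.1 q.2} ∪
           (fun q => (q.1, q.2.2.2)) ⁻¹' {q : ℝ × Par r | IsEx r q.1 q.2}) := rfl
      rw [e]
      exact (measurableSet_eq_fun measurable_fst ha).union
        (((measurable_fst.prodMk hl) (measurableSet_isEx l)).union
          ((measurable_fst.prodMk hr) (measurableSet_isEx r)))

theorem ae_not_isEx (P : CTree) : ∀ᵐ z : ℝ × (Space3 × Par P), ¬ IsEx P z.1 z.2.2 := by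
  have hm : MeasurableSet {z : ℝ × (Space3 × Par P) | IsEx P z.1 z.2.2} :=
    (measurableSet_isEx P).preimage (measurable_fst.prodMk measurable_snd.snd :
      Measurable fun z : ℝ × (Space3 × Par P) => (z.1, z.2.2))
  rw [ae_iff]
  simp only [not_not]
  have hvol : (volume : Measure (ℝ × (Space3 × Par P))) =
      (volume : Measure ℝ).prod (volume : Measure (Space3 × Par P)) := rfl
  rw [hvol, Measure.prod_apply_symm hm]
  have h : ∀ q : Space3 × Par P, volume ((fun x : ℝ => (x, q)) ⁻¹'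
      {z : ℝ × (Space3 × Par P) | IsEx P z.1 z.2.2}) = 0 := fun q =>
    (finite_isEx P q.2).measure_zero _
  simp only [h, lintegral_zero]

theorem tendsto_N2 (hΦ : AdmissiblePotential Φ) (P : CTree) (T : ℝ)
    {F : ℝ × (Space3 × Par P) → ℝ≥0∞} (hF : Measurable F) (hFi : ∫⁻ u, F u ≠ ∞) :
    Tendsto (fun ε => ∫⁻ u, F u * (N2 Φ ε P T).indicator (1 : ℝ × (Space3 × Par P) → ℝ≥0∞) u)
      (𝓝[>] 0) (𝓝 0) := by
  have h0 : ∫⁻ _u : ℝ × (Space3 × Par P), (0 : ℝ≥0∞) = 0 := lintegral_zero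
  rw [← h0]
  refine tendsto_lintegral_filter_of_dominated_convergence F ?_ ?_ hFi ?_
  · refine Filter.Eventually.of_forall fun ε => ?_
    exact hF.mul (measurable_one.indicator (measurableSet_N2 hΦ ε P T))
  · refine Filter.Eventually.of_forall fun ε => Filter.Eventually.of_forall fun u => ?_
    calc F u * (N2 Φ ε P T).indicator (1 : ℝ × (Space3 × Par P) → ℝ≥0∞) u ≤ F u * 1 := by
          gcongr
          exact indicator_le_self' (fun _ _ => bot_le) u
      _ = F u := mul_one _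
  · filter_upwards [ae_not_isEx P] with u hu
    by_cases hV : Exs P u.1 u.2.2
    · refine (tendsto_congr' ?_).mpr tendsto_const_nhds
      filter_upwards [aft_eventually (Φ := Φ) (v := u.2.1) hV hu] with ε hε
      rw [indicator_of_notMem, mul_zero]
      exact fun h => h.2.2 hε
    · refine (tendsto_congr' ?_).mpr tendsto_const_nhds
      refine Filter.Eventually.of_forall fun ε => ?_
      show _ * _ = _
      rw [indicator_of_notMem, mul_zero]
      exact fun h => hV h.2.1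

/-! ### Integration over the parameters of the grafted tree -/

theorem lintegral_theta {P P' : CTree} {m : Idx P} {g : NodeP × Par P ≃ᵐ Par P'}
    (hg : IsGraft Φ P P' m g) {G : Space3 × Par P' → ℝ≥0∞} (hG : Measurable G) :
    ∫⁻ s : ℝ, ∫⁻ q : Space3 × Par P, ∫⁻ c : Space3 × Plane, G (q.1, g ((s, c), q.2)) =
      ∫⁻ u, G u := by
  have hG3 : Measurable fun z : Space3 × (NodeP × Par P) => G (z.1, g z.2) :=
    hG.comp (measurable_fst.prodMk (g.measurable.comp measurable_snd))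
  have e1 : ∫⁻ u : Space3 × Par P', G u = ∫⁻ v : Space3, ∫⁻ a : NodeP, ∫⁻ p : Par P,
      G (v, g (a, p)) := by
    have hvol : (volume : Measure (Space3 × Par P')) =
      (volume : Measure Space3).prod (volume : Measure (Par P')) := rfl
    rw [hvol, lintegral_prod _ hG.aemeasurable]
    refine lintegral_congr fun v => ?_
    have h1 : Measurable fun p' : Par P' => G (v, p') := hG.comp measurable_prodMk_left
    rw [← hg.mp.lintegral_comp h1]
    have hvol2 : (volume : Measure (NodeP × Par P)) =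
      (volume : Measure NodeP).prod (volume : Measure (Par P)) := rfl
    rw [hvol2]
    exact lintegral_prod _ (h1.comp g.measurable).aemeasurable
  have e2 : ∀ v : Space3, ∫⁻ a : NodeP, ∫⁻ p : Par P, G (v, g (a, p)) =
      ∫⁻ s : ℝ, ∫⁻ c : Space3 × Plane, ∫⁻ p : Par P, G (v, g ((s, c), p)) := by
    intro v
    have h1 : Measurable fun a : NodeP => ∫⁻ p : Par P, G (v, g (a, p)) := by
      refine Measurable.lintegral_prod_right' (f := fun z : NodeP × Par P => G (v, g z)) ?_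
      exact hG.comp (measurable_const.prodMk g.measurable)
    have hvol : (volume : Measure NodeP) =
      (volume : Measure ℝ).prod (volume : Measure (Space3 × Plane)) := rfl
    rw [hvol, lintegral_prod _ h1.aemeasurable]
  have e3 : ∀ s : ℝ, ∫⁻ q : Space3 × Par P, ∫⁻ c : Space3 × Plane, G (q.1, g ((s, c), q.2)) =
      ∫⁻ v : Space3, ∫⁻ c : Space3 × Plane, ∫⁻ p : Par P, G (v, g ((s, c), p)) := by
    intro s
    have h2 : Measurable fun z : (Space3 × Par P) × (Space3 × Plane) =>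
        G (z.1.1, g ((s, z.2), z.1.2)) :=
      hG.comp (measurable_fst.fst.prodMk (g.measurable.comp
        ((measurable_const.prodMk measurable_snd).prodMk measurable_fst.snd)))
    have h1 : Measurable fun q : Space3 × Par P =>
        ∫⁻ c : Space3 × Plane, G (q.1, g ((s, c), q.2)) :=
      Measurable.lintegral_prod_right' (f := fun z : (Space3 × Par P) × (Space3 × Plane) =>
        G (z.1.1, g ((s, z.2), z.1.2))) h2
    have hvol : (volume : Measure (Space3 × Par P)) =
      (volume : Measure Space3).prod (volume : Measure (Par P)) := rfl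
    rw [hvol, lintegral_prod _ h1.aemeasurable]
    refine lintegral_congr fun v => ?_
    refine lintegral_lintegral_swap ?_
    have h3 : Measurable fun z : Par P × (Space3 × Plane) => G (v, g ((s, z.2), z.1)) :=
      hG.comp (measurable_const.prodMk (g.measurable.comp
        ((measurable_const.prodMk measurable_snd).prodMk measurable_fst)))
    exact h3.aemeasurable
  rw [e1]
  simp only [e2, e3]
  refine lintegral_lintegral_swap ?_
  have h4 : Measurable fun z : (ℝ × Space3) × ((Space3 × Plane) × Par P) =>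
      G (z.1.2, g ((z.1.1, z.2.1), z.2.2)) :=
    hG.comp (measurable_fst.snd.prodMk (g.measurable.comp
      ((measurable_fst.fst.prodMk measurable_snd.fst).prodMk measurable_snd.snd)))
  have h5 : Measurable fun z : (ℝ × Space3) × (Space3 × Plane) => ∫⁻ p : Par P,
      G (z.1.2, g ((z.1.1, z.2), p)) :=
    Measurable.lintegral_prod_right' (f := fun z : ((ℝ × Space3) × (Space3 × Plane)) × Par P =>
      G (z.1.1.2, g ((z.1.1.1, z.1.2), z.2))) (hG.comp (measurable_fst.fst.snd.prodMk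
        (g.measurable.comp ((measurable_fst.fst.fst.prodMk measurable_fst.snd).prodMk
          measurable_snd))))
  exact (Measurable.lintegral_prod_right' (f := fun z : (ℝ × Space3) × (Space3 × Plane) =>
    ∫⁻ p : Par P, G (z.1.2, g ((z.1.1, z.2), p))) h5).aemeasurable

end Crest.Agent.R122.Cherry796

end
end

-- ▼ part R122/Cherry4_796
section

/-!
# Row 122 (helper796), D5 (b): the measure step for an abstract grafted tree, main estimate
-/

set_option autoImplicit false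
set_option synthInstance.maxSize 1024

open MeasureTheory Set Filter Topology
open Crest.AnalysisR.Kinetic
open scoped ENNReal

noncomputable section

namespace Crest.Agent.R122.Cherry796

open Kin796 Kin796.CTree Disc416 Tree674 TreeEps399 TreeDom974 TreeLim974 Flow671

variable {Φ : Space3 → ℝ}

theorem ae_adm (hΦ : AdmissiblePotential Φ) (v : Space3) (s : ℝ) :
    ∀ᵐ c : Space3 × Plane, ‖c.2‖ < 1 → Adm1 Φ v (s, c) := by
  have hm : MeasurableSet {c : Space3 × Plane | ‖c.2‖ < 1 ∧ ¬ Adm1 Φ v (s, c)} := by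
    refine (measurableSet_lt measurable_snd.norm measurable_const).inter
      ((TreeF399.measurableSet_adm1 hΦ).preimage
        (measurable_const.prodMk (measurable_const.prodMk measurable_id) :
          Measurable fun c : Space3 × Plane => (v, ((s, c) : NodeP)))).compl
  have h0 : volume {c : Space3 × Plane | ‖c.2‖ < 1 ∧ ¬ Adm1 Φ v (s, c)} = 0 := by
    have hvol : (volume : Measure (Space3 × Plane)) =
      (volume : Measure Space3).prod (volume : Measure Plane) := rfl
    rw [hvol, Measure.measure_prod_null hm]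
    have hne : ∀ᵐ w : Space3, w ≠ v := by
      rw [ae_iff]
      simp
    filter_upwards [hne] with w hw
    have h1 := TreeF399.ae_adm1 hΦ (Ne.symm hw) s
    have h2 : ∀ᵐ y : Plane, y ∉ Prod.mk w ⁻¹' {c : Space3 × Plane | ‖c.2‖ < 1 ∧
        ¬ Adm1 Φ v (s, c)} := by
      filter_upwards [h1] with y hy hy2
      exact hy2.2 (hy (by simpa using hy2.1))
    exact measure_eq_zero_iff_ae_notMem.mpr h2
  have h1 := measure_eq_zero_iff_ae_notMem.mp h0
  filter_upwards [h1] with c hc hc1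
  by_contra h
  exact hc ⟨hc1, h⟩

/-- the integrand after the change of variables -/
def Rq (Φ : Space3 → ℝ) (ε T C b : ℝ) {P P' : CTree} (g : NodeP × Par P ≃ᵐ Par P') (s : ℝ)
    (q : Space3 × Par P) : ℝ≥0∞ :=
  ∫⁻ c : Space3 × Plane, (domG C (b / 2) T P q.1 q.2 * gW (b / 2) c) *
    ((N1 Φ ε P' T).indicator (1 : Space3 × Par P' → ℝ≥0∞) (q.1, g ((s, c), q.2)) +
      (N2 Φ ε P T).indicator (1 : ℝ × (Space3 × Par P) → ℝ≥0∞) (s, q))

theorem measurable_Rq (hΦ : AdmissiblePotential Φ) {ε : ℝ} (hε : 0 < ε) (T : ℝ) {C : ℝ}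
    (hC : 0 ≤ C) (b : ℝ) {P P' : CTree} (g : NodeP × Par P ≃ᵐ Par P') :
    Measurable fun z : ℝ × (Space3 × Par P) => Rq Φ ε T C b g z.1 z.2 := by
  unfold Rq
  refine Measurable.lintegral_prod_right'
    (f := fun z : (ℝ × (Space3 × Par P)) × (Space3 × Plane) =>
      (domG C (b / 2) T P z.1.2.1 z.1.2.2 * gW (b / 2) z.2) *
    ((N1 Φ ε P' T).indicator (1 : Space3 × Par P' → ℝ≥0∞) (z.1.2.1, g ((z.1.1, z.2), z.1.2.2)) +
      (N2 Φ ε P T).indicator (1 : ℝ × (Space3 × Par P) → ℝ≥0∞) (z.1.1, z.1.2))) ?_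
  have h1 : Measurable fun z : (ℝ × (Space3 × Par P)) × (Space3 × Plane) =>
      domG C (b / 2) T P z.1.2.1 z.1.2.2 := (measurable_domG hC (b / 2) T P).comp measurable_fst.snd
  have h2 : Measurable fun z : (ℝ × (Space3 × Par P)) × (Space3 × Plane) => gW (b / 2) z.2 :=
    (measurable_gW (b / 2)).comp measurable_snd
  have h3 : Measurable fun z : (ℝ × (Space3 × Par P)) × (Space3 × Plane) =>
      (z.1.2.1, g ((z.1.1, z.2), z.1.2.2)) :=
    measurable_fst.snd.fst.prodMk (g.measurable.comp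
      ((measurable_fst.fst.prodMk measurable_snd).prodMk measurable_fst.snd.snd))
  exact (h1.mul h2).mul (((measurable_one.indicator (measurableSet_N1 hΦ hε P' T)).comp h3).add
    ((measurable_one.indicator (measurableSet_N2 hΦ ε P T)).comp measurable_fst))

/-- the integral over the partner -/
def Kc (Φ : Space3 → ℝ) (ε T b : ℝ) {P P' : CTree} (m i0 : Idx P) (g : NodeP × Par P ≃ᵐ Par P')
    (Ψ : Space3 → ℝ≥0∞) (s : ℝ) (W : Idx P → PhasePoint) : ℝ≥0∞ :=
  ∫⁻ c : Space3 × Plane, kerW b i0 Ψ (flow Φ ε s W m).2 W c *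
    (CW1 Φ ε T g).indicator (1 : ℝ × ((Idx P → PhasePoint) × (Space3 × Plane)) → ℝ≥0∞) (s, (W, c))

theorem measurable_Kc (hΦ : AdmissiblePotential Φ) {ε : ℝ} (hε : 0 < ε) (T b : ℝ)
    {P P' : CTree} (m i0 : Idx P) (g : NodeP × Par P ≃ᵐ Par P') {Ψ : Space3 → ℝ≥0∞}
    (hΨ : Measurable Ψ) :
    Measurable fun z : ℝ × (Idx P → PhasePoint) => Kc Φ ε T b m i0 g Ψ z.1 z.2 := by
  unfold Kc
  refine Measurable.lintegral_prod_right'
    (f := fun z : (ℝ × (Idx P → PhasePoint)) × (Space3 × Plane) =>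
      kerW b i0 Ψ (flow Φ ε z.1.1 z.1.2 m).2 z.1.2 z.2 *
    (CW1 Φ ε T g).indicator (1 : ℝ × ((Idx P → PhasePoint) × (Space3 × Plane)) → ℝ≥0∞)
      (z.1.1, (z.1.2, z.2))) ?_
  have h1 : Measurable fun z : (ℝ × (Idx P → PhasePoint)) × (Space3 × Plane) =>
      (flow Φ ε z.1.1 z.1.2 m).2 :=
    ((measurable_pi_apply m).comp ((measurable_flow_joint hΦ hε).comp measurable_fst)).snd
  exact ((measurable_kerW b i0 hΨ).comp
    (h1.prodMk (measurable_fst.snd.prodMk measurable_snd))).mul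
    ((measurable_one.indicator (measurableSet_CW1 hΦ hε g)).comp
      (measurable_fst.fst.prodMk (measurable_fst.snd.prodMk measurable_snd)))

theorem measurable_Kcs (hΦ : AdmissiblePotential Φ) {ε : ℝ} (hε : 0 < ε) (T b : ℝ)
    {P P' : CTree} (m i0 : Idx P) (g : NodeP × Par P ≃ᵐ Par P') {Ψ : Space3 → ℝ≥0∞}
    (hΨ : Measurable Ψ) (s : ℝ) :
    Measurable fun W : Idx P → PhasePoint => Kc Φ ε T b m i0 g Ψ s W := by
  have h1 := measurable_Kc hΦ hε T b m i0 g hΨ
  have h2 : Measurable fun W : Idx P → PhasePoint => (s, W) := measurable_prodMk_left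
  exact Measurable.comp (g := fun z : ℝ × (Idx P → PhasePoint) => Kc Φ ε T b m i0 g Ψ z.1 z.2)
    (f := fun W : Idx P → PhasePoint => (s, W)) h1 h2

theorem energy_lines (hΦ : AdmissiblePotential Φ) {ε T : ℝ} (hε : 0 < ε) (hT : 0 ≤ T) {P : CTree}
    {z : PhasePoint × Par P} (hz : z ∈ goodS Φ ε P T) :
    energy Φ ε (lines Φ ε P z.1 z.2) = (1 / 2) * ∑ i, ‖vels Φ P z.1.2 z.2 i‖ ^ 2 := by
  rw [Loc45.energy_eq_kin_add_pot, Loc45.pot_eq_zero hΦ hε, add_zero]
  · unfold Loc45.kin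
    simp only [Hid424.lines_vel]
  · intro i j hij
    exact (PathFlow968.Sep.zero (ℓ := z.1) hε.le hT hz.1.2 hz.2 hij).le

theorem vel_le (hΦ : AdmissiblePotential Φ) {ε T : ℝ} (hε : 0 < ε) (hT : 0 ≤ T) {P : CTree}
    {z : PhasePoint × Par P} (hz : z ∈ goodS Φ ε P T) (s : ℝ) (m : Idx P) :
    ‖(flow Φ ε s (lines Φ ε P z.1 z.2) m).2‖ ^ 2 ≤
      ∑ x, ‖(lines Φ ε P z.1 z.2 x).2‖ ^ 2 + 2 * (Loc45.stabB Φ * Fintype.card (Idx P)) := by
  have h1 := Loc45.norm_vel_flow_sq_le hΦ hε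
    (PathFlow968.lines_mem_Dom (ℓ := z.1) hε hT hz.1.2 hz.2) s m
  rw [energy_lines hΦ hε hT hz] at h1
  simp only [Hid424.lines_vel]
  linarith

/-- **pointwise bound** -/
theorem key (hΦ : AdmissiblePotential Φ) {b : ℝ} (hb : 0 < b) {P P' : CTree} {m : Idx P}
    {g : NodeP × Par P ≃ᵐ Par P'} (hg : IsGraft Φ P P' m g) (i0 : Idx P) :
    ∃ C : ℝ, 0 ≤ C ∧ ∀ (ε T s : ℝ) (Ψ : Space3 → ℝ≥0∞) (ℓ : PhasePoint) (p : Par P),
      0 < ε → s ∈ Ioo 0 T → Valid Φ ε P T ℓ.2 p →
      wt Φ P ℓ.2 p * Kc Φ ε T b m i0 g Ψ s (lines Φ ε P ℓ p) ≤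
        Ψ (lines Φ ε P ℓ p i0).1 * Rq Φ ε T C b g s (ℓ.2, p) := by
  obtain ⟨C, hC, hdom⟩ := dom_le hΦ hb P i0 (c0 := 2 * (Loc45.stabB Φ * Fintype.card (Idx P)))
    (by have := Loc45.stabB_nonneg Φ; positivity)
  refine ⟨C, hC, fun ε T s Ψ ℓ p hε hs hV => ?_⟩
  unfold Kc Rq
  rw [← lintegral_const_mul' _ _ (wt_ne_top P ℓ.2 p)]
  have hmeas : Measurable fun c : Space3 × Plane =>
      (domG C (b / 2) T P ℓ.2 p * gW (b / 2) c) *
    ((N1 Φ ε P' T).indicator (1 : Space3 × Par P' → ℝ≥0∞) (ℓ.2, g ((s, c), p)) +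
      (N2 Φ ε P T).indicator (1 : ℝ × (Space3 × Par P) → ℝ≥0∞) (s, (ℓ.2, p))) := by
    refine (measurable_const.mul (measurable_gW _)).mul (Measurable.add ?_ measurable_const)
    exact (measurable_one.indicator (measurableSet_N1 hΦ hε P' T)).comp
      (measurable_const.prodMk (g.measurable.comp
        ((measurable_const.prodMk measurable_id).prodMk measurable_const)))
  rw [← lintegral_const_mul _ hmeas]
  refine lintegral_mono_ae ?_
  filter_upwards [ae_adm hΦ (vels Φ P ℓ.2 p m) s] with c hc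
  by_cases hmem : (s, (lines Φ ε P ℓ p, c)) ∈ CW1 Φ ε T g
  swap
  · rw [indicator_of_notMem hmem, mul_zero, mul_zero]
    exact bot_le
  rw [indicator_of_mem hmem]
  obtain ⟨⟨-, hgood, hexs⟩, hbad⟩ := hmem
  rw [show (s, (lines Φ ε P ℓ p, c)).2.1 = lines Φ ε P ℓ p from rfl,
    inv_lines hΦ hε hV le_rfl] at hgood hexs hbad
  have hT : 0 ≤ T := (hs.1.trans hs.2).le
  have h1 := hdom ε T ℓ.2 p Ψ (lines Φ ε P ℓ p) (flow Φ ε s (lines Φ ε P ℓ p) m).2 c hε.le hV
    (fun x => Hid424.lines_vel ε P ℓ p x) (vel_le hΦ hε hT hgood s m)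
  by_cases hy : ‖c.2‖ < 1
  swap
  · have : kerW b i0 Ψ (flow Φ ε s (lines Φ ε P ℓ p) m).2 (lines Φ ε P ℓ p) c = 0 := by
      unfold kerW
      rw [indicator_of_notMem (by simpa using hy)]
      simp
    rw [this, zero_mul, mul_zero]
    exact bot_le
  have hadm := hc hy
  have hone : (1 : ℝ≥0∞) ≤
      (N1 Φ ε P' T).indicator (1 : Space3 × Par P' → ℝ≥0∞) (ℓ.2, g ((s, c), p)) +
      (N2 Φ ε P T).indicator (1 : ℝ × (Space3 × Par P) → ℝ≥0∞) (s, (ℓ.2, p)) := by
    by_cases hA : Aft Φ ε P s ℓ.2 p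
    · have hN : (ℓ.2, g ((s, c), p)) ∈ N1 Φ ε P' T := by
        refine ⟨hg.valid0 T ℓ.2 p (s, c) (valid_zero hε.le hV) (aft_zero hε.le hA) hadm hs.1 hs.2,
          fun h => hbad ⟨hA, ?_⟩⟩
        exact (goodS_shift ℓ.1).mpr h
      rw [indicator_of_mem hN]
      exact le_self_add
    · have hN : (s, (ℓ.2, p)) ∈ N2 Φ ε P T := ⟨valid_zero hε.le hV, hexs, hA⟩
      rw [indicator_of_mem hN]
      exact le_add_self
  calc wt Φ P ℓ.2 p * (kerW b i0 Ψ (flow Φ ε s (lines Φ ε P ℓ p) m).2 (lines Φ ε P ℓ p) c * 1)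
      = (wt Φ P ℓ.2 p * kerW b i0 Ψ (flow Φ ε s (lines Φ ε P ℓ p) m).2 (lines Φ ε P ℓ p) c) * 1 := by
        ring
    _ ≤ (Ψ (lines Φ ε P ℓ p i0).1 * (domG C (b / 2) T P ℓ.2 p * gW (b / 2) c)) *
        ((N1 Φ ε P' T).indicator (1 : Space3 × Par P' → ℝ≥0∞) (ℓ.2, g ((s, c), p)) +
      (N2 Φ ε P T).indicator (1 : ℝ × (Space3 × Par P) → ℝ≥0∞) (s, (ℓ.2, p))) := by
        gcongr
    _ = _ := by ring

/-- change of variables to the tree parameters -/
theorem lintegral_Kc (hΦ : AdmissiblePotential Φ) {b : ℝ} {P P' : CTree} (m : Idx P)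
    (g : NodeP × Par P ≃ᵐ Par P') (i0 : Idx P) {ε T s : ℝ} {Ψ : Space3 → ℝ≥0∞} (hε : 0 < ε)
    (hΨ : Measurable Ψ) :
    ∫⁻ W : Idx P → PhasePoint, Kc Φ ε T b m i0 g Ψ s W =
      ENNReal.ofReal (ε ^ 2) ^ P.size * ∫⁻ z : PhasePoint × Par P,
        {z : PhasePoint × Par P | Valid Φ ε P T z.1.2 z.2}.indicator
          (fun z => wt Φ P z.1.2 z.2 * Kc Φ ε T b m i0 g Ψ s (lines Φ ε P z.1 z.2)) z := by
  have hK := measurable_Kcs hΦ hε T b m i0 g hΨ s
  have h1 : ∫⁻ W : Idx P → PhasePoint, Kc Φ ε T b m i0 g Ψ s W =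
      ∫⁻ W : Idx P → PhasePoint, (Skel Φ ε P T).indicator
        (fun W => Kc Φ ε T b m i0 g Ψ s W) W := by
    refine lintegral_congr fun W => ?_
    by_cases hW : W ∈ Skel Φ ε P T
    · rw [indicator_of_mem hW]
    · rw [indicator_of_notMem hW]
      unfold Kc
      have : ∀ c : Space3 × Plane, kerW b i0 Ψ (flow Φ ε s W m).2 W c *
          (CW1 Φ ε T g).indicator
            (1 : ℝ × ((Idx P → PhasePoint) × (Space3 × Plane)) → ℝ≥0∞) (s, (W, c)) = 0 := by
        intro c
        rw [indicator_of_notMem (fun h => hW h.1.1), mul_zero]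
      simp only [this, lintegral_zero]
  exact h1.trans (treeMeasure hΦ hε P T (H := fun zV => Kc Φ ε T b m i0 g Ψ s zV.2)
    (hK.comp measurable_snd)).symm

theorem measurable_GK (hΦ : AdmissiblePotential Φ) {b : ℝ} {P P' : CTree} (m : Idx P)
    (g : NodeP × Par P ≃ᵐ Par P') (i0 : Idx P) {ε T s : ℝ} {Ψ : Space3 → ℝ≥0∞} (hε : 0 < ε)
    (hΨ : Measurable Ψ) : Measurable fun z : PhasePoint × Par P =>
      {z : PhasePoint × Par P | Valid Φ ε P T z.1.2 z.2}.indicator
        (fun z => wt Φ P z.1.2 z.2 * Kc Φ ε T b m i0 g Ψ s (lines Φ ε P z.1 z.2)) z := by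
  have hK := measurable_Kcs hΦ hε T b m i0 g hΨ s
  have e1 : (fun z : PhasePoint × Par P =>
      {z : PhasePoint × Par P | Valid Φ ε P T z.1.2 z.2}.indicator
        (fun z => wt Φ P z.1.2 z.2 * Kc Φ ε T b m i0 g Ψ s (lines Φ ε P z.1 z.2)) z) =
      fun z => vw Φ ε P T z * Kc Φ ε T b m i0 g Ψ s (linesM Φ ε P z.1 z.2) := by
    funext z
    by_cases hz : Valid Φ ε P T z.1.2 z.2
    · rw [indicator_of_mem (show z ∈ {z : PhasePoint × Par P | Valid Φ ε P T z.1.2 z.2} from hz),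
        vw_of_valid hz, linesM_of_adm ε hz.1]
    · rw [indicator_of_notMem
        (show z ∉ {z : PhasePoint × Par P | Valid Φ ε P T z.1.2 z.2} from hz),
        vw_of_not_valid hz, zero_mul]
  rw [e1]
  exact (measurable_vw hΦ ε P T).mul (hK.comp (measurable_linesM hΦ ε P))

/-- **fixed time** -/
theorem fixed_time (hΦ : AdmissiblePotential Φ) {b : ℝ} (hb : 0 < b) {P P' : CTree} {m : Idx P}
    {g : NodeP × Par P ≃ᵐ Par P'} (hg : IsGraft Φ P P' m g) (i0 : Idx P) :
    ∃ C : ℝ, 0 ≤ C ∧ ∀ (ε T s : ℝ) (Ψ : Space3 → ℝ≥0∞), 0 < ε → s ∈ Ioo 0 T → Measurable Ψ →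
      ∫⁻ W : Idx P → PhasePoint, Kc Φ ε T b m i0 g Ψ s W ≤
        ENNReal.ofReal (ε ^ 2) ^ P.size * ((∫⁻ x, Ψ x) *
          ∫⁻ q : Space3 × Par P, Rq Φ ε T C b g s q) := by
  obtain ⟨C, hC, hkey⟩ := key hΦ hb hg i0
  refine ⟨C, hC, fun ε T s Ψ hε hs hΨ => ?_⟩
  rw [lintegral_Kc hΦ m g i0 hε hΨ, lintegral_split P (measurable_GK hΦ m g i0 hε hΨ)]
  have hR : Measurable fun q : Space3 × Par P => Rq Φ ε T C b g s q :=
    Measurable.comp (g := fun z : ℝ × (Space3 × Par P) => Rq Φ ε T C b g z.1 z.2)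
      (f := fun q : Space3 × Par P => (s, q)) (measurable_Rq hΦ hε T hC b g)
      measurable_prodMk_left
  refine mul_le_mul' le_rfl ?_
  rw [← lintegral_const_mul _ hR]
  refine lintegral_mono fun q => ?_
  have hx : ∀ x : Space3, {z : PhasePoint × Par P | Valid Φ ε P T z.1.2 z.2}.indicator
        (fun z => wt Φ P z.1.2 z.2 * Kc Φ ε T b m i0 g Ψ s (lines Φ ε P z.1 z.2)) ((x, q.1), q.2) ≤
      Ψ (x + (lines Φ ε P ((0 : Space3), q.1) q.2 i0).1) * Rq Φ ε T C b g s q := by
    intro x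
    by_cases hz : Valid Φ ε P T q.1 q.2
    · rw [indicator_of_mem
        (show ((x, q.1), q.2) ∈ {z : PhasePoint × Par P | Valid Φ ε P T z.1.2 z.2} from hz)]
      have h3 := hkey ε T s Ψ (x, q.1) q.2 hε hs hz
      have e2 : (lines Φ ε P (x, q.1) q.2 i0).1 =
          x + (lines Φ ε P ((0 : Space3), q.1) q.2 i0).1 := by
        rw [Hid424.lines_shift ε P x q.1 q.2 i0]
        exact add_comm _ _
      rw [e2] at h3
      exact h3
    · rw [indicator_of_notMem
        (show ((x, q.1), q.2) ∉ {z : PhasePoint × Par P | Valid Φ ε P T z.1.2 z.2} from hz)]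
      exact bot_le
  refine (lintegral_mono hx).trans (le_of_eq ?_)
  have hm : Measurable fun x : Space3 => Ψ (x + (lines Φ ε P ((0 : Space3), q.1) q.2 i0).1) :=
    hΨ.comp (measurable_id.add_const _)
  rw [lintegral_mul_const _ hm, lintegral_add_right_eq_self (μ := (volume : Measure Space3)) Ψ]

end Crest.Agent.R122.Cherry796

end
end

-- ▼ part R122/Cherry5_796
section

/-!
# Row 122 (helper796), D5 (b): the measure step for an abstract grafted tree
-/

set_option autoImplicit false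
set_option synthInstance.maxSize 1024

open MeasureTheory Set Filter Topology
open Crest.AnalysisR.Kinetic
open scoped ENNReal

noncomputable section

namespace Crest.Agent.R122.Cherry796

open Kin796 Kin796.CTree Disc416 Tree674 TreeEps399 TreeDom974 TreeLim974 Flow671

variable {Φ : Space3 → ℝ}

/-- majorant on the parameters of the grafted tree -/
def Fd (T C b : ℝ) {P P' : CTree} (g : NodeP × Par P ≃ᵐ Par P') (u : Space3 × Par P') : ℝ≥0∞ :=
  (Ioo 0 T).indicator (1 : ℝ → ℝ≥0∞) (g.symm u.2).1.1 *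
    (domG C (b / 2) T P u.1 (g.symm u.2).2 * gW (b / 2) (g.symm u.2).1.2)

theorem measurable_Fd (T : ℝ) {C : ℝ} (hC : 0 ≤ C) (b : ℝ) {P P' : CTree}
    (g : NodeP × Par P ≃ᵐ Par P') : Measurable (Fd T C b g) := by
  unfold Fd
  have h1 : Measurable fun u : Space3 × Par P' => g.symm u.2 := g.symm.measurable.comp measurable_snd
  refine Measurable.mul ?_ (Measurable.mul ?_ ?_)
  · exact (measurable_one.indicator measurableSet_Ioo).comp h1.fst.fst
  · exact (measurable_domG hC (b / 2) T P).comp (measurable_fst.prodMk h1.snd)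
  · exact (measurable_gW (b / 2)).comp h1.fst.snd

theorem Fd_graft (T C b : ℝ) {P P' : CTree} (g : NodeP × Par P ≃ᵐ Par P') (v : Space3)
    (p : Par P) (s : ℝ) (c : Space3 × Plane) :
    Fd T C b g (v, g ((s, c), p)) = (Ioo 0 T).indicator (1 : ℝ → ℝ≥0∞) s *
      (domG C (b / 2) T P v p * gW (b / 2) c) := by
  unfold Fd
  simp only [MeasurableEquiv.symm_apply_apply]

theorem lintegral_Ioo_mul (T : ℝ) (f : ℝ → ℝ≥0∞) :
    ∫⁻ s in Ioo 0 T, f s = ∫⁻ s, (Ioo 0 T).indicator (1 : ℝ → ℝ≥0∞) s * f s := by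
  rw [← lintegral_indicator measurableSet_Ioo]
  refine lintegral_congr fun s => ?_
  by_cases hs : s ∈ Ioo 0 T
  · rw [indicator_of_mem hs, indicator_of_mem hs]; simp
  · rw [indicator_of_notMem hs, indicator_of_notMem hs, zero_mul]

theorem lintegral_Fd_ne_top {T C b : ℝ} (hC : 0 ≤ C) (hb : 0 < b) {P P' : CTree} {m : Idx P}
    {g : NodeP × Par P ≃ᵐ Par P'} (hg : IsGraft Φ P P' m g) : ∫⁻ u, Fd T C b g u ≠ ∞ := by
  rw [← lintegral_theta hg (measurable_Fd T hC b g)]
  simp only [Fd_graft]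
  have hgW := measurable_gW (b / 2)
  have hD := measurable_domG hC (b / 2) T P
  have e1 : ∀ (s : ℝ) (q : Space3 × Par P), ∫⁻ c : Space3 × Plane,
      (Ioo 0 T).indicator (1 : ℝ → ℝ≥0∞) s * (domG C (b / 2) T P q.1 q.2 * gW (b / 2) c) =
      (Ioo 0 T).indicator (1 : ℝ → ℝ≥0∞) s * (domG C (b / 2) T P q.1 q.2 *
        ∫⁻ c, gW (b / 2) c) := by
    intro s q
    rw [lintegral_const_mul _ (hgW.const_mul _), lintegral_const_mul _ hgW]
  simp only [e1]
  have e2 : ∀ s : ℝ, ∫⁻ q : Space3 × Par P,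
      (Ioo 0 T).indicator (1 : ℝ → ℝ≥0∞) s * (domG C (b / 2) T P q.1 q.2 *
        ∫⁻ c, gW (b / 2) c) = (Ioo 0 T).indicator (1 : ℝ → ℝ≥0∞) s *
        ((∫⁻ q : Space3 × Par P, domG C (b / 2) T P q.1 q.2) * ∫⁻ c, gW (b / 2) c) := by
    intro s
    rw [lintegral_const_mul _ (hD.mul_const _), lintegral_mul_const _ hD]
  simp only [e2]
  rw [lintegral_mul_const _ (measurable_one.indicator measurableSet_Ioo),
    lintegral_indicator_one measurableSet_Ioo]
  refine ENNReal.mul_ne_top (by simp) (ENNReal.mul_ne_top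
    (lintegral_domG_ne_top hC (half_pos hb) T P) (lintegral_gW_ne_top (half_pos hb)))

/-- the rate -/
def qA (Φ : Space3 → ℝ) (T C b : ℝ) {P P' : CTree} (g : NodeP × Par P ≃ᵐ Par P') (ε : ℝ) : ℝ≥0∞ :=
  ∫⁻ u, Fd T C b g u * (N1 Φ ε P' T).indicator (1 : Space3 × Par P' → ℝ≥0∞) u

/-- the rate of the open windows -/
def qB (Φ : Space3 → ℝ) (T C b : ℝ) (P : CTree) (ε : ℝ) : ℝ≥0∞ :=
  ∫⁻ z : ℝ × (Space3 × Par P), ((Ioo 0 T).indicator (1 : ℝ → ℝ≥0∞) z.1 *
    (domG C (b / 2) T P z.2.1 z.2.2 * ∫⁻ c, gW (b / 2) c)) *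
    (N2 Φ ε P T).indicator (1 : ℝ × (Space3 × Par P) → ℝ≥0∞) z

theorem tendsto_qA (hΦ : AdmissiblePotential Φ) {T C b : ℝ} (hC : 0 ≤ C) (hb : 0 < b)
    {P P' : CTree} {m : Idx P} {g : NodeP × Par P ≃ᵐ Par P'} (hg : IsGraft Φ P P' m g) :
    Tendsto (qA Φ T C b g) (𝓝[>] 0) (𝓝 0) :=
  tendsto_N1 hΦ P' T (measurable_Fd T hC b g) (lintegral_Fd_ne_top hC hb hg)

theorem tendsto_qB (hΦ : AdmissiblePotential Φ) {T C b : ℝ} (hC : 0 ≤ C) (hb : 0 < b)
    (P : CTree) : Tendsto (qB Φ T C b P) (𝓝[>] 0) (𝓝 0) := by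
  have hD := measurable_domG hC (b / 2) T P
  have hI : Measurable fun z : ℝ × (Space3 × Par P) => (Ioo 0 T).indicator (1 : ℝ → ℝ≥0∞) z.1 :=
    (measurable_one.indicator measurableSet_Ioo).comp measurable_fst
  have hm : Measurable fun z : ℝ × (Space3 × Par P) =>
      (Ioo 0 T).indicator (1 : ℝ → ℝ≥0∞) z.1 *
    (domG C (b / 2) T P z.2.1 z.2.2 * ∫⁻ c, gW (b / 2) c) :=
    hI.mul ((hD.comp measurable_snd).mul_const _)
  refine tendsto_N2 hΦ P T hm ?_
  have hvol : (volume : Measure (ℝ × (Space3 × Par P))) =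
      (volume : Measure ℝ).prod (volume : Measure (Space3 × Par P)) := rfl
  rw [hvol, lintegral_prod _ hm.aemeasurable]
  have e2 : ∀ s : ℝ, ∫⁻ q : Space3 × Par P,
      (Ioo 0 T).indicator (1 : ℝ → ℝ≥0∞) (s, q).1 * (domG C (b / 2) T P (s, q).2.1 (s, q).2.2 *
        ∫⁻ c, gW (b / 2) c) = (Ioo 0 T).indicator (1 : ℝ → ℝ≥0∞) s *
        ((∫⁻ q : Space3 × Par P, domG C (b / 2) T P q.1 q.2) * ∫⁻ c, gW (b / 2) c) := by
    intro s
    show ∫⁻ q : Space3 × Par P, (Ioo 0 T).indicator (1 : ℝ → ℝ≥0∞) s *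
      (domG C (b / 2) T P q.1 q.2 * ∫⁻ c, gW (b / 2) c) = _
    rw [lintegral_const_mul _ (hD.mul_const _), lintegral_mul_const _ hD]
  simp only [e2]
  rw [lintegral_mul_const _ (measurable_one.indicator measurableSet_Ioo),
    lintegral_indicator_one measurableSet_Ioo]
  exact ENNReal.mul_ne_top (by simp) (ENNReal.mul_ne_top
    (lintegral_domG_ne_top hC (half_pos hb) T P) (lintegral_gW_ne_top (half_pos hb)))

theorem lintegral_Rq (hΦ : AdmissiblePotential Φ) {ε T C b : ℝ} (hε : 0 < ε) (hC : 0 ≤ C)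
    {P P' : CTree} {m : Idx P} {g : NodeP × Par P ≃ᵐ Par P'} (hg : IsGraft Φ P P' m g) :
    ∫⁻ s in Ioo 0 T, ∫⁻ q : Space3 × Par P, Rq Φ ε T C b g s q =
      qA Φ T C b g ε + qB Φ T C b P ε := by
  have hgW := measurable_gW (b / 2)
  have hD := measurable_domG hC (b / 2) T P
  have hN1 := measurableSet_N1 hΦ hε P' T
  have hN2 := measurableSet_N2 hΦ ε P T
  have hi1 : Measurable ((N1 Φ ε P' T).indicator (1 : Space3 × Par P' → ℝ≥0∞)) :=
    measurable_one.indicator hN1
  have hi2 : Measurable ((N2 Φ ε P T).indicator (1 : ℝ × (Space3 × Par P) → ℝ≥0∞)) :=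
    measurable_one.indicator hN2
  set I : ℝ → ℝ≥0∞ := (Ioo 0 T).indicator (1 : ℝ → ℝ≥0∞) with hI
  have hIm : Measurable I := measurable_one.indicator measurableSet_Ioo
  -- the three-fold functions
  have hA3 : Measurable fun z : (ℝ × (Space3 × Par P)) × (Space3 × Plane) =>
      (domG C (b / 2) T P z.1.2.1 z.1.2.2 * gW (b / 2) z.2) *
        (N1 Φ ε P' T).indicator (1 : Space3 × Par P' → ℝ≥0∞)
          (z.1.2.1, g ((z.1.1, z.2), z.1.2.2)) :=
    (((hD.comp measurable_fst.snd)).mul (hgW.comp measurable_snd)).mul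
      (hi1.comp (measurable_fst.snd.fst.prodMk (g.measurable.comp
        ((measurable_fst.fst.prodMk measurable_snd).prodMk measurable_fst.snd.snd))))
  have hA2 : Measurable fun z : ℝ × (Space3 × Par P) => ∫⁻ c : Space3 × Plane,
      (domG C (b / 2) T P z.2.1 z.2.2 * gW (b / 2) c) *
        (N1 Φ ε P' T).indicator (1 : Space3 × Par P' → ℝ≥0∞) (z.2.1, g ((z.1, c), z.2.2)) :=
    Measurable.lintegral_prod_right'
      (f := fun z : (ℝ × (Space3 × Par P)) × (Space3 × Plane) =>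
      (domG C (b / 2) T P z.1.2.1 z.1.2.2 * gW (b / 2) z.2) *
        (N1 Φ ε P' T).indicator (1 : Space3 × Par P' → ℝ≥0∞)
          (z.1.2.1, g ((z.1.1, z.2), z.1.2.2))) hA3
  have hB2 : Measurable fun z : ℝ × (Space3 × Par P) =>
      (domG C (b / 2) T P z.2.1 z.2.2 * ∫⁻ c, gW (b / 2) c) *
        (N2 Φ ε P T).indicator (1 : ℝ × (Space3 × Par P) → ℝ≥0∞) z :=
    ((hD.comp measurable_snd).mul_const _).mul hi2
  have e1 : ∀ (s : ℝ) (q : Space3 × Par P), Rq Φ ε T C b g s q =
      (∫⁻ c : Space3 × Plane, (domG C (b / 2) T P q.1 q.2 * gW (b / 2) c) *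
        (N1 Φ ε P' T).indicator (1 : Space3 × Par P' → ℝ≥0∞) (q.1, g ((s, c), q.2))) +
      (domG C (b / 2) T P q.1 q.2 * ∫⁻ c, gW (b / 2) c) *
        (N2 Φ ε P T).indicator (1 : ℝ × (Space3 × Par P) → ℝ≥0∞) (s, q) := by
    intro s q
    unfold Rq
    simp only [mul_add]
    have hs : Measurable fun c : Space3 × Plane =>
        (domG C (b / 2) T P q.1 q.2 * gW (b / 2) c) *
        (N1 Φ ε P' T).indicator (1 : Space3 × Par P' → ℝ≥0∞) (q.1, g ((s, c), q.2)) :=
      (hgW.const_mul _).mul (hi1.comp (measurable_const.prodMk (g.measurable.comp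
        ((measurable_const.prodMk measurable_id).prodMk measurable_const))))
    rw [lintegral_add_left hs, lintegral_mul_const _ (hgW.const_mul _),
      lintegral_const_mul _ hgW]
  simp only [e1]
  rw [lintegral_Ioo_mul]
  have hA1 : ∀ s : ℝ, Measurable fun q : Space3 × Par P => ∫⁻ c : Space3 × Plane,
      (domG C (b / 2) T P q.1 q.2 * gW (b / 2) c) *
        (N1 Φ ε P' T).indicator (1 : Space3 × Par P' → ℝ≥0∞) (q.1, g ((s, c), q.2)) := fun s =>
    Measurable.comp (g := fun z : ℝ × (Space3 × Par P) => ∫⁻ c : Space3 × Plane,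
      (domG C (b / 2) T P z.2.1 z.2.2 * gW (b / 2) c) *
        (N1 Φ ε P' T).indicator (1 : Space3 × Par P' → ℝ≥0∞) (z.2.1, g ((z.1, c), z.2.2)))
      (f := fun q : Space3 × Par P => (s, q)) hA2 measurable_prodMk_left
  have e2 : ∀ s : ℝ, ∫⁻ q : Space3 × Par P, ((∫⁻ c : Space3 × Plane,
      (domG C (b / 2) T P q.1 q.2 * gW (b / 2) c) *
        (N1 Φ ε P' T).indicator (1 : Space3 × Par P' → ℝ≥0∞) (q.1, g ((s, c), q.2))) +
      (domG C (b / 2) T P q.1 q.2 * ∫⁻ c, gW (b / 2) c) *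
        (N2 Φ ε P T).indicator (1 : ℝ × (Space3 × Par P) → ℝ≥0∞) (s, q)) =
      (∫⁻ q : Space3 × Par P, ∫⁻ c : Space3 × Plane,
        (domG C (b / 2) T P q.1 q.2 * gW (b / 2) c) *
        (N1 Φ ε P' T).indicator (1 : Space3 × Par P' → ℝ≥0∞) (q.1, g ((s, c), q.2))) +
      ∫⁻ q : Space3 × Par P, (domG C (b / 2) T P q.1 q.2 * ∫⁻ c, gW (b / 2) c) *
        (N2 Φ ε P T).indicator (1 : ℝ × (Space3 × Par P) → ℝ≥0∞) (s, q) := fun s =>
    lintegral_add_left (hA1 s) _
  simp only [e2, mul_add]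
  have hA0 : Measurable fun s : ℝ => I s * ∫⁻ q : Space3 × Par P, ∫⁻ c : Space3 × Plane,
        (domG C (b / 2) T P q.1 q.2 * gW (b / 2) c) *
        (N1 Φ ε P' T).indicator (1 : Space3 × Par P' → ℝ≥0∞) (q.1, g ((s, c), q.2)) :=
    hIm.mul (Measurable.lintegral_prod_right' (f := fun z : ℝ × (Space3 × Par P) =>
      ∫⁻ c : Space3 × Plane, (domG C (b / 2) T P z.2.1 z.2.2 * gW (b / 2) c) *
        (N1 Φ ε P' T).indicator (1 : Space3 × Par P' → ℝ≥0∞) (z.2.1, g ((z.1, c), z.2.2))) hA2)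
  rw [lintegral_add_left hA0]
  congr 1
  · unfold qA
    have hFm : Measurable fun u : Space3 × Par P' =>
        Fd T C b g u * (N1 Φ ε P' T).indicator (1 : Space3 × Par P' → ℝ≥0∞) u :=
      (measurable_Fd T hC b g).mul hi1
    rw [← lintegral_theta hg hFm]
    refine lintegral_congr fun s => ?_
    rw [← lintegral_const_mul _ (hA1 s)]
    refine lintegral_congr fun q => ?_
    have h3 : Measurable fun c : Space3 × Plane =>
        (domG C (b / 2) T P q.1 q.2 * gW (b / 2) c) *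
        (N1 Φ ε P' T).indicator (1 : Space3 × Par P' → ℝ≥0∞) (q.1, g ((s, c), q.2)) :=
      (hgW.const_mul _).mul (hi1.comp (measurable_const.prodMk (g.measurable.comp
        ((measurable_const.prodMk measurable_id).prodMk measurable_const))))
    rw [← lintegral_const_mul _ h3]
    refine lintegral_congr fun c => ?_
    rw [Fd_graft]
    ring
  · unfold qB
    have hvol : (volume : Measure (ℝ × (Space3 × Par P))) =
      (volume : Measure ℝ).prod (volume : Measure (Space3 × Par P)) := rfl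
    have hm : Measurable fun z : ℝ × (Space3 × Par P) =>
      (I z.1 * (domG C (b / 2) T P z.2.1 z.2.2 * ∫⁻ c, gW (b / 2) c)) *
        (N2 Φ ε P T).indicator (1 : ℝ × (Space3 × Par P) → ℝ≥0∞) z :=
      ((hIm.comp measurable_fst).mul ((hD.comp measurable_snd).mul_const _)).mul hi2
    rw [hvol, lintegral_prod _ hm.aemeasurable]
    refine lintegral_congr fun s => ?_
    have h4 : Measurable fun q : Space3 × Par P =>
        (domG C (b / 2) T P q.1 q.2 * ∫⁻ c, gW (b / 2) c) *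
        (N2 Φ ε P T).indicator (1 : ℝ × (Space3 × Par P) → ℝ≥0∞) (s, q) :=
      (hD.mul_const _).mul (hi2.comp measurable_prodMk_left)
    rw [← lintegral_const_mul _ h4]
    refine lintegral_congr fun q => ?_
    ring

/-- **The measure step for one tree.** -/
theorem step (hΦ : AdmissiblePotential Φ) {b : ℝ} (hb : 0 < b) (T : ℝ) {P P' : CTree} {m : Idx P}
    {g : NodeP × Par P ≃ᵐ Par P'} (hg : IsGraft Φ P P' m g) (i0 : Idx P) :
    ∃ q : ℝ → ℝ≥0∞, Tendsto q (𝓝[>] 0) (𝓝 0) ∧ ∀ (ε : ℝ) (Ψ : Space3 → ℝ≥0∞), 0 < ε →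
      Measurable Ψ → ∫⁻ s in Ioo 0 T, ∫⁻ W : Idx P → PhasePoint, Kc Φ ε T b m i0 g Ψ s W ≤
        ENNReal.ofReal (ε ^ 2) ^ P.size * ((∫⁻ x, Ψ x) * q ε) := by
  obtain ⟨C, hC, h⟩ := fixed_time hΦ hb hg i0
  refine ⟨fun ε => qA Φ T C b g ε + qB Φ T C b P ε, ?_, fun ε Ψ hε hΨ => ?_⟩
  · have := (tendsto_qA (T := T) hΦ hC hb hg).add (tendsto_qB (T := T) hΦ hC hb P)
    rwa [add_zero] at this
  · show _ ≤ ENNReal.ofReal (ε ^ 2) ^ P.size * ((∫⁻ x, Ψ x) *
      (qA Φ T C b g ε + qB Φ T C b P ε))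
    rw [← lintegral_Rq hΦ hε hC hg]
    have hm : Measurable fun s : ℝ => ∫⁻ q : Space3 × Par P, Rq Φ ε T C b g s q :=
      Measurable.lintegral_prod_right' (f := fun z : ℝ × (Space3 × Par P) =>
        Rq Φ ε T C b g z.1 z.2) (measurable_Rq hΦ hε T hC b g)
    rw [← lintegral_const_mul _ hm, ← lintegral_const_mul _ (hm.const_mul _)]
    refine setLIntegral_mono' measurableSet_Ioo fun s hs => ?_
    exact h ε T s Ψ hε hs hΨ

end Crest.Agent.R122.Cherry796

end
end

-- ▼ part R122/Cherry6_796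
section

/-!
# Row 122 (helper796), D5 (b): the measure of the bad release steps (one released particle)

`badY` is the measurable set of the `(s, (Y, z))` such that the release of `z` from the particle `m`
of `Y` (time-`0` pull-back) at time `s` is a bad graft (`Chain726.BadGraft`); `cherry` is the bound
of its flux integral (right-hand side of `Flux350.FS1`).
-/

set_option autoImplicit false
set_option synthInstance.maxSize 1024
set_option linter.unusedSectionVars false
set_option maxHeartbeats 400000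

open MeasureTheory Set Filter Topology
open Crest.AnalysisR.Kinetic
open scoped ENNReal

noncomputable section

namespace Crest.Agent.R122.Cherry796

open Kin796 Kin796.CTree Disc416 Tree674 TreeEps399 TreeDom974 TreeLim974 Flow671 Graft968

variable {Φ : Space3 → ℝ}

/-! ### The parameters of the graft as a measurable equivalence -/

/-- inverse of `gpar` -/
def ginv : ∀ (P : CTree) (m : Idx P), Par (graft P m) → NodeP × Par P
  | leaf, _ => fun q => (q.1, ())
  | node l _, Sum.inl m => fun q => ((ginv l m q.2.1).1, (q.1, (ginv l m q.2.1).2, q.2.2))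
  | node _ r, Sum.inr m => fun q => ((ginv r m q.2.2).1, (q.1, q.2.1, (ginv r m q.2.2).2))

theorem ginv_gpar : ∀ (P : CTree) (m : Idx P) (q : NodeP × Par P), ginv P m (gpar P m q) = q
  | leaf, _, _ => rfl
  | node l r, Sum.inl m, q => by
      have h := ginv_gpar l m (q.1, q.2.2.1)
      show ((ginv l m (gpar l m (q.1, q.2.2.1))).1,
        (q.2.1, (ginv l m (gpar l m (q.1, q.2.2.1))).2, q.2.2.2)) = q
      rw [h]
      rfl
  | node l r, Sum.inr m, q => by
      have h := ginv_gpar r m (q.1, q.2.2.2)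
      show ((ginv r m (gpar r m (q.1, q.2.2.2))).1,
        (q.2.1, q.2.2.1, (ginv r m (gpar r m (q.1, q.2.2.2))).2)) = q
      rw [h]
      rfl

theorem gpar_ginv : ∀ (P : CTree) (m : Idx P) (q : Par (graft P m)), gpar P m (ginv P m q) = q
  | leaf, _, _ => rfl
  | node l r, Sum.inl m, q => by
      have h := gpar_ginv l m q.2.1
      show ((q.1, gpar l m ((ginv l m q.2.1).1, (ginv l m q.2.1).2), q.2.2) :
        Par (node (graft l m) r)) = q
      rw [show ((ginv l m q.2.1).1, (ginv l m q.2.1).2) = ginv l m q.2.1 from rfl, h]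
      rfl
  | node l r, Sum.inr m, q => by
      have h := gpar_ginv r m q.2.2
      show ((q.1, q.2.1, gpar r m ((ginv r m q.2.2).1, (ginv r m q.2.2).2)) :
        Par (node l (graft r m))) = q
      rw [show ((ginv r m q.2.2).1, (ginv r m q.2.2).2) = ginv r m q.2.2 from rfl, h]
      rfl

theorem measurable_ginv : ∀ (P : CTree) (m : Idx P), Measurable (ginv P m)
  | leaf, _ => (measurable_par1 leaf leaf).prodMk measurable_const
  | node l r, Sum.inl m => by
      have h1 := measurable_par1 (graft l m) r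
      have h2 := (measurable_ginv l m).comp (measurable_parL (graft l m) r)
      have h3 := measurable_parR (graft l m) r
      exact h2.fst.prodMk (h1.prodMk (h2.snd.prodMk h3))
  | node l r, Sum.inr m => by
      have h1 := measurable_par1 l (graft r m)
      have h2 := (measurable_ginv r m).comp (measurable_parR l (graft r m))
      have h3 := measurable_parL l (graft r m)
      exact h2.fst.prodMk (h1.prodMk (h3.prodMk h2.snd))

/-- `gpar` as a measurable equivalence -/
def gEq (P : CTree) (m : Idx P) : NodeP × Par P ≃ᵐ Par (graft P m) where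
  toFun := gpar P m
  invFun := ginv P m
  left_inv := ginv_gpar P m
  right_inv := gpar_ginv P m
  measurable_toFun := measurable_gpar P m
  measurable_invFun := measurable_ginv P m

@[simp] theorem gEq_apply (P : CTree) (m : Idx P) (q : NodeP × Par P) :
    gEq P m q = gpar P m q := rfl

theorem aft_iff {ε s : ℝ} : ∀ {P : CTree} {v : Space3} {p : Par P},
    Aft Φ ε P s v p ↔ After Φ ε s P v p
  | leaf, _, _ => Iff.rfl
  | node l r, v, p => by
      unfold Aft After
      rw [aft_iff (P := l), aft_iff (P := r)]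

theorem lt_entr {s : ℝ} : ∀ (P : CTree) (T : ℝ) (v : Space3) (p : Par P) (m : Idx P), s < T →
    Aft Φ 0 P s v p → s < entr Φ 0 P T v p m
  | leaf, _, _, _, _, h, _ => h
  | node l _, _, v, p, Sum.inl m, _, hA =>
      lt_entr l (Tree674.sin Φ 0 v p.1) _ p.2.1 m hA.1 hA.2.1
  | node _ r, _, v, p, Sum.inr m, _, hA =>
      lt_entr r (Tree674.sin Φ 0 v p.1) _ p.2.2 m hA.1 hA.2.2

theorem isGraft (P : CTree) (m : Idx P) : IsGraft Φ P (graft P m) m (gEq P m) where
  mp := measurePreserving_gpar P m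
  valid0 T v p a hV hA hadm h0 hT := by
    rw [gEq_apply, valid_graft]
    refine ⟨hV, hadm, lt_entr P T v p m hT hA, ?_⟩
    rw [sin_zero]
    exact h0

theorem exs_of_prot {s : ℝ} : ∀ (P : CTree) (T : ℝ) (p : Par P), (∀ x, s ≤ prot P T p x) →
    Exs P s p
  | leaf, _, _, _ => trivial
  | node l r, T, p, h => by
      have hr : ∀ x : Idx r, s ≤ prot r p.1.1 p.2.2 x := fun x => h (Sum.inr x)
      have hroot : ∀ (Q : CTree) (t : ℝ) (q : Par Q), prot Q t q (root Q) = t := by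
        intro Q
        induction Q with
        | leaf => intro t q; rfl
        | node l r ihl _ => intro t q; exact ihl t q.2.1
      refine ⟨?_, exs_of_prot l T p.2.1 fun x => h (Sum.inl x), exs_of_prot r p.1.1 p.2.2 hr⟩
      have := hr (root r)
      rwa [hroot] at this

/-! ### The bad set for an arbitrary index type -/

section general

variable {κ : Type*} [Fintype κ]

/-- the bad set: `s`, `Y` (time-`0` pull-back of the group), `(w, y)` -/
def CW (Φ : Space3 → ℝ) (ε T : ℝ) (m : κ) : Set (ℝ × ((κ → PhasePoint) × (Space3 × Plane))) :=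
  {c | ∃ (P : CTree) (e : Idx P ≃ κ),
    (c.1, ((fun x => c.2.1 (e x)), c.2.2)) ∈ CW1 Φ ε T (gEq P (e.symm m))}

theorem measurable_relab {P : CTree} (e : Idx P ≃ κ) :
    Measurable fun c : ℝ × ((κ → PhasePoint) × (Space3 × Plane)) =>
      (c.1, ((fun x => c.2.1 (e x)), c.2.2)) := by
  have h : Measurable fun c : ℝ × ((κ → PhasePoint) × (Space3 × Plane)) =>
      fun x => c.2.1 (e x) := by
    refine measurable_pi_iff.2 fun x => ?_
    exact (measurable_pi_apply (e x)).comp measurable_snd.fst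
  exact measurable_fst.prodMk (h.prodMk measurable_snd.snd)

theorem measurableSet_CW (hΦ : AdmissiblePotential Φ) {ε T : ℝ} (hε : 0 < ε) (m : κ) :
    MeasurableSet (CW Φ ε T m) := by
  have e0 : CW Φ ε T m = ⋃ (P : CTree), ⋃ (e : Idx P ≃ κ),
      (fun c : ℝ × ((κ → PhasePoint) × (Space3 × Plane)) =>
        (c.1, ((fun x => c.2.1 (e x)), c.2.2))) ⁻¹' (CW1 Φ ε T (gEq P (e.symm m))) := by
    ext c
    simp only [CW, mem_ofPred_eq, mem_iUnion, mem_preimage]
  rw [e0]
  refine MeasurableSet.iUnion fun P => MeasurableSet.iUnion fun e => ?_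
  exact (measurableSet_CW1 hΦ hε (gEq P (e.symm m))).preimage (measurable_relab e)

theorem mem_CW (hΦ : AdmissiblePotential Φ) {ε T : ℝ} (hε : 0 < ε) {m : κ} {s : ℝ}
    {Y : κ → PhasePoint} {c : Space3 × Plane} {P : CTree} {e : Idx P ≃ κ} {ℓ : PhasePoint}
    {p : Par P} (hV : Valid Φ ε P T ℓ.2 p) (hS : Sep Φ ε P T ℓ p)
    (hY : ∀ x, Y (e x) = lines Φ ε P ℓ p x) (hs : Exs P s p)
    (hB : ¬ (Aft Φ ε P s ℓ.2 p ∧
      Valid Φ ε (graft P (e.symm m)) T ℓ.2 (gpar P (e.symm m) ((s, c), p)) ∧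
      Sep Φ ε (graft P (e.symm m)) T ℓ (gpar P (e.symm m) ((s, c), p)))) :
    (s, (Y, c)) ∈ CW Φ ε T m := by
  refine ⟨P, e, ?_⟩
  have h := mem_CW1 hΦ hε (g := gEq P (e.symm m)) (s := s) (ℓ := ℓ) (p := p) (c := c) ⟨hV, hS⟩ hs hB
  have e1 : (fun x => Y (e x)) = lines Φ ε P ℓ p := funext hY
  show (s, ((fun x => Y (e x)), c)) ∈ _
  rw [e1]
  exact h

/-- the bad set in terms of the state `z` of the released particle -/
def badY (Φ : Space3 → ℝ) (ε T : ℝ) (m : κ) : Set (ℝ × ((κ → PhasePoint) × PhasePoint)) :=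
  {c | (c.1, (c.2.1, (c.2.2.2, Flux350.cpl ((flow Φ ε c.1 c.2.1 m).2 - c.2.2.2)
    ((1 / ε) • (c.2.2.1 - (flow Φ ε c.1 c.2.1 m).1))))) ∈ CW Φ ε T m}

theorem measurable_cpl : Measurable fun z : Space3 × Space3 => Flux350.cpl z.1 z.2 := by
  unfold Flux350.cpl
  have h1 : Measurable fun z : Space3 × Space3 => inner ℝ (e1 z.1) z.2 :=
    (measurable_e1.comp measurable_fst).inner measurable_snd
  have h2 : Measurable fun z : Space3 × Space3 => inner ℝ (e2 z.1) z.2 :=
    (measurable_e2.comp measurable_fst).inner measurable_snd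
  refine (WithLp.measurable_toLp 2 (Fin 2 → ℝ)).comp (measurable_pi_iff.2 fun i => ?_)
  fin_cases i
  · exact h1
  · exact h2

theorem measurable_flowm (hΦ : AdmissiblePotential Φ) {ε : ℝ} (hε : 0 < ε) (m : κ) :
    Measurable fun c : ℝ × ((κ → PhasePoint) × PhasePoint) => flow Φ ε c.1 c.2.1 m := by
  have h0 : Measurable fun c : ℝ × ((κ → PhasePoint) × PhasePoint) => (c.1, c.2.1) :=
    measurable_fst.prodMk measurable_snd.fst
  have h1 : Measurable fun c : ℝ × ((κ → PhasePoint) × PhasePoint) => flow Φ ε c.1 c.2.1 :=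
    Measurable.comp (g := fun p : ℝ × (κ → PhasePoint) => flow Φ ε p.1 p.2)
      (f := fun c : ℝ × ((κ → PhasePoint) × PhasePoint) => (c.1, c.2.1))
      (measurable_flow_joint hΦ hε) h0
  exact measurable_pi_iff.1 h1 m

/-- the coordinates `(s, Y, (w, y))` -/
def coY (Φ : Space3 → ℝ) (ε : ℝ) (m : κ) (c : ℝ × ((κ → PhasePoint) × PhasePoint)) :
    ℝ × ((κ → PhasePoint) × (Space3 × Plane)) :=
  (c.1, (c.2.1, (c.2.2.2, Flux350.cpl ((flow Φ ε c.1 c.2.1 m).2 - c.2.2.2)
    ((1 / ε) • (c.2.2.1 - (flow Φ ε c.1 c.2.1 m).1)))))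

theorem measurable_coY (hΦ : AdmissiblePotential Φ) {ε : ℝ} (hε : 0 < ε) (m : κ) :
    Measurable (coY Φ ε m) := by
  have hf := measurable_flowm hΦ hε m
  have ha : Measurable fun c : ℝ × ((κ → PhasePoint) × PhasePoint) =>
      (flow Φ ε c.1 c.2.1 m).2 - c.2.2.2 := hf.snd.sub measurable_snd.snd.snd
  have hb : Measurable fun c : ℝ × ((κ → PhasePoint) × PhasePoint) =>
      (1 / ε) • (c.2.2.1 - (flow Φ ε c.1 c.2.1 m).1) :=
    (measurable_snd.snd.fst.sub hf.fst).const_smul (1 / ε)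
  have h1 : Measurable fun c : ℝ × ((κ → PhasePoint) × PhasePoint) =>
      Flux350.cpl ((flow Φ ε c.1 c.2.1 m).2 - c.2.2.2)
        ((1 / ε) • (c.2.2.1 - (flow Φ ε c.1 c.2.1 m).1)) :=
    Measurable.comp (g := fun z : Space3 × Space3 => Flux350.cpl z.1 z.2)
      (f := fun c : ℝ × ((κ → PhasePoint) × PhasePoint) =>
        ((flow Φ ε c.1 c.2.1 m).2 - c.2.2.2, (1 / ε) • (c.2.2.1 - (flow Φ ε c.1 c.2.1 m).1)))
      measurable_cpl (ha.prodMk hb)
  exact measurable_fst.prodMk (measurable_snd.fst.prodMk (measurable_snd.snd.snd.prodMk h1))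

theorem measurableSet_badY (hΦ : AdmissiblePotential Φ) {ε T : ℝ} (hε : 0 < ε) (m : κ) :
    MeasurableSet (badY Φ ε T m) :=
  measurable_coY hΦ hε m (measurableSet_CW hΦ hε m)

/-- plane coordinates of the entrance point -/
theorem cpl_entrance {g : Space3} (hg : g ≠ 0) (y : Plane) :
    Flux350.cpl g (entrancePoint (frameMap g y) g) = y := by
  have h1 : inner ℝ (e1 g) (entrancePoint (frameMap g y) g) = y 0 := by
    unfold entrancePoint frameMap
    rw [inner_sub_right, inner_smul_right, inner_e1_self, mul_zero, sub_zero, inner_add_right,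
      inner_smul_right, inner_smul_right, real_inner_self_eq_norm_sq, norm_e1_sq,
      real_inner_comm, inner_e2_e1]
    ring
  have h2 : inner ℝ (e2 g) (entrancePoint (frameMap g y) g) = y 1 := by
    unfold entrancePoint frameMap
    rw [inner_sub_right, inner_smul_right, inner_e2_self, mul_zero, sub_zero, inner_add_right,
      inner_smul_right, inner_smul_right, real_inner_self_eq_norm_sq, norm_e2_sq hg,
      inner_e2_e1]
    ring
  unfold Flux350.cpl
  rw [h1, h2]
  ext i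
  fin_cases i <;> rfl

theorem mem_badY_iff {ε T : ℝ} (hε : 0 < ε) {m : κ} {s : ℝ} {Y : κ → PhasePoint} {w : Space3}
    {y : Plane} (hw : (flow Φ ε s Y m).2 ≠ w) :
    (s, (Y, ((flow Φ ε s Y m).1 + ε • entrancePoint (frameMap ((flow Φ ε s Y m).2 - w) y)
      ((flow Φ ε s Y m).2 - w), w))) ∈ badY Φ ε T m ↔ (s, (Y, (w, y))) ∈ CW Φ ε T m := by
  unfold badY
  simp only [mem_ofPred_eq]
  rw [add_sub_cancel_left, smul_smul, one_div, inv_mul_cancel₀ hε.ne', one_smul,
    cpl_entrance (sub_ne_zero.2 hw)]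

/-- **the bad grafts are in the bad set** -/
theorem mem_badY (hΦ : AdmissiblePotential Φ) {ε T : ℝ} (hε : 0 < ε) {i m : κ} {s : ℝ}
    {Y : κ → PhasePoint} {z : PhasePoint} (h : Chain726.BadGraft Φ ε T i s Y m z) :
    (s, (Y, z)) ∈ badY Φ ε T m := by
  obtain ⟨P, e, ℓ, p, y, hV, hS, -, hY, hs, -, hw, hz, hB⟩ := h
  have e1 : z = ((flow Φ ε s Y m).1 + ε • entrancePoint (frameMap ((flow Φ ε s Y m).2 - z.2) y)
      ((flow Φ ε s Y m).2 - z.2), z.2) := Prod.ext hz rfl
  rw [e1, mem_badY_iff hε hw]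
  refine mem_CW hΦ hε hV hS hY (exs_of_prot P T p hs) ?_
  rw [aft_iff]
  exact hB

end general

end Crest.Agent.R122.Cherry796

end
end

-- ▼ part R122/Cherry7_796
section

/-!
# Row 122 (helper796), D5 (b): the flux integral of the bad grafts
-/

set_option autoImplicit false
set_option synthInstance.maxSize 1024
set_option linter.unusedSectionVars false
set_option maxHeartbeats 1000000

open MeasureTheory Set Filter Topology
open Crest.AnalysisR.Kinetic
open scoped ENNReal Classical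

noncomputable section

namespace Crest.Agent.R122.Cherry796

open Kin796 Kin796.CTree Disc416 Tree674 TreeEps399 TreeDom974 TreeLim974 Flow671 Graft968

variable {Φ : Space3 → ℝ} {κ : Type*} [Fintype κ]

/-- the functional: energy weight (`Y` at time `0`), localisation of `i0`, bad set -/
def GY (Φ : Space3 → ℝ) (ε T b : ℝ) (m i0 : κ) (Ψ : Space3 → ℝ≥0∞) (s : ℝ) (Y : κ → PhasePoint)
    (z : PhasePoint) : ℝ≥0∞ :=
  (ENNReal.ofReal (Real.exp (-b * (∑ x, ‖(Y x).2‖ ^ 2 + ‖z.2‖ ^ 2))) * Ψ (Y i0).1) *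
    (badY Φ ε T m).indicator (1 : ℝ × ((κ → PhasePoint) × PhasePoint) → ℝ≥0∞) (s, (Y, z))


/-- the integral over the partner, for the whole bad set -/
def Kg (Φ : Space3 → ℝ) (ε T b : ℝ) (m i0 : κ) (Ψ : Space3 → ℝ≥0∞) (s : ℝ)
    (Y : κ → PhasePoint) : ℝ≥0∞ :=
  ∫⁻ c : Space3 × Plane, kerW b i0 Ψ (flow Φ ε s Y m).2 Y c *
    (CW Φ ε T m).indicator (1 : ℝ × ((κ → PhasePoint) × (Space3 × Plane)) → ℝ≥0∞) (s, (Y, c))

theorem kerW_relab (b : ℝ) {ι : Type*} [Fintype ι] (e : ι ≃ κ) (i0 : κ) (Ψ : Space3 → ℝ≥0∞)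
    (u : Space3) (Y : κ → PhasePoint) (c : Space3 × Plane) :
    kerW b (e.symm i0) Ψ u (fun x => Y (e x)) c = kerW b i0 Ψ u Y c := by
  unfold kerW
  simp only [Equiv.apply_symm_apply]
  rw [Equiv.sum_comp e fun x => ‖(Y x).2‖ ^ 2]

theorem Kc_relab (hΦ : AdmissiblePotential Φ) {ε : ℝ} (hε : 0 < ε) (T b : ℝ) (m i0 : κ)
    (Ψ : Space3 → ℝ≥0∞) (s : ℝ) {P : CTree} (e : Idx P ≃ κ) (Y : κ → PhasePoint) :
    Kc Φ ε T b (e.symm m) (e.symm i0) (gEq P (e.symm m)) Ψ s (fun x => Y (e x)) =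
      ∫⁻ c : Space3 × Plane, kerW b i0 Ψ (flow Φ ε s Y m).2 Y c *
        (CW1 Φ ε T (gEq P (e.symm m))).indicator
          (1 : ℝ × ((Idx P → PhasePoint) × (Space3 × Plane)) → ℝ≥0∞)
          (s, ((fun x => Y (e x)), c)) := by
  unfold Kc
  refine lintegral_congr fun c => ?_
  rw [kerW_relab, Loc45.flow_equiv hΦ hε e s Y]
  simp only [Equiv.apply_symm_apply]

theorem ind_CW_le (ε T : ℝ) (m : κ) (c : ℝ × ((κ → PhasePoint) × (Space3 × Plane))) :
    (CW Φ ε T m).indicator (1 : ℝ × ((κ → PhasePoint) × (Space3 × Plane)) → ℝ≥0∞) c ≤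
      ∑ P ∈ CTree.lt (Fintype.card κ), ∑ e : Idx P ≃ κ,
        (CW1 Φ ε T (gEq P (e.symm m))).indicator
          (1 : ℝ × ((Idx P → PhasePoint) × (Space3 × Plane)) → ℝ≥0∞)
          (c.1, ((fun x => c.2.1 (e x)), c.2.2)) := by
  by_cases hc : c ∈ CW Φ ε T m
  · rw [indicator_of_mem hc]
    obtain ⟨P, e, h⟩ := hc
    have hP : P ∈ CTree.lt (Fintype.card κ) := by
      rw [CTree.mem_lt]
      have h1 := CTree.leaves_eq P
      have h2 := CTree.height_le_size P
      have h3 : P.leaves = Fintype.card κ := by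
        rw [← card_idx P]
        exact Fintype.card_congr e
      omega
    refine le_trans ?_ (Finset.single_le_sum (f := fun P : CTree => ∑ e : Idx P ≃ κ,
        (CW1 Φ ε T (gEq P (e.symm m))).indicator
          (1 : ℝ × ((Idx P → PhasePoint) × (Space3 × Plane)) → ℝ≥0∞)
          (c.1, ((fun x => c.2.1 (e x)), c.2.2))) (fun _ _ => bot_le) hP)
    refine le_trans ?_ (Finset.single_le_sum (f := fun e : Idx P ≃ κ =>
        (CW1 Φ ε T (gEq P (e.symm m))).indicator
          (1 : ℝ × ((Idx P → PhasePoint) × (Space3 × Plane)) → ℝ≥0∞)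
          (c.1, ((fun x => c.2.1 (e x)), c.2.2))) (fun _ _ => bot_le) (Finset.mem_univ e))
    show _ ≤ (CW1 Φ ε T (gEq P (e.symm m))).indicator _ _
    rw [indicator_of_mem h]
    exact le_rfl
  · rw [indicator_of_notMem hc]
    exact bot_le

theorem measurable_term (hΦ : AdmissiblePotential Φ) {ε : ℝ} (hε : 0 < ε) (T b : ℝ) (m i0 : κ)
    {Ψ : Space3 → ℝ≥0∞} (hΨ : Measurable Ψ) (s : ℝ) (Y : κ → PhasePoint) {P : CTree}
    (e : Idx P ≃ κ) :
    Measurable fun c : Space3 × Plane => kerW b i0 Ψ (flow Φ ε s Y m).2 Y c *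
        (CW1 Φ ε T (gEq P (e.symm m))).indicator
          (1 : ℝ × ((Idx P → PhasePoint) × (Space3 × Plane)) → ℝ≥0∞)
          (s, ((fun x => Y (e x)), c)) := by
  have h1 : Measurable fun c : Space3 × Plane => kerW b i0 Ψ (flow Φ ε s Y m).2 Y c :=
    Measurable.comp (g := fun z : Space3 × ((κ → PhasePoint) × (Space3 × Plane)) =>
      kerW b i0 Ψ z.1 z.2.1 z.2.2) (f := fun c : Space3 × Plane => ((flow Φ ε s Y m).2, (Y, c)))
      (measurable_kerW b i0 hΨ) (measurable_const.prodMk (measurable_const.prodMk measurable_id))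
  refine h1.mul ?_
  exact (measurable_one.indicator (measurableSet_CW1 hΦ hε (gEq P (e.symm m)))).comp
    (measurable_const.prodMk (measurable_const.prodMk measurable_id) :
      Measurable fun c : Space3 × Plane => (s, ((fun x => Y (e x)), c)))

theorem Kg_le (hΦ : AdmissiblePotential Φ) {ε : ℝ} (hε : 0 < ε) (T b : ℝ) (m i0 : κ)
    {Ψ : Space3 → ℝ≥0∞} (hΨ : Measurable Ψ) (s : ℝ) (Y : κ → PhasePoint) :
    Kg Φ ε T b m i0 Ψ s Y ≤ ∑ P ∈ CTree.lt (Fintype.card κ), ∑ e : Idx P ≃ κ,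
      Kc Φ ε T b (e.symm m) (e.symm i0) (gEq P (e.symm m)) Ψ s (fun x => Y (e x)) := by
  have h0 : ∀ c : Space3 × Plane, kerW b i0 Ψ (flow Φ ε s Y m).2 Y c *
      (CW Φ ε T m).indicator (1 : ℝ × ((κ → PhasePoint) × (Space3 × Plane)) → ℝ≥0∞) (s, (Y, c)) ≤
      ∑ P ∈ CTree.lt (Fintype.card κ), ∑ e : Idx P ≃ κ,
        kerW b i0 Ψ (flow Φ ε s Y m).2 Y c * (CW1 Φ ε T (gEq P (e.symm m))).indicator
          (1 : ℝ × ((Idx P → PhasePoint) × (Space3 × Plane)) → ℝ≥0∞)
          (s, ((fun x => Y (e x)), c)) := by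
    intro c
    refine (mul_le_mul' le_rfl (ind_CW_le ε T m (s, (Y, c)))).trans (le_of_eq ?_)
    rw [Finset.mul_sum]
    refine Finset.sum_congr rfl fun P _ => ?_
    rw [Finset.mul_sum]
  unfold Kg
  refine (lintegral_mono h0).trans (le_of_eq ?_)
  rw [lintegral_finsetSum' _ fun P _ => (Finset.measurable_sum _ fun e _ =>
    measurable_term hΦ hε T b m i0 hΨ s Y e).aemeasurable]
  refine Finset.sum_congr rfl fun P _ => ?_
  rw [lintegral_finsetSum' _ fun e _ => (measurable_term hΦ hε T b m i0 hΨ s Y e).aemeasurable]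
  refine Finset.sum_congr rfl fun e _ => ?_
  rw [Kc_relab hΦ hε]

/-- the two forms of the integral over the partner -/
theorem inner_eq (hΦ : AdmissiblePotential Φ) {ε : ℝ} (hε : 0 < ε) (T b : ℝ) (m i0 : κ)
    {Ψ : Space3 → ℝ≥0∞} (hΨ : Measurable Ψ) (s : ℝ) (Y : κ → PhasePoint) :
    ∫⁻ w : Space3, ∫⁻ y in Metric.ball (0 : Plane) 1,
      ENNReal.ofReal ‖(flow Φ ε s Y m).2 - w‖ * GY Φ ε T b m i0 Ψ s Y
        ((flow Φ ε s Y m).1 + ε • entrancePoint (frameMap ((flow Φ ε s Y m).2 - w) y)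
          ((flow Φ ε s Y m).2 - w), w) = Kg Φ ε T b m i0 Ψ s Y := by
  have h1 : Measurable fun c : Space3 × Plane => kerW b i0 Ψ (flow Φ ε s Y m).2 Y c *
      (CW Φ ε T m).indicator (1 : ℝ × ((κ → PhasePoint) × (Space3 × Plane)) → ℝ≥0∞)
        (s, (Y, c)) := by
    have h1 : Measurable fun c : Space3 × Plane => kerW b i0 Ψ (flow Φ ε s Y m).2 Y c :=
      Measurable.comp (g := fun z : Space3 × ((κ → PhasePoint) × (Space3 × Plane)) =>
        kerW b i0 Ψ z.1 z.2.1 z.2.2) (f := fun c : Space3 × Plane => ((flow Φ ε s Y m).2, (Y, c)))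
        (measurable_kerW b i0 hΨ) (measurable_const.prodMk (measurable_const.prodMk measurable_id))
    exact h1.mul ((measurable_one.indicator (measurableSet_CW hΦ hε m)).comp
      (measurable_const.prodMk (measurable_const.prodMk measurable_id)))
  have hvol : (volume : Measure (Space3 × Plane)) =
      (volume : Measure Space3).prod (volume : Measure Plane) := rfl
  unfold Kg
  rw [hvol, lintegral_prod _ h1.aemeasurable]
  refine lintegral_congr fun w => ?_
  rw [← lintegral_indicator measurableSet_ball]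
  refine lintegral_congr fun y => ?_
  by_cases hy : y ∈ Metric.ball (0 : Plane) 1
  swap
  · rw [indicator_of_notMem hy]
    unfold kerW
    rw [indicator_of_notMem hy]
    simp
  rw [indicator_of_mem hy]
  by_cases hw : (flow Φ ε s Y m).2 = w
  · have e0 : ENNReal.ofReal ‖(flow Φ ε s Y m).2 - w‖ = 0 := by rw [hw]; simp
    unfold kerW
    simp only [e0, zero_mul]
  · unfold GY kerW
    have e1 : (badY Φ ε T m).indicator (1 : ℝ × ((κ → PhasePoint) × PhasePoint) → ℝ≥0∞)
        (s, (Y, ((flow Φ ε s Y m).1 + ε • entrancePoint (frameMap ((flow Φ ε s Y m).2 - w) y)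
          ((flow Φ ε s Y m).2 - w), w))) =
        (CW Φ ε T m).indicator (1 : ℝ × ((κ → PhasePoint) × (Space3 × Plane)) → ℝ≥0∞)
          (s, (Y, (w, y))) := by
      by_cases hc : (s, (Y, (w, y))) ∈ CW Φ ε T m
      · rw [indicator_of_mem hc, indicator_of_mem ((mem_badY_iff hε hw).2 hc)]
        rfl
      · rw [indicator_of_notMem hc, indicator_of_notMem fun h => hc ((mem_badY_iff hε hw).1 h)]
    rw [e1, indicator_of_mem hy]
    simp only [Pi.one_apply]
    ring

/-- **D5 (b): the flux integral of the bad grafts is `o(ε ^ (2 (card κ - 1)))`.** -/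
theorem cherry (hΦ : AdmissiblePotential Φ) (m i0 : κ) {b : ℝ} (hb : 0 < b) (T : ℝ) :
    ∃ q : ℝ → ℝ≥0∞, Tendsto q (𝓝[>] 0) (𝓝 0) ∧ ∀ (ε : ℝ) (Ψ : Space3 → ℝ≥0∞), 0 < ε →
      Measurable Ψ →
      ∫⁻ s in Icc 0 T, ∫⁻ Y : κ → PhasePoint, ∫⁻ w : Space3, ∫⁻ y in Metric.ball (0 : Plane) 1,
        ENNReal.ofReal ‖(flow Φ ε s Y m).2 - w‖ * GY Φ ε T b m i0 Ψ s Y
          ((flow Φ ε s Y m).1 + ε • entrancePoint (frameMap ((flow Φ ε s Y m).2 - w) y)
            ((flow Φ ε s Y m).2 - w), w) ≤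
        ENNReal.ofReal (ε ^ 2) ^ (Fintype.card κ - 1) * ((∫⁻ x, Ψ x) * q ε) := by
  choose q hq1 hq2 using fun (P : CTree) (e : Idx P ≃ κ) =>
    step hΦ hb T (isGraft (Φ := Φ) P (e.symm m)) (e.symm i0)
  refine ⟨fun ε => ∑ P ∈ CTree.lt (Fintype.card κ), ∑ e : Idx P ≃ κ, q P e ε, ?_,
    fun ε Ψ hε hΨ => ?_⟩
  · have h : Tendsto (fun ε => ∑ P ∈ CTree.lt (Fintype.card κ), ∑ e : Idx P ≃ κ, q P e ε)
        (𝓝[>] 0) (𝓝 (∑ P ∈ CTree.lt (Fintype.card κ), ∑ _e : Idx P ≃ κ, 0)) :=
      tendsto_finsetSum _ fun P _ => tendsto_finsetSum _ fun e _ => hq1 P e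
    simpa using h
  · have hae : (volume : Measure ℝ).restrict (Icc 0 T) = volume.restrict (Ioo 0 T) :=
      (Measure.restrict_congr_set Ioo_ae_eq_Icc).symm
    simp only [inner_eq hΦ hε T b m i0 hΨ]
    rw [hae]
    -- measurability of the terms
    have hm : ∀ (P : CTree) (e : Idx P ≃ κ), Measurable fun z : ℝ × (κ → PhasePoint) =>
        Kc Φ ε T b (e.symm m) (e.symm i0) (gEq P (e.symm m)) Ψ z.1 (fun x => z.2 (e x)) := by
      intro P e
      have h1 : Measurable fun z : ℝ × (κ → PhasePoint) => (z.1, fun x : Idx P => z.2 (e x)) :=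
        measurable_fst.prodMk (measurable_pi_iff.2 fun x =>
          (measurable_pi_apply (e x)).comp measurable_snd)
      exact Measurable.comp (g := fun z : ℝ × (Idx P → PhasePoint) =>
        Kc Φ ε T b (e.symm m) (e.symm i0) (gEq P (e.symm m)) Ψ z.1 z.2)
        (f := fun z : ℝ × (κ → PhasePoint) => (z.1, fun x : Idx P => z.2 (e x)))
        (measurable_Kc hΦ hε T b (e.symm m) (e.symm i0) (gEq P (e.symm m)) hΨ) h1
    have hms : ∀ (P : CTree) (e : Idx P ≃ κ) (s : ℝ), Measurable fun Y : κ → PhasePoint =>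
        Kc Φ ε T b (e.symm m) (e.symm i0) (gEq P (e.symm m)) Ψ s (fun x => Y (e x)) := by
      intro P e s
      exact Measurable.comp (g := fun z : ℝ × (κ → PhasePoint) =>
        Kc Φ ε T b (e.symm m) (e.symm i0) (gEq P (e.symm m)) Ψ z.1 (fun x => z.2 (e x)))
        (f := fun Y : κ → PhasePoint => (s, Y)) (hm P e) measurable_prodMk_left
    have hmi : ∀ (P : CTree) (e : Idx P ≃ κ), Measurable fun s : ℝ => ∫⁻ Y : κ → PhasePoint,
        Kc Φ ε T b (e.symm m) (e.symm i0) (gEq P (e.symm m)) Ψ s (fun x => Y (e x)) := by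
      intro P e
      exact Measurable.lintegral_prod_right' (f := fun z : ℝ × (κ → PhasePoint) =>
        Kc Φ ε T b (e.symm m) (e.symm i0) (gEq P (e.symm m)) Ψ z.1 (fun x => z.2 (e x))) (hm P e)
    have h1 : ∀ s : ℝ, ∫⁻ Y : κ → PhasePoint, Kg Φ ε T b m i0 Ψ s Y ≤
        ∑ P ∈ CTree.lt (Fintype.card κ), ∑ e : Idx P ≃ κ, ∫⁻ Y : κ → PhasePoint,
          Kc Φ ε T b (e.symm m) (e.symm i0) (gEq P (e.symm m)) Ψ s (fun x => Y (e x)) := by
      intro s
      refine (lintegral_mono fun Y => Kg_le hΦ hε T b m i0 hΨ s Y).trans (le_of_eq ?_)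
      rw [lintegral_finsetSum' _ fun P _ => (Finset.measurable_sum _ fun e _ =>
        hms P e s).aemeasurable]
      refine Finset.sum_congr rfl fun P _ => ?_
      rw [lintegral_finsetSum' _ fun e _ => (hms P e s).aemeasurable]
    refine (lintegral_mono h1).trans ?_
    rw [lintegral_finsetSum' _ fun P _ => (Finset.measurable_sum _ fun e _ =>
        hmi P e).aemeasurable, Finset.mul_sum, Finset.mul_sum]
    refine Finset.sum_le_sum fun P _ => ?_
    rw [lintegral_finsetSum' _ fun e _ => (hmi P e).aemeasurable, Finset.mul_sum, Finset.mul_sum]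
    refine Finset.sum_le_sum fun e _ => ?_
    have hcard : P.size = Fintype.card κ - 1 := by
      have h1 := CTree.leaves_eq P
      have h3 : P.leaves = Fintype.card κ := by
        rw [← card_idx P]
        exact Fintype.card_congr e
      omega
    rw [← hcard]
    refine le_trans (le_of_eq ?_) (hq2 P e ε Ψ hε hΨ)
    refine lintegral_congr fun s => ?_
    exact (measurePreserving_relabel e).lintegral_comp
      (measurable_Kcs hΦ hε T b (e.symm m) (e.symm i0) (gEq P (e.symm m)) hΨ s)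

end Crest.Agent.R122.Cherry796

end
end

-- ▼ part R122/BadOne2_350

/-!
Row 122, helper350: the bad release steps of one particle (second alternative of 726's `BadStep`)
have measure `o(ε^(2(k-1)))` (D5, case (B2)).
-/

set_option autoImplicit false
set_option linter.unusedSectionVars false

open MeasureTheory Set Filter Topology
open Crest.AnalysisR.Kinetic
open Crest.Agent.R122.Flow671 Crest.Agent.R122.Loc45 Crest.Agent.R122.Causal291
open Crest.Agent.R122.Omega969 Crest.Agent.R122.Disc416 Crest.Agent.R122.Chain726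
open Crest.Agent.R122.Cherry796
open scoped Classical ENNReal

noncomputable section

namespace Crest.Agent.R122.Flux350

variable {Φ : Space3 → ℝ} {ε : ℝ} {ι κ : Type*} [Fintype κ]

/-- on the bad set the energy is kinetic -/
lemma energy_badY (hΦ : AdmissiblePotential Φ) (hε : 0 < ε) {T : ℝ} (hT : 0 ≤ T) {m : κ} {s : ℝ}
    {Y : κ → PhasePoint} {z : PhasePoint} (h : (s, (Y, z)) ∈ badY Φ ε T m) :
    energy Φ ε Y = (∑ x, ‖(Y x).2‖ ^ 2) / 2 := by
  obtain ⟨P, e, h1⟩ := h
  have h2 := h1.1.1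
  have h3 := h1.1.2.1
  simp only at h2 h3
  have h4 := (Crest.Agent.R122.Tree674.lines_inv hΦ hε h2).2
  have h5 := energy_lines hΦ hε hT h3
  rw [h4, energy_equiv] at h5
  rw [h5]
  have h6 : ∀ i, Crest.Agent.R122.Tree674.vels Φ P (Crest.Agent.R122.Tree674.inv Φ ε P T (fun x => Y (e x))).1.2
      (Crest.Agent.R122.Tree674.inv Φ ε P T (fun x => Y (e x))).2 i = (Y (e i)).2 := by
    intro i
    have h7 := Hid424.lines_vel (Φ := Φ) ε P (Crest.Agent.R122.Tree674.inv Φ ε P T (fun x => Y (e x))).1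
      (Crest.Agent.R122.Tree674.inv Φ ε P T (fun x => Y (e x))).2 i
    rw [h4] at h7
    exact h7.symm
  simp only [h6]
  rw [Equiv.sum_comp e (fun x => ‖(Y x).2‖ ^ 2)]
  ring

/-- the weight of 796's functional is the energy weight -/
lemma weight_eq (hΦ : AdmissiblePotential Φ) (hε : 0 < ε) {T : ℝ} (hT : 0 ≤ T) (γ : ℝ) (m i : κ)
    (Ψ : Space3 → ℝ≥0∞) (s : ℝ) (W : κ → PhasePoint) (z : PhasePoint) (N : ℝ≥0∞) :
    ENNReal.ofReal (Real.exp (-(γ * (energy Φ ε W + ‖z.2‖ ^ 2 / 2)))) *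
      (N * (Ψ (W i).1 * (badY Φ ε T m).indicator 1 (s, (W, z)))) =
    N * GY Φ ε T (γ / 2) m i Ψ s W z := by
  unfold GY
  by_cases hb : (s, (W, z)) ∈ badY Φ ε T m
  · rw [energy_badY hΦ hε hT hb]
    rw [show -(γ * ((∑ x, ‖(W x).2‖ ^ 2) / 2 + ‖z.2‖ ^ 2 / 2)) =
      -(γ / 2) * (∑ x, ‖(W x).2‖ ^ 2 + ‖z.2‖ ^ 2) by ring]
    ring
  · rw [indicator_of_notMem hb]
    simp

/-- **D5, case (B2): bad one-particle release steps.** -/
theorem bad_one {ι : Type} [Fintype ι] (hΦ : AdmissiblePotential Φ) {γ : ℝ} (hγ : 0 < γ) (T : ℝ) :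
    ∃ q : ℝ → ℝ≥0∞, Tendsto q (𝓝[>] 0) (𝓝 0) ∧ ∀ ε : ℝ, 0 < ε → ε ≤ 1 →
      ∀ (A A' : Finset ι), A'.card + 1 = A.card → ∀ (i : ι) (Ψ : Space3 → ℝ≥0∞), Measurable Ψ →
      ∃ M : (A → PhasePoint) → ℝ≥0∞, Measurable M ∧
        (∀ (W : A → PhasePoint) (s : ℝ) (W' : A' → PhasePoint), s ∈ Icc 0 T → Step Φ ε s W W' →
          ∀ (j : A) (m i' : A'), (i' : ι) = i → (j : ι) ∉ A' →
            dist (flow Φ ε s W j).1 (flow Φ ε s W' m).1 = ε →
            (inner ℝ ((flow Φ ε s W j).1 - (flow Φ ε s W' m).1)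
                ((flow Φ ε s W j).2 - (flow Φ ε s W' m).2) = 0 ∨
              0 < inner ℝ ((flow Φ ε s W j).1 - (flow Φ ε s W' m).1)
                ((flow Φ ε s W j).2 - (flow Φ ε s W' m).2) ∧
              BadGraft Φ ε T i' s W' m (flow Φ ε s W j)) →
            Ψ (W' i').1 ≤ M W) ∧
        ∫⁻ W, ENNReal.ofReal (Real.exp (-(γ * energy Φ ε W))) * M W ≤
          q ε * ENNReal.ofReal (ε ^ (2 * (A.card - 1))) * ∫⁻ x, Ψ x := by
  choose q hq1 hq2 using fun (A' : Finset ι) (i m : A') =>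
    cherry (κ := A') hΦ m i (half_pos hγ) T
  refine ⟨fun ε => ∑ A' : Finset ι, ∑ i : A', ∑ m : A', q A' i m ε, ?_, ?_⟩
  · have h : Tendsto (fun ε => ∑ A' : Finset ι, ∑ i : A', ∑ m : A', q A' i m ε) (𝓝[>] 0)
        (𝓝 (∑ A' : Finset ι, ∑ _i : A', ∑ _m : A', 0)) :=
      tendsto_finsetSum _ fun A' _ => tendsto_finsetSum _ fun i _ => tendsto_finsetSum _ fun m _ =>
        hq1 A' i m
    simpa using h
  intro ε hε _ A A' hc i Ψ hΨ
  by_cases hgood : 0 ≤ T ∧ A' ⊆ A ∧ i ∈ A'
  swap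
  · refine ⟨fun _ => 0, measurable_const, ?_, ?_⟩
    · intro W s W' hs hS j m i' hi' hj hd hbad
      exact absurd ⟨hs.1.trans hs.2, hS.sub, hi' ▸ i'.2⟩ hgood
    · simp
  obtain ⟨hT, hsub, hi⟩ := hgood
  set i0 : A' := ⟨i, hi⟩ with hi0
  have hB : ∀ m : A', ∫⁻ s in Icc 0 T, ∫⁻ W : A' → PhasePoint, ∫⁻ w : Space3,
      ∫⁻ y in Metric.ball (0 : Plane) 1,
        ENNReal.ofReal (Real.exp (-(γ * (energy Φ ε W + ‖w‖ ^ 2 / 2)))) *
        (ENNReal.ofReal ‖(flow Φ ε s W m).2 - w‖ * (Ψ (W i0).1 * (badY Φ ε T m).indicator 1 (s, (W,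
          ((flow Φ ε s W m).1 + ε • entrancePoint (frameMap ((flow Φ ε s W m).2 - w) y)
            ((flow Φ ε s W m).2 - w), w))))) ≤
      ENNReal.ofReal (ε ^ 2) ^ (Fintype.card A' - 1) * ((∫⁻ x, Ψ x) * q A' i0 m ε) := by
    intro m
    refine le_trans (le_of_eq ?_) (hq2 A' i0 m ε Ψ hε hΨ)
    refine lintegral_congr fun s => lintegral_congr fun W => lintegral_congr fun w =>
      lintegral_congr fun y => ?_
    exact weight_eq hΦ hε hT γ m i0 Ψ s W
      ((flow Φ ε s W m).1 + ε • entrancePoint (frameMap ((flow Φ ε s W m).2 - w) y)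
        ((flow Φ ε s W m).2 - w), w) (ENNReal.ofReal ‖(flow Φ ε s W m).2 - w‖)
  obtain ⟨M, hM, hM1, hM2⟩ := bad_one_of hΦ hε hT hsub hc i0 hΨ
    (C := fun m => badY Φ ε T m) (fun m => measurableSet_badY hΦ hε m) γ hB
  refine ⟨M, hM, ?_, hM2.trans ?_⟩
  · intro W s W' hs hS j m i' hi' hj hd hbad
    have hii : i' = i0 := Subtype.ext hi'
    subst hii
    refine hM1 W W' s hs hS j m hj hd ?_
    rcases hbad with hb | ⟨-, hb⟩
    · exact Or.inl hb
    · exact Or.inr (mem_badY hΦ hε hb)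
  · have hcard : Fintype.card A' = A'.card := Fintype.card_coe A'
    have hpos : 1 ≤ A'.card := Finset.card_pos.2 ⟨i, hi⟩
    have h1 : ENNReal.ofReal (ε ^ 2) * ENNReal.ofReal (ε ^ 2) ^ (Fintype.card A' - 1) =
        ENNReal.ofReal (ε ^ (2 * (A.card - 1))) := by
      rw [← pow_succ', hcard, ← ENNReal.ofReal_pow (sq_nonneg ε), ← pow_mul]
      congr 3
      omega
    rw [← Finset.mul_sum, ← Finset.mul_sum, ← mul_assoc, h1]
    have h2 : ∑ m : A', q A' i0 m ε ≤ ∑ A' : Finset ι, ∑ i : A', ∑ m : A', q A' i m ε := by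
      refine le_trans ?_ (Finset.single_le_sum (f := fun A' : Finset ι =>
        ∑ i : A', ∑ m : A', q A' i m ε) (fun _ _ => zero_le) (Finset.mem_univ A'))
      exact Finset.single_le_sum (f := fun i : A' => ∑ m : A', q A' i m ε)
        (fun _ _ => zero_le) (Finset.mem_univ i0)
    calc ENNReal.ofReal (ε ^ (2 * (A.card - 1))) * ((∫⁻ x, Ψ x) * ∑ m : A', q A' i0 m ε)
        ≤ ENNReal.ofReal (ε ^ (2 * (A.card - 1))) * ((∫⁻ x, Ψ x) *
          ∑ A' : Finset ι, ∑ i : A', ∑ m : A', q A' i m ε) :=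
          mul_le_mul_right (mul_le_mul_right h2 _) _
      _ = _ := by ring

end Crest.Agent.R122.Flux350

end
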