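import Mathlib
import Crest.Prelude.Def_KineticLimit

/-!
helper815, row 122, block LF: sweeping (contact) inequalities.
-/

set_option autoImplicit false
open MeasureTheory Set Filter
open scoped ENNReal Topology

noncomputable section

namespace Crest.Agent.R122.Sweep815

open Crest.AnalysisR.Kinetic

/-! ### The deterministic contact inequality -/

/-- **Sweeping inequality**, scalar form. `d` is a "distance along time" which can grow backwards in
time at most like `∫ σ`.  If `d ≤ r` somewhere on `[a,b]` then either `d a ≤ 2 r`, or the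
occupation integral of `{d ≤ 2 r}` with weight `σ` is at least `r`. -/
theorem sweep_real {a b r : ℝ} (hr : 0 < r) {d σ : ℝ → ℝ}
    (hσ0 : ∀ s ∈ Icc a b, 0 ≤ σ s) (hσ : IntegrableOn σ (Icc a b))
    (hd : ∀ s ∈ Icc a b, ∀ s' ∈ Icc a b, s ≤ s' → d s ≤ d s' + ∫ u in s..s', σ u)
    (h : ∃ s ∈ Icc a b, d s ≤ r) :
    d a ≤ 2 * r ∨
      ENNReal.ofReal r ≤ ∫⁻ u in Icc a b, {u | d u ≤ 2 * r}.indicator (fun u => ENNReal.ofReal (σ u)) u := by
  obtain ⟨s0, hs0, hds0⟩ := h
  have hab : a ≤ b := hs0.1.trans hs0.2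
  have hint : ∀ s ∈ Icc a b, ∀ s' ∈ Icc a b, IntervalIntegrable σ volume s s' := by
    intro s hs s' hs'
    have : uIcc s s' ⊆ Icc a b := uIcc_subset_Icc hs hs'
    exact (hσ.mono_set this).intervalIntegrable
  set F : ℝ → ℝ := fun s => ∫ u in s..s0, σ u with hF
  have hamem : a ∈ Icc a b := ⟨le_refl _, hab⟩
  by_cases hFa : F a ≤ r
  · left
    have := hd a hamem s0 hs0 hs0.1
    have h2 : (∫ u in a..s0, σ u) = F a := rfl
    linarith
  right
  push Not at hFa
  -- continuity of F on [a, s0]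
  have hcont : ContinuousOn F (Icc a s0) := by
    have h1 : ContinuousOn (fun s => ∫ u in a..s, σ u) (Icc a s0) := by
      have := intervalIntegral.continuousOn_primitive_interval (a := a) (b := s0) (f := σ)
        (μ := volume) (by
          rw [uIcc_of_le hs0.1]
          exact hσ.mono_set (Icc_subset_Icc le_rfl hs0.2))
      rwa [uIcc_of_le hs0.1] at this
    have h2 : ∀ s ∈ Icc a s0, F s = (∫ u in a..s0, σ u) - ∫ u in a..s, σ u := by
      intro s hs
      have hs' : s ∈ Icc a b := ⟨hs.1, hs.2.trans hs0.2⟩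
      have := intervalIntegral.integral_add_adjacent_intervals (hint a hamem s hs') (hint s hs' s0 hs0)
      simp only [hF]
      linarith
    exact (continuousOn_const.sub h1).congr h2
  have hF0 : F s0 = 0 := by simp [hF]
  have hivt : r ∈ F '' Icc a s0 := by
    have := intermediate_value_Icc' hs0.1 hcont
    apply this
    rw [hF0]
    exact ⟨hr.le, hFa.le⟩
  obtain ⟨s1, hs1, hFs1⟩ := hivt
  have hs1' : s1 ∈ Icc a b := ⟨hs1.1, hs1.2.trans hs0.2⟩
  have hsub : Icc s1 s0 ⊆ Icc a b := Icc_subset_Icc hs1.1 hs0.2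
  -- on [s1,s0] we have d ≤ 2 r
  have hdle : ∀ u ∈ Icc s1 s0, d u ≤ 2 * r := by
    intro u hu
    have hu' : u ∈ Icc a b := hsub hu
    have h1 := hd u hu' s0 hs0 hu.2
    have h2 : (∫ v in u..s0, σ v) ≤ r := by
      have h3 := intervalIntegral.integral_add_adjacent_intervals (hint s1 hs1' u hu') (hint u hu' s0 hs0)
      have h4 : 0 ≤ ∫ v in s1..u, σ v :=
        intervalIntegral.integral_nonneg hu.1 (fun v hv => hσ0 v (hsub ⟨hv.1, hv.2.trans hu.2⟩))
      have h5 : (∫ v in s1..s0, σ v) = r := hFs1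
      linarith
    linarith
  calc ENNReal.ofReal r = ENNReal.ofReal (∫ u in Icc s1 s0, σ u) := by
        rw [← hFs1, integral_Icc_eq_integral_Ioc, ← intervalIntegral.integral_of_le hs1.2]
    _ = ∫⁻ u in Icc s1 s0, ENNReal.ofReal (σ u) := by
        rw [ofReal_integral_eq_lintegral_ofReal (hσ.mono_set hsub)]
        refine (ae_restrict_iff' measurableSet_Icc).2 (ae_of_all _ ?_)
        intro u hu
        exact hσ0 u (hsub hu)
    _ = ∫⁻ u in Icc s1 s0, {u | d u ≤ 2 * r}.indicator (fun u => ENNReal.ofReal (σ u)) u := by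
        refine setLIntegral_congr_fun measurableSet_Icc ?_
        intro u hu
        simp only
        rw [indicator_of_mem (show u ∈ {u | d u ≤ 2 * r} from hdle u hu)]
    _ ≤ _ := lintegral_mono_set hsub

/-- **Sweeping inequality**, `ℝ≥0∞`-form with indicators. -/
theorem sweep {a b r : ℝ} (hr : 0 < r) {d σ : ℝ → ℝ}
    (hσ0 : ∀ s ∈ Icc a b, 0 ≤ σ s) (hσ : IntegrableOn σ (Icc a b))
    (hd : ∀ s ∈ Icc a b, ∀ s' ∈ Icc a b, s ≤ s' → d s ≤ d s' + ∫ u in s..s', σ u) :
    {_x : ℝ | ∃ s ∈ Icc a b, d s ≤ r}.indicator (fun _ => (1 : ℝ≥0∞)) 0 ≤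
      {u | d u ≤ 2 * r}.indicator (fun _ => (1 : ℝ≥0∞)) a +
        (ENNReal.ofReal r)⁻¹ *
          ∫⁻ u in Icc a b, {u | d u ≤ 2 * r}.indicator (fun u => ENNReal.ofReal (σ u)) u := by
  by_cases h : ∃ s ∈ Icc a b, d s ≤ r
  · rw [indicator_of_mem (show (0:ℝ) ∈ {x : ℝ | ∃ s ∈ Icc a b, d s ≤ r} from h)]
    rcases sweep_real hr hσ0 hσ hd h with h1 | h1
    · rw [indicator_of_mem (show a ∈ {u | d u ≤ 2 * r} from h1)]
      exact le_self_add
    · refine le_trans ?_ le_add_self
      have h0 : ENNReal.ofReal r ≠ 0 := by simpa using hr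
      calc (1 : ℝ≥0∞) = (ENNReal.ofReal r)⁻¹ * ENNReal.ofReal r :=
            (ENNReal.inv_mul_cancel h0 ENNReal.ofReal_ne_top).symm
        _ ≤ _ := by gcongr
  · rw [indicator_of_notMem (show (0:ℝ) ∉ {x : ℝ | ∃ s ∈ Icc a b, d s ≤ r} from h)]
    exact bot_le

/-! ### Curves -/

section Curves

variable {E : Type*} [NormedAddCommGroup E] [NormedSpace ℝ E]

/-- The one-sided growth hypothesis of `sweep` for the difference of two `C¹` curves. -/
theorem dist_le_of_deriv [CompleteSpace E] {a b : ℝ} {p q p' q' : ℝ → E}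
    (hp : ∀ s ∈ Icc a b, HasDerivAt p (p' s) s) (hq : ∀ s ∈ Icc a b, HasDerivAt q (q' s) s)
    (hp' : ContinuousOn p' (Icc a b)) (hq' : ContinuousOn q' (Icc a b)) :
    ∀ s ∈ Icc a b, ∀ s' ∈ Icc a b, s ≤ s' →
      dist (p s) (q s) ≤ dist (p s') (q s') + ∫ u in s..s', ‖p' u - q' u‖ := by
  intro s hs s' hs' hss'
  have hsub : uIcc s s' ⊆ Icc a b := uIcc_subset_Icc hs hs'
  have hcont : ContinuousOn (fun u => p' u - q' u) (uIcc s s') := (hp'.sub hq').mono hsub
  have h1 : (∫ u in s..s', (p' u - q' u)) = (p s' - q s') - (p s - q s) := by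
    refine intervalIntegral.integral_eq_sub_of_hasDerivAt (f := fun u => p u - q u) ?_ hcont.intervalIntegrable
    intro u hu
    exact (hp u (hsub hu)).sub (hq u (hsub hu))
  have h2 : ‖∫ u in s..s', (p' u - q' u)‖ ≤ ∫ u in s..s', ‖p' u - q' u‖ :=
    intervalIntegral.norm_integral_le_integral_norm hss'
  rw [dist_eq_norm, dist_eq_norm]
  have h3 : p s - q s = (p s' - q s') - ∫ u in s..s', (p' u - q' u) := by
    rw [h1]; abel
  calc ‖p s - q s‖ = ‖(p s' - q s') - ∫ u in s..s', (p' u - q' u)‖ := by rw [← h3]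
    _ ≤ ‖p s' - q s'‖ + ‖∫ u in s..s', (p' u - q' u)‖ := norm_sub_le _ _
    _ ≤ _ := by linarith


end Curves

/-! ### Integrated versions -/

section Integrated

variable {Ω : Type*} [MeasurableSpace Ω]

/-- **Integrated sweeping inequality.** For a jointly measurable family of distance functions `d ω`
and speeds `σ ω` satisfying the hypotheses of `sweep`, with weight `w`. -/
theorem lintegral_sweep (ν : Measure Ω) [SFinite ν] {a b r : ℝ} (hr : 0 < r) {d σ : Ω → ℝ → ℝ}
    {w : Ω → ℝ≥0∞} (hw : Measurable w)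
    (hdm : Measurable (Function.uncurry d)) (hσm : Measurable (Function.uncurry σ))
    (hσ0 : ∀ ω, ∀ s ∈ Icc a b, 0 ≤ σ ω s) (hσ : ∀ ω, IntegrableOn (σ ω) (Icc a b))
    (hd : ∀ ω, ∀ s ∈ Icc a b, ∀ s' ∈ Icc a b, s ≤ s' → d ω s ≤ d ω s' + ∫ u in s..s', σ ω u) :
    ∫⁻ ω, w ω * {ω | ∃ s ∈ Icc a b, d ω s ≤ r}.indicator 1 ω ∂ν ≤
      ∫⁻ ω, w ω * {ω | d ω a ≤ 2 * r}.indicator 1 ω ∂ν +
        (ENNReal.ofReal r)⁻¹ * ∫⁻ u in Icc a b,
          ∫⁻ ω, w ω * {ω | d ω u ≤ 2 * r}.indicator (fun ω => ENNReal.ofReal (σ ω u)) ω ∂ν := by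
  have hmeas1 : Measurable (fun p : Ω × ℝ => w p.1 *
      {p : Ω × ℝ | d p.1 p.2 ≤ 2 * r}.indicator (fun p => ENNReal.ofReal (σ p.1 p.2)) p) := by
    refine (hw.comp measurable_fst).mul ?_
    exact (hσm.ennreal_ofReal).indicator (measurableSet_le hdm measurable_const)
  have hswap : ∫⁻ u in Icc a b, ∫⁻ ω, w ω *
        {ω | d ω u ≤ 2 * r}.indicator (fun ω => ENNReal.ofReal (σ ω u)) ω ∂ν =
      ∫⁻ ω, w ω * (∫⁻ u in Icc a b,
        {u | d ω u ≤ 2 * r}.indicator (fun u => ENNReal.ofReal (σ ω u)) u) ∂ν := by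
    have h1 : ∀ (u : ℝ) (ω : Ω), w ω *
        {ω | d ω u ≤ 2 * r}.indicator (fun ω => ENNReal.ofReal (σ ω u)) ω =
        w ω * {p : Ω × ℝ | d p.1 p.2 ≤ 2 * r}.indicator
          (fun p => ENNReal.ofReal (σ p.1 p.2)) (ω, u) := by
      intro u ω
      by_cases h : d ω u ≤ 2 * r
      · rw [indicator_of_mem (show ω ∈ {ω | d ω u ≤ 2 * r} from h),
          indicator_of_mem (show (ω, u) ∈ {p : Ω × ℝ | d p.1 p.2 ≤ 2 * r} from h)]
      · rw [indicator_of_notMem (show ω ∉ {ω | d ω u ≤ 2 * r} from h),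
          indicator_of_notMem (show (ω, u) ∉ {p : Ω × ℝ | d p.1 p.2 ≤ 2 * r} from h)]
    have h2 : ∀ (ω : Ω) (u : ℝ),
        {u | d ω u ≤ 2 * r}.indicator (fun u => ENNReal.ofReal (σ ω u)) u =
        {p : Ω × ℝ | d p.1 p.2 ≤ 2 * r}.indicator
          (fun p => ENNReal.ofReal (σ p.1 p.2)) (ω, u) := by
      intro ω u
      by_cases h : d ω u ≤ 2 * r
      · rw [indicator_of_mem (show u ∈ {u | d ω u ≤ 2 * r} from h),
          indicator_of_mem (show (ω, u) ∈ {p : Ω × ℝ | d p.1 p.2 ≤ 2 * r} from h)]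
      · rw [indicator_of_notMem (show u ∉ {u | d ω u ≤ 2 * r} from h),
          indicator_of_notMem (show (ω, u) ∉ {p : Ω × ℝ | d p.1 p.2 ≤ 2 * r} from h)]
    simp_rw [h1]
    rw [lintegral_lintegral_swap
      (f := fun (u : ℝ) (ω : Ω) => w ω * {p : Ω × ℝ | d p.1 p.2 ≤ 2 * r}.indicator
          (fun p => ENNReal.ofReal (σ p.1 p.2)) (ω, u))
      ((hmeas1.comp measurable_swap).aemeasurable)]
    refine lintegral_congr fun ω => ?_
    rw [lintegral_const_mul]
    · congr 1
    · exact ((hσm.ennreal_ofReal).indicator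
        (s := {p : Ω × ℝ | d p.1 p.2 ≤ 2 * r}) (measurableSet_le hdm measurable_const)).comp
        measurable_prodMk_left
  rw [hswap, ← lintegral_const_mul]
  swap
  · refine hw.mul ?_
    have := ((hσm.ennreal_ofReal).indicator
      (s := {p : Ω × ℝ | d p.1 p.2 ≤ 2 * r}) (measurableSet_le hdm measurable_const)).lintegral_prod_right'
        (ν := volume.restrict (Icc a b))
    exact this
  have hm0 : Measurable (fun ω => w ω * {ω | d ω a ≤ 2 * r}.indicator (1 : Ω → ℝ≥0∞) ω) := by
    refine hw.mul (measurable_one.indicator ?_)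
    exact measurableSet_le (hdm.comp (measurable_id.prodMk measurable_const)) measurable_const
  rw [← lintegral_add_left hm0]
  refine lintegral_mono fun ω => ?_
  rw [← mul_assoc, mul_comm (ENNReal.ofReal r)⁻¹ (w ω), mul_assoc, ← mul_add]
  gcongr
  have := sweep (a := a) (b := b) hr (hσ0 ω) (hσ ω) (hd ω)
  refine le_trans (le_of_eq ?_) this
  by_cases h : ∃ s ∈ Icc a b, d ω s ≤ r
  · rw [indicator_of_mem (show ω ∈ {ω | ∃ s ∈ Icc a b, d ω s ≤ r} from h),
      indicator_of_mem (show (0:ℝ) ∈ {x : ℝ | ∃ s ∈ Icc a b, d ω s ≤ r} from h)]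
    rfl
  · rw [indicator_of_notMem (show ω ∉ {ω | ∃ s ∈ Icc a b, d ω s ≤ r} from h),
      indicator_of_notMem (show (0:ℝ) ∉ {x : ℝ | ∃ s ∈ Icc a b, d ω s ≤ r} from h)]

end Integrated

/-! ### Rigid translations: tube volume -/

/-- The constant `vol(closedBall 0 1)` of Euclidean 3-space. -/
def c3 : ℝ≥0∞ := ENNReal.ofReal (Real.pi * 4 / 3)

theorem vol_closedBall (x : Space3) (r : ℝ) :
    volume (Metric.closedBall x r) = ENNReal.ofReal r ^ 3 * c3 :=
  EuclideanSpace.volume_closedBall_fin_three x r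

/-- Volume of the set of translations `x` such that the rigidly translated curve `x + γ` meets the
`r`-neighbourhood of the moving obstacle `y` during `[a,b]`. -/
theorem volume_translate_le {a b r : ℝ} (hr : 0 < r) {γ y γ' y' : ℝ → Space3}
    (hγ : ∀ s ∈ Icc a b, HasDerivAt γ (γ' s) s) (hy : ∀ s ∈ Icc a b, HasDerivAt y (y' s) s)
    (hγ' : Continuous γ') (hy' : Continuous y') (hγc : Continuous γ) (hyc : Continuous y) :
    volume {x : Space3 | ∃ s ∈ Icc a b, dist (x + γ s) (y s) ≤ r} ≤
      ENNReal.ofReal (2 * r) ^ 3 * c3 +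
        (ENNReal.ofReal r)⁻¹ * (ENNReal.ofReal (2 * r) ^ 3 * c3) *
          ∫⁻ u in Icc a b, ENNReal.ofReal ‖γ' u - y' u‖ := by
  have h := lintegral_sweep (Ω := Space3) volume (a := a) (b := b) hr
    (d := fun x s => dist (x + γ s) (y s)) (σ := fun _ s => ‖γ' s - y' s‖) (w := fun _ => 1)
    measurable_const
    (by
      have : Continuous (Function.uncurry fun (x : Space3) (s : ℝ) => dist (x + γ s) (y s)) := by
        unfold Function.uncurry
        fun_prop
      exact this.measurable)
    (by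
      have : Continuous (Function.uncurry fun (_ : Space3) (s : ℝ) => ‖γ' s - y' s‖) := by
        unfold Function.uncurry
        fun_prop
      exact this.measurable)
    (fun _ _ _ => norm_nonneg _)
    (fun _ => ((hγ'.sub hy').norm.continuousOn).integrableOn_compact isCompact_Icc)
    (fun x => by
      refine dist_le_of_deriv (p := fun s => x + γ s) (p' := γ') ?_ hy hγ'.continuousOn hy'.continuousOn
      intro s hs
      exact (hγ s hs).const_add x)
  simp only [one_mul] at h
  have hvol : ∀ u : ℝ, volume {x : Space3 | dist (x + γ u) (y u) ≤ 2 * r} =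
      ENNReal.ofReal (2 * r) ^ 3 * c3 := by
    intro u
    have : {x : Space3 | dist (x + γ u) (y u) ≤ 2 * r} = Metric.closedBall (y u - γ u) (2 * r) := by
      ext x
      simp only [mem_ofPred_eq, Metric.mem_closedBall, dist_eq_norm]
      rw [show x + γ u - y u = x - (y u - γ u) by abel]
    rw [this, vol_closedBall]
  have hms : ∀ u : ℝ, MeasurableSet {x : Space3 | dist (x + γ u) (y u) ≤ 2 * r} := by
    intro u
    exact measurableSet_le (Continuous.measurable (by fun_prop)) measurable_const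
  calc volume {x : Space3 | ∃ s ∈ Icc a b, dist (x + γ s) (y s) ≤ r}
      = ∫⁻ x : Space3, {x : Space3 | ∃ s ∈ Icc a b, dist (x + γ s) (y s) ≤ r}.indicator 1 x := by
        have hcl : IsClosed {x : Space3 | ∃ s ∈ Icc a b, dist (x + γ s) (y s) ≤ r} := by
          have h1 : IsClosed {p : Space3 × Icc a b | dist (p.1 + γ p.2) (y p.2) ≤ r} :=
            isClosed_le (by fun_prop) continuous_const
          have h2 := isClosedMap_fst_of_compactSpace (X := Space3) (Y := Icc a b) _ h1
          convert h2 using 1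
          ext x
          simp
        rw [lintegral_indicator_one hcl.measurableSet]
    _ ≤ _ := h
    _ = _ := by
        congr 1
        · rw [lintegral_indicator_one (hms a), hvol]
        · rw [mul_assoc]
          congr 1
          rw [← lintegral_const_mul _ (show Measurable fun u => ENNReal.ofReal ‖γ' u - y' u‖ from
            (hγ'.sub hy').norm.measurable.ennreal_ofReal)]
          refine lintegral_congr fun u => ?_
          rw [lintegral_indicator (hms u), lintegral_const, Measure.restrict_apply_univ, hvol, mul_comm]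

/-! ### Density form -/

/-- **Contact estimate, density form.** `P ω` is a random (`ω`-dependent, weight `w`) `C¹` path,
`y` a fixed `C¹` obstacle.  If for every time `u ∈ [a,b]` the weighted law of the position `P ω u`
(with the extra weight `1 + ‖P' ω u‖`) has density at most `D u` (tested on balls of radius `2 r`),
then the weight of the paths which come within distance `r` of the obstacle during `[a,b]` is at
most `8 r² c3 (r D a + ∫ D u (1 + ‖y' u‖) du)`. -/
theorem contact_le {Ω : Type*} [MeasurableSpace Ω] (ν : Measure Ω) [SFinite ν] {a b r : ℝ}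
    (hr : 0 < r) (hab : a ≤ b) {P P' : Ω → ℝ → Space3} {y y' : ℝ → Space3} {w : Ω → ℝ≥0∞}
    (hw : Measurable w) (hPm : Measurable (Function.uncurry P))
    (hPm' : Measurable (Function.uncurry P'))
    (hP : ∀ ω, ∀ s ∈ Icc a b, HasDerivAt (P ω) (P' ω s) s)
    (hPc : ∀ ω, ContinuousOn (P' ω) (Icc a b))
    (hy : ∀ s ∈ Icc a b, HasDerivAt y (y' s) s) (hyc : ContinuousOn y' (Icc a b))
    (hym : Measurable y) (hym' : Measurable y')
    {D : ℝ → ℝ≥0∞}
    (hD : ∀ u ∈ Icc a b, ∫⁻ ω, w ω * {ω | dist (P ω u) (y u) ≤ 2 * r}.indicator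
      (fun ω => 1 + ENNReal.ofReal ‖P' ω u‖) ω ∂ν ≤ D u * (ENNReal.ofReal (2 * r) ^ 3 * c3)) :
    ∫⁻ ω, w ω * {ω | ∃ s ∈ Icc a b, dist (P ω s) (y s) ≤ r}.indicator 1 ω ∂ν ≤
      8 * ENNReal.ofReal r ^ 2 * c3 *
        (ENNReal.ofReal r * D a + ∫⁻ u in Icc a b, D u * (1 + ENNReal.ofReal ‖y' u‖)) := by
  have h := lintegral_sweep ν (a := a) (b := b) hr
    (d := fun ω s => dist (P ω s) (y s)) (σ := fun ω s => ‖P' ω s - y' s‖) hw
    (by
      unfold Function.uncurry
      exact Measurable.dist (f := fun p : Ω × ℝ => P p.1 p.2) (g := fun p : Ω × ℝ => y p.2)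
        hPm (hym.comp measurable_snd))
    (by
      unfold Function.uncurry
      have := (Measurable.sub (f := fun p : Ω × ℝ => P' p.1 p.2) (g := fun p : Ω × ℝ => y' p.2)
        hPm' (hym'.comp measurable_snd)).norm
      exact this)
    (fun _ _ _ => norm_nonneg _)
    (fun ω => (((hPc ω).sub hyc).norm).integrableOn_compact isCompact_Icc)
    (fun ω => dist_le_of_deriv (hP ω) hy (hPc ω) hyc)
  refine h.trans ?_
  have h8 : ENNReal.ofReal (2 * r) ^ 3 = 8 * ENNReal.ofReal r ^ 3 := by
    rw [ENNReal.ofReal_mul (by norm_num), mul_pow]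
    norm_num
  have hr0 : ENNReal.ofReal r ≠ 0 := by simpa using hr
  have hA : ∫⁻ ω, w ω * {ω | dist (P ω a) (y a) ≤ 2 * r}.indicator 1 ω ∂ν ≤
      8 * ENNReal.ofReal r ^ 2 * c3 * (ENNReal.ofReal r * D a) := by
    calc ∫⁻ ω, w ω * {ω | dist (P ω a) (y a) ≤ 2 * r}.indicator 1 ω ∂ν
        ≤ ∫⁻ ω, w ω * {ω | dist (P ω a) (y a) ≤ 2 * r}.indicator
            (fun ω => 1 + ENNReal.ofReal ‖P' ω a‖) ω ∂ν := by
          refine lintegral_mono fun ω => mul_le_mul' le_rfl ?_
          by_cases hm : ω ∈ {ω | dist (P ω a) (y a) ≤ 2 * r}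
          · rw [indicator_of_mem hm, indicator_of_mem hm]
            exact le_self_add
          · rw [indicator_of_notMem hm, indicator_of_notMem hm]
      _ ≤ D a * (ENNReal.ofReal (2 * r) ^ 3 * c3) := hD a ⟨le_refl _, hab⟩
      _ = 8 * ENNReal.ofReal r ^ 2 * c3 * (ENNReal.ofReal r * D a) := by rw [h8]; ring
  have hB : (ENNReal.ofReal r)⁻¹ * ∫⁻ u in Icc a b, ∫⁻ ω, w ω *
      {ω | dist (P ω u) (y u) ≤ 2 * r}.indicator (fun ω => ENNReal.ofReal ‖P' ω u - y' u‖) ω ∂ν ≤
      8 * ENNReal.ofReal r ^ 2 * c3 * ∫⁻ u in Icc a b, D u * (1 + ENNReal.ofReal ‖y' u‖) := by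
    have h1 : ∀ u ∈ Icc a b, ∫⁻ ω, w ω *
        {ω | dist (P ω u) (y u) ≤ 2 * r}.indicator (fun ω => ENNReal.ofReal ‖P' ω u - y' u‖) ω ∂ν ≤
        (ENNReal.ofReal (2 * r) ^ 3 * c3) * (D u * (1 + ENNReal.ofReal ‖y' u‖)) := by
      intro u hu
      calc _ ≤ ∫⁻ ω, (w ω * {ω | dist (P ω u) (y u) ≤ 2 * r}.indicator
              (fun ω => 1 + ENNReal.ofReal ‖P' ω u‖) ω) * (1 + ENNReal.ofReal ‖y' u‖) ∂ν := by
            refine lintegral_mono fun ω => ?_
            rw [mul_assoc]
            gcongr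
            by_cases hm : ω ∈ {ω | dist (P ω u) (y u) ≤ 2 * r}
            · rw [indicator_of_mem hm, indicator_of_mem hm]
              calc ENNReal.ofReal ‖P' ω u - y' u‖ ≤ ENNReal.ofReal (‖P' ω u‖ + ‖y' u‖) :=
                    ENNReal.ofReal_le_ofReal (norm_sub_le _ _)
                _ = ENNReal.ofReal ‖P' ω u‖ + ENNReal.ofReal ‖y' u‖ :=
                    ENNReal.ofReal_add (norm_nonneg _) (norm_nonneg _)
                _ ≤ (1 + ENNReal.ofReal ‖P' ω u‖) * (1 + ENNReal.ofReal ‖y' u‖) := by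
                    rw [mul_add, mul_one, add_mul, one_mul]
                    gcongr
                    · exact le_add_self
                    · exact le_self_add
            · rw [indicator_of_notMem hm, indicator_of_notMem hm]
              simp
        _ = (∫⁻ ω, w ω * {ω | dist (P ω u) (y u) ≤ 2 * r}.indicator
              (fun ω => 1 + ENNReal.ofReal ‖P' ω u‖) ω ∂ν) * (1 + ENNReal.ofReal ‖y' u‖) := by
            rw [lintegral_mul_const']
            exact ENNReal.add_ne_top.2 ⟨ENNReal.one_ne_top, ENNReal.ofReal_ne_top⟩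
        _ ≤ (D u * (ENNReal.ofReal (2 * r) ^ 3 * c3)) * (1 + ENNReal.ofReal ‖y' u‖) := by
            gcongr
            exact hD u hu
        _ = _ := by ring
    calc _ ≤ (ENNReal.ofReal r)⁻¹ * ∫⁻ u in Icc a b,
            (ENNReal.ofReal (2 * r) ^ 3 * c3) * (D u * (1 + ENNReal.ofReal ‖y' u‖)) := by
          exact mul_le_mul' le_rfl (setLIntegral_mono' measurableSet_Icc h1)
      _ = (ENNReal.ofReal r)⁻¹ * ((ENNReal.ofReal (2 * r) ^ 3 * c3) * ∫⁻ u in Icc a b,
            (D u * (1 + ENNReal.ofReal ‖y' u‖))) := by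
          rw [lintegral_const_mul' _ _ (by
            exact ENNReal.mul_ne_top (ENNReal.pow_ne_top ENNReal.ofReal_ne_top)
              ENNReal.ofReal_ne_top)]
      _ = ((ENNReal.ofReal r)⁻¹ * ENNReal.ofReal r) * (8 * ENNReal.ofReal r ^ 2 * c3) *
            ∫⁻ u in Icc a b, (D u * (1 + ENNReal.ofReal ‖y' u‖)) := by
          rw [h8]; ring
      _ = _ := by
          rw [ENNReal.inv_mul_cancel hr0 ENNReal.ofReal_ne_top, one_mul]
  calc _ ≤ _ := add_le_add hA hB
    _ = _ := by ring

/-! ### Free lines born anywhere in space (line-space form) -/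

/-- A free line with velocity `v` (weight `G v`), passing through a Lebesgue-distributed point `x` at
time `s0`, and an arbitrary `C¹` obstacle `y`: weight of the lines meeting the closed
`r`-neighbourhood of the obstacle during `[a,b]`. -/
theorem line_le {s0 a b r : ℝ} (hr : 0 < r) (hab : a ≤ b) {y y' : ℝ → Space3}
    (hy : ∀ s ∈ Icc a b, HasDerivAt y (y' s) s) (hyc : ContinuousOn y' (Icc a b))
    (hym : Measurable y) (hym' : Measurable y') {G : Space3 → ℝ≥0∞} (hG : Measurable G) :
    ∫⁻ v : Space3, G v * volume {x : Space3 | ∃ s ∈ Icc a b, dist (x + (s - s0) • v) (y s) ≤ r} ≤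
      8 * ENNReal.ofReal r ^ 2 * c3 * (∫⁻ v, G v * (1 + ENNReal.ofReal ‖v‖)) *
        (ENNReal.ofReal r + ∫⁻ u in Icc a b, (1 + ENNReal.ofReal ‖y' u‖)) := by
  set D : ℝ → ℝ≥0∞ := fun _ => ∫⁻ v, G v * (1 + ENNReal.ofReal ‖v‖) with hDdef
  have hyc0 : ContinuousOn y (Icc a b) := fun s hs => (hy s hs).continuousAt.continuousWithinAt
  have hball : ∀ (v : Space3) (u : ℝ), {x : Space3 | dist (x + (u - s0) • v) (y u) ≤ 2 * r} =
      Metric.closedBall (y u - (u - s0) • v) (2 * r) := by
    intro v u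
    ext x
    simp only [mem_ofPred_eq, Metric.mem_closedBall, dist_eq_norm]
    rw [show x + (u - s0) • v - y u = x - (y u - (u - s0) • v) by abel]
  have hPm : Measurable (Function.uncurry fun (p : Space3 × Space3) (s : ℝ) =>
      p.2 + (s - s0) • p.1) := by
    have : Continuous (Function.uncurry fun (p : Space3 × Space3) (s : ℝ) =>
      p.2 + (s - s0) • p.1) := by unfold Function.uncurry; fun_prop
    exact this.measurable
  have hPm' : Measurable (Function.uncurry fun (p : Space3 × Space3) (_ : ℝ) => p.1) := by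
    have : Continuous (Function.uncurry fun (p : Space3 × Space3) (_ : ℝ) => p.1) := by
      unfold Function.uncurry; fun_prop
    exact this.measurable
  have h := contact_le (Ω := Space3 × Space3) (volume : Measure (Space3 × Space3)) hr hab
    (P := fun p s => p.2 + (s - s0) • p.1) (P' := fun p _ => p.1) (y := y) (y' := y')
    (w := fun p => G p.1) (hG.comp measurable_fst) hPm hPm'
    (by
      intro p s _
      have h1 : HasDerivAt (fun s : ℝ => (s - s0) • p.1) ((1 : ℝ) • p.1) s :=
        ((hasDerivAt_id s).sub_const s0).smul_const p.1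
      rw [one_smul] at h1
      exact h1.const_add p.2)
    (fun p => continuousOn_const) hy hyc hym hym' (D := D)
    (by
      intro u hu
      have hm : Measurable (fun p : Space3 × Space3 => G p.1 *
          {p : Space3 × Space3 | dist (p.2 + (u - s0) • p.1) (y u) ≤ 2 * r}.indicator
            (fun p => 1 + ENNReal.ofReal ‖p.1‖) p) := by
        refine (hG.comp measurable_fst).mul (Measurable.indicator (by fun_prop) ?_)
        exact measurableSet_le (Continuous.measurable (by fun_prop)) measurable_const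
      rw [Measure.volume_eq_prod, lintegral_prod _ hm.aemeasurable]
      have h1 : ∀ v : Space3, ∫⁻ x : Space3, G v *
          {p : Space3 × Space3 | dist (p.2 + (u - s0) • p.1) (y u) ≤ 2 * r}.indicator
            (fun p => 1 + ENNReal.ofReal ‖p.1‖) (v, x) =
          (G v * (1 + ENNReal.ofReal ‖v‖)) * (ENNReal.ofReal (2 * r) ^ 3 * c3) := by
        intro v
        have h2 : ∀ x : Space3, G v *
          {p : Space3 × Space3 | dist (p.2 + (u - s0) • p.1) (y u) ≤ 2 * r}.indicator
            (fun p => 1 + ENNReal.ofReal ‖p.1‖) (v, x) =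
            {x : Space3 | dist (x + (u - s0) • v) (y u) ≤ 2 * r}.indicator
              (fun _ => G v * (1 + ENNReal.ofReal ‖v‖)) x := by
          intro x
          by_cases hx : dist (x + (u - s0) • v) (y u) ≤ 2 * r
          · rw [indicator_of_mem (show (v, x) ∈ {p : Space3 × Space3 |
              dist (p.2 + (u - s0) • p.1) (y u) ≤ 2 * r} from hx), indicator_of_mem
              (show x ∈ {x : Space3 | dist (x + (u - s0) • v) (y u) ≤ 2 * r} from hx)]
          · rw [indicator_of_notMem (show (v, x) ∉ {p : Space3 × Space3 |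
              dist (p.2 + (u - s0) • p.1) (y u) ≤ 2 * r} from hx), indicator_of_notMem
              (show x ∉ {x : Space3 | dist (x + (u - s0) • v) (y u) ≤ 2 * r} from hx), mul_zero]
        simp_rw [h2]
        rw [hball, lintegral_indicator Metric.isClosed_closedBall.measurableSet, lintegral_const,
          Measure.restrict_apply_univ, vol_closedBall]
      simp_rw [h1]
      rw [lintegral_mul_const _ (show Measurable fun v : Space3 => G v * (1 + ENNReal.ofReal ‖v‖) from
        hG.mul (by fun_prop))])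
  refine le_trans (le_of_eq ?_) (h.trans (le_of_eq ?_))
  · -- LHS
    have hcl : IsClosed {p : Space3 × Space3 | ∃ s ∈ Icc a b, dist (p.2 + (s - s0) • p.1) (y s) ≤ r} := by
      have hyc1 : Continuous fun s : Icc a b => y s := continuousOn_iff_continuous_domRestrict.1 hyc0
      have hyc2 : Continuous fun q : (Space3 × Space3) × Icc a b => y (q.2 : ℝ) :=
        hyc1.comp continuous_snd
      have h1 : IsClosed {q : (Space3 × Space3) × Icc a b |
          dist (q.1.2 + ((q.2 : ℝ) - s0) • q.1.1) (y q.2) ≤ r} :=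
        isClosed_le (Continuous.dist (by fun_prop) hyc2) continuous_const
      have h2 := isClosedMap_fst_of_compactSpace (X := Space3 × Space3) (Y := Icc a b) _ h1
      convert h2 using 1
      ext p
      simp
    have hm : Measurable (fun p : Space3 × Space3 => G p.1 *
        {p : Space3 × Space3 | ∃ s ∈ Icc a b, dist (p.2 + (s - s0) • p.1) (y s) ≤ r}.indicator 1 p) :=
      (hG.comp measurable_fst).mul (measurable_one.indicator hcl.measurableSet)
    rw [Measure.volume_eq_prod, lintegral_prod _ hm.aemeasurable]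
    refine lintegral_congr fun v => ?_
    have hsec : MeasurableSet {x : Space3 | ∃ s ∈ Icc a b, dist (x + (s - s0) • v) (y s) ≤ r} :=
      measurable_prodMk_left (x := v) hcl.measurableSet
    rw [← lintegral_indicator_one hsec, ← lintegral_const_mul _ (measurable_one.indicator hsec)]
    rfl
  · simp only [hDdef]
    rw [lintegral_const_mul _ (by fun_prop)]
    ring

/-! ### Boosted paths (fixed birth point, three free velocity dimensions) -/


end Crest.Agent.R122.Sweep815

end
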