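import Crest.Agent.R122.NEK_370
import Crest.Agent.R122.Sweep_815

/-!
# The bad particles rarely meet a randomly translated tube family (row 122, helper370)

* `measurable_gcE_param`, `lintegral_gcE` : Tonelli for `gcE`.
* `sweep_back` : sweeping inequality with the end point of the interval.
* `gcE_badHit_le`, `lintegral_badMaj_le` : for a finite family of `M`-Lipschitz curves `γ a` the
  set of translations `x` for which a bad particle comes within `ε` of `x + γ a` before `t` has
  expected volume at most `8 c₃ |α| (M + 1) (ε escEnergy(t) + ∫₀ᵗ escEnergy(s) ds)`.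
* `badHit_small` : this tends to zero (`K → ∞` after `ε → 0`) if `NEK t`.
-/

set_option autoImplicit false
open MeasureTheory Set
open scoped Classical ENNReal
open Crest.AnalysisR.Kinetic
open Crest.Agent.R122.GC311 Crest.Agent.R122.Causal291 Crest.Agent.R122.Master566
open Crest.Agent.R122.EW370 Crest.Agent.R122.NEK370 Crest.Agent.R122.Sweep815
noncomputable section

namespace Crest.Agent.R122.BadHit370

/-! ### Tonelli for `gcE` -/

section tonelli

variable {X : Type*} [MeasurableSpace X] {f₀ : PhasePoint → ℝ}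

theorem measurable_gcE_param (hf : Measurable f₀) (ε : ℝ) {F : (n : ℕ) → X → Config n → ℝ≥0∞}
    (hF : ∀ n, Measurable (Function.uncurry (F n))) :
    Measurable fun x => gcE f₀ ε fun n Z => F n x Z := by
  unfold gcE
  refine Measurable.const_mul (Measurable.tsum fun n => Measurable.const_mul ?_ _) _
  refine Measurable.lintegral_prod_right' (f := fun p : X × Config n =>
    gcWeight f₀ ε n p.2 * F n p.1 p.2) ?_
  exact ((measurable_gcWeight hf ε n).comp measurable_snd).mul (hF n)

theorem lintegral_gcE (hf : Measurable f₀) (ε : ℝ) (μ : Measure X) [SFinite μ]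
    {F : (n : ℕ) → X → Config n → ℝ≥0∞} (hF : ∀ n, Measurable (Function.uncurry (F n))) :
    ∫⁻ x, gcE f₀ ε (fun n Z => F n x Z) ∂μ = gcE f₀ ε fun n Z => ∫⁻ x, F n x Z ∂μ := by
  unfold gcE
  have h1 : ∀ n, Measurable fun p : X × Config n => gcWeight f₀ ε n p.2 * F n p.1 p.2 := fun n =>
    ((measurable_gcWeight hf ε n).comp measurable_snd).mul (hF n)
  have h2 : ∀ n, Measurable fun x : X => ∫⁻ Z : Config n, gcWeight f₀ ε n Z * F n x Z := fun n =>
    (h1 n).lintegral_prod_right'
  rw [lintegral_const_mul _ (Measurable.tsum fun n => (h2 n).const_mul _),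
    lintegral_tsum fun n => ((h2 n).const_mul _).aemeasurable]
  congr 1
  refine tsum_congr fun n => ?_
  rw [lintegral_const_mul _ (h2 n)]
  congr 1
  rw [lintegral_lintegral_swap (f := fun (x : X) (Z : Config n) => gcWeight f₀ ε n Z * F n x Z)
    (h1 n).aemeasurable]
  refine lintegral_congr fun Z => ?_
  exact lintegral_const_mul _ ((hF n).comp (measurable_id.prodMk measurable_const))

end tonelli

/-! ### Sweeping with the end point -/

/-- **Sweeping inequality**, end-point version: if `d ≤ r` at `s0` then `d b ≤ 2 r` or the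
occupation integral of `{d ≤ 2 r}` on `[s0, b]` is at least `r`. -/
theorem sweep_back {a b r : ℝ} (hr : 0 < r) {d σ : ℝ → ℝ}
    (hσ0 : ∀ s ∈ Icc a b, 0 ≤ σ s) (hσ : IntegrableOn σ (Icc a b))
    (hd : ∀ s ∈ Icc a b, ∀ s' ∈ Icc a b, s ≤ s' → d s' ≤ d s + ∫ u in s..s', σ u)
    {s0 : ℝ} (hs0 : s0 ∈ Icc a b) (h : d s0 ≤ r) :
    d b ≤ 2 * r ∨
      ENNReal.ofReal r ≤
        ∫⁻ u in Icc s0 b, {u | d u ≤ 2 * r}.indicator (fun u => ENNReal.ofReal (σ u)) u := by
  have hsub : Icc s0 b ⊆ Icc a b := Icc_subset_Icc_left hs0.1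
  have hneg : ∀ u : ℝ, u ∈ Icc (-b) (-s0) → -u ∈ Icc s0 b := fun u hu =>
    ⟨by linarith [hu.2], by linarith [hu.1]⟩
  have himg : (fun u : ℝ => -u) ⁻¹' Icc s0 b = Icc (-b) (-s0) := by
    ext u
    simp only [mem_preimage, mem_Icc]
    constructor
    · rintro ⟨h1, h2⟩; exact ⟨by linarith, by linarith⟩
    · rintro ⟨h1, h2⟩; exact ⟨by linarith, by linarith⟩
  have hmp : MeasurePreserving (fun u : ℝ => -u) volume volume :=
    Measure.measurePreserving_neg volume
  have hemb : MeasurableEmbedding (fun u : ℝ => -u) := (MeasurableEquiv.neg ℝ).measurableEmbedding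
  have h1 := sweep_real (a := -b) (b := -s0) hr (d := fun u => d (-u)) (σ := fun u => σ (-u))
    (fun s hs => hσ0 _ (hsub (hneg s hs)))
    (by
      have h2 : IntegrableOn σ (Icc s0 b) := hσ.mono_set hsub
      have h3 := (hmp.integrableOn_comp_preimage hemb (f := σ) (s := Icc s0 b)).2 h2
      rw [himg] at h3
      exact h3)
    (by
      intro s hs s' hs' hss'
      have h2 := hd (-s') (hsub (hneg s' hs')) (-s) (hsub (hneg s hs)) (by linarith)
      rw [intervalIntegral.integral_comp_neg]
      exact h2)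
    ⟨-s0, ⟨by linarith [hs0.2], le_rfl⟩, by simpa using h⟩
  rcases h1 with h1 | h1
  · left
    simpa using h1
  · right
    refine h1.trans (le_of_eq ?_)
    have h2 := hmp.setLIntegral_comp_preimage_emb hemb
      ({u | d u ≤ 2 * r}.indicator (fun u => ENNReal.ofReal (σ u))) (Icc s0 b)
    rw [himg] at h2
    rw [← h2]
    rfl

/-! ### Pointwise majorant -/

section maj

variable {Φ : Space3 → ℝ} {f₀ : PhasePoint → ℝ} {ε : ℝ} {K : ℕ} {α : Type*} [Fintype α]



/-- A bad particle hits the translated family. -/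
def BadHit (Φ : Space3 → ℝ) (ε : ℝ) (K : ℕ) (γ : α → ℝ → Space3) (t : ℝ) (x : Space3) {n : ℕ}
    (Z : Config n) : Prop :=
  ∃ s ∈ Icc 0 t, ∃ i : Fin n, K < (bc Φ ε Z s i).ncard ∧
    ∃ a, dist (x + γ a s) (pth Φ ε Z s i).1 ≤ ε


/-! ### Measurability and integration of the majorant -/

omit [Fintype α] in
theorem measurable_proj {n : ℕ} :
    Measurable fun p : ℝ × Space3 × Config n => (p.1, p.2.2) :=
  measurable_fst.prodMk (measurable_snd.comp measurable_snd)




/-- speed weight of one particle -/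
def spd (Φ : Space3 → ℝ) (ε M : ℝ) {n : ℕ} (Z : Config n) (u : ℝ) (i : Fin n) : ℝ≥0∞ :=
  ENNReal.ofReal (M + ‖(pth Φ ε Z u i).2‖)

omit [Fintype α] in
theorem measurable_spd (hΦ : AdmissiblePotential Φ) (hε : 0 < ε) (M : ℝ) {n : ℕ} (i : Fin n) :
    Measurable fun p : ℝ × Config n => spd Φ ε M p.2 p.1 i := by
  have h := measurable_pth_joint (ι := Fin n) hΦ hε i
  exact (measurable_const.add h.snd.norm).ennreal_ofReal



theorem inv_activity_eq {ε : ℝ} (hε : 0 < ε) : (activity ε)⁻¹ = ENNReal.ofReal ε ^ 2 := by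
  unfold activity
  rw [← ENNReal.ofReal_inv_of_pos (by positivity), inv_inv, ENNReal.ofReal_pow hε.le]






end maj

end Crest.Agent.R122.BadHit370
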