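import Crest.Agent.R122.HitNull_167
import Crest.Agent.R122.BadHit_370

-- ▼ part R122/HitSweep_167
section

/-!
# First-hit sweep over arbitrary sets of times (row 122, helper167)
-/

set_option autoImplicit false

open Set Filter Topology MeasureTheory
open scoped Classical ENNReal NNReal
open Crest.AnalysisR.Kinetic

namespace Crest.Agent.R122.Hit167

open Causal291 Flow671 Loc45 GC311 Vol365

/-! ### Comparison of measures on half-open intervals -/

/-- Grid cell. -/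
def cell (h : ℝ) (k : ℤ) : Set ℝ := Ioc (k * h) ((k + 1) * h)

theorem cell_disjoint {h : ℝ} (hh : 0 < h) : Pairwise (Function.onFun Disjoint (cell h)) := by
  intro k l hkl
  rw [Function.onFun, Set.disjoint_left]
  rintro s ⟨h1, h2⟩ ⟨h3, h4⟩
  have h5 : (k : ℝ) < l + 1 := by
    have : (k : ℝ) * h < (l + 1) * h := h1.trans_le h4
    exact lt_of_mul_lt_mul_right this hh.le
  have h6 : (l : ℝ) < k + 1 := by
    have : (l : ℝ) * h < (k + 1) * h := h3.trans_le h2
    exact lt_of_mul_lt_mul_right this hh.le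
  have h7 : k < l + 1 := by exact_mod_cast h5
  have h8 : l < k + 1 := by exact_mod_cast h6
  exact hkl (by omega)

theorem exists_mem_cell {h : ℝ} (hh : 0 < h) (s : ℝ) : ∃ k : ℤ, s ∈ cell h k := by
  refine ⟨⌈s / h⌉ - 1, ?_, ?_⟩
  · push_cast
    have : (⌈s / h⌉ : ℝ) - 1 < s / h := by linarith [Int.ceil_lt_add_one (s / h)]
    rw [lt_div_iff₀ hh] at this
    exact this
  · push_cast
    have : s / h ≤ ⌈s / h⌉ := Int.le_ceil _
    rw [div_le_iff₀ hh] at this
    linarith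

/-- Measures on `ℝ` compare on all Borel sets if they compare on short half-open intervals. -/
theorem measure_le_of_Ioc {ν ρ : Measure ℝ} [IsFiniteMeasure ν] [IsFiniteMeasure ρ] {h0 : ℝ}
    (hh0 : 0 < h0) (h : ∀ p q : ℝ, p < q → q - p ≤ h0 → ν (Ioc p q) ≤ ρ (Ioc p q)) {A : Set ℝ}
    (hA : MeasurableSet A) : ν A ≤ ρ A := by
  rw [hA.measure_eq_iSup_isCompact_of_ne_top (μ := ν) (measure_ne_top _ _)]
  refine iSup_le fun K => iSup_le fun hKA => iSup_le fun hK => ?_
  refine le_trans ?_ (measure_mono hKA)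
  refine ENNReal.le_of_forall_pos_le_add fun δ hδ _ => ?_
  obtain ⟨O, hKO, hO, hOδ⟩ := Set.exists_isOpen_lt_add (μ := ρ) K (measure_ne_top _ _)
    (ENNReal.coe_pos.2 hδ).ne'
  obtain ⟨r, hr, hrO⟩ := hK.exists_thickening_subset_open hO hKO
  set g : ℝ := min (r / 2) h0 with hg
  have hg0 : 0 < g := lt_min (half_pos hr) hh0
  have hgr : g ≤ r / 2 := min_le_left _ _
  set I : Set ℤ := {k | (cell g k ∩ K).Nonempty} with hI
  have hsub : K ⊆ ⋃ k ∈ I, cell g k := by
    intro s hs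
    obtain ⟨k, hk⟩ := exists_mem_cell hg0 s
    exact mem_biUnion (show k ∈ I from ⟨s, hk, hs⟩) hk
  have hsub2 : (⋃ k ∈ I, cell g k) ⊆ O := by
    intro s hs
    obtain ⟨k, ⟨s', hs', hsK⟩, hsk⟩ := mem_iUnion₂.1 hs
    refine hrO (Metric.mem_thickening_iff.2 ⟨s', hsK, ?_⟩)
    rw [Real.dist_eq, abs_lt]
    have e : ((k : ℝ) + 1) * g = k * g + g := by ring
    constructor <;> linarith [hs'.1, hs'.2, hsk.1, hsk.2, e]
  have hdis : I.PairwiseDisjoint (cell g) := fun k _ l _ hkl => cell_disjoint hg0 hkl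
  calc ν K ≤ ν (⋃ k ∈ I, cell g k) := measure_mono hsub
    _ ≤ ∑' k : I, ν (cell g k) := measure_biUnion_le _ (to_countable I) _
    _ ≤ ∑' k : I, ρ (cell g k) := ENNReal.tsum_le_tsum fun k => by
        have e : ((k : ℤ) + 1 : ℝ) * g = k * g + g := by ring
        refine h _ _ (by rw [e]; linarith) (by rw [e]; linarith [min_le_right (r / 2) h0])
    _ = ρ (⋃ k ∈ I, cell g k) := (measure_biUnion (to_countable I) hdis
        fun k _ => measurableSet_Ioc).symm
    _ ≤ ρ O := measure_mono hsub2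
    _ ≤ ρ K + δ := hOδ.le

/-! ### First entrance of a ball around a moving point -/

/-- `x` enters the `r`-neighbourhood of the moving point `η` for the first time at time `σ`. -/
def FirstIn (η : ℝ → Space3) (r σ : ℝ) (x : Space3) : Prop :=
  dist x (η σ) ≤ r ∧ ∀ s ∈ Ico 0 σ, r < dist x (η s)


/-- Auxiliary one-particle world seen from `x`. -/
def oneW (η : ℝ → Space3) (x : Space3) : ℝ → Unit → PhasePoint := fun s _ => (η s - x, 0)

/-- Entrance time. -/
noncomputable def inTime (η : ℝ → Space3) (r t : ℝ) (x : Space3) : ℝ :=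
  hitTime (oneW η x) r (fun (_ : Unit) (_ : ℝ) => (0 : Space3)) (fun _ => t) 0 ()

theorem hitsAt_oneW {η : ℝ → Space3} {r t s : ℝ} {x : Space3} :
    HitsAt (oneW η x) r (fun (_ : Unit) (_ : ℝ) => (0 : Space3)) (fun _ => t) s () ↔
      s ≤ t ∧ dist x (η s) ≤ r := by
  unfold HitsAt oneW
  simp only [exists_const, dist_eq_norm, zero_sub, neg_sub]

theorem FirstIn.inTime_eq {η : ℝ → Space3} {r t σ : ℝ} {x : Space3} (hσ : 0 ≤ σ) (hσt : σ ≤ t)
    (h : FirstIn η r σ x) : inTime η r t x = σ :=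
  hitTime_eq hσ (hitsAt_oneW.2 ⟨hσt, h.1⟩) fun s hs hh =>
    absurd (hitsAt_oneW.1 hh).2 (not_le.2 (h.2 s hs))

theorem measurable_inTime {η : ℝ → Space3} (hη : Continuous η) (r t : ℝ) :
    Measurable (inTime η r t) :=
  measurable_hitTime (x := oneW η) (fun x _ => ((hη.sub continuous_const).prodMk continuous_const))
    (fun s _ => (measurable_const.sub measurable_id).prodMk measurable_const)
    (fun _ => continuous_const) 0 ()

/-- Set of points entering at a time in `A`. -/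
def inSet (η : ℝ → Space3) (r : ℝ) (A : Set ℝ) : Set Space3 := {x | ∃ σ ∈ A, FirstIn η r σ x}

theorem inSet_eq {η : ℝ → Space3} {r t : ℝ} {A : Set ℝ} (hA : A ⊆ Icc 0 t) :
    inSet η r A = inTime η r t ⁻¹' A ∩ {x | dist x (η (inTime η r t x)) ≤ r ∧
      inTime η r t x ∈ Icc 0 t} := by
  ext x
  constructor
  · rintro ⟨σ, hσ, h⟩
    have h1 := h.inTime_eq (hA hσ).1 (hA hσ).2
    refine ⟨?_, ?_⟩
    · rw [mem_preimage, h1]; exact hσ
    · rw [mem_ofPred_eq, h1]; exact ⟨h.1, hA hσ⟩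
  · rintro ⟨h1, h2, h3⟩
    refine ⟨inTime η r t x, h1, h2, ?_⟩
    intro s hs
    by_contra hle
    push Not at hle
    have : inTime η r t x ≤ s := by
      refine csInf_le ⟨0, fun u hu => hu.1⟩ ⟨hs.1, hitsAt_oneW.2 ⟨?_, hle⟩⟩
      exact hs.2.le.trans h3.2
    exact absurd this (not_le.2 hs.2)

theorem measurableSet_inSet {η : ℝ → Space3} (hη : Continuous η) {r t : ℝ} {A : Set ℝ}
    (hA : A ⊆ Icc 0 t) (hAm : MeasurableSet A) : MeasurableSet (inSet η r A) := by
  rw [inSet_eq hA]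
  have hm := measurable_inTime hη r t
  refine (hm hAm).inter ?_
  exact (measurableSet_le (measurable_id.dist (hη.measurable.comp hm)) measurable_const).inter
    (hm measurableSet_Icc)

/-- The volume entered in a short time interval. -/
theorem volume_inSet_short {η : ℝ → Space3} {r p q : ℝ} (hr : 0 < r) (hp : 0 ≤ p) {D : ℝ}
    (hD0 : 0 ≤ D) (hDr : D ≤ r) (hd : ∀ s ∈ Ioc p q, dist (η p) (η s) ≤ D) :
    volume (inSet η r (Ioc p q)) ≤ ENNReal.ofReal (7 * r ^ 2 * D) * kap := by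
  have hsub : inSet η r (Ioc p q) ⊆
      Metric.closedBall (η p) (r + D) \ Metric.closedBall (η p) r := by
    rintro x ⟨σ, hσ, h1, h2⟩
    refine ⟨?_, ?_⟩
    · rw [Metric.mem_closedBall]
      have := dist_triangle x (η σ) (η p)
      have h3 := hd σ hσ
      rw [dist_comm (η p)] at h3
      linarith
    · rw [Metric.mem_closedBall, not_le]
      exact h2 p ⟨hp, hσ.1⟩
  refine (measure_mono hsub).trans ?_
  rw [measure_sdiff (Metric.closedBall_subset_closedBall (by linarith))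
    Metric.isClosed_closedBall.measurableSet.nullMeasurableSet measure_closedBall_lt_top.ne,
    Vol365.vol_closedBall _ (by linarith), Vol365.vol_closedBall _ hr.le,
    ← ENNReal.sub_mul (fun _ _ => kap_ne_top), ← ENNReal.ofReal_pow (by linarith),
    ← ENNReal.ofReal_pow hr.le, ← ENNReal.ofReal_sub _ (by positivity)]
  refine mul_le_mul_left (ENNReal.ofReal_le_ofReal ?_) _
  nlinarith [mul_nonneg hD0 (mul_nonneg hr.le (sub_nonneg.2 hDr)), mul_nonneg hD0
    (mul_nonneg hD0 (sub_nonneg.2 hDr)), mul_nonneg hD0 (mul_nonneg (sub_nonneg.2 hDr)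
    (sub_nonneg.2 hDr))]

/-- **First-hit sweep.** -/
theorem volume_inSet_le {η : ℝ → Space3} (hη : Continuous η) {φ : ℝ → ℝ≥0∞} (hφm : Measurable φ)
    {t : ℝ} (hφ : ∫⁻ s in Ioc 0 t, φ s ≠ ∞)
    (hd : ∀ s s', 0 ≤ s → s ≤ s' → s' ≤ t →
      ENNReal.ofReal (dist (η s) (η s')) ≤ ∫⁻ u in Ioc s s', φ u)
    {r : ℝ} (hr : 0 < r) {A : Set ℝ} (hA : MeasurableSet A) (hAt : A ⊆ Ioc 0 t) :
    volume (inSet η r A) ≤ ENNReal.ofReal (7 * r ^ 2) * kap * ∫⁻ s in A, φ s := by
  have hAt' : A ⊆ Icc 0 t := hAt.trans Ioc_subset_Icc_self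
  set H : Set Space3 := inSet η r (Ioc 0 t) with hH
  have hHm : MeasurableSet H := measurableSet_inSet hη Ioc_subset_Icc_self measurableSet_Ioc
  have hm := measurable_inTime hη r t
  set C : ℝ≥0∞ := ENNReal.ofReal (7 * r ^ 2) * kap with hC
  have hCt : C ≠ ∞ := ENNReal.mul_ne_top ENNReal.ofReal_ne_top kap_ne_top
  -- boundedness
  have hHfin : volume H ≠ ∞ := by
    have hcomp : IsCompact (η '' Icc 0 t) := isCompact_Icc.image hη
    obtain ⟨R, hR⟩ := hcomp.isBounded.subset_closedBall 0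
    refine ne_top_of_le_ne_top (measure_closedBall_lt_top (x := (0 : Space3)) (r := R + r)).ne
      (measure_mono ?_)
    rintro x ⟨σ, hσ, h1, _⟩
    have h2 := hR ⟨σ, ⟨hσ.1.le, hσ.2⟩, rfl⟩
    rw [Metric.mem_closedBall] at h2 ⊢
    linarith [dist_triangle x (η σ) 0]
  set ν : Measure ℝ := (volume.restrict H).map (inTime η r t) with hν
  haveI : IsFiniteMeasure (volume.restrict H) := ⟨by
    rw [Measure.restrict_apply_univ]; exact lt_top_iff_ne_top.2 hHfin⟩
  haveI : IsFiniteMeasure ν := Measure.isFiniteMeasure_map _ _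
  set ρ : Measure ℝ := (volume.restrict (Ioc 0 t)).withDensity (fun s => C * φ s) with hρ
  haveI : IsFiniteMeasure ρ := isFiniteMeasure_withDensity (by
    rw [lintegral_const_mul _ hφm]
    exact ENNReal.mul_ne_top hCt hφ)
  have hνB : ∀ B : Set ℝ, MeasurableSet B → ν B = volume (inSet η r (B ∩ Ioc 0 t)) := by
    intro B hB
    rw [hν, Measure.map_apply hm hB, Measure.restrict_apply (hm hB)]
    congr 1
    ext x
    constructor
    · rintro ⟨h1, σ, hσ, h2⟩
      refine ⟨σ, ⟨?_, hσ⟩, h2⟩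
      rw [mem_preimage, h2.inTime_eq hσ.1.le hσ.2] at h1
      exact h1
    · rintro ⟨σ, ⟨h1, hσ⟩, h2⟩
      refine ⟨?_, σ, hσ, h2⟩
      rw [mem_preimage, h2.inTime_eq hσ.1.le hσ.2]
      exact h1
  have hρB : ∀ B : Set ℝ, MeasurableSet B → ρ B = C * ∫⁻ s in B ∩ Ioc 0 t, φ s := by
    intro B hB
    rw [hρ, withDensity_apply _ hB, Measure.restrict_restrict hB, lintegral_const_mul _ hφm]
  -- absolute continuity
  obtain ⟨δ, hδ, hδφ⟩ := exists_pos_setLIntegral_lt_of_measure_lt (μ := volume.restrict (Ioc 0 t))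
    hφ (ε := ENNReal.ofReal r) (ENNReal.ofReal_pos.2 hr).ne'
  have hδ1 : 0 < min δ 1 := lt_min hδ one_pos
  have hδ1t : min δ 1 ≠ ∞ := ne_top_of_le_ne_top ENNReal.one_ne_top (min_le_right _ _)
  set h0 : ℝ := (min δ 1).toReal / 2 with hh0
  have hh0p : 0 < h0 := half_pos (ENNReal.toReal_pos hδ1.ne' hδ1t)
  have key : ν A ≤ ρ A := by
    refine measure_le_of_Ioc hh0p (fun p q hpq hqp => ?_) hA
    rw [hνB _ measurableSet_Ioc, hρB _ measurableSet_Ioc]
    have hint : Ioc p q ∩ Ioc 0 t = Ioc (max p 0) (min q t) := Ioc_inter_Ioc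
    rw [hint]
    set p' := max p 0 with hp'
    set q' := min q t with hq'
    rcases le_or_gt q' p' with hle | hlt
    · rw [Ioc_eq_empty (not_lt.2 hle)]
      have : inSet η r ∅ = ∅ := by
        ext x; simp [inSet]
      rw [this]; simp
    have hp0 : 0 ≤ p' := le_max_right _ _
    have hqt : q' ≤ t := min_le_right _ _
    have hlen : q' - p' ≤ h0 := by
      have h1 := le_max_left p 0
      have h2 := min_le_left q t
      linarith
    have hI : ∫⁻ u in Ioc p' q', φ u ≤ ENNReal.ofReal r := by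
      have h1 := hδφ (Ioc p' q') (by
        refine (Measure.restrict_apply_le _ _).trans_lt ?_
        rw [Real.volume_Ioc]
        refine lt_of_lt_of_le ?_ (min_le_left δ 1)
        rw [ENNReal.ofReal_lt_iff_lt_toReal (by linarith) hδ1t]
        linarith)
      rw [Measure.restrict_restrict measurableSet_Ioc] at h1
      have h2 : Ioc p' q' ∩ Ioc 0 t = Ioc p' q' :=
        inter_eq_left.2 (Ioc_subset_Ioc hp0 hqt)
      rw [h2] at h1
      exact h1.le
    have hIt : ∫⁻ u in Ioc p' q', φ u ≠ ∞ := ne_top_of_le_ne_top ENNReal.ofReal_ne_top hI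
    set D : ℝ := (∫⁻ u in Ioc p' q', φ u).toReal with hD
    have hDr : D ≤ r := by
      have := ENNReal.toReal_mono ENNReal.ofReal_ne_top hI
      rwa [ENNReal.toReal_ofReal hr.le] at this
    have hds : ∀ s ∈ Ioc p' q', dist (η p') (η s) ≤ D := by
      intro s hs
      have h1 := (hd p' s hp0 hs.1.le (hs.2.trans hqt)).trans
        (lintegral_mono_set (Ioc_subset_Ioc_right hs.2))
      have h2 := ENNReal.toReal_mono hIt h1
      rwa [ENNReal.toReal_ofReal dist_nonneg] at h2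
    refine (volume_inSet_short hr hp0 ENNReal.toReal_nonneg hDr hds).trans (le_of_eq ?_)
    rw [ENNReal.ofReal_mul (by positivity), ENNReal.ofReal_toReal hIt, hC]
    ring
  rw [hνB A hA, hρB A hA, inter_eq_left.2 hAt] at key
  exact key

end Crest.Agent.R122.Hit167
end

-- ▼ part R122/HitSwG_167

/-!
# First-hit sweep in the gas (row 122, helper167)

`lintegral_first_hit_le`: the translation average of the probability that the first hit of the
translated test family is made by a particle with the property `Q` (an arbitrary measurable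
property of the particle and the time) is at most
`C ε² |α| ∫ ds E ∑_i 1[Q i s] (M + |v_i(s)|)`.
-/

set_option autoImplicit false

open Set Filter Topology MeasureTheory
open scoped Classical ENNReal NNReal
open Crest.AnalysisR.Kinetic

namespace Crest.Agent.R122.Hit167

open Causal291 Flow671 Loc45 GC311 Vol365

/-- Translated curves. -/
def shiftC {α : Type} (c : α → ℝ → Space3) (x : Space3) : α → ℝ → Space3 := fun a s => c a s + x

section

variable {f₀ : PhasePoint → ℝ} {Φ : Space3 → ℝ} {ε : ℝ} {α : Type}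
  {c : α → ℝ → Space3} {θ : α → ℝ} {t₀ t : ℝ}

/-- relative motion of particle `i` and curve `a` -/
noncomputable def rel (Φ : Space3 → ℝ) (ε : ℝ) (c : α → ℝ → Space3) {n : ℕ} (Z : Config n) (a : α)
    (i : Fin n) : ℝ → Space3 := fun s => (pth Φ ε Z s i).1 - c a s

theorem continuous_rel (hΦ : AdmissiblePotential Φ) (hε : 0 < ε) (hc : ∀ a, Continuous (c a))
    {n : ℕ} (Z : Config n) (a : α) (i : Fin n) : Continuous (rel Φ ε c Z a i) :=
  (continuous_pth hΦ hε Z i).fst.sub (hc a)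

theorem dist_rel {n : ℕ} (Z : Config n) (a : α) (i : Fin n) (s : ℝ) (x : Space3) :
    dist x (rel Φ ε c Z a i s) = dist (shiftC c x a s) (pth Φ ε Z s i).1 := by
  unfold rel shiftC
  rw [dist_eq_norm, dist_eq_norm]
  congr 1
  abel

/-- Speed weight. -/
noncomputable def spdW (Φ : Space3 → ℝ) (ε : ℝ) (M : ℝ≥0) {n : ℕ} (Z : Config n) (i : Fin n)
    (s : ℝ) : ℝ≥0∞ := (M : ℝ≥0∞) + ‖(pth Φ ε Z s i).2‖ₑ

theorem measurable_spdW (hΦ : AdmissiblePotential Φ) (hε : 0 < ε) (M : ℝ≥0) (n : ℕ) (i : Fin n) :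
    Measurable fun p : ℝ × Config n => spdW Φ ε M p.2 i p.1 := by
  have h : Measurable (Function.uncurry fun (s : ℝ) (Z : Config n) => pth Φ ε Z s i) :=
    measurable_uncurry_of_continuous_of_measurable (fun Z => continuous_pth hΦ hε Z i)
      (fun s => measurable_pth_id hΦ hε s i)
  unfold spdW
  exact measurable_const.add h.snd.enorm

theorem measurable_spdW_time (hΦ : AdmissiblePotential Φ) (hε : 0 < ε) (M : ℝ≥0) {n : ℕ}
    (Z : Config n) (i : Fin n) : Measurable (spdW Φ ε M Z i) := by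
  have h : Measurable fun s : ℝ => ((s, Z) : ℝ × Config n) := measurable_prodMk_right
  have h2 := (measurable_spdW hΦ hε M n i).comp h
  exact h2

theorem lintegral_spdW_ne_top (hΦ : AdmissiblePotential Φ) (hε : 0 < ε) (M : ℝ≥0) {n : ℕ}
    (Z : Config n) (i : Fin n) (t : ℝ) : ∫⁻ s in Ioc 0 t, spdW Φ ε M Z i s ≠ ∞ := by
  unfold spdW
  rw [lintegral_add_left measurable_const, setLIntegral_const]
  refine ENNReal.add_ne_top.2 ⟨ENNReal.mul_ne_top ENNReal.coe_ne_top (by simp), ?_⟩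
  have h := ((continuous_pth hΦ hε Z i).snd).integrableOn_Ioc (μ := volume) (a := 0) (b := t)
  exact h.2.ne

theorem dist_rel_le (hΦ : AdmissiblePotential Φ) (hε : 0 < ε) {M : ℝ≥0}
    (hcM : ∀ a, LipschitzOnWith M (c a) (Icc 0 t)) {n : ℕ} {Z : Config n}
    (hZ : Z ∈ Dom Φ (Fin n)) (a : α) (i : Fin n) {s s' : ℝ} (h0 : 0 ≤ s) (hss : s ≤ s')
    (hst : s' ≤ t) :
    ENNReal.ofReal (dist (rel Φ ε c Z a i s) (rel Φ ε c Z a i s')) ≤
      ∫⁻ u in Ioc s s', spdW Φ ε M Z i u := by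
  have h1 : dist (rel Φ ε c Z a i s) (rel Φ ε c Z a i s') ≤
      dist (pth Φ ε Z s i).1 (pth Φ ε Z s' i).1 + dist (c a s) (c a s') := by
    unfold rel
    exact dist_sub_sub_le _ _ _ _
  have h2 : dist (c a s) (c a s') ≤ M * (s' - s) := by
    have := (hcM a).dist_le_mul s ⟨h0, hss.trans hst⟩ s' ⟨h0.trans hss, hst⟩
    rwa [Real.dist_eq, abs_sub_comm, abs_of_nonneg (sub_nonneg.2 hss)] at this
  have h3 : ENNReal.ofReal (dist (pth Φ ε Z s i).1 (pth Φ ε Z s' i).1) ≤
      ∫⁻ u in Ioc s s', ‖(pth Φ ε Z u i).2‖ₑ := by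
    have hder : ∀ u ∈ uIcc s s', HasDerivAt (fun s => (pth Φ ε Z s i).1) ((pth Φ ε Z u i).2) u :=
      fun u _ => hasDerivAt_pos_flow hΦ hε hZ u i
    have hcont : Continuous fun u => (pth Φ ε Z u i).2 := (continuous_pth hΦ hε Z i).snd
    have e := intervalIntegral.integral_eq_sub_of_hasDerivAt hder (hcont.intervalIntegrable _ _)
    rw [intervalIntegral.integral_of_le hss] at e
    rw [dist_comm, dist_eq_norm, ← e, ofReal_norm]
    exact enorm_integral_le_lintegral_enorm _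
  calc ENNReal.ofReal (dist (rel Φ ε c Z a i s) (rel Φ ε c Z a i s'))
      ≤ ENNReal.ofReal (dist (pth Φ ε Z s i).1 (pth Φ ε Z s' i).1 + M * (s' - s)) :=
        ENNReal.ofReal_le_ofReal (h1.trans (add_le_add_right h2 _))
    _ = ENNReal.ofReal (dist (pth Φ ε Z s i).1 (pth Φ ε Z s' i).1) +
          ENNReal.ofReal (M * (s' - s)) :=
        ENNReal.ofReal_add dist_nonneg (mul_nonneg M.coe_nonneg (sub_nonneg.2 hss))
    _ ≤ (∫⁻ u in Ioc s s', ‖(pth Φ ε Z u i).2‖ₑ) + ∫⁻ _u in Ioc s s', (M : ℝ≥0∞) := by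
        refine add_le_add h3 (le_of_eq ?_)
        rw [setLIntegral_const, Real.volume_Ioc, ENNReal.ofReal_mul M.coe_nonneg,
          ENNReal.ofReal_coe_nnreal]
    _ = ∫⁻ u in Ioc s s', spdW Φ ε M Z i u := by
        unfold spdW
        rw [lintegral_add_left measurable_const, add_comm]

/-- Joint measurability of the entrance time. -/
theorem measurable_inTime_joint (hΦ : AdmissiblePotential Φ) (hε : 0 < ε)
    (hc : ∀ a, Continuous (c a)) (n : ℕ) (a : α) (i : Fin n) (r t : ℝ) :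
    Measurable fun p : Space3 × Config n => inTime (rel Φ ε c p.2 a i) r t p.1 := by
  refine measurable_hitTime (x := fun p : Space3 × Config n => oneW (rel Φ ε c p.2 a i) p.1)
    (fun p _ => (((continuous_rel hΦ hε hc p.2 a i).sub continuous_const).prodMk
      continuous_const)) (fun s _ => ?_) (fun _ => continuous_const) 0 ()
  refine Measurable.prodMk ?_ measurable_const
  refine Measurable.sub ?_ measurable_fst
  exact ((measurable_pth_id hΦ hε s i).fst.sub measurable_const).comp measurable_snd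

/-- Joint measurability of the set of points entered at a bad time. -/
theorem measurableSet_inSet_joint (hΦ : AdmissiblePotential Φ) (hε : 0 < ε)
    (hc : ∀ a, Continuous (c a)) {n : ℕ} (a : α) (i : Fin n) {Q : Config n → ℝ → Prop}
    (hQ : MeasurableSet {p : Config n × ℝ | Q p.1 p.2})
    (hQt : ∀ Z s, Q Z s → s ∈ Icc 0 t) :
    MeasurableSet {p : Space3 × Config n | p.1 ∈ inSet (rel Φ ε c p.2 a i) ε {s | Q p.2 s}} := by
  have hm := measurable_inTime_joint hΦ hε hc n a i ε t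
  have h : Measurable (Function.uncurry fun (s : ℝ) (Z : Config n) => rel Φ ε c Z a i s) :=
    measurable_uncurry_of_continuous_of_measurable (fun Z => continuous_rel hΦ hε hc Z a i)
      (fun s => (measurable_pth_id hΦ hε s i).fst.sub measurable_const)
  have key : {p : Space3 × Config n | p.1 ∈ inSet (rel Φ ε c p.2 a i) ε {s | Q p.2 s}} =
      (fun p : Space3 × Config n => (p.2, inTime (rel Φ ε c p.2 a i) ε t p.1)) ⁻¹'
        {p : Config n × ℝ | Q p.1 p.2} ∩
      {p : Space3 × Config n | dist p.1 (rel Φ ε c p.2 a i (inTime (rel Φ ε c p.2 a i) ε t p.1)) ≤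
        ε ∧ inTime (rel Φ ε c p.2 a i) ε t p.1 ∈ Icc 0 t} := by
    ext p
    have := inSet_eq (η := rel Φ ε c p.2 a i) (r := ε) (t := t) (A := {s | Q p.2 s})
      (fun s hs => hQt _ _ hs)
    exact Set.ext_iff.1 this p.1
  rw [key]
  refine ((measurable_snd.prodMk hm) hQ).inter ?_
  refine (measurableSet_le (measurable_fst.dist ?_) measurable_const).inter (hm measurableSet_Icc)
  exact h.comp (hm.prodMk measurable_snd)

/-- A first hit with property `Q` after time `0`. -/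
def QHit (Φ : Space3 → ℝ) (ε : ℝ) (c : α → ℝ → Space3) (θ : α → ℝ) (t₀ t : ℝ) {n : ℕ}
    (Q : Config n → Fin n → ℝ → Prop) (Z : Config n) : Prop :=
  ∃ σ ∈ Ico t₀ t, 0 < σ ∧ Unhit (pth Φ ε Z) ε c θ σ ∧
    ∃ i, HitsAt (pth Φ ε Z) ε c θ σ i ∧ Q Z i σ

theorem QHit.exists_inSet {n : ℕ} {Q : Config n → Fin n → ℝ → Prop} {Z : Config n} {x : Space3}
    (h : QHit Φ ε (shiftC c x) θ t₀ t Q Z) :
    ∃ a i, x ∈ inSet (rel Φ ε c Z a i) ε {s | s ∈ Ico t₀ t ∧ 0 < s ∧ Q Z i s} := by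
  obtain ⟨σ, hσ, hpos, hU, i, ⟨a, ha, hd⟩, hQ⟩ := h
  refine ⟨a, i, σ, ⟨hσ, hpos, hQ⟩, ?_, fun s hs => ?_⟩
  · rw [dist_rel]; exact hd
  · rw [dist_rel]
    exact (unhit_iff.1 hU) s hs a (hs.2.le.trans ha) i

/-- Volume entered by one particle at the times of a measurable set. -/
theorem volume_inSet_rel_le (hΦ : AdmissiblePotential Φ) (hε : 0 < ε)
    (hc : ∀ a, Continuous (c a)) {M : ℝ≥0} (hcM : ∀ a, LipschitzOnWith M (c a) (Icc 0 t))
    {n : ℕ} {Z : Config n} (hZ : Z ∈ Dom Φ (Fin n)) (a : α) (i : Fin n) {Q : ℝ → Prop}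
    (hQ : MeasurableSet {s | Q s}) (ht₀ : 0 ≤ t₀) :
    volume (inSet (rel Φ ε c Z a i) ε {s | s ∈ Ico t₀ t ∧ 0 < s ∧ Q s}) ≤
      ENNReal.ofReal (7 * ε ^ 2) * kap *
        ∫⁻ s in Ioo t₀ t, ind (Q s) * spdW Φ ε M Z i s := by
  set A : Set ℝ := {s | s ∈ Ico t₀ t ∧ 0 < s ∧ Q s} with hA
  have hAm : MeasurableSet A :=
    measurableSet_Ico.inter (measurableSet_Ioi.inter hQ)
  have hAsub : A ⊆ Ioc 0 t := fun s hs => ⟨hs.2.1, hs.1.2.le⟩
  have hm : Measurable (spdW Φ ε M Z i) := measurable_spdW_time hΦ hε M Z i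
  refine (volume_inSet_le (continuous_rel hΦ hε hc Z a i) hm (lintegral_spdW_ne_top hΦ hε M Z i t)
    (fun s s' h0 hss hst => dist_rel_le hΦ hε hcM hZ a i h0 hss hst) hε hAm hAsub).trans ?_
  refine mul_le_mul_right ?_ _
  rw [← lintegral_indicator hAm, ← lintegral_indicator measurableSet_Ioo]
  refine lintegral_mono_ae ?_
  have h0 : ∀ᵐ s : ℝ, s ≠ t₀ := by
    rw [ae_iff]; simp
  filter_upwards [h0] with s hs
  by_cases hsA : s ∈ A
  · rw [indicator_of_mem hsA, indicator_of_mem (show s ∈ Ioo t₀ t from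
      ⟨lt_of_le_of_ne hsA.1.1 (Ne.symm hs), hsA.1.2⟩), ind_true hsA.2.2, one_mul]
  · rw [indicator_of_notMem hsA]; exact zero_le

theorem lintegral_ind_mem {X : Type*} [MeasurableSpace X] (μ : Measure X) {S : Set X}
    (hS : MeasurableSet S) : ∫⁻ x, ind (x ∈ S) ∂μ = μ S := by
  have : (fun x => ind (x ∈ S)) = S.indicator 1 := by
    funext x
    by_cases hx : x ∈ S
    · rw [ind_true hx, indicator_of_mem hx, Pi.one_apply]
    · rw [ind_false hx, indicator_of_notMem hx]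
  rw [this, lintegral_indicator_one hS]

variable [Fintype α]

/-- Majorant of the indicator of `QHit`. -/
noncomputable def majQ (Φ : Space3 → ℝ) (ε : ℝ) (c : α → ℝ → Space3) (t₀ t : ℝ) {n : ℕ}
    (Q : Config n → Fin n → ℝ → Prop) (x : Space3) (Z : Config n) : ℝ≥0∞ :=
  ∑ a : α, ∑ i : Fin n,
    ind (x ∈ inSet (rel Φ ε c Z a i) ε {s | s ∈ Ico t₀ t ∧ 0 < s ∧ Q Z i s})

theorem ind_qHit_le {n : ℕ} (Q : Config n → Fin n → ℝ → Prop) (x : Space3) (Z : Config n) :
    ind (QHit Φ ε (shiftC c x) θ t₀ t Q Z) ≤ majQ Φ ε c t₀ t Q x Z := by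
  by_cases h : QHit Φ ε (shiftC c x) θ t₀ t Q Z
  · obtain ⟨a, i, hx⟩ := h.exists_inSet
    have h2 : ind (x ∈ inSet (rel Φ ε c Z a i) ε {s | s ∈ Ico t₀ t ∧ 0 < s ∧ Q Z i s}) ≤
        ∑ i : Fin n, ind (x ∈ inSet (rel Φ ε c Z a i) ε {s | s ∈ Ico t₀ t ∧ 0 < s ∧ Q Z i s}) :=
      Finset.single_le_sum (f := fun i : Fin n => ind (x ∈ inSet (rel Φ ε c Z a i) ε
        {s | s ∈ Ico t₀ t ∧ 0 < s ∧ Q Z i s})) (fun _ _ => zero_le) (Finset.mem_univ i)
    have h3 : ∑ i : Fin n,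
        ind (x ∈ inSet (rel Φ ε c Z a i) ε {s | s ∈ Ico t₀ t ∧ 0 < s ∧ Q Z i s}) ≤
        majQ Φ ε c t₀ t Q x Z :=
      Finset.single_le_sum (f := fun a : α => ∑ i : Fin n, ind (x ∈ inSet (rel Φ ε c Z a i) ε
        {s | s ∈ Ico t₀ t ∧ 0 < s ∧ Q Z i s})) (fun _ _ => zero_le) (Finset.mem_univ a)
    rw [ind_true hx] at h2
    exact (ind_le_one _).trans (h2.trans h3)
  · rw [ind_false h]; exact zero_le

theorem measurable_majQ (hΦ : AdmissiblePotential Φ) (hε : 0 < ε) (hc : ∀ a, Continuous (c a))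
    {n : ℕ} {Q : Config n → Fin n → ℝ → Prop}
    (hQ : ∀ i, MeasurableSet {p : Config n × ℝ | Q p.1 i p.2}) :
    Measurable (Function.uncurry (majQ Φ ε c t₀ t Q)) := by
  refine Finset.measurable_sum _ fun a _ => Finset.measurable_sum _ fun i _ => measurable_ind ?_
  exact measurableSet_inSet_joint (t := t) hΦ hε hc a i
    (Q := fun Z s => s ∈ Ico t₀ t ∧ 0 < s ∧ Q Z i s)
    ((measurable_snd measurableSet_Ico).inter ((measurable_snd measurableSet_Ioi).inter (hQ i)))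
    (fun Z s hs => ⟨hs.2.1.le, hs.1.2.le⟩)

theorem lintegral_majQ_le (hΦ : AdmissiblePotential Φ) (hε : 0 < ε) (hc : ∀ a, Continuous (c a))
    {M : ℝ≥0} (hcM : ∀ a, LipschitzOnWith M (c a) (Icc 0 t)) {n : ℕ}
    {Q : Config n → Fin n → ℝ → Prop}
    (hQ : ∀ i, MeasurableSet {p : Config n × ℝ | Q p.1 i p.2}) (ht₀ : 0 ≤ t₀) {Z : Config n}
    (hZ : Z ∈ Dom Φ (Fin n)) :
    ∫⁻ x : Space3, majQ Φ ε c t₀ t Q x Z ≤ ENNReal.ofReal (7 * ε ^ 2) * kap * Fintype.card α *
        ∫⁻ s in Ioo t₀ t, ∑ i, ind (Q Z i s) * spdW Φ ε M Z i s := by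
  have hQZ : ∀ i, MeasurableSet {s | Q Z i s} := fun i =>
    (measurable_prodMk_left (x := Z)) (hQ i)
  have hm : ∀ (a : α) (i : Fin n), MeasurableSet (inSet (rel Φ ε c Z a i) ε
      {s | s ∈ Ico t₀ t ∧ 0 < s ∧ Q Z i s}) := fun a i =>
    measurableSet_inSet (t := t) (continuous_rel hΦ hε hc Z a i)
      (fun s hs => ⟨hs.2.1.le, hs.1.2.le⟩)
      (measurableSet_Ico.inter (measurableSet_Ioi.inter (hQZ i)))
  have hS : ∀ i, Measurable fun s => ind (Q Z i s) * spdW Φ ε M Z i s := fun i =>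
    (measurable_ind (hQZ i)).mul (measurable_spdW_time hΦ hε M Z i)
  have e1 : ∫⁻ x : Space3, majQ Φ ε c t₀ t Q x Z = ∑ a : α, ∑ i : Fin n,
      volume (inSet (rel Φ ε c Z a i) ε {s | s ∈ Ico t₀ t ∧ 0 < s ∧ Q Z i s}) := by
    have hmi : ∀ (a : α) (i : Fin n), Measurable fun x : Space3 =>
        ind (x ∈ inSet (rel Φ ε c Z a i) ε {s | s ∈ Ico t₀ t ∧ 0 < s ∧ Q Z i s}) :=
      fun a i => measurable_ind (p := fun x : Space3 =>
        x ∈ inSet (rel Φ ε c Z a i) ε {s | s ∈ Ico t₀ t ∧ 0 < s ∧ Q Z i s}) (hm a i)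
    unfold majQ
    rw [lintegral_finsetSum _ fun a _ => Finset.measurable_sum _ fun i _ => hmi a i]
    refine Finset.sum_congr rfl fun a _ => ?_
    rw [lintegral_finsetSum _ fun i _ => hmi a i]
    exact Finset.sum_congr rfl fun i _ => lintegral_ind_mem _ (hm a i)
  rw [e1]
  have e2 : ∑ a : α, ∑ i : Fin n,
      volume (inSet (rel Φ ε c Z a i) ε {s | s ∈ Ico t₀ t ∧ 0 < s ∧ Q Z i s}) ≤
      ∑ _a : α, ∑ i : Fin n, ENNReal.ofReal (7 * ε ^ 2) * kap *
            ∫⁻ s in Ioo t₀ t, ind (Q Z i s) * spdW Φ ε M Z i s :=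
    Finset.sum_le_sum fun a _ => Finset.sum_le_sum fun i _ =>
      volume_inSet_rel_le hΦ hε hc hcM hZ a i (hQZ i) ht₀
  refine e2.trans (le_of_eq ?_)
  rw [lintegral_finsetSum _ fun i _ => hS i, Finset.sum_const, Finset.card_univ,
    nsmul_eq_mul, ← Finset.mul_sum]
  ring

/-- The majorant is measurable in the translation. -/
theorem measurable_gcE_majQ (hf : Measurable f₀) (hΦ : AdmissiblePotential Φ) (hε : 0 < ε)
    (hc : ∀ a, Continuous (c a)) {Q : (n : ℕ) → Config n → Fin n → ℝ → Prop}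
    (hQ : ∀ n i, MeasurableSet {p : Config n × ℝ | Q n p.1 i p.2}) :
    Measurable fun x : Space3 => gcE f₀ ε (fun n Z => majQ Φ ε c t₀ t (Q n) x Z) :=
  BadHit370.measurable_gcE_param hf ε (F := fun n x Z => majQ Φ ε c t₀ t (Q n) x Z)
    (fun n => measurable_majQ hΦ hε hc (hQ n))

/-- Integral of the majorant. -/
theorem lintegral_gcE_majQ_le (hf : Measurable f₀) (hΦ : AdmissiblePotential Φ) (hε : 0 < ε)
    (hc : ∀ a, Continuous (c a)) {M : ℝ≥0} (hcM : ∀ a, LipschitzOnWith M (c a) (Icc 0 t))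
    {Q : (n : ℕ) → Config n → Fin n → ℝ → Prop}
    (hQ : ∀ n i, MeasurableSet {p : Config n × ℝ | Q n p.1 i p.2}) (ht₀ : 0 ≤ t₀) :
    ∫⁻ x : Space3, gcE f₀ ε (fun n Z => majQ Φ ε c t₀ t (Q n) x Z) ≤
      ENNReal.ofReal (7 * ε ^ 2) * kap * Fintype.card α *
        ∫⁻ s in Ioo t₀ t, gcE f₀ ε (fun n Z => ∑ i, ind (Q n Z i s) * spdW Φ ε M Z i s) := by
  have hFt : ∀ n, Measurable (Function.uncurry fun (s : ℝ) (Z : Config n) =>
      ∑ i, ind (Q n Z i s) * spdW Φ ε M Z i s) := by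
    intro n
    refine Finset.measurable_sum _ fun i _ => Measurable.mul ?_ (measurable_spdW hΦ hε M n i)
    exact (measurable_ind (hQ n i)).comp measurable_swap
  have h2 : ∫⁻ x : Space3, gcE f₀ ε (fun n Z => majQ Φ ε c t₀ t (Q n) x Z) =
      gcE f₀ ε (fun n Z => ∫⁻ x : Space3, majQ Φ ε c t₀ t (Q n) x Z) :=
    BadHit370.lintegral_gcE hf ε volume (F := fun n x Z => majQ Φ ε c t₀ t (Q n) x Z)
      (fun n => measurable_majQ hΦ hε hc (hQ n))
  have h3 : gcE f₀ ε (fun n Z => ∫⁻ x : Space3, majQ Φ ε c t₀ t (Q n) x Z) ≤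
      gcE f₀ ε (fun n Z => ENNReal.ofReal (7 * ε ^ 2) * kap * Fintype.card α *
          ∫⁻ s in Ioo t₀ t, ∑ i, ind (Q n Z i s) * spdW Φ ε M Z i s) :=
    gcE_mono f₀ ε fun n Z hZ => lintegral_majQ_le hΦ hε hc hcM (hQ n) ht₀
      (pairExcluded_subset_Dom hε n hZ)
  have h4 : gcE f₀ ε (fun n Z => ENNReal.ofReal (7 * ε ^ 2) * kap * Fintype.card α *
          ∫⁻ s in Ioo t₀ t, ∑ i, ind (Q n Z i s) * spdW Φ ε M Z i s) =
      ENNReal.ofReal (7 * ε ^ 2) * kap * Fintype.card α *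
          gcE f₀ ε (fun n Z => ∫⁻ s in Ioo t₀ t, ∑ i, ind (Q n Z i s) * spdW Φ ε M Z i s) := by
    refine gcE_const_mul f₀ ε ?_ _
    exact ENNReal.mul_ne_top (ENNReal.mul_ne_top ENNReal.ofReal_ne_top kap_ne_top)
      (ENNReal.natCast_ne_top _)
  have h5 := BadHit370.lintegral_gcE hf ε (volume.restrict (Ioo t₀ t))
    (F := fun n s Z => ∑ i, ind (Q n Z i s) * spdW Φ ε M Z i s) hFt
  calc ∫⁻ x : Space3, gcE f₀ ε (fun n Z => majQ Φ ε c t₀ t (Q n) x Z)
      = _ := h2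
    _ ≤ _ := h3
    _ = _ := h4
    _ = _ := by rw [h5]


end

end Crest.Agent.R122.Hit167
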