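import Crest.Agent.R122.GCMecke_311

-- ▼ part R122/GCFinset_311
section

/-!
# Grand-canonical calculus III: Mecke formula for marked subsets, the probability measure
-/

set_option autoImplicit false
open MeasureTheory
open scoped Classical ENNReal
open Crest.AnalysisR.Kinetic
noncomputable section

namespace Crest.Agent.R122.GC311

/-! ## Marked subsets -/

/-- Embeddings of `Fin k` with a given image correspond to bijections onto the image. -/
def embFiberEquiv {k n : ℕ} (B : Finset (Fin n)) :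
    {ι : Fin k ↪ Fin n // Finset.univ.map ι = B} ≃ (Fin k ≃ B) where
  toFun p := Equiv.ofBijective
    (fun i => (⟨p.1 i, (Finset.ext_iff.1 p.2 (p.1 i)).1 (Finset.mem_map_of_mem _ (Finset.mem_univ i))⟩ : B)) (by
      constructor
      · intro i j hij
        have := congrArg Subtype.val hij
        exact p.1.injective this
      · rintro ⟨x, hx⟩
        rw [← p.2, Finset.mem_map] at hx
        obtain ⟨i, -, hi⟩ := hx
        exact ⟨i, Subtype.ext hi⟩)
  invFun e := ⟨e.toEmbedding.trans (Function.Embedding.subtype _), by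
    ext x
    simp only [Finset.mem_map, Finset.mem_univ, true_and, Function.Embedding.trans_apply,
      Equiv.coe_toEmbedding, Function.Embedding.subtype_apply]
    constructor
    · rintro ⟨i, hi⟩
      rw [← hi]
      exact (e i).2
    · intro hx
      exact ⟨e.symm ⟨x, hx⟩, by simp⟩⟩
  left_inv p := by
    apply Subtype.ext
    ext i
    rfl
  right_inv e := by
    ext i
    rfl

theorem sum_emb_eq_sum_finset {k n : ℕ} (F : Finset (Fin n) → ℝ≥0∞) :
    ∑ ι : Fin k ↪ Fin n, F (Finset.univ.map ι) =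
      (k.factorial : ℝ≥0∞) * ∑ B ∈ (Finset.univ : Finset (Fin n)).powersetCard k, F B := by
  rw [← Finset.sum_fiberwise_of_maps_to
    (s := (Finset.univ : Finset (Fin k ↪ Fin n)))
    (t := (Finset.univ : Finset (Fin n)).powersetCard k)
    (g := fun ι => Finset.univ.map ι)
    (fun ι _ => by simp [Finset.mem_powersetCard])]
  rw [Finset.mul_sum]
  refine Finset.sum_congr rfl fun B hB => ?_
  have hcard : B.card = k := (Finset.mem_powersetCard.1 hB).2
  rw [Finset.sum_congr rfl (g := fun _ => F B)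
    (fun ι hι => by rw [(Finset.mem_filter.1 hι).2])]
  rw [Finset.sum_const, nsmul_eq_mul]
  congr 1
  have h1 : (Finset.univ.filter (fun ι : Fin k ↪ Fin n => Finset.univ.map ι = B)).card =
      Fintype.card {ι : Fin k ↪ Fin n // Finset.univ.map ι = B} := by
    rw [Fintype.card_subtype]
  rw [h1, Fintype.card_congr (embFiberEquiv B)]
  have e : Fin k ≃ B := Fintype.equivOfCardEq (by simp [hcard])
  rw [Fintype.card_equiv e, Fintype.card_fin]

/-- **Mecke formula**, marked `k`-element subsets. -/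
theorem mecke_finset {f₀ : PhasePoint → ℝ} (hf : Measurable f₀) {ε : ℝ} (k : ℕ)
    {G : (n : ℕ) → Finset (Fin n) → Config n → ℝ≥0∞}
    (hG : ∀ (n : ℕ) (σ : Equiv.Perm (Fin n)) (B : Finset (Fin n)) (Z : Config n),
      Z ∈ PairExcluded ε n → G n (B.map σ.toEmbedding) Z = G n B (fun i => Z (σ i)))
    (hGm : ∀ n B, Measurable (G n B)) :
    gcE f₀ ε (fun n Z => ∑ B ∈ (Finset.univ : Finset (Fin n)).powersetCard k, G n B Z) =
      activity ε ^ k / (k.factorial : ℝ≥0∞) * ∫⁻ V : Config k, gcWeight f₀ ε k V *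
        gcE f₀ ε (fun m w => perpInd ε V w *
          G (k + m) (Finset.univ.map (Fin.castAddEmb m)) (Fin.append V w)) := by
  have h1 := mecke hf (ε := ε) (k := k) (G := fun n ι Z => G n (Finset.univ.map ι) Z)
    (fun n σ ι Z hZ => by
      have := hG n σ (Finset.univ.map ι) Z hZ
      rw [Finset.map_map] at this
      exact this)
    (fun n ι => hGm n _)
  have h0 : (fun (n : ℕ) (Z : Config n) => ∑ ι : Fin k ↪ Fin n, G n (Finset.univ.map ι) Z) =
      fun (n : ℕ) (Z : Config n) => (k.factorial : ℝ≥0∞) *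
        ∑ B ∈ (Finset.univ : Finset (Fin n)).powersetCard k, G n B Z := by
    funext n Z
    exact sum_emb_eq_sum_finset (fun B => G n B Z)
  rw [h0] at h1
  have hk0 : (k.factorial : ℝ≥0∞) ≠ 0 := by exact_mod_cast (Nat.factorial_pos k).ne'
  have hkt : (k.factorial : ℝ≥0∞) ≠ ∞ := ENNReal.natCast_ne_top _
  rw [gcE_const_mul f₀ ε hkt] at h1
  rw [ENNReal.div_eq_inv_mul, mul_assoc, ← h1, ← mul_assoc, ENNReal.inv_mul_cancel hk0 hkt,
    one_mul]

/-! ## The probability measure on `Σ n, Config n` -/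

/-- The grand-canonical probability measure on labelled configurations of arbitrary size. -/
def gcMeasure (f₀ : PhasePoint → ℝ) (ε : ℝ) : Measure (Σ n : ℕ, Config n) :=
  (gcPartition f₀ ε)⁻¹ • Measure.sum (fun n : ℕ =>
    (activity ε ^ n / (n.factorial : ℝ≥0∞)) •
      ((volume : Measure (Config n)).withDensity (gcWeight f₀ ε n)).map (Sigma.mk n))

theorem measurable_sigmaMk' (n : ℕ) :
    Measurable (Sigma.mk n : Config n → Σ n : ℕ, Config n) := by
  exact measurable_iff_comap_le.2 (by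
    rw [MeasurableSpace.comap_le_iff_le_map]
    exact iInf_le _ n)

theorem measurable_sigma_iff {β : Type*} [MeasurableSpace β] {F : (Σ n : ℕ, Config n) → β} :
    Measurable F ↔ ∀ n, Measurable (fun Z : Config n => F ⟨n, Z⟩) := by
  constructor
  · exact fun h n => h.comp (measurable_sigmaMk' n)
  · intro h s hs
    have : MeasurableSet[⨅ n : ℕ, MeasurableSpace.map (Sigma.mk n)
        (inferInstance : MeasurableSpace (Config n))] (F ⁻¹' s) := by
      rw [MeasurableSpace.measurableSet_iInf]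
      intro n
      exact h n hs
    exact this

theorem lintegral_gcMeasure {f₀ : PhasePoint → ℝ} (hf : Measurable f₀) (ε : ℝ)
    {F : (n : ℕ) → Config n → ℝ≥0∞} (hF : ∀ n, Measurable (F n)) :
    ∫⁻ p, F p.1 p.2 ∂(gcMeasure f₀ ε) = gcE f₀ ε F := by
  have hm : Measurable (fun p : Σ n : ℕ, Config n => F p.1 p.2) :=
    measurable_sigma_iff.2 fun n => hF n
  unfold gcMeasure gcE
  rw [lintegral_smul_measure, lintegral_sum_measure, smul_eq_mul]
  congr 1
  refine tsum_congr fun n => ?_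
  rw [lintegral_smul_measure, lintegral_map hm (measurable_sigmaMk' n), smul_eq_mul,
    lintegral_withDensity_eq_lintegral_mul _ (measurable_gcWeight hf ε n) (hF n)]
  rfl

theorem isProbabilityMeasure_gcMeasure {f₀ : PhasePoint → ℝ} (hf : Measurable f₀) (ε : ℝ)
    (h1 : ∫⁻ z, ENNReal.ofReal (f₀ z) ≤ 1) : IsProbabilityMeasure (gcMeasure f₀ ε) := by
  constructor
  have h := lintegral_gcMeasure hf ε (F := fun _ _ => 1) (fun n => measurable_const)
  rw [gcE_one f₀ ε hf h1] at h
  simpa using h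





end Crest.Agent.R122.GC311
end
end

-- ▼ part R122/GCBounds_311

/-!
# Grand-canonical calculus IV: moment bounds and exclusion corrections

* `gcE_sum_emb_le`: `E[∑_ι G(Z∘ι)] ≤ a^k ∫ G(V) ∏ f₀(V_i) dV`.
* `gcE_sum_le`: `E[∑_j g(w_j)] ≤ a ∫ f₀ g`.
* `one_sub_perp`: `E[1 - 1[V ⟂ w]] ≤ a ∑_i μ_{f₀}(B(x_i, ε))`.
* position density bound from the summable Gaussian bound.
-/

set_option autoImplicit false
open MeasureTheory
open scoped Classical ENNReal
open Crest.AnalysisR.Kinetic
noncomputable section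

namespace Crest.Agent.R122.GC311

/-- `E[∑_ι G(Z∘ι)] ≤ a^k ∫ G(V) ∏ f₀(V_i) dV`. -/
theorem gcE_sum_emb_le {f₀ : PhasePoint → ℝ} (hf : Measurable f₀)
    (h1 : ∫⁻ z, ENNReal.ofReal (f₀ z) ≤ 1) (ε : ℝ) {k : ℕ}
    (G : Config k → ℝ≥0∞) (hG : Measurable G) :
    gcE f₀ ε (fun n Z => ∑ ι : Fin k ↪ Fin n, G (fun i => Z (ι i))) ≤
      activity ε ^ k * ∫⁻ V : Config k, gcWeight f₀ ε k V * G V := by
  have hmG : ∀ (n : ℕ) (ι : Fin k ↪ Fin n), Measurable (fun Z : Config n => G (fun i => Z (ι i))) :=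
    fun n ι => hG.comp (measurable_pi_iff.2 fun i => measurable_pi_apply (ι i))
  refine (mecke_le hf (ε := ε) (G := fun n ι Z => G (fun i => Z (ι i)))
    (fun n σ ι Z _ => rfl) hmG).trans ?_
  refine mul_le_mul_right (lintegral_mono fun V => mul_le_mul_right ?_ _) _
  have : (fun (m : ℕ) (w : Config m) => G (fun i => (Fin.append V w : Config (k + m))
      ((Fin.castAddEmb m) i))) = fun m w => G V := by
    funext m w
    congr 1
    funext i
    simp
  rw [this]
  by_cases hV : G V = ∞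
  · rw [hV]; exact le_top
  · rw [gcE_const f₀ ε hf h1 hV]

/-- `E[∑_j g(w_j)] ≤ a ∫ f₀ g`. -/
theorem gcE_sum_le {f₀ : PhasePoint → ℝ} (hf : Measurable f₀)
    (h1 : ∫⁻ z, ENNReal.ofReal (f₀ z) ≤ 1) (ε : ℝ)
    (g : PhasePoint → ℝ≥0∞) (hg : Measurable g) :
    gcE f₀ ε (fun n Z => ∑ j : Fin n, g (Z j)) ≤
      activity ε * ∫⁻ z, ENNReal.ofReal (f₀ z) * g z := by
  have h := gcE_sum_emb_le hf h1 ε (k := 1) (fun V => g (V 0)) (hg.comp (measurable_pi_apply 0))
  have e : (fun (n : ℕ) (Z : Config n) => ∑ ι : Fin 1 ↪ Fin n, g (Z (ι 0))) =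
      fun (n : ℕ) (Z : Config n) => ∑ j : Fin n, g (Z j) := by
    funext n Z
    exact Fintype.sum_equiv (Equiv.uniqueEmbeddingEquivResult) _ _ (fun ι => rfl)
  rw [e] at h
  refine h.trans (le_of_eq ?_)
  rw [pow_one]
  congr 1
  have h2 := (volume_preserving_funUnique (Fin 1) PhasePoint).lintegral_comp
    (f := fun z => ENNReal.ofReal (f₀ z) * g z) ((hf.ennreal_ofReal).mul hg)
  rw [← h2]
  refine lintegral_congr fun V => ?_
  have hV : V ∈ PairExcluded ε 1 := by
    intro i j hij
    exact absurd (Subsingleton.elim i j) hij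
  unfold gcWeight
  rw [Set.indicator_of_mem hV]
  simp

/-- Mass of `f₀` in the ball of radius `ε` about `x` (in position). -/
def ballMass (f₀ : PhasePoint → ℝ) (ε : ℝ) (x : Space3) : ℝ≥0∞ :=
  ∫⁻ z, ENNReal.ofReal (f₀ z) * (if dist x z.1 ≤ ε then 1 else 0)

/-- Exclusion correction. -/
theorem one_sub_perp {f₀ : PhasePoint → ℝ} (hf : Measurable f₀)
    (h1 : ∫⁻ z, ENNReal.ofReal (f₀ z) ≤ 1) (ε : ℝ) {k : ℕ} (V : Config k) :
    gcE f₀ ε (fun m w => 1 - perpInd ε V w) ≤
      ∑ i : Fin k, activity ε * ballMass f₀ ε (V i).1 := by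
  have hle : ∀ (m : ℕ) (w : Config m), 1 - perpInd ε V w ≤
      ∑ i : Fin k, ∑ j : Fin m, (if dist (V i).1 (w j).1 ≤ ε then (1 : ℝ≥0∞) else 0) := by
    intro m w
    unfold perpInd
    by_cases hp : Perp ε V w
    · simp [hp]
    · rw [if_neg hp, tsub_zero]
      unfold Perp at hp
      push Not at hp
      obtain ⟨i, j, hij⟩ := hp
      calc (1 : ℝ≥0∞) = (if dist (V i).1 (w j).1 ≤ ε then (1 : ℝ≥0∞) else 0) := by
            rw [if_pos hij]
        _ ≤ ∑ j : Fin m, (if dist (V i).1 (w j).1 ≤ ε then (1 : ℝ≥0∞) else 0) :=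
            Finset.single_le_sum (f := fun j : Fin m =>
              (if dist (V i).1 (w j).1 ≤ ε then (1 : ℝ≥0∞) else 0))
              (fun _ _ => bot_le) (Finset.mem_univ j)
        _ ≤ _ := Finset.single_le_sum (f := fun i : Fin k => ∑ j : Fin m,
              (if dist (V i).1 (w j).1 ≤ ε then (1 : ℝ≥0∞) else 0))
              (fun _ _ => bot_le) (Finset.mem_univ i)
  have hmg : ∀ i : Fin k, Measurable (fun z : PhasePoint =>
      (if dist (V i).1 z.1 ≤ ε then (1 : ℝ≥0∞) else 0)) := by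
    intro i
    refine Measurable.ite ?_ measurable_const measurable_const
    exact measurableSet_le (measurable_const.dist measurable_fst) measurable_const
  calc gcE f₀ ε (fun m w => 1 - perpInd ε V w)
      ≤ gcE f₀ ε (fun m w => ∑ i : Fin k, ∑ j : Fin m,
          (if dist (V i).1 (w j).1 ≤ ε then (1 : ℝ≥0∞) else 0)) :=
        gcE_mono f₀ ε fun m w _ => hle m w
    _ = ∑ i : Fin k, gcE f₀ ε (fun m w => ∑ j : Fin m,
          (if dist (V i).1 (w j).1 ≤ ε then (1 : ℝ≥0∞) else 0)) := by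
        refine gcE_finset_sum hf ε Finset.univ (fun i _ n => ?_)
        exact Finset.measurable_sum _ fun j _ => (hmg i).comp (measurable_pi_apply j)
    _ ≤ ∑ i : Fin k, activity ε * ballMass f₀ ε (V i).1 :=
        Finset.sum_le_sum fun i _ => gcE_sum_le hf h1 ε _ (hmg i)

/-- Lower bound: dropping the exclusion indicator costs at most the exclusion correction. -/
theorem gcE_le_perp_add {f₀ : PhasePoint → ℝ} (hf : Measurable f₀)
    (h1 : ∫⁻ z, ENNReal.ofReal (f₀ z) ≤ 1) (ε : ℝ) {k : ℕ} (V : Config k)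
    {F : (n : ℕ) → Config n → ℝ≥0∞} (hF : ∀ n, Measurable (F n)) (C : ℝ≥0∞) (hC : C ≠ ∞)
    (hFC : ∀ n, ∀ Z ∈ PairExcluded ε n, F n Z ≤ C) :
    gcE f₀ ε F ≤ gcE f₀ ε (fun m w => perpInd ε V w * F m w) +
      C * ∑ i : Fin k, activity ε * ballMass f₀ ε (V i).1 := by
  have hm : ∀ m, Measurable (fun w : Config m => perpInd ε V w * F m w) := fun m =>
    (measurable_perpInd_right ε m V).mul (hF m)
  calc gcE f₀ ε F ≤ gcE f₀ ε (fun m w => perpInd ε V w * F m w + C * (1 - perpInd ε V w)) := by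
        refine gcE_mono f₀ ε fun m w hw => ?_
        unfold perpInd
        split_ifs with hp
        · simp
        · simpa using hFC m w hw
    _ = gcE f₀ ε (fun m w => perpInd ε V w * F m w) +
          gcE f₀ ε (fun m w => C * (1 - perpInd ε V w)) := gcE_add hf ε hm
    _ ≤ _ := by
        refine add_le_add le_rfl ?_
        rw [gcE_const_mul f₀ ε hC]
        exact mul_le_mul_right (one_sub_perp hf h1 ε V) _

/-! ## The position density -/

theorem exists_lattice_near (x : Space3) : ∃ k : Fin 3 → ℤ, dist x (latticePoint k) ≤ 1 := by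
  refine ⟨fun i => round (x i), ?_⟩
  rw [EuclideanSpace.dist_eq]
  refine Real.sqrt_le_one.2 ?_
  have h : ∀ i : Fin 3, dist (x i) ((latticePoint (fun i => round (x i))) i) ^ 2 ≤ 1 / 4 := by
    intro i
    have h1 : |x i - round (x i)| ≤ 1 / 2 := abs_sub_round (x i)
    have h2 : (latticePoint (fun i => round (x i))) i = (round (x i) : ℝ) := rfl
    rw [h2, Real.dist_eq, sq_abs]
    nlinarith [abs_le.1 h1, abs_nonneg (x i - round (x i))]
  rw [Fin.sum_univ_three]
  linarith [h 0, h 1, h 2]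

/-- A uniform Gaussian bound from the summable one. -/
theorem exists_gaussian_bound {γ : ℝ} {F : Type*} [NormedAddCommGroup F]
    {h : Space3 → Space3 → F} (hb : HasSummableGaussianBound γ h) :
    ∃ C : ℝ, 0 ≤ C ∧ ∀ x v, ‖h x v‖ ≤ C * Real.exp (-(γ * ‖v‖ ^ 2)) := by
  obtain ⟨M, hM, hb⟩ := hb
  have hnn : ∀ k, 0 ≤ M k := by
    intro k
    refine le_trans ?_ (hb k (latticePoint k) 0 (by simp))
    positivity
  refine ⟨∑' k, M k, tsum_nonneg hnn, fun x v => ?_⟩
  obtain ⟨k, hk⟩ := exists_lattice_near x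
  have h1 := hb k x v hk
  have h2 : M k ≤ ∑' k, M k := hM.le_tsum k (fun j _ => hnn j)
  have h3 : Real.exp (γ * ‖v‖ ^ 2) * ‖h x v‖ ≤ ∑' k, M k := h1.trans h2
  rw [Real.exp_neg]
  have hpos := Real.exp_pos (γ * ‖v‖ ^ 2)
  rw [← div_eq_mul_inv, le_div_iff₀ hpos]
  linarith [mul_comm (Real.exp (γ * ‖v‖ ^ 2)) ‖h x v‖]

theorem lintegral_gaussian_lt_top {γ : ℝ} (hγ : 0 < γ) :
    ∫⁻ v : Space3, ENNReal.ofReal (Real.exp (-(γ * ‖v‖ ^ 2))) < ∞ := by
  have h := GaussianFourier.integrable_cexp_neg_mul_sq_norm_add (V := Space3)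
    (b := (γ : ℂ)) (by simpa using hγ) 0 0
  have h2 := h.norm
  have h3 : ∀ v : Space3, ‖Complex.exp (-(γ : ℂ) * ‖v‖ ^ 2 + 0 * inner ℝ (0 : Space3) v)‖ =
      Real.exp (-(γ * ‖v‖ ^ 2)) := by
    intro v
    rw [Complex.norm_exp]
    congr 1
    simp [← Complex.ofReal_pow]
  simp_rw [h3] at h2
  have h4 := h2.lintegral_lt_top
  exact h4

/-- Uniform bound of the position density. -/
theorem exists_position_density_bound {β : ℝ} (hβ : 0 < β) {f₀ : PhasePoint → ℝ}
    (hb : HasSummableGaussianBound (2 * β) (fun x v => f₀ (x, v))) :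
    ∃ R : ℝ≥0∞, R ≠ ∞ ∧ ∀ x : Space3, ∫⁻ v : Space3, ENNReal.ofReal (f₀ (x, v)) ≤ R := by
  obtain ⟨C, hC, h⟩ := exists_gaussian_bound hb
  refine ⟨ENNReal.ofReal C * ∫⁻ v : Space3, ENNReal.ofReal (Real.exp (-(2 * β * ‖v‖ ^ 2))),
    ENNReal.mul_ne_top ENNReal.ofReal_ne_top (lintegral_gaussian_lt_top (by positivity)).ne,
    fun x => ?_⟩
  rw [← lintegral_const_mul' _ _ ENNReal.ofReal_ne_top]
  refine lintegral_mono fun v => ?_
  rw [← ENNReal.ofReal_mul hC]
  exact ENNReal.ofReal_le_ofReal ((le_abs_self _).trans (h x v))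

theorem ballMass_le {f₀ : PhasePoint → ℝ} (hf : Measurable f₀) {R : ℝ≥0∞}
    (hR : ∀ x : Space3, ∫⁻ v : Space3, ENNReal.ofReal (f₀ (x, v)) ≤ R) (ε : ℝ) (x : Space3) :
    ballMass f₀ ε x ≤ R * volume (Metric.closedBall x ε) := by
  unfold ballMass
  have hm : Measurable (fun z : PhasePoint => ENNReal.ofReal (f₀ z) *
      (if dist x z.1 ≤ ε then (1 : ℝ≥0∞) else 0)) := by
    refine hf.ennreal_ofReal.mul (Measurable.ite ?_ measurable_const measurable_const)
    exact measurableSet_le (measurable_const.dist measurable_fst) measurable_const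
  calc ∫⁻ z, ENNReal.ofReal (f₀ z) * (if dist x z.1 ≤ ε then 1 else 0)
      = ∫⁻ y : Space3, ∫⁻ v : Space3, ENNReal.ofReal (f₀ (y, v)) *
          (if dist x y ≤ ε then 1 else 0) := by
        change ∫⁻ z, _ ∂((volume : Measure Space3).prod (volume : Measure Space3)) = _
        exact lintegral_prod _ hm.aemeasurable
    _ ≤ ∫⁻ y : Space3, (Metric.closedBall x ε).indicator (fun _ => R) y := by
        refine lintegral_mono fun y => ?_
        by_cases hy : dist x y ≤ ε
        · have : y ∈ Metric.closedBall x ε := by rwa [Metric.mem_closedBall, dist_comm]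
          simp only [hy, if_true, mul_one, Set.indicator_of_mem this]
          exact hR y
        · simp [hy]
    _ = R * volume (Metric.closedBall x ε) := by
        rw [lintegral_indicator Metric.isClosed_closedBall.measurableSet, lintegral_const,
          Measure.restrict_apply_univ]

/-- `a · ballMass ≤ C ε`. -/
theorem activity_mul_ballMass_le {f₀ : PhasePoint → ℝ} (hf : Measurable f₀) {R : ℝ≥0∞}
    (hR : ∀ x : Space3, ∫⁻ v : Space3, ENNReal.ofReal (f₀ (x, v)) ≤ R) {ε : ℝ} (hε : 0 < ε)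
    (x : Space3) :
    activity ε * ballMass f₀ ε x ≤ R * ENNReal.ofReal (4 / 3 * Real.pi * ε) := by
  have hv : volume (Metric.closedBall x ε) = ENNReal.ofReal (4 / 3 * Real.pi * ε ^ 3) := by
    rw [EuclideanSpace.volume_closedBall_fin_three x ε]
    rw [← ENNReal.ofReal_pow hε.le, ← ENNReal.ofReal_mul (by positivity)]
    congr 1
    ring
  calc activity ε * ballMass f₀ ε x ≤ activity ε * (R * volume (Metric.closedBall x ε)) :=
        mul_le_mul_right (ballMass_le hf hR ε x) _
    _ = R * (activity ε * ENNReal.ofReal (4 / 3 * Real.pi * ε ^ 3)) := by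
        rw [hv]; ring
    _ = R * ENNReal.ofReal (4 / 3 * Real.pi * ε) := by
        congr 1
        unfold activity
        rw [← ENNReal.ofReal_mul (by positivity)]
        congr 1
        field_simp

end Crest.Agent.R122.GC311
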