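import Crest.Agent.R122.Energy3_410
import Crest.Agent.R122.EDefs_602

/-!
# Gas-level energy facts in the names of `EDefs_602` (row 122, item H16, part 1)

* `mem_bad_iff` : `q` is infected at time `s` iff `iTime ≤ s`.
* `wt_le_preC`, `wq_le` : the weight of the past of `q` before its infection.
* `flux_le_W` : (3.4) for a given configuration; `flux_gcE_le` : (3.4).
* `Jeng_te_le` : growth of the energy of the infected set in the window, unweighted on `X ≤ M`.
-/

set_option autoImplicit false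
set_option linter.unusedSectionVars false

open MeasureTheory Set Filter Topology
open scoped ENNReal
open Crest.AnalysisR.Kinetic
open Crest.Agent.R122.Flow671 Crest.Agent.R122.Loc45 Crest.Agent.R122.Causal291
open Crest.Agent.R122.Inf879 Crest.Agent.R122.GC311 Crest.Agent.R122.Master566
open Crest.Agent.R122.Energy410 Crest.Agent.R122.EDefs602 Crest.Agent.R122.EW370

namespace Crest.Agent.R122.Unw410

noncomputable section

variable {Φ : Space3 → ℝ} {f₀ : PhasePoint → ℝ} {ε : ℝ} {K : ℕ}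

/-! ## The infected set and the infection times -/

theorem isClosed_gasSize (hΦ : AdmissiblePotential Φ) (hε : 0 < ε) {n : ℕ} (w : Config n)
    (q : Fin n) : IsClosed {s | K < gasSize Φ ε n w s q} := by
  have h1 := isClosed_infd (m := fun _ : Fin n => 1) (K := K)
    (fun j k => isClosed_ct_pth hΦ hε w j k) q
  have h2 : {t | Infd (Ct (pth Φ ε w) ε) (fun _ => 1) K t q} = {s | K < gasSize Φ ε n w s q} := by
    ext s
    change K < msize _ _ _ _ ↔ K < gasSize Φ ε n w s q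
    rw [msize_one]
    rfl
  rw [← h2]
  exact h1

/-- `q` is infected at time `s` iff its infection time is at most `s`. -/
theorem mem_bad_iff (hΦ : AdmissiblePotential Φ) (hε : 0 < ε) {n : ℕ} (w : Config n) {T s : ℝ}
    (hs : 0 ≤ s) (hsT : s < T + 1) (q : Fin n) :
    q ∈ bad Φ ε K w s ↔ iTime Φ ε K T w q ≤ s := by
  have hm : q ∈ bad Φ ε K w s ↔ K < gasSize Φ ε n w s q := by
    simp only [bad, Finset.mem_filter, Finset.mem_univ, true_and]
    rfl
  rw [hm]
  constructor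
  · intro h
    exact utime_le_of_mem hs h
  · intro h
    have hcl : IsClosed (({u | K < gasSize Φ ε n w u q} ∩ Ici 0) ∪ Ici (T + 1)) :=
      ((isClosed_gasSize hΦ hε w q).inter isClosed_Ici).union isClosed_Ici
    have hne : (({u | K < gasSize Φ ε n w u q} ∩ Ici 0) ∪ Ici (T + 1)).Nonempty :=
      ⟨T + 1, Or.inr (mem_Ici.2 le_rfl)⟩
    have hmem := hcl.csInf_mem hne bddBelow_utime
    have hle : sInf (({u | K < gasSize Φ ε n w u q} ∩ Ici 0) ∪ Ici (T + 1)) ≤ s := h
    rcases hmem with h1 | h1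
    · exact lt_of_lt_of_le h1.1 (gasSize_mono n w q hle)
    · exact absurd (hle.trans_lt hsT) (not_lt.2 h1)

theorem iTime_nonneg {n : ℕ} (w : Config n) {T : ℝ} (hT : 0 ≤ T) (q : Fin n) :
    0 ≤ iTime Φ ε K T w q := sig_nonneg (by linarith)

theorem self_mem_preC {n : ℕ} (w : Config n) (σ : ℝ) (q : Fin n) : q ∈ preC Φ ε w σ q := by
  classical
  simp [preC]

theorem BC_subset_preC {n : ℕ} (w : Config n) {s σ : ℝ} (hs : 0 ≤ s) (h : s < σ) (q : Fin n) :
    BC (Ct (fun t => flow Φ ε t w) ε) s q ⊆ ((preC Φ ε w σ q : Finset (Fin n)) : Set (Fin n)) := by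
  classical
  intro k hk
  simp only [preC, Finset.coe_filter, Finset.mem_univ, true_and, mem_ofPred_eq]
  exact Or.inr ⟨s, hs, h, hk⟩

/-- The real weight of the past of `q` before its infection. -/
def wq (Φ : Space3 → ℝ) (ε : ℝ) (K : ℕ) (T : ℝ) {n : ℕ} (w : Config n) (q : Fin n) : ℝ :=
  ∑ b ∈ preC Φ ε w (iTime Φ ε K T w q) q, ((1 / 2) * ‖(w b).2‖ ^ 2 + stabB Φ)

theorem wq_nonneg (T : ℝ) {n : ℕ} (w : Config n) (q : Fin n) : 0 ≤ wq Φ ε K T w q :=
  Finset.sum_nonneg fun b _ => by have := stabB_nonneg Φ; positivity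

/-- Before its infection, the past of `q` has weight at most `wq`. -/
theorem wt_le_wq {T : ℝ} {n : ℕ} (w : Config n) {s : ℝ} (hs : 0 ≤ s) {q : Fin n}
    (h : s < iTime Φ ε K T w q) :
    Wt (stabB Φ) w (BC (Ct (fun t => flow Φ ε t w) ε) s q) ≤ wq Φ ε K T w q := by
  unfold wq
  rw [← Wt_coe]
  exact Wt_mono (stabB_nonneg Φ) w (BC_subset_preC w hs h q)

/-- The constant `2 B + 2`. -/
def cB (Φ : Space3 → ℝ) : ℝ := 2 * stabB Φ + 2

theorem cB_pos (Φ : Space3 → ℝ) : 0 < cB Φ := by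
  have := stabB_nonneg Φ
  unfold cB
  linarith

theorem ofReal_wq_le {T : ℝ} {n : ℕ} (w : Config n) (q : Fin n) :
    ENNReal.ofReal (wq Φ ε K T w q + (stabB Φ + 3 / 2)) ≤
      ENNReal.ofReal (cB Φ) * eW w (preC Φ ε w (iTime Φ ε K T w q) q) := by
  have hB := stabB_nonneg Φ
  unfold eW
  rw [← ENNReal.ofReal_sum_of_nonneg fun b _ => by positivity,
    ← ENNReal.ofReal_mul (cB_pos Φ).le]
  refine ENNReal.ofReal_le_ofReal ?_
  set D := preC Φ ε w (iTime Φ ε K T w q) q with hD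
  have h1 : (1 : ℝ) ≤ ∑ b ∈ D, (1 + ‖(w b).2‖ ^ 2) := by
    have h2 := Finset.single_le_sum (f := fun b => 1 + ‖(w b).2‖ ^ 2)
      (fun b _ => by positivity) (self_mem_preC (Φ := Φ) (ε := ε) w (iTime Φ ε K T w q) q)
    nlinarith [sq_nonneg ‖(w q).2‖]
  have h2 : wq Φ ε K T w q ≤ (stabB Φ + 1 / 2) * ∑ b ∈ D, (1 + ‖(w b).2‖ ^ 2) := by
    unfold wq
    rw [Finset.mul_sum]
    refine Finset.sum_le_sum fun b _ => ?_
    nlinarith [sq_nonneg ‖(w b).2‖, mul_nonneg hB (sq_nonneg ‖(w b).2‖)]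
  have h3 : stabB Φ + 3 / 2 ≤ (stabB Φ + 3 / 2) * ∑ b ∈ D, (1 + ‖(w b).2‖ ^ 2) :=
    le_mul_of_one_le_right (by linarith) h1
  unfold cB
  nlinarith

/-! ## Pointwise energy inequalities -/

theorem far_of_mem {n : ℕ} {w : Config n} (hw : w ∈ PairExcluded ε n) :
    ∀ i j : Fin n, i ≠ j → ε ≤ dist (w i).1 (w j).1 := fun i j h => (hw i j h).le

theorem bad_mono {n : ℕ} (w : Config n) (s s' : ℝ) (h : s ≤ s') :
    bad Φ ε K w s ⊆ bad Φ ε K w s' := by
  intro i hi
  simp only [bad, Finset.mem_filter, Finset.mem_univ, true_and] at hi ⊢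
  exact hi.trans_le (ncard_le_ncard (bc_mono w i h) (toFinite _))

theorem bad_iso {n : ℕ} (w : Config n) (s : ℝ) : ∀ i ∈ bad Φ ε K w s, ∀ j ∉ bad Φ ε K w s,
    ε < dist (flow Φ ε s w i).1 (flow Φ ε s w j).1 := fun _ hi _ hj => bad_isolated hi hj

/-- Growth of the energy of the infected set. -/
theorem Jeng_bad_le (hΦ : AdmissiblePotential Φ) (hε : 0 < ε) {n : ℕ} {w : Config n}
    (hw : w ∈ PairExcluded ε n) {tw T s : ℝ} (htw : 0 ≤ tw) (h1 : tw ≤ s) (h2 : s ≤ T) :
    Jeng Φ ε (bad Φ ε K w s) (flow Φ ε s w) ≤ Jeng Φ ε (bad Φ ε K w tw) (flow Φ ε tw w) +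
      ∑ p ∈ bad Φ ε K w s \ bad Φ ε K w tw, (wq Φ ε K T w p + (stabB Φ + 3 / 2)) := by
  refine Jeng_restart hΦ hε (far_of_mem hw) (S := fun s => bad Φ ε K w s)
    (fun s s' _ h _ => bad_mono w s s' h) (fun s _ _ => bad_iso w s) htw (T := T) ?_ h1 h2
  intro u hu huT p hp _
  refine wt_le_wq w (htw.trans hu) ?_
  by_contra hle
  exact hp ((mem_bad_iff hΦ hε w (htw.trans hu) (by linarith) p).2 (not_lt.1 hle))

theorem ofReal_Jeng_bad_le (hΦ : AdmissiblePotential Φ) (hε : 0 < ε) {n : ℕ} {w : Config n}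
    (hw : w ∈ PairExcluded ε n) {tw T s : ℝ} (htw : 0 ≤ tw) (h1 : tw ≤ s) (h2 : s ≤ T) :
    ENNReal.ofReal (Jeng Φ ε (bad Φ ε K w s) (flow Φ ε s w)) ≤
      ENNReal.ofReal (Jeng Φ ε (bad Φ ε K w tw) (flow Φ ε tw w)) +
      ENNReal.ofReal (cB Φ) * ∑ p ∈ bad Φ ε K w s \ bad Φ ε K w tw,
        eW w (preC Φ ε w (iTime Φ ε K T w p) p) := by
  refine (ENNReal.ofReal_le_ofReal (Jeng_bad_le hΦ hε hw htw h1 h2)).trans ?_
  have hB := stabB_nonneg Φ
  rw [ENNReal.ofReal_add (Jeng_nonneg hΦ hε (far_of_mem hw) htw _)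
    (Finset.sum_nonneg fun p _ => by have := wq_nonneg (Φ := Φ) (ε := ε) (K := K) T w p; linarith),
    ENNReal.ofReal_sum_of_nonneg
    (fun p _ => by have := wq_nonneg (Φ := Φ) (ε := ε) (K := K) T w p; linarith), Finset.mul_sum]
  gcongr with p _
  exact ofReal_wq_le w p

/-- The integrand of `aE` for a given configuration (without the factor `μ⁻¹`), with a general
weight. -/
def aW (Φ : Space3 → ℝ) (ε : ℝ) (K : ℕ) (P : EPar) {n : ℕ} (w : Config n)
    (V : ℝ → ℝ≥0∞) : ℝ≥0∞ :=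
  ∑ q : Fin n, if P.tw < iTime Φ ε K P.te w q ∧ iTime Φ ε K P.te w q ≤ P.te then
      eW w (preC Φ ε w (iTime Φ ε K P.te w q) q) * V (iTime Φ ε K P.te w q) else 0

theorem mem_window (hΦ : AdmissiblePotential Φ) (hε : 0 < ε) {n : ℕ} (w : Config n) {P : EPar}
    (htw : 0 ≤ P.tw) {s : ℝ} (h1 : P.tw ≤ s) (h2 : s ≤ P.te) {p : Fin n}
    (hp : p ∈ bad Φ ε K w s \ bad Φ ε K w P.tw) :
    P.tw < iTime Φ ε K P.te w p ∧ iTime Φ ε K P.te w p ≤ s := by
  rw [Finset.mem_sdiff, mem_bad_iff (T := P.te) hΦ hε w (htw.trans h1) (by linarith) p,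
    mem_bad_iff (T := P.te) hΦ hε w htw (by linarith) p, not_le] at hp
  exact ⟨hp.2, hp.1⟩

theorem sum_window_le (hΦ : AdmissiblePotential Φ) (hε : 0 < ε) {n : ℕ} (w : Config n) {P : EPar}
    (htw : 0 ≤ P.tw) {s : ℝ} (h1 : P.tw ≤ s) (h2 : s ≤ P.te) {c : ℝ≥0∞} {V : ℝ → ℝ≥0∞}
    (hV : ∀ p ∈ bad Φ ε K w s \ bad Φ ε K w P.tw, c ≤ V (iTime Φ ε K P.te w p)) :
    c * ∑ p ∈ bad Φ ε K w s \ bad Φ ε K w P.tw, eW w (preC Φ ε w (iTime Φ ε K P.te w p) p) ≤
      aW Φ ε K P w V := by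
  unfold aW
  rw [Finset.mul_sum]
  refine (Finset.sum_le_sum fun p hp => ?_).trans
    (Finset.sum_le_sum_of_subset (Finset.subset_univ _))
  have h := mem_window hΦ hε w htw h1 h2 hp
  rw [if_pos ⟨h.1, h.2.trans h2⟩, mul_comm]
  gcongr
  exact hV p hp



/-! ## Measurability -/

theorem measurable_pot (hΦ : AdmissiblePotential Φ) : Measurable Φ :=
  measurable_of_continuousOn_compl_singleton 0 fun _ hx =>
    (hΦ.contDiff_away_from_origin.contDiffAt (isOpen_ne.mem_nhds hx)).continuousAt.continuousWithinAt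

open scoped Classical in
theorem measurable_Jeng_bad (hΦ : AdmissiblePotential Φ) (hε : 0 < ε) (n : ℕ) (t : ℝ) :
    Measurable fun w : Config n => Jeng Φ ε (bad Φ ε K w t) (flow Φ ε t w) := by
  have hbad : ∀ i : Fin n, MeasurableSet {w : Config n | i ∈ bad Φ ε K w t} := by
    intro i
    have : {w : Config n | i ∈ bad Φ ε K w t} = {w : Config n | K < gasSize Φ ε n w t i} := by
      ext w
      simp only [bad, Finset.mem_filter, Finset.mem_univ, true_and, mem_ofPred_eq]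
      rfl
    rw [this]
    exact measurableSet_lt measurable_const (measurable_gasSize hΦ hε n t i)
  have hfl : ∀ i : Fin n, Measurable fun w : Config n => flow Φ ε t w i := fun i =>
    (measurable_pi_apply i).comp (measurable_flow hΦ hε t)
  have h1 : (fun w : Config n => Jeng Φ ε (bad Φ ε K w t) (flow Φ ε t w)) = fun w =>
      (1 / 2) * ∑ i : Fin n, (if i ∈ bad Φ ε K w t then ‖(flow Φ ε t w i).2‖ ^ 2 else 0) +
      (1 / 2) * (∑ i : Fin n, ∑ j : Fin n, (if i ∈ bad Φ ε K w t then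
        (if j ∈ bad Φ ε K w t then
          Φ ((1 / ε) • ((flow Φ ε t w i).1 - (flow Φ ε t w j).1)) else 0) else 0) -
        (∑ i : Fin n, if i ∈ bad Φ ε K w t then (1 : ℝ) else 0) * Φ 0) +
      (stabB Φ + 3 / 2) * ∑ i : Fin n, if i ∈ bad Φ ε K w t then (1 : ℝ) else 0 := by
    funext w
    have hc : ((bad Φ ε K w t).card : ℝ) = ∑ i : Fin n, if i ∈ bad Φ ε K w t then (1 : ℝ) else 0 := by
      rw [Finset.sum_ite_mem, Finset.univ_inter, Finset.sum_const, nsmul_eq_mul, mul_one]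
    have hs : ∀ f : Fin n → ℝ, ∑ i ∈ bad Φ ε K w t, f i =
        ∑ i : Fin n, if i ∈ bad Φ ε K w t then f i else 0 := by
      intro f
      rw [Finset.sum_ite_mem, Finset.univ_inter]
    unfold Jeng eng
    rw [hc, hs, hs]
    congr 4
    refine Finset.sum_congr rfl fun i _ => ?_
    split_ifs
    · exact hs _
    · simp
  rw [h1]
  have hΦm := measurable_pot hΦ
  refine Measurable.add (Measurable.add (Measurable.const_mul ?_ _) (Measurable.const_mul ?_ _))
    (Measurable.const_mul ?_ _)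
  · refine Finset.measurable_sum _ fun i _ => Measurable.ite (hbad i) ?_ measurable_const
    exact ((hfl i).snd.norm).pow_const 2
  · refine Measurable.sub ?_ (Measurable.mul_const ?_ _)
    · refine Finset.measurable_sum _ fun i _ => Finset.measurable_sum _ fun j _ =>
        Measurable.ite (hbad i) (Measurable.ite (hbad j) ?_ measurable_const) measurable_const
      have h2 : Measurable fun w : Config n =>
          (1 / ε) • ((flow Φ ε t w i).1 - (flow Φ ε t w j).1) :=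
        Measurable.const_smul (Measurable.sub (f := fun w : Config n => (flow Φ ε t w i).1)
          (g := fun w : Config n => (flow Φ ε t w j).1) (hfl i).fst (hfl j).fst) (1 / ε)
      exact hΦm.comp h2
    · exact Finset.measurable_sum _ fun i _ =>
        Measurable.ite (hbad i) measurable_const measurable_const
  · exact Finset.measurable_sum _ fun i _ =>
      Measurable.ite (hbad i) measurable_const measurable_const

theorem JE_eq (t : ℝ) : JE Φ f₀ ε K t = gcE f₀ ε fun n w => (activity ε)⁻¹ *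
    ENNReal.ofReal (Jeng Φ ε (bad Φ ε K (w : Config n) t) (flow Φ ε t w)) := rfl

theorem aE_eq (P : EPar) : aE Φ f₀ ε K P = gcE f₀ ε fun n w => (activity ε)⁻¹ *
    aW Φ ε K P (w : Config n) ((MW.cfg w).Wm Φ ε K P) := rfl


end

end Crest.Agent.R122.Unw410
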