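import Crest.Agent.R122.FluxW_263
import Crest.Agent.R122.GCBounds_311
import Crest.Agent.R122.NewtonLiou_671
import Crest.Agent.R122.TreeDefs_674
import Crest.Agent.R122.UnwJ_410

-- ▼ part R122/InEq2U_263
section

/-!
# Row 122, INEQUALITY 2' (E5), the untouched half (helper263)

`hitW Φ ε w S ω a b z`: the weight `ω` at the first contact, during `[a, b]`, of the free line `z`
(phase point at time `0`) with a member of the moving family `S` of the world `w` (as a supremum).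

* `exists_majorant` : `hitW ≤ θ` with `θ` measurable, `θ ≤ 1`, `∫ G θ ≤ ` the weighted flux bound.
* `adversary` : random density `D` with small excess over `C G`: `∫ D θ ≤ C ∫ G θ + excess`.
* `unentangled_world` : one world, tree coordinates.
* `unentangled` : the same for the gas: **E5, untouched half**.
-/

set_option autoImplicit false

open MeasureTheory Set Crest.AnalysisR.Kinetic
open scoped Classical ENNReal

noncomputable section

namespace Crest.Agent.R122.InEq2U263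

open Crest.Agent.R122.FluxI263 Crest.Agent.R122.GC311 Crest.Agent.R122.Tree674
open Crest.Agent.R122.Kin796 Crest.Agent.R122.Sweep815

/-- weight at the contact of the free line `z` with the family `S` of moving points `c` -/
def hitC {ι : Type*} (c : ι → ℝ → Space3) (r : ℝ) (S : ℝ → Finset ι) (ω : ℝ → ℝ≥0∞) (a b : ℝ)
    (z : PhasePoint) : ℝ≥0∞ :=
  ⨆ s ∈ Icc a b, ⨆ i ∈ S s, ⨆ (_ : dist (z.1 + s • z.2) (c i s) ≤ r), ω s

theorem le_hitC {ι : Type*} {c : ι → ℝ → Space3} {r : ℝ} {S : ℝ → Finset ι} {ω : ℝ → ℝ≥0∞}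
    {a b : ℝ} {z : PhasePoint} {s : ℝ} (hs : s ∈ Icc a b) {i : ι} (hi : i ∈ S s)
    (h : dist (z.1 + s • z.2) (c i s) ≤ r) : ω s ≤ hitC c r S ω a b z :=
  le_iSup₂_of_le s hs (le_iSup₂_of_le i hi (le_iSup_of_le h le_rfl))

theorem hitC_le {ι : Type*} {c : ι → ℝ → Space3} {r : ℝ} {S : ℝ → Finset ι} {ω : ℝ → ℝ≥0∞}
    {a b : ℝ} {z : PhasePoint} {B : ℝ≥0∞} (h : ∀ s ∈ Icc a b, ω s ≤ B) :
    hitC c r S ω a b z ≤ B :=
  iSup₂_le fun s hs => iSup₂_le fun _ _ => iSup_le fun _ => h s hs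

/-- the right-hand side of the weighted flux bound (one world) -/
def fluxR {ι : Type*} [DecidableEq ι] (S : ℝ → Finset ι) (ω : ℝ → ℝ≥0∞) (a b r : ℝ) (E0 : ℝ≥0∞)
    (e : ι → ℝ≥0∞) : ℝ≥0∞ :=
  ENNReal.ofReal (r + (b - a)) * (ω a * E0 + ∑ p ∈ S b \ S a, ω (entry a b S p) * e p)

/-- the constant of the flux bound -/
def fluxC (G : Space3 → ℝ≥0∞) (r : ℝ) : ℝ≥0∞ :=
  8 * ENNReal.ofReal r ^ 2 * c3 * (∫⁻ v, G v * (1 + ENNReal.ofReal ‖v‖))

/-- **Measurable majorant of the contact weight.** -/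
theorem exists_majorant {ι : Type*} [DecidableEq ι] {a b r : ℝ} (hr : 0 < r) (hab : a ≤ b)
    {c c' : ι → ℝ → Space3}
    (hc : ∀ i, ∀ s ∈ Icc a b, HasDerivAt (c i) (c' i s) s)
    (hcc : ∀ i, ContinuousOn (c' i) (Icc a b))
    (hcm : ∀ i, Measurable (c i)) (hcm' : ∀ i, Measurable (c' i))
    {S : ℝ → Finset ι} (hmono : ∀ s ∈ Icc a b, ∀ s' ∈ Icc a b, s ≤ s' → S s ⊆ S s')
    {G : Space3 → ℝ≥0∞} (hG : Measurable G) (hG0 : ∀ v, G v ≠ 0) (hGt : ∀ v, G v ≠ ∞)
    {ω : ℝ → ℝ≥0∞} (hω : AntitoneOn ω (Icc a b)) (hωm : Measurable ω) (hω1 : ∀ s, ω s ≤ 1)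
    {E0 : ℝ≥0∞} {e : ι → ℝ≥0∞}
    (hq : ∀ u ∈ Icc a b, ∑ i ∈ S u, (1 + ENNReal.ofReal ‖c' i u‖) ≤ E0 + ∑ p ∈ S u \ S a, e p)
    (he : ∀ p, 1 ≤ e p) (hE0 : ((S a).card : ℝ≥0∞) ≤ E0) :
    ∃ θ : PhasePoint → ℝ≥0∞, Measurable θ ∧ (∀ z, θ z ≤ 1) ∧ (∀ z, hitC c r S ω a b z ≤ θ z) ∧
      ∫⁻ z, G z.2 * θ z ≤ fluxC G r * fluxR S ω a b r E0 e := by
  obtain ⟨g, hg, hle, hint⟩ := fluxW_exists (s0 := 0) hr hab hc hcc hcm hcm' hmono hG hω hωm
    (fun s => ne_top_of_le_ne_top ENNReal.one_ne_top (hω1 s)) hq he hE0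
  have hg2 : Measurable fun z : PhasePoint => G z.2 := hG.comp measurable_snd
  refine ⟨fun z => min 1 (g z / G z.2), measurable_const.min (hg.div hg2),
    fun z => min_le_left _ _, fun z => le_min (hitC_le fun s _ => hω1 s) ?_, ?_⟩
  · rw [ENNReal.le_div_iff_mul_le (Or.inl (hG0 z.2)) (Or.inl (hGt z.2)), mul_comm]
    refine le_trans (le_of_eq ?_) (hle z)
    simp only [sub_zero]
    rfl
  · refine le_trans (lintegral_mono fun z => ?_) hint
    calc G z.2 * min 1 (g z / G z.2) ≤ G z.2 * (g z / G z.2) := by gcongr; exact min_le_right _ _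
      _ ≤ g z := ENNReal.mul_div_le

/-- **Adversary form**: a density `D` with excess over `C G`. -/
theorem adversary {G : Space3 → ℝ≥0∞} (hG : Measurable G) {D θ : PhasePoint → ℝ≥0∞}
    (hθ : Measurable θ) (hθ1 : ∀ z, θ z ≤ 1) (C : ℝ≥0∞) :
    ∫⁻ z, D z * θ z ≤ C * (∫⁻ z, G z.2 * θ z) + ∫⁻ z, (D z - C * G z.2) := by
  have hG2 : Measurable fun z : PhasePoint => G z.2 * θ z := (hG.comp measurable_snd).mul hθ
  rw [← lintegral_const_mul C hG2, ← lintegral_add_left (hG2.const_mul C)]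
  refine lintegral_mono fun z => ?_
  calc D z * θ z ≤ (C * G z.2 + (D z - C * G z.2)) * θ z := by
        gcongr; exact le_add_tsub
    _ = C * (G z.2 * θ z) + (D z - C * G z.2) * θ z := by ring
    _ ≤ C * (G z.2 * θ z) + (D z - C * G z.2) :=
        add_le_add le_rfl (mul_le_of_le_one_right bot_le (hθ1 z))

/-- **One world, tree coordinates.**  `A P (z, p)` = density of the trees `(P, z, p)` (weights and
indicators included). -/
theorem unentangled_world {ι : Type*} [DecidableEq ι] {a b r : ℝ} (hr : 0 < r) (hab : a ≤ b)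
    {c c' : ι → ℝ → Space3}
    (hc : ∀ i, ∀ s ∈ Icc a b, HasDerivAt (c i) (c' i s) s)
    (hcc : ∀ i, ContinuousOn (c' i) (Icc a b))
    (hcm : ∀ i, Measurable (c i)) (hcm' : ∀ i, Measurable (c' i))
    {S : ℝ → Finset ι} (hmono : ∀ s ∈ Icc a b, ∀ s' ∈ Icc a b, s ≤ s' → S s ⊆ S s')
    {G : Space3 → ℝ≥0∞} (hG : Measurable G) (hG0 : ∀ v, G v ≠ 0) (hGt : ∀ v, G v ≠ ∞)
    {ω : ℝ → ℝ≥0∞} (hω : AntitoneOn ω (Icc a b)) (hωm : Measurable ω) (hω1 : ∀ s, ω s ≤ 1)
    {E0 : ℝ≥0∞} {e : ι → ℝ≥0∞}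
    (hq : ∀ u ∈ Icc a b, ∑ i ∈ S u, (1 + ENNReal.ofReal ‖c' i u‖) ≤ E0 + ∑ p ∈ S u \ S a, e p)
    (he : ∀ p, 1 ≤ e p) (hE0 : ((S a).card : ℝ≥0∞) ≤ E0)
    {α : Type*} [Countable α] {X : α → Type*} [∀ P, MeasureSpace (X P)]
    [∀ P, SFinite (volume : Measure (X P))]
    {A : (P : α) → PhasePoint × X P → ℝ≥0∞} (hA : ∀ P, Measurable (A P)) (C : ℝ≥0∞) :
    ∑' P, ∫⁻ q : PhasePoint × X P, A P q * hitC c r S ω a b q.1 ≤
      C * (fluxC G r * fluxR S ω a b r E0 e) +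
        ∫⁻ z, ((∑' P, ∫⁻ p : X P, A P (z, p)) - C * G z.2) := by
  obtain ⟨θ, hθ, hθ1, hle, hint⟩ := exists_majorant hr hab hc hcc hcm hcm' hmono hG hG0 hGt hω hωm
    hω1 hq he hE0
  have h1 : ∑' P, ∫⁻ q : PhasePoint × X P, A P q * hitC c r S ω a b q.1 ≤
      ∑' P, ∫⁻ q : PhasePoint × X P, A P q * θ q.1 :=
    ENNReal.tsum_le_tsum fun P => lintegral_mono fun q => mul_le_mul_right (hle q.1) _
  refine h1.trans ?_
  have h2 : ∀ P, ∫⁻ q : PhasePoint × X P, A P q * θ q.1 =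
      ∫⁻ z : PhasePoint, (∫⁻ p : X P, A P (z, p)) * θ z := by
    intro P
    have hm : Measurable fun q : PhasePoint × X P => A P q * θ q.1 :=
      (hA P).mul (hθ.comp measurable_fst)
    change ∫⁻ q, A P q * θ q.1 ∂((volume : Measure PhasePoint).prod (volume : Measure (X P))) = _
    rw [lintegral_prod _ hm.aemeasurable]
    refine lintegral_congr fun z => ?_
    have hz : Measurable fun p : X P => A P (z, p) := (hA P).comp measurable_prodMk_left
    exact lintegral_mul_const (θ z) hz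
  have hmD : ∀ P, Measurable fun z : PhasePoint => ∫⁻ p : X P, A P (z, p) := fun P =>
    (hA P).lintegral_prod_right'
  simp_rw [h2]
  rw [← lintegral_tsum (f := fun P z => (∫⁻ p : X P, A P (z, p)) * θ z)
    fun P => ((hmD P).mul hθ).aemeasurable]
  have h3 : ∀ z, ∑' P, (∫⁻ p : X P, A P (z, p)) * θ z =
      (∑' P, ∫⁻ p : X P, A P (z, p)) * θ z := fun z => ENNReal.tsum_mul_right
  simp_rw [h3]
  exact (adversary hG hθ hθ1 C).trans (add_le_add (mul_le_mul_right hint C) le_rfl)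

/-! ### The gas -/

/-- the hypotheses on the infected family of a world: monotone, energy bound, antitone weight -/
structure Fam {ι : Type*} [DecidableEq ι] (v : ι → ℝ → Space3) (a b : ℝ) (S : ℝ → Finset ι)
    (ω : ℝ → ℝ≥0∞) (E0 : ℝ≥0∞) (e : ι → ℝ≥0∞) : Prop where
  mono : ∀ s ∈ Icc a b, ∀ s' ∈ Icc a b, s ≤ s' → S s ⊆ S s'
  anti : AntitoneOn ω (Icc a b)
  meas : Measurable ω
  le_one : ∀ s, ω s ≤ 1
  energy : ∀ u ∈ Icc a b, ∑ i ∈ S u, (1 + ENNReal.ofReal ‖v i u‖) ≤ E0 + ∑ p ∈ S u \ S a, e p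
  one_le : ∀ p, 1 ≤ e p
  card_le : ((S a).card : ℝ≥0∞) ≤ E0

/-- **E5, untouched half** (gas level, tree coordinates): `A P n w q` is the density of the tree
`(P, q)` (with `1[hidden tubes unhit by w before t*]`, the leaf densities and the weight `Wt`),
`S n w` the infected family of `w`, `ω n w` the weight `e^{-L X_w}`. -/
theorem unentangled {Φ : Space3 → ℝ} (hΦ : AdmissiblePotential Φ) {ε : ℝ} (hε : 0 < ε)
    {f₀ : PhasePoint → ℝ} (hf : Measurable f₀) {a b : ℝ} (hab : a ≤ b)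
    {S : (n : ℕ) → Config n → ℝ → Finset (Fin n)} {ω : (n : ℕ) → Config n → ℝ → ℝ≥0∞}
    {E0 : (n : ℕ) → Config n → ℝ≥0∞} {e : (n : ℕ) → Config n → Fin n → ℝ≥0∞}
    (hF : ∀ n, ∀ w ∈ PairExcluded ε n,
      Fam (fun i s => (Flow671.flow Φ ε s w i).2) a b (S n w) (ω n w) (E0 n w) (e n w))
    {G : Space3 → ℝ≥0∞} (hG : Measurable G) (hG0 : ∀ v, G v ≠ 0) (hGt : ∀ v, G v ≠ ∞)
    {α : Type*} [Countable α] {X : α → Type*} [∀ P, MeasureSpace (X P)]
    [∀ P, SFinite (volume : Measure (X P))]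
    {A : (P : α) → (n : ℕ) → Config n → PhasePoint × X P → ℝ≥0∞}
    (hA : ∀ P n, Measurable fun q : Config n × (PhasePoint × X P) => A P n q.1 q.2)
    {C δ : ℝ≥0∞} (hC : C * fluxC G ε ≠ ∞)
    (hQ : gcE f₀ ε (fun n w => ∫⁻ z, ((∑' P, ∫⁻ p : X P, A P n w (z, p)) - C * G z.2)) ≤ δ) :
    gcE f₀ ε (fun n w => ∑' P, ∫⁻ q : PhasePoint × X P, A P n w q *
        hitC (fun i s => (Flow671.flow Φ ε s w i).1) ε (S n w) (ω n w) a b q.1) ≤
      C * fluxC G ε * gcE f₀ ε (fun n w => fluxR (S n w) (ω n w) a b ε (E0 n w) (e n w)) + δ := by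
  have hkey : ∀ n, ∀ w ∈ PairExcluded ε n,
      ∑' P, ∫⁻ q : PhasePoint × X P, A P n w q *
        hitC (fun i s => (Flow671.flow Φ ε s w i).1) ε (S n w) (ω n w) a b q.1 ≤
      C * fluxC G ε * fluxR (S n w) (ω n w) a b ε (E0 n w) (e n w) +
        ∫⁻ z, ((∑' P, ∫⁻ p : X P, A P n w (z, p)) - C * G z.2) := by
    intro n w hw
    have h := hF n w hw
    rw [mul_assoc]
    have hcont : Continuous fun s => Flow671.flow Φ ε s w := Flow671.flow_continuous_time hΦ hε w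
    refine unentangled_world (c' := fun i s => (Flow671.flow Φ ε s w i).2) hε hab ?_ ?_ ?_ ?_
      h.mono hG hG0 hGt h.anti h.meas h.le_one h.energy h.one_le h.card_le
      (fun P => (hA P n).comp measurable_prodMk_left) C
    · intro i s _
      exact ((hasDerivAt_pi.1 (Flow671.flow_hasDerivAt hΦ hε
        (Flow671.pairExcluded_subset_Dom hε n hw) s)) i).fst
    · intro i
      exact (continuous_snd.comp ((continuous_apply i).comp hcont)).continuousOn
    · intro i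
      exact (continuous_fst.comp ((continuous_apply i).comp hcont)).measurable
    · intro i
      exact (continuous_snd.comp ((continuous_apply i).comp hcont)).measurable
  have hmY : ∀ n, Measurable fun w : Config n =>
      ∫⁻ z, ((∑' P, ∫⁻ p : X P, A P n w (z, p)) - C * G z.2) := by
    intro n
    have h1 : ∀ P, Measurable fun q : Config n × PhasePoint => ∫⁻ p : X P, A P n q.1 (q.2, p) := by
      intro P
      have h := (hA P n).comp (MeasurableEquiv.prodAssoc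
        (α := Config n) (β := PhasePoint) (γ := X P)).measurable
      exact Measurable.lintegral_prod_right' (f := fun q : (Config n × PhasePoint) × X P =>
        A P n q.1.1 (q.1.2, q.2)) h
    have h2 : Measurable fun q : Config n × PhasePoint =>
        (∑' P, ∫⁻ p : X P, A P n q.1 (q.2, p)) - C * G q.2.2 :=
      (Measurable.tsum h1).sub ((hG.comp measurable_snd.snd).const_mul C)
    exact h2.lintegral_prod_right'
  refine (gcE_mono f₀ ε hkey).trans ?_
  have hcomm : gcE f₀ ε (fun n w => C * fluxC G ε * fluxR (S n w) (ω n w) a b ε (E0 n w) (e n w) +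
        ∫⁻ z, ((∑' P, ∫⁻ p : X P, A P n w (z, p)) - C * G z.2)) =
      gcE f₀ ε (fun n w => (∫⁻ z, ((∑' P, ∫⁻ p : X P, A P n w (z, p)) - C * G z.2)) +
        C * fluxC G ε * fluxR (S n w) (ω n w) a b ε (E0 n w) (e n w)) :=
    gcE_congr f₀ ε fun n w _ => add_comm _ _
  rw [hcomm, gcE_add hf ε hmY, gcE_const_mul f₀ ε hC, add_comm]
  exact add_le_add le_rfl hQ

theorem activity_inv {ε : ℝ} (hε : 0 < ε) : (activity ε)⁻¹ = ENNReal.ofReal ε ^ 2 := by
  unfold activity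
  rw [← ENNReal.ofReal_pow hε.le, ← ENNReal.ofReal_inv_of_pos (by positivity)]
  congr 1
  field_simp

/-- the constant of the flux bound without `r ^ 2` -/
def fluxK (G : Space3 → ℝ≥0∞) : ℝ≥0∞ :=
  8 * c3 * (∫⁻ v, G v * (1 + ENNReal.ofReal ‖v‖))

theorem fluxC_eq (G : Space3 → ℝ≥0∞) {ε : ℝ} (hε : 0 < ε) :
    fluxC G ε = fluxK G * (activity ε)⁻¹ := by
  rw [activity_inv hε]
  unfold fluxC fluxK
  ring

/-- **E5, untouched half, normalised**: with `J = ε² E[E0]` and `a = ε² E ∑ W(θ_q) e_q`. -/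
theorem unentangled_norm {Φ : Space3 → ℝ} (hΦ : AdmissiblePotential Φ) {ε : ℝ} (hε : 0 < ε)
    {f₀ : PhasePoint → ℝ} (hf : Measurable f₀) {a b : ℝ} (hab : a ≤ b)
    {S : (n : ℕ) → Config n → ℝ → Finset (Fin n)} {ω : (n : ℕ) → Config n → ℝ → ℝ≥0∞}
    {E0 : (n : ℕ) → Config n → ℝ≥0∞} {e : (n : ℕ) → Config n → Fin n → ℝ≥0∞}
    (hF : ∀ n, ∀ w ∈ PairExcluded ε n,
      Fam (fun i s => (Flow671.flow Φ ε s w i).2) a b (S n w) (ω n w) (E0 n w) (e n w))
    (hE0 : ∀ n, Measurable (E0 n))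
    {G : Space3 → ℝ≥0∞} (hG : Measurable G) (hG0 : ∀ v, G v ≠ 0) (hGt : ∀ v, G v ≠ ∞)
    {α : Type*} [Countable α] {X : α → Type*} [∀ P, MeasureSpace (X P)]
    [∀ P, SFinite (volume : Measure (X P))]
    {A : (P : α) → (n : ℕ) → Config n → PhasePoint × X P → ℝ≥0∞}
    (hA : ∀ P n, Measurable fun q : Config n × (PhasePoint × X P) => A P n q.1 q.2)
    {C δ : ℝ≥0∞} (hC : C ≠ ∞) (hK : fluxK G ≠ ∞)
    (hQ : gcE f₀ ε (fun n w => ∫⁻ z, ((∑' P, ∫⁻ p : X P, A P n w (z, p)) - C * G z.2)) ≤ δ) :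
    gcE f₀ ε (fun n w => ∑' P, ∫⁻ q : PhasePoint × X P, A P n w q *
        hitC (fun i s => (Flow671.flow Φ ε s w i).1) ε (S n w) (ω n w) a b q.1) ≤
      C * fluxK G * ENNReal.ofReal (ε + (b - a)) *
        (gcE f₀ ε (fun n w => (activity ε)⁻¹ * E0 n w) +
          gcE f₀ ε (fun n w => (activity ε)⁻¹ *
            ∑ p ∈ S n w b \ S n w a, ω n w (entry a b (S n w) p) * e n w p)) + δ := by
  have hact : (activity ε)⁻¹ ≠ ∞ := ENNReal.inv_ne_top.2 (activity_ne_zero hε)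
  have hC' : C * fluxC G ε ≠ ∞ := by
    rw [fluxC_eq G hε]
    exact ENNReal.mul_ne_top hC (ENNReal.mul_ne_top hK hact)
  refine (unentangled hΦ hε hf hab hF hG hG0 hGt hA hC' hQ).trans (add_le_add ?_ le_rfl)
  have h1 : gcE f₀ ε (fun n w => fluxR (S n w) (ω n w) a b ε (E0 n w) (e n w)) ≤
      ENNReal.ofReal (ε + (b - a)) * (gcE f₀ ε E0 + gcE f₀ ε (fun n w =>
        ∑ p ∈ S n w b \ S n w a, ω n w (entry a b (S n w) p) * e n w p)) := by
    rw [← gcE_add hf ε hE0, ← gcE_const_mul f₀ ε ENNReal.ofReal_ne_top]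
    refine gcE_mono f₀ ε fun n w hw => mul_le_mul_right (add_le_add ?_ le_rfl) _
    exact mul_le_of_le_one_left bot_le ((hF n w hw).le_one a)
  rw [gcE_const_mul f₀ ε hact, gcE_const_mul f₀ ε hact, fluxC_eq G hε]
  calc C * (fluxK G * (activity ε)⁻¹) * gcE f₀ ε (fun n w =>
        fluxR (S n w) (ω n w) a b ε (E0 n w) (e n w))
      ≤ C * (fluxK G * (activity ε)⁻¹) * (ENNReal.ofReal (ε + (b - a)) *
        (gcE f₀ ε E0 + gcE f₀ ε (fun n w =>
        ∑ p ∈ S n w b \ S n w a, ω n w (entry a b (S n w) p) * e n w p))) :=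
        mul_le_mul_right h1 _
    _ = _ := by
        show C * (fluxK G * (activity ε)⁻¹) * (ENNReal.ofReal (ε + (b - a)) *
          (gcE f₀ ε (fun n w => E0 n w) + gcE f₀ ε (fun n w =>
          ∑ p ∈ S n w b \ S n w a, ω n w (entry a b (S n w) p) * e n w p))) = _
        ring

end Crest.Agent.R122.InEq2U263

end
end

-- ▼ part R122/InEq2V_263

/-!
# Row 122, INEQUALITY 2' (E5), the untouched half in the names of `EDefs_602` (helper263)

* `fam_bad` : the infected family `bad Φ ε K w` with the weight `Wm` is a `Fam` (energy bound of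
  helper410) with `E0 = Jeng (I (t*))` and `e q = c_B · eW (preC (σ_q))`.
* `ineq2_untouched` : **E5, untouched half**: any quenched tree density with small excess over `C G`
  hits the infected set in the window with weighted mass `≤ C K_G (ε + h) (JE t* + c_B aE) + δ`.
-/

set_option autoImplicit false

open MeasureTheory Set Crest.AnalysisR.Kinetic
open scoped Classical ENNReal

noncomputable section

namespace Crest.Agent.R122.InEq2U263

open Crest.Agent.R122.FluxI263 Crest.Agent.R122.GC311 Crest.Agent.R122.EDefs602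
open Crest.Agent.R122.Energy410 Crest.Agent.R122.EW370 Crest.Agent.R122.Unw410
open Crest.Agent.R122.Loc45

variable {Φ : Space3 → ℝ} {f₀ : PhasePoint → ℝ} {ε : ℝ} {K : ℕ}

/-- weight `e q` of the energy bound -/
def eQ (Φ : Space3 → ℝ) (ε : ℝ) (K : ℕ) (P : EPar) {n : ℕ} (w : Config n) (q : Fin n) : ℝ≥0∞ :=
  ENNReal.ofReal (cB Φ) * eW w (preC Φ ε w (iTime Φ ε K P.te w q) q)

/-- energy of the infected family at the start of the window -/
def E0Q (Φ : Space3 → ℝ) (ε : ℝ) (K : ℕ) (P : EPar) {n : ℕ} (w : Config n) : ℝ≥0∞ :=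
  ENNReal.ofReal (Jeng Φ ε (bad Φ ε K w P.tw) (Flow671.flow Φ ε P.tw w))

theorem one_le_eW {n : ℕ} (w : Config n) {D : Finset (Fin n)} {q : Fin n} (hq : q ∈ D) :
    1 ≤ eW w D := by
  unfold eW
  refine le_trans ?_ (Finset.single_le_sum (f := fun b => ENNReal.ofReal (1 + ‖(w b).2‖ ^ 2))
    (fun _ _ => zero_le) hq)
  rw [← ENNReal.ofReal_one]
  exact ENNReal.ofReal_le_ofReal (by nlinarith [sq_nonneg ‖(w q).2‖])

theorem one_le_eQ (P : EPar) {n : ℕ} (w : Config n) (q : Fin n) : 1 ≤ eQ Φ ε K P w q := by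
  have h1 : (1 : ℝ≥0∞) ≤ ENNReal.ofReal (cB Φ) := by
    rw [← ENNReal.ofReal_one]
    refine ENNReal.ofReal_le_ofReal ?_
    have := stabB_nonneg Φ
    unfold cB
    linarith
  calc (1 : ℝ≥0∞) = 1 * 1 := (one_mul 1).symm
    _ ≤ _ := mul_le_mul' h1 (one_le_eW w (self_mem_preC w _ q))

theorem speed_le {n : ℕ} (hΦ : AdmissiblePotential Φ) (hε : 0 < ε) {w : Config n}
    (hw : w ∈ PairExcluded ε n) {t : ℝ} (ht : 0 ≤ t) (A : Finset (Fin n)) :
    ∑ i ∈ A, (1 + ENNReal.ofReal ‖(Flow671.flow Φ ε t w i).2‖) ≤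
      ENNReal.ofReal (Jeng Φ ε A (Flow671.flow Φ ε t w)) := by
  refine le_trans (le_of_eq ?_) (ENNReal.ofReal_le_ofReal
    (speed_le_Jeng hΦ hε (far_of_mem hw) ht A))
  rw [ENNReal.ofReal_sum_of_nonneg fun i _ => by positivity]
  refine Finset.sum_congr rfl fun i _ => ?_
  rw [ENNReal.ofReal_add zero_le_one (norm_nonneg _), ENNReal.ofReal_one]

theorem antitone_Wm {ι : Type} [Fintype ι] {P : EPar} (hL : 0 ≤ P.L) (Z : MW ι) :
    Antitone (Z.Wm Φ ε K P) := fun _ _ h =>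
  Weight984.W_anti hL (Weight984.XRm_mono h)

/-- **The infected family of a gas world is a `Fam`.** -/
theorem fam_bad (hΦ : AdmissiblePotential Φ) (hε : 0 < ε) {n : ℕ} {w : Config n}
    (hw : w ∈ PairExcluded ε n) {P : EPar} (hL : 0 ≤ P.L) (htw : 0 ≤ P.tw) :
    Fam (fun i s => (Flow671.flow Φ ε s w i).2) P.tw P.te (bad Φ ε K w)
      ((MW.cfg w).Wm Φ ε K P) (E0Q Φ ε K P w) (eQ Φ ε K P w) where
  mono s _ s' _ h := bad_mono w s s' h
  anti := (antitone_Wm hL _).antitoneOn _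
  meas := (antitone_Wm hL _).measurable
  le_one s := Weight984.W_le_one hL _
  energy u hu := by
    refine (speed_le hΦ hε hw (htw.trans hu.1) _).trans ?_
    refine (ofReal_Jeng_bad_le (K := K) hΦ hε hw htw hu.1 hu.2).trans (le_of_eq ?_)
    unfold E0Q eQ
    rw [Finset.mul_sum]
  one_le q := one_le_eQ P w q
  card_le := by
    refine le_trans ?_ (speed_le hΦ hε hw htw (bad Φ ε K w P.tw))
    calc ((bad Φ ε K w P.tw).card : ℝ≥0∞) = ∑ _i ∈ bad Φ ε K w P.tw, (1 : ℝ≥0∞) := by simp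
      _ ≤ _ := Finset.sum_le_sum fun i _ => le_self_add

/-- The entry time into the infected family is the infection time. -/
theorem entry_bad (hΦ : AdmissiblePotential Φ) (hε : 0 < ε) {n : ℕ} (w : Config n) {P : EPar}
    (htw : 0 ≤ P.tw) (hte : P.tw ≤ P.te) {q : Fin n}
    (hq : q ∈ bad Φ ε K w P.te \ bad Φ ε K w P.tw) :
    entry P.tw P.te (bad Φ ε K w) q = iTime Φ ε K P.te w q := by
  have h := mem_window (K := K) hΦ hε w htw hte le_rfl hq
  have hset : {s | s ∈ Icc P.tw P.te ∧ q ∈ bad Φ ε K w s} =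
      Icc (iTime Φ ε K P.te w q) P.te := by
    ext s
    constructor
    · rintro ⟨hs, hqs⟩
      exact ⟨(mem_bad_iff (T := P.te) hΦ hε w (htw.trans hs.1)
        (hs.2.trans_lt (by linarith)) q).1 hqs, hs.2⟩
    · rintro ⟨h1, h2⟩
      have hs : P.tw ≤ s := h.1.le.trans h1
      exact ⟨⟨hs, h2⟩, (mem_bad_iff (T := P.te) hΦ hε w (htw.trans hs)
        (h2.trans_lt (by linarith)) q).2 h1⟩
  unfold entry
  rw [hset, csInf_Icc h.2]

/-- The infection sum of `Fam` is `c_B` times the integrand of `aE`. -/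
theorem sum_entry_le (hΦ : AdmissiblePotential Φ) (hε : 0 < ε) {n : ℕ} (w : Config n) {P : EPar}
    (htw : 0 ≤ P.tw) (hte : P.tw ≤ P.te) :
    ∑ p ∈ bad Φ ε K w P.te \ bad Φ ε K w P.tw,
        (MW.cfg w).Wm Φ ε K P (entry P.tw P.te (bad Φ ε K w) p) * eQ Φ ε K P w p ≤
      ENNReal.ofReal (cB Φ) * ∑ q : Fin n,
        if P.tw < iTime Φ ε K P.te w q ∧ iTime Φ ε K P.te w q ≤ P.te then
          eW w (preC Φ ε w (iTime Φ ε K P.te w q) q) *
            (MW.cfg w).Wm Φ ε K P (iTime Φ ε K P.te w q)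
        else 0 := by
  rw [Finset.mul_sum]
  refine (Finset.sum_le_sum fun p hp => ?_).trans
    (Finset.sum_le_sum_of_subset (Finset.subset_univ _))
  have h := mem_window (K := K) hΦ hε w htw hte le_rfl hp
  rw [entry_bad hΦ hε w htw hte hp, if_pos h]
  unfold eQ
  exact le_of_eq (by ring)

theorem measurable_E0Q (hΦ : AdmissiblePotential Φ) (hε : 0 < ε) (P : EPar) (n : ℕ) :
    Measurable fun w : Config n => E0Q Φ ε K P w :=
  (measurable_Jeng_bad hΦ hε n P.tw).ennreal_ofReal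

/-- **E5, untouched half, in the names of `EDefs_602`.** -/
theorem ineq2_untouched (hΦ : AdmissiblePotential Φ) (hε : 0 < ε) (hf : Measurable f₀) {P : EPar}
    (hL : 0 ≤ P.L) (htw : 0 ≤ P.tw) (hte : P.tw ≤ P.te)
    {G : Space3 → ℝ≥0∞} (hG : Measurable G) (hG0 : ∀ v, G v ≠ 0) (hGt : ∀ v, G v ≠ ∞)
    {α : Type*} [Countable α] {X : α → Type*} [∀ j, MeasureSpace (X j)]
    [∀ j, SFinite (volume : Measure (X j))]
    {A : (j : α) → (n : ℕ) → Config n → PhasePoint × X j → ℝ≥0∞}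
    (hA : ∀ j n, Measurable fun q : Config n × (PhasePoint × X j) => A j n q.1 q.2)
    {C δ : ℝ≥0∞} (hC : C ≠ ∞) (hK : fluxK G ≠ ∞)
    (hQ : gcE f₀ ε (fun n w => ∫⁻ z, ((∑' j, ∫⁻ p : X j, A j n w (z, p)) - C * G z.2)) ≤ δ) :
    gcE f₀ ε (fun n w => ∑' j, ∫⁻ q : PhasePoint × X j, A j n w q *
        hitC (fun i s => (Flow671.flow Φ ε s w i).1) ε (bad Φ ε K w)
          ((MW.cfg w).Wm Φ ε K P) P.tw P.te q.1) ≤
      C * fluxK G * ENNReal.ofReal (ε + (P.te - P.tw)) *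
        (JE Φ f₀ ε K P.tw + ENNReal.ofReal (cB Φ) * aE Φ f₀ ε K P) + δ := by
  refine (unentangled_norm (S := fun n w => bad Φ ε K w)
    (ω := fun n w => (MW.cfg w).Wm Φ ε K P) (E0 := fun n w => E0Q Φ ε K P w)
    (e := fun n w => eQ Φ ε K P w) hΦ hε hf hte
    (fun n w hw => fam_bad hΦ hε hw hL htw) (fun n => measurable_E0Q hΦ hε P n)
    hG hG0 hGt hA hC hK hQ).trans (add_le_add (mul_le_mul_right (add_le_add le_rfl ?_) _) le_rfl)
  unfold aE
  rw [← gcE_const_mul f₀ ε ENNReal.ofReal_ne_top]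
  refine gcE_mono f₀ ε fun n w _ => ?_
  refine (mul_le_mul_right (sum_entry_le hΦ hε w htw hte) _).trans (le_of_eq ?_)
  ring

end Crest.Agent.R122.InEq2U263

end
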