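import Crest.Agent.R122.CausalNewton_291

/-!
# Causal-past calculus (row 122, block F4): measurability

`d ω s j k` is the distance of `j` and `k` at time `s`; only continuity in `s` for fixed `ω` and
measurability in `ω` for fixed `s` are used.
-/

set_option autoImplicit false

open Set Filter Topology MeasureTheory
open Crest.AnalysisR.Kinetic
open Crest.Agent.R122.Flow671 Crest.Agent.R122.Loc45

namespace Crest.Agent.R122.Causal291

section general

variable {Ω : Type*} [MeasurableSpace Ω]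

/-- Events "somewhere in a random compact interval a continuous process is at most `ε`" are
measurable. -/
theorem measurableSet_exists_Icc {α β : Ω → ℝ} (hα : Measurable α) (hβ : Measurable β)
    {g : Ω → ℝ → ℝ} (hgc : ∀ ω, Continuous (g ω)) (hgm : ∀ s, Measurable fun ω => g ω s) (ε : ℝ) :
    MeasurableSet {ω | ∃ s ∈ Icc (α ω) (β ω), g ω s ≤ ε} := by
  have key : {ω | ∃ s ∈ Icc (α ω) (β ω), g ω s ≤ ε} =
      {ω | α ω ≤ β ω} ∩ ⋂ n : ℕ, ⋃ q : ℚ, {ω | α ω - 1 / ((n : ℝ) + 1) ≤ q ∧
        (q : ℝ) ≤ β ω + 1 / ((n : ℝ) + 1) ∧ g ω q < ε + 1 / ((n : ℝ) + 1)} := by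
    ext ω
    simp only [mem_inter_iff, mem_iInter, mem_iUnion, mem_ofPred_eq]
    constructor
    · rintro ⟨s, hs, hg⟩
      refine ⟨hs.1.trans hs.2, fun n => ?_⟩
      have hn : (0 : ℝ) < 1 / ((n : ℝ) + 1) := by positivity
      have h1 : ∀ᶠ r in 𝓝 s, g ω r < ε + 1 / ((n : ℝ) + 1) :=
        (hgc ω).continuousAt.eventually (gt_mem_nhds (by linarith))
      have h2 : ∀ᶠ r in 𝓝 s, s - 1 / ((n : ℝ) + 1) < r ∧ r < s + 1 / ((n : ℝ) + 1) :=
        (lt_mem_nhds (by linarith)).and (gt_mem_nhds (by linarith))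
      obtain ⟨δ, hδ, hball⟩ := Metric.eventually_nhds_iff.1 (h1.and h2)
      obtain ⟨q, hq1, hq2⟩ := exists_rat_btwn (show s < s + δ by linarith)
      have h3 := hball (y := (q : ℝ)) (by
        rw [Real.dist_eq, abs_lt]; constructor <;> linarith)
      exact ⟨q, by linarith [hs.1, h3.2.1], by linarith [hs.2, h3.2.2], h3.1⟩
    · rintro ⟨hab, h⟩
      choose q hq1 hq2 hq3 using h
      have hbd : ∀ n, (q n : ℝ) ∈ Icc (α ω - 1) (β ω + 1) := by
        intro n
        have : 1 / ((n : ℝ) + 1) ≤ 1 := by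
          rw [div_le_one (by positivity)]; linarith [Nat.cast_nonneg (α := ℝ) n]
        exact ⟨by linarith [hq1 n], by linarith [hq2 n]⟩
      obtain ⟨s, -, φ, hφ, hlim⟩ := isCompact_Icc.tendsto_subseq hbd
      have h0 : Tendsto (fun n : ℕ => 1 / ((φ n : ℝ) + 1)) atTop (𝓝 0) :=
        (tendsto_one_div_add_atTop_nhds_zero_nat (𝕜 := ℝ)).comp hφ.tendsto_atTop
      refine ⟨s, ⟨?_, ?_⟩, ?_⟩
      · have h1 : Tendsto (fun n : ℕ => α ω - 1 / ((φ n : ℝ) + 1)) atTop (𝓝 (α ω)) := by
          simpa using (tendsto_const_nhds (x := α ω)).sub h0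
        exact le_of_tendsto_of_tendsto' h1 hlim fun n => hq1 (φ n)
      · have h1 : Tendsto (fun n : ℕ => β ω + 1 / ((φ n : ℝ) + 1)) atTop (𝓝 (β ω)) := by
          simpa using (tendsto_const_nhds (x := β ω)).add h0
        exact le_of_tendsto_of_tendsto' hlim h1 fun n => hq2 (φ n)
      · have h1 : Tendsto (fun n : ℕ => ε + 1 / ((φ n : ℝ) + 1)) atTop (𝓝 ε) := by
          simpa using (tendsto_const_nhds (x := ε)).add h0
        have h2 : Tendsto (fun n => g ω (q (φ n))) atTop (𝓝 (g ω s)) :=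
          ((hgc ω).tendsto s).comp hlim
        exact le_of_tendsto_of_tendsto' h2 h1 fun n => (hq3 (φ n)).le
  rw [key]
  refine (measurableSet_le hα hβ).inter (MeasurableSet.iInter fun n => MeasurableSet.iUnion fun q =>
    ?_)
  exact (measurableSet_le (hα.sub_const _) measurable_const).inter
    ((measurableSet_le measurable_const (hβ.add_const _)).inter
      (measurableSet_lt (hgm q) measurable_const))

/-- Half-open version. -/
theorem measurableSet_exists_Ioc {α β : Ω → ℝ} (hα : Measurable α) (hβ : Measurable β)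
    {g : Ω → ℝ → ℝ} (hgc : ∀ ω, Continuous (g ω)) (hgm : ∀ s, Measurable fun ω => g ω s) (ε : ℝ) :
    MeasurableSet {ω | ∃ s ∈ Ioc (α ω) (β ω), g ω s ≤ ε} := by
  have key : {ω | ∃ s ∈ Ioc (α ω) (β ω), g ω s ≤ ε} =
      ⋃ n : ℕ, {ω | ∃ s ∈ Icc (α ω + 1 / ((n : ℝ) + 1)) (β ω), g ω s ≤ ε} := by
    ext ω
    simp only [mem_iUnion, mem_ofPred_eq]
    constructor
    · rintro ⟨s, hs, hg⟩
      obtain ⟨n, hn⟩ := exists_nat_one_div_lt (sub_pos.2 hs.1)
      exact ⟨n, s, ⟨by linarith, hs.2⟩, hg⟩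
    · rintro ⟨n, s, hs, hg⟩
      have hn : (0 : ℝ) < 1 / ((n : ℝ) + 1) := by positivity
      exact ⟨s, ⟨by linarith [hs.1], hs.2⟩, hg⟩
  rw [key]
  exact MeasurableSet.iUnion fun n => measurableSet_exists_Icc (hα.add_const _) hβ hgc hgm ε

end general

section past

variable {Ω : Type*} [MeasurableSpace Ω] {ι : Type*} [Finite ι]
variable {d : Ω → ℝ → ι → ι → ℝ} {ε : ℝ}

/-- The lower closure of a closed set of reals which is bounded above is closed. -/
theorem isClosed_lowerClosure_real {S : Set ℝ} (hS : IsClosed S) (hb : BddAbove S) :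
    IsClosed {s : ℝ | ∃ s' ∈ S, s ≤ s'} := by
  rcases S.eq_empty_or_nonempty with h | h
  · subst h
    simp
  · have : {s : ℝ | ∃ s' ∈ S, s ≤ s'} = Iic (sSup S) := by
      ext s
      constructor
      · rintro ⟨s', hs', h'⟩
        exact h'.trans (le_csSup hb hs')
      · intro hs
        exact ⟨sSup S, hS.csSup_mem h hb, hs⟩
    rw [this]
    exact isClosed_Iic

theorem isClosed_pastN {C : ℝ → ι → ι → Prop} (hC : ∀ j k, IsClosed {s | C s j k}) (t : ℝ) (i : ι)
    (m : ℕ) (k : ι) : IsClosed {s | PastN C t i m s k} := by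
  induction m generalizing k with
  | zero =>
    by_cases hk : k = i
    · have : {s : ℝ | PastN C t i 0 s k} = Iic t := by
        ext s; exact ⟨fun h => h.2, fun h => ⟨hk, h⟩⟩
      rw [this]; exact isClosed_Iic
    · have : {s : ℝ | PastN C t i 0 s k} = ∅ := by
        ext s; exact ⟨fun h => hk h.1, fun h => h.elim⟩
      rw [this]; exact isClosed_empty
  | succ m ih =>
    have : {s : ℝ | PastN C t i (m + 1) s k} = {s | PastN C t i m s k} ∪
        ⋃ j, {s : ℝ | ∃ s' ∈ {s' | PastN C t i m s' j} ∩ {s' | C s' j k}, s ≤ s'} := by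
      ext s
      simp only [mem_union, mem_iUnion, mem_ofPred_eq, mem_inter_iff]
      constructor
      · rintro (h | ⟨s', j, h1, h2, h3⟩)
        · exact Or.inl h
        · exact Or.inr ⟨j, s', ⟨h2, h3⟩, h1⟩
      · rintro (h | ⟨j, s', ⟨h2, h3⟩, h1⟩)
        · exact Or.inl h
        · exact Or.inr ⟨s', j, h1, h2, h3⟩
    rw [this]
    refine (ih k).union (isClosed_iUnion_of_finite fun j => ?_)
    exact isClosed_lowerClosure_real ((ih j).inter (hC j k))
      ⟨t, fun s hs => (hs.1 : PastN C t i m s j).past.le⟩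

/-- Measurability of the exploration, at a fixed time `a`, jointly in the root time and `ω`. -/
theorem measurableSet_pastN (hdc : ∀ ω j k, Continuous fun s => d ω s j k)
    (hdm : ∀ s j k, Measurable fun ω => d ω s j k) (i : ι) (m : ℕ) (a : ℝ) (k : ι) :
    MeasurableSet {p : ℝ × Ω | PastN (fun s j k => d p.2 s j k ≤ ε) p.1 i m a k} := by
  have hC : ∀ ω j k, IsClosed {s | d ω s j k ≤ ε} := fun ω j k =>
    isClosed_le (hdc ω j k) continuous_const
  induction m generalizing a k with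
  | zero =>
    by_cases hk : k = i
    · have : {p : ℝ × Ω | PastN (fun s j k => d p.2 s j k ≤ ε) p.1 i 0 a k} =
          {p : ℝ × Ω | a ≤ p.1} := by
        ext p; exact ⟨fun h => h.2, fun h => ⟨hk, h⟩⟩
      rw [this]
      exact measurableSet_le measurable_const measurable_fst
    · have : {p : ℝ × Ω | PastN (fun s j k => d p.2 s j k ≤ ε) p.1 i 0 a k} = ∅ := by
        ext p; exact ⟨fun h => hk h.1, fun h => h.elim⟩
      rw [this]; exact MeasurableSet.empty
  | succ m ih =>
    have key : {p : ℝ × Ω | PastN (fun s j k => d p.2 s j k ≤ ε) p.1 i (m + 1) a k} =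
        {p : ℝ × Ω | PastN (fun s j k => d p.2 s j k ≤ ε) p.1 i m a k} ∪
        ⋃ j, ⋂ n : ℕ, ⋃ q : ℚ, ({p : ℝ × Ω | a - 1 / ((n : ℝ) + 1) ≤ (q : ℝ)} ∩
          ({p : ℝ × Ω | PastN (fun s j k => d p.2 s j k ≤ ε) p.1 i m q j} ∩
            {p : ℝ × Ω | d p.2 q j k < ε + 1 / ((n : ℝ) + 1)})) := by
      ext ⟨t, ω⟩
      simp only [mem_union, mem_iUnion, mem_iInter, mem_ofPred_eq, mem_inter_iff]
      constructor
      · rintro (h | ⟨s', j, h1, h2, h3⟩)
        · exact Or.inl h
        · refine Or.inr ⟨j, fun n => ?_⟩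
          have hn : (0 : ℝ) < 1 / ((n : ℝ) + 1) := by positivity
          have e1 : ∀ᶠ r in 𝓝 s', d ω r j k < ε + 1 / ((n : ℝ) + 1) :=
            (hdc ω j k).continuousAt.eventually (gt_mem_nhds (by
              have : d ω s' j k ≤ ε := h3
              linarith))
          have e2 : ∀ᶠ r in 𝓝 s', s' - 1 / ((n : ℝ) + 1) < r := lt_mem_nhds (by linarith)
          obtain ⟨δ, hδ, hball⟩ := Metric.eventually_nhds_iff.1 (e1.and e2)
          obtain ⟨q, hq1, hq2⟩ := exists_rat_btwn (show s' - δ < s' by linarith)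
          have h4 := hball (y := (q : ℝ)) (by
            rw [Real.dist_eq, abs_lt]; constructor <;> linarith)
          exact ⟨q, by linarith [h4.2], h2.mono hq2.le, h4.1⟩
      · rintro (h | ⟨j, h⟩)
        · exact Or.inl h
        · choose q hq1 hq2 hq3 using h
          have hbd : ∀ n, (q n : ℝ) ∈ Icc (a - 1) t := by
            intro n
            have : 1 / ((n : ℝ) + 1) ≤ 1 := by
              rw [div_le_one (by positivity)]; linarith [Nat.cast_nonneg (α := ℝ) n]
            exact ⟨by linarith [hq1 n], (hq2 n).past.le⟩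
          obtain ⟨s, -, φ, hφ, hlim⟩ := isCompact_Icc.tendsto_subseq hbd
          have h0 : Tendsto (fun n : ℕ => 1 / ((φ n : ℝ) + 1)) atTop (𝓝 0) :=
            (tendsto_one_div_add_atTop_nhds_zero_nat (𝕜 := ℝ)).comp hφ.tendsto_atTop
          refine Or.inr ⟨s, j, ?_, ?_, ?_⟩
          · have h1 : Tendsto (fun n : ℕ => a - 1 / ((φ n : ℝ) + 1)) atTop (𝓝 a) := by
              simpa using (tendsto_const_nhds (x := a)).sub h0
            exact le_of_tendsto_of_tendsto' h1 hlim fun n => hq1 (φ n)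
          · exact (isClosed_pastN (hC ω) t i m j).mem_of_tendsto hlim
              (Eventually.of_forall fun n => hq2 (φ n))
          · have h1 : Tendsto (fun n : ℕ => ε + 1 / ((φ n : ℝ) + 1)) atTop (𝓝 ε) := by
              simpa using (tendsto_const_nhds (x := ε)).add h0
            have h2 : Tendsto (fun n => d ω (q (φ n)) j k) atTop (𝓝 (d ω s j k)) :=
              ((hdc ω j k).tendsto s).comp hlim
            exact le_of_tendsto_of_tendsto' h2 h1 fun n => (hq3 (φ n)).le
    rw [key]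
    refine (ih a k).union (MeasurableSet.iUnion fun j => MeasurableSet.iInter fun n =>
      MeasurableSet.iUnion fun q => (MeasurableSet.const _).inter ((ih q j).inter ?_))
    exact measurableSet_lt ((hdm q j k).comp measurable_snd) measurable_const

theorem measurableSet_past (hdc : ∀ ω j k, Continuous fun s => d ω s j k)
    (hdm : ∀ s j k, Measurable fun ω => d ω s j k) (i : ι) (a : ℝ) (k : ι) :
    MeasurableSet {p : ℝ × Ω | Past (fun s j k => d p.2 s j k ≤ ε) p.1 i a k} := by
  have : {p : ℝ × Ω | Past (fun s j k => d p.2 s j k ≤ ε) p.1 i a k} =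
      ⋃ m, {p : ℝ × Ω | PastN (fun s j k => d p.2 s j k ≤ ε) p.1 i m a k} := by
    ext p
    simp only [mem_iUnion, mem_ofPred_eq]
    exact past_iff_exists_pastN
  rw [this]
  exact MeasurableSet.iUnion fun m => measurableSet_pastN hdc hdm i m a k

/-- Joint measurability in (root time, observation time, `ω`). -/
theorem measurableSet_past_joint (hdc : ∀ ω j k, Continuous fun s => d ω s j k)
    (hdm : ∀ s j k, Measurable fun ω => d ω s j k) (i : ι) (k : ι) :
    MeasurableSet {p : ℝ × ℝ × Ω | Past (fun s j k => d p.2.2 s j k ≤ ε) p.1 i p.2.1 k} := by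
  have hC : ∀ ω j k, IsClosed {s | d ω s j k ≤ ε} := fun ω j k =>
    isClosed_le (hdc ω j k) continuous_const
  have key : {p : ℝ × ℝ × Ω | Past (fun s j k => d p.2.2 s j k ≤ ε) p.1 i p.2.1 k} =
      ⋂ n : ℕ, ⋃ q : ℚ, ({p : ℝ × ℝ × Ω | p.2.1 - 1 / ((n : ℝ) + 1) ≤ q} ∩
        {p : ℝ × ℝ × Ω | Past (fun s j k => d p.2.2 s j k ≤ ε) p.1 i q k}) := by
    ext ⟨t, a, ω⟩
    simp only [mem_iUnion, mem_iInter, mem_ofPred_eq, mem_inter_iff]
    constructor
    · intro h n
      have hn : (0 : ℝ) < 1 / ((n : ℝ) + 1) := by positivity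
      obtain ⟨q, hq1, hq2⟩ := exists_rat_btwn (show a - 1 / ((n : ℝ) + 1) < a by linarith)
      exact ⟨q, hq1.le, h.mono hq2.le⟩
    · intro h
      choose q hq1 hq2 using h
      by_contra hno
      -- all `q n` are less than `a`
      have hlt : ∀ n, (q n : ℝ) < a := by
        intro n
        by_contra hle
        push Not at hle
        exact hno ((hq2 n).mono hle)
      have h0 : Tendsto (fun n : ℕ => 1 / ((n : ℝ) + 1)) atTop (𝓝 0) :=
        tendsto_one_div_add_atTop_nhds_zero_nat (𝕜 := ℝ)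
      have h1 : Tendsto (fun n : ℕ => a - 1 / ((n : ℝ) + 1)) atTop (𝓝 a) := by
        simpa using (tendsto_const_nhds (x := a)).sub h0
      have h2 : Tendsto (fun n => (q n : ℝ)) atTop (𝓝 a) :=
        tendsto_of_tendsto_of_tendsto_of_le_of_le h1 tendsto_const_nhds hq1 fun n => (hlt n).le
      exact hno ((isClosed_past (hC ω) (t := t) (i := i) k).mem_of_tendsto h2
        (Eventually.of_forall hq2))
  rw [key]
  refine MeasurableSet.iInter fun n => MeasurableSet.iUnion fun q => MeasurableSet.inter ?_ ?_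
  · exact measurableSet_le ((measurable_fst.comp measurable_snd).sub_const _) measurable_const
  · exact (measurable_fst.prodMk (measurable_snd.comp measurable_snd))
      (measurableSet_past hdc hdm i q k)

/-- The last activity time is a measurable function of the root time and `ω`. -/
theorem measurable_tau (hdc : ∀ ω j k, Continuous fun s => d ω s j k)
    (hdm : ∀ s j k, Measurable fun ω => d ω s j k) (i : ι) (k : ι) :
    Measurable fun p : ℝ × Ω => tau (fun s j k => d p.2 s j k ≤ ε) p.1 i k := by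
  have hC : ∀ ω j k, IsClosed {s | d ω s j k ≤ ε} := fun ω j k =>
    isClosed_le (hdc ω j k) continuous_const
  refine measurable_of_Ici fun a => ?_
  have key : (fun p : ℝ × Ω => tau (fun s j k => d p.2 s j k ≤ ε) p.1 i k) ⁻¹' Ici a =
      ((⋃ n : ℕ, {p : ℝ × Ω | Past (fun s j k => d p.2 s j k ≤ ε) p.1 i (-(n : ℝ)) k}) ∩
        {p : ℝ × Ω | Past (fun s j k => d p.2 s j k ≤ ε) p.1 i a k}) ∪
      ((⋃ n : ℕ, {p : ℝ × Ω | Past (fun s j k => d p.2 s j k ≤ ε) p.1 i (-(n : ℝ)) k})ᶜ ∩
        {_p : ℝ × Ω | a ≤ 0}) := by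
    ext ⟨t, ω⟩
    simp only [mem_preimage, mem_Ici, mem_union, mem_inter_iff, mem_iUnion, mem_compl_iff,
      mem_ofPred_eq]
    by_cases hex : ∃ s, Past (fun s j k => d ω s j k ≤ ε) t i s k
    · obtain ⟨s, hs⟩ := hex
      have h1 : ∃ n : ℕ, Past (fun s j k => d ω s j k ≤ ε) t i (-(n : ℝ)) k := by
        obtain ⟨n, hn⟩ := exists_nat_ge (-s)
        exact ⟨n, hs.mono (by linarith)⟩
      have h2 := past_iff_le_tau (hC ω) (s := a) hs
      constructor
      · intro h
        exact Or.inl ⟨h1, h2.2 h⟩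
      · rintro (h | h)
        · exact h2.1 h.2
        · exact absurd h1 h.1
    · have h1 : ¬ ∃ n : ℕ, Past (fun s j k => d ω s j k ≤ ε) t i (-(n : ℝ)) k :=
        fun ⟨n, hn⟩ => hex ⟨_, hn⟩
      have h2 : tau (fun s j k => d ω s j k ≤ ε) t i k = 0 := by
        have : {s | Past (fun s j k => d ω s j k ≤ ε) t i s k} = ∅ := by
          ext s; exact ⟨fun h => hex ⟨s, h⟩, fun h => h.elim⟩
        rw [tau, this, Real.sSup_empty]
      rw [h2]
      constructor
      · intro h; exact Or.inr ⟨h1, h⟩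
      · rintro (h | h)
        · exact absurd h.1 h1
        · exact h.2
  rw [key]
  have hN : MeasurableSet (⋃ n : ℕ,
      {p : ℝ × Ω | Past (fun s j k => d p.2 s j k ≤ ε) p.1 i (-(n : ℝ)) k}) :=
    MeasurableSet.iUnion fun n => measurableSet_past hdc hdm i _ k
  exact (hN.inter (measurableSet_past hdc hdm i a k)).union (hN.compl.inter (MeasurableSet.const _))

/-- Equality of the active set with a given set is a measurable event. -/
theorem measurableSet_Act_eq (hdc : ∀ ω j k, Continuous fun s => d ω s j k)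
    (hdm : ∀ s j k, Measurable fun ω => d ω s j k) (i : ι) (a : ℝ) (S : Set ι) :
    MeasurableSet {p : ℝ × Ω | Act (fun s j k => d p.2 s j k ≤ ε) p.1 i a = S} := by
  have : {p : ℝ × Ω | Act (fun s j k => d p.2 s j k ≤ ε) p.1 i a = S} =
      ⋂ k, {p : ℝ × Ω | Past (fun s j k => d p.2 s j k ≤ ε) p.1 i a k ↔ k ∈ S} := by
    ext p
    simp only [mem_iInter, mem_ofPred_eq, Set.ext_iff, mem_Act]
  rw [this]
  refine MeasurableSet.iInter fun k => ?_
  by_cases hk : k ∈ S
  · simp only [hk, iff_true]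
    exact measurableSet_past hdc hdm i a k
  · simp only [hk, iff_false]
    exact (measurableSet_past hdc hdm i a k).compl

/-- Touch events: at some time in a measurable random interval, `k` is active, `j` is not active and
a continuous process is at most `ε'`. -/
theorem measurableSet_touch (hdc : ∀ ω j k, Continuous fun s => d ω s j k)
    (hdm : ∀ s j k, Measurable fun ω => d ω s j k) (i : ι) (k : ι) {α β : Ω → ℝ}
    (hα : Measurable α) (hβ : Measurable β)
    {g : Ω → ℝ → ℝ} (hgc : ∀ ω, Continuous (g ω)) (hgm : ∀ s, Measurable fun ω => g ω s)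
    (ε' : ℝ) :
    MeasurableSet {p : ℝ × Ω | ∃ s ∈ Icc (α p.2) (β p.2),
      Past (fun s j k => d p.2 s j k ≤ ε) p.1 i s k ∧ g p.2 s ≤ ε'} := by
  have hC : ∀ ω j k, IsClosed {s | d ω s j k ≤ ε} := fun ω j k =>
    isClosed_le (hdc ω j k) continuous_const
  have key : {p : ℝ × Ω | ∃ s ∈ Icc (α p.2) (β p.2),
      Past (fun s j k => d p.2 s j k ≤ ε) p.1 i s k ∧ g p.2 s ≤ ε'} =
      (⋃ n : ℕ, {p : ℝ × Ω | Past (fun s j k => d p.2 s j k ≤ ε) p.1 i (-(n : ℝ)) k}) ∩
      {p : ℝ × Ω | ∃ s ∈ Icc (α p.2)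
        (min (β p.2) (tau (fun s j k => d p.2 s j k ≤ ε) p.1 i k)), g p.2 s ≤ ε'} := by
    ext ⟨t, ω⟩
    simp only [mem_inter_iff, mem_iUnion, mem_ofPred_eq]
    constructor
    · rintro ⟨s, hs, hp, hg⟩
      obtain ⟨n, hn⟩ := exists_nat_ge (-s)
      exact ⟨⟨n, hp.mono (by linarith)⟩, s, ⟨hs.1, le_min hs.2 (le_tau hp)⟩, hg⟩
    · rintro ⟨⟨n, hn⟩, s, hs, hg⟩
      exact ⟨s, ⟨hs.1, hs.2.trans (min_le_left _ _)⟩,
        (past_iff_le_tau (hC ω) hn).2 (hs.2.trans (min_le_right _ _)), hg⟩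
  rw [key]
  refine (MeasurableSet.iUnion fun n => measurableSet_past hdc hdm i _ k).inter ?_
  exact measurableSet_exists_Icc (hα.comp measurable_snd)
    ((hβ.comp measurable_snd).min (measurable_tau hdc hdm i k)) (fun p => hgc p.2)
    (fun s => (hgm s).comp measurable_snd) ε'


end past

/-! ### The Newton flow -/

section flow

variable {Φ : Space3 → ℝ} {ε : ℝ} {ι : Type*} [Fintype ι]

theorem measurable_pth (hΦ : AdmissiblePotential Φ) (hε : 0 < ε) (s : ℝ) (j : ι) :
    Measurable fun Z : ι → PhasePoint => pth Φ ε Z s j :=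
  (measurable_pi_apply j).comp (measurable_flow hΦ hε s)

theorem measurable_pth_joint (hΦ : AdmissiblePotential Φ) (hε : 0 < ε) (j : ι) :
    Measurable fun p : ℝ × (ι → PhasePoint) => pth Φ ε p.2 p.1 j :=
  (measurable_pi_apply j).comp (measurable_flow_joint hΦ hε)

theorem continuous_dist_pth (hΦ : AdmissiblePotential Φ) (hε : 0 < ε) (Z : ι → PhasePoint)
    (j k : ι) : Continuous fun s => dist (pth Φ ε Z s j).1 (pth Φ ε Z s k).1 :=
  (continuous_pth hΦ hε Z j).fst.dist (continuous_pth hΦ hε Z k).fst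

theorem measurable_dist_pth (hΦ : AdmissiblePotential Φ) (hε : 0 < ε) (s : ℝ) (j k : ι) :
    Measurable fun Z : ι → PhasePoint => dist (pth Φ ε Z s j).1 (pth Φ ε Z s k).1 :=
  (measurable_pth hΦ hε s j).fst.dist (measurable_pth hΦ hε s k).fst


theorem measurableSet_mem_BC_pth (hΦ : AdmissiblePotential Φ) (hε : 0 < ε) (i k : ι) :
    MeasurableSet {p : ℝ × (ι → PhasePoint) | k ∈ BC (Ct (pth Φ ε p.2) ε) p.1 i} :=
  measurableSet_past (d := fun Z s j k => dist (pth Φ ε Z s j).1 (pth Φ ε Z s k).1)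
    (continuous_dist_pth hΦ hε) (measurable_dist_pth hΦ hε) i 0 k

theorem measurableSet_BC_eq_pth (hΦ : AdmissiblePotential Φ) (hε : 0 < ε) (i : ι) (S : Set ι) :
    MeasurableSet {p : ℝ × (ι → PhasePoint) | BC (Ct (pth Φ ε p.2) ε) p.1 i = S} :=
  measurableSet_Act_eq (d := fun Z s j k => dist (pth Φ ε Z s j).1 (pth Φ ε Z s k).1)
    (continuous_dist_pth hΦ hε) (measurable_dist_pth hΦ hε) i 0 S


/-- The size of the backward cluster is measurable. -/
theorem measurable_ncard_BC_pth (hΦ : AdmissiblePotential Φ) (hε : 0 < ε) (i : ι) :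
    Measurable fun p : ℝ × (ι → PhasePoint) => (BC (Ct (pth Φ ε p.2) ε) p.1 i).ncard := by
  classical
  refine measurable_to_countable' fun n => ?_
  have : (fun p : ℝ × (ι → PhasePoint) => (BC (Ct (pth Φ ε p.2) ε) p.1 i).ncard) ⁻¹' {n} =
      ⋃ S ∈ {S : Set ι | S.ncard = n}, {p : ℝ × (ι → PhasePoint) |
        BC (Ct (pth Φ ε p.2) ε) p.1 i = S} := by
    ext p
    simp only [mem_preimage, mem_singleton_iff, mem_iUnion, mem_ofPred_eq, exists_prop]
    exact ⟨fun h => ⟨_, h, rfl⟩, fun ⟨S, hS, h⟩ => by rw [h]; exact hS⟩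
  rw [this]
  exact MeasurableSet.biUnion (Set.to_countable _) fun S _ => measurableSet_BC_eq_pth hΦ hε i S

end flow

end Crest.Agent.R122.Causal291
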