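import Crest.Agent.R122.CausalDyn_291
import Crest.Agent.R122.NewtonFlow_671
import Crest.Agent.R122.Loc_45

/-!
# Causal-past calculus (row 122, block F4): local uniqueness for Newtonian worlds

* `LocUniq2`: uniqueness for a group whose neighbours are either in the group or have equal paths in
  both worlds.
* `locUniq2_of_solOn`, `locUniq_of_solOn`, `locUniq_flow`, ...: Newtonian worlds satisfy it.
-/

set_option autoImplicit false

open Set Filter Topology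
open Crest.AnalysisR.Kinetic
open Crest.Agent.R122.Flow671 Crest.Agent.R122.Loc45

namespace Crest.Agent.R122.Causal291

/-- Local uniqueness with shared neighbours: on `[a, b]` every particle outside the group (embedded
by `e₁`, `e₂`) and outside the set of shared neighbours (embedded by `f₁`, `f₂`, with equal paths in
both worlds) keeps distance at least `ε` from the group, in both worlds; equal states of the group
at time `a` imply equal states on `[a, b]`. -/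
def LocUniq2 {ι₁ ι₂ : Type*} (ε T : ℝ) (z₁ : ℝ → ι₁ → PhasePoint) (z₂ : ℝ → ι₂ → PhasePoint) :
    Prop :=
  ∀ (κ υ : Type) [Finite κ] [Finite υ] (e₁ : κ → ι₁) (e₂ : κ → ι₂) (f₁ : υ → ι₁) (f₂ : υ → ι₂)
    (a b : ℝ), Function.Injective (Sum.elim e₁ f₁) → Function.Injective (Sum.elim e₂ f₂) →
    0 ≤ a → a ≤ b → b ≤ T →
    (∀ s ∈ Icc a b, ∀ k, ∀ j, j ∉ range e₁ → j ∉ range f₁ → ε ≤ dist (z₁ s (e₁ k)).1 (z₁ s j).1) →
    (∀ s ∈ Icc a b, ∀ k, ∀ j, j ∉ range e₂ → j ∉ range f₂ → ε ≤ dist (z₂ s (e₂ k)).1 (z₂ s j).1) →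
    (∀ s ∈ Icc a b, ∀ u, z₁ s (f₁ u) = z₂ s (f₂ u)) →
    (∀ k, z₁ a (e₁ k) = z₂ a (e₂ k)) → ∀ s ∈ Icc a b, ∀ k, z₁ s (e₁ k) = z₂ s (e₂ k)

theorem LocUniq2.locUniq {ι₁ ι₂ : Type*} {ε T : ℝ} {z₁ : ℝ → ι₁ → PhasePoint}
    {z₂ : ℝ → ι₂ → PhasePoint} (h : LocUniq2 ε T z₁ z₂) : LocUniq ε T z₁ z₂ := by
  intro κ _ e₁ e₂ a b he₁ he₂ ha hab hb h1 h2 h0
  have hi₁ : Function.Injective (Sum.elim e₁ (fun x : PEmpty => x.elim)) := by
    rintro (x | x) (y | y) hxy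
    · exact congrArg Sum.inl (he₁ hxy)
    all_goals first | exact x.elim | exact y.elim
  have hi₂ : Function.Injective (Sum.elim e₂ (fun x : PEmpty => x.elim)) := by
    rintro (x | x) (y | y) hxy
    · exact congrArg Sum.inl (he₂ hxy)
    all_goals first | exact x.elim | exact y.elim
  exact h κ PEmpty e₁ e₂ (fun x => x.elim) (fun x => x.elim) a b hi₁ hi₂ ha hab hb
    (fun s hs k j hj _ => h1 s hs k j hj) (fun s hs k j hj _ => h2 s hs k j hj)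
    (fun _ _ u => u.elim) h0

theorem LocUniq2.symm {ι₁ ι₂ : Type*} {ε T : ℝ} {z₁ : ℝ → ι₁ → PhasePoint}
    {z₂ : ℝ → ι₂ → PhasePoint} (h : LocUniq2 ε T z₁ z₂) : LocUniq2 ε T z₂ z₁ := by
  intro κ υ _ _ e₁ e₂ f₁ f₂ a b he₁ he₂ ha hab hb h1 h2 h3 h0 s hs k
  exact (h κ υ e₂ e₁ f₂ f₁ a b he₂ he₁ ha hab hb h2 h1 (fun s hs u => (h3 s hs u).symm)
    (fun k => (h0 k).symm) s hs k).symm

section newton

variable {Φ : Space3 → ℝ} {ε : ℝ}

/-- Force on a group together with shared neighbours. -/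
theorem nf_elim_apply {ι : Type*} [Fintype ι] (hΦ : AdmissiblePotential Φ) (hε : 0 < ε)
    {κ υ : Type*} [Fintype κ] [Fintype υ] (e : κ → ι) (f : υ → ι)
    (hi : Function.Injective (Sum.elim e f)) (Z : ι → PhasePoint) (k : κ)
    (hfar : ∀ j, j ∉ range e → j ∉ range f → ε ≤ dist (Z (e k)).1 (Z j).1) :
    nf Φ ε (Sum.elim (fun k => Z (e k)) (fun u => Z (f u))) (Sum.inl k) = nf Φ ε Z (e k) := by
  have h := nf_comp_apply hΦ hε ⟨Sum.elim e f, hi⟩ Z (Sum.inl k) (by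
    intro j hj
    refine hfar j ?_ ?_
    · rintro ⟨l, rfl⟩; exact hj ⟨Sum.inl l, rfl⟩
    · rintro ⟨l, rfl⟩; exact hj ⟨Sum.inr l, rfl⟩)
  have h2 : (fun x : κ ⊕ υ => Z ((⟨Sum.elim e f, hi⟩ : κ ⊕ υ ↪ ι) x)) =
      Sum.elim (fun k => Z (e k)) (fun u => Z (f u)) := by
    funext x
    rcases x with x | x <;> rfl
  rw [h2] at h
  exact h

theorem dom_comp {ι κ : Type*} {Z : ι → PhasePoint} (hZ : Z ∈ Dom Φ ι) {e : κ → ι}
    (he : Function.Injective e) : (fun k => Z (e k)) ∈ Dom Φ κ := by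
  rcases hZ with h | h
  · exact Or.inl h
  · exact Or.inr fun i j hij => h _ _ fun h' => hij (he h')

/-- Newtonian worlds satisfy local uniqueness with shared neighbours. -/
theorem locUniq2_of_solOn {ι₁ ι₂ : Type*} [Fintype ι₁] [Fintype ι₂] (hΦ : AdmissiblePotential Φ)
    (hε : 0 < ε) {T : ℝ} {z₁ : ℝ → ι₁ → PhasePoint} {z₂ : ℝ → ι₂ → PhasePoint}
    (h₁ : SolOn Φ ε z₁ (Icc 0 T)) (h₂ : SolOn Φ ε z₂ (Icc 0 T))
    (hd₁ : ∀ s ∈ Icc 0 T, z₁ s ∈ Dom Φ ι₁) (hd₂ : ∀ s ∈ Icc 0 T, z₂ s ∈ Dom Φ ι₂) :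
    LocUniq2 ε T z₁ z₂ := by
  intro κ υ _ _ e₁ e₂ f₁ f₂ a b he₁ he₂ ha hab hb hf₁ hf₂ hu h0 s hs k
  have := Fintype.ofFinite κ
  have := Fintype.ofFinite υ
  have hsub : Icc a b ⊆ Icc 0 T := Icc_subset_Icc ha hb
  -- the two curves of the group
  set γ₁ : ℝ → κ → PhasePoint := fun s k => z₁ s (e₁ k) with hγ₁
  set γ₂ : ℝ → κ → PhasePoint := fun s k => z₂ s (e₂ k) with hγ₂
  set u : ℝ → υ → PhasePoint := fun s x => z₁ s (f₁ x) with hudef
  have c₁ : ContinuousOn z₁ (Icc a b) := h₁.continuousOn.mono hsub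
  have c₂ : ContinuousOn z₂ (Icc a b) := h₂.continuousOn.mono hsub
  have cγ₁ : ContinuousOn γ₁ (Icc a b) := continuousOn_pi.2 fun k => continuousOn_pi.1 c₁ (e₁ k)
  have cγ₂ : ContinuousOn γ₂ (Icc a b) := continuousOn_pi.2 fun k => continuousOn_pi.1 c₂ (e₂ k)
  have cu : ContinuousOn u (Icc a b) := continuousOn_pi.2 fun k => continuousOn_pi.1 c₁ (f₁ k)
  -- the time dependent field
  let v : ℝ → (κ → PhasePoint) → κ → PhasePoint :=
    fun s Z k => nf Φ ε (Sum.elim Z (u s)) (Sum.inl k)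
  have hcomb₁ : ContinuousOn (fun s => (Sum.elim (γ₁ s) (u s) : κ ⊕ υ → PhasePoint)) (Icc a b) := by
    refine continuousOn_pi.2 fun x => ?_
    rcases x with x | x
    · exact continuousOn_pi.1 cγ₁ x
    · exact continuousOn_pi.1 cu x
  have hcomb₂ : ContinuousOn (fun s => (Sum.elim (γ₂ s) (u s) : κ ⊕ υ → PhasePoint)) (Icc a b) := by
    refine continuousOn_pi.2 fun x => ?_
    rcases x with x | x
    · exact continuousOn_pi.1 cγ₂ x
    · exact continuousOn_pi.1 cu x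
  set K : Set (κ ⊕ υ → PhasePoint) := (fun s => Sum.elim (γ₁ s) (u s)) '' Icc a b ∪
    (fun s => Sum.elim (γ₂ s) (u s)) '' Icc a b with hK
  have hKc : IsCompact K := (isCompact_Icc.image_of_continuousOn hcomb₁).union
    (isCompact_Icc.image_of_continuousOn hcomb₂)
  have hKU : K ⊆ Dom Φ (κ ⊕ υ) := by
    rintro x (⟨s, hs, rfl⟩ | ⟨s, hs, rfl⟩)
    · have := dom_comp (hd₁ s (hsub hs)) he₁
      convert this using 1
      funext x
      rcases x with x | x <;> rfl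
    · have := dom_comp (hd₂ s (hsub hs)) he₂
      convert this using 1
      funext x
      rcases x with x | x
      · rfl
      · exact hu s hs x
  obtain ⟨C, hC⟩ := ((complete (ι := κ ⊕ υ) hΦ hε).lip.mono hKU).exists_lipschitzOnWith_of_compact
    hKc
  have hlip : ∀ s ∈ Ico a b, LipschitzOnWith C (v s) {γ₁ s, γ₂ s} := by
    intro s hs
    have hs' : s ∈ Icc a b := Ico_subset_Icc_self hs
    have hmem : ∀ Z ∈ ({γ₁ s, γ₂ s} : Set (κ → PhasePoint)), (Sum.elim Z (u s) : κ ⊕ υ → _) ∈ K := by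
      rintro Z (rfl | rfl)
      · exact Or.inl ⟨s, hs', rfl⟩
      · exact Or.inr ⟨s, hs', rfl⟩
    refine LipschitzOnWith.of_dist_le_mul fun Z hZ W hW => ?_
    have h1 := hC.dist_le_mul _ (hmem Z hZ) _ (hmem W hW)
    have h2 : dist (v s Z) (v s W) ≤
        dist (nf Φ ε (Sum.elim Z (u s))) (nf Φ ε (Sum.elim W (u s))) := by
      rw [dist_pi_le_iff dist_nonneg]
      intro k
      exact dist_le_pi_dist (nf Φ ε (Sum.elim Z (u s))) (nf Φ ε (Sum.elim W (u s))) (Sum.inl k)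
    have h3 : dist (Sum.elim Z (u s) : κ ⊕ υ → PhasePoint) (Sum.elim W (u s)) ≤ dist Z W := by
      rw [dist_pi_le_iff dist_nonneg]
      rintro (x | x)
      · exact dist_le_pi_dist Z W x
      · simp only [Sum.elim_inr, dist_self]; exact dist_nonneg
    exact h2.trans (h1.trans (mul_le_mul_of_nonneg_left h3 C.2))
  have hder₁ : ∀ s ∈ Ico a b, HasDerivWithinAt γ₁ (v s (γ₁ s)) (Ici s) s := by
    intro s hs
    have hs' : s ∈ Icc a b := Ico_subset_Icc_self hs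
    have h3 : HasDerivWithinAt z₁ (nf Φ ε (z₁ s)) (Ici s) s := by
      refine ((h₁ s (hsub hs')).mono hsub).mono_of_mem_nhdsWithin ?_
      exact mem_of_superset (Icc_mem_nhdsGE hs.2) (Icc_subset_Icc_left hs.1)
    rw [hasDerivWithinAt_pi]
    intro k
    have h4 := (hasDerivWithinAt_pi.1 h3) (e₁ k)
    rw [← nf_elim_apply hΦ hε e₁ f₁ he₁ (z₁ s) k (hf₁ s hs' k)] at h4
    exact h4
  have hder₂ : ∀ s ∈ Ico a b, HasDerivWithinAt γ₂ (v s (γ₂ s)) (Ici s) s := by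
    intro s hs
    have hs' : s ∈ Icc a b := Ico_subset_Icc_self hs
    have h3 : HasDerivWithinAt z₂ (nf Φ ε (z₂ s)) (Ici s) s := by
      refine ((h₂ s (hsub hs')).mono hsub).mono_of_mem_nhdsWithin ?_
      exact mem_of_superset (Icc_mem_nhdsGE hs.2) (Icc_subset_Icc_left hs.1)
    rw [hasDerivWithinAt_pi]
    intro k
    have h4 := (hasDerivWithinAt_pi.1 h3) (e₂ k)
    rw [← nf_elim_apply hΦ hε e₂ f₂ he₂ (z₂ s) k (hf₂ s hs' k)] at h4
    have h5 : (fun x => z₂ s (f₂ x)) = u s := funext fun x => (hu s hs' x).symm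
    rw [h5] at h4
    exact h4
  have key := ODE_solution_unique_of_mem_Icc_right (v := v) (s := fun s => {γ₁ s, γ₂ s}) (K := C)
    hlip cγ₁ hder₁ (fun s _ => Or.inl rfl) cγ₂ hder₂ (fun s _ => Or.inr rfl)
    (by funext k; exact h0 k) hs
  exact congrFun key k


/-- The path family of the flow. -/
noncomputable def pth {ι : Type*} [Fintype ι] (Φ : Space3 → ℝ) (ε : ℝ) (Z : ι → PhasePoint) :
    ℝ → ι → PhasePoint := fun s => flow Φ ε s Z

theorem solOn_pth {ι : Type*} [Fintype ι] (hΦ : AdmissiblePotential Φ) (hε : 0 < ε)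
    {Z : ι → PhasePoint} (hZ : Z ∈ Dom Φ ι) (S : Set ℝ) : SolOn Φ ε (pth Φ ε Z) S :=
  SolOn.of_hasDerivAt fun t => flow_hasDerivAt hΦ hε hZ t

theorem continuous_pth {ι : Type*} [Fintype ι] (hΦ : AdmissiblePotential Φ) (hε : 0 < ε)
    (Z : ι → PhasePoint) (j : ι) : Continuous fun s => pth Φ ε Z s j :=
  (continuous_apply j).comp (flow_continuous_time hΦ hε Z)

theorem locUniq2_pth {ι₁ ι₂ : Type*} [Fintype ι₁] [Fintype ι₂] (hΦ : AdmissiblePotential Φ)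
    (hε : 0 < ε) (T : ℝ) {Z₁ : ι₁ → PhasePoint} {Z₂ : ι₂ → PhasePoint} (h₁ : Z₁ ∈ Dom Φ ι₁)
    (h₂ : Z₂ ∈ Dom Φ ι₂) : LocUniq2 ε T (pth Φ ε Z₁) (pth Φ ε Z₂) :=
  locUniq2_of_solOn hΦ hε (solOn_pth hΦ hε h₁ _) (solOn_pth hΦ hε h₂ _)
    (fun s _ => flow_mem hΦ hε h₁ s) (fun s _ => flow_mem hΦ hε h₂ s)

theorem locUniq_pth {ι₁ ι₂ : Type*} [Fintype ι₁] [Fintype ι₂] (hΦ : AdmissiblePotential Φ)
    (hε : 0 < ε) (T : ℝ) {Z₁ : ι₁ → PhasePoint} {Z₂ : ι₂ → PhasePoint} (h₁ : Z₁ ∈ Dom Φ ι₁)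
    (h₂ : Z₂ ∈ Dom Φ ι₂) : LocUniq ε T (pth Φ ε Z₁) (pth Φ ε Z₂) :=
  (locUniq2_pth hΦ hε T h₁ h₂).locUniq

/-- Contact sets of continuous paths are closed. -/
theorem isClosed_ct {ι : Type*} {z : ℝ → ι → PhasePoint} (hz : ∀ j, Continuous fun s => z s j)
    (j k : ι) : IsClosed {s | Ct z ε s j k} :=
  isClosed_le ((hz j).fst.dist (hz k).fst) continuous_const

theorem isClosed_ct_pth {ι : Type*} [Fintype ι] (hΦ : AdmissiblePotential Φ) (hε : 0 < ε)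
    (Z : ι → PhasePoint) (j k : ι) : IsClosed {s | Ct (pth Φ ε Z) ε s j k} :=
  isClosed_ct (continuous_pth hΦ hε Z) j k

end newton

/-! ### Alteration times -/

section alter

variable {ι₁ ι₂ κ : Type} {z₁ : ℝ → ι₁ → PhasePoint} {z₂ : ℝ → ι₂ → PhasePoint} {e₁ : κ → ι₁}
  {e₂ : κ → ι₂} {ε T : ℝ}


/-- `θ` is the alteration time of `k`: equal states on `[0, θ]`, different states at times
arbitrarily close after `θ`. -/
structure IsAltTime (z₁ : ℝ → ι₁ → PhasePoint) (z₂ : ℝ → ι₂ → PhasePoint) (e₁ : κ → ι₁)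
    (e₂ : κ → ι₂) (θ : ℝ) (k : κ) : Prop where
  nonneg : 0 ≤ θ
  agree : ∀ s ∈ Icc 0 θ, z₁ s (e₁ k) = z₂ s (e₂ k)
  differ : ∀ δ > 0, ∃ s, θ < s ∧ s < θ + δ ∧ z₁ s (e₁ k) ≠ z₂ s (e₂ k)

theorem IsAltTime.unique {θ θ' : ℝ} {k : κ} (h : IsAltTime z₁ z₂ e₁ e₂ θ k)
    (h' : IsAltTime z₁ z₂ e₁ e₂ θ' k) : θ = θ' := by
  rcases lt_trichotomy θ θ' with h1 | h1 | h1
  · obtain ⟨s, hs1, hs2, hs3⟩ := h.differ (θ' - θ) (by linarith)
    exact absurd (h'.agree s ⟨h.nonneg.trans hs1.le, by linarith⟩) hs3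
  · exact h1
  · obtain ⟨s, hs1, hs2, hs3⟩ := h'.differ (θ - θ') (by linarith)
    exact absurd (h.agree s ⟨h'.nonneg.trans hs1.le, by linarith⟩) hs3



/-- Alteration chains: every link is a contact, in one of the two worlds, AT the alteration time of
the later particle, with a particle which is not common or with a particle whose own alteration
time is not larger. -/
inductive AltCh (z₁ : ℝ → ι₁ → PhasePoint) (z₂ : ℝ → ι₂ → PhasePoint) (e₁ : κ → ι₁)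
    (e₂ : κ → ι₂) (ε : ℝ) : ℝ → κ → Prop
  | new₁ {θ : ℝ} {k : κ} (h : IsAltTime z₁ z₂ e₁ e₂ θ k) (j : ι₁) (hj : j ∉ range e₁)
      (hc : Ct z₁ ε θ j (e₁ k)) : AltCh z₁ z₂ e₁ e₂ ε θ k
  | new₂ {θ : ℝ} {k : κ} (h : IsAltTime z₁ z₂ e₁ e₂ θ k) (j : ι₂) (hj : j ∉ range e₂)
      (hc : Ct z₂ ε θ j (e₂ k)) : AltCh z₁ z₂ e₁ e₂ ε θ k
  | chain₁ {θ θ' : ℝ} {k l : κ} (h : IsAltTime z₁ z₂ e₁ e₂ θ k)
      (hl : AltCh z₁ z₂ e₁ e₂ ε θ' l) (hθ : θ' ≤ θ) (hc : Ct z₁ ε θ (e₁ l) (e₁ k)) :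
      AltCh z₁ z₂ e₁ e₂ ε θ k
  | chain₂ {θ θ' : ℝ} {k l : κ} (h : IsAltTime z₁ z₂ e₁ e₂ θ k)
      (hl : AltCh z₁ z₂ e₁ e₂ ε θ' l) (hθ : θ' ≤ θ) (hc : Ct z₂ ε θ (e₂ l) (e₂ k)) :
      AltCh z₁ z₂ e₁ e₂ ε θ k


theorem AltCh.fut {θ : ℝ} {k : κ} (h : AltCh z₁ z₂ e₁ e₂ ε θ k) :
    Fut z₁ z₂ e₁ e₂ ε θ k := by
  induction h with
  | new₁ h j hj hc => exact .new₁ j hj hc h.nonneg le_rfl
  | new₂ h j hj hc => exact .new₂ j hj hc h.nonneg le_rfl
  | chain₁ h hl hθ hc ih => exact .chain₁ (ih.mono hθ) hc le_rfl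
  | chain₂ h hl hθ hc ih => exact .chain₂ (ih.mono hθ) hc le_rfl



end alter

end Crest.Agent.R122.Causal291
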