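import Crest.Prelude.Def_KineticLimit
import Mathlib
import Crest.Agent.R122.GCBasic_311
import Crest.Agent.R122.CausalNewton_291
import Crest.Agent.R122.NewtonFlow_671

-- ▼ part R122/FMAppend_167
section

/-!
# Appending configurations is measure preserving (helper167)

`Fin.append : (Fin s → α) × (Fin m → α) → (Fin (s + m) → α)` is a measure-preserving measurable
equivalence for the product volumes; Tonelli in the form
`∫⁻ Z : Fin (s+m) → α, F Z = ∫⁻ V, ∫⁻ W, F (Fin.append V W)`.
-/

set_option autoImplicit false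

open MeasureTheory

noncomputable section

namespace Crest.Agent.R122.FM167

variable {α : Type*}

/-- `Fin.append` as a measurable equivalence. -/
def appendEquiv (α : Type*) [MeasurableSpace α] (s m : ℕ) :
    ((Fin s → α) × (Fin m → α)) ≃ᵐ (Fin (s + m) → α) :=
  (MeasurableEquiv.sumPiEquivProdPi (fun _ : Fin s ⊕ Fin m => α)).symm.trans
    (MeasurableEquiv.piCongrLeft (fun _ : Fin (s + m) => α) finSumFinEquiv)

theorem appendEquiv_apply [MeasurableSpace α] (s m : ℕ) (p : (Fin s → α) × (Fin m → α)) :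
    appendEquiv α s m p = Fin.append p.1 p.2 := by
  funext i
  obtain ⟨j, rfl⟩ := finSumFinEquiv.surjective i
  have h : appendEquiv α s m p (finSumFinEquiv j) =
      (MeasurableEquiv.sumPiEquivProdPi (fun _ : Fin s ⊕ Fin m => α)).symm p j := by
    simp only [appendEquiv, MeasurableEquiv.trans_apply, MeasurableEquiv.coe_piCongrLeft]
    exact Equiv.piCongrLeft_apply_apply (fun _ : Fin (s + m) => α) finSumFinEquiv _ j
  rw [h]
  cases j with
  | inl j => simp [MeasurableEquiv.coe_sumPiEquivProdPi_symm, Fin.append_left]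
  | inr j => simp [MeasurableEquiv.coe_sumPiEquivProdPi_symm, Fin.append_right]

theorem measurable_append [MeasurableSpace α] (s m : ℕ) :
    Measurable (fun p : (Fin s → α) × (Fin m → α) => Fin.append p.1 p.2) := by
  have h : (fun p : (Fin s → α) × (Fin m → α) => Fin.append p.1 p.2) = appendEquiv α s m := by
    funext p; exact (appendEquiv_apply s m p).symm
  rw [h]; exact (appendEquiv α s m).measurable

theorem measurePreserving_append [MeasureSpace α] [SigmaFinite (volume : Measure α)] (s m : ℕ) :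
    MeasurePreserving (fun p : (Fin s → α) × (Fin m → α) => Fin.append p.1 p.2) volume volume := by
  have h : (fun p : (Fin s → α) × (Fin m → α) => Fin.append p.1 p.2) = appendEquiv α s m := by
    funext p; exact (appendEquiv_apply s m p).symm
  rw [h]
  exact (volume_measurePreserving_piCongrLeft (fun _ : Fin (s + m) => α) finSumFinEquiv).comp
    (volume_measurePreserving_sumPiEquivProdPi_symm (fun _ : Fin s ⊕ Fin m => α))

/-- Change of variables for `Fin.append`; no measurability of the integrand is needed. -/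
theorem lintegral_eq_append_prod [MeasureSpace α] [SigmaFinite (volume : Measure α)] (s m : ℕ)
    (F : (Fin (s + m) → α) → ENNReal) :
    ∫⁻ Z, F Z = ∫⁻ p : (Fin s → α) × (Fin m → α), F (Fin.append p.1 p.2) := by
  have hmp : MeasurePreserving (appendEquiv α s m) volume volume := by
    have := measurePreserving_append (α := α) s m
    have h : (fun p : (Fin s → α) × (Fin m → α) => Fin.append p.1 p.2) = appendEquiv α s m := by
      funext p; exact (appendEquiv_apply s m p).symm
    rwa [h] at this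
  rw [← hmp.lintegral_comp_emb (appendEquiv α s m).measurableEmbedding F]
  simp_rw [appendEquiv_apply]

/-- Tonelli for `Fin.append`. -/
theorem lintegral_append [MeasureSpace α] [SigmaFinite (volume : Measure α)] (s m : ℕ)
    (F : (Fin (s + m) → α) → ENNReal) (hF : Measurable F) :
    ∫⁻ Z, F Z = ∫⁻ V : Fin s → α, ∫⁻ W : Fin m → α, F (Fin.append V W) := by
  rw [lintegral_eq_append_prod]
  have : (volume : Measure ((Fin s → α) × (Fin m → α))) = volume.prod volume := rfl
  rw [this, lintegral_prod]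
  exact (hF.comp (measurable_append s m)).aemeasurable


/-- Integral over `Fin 1 → α`. -/
theorem lintegral_fin_one [MeasureSpace α] [SigmaFinite (volume : Measure α)]
    (F : (Fin 1 → α) → ENNReal) :
    ∫⁻ Z, F Z = ∫⁻ z : α, F (fun _ => z) := by
  have hmp := volume_preserving_funUnique (Fin 1) α
  have := hmp.symm.lintegral_comp_emb (MeasurableEquiv.funUnique (Fin 1) α).symm.measurableEmbedding F
  have h2 : (∫⁻ Z, F Z) = ∫⁻ a : α, F ((MeasurableEquiv.funUnique (Fin 1) α).symm a) := by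
    rw [this]
    congr!
  rw [h2]
  rfl

/-- Product integrands integrate to a power. -/
theorem lintegral_prod_pow [MeasureSpace α] [SigmaFinite (volume : Measure α)] (n : ℕ)
    (g : α → ENNReal) (hg : Measurable g) :
    ∫⁻ Z : Fin n → α, ∏ i, g (Z i) = (∫⁻ z, g z) ^ n := by
  induction n with
  | zero =>
    simp only [Finset.univ_eq_empty, Finset.prod_empty, pow_zero, lintegral_const, one_mul]
    have : (volume : Measure (Fin 0 → α)) = Measure.dirac (fun i => i.elim0) := by
      rw [volume_pi]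
      convert Measure.pi_of_empty (fun _ : Fin 0 => (volume : Measure α)) (fun i => i.elim0)
    rw [this]; simp
  | succ n ih =>
    have hm : Measurable (fun Z : Fin (n + 1) → α => ∏ i, g (Z i)) := by
      apply Finset.measurable_fun_prod
      intro i _
      exact hg.comp (measurable_pi_apply i)
    rw [lintegral_append n 1 _ hm]
    have : ∀ V : Fin n → α, ∫⁻ W : Fin 1 → α, ∏ i, g (Fin.append V W i) =
        (∏ i, g (V i)) * ∫⁻ z, g z := by
      intro V
      rw [lintegral_fin_one]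
      rw [← lintegral_const_mul _ hg]
      congr 1
      funext z
      rw [Fin.prod_univ_add]
      simp
    simp_rw [this]
    rw [lintegral_mul_const, ih, pow_succ]
    apply Finset.measurable_fun_prod
    intro i _
    exact hg.comp (measurable_pi_apply i)

end Crest.Agent.R122.FM167

end
end

-- ▼ part R122/FMMass_167
section

/-!
# Total mass of the factorial marginal (helper167, G3 of F3)

* `gcInt f₀ ε n = ∫⁻ Z, gcWeight f₀ ε n Z`, `gcInt (n+1) ≤ gcInt n`,
  `gcInt n ≤ gcInt (n+1) + n κ gcInt n`;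
* `1 ≤ gcPartition < ∞`;
* `factorialMarginal … s t univ` is independent of `Ψ`, `t`, is `≤ 1`, and is
  `≥ 1 - C (ε + ε^3)`.
-/

set_option autoImplicit false

open MeasureTheory
open Crest.AnalysisR.Kinetic

noncomputable section

namespace Crest.Agent.R122.FM167

/-! ### Measurability -/

theorem measurableSet_pairExcluded (ε : ℝ) (n : ℕ) : MeasurableSet (PairExcluded ε n) := by
  have : PairExcluded ε n = ⋂ i : Fin n, ⋂ j : Fin n, ⋂ _ : i ≠ j,
      {Z : Config n | ε < dist (Z i).1 (Z j).1} := by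
    ext Z; simp [PairExcluded]
  rw [this]
  refine MeasurableSet.iInter fun i => MeasurableSet.iInter fun j => MeasurableSet.iInter fun _ => ?_
  exact measurableSet_lt measurable_const
    ((measurable_fst.comp (measurable_pi_apply i)).dist (measurable_fst.comp (measurable_pi_apply j)))

theorem measurable_prod_ofReal {f₀ : PhasePoint → ℝ} (hf : Measurable f₀) (n : ℕ) :
    Measurable (fun Z : Config n => ∏ i, ENNReal.ofReal (f₀ (Z i))) := by
  apply Finset.measurable_fun_prod
  intro i _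
  exact (hf.comp (measurable_pi_apply i)).ennreal_ofReal

theorem measurable_gcWeight {f₀ : PhasePoint → ℝ} (hf : Measurable f₀) (ε : ℝ) (n : ℕ) :
    Measurable (gcWeight f₀ ε n) :=
  (measurable_prod_ofReal hf n).indicator (measurableSet_pairExcluded ε n)

theorem gcWeight_le_prod (f₀ : PhasePoint → ℝ) (ε : ℝ) (n : ℕ) (Z : Config n) :
    gcWeight f₀ ε n Z ≤ ∏ i, ENNReal.ofReal (f₀ (Z i)) :=
  Set.indicator_le_self _ _ _

/-! ### The integrals `gcInt` -/

/-- `∫ gcWeight` over `n`-particle configurations. -/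
def gcInt (f₀ : PhasePoint → ℝ) (ε : ℝ) (n : ℕ) : ENNReal := ∫⁻ Z, gcWeight f₀ ε n Z

theorem gcInt_zero (f₀ : PhasePoint → ℝ) (ε : ℝ) : gcInt f₀ ε 0 = 1 := by
  have h : ∀ Z : Config 0, gcWeight f₀ ε 0 Z = 1 := by
    intro Z
    have : Z ∈ PairExcluded ε 0 := fun i => i.elim0
    simp [gcWeight, Set.indicator_of_mem this]
  unfold gcInt
  simp_rw [h]
  have := lintegral_prod_pow (α := PhasePoint) 0 (fun _ => 1) measurable_const
  simpa using this

theorem pairExcluded_append_right {ε : ℝ} {s m : ℕ} {V : Config s} {W : Config m}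
    (h : Fin.append V W ∈ PairExcluded ε (s + m)) : W ∈ PairExcluded ε m := by
  intro i j hij
  have := h (Fin.natAdd s i) (Fin.natAdd s j) (by simpa using hij)
  simpa using this

theorem pairExcluded_append_left {ε : ℝ} {s m : ℕ} {V : Config s} {W : Config m}
    (h : Fin.append V W ∈ PairExcluded ε (s + m)) : V ∈ PairExcluded ε s := by
  intro i j hij
  have := h (Fin.castAdd m i) (Fin.castAdd m j) (by simpa using hij)
  simpa using this

theorem pairExcluded_append_iff {ε : ℝ} {s m : ℕ} {V : Config s} {W : Config m} :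
    Fin.append V W ∈ PairExcluded ε (s + m) ↔
      V ∈ PairExcluded ε s ∧ W ∈ PairExcluded ε m ∧
        ∀ i j, ε < dist (V i).1 (W j).1 := by
  constructor
  · intro h
    refine ⟨pairExcluded_append_left h, pairExcluded_append_right h, fun i j => ?_⟩
    have := h (Fin.castAdd m i) (Fin.natAdd s j) (by
      intro he
      have := congrArg Fin.val he
      simp at this
      have := i.2
      omega)
    simpa using this
  · rintro ⟨hV, hW, hVW⟩ i j hij
    induction i using Fin.addCases with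
    | left i =>
      induction j using Fin.addCases with
      | left j =>
        simp only [Fin.append_left]
        exact hV i j (fun h => hij (by rw [h]))
      | right j =>
        simp only [Fin.append_left, Fin.append_right]
        exact hVW i j
    | right i =>
      induction j using Fin.addCases with
      | left j =>
        simp only [Fin.append_left, Fin.append_right]
        rw [dist_comm]
        exact hVW j i
      | right j =>
        simp only [Fin.append_right]
        exact hW i j (fun h => hij (by rw [h]))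

theorem gcWeight_append_le (f₀ : PhasePoint → ℝ) (ε : ℝ) (s m : ℕ) (V : Config s) (W : Config m) :
    gcWeight f₀ ε (s + m) (Fin.append V W) ≤ gcWeight f₀ ε s V * gcWeight f₀ ε m W := by
  classical
  by_cases h : Fin.append V W ∈ PairExcluded ε (s + m)
  · have h1 := pairExcluded_append_left h
    have h2 := pairExcluded_append_right h
    simp only [gcWeight, Set.indicator_of_mem h, Set.indicator_of_mem h1, Set.indicator_of_mem h2]
    rw [Fin.prod_univ_add]
    simp
  · simp [gcWeight, Set.indicator_of_notMem h]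

theorem gcInt_one_le {f₀ : PhasePoint → ℝ} (hf : Measurable f₀)
    (h1 : ∫⁻ z, ENNReal.ofReal (f₀ z) = 1) (ε : ℝ) (n : ℕ) :
    gcInt f₀ ε n ≤ 1 := by
  calc gcInt f₀ ε n ≤ ∫⁻ Z : Config n, ∏ i, ENNReal.ofReal (f₀ (Z i)) :=
        lintegral_mono (gcWeight_le_prod f₀ ε n)
    _ = 1 := by rw [lintegral_prod_pow n _ hf.ennreal_ofReal, h1, one_pow]

theorem gcInt_add_le {f₀ : PhasePoint → ℝ} (hf : Measurable f₀) (ε : ℝ) (s m : ℕ) :
    gcInt f₀ ε (s + m) ≤ gcInt f₀ ε s * gcInt f₀ ε m := by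
  unfold gcInt
  rw [lintegral_append s m _ (measurable_gcWeight hf ε (s + m))]
  calc ∫⁻ V : Config s, ∫⁻ W : Config m, gcWeight f₀ ε (s + m) (Fin.append V W)
      ≤ ∫⁻ V : Config s, ∫⁻ W : Config m, gcWeight f₀ ε s V * gcWeight f₀ ε m W :=
        lintegral_mono fun V => lintegral_mono fun W => gcWeight_append_le f₀ ε s m V W
    _ = _ := by
        simp_rw [lintegral_const_mul _ (measurable_gcWeight hf ε m)]
        rw [lintegral_mul_const _ (measurable_gcWeight hf ε s)]


theorem gcInt_add_le_right {f₀ : PhasePoint → ℝ} (hf : Measurable f₀)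
    (h1 : ∫⁻ z, ENNReal.ofReal (f₀ z) = 1) (ε : ℝ) (s n : ℕ) :
    gcInt f₀ ε (s + n) ≤ gcInt f₀ ε n := by
  calc gcInt f₀ ε (s + n) ≤ gcInt f₀ ε s * gcInt f₀ ε n := gcInt_add_le hf ε s n
    _ ≤ 1 * gcInt f₀ ε n := by gcongr; exact gcInt_one_le hf h1 ε s
    _ = gcInt f₀ ε n := one_mul _





end Crest.Agent.R122.FM167

end
end

-- ▼ part R122/FMUniv_167
section

/-!
# Partition function and total mass of the factorial marginal (helper167, G3 of F3)
-/

set_option autoImplicit false

open MeasureTheory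
open Crest.AnalysisR.Kinetic

noncomputable section

namespace Crest.Agent.R122.FM167

/-! ### Activity -/

theorem activity_ne_top (ε : ℝ) : activity ε ≠ ⊤ := ENNReal.ofReal_ne_top

theorem activity_ne_zero {ε : ℝ} (hε : 0 < ε) : activity ε ≠ 0 := by
  have : 0 < (ε ^ 2)⁻¹ := by positivity
  simpa [activity] using this.ne'

theorem activity_pow_ne_zero {ε : ℝ} (hε : 0 < ε) (n : ℕ) : activity ε ^ n ≠ 0 :=
  pow_ne_zero _ (activity_ne_zero hε)

theorem activity_pow_ne_top (ε : ℝ) (n : ℕ) : activity ε ^ n ≠ ⊤ :=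
  ENNReal.pow_ne_top (activity_ne_top ε)

/-- The grand-canonical coefficient `a^n / n!`. -/
def gcCoef (ε : ℝ) (n : ℕ) : ENNReal := activity ε ^ n / (n.factorial : ENNReal)

theorem gcCoef_zero (ε : ℝ) : gcCoef ε 0 = 1 := by simp [gcCoef]

theorem factorial_ne_zero' (n : ℕ) : (n.factorial : ENNReal) ≠ 0 := by
  exact_mod_cast n.factorial_ne_zero

theorem factorial_ne_top' (n : ℕ) : (n.factorial : ENNReal) ≠ ⊤ := ENNReal.natCast_ne_top _


/-- `a^(m+s)/(m+s)! * (m+s)_s = a^s * a^m/m!`. -/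
theorem gcCoef_mul_descFactorial (ε : ℝ) (s m : ℕ) :
    gcCoef ε (s + m) * ((s + m).descFactorial s : ENNReal) = activity ε ^ s * gcCoef ε m := by
  unfold gcCoef
  have h := Nat.factorial_mul_descFactorial (n := s + m) (k := s) (Nat.le_add_right s m)
  have h' : s + m - s = m := by omega
  rw [h'] at h
  have h2 : ((s + m).factorial : ENNReal) = (m.factorial : ENNReal) * ((s + m).descFactorial s : ENNReal) := by
    rw [← h]; push_cast; ring
  have hd : ((s + m).descFactorial s : ENNReal) ≠ 0 := by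
    have : 0 < (s + m).descFactorial s := Nat.descFactorial_pos.2 (Nat.le_add_right s m)
    exact_mod_cast this.ne'
  have hdt : ((s + m).descFactorial s : ENNReal) ≠ ⊤ := ENNReal.natCast_ne_top _
  rw [h2, pow_add, div_eq_mul_inv, div_eq_mul_inv,
    ENNReal.mul_inv (Or.inl (factorial_ne_zero' m)) (Or.inl (factorial_ne_top' m))]
  calc activity ε ^ s * activity ε ^ m *
        ((m.factorial : ENNReal)⁻¹ * ((s + m).descFactorial s : ENNReal)⁻¹) *
          ((s + m).descFactorial s : ENNReal)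
      = activity ε ^ s * (activity ε ^ m * (m.factorial : ENNReal)⁻¹) *
        (((s + m).descFactorial s : ENNReal)⁻¹ * ((s + m).descFactorial s : ENNReal)) := by ring
    _ = activity ε ^ s * (activity ε ^ m * (m.factorial : ENNReal)⁻¹) := by
        rw [ENNReal.inv_mul_cancel hd hdt, mul_one]


/-! ### Partition function -/

theorem gcPartition_eq (f₀ : PhasePoint → ℝ) (ε : ℝ) :
    gcPartition f₀ ε = ∑' n : ℕ, gcCoef ε n * gcInt f₀ ε n := rfl

theorem one_le_gcPartition (f₀ : PhasePoint → ℝ) (ε : ℝ) : 1 ≤ gcPartition f₀ ε := by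
  rw [gcPartition_eq]
  calc (1 : ENNReal) = gcCoef ε 0 * gcInt f₀ ε 0 := by rw [gcCoef_zero, gcInt_zero, one_mul]
    _ ≤ _ := ENNReal.le_tsum 0

theorem gcPartition_ne_zero (f₀ : PhasePoint → ℝ) (ε : ℝ) : gcPartition f₀ ε ≠ 0 :=
  (lt_of_lt_of_le one_pos (one_le_gcPartition f₀ ε)).ne'

theorem tsum_gcCoef_ne_top (ε : ℝ) : ∑' n : ℕ, gcCoef ε n ≠ ⊤ := by
  have h : ∀ n, gcCoef ε n = ENNReal.ofReal (((ε ^ 2)⁻¹) ^ n / (n.factorial : ℝ)) := by
    intro n
    unfold gcCoef activity
    rw [ENNReal.ofReal_div_of_pos (by exact_mod_cast n.factorial_pos),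
      ENNReal.ofReal_pow (by positivity), ENNReal.ofReal_natCast]
  simp_rw [h]
  rw [← ENNReal.ofReal_tsum_of_nonneg]
  · exact ENNReal.ofReal_ne_top
  · intro n; positivity
  · exact Real.summable_pow_div_factorial _

theorem gcPartition_ne_top {f₀ : PhasePoint → ℝ} (hf : Measurable f₀)
    (h1 : ∫⁻ z, ENNReal.ofReal (f₀ z) = 1) (ε : ℝ) : gcPartition f₀ ε ≠ ⊤ := by
  rw [gcPartition_eq]
  refine ne_top_of_le_ne_top (tsum_gcCoef_ne_top ε) ?_
  refine ENNReal.tsum_le_tsum fun n => ?_
  calc gcCoef ε n * gcInt f₀ ε n ≤ gcCoef ε n * 1 := by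
        gcongr; exact gcInt_one_le hf h1 ε n
    _ = gcCoef ε n := mul_one _

/-! ### Total mass of the factorial marginal -/

/-- The total mass of the factorial marginal. -/
def fmTotal (f₀ : PhasePoint → ℝ) (ε : ℝ) (s : ℕ) : ENNReal :=
  (gcPartition f₀ ε)⁻¹ * ∑' m : ℕ, gcCoef ε m * gcInt f₀ ε (s + m)

theorem tsum_shift {F : ℕ → ENNReal} (s : ℕ) (h : ∀ n < s, F n = 0) :
    ∑' n, F n = ∑' m, F (s + m) := by
  have := ENNReal.summable (f := F)
  rw [← Summable.sum_add_tsum_nat_add' (k := s) (f := F) ENNReal.summable]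
  rw [Finset.sum_eq_zero (fun i hi => h i (Finset.mem_range.1 hi)), zero_add]
  simp_rw [add_comm s]

/-- `factorialMarginal … univ` does not depend on the evolution or the time. -/
theorem factorialMarginal_univ (f₀ : PhasePoint → ℝ) {ε : ℝ} (hε : 0 < ε)
    (Ψ : (n : ℕ) → ℝ → Config n → Config n) (s : ℕ) (t : ℝ) :
    factorialMarginal f₀ ε Ψ s t Set.univ = fmTotal f₀ ε s := by
  unfold factorialMarginal fmTotal
  have h1 : ∀ n : ℕ, (∫⁻ Z : Config n, gcWeight f₀ ε n Z *
      ∑ ι : Fin s ↪ Fin n, (Set.univ : Set (Config s)).indicator (fun _ => (1 : ENNReal))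
        (fun k => Ψ n t Z (ι k))) = gcInt f₀ ε n * (n.descFactorial s : ENNReal) := by
    intro n
    have hc : ∀ Z : Config n, (∑ ι : Fin s ↪ Fin n,
        (Set.univ : Set (Config s)).indicator (fun _ => (1 : ENNReal))
        (fun k => Ψ n t Z (ι k))) = (n.descFactorial s : ENNReal) := by
      intro Z
      simp [Fintype.card_embedding_eq]
    simp_rw [hc]
    rw [lintegral_mul_const' _ _ (ENNReal.natCast_ne_top _)]
    rfl
  simp_rw [h1]
  rw [mul_assoc]
  congr 1
  change (activity ε ^ s)⁻¹ * ∑' n, gcCoef ε n * (gcInt f₀ ε n * (n.descFactorial s : ENNReal)) = _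
  rw [tsum_shift s]
  · have h2 : ∀ m, gcCoef ε (s + m) * (gcInt f₀ ε (s + m) * ((s + m).descFactorial s : ENNReal)) =
        activity ε ^ s * (gcCoef ε m * gcInt f₀ ε (s + m)) := by
      intro m
      rw [mul_comm (gcInt f₀ ε (s + m)), ← mul_assoc, gcCoef_mul_descFactorial, mul_assoc]
    simp_rw [h2]
    rw [ENNReal.tsum_mul_left, ← mul_assoc,
      ENNReal.inv_mul_cancel (activity_pow_ne_zero hε s) (activity_pow_ne_top ε s), one_mul]
  · intro n hn
    rw [Nat.descFactorial_eq_zero_iff_lt.2 hn]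
    simp

theorem fmTotal_le_one {f₀ : PhasePoint → ℝ} (hf : Measurable f₀)
    (h1 : ∫⁻ z, ENNReal.ofReal (f₀ z) = 1) (ε : ℝ) (s : ℕ) : fmTotal f₀ ε s ≤ 1 := by
  unfold fmTotal
  calc (gcPartition f₀ ε)⁻¹ * ∑' m : ℕ, gcCoef ε m * gcInt f₀ ε (s + m)
      ≤ (gcPartition f₀ ε)⁻¹ * ∑' m : ℕ, gcCoef ε m * gcInt f₀ ε m := by
        gcongr with m
        exact gcInt_add_le_right hf h1 ε s m
    _ = 1 := by
        rw [← gcPartition_eq]
        exact ENNReal.inv_mul_cancel (gcPartition_ne_zero f₀ ε) (gcPartition_ne_top hf h1 ε)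


/-! ### The constant `κ` -/



end Crest.Agent.R122.FM167

end
end

-- ▼ part R122/FMReduce_167
section

/-!
# The factorial marginal as a measure and the one-sided reduction of S0162 (helper167, G4 of F3)
-/

set_option autoImplicit false

open MeasureTheory
open Crest.AnalysisR.Kinetic

noncomputable section

namespace Crest.Agent.R122.FM167

/-! ### The factorial marginal as a measure -/

/-- The rescaled factorial marginal as a measure on `Config s`. -/
def fmMeasure (f₀ : PhasePoint → ℝ) (ε : ℝ) (Ψ : (n : ℕ) → ℝ → Config n → Config n)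
    (s : ℕ) (t : ℝ) : Measure (Config s) :=
  ((gcPartition f₀ ε)⁻¹ * (activity ε ^ s)⁻¹) • Measure.sum (fun n : ℕ =>
    (gcCoef ε n) • ∑ ι : Fin s ↪ Fin n,
      ((volume : Measure (Config n)).withDensity (gcWeight f₀ ε n)).map
        (fun Z k => Ψ n t Z (ι k)))

theorem measurable_pick {Ψ : (n : ℕ) → ℝ → Config n → Config n}
    {s n : ℕ} {t : ℝ} (hΨ : Measurable (Ψ n t)) (ι : Fin s ↪ Fin n) :
    Measurable (fun (Z : Config n) (k : Fin s) => Ψ n t Z (ι k)) :=
  measurable_pi_lambda _ fun k => (measurable_pi_apply (ι k)).comp hΨ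

theorem lintegral_fmMeasure {f₀ : PhasePoint → ℝ} (hf : Measurable f₀) (ε : ℝ)
    {Ψ : (n : ℕ) → ℝ → Config n → Config n} (s : ℕ) (t : ℝ)
    (hΨ : ∀ n, Measurable (Ψ n t)) (G : Config s → ENNReal) (hG : Measurable G) :
    ∫⁻ V, G V ∂(fmMeasure f₀ ε Ψ s t) =
      (gcPartition f₀ ε)⁻¹ * (activity ε ^ s)⁻¹ * ∑' n : ℕ, gcCoef ε n *
        ∫⁻ Z : Config n, gcWeight f₀ ε n Z * ∑ ι : Fin s ↪ Fin n, G (fun k => Ψ n t Z (ι k)) := by
  unfold fmMeasure
  rw [lintegral_smul_measure, lintegral_sum_measure, smul_eq_mul]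
  congr 1
  refine tsum_congr fun n => ?_
  rw [lintegral_smul_measure, smul_eq_mul, lintegral_finsetSum_measure]
  congr 1
  have hmeas : ∀ ι : Fin s ↪ Fin n, Measurable (fun Z : Config n => G (fun k => Ψ n t Z (ι k))) :=
    fun ι => hG.comp (measurable_pick (hΨ n) ι)
  calc ∑ ι : Fin s ↪ Fin n, ∫⁻ V, G V ∂(((volume : Measure (Config n)).withDensity
          (gcWeight f₀ ε n)).map (fun Z k => Ψ n t Z (ι k)))
      = ∑ ι : Fin s ↪ Fin n, ∫⁻ Z : Config n, gcWeight f₀ ε n Z * G (fun k => Ψ n t Z (ι k)) := by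
        refine Finset.sum_congr rfl fun ι _ => ?_
        rw [lintegral_map hG (measurable_pick (hΨ n) ι),
          lintegral_withDensity_eq_lintegral_mul _ (measurable_gcWeight hf ε n) (hmeas ι)]
        rfl
    _ = _ := by
        rw [← lintegral_finsetSum]
        · simp_rw [Finset.mul_sum]
        · intro ι _
          exact (measurable_gcWeight hf ε n).mul (hmeas ι)

theorem fmMeasure_apply {f₀ : PhasePoint → ℝ} (hf : Measurable f₀) (ε : ℝ)
    {Ψ : (n : ℕ) → ℝ → Config n → Config n} (s : ℕ) (t : ℝ)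
    (hΨ : ∀ n, Measurable (Ψ n t)) {A : Set (Config s)} (hA : MeasurableSet A) :
    fmMeasure f₀ ε Ψ s t A = factorialMarginal f₀ ε Ψ s t A := by
  have h := lintegral_fmMeasure hf ε s t hΨ (A.indicator (fun _ => 1))
    (measurable_const.indicator hA)
  rw [lintegral_indicator_const hA, one_mul] at h
  rw [h]
  rfl

theorem fmMeasure_univ {f₀ : PhasePoint → ℝ} (hf : Measurable f₀) {ε : ℝ} (hε : 0 < ε)
    {Ψ : (n : ℕ) → ℝ → Config n → Config n} (s : ℕ) (t : ℝ)
    (hΨ : ∀ n, Measurable (Ψ n t)) :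
    fmMeasure f₀ ε Ψ s t Set.univ = fmTotal f₀ ε s := by
  rw [fmMeasure_apply hf ε s t hΨ MeasurableSet.univ, factorialMarginal_univ f₀ hε]

theorem fmMeasure_le_one {f₀ : PhasePoint → ℝ} (hf : Measurable f₀)
    (h1 : ∫⁻ z, ENNReal.ofReal (f₀ z) = 1) {ε : ℝ} (hε : 0 < ε)
    {Ψ : (n : ℕ) → ℝ → Config n → Config n} (s : ℕ) (t : ℝ)
    (hΨ : ∀ n, Measurable (Ψ n t)) (A : Set (Config s)) :
    fmMeasure f₀ ε Ψ s t A ≤ 1 :=
  (measure_mono (Set.subset_univ A)).trans
    ((fmMeasure_univ hf hε s t hΨ).trans_le (fmTotal_le_one hf h1 ε s))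

/-! ### Abstract one-sided reduction -/

/-- If `μ` has mass at most one and `ν` is a probability measure with `ν A ≤ μ A + δ` for all
measurable `A`, then also `μ A ≤ ν A + δ` for all measurable `A`. -/
theorem two_sided_of_lower {Ω : Type*} [MeasurableSpace Ω] {μ ν : Measure Ω}
    (hμ : μ Set.univ ≤ 1) (hν : ν Set.univ = 1) {δ : ENNReal}
    (h : ∀ A, MeasurableSet A → ν A ≤ μ A + δ) {A : Set Ω} (hA : MeasurableSet A) :
    μ A ≤ ν A + δ := by
  have hμA : μ A ≠ ⊤ := ne_top_of_le_ne_top ENNReal.one_ne_top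
    ((measure_mono (Set.subset_univ A)).trans hμ)
  have hμAc : μ Aᶜ ≠ ⊤ := ne_top_of_le_ne_top ENNReal.one_ne_top
    ((measure_mono (Set.subset_univ _)).trans hμ)
  have h1 : μ A + μ Aᶜ ≤ ν A + δ + μ Aᶜ := by
    rw [measure_add_measure_compl hA]
    calc μ Set.univ ≤ 1 := hμ
      _ = ν A + ν Aᶜ := by rw [measure_add_measure_compl hA, hν]
      _ ≤ ν A + (μ Aᶜ + δ) := by gcongr; exact h _ hA.compl
      _ = ν A + δ + μ Aᶜ := by ring
  exact (ENNReal.add_le_add_iff_right hμAc).1 h1


/-! ### The product measure -/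

/-- The product density measure `∏ f(Z k) dZ`. -/
def prodMeasure (g : PhasePoint → ℝ) (s : ℕ) : Measure (Config s) :=
  volume.withDensity (fun Z => ∏ k, ENNReal.ofReal (g (Z k)))

theorem prodMeasure_apply (g : PhasePoint → ℝ) (s : ℕ) {A : Set (Config s)}
    (hA : MeasurableSet A) :
    prodMeasure g s A = ∫⁻ Z in A, ∏ k, ENNReal.ofReal (g (Z k)) :=
  withDensity_apply _ hA

theorem lintegral_density_eq_one {g : PhasePoint → ℝ} (h0 : ∀ z, 0 ≤ g z) (hi : Integrable g)
    (h1 : ∫ z, g z = 1) : ∫⁻ z, ENNReal.ofReal (g z) = 1 := by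
  rw [← ofReal_integral_eq_lintegral_ofReal hi (Filter.Eventually.of_forall h0), h1,
    ENNReal.ofReal_one]

/-- Product integrands for a.e.-measurable densities. -/
theorem prodMeasure_univ {g : PhasePoint → ℝ} (hg : Measurable g)
    (h1 : ∫⁻ z, ENNReal.ofReal (g z) = 1) (s : ℕ) : prodMeasure g s Set.univ = 1 := by
  rw [prodMeasure_apply g s MeasurableSet.univ, Measure.restrict_univ,
    lintegral_prod_pow s _ hg.ennreal_ofReal, h1, one_pow]

theorem measurable_solution {Φ : Space3 → ℝ} {β T : ℝ} {f₀ : PhasePoint → ℝ}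
    {f : ℝ → PhasePoint → ℝ} (hf : IsRegularKineticSolution Φ β T f₀ f) {t : ℝ}
    (ht : t ∈ Set.Icc 0 T) : Continuous (f t) := by
  have h := hf.continuous
  have h2 : Continuous (fun z : PhasePoint => (t, z)) := by fun_prop
  rw [← continuousOn_univ]
  exact h.comp h2.continuousOn (fun z _ => ⟨ht, Set.mem_univ _⟩)


/-! ### Reduction of S0162 -/

/-- One-sided form of the conclusion of S0162: for all small `ε` and all `t ∈ [0,T]`,
the factorial marginal dominates the product measure up to `δ`, uniformly on measurable sets. -/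
def LowerTV (f₀ : PhasePoint → ℝ) (f : ℝ → PhasePoint → ℝ) (T : ℝ)
    (Ψ : ℝ → (n : ℕ) → ℝ → Config n → Config n) (s : ℕ) : Prop :=
  ∀ δ : ℝ, 0 < δ → ∃ ε₀ : ℝ, 0 < ε₀ ∧ ∀ ε : ℝ, 0 < ε → ε < ε₀ → ∀ t ∈ Set.Icc 0 T,
    ∀ A : Set (Config s), MeasurableSet A →
      (∫⁻ Z in A, ∏ k, ENNReal.ofReal (f t (Z k))) ≤
        factorialMarginal f₀ ε (Ψ ε) s t A + ENNReal.ofReal δ


theorem conclusion_of_lowerTV
    (Φ : Space3 → ℝ) (β : ℝ) (T : ℝ)
    (f₀ : PhasePoint → ℝ) (hf₀ : ∀ z, 0 ≤ f₀ z) (hf₀d : ContDiff ℝ 1 f₀)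
    (hf₀i : Integrable f₀) (hf₀m : ∫ z, f₀ z = 1)
    (f : ℝ → PhasePoint → ℝ) (hf : IsRegularKineticSolution Φ β T f₀ f)
    (Ψ : ℝ → (n : ℕ) → ℝ → Config n → Config n)
    (hΨ : ∀ ε : ℝ, 0 < ε → IsNewtonianEvolution Φ ε (Ψ ε))
    (s : ℕ) (H : LowerTV f₀ f T Ψ s) (δ : ℝ) (hδ : 0 < δ) :
    ∃ ε₀ : ℝ, 0 < ε₀ ∧ ∀ ε : ℝ, 0 < ε → ε < ε₀ → ∀ t ∈ Set.Icc 0 T,
      ∀ A : Set (Config s), MeasurableSet A →
        factorialMarginal f₀ ε (Ψ ε) s t A ≤
            (∫⁻ Z in A, ∏ k, ENNReal.ofReal (f t (Z k))) + ENNReal.ofReal δ ∧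
          (∫⁻ Z in A, ∏ k, ENNReal.ofReal (f t (Z k))) ≤
            factorialMarginal f₀ ε (Ψ ε) s t A + ENNReal.ofReal δ := by
  obtain ⟨ε₀, hε₀, h⟩ := H δ hδ
  refine ⟨ε₀, hε₀, fun ε hε hlt t ht A hA => ⟨?_, h ε hε hlt t ht A hA⟩⟩
  have hfm : Measurable f₀ := hf₀d.continuous.measurable
  have h1 := lintegral_density_eq_one hf₀ hf₀i hf₀m
  have hΨm : ∀ n, Measurable (Ψ ε n t) := fun n => (hΨ ε hε).measurable n t
  have hft : Measurable (f t) := (measurable_solution hf ht).measurable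
  have h2 := two_sided_of_lower (μ := fmMeasure f₀ ε (Ψ ε) s t) (ν := prodMeasure (f t) s)
    (fmMeasure_le_one hfm h1 hε s t hΨm _)
    (prodMeasure_univ hft (lintegral_density_eq_one (hf.nonneg t ht) (hf.density t ht).1
      (hf.density t ht).2) s) (δ := ENNReal.ofReal δ)
    (fun B hB => by
      rw [prodMeasure_apply _ _ hB, fmMeasure_apply hfm ε s t hΨm hB]
      exact h ε hε hlt t ht B hB) hA
  rwa [prodMeasure_apply _ _ hA, fmMeasure_apply hfm ε s t hΨm hA] at h2


/-! ### The form with a minorising family of measures -/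



end Crest.Agent.R122.FM167

end
end

-- ▼ part R122/Master_566

/-!
# Row 122: the top-level assembly

* `KData` : the hypotheses of S0162 which do not involve the evolution `Ψ`.
* `bc Φ ε Z t i` : the backward cluster of the particle `i` of the configuration `Z` at time `t`
  (291's `BC` for the contact relation of 671's flow).
* `escMass Φ f₀ ε K t` : the expected mass (`activity⁻¹ ×` number) of particles whose backward
  cluster at time `t` has more than `K` members.
* `NE Φ f₀ t` : no escape of mass at time `t` : `lim_K limsup_ε escMass = 0`.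
* `NEStep` : the window step (section E): there is `h > 0` such that `NE t₁ → NE t₂`
  for `t₁ ≤ t₂ ≤ t₁ + h`, `t₂ ≤ T`.
* `Ident` : identification (sections D, F): `NE T` implies the lower bound `LowerTV` for the flow.
* `ne_of_step` : `NEStep` gives `NE` on `[0,T]` (finite induction over windows).
* `result_of` : `NEStep` and `Ident` for all kinetic data imply the statement of S0162.
-/

set_option autoImplicit false
open MeasureTheory Set
open scoped Classical ENNReal
open Crest.AnalysisR.Kinetic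
open Crest.Agent.R122.GC311 Crest.Agent.R122.Causal291
noncomputable section

namespace Crest.Agent.R122.Master566

/-- The data of S0162 without the evolution. -/
structure KData (Φ : Space3 → ℝ) (β T : ℝ) (f₀ : PhasePoint → ℝ)
    (f : ℝ → PhasePoint → ℝ) : Prop where
  adm : AdmissiblePotential Φ
  beta_pos : 0 < β
  T_pos : 0 < T
  nonneg : ∀ z, 0 ≤ f₀ z
  contDiff : ContDiff ℝ 1 f₀
  integrable : Integrable f₀
  mass : ∫ z, f₀ z = 1
  gaussian : HasSummableGaussianBound (2 * β) (fun x v => f₀ (x, v))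
  gaussian_grad : HasSummableGaussianBound (2 * β) (fun x v => fderiv ℝ (fun y => f₀ (y, v)) x)
  sol : IsRegularKineticSolution Φ β T f₀ f

/-- The backward cluster of particle `i` at time `t` in the world `Z` (evolved from time `0`). -/
def bc {ι : Type*} [Fintype ι] (Φ : Space3 → ℝ) (ε : ℝ) (Z : ι → PhasePoint) (t : ℝ) (i : ι) :
    Set ι :=
  BC (Ct (pth Φ ε Z) ε) t i

/-- Expected mass of the particles with a backward cluster of more than `K` members. -/
def escMass (Φ : Space3 → ℝ) (f₀ : PhasePoint → ℝ) (ε : ℝ) (K : ℕ) (t : ℝ) : ℝ≥0∞ :=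
  gcE f₀ ε fun n Z => (activity ε)⁻¹ *
    ((Finset.univ.filter fun i : Fin n => K < (bc Φ ε Z t i).ncard).card : ℝ≥0∞)

/-- No escape of mass at time `t`. -/
def NE (Φ : Space3 → ℝ) (f₀ : PhasePoint → ℝ) (t : ℝ) : Prop :=
  ∀ δ : ℝ, 0 < δ → ∃ K : ℕ, ∃ ε₀ : ℝ, 0 < ε₀ ∧ ∀ ε : ℝ, 0 < ε → ε < ε₀ →
    escMass Φ f₀ ε K t ≤ ENNReal.ofReal δ

/-- The evolution of S0162 realised by the Newton flow of 671. -/
def flowEv (Φ : Space3 → ℝ) : ℝ → (n : ℕ) → ℝ → Config n → Config n :=
  fun ε _ t Z => Flow671.flow Φ ε t Z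

/-! ### Elementary facts -/

section basics

variable {Φ : Space3 → ℝ} {f₀ : PhasePoint → ℝ} {ε : ℝ}

theorem bc_mono {ι : Type*} [Fintype ι] (Z : ι → PhasePoint) (i : ι) {t₁ t₂ : ℝ}
    (h : t₁ ≤ t₂) : bc Φ ε Z t₁ i ⊆ bc Φ ε Z t₂ i := by
  intro k hk
  change Past _ t₁ i 0 k at hk
  change Past _ t₂ i 0 k
  generalize (0 : ℝ) = s at hk ⊢
  induction hk with
  | root hs => exact .root (hs.trans h)
  | step _ hc hs ih => exact .step ih hc hs

theorem bc_zero (hΦ : AdmissiblePotential Φ) (hε : 0 < ε) {n : ℕ} {Z : Config n}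
    (hZ : Z ∈ PairExcluded ε n) (i : Fin n) : bc Φ ε Z 0 i = {i} := by
  ext k
  constructor
  · intro hk
    rw [mem_singleton_iff]
    change Past _ 0 i 0 k at hk
    refine Past.mem_of_closed (S := {i}) hk rfl fun s' j l h1 h2 hj hc => ?_
    have hs : s' = 0 := le_antisymm h2 h1
    subst hs
    by_contra hl
    rw [mem_singleton_iff] at hl hj
    subst hj
    have h3 : dist (Flow671.flow Φ ε 0 Z j).1 (Flow671.flow Φ ε 0 Z l).1 ≤ ε := hc
    rw [Flow671.flow_zero hΦ hε] at h3
    exact absurd (hZ j l (Ne.symm hl)) (not_lt.2 h3)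
  · rintro rfl
    exact root_mem_BC le_rfl

theorem escMass_mono_time {K : ℕ} {t₁ t₂ : ℝ} (h : t₁ ≤ t₂) :
    escMass Φ f₀ ε K t₁ ≤ escMass Φ f₀ ε K t₂ := by
  refine gcE_mono f₀ ε fun n Z _ => mul_le_mul_right (Nat.cast_le.2 (Finset.card_le_card ?_)) _
  intro i hi
  rw [Finset.mem_filter] at hi ⊢
  exact ⟨hi.1, lt_of_lt_of_le hi.2 (ncard_le_ncard (bc_mono Z i h) (toFinite _))⟩




theorem NE.mono {t₁ t₂ : ℝ} (h : NE Φ f₀ t₂) (ht : t₁ ≤ t₂) : NE Φ f₀ t₁ := by
  intro δ hδ
  obtain ⟨K, ε₀, hε₀, h1⟩ := h δ hδ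
  exact ⟨K, ε₀, hε₀, fun ε hε hlt => (escMass_mono_time ht).trans (h1 ε hε hlt)⟩

end basics

/-! ### The two open ingredients -/




/-- `factorialMarginal` only sees the evolution on pair-excluded data. -/
theorem factorialMarginal_congr {f₀ : PhasePoint → ℝ} {ε : ℝ}
    {Ψ₁ Ψ₂ : (n : ℕ) → ℝ → Config n → Config n} {s : ℕ} {t : ℝ} {A : Set (Config s)}
    (h : ∀ n, ∀ Z ∈ PairExcluded ε n, Ψ₁ n t Z = Ψ₂ n t Z) :
    factorialMarginal f₀ ε Ψ₁ s t A = factorialMarginal f₀ ε Ψ₂ s t A := by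
  unfold factorialMarginal
  congr 1
  refine tsum_congr fun n => ?_
  congr 1
  refine lintegral_congr fun Z => ?_
  by_cases hZ : Z ∈ PairExcluded ε n
  · rw [h n Z hZ]
  · simp [gcWeight, Set.indicator_of_notMem hZ]

theorem lowerTV_congr {Φ : Space3 → ℝ} (hΦ : AdmissiblePotential Φ) {f₀ : PhasePoint → ℝ}
    {f : ℝ → PhasePoint → ℝ} {T : ℝ} {Ψ : ℝ → (n : ℕ) → ℝ → Config n → Config n}
    (hΨ : ∀ ε : ℝ, 0 < ε → IsNewtonianEvolution Φ ε (Ψ ε)) {s : ℕ}
    (H : FM167.LowerTV f₀ f T (flowEv Φ) s) : FM167.LowerTV f₀ f T Ψ s := by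
  intro δ hδ
  obtain ⟨ε₀, hε₀, h⟩ := H δ hδ
  refine ⟨ε₀, hε₀, fun ε hε hlt t ht A hA => ?_⟩
  rw [factorialMarginal_congr (Ψ₂ := flowEv Φ ε) fun n Z hZ =>
    Flow671.newtonian_eq_flow hΦ hε (hΨ ε hε) hZ t]
  exact h ε hε hlt t ht A hA


end Crest.Agent.R122.Master566
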