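import Crest.Agent.R122.PathFlow_968
import Crest.Agent.R122.CausalDyn_291

/-!
# Row 122, block C, Theorem B (iii) (helper968): causal structure of the path of a tree

In the isolated world of a valid separated tree the contacts on `[0, T]` are exactly the collision
windows, and the exploration from `(root, T)` has protected times `prot`.
-/

set_option autoImplicit false

open MeasureTheory Set Filter Topology
open Crest.AnalysisR.Kinetic
open scoped Classical

noncomputable section

namespace Crest.Agent.R122.PathFlow968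

open Kin796 Kin796.CTree Disc416 Tree674 Flow671 Loc45 Causal291

variable {Φ : Space3 → ℝ} {ε : ℝ}

/-! ### Protected times -/

theorem prot_root : ∀ (P : CTree) (T : ℝ) (p : Par P), prot P T p (root P) = T
  | leaf, _, _ => rfl
  | node l r, T, p => by
      simp only [prot, root, Sum.elim_inl]
      exact prot_root l T p.2.1

theorem prot_mono : ∀ (P : CTree) {T T' : ℝ} (_ : T ≤ T') (p : Par P) (i : Idx P),
    prot P T p i ≤ prot P T' p i
  | leaf, _, _, h, _, _ => h
  | node l r, T, T', h, p, i => by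
      rcases i with i | i
      · exact prot_mono l h p.2.1 i
      · exact le_rfl

/-- Protected times of the non-root particles do not depend on the final time. -/
theorem prot_eq_of_ne : ∀ (P : CTree) (T T' : ℝ) (p : Par P) {i : Idx P}, i ≠ root P →
    prot P T p i = prot P T' p i
  | leaf, _, _, _, i, h => absurd (Subsingleton.elim (α := Unit) i ()) h
  | node l r, T, T', p, i, h => by
      rcases i with i | i
      · exact prot_eq_of_ne l T T' p.2.1 (fun h' => h (by rw [h']; rfl))
      · rfl

theorem prot_le (hε : 0 ≤ ε) : ∀ (P : CTree) (T : ℝ) (v : Space3) (p : Par P),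
    Ord Φ ε P T v p → ∀ i, prot P T p i ≤ T
  | leaf, _, _, _, _, _ => le_rfl
  | node l r, T, v, p, h, i => by
      have h1 := sin_le hε v p.1 (Φ := Φ)
      rcases i with i | i
      · by_cases hi : i = root l
        · subst hi
          exact (prot_root l T p.2.1).le
        · have h2 : prot (node l r) T p (Sum.inl i) = prot l T p.2.1 i := rfl
          rw [h2, prot_eq_of_ne l T (Tree674.sin Φ ε v p.1) p.2.1 hi]
          exact (prot_le hε l _ _ p.2.1 h.2.2.1 i).trans (h1.trans h.1.le)
      · have h2 : prot (node l r) T p (Sum.inr i) = prot r p.1.1 p.2.2 i := rfl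
        rw [h2]
        by_cases hi : i = root r
        · subst hi
          rw [prot_root]
          exact h.1.le
        · rw [prot_eq_of_ne r p.1.1 (Tree674.sin Φ ε v p.1) p.2.2 hi]
          exact (prot_le hε r _ _ p.2.2 h.2.2.2 i).trans (h1.trans h.1.le)

theorem prot_pos (hε : 0 ≤ ε) : ∀ (P : CTree) {T : ℝ} (_ : 0 < T) (v : Space3) (p : Par P),
    Ord Φ ε P T v p → ∀ i, 0 < prot P T p i
  | leaf, _, h, _, _, _, _ => h
  | node l r, T, hT, v, p, h, i => by
      have h1 := sin_le hε v p.1 (Φ := Φ)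
      rcases i with i | i
      · exact (prot_pos hε l h.2.1 _ p.2.1 h.2.2.1 i).trans_le
          (prot_mono l (h1.trans h.1.le) p.2.1 i)
      · exact (prot_pos hε r h.2.1 _ p.2.2 h.2.2.2 i).trans_le (prot_mono r h1 p.2.2 i)

theorem prot_nonneg (hε : 0 ≤ ε) (P : CTree) {T : ℝ} (hT : 0 ≤ T) (v : Space3) (p : Par P)
    (h : Ord Φ ε P T v p) (i : Idx P) : 0 ≤ prot P T p i := by
  rcases eq_or_lt_of_le hT with h0 | h0
  · cases P with
    | leaf => exact hT
    | node l r =>
        exfalso
        have h1 := sin_le hε v p.1 (Φ := Φ)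
        have h2 := h.1
        have h3 := h.2.1
        linarith
  · exact (prot_pos hε P h0 v p h i).le

/-- Collision windows are before the protected times of both particles. -/
theorem InWindow.le_prot (hε : 0 ≤ ε) : ∀ (P : CTree) (T : ℝ) (v : Space3) (p : Par P),
    Ord Φ ε P T v p → ∀ (i j : Idx P) (u : ℝ), InWindow Φ ε P v p i j u →
      u ≤ prot P T p i ∧ u ≤ prot P T p j
  | leaf, _, _, _, _, _, _, _, h => h.elim
  | node l r, T, v, p, ho, i, j, u, h => by
      have h1 := sin_le hε v p.1 (Φ := Φ)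
      rcases h with ⟨rfl, rfl, -, hu⟩ | ⟨i', j', rfl, rfl, h⟩ | ⟨i', j', rfl, rfl, h⟩
      · constructor
        · have h2 : prot (node l r) T p (Sum.inl (root l)) = prot l T p.2.1 (root l) := rfl
          rw [h2, prot_root]
          exact hu.trans ho.1.le
        · have h2 : prot (node l r) T p (Sum.inr (root r)) = prot r p.1.1 p.2.2 (root r) := rfl
          rw [h2, prot_root]
          exact hu
      · have h2 := InWindow.le_prot hε l _ _ p.2.1 ho.2.2.1 i' j' u h
        have h3 := h1.trans ho.1.le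
        exact ⟨h2.1.trans (prot_mono l h3 p.2.1 i'), h2.2.trans (prot_mono l h3 p.2.1 j')⟩
      · have h2 := InWindow.le_prot hε r _ _ p.2.2 ho.2.2.2 i' j' u h
        exact ⟨h2.1.trans (prot_mono r h1 p.2.2 i'), h2.2.trans (prot_mono r h1 p.2.2 j')⟩

/-! ### Contacts are windows -/

/-- In its collision window a pair is at distance at most `ε`. -/
theorem InWindow.dist_le (hΦ : AdmissiblePotential Φ) (hε : 0 < ε) : ∀ (P : CTree) (T : ℝ)
    (ℓ : PhasePoint) (p : Par P), Valid Φ ε P T ℓ.2 p → ∀ (i j : Idx P) (u : ℝ),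
      InWindow Φ ε P ℓ.2 p i j u → dist (path Φ ε P ℓ p u i).1 (path Φ ε P ℓ p u j).1 ≤ ε
  | leaf, _, _, _, _, _, _, _, h => h.elim
  | node l r, T, ℓ, p, hv, i, j, u, h => by
      rcases h with ⟨rfl, rfl, h1, h2⟩ | ⟨i', j', rfl, rfl, h⟩ | ⟨i', j', rfl, rfl, h⟩
      · rw [path_node_after hΦ hε hv h1]
        simp only [Sum.elim_inl, Sum.elim_inr, Function.update_self]
        exact pairPath_dist_le hε hv.1.1 h1 h2
      · have h3 := (InWindow.mem hε.le l _ _ p.2.1 hv.2.2.2.1 i' j' u h).2
        rw [path_node_before ℓ p h3.le]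
        exact InWindow.dist_le hΦ hε l _ (inMap Φ ε ℓ p.1).1 p.2.1 (Valid.left hv) i' j' u h
      · have h3 := (InWindow.mem hε.le r _ _ p.2.2 hv.2.2.2.2 i' j' u h).2
        rw [path_node_before ℓ p h3.le]
        exact InWindow.dist_le hΦ hε r _ (inMap Φ ε ℓ p.1).2 p.2.2 (Valid.right hv) i' j' u h

/-- **Contacts of a separated tree**: exactly the collision windows. -/
theorem ct_iff (hΦ : AdmissiblePotential Φ) (hε : 0 < ε) {P : CTree} {T : ℝ} {ℓ : PhasePoint}
    {p : Par P} (hv : Valid Φ ε P T ℓ.2 p) (hs : Sep Φ ε P T ℓ p) {u : ℝ} (hu : u ∈ Icc 0 T)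
    {i j : Idx P} : Ct (path Φ ε P ℓ p) ε u i j ↔
      i = j ∨ InWindow Φ ε P ℓ.2 p i j u ∨ InWindow Φ ε P ℓ.2 p j i u := by
  constructor
  · intro h
    by_contra hn
    push Not at hn
    exact absurd h (not_le.2 (hs i j hn.1 u hu hn.2.1 hn.2.2))
  · rintro (rfl | h | h)
    · show dist _ _ ≤ ε
      rw [dist_self]
      exact hε.le
    · exact InWindow.dist_le hΦ hε P T ℓ p hv i j u h
    · show dist _ _ ≤ ε
      rw [dist_comm]
      exact InWindow.dist_le hΦ hε P T ℓ p hv j i u h

/-! ### The exploration from the root -/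

/-- Every particle of a valid tree is active at its protected time (no separation needed). -/
theorem past_prot (hΦ : AdmissiblePotential Φ) (hε : 0 < ε) : ∀ (P : CTree) (T : ℝ)
    (ℓ : PhasePoint) (p : Par P), Valid Φ ε P T ℓ.2 p → 0 ≤ T → ∀ i : Idx P,
      Past (fun u i j => 0 ≤ u ∧ u ≤ T ∧ Ct (path Φ ε P ℓ p) ε u i j) T (root P)
        (prot P T p i) i
  | leaf, _, _, _, _, _, _ => .root le_rfl
  | node l r, T, ℓ, p, hv, _, i => by
      set s0 := Tree674.sin Φ ε ℓ.2 p.1 with hs0
      have h1 : s0 ≤ p.1.1 := sin_le hε.le ℓ.2 p.1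
      have h2 : p.1.1 ≤ T := hv.2.1.le
      have h0 : 0 < s0 := hv.2.2.1
      rcases i with i | i
      · by_cases hi : i = root l
        · subst hi
          refine .root ?_
          exact (prot_root l T p.2.1).le
        · have h3 := past_prot hΦ hε l s0 (inMap Φ ε ℓ p.1).1 p.2.1 (Valid.left hv) h0.le i
          have h4 := past_map (C := fun u i j => 0 ≤ u ∧ u ≤ T ∧
            Ct (path Φ ε (node l r) ℓ p) ε u i j) (e := Sum.inl) (fun u i j h => by
              refine ⟨h.1, h.2.1.trans (h1.trans h2), ?_⟩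
              show dist _ _ ≤ ε
              rw [path_node_before ℓ p h.2.1]
              exact h.2.2) h3
          have h5 : prot (node l r) T p (Sum.inl i) = prot l s0 p.2.1 i :=
            prot_eq_of_ne l T s0 p.2.1 hi
          rw [h5]
          exact Past.trans (.root (h1.trans h2)) h4
      · have hR : Past (fun u i j => 0 ≤ u ∧ u ≤ T ∧
            Ct (path Φ ε (node l r) ℓ p) ε u i j) T (root (node l r)) p.1.1
              (Sum.inr (root r) : Idx (node l r)) := by
          refine Past.contact (j := (Sum.inl (root l) : Idx (node l r))) (.root h2)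
            ⟨h0.le.trans h1, h2, ?_⟩
          exact InWindow.dist_le hΦ hε (node l r) T ℓ p hv _ _ _ (Or.inl ⟨rfl, rfl, h1, le_rfl⟩)
        by_cases hi : i = root r
        · subst hi
          have h5 : prot (node l r) T p (Sum.inr (root r)) = p.1.1 := prot_root r p.1.1 p.2.2
          rw [h5]
          exact hR
        · have h3 := past_prot hΦ hε r s0 (inMap Φ ε ℓ p.1).2 p.2.2 (Valid.right hv) h0.le i
          have h4 := past_map (C := fun u i j => 0 ≤ u ∧ u ≤ T ∧
            Ct (path Φ ε (node l r) ℓ p) ε u i j) (e := Sum.inr) (fun u i j h => by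
              refine ⟨h.1, h.2.1.trans (h1.trans h2), ?_⟩
              show dist _ _ ≤ ε
              rw [path_node_before ℓ p h.2.1]
              exact h.2.2) h3
          have h5 : prot (node l r) T p (Sum.inr i) = prot r s0 p.2.2 i :=
            prot_eq_of_ne r p.1.1 s0 p.2.2 hi
          rw [h5]
          exact Past.trans (hR.mono h1) h4

/-- **Protected times**: in the isolated world of a valid separated tree, `k` is active at time
`s ≥ 0` in the exploration from `(root, T)` iff `s ≤ prot k`. -/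
theorem past_iff (hΦ : AdmissiblePotential Φ) (hε : 0 < ε) {P : CTree} {T : ℝ} (hT : 0 ≤ T)
    {ℓ : PhasePoint} {p : Par P} (hv : Valid Φ ε P T ℓ.2 p) (hs : Sep Φ ε P T ℓ p) {s : ℝ}
    (h0 : 0 ≤ s) {k : Idx P} :
    Past (Ct (path Φ ε P ℓ p) ε) T (root P) s k ↔ s ≤ prot P T p k := by
  constructor
  · intro h
    have := Act_subset_of_closed (C := Ct (path Φ ε P ℓ p) ε) (t := T) (i := root P) (s₀ := 0)
      (G := fun s => {k | s ≤ prot P T p k}) (fun s _ h => by
        show s ≤ prot P T p (root P)
        rw [prot_root]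
        exact h) (fun s s' _ h _ k hk => le_trans h hk) (fun s j l h1 h2 hj hc => by
        rcases (ct_iff hΦ hε hv hs ⟨h1, h2⟩).1 hc with rfl | h | h
        · exact hj
        · exact (InWindow.le_prot hε.le P T ℓ.2 p hv.2 _ _ _ h).2
        · exact (InWindow.le_prot hε.le P T ℓ.2 p hv.2 _ _ _ h).1) h0
    exact this h
  · intro h
    exact ((past_prot hΦ hε P T ℓ p hv hT k).mono h).mono_rel fun _ _ _ h => h.2.2



/-! ### The same for the Newton flow -/

/-- The isolated world of a configuration. -/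
def world (Φ : Space3 → ℝ) (ε : ℝ) {ι : Type*} [Fintype ι] (V : ι → PhasePoint) :
    ℝ → ι → PhasePoint := fun u => flow Φ ε u V

theorem world_eq_path (hΦ : AdmissiblePotential Φ) (hε : 0 < ε) {P : CTree} {T : ℝ}
    {ℓ : PhasePoint} {p : Par P} (hv : Valid Φ ε P T ℓ.2 p) (hs : Sep Φ ε P T ℓ p) {u : ℝ}
    (hu : u ∈ Icc 0 T) : world Φ ε (lines Φ ε P ℓ p) u = path Φ ε P ℓ p u :=
  (path_eq_flow hΦ hε hv hs hu).symm

theorem past_world_iff (hΦ : AdmissiblePotential Φ) (hε : 0 < ε) {P : CTree} {T : ℝ} (hT : 0 ≤ T)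
    {ℓ : PhasePoint} {p : Par P} (hv : Valid Φ ε P T ℓ.2 p) (hs : Sep Φ ε P T ℓ p) {s : ℝ}
    (h0 : 0 ≤ s) {k : Idx P} :
    Past (Ct (world Φ ε (lines Φ ε P ℓ p)) ε) T (root P) s k ↔ s ≤ prot P T p k := by
  rw [← past_iff hΦ hε hT hv hs h0]
  refine (past_congr (s₀ := 0) (fun s' j l h1 h2 => ?_) h0).symm
  unfold Ct
  rw [world_eq_path hΦ hε hv hs ⟨h1, h2.le⟩]



end Crest.Agent.R122.PathFlow968

end
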