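import Crest.Agent.R122.Relabel_674
import Crest.Agent.R122.GCBounds_311

-- ▼ part R122/TreeBound_335
section

/-!
# Tree bound (row 122): `≤` version of the tree transport, arbitrary kernels

`tree_bound`: if a functional `F k V j` of a labelled configuration (no measurability, no symmetry)
is at most the sum, over all ways of writing `V` as a valid (not necessarily separated) tree rooted
at `j`, of `G P (ℓ, p)`, then the grand canonical integral of `∑_j F k V j` is at most the integral
of `G` over tree parameters.  `le_sum_of_exists`: it is enough to exhibit one such tree.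
-/

set_option autoImplicit false

open MeasureTheory Set
open scoped Classical ENNReal
open Crest.AnalysisR.Kinetic
open Crest.Agent.R122.Kin796 Crest.Agent.R122.Kin796.CTree Crest.Agent.R122.Tree674
open Crest.Agent.R122.Relabel674

noncomputable section

namespace Crest.Agent.R122.TreeBound335

variable {Φ : Space3 → ℝ} {ε : ℝ}

/-- The sum over all ways of writing `V` as a valid tree rooted at `j`. -/
def ways (Φ : Space3 → ℝ) (ε T : ℝ) (G : (P : CTree) → PhasePoint × Par P → ℝ≥0∞) {k : ℕ}
    (V : Config k) (j : Fin k) : ℝ≥0∞ :=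
  ∑' P : CTree, ∑ e : Idx P ≃ Fin k,
    if e (root P) = j ∧ (fun x => V (e x)) ∈ Skel Φ ε P T then
      G P (Tree674.inv Φ ε P T fun x => V (e x)) else 0

/-- One tree is enough. -/
theorem le_ways (hΦ : AdmissiblePotential Φ) (hε : 0 < ε) {T : ℝ}
    {G : (P : CTree) → PhasePoint × Par P → ℝ≥0∞} {k : ℕ} {V : Config k} {j : Fin k}
    {P : CTree} {e : Idx P ≃ Fin k} {ℓ : PhasePoint} {p : Par P} (h0 : e (root P) = j)
    (hv : Valid Φ ε P T ℓ.2 p) (hV : ∀ x, V (e x) = lines Φ ε P ℓ p x) :
    G P (ℓ, p) ≤ ways Φ ε T G V j := by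
  have h1 : (fun x => V (e x)) = lines Φ ε P ℓ p := funext hV
  have h2 : (fun x => V (e x)) ∈ Skel Φ ε P T := by
    rw [h1]; exact ⟨ℓ, p, hv, rfl⟩
  have h3 : Tree674.inv Φ ε P T (fun x => V (e x)) = (ℓ, p) := by
    rw [h1]; exact inv_lines hΦ hε hv le_rfl
  have h4 : G P (ℓ, p) = (if e (root P) = j ∧ (fun x => V (e x)) ∈ Skel Φ ε P T then
      G P (Tree674.inv Φ ε P T fun x => V (e x)) else 0) := by
    rw [if_pos ⟨h0, h2⟩, h3]
  rw [h4]
  refine le_trans ?_ (ENNReal.le_tsum P)
  exact Finset.single_le_sum (f := fun e : Idx P ≃ Fin k =>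
    if e (root P) = j ∧ (fun x => V (e x)) ∈ Skel Φ ε P T then
      G P (Tree674.inv Φ ε P T fun x => V (e x)) else 0) (fun _ _ => zero_le) (Finset.mem_univ e)

/-- The sum over the roots. -/
theorem sum_ways {T : ℝ} (G : (P : CTree) → PhasePoint × Par P → ℝ≥0∞) {k : ℕ} (V : Config k) :
    ∑ j : Fin k, ways Φ ε T G V j = ∑' P : CTree, ∑ e : Idx P ≃ Fin k,
      if (fun x => V (e x)) ∈ Skel Φ ε P T then
        G P (Tree674.inv Φ ε P T fun x => V (e x)) else 0 := by
  unfold ways
  rw [← Summable.tsum_finsetSum fun _ _ => ENNReal.summable]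
  refine tsum_congr fun P => ?_
  rw [Finset.sum_comm]
  refine Finset.sum_congr rfl fun e _ => ?_
  rw [Finset.sum_eq_single (e (root P))]
  · simp
  · intro j _ hj
    rw [if_neg]
    rintro ⟨h, -⟩
    exact hj h.symm
  · intro h
    exact absurd (Finset.mem_univ _) h

/-- **Tree bound.** -/
theorem tree_bound (hΦ : AdmissiblePotential Φ) (hε : 0 < ε) {T : ℝ}
    {G : (P : CTree) → PhasePoint × Par P → ℝ≥0∞} (hG : ∀ P, Measurable (G P)) {k : ℕ}
    {F : Config k → Fin k → ℝ≥0∞} (hF : ∀ V j, F V j ≤ ways Φ ε T G V j) :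
    activity ε ^ k / (k.factorial : ℝ≥0∞) * ∫⁻ V : Config k, ∑ j : Fin k, F V j ≤
      activity ε * ∑' P : CTree, if P.leaves = k then ∫⁻ z : PhasePoint × Par P,
        {z : PhasePoint × Par P | Valid Φ ε P T z.1.2 z.2}.indicator
          (fun z => wt Φ P z.1.2 z.2 * G P z) z else 0 := by
  have hm : ∀ (P : CTree), Measurable fun W : Idx P → PhasePoint =>
      (if W ∈ Skel Φ ε P T then G P (Tree674.inv Φ ε P T W) else 0) := fun P =>
    Measurable.ite (measurableSet_skel hΦ hε P T) ((hG P).comp (measurable_inv hΦ hε P T))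
      measurable_const
  have hm' : ∀ (P : CTree) (e : Idx P ≃ Fin k), Measurable fun V : Config k =>
      (if (fun x => V (e x)) ∈ Skel Φ ε P T then
        G P (Tree674.inv Φ ε P T fun x => V (e x)) else 0) := fun P e =>
    (hm P).comp (measurable_pi_iff.2 fun x => measurable_pi_apply (e x))
  have h1 : ∫⁻ V : Config k, ∑ j : Fin k, F V j ≤ ∫⁻ V : Config k, ∑' P : CTree,
      ∑ e : Idx P ≃ Fin k, if (fun x => V (e x)) ∈ Skel Φ ε P T then
        G P (Tree674.inv Φ ε P T fun x => V (e x)) else 0 := by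
    refine lintegral_mono fun V => ?_
    rw [← sum_ways G V]
    exact Finset.sum_le_sum fun j _ => hF V j
  refine (mul_le_mul_right h1 _).trans ?_
  rw [lintegral_tsum fun P => (Finset.measurable_sum _ fun e _ => hm' P e).aemeasurable,
    ← ENNReal.tsum_mul_left, ← ENNReal.tsum_mul_left]
  refine ENNReal.tsum_le_tsum fun P => ?_
  rw [lintegral_finsetSum _ fun e _ => hm' P e]
  by_cases hP : P.leaves = k
  · subst hP
    rw [if_pos rfl]
    have h2 : ∀ e : Idx P ≃ Fin P.leaves, ∫⁻ V : Config P.leaves,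
        (if (fun x => V (e x)) ∈ Skel Φ ε P T then
          G P (Tree674.inv Φ ε P T fun x => V (e x)) else 0) =
        ENNReal.ofReal (ε ^ 2) ^ P.size * ∫⁻ z : PhasePoint × Par P,
          {z : PhasePoint × Par P | Valid Φ ε P T z.1.2 z.2}.indicator
            (fun z => wt Φ P z.1.2 z.2 * G P z) z := by
      intro e
      rw [lintegral_relabel e]
      have h3 : ∀ W : Idx P → PhasePoint, (fun x => W (e.symm (e x))) = W := fun W => by
        funext x; rw [Equiv.symm_apply_apply]
      simp only [h3]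
      have h4 := treeMeasure hΦ hε P T (H := fun q => G P q.1) ((hG P).comp measurable_fst)
      rw [h4]
      refine lintegral_congr fun W => ?_
      by_cases hW : W ∈ Skel Φ ε P T
      · rw [if_pos hW, indicator_of_mem hW]
      · rw [if_neg hW, indicator_of_notMem hW]
    simp only [h2]
    rw [Finset.sum_const, Finset.card_univ, Fintype.card_equiv (eP P), card_idx, nsmul_eq_mul]
    have hf0 : ((P.leaves).factorial : ℝ≥0∞) ≠ 0 := by
      exact_mod_cast (Nat.factorial_pos _).ne'
    have hft : ((P.leaves).factorial : ℝ≥0∞) ≠ ∞ := ENNReal.natCast_ne_top _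
    have h5 : activity ε ^ P.leaves / ((P.leaves).factorial : ℝ≥0∞) *
        ((P.leaves).factorial : ℝ≥0∞) = activity ε ^ P.leaves :=
      ENNReal.div_mul_cancel hf0 hft
    rw [← mul_assoc, h5, ← mul_assoc, activity_pow_mul hε P]
  · rw [if_neg hP, mul_zero]
    have hem : IsEmpty (Idx P ≃ Fin k) := by
      refine ⟨fun e => hP ?_⟩
      have := Fintype.card_congr e
      rwa [card_idx, Fintype.card_fin] at this
    rw [Finset.sum_eq_zero fun e _ => (hem.false e).elim, mul_zero]

/-- Sum over all cluster sizes. -/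
theorem tree_bound_tsum (hΦ : AdmissiblePotential Φ) (hε : 0 < ε) {T : ℝ}
    {G : (P : CTree) → PhasePoint × Par P → ℝ≥0∞} (hG : ∀ P, Measurable (G P))
    {F : (k : ℕ) → Config k → Fin k → ℝ≥0∞} (hF : ∀ k V j, F k V j ≤ ways Φ ε T G V j) :
    ∑' k : ℕ, activity ε ^ k / (k.factorial : ℝ≥0∞) * ∫⁻ V : Config k, ∑ j : Fin k, F k V j ≤
      activity ε * ∑' P : CTree, ∫⁻ z : PhasePoint × Par P,
        {z : PhasePoint × Par P | Valid Φ ε P T z.1.2 z.2}.indicator
          (fun z => wt Φ P z.1.2 z.2 * G P z) z := by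
  refine (ENNReal.tsum_le_tsum fun k => tree_bound hΦ hε hG (hF k)).trans ?_
  rw [ENNReal.tsum_mul_left]
  refine mul_le_mul_right ?_ _
  rw [ENNReal.tsum_comm]
  refine ENNReal.tsum_le_tsum fun P => ?_
  rw [tsum_eq_single P.leaves]
  · rw [if_pos rfl]
  · intro k hk
    rw [if_neg fun h => hk h.symm]

end Crest.Agent.R122.TreeBound335
end
end

-- ▼ part R122/ToTree_335

/-!
# From Mecke'd real clusters to tree coordinates (row 122, general reduction)

`to_tree`: a Mecke'd sum over clusters `V` (root `j`, rest of the gas `w`, parameter `a`) of an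
arbitrary functional `F` which is, pointwise, at most a functional `H` of ONE valid tree writing `V`
plus a measurable error `B`, is at most the integral of `H` over tree parameters plus the Mecke'd sum
of `B`.
-/

set_option autoImplicit false

open MeasureTheory Set
open scoped Classical ENNReal
open Crest.AnalysisR.Kinetic
open Crest.Agent.R122.Kin796 Crest.Agent.R122.Kin796.CTree Crest.Agent.R122.Tree674
open Crest.Agent.R122.Relabel674 Crest.Agent.R122.TreeBound335 Crest.Agent.R122.GC311

noncomputable section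

namespace Crest.Agent.R122.ToTree335

variable {Φ : Space3 → ℝ} {f₀ : PhasePoint → ℝ} {ε : ℝ}

/-- Product of the initial densities over the particles of a tree. -/
def pf (Φ : Space3 → ℝ) (f₀ : PhasePoint → ℝ) (ε : ℝ) (P : CTree) (z : PhasePoint × Par P) : ℝ≥0∞ :=
  ∏ i, ENNReal.ofReal (f₀ (lines Φ ε P z.1 z.2 i))

/-- Measurable version of `pf`. -/
def pfM (Φ : Space3 → ℝ) (f₀ : PhasePoint → ℝ) (ε : ℝ) (P : CTree) (z : PhasePoint × Par P) :
    ℝ≥0∞ := ∏ i, ENNReal.ofReal (f₀ (linesM Φ ε P z.1 z.2 i))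

theorem measurable_pfM (hΦ : AdmissiblePotential Φ) (hf : Measurable f₀) (P : CTree) :
    Measurable (pfM Φ f₀ ε P) := by
  unfold pfM
  refine Finset.measurable_prod _ fun i _ => ?_
  exact (hf.comp ((measurable_pi_apply i).comp (measurable_linesM hΦ ε P))).ennreal_ofReal

theorem pfM_of_adm {P : CTree} {z : PhasePoint × Par P} (h : Adm Φ P z.1.2 z.2) :
    pfM Φ f₀ ε P z = pf Φ f₀ ε P z := by
  unfold pfM pf
  rw [linesM_of_adm ε h]

theorem measurable_gcE_par {Ω : Type*} [MeasurableSpace Ω] (hf : Measurable f₀)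
    {F : Ω → (n : ℕ) → Config n → ℝ≥0∞}
    (hF : ∀ n, Measurable fun p : Ω × Config n => F p.1 n p.2) :
    Measurable fun ω => gcE f₀ ε (F ω) := by
  unfold gcE
  refine Measurable.const_mul (Measurable.tsum fun n => Measurable.const_mul ?_ _) _
  have h1 : Measurable fun p : Ω × Config n => gcWeight f₀ ε n p.2 * F p.1 n p.2 :=
    ((measurable_gcWeight hf ε n).comp measurable_snd).mul (hF n)
  exact h1.lintegral_prod_right'

/-- Monotonicity of `ways`. -/
theorem ways_mono {T : ℝ} {G G' : (P : CTree) → PhasePoint × Par P → ℝ≥0∞}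
    {k : ℕ} {V : Config k} {j : Fin k}
    (h : ∀ (P : CTree) (e : Idx P ≃ Fin k), e (root P) = j →
      (fun x => V (e x)) ∈ Skel Φ ε P T → G P (Tree674.inv Φ ε P T fun x => V (e x)) ≤
        G' P (Tree674.inv Φ ε P T fun x => V (e x))) :
    ways Φ ε T G V j ≤ ways Φ ε T G' V j := by
  unfold ways
  refine ENNReal.tsum_le_tsum fun P => Finset.sum_le_sum fun e _ => ?_
  by_cases he : e (root P) = j ∧ (fun x => V (e x)) ∈ Skel Φ ε P T
  · rw [if_pos he, if_pos he]
    exact h P e he.1 he.2
  · rw [if_neg he, if_neg he]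

/-- Multiplication of `ways` by a constant. -/
theorem mul_ways {T : ℝ} (c : ℝ≥0∞) (G : (P : CTree) → PhasePoint × Par P → ℝ≥0∞)
    {k : ℕ} (V : Config k) (j : Fin k) :
    c * ways Φ ε T G V j = ways Φ ε T (fun P z => c * G P z) V j := by
  unfold ways
  rw [← ENNReal.tsum_mul_left]
  refine tsum_congr fun P => ?_
  rw [Finset.mul_sum]
  refine Finset.sum_congr rfl fun e _ => ?_
  rw [mul_ite, mul_zero]

variable {α : Type*} [MeasurableSpace α]

/-- Integration of `ways` over a parameter. -/
theorem lintegral_ways (ν : Measure α) {T : ℝ}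
    {G : α → (P : CTree) → PhasePoint × Par P → ℝ≥0∞}
    (hG : ∀ P z, Measurable fun a => G a P z) {k : ℕ} (V : Config k) (j : Fin k) :
    ∫⁻ a, ways Φ ε T (G a) V j ∂ν = ways Φ ε T (fun P z => ∫⁻ a, G a P z ∂ν) V j := by
  unfold ways
  have hm : ∀ (P : CTree) (e : Idx P ≃ Fin k), Measurable fun a =>
      (if e (root P) = j ∧ (fun x => V (e x)) ∈ Skel Φ ε P T then
        G a P (Tree674.inv Φ ε P T fun x => V (e x)) else 0) := by
    intro P e
    by_cases he : e (root P) = j ∧ (fun x => V (e x)) ∈ Skel Φ ε P T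
    · simp only [if_pos he]; exact hG P _
    · simp only [if_neg he]; exact measurable_const
  rw [lintegral_tsum fun P => (Finset.measurable_sum _ fun e _ => hm P e).aemeasurable]
  refine tsum_congr fun P => ?_
  rw [lintegral_finsetSum _ fun e _ => hm P e]
  refine Finset.sum_congr rfl fun e _ => ?_
  by_cases he : e (root P) = j ∧ (fun x => V (e x)) ∈ Skel Φ ε P T
  · simp only [if_pos he]
  · simp only [if_neg he, lintegral_zero]

/-- Gas expectation of `ways`. -/
theorem gcE_ways (hf : Measurable f₀) {T : ℝ}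
    {G : (m : ℕ) → Config m → (P : CTree) → PhasePoint × Par P → ℝ≥0∞}
    (hG : ∀ m P z, Measurable fun w => G m w P z) {k : ℕ} (V : Config k) (j : Fin k) :
    gcE f₀ ε (fun m w => ways Φ ε T (G m w) V j) =
      ways Φ ε T (fun P z => gcE f₀ ε fun m w => G m w P z) V j := by
  unfold ways
  have hm : ∀ (m : ℕ) (P : CTree) (e : Idx P ≃ Fin k), Measurable fun w : Config m =>
      (if e (root P) = j ∧ (fun x => V (e x)) ∈ Skel Φ ε P T then
        G m w P (Tree674.inv Φ ε P T fun x => V (e x)) else 0) := by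
    intro m P e
    by_cases he : e (root P) = j ∧ (fun x => V (e x)) ∈ Skel Φ ε P T
    · simp only [if_pos he]; exact hG m P _
    · simp only [if_neg he]; exact measurable_const
  rw [gcE_tsum hf ε fun P m => Finset.measurable_sum _ fun e _ => hm m P e]
  refine tsum_congr fun P => ?_
  rw [gcE_finset_sum hf ε _ fun e _ m => hm m P e]
  refine Finset.sum_congr rfl fun e _ => ?_
  by_cases he : e (root P) = j ∧ (fun x => V (e x)) ∈ Skel Φ ε P T
  · simp only [if_pos he]
  · simp only [if_neg he, gcE_zero]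

/-- **General reduction to tree coordinates.** -/
theorem to_tree (hΦ : AdmissiblePotential Φ) (hf : Measurable f₀) (hε : 0 < ε) (ν : Measure α)
    [SFinite ν] {T : ℝ}
    {H : (P : CTree) → PhasePoint × Par P → (m : ℕ) → Config m → α → ℝ≥0∞}
    (hH : ∀ P m, Measurable fun q : (PhasePoint × Par P) × (Config m × α) =>
      H P q.1 m q.2.1 q.2.2)
    {F B : (k m : ℕ) → Config k → Config m → Fin k → α → ℝ≥0∞}
    (hB : ∀ k m j, Measurable fun q : Config k × (Config m × α) => B k m q.1 q.2.1 j q.2.2)
    (hpt : ∀ (k m : ℕ) (V : Config k) (w : Config m) (j : Fin k) (a : α),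
      V ∈ PairExcluded ε k → w ∈ PairExcluded ε m → Perp ε V w →
      F k m V w j a ≤ ways Φ ε T (fun P z => H P z m w a) V j + B k m V w j a) :
    ∑' k : ℕ, activity ε ^ k / (k.factorial : ℝ≥0∞) * ∫⁻ V : Config k, gcWeight f₀ ε k V *
        gcE f₀ ε (fun m w => perpInd ε V w * ∑ j : Fin k, ∫⁻ a, F k m V w j a ∂ν) ≤
      activity ε * (∑' P : CTree, ∫⁻ z : PhasePoint × Par P,
        {z : PhasePoint × Par P | Valid Φ ε P T z.1.2 z.2}.indicator
          (fun z => wt Φ P z.1.2 z.2 * (pf Φ f₀ ε P z *
            gcE f₀ ε (fun m w => ∫⁻ a, H P z m w a ∂ν))) z) +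
      ∑' k : ℕ, activity ε ^ k / (k.factorial : ℝ≥0∞) * ∫⁻ V : Config k, gcWeight f₀ ε k V *
        gcE f₀ ε (fun m w => perpInd ε V w * ∑ j : Fin k, ∫⁻ a, B k m V w j a ∂ν) := by
  -- notation
  set HI : (P : CTree) → PhasePoint × Par P → ℝ≥0∞ := fun P z =>
    gcE f₀ ε fun m w => ∫⁻ a, H P z m w a ∂ν with hHI
  set G : (P : CTree) → PhasePoint × Par P → ℝ≥0∞ := fun P z => pfM Φ f₀ ε P z * HI P z with hGdef
  have hHa : ∀ (P : CTree) (z : PhasePoint × Par P) (m : ℕ) (w : Config m),
      Measurable fun a => H P z m w a := fun P z m w =>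
    (hH P m).comp (measurable_const.prodMk (measurable_const.prodMk measurable_id))
  have hHz : ∀ (P : CTree) (m : ℕ), Measurable fun q : (PhasePoint × Par P) × Config m =>
      ∫⁻ a, H P q.1 m q.2 a ∂ν := by
    intro P m
    have h1 : Measurable fun q : ((PhasePoint × Par P) × Config m) × α =>
        H P q.1.1 m q.1.2 q.2 :=
      (hH P m).comp ((measurable_fst.comp measurable_fst).prodMk
        ((measurable_snd.comp measurable_fst).prodMk measurable_snd))
    exact h1.lintegral_prod_right'
  have hHI' : ∀ P, Measurable (HI P) := fun P =>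
    measurable_gcE_par hf (F := fun z m w => ∫⁻ a, H P z m w a ∂ν) fun m => hHz P m
  have hG : ∀ P, Measurable (G P) := fun P => (measurable_pfM hΦ hf P).mul (hHI' P)
  -- the error term
  have hBI : ∀ (k m : ℕ), Measurable fun q : Config k × Config m =>
      perpInd ε q.1 q.2 * ∑ j : Fin k, ∫⁻ a, B k m q.1 q.2 j a ∂ν := by
    intro k m
    refine (measurable_perpInd ε k m).mul (Finset.measurable_sum _ fun j _ => ?_)
    have h1 : Measurable fun q : (Config k × Config m) × α => B k m q.1.1 q.1.2 j q.2 :=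
      (hB k m j).comp ((measurable_fst.comp measurable_fst).prodMk
        ((measurable_snd.comp measurable_fst).prodMk measurable_snd))
    exact h1.lintegral_prod_right'
  -- pointwise in `V`
  have key : ∀ (k : ℕ) (V : Config k), gcWeight f₀ ε k V *
        gcE f₀ ε (fun m w => perpInd ε V w * ∑ j : Fin k, ∫⁻ a, F k m V w j a ∂ν) ≤
      ∑ j : Fin k, ways Φ ε T G V j + gcWeight f₀ ε k V *
        gcE f₀ ε (fun m w => perpInd ε V w * ∑ j : Fin k, ∫⁻ a, B k m V w j a ∂ν) := by
    intro k V
    by_cases hV : V ∈ PairExcluded ε k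
    swap
    · have h0 : gcWeight f₀ ε k V = 0 := by simp [gcWeight, Set.indicator_of_notMem hV]
      rw [h0, zero_mul]
      exact zero_le
    have hgw : gcWeight f₀ ε k V = ∏ i, ENNReal.ofReal (f₀ (V i)) := by
      simp [gcWeight, Set.indicator_of_mem hV]
    have h1 : gcE f₀ ε (fun m w => perpInd ε V w * ∑ j : Fin k, ∫⁻ a, F k m V w j a ∂ν) ≤
        gcE f₀ ε (fun m w => (∑ j : Fin k, ways Φ ε T
            (fun P z => ∫⁻ a, H P z m w a ∂ν) V j) +
          perpInd ε V w * ∑ j : Fin k, ∫⁻ a, B k m V w j a ∂ν) := by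
      refine gcE_mono f₀ ε fun m w hw => ?_
      unfold perpInd
      by_cases hp : Perp ε V w
      swap
      · rw [if_neg hp, zero_mul]; exact zero_le
      rw [if_pos hp, one_mul, one_mul, ← Finset.sum_add_distrib]
      refine Finset.sum_le_sum fun j _ => ?_
      have h2 : ∫⁻ a, F k m V w j a ∂ν ≤ ∫⁻ a, (ways Φ ε T (fun P z => H P z m w a) V j +
          B k m V w j a) ∂ν := lintegral_mono fun a => hpt k m V w j a hV hw hp
      have hBa : Measurable fun a => B k m V w j a :=
        (hB k m j).comp (measurable_const.prodMk (measurable_const.prodMk measurable_id))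
      rw [lintegral_add_right _ hBa,
        lintegral_ways ν (G := fun a P z => H P z m w a) (fun P z => hHa P z m w)] at h2
      exact h2
    have hm1 : ∀ m, Measurable fun w : Config m => ∑ j : Fin k, ways Φ ε T
        (fun P z => ∫⁻ a, H P z m w a ∂ν) V j := by
      intro m
      refine Finset.measurable_sum _ fun j _ => ?_
      unfold ways
      refine Measurable.tsum fun P => Finset.measurable_sum _ fun e _ => ?_
      by_cases he : e (root P) = j ∧ (fun x => V (e x)) ∈ Skel Φ ε P T
      · simp only [if_pos he]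
        exact (hHz P m).comp (measurable_const.prodMk measurable_id)
      · simp only [if_neg he]; exact measurable_const
    rw [gcE_add hf ε hm1, gcE_finset_sum hf ε _ (fun j _ m => by
      have h3 : Measurable fun w : Config m => ways Φ ε T
          (fun P z => ∫⁻ a, H P z m w a ∂ν) V j := by
        unfold ways
        refine Measurable.tsum fun P => Finset.measurable_sum _ fun e _ => ?_
        by_cases he : e (root P) = j ∧ (fun x => V (e x)) ∈ Skel Φ ε P T
        · simp only [if_pos he]
          exact (hHz P m).comp (measurable_const.prodMk measurable_id)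
        · simp only [if_neg he]; exact measurable_const
      exact h3)] at h1
    refine (mul_le_mul_right h1 _).trans ?_
    rw [mul_add]
    refine add_le_add ?_ le_rfl
    rw [Finset.mul_sum]
    refine Finset.sum_le_sum fun j _ => ?_
    rw [gcE_ways hf (G := fun m w P z => ∫⁻ a, H P z m w a ∂ν)
      (fun m P z => (hHz P m).comp (measurable_const.prodMk measurable_id)), mul_ways]
    refine ways_mono fun P e _ hW => ?_
    obtain ⟨hval, hlin⟩ := lines_inv hΦ hε hW
    have h4 : pfM Φ f₀ ε P (Tree674.inv Φ ε P T fun x => V (e x)) = gcWeight f₀ ε k V := by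
      rw [pfM_of_adm hval.1, hgw]
      unfold pf
      rw [hlin]
      exact Fintype.prod_equiv e _ _ fun x => rfl
    simp only [hGdef, hHI, h4]
    exact le_rfl
  -- integration
  have hsum : ∀ k : ℕ, activity ε ^ k / (k.factorial : ℝ≥0∞) * ∫⁻ V : Config k, gcWeight f₀ ε k V *
        gcE f₀ ε (fun m w => perpInd ε V w * ∑ j : Fin k, ∫⁻ a, F k m V w j a ∂ν) ≤
      activity ε ^ k / (k.factorial : ℝ≥0∞) * (∫⁻ V : Config k, ∑ j : Fin k, ways Φ ε T G V j) +
      activity ε ^ k / (k.factorial : ℝ≥0∞) * ∫⁻ V : Config k, gcWeight f₀ ε k V *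
        gcE f₀ ε (fun m w => perpInd ε V w * ∑ j : Fin k, ∫⁻ a, B k m V w j a ∂ν) := by
    intro k
    rw [← mul_add, ← lintegral_add_right]
    · exact mul_le_mul_right (lintegral_mono fun V => key k V) _
    · exact (measurable_gcWeight hf ε k).mul (measurable_gcE_par hf
        (F := fun (V : Config k) m w => perpInd ε V w * ∑ j : Fin k, ∫⁻ a, B k m V w j a ∂ν)
        fun m => hBI k m)
  refine (ENNReal.tsum_le_tsum hsum).trans ?_
  rw [ENNReal.tsum_add]
  refine add_le_add ?_ le_rfl
  have h5 := tree_bound_tsum hΦ hε (T := T) hG (F := fun k V j => ways Φ ε T G V j)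
    (fun k V j => le_rfl)
  refine h5.trans (mul_le_mul_right (ENNReal.tsum_le_tsum fun P => lintegral_mono fun z => ?_) _)
  by_cases hz : Valid Φ ε P T z.1.2 z.2
  · rw [indicator_of_mem (show z ∈ {z : PhasePoint × Par P | Valid Φ ε P T z.1.2 z.2} from hz),
      indicator_of_mem (show z ∈ {z : PhasePoint × Par P | Valid Φ ε P T z.1.2 z.2} from hz)]
    simp only [hGdef, pfM_of_adm hz.1]
    exact le_rfl
  · rw [indicator_of_notMem
      (show z ∉ {z : PhasePoint × Par P | Valid Φ ε P T z.1.2 z.2} from hz)]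
    exact zero_le

end Crest.Agent.R122.ToTree335
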