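import Crest.Agent.R122.Flux_663
import Crest.Agent.R122.Scat3_818
import Crest.Agent.R122.BoltzDefs_814

-- ▼ part R122/FluxInv_663
section

/-!
# Row 122, block F2 (S8): invariance of the flux measure

Liouville-free proof (suggested by helper818): a measurable map of pairs `(b, g)` which preserves
`‖b‖`, `‖g‖`, `⟪b, g⟫ = 0` and commutes with all linear isometries preserves `flux`.
-/

set_option autoImplicit false

open MeasureTheory Set Filter
open Crest.AnalysisR.Kinetic
open scoped ENNReal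

noncomputable section

namespace Crest.Agent.R122.Flux663

open Disc416

/-- The orthogonal group of `Space3`. -/
abbrev OG : Type := unitary (Space3 →L[ℝ] Space3)

/-- The isometry of an element of the orthogonal group. -/
abbrev iso (u : OG) : Space3 ≃ₗᵢ[ℝ] Space3 := Unitary.linearIsometryEquiv u

lemma iso_apply (u : OG) (x : Space3) : iso u x = (u : Space3 →L[ℝ] Space3) x := rfl

instance continuousStar_clm : ContinuousStar (Space3 →L[ℝ] Space3) :=
  ⟨(ContinuousLinearMap.adjoint (𝕜 := ℝ) (E := Space3) (F := Space3)).continuous⟩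

instance : CompactSpace OG := by
  have hp : ProperSpace (Space3 →L[ℝ] Space3) := FiniteDimensional.proper ℝ _
  refine isCompact_iff_compactSpace.1 (Metric.isCompact_of_isClosed_isBounded isClosed_unitary ?_)
  refine (Metric.isBounded_iff_subset_closedBall (0 : Space3 →L[ℝ] Space3)).2 ⟨1, ?_⟩
  intro u hu
  rw [mem_closedBall_zero_iff]
  refine ContinuousLinearMap.opNorm_le_bound _ zero_le_one fun x => ?_
  have := (iso ⟨u, hu⟩).norm_map x
  rw [iso_apply] at this
  rw [one_mul]
  exact this.le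

/-- A right invariant finite measure on the orthogonal group. -/
def nuG : Measure OG := (MeasureTheory.Measure.haar : Measure OG).inv

instance : IsFiniteMeasure nuG := by
  unfold nuG
  infer_instance

instance : nuG.IsMulRightInvariant := by
  unfold nuG
  infer_instance

lemma nuG_univ_ne_zero : nuG univ ≠ 0 := by
  unfold nuG
  rw [Measure.inv_apply]
  simp only [inv_univ]
  exact (isOpen_univ.measure_pos _ univ_nonempty).ne'

lemma nuG_univ_ne_top : nuG univ ≠ ∞ := measure_ne_top _ _

lemma measurable_act : Measurable (fun p : OG × (Space3 × Space3) => (iso p.1 p.2.1, iso p.1 p.2.2)) := by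
  have h : Continuous (fun p : OG × (Space3 × Space3) =>
      (((p.1 : Space3 →L[ℝ] Space3) p.2.1, (p.1 : Space3 →L[ℝ] Space3) p.2.2) : Space3 × Space3)) := by
    have h1 : Continuous (fun p : OG × (Space3 × Space3) => (p.1 : Space3 →L[ℝ] Space3)) :=
      continuous_subtype_val.comp continuous_fst
    exact (h1.clm_apply (by fun_prop)).prodMk (h1.clm_apply (by fun_prop))
  exact h.measurable

/-- Transitivity. -/
lemma exists_iso {b g b' g' : Space3} (hb : ‖b'‖ = ‖b‖) (hg : ‖g'‖ = ‖g‖)
    (h1 : inner ℝ b g = 0) (h2 : inner ℝ b' g' = 0) :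
    ∃ u : OG, iso u b = b' ∧ iso u g = g' := by
  set R1 : Space3 ≃ₗᵢ[ℝ] Space3 := (ℝ ∙ (g - g'))ᗮ.reflection with hR1
  have e1 : R1 g = g' := Submodule.reflection_sub hg.symm
  set b1 := R1 b with hb1
  set R2 : Space3 ≃ₗᵢ[ℝ] Space3 := (ℝ ∙ (b1 - b'))ᗮ.reflection with hR2
  have e2 : R2 b1 = b' := Submodule.reflection_sub (by rw [hb1, R1.norm_map, hb])
  have h3 : inner ℝ b1 g' = 0 := by
    rw [hb1, ← e1, R1.inner_map_map, h1]
  have e3 : R2 g' = g' := by
    refine Submodule.reflection_mem_subspace_eq_self ?_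
    rw [Submodule.mem_orthogonal_singleton_iff_inner_right, inner_sub_left, h3, h2, sub_zero]
  refine ⟨Unitary.linearIsometryEquiv.symm (R1.trans R2), ?_, ?_⟩
  · show (Unitary.linearIsometryEquiv (Unitary.linearIsometryEquiv.symm (R1.trans R2))) b = b'
    rw [MulEquiv.apply_symm_apply]
    simp [← hb1, e2]
  · show (Unitary.linearIsometryEquiv (Unitary.linearIsometryEquiv.symm (R1.trans R2))) g = g'
    rw [MulEquiv.apply_symm_apply]
    simp [e1, e3]

lemma preimage_impactDisc_iso (R : Space3 ≃ₗᵢ[ℝ] Space3) (g : Space3) :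
    R ⁻¹' impactDisc (R g) = impactDisc g := by
  ext b
  simp only [impactDisc, mem_preimage, mem_ofPred_eq, R.inner_map_map, R.norm_map]

/-- The flux measure is invariant under linear isometries. -/
theorem lintegral_flux_iso (R : Space3 ≃ₗᵢ[ℝ] Space3) {F : Space3 × Space3 → ℝ≥0∞}
    (hF : Measurable F) : ∫⁻ e, F (R e.1, R e.2) ∂flux = ∫⁻ e, F e ∂flux := by
  have hR : Measurable R := R.continuous.measurable
  have hF' : Measurable (fun e : Space3 × Space3 => F (R e.1, R e.2)) :=
    hF.comp ((hR.comp measurable_fst).prodMk (hR.comp measurable_snd))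
  rw [lintegral_flux hF', lintegral_flux hF]
  have h1 : ∀ g : Space3, ∫⁻ b in impactDisc g, F (R b, R g) ∂μHE[2] =
      ∫⁻ b in impactDisc (R g), F (b, R g) ∂μHE[2] := by
    intro g
    have := (R.toIsometryEquiv.measurePreserving_euclideanHausdorffMeasure 2).setLIntegral_comp_preimage_emb
      R.toHomeomorph.measurableEmbedding (fun b => F (b, R g)) (impactDisc (R g))
    rw [← this]
    have h2 : (R.toIsometryEquiv : Space3 → Space3) ⁻¹' impactDisc (R g) = impactDisc g :=
      preimage_impactDisc_iso R g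
    rw [h2]
    rfl
  simp only [h1]
  have h3 := R.measurePreserving.lintegral_comp_emb R.toHomeomorph.measurableEmbedding
    (fun g => ENNReal.ofReal ‖g‖ * ∫⁻ b in impactDisc g, F (b, g) ∂μHE[2])
  rw [← h3]
  simp only [R.norm_map]

/-- Averaging over the orthogonal group. -/
lemma average {K : Space3 × Space3 → ℝ≥0∞} (hK : Measurable K) :
    nuG univ * ∫⁻ e, K e ∂flux = ∫⁻ e, ∫⁻ u, K (iso u e.1, iso u e.2) ∂nuG ∂flux := by
  have hm : Measurable (fun p : OG × (Space3 × Space3) => K (iso p.1 p.2.1, iso p.1 p.2.2)) :=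
    hK.comp measurable_act
  rw [← lintegral_lintegral_swap (f := fun (u : OG) (e : Space3 × Space3) => K (iso u e.1, iso u e.2))
    hm.aemeasurable]
  have : ∀ u : OG, ∫⁻ e, K (iso u e.1, iso u e.2) ∂flux = ∫⁻ e, K e ∂flux :=
    fun u => lintegral_flux_iso (iso u) hK
  simp only [this, lintegral_const]
  rw [mul_comm]

/-- (S8), abstract form, lintegral version. -/
theorem lintegral_flux_comp {E : Space3 × Space3 → Space3 × Space3} (hE : Measurable E)
    (h1 : ∀ e ∈ FS, ‖(E e).1‖ = ‖e.1‖) (h2 : ∀ e ∈ FS, ‖(E e).2‖ = ‖e.2‖)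
    (h3 : ∀ e ∈ FS, inner ℝ (E e).1 (E e).2 = 0)
    (hR : ∀ (R : Space3 ≃ₗᵢ[ℝ] Space3) (e : Space3 × Space3), e ∈ FS →
      E (R e.1, R e.2) = (R (E e).1, R (E e).2))
    {H : Space3 × Space3 → ℝ≥0∞} (hH : Measurable H) :
    ∫⁻ e, H (E e) ∂flux = ∫⁻ e, H e ∂flux := by
  have hHE : Measurable (fun e => H (E e)) := hH.comp hE
  have key : ∀ᵐ e ∂flux, ∫⁻ u, H (E (iso u e.1, iso u e.2)) ∂nuG =
      ∫⁻ u, H (iso u e.1, iso u e.2) ∂nuG := by
    filter_upwards [ae_FS] with e he
    obtain ⟨u0, hu1, hu2⟩ := exists_iso (h1 e he) (h2 e he) he.2.1 (h3 e he)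
    have h4 : ∀ u : OG, E (iso u e.1, iso u e.2) = (iso (u * u0) e.1, iso (u * u0) e.2) := by
      intro u
      rw [hR _ _ he, ← hu1, ← hu2]
      simp only [iso, map_mul]
      rfl
    simp only [h4]
    exact lintegral_mul_right_eq_self (fun u : OG => H (iso u e.1, iso u e.2)) u0
  have h5 : nuG univ * ∫⁻ e, H (E e) ∂flux = nuG univ * ∫⁻ e, H e ∂flux := by
    rw [average hHE, average hH]
    exact lintegral_congr_ae key
  exact (ENNReal.mul_right_inj nuG_univ_ne_zero nuG_univ_ne_top).1 h5

/-- (S8), abstract form. -/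
theorem measurePreserving_flux {E : Space3 × Space3 → Space3 × Space3} (hE : Measurable E)
    (h1 : ∀ e ∈ FS, ‖(E e).1‖ = ‖e.1‖) (h2 : ∀ e ∈ FS, ‖(E e).2‖ = ‖e.2‖)
    (h3 : ∀ e ∈ FS, inner ℝ (E e).1 (E e).2 = 0)
    (hR : ∀ (R : Space3 ≃ₗᵢ[ℝ] Space3) (e : Space3 × Space3), e ∈ FS →
      E (R e.1, R e.2) = (R (E e).1, R (E e).2)) :
    MeasurePreserving E flux flux := by
  refine ⟨hE, ?_⟩
  ext A hA
  have h := lintegral_flux_comp hE h1 h2 h3 hR (H := A.indicator 1) (measurable_one.indicator hA)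
  rw [lintegral_indicator_one hA] at h
  rw [← h, Measure.map_apply hE hA, ← lintegral_indicator_one (hE hA)]
  rfl

end Crest.Agent.R122.Flux663
end
end

-- ▼ part R122/FluxScat_663
section

/-!
# Row 122, block F2 (S8): invariance of the flux measure under the scattering map

`scatE Φ (b, g) = (b', g')` (identity off the set `FS` of honest pairs and on trapped pairs).
Measurability of `scatE Φ` is a hypothesis here (helper818, Scat4).
-/

set_option autoImplicit false

open MeasureTheory Set Filter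
open Crest.AnalysisR.Kinetic
open scoped ENNReal

noncomputable section

namespace Crest.Agent.R122.Flux663

open Disc416 Scat818

variable {Φ : Space3 → ℝ}

/-- The scattering map on pairs `(b, g)`. -/
def scatE (Φ : Space3 → ℝ) (e : Space3 × Space3) : Space3 × Space3 :=
  open scoped Classical in
  if e ∈ FS then (exitImpact Φ e.1 e.2, exitVelocity Φ e.1 e.2) else e

lemma scatE_of_mem {e : Space3 × Space3} (he : e ∈ FS) :
    scatE Φ e = (exitImpact Φ e.1 e.2, exitVelocity Φ e.1 e.2) := if_pos he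

lemma scatE_of_not_mem {e : Space3 × Space3} (he : e ∉ FS) : scatE Φ e = e := if_neg he

lemma scatE_mem (hΦ : AdmissiblePotential Φ) {e : Space3 × Space3} (he : e ∈ FS) :
    scatE Φ e ∈ FS := by
  rw [scatE_of_mem he]
  exact ⟨exitVelocity_ne_zero hΦ he.2 he.1, exitImpact_mem hΦ he.2 he.1⟩

lemma scatE_norm1 (hΦ : AdmissiblePotential Φ) {e : Space3 × Space3} (he : e ∈ FS) :
    ‖(scatE Φ e).1‖ = ‖e.1‖ := by
  rw [scatE_of_mem he]
  exact norm_exitImpact hΦ he.2 he.1

lemma scatE_norm2 (hΦ : AdmissiblePotential Φ) {e : Space3 × Space3} (he : e ∈ FS) :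
    ‖(scatE Φ e).2‖ = ‖e.2‖ := by
  rw [scatE_of_mem he]
  exact norm_exitVelocity hΦ he.2 he.1

/-- `R` acting on pairs. -/
def isoE (R : Space3 ≃ₗᵢ[ℝ] Space3) (e : Space3 × Space3) : Space3 × Space3 := (R e.1, R e.2)

lemma isoE_mem (R : Space3 ≃ₗᵢ[ℝ] Space3) {e : Space3 × Space3} : isoE R e ∈ FS ↔ e ∈ FS := by
  simp [isoE, mem_FS, R.inner_map_map, R.norm_map]

lemma scatE_isoE (hΦ : AdmissiblePotential Φ) (R : Space3 ≃ₗᵢ[ℝ] Space3) {e : Space3 × Space3}
    (he : e ∈ FS) : scatE Φ (isoE R e) = isoE R (scatE Φ e) := by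
  rw [scatE_of_mem ((isoE_mem R).2 he), scatE_of_mem he]
  unfold isoE
  rw [exitImpact_isometry hΦ R he.2 he.1, exitVelocity_isometry hΦ R he.2 he.1]

/-- (S8) The scattering map preserves the flux measure. -/
theorem measurePreserving_scatE (hΦ : AdmissiblePotential Φ) (hm : Measurable (scatE Φ)) :
    MeasurePreserving (scatE Φ) flux flux := by
  refine measurePreserving_flux hm (fun e he => scatE_norm1 hΦ he) (fun e he => scatE_norm2 hΦ he)
    (fun e he => (scatE_mem hΦ he).2.1) (fun R e he => ?_)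
  exact scatE_isoE hΦ R he

/-- Time reversal of pairs. -/
def rev (e : Space3 × Space3) : Space3 × Space3 := (e.1, -e.2)

/-- Parity composed with time reversal. -/
def par (e : Space3 × Space3) : Space3 × Space3 := (-e.1, e.2)

lemma rev_mem {e : Space3 × Space3} : rev e ∈ FS ↔ e ∈ FS := by
  simp [rev, mem_FS]


@[simp] lemma rev_rev (e : Space3 × Space3) : rev (rev e) = e := by simp [rev]

@[simp] lemma par_par (e : Space3 × Space3) : par (par e) = e := by simp [par]


lemma measurable_par : Measurable par := by unfold par; fun_prop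

/-- For a honest pair, time reversal is an isometry (the reflection in the plane orthogonal to
`g`). -/
lemma exists_iso_rev {e : Space3 × Space3} (he : e ∈ FS) :
    ∃ R : Space3 ≃ₗᵢ[ℝ] Space3, isoE R e = rev e := by
  refine ⟨(ℝ ∙ e.2)ᗮ.reflection, ?_⟩
  unfold isoE rev
  congr 1
  · refine Submodule.reflection_mem_subspace_eq_self ?_
    rw [Submodule.mem_orthogonal_singleton_iff_inner_left]
    exact he.2.1
  · exact Submodule.reflection_orthogonalComplement_singleton_eq_neg e.2


lemma measurePreserving_par : MeasurePreserving par flux flux := by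
  refine measurePreserving_flux measurable_par (fun e _ => by simp [par]) (fun e _ => rfl)
    (fun e he => by simpa [par] using he.2.1) (fun R e _ => by simp [par])

/-- Reversibility, everywhere on `FS`. -/
theorem scatE_rev_scatE (hΦ : AdmissiblePotential Φ) {e : Space3 × Space3} (he : e ∈ FS) :
    scatE Φ (rev (scatE Φ e)) = rev e := by
  by_cases h : ∃ τ, HasExit Φ (inc e.1 e.2) τ
  · obtain ⟨τ, hτ⟩ := h
    obtain ⟨h1, h2⟩ := exit_exit hΦ he.2 he.1 hτ
    rw [scatE_of_mem (rev_mem.2 (scatE_mem hΦ he)), scatE_of_mem he]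
    unfold rev
    exact Prod.ext h2 h1
  · have h1 : scatE Φ e = e := by
      rw [scatE_of_mem he, exitImpact_of_not h, exitVelocity_of_not hΦ (reg_entrance Φ he.2 he.1) h]
    rw [h1]
    obtain ⟨R, hR⟩ := exists_iso_rev he
    rw [← hR, scatE_isoE hΦ R he, h1]

/-- Reversibility with parity. -/
theorem scatE_par_scatE (hΦ : AdmissiblePotential Φ) {e : Space3 × Space3} (he : e ∈ FS) :
    scatE Φ (par (scatE Φ e)) = par e := by
  have h1 : ∀ e : Space3 × Space3, isoE (LinearIsometryEquiv.neg ℝ) (rev e) = par e := by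
    intro e
    simp [isoE, rev, par]
  rw [← h1 (scatE Φ e), scatE_isoE hΦ _ (rev_mem.2 (scatE_mem hΦ he)), scatE_rev_scatE hΦ he, h1]


/-- Exchange of incoming and outgoing data. -/
theorem lintegral_exchange (hΦ : AdmissiblePotential Φ) (hm : Measurable (scatE Φ))
    {F : (Space3 × Space3) × (Space3 × Space3) → ℝ≥0∞} (hF : Measurable F) :
    ∫⁻ e, F (e, scatE Φ e) ∂flux = ∫⁻ e, F (par (scatE Φ e), par e) ∂flux := by
  have h1 : MeasurePreserving (fun e => par (scatE Φ e)) flux flux :=
    measurePreserving_par.comp (measurePreserving_scatE hΦ hm)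
  have h2 : Measurable (fun e : Space3 × Space3 => F (e, scatE Φ e)) :=
    hF.comp (measurable_id.prodMk hm)
  rw [← h1.lintegral_comp h2]
  refine lintegral_congr_ae ?_
  filter_upwards [ae_FS] with e he
  rw [scatE_par_scatE hΦ he]


end Crest.Agent.R122.Flux663
end
end

-- ▼ part R122/FluxQ_663

/-!
# Row 122, block F2 (S8), velocity form

`|v - w| dv dw dμHE[2](b)` is invariant under `(v, w, b) ↦ (v', w', b')`, exchange of incoming and
outgoing data, weak form and mass identity of the gain operator `Qp`.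
-/

set_option autoImplicit false

open MeasureTheory Set Filter
open Crest.AnalysisR.Kinetic
open scoped ENNReal

noncomputable section

namespace Crest.Agent.R122.Flux663

open Disc416 Scat818 Boltz814

variable {Φ : Space3 → ℝ}

/-- Centre of mass and relative velocity: `(V, g) ↦ (V + g/2, V - g/2)`. -/
def cm (p : Space3 × Space3) : Space3 × Space3 :=
  (p.1 + (1 / 2 : ℝ) • p.2, p.1 - (1 / 2 : ℝ) • p.2)

lemma measurable_cm : Measurable cm := by unfold cm; fun_prop

lemma measurePreserving_cm : MeasurePreserving cm (volume : Measure (Space3 × Space3)) volume := by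
  -- (V, g) ↦ (V + g/2, g) ↦ (v, v - g)
  have h1 : MeasurePreserving (fun p : Space3 × Space3 => (p.1, p.2 + (1 / 2 : ℝ) • p.1))
      ((volume : Measure Space3).prod volume) ((volume : Measure Space3).prod volume) := by
    refine MeasurePreserving.skew_product (f := id) (g := fun g v => v + (1 / 2 : ℝ) • g)
      (MeasurePreserving.id _) (by fun_prop) (Eventually.of_forall fun g => ?_)
    exact (measurePreserving_add_right volume ((1 / 2 : ℝ) • g)).map_eq
  have h2 : MeasurePreserving (fun p : Space3 × Space3 => (p.1, p.1 - p.2))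
      ((volume : Measure Space3).prod volume) ((volume : Measure Space3).prod volume) := by
    refine MeasurePreserving.skew_product (f := id) (g := fun v g => v - g)
      (MeasurePreserving.id _) (by fun_prop) (Eventually.of_forall fun v => ?_)
    exact (Measure.measurePreserving_sub_left volume v).map_eq
  have h3 : MeasurePreserving (Prod.swap : Space3 × Space3 → Space3 × Space3)
      ((volume : Measure Space3).prod volume) ((volume : Measure Space3).prod volume) :=
    Measure.measurePreserving_swap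
  have h := h2.comp (h3.comp (h1.comp h3))
  have he : cm = (fun p : Space3 × Space3 => (p.1, p.1 - p.2)) ∘ (Prod.swap ∘
      ((fun p : Space3 × Space3 => (p.1, p.2 + (1 / 2 : ℝ) • p.1)) ∘ Prod.swap)) := by
    funext p
    refine Prod.ext rfl ?_
    show p.1 - (1 / 2 : ℝ) • p.2 = (p.1 + (1 / 2 : ℝ) • p.2) - p.2
    rw [add_sub_assoc, sub_eq_add_neg]
    congr 1
    have : p.2 = (1 / 2 : ℝ) • p.2 + (1 / 2 : ℝ) • p.2 := by rw [← add_smul]; norm_num
    nth_rewrite 3 [this]
    abel
  rw [he]
  exact h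

/-- Change of variables `(v, w) = (V + g/2, V - g/2)`. -/
theorem lintegral_cm {H : Space3 → Space3 → ℝ≥0∞} (hH : Measurable (Function.uncurry H)) :
    ∫⁻ v, ∫⁻ w, H v w =
      ∫⁻ V : Space3, ∫⁻ g : Space3, H (V + (1 / 2 : ℝ) • g) (V - (1 / 2 : ℝ) • g) := by
  have hH2 : Measurable (fun p : Space3 × Space3 => H p.1 p.2) := hH
  have h1 : ∫⁻ v, ∫⁻ w, H v w = ∫⁻ p : Space3 × Space3, H p.1 p.2 := by
    rw [Measure.volume_eq_prod, lintegral_prod _ hH2.aemeasurable]
  have hH3 : Measurable (fun p : Space3 × Space3 => H (cm p).1 (cm p).2) := hH2.comp measurable_cm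
  rw [h1, ← measurePreserving_cm.lintegral_comp hH2, Measure.volume_eq_prod,
    lintegral_prod _ hH3.aemeasurable]
  rfl

lemma cm_sub (V g : Space3) : (V + (1 / 2 : ℝ) • g) - (V - (1 / 2 : ℝ) • g) = g := by
  have : g = (1 / 2 : ℝ) • g + (1 / 2 : ℝ) • g := by rw [← add_smul]; norm_num
  nth_rewrite 3 [this]
  abel

lemma cm_add (V g : Space3) :
    (1 / 2 : ℝ) • ((V + (1 / 2 : ℝ) • g) + (V - (1 / 2 : ℝ) • g)) = V := by
  have : (V + (1 / 2 : ℝ) • g) + (V - (1 / 2 : ℝ) • g) = V + V := by abel
  rw [this, smul_add, ← add_smul]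
  norm_num


/-- Integration over `(v, w, b)` in centre of mass coordinates. -/
theorem lintegral_vwb {F : Space3 → Space3 → Space3 → ℝ≥0∞}
    (hF : Measurable (fun p : Space3 × Space3 × Space3 => F p.1 p.2.1 p.2.2)) :
    ∫⁻ v, ∫⁻ w, ENNReal.ofReal ‖v - w‖ * ∫⁻ b in impactDisc (v - w), F v w b ∂μHE[2] =
      ∫⁻ V : Space3, ∫⁻ e, F (V + (1 / 2 : ℝ) • e.2) (V - (1 / 2 : ℝ) • e.2) e.1 ∂flux := by
  have h1 : Measurable (Function.uncurry fun v w : Space3 =>
      ENNReal.ofReal ‖v - w‖ * ∫⁻ b in impactDisc (v - w), F v w b ∂μHE[2]) := by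
    have := measurable_lintegral_disc (α := Space3 × Space3) (G := fun p => p.1 - p.2)
      (by fun_prop) (F := fun p b => F p.1 p.2 b)
      (hF.comp ((measurable_fst.comp measurable_fst).prodMk
        ((measurable_snd.comp measurable_fst).prodMk measurable_snd)))
    exact this
  rw [lintegral_cm h1]
  refine lintegral_congr fun V => ?_
  have h2 : Measurable (fun e : Space3 × Space3 =>
      F (V + (1 / 2 : ℝ) • e.2) (V - (1 / 2 : ℝ) • e.2) e.1) := by
    refine hF.comp (Measurable.prodMk ?_ (Measurable.prodMk ?_ measurable_fst))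
    · exact (measurable_snd.const_smul (1 / 2 : ℝ)).const_add V
    · exact (measurable_snd.const_smul (1 / 2 : ℝ)).const_sub V
  rw [lintegral_flux h2]
  refine lintegral_congr fun g => ?_
  rw [cm_sub]

/-- (S8) Exchange of incoming and outgoing data, full form. `F` is a function of
`(v, w, b; v', w', b')`. -/
theorem lintegral_exchange_vwb (hΦ : AdmissiblePotential Φ) (hm : Measurable (scatE Φ))
    {F : (Space3 × Space3 × Space3) × (Space3 × Space3 × Space3) → ℝ≥0∞} (hF : Measurable F) :
    ∫⁻ v, ∫⁻ w, ENNReal.ofReal ‖v - w‖ * ∫⁻ b in impactDisc (v - w),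
        F ((v, w, b), ((postVelocities Φ b v w).1, (postVelocities Φ b v w).2,
          exitImpact Φ b (v - w))) ∂μHE[2] =
      ∫⁻ v, ∫⁻ w, ENNReal.ofReal ‖v - w‖ * ∫⁻ b in impactDisc (v - w),
        F (((postVelocities Φ b v w).1, (postVelocities Φ b v w).2, -exitImpact Φ b (v - w)),
          (v, w, -b)) ∂μHE[2] := by
  -- replace by the everywhere measurable version
  set X : Space3 → Space3 × Space3 → Space3 × Space3 × Space3 :=
    fun V e => (V + (1 / 2 : ℝ) • e.2, V - (1 / 2 : ℝ) • e.2, e.1) with hX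
  have hXm : Measurable (fun p : Space3 × (Space3 × Space3) => X p.1 p.2) := by
    rw [hX]
    have h2 : Measurable (fun p : Space3 × (Space3 × Space3) => (1 / 2 : ℝ) • p.2.2) :=
      (measurable_snd.comp measurable_snd).const_smul (1 / 2 : ℝ)
    exact (measurable_fst.add h2).prodMk ((measurable_fst.sub h2).prodMk
      (measurable_fst.comp measurable_snd))
  have key : ∀ {G : (Space3 × Space3 × Space3) × (Space3 × Space3 × Space3) → ℝ≥0∞},
      Measurable G →
      ∫⁻ v, ∫⁻ w, ENNReal.ofReal ‖v - w‖ * ∫⁻ b in impactDisc (v - w),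
        G ((v, w, b), ((postVelocities Φ b v w).1, (postVelocities Φ b v w).2,
          exitImpact Φ b (v - w))) ∂μHE[2] =
      ∫⁻ V : Space3, ∫⁻ e, G (X V e, X V (scatE Φ e)) ∂flux := by
    intro G hG
    have hF1 : Measurable (fun p : Space3 × Space3 × Space3 =>
        G ((p.1, p.2.1, p.2.2), X ((1 / 2 : ℝ) • (p.1 + p.2.1)) (scatE Φ (p.2.2, p.1 - p.2.1)))) := by
      refine hG.comp (measurable_id.prodMk ?_)
      refine hXm.comp (Measurable.prodMk ?_ (hm.comp (Measurable.prodMk ?_ ?_)))
      · exact (measurable_fst.add (measurable_fst.comp measurable_snd)).const_smul (1 / 2 : ℝ)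
      · exact measurable_snd.comp measurable_snd
      · exact measurable_fst.sub (measurable_fst.comp measurable_snd)
    have h1 := lintegral_vwb (F := fun v w b =>
      G ((v, w, b), X ((1 / 2 : ℝ) • (v + w)) (scatE Φ (b, v - w)))) hF1
    have h2 : ∫⁻ v, ∫⁻ w, ENNReal.ofReal ‖v - w‖ * ∫⁻ b in impactDisc (v - w),
        G ((v, w, b), ((postVelocities Φ b v w).1, (postVelocities Φ b v w).2,
          exitImpact Φ b (v - w))) ∂μHE[2] =
        ∫⁻ v, ∫⁻ w, ENNReal.ofReal ‖v - w‖ * ∫⁻ b in impactDisc (v - w),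
        G ((v, w, b), X ((1 / 2 : ℝ) • (v + w)) (scatE Φ (b, v - w))) ∂μHE[2] := by
      refine lintegral_congr fun v => lintegral_congr fun w => ?_
      by_cases hg : v - w = 0
      · simp [hg]
      · congr 1
        refine setLIntegral_congr_fun (measurableSet_impactDisc _) fun b hb => ?_
        rw [scatE_of_mem (e := (b, v - w)) ⟨hg, hb⟩]
        rfl
    rw [h2, h1]
    refine lintegral_congr fun V => lintegral_congr fun e => ?_
    simp only [cm_sub, cm_add, hX]
  rw [key hF]
  have hG2 : Measurable (fun q : (Space3 × Space3 × Space3) × (Space3 × Space3 × Space3) =>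
      F ((q.2.1, q.2.2.1, -q.2.2.2), (q.1.1, q.1.2.1, -q.1.2.2))) := by
    refine hF.comp (Measurable.prodMk ?_ ?_)
    · fun_prop
    · fun_prop
  rw [key hG2]
  refine lintegral_congr fun V => ?_
  have hF3 : Measurable (fun q : (Space3 × Space3) × (Space3 × Space3) => F (X V q.1, X V q.2)) := by
    refine hF.comp (Measurable.prodMk ?_ ?_)
    · exact hXm.comp (measurable_const.prodMk measurable_fst)
    · exact hXm.comp (measurable_const.prodMk measurable_snd)
  exact lintegral_exchange hΦ hm hF3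


/-- Exchange form for functions of the velocities only. -/
theorem lintegral_exchange_vw (hΦ : AdmissiblePotential Φ) (hm : Measurable (scatE Φ))
    {F : (Space3 × Space3) × (Space3 × Space3) → ℝ≥0∞} (hF : Measurable F) :
    ∫⁻ v, ∫⁻ w, ENNReal.ofReal ‖v - w‖ * ∫⁻ b in impactDisc (v - w),
        F ((v, w), postVelocities Φ b v w) ∂μHE[2] =
      ∫⁻ v, ∫⁻ w, ENNReal.ofReal ‖v - w‖ * ∫⁻ b in impactDisc (v - w),
        F (postVelocities Φ b v w, (v, w)) ∂μHE[2] := by
  have hF' : Measurable (fun q : (Space3 × Space3 × Space3) × (Space3 × Space3 × Space3) =>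
      F ((q.1.1, q.1.2.1), (q.2.1, q.2.2.1))) := hF.comp (by fun_prop)
  exact lintegral_exchange_vwb hΦ hm hF'

/-- Weak form of the gain operator. -/
theorem lintegral_mul_Qp (hΦ : AdmissiblePotential Φ) (hm : Measurable (scatE Φ))
    {φ h₁ h₂ : Space3 → ℝ≥0∞} (hφ : Measurable φ) (h₁m : Measurable h₁) (h₂m : Measurable h₂) :
    ∫⁻ v, φ v * Qp Φ h₁ h₂ v =
      ∫⁻ v, ∫⁻ w, ENNReal.ofReal ‖v - w‖ * ∫⁻ b in impactDisc (v - w),
        φ (postVelocities Φ b v w).1 * (h₁ v * h₂ w) ∂μHE[2] := by
  have hF : Measurable (fun q : (Space3 × Space3) × (Space3 × Space3) =>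
      φ q.1.1 * (h₁ q.2.1 * h₂ q.2.2)) := by
    fun_prop
  have h := lintegral_exchange_vw hΦ hm hF
  simp only at h
  rw [← h]
  have hmix : ∀ v w : Space3, ENNReal.ofReal ‖v - w‖ * ∫⁻ b in impactDisc (v - w),
        φ v * (h₁ (postVelocities Φ b v w).1 * h₂ (postVelocities Φ b v w).2) ∂μHE[2] =
      φ v * (ENNReal.ofReal ‖v - w‖ * ∫⁻ b in impactDisc (v - w),
        h₁ (postVelocities Φ b v w).1 * h₂ (postVelocities Φ b v w).2 ∂μHE[2]) := by
    intro v w
    by_cases hg : v - w = 0
    · simp [hg]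
    · have hmeas : Measurable (fun b : Space3 =>
          h₁ ((1 / 2 : ℝ) • (v + w) + (1 / 2 : ℝ) • (scatE Φ (b, v - w)).2) *
            h₂ ((1 / 2 : ℝ) • (v + w) - (1 / 2 : ℝ) • (scatE Φ (b, v - w)).2)) := by
        have h5 : Measurable (fun b : Space3 => (1 / 2 : ℝ) • (scatE Φ (b, v - w)).2) :=
          ((measurable_snd.comp (hm.comp (measurable_id.prodMk measurable_const))).const_smul
            (1 / 2 : ℝ))
        exact (h₁m.comp (h5.const_add _)).mul (h₂m.comp (h5.const_sub _))
      have heq : ∀ b ∈ impactDisc (v - w),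
          h₁ (postVelocities Φ b v w).1 * h₂ (postVelocities Φ b v w).2 =
          h₁ ((1 / 2 : ℝ) • (v + w) + (1 / 2 : ℝ) • (scatE Φ (b, v - w)).2) *
            h₂ ((1 / 2 : ℝ) • (v + w) - (1 / 2 : ℝ) • (scatE Φ (b, v - w)).2) := by
        intro b hb
        rw [scatE_of_mem (e := (b, v - w)) ⟨hg, hb⟩]
        rfl
      have e1 : ∫⁻ b in impactDisc (v - w),
          h₁ (postVelocities Φ b v w).1 * h₂ (postVelocities Φ b v w).2 ∂μHE[2] =
          ∫⁻ b in impactDisc (v - w),
            h₁ ((1 / 2 : ℝ) • (v + w) + (1 / 2 : ℝ) • (scatE Φ (b, v - w)).2) *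
            h₂ ((1 / 2 : ℝ) • (v + w) - (1 / 2 : ℝ) • (scatE Φ (b, v - w)).2) ∂μHE[2] :=
        setLIntegral_congr_fun (measurableSet_impactDisc _) heq
      have e2 : ∫⁻ b in impactDisc (v - w),
          φ v * (h₁ (postVelocities Φ b v w).1 * h₂ (postVelocities Φ b v w).2) ∂μHE[2] =
          ∫⁻ b in impactDisc (v - w),
            φ v * (h₁ ((1 / 2 : ℝ) • (v + w) + (1 / 2 : ℝ) • (scatE Φ (b, v - w)).2) *
            h₂ ((1 / 2 : ℝ) • (v + w) - (1 / 2 : ℝ) • (scatE Φ (b, v - w)).2)) ∂μHE[2] :=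
        setLIntegral_congr_fun (measurableSet_impactDisc _) fun b hb => by
          rw [heq b hb]
      rw [e1, e2, lintegral_const_mul _ hmeas]
      ring
  have hmQ : ∀ v : Space3, Measurable (fun w : Space3 => ENNReal.ofReal ‖v - w‖ *
      ∫⁻ b in impactDisc (v - w),
        h₁ (postVelocities Φ b v w).1 * h₂ (postVelocities Φ b v w).2 ∂μHE[2]) := by
    intro v
    have h6 : (fun w : Space3 => ENNReal.ofReal ‖v - w‖ * ∫⁻ b in impactDisc (v - w),
        h₁ (postVelocities Φ b v w).1 * h₂ (postVelocities Φ b v w).2 ∂μHE[2]) =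
        fun w : Space3 => ENNReal.ofReal ‖v - w‖ * ∫⁻ b in impactDisc (v - w),
          h₁ ((1 / 2 : ℝ) • (v + w) + (1 / 2 : ℝ) • (scatE Φ (b, v - w)).2) *
            h₂ ((1 / 2 : ℝ) • (v + w) - (1 / 2 : ℝ) • (scatE Φ (b, v - w)).2) ∂μHE[2] := by
      funext w
      by_cases hg : v - w = 0
      · simp [hg]
      · congr 1
        refine setLIntegral_congr_fun (measurableSet_impactDisc _) fun b hb => ?_
        rw [scatE_of_mem (e := (b, v - w)) ⟨hg, hb⟩]
        rfl
    rw [h6]
    refine measurable_lintegral_disc (α := Space3) (G := fun w => v - w) (by fun_prop)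
      (F := fun w b => h₁ ((1 / 2 : ℝ) • (v + w) + (1 / 2 : ℝ) • (scatE Φ (b, v - w)).2) *
            h₂ ((1 / 2 : ℝ) • (v + w) - (1 / 2 : ℝ) • (scatE Φ (b, v - w)).2)) ?_
    have h7 : Measurable (fun p : Space3 × Space3 => (1 / 2 : ℝ) • (scatE Φ (p.2, v - p.1)).2) :=
      ((measurable_snd.comp (hm.comp (measurable_snd.prodMk
        (measurable_fst.const_sub v)))).const_smul (1 / 2 : ℝ))
    have h8 : Measurable (fun p : Space3 × Space3 => (1 / 2 : ℝ) • (v + p.1)) :=
      (measurable_fst.const_add v).const_smul (1 / 2 : ℝ)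
    exact (h₁m.comp (h8.add h7)).mul (h₂m.comp (h8.sub h7))
  refine lintegral_congr fun v => ?_
  unfold Qp
  rw [← lintegral_const_mul _ (hmQ v)]
  refine lintegral_congr fun w => ?_
  exact (hmix v w).symm


end Crest.Agent.R122.Flux663
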