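import Crest.Agent.R122.KinMain_796
import Crest.Agent.R122.FluxQ_663
import Crest.Agent.R122.Scat5_818

-- ▼ part R122/BoltzL1_814
section

/-!
Row 122, Boltzmann side (helper814): L¹ estimates for the Boltzmann solution, part 1:
measurability of the scattering map, the weighted L¹ bound of the gain operator, and the
singular Gronwall kernel.
-/

set_option autoImplicit false

open MeasureTheory ProbabilityTheory Set
open Crest.AnalysisR.Kinetic
open Crest.Agent.R122.Kin416 Crest.Agent.R122.Kin796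
open scoped ENNReal

noncomputable section

namespace Crest.Agent.R122.Boltz814

variable {Φ : Space3 → ℝ}

theorem measurable_scatE (hΦ : AdmissiblePotential Φ) : Measurable (Flux663.scatE Φ) := by
  have h : Flux663.scatE Φ = Scat818.scat Φ := by
    funext p
    by_cases hp : p ∈ Flux663.FS
    · rw [Flux663.scatE_of_mem hp, Scat818.scat_of_gincid hΦ ⟨hp.2, hp.1⟩]
    · rw [Flux663.scatE_of_not_mem hp, Scat818.scat_of_not]
      rintro ⟨h1, _⟩
      exact hp ⟨h1.2, h1.1⟩
  rw [h]
  exact Scat818.measurable_scat hΦ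


/-- weak form of the gain operator, unconditional -/
theorem lintegral_mul_Qp (hΦ : AdmissiblePotential Φ)
    {φ h₁ h₂ : Space3 → ℝ≥0∞} (hφ : Measurable φ) (h₁m : Measurable h₁) (h₂m : Measurable h₂) :
    ∫⁻ v, φ v * Qp Φ h₁ h₂ v =
      ∫⁻ v, ∫⁻ w, ENNReal.ofReal ‖v - w‖ * ∫⁻ b in impactDisc (v - w),
        φ (postVelocities Φ b v w).1 * (h₁ v * h₂ w) ∂μHE[2] :=
  Flux663.lintegral_mul_Qp hΦ (measurable_scatE hΦ) hφ h₁m h₂m


/-- growing Gaussian weights are submultiplicative along collisions -/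
lemma gau_neg_post_le (hΦ : AdmissiblePotential Φ) {γ : ℝ} (hγ : 0 ≤ γ) {b v w : Space3}
    (hb : b ∈ impactDisc (v - w)) (hvw : v - w ≠ 0) :
    gau (-γ) (postVelocities Φ b v w).1 ≤ gau (-γ) v * gau (-γ) w := by
  have he := norm_sq_post (Scat818.scatFacts hΦ) hb hvw
  unfold gau
  rw [← ENNReal.ofReal_mul (Real.exp_nonneg _), ← Real.exp_add]
  refine ENNReal.ofReal_le_ofReal (Real.exp_le_exp.2 ?_)
  nlinarith [sq_nonneg ‖(postVelocities Φ b v w).2‖]

/-- weighted `L¹` bound of the gain operator -/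
theorem lintegral_gau_mul_Qp_le (hΦ : AdmissiblePotential Φ) {γ : ℝ} (hγ0 : 0 ≤ γ)
    {h k : Space3 → ℝ≥0∞} (hm : Measurable h) (km : Measurable k) :
    ∫⁻ v, gau (-γ) v * Qp Φ h k v ≤
      ∫⁻ v, (gau (-γ) v * h v) * nuE (fun w => gau (-γ) w * k w) v := by
  rw [lintegral_mul_Qp hΦ (measurable_gau _) hm km]
  refine lintegral_mono fun v => ?_
  unfold nuE
  rw [← mul_assoc, mul_comm (gau (-γ) v * h v) (ENNReal.ofReal Real.pi), mul_assoc,
    ← lintegral_const_mul _ (by have := measurable_gau (-γ); fun_prop),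
    ← lintegral_const_mul _ (by have := measurable_gau (-γ); fun_prop)]
  refine lintegral_mono fun w => ?_
  by_cases hvw : v - w = 0
  · simp [hvw]
  · have h1 : ∫⁻ b in impactDisc (v - w),
        gau (-γ) (postVelocities Φ b v w).1 * (h v * k w) ∂μHE[2] ≤
        ∫⁻ _b in impactDisc (v - w),
          (gau (-γ) v * gau (-γ) w) * (h v * k w) ∂μHE[2] := by
      refine setLIntegral_mono' (measurableSet_impactDisc _) fun b hb => ?_
      exact mul_le_mul' (gau_neg_post_le hΦ hγ0 hb hvw) le_rfl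
    rw [lintegral_const, Measure.restrict_apply_univ, hausdorff_impactDisc hvw] at h1
    calc ENNReal.ofReal ‖v - w‖ * ∫⁻ b in impactDisc (v - w),
        gau (-γ) (postVelocities Φ b v w).1 * (h v * k w) ∂μHE[2]
        ≤ ENNReal.ofReal ‖v - w‖ * ((gau (-γ) v * gau (-γ) w) * (h v * k w) *
          ENNReal.ofReal Real.pi) := mul_le_mul' le_rfl h1
      _ = _ := by ring

/-- weighted `L¹` bound of the gain operator for a Gaussian-bounded second argument -/
theorem lintegral_gau_mul_Qp_le' (hΦ : AdmissiblePotential Φ) {γ δ : ℝ} (hγ0 : 0 ≤ γ)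
    {h k : Space3 → ℝ≥0∞} (hm : Measurable h) (km : Measurable k) {A : ℝ≥0∞}
    (hk : ∀ w, k w ≤ A * gau (γ + δ) w) :
    ∫⁻ v, gau (-γ) v * Qp Φ h k v ≤
      ∫⁻ v, (A * CG δ * ENNReal.ofReal (1 + ‖v‖)) * (gau (-γ) v * h v) := by
  refine (lintegral_gau_mul_Qp_le hΦ hγ0 hm km).trans (lintegral_mono fun v => ?_)
  have h1 : nuE (fun w => gau (-γ) w * k w) v ≤ A * CG δ * ENNReal.ofReal (1 + ‖v‖) := by
    refine nuE_le_of_le_gau (fun w => ?_) v
    calc gau (-γ) w * k w ≤ gau (-γ) w * (A * gau (γ + δ) w) := mul_le_mul' le_rfl (hk w)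
      _ = A * (gau (-γ) w * gau (γ + δ) w) := by ring
      _ = A * gau δ w := by rw [← gau_add]; congr 2; ring
  calc (gau (-γ) v * h v) * nuE (fun w => gau (-γ) w * k w) v
      ≤ (gau (-γ) v * h v) * (A * CG δ * ENNReal.ofReal (1 + ‖v‖)) := mul_le_mul' le_rfl h1
    _ = _ := by ring

/-! ### The singular Gronwall kernel -/

/-- `(1 + r) e^{-λ u r²} ≤ 1 + 1/√(λ u)` -/
lemma one_add_mul_exp_le {lam u r : ℝ} (hlam : 0 < lam) (hu : 0 < u) :
    (1 + r) * Real.exp (-(lam * u) * r ^ 2) ≤ 1 + 1 / Real.sqrt (lam * u) := by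
  set a : ℝ := Real.sqrt (lam * u) with ha
  have ha0 : 0 < a := Real.sqrt_pos.2 (by positivity)
  have ha2 : a ^ 2 = lam * u := Real.sq_sqrt (by positivity)
  have h1 : Real.exp (-(lam * u) * r ^ 2) ≤ 1 := by
    rw [← Real.exp_zero]
    refine Real.exp_le_exp.2 ?_
    have : 0 ≤ lam * u * r ^ 2 := by positivity
    linarith
  have h2 : r * Real.exp (-(lam * u) * r ^ 2) ≤ 1 / a := by
    rw [le_div_iff₀ ha0]
    have h3 : (a * r) ≤ Real.exp ((a * r) ^ 2) := by
      have h4 := Real.add_one_le_exp ((a * r) ^ 2)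
      nlinarith [sq_nonneg (a * r - 1)]
    have h5 : Real.exp (-(lam * u) * r ^ 2) * Real.exp ((a * r) ^ 2) = 1 := by
      rw [← Real.exp_add, mul_pow, ha2]; simp
    calc r * Real.exp (-(lam * u) * r ^ 2) * a = Real.exp (-(lam * u) * r ^ 2) * (a * r) := by
          ring
      _ ≤ Real.exp (-(lam * u) * r ^ 2) * Real.exp ((a * r) ^ 2) := by gcongr
      _ = 1 := h5
  calc (1 + r) * Real.exp (-(lam * u) * r ^ 2) = Real.exp (-(lam * u) * r ^ 2) +
        r * Real.exp (-(lam * u) * r ^ 2) := by ring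
    _ ≤ 1 + 1 / a := add_le_add h1 h2

/-- the kernel `(1 + 1/√(λ u)) e^{-μ u}` has small integral for large `μ` -/
lemma exists_kernel_small {C lam : ℝ} (hC : 0 ≤ C) (hlam : 0 < lam) {ε : ℝ≥0∞} (hε : 0 < ε) :
    ∃ μ : ℝ, 0 < μ ∧ ∫⁻ u in Ioi (0 : ℝ), ENNReal.ofReal (C * (1 + 1 / Real.sqrt (lam * u)) *
      Real.exp (-μ * u)) ≤ ε := by
  have i1 : IntegrableOn (fun u : ℝ => u ^ (0 : ℝ) * Real.exp (-1 * u ^ (1 : ℝ))) (Ioi 0) :=
    integrableOn_rpow_mul_exp_neg_mul_rpow (by norm_num) (by norm_num) (by norm_num)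
  have i2 : IntegrableOn (fun u : ℝ => u ^ (-(1 / 2) : ℝ) * Real.exp (-1 * u ^ (1 : ℝ))) (Ioi 0) :=
    integrableOn_rpow_mul_exp_neg_mul_rpow (by norm_num) (by norm_num) (by norm_num)
  have i3 : IntegrableOn (fun u : ℝ => C * (1 + 1 / Real.sqrt (lam * u)) *
      Real.exp (-1 * u)) (Ioi 0) := by
    have i4 : IntegrableOn (fun u : ℝ => C * (u ^ (0 : ℝ) * Real.exp (-1 * u ^ (1 : ℝ))) +
        C / Real.sqrt lam * (u ^ (-(1 / 2) : ℝ) * Real.exp (-1 * u ^ (1 : ℝ)))) (Ioi 0) :=
      (i1.const_mul C).add (i2.const_mul (C / Real.sqrt lam))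
    refine i4.congr_fun ?_ measurableSet_Ioi
    intro u hu
    have hu' : (0 : ℝ) < u := hu
    have h1 : u ^ (-(1 / 2) : ℝ) = 1 / Real.sqrt u := by
      rw [Real.rpow_neg hu'.le, ← Real.sqrt_eq_rpow, one_div]
    simp only [Real.rpow_zero, Real.rpow_one, one_mul, h1]
    rw [Real.sqrt_mul hlam.le]
    have hl : 0 < Real.sqrt lam := Real.sqrt_pos.2 hlam
    have hs : 0 < Real.sqrt u := Real.sqrt_pos.2 hu'
    field_simp
  have hmeas : ∀ n : ℕ, Measurable (fun u : ℝ => ENNReal.ofReal
      (C * (1 + 1 / Real.sqrt (lam * u)) * Real.exp (-((n : ℝ) + 1) * u))) := by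
    intro n; fun_prop
  have hlim : Filter.Tendsto (fun n : ℕ => ∫⁻ u in Ioi (0 : ℝ), ENNReal.ofReal
      (C * (1 + 1 / Real.sqrt (lam * u)) * Real.exp (-((n : ℝ) + 1) * u))) Filter.atTop
      (nhds (∫⁻ _u in Ioi (0 : ℝ), (0 : ℝ≥0∞))) := by
    refine tendsto_lintegral_of_dominated_convergence
      (fun u => ENNReal.ofReal (C * (1 + 1 / Real.sqrt (lam * u)) * Real.exp (-1 * u)))
      (fun n => hmeas n) ?_ ?_ ?_
    · intro n
      filter_upwards [ae_restrict_mem measurableSet_Ioi] with u hu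
      refine ENNReal.ofReal_le_ofReal ?_
      have hu' : (0 : ℝ) < u := hu
      have h2 : (0 : ℝ) ≤ n * u := by positivity
      refine mul_le_mul_of_nonneg_left (Real.exp_le_exp.2 (by linarith)) ?_
      positivity
    · exact i3.lintegral_lt_top.ne
    · filter_upwards [ae_restrict_mem measurableSet_Ioi] with u hu
      have hu' : (0 : ℝ) < u := hu
      have h1 : Filter.Tendsto (fun n : ℕ => Real.exp (-((n : ℝ) + 1) * u)) Filter.atTop
          (nhds 0) := by
        refine Real.tendsto_exp_atBot.comp ?_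
        have h3 : Filter.Tendsto (fun n : ℕ => ((n : ℝ) + 1) * u) Filter.atTop Filter.atTop :=
          (Filter.tendsto_atTop_add_const_right _ _ tendsto_natCast_atTop_atTop).atTop_mul_const hu'
        have h4 := Filter.tendsto_neg_atTop_atBot.comp h3
        refine h4.congr fun n => ?_
        simp only [Function.comp_apply]; ring
      have h2 := h1.const_mul (C * (1 + 1 / Real.sqrt (lam * u)))
      rw [mul_zero] at h2
      have h3 := (ENNReal.continuous_ofReal.tendsto 0).comp h2
      rwa [ENNReal.ofReal_zero] at h3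
  rw [lintegral_zero] at hlim
  obtain ⟨n, hn⟩ := (hlim.eventually (gt_mem_nhds hε)).exists
  exact ⟨(n : ℝ) + 1, by positivity, hn.le⟩

/-- time convolution against the singular kernel -/
lemma lintegral_singular_le {C lam μ : ℝ} {ε : ℝ≥0∞}
    (h : ∫⁻ u in Ioi (0 : ℝ), ENNReal.ofReal (C * (1 + 1 / Real.sqrt (lam * u)) *
      Real.exp (-μ * u)) ≤ ε) (t : ℝ) :
    ∫⁻ s in Ioc 0 t, ENNReal.ofReal (C * (1 + 1 / Real.sqrt (lam * (t - s))) *
      Real.exp (μ * s)) ≤ ENNReal.ofReal (Real.exp (μ * t)) * ε := by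
  set F : ℝ → ℝ≥0∞ := fun u => ENNReal.ofReal (C * (1 + 1 / Real.sqrt (lam * u)) *
      Real.exp (-μ * u)) with hF
  have h1 : ∀ s : ℝ, ENNReal.ofReal (C * (1 + 1 / Real.sqrt (lam * (t - s))) *
      Real.exp (μ * s)) = ENNReal.ofReal (Real.exp (μ * t)) * F (t - s) := by
    intro s
    rw [hF]
    simp only
    rw [← ENNReal.ofReal_mul (Real.exp_nonneg _)]
    congr 1
    have : Real.exp (μ * s) = Real.exp (μ * t) * Real.exp (-μ * (t - s)) := by
      rw [← Real.exp_add]; congr 1; ring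
    rw [this]; ring
  simp_rw [h1]
  rw [lintegral_const_mul' _ _ ENNReal.ofReal_ne_top]
  refine mul_le_mul' le_rfl (le_trans ?_ h)
  have h2 : ∫⁻ s in Ioc 0 t, F (t - s) = ∫⁻ s, (Ico 0 t).indicator F (t - s) := by
    rw [← lintegral_indicator measurableSet_Ioc]
    refine lintegral_congr fun s => ?_
    by_cases hs : s ∈ Ioc 0 t
    · rw [indicator_of_mem hs, indicator_of_mem]
      exact ⟨by linarith [hs.2], by linarith [hs.1]⟩
    · rw [indicator_of_notMem hs, indicator_of_notMem]
      intro h'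
      exact hs ⟨by linarith [h'.2], by linarith [h'.1]⟩
  rw [h2, lintegral_sub_left_eq_self (fun u => (Ico 0 t).indicator F u) t,
    lintegral_indicator measurableSet_Ico]
  calc ∫⁻ u in Ico 0 t, F u ≤ ∫⁻ u in Ici 0, F u :=
        lintegral_mono_set Ico_subset_Ici_self
    _ = ∫⁻ u in Ioi 0, F u := setLIntegral_congr Ioi_ae_eq_Ici.symm

end Crest.Agent.R122.Boltz814

end
end

-- ▼ part R122/BoltzL1b_814

/-!
Row 122, Boltzmann side (helper814): `L¹` exponential moments (in the velocity and in the number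
of collisions) of the damped tree series, uniformly on `[0,T]`.
-/

set_option autoImplicit false

open MeasureTheory ProbabilityTheory Set
open Crest.AnalysisR.Kinetic
open Crest.Agent.R122.Kin416 Crest.Agent.R122.Kin796
open scoped ENNReal

noncomputable section

namespace Crest.Agent.R122.Boltz814

variable {Φ : Space3 → ℝ} {β T : ℝ} {f₀ : PhasePoint → ℝ} {f : ℝ → PhasePoint → ℝ}

/-! ### Initial datum -/

/-- every point is within distance one of a lattice point -/
lemma exists_lattice (x : Space3) : ∃ k : Fin 3 → ℤ, dist x (latticePoint k) ≤ 1 := by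
  refine ⟨fun i => round (x i), ?_⟩
  rw [EuclideanSpace.dist_eq]
  have hi : ∀ i : Fin 3, dist (x i) (latticePoint (fun i => round (x i)) i) ^ 2 ≤ 1 / 4 := by
    intro i
    have h1 : |x i - round (x i)| ≤ 1 / 2 := abs_sub_round (x i)
    have h2 : dist (x i) (latticePoint (fun i => round (x i)) i) = |x i - round (x i)| := by
      simp [latticePoint, Real.dist_eq]
    rw [h2]
    nlinarith [abs_nonneg (x i - round (x i))]
  calc Real.sqrt (∑ i, dist (x i) (latticePoint (fun i => round (x i)) i) ^ 2)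
      ≤ Real.sqrt (∑ _i : Fin 3, (1 / 4 : ℝ)) := by
        apply Real.sqrt_le_sqrt
        exact Finset.sum_le_sum fun i _ => hi i
    _ ≤ Real.sqrt 1 := by
        apply Real.sqrt_le_sqrt
        norm_num
    _ = 1 := Real.sqrt_one

/-- **(M1)** The marginal velocity density of the initial datum is Gaussian bounded. -/
theorem exists_velocity_marginal {γ : ℝ} (H : HasSummableGaussianBound γ (fun x v => f₀ (x, v))) :
    ∃ C : ℝ, 0 ≤ C ∧ ∀ v : Space3, ∫⁻ x : Space3, ENNReal.ofReal (f₀ (x, v)) ≤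
      ENNReal.ofReal C * gau γ v := by
  obtain ⟨M, hM, hb⟩ := H
  have hM0 : ∀ k, 0 ≤ M k := by
    intro k
    refine le_trans ?_ (hb k (latticePoint k) 0 (by simp))
    positivity
  set c : ℝ≥0∞ := volume (Metric.closedBall (0 : Space3) 1) with hc
  have hct : c ≠ ∞ := (measure_closedBall_lt_top).ne
  refine ⟨(∑' k, M k) * c.toReal, mul_nonneg (tsum_nonneg hM0) ENNReal.toReal_nonneg,
    fun v => ?_⟩
  have hpt : ∀ x : Space3, ENNReal.ofReal (f₀ (x, v)) ≤ ∑' k : Fin 3 → ℤ,
      (Metric.closedBall (latticePoint k) 1).indicator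
        (fun _ => ENNReal.ofReal (M k) * gau γ v) x := by
    intro x
    obtain ⟨k, hk⟩ := exists_lattice x
    refine le_trans ?_ (ENNReal.le_tsum k)
    rw [indicator_of_mem (by simpa using hk)]
    unfold gau
    rw [← ENNReal.ofReal_mul (hM0 k)]
    refine ENNReal.ofReal_le_ofReal ?_
    have h1 := hb k x v hk
    have h2 : Real.exp (γ * ‖v‖ ^ 2) * Real.exp (-γ * ‖v‖ ^ 2) = 1 := by
      rw [← Real.exp_add]; simp
    calc f₀ (x, v) ≤ ‖f₀ (x, v)‖ := le_abs_self _
      _ = (Real.exp (γ * ‖v‖ ^ 2) * Real.exp (-γ * ‖v‖ ^ 2)) * ‖f₀ (x, v)‖ := by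
          rw [h2, one_mul]
      _ = (Real.exp (γ * ‖v‖ ^ 2) * ‖f₀ (x, v)‖) * Real.exp (-γ * ‖v‖ ^ 2) := by ring
      _ ≤ M k * Real.exp (-γ * ‖v‖ ^ 2) := by gcongr
  calc ∫⁻ x : Space3, ENNReal.ofReal (f₀ (x, v))
      ≤ ∫⁻ x : Space3, ∑' k : Fin 3 → ℤ, (Metric.closedBall (latticePoint k) 1).indicator
        (fun _ => ENNReal.ofReal (M k) * gau γ v) x := lintegral_mono hpt
    _ = ∑' k : Fin 3 → ℤ, ∫⁻ x : Space3, (Metric.closedBall (latticePoint k) 1).indicator
        (fun _ => ENNReal.ofReal (M k) * gau γ v) x :=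
        lintegral_tsum fun k => (measurable_const.indicator
          Metric.isClosed_closedBall.measurableSet).aemeasurable
    _ = ∑' k : Fin 3 → ℤ, ENNReal.ofReal (M k) * gau γ v * c := by
        refine tsum_congr fun k => ?_
        rw [lintegral_indicator Metric.isClosed_closedBall.measurableSet, lintegral_const,
          Measure.restrict_apply_univ, hc, Measure.addHaar_closedBall_center]
    _ = (∑' k : Fin 3 → ℤ, ENNReal.ofReal (M k)) * (gau γ v * c) := by
        rw [← ENNReal.tsum_mul_right]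
        refine tsum_congr fun k => ?_
        rw [mul_assoc]
    _ = ENNReal.ofReal ((∑' k, M k) * c.toReal) * gau γ v := by
        rw [← ENNReal.ofReal_tsum_of_nonneg hM0 hM, ENNReal.ofReal_mul (tsum_nonneg hM0),
          ENNReal.ofReal_toReal hct]
        ring

/-! ### Phase space integrals -/

/-- phase space integral -/
def phI (G : Space3 → Space3 → ℝ≥0∞) : ℝ≥0∞ := ∫⁻ x, ∫⁻ v, G x v

lemma phI_eq_prod {G : Space3 → Space3 → ℝ≥0∞} (hG : Measurable (Function.uncurry G)) :
    phI G = ∫⁻ z : Space3 × Space3, G z.1 z.2 := by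
  have h := lintegral_prod (μ := (volume : Measure Space3)) (ν := (volume : Measure Space3))
    (Function.uncurry G) hG.aemeasurable
  exact h.symm

lemma phI_mono {G H : Space3 → Space3 → ℝ≥0∞} (h : ∀ x v, G x v ≤ H x v) : phI G ≤ phI H :=
  lintegral_mono fun x => lintegral_mono fun v => h x v

lemma phI_add {G H : Space3 → Space3 → ℝ≥0∞} (hG : Measurable (Function.uncurry G)) :
    phI (fun x v => G x v + H x v) = phI G + phI H := by
  unfold phI
  have h1 : ∀ x : Space3, ∫⁻ v, (G x v + H x v) = (∫⁻ v, G x v) + ∫⁻ v, H x v := fun x =>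
    lintegral_add_left (hG.comp measurable_prodMk_left) _
  simp_rw [h1]
  exact lintegral_add_left hG.lintegral_prod_right' _

lemma phI_const_mul {G : Space3 → Space3 → ℝ≥0∞} (hG : Measurable (Function.uncurry G))
    (c : ℝ≥0∞) : phI (fun x v => c * G x v) = c * phI G := by
  unfold phI
  have h1 : ∀ x : Space3, ∫⁻ v, c * G x v = c * ∫⁻ v, G x v := fun x =>
    lintegral_const_mul _ (hG.comp measurable_prodMk_left)
  simp_rw [h1]
  exact lintegral_const_mul _ hG.lintegral_prod_right'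

/-- invariance of phase space integrals under free transport -/
lemma phI_transport {G : Space3 → Space3 → ℝ≥0∞} (hG : Measurable (Function.uncurry G)) (c : ℝ) :
    phI (fun x v => G (x - c • v) v) = phI G := by
  have hG2 : Measurable (Function.uncurry fun x v : Space3 => G (x - c • v) v) := by
    have hm : Measurable fun p : Space3 × Space3 => (p.1 - c • p.2, p.2) := by fun_prop
    exact hG.comp hm
  unfold phI
  rw [lintegral_lintegral_swap hG2.aemeasurable, lintegral_lintegral_swap hG.aemeasurable]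
  refine lintegral_congr fun v => ?_
  exact lintegral_sub_right_eq_self (fun x => G x v) (c • v)

/-- Tonelli with an additional time integral -/
lemma phI_time {a : ℝ → Space3 → Space3 → ℝ≥0∞} (S : Set ℝ)
    (ha : Measurable fun p : ℝ × Space3 × Space3 => a p.1 p.2.1 p.2.2) :
    phI (fun x v => ∫⁻ s in S, a s x v) = ∫⁻ s in S, phI (a s) := by
  unfold phI
  have h1 : ∀ x : Space3, ∫⁻ v, ∫⁻ s in S, a s x v = ∫⁻ s in S, ∫⁻ v, a s x v := by
    intro x
    refine lintegral_lintegral_swap (f := fun v s => a s x v) ?_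
    have hm : Measurable fun p : Space3 × ℝ => (p.2, x, p.1) := by fun_prop
    have h2 := Measurable.comp ha hm
    exact h2.aemeasurable
  simp_rw [h1]
  refine lintegral_lintegral_swap (f := fun x s => ∫⁻ v, a s x v) ?_
  have hm : Measurable fun p : (Space3 × ℝ) × Space3 => (p.1.2, p.1.1, p.2) := by fun_prop
  have h2 : Measurable fun p : (Space3 × ℝ) × Space3 => a p.1.2 p.1.1 p.2 :=
    Measurable.comp ha hm
  exact h2.lintegral_prod_right'.aemeasurable

/-! ### The `L¹` exponential moment -/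

/-- slices of jointly measurable functions -/
lemma meas3_uncurry {g : ℝ → Space3 → Space3 → ℝ≥0∞} (hg : Meas3 g) (t : ℝ) :
    Measurable (Function.uncurry (g t)) := by
  have hm : Measurable fun p : Space3 × Space3 => (t, p.1, p.2) := by fun_prop
  have h2 := Measurable.comp hg hm
  exact h2



end Crest.Agent.R122.Boltz814

end
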