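import Crest.Agent.R122.Hid_424
import Crest.Agent.R122.TreeMeas_674
import Crest.Agent.R122.BoltzL1b_814
import Crest.Agent.R122.Scat4_818
import Crest.Agent.R122.Quench2_815

-- ▼ part R122/QDensA_815
section

/-!
helper815, row 122, block Q (quenched densities), part 1a: elementary bounds on the weight of a
collision tree: monotonicity of validity, energy conservation, `wt ≤ (2√E)^size`, the box measure of
the parameters, and the Gaussian/lattice bounds of the product of the initial densities.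
-/

set_option autoImplicit false

open MeasureTheory Set Filter
open scoped ENNReal Topology Classical
open Crest.AnalysisR.Kinetic Crest.Agent.R122.Kin796 Crest.Agent.R122.Disc416
  Crest.Agent.R122.Kin416 Crest.Agent.R122.Boltz814 Crest.Agent.R122.Tree674
  Crest.Agent.R122.Scat818 Crest.Agent.R122.TreeF399 Crest.Agent.R122.TreeEps399
  Crest.Agent.R122.Hid424

noncomputable section

namespace Crest.Agent.R122.QDens815

open CTree

variable {Φ : Space3 → ℝ}

/-! ### Monotonicity of validity -/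

theorem ord_mono {ε : ℝ} (hε : 0 ≤ ε) : ∀ (P : CTree) {T T' : ℝ} (_ : T ≤ T') (v : Space3)
    (p : Par P) (_ : Tree674.Ord Φ ε P T v p), Tree674.Ord Φ 0 P T' v p
  | leaf, _, _, _, _, _, _ => trivial
  | node l r, T, T', hT, v, p, h => by
      obtain ⟨h1, h2, h3, h4⟩ := h
      have hs : Tree674.sin Φ ε v p.1 ≤ Tree674.sin Φ 0 v p.1 := by
        rw [sin_zero]; exact sin_le hε v p.1
      exact ⟨h1.trans_le hT, h2.trans_le hs, ord_mono hε l hs _ _ h3, ord_mono hε r hs _ _ h4⟩

theorem valid_mono {ε : ℝ} (hε : 0 ≤ ε) {P : CTree} {T T' : ℝ} (hT : T ≤ T') {v : Space3}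
    {p : Par P} (h : Valid Φ ε P T v p) : Valid Φ 0 P T' v p :=
  ⟨h.1, ord_mono hε P hT v p h.2⟩

/-! ### Energy -/

/-- sum of the squared velocities of the node parameters -/
def nodeEn : ∀ P : CTree, Par P → ℝ
  | leaf => fun _ => 0
  | node l r => fun p => ‖p.1.2.1‖ ^ 2 + (nodeEn l p.2.1 + nodeEn r p.2.2)

theorem nodeEn_nonneg : ∀ (P : CTree) (p : Par P), 0 ≤ nodeEn P p
  | leaf, _ => le_rfl
  | node l r, p => by
      have h1 := nodeEn_nonneg l p.2.1
      have h2 := nodeEn_nonneg r p.2.2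
      have h3 : 0 ≤ ‖p.1.2.1‖ ^ 2 := sq_nonneg _
      simp only [nodeEn]
      linarith

theorem energy_preV (hΦ : AdmissiblePotential Φ) {v : Space3} {a : NodeP} (h : Adm1 Φ v a) :
    ‖(preV Φ v a).1‖ ^ 2 + ‖(preV Φ v a).2‖ ^ 2 = ‖v‖ ^ 2 + ‖a.2.1‖ ^ 2 :=
  energy_post (scatFacts hΦ) h.2.1 (adm1_disc h).1

theorem sum_vels (hΦ : AdmissiblePotential Φ) : ∀ (P : CTree) (v : Space3) (p : Par P)
    (_ : Adm Φ P v p), ∑ i, ‖vels Φ P v p i‖ ^ 2 = ‖v‖ ^ 2 + nodeEn P p
  | leaf, v, p, _ => by
      show ∑ _i : Unit, ‖v‖ ^ 2 = ‖v‖ ^ 2 + 0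
      simp
  | node l r, v, p, h => by
      have hl := sum_vels hΦ l (preV Φ v p.1).1 p.2.1 h.2.1
      have hr := sum_vels hΦ r (preV Φ v p.1).2 p.2.2 h.2.2
      have he := energy_preV hΦ h.1
      have : ∑ i, ‖vels Φ (node l r) v p i‖ ^ 2 =
          ∑ i : Idx l, ‖vels Φ l (preV Φ v p.1).1 p.2.1 i‖ ^ 2 +
          ∑ i : Idx r, ‖vels Φ r (preV Φ v p.1).2 p.2.2 i‖ ^ 2 :=
        Fintype.sum_sum_type (fun i : Idx l ⊕ Idx r => ‖vels Φ (node l r) v p i‖ ^ 2)
      rw [this, hl, hr]
      simp only [nodeEn]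
      linarith

theorem wt_le (hΦ : AdmissiblePotential Φ) : ∀ (P : CTree) (v : Space3) (p : Par P)
    (_ : Adm Φ P v p),
    wt Φ P v p ≤ ENNReal.ofReal (2 * Real.sqrt (‖v‖ ^ 2 + nodeEn P p)) ^ P.size
  | leaf, v, p, _ => by simp [wt, CTree.size]
  | node l r, v, p, h => by
      have hl := wt_le hΦ l (preV Φ v p.1).1 p.2.1 h.2.1
      have hr := wt_le hΦ r (preV Φ v p.1).2 p.2.2 h.2.2
      have he := energy_preV hΦ h.1
      have nl := nodeEn_nonneg l p.2.1
      have nr := nodeEn_nonneg r p.2.2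
      have e0 : ‖v‖ ^ 2 + nodeEn (node l r) p =
        ‖v‖ ^ 2 + (‖p.1.2.1‖ ^ 2 + (nodeEn l p.2.1 + nodeEn r p.2.2)) := rfl
      have s1 : ‖(preV Φ v p.1).1‖ ^ 2 + nodeEn l p.2.1 ≤ ‖v‖ ^ 2 + nodeEn (node l r) p := by
        have := sq_nonneg ‖(preV Φ v p.1).2‖
        rw [e0]; linarith
      have s2 : ‖(preV Φ v p.1).2‖ ^ 2 + nodeEn r p.2.2 ≤ ‖v‖ ^ 2 + nodeEn (node l r) p := by
        have := sq_nonneg ‖(preV Φ v p.1).1‖
        rw [e0]; linarith
      set E := ‖v‖ ^ 2 + nodeEn (node l r) p with hE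
      have hv : ‖v‖ ≤ Real.sqrt E := by
        apply Real.le_sqrt_of_sq_le
        rw [e0]
        have := sq_nonneg ‖p.1.2.1‖
        linarith
      have hw : ‖p.1.2.1‖ ≤ Real.sqrt E := by
        apply Real.le_sqrt_of_sq_le
        rw [e0]
        have := sq_nonneg ‖v‖
        linarith
      have hvw : ‖v - p.1.2.1‖ ≤ 2 * Real.sqrt E := by
        have := norm_sub_le v p.1.2.1
        linarith
      show ENNReal.ofReal ‖v - p.1.2.1‖ * (wt Φ l (preV Φ v p.1).1 p.2.1 *
        wt Φ r (preV Φ v p.1).2 p.2.2) ≤ _ ^ (l.size + r.size + 1)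
      calc ENNReal.ofReal ‖v - p.1.2.1‖ * (wt Φ l (preV Φ v p.1).1 p.2.1 *
            wt Φ r (preV Φ v p.1).2 p.2.2)
          ≤ ENNReal.ofReal (2 * Real.sqrt E) * (ENNReal.ofReal (2 * Real.sqrt E) ^ l.size *
            ENNReal.ofReal (2 * Real.sqrt E) ^ r.size) := by
            gcongr
            · exact hl.trans (by gcongr)
            · exact hr.trans (by gcongr)
        _ = _ := by rw [← pow_add, ← pow_succ']

/-! ### The box measure of the parameters -/

/-- box function of the parameters: node times in `(0, T)`, impact parameters in the unit disc,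
Gaussian velocities. -/
def bx (T δ : ℝ) : ∀ P : CTree, Par P → ℝ≥0∞
  | leaf => fun _ => 1
  | node l r => fun p => ((Ioo 0 T).indicator 1 p.1.1 * (gau δ p.1.2.1 *
      (Metric.ball (0 : Disc416.Plane) 1).indicator 1 p.1.2.2)) * (bx T δ l p.2.1 * bx T δ r p.2.2)

theorem measurable_bx (T δ : ℝ) : ∀ P : CTree, Measurable (bx T δ P)
  | leaf => measurable_const
  | node l r => by
      have ha := measurable_par1 l r
      have i1 : Measurable ((Ioo 0 T).indicator (1 : ℝ → ℝ≥0∞)) :=
        measurable_one.indicator measurableSet_Ioo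
      have i2 : Measurable ((Metric.ball (0 : Disc416.Plane) 1).indicator
        (1 : Disc416.Plane → ℝ≥0∞)) := measurable_one.indicator measurableSet_ball
      have h1 : Measurable fun p : Par (node l r) => (Ioo 0 T).indicator (1 : ℝ → ℝ≥0∞) p.1.1 :=
        i1.comp ha.fst
      have h2 : Measurable fun p : Par (node l r) => gau δ p.1.2.1 :=
        (measurable_gau δ).comp ha.snd.fst
      have h3 : Measurable fun p : Par (node l r) =>
          (Metric.ball (0 : Disc416.Plane) 1).indicator (1 : Disc416.Plane → ℝ≥0∞) p.1.2.2 :=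
        i2.comp ha.snd.snd
      have h4 := (measurable_bx T δ l).comp (measurable_parL l r)
      have h5 := (measurable_bx T δ r).comp (measurable_parR l r)
      exact (h1.mul (h2.mul h3)).mul (h4.mul h5)

theorem lintegral_bx_lt_top (T : ℝ) {δ : ℝ} (hδ : 0 < δ) :
    ∀ P : CTree, ∫⁻ p : Par P, bx T δ P p < ∞
  | leaf => by
      rw [lintegral_par_leaf]
      exact ENNReal.one_lt_top
  | node l r => by
      have hl := lintegral_bx_lt_top T hδ l
      have hr := lintegral_bx_lt_top T hδ r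
      rw [lintegral_par_node l r (measurable_bx T δ (node l r))]
      have e1 : ∀ (a : NodeP), ∫⁻ y : Par l × Par r, bx T δ (node l r) ((a, y) : Par (node l r)) =
          ((Ioo 0 T).indicator 1 a.1 * (gau δ a.2.1 *
            (Metric.ball (0 : Disc416.Plane) 1).indicator 1 a.2.2)) *
            ((∫⁻ pl : Par l, bx T δ l pl) * ∫⁻ pr : Par r, bx T δ r pr) := by
        intro a
        have h0 : (∫⁻ y : Par l × Par r, bx T δ (node l r) ((a, y) : Par (node l r))) =
            ∫⁻ y : Par l × Par r, ((Ioo 0 T).indicator 1 a.1 * (gau δ a.2.1 *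
            (Metric.ball (0 : Disc416.Plane) 1).indicator 1 a.2.2)) *
            (bx T δ l y.1 * bx T δ r y.2) := rfl
        have hmm : Measurable fun y : Par l × Par r => bx T δ l y.1 * bx T δ r y.2 :=
          ((measurable_bx T δ l).comp measurable_fst).mul
            ((measurable_bx T δ r).comp measurable_snd)
        rw [h0, lintegral_const_mul _ hmm, ← lintegral_prod_mul (measurable_bx T δ l).aemeasurable
          (measurable_bx T δ r).aemeasurable]
        rfl
      rw [lintegral_congr e1]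
      have hm : Measurable fun a : NodeP => ((Ioo 0 T).indicator (1 : ℝ → ℝ≥0∞) a.1 *
          (gau δ a.2.1 * (Metric.ball (0 : Disc416.Plane) 1).indicator (1 : Disc416.Plane → ℝ≥0∞) a.2.2)) := by
        refine ((measurable_one.indicator measurableSet_Ioo).comp measurable_fst).mul
          (((measurable_gau δ).comp measurable_snd.fst).mul
          ((measurable_one.indicator measurableSet_ball).comp measurable_snd.snd))
      rw [lintegral_mul_const _ hm]
      refine ENNReal.mul_lt_top ?_ (ENNReal.mul_lt_top hl hr)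
      have e2 : ∫⁻ a : NodeP, ((Ioo 0 T).indicator (1 : ℝ → ℝ≥0∞) a.1 *
          (gau δ a.2.1 * (Metric.ball (0 : Disc416.Plane) 1).indicator (1 : Disc416.Plane → ℝ≥0∞) a.2.2)) =
          (∫⁻ s : ℝ, (Ioo 0 T).indicator (1 : ℝ → ℝ≥0∞) s) * ((∫⁻ w : Space3, gau δ w) *
            ∫⁻ y : Disc416.Plane, (Metric.ball (0 : Disc416.Plane) 1).indicator (1 : Disc416.Plane → ℝ≥0∞) y) := by
        have i1 : Measurable fun s : ℝ => (Ioo 0 T).indicator (1 : ℝ → ℝ≥0∞) s :=
          measurable_one.indicator measurableSet_Ioo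
        have i2 : Measurable fun y : Disc416.Plane => (Metric.ball (0 : Disc416.Plane) 1).indicator
          (1 : Disc416.Plane → ℝ≥0∞) y := measurable_one.indicator measurableSet_ball
        have i3 : Measurable fun b : Space3 × Disc416.Plane => gau δ b.1 *
          (Metric.ball (0 : Disc416.Plane) 1).indicator (1 : Disc416.Plane → ℝ≥0∞) b.2 :=
          ((measurable_gau δ).comp measurable_fst).mul (i2.comp measurable_snd)
        rw [← lintegral_prod_mul (measurable_gau δ).aemeasurable i2.aemeasurable,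
          ← lintegral_prod_mul i1.aemeasurable i3.aemeasurable]
        rfl
      rw [e2]
      refine ENNReal.mul_lt_top ?_ (ENNReal.mul_lt_top (lintegral_gau_lt_top hδ) ?_)
      · rw [lintegral_indicator_one measurableSet_Ioo]
        exact measure_Ioo_lt_top
      · rw [lintegral_indicator_one measurableSet_ball]
        exact measure_ball_lt_top

theorem gau_nodeEn_le_bx (δ : ℝ) : ∀ (P : CTree) {T T' : ℝ} (_ : T ≤ T') (v : Space3) (p : Par P)
    (_ : Valid Φ 0 P T v p), ENNReal.ofReal (Real.exp (-δ * nodeEn P p)) ≤ bx T' δ P p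
  | leaf, T, T', _, v, p, _ => by simp [nodeEn, bx]
  | node l r, T, T', hT, v, p, h => by
      obtain ⟨⟨h1, h2, h3⟩, h4, h5⟩ := (valid_node_iff (Φ := Φ)).1 h
      rw [sin_zero] at h3 h4 h5
      have hT' : p.1.1 ≤ T' := (h2.trans_le hT).le
      have hl := gau_nodeEn_le_bx δ l hT' _ _ h4
      have hr := gau_nodeEn_le_bx δ r hT' _ _ h5
      have e1 : (Ioo 0 T').indicator (1 : ℝ → ℝ≥0∞) p.1.1 = 1 :=
        indicator_of_mem (show p.1.1 ∈ Ioo 0 T' from ⟨h3, h2.trans_le hT⟩) _
      have e2 : (Metric.ball (0 : Disc416.Plane) 1).indicator (1 : Disc416.Plane → ℝ≥0∞) p.1.2.2 = 1 :=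
        indicator_of_mem (show p.1.2.2 ∈ Metric.ball (0 : Disc416.Plane) 1 by
          simpa using h1.1) _
      have e3 : ENNReal.ofReal (Real.exp (-δ * nodeEn (node l r) p)) =
          gau δ p.1.2.1 * (ENNReal.ofReal (Real.exp (-δ * nodeEn l p.2.1)) *
            ENNReal.ofReal (Real.exp (-δ * nodeEn r p.2.2))) := by
        unfold gau
        rw [← ENNReal.ofReal_mul (Real.exp_pos _).le, ← Real.exp_add,
          ← ENNReal.ofReal_mul (Real.exp_pos _).le, ← Real.exp_add]
        congr 2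
        simp only [nodeEn]
        ring
      show _ ≤ ((Ioo 0 T').indicator 1 p.1.1 * (gau δ p.1.2.1 *
        (Metric.ball (0 : Disc416.Plane) 1).indicator 1 p.1.2.2)) * (bx T' δ l p.2.1 * bx T' δ r p.2.2)
      rw [e1, e2, e3, one_mul, mul_one]
      gcongr

end Crest.Agent.R122.QDens815

end
private theorem rz_fb6695d06f : type_of% @_root_.Crest.Agent.R122.QDens815.bx.eq_def := @_root_.Crest.Agent.R122.QDens815.bx.eq_def -- L128
private theorem rz_a424dd8e9f : type_of% @_root_.Crest.Agent.R122.QDens815.bx.eq_1 := @_root_.Crest.Agent.R122.QDens815.bx.eq_1 -- L128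
private theorem rz_200a0ee770 : type_of% @_root_.Crest.Agent.R122.QDens815.nodeEn.eq_def := @_root_.Crest.Agent.R122.QDens815.nodeEn.eq_def -- L47
private theorem rz_018de4ee34 : type_of% @_root_.Crest.Agent.R122.QDens815.nodeEn.eq_1 := @_root_.Crest.Agent.R122.QDens815.nodeEn.eq_1 -- L47
end

-- ▼ part R122/QDensB_815

/-!
helper815, row 122, block Q (quenched densities), part 1b: `L¹` convergence as `ε → 0` of the weight
`1[Valid] wt ∏ f₀(lines) φ` of a collision tree.
-/

set_option autoImplicit false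

open MeasureTheory Set Filter
open scoped ENNReal Topology Classical
open Crest.AnalysisR.Kinetic Crest.Agent.R122.Kin796 Crest.Agent.R122.Disc416
  Crest.Agent.R122.Kin416 Crest.Agent.R122.Tree674
  Crest.Agent.R122.Scat818 Crest.Agent.R122.TreeF399 Crest.Agent.R122.TreeEps399
  Crest.Agent.R122.Hid424 Crest.Agent.R122.Quench815

noncomputable section

namespace Crest.Agent.R122.QDens815

open CTree

variable {Φ : Space3 → ℝ} {f₀ : PhasePoint → ℝ}

/-! ### Lattice envelope of the initial datum -/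

/-- an integrable bounded local envelope of the initial datum -/
structure Env (γ : ℝ) (f₀ : PhasePoint → ℝ) (env : Space3 → ℝ≥0∞) (A : ℝ≥0∞) : Prop where
  meas : Measurable env
  A_ne : A ≠ ∞
  int_ne : ∫⁻ x, env x ≠ ∞
  le_A : ∀ x, env x ≤ A
  bound : ∀ x y v : Space3, dist x y ≤ 1 → ENNReal.ofReal (f₀ (y, v)) ≤ env x * gau γ v

theorem exists_env {γ : ℝ} (H : HasSummableGaussianBound γ (fun x v => f₀ (x, v))) :
    ∃ (env : Space3 → ℝ≥0∞) (A : ℝ≥0∞), Env γ f₀ env A := by
  obtain ⟨M, hM, hb⟩ := H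
  have hM0 : ∀ k, 0 ≤ M k := by
    intro k
    refine le_trans ?_ (hb k (latticePoint k) 0 (by simp))
    positivity
  have hA : ∑' k, ENNReal.ofReal (M k) ≠ ∞ := by
    rw [← ENNReal.ofReal_tsum_of_nonneg hM0 hM]
    exact ENNReal.ofReal_ne_top
  have hmk : ∀ k : Fin 3 → ℤ, Measurable
      ((Metric.closedBall (latticePoint k) 2).indicator fun _ : Space3 => ENNReal.ofReal (M k)) :=
    fun k => measurable_const.indicator Metric.isClosed_closedBall.measurableSet
  refine ⟨fun x => ∑' k : Fin 3 → ℤ,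
    (Metric.closedBall (latticePoint k) 2).indicator (fun _ => ENNReal.ofReal (M k)) x,
    ∑' k, ENNReal.ofReal (M k), Measurable.tsum hmk, hA, ?_, ?_, ?_⟩
  · rw [lintegral_tsum fun k => (hmk k).aemeasurable]
    have e : ∀ k : Fin 3 → ℤ, ∫⁻ x : Space3,
        (Metric.closedBall (latticePoint k) 2).indicator (fun _ => ENNReal.ofReal (M k)) x =
        ENNReal.ofReal (M k) * volume (Metric.closedBall (0 : Space3) 2) := by
      intro k
      rw [lintegral_indicator Metric.isClosed_closedBall.measurableSet, lintegral_const,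
          Measure.restrict_apply_univ, Measure.addHaar_closedBall_center]
    simp_rw [e]
    rw [ENNReal.tsum_mul_right]
    exact ENNReal.mul_ne_top hA measure_closedBall_lt_top.ne
  · intro x
    exact ENNReal.tsum_le_tsum fun k => indicator_le_self' (fun _ _ => bot_le) x
  · intro x y v hxy
    obtain ⟨k, hk⟩ := Boltz814.exists_lattice y
    have hxk : x ∈ Metric.closedBall (latticePoint k) 2 := by
      rw [Metric.mem_closedBall]
      have := dist_triangle x y (latticePoint k)
      linarith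
    calc ENNReal.ofReal (f₀ (y, v)) ≤ ENNReal.ofReal (M k) * gau γ v := by
          unfold gau
          rw [← ENNReal.ofReal_mul (hM0 k)]
          refine ENNReal.ofReal_le_ofReal ?_
          have h1 := hb k y v hk
          have h2 : Real.exp (γ * ‖v‖ ^ 2) * Real.exp (-γ * ‖v‖ ^ 2) = 1 := by
            rw [← Real.exp_add]; simp
          calc f₀ (y, v) ≤ ‖f₀ (y, v)‖ := le_abs_self _
            _ = (Real.exp (γ * ‖v‖ ^ 2) * Real.exp (-γ * ‖v‖ ^ 2)) * ‖f₀ (y, v)‖ := by
                rw [h2, one_mul]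
            _ = (Real.exp (γ * ‖v‖ ^ 2) * ‖f₀ (y, v)‖) * Real.exp (-γ * ‖v‖ ^ 2) := by ring
            _ ≤ M k * Real.exp (-γ * ‖v‖ ^ 2) := by gcongr
      _ ≤ _ := by
          refine mul_le_mul_left ?_ _
          refine le_trans ?_ (ENNReal.le_tsum k)
          rw [indicator_of_mem hxk]

/-! ### Product of the initial densities -/

/-- product of the initial densities of a tree -/
def fp (Φ : Space3 → ℝ) (f₀ : PhasePoint → ℝ) (ε : ℝ) (P : CTree) (ℓ : PhasePoint) (p : Par P) :
    ℝ≥0∞ := ∏ i, ENNReal.ofReal (f₀ (lines Φ ε P ℓ p i))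

theorem fp_ne_top (ε : ℝ) (P : CTree) (ℓ : PhasePoint) (p : Par P) : fp Φ f₀ ε P ℓ p ≠ ∞ :=
  ENNReal.prod_ne_top fun _ _ => ENNReal.ofReal_ne_top

theorem fp_le (hΦ : AdmissiblePotential Φ) {γ : ℝ} {env : Space3 → ℝ≥0∞} {A : ℝ≥0∞}
    (hE : Env γ f₀ env A) (ε : ℝ) (P : CTree) (ℓ : PhasePoint) (p : Par P) (hp : Adm Φ P ℓ.2 p)
    (Z : Space3) (hZ : dist Z (lines Φ ε P ℓ p (root P)).1 ≤ 1) :
    fp Φ f₀ ε P ℓ p ≤ env Z * A ^ P.size *
      ENNReal.ofReal (Real.exp (-γ * (‖ℓ.2‖ ^ 2 + nodeEn P p))) := by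
  have e1 : ∏ i, gau γ (vels Φ P ℓ.2 p i) =
      ENNReal.ofReal (Real.exp (-γ * (‖ℓ.2‖ ^ 2 + nodeEn P p))) := by
    unfold gau
    rw [← ENNReal.ofReal_prod_of_nonneg (fun i _ => (Real.exp_pos _).le), ← Real.exp_sum,
      ← Finset.mul_sum, sum_vels hΦ P ℓ.2 p hp]
  have hb : ∀ i, ENNReal.ofReal (f₀ (lines Φ ε P ℓ p i)) ≤
      (if i = root P then env Z else A) * gau γ (vels Φ P ℓ.2 p i) := by
    intro i
    have hv := lines_vel (Φ := Φ) ε P ℓ p i
    have e : lines Φ ε P ℓ p i = ((lines Φ ε P ℓ p i).1, vels Φ P ℓ.2 p i) := by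
      rw [← hv]
    rw [e]
    split_ifs with hi
    · subst hi
      exact hE.bound _ _ _ hZ
    · refine (hE.bound (lines Φ ε P ℓ p i).1 _ _ (by simp)).trans ?_
      gcongr
      exact hE.le_A _
  calc fp Φ f₀ ε P ℓ p ≤ ∏ i, ((if i = root P then env Z else A) * gau γ (vels Φ P ℓ.2 p i)) :=
        Finset.prod_le_prod' fun i _ => hb i
    _ = (∏ i, if i = root P then env Z else A) * ∏ i, gau γ (vels Φ P ℓ.2 p i) :=
        Finset.prod_mul_distrib
    _ = _ := by
        rw [e1]
        congr 1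
        rw [← Finset.mul_prod_erase Finset.univ _ (Finset.mem_univ (root P)), if_pos rfl]
        congr 1
        rw [Finset.prod_congr rfl (g := fun _ => A)
          (fun i hi => if_neg (Finset.ne_of_mem_erase hi)), Finset.prod_const,
          Finset.card_erase_of_mem (Finset.mem_univ _), Finset.card_univ, card_idx, leaves_eq]
        simp

/-- integral over the position of the root -/
theorem lintegral_fp_le (hΦ : AdmissiblePotential Φ) {γ : ℝ} {env : Space3 → ℝ≥0∞} {A : ℝ≥0∞}
    (hE : Env γ f₀ env A) (ε : ℝ) (P : CTree) (v : Space3) (p : Par P) (hp : Adm Φ P v p) :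
    ∫⁻ X : Space3, fp Φ f₀ ε P (X, v) p ≤ (∫⁻ x, env x) * A ^ P.size *
      ENNReal.ofReal (Real.exp (-γ * (‖v‖ ^ 2 + nodeEn P p))) := by
  set d := (lines Φ ε P (0, v) p (root P)).1 with hd
  have h1 : ∀ X : Space3, fp Φ f₀ ε P (X, v) p ≤ env (d + X) * A ^ P.size *
      ENNReal.ofReal (Real.exp (-γ * (‖v‖ ^ 2 + nodeEn P p))) := by
    intro X
    refine fp_le hΦ hE ε P (X, v) p hp _ ?_
    rw [lines_shift]
    simp [hd]
  calc ∫⁻ X : Space3, fp Φ f₀ ε P (X, v) p
      ≤ ∫⁻ X : Space3, env (d + X) * (A ^ P.size *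
        ENNReal.ofReal (Real.exp (-γ * (‖v‖ ^ 2 + nodeEn P p)))) :=
        lintegral_mono fun X => (h1 X).trans (le_of_eq (mul_assoc _ _ _))
    _ = (∫⁻ X : Space3, env (d + X)) * (A ^ P.size *
        ENNReal.ofReal (Real.exp (-γ * (‖v‖ ^ 2 + nodeEn P p)))) :=
        lintegral_mul_const _ (hE.meas.comp (measurable_const_add d))
    _ = _ := by rw [lintegral_add_left_eq_self, ← mul_assoc]

theorem continuous_shift {P : CTree} {v : Space3} {p : Par P} (ε : ℝ) (i : Idx P) :
    Continuous fun X : Space3 => lines Φ ε P (X, v) p i := by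
  have : (fun X : Space3 => lines Φ ε P (X, v) p i) = fun X : Space3 =>
      ((lines Φ ε P (0, v) p i).1 + X, (lines Φ ε P (0, v) p i).2) := by
    funext X
    exact lines_shift ε P X v p i
  rw [this]
  fun_prop

theorem measurable_fp_shift (hf : Measurable f₀) {P : CTree} {v : Space3} {p : Par P} (ε : ℝ) :
    Measurable fun X : Space3 => fp Φ f₀ ε P (X, v) p := by
  unfold fp
  exact Finset.measurable_prod _ fun i _ =>
    (hf.comp (continuous_shift ε i).measurable).ennreal_ofReal

theorem tendsto_lines (P : CTree) (ℓ : PhasePoint) (p : Par P) (i : Idx P) :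
    Tendsto (fun ε => lines Φ ε P ℓ p i) L (𝓝 (lines Φ 0 P ℓ p i)) := by
  have h := lines_close (Φ := Φ) P ℓ.2 p (fun _ => ℓ.1) ℓ.1 tendsto_const_nhds i
  have h2 : Tendsto (fun ε => (lines Φ ε P ℓ p i).2) L (𝓝 (lines Φ 0 P ℓ p i).2) := by
    have : (fun ε => (lines Φ ε P ℓ p i).2) = fun _ => (lines Φ 0 P ℓ p i).2 := by
      funext ε
      exact h.2 ε
    rw [this]
    exact tendsto_const_nhds
  exact h.1.prodMk_nhds h2

theorem tendsto_absd {α : Type*} {l : Filter α} {a : α → ℝ≥0∞} {b : ℝ≥0∞} (hb : b ≠ ∞)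
    (h : Tendsto a l (𝓝 b)) : Tendsto (fun x => absd (a x) b) l (𝓝 0) := by
  have h1 : Tendsto (fun x => a x - b) l (𝓝 (b - b)) :=
    ENNReal.Tendsto.sub h tendsto_const_nhds (Or.inr hb)
  have h2 : Tendsto (fun x => b - a x) l (𝓝 (b - b)) :=
    ENNReal.Tendsto.sub tendsto_const_nhds h (Or.inl hb)
  have := h1.add h2
  simpa [absd] using this

/-- `L¹(dX)` convergence of the product of the initial densities -/
theorem tendsto_fp (hΦ : AdmissiblePotential Φ) {γ : ℝ} {env : Space3 → ℝ≥0∞} {A : ℝ≥0∞}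
    (hE : Env γ f₀ env A) (hf : Continuous f₀) (P : CTree) (v : Space3) (p : Par P)
    (hp : Adm Φ P v p) :
    Tendsto (fun ε => ∫⁻ X : Space3, absd (fp Φ f₀ ε P (X, v) p) (fp Φ f₀ 0 P (X, v) p)) L
      (𝓝 0) := by
  set G : ℝ≥0∞ := ENNReal.ofReal (Real.exp (-γ * (‖v‖ ^ 2 + nodeEn P p))) with hG
  set d := (lines Φ 0 P (0, v) p (root P)).1 with hd
  have hlim : ∀ X : Space3, Tendsto (fun ε => absd (fp Φ f₀ ε P (X, v) p)
      (fp Φ f₀ 0 P (X, v) p)) L (𝓝 0) := by
    intro X
    refine tendsto_absd (fp_ne_top _ _ _ _) ?_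
    unfold fp
    refine ENNReal.tendsto_finsetProd_of_ne_top _ (fun i _ => ?_)
      (fun i _ => ENNReal.ofReal_ne_top)
    exact ENNReal.tendsto_ofReal ((hf.tendsto _).comp (tendsto_lines P (X, v) p i))
  have hclose : ∀ᶠ ε in L, ∀ X : Space3,
      dist (d + X) (lines Φ ε P (X, v) p (root P)).1 ≤ 1 := by
    have h1 := (tendsto_lines (Φ := Φ) P (0, v) p (root P)).fst_nhds
    have h2 : ∀ᶠ ε in L, dist (lines Φ ε P (0, v) p (root P)).1 d < 1 :=
      (tendsto_iff_dist_tendsto_zero.1 h1).eventually (gt_mem_nhds one_pos)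
    filter_upwards [h2] with ε hε X
    rw [lines_shift]
    simp only [dist_add_right]
    rw [dist_comm]
    exact hε.le
  have key := tendsto_lintegral_filter_of_dominated_convergence (μ := (volume : Measure Space3))
    (l := L) (F := fun ε X => absd (fp Φ f₀ ε P (X, v) p) (fp Φ f₀ 0 P (X, v) p))
    (f := fun _ => 0) (fun X => env (d + X) * A ^ P.size * G + env (d + X) * A ^ P.size * G)
    (Eventually.of_forall fun ε => measurable_absd (measurable_fp_shift hf.measurable ε)
      (measurable_fp_shift hf.measurable 0))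
    (by
      filter_upwards [hclose] with ε hε
      refine ae_of_all _ fun X => (absd_le_add _ _).trans (add_le_add ?_ ?_)
      · exact fp_le hΦ hE ε P (X, v) p hp _ (hε X)
      · refine fp_le hΦ hE 0 P (X, v) p hp _ ?_
        rw [lines_shift]
        simp [hd])
    (by
      have hm0 : Measurable fun X : Space3 => env (d + X) :=
        hE.meas.comp (measurable_const_add d)
      have hm1 : Measurable fun X : Space3 => env (d + X) * A ^ P.size := hm0.mul_const _
      have hm : Measurable fun X : Space3 => env (d + X) * A ^ P.size * G := hm1.mul_const _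
      rw [lintegral_add_left hm, lintegral_mul_const _ hm1, lintegral_mul_const _ hm0,
        lintegral_add_left_eq_self]
      have : (∫⁻ x, env x) * A ^ P.size * G ≠ ∞ :=
        ENNReal.mul_ne_top (ENNReal.mul_ne_top hE.int_ne (ENNReal.pow_ne_top hE.A_ne))
          ENNReal.ofReal_ne_top
      exact ENNReal.add_ne_top.2 ⟨this, this⟩)
    (ae_of_all _ hlim)
  simpa using key

end Crest.Agent.R122.QDens815

end
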