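import Crest.Agent.R122.TreeLim_974
import Crest.Agent.R122.QDensB_815
import Crest.Agent.R122.ToTree_335
import Crest.Agent.R122.NGin_416
import Crest.Agent.R122.InEq2Defs_311
import Crest.Agent.R122.HitSwG_167
import Crest.Agent.R122.EnergyFlow_410
import Crest.Agent.R122.GIVChild_383

-- ▼ part R122/Mid1_317
section

/-!
# The root in the middle of its last collision (row 122, helper317)

* `Mid Φ ε s P v p` : at time `s` the root of the tree is in its last collision window;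
* `midI` : mass of these trees, with the energy weight of the leaves;
* `midI_le` : uniform bound; `tendsto_midI` : `midI → 0` as `ε → 0`;
  `tendsto_lintegral_midI` : the same integrated in `s`.
-/

set_option autoImplicit false

open MeasureTheory Set Filter
open scoped Classical ENNReal Topology
open Crest.AnalysisR.Kinetic

noncomputable section

namespace Crest.Agent.R122.Mid317

open Kin796 Kin796.CTree Disc416 Tree674 ToTree335 QDens815 TreeDom974 Kin416

variable {Φ : Space3 → ℝ} {f₀ : PhasePoint → ℝ}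

/-- At time `s` the root is in its last collision window. -/
def Mid (Φ : Space3 → ℝ) (ε s : ℝ) : ∀ P : CTree, Space3 → Par P → Prop
  | leaf => fun _ _ => False
  | node _ _ => fun v p => Adm1 Φ v p.1 ∧ Tree674.sin Φ ε v p.1 ≤ s ∧ s ≤ p.1.1

/-- indicator of `Mid` -/
def indM (Φ : Space3 → ℝ) (ε s : ℝ) (P : CTree) (q : Space3 × Par P) : ℝ≥0∞ :=
  if Mid Φ ε s P q.1 q.2 then 1 else 0

theorem indM_le_one (ε s : ℝ) (P : CTree) (q : Space3 × Par P) : indM Φ ε s P q ≤ 1 := by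
  unfold indM; split_ifs <;> simp

theorem measurable_indM (hΦ : AdmissiblePotential Φ) (ε : ℝ) : ∀ P : CTree,
    Measurable fun q : ℝ × (Space3 × Par P) => indM Φ ε q.1 P q.2
  | leaf => by
      have : (fun q : ℝ × (Space3 × Par leaf) => indM Φ ε q.1 leaf q.2) = fun _ => 0 := by
        funext q
        exact if_neg id
      rw [this]
      exact measurable_const
  | node l r => by
      refine Measurable.ite ?_ measurable_const measurable_const
      have hz : Measurable fun q : ℝ × (Space3 × Par (node l r)) => (q.2.1, q.2.2.1) :=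
        measurable_snd.fst.prodMk ((measurable_par1 l r).comp measurable_snd.snd)
      have hs := (measurable_sM hΦ ε).comp hz
      have key : {q : ℝ × (Space3 × Par (node l r)) | Mid Φ ε q.1 (node l r) q.2.1 q.2.2} =
          (fun q : ℝ × (Space3 × Par (node l r)) => (q.2.1, q.2.2.1)) ⁻¹' NS Φ ∩
          ({q : ℝ × (Space3 × Par (node l r)) | sM Φ ε (q.2.1, q.2.2.1) ≤ q.1} ∩
          {q : ℝ × (Space3 × Par (node l r)) | q.1 ≤ q.2.2.1.1}) := by
        ext q
        constructor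
        · rintro ⟨h1, h2, h3⟩
          refine ⟨h1, ?_, h3⟩
          show sM Φ ε (q.2.1, q.2.2.1) ≤ q.1
          rw [sM_of_adm (z := (q.2.1, q.2.2.1)) h1]
          exact h2
        · rintro ⟨h1, h2, h3⟩
          refine ⟨h1, ?_, h3⟩
          have h2' : sM Φ ε (q.2.1, q.2.2.1) ≤ q.1 := h2
          rwa [sM_of_adm (z := (q.2.1, q.2.2.1)) h1] at h2'
      rw [key]
      refine (hz (measurableSet_NS hΦ)).inter ((measurableSet_le hs measurable_fst).inter ?_)
      exact measurableSet_le measurable_fst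
        (measurable_fst.comp ((measurable_par1 l r).comp measurable_snd.snd))

/-- energy weight of the leaves (measurable version) -/
def WM (Φ : Space3 → ℝ) (ε : ℝ) (P : CTree) (z : PhasePoint × Par P) : ℝ≥0∞ :=
  ∑ x, ENNReal.ofReal (1 + ‖(linesM Φ ε P z.1 z.2 x).2‖ ^ 2)

theorem measurable_WM (hΦ : AdmissiblePotential Φ) (ε : ℝ) (P : CTree) :
    Measurable (WM Φ ε P) := by
  refine Finset.measurable_sum _ fun x _ => ?_
  have h := ((measurable_pi_apply x).comp (measurable_linesM hΦ ε P)).snd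
  exact ((h.norm.pow_const 2).const_add 1).ennreal_ofReal

theorem WM_of_adm {ε : ℝ} {P : CTree} {z : PhasePoint × Par P} (h : Adm Φ P z.1.2 z.2) :
    WM Φ ε P z = ∑ x, ENNReal.ofReal (1 + ‖vels Φ P z.1.2 z.2 x‖ ^ 2) := by
  unfold WM
  refine Finset.sum_congr rfl fun x _ => ?_
  rw [linesM_of_adm ε h, Hid424.lines_vel]

/-- the integrand -/
def gM (Φ : Space3 → ℝ) (f₀ : PhasePoint → ℝ) (ε s : ℝ) (P : CTree) (z : PhasePoint × Par P) :
    ℝ≥0∞ := pfM Φ f₀ ε P z * (WM Φ ε P z * indM Φ ε s P (z.1.2, z.2))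

theorem measurable_gM2 (hΦ : AdmissiblePotential Φ) (hf : Measurable f₀) (ε : ℝ) (P : CTree) :
    Measurable fun q : ℝ × (PhasePoint × Par P) => gM Φ f₀ ε q.1 P q.2 := by
  refine ((measurable_pfM hΦ hf P).comp measurable_snd).mul
    (((measurable_WM hΦ ε P).comp measurable_snd).mul ?_)
  have h : Measurable fun q : ℝ × (PhasePoint × Par P) => (q.1, (q.2.1.2, q.2.2)) :=
    measurable_fst.prodMk (measurable_snd.fst.snd.prodMk measurable_snd.snd)
  exact (measurable_indM hΦ ε P).comp h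


/-- mass of the trees whose root is in its last collision window at time `s` -/
def midI (Φ : Space3 → ℝ) (f₀ : PhasePoint → ℝ) (ε T s : ℝ) (P : CTree) : ℝ≥0∞ :=
  ∫⁻ z : PhasePoint × Par P, {z : PhasePoint × Par P | Valid Φ ε P T z.1.2 z.2}.indicator
    (fun z => wt Φ P z.1.2 z.2 * gM Φ f₀ ε s P z) z

theorem measurable_ind2 (hΦ : AdmissiblePotential Φ) (hf : Measurable f₀) (ε T : ℝ) (P : CTree) :
    Measurable fun q : ℝ × (PhasePoint × Par P) =>
      {z : PhasePoint × Par P | Valid Φ ε P T z.1.2 z.2}.indicator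
        (fun z => wt Φ P z.1.2 z.2 * gM Φ f₀ ε q.1 P z) q.2 := by
  have h1 : (fun q : ℝ × (PhasePoint × Par P) =>
      {z : PhasePoint × Par P | Valid Φ ε P T z.1.2 z.2}.indicator
        (fun z => wt Φ P z.1.2 z.2 * gM Φ f₀ ε q.1 P z) q.2) =
      fun q : ℝ × (PhasePoint × Par P) => vw Φ ε P T q.2 * gM Φ f₀ ε q.1 P q.2 := by
    funext q
    by_cases hz : Valid Φ ε P T q.2.1.2 q.2.2
    · rw [vw_of_valid hz]
      exact indicator_of_mem (show q.2 ∈ {z : PhasePoint × Par P | Valid Φ ε P T z.1.2 z.2} from hz)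
        _
    · rw [vw_of_not_valid hz, zero_mul]
      exact indicator_of_notMem
        (show q.2 ∉ {z : PhasePoint × Par P | Valid Φ ε P T z.1.2 z.2} from hz) _
  rw [h1]
  exact ((measurable_vw hΦ ε P T).comp measurable_snd).mul (measurable_gM2 hΦ hf ε P)

theorem measurable_midI (hΦ : AdmissiblePotential Φ) (hf : Measurable f₀) (ε T : ℝ) (P : CTree) :
    Measurable fun s => midI Φ f₀ ε T s P :=
  (measurable_ind2 hΦ hf ε T P).lintegral_prod_right'

/-! ### The bound -/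

/-- the reduced integral -/
def domI (Φ : Space3 → ℝ) (C b ε T s : ℝ) (P : CTree) : ℝ≥0∞ :=
  ∫⁻ q : Space3 × Par P, domG C b T P q.1 q.2 * indM Φ ε s P q

theorem midI_le (hΦ : AdmissiblePotential Φ) (hf : Measurable f₀) {γ : ℝ} (hγ : 0 < γ)
    (hb : HasSummableGaussianBound γ (fun x v => f₀ (x, v))) (P : CTree) :
    ∃ (c : ℝ≥0∞) (C b : ℝ), c ≠ ∞ ∧ 0 ≤ C ∧ 0 < b ∧ ∀ ε T s : ℝ, 0 ≤ ε →
      midI Φ f₀ ε T s P ≤ c * domI Φ C b ε T s P := by
  obtain ⟨env, A, hE⟩ := exists_env hb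
  set γ₁ := γ / 2 with hγ₁
  have h1 : 0 < γ₁ := by positivity
  have hlt : γ / 4 < γ₁ := by rw [hγ₁]; linarith
  set k : PhasePoint → ℝ≥0∞ := fun z => ENNReal.ofReal (1 * Real.exp (-γ₁ * ‖z.2‖ ^ 2)) with hk
  obtain ⟨C', hC', hdom⟩ := le_domG hΦ (C := 1) (b := γ₁) (b' := γ / 4) zero_le_one hlt
    (k := k) (fun z => le_rfl) P
  set n : ℝ := (Fintype.card (Idx P) : ℝ) with hn
  have hn1 : 1 ≤ n := by
    rw [hn]
    exact_mod_cast Fintype.card_pos_iff.2 ⟨root P⟩
  set c1 : ℝ := n * ((1 : ℕ).factorial / γ₁ ^ 1 * Real.exp γ₁) with hc1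
  have hc10 : 0 ≤ c1 := by positivity
  refine ⟨((∫⁻ x, env x) * A ^ P.size) * ENNReal.ofReal c1, C', γ / 4,
    ENNReal.mul_ne_top (ENNReal.mul_ne_top hE.int_ne (ENNReal.pow_ne_top hE.A_ne))
      ENNReal.ofReal_ne_top, hC', by positivity, fun ε T s hε => ?_⟩
  have hmeas : Measurable fun z : PhasePoint × Par P =>
      {z : PhasePoint × Par P | Valid Φ ε P T z.1.2 z.2}.indicator
        (fun z => wt Φ P z.1.2 z.2 * gM Φ f₀ ε s P z) z :=
    (measurable_ind2 hΦ hf ε T P).comp (measurable_const.prodMk measurable_id)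
  unfold midI domI
  rw [TreeLim974.lintegral_split P hmeas]
  have hcne : ((∫⁻ x, env x) * A ^ P.size) * ENNReal.ofReal c1 ≠ ∞ :=
    ENNReal.mul_ne_top (ENNReal.mul_ne_top hE.int_ne (ENNReal.pow_ne_top hE.A_ne))
      ENNReal.ofReal_ne_top
  rw [← lintegral_const_mul' _ _ hcne]
  refine lintegral_mono fun q => ?_
  by_cases hV : Valid Φ ε P T q.1 q.2
  swap
  · have : ∀ x : Space3, {z : PhasePoint × Par P | Valid Φ ε P T z.1.2 z.2}.indicator
        (fun z => wt Φ P z.1.2 z.2 * gM Φ f₀ ε s P z) ((x, q.1), q.2) = 0 := fun x =>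
      indicator_of_notMem (show ((x, q.1), q.2) ∉
        {z : PhasePoint × Par P | Valid Φ ε P T z.1.2 z.2} from hV) _
    simp only [this, lintegral_zero]
    exact bot_le
  have hA := hV.1
  have hEn := QDens815.sum_vels hΦ P q.1 q.2 hA
  set E : ℝ := ‖q.1‖ ^ 2 + nodeEn P q.2 with hEdef
  have hE0 : 0 ≤ E := by
    have := nodeEn_nonneg P q.2
    positivity
  have e1 : ∀ x : Space3, {z : PhasePoint × Par P | Valid Φ ε P T z.1.2 z.2}.indicator
        (fun z => wt Φ P z.1.2 z.2 * gM Φ f₀ ε s P z) ((x, q.1), q.2) =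
      (wt Φ P q.1 q.2 * ((∑ i, ENNReal.ofReal (1 + ‖vels Φ P q.1 q.2 i‖ ^ 2)) *
        indM Φ ε s P q)) * fp Φ f₀ ε P (x, q.1) q.2 := by
    intro x
    rw [indicator_of_mem (show ((x, q.1), q.2) ∈
      {z : PhasePoint × Par P | Valid Φ ε P T z.1.2 z.2} from hV)]
    unfold gM
    rw [pfM_of_adm (z := ((x, q.1), q.2)) hA, WM_of_adm (z := ((x, q.1), q.2)) hA]
    unfold pf fp
    ring
  simp only [e1]
  have hne : wt Φ P q.1 q.2 * ((∑ i, ENNReal.ofReal (1 + ‖vels Φ P q.1 q.2 i‖ ^ 2)) *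
      indM Φ ε s P q) ≠ ∞ := by
    refine ENNReal.mul_ne_top (TreeLim974.wt_ne_top P _ _) (ENNReal.mul_ne_top ?_ ?_)
    · exact ENNReal.sum_ne_top.2 fun _ _ => ENNReal.ofReal_ne_top
    · exact ((indM_le_one ε s P q).trans_lt ENNReal.one_lt_top).ne
  rw [lintegral_const_mul' _ _ hne]
  have hW : (∑ i, ENNReal.ofReal (1 + ‖vels Φ P q.1 q.2 i‖ ^ 2)) =
      ENNReal.ofReal (n + E) := by
    rw [← ENNReal.ofReal_sum_of_nonneg fun i _ => by positivity, Finset.sum_add_distrib, hEn,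
      Finset.sum_const, Finset.card_univ, nsmul_eq_mul, mul_one]
  have hprod : ∏ i, k (lines Φ ε P ((0 : Space3), q.1) q.2 i) =
      ENNReal.ofReal (Real.exp (-γ₁ * E)) := by
    simp only [hk, one_mul]
    rw [← ENNReal.ofReal_prod_of_nonneg (fun i _ => (Real.exp_pos _).le), ← Real.exp_sum,
      ← Finset.mul_sum]
    congr 3
    rw [← hEn]
    refine Finset.sum_congr rfl fun i _ => ?_
    rw [Hid424.lines_vel]
  have hexp : ENNReal.ofReal (n + E) * ENNReal.ofReal (Real.exp (-γ * E)) ≤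
      ENNReal.ofReal c1 * ENNReal.ofReal (Real.exp (-γ₁ * E)) := by
    rw [← ENNReal.ofReal_mul (by positivity), ← ENNReal.ofReal_mul hc10]
    refine ENNReal.ofReal_le_ofReal ?_
    have h2 := one_add_pow_le h1 hE0 1
    rw [pow_one (1 + E)] at h2
    have h3 : Real.exp (-γ * E) = Real.exp (-γ₁ * E) * Real.exp (-(γ₁ * E)) := by
      rw [← Real.exp_add]
      congr 1
      rw [hγ₁]; ring
    have h4 : Real.exp (γ₁ * E) * Real.exp (-(γ₁ * E)) = 1 := by
      rw [← Real.exp_add]; simp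
    calc (n + E) * Real.exp (-γ * E)
        ≤ (n * (1 + E)) * Real.exp (-γ * E) := by
          refine mul_le_mul_of_nonneg_right ?_ (Real.exp_pos _).le
          nlinarith
      _ ≤ (n * (((1 : ℕ).factorial / γ₁ ^ 1 * Real.exp γ₁) * Real.exp (γ₁ * E))) *
            Real.exp (-γ * E) := by
          refine mul_le_mul_of_nonneg_right ?_ (Real.exp_pos _).le
          exact mul_le_mul_of_nonneg_left h2 (by linarith)
      _ = c1 * Real.exp (-γ₁ * E) * (Real.exp (γ₁ * E) * Real.exp (-(γ₁ * E))) := by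
          rw [h3, hc1]; ring
      _ = c1 * Real.exp (-γ₁ * E) := by rw [h4, mul_one]
  have hfin := hdom ε T T ((0 : Space3), q.1) q.2 hε le_rfl hV
  rw [hprod] at hfin
  calc wt Φ P q.1 q.2 * ((∑ i, ENNReal.ofReal (1 + ‖vels Φ P q.1 q.2 i‖ ^ 2)) *
        indM Φ ε s P q) * ∫⁻ x : Space3, fp Φ f₀ ε P (x, q.1) q.2
      ≤ wt Φ P q.1 q.2 * (ENNReal.ofReal (n + E) * indM Φ ε s P q) *
          ((∫⁻ x, env x) * A ^ P.size * ENNReal.ofReal (Real.exp (-γ * E))) := by
        rw [hW]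
        exact mul_le_mul_right (lintegral_fp_le hΦ hE ε P q.1 q.2 hA) _
    _ = ((∫⁻ x, env x) * A ^ P.size) * wt Φ P q.1 q.2 * indM Φ ε s P q *
          (ENNReal.ofReal (n + E) * ENNReal.ofReal (Real.exp (-γ * E))) := by ring
    _ ≤ ((∫⁻ x, env x) * A ^ P.size) * wt Φ P q.1 q.2 * indM Φ ε s P q *
          (ENNReal.ofReal c1 * ENNReal.ofReal (Real.exp (-γ₁ * E))) := mul_le_mul_right hexp _
    _ = ((∫⁻ x, env x) * A ^ P.size) * ENNReal.ofReal c1 *
          ((wt Φ P q.1 q.2 * ENNReal.ofReal (Real.exp (-γ₁ * E))) * indM Φ ε s P q) := by ring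
    _ ≤ ((∫⁻ x, env x) * A ^ P.size) * ENNReal.ofReal c1 *
          (domG C' (γ / 4) T P q.1 q.2 * indM Φ ε s P q) := by
        gcongr

/-! ### The limit -/

theorem ae_top_ne (l r : CTree) (s : ℝ) : ∀ᵐ q : Space3 × Par (node l r), q.2.1.1 ≠ s := by
  have h1 : ∀ᵐ u : ℝ, u ≠ s := by
    rw [ae_iff]; simp
  have h2 : ∀ᵐ a : NodeP, a.1 ≠ s :=
    (Measure.quasiMeasurePreserving_fst (μ := (volume : Measure ℝ))
      (ν := (volume : Measure (Space3 × Plane)))).ae h1
  have h3 : ∀ᵐ p : NodeP × (Par l × Par r), p.1.1 ≠ s :=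
    (Measure.quasiMeasurePreserving_fst (μ := (volume : Measure NodeP))
      (ν := (volume : Measure (Par l × Par r)))).ae h2
  exact (Measure.quasiMeasurePreserving_snd (μ := (volume : Measure Space3))
      (ν := (volume : Measure (NodeP × (Par l × Par r))))).ae h3

theorem indM_eventually {l r : CTree} {s : ℝ} {q : Space3 × Par (node l r)} (h : q.2.1.1 ≠ s) :
    ∀ᶠ ε in 𝓝[>] (0 : ℝ), indM Φ ε s (node l r) q = 0 := by
  rcases lt_or_gt_of_ne h with hlt | hlt
  · refine Eventually.of_forall fun ε => if_neg fun hm => ?_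
    exact absurd hm.2.2 (not_le.2 hlt)
  · have hc : Tendsto (fun ε : ℝ => Tree674.sin Φ ε q.1 q.2.1) (𝓝[>] 0) (𝓝 q.2.1.1) := by
      have : Tendsto (fun ε : ℝ => q.2.1.1 - ε * tau Φ (nb q.1 q.2.1) (ng q.1 q.2.1)) (𝓝 0)
          (𝓝 (q.2.1.1 - 0 * tau Φ (nb q.1 q.2.1) (ng q.1 q.2.1))) :=
        tendsto_const_nhds.sub (tendsto_id.mul_const _)
      rw [zero_mul, sub_zero] at this
      exact this.mono_left nhdsWithin_le_nhds
    filter_upwards [hc.eventually (lt_mem_nhds hlt)] with ε hε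
    exact if_neg fun hm => absurd hm.2.1 (not_le.2 hε)

theorem tendsto_domI (hΦ : AdmissiblePotential Φ) {C b : ℝ} (hC : 0 ≤ C) (hb : 0 < b)
    (T s : ℝ) (P : CTree) : Tendsto (fun ε => domI Φ C b ε T s P) (𝓝[>] 0) (𝓝 0) := by
  have h0 : (0 : ℝ≥0∞) = ∫⁻ _q : Space3 × Par P, (0 : ℝ≥0∞) := by simp
  rw [h0]
  refine tendsto_lintegral_filter_of_dominated_convergence
    (fun q : Space3 × Par P => domG C b T P q.1 q.2) ?_ ?_ (lintegral_domG_ne_top hC hb T P) ?_
  · refine Eventually.of_forall fun ε => (measurable_domG hC b T P).mul ?_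
    exact (measurable_indM hΦ ε P).comp (measurable_const.prodMk measurable_id)
  · refine Eventually.of_forall fun ε => Eventually.of_forall fun q => ?_
    calc domG C b T P q.1 q.2 * indM Φ ε s P q ≤ domG C b T P q.1 q.2 * 1 :=
          mul_le_mul_right (indM_le_one ε s P q) _
      _ = _ := mul_one _
  · cases P with
    | leaf =>
      refine Eventually.of_forall fun q => ?_
      have : ∀ ε, indM Φ ε s leaf q = 0 := fun ε => if_neg id
      simp only [this, mul_zero]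
      exact tendsto_const_nhds
    | node l r =>
      filter_upwards [ae_top_ne l r s] with q hq
      refine tendsto_const_nhds.congr' ?_
      filter_upwards [indM_eventually (Φ := Φ) hq] with ε hε
      rw [hε, mul_zero]

theorem domI_le {C b : ℝ} (ε T s : ℝ) (P : CTree) :
    domI Φ C b ε T s P ≤ ∫⁻ q : Space3 × Par P, domG C b T P q.1 q.2 := by
  refine lintegral_mono fun q => ?_
  calc domG C b T P q.1 q.2 * indM Φ ε s P q ≤ domG C b T P q.1 q.2 * 1 :=
        mul_le_mul_right (indM_le_one ε s P q) _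
    _ = _ := mul_one _

theorem measurable_domI (hΦ : AdmissiblePotential Φ) {C b : ℝ} (hC : 0 ≤ C) (ε T : ℝ)
    (P : CTree) : Measurable fun s => domI Φ C b ε T s P := by
  refine Measurable.lintegral_prod_right' (f := fun q : ℝ × (Space3 × Par P) =>
    domG C b T P q.2.1 q.2.2 * indM Φ ε q.1 P q.2) ?_
  exact ((measurable_domG hC b T P).comp measurable_snd).mul (measurable_indM hΦ ε P)

theorem tendsto_lintegral_domI (hΦ : AdmissiblePotential Φ) {C b : ℝ} (hC : 0 ≤ C) (hb : 0 < b)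
    (T t : ℝ) (P : CTree) :
    Tendsto (fun ε => ∫⁻ s in Ioo 0 t, domI Φ C b ε T s P) (𝓝[>] 0) (𝓝 0) := by
  have h0 : (0 : ℝ≥0∞) = ∫⁻ _s in Ioo 0 t, (0 : ℝ≥0∞) := by simp
  rw [h0]
  refine tendsto_lintegral_filter_of_dominated_convergence
    (fun _ : ℝ => ∫⁻ q : Space3 × Par P, domG C b T P q.1 q.2) ?_ ?_ ?_ ?_
  · exact Eventually.of_forall fun ε => measurable_domI hΦ hC ε T P
  · exact Eventually.of_forall fun ε => Eventually.of_forall fun s => domI_le ε T s P
  · rw [setLIntegral_const]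
    exact ENNReal.mul_ne_top (lintegral_domG_ne_top hC hb T P) (by simp)
  · exact Eventually.of_forall fun s => tendsto_domI hΦ hC hb T s P


/-- **Time integrated version.** -/
theorem tendsto_lintegral_midI (hΦ : AdmissiblePotential Φ) (hf : Measurable f₀) {γ : ℝ}
    (hγ : 0 < γ) (hb : HasSummableGaussianBound γ (fun x v => f₀ (x, v))) (T t : ℝ) (P : CTree) :
    Tendsto (fun ε => ∫⁻ s in Ioo 0 t, midI Φ f₀ ε T s P) (𝓝[>] 0) (𝓝 0) := by
  obtain ⟨c, C, b, hc, hC, hb', h⟩ := midI_le hΦ hf hγ hb P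
  have h1 : Tendsto (fun ε => c * ∫⁻ s in Ioo 0 t, domI Φ C b ε T s P) (𝓝[>] 0) (𝓝 (c * 0)) :=
    ENNReal.Tendsto.const_mul (tendsto_lintegral_domI hΦ hC hb' T t P) (Or.inr hc)
  rw [mul_zero] at h1
  refine tendsto_of_tendsto_of_tendsto_of_le_of_le' tendsto_const_nhds h1
    (Eventually.of_forall fun _ => bot_le) ?_
  filter_upwards [self_mem_nhdsWithin] with ε hε
  rw [← lintegral_const_mul' _ _ hc]
  exact lintegral_mono fun s => h ε T s (le_of_lt hε)

end Crest.Agent.R122.Mid317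
end
end

-- ▼ part R122/Mid2_317

/-!
# Real clusters which are not trees have small mass (row 122, helper317)

* `speed_le`, `spdW_le` : speed of a particle from the initial energies of its backward cluster;
* `skF`, `gcE_skF_le` : expectation of the sum over embedded tree configurations;
* `NGin Φ f₀ T' te K` : the input from D5 (closed real histories of at most `K` particles are trees up
  to a small functional);
* `realTree_of_hTreeC` : a closed real history whose top collision is finished is a real tree;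
* `notGood_le` : mass of the real clusters of at most `K` particles which are not trees.
* `ngq_of` : the integrated form.
-/

set_option autoImplicit false

open MeasureTheory Set Filter
open scoped Classical ENNReal NNReal Topology
open Crest.AnalysisR.Kinetic

noncomputable section

namespace Crest.Agent.R122.Mid317

open Kin796 Kin796.CTree Tree674 ToTree335 QDens815 TreeDom974 Kin416 Relabel674 GC311
  Causal291 Flow671 Loc45 Master566 EDefs602

variable {Φ : Space3 → ℝ} {f₀ : PhasePoint → ℝ} {ε : ℝ}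

/-! ### Speed of a particle from its backward cluster -/

theorem far_of_mem {n : ℕ} {Z : Config n} (hZ : Z ∈ PairExcluded ε n) (i j : Fin n) (hij : i ≠ j) :
    ε ≤ dist (Z i).1 (Z j).1 := by
  have := hZ i j hij
  exact this.le

theorem sq_speed_le (hΦ : AdmissiblePotential Φ) (hε : 0 < ε) {n : ℕ} {Z : Config n}
    (hZ : Z ∈ PairExcluded ε n) {s : ℝ} (hs : 0 ≤ s) (i : Fin n) :
    ‖(pth Φ ε Z s i).2‖ ^ 2 ≤
      ∑ b ∈ (bc Φ ε Z s i).toFinset, (‖(Z b).2‖ ^ 2 + 4 * stabB Φ) := by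
  have W := Energy410.world_flow hΦ hε (far_of_mem hZ) s
  set z : ℝ → Fin n → PhasePoint := fun t => flow Φ ε t Z with hz
  set G : Finset (Fin n) := Finset.univ.filter fun k => Past (Ct z ε) s i s k with hG
  have hGm : ∀ k, k ∈ G ↔ Past (Ct z ε) s i s k := fun k => by simp [hG]
  have hiso : Energy410.Iso ε G (z s) := by
    intro j hj k hk
    by_contra hlt
    rw [not_le] at hlt
    rw [hGm] at hj hk
    exact hk (hj.contact hlt.le)
  have h1 := Energy410.eng_root_le hΦ hε W hs le_rfl hiso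
  have h2 := W.stab s ⟨hs, le_rfl⟩ G
  have hz0 : z 0 = Z := Flow671.flow_zero hΦ hε Z
  have hBC : (⋃ p ∈ G, BC (Ct z ε) s p) ⊆ bc Φ ε Z s i := by
    intro k hk
    simp only [mem_iUnion] at hk
    obtain ⟨p, hp, hk⟩ := hk
    exact ((hGm p).1 hp).trans hk
  have hB := stabB_nonneg Φ
  have h3 : Energy410.Wt (stabB Φ) (z 0) (⋃ p ∈ G, BC (Ct z ε) s p) ≤
      ∑ b ∈ (bc Φ ε Z s i).toFinset, ((1 / 2) * ‖(Z b).2‖ ^ 2 + stabB Φ) := by
    refine (Energy410.Wt_mono hB (z 0) hBC).trans (le_of_eq ?_)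
    have := Energy410.Wt_coe (stabB Φ) (z 0) (bc Φ ε Z s i).toFinset
    rw [Set.coe_toFinset] at this
    rw [this, hz0]
  have hGBC : G ⊆ (bc Φ ε Z s i).toFinset := by
    intro k hk
    rw [Set.mem_toFinset]
    exact ((hGm k).1 hk).mono hs
  have hiG : i ∈ G := (hGm i).2 (.root le_rfl)
  have h4 : ‖(z s i).2‖ ^ 2 ≤ ∑ j ∈ G, ‖(z s j).2‖ ^ 2 :=
    Finset.single_le_sum (f := fun j => ‖(z s j).2‖ ^ 2) (fun _ _ => by positivity) hiG
  have h5 : stabB Φ * (G.card : ℝ) ≤ ∑ _b ∈ (bc Φ ε Z s i).toFinset, stabB Φ := by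
    rw [Finset.sum_const, nsmul_eq_mul, mul_comm]
    have : (G.card : ℝ) ≤ ((bc Φ ε Z s i).toFinset.card : ℝ) := by
      exact_mod_cast Finset.card_le_card hGBC
    exact mul_le_mul_of_nonneg_right this hB
  have h6 : ∑ b ∈ (bc Φ ε Z s i).toFinset, (‖(Z b).2‖ ^ 2 + 4 * stabB Φ) =
      2 * ∑ b ∈ (bc Φ ε Z s i).toFinset, ((1 / 2) * ‖(Z b).2‖ ^ 2 + stabB Φ) +
        2 * ∑ _b ∈ (bc Φ ε Z s i).toFinset, stabB Φ := by
    rw [Finset.mul_sum, Finset.mul_sum, ← Finset.sum_add_distrib]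
    refine Finset.sum_congr rfl fun b _ => ?_
    ring
  have h7 : (pth Φ ε Z s i) = z s i := rfl
  rw [h6, h7]
  linarith

/-- constant of the speed weight -/
def cS (Φ : Space3 → ℝ) (M : ℝ≥0) : ℝ≥0∞ := ENNReal.ofReal (M + 2 * stabB Φ + 1)

theorem cS_ne_top (M : ℝ≥0) : cS Φ M ≠ ∞ := ENNReal.ofReal_ne_top

/-- The speed weight is bounded by the initial energies of the backward cluster. -/
theorem spdW_le (hΦ : AdmissiblePotential Φ) (hε : 0 < ε) {n : ℕ} {Z : Config n}
    (hZ : Z ∈ PairExcluded ε n) {s : ℝ} (hs : 0 ≤ s) (i : Fin n) (M : ℝ≥0) :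
    Hit167.spdW Φ ε M Z i s ≤ cS Φ M * eW Z (bc Φ ε Z s i).toFinset := by
  have h1 := sq_speed_le hΦ hε hZ hs i
  have hB := stabB_nonneg Φ
  have hi : i ∈ (bc Φ ε Z s i).toFinset := by
    rw [Set.mem_toFinset]
    exact Past.root hs
  set S : ℝ := ∑ b ∈ (bc Φ ε Z s i).toFinset, (1 + ‖(Z b).2‖ ^ 2) with hS
  have hM : (0 : ℝ) ≤ (M : ℝ) := M.2
  have h2 : 1 ≤ S := by
    have h3 : 1 + ‖(Z i).2‖ ^ 2 ≤ S :=
      Finset.single_le_sum (f := fun b => 1 + ‖(Z b).2‖ ^ 2) (fun _ _ => by positivity) hi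
    have : 0 ≤ ‖(Z i).2‖ ^ 2 := by positivity
    linarith
  have h4 : ∑ b ∈ (bc Φ ε Z s i).toFinset, (‖(Z b).2‖ ^ 2 + 4 * stabB Φ) ≤
      (1 + 4 * stabB Φ) * S := by
    rw [hS, Finset.mul_sum]
    refine Finset.sum_le_sum fun b _ => ?_
    have : 0 ≤ ‖(Z b).2‖ ^ 2 := by positivity
    nlinarith
  have h5 : (M : ℝ) + ‖(pth Φ ε Z s i).2‖ ≤ (M + 2 * stabB Φ + 1) * S := by
    have h6 : ‖(pth Φ ε Z s i).2‖ ≤ (1 + ‖(pth Φ ε Z s i).2‖ ^ 2) / 2 := by
      nlinarith [sq_nonneg (‖(pth Φ ε Z s i).2‖ - 1)]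
    nlinarith [mul_le_mul_of_nonneg_left h2 hM]
  have h6 : Hit167.spdW Φ ε M Z i s = ENNReal.ofReal ((M : ℝ) + ‖(pth Φ ε Z s i).2‖) := by
    unfold Hit167.spdW
    rw [ENNReal.ofReal_add hM (norm_nonneg _), ofReal_norm, ENNReal.ofReal_coe_nnreal]
  have h7 : eW Z (bc Φ ε Z s i).toFinset = ENNReal.ofReal S := by
    unfold eW
    rw [hS, ENNReal.ofReal_sum_of_nonneg fun b _ => by positivity]
  rw [h6, h7]
  unfold cS
  rw [← ENNReal.ofReal_mul (by positivity)]
  exact ENNReal.ofReal_le_ofReal h5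

/-! ### Embedded tree configurations -/

/-- functional of a labelled tree configuration -/
def skF (Φ : Space3 → ℝ) (ε T : ℝ) (P : CTree) (g : PhasePoint × Par P → ℝ≥0∞)
    (V : Config P.leaves) : ℝ≥0∞ :=
  (Skel Φ ε P T).indicator (fun W => g (Tree674.inv Φ ε P T W)) (fun x => V (eP P x))

theorem measurable_skF (hΦ : AdmissiblePotential Φ) (hε : 0 < ε) (T : ℝ) (P : CTree)
    {g : PhasePoint × Par P → ℝ≥0∞} (hg : Measurable g) : Measurable (skF Φ ε T P g) := by
  have h1 : Measurable fun V : Config P.leaves => (fun x : Idx P => V (eP P x)) :=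
    measurable_pi_iff.2 fun x => measurable_pi_apply (eP P x)
  exact ((hg.comp (measurable_inv hΦ hε P T)).indicator (measurableSet_skel hΦ hε P T)).comp h1

/-- Expectation of the number of embedded trees with a weight. -/
theorem gcE_skF_le (hΦ : AdmissiblePotential Φ) (hf : Measurable f₀)
    (h1 : ∫⁻ z, ENNReal.ofReal (f₀ z) ≤ 1) (hε : 0 < ε) (T : ℝ) (P : CTree)
    {g : PhasePoint × Par P → ℝ≥0∞} (hg : Measurable g) :
    gcE f₀ ε (fun n X => ∑ e : Fin P.leaves ↪ Fin n, skF Φ ε T P g (fun x => X (e x))) ≤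
      activity ε * ∫⁻ z : PhasePoint × Par P,
        {z : PhasePoint × Par P | Valid Φ ε P T z.1.2 z.2}.indicator
          (fun z => wt Φ P z.1.2 z.2 * (pfM Φ f₀ ε P z * g z)) z := by
  refine (gcE_sum_emb_le hf h1 ε _ (measurable_skF hΦ hε T P hg)).trans ?_
  have hfm : Measurable fun q : (PhasePoint × Par P) × (Idx P → PhasePoint) =>
      (∏ x, ENNReal.ofReal (f₀ (q.2 x))) * g q.1 := by
    refine (Finset.measurable_prod _ fun x _ => ?_).mul (hg.comp measurable_fst)
    exact (hf.comp ((measurable_pi_apply x).comp measurable_snd)).ennreal_ofReal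
  have h := treeMeasure hΦ hε P T hfm
  have h2 : ∫⁻ V : Config P.leaves, gcWeight f₀ ε P.leaves V * skF Φ ε T P g V ≤
      ∫⁻ W : Idx P → PhasePoint, (Skel Φ ε P T).indicator (fun W =>
        (∏ x, ENNReal.ofReal (f₀ (W x))) * g (Tree674.inv Φ ε P T W)) W := by
    rw [lintegral_relabel (eP P)]
    refine lintegral_mono fun W => ?_
    have e1 : (fun x => (fun k => W ((eP P).symm k)) (eP P x)) = W := by
      funext x; simp
    have e2 : skF Φ ε T P g (fun k => W ((eP P).symm k)) =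
        (Skel Φ ε P T).indicator (fun W => g (Tree674.inv Φ ε P T W)) W := by
      unfold skF
      rw [e1]
    rw [e2]
    by_cases hW : W ∈ Skel Φ ε P T
    · rw [indicator_of_mem hW, indicator_of_mem hW]
      refine mul_le_mul_left ?_ _
      unfold gcWeight
      refine (indicator_le_self _ _ _).trans (le_of_eq ?_)
      rw [← Equiv.prod_comp (eP P)]
      refine Finset.prod_congr rfl fun x _ => ?_
      show ENNReal.ofReal (f₀ (W ((eP P).symm ((eP P) x)))) = _
      rw [Equiv.symm_apply_apply]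
    · rw [indicator_of_notMem hW, mul_zero]
      exact bot_le
  refine (mul_le_mul_right h2 _).trans (le_of_eq ?_)
  rw [← h, ← mul_assoc, activity_pow_mul hε P]
  congr 1
  refine lintegral_congr fun z => ?_
  by_cases hz : Valid Φ ε P T z.1.2 z.2
  · rw [indicator_of_mem (show z ∈ {z : PhasePoint × Par P | Valid Φ ε P T z.1.2 z.2} from hz),
      indicator_of_mem (show z ∈ {z : PhasePoint × Par P | Valid Φ ε P T z.1.2 z.2} from hz),
      pfM_of_adm hz.1]
    rfl
  · rw [indicator_of_notMem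
      (show z ∉ {z : PhasePoint × Par P | Valid Φ ε P T z.1.2 z.2} from hz),
      indicator_of_notMem
      (show z ∉ {z : PhasePoint × Par P | Valid Φ ε P T z.1.2 z.2} from hz)]

/-! ### Real histories and trees -/

section det

variable {T' s : ℝ} {κ : Type} [Fintype κ] {Z : κ → PhasePoint} {i : κ} {P : CTree}
  {ℓ : PhasePoint} {p : Par P} {e : Idx P → κ}

/-- A closed real history whose top collision is finished is a real tree. -/
theorem realTree_of_hTreeC (hε : 0 < ε) (hsT : s ≤ T')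
    (h : InEq2.HTreeC Φ ε T' s Z i P ℓ p e) (ht : TopLt P s p) :
    RealTree674.RealTree Φ ε s Z i P ℓ p e := by
  have hv : Valid Φ ε P s ℓ.2 p := (valid_iff_top hsT).2 ⟨h.valid, ht⟩
  refine ⟨hv, ?_, h.root, h.inj, ?_, ?_⟩
  · intro a b hab u hu h1 h2
    exact h.sep a b hab u ⟨hu.1, hu.2.trans hsT⟩ h1 h2
  · intro k u hu huk
    have hus : u ≤ s := huk.trans (PathFlow968.prot_le hε.le P s ℓ.2 p hv.2 k)
    refine h.agree k u hu hus ?_
    by_cases hk : k = Tree674.root P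
    · subst hk
      rw [Final973.prot_root]
      exact hus.trans hsT
    · rw [PathFlow968.prot_eq_of_ne P T' s p hk]
      exact huk
  · intro u hu j
    rw [h.past u hu j]
    refine exists_congr fun m => and_congr_right fun _ => ?_
    by_cases hm : m = Tree674.root P
    · subst hm
      rw [Final973.prot_root, Final973.prot_root]
      exact ⟨fun _ => hu.2, fun _ => hu.2.trans hsT⟩
    · rw [PathFlow968.prot_eq_of_ne P T' s p hm]

/-- If the top collision is not finished, the root is in its last collision window. -/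
theorem mid_of_hTreeC (h : InEq2.HTreeC Φ ε T' s Z i P ℓ p e) (ht : ¬ TopLt P s p) :
    Mid Φ ε s P ℓ.2 p := by
  cases P with
  | leaf => exact absurd trivial ht
  | node l r =>
    have h1 : ¬ p.1.1 < s := ht
    have h2 : Tree674.sin Φ ε ℓ.2 p.1 ≤ s := h.top
    exact ⟨(valid_node_iff.1 h.valid).1.1, h2, not_lt.1 h1⟩

end det

/-! ### The input of D5 -/

/-- **Input (D5)**: closed real histories of at most `K` particles at times in `[0, te]` are trees
(valid and separated at the horizon `T'`), except on a small functional of the gas. -/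
def NGin (Φ : Space3 → ℝ) (f₀ : PhasePoint → ℝ) (T' te : ℝ) (K : ℕ) : Prop :=
  ∃ B : ℝ → (n : ℕ) → Config n → Fin n → ℝ≥0∞,
    (∀ ε n i, Measurable fun X : Config n => B ε n X i) ∧
    (∀ ε n (σ : Equiv.Perm (Fin n)) (X : Config n) i,
      B ε n (fun x => X (σ x)) i = B ε n X (σ i)) ∧
    Tendsto (fun ε : ℝ => gcE f₀ ε (fun n X => (activity ε)⁻¹ * ∑ i, B ε n X i))
      (𝓝[>] 0) (𝓝 0) ∧
    ∃ e0 > 0, ∀ ε, 0 < ε → ε < e0 → ∀ (n : ℕ) (X : Config n), X ∈ PairExcluded ε n →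
      ∀ i, ∀ u ∈ Icc 0 te, (bc Φ ε X u i).ncard ≤ K →
        (∃ P ℓ p e, InEq2.HTreeC Φ ε T' u X i P ℓ p e) ∨
          eW X (bc Φ ε X u i).toFinset ≤ B ε n X i

/-- The functional of the trees seen in the middle of their last collision. -/
def gMid (Φ : Space3 → ℝ) (ε s : ℝ) (P : CTree) (z : PhasePoint × Par P) : ℝ≥0∞ :=
  WM Φ ε P z * indM Φ ε s P (z.1.2, z.2)

theorem measurable_gMid (hΦ : AdmissiblePotential Φ) (ε s : ℝ) (P : CTree) :
    Measurable (gMid Φ ε s P) := by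
  refine (measurable_WM hΦ ε P).mul ?_
  have h : Measurable fun z : PhasePoint × Par P => (s, (z.1.2, z.2)) :=
    measurable_const.prodMk (measurable_fst.snd.prodMk measurable_snd)
  exact (measurable_indM hΦ ε P).comp h

/-- Embedded trees with root `i`, seen in the middle of their last collision. -/
def midF (Φ : Space3 → ℝ) (ε T s : ℝ) (P : CTree) {n : ℕ} (X : Config n) (i : Fin n) : ℝ≥0∞ :=
  ∑ e : Fin P.leaves ↪ Fin n,
    if e (eP P (Tree674.root P)) = i then skF Φ ε T P (gMid Φ ε s P) (fun x => X (e x)) else 0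

theorem sum_midF (ε T s : ℝ) (P : CTree) {n : ℕ} (X : Config n) :
    ∑ i, midF Φ ε T s P X i =
      ∑ e : Fin P.leaves ↪ Fin n, skF Φ ε T P (gMid Φ ε s P) (fun x => X (e x)) := by
  unfold midF
  rw [Finset.sum_comm]
  refine Finset.sum_congr rfl fun e _ => ?_
  rw [Finset.sum_ite_eq]
  simp

theorem eW_le_midF (hΦ : AdmissiblePotential Φ) (hε : 0 < ε) {T' s : ℝ} (hs : 0 ≤ s)
    (hsT : s ≤ T') {n : ℕ} {X : Config n} {i : Fin n} {P : CTree} {ℓ : PhasePoint} {p : Par P}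
    {e : Idx P → Fin n} (h : InEq2.HTreeC Φ ε T' s X i P ℓ p e) (hm : Mid Φ ε s P ℓ.2 p) :
    eW X (bc Φ ε X s i).toFinset ≤ midF Φ ε T' s P X i := by
  have hT : 0 ≤ T' := hs.trans hsT
  have hr := h.range_eq hε hT hs
  set E : Fin P.leaves ↪ Fin n :=
    ⟨fun x => e ((eP P).symm x), fun x y hxy => (eP P).symm.injective (h.inj hxy)⟩ with hE
  have hEx : ∀ x, E x = e ((eP P).symm x) := fun x => rfl
  have hlines : (fun x : Idx P => X (E (eP P x))) = lines Φ ε P ℓ p := by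
    funext x
    rw [hEx, Equiv.symm_apply_apply]
    exact h.lines_eq hΦ hε hT hs x
  have hroot : E (eP P (Tree674.root P)) = i := by
    rw [hEx, Equiv.symm_apply_apply, h.root]
  have h1 : skF Φ ε T' P (gMid Φ ε s P) (fun x => X (E x)) =
      ∑ x : Idx P, ENNReal.ofReal (1 + ‖(X (e x)).2‖ ^ 2) := by
    unfold skF
    change (Skel Φ ε P T').indicator (fun W => gMid Φ ε s P (Tree674.inv Φ ε P T' W))
      (fun x : Idx P => X (E (eP P x))) = _
    rw [hlines, indicator_of_mem (mem_skel_lines h.valid), inv_lines hΦ hε h.valid le_rfl]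
    unfold gMid indM
    rw [if_pos hm, mul_one, WM]
    refine Finset.sum_congr rfl fun x _ => ?_
    rw [linesM_of_adm ε h.valid.1, h.lines_eq hΦ hε hT hs x]
  have h2 : eW X (bc Φ ε X s i).toFinset = ∑ x : Idx P, ENNReal.ofReal (1 + ‖(X (e x)).2‖ ^ 2) := by
    have h3 : (bc Φ ε X s i).toFinset = Finset.univ.image e := by
      ext j
      rw [Set.mem_toFinset, Finset.mem_image]
      have : bc Φ ε X s i = range e := hr.symm
      rw [this, mem_range]
      simp
    unfold eW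
    rw [h3, Finset.sum_image fun x _ y _ hxy => h.inj hxy]
  rw [h2, ← h1]
  unfold midF
  refine le_trans (le_of_eq ?_) (Finset.single_le_sum (f := fun e : Fin P.leaves ↪ Fin n =>
    if e (eP P (Tree674.root P)) = i then skF Φ ε T' P (gMid Φ ε s P) (fun x => X (e x)) else 0)
    (fun _ _ => bot_le) (Finset.mem_univ E))
  rw [if_pos hroot]

/-- Pointwise bound of the energy weight of a real cluster which is not a tree. -/
theorem eW_le (hΦ : AdmissiblePotential Φ) (hε : 0 < ε) {T' s : ℝ} (hs : 0 ≤ s)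
    (hsT : s ≤ T') {n : ℕ} {X : Config n} {i : Fin n} {K : ℕ} (hK : (bc Φ ε X s i).ncard ≤ K)
    (hg : ¬ RealTree674.Good Φ ε s X i) {B : ℝ≥0∞}
    (h : (∃ P ℓ p e, InEq2.HTreeC Φ ε T' s X i P ℓ p e) ∨ eW X (bc Φ ε X s i).toFinset ≤ B) :
    eW X (bc Φ ε X s i).toFinset ≤ B + ∑ P ∈ GIVStep383.trees K, midF Φ ε T' s P X i := by
  rcases h with ⟨P, ℓ, p, e, h⟩ | h
  · have ht : ¬ TopLt P s p := fun ht => hg ⟨P, ℓ, p, e, realTree_of_hTreeC hε hsT h ht⟩
    have hT : 0 ≤ T' := hs.trans hsT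
    have hPK : P ∈ GIVStep383.trees K := by
      rw [GIVStep383.mem_trees]
      have hr : bc Φ ε X s i = range e := (h.range_eq hε hT hs).symm
      rw [hr, ← image_univ, ncard_image_of_injective _ h.inj, ncard_univ,
        Nat.card_eq_fintype_card, card_idx] at hK
      exact hK
    refine (eW_le_midF hΦ hε hs hsT h (mid_of_hTreeC h ht)).trans ?_
    exact (Finset.single_le_sum (f := fun P => midF Φ ε T' s P X i) (fun _ _ => bot_le)
      hPK).trans le_add_self
  · exact h.trans le_self_add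

theorem gcE_midF_le (hΦ : AdmissiblePotential Φ) (hf : Measurable f₀)
    (h1 : ∫⁻ z, ENNReal.ofReal (f₀ z) ≤ 1) (hε : 0 < ε) (T s : ℝ) (P : CTree) :
    (activity ε)⁻¹ * gcE f₀ ε (fun n X => ∑ i, midF Φ ε T s P X i) ≤ midI Φ f₀ ε T s P := by
  have h2 := gcE_skF_le hΦ hf h1 hε T P (measurable_gMid hΦ ε s P)
  have h3 : gcE f₀ ε (fun n X => ∑ i, midF Φ ε T s P X i) =
      gcE f₀ ε (fun n X => ∑ e : Fin P.leaves ↪ Fin n,
        skF Φ ε T P (gMid Φ ε s P) (fun x => X (e x))) :=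
    gcE_congr f₀ ε fun n X _ => sum_midF ε T s P X
  rw [h3]
  refine (mul_le_mul_right h2 _).trans (le_of_eq ?_)
  rw [← mul_assoc, ENNReal.inv_mul_cancel (activity_ne_zero hε) ENNReal.ofReal_ne_top, one_mul]
  rfl

/-- **Mass of the real clusters of at most `K` particles which are not trees**, with the speed
weight. -/
theorem notGood_le (hΦ : AdmissiblePotential Φ) (hf : Measurable f₀)
    (h1 : ∫⁻ z, ENNReal.ofReal (f₀ z) ≤ 1) (hε : 0 < ε) {T' s : ℝ} (hs : 0 ≤ s)
    (hsT : s ≤ T') (K : ℕ) (M : ℝ≥0) {B : (n : ℕ) → Config n → Fin n → ℝ≥0∞}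
    (hB : ∀ n i, Measurable fun X : Config n => B n X i)
    (h : ∀ (n : ℕ) (X : Config n), X ∈ PairExcluded ε n → ∀ i, (bc Φ ε X s i).ncard ≤ K →
        (∃ P ℓ p e, InEq2.HTreeC Φ ε T' s X i P ℓ p e) ∨
          eW X (bc Φ ε X s i).toFinset ≤ B n X i) :
    (activity ε)⁻¹ * gcE f₀ ε (fun _ Z => ∑ i,
      Hit167.ind ((bc Φ ε Z s i).ncard ≤ K ∧ ¬ RealTree674.Good Φ ε s Z i) *
        Hit167.spdW Φ ε M Z i s) ≤
      cS Φ M * (gcE f₀ ε (fun n X => (activity ε)⁻¹ * ∑ i, B n X i) +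
        ∑ P ∈ GIVStep383.trees K, midI Φ f₀ ε T' s P) := by
  have hainv : (activity ε)⁻¹ ≠ ∞ := ENNReal.inv_ne_top.2 (activity_ne_zero hε)
  have hBs : ∀ n, Measurable fun X : Config n => ∑ i, B n X i := fun n =>
    Finset.measurable_sum _ fun i _ => hB n i
  have hms : ∀ (P : CTree) (n : ℕ), Measurable fun X : Config n =>
      ∑ i, midF Φ ε T' s P X i := by
    intro P n
    have : (fun X : Config n => ∑ i, midF Φ ε T' s P X i) = fun X =>
        ∑ e : Fin P.leaves ↪ Fin n, skF Φ ε T' P (gMid Φ ε s P) (fun x => X (e x)) :=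
      funext fun X => sum_midF ε T' s P X
    rw [this]
    refine Finset.measurable_sum _ fun e _ => ?_
    exact (measurable_skF hΦ hε T' P (measurable_gMid hΦ ε s P)).comp
      (measurable_pi_iff.2 fun x => measurable_pi_apply (e x))
  have hpt : ∀ (n : ℕ) (X : Config n), X ∈ PairExcluded ε n → ∑ i,
      Hit167.ind ((bc Φ ε X s i).ncard ≤ K ∧ ¬ RealTree674.Good Φ ε s X i) *
        Hit167.spdW Φ ε M X i s ≤
      cS Φ M * (∑ i, B n X i + ∑ P ∈ GIVStep383.trees K, ∑ i, midF Φ ε T' s P X i) := by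
    intro n X hX
    have e1 : ∑ i, B n X i + ∑ P ∈ GIVStep383.trees K, ∑ i, midF Φ ε T' s P X i =
        ∑ i, (B n X i + ∑ P ∈ GIVStep383.trees K, midF Φ ε T' s P X i) := by
      rw [Finset.sum_add_distrib, Finset.sum_comm (s := GIVStep383.trees K)]
    rw [e1, Finset.mul_sum]
    refine Finset.sum_le_sum fun i _ => ?_
    unfold Hit167.ind
    split_ifs with hc
    · rw [one_mul]
      refine (spdW_le hΦ hε hX hs i M).trans (mul_le_mul_right ?_ _)
      exact eW_le hΦ hε hs hsT hc.1 hc.2 (h n X hX i hc.1)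
    · rw [zero_mul]
      exact bot_le
  calc (activity ε)⁻¹ * gcE f₀ ε (fun _ Z => ∑ i,
      Hit167.ind ((bc Φ ε Z s i).ncard ≤ K ∧ ¬ RealTree674.Good Φ ε s Z i) *
        Hit167.spdW Φ ε M Z i s)
      ≤ (activity ε)⁻¹ * gcE f₀ ε (fun n X => cS Φ M * (∑ i, B n X i +
          ∑ P ∈ GIVStep383.trees K, ∑ i, midF Φ ε T' s P X i)) :=
        mul_le_mul_right (gcE_mono f₀ ε hpt) _
    _ = cS Φ M * (gcE f₀ ε (fun n X => (activity ε)⁻¹ * ∑ i, B n X i) +
          ∑ P ∈ GIVStep383.trees K,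
            (activity ε)⁻¹ * gcE f₀ ε (fun n X => ∑ i, midF Φ ε T' s P X i)) := by
        rw [gcE_const_mul f₀ ε (cS_ne_top M), gcE_add hf ε hBs,
          gcE_finset_sum hf ε _ fun P _ n => hms P n, gcE_const_mul f₀ ε hainv,
          ← Finset.mul_sum]
        ring
    _ ≤ _ := by
        refine mul_le_mul_right (add_le_add_right (Finset.sum_le_sum fun P _ => ?_) _) _
        exact gcE_midF_le hΦ hf h1 hε T' s P


/-- **Integrated version** (input `NGq` of `GoodBad_167`). -/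
theorem ngq_of (hΦ : AdmissiblePotential Φ) (hf : Measurable f₀)
    (h1 : ∫⁻ z, ENNReal.ofReal (f₀ z) ≤ 1) {γ : ℝ} (hγ : 0 < γ)
    (hb : HasSummableGaussianBound γ (fun x v => f₀ (x, v))) {T' t : ℝ}
    (htT : t ≤ T') (hNG : ∀ K, NGin Φ f₀ T' t K) (K : ℕ) (M : ℝ≥0) {d : ℝ} (hd : 0 < d) :
    ∃ e0 > 0, ∀ ε, 0 < ε → ε < e0 → ∫⁻ s in Ioo 0 t, (activity ε)⁻¹ *
      gcE f₀ ε (fun _ Z => ∑ i,
        Hit167.ind ((bc Φ ε Z s i).ncard ≤ K ∧ ¬ RealTree674.Good Φ ε s Z i) *
          Hit167.spdW Φ ε M Z i s) ≤ ENNReal.ofReal d := by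
  obtain ⟨B, hBm, -, hB0, e0, he0, hB⟩ := hNG K
  have hlim : Tendsto (fun ε : ℝ => cS Φ M * (ENNReal.ofReal t * gcE f₀ ε (fun n X =>
      (activity ε)⁻¹ * ∑ i, B ε n X i) + ∑ P ∈ GIVStep383.trees K,
        ∫⁻ s in Ioo 0 t, midI Φ f₀ ε T' s P)) (𝓝[>] 0) (𝓝 0) := by
    have h2 : Tendsto (fun ε : ℝ => ENNReal.ofReal t * gcE f₀ ε (fun n X => (activity ε)⁻¹ *
        ∑ i, B ε n X i) + ∑ P ∈ GIVStep383.trees K, ∫⁻ s in Ioo 0 t, midI Φ f₀ ε T' s P) (𝓝[>] 0)
        (𝓝 (ENNReal.ofReal t * 0 + ∑ _P ∈ GIVStep383.trees K, 0)) :=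
      (ENNReal.Tendsto.const_mul hB0 (Or.inr ENNReal.ofReal_ne_top)).add
        (tendsto_finsetSum _ fun P _ => tendsto_lintegral_midI hΦ hf hγ hb T' t P)
    rw [Finset.sum_const_zero, mul_zero, add_zero] at h2
    have h3 := ENNReal.Tendsto.const_mul (a := cS Φ M) h2 (Or.inr (cS_ne_top M))
    rwa [mul_zero] at h3
  have hev := hlim.eventually (ge_mem_nhds (ENNReal.ofReal_pos.2 hd))
  have hev2 : ∀ᶠ ε in 𝓝[>] (0 : ℝ), 0 < ε ∧ ε < e0 ∧
      cS Φ M * (ENNReal.ofReal t * gcE f₀ ε (fun n X =>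
        (activity ε)⁻¹ * ∑ i, B ε n X i) + ∑ P ∈ GIVStep383.trees K,
          ∫⁻ s in Ioo 0 t, midI Φ f₀ ε T' s P) ≤ ENNReal.ofReal d := by
    filter_upwards [Ioo_mem_nhdsGT he0, hev] with ε h2 h3
    exact ⟨h2.1, h2.2, h3⟩
  rw [eventually_nhdsWithin_iff, Metric.eventually_nhds_iff] at hev2
  obtain ⟨r, hr, hr2⟩ := hev2
  refine ⟨r, hr, fun ε hε hεr => ?_⟩
  obtain ⟨-, h3, h4⟩ := hr2 (y := ε) (by rw [Real.dist_eq, sub_zero, abs_of_pos hε]; exact hεr) hε
  refine le_trans ?_ h4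
  have hmid : ∀ P : CTree, Measurable fun s => midI Φ f₀ ε T' s P := fun P =>
    measurable_midI hΦ hf ε T' P
  calc ∫⁻ s in Ioo 0 t, (activity ε)⁻¹ * gcE f₀ ε (fun _ Z => ∑ i,
        Hit167.ind ((bc Φ ε Z s i).ncard ≤ K ∧ ¬ RealTree674.Good Φ ε s Z i) *
          Hit167.spdW Φ ε M Z i s)
      ≤ ∫⁻ s in Ioo 0 t, cS Φ M * (gcE f₀ ε (fun n X => (activity ε)⁻¹ * ∑ i, B ε n X i) +
          ∑ P ∈ GIVStep383.trees K, midI Φ f₀ ε T' s P) := by
        refine setLIntegral_mono' measurableSet_Ioo fun s hs => ?_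
        exact notGood_le hΦ hf h1 hε hs.1.le (hs.2.le.trans htT) K M (hBm ε)
          fun n X hX i hK => hB ε hε h3 n X hX i s ⟨hs.1.le, hs.2.le⟩ hK
    _ = cS Φ M * ∫⁻ s in Ioo 0 t, (gcE f₀ ε (fun n X => (activity ε)⁻¹ * ∑ i, B ε n X i) +
          ∑ P ∈ GIVStep383.trees K, midI Φ f₀ ε T' s P) :=
        lintegral_const_mul' _ _ (cS_ne_top M)
    _ = _ := by
        rw [lintegral_add_left measurable_const, setLIntegral_const, Real.volume_Ioo, sub_zero,
          lintegral_finsetSum _ fun P _ => hmid P, mul_comm (gcE f₀ ε _)]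

end Crest.Agent.R122.Mid317
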