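import Crest.Agent.R122.VolFlux1_350
import Crest.Agent.R122.CausalMeas_291
import Crest.Agent.R122.LocFlow_45
import Crest.Agent.R122.VolNewton_365
import Crest.Agent.R122.ChainDefs_726

-- ▼ part R122/VolFlux2_350
section

/-!
Row 122, helper350: translation averaging, last contact time, flux of one time cell.
-/

set_option autoImplicit false
set_option linter.unusedSectionVars false

open MeasureTheory Set Filter Topology
open Crest.AnalysisR.Kinetic
open Crest.Agent.R122.Flow671 Crest.Agent.R122.Loc45 Crest.Agent.R122.Causal291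
open Crest.Agent.R122.Omega969
open scoped Classical ENNReal

noncomputable section

namespace Crest.Agent.R122.Flux350

variable {Φ : Space3 → ℝ} {ε : ℝ} {υ κ : Type*} [Fintype υ] [Fintype κ]

/-! ### Averaging over translations -/

/-- uniform density of the unit ball -/
def kw (x : Space3) : ℝ≥0∞ :=
  (Metric.ball (0 : Space3) 1).indicator (fun _ => (volume (Metric.ball (0 : Space3) 1))⁻¹) x

lemma measurable_kw : Measurable kw := measurable_const.indicator measurableSet_ball

lemma lintegral_kw : ∫⁻ x, kw x = 1 := by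
  unfold kw
  rw [lintegral_indicator measurableSet_ball, lintegral_const, Measure.restrict_apply_univ]
  exact ENNReal.inv_mul_cancel (Metric.measure_ball_pos _ _ one_pos).ne' measure_ball_lt_top.ne

lemma lintegral_kw_add (x : Space3) : ∫⁻ a, kw (x + a) = 1 := by
  rw [lintegral_add_left_eq_self kw x, lintegral_kw]

lemma lintegral_kw_sub (x : Space3) : ∫⁻ a, kw (x - a) = 1 := by
  rw [lintegral_sub_left_eq_self kw x, lintegral_kw]

lemma shiftX_eq (a : Space3) (U : υ → PhasePoint) : shiftX a U = U + fun _ => (a, 0) := by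
  funext i
  simp [shiftX, Prod.ext_iff]

lemma measurable_shiftX : Measurable (fun p : Space3 × (υ → PhasePoint) => shiftX p.1 p.2) := by
  refine measurable_pi_lambda _ fun i => ?_
  have h : Measurable (fun p : Space3 × (υ → PhasePoint) => p.2 i) :=
    (measurable_pi_apply i).comp measurable_snd
  exact (h.fst.add measurable_fst).prodMk h.snd

lemma shiftX_shiftX (a b : Space3) (U : υ → PhasePoint) :
    shiftX a (shiftX b U) = shiftX (a + b) U := by
  funext i
  simp only [shiftX, Prod.mk.injEq, and_true]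
  abel

lemma lintegral_shiftX (a : Space3) {m : (υ → PhasePoint) → ℝ≥0∞} :
    ∫⁻ U, m (shiftX a U) = ∫⁻ U, m U := by
  simp only [shiftX_eq]
  exact lintegral_add_right_eq_self m (fun _ => (a, 0))

/-- **Averaging over translations.** -/
lemma lintegral_avg {p : (υ → PhasePoint) → Space3} (hp : Measurable p)
    (hpt : ∀ a U, p (shiftX a U) = p U + a) {m : (υ → PhasePoint) → ℝ≥0∞} (hm : Measurable m) :
    ∫⁻ U, m U = ∫⁻ U, kw (p U) * ∫⁻ a, m (shiftX a U) := by
  have hsw : Measurable (fun q : (υ → PhasePoint) × Space3 => m (shiftX q.2 q.1)) := by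
    have h := hm.comp (measurable_shiftX.comp
      (measurable_snd.prodMk measurable_fst : Measurable fun q : (υ → PhasePoint) × Space3 => (q.2, q.1)))
    exact h
  have h1 : ∀ U : υ → PhasePoint, kw (p U) * ∫⁻ a, m (shiftX a U) =
      ∫⁻ a, kw (p U) * m (shiftX a U) := by
    intro U
    rw [lintegral_const_mul]
    have h := hsw.comp (measurable_const.prodMk measurable_id : Measurable fun a : Space3 => (U, a))
    exact h
  simp only [h1]
  rw [lintegral_lintegral_swap]
  · have h2 : ∀ a : Space3, ∫⁻ U, kw (p U) * m (shiftX a U) = ∫⁻ U, kw (p U - a) * m U := by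
      intro a
      rw [← lintegral_shiftX a (m := fun U => kw (p U - a) * m U)]
      refine lintegral_congr fun U => ?_
      rw [hpt, add_sub_cancel_right]
    simp only [h2]
    rw [lintegral_lintegral_swap]
    · refine lintegral_congr fun U => ?_
      rw [lintegral_mul_const, lintegral_kw_sub, one_mul]
      exact measurable_kw.comp (measurable_const.sub measurable_id)
    · refine Measurable.aemeasurable ?_
      refine Measurable.mul ?_ (hm.comp measurable_snd)
      exact measurable_kw.comp ((hp.comp measurable_snd).sub measurable_fst)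
  · refine Measurable.aemeasurable ?_
    exact ((measurable_kw.comp hp).comp measurable_fst).mul hsw

/-- the position used in the weight is irrelevant for translation invariant integrands -/
lemma weight_indep {p q : (υ → PhasePoint) → Space3} (hp : Measurable p)
    (hpt : ∀ a U, p (shiftX a U) = p U + a) (hq : Measurable q)
    (hqt : ∀ a U, q (shiftX a U) = q U + a) {K : (υ → PhasePoint) → ℝ≥0∞} (hK : Measurable K)
    (hKt : ∀ a U, K (shiftX a U) = K U) :
    ∫⁻ U, kw (p U) * K U = ∫⁻ U, kw (q U) * K U := by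
  rw [lintegral_avg hq hqt (m := fun U => kw (p U) * K U) ((measurable_kw.comp hp).mul hK)]
  refine lintegral_congr fun U => ?_
  simp only [hpt, hKt]
  rw [lintegral_mul_const, lintegral_kw_add, one_mul]
  exact measurable_kw.comp (measurable_const_add _)

/-- Liouville and averaging: the weight may be taken at any time. -/
lemma lintegral_kw_flow (hΦ : AdmissiblePotential Φ) (hε : 0 < ε) (j : υ) (s : ℝ)
    {K : (υ → PhasePoint) → ℝ≥0∞} (hK : Measurable K) (hKt : ∀ a U, K (shiftX a U) = K U) :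
    ∫⁻ U, kw (U j).1 * K (flow Φ ε s U) = ∫⁻ U, kw (U j).1 * K U := by
  have hp : Measurable (fun U : υ → PhasePoint => (U j).1) := (measurable_pi_apply j).fst
  have hq : Measurable (fun U : υ → PhasePoint => (flow Φ ε (-s) U j).1) :=
    hp.comp (measurable_flow hΦ hε (-s))
  have h1 : ∫⁻ U : υ → PhasePoint, kw (U j).1 * K (flow Φ ε s U) =
      ∫⁻ U : υ → PhasePoint, kw (flow Φ ε (-s) U j).1 * K U := by
    rw [← (measurePreserving_flow (ι := υ) hΦ hε s).lintegral_comp
      (f := fun U : υ → PhasePoint => kw (flow Φ ε (-s) U j).1 * K U)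
      ((measurable_kw.comp hq).mul hK)]
    refine lintegral_congr fun U => ?_
    rw [flow_neg_flow hΦ hε]
  rw [h1]
  refine weight_indep hq ?_ hp ?_ hK hKt
  · intro a U
    rw [flow_shiftX hΦ hε]
    rfl
  · intro a U
    rfl

/-! ### The flux density -/

/-- flux density at time `s` (after the spherical integration) -/
def Kin (Φ : Space3 → ℝ) (ε : ℝ) (j : υ) (m : κ)
    (G : ℝ → (κ → PhasePoint) → (υ → PhasePoint) → ℝ≥0∞) (s : ℝ) (Y : κ → PhasePoint)
    (U : υ → PhasePoint) : ℝ≥0∞ :=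
  ∫⁻ w, ENNReal.ofReal (inner ℝ w ((U j).2 - (flow Φ ε s Y m).2)) *
    G s Y (shiftX ((flow Φ ε s Y m).1 + ε • w - (U j).1) U) ∂sphM

lemma Kin_shift (j : υ) (m : κ) (G : ℝ → (κ → PhasePoint) → (υ → PhasePoint) → ℝ≥0∞) (s : ℝ)
    (Y : κ → PhasePoint) (a : Space3) (U : υ → PhasePoint) :
    Kin Φ ε j m G s Y (shiftX a U) = Kin Φ ε j m G s Y U := by
  unfold Kin
  refine lintegral_congr fun w => ?_
  rw [shiftX_shiftX]
  have h1 : (shiftX a U j).2 = (U j).2 := rfl
  have h2 : (shiftX a U j).1 = (U j).1 + a := rfl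
  rw [h1, h2]
  congr 3
  abel

section
variable (hΦ : AdmissiblePotential Φ) (hε : 0 < ε)
include hΦ hε

lemma measurable_flow_apply (m : κ) :
    Measurable (fun p : ℝ × (κ → PhasePoint) => flow Φ ε p.1 p.2 m) :=
  (measurable_pi_apply m).comp (measurable_flow_joint hΦ hε)

lemma measurable_KinG (j : υ) (m : κ) {G : ℝ → (κ → PhasePoint) → (υ → PhasePoint) → ℝ≥0∞}
    (hG : Measurable fun p : ℝ × (κ → PhasePoint) × (υ → PhasePoint) => G p.1 p.2.1 p.2.2) :
    Measurable (fun p : (ℝ × (κ → PhasePoint) × (υ → PhasePoint)) × Space3 =>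
      ENNReal.ofReal (inner ℝ p.2 ((p.1.2.2 j).2 - (flow Φ ε p.1.1 p.1.2.1 m).2)) *
      G p.1.1 p.1.2.1 (shiftX ((flow Φ ε p.1.1 p.1.2.1 m).1 + ε • p.2 - (p.1.2.2 j).1) p.1.2.2)) := by
  have hs : Measurable (fun p : (ℝ × (κ → PhasePoint) × (υ → PhasePoint)) × Space3 => p.1.1) :=
    measurable_fst.comp measurable_fst
  have hY : Measurable (fun p : (ℝ × (κ → PhasePoint) × (υ → PhasePoint)) × Space3 => p.1.2.1) :=
    measurable_fst.comp (measurable_snd.comp measurable_fst)
  have hU : Measurable (fun p : (ℝ × (κ → PhasePoint) × (υ → PhasePoint)) × Space3 => p.1.2.2) :=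
    measurable_snd.comp (measurable_snd.comp measurable_fst)
  have hw : Measurable (fun p : (ℝ × (κ → PhasePoint) × (υ → PhasePoint)) × Space3 => p.2) :=
    measurable_snd
  have hf : Measurable (fun p : (ℝ × (κ → PhasePoint) × (υ → PhasePoint)) × Space3 =>
      flow Φ ε p.1.1 p.1.2.1 m) := by
    have h := (measurable_flow_apply hΦ hε m).comp (hs.prodMk hY)
    exact h
  have hUj : Measurable (fun p : (ℝ × (κ → PhasePoint) × (υ → PhasePoint)) × Space3 => p.1.2.2 j) :=
    (measurable_pi_apply j).comp hU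
  have hin : Measurable (fun p : (ℝ × (κ → PhasePoint) × (υ → PhasePoint)) × Space3 =>
      inner ℝ p.2 ((p.1.2.2 j).2 - (flow Φ ε p.1.1 p.1.2.1 m).2)) := by
    have h2 : Measurable (fun q : Space3 × Space3 => inner ℝ q.1 q.2) :=
      Continuous.measurable (by fun_prop)
    have h := h2.comp (hw.prodMk (hUj.snd.sub hf.snd))
    exact h
  have hsh : Measurable (fun p : (ℝ × (κ → PhasePoint) × (υ → PhasePoint)) × Space3 =>
      shiftX ((flow Φ ε p.1.1 p.1.2.1 m).1 + ε • p.2 - (p.1.2.2 j).1) p.1.2.2) := by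
    have h := measurable_shiftX.comp (((hf.fst.add (hw.const_smul ε)).sub hUj.fst).prodMk hU)
    exact h
  refine (ENNReal.measurable_ofReal.comp hin).mul ?_
  have h := hG.comp (hs.prodMk (hY.prodMk hsh))
  exact h

lemma measurable_Kin (j : υ) (m : κ) {G : ℝ → (κ → PhasePoint) → (υ → PhasePoint) → ℝ≥0∞}
    (hG : Measurable fun p : ℝ × (κ → PhasePoint) × (υ → PhasePoint) => G p.1 p.2.1 p.2.2) :
    Measurable (fun p : ℝ × (κ → PhasePoint) × (υ → PhasePoint) =>
      Kin Φ ε j m G p.1 p.2.1 p.2.2) := by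
  have h := (measurable_KinG hΦ hε j m hG).lintegral_prod_right' (ν := sphM)
  exact h

end

/-! ### Last contact -/

/-- distance of the pair, both groups in time-0 coordinates of their own flows -/
def dd (Φ : Space3 → ℝ) (ε : ℝ) (j : υ) (m : κ) (p : (υ → PhasePoint) × (κ → PhasePoint)) (s : ℝ) : ℝ :=
  dist (flow Φ ε s p.1 j).1 (flow Φ ε s p.2 m).1

/-- last contact in `[a, b]` -/
def Lc (Φ : Space3 → ℝ) (ε : ℝ) (j : υ) (m : κ) (a b : ℝ)
    (p : (υ → PhasePoint) × (κ → PhasePoint)) : ℝ :=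
  sSup {s | s ∈ Icc a b ∧ dd Φ ε j m p s ≤ ε}

/-- there is a contact in `[a, b]` -/
def HasC (Φ : Space3 → ℝ) (ε : ℝ) (j : υ) (m : κ) (a b : ℝ) :
    Set ((υ → PhasePoint) × (κ → PhasePoint)) :=
  {p | ∃ s ∈ Icc a b, dd Φ ε j m p s ≤ ε}

section
variable (hΦ : AdmissiblePotential Φ) (hε : 0 < ε)
include hΦ hε

lemma continuous_dd (j : υ) (m : κ) (p : (υ → PhasePoint) × (κ → PhasePoint)) :
    Continuous (dd Φ ε j m p) := by
  unfold dd
  have h1 := flow_continuous_time hΦ hε p.1
  have h2 := flow_continuous_time hΦ hε p.2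
  exact (continuous_fst.comp ((continuous_apply j).comp h1)).dist
    (continuous_fst.comp ((continuous_apply m).comp h2))

lemma measurable_dd_joint (j : υ) (m : κ) :
    Measurable (fun q : ℝ × ((υ → PhasePoint) × (κ → PhasePoint)) => dd Φ ε j m q.2 q.1) := by
  unfold dd
  have h1 : Measurable (fun q : ℝ × ((υ → PhasePoint) × (κ → PhasePoint)) => flow Φ ε q.1 q.2.1 j) := by
    have h := (measurable_flow_apply hΦ hε j).comp
      (measurable_fst.prodMk (measurable_fst.comp measurable_snd) :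
        Measurable fun q : ℝ × ((υ → PhasePoint) × (κ → PhasePoint)) => (q.1, q.2.1))
    exact h
  have h2 : Measurable (fun q : ℝ × ((υ → PhasePoint) × (κ → PhasePoint)) => flow Φ ε q.1 q.2.2 m) := by
    have h := (measurable_flow_apply hΦ hε m).comp
      (measurable_fst.prodMk (measurable_snd.comp measurable_snd) :
        Measurable fun q : ℝ × ((υ → PhasePoint) × (κ → PhasePoint)) => (q.1, q.2.2))
    exact h
  exact h1.fst.dist h2.fst

lemma measurable_dd (j : υ) (m : κ) (s : ℝ) :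
    Measurable (fun p : (υ → PhasePoint) × (κ → PhasePoint) => dd Φ ε j m p s) := by
  have h := (measurable_dd_joint hΦ hε j m).comp (measurable_const.prodMk measurable_id :
    Measurable fun p : (υ → PhasePoint) × (κ → PhasePoint) => (s, p))
  exact h

lemma measurableSet_HasC (j : υ) (m : κ) (a b : ℝ) : MeasurableSet (HasC Φ ε j m a b) :=
  measurableSet_exists_Icc (Ω := (υ → PhasePoint) × (κ → PhasePoint)) measurable_const
    measurable_const (continuous_dd hΦ hε j m) (measurable_dd hΦ hε j m) ε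

lemma Lc_spec {j : υ} {m : κ} {a b : ℝ} {p : (υ → PhasePoint) × (κ → PhasePoint)}
    (hp : p ∈ HasC Φ ε j m a b) : Lc Φ ε j m a b p ∈ Icc a b ∧ dd Φ ε j m p (Lc Φ ε j m a b p) ≤ ε := by
  have hcl : IsCompact {s | s ∈ Icc a b ∧ dd Φ ε j m p s ≤ ε} := by
    have h1 : {s | s ∈ Icc a b ∧ dd Φ ε j m p s ≤ ε} = Icc a b ∩ {s | dd Φ ε j m p s ≤ ε} := rfl
    rw [h1]
    exact isCompact_Icc.inter_right (isClosed_le (continuous_dd hΦ hε j m p) continuous_const)
  obtain ⟨s, hs1, hs2⟩ := hp
  exact hcl.sSup_mem ⟨s, hs1, hs2⟩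

lemma Lc_max {j : υ} {m : κ} {a b : ℝ} {p : (υ → PhasePoint) × (κ → PhasePoint)} {s : ℝ}
    (hs : s ∈ Icc a b) (h : dd Φ ε j m p s ≤ ε) : s ≤ Lc Φ ε j m a b p :=
  le_csSup ⟨b, fun _ ht => ht.1.2⟩ ⟨hs, h⟩

lemma Lc_eq {j : υ} {m : κ} {a b : ℝ} {p : (υ → PhasePoint) × (κ → PhasePoint)} {s : ℝ}
    (hs : s ∈ Icc a b) (h : dd Φ ε j m p s ≤ ε) (h' : ∀ u ∈ Ioc s b, ε < dd Φ ε j m p u) :
    Lc Φ ε j m a b p = s := by
  have h1 := Lc_max hΦ hε hs h
  obtain ⟨h2, h3⟩ := Lc_spec hΦ hε (show p ∈ HasC Φ ε j m a b from ⟨s, hs, h⟩)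
  rcases h1.lt_or_eq with h4 | h4
  · exact absurd (h' _ ⟨h4, h2.2⟩) (not_lt.2 h3)
  · exact h4.symm

lemma measurable_Lc (j : υ) (m : κ) (a b : ℝ) : Measurable (Lc Φ ε j m a b) := by
  refine measurable_of_Ici fun r => ?_
  have h1 : Lc Φ ε j m a b ⁻¹' Ici r = (HasC Φ ε j m (max r a) b) ∪
      ((HasC Φ ε j m a b)ᶜ ∩ {_p | r ≤ 0}) := by
    ext p
    constructor
    · intro hp
      by_cases hc : p ∈ HasC Φ ε j m a b
      · obtain ⟨h2, h3⟩ := Lc_spec hΦ hε hc
        exact Or.inl ⟨_, ⟨max_le hp h2.1, h2.2⟩, h3⟩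
      · refine Or.inr ⟨hc, ?_⟩
        have h2 : {s | s ∈ Icc a b ∧ dd Φ ε j m p s ≤ ε} = ∅ := by
          ext s
          simp only [mem_empty_iff_false, iff_false]
          exact fun h => hc ⟨s, h.1, h.2⟩
        have h3 : r ≤ Lc Φ ε j m a b p := hp
        unfold Lc at h3
        rw [h2, Real.sSup_empty] at h3
        exact h3
    · rintro (⟨s, hs, h2⟩ | ⟨hc, h2⟩)
      · exact (le_trans (le_max_left _ _) hs.1).trans
          (Lc_max hΦ hε ⟨(le_max_right _ _).trans hs.1, hs.2⟩ h2)
      · have h3 : {s | s ∈ Icc a b ∧ dd Φ ε j m p s ≤ ε} = ∅ := by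
          ext s
          simp only [mem_empty_iff_false, iff_false]
          exact fun h => hc ⟨s, h.1, h.2⟩
        show r ≤ Lc Φ ε j m a b p
        unfold Lc
        rw [h3, Real.sSup_empty]
        exact h2
  rw [h1]
  exact (measurableSet_HasC hΦ hε j m _ b).union
    ((measurableSet_HasC hΦ hε j m a b).compl.inter (MeasurableSet.const _))

end

/-- outgoing at time `s` -/
def Out (Φ : Space3 → ℝ) (ε : ℝ) (j : υ) (m : κ) (p : (υ → PhasePoint) × (κ → PhasePoint)) (s : ℝ) :
    Prop :=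
  0 ≤ inner ℝ ((flow Φ ε s p.1 j).1 - (flow Φ ε s p.2 m).1)
    ((flow Φ ε s p.1 j).2 - (flow Φ ε s p.2 m).2)

/-- captured configurations of the cell -/
def Cap (Φ : Space3 → ℝ) (ε : ℝ) (j : υ) (m : κ) (a b : ℝ) :
    Set ((υ → PhasePoint) × (κ → PhasePoint)) :=
  {p | p ∈ HasC Φ ε j m a b ∧ dd Φ ε j m p (Lc Φ ε j m a b p) = ε ∧ Out Φ ε j m p (Lc Φ ε j m a b p)}

/-- cell majorant in time-0 coordinates -/
def mc (Φ : Space3 → ℝ) (ε : ℝ) (j : υ) (m : κ) (G : ℝ → (κ → PhasePoint) → (υ → PhasePoint) → ℝ≥0∞)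
    (a b : ℝ) (p : (υ → PhasePoint) × (κ → PhasePoint)) : ℝ≥0∞ :=
  (Cap Φ ε j m a b).indicator
    (fun p => G (Lc Φ ε j m a b p) p.2 (flow Φ ε (Lc Φ ε j m a b p) p.1)) p

section
variable (hΦ : AdmissiblePotential Φ) (hε : 0 < ε)
include hΦ hε

lemma measurableSet_Cap (j : υ) (m : κ) (a b : ℝ) : MeasurableSet (Cap Φ ε j m a b) := by
  have hL := measurable_Lc hΦ hε j m a b
  have h1 : Measurable (fun p : (υ → PhasePoint) × (κ → PhasePoint) =>
      dd Φ ε j m p (Lc Φ ε j m a b p)) := by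
    have h := (measurable_dd_joint hΦ hε j m).comp (hL.prodMk measurable_id)
    exact h
  have h2 : Measurable (fun p : (υ → PhasePoint) × (κ → PhasePoint) =>
      flow Φ ε (Lc Φ ε j m a b p) p.1 j) := by
    have h := (measurable_flow_apply hΦ hε j).comp (hL.prodMk measurable_fst)
    exact h
  have h3 : Measurable (fun p : (υ → PhasePoint) × (κ → PhasePoint) =>
      flow Φ ε (Lc Φ ε j m a b p) p.2 m) := by
    have h := (measurable_flow_apply hΦ hε m).comp (hL.prodMk measurable_snd)
    exact h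
  have h4 : Measurable (fun q : Space3 × Space3 => inner ℝ q.1 q.2) :=
    Continuous.measurable (by fun_prop)
  have h5 : MeasurableSet {p : (υ → PhasePoint) × (κ → PhasePoint) |
      Out Φ ε j m p (Lc Φ ε j m a b p)} := by
    unfold Out
    have h := h4.comp ((h2.fst.sub h3.fst).prodMk (h2.snd.sub h3.snd))
    exact measurableSet_le measurable_const h
  exact (measurableSet_HasC hΦ hε j m a b).inter ((measurableSet_eq_fun h1 measurable_const).inter h5)

lemma measurable_mc (j : υ) (m : κ) {G : ℝ → (κ → PhasePoint) → (υ → PhasePoint) → ℝ≥0∞}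
    (hG : Measurable fun p : ℝ × (κ → PhasePoint) × (υ → PhasePoint) => G p.1 p.2.1 p.2.2)
    (a b : ℝ) : Measurable (mc Φ ε j m G a b) := by
  have hL := measurable_Lc hΦ hε j m a b
  refine Measurable.indicator ?_ (measurableSet_Cap hΦ hε j m a b)
  have h2 : Measurable (fun p : (υ → PhasePoint) × (κ → PhasePoint) =>
      flow Φ ε (Lc Φ ε j m a b p) p.1) := by
    have h := (measurable_flow_joint (ι := υ) hΦ hε).comp (hL.prodMk measurable_fst)
    exact h
  have h := hG.comp (hL.prodMk (measurable_snd.prodMk h2))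
  exact h

/-- the fibre over translations of the outer group -/
lemma fibre_le {j : υ} {m : κ} {G : ℝ → (κ → PhasePoint) → (υ → PhasePoint) → ℝ≥0∞}
    (hG : Measurable fun p : ℝ × (κ → PhasePoint) × (υ → PhasePoint) => G p.1 p.2.1 p.2.2)
    (a b : ℝ) {U : υ → PhasePoint} (hU : U ∈ Dom Φ υ) {Y : κ → PhasePoint} (hY : Y ∈ Dom Φ κ) :
    ∫⁻ x : Space3, mc Φ ε j m G a b (shiftX x U, Y) ≤
      ENNReal.ofReal (ε ^ 2) * ∫⁻ s in Icc a b, Kin Φ ε j m G s Y (flow Φ ε s U) := by
  -- curve
  set γ : ℝ → Space3 := fun s => (flow Φ ε s Y m).1 - (flow Φ ε s U j).1 with hγd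
  set γ' : ℝ → Space3 := fun s => (flow Φ ε s Y m).2 - (flow Φ ε s U j).2 with hγ'd
  have hγ : ∀ s, HasDerivAt γ (γ' s) s := fun s =>
    (hasDerivAt_pos_flow hΦ hε hY s m).sub (hasDerivAt_pos_flow hΦ hε hU s j)
  have hfY : Measurable (fun s : ℝ => flow Φ ε s Y m) := by
    have h := (measurable_flow_apply hΦ hε m).comp (measurable_id.prodMk measurable_const :
      Measurable fun s : ℝ => (s, Y))
    exact h
  have hfU : Measurable (fun s : ℝ => flow Φ ε s U j) := by
    have h := (measurable_flow_apply hΦ hε j).comp (measurable_id.prodMk measurable_const :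
      Measurable fun s : ℝ => (s, U))
    exact h
  have hγ' : Measurable γ' := hfY.snd.sub hfU.snd
  -- the section
  have hsec : Measurable (fun x : Space3 => (shiftX x U, Y)) := by
    have h := (measurable_shiftX (υ := υ)).comp (measurable_id.prodMk measurable_const :
      Measurable fun x : Space3 => (x, U))
    exact (show Measurable (fun x : Space3 => shiftX x U) from h).prodMk measurable_const
  have hS : Measurable (fun x : Space3 => Lc Φ ε j m a b (shiftX x U, Y)) := by
    have h := (measurable_Lc hΦ hε j m a b).comp hsec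
    exact h
  have hD : MeasurableSet {x : Space3 | (shiftX x U, Y) ∈ Cap Φ ε j m a b} := by
    have h := hsec (measurableSet_Cap hΦ hε j m a b)
    exact h
  have hpos : ∀ (x : Space3) (s : ℝ), flow Φ ε s (shiftX x U) j =
      ((flow Φ ε s U j).1 + x, (flow Φ ε s U j).2) := by
    intro x s
    rw [flow_shiftX hΦ hε]
    rfl
  have hSD : ∀ x ∈ {x : Space3 | (shiftX x U, Y) ∈ Cap Φ ε j m a b},
      Lc Φ ε j m a b (shiftX x U, Y) ∈ Icc a b ∧
        ‖x - γ (Lc Φ ε j m a b (shiftX x U, Y))‖ = ε := by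
    rintro x ⟨h1, h2, -⟩
    refine ⟨(Lc_spec hΦ hε h1).1, ?_⟩
    unfold dd at h2
    simp only [hpos] at h2
    rw [dist_eq_norm] at h2
    refine Eq.trans ?_ h2
    rw [hγd]
    congr 1
    simp only
    abel
  -- integrand
  set F : ℝ → Space3 → ℝ≥0∞ := fun s x =>
    if 0 ≤ inner ℝ (x - γ s) (-(γ' s)) then G s Y (flow Φ ε s (shiftX x U)) else 0 with hFd
  have hγm : Measurable γ := (continuous_iff_continuousAt.2 fun s => (hγ s).continuousAt).measurable
  have hF : Measurable (Function.uncurry F) := by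
    have h1 : Measurable (fun p : ℝ × Space3 => inner ℝ (p.2 - γ p.1) (-(γ' p.1))) := by
      have h2 : Measurable (fun q : Space3 × Space3 => inner ℝ q.1 q.2) :=
        Continuous.measurable (by fun_prop)
      have h := h2.comp ((measurable_snd.sub (hγm.comp measurable_fst)).prodMk
        (hγ'.comp measurable_fst).neg)
      exact h
    refine Measurable.ite (measurableSet_le measurable_const h1) ?_ measurable_const
    have h3 : Measurable (fun p : ℝ × Space3 => flow Φ ε p.1 (shiftX p.2 U)) := by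
      have h4 := (measurable_shiftX (υ := υ)).comp (measurable_snd.prodMk measurable_const :
        Measurable fun p : ℝ × Space3 => (p.2, U))
      have h := (measurable_flow_joint (ι := υ) hΦ hε).comp (measurable_fst.prodMk h4)
      exact h
    have h := hG.comp (measurable_fst.prodMk ((measurable_const (a := Y)).prodMk h3))
    exact h
  have hmain := flux_sphere (F := F) (a := a) (b := b) hε hγ hγ' hS hD hSD hF
  calc ∫⁻ x : Space3, mc Φ ε j m G a b (shiftX x U, Y)
      = ∫⁻ x in {x : Space3 | (shiftX x U, Y) ∈ Cap Φ ε j m a b},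
          F (Lc Φ ε j m a b (shiftX x U, Y)) x := by
        rw [← lintegral_indicator hD]
        refine lintegral_congr fun x => ?_
        unfold mc
        by_cases hx : (shiftX x U, Y) ∈ Cap Φ ε j m a b
        · rw [indicator_of_mem hx, indicator_of_mem (show x ∈ {x : Space3 | (shiftX x U, Y) ∈
            Cap Φ ε j m a b} from hx)]
          rw [hFd]
          simp only
          rw [if_pos]
          have h3 := hx.2.2
          unfold Out at h3
          simp only [hpos] at h3
          rw [hγd, hγ'd]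
          simp only
          rw [neg_sub]
          convert h3 using 2
          abel
        · rw [indicator_of_notMem hx, indicator_of_notMem (show x ∉ {x : Space3 | (shiftX x U, Y) ∈
            Cap Φ ε j m a b} from hx)]
    _ ≤ _ := hmain
    _ ≤ _ := by
        gcongr with s
        unfold Kin
        refine lintegral_mono fun w => ?_
        rw [hFd]
        simp only
        split_ifs with hw
        · rw [add_sub_cancel_left, real_inner_smul_left] at hw
          have h1 : 0 ≤ inner ℝ w (-(γ' s)) := by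
            by_contra hcon
            push Not at hcon
            have := mul_neg_of_pos_of_neg hε hcon
            linarith
          have h2 : |inner ℝ (γ' s) w| = inner ℝ w ((flow Φ ε s U j).2 - (flow Φ ε s Y m).2) := by
            rw [inner_neg_right] at h1
            rw [real_inner_comm, abs_of_nonpos (by linarith), ← inner_neg_right, hγ'd]
            simp only
            rw [neg_sub]
          rw [h2, flow_shiftX hΦ hε]
          refine le_of_eq ?_
          congr 3
          rw [hγd]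
          simp only
          abel
        · rw [mul_zero]
          exact zero_le

/-- **Flux of one cell.** -/
theorem cell_flux {j : υ} {m : κ} {G : ℝ → (κ → PhasePoint) → (υ → PhasePoint) → ℝ≥0∞}
    (hG : Measurable fun p : ℝ × (κ → PhasePoint) × (υ → PhasePoint) => G p.1 p.2.1 p.2.2)
    (a b : ℝ) :
    ∫⁻ Y : κ → PhasePoint, ∫⁻ U : υ → PhasePoint, mc Φ ε j m G a b (U, Y) ≤
      ENNReal.ofReal (ε ^ 2) * ∫⁻ s in Icc a b, ∫⁻ Y : κ → PhasePoint, ∫⁻ U : υ → PhasePoint,
        kw (U j).1 * Kin Φ ε j m G s Y U := by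
  have hmc := measurable_mc hΦ hε j m hG a b
  have hK := measurable_Kin hΦ hε j m hG
  have hKf : Measurable (fun q : (κ → PhasePoint) × ((υ → PhasePoint) × ℝ) =>
      kw (q.2.1 j).1 * Kin Φ ε j m G q.2.2 q.1 (flow Φ ε q.2.2 q.2.1)) := by
    have hU : Measurable (fun q : (κ → PhasePoint) × ((υ → PhasePoint) × ℝ) => q.2.1) :=
      measurable_fst.comp measurable_snd
    have hs : Measurable (fun q : (κ → PhasePoint) × ((υ → PhasePoint) × ℝ) => q.2.2) :=
      measurable_snd.comp measurable_snd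
    have h1 : Measurable (fun q : (κ → PhasePoint) × ((υ → PhasePoint) × ℝ) => flow Φ ε q.2.2 q.2.1) := by
      have h := (measurable_flow_joint (ι := υ) hΦ hε).comp (hs.prodMk hU)
      exact h
    have h2 : Measurable (fun q : (κ → PhasePoint) × ((υ → PhasePoint) × ℝ) => q.2.1 j) :=
      (measurable_pi_apply j).comp hU
    have h3 := hK.comp (hs.prodMk (measurable_fst.prodMk h1))
    exact (measurable_kw.comp h2.fst).mul h3
  have hKY : ∀ Y : κ → PhasePoint, Measurable (fun q : (υ → PhasePoint) × ℝ =>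
      kw (q.1 j).1 * Kin Φ ε j m G q.2 Y (flow Φ ε q.2 q.1)) := by
    intro Y
    have h := hKf.comp (measurable_const.prodMk measurable_id :
      Measurable fun q : (υ → PhasePoint) × ℝ => (Y, q))
    exact h
  have hp : Measurable (fun U : υ → PhasePoint => (U j).1) := (measurable_pi_apply j).fst
  have hstep : ∀ᵐ Y : κ → PhasePoint, ∫⁻ U : υ → PhasePoint, mc Φ ε j m G a b (U, Y) ≤
      ENNReal.ofReal (ε ^ 2) * ∫⁻ s in Icc a b, ∫⁻ U : υ → PhasePoint,
        kw (U j).1 * Kin Φ ε j m G s Y U := by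
    filter_upwards [ae_mem_Dom (ι := κ) Φ] with Y hY
    have hmY : Measurable (fun U : υ → PhasePoint => mc Φ ε j m G a b (U, Y)) := by
      have h := hmc.comp (measurable_id.prodMk measurable_const :
        Measurable fun U : υ → PhasePoint => (U, Y))
      exact h
    rw [lintegral_avg hp (fun a U => rfl) hmY]
    calc ∫⁻ U : υ → PhasePoint, kw (U j).1 * ∫⁻ x, mc Φ ε j m G a b (shiftX x U, Y)
        ≤ ∫⁻ U : υ → PhasePoint, kw (U j).1 * (ENNReal.ofReal (ε ^ 2) *
            ∫⁻ s in Icc a b, Kin Φ ε j m G s Y (flow Φ ε s U)) := by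
          refine lintegral_mono_ae ?_
          filter_upwards [ae_mem_Dom (ι := υ) Φ] with U hU
          exact mul_le_mul_right (fibre_le hΦ hε hG a b hU hY) _
      _ = ENNReal.ofReal (ε ^ 2) * ∫⁻ U : υ → PhasePoint, ∫⁻ s in Icc a b,
            kw (U j).1 * Kin Φ ε j m G s Y (flow Φ ε s U) := by
          rw [← lintegral_const_mul' _ _ ENNReal.ofReal_ne_top]
          refine lintegral_congr fun U => ?_
          rw [lintegral_const_mul, mul_left_comm]
          have h := hK.comp (measurable_id.prodMk ((measurable_const (a := Y)).prodMk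
            ((measurable_flow_joint (ι := υ) hΦ hε).comp (measurable_id.prodMk measurable_const :
              Measurable fun s : ℝ => (s, U)))))
          exact h
      _ = ENNReal.ofReal (ε ^ 2) * ∫⁻ s in Icc a b, ∫⁻ U : υ → PhasePoint,
            kw (U j).1 * Kin Φ ε j m G s Y (flow Φ ε s U) := by
          rw [lintegral_lintegral_swap]
          exact (hKY Y).aemeasurable
      _ = _ := by
          congr 1
          refine lintegral_congr fun s => ?_
          refine lintegral_kw_flow hΦ hε j s (K := fun U => Kin Φ ε j m G s Y U) ?_ ?_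
          · have h := hK.comp (measurable_const.prodMk (measurable_const.prodMk measurable_id) :
              Measurable fun U : υ → PhasePoint => (s, (Y, U)))
            exact h
          · intro a U
            exact Kin_shift j m G s Y a U
  refine (lintegral_mono_ae hstep).trans (le_of_eq ?_)
  rw [lintegral_const_mul' _ _ ENNReal.ofReal_ne_top, lintegral_lintegral_swap]
  refine Measurable.aemeasurable ?_
  have h1 : Measurable (fun q : ((κ → PhasePoint) × ℝ) × (υ → PhasePoint) =>
      kw (q.2 j).1 * Kin Φ ε j m G q.1.2 q.1.1 q.2) := by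
    have h3 := hK.comp ((measurable_snd.comp measurable_fst).prodMk
      ((measurable_fst.comp measurable_fst).prodMk measurable_snd) :
        Measurable fun q : ((κ → PhasePoint) × ℝ) × (υ → PhasePoint) => (q.1.2, (q.1.1, q.2)))
    exact (measurable_kw.comp (hp.comp measurable_snd)).mul h3
  exact h1.lintegral_prod_right'

end

end Crest.Agent.R122.Flux350

end
end

-- ▼ part R122/VolFlux3_350
section

/-!
Row 122, helper350: the flux step (FSJ), (FS1) in time-0 pull-back form.
-/

set_option autoImplicit false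
set_option linter.unusedSectionVars false

open MeasureTheory Set Filter Topology
open Crest.AnalysisR.Kinetic
open Crest.Agent.R122.Flow671 Crest.Agent.R122.Loc45 Crest.Agent.R122.Causal291
open Crest.Agent.R122.Omega969 Crest.Agent.R122.Disc416
open scoped Classical ENNReal

noncomputable section

namespace Crest.Agent.R122.Flux350

variable {Φ : Space3 → ℝ} {ε : ℝ} {υ κ : Type*} [Fintype υ] [Fintype κ]

/-- **Release step**: in the isolated evolution of `W` the group `υ` is released at time `s`. -/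
structure Rel (Φ : Space3 → ℝ) (ε T : ℝ) (j : υ) (m : κ) (W : υ ⊕ κ → PhasePoint) (s : ℝ) : Prop where
  dom : W ∈ Dom Φ (υ ⊕ κ)
  s0 : 0 ≤ s
  sT : s ≤ T
  hit : dist (flow Φ ε s W (Sum.inl j)).1 (flow Φ ε s W (Sum.inr m)).1 = ε
  sep : ∃ h > 0, ∀ u ∈ Ioo s (s + h), ∀ i k,
    ε < dist (flow Φ ε u W (Sum.inl i)).1 (flow Φ ε u W (Sum.inr k)).1

/-- the kept group, pulled back to time `0` by its own flow -/
def keep (Φ : Space3 → ℝ) (ε s : ℝ) (W : υ ⊕ κ → PhasePoint) : κ → PhasePoint :=
  flow Φ ε (-s) (fun k => flow Φ ε s W (Sum.inr k))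

/-- the released group at time `s` -/
def gone (Φ : Space3 → ℝ) (ε s : ℝ) (W : υ ⊕ κ → PhasePoint) : υ → PhasePoint :=
  fun i => flow Φ ε s W (Sum.inl i)

/-- both groups at time `b`, pulled back to time `0` by their own flows -/
def Rg (Φ : Space3 → ℝ) (ε b : ℝ) (W : υ ⊕ κ → PhasePoint) : (υ → PhasePoint) × (κ → PhasePoint) :=
  (flow Φ ε (-b) (fun i => flow Φ ε b W (Sum.inl i)),
    flow Φ ε (-b) (fun k => flow Φ ε b W (Sum.inr k)))

/-- a function with a right minimum has nonnegative derivative -/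
lemma deriv_nonneg_of_right {f : ℝ → ℝ} {f' s h : ℝ} (hf : HasDerivAt f f' s) (hh : 0 < h)
    (hle : ∀ u ∈ Ioo s (s + h), f s ≤ f u) : 0 ≤ f' := by
  have h1 : Tendsto (slope f s) (𝓝[>] s) (𝓝 f') := by
    have := (hf.hasDerivWithinAt (s := Ioi s))
    rw [hasDerivWithinAt_iff_tendsto_slope'] at this
    · exact this
    · simp
  refine ge_of_tendsto h1 ?_
  have h2 : Ioo s (s + h) ∈ 𝓝[>] s := Ioo_mem_nhdsGT (by linarith)
  filter_upwards [h2] with u hu
  rw [slope_def_field]
  exact div_nonneg (by linarith [hle u hu]) (by linarith [hu.1])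

section
variable (hΦ : AdmissiblePotential Φ) (hε : 0 < ε)
include hΦ hε

lemma measurable_Rg (b : ℝ) : Measurable (Rg (υ := υ) (κ := κ) Φ ε b) := by
  have h1 : Measurable (fun W : υ ⊕ κ → PhasePoint => fun i : υ => flow Φ ε b W (Sum.inl i)) :=
    measurable_pi_lambda _ fun i => (measurable_pi_apply _).comp (measurable_flow hΦ hε b)
  have h2 : Measurable (fun W : υ ⊕ κ → PhasePoint => fun k : κ => flow Φ ε b W (Sum.inr k)) :=
    measurable_pi_lambda _ fun i => (measurable_pi_apply _).comp (measurable_flow hΦ hε b)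
  exact ((measurable_flow hΦ hε (-b)).comp h1).prodMk ((measurable_flow hΦ hε (-b)).comp h2)

/-- `Rg` preserves the volume. -/
lemma lintegral_Rg (b : ℝ) {m : (υ → PhasePoint) × (κ → PhasePoint) → ℝ≥0∞} (hm : Measurable m) :
    ∫⁻ W : υ ⊕ κ → PhasePoint, m (Rg Φ ε b W) = ∫⁻ Y, ∫⁻ U, m (U, Y) := by
  set m' : (υ ⊕ κ → PhasePoint) → ℝ≥0∞ := fun V => m (flow Φ ε (-b) (fun i => V (Sum.inl i)),
    flow Φ ε (-b) (fun k => V (Sum.inr k))) with hm'd
  have hm' : Measurable m' := by
    have h1 : Measurable (fun W : υ ⊕ κ → PhasePoint => fun i : υ => W (Sum.inl i)) :=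
      measurable_pi_lambda _ fun i => measurable_pi_apply _
    have h2 : Measurable (fun W : υ ⊕ κ → PhasePoint => fun k : κ => W (Sum.inr k)) :=
      measurable_pi_lambda _ fun i => measurable_pi_apply _
    exact hm.comp (((measurable_flow hΦ hε (-b)).comp h1).prodMk
      ((measurable_flow hΦ hε (-b)).comp h2))
  have h0 : ∫⁻ W : υ ⊕ κ → PhasePoint, m (Rg Φ ε b W) = ∫⁻ W : υ ⊕ κ → PhasePoint, m' (flow Φ ε b W) :=
    rfl
  rw [h0, (measurePreserving_flow (ι := υ ⊕ κ) hΦ hε b).lintegral_comp hm']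
  have hmp := measurePreserving_sumPiEquivProdPi_symm (ι := υ) (ι' := κ)
    (X := fun _ => PhasePoint) (fun _ => (volume : Measure PhasePoint))
  have h1 : ∫⁻ V : υ ⊕ κ → PhasePoint, m' V =
      ∫⁻ p : (υ → PhasePoint) × (κ → PhasePoint), m (flow Φ ε (-b) p.1, flow Φ ε (-b) p.2)
        ∂((Measure.pi fun _ => (volume : Measure PhasePoint)).prod
          (Measure.pi fun _ => (volume : Measure PhasePoint))) := by
    have h2 := hmp.lintegral_comp hm'
    rw [volume_pi, ← h2]
    rfl
  have hmm : Measurable (fun p : (υ → PhasePoint) × (κ → PhasePoint) =>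
      m (flow Φ ε (-b) p.1, flow Φ ε (-b) p.2)) :=
    hm.comp (((measurable_flow hΦ hε (-b)).comp measurable_fst).prodMk
      ((measurable_flow hΦ hε (-b)).comp measurable_snd))
  have hsf1 : SFinite (Measure.pi fun _ : υ => (volume : Measure PhasePoint)) := by
    rw [← volume_pi]; infer_instance
  have hsf2 : SFinite (Measure.pi fun _ : κ => (volume : Measure PhasePoint)) := by
    rw [← volume_pi]; infer_instance
  rw [h1, lintegral_prod_symm' _ hmm]
  have h3 : ∀ Y : κ → PhasePoint, ∫⁻ U : υ → PhasePoint, m (flow Φ ε (-b) U, Y) =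
      ∫⁻ U : υ → PhasePoint, m (U, Y) := by
    intro Y
    exact (measurePreserving_flow (ι := υ) hΦ hε (-b)).lintegral_comp
      (hm.comp (measurable_id.prodMk measurable_const))
  have h4 : ∫⁻ Y : κ → PhasePoint, ∫⁻ U : υ → PhasePoint, m (flow Φ ε (-b) U, flow Φ ε (-b) Y) =
      ∫⁻ Y : κ → PhasePoint, ∫⁻ U : υ → PhasePoint, m (U, Y) := by
    simp only [h3]
    exact (measurePreserving_flow (ι := κ) hΦ hε (-b)).lintegral_comp
      (f := fun Y => ∫⁻ U : υ → PhasePoint, m (U, Y)) hm.lintegral_prod_left'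
  exact h4

variable {T : ℝ} {j : υ} {m : κ} {W : υ ⊕ κ → PhasePoint} {s : ℝ}

lemma Rel.sep_le (hR : Rel Φ ε T j m W s) (i : υ) (k : κ) :
    ε ≤ dist (flow Φ ε s W (Sum.inl i)).1 (flow Φ ε s W (Sum.inr k)).1 := by
  obtain ⟨h, hh, hsep⟩ := hR.sep
  have hc : Continuous (fun u => dist (flow Φ ε u W (Sum.inl i)).1 (flow Φ ε u W (Sum.inr k)).1) := by
    have h1 := flow_continuous_time hΦ hε W
    exact (continuous_fst.comp ((continuous_apply _).comp h1)).dist
      (continuous_fst.comp ((continuous_apply _).comp h1))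
  have h1 : Tendsto (fun u => dist (flow Φ ε u W (Sum.inl i)).1 (flow Φ ε u W (Sum.inr k)).1)
      (𝓝[>] s) (𝓝 (dist (flow Φ ε s W (Sum.inl i)).1 (flow Φ ε s W (Sum.inr k)).1)) :=
    (hc.tendsto s).mono_left nhdsWithin_le_nhds
  refine ge_of_tendsto h1 ?_
  have h2 : Ioo s (s + h) ∈ 𝓝[>] s := Ioo_mem_nhdsGT (by linarith)
  filter_upwards [h2] with u hu using (hsep u hu i k).le

lemma Rel.split (hR : Rel Φ ε T j m W s) {b : ℝ} (hsb : s ≤ b)
    (hb : ∀ u ∈ Ioc s b, ∀ i k,
      ε < dist (flow Φ ε u W (Sum.inl i)).1 (flow Φ ε u W (Sum.inr k)).1) {u : ℝ} (hu : u ∈ Icc s b) :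
    flow Φ ε u (Rg Φ ε b W).1 = (fun i => flow Φ ε u W (Sum.inl i)) ∧
      flow Φ ε u (Rg Φ ε b W).2 = (fun k => flow Φ ε u W (Sum.inr k)) := by
  have hfar : ∀ t ∈ Icc s b, ∀ i k,
      ε ≤ dist (flow Φ ε t W (Sum.inl i)).1 (flow Φ ε t W (Sum.inr k)).1 := by
    intro t ht i k
    rcases ht.1.eq_or_lt with h | h
    · rw [← h]; exact hR.sep_le hΦ hε i k
    · exact (hb t ⟨h, ht.2⟩ i k).le
  have h1 := flow_comp hΦ hε (Function.Embedding.inl : υ ↪ υ ⊕ κ) hR.dom (a := s) (b := b) (t₀ := b)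
    (right_mem_Icc.2 hsb) (by
      rintro t ht i (k | k) hk
      · exact absurd ⟨k, rfl⟩ hk
      · exact hfar t ht i k) hu
  have h2 := flow_comp hΦ hε (Function.Embedding.inr : κ ↪ υ ⊕ κ) hR.dom (a := s) (b := b) (t₀ := b)
    (right_mem_Icc.2 hsb) (by
      rintro t ht i (k | k) hk
      · rw [dist_comm]; exact hfar t ht k i
      · exact absurd ⟨k, rfl⟩ hk) hu
  simp only [Function.Embedding.inl_apply] at h1
  simp only [Function.Embedding.inr_apply] at h2
  refine ⟨?_, ?_⟩
  · rw [h1]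
    unfold Rg
    simp only
    rw [← flow_add hΦ hε, neg_add_eq_sub]
  · rw [h2]
    unfold Rg
    simp only
    rw [← flow_add hΦ hε, neg_add_eq_sub]

lemma Rel.out (hR : Rel Φ ε T j m W s) :
    0 ≤ inner ℝ ((flow Φ ε s W (Sum.inl j)).1 - (flow Φ ε s W (Sum.inr m)).1)
      ((flow Φ ε s W (Sum.inl j)).2 - (flow Φ ε s W (Sum.inr m)).2) := by
  obtain ⟨h, hh, hsep⟩ := hR.sep
  have h1 := ((hasDerivAt_pos_flow hΦ hε hR.dom s (Sum.inl j)).sub
    (hasDerivAt_pos_flow hΦ hε hR.dom s (Sum.inr m))).norm_sq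
  have h2 := deriv_nonneg_of_right h1 hh (by
    intro u hu
    have h3 := hsep u hu j m
    have h4 := hR.hit
    rw [dist_eq_norm] at h3 h4
    simp only [Pi.sub_apply]
    rw [h4]
    exact pow_le_pow_left₀ hε.le h3.le 2)
  simp only [Pi.sub_apply] at h2
  linarith

/-- a release in a cell is captured by the cell majorant -/
lemma Rel.le_mc (hR : Rel Φ ε T j m W s)
    (G : ℝ → (κ → PhasePoint) → (υ → PhasePoint) → ℝ≥0∞) {a b : ℝ} (has : a ≤ s) (hsb : s ≤ b)
    (hb : ∀ u ∈ Ioc s b, ∀ i k,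
      ε < dist (flow Φ ε u W (Sum.inl i)).1 (flow Φ ε u W (Sum.inr k)).1) :
    G s (keep Φ ε s W) (gone Φ ε s W) ≤ mc Φ ε j m G a b (Rg Φ ε b W) := by
  have hs := hR.split hΦ hε hsb hb (left_mem_Icc.2 hsb)
  have hdd : ∀ u ∈ Icc s b, dd Φ ε j m (Rg Φ ε b W) u =
      dist (flow Φ ε u W (Sum.inl j)).1 (flow Φ ε u W (Sum.inr m)).1 := by
    intro u hu
    obtain ⟨h1, h2⟩ := hR.split hΦ hε hsb hb hu
    unfold dd
    rw [h1, h2]
  have hL : Lc Φ ε j m a b (Rg Φ ε b W) = s := by
    refine Lc_eq hΦ hε ⟨has, hsb⟩ ?_ ?_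
    · rw [hdd s (left_mem_Icc.2 hsb), hR.hit]
    · intro u hu
      rw [hdd u ⟨hu.1.le, hu.2⟩]
      exact hb u hu j m
  have hcap : Rg Φ ε b W ∈ Cap Φ ε j m a b := by
    refine ⟨⟨s, ⟨has, hsb⟩, ?_⟩, ?_, ?_⟩
    · rw [hdd s (left_mem_Icc.2 hsb), hR.hit]
    · rw [hL, hdd s (left_mem_Icc.2 hsb), hR.hit]
    · rw [hL]
      unfold Out
      rw [hs.1, hs.2]
      exact hR.out hΦ hε
  unfold mc
  rw [indicator_of_mem hcap, hL, hs.1]
  refine le_of_eq ?_
  have h1 : (Rg Φ ε b W).2 = keep Φ ε s W := by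
    unfold keep
    rw [← hs.2, flow_neg_flow hΦ hε]
  rw [h1]
  rfl

end

/-- sums of integrals over a uniform grid -/
lemma grid_sum (f : ℝ → ℝ≥0∞) {c : ℝ} (hc : 0 ≤ c) (N : ℕ) :
    ∑ i ∈ Finset.range N, ∫⁻ s in Icc ((i : ℝ) * c) (((i : ℝ) + 1) * c), f s =
      ∫⁻ s in Icc 0 ((N : ℝ) * c), f s := by
  have h0 : ∀ a b : ℝ, ∫⁻ s in Icc a b, f s = ∫⁻ s in Ioc a b, f s := fun a b =>
    setLIntegral_congr Ioc_ae_eq_Icc.symm
  simp only [h0]
  induction N with
  | zero => simp
  | succ n ih =>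
    rw [Finset.sum_range_succ, ih, ← lintegral_union measurableSet_Ioc]
    · rw [Ioc_union_Ioc_eq_Ioc (by positivity) (by nlinarith)]
      push_cast
      rfl
    · rw [Set.disjoint_left]
      intro x hx hx'
      exact absurd hx.2 (not_le.2 hx'.1)

/-- **(FSJ) Flux step, general released group.** -/
theorem FSJ (hΦ : AdmissiblePotential Φ) (hε : 0 < ε) {T : ℝ} (hT : 0 ≤ T) (j : υ) (m : κ)
    {G : ℝ → (κ → PhasePoint) → (υ → PhasePoint) → ℝ≥0∞}
    (hG : Measurable fun p : ℝ × (κ → PhasePoint) × (υ → PhasePoint) => G p.1 p.2.1 p.2.2) :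
    ∃ M : (υ ⊕ κ → PhasePoint) → ℝ≥0∞, Measurable M ∧
      (∀ W s, Rel Φ ε T j m W s → G s (keep Φ ε s W) (gone Φ ε s W) ≤ M W) ∧
      ∫⁻ W, M W ≤ ENNReal.ofReal (ε ^ 2) * ∫⁻ s in Icc 0 T, ∫⁻ Y : κ → PhasePoint,
        ∫⁻ U : υ → PhasePoint, kw (U j).1 * Kin Φ ε j m G s Y U := by
  set c : ℕ → ℝ := fun n => T / ((n : ℝ) + 1) with hcd
  have hc0 : ∀ n, 0 ≤ c n := fun n => by rw [hcd]; positivity
  set M : ℕ → (υ ⊕ κ → PhasePoint) → ℝ≥0∞ := fun n W => ∑ i ∈ Finset.range (n + 1),
    mc Φ ε j m G ((i : ℝ) * c n) (((i : ℝ) + 1) * c n) (Rg Φ ε (((i : ℝ) + 1) * c n) W) with hMd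
  have hMm : ∀ n, Measurable (M n) := fun n =>
    Finset.measurable_sum _ fun i _ => (measurable_mc hΦ hε j m hG _ _).comp (measurable_Rg hΦ hε _)
  refine ⟨fun W => liminf (fun n => M n W) atTop, Measurable.liminf hMm, ?_, ?_⟩
  · intro W s hR
    obtain ⟨h, hh, hsep⟩ := hR.sep
    have h1 : Tendsto c atTop (𝓝 0) := by
      have := (tendsto_one_div_add_atTop_nhds_zero_nat (𝕜 := ℝ)).const_mul T
      rw [mul_zero] at this
      refine this.congr fun n => ?_
      rw [hcd]; ring
    refine le_liminf_of_le ?_ ?_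
    · exact isCobounded_ge_of_top
    filter_upwards [h1.eventually (gt_mem_nhds hh)] with n hn
    -- the cell
    obtain ⟨i, hi, hi1, hi2⟩ : ∃ i : ℕ, i < n + 1 ∧ (i : ℝ) * c n ≤ s ∧ s ≤ ((i : ℝ) + 1) * c n := by
      rcases (hc0 n).eq_or_lt with h0 | h0
      · have hT0 : T = 0 := by
          have : T / ((n : ℝ) + 1) = 0 := h0.symm
          rw [div_eq_zero_iff] at this
          rcases this with h | h
          · exact h
          · exact absurd h (by positivity)
        have hs0 : s = 0 := le_antisymm (by rw [← hT0]; exact hR.sT) hR.s0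
        refine ⟨0, by omega, ?_, ?_⟩
        · rw [hs0, ← h0]; simp
        · rw [hs0, ← h0]; simp
      · by_cases hsT : s = T
        · refine ⟨n, by omega, ?_, ?_⟩
          · rw [hsT, hcd]
            simp only
            rw [← mul_div_assoc, div_le_iff₀ (by positivity)]
            nlinarith
          · rw [hsT, hcd]
            simp only
            rw [mul_div_cancel₀ _ (by positivity)]
        · have hlt : s < T := lt_of_le_of_ne hR.sT hsT
          refine ⟨⌊s / c n⌋₊, ?_, ?_, ?_⟩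
          · rw [Nat.floor_lt (div_nonneg hR.s0 (hc0 n)), div_lt_iff₀ h0]
            rw [hcd]
            simp only
            push_cast
            rw [mul_div_cancel₀ _ (by positivity)]
            exact hlt
          · have := Nat.floor_le (div_nonneg hR.s0 (hc0 n))
            rwa [le_div_iff₀ h0] at this
          · have := Nat.lt_floor_add_one (s / c n)
            rw [div_lt_iff₀ h0] at this
            exact this.le
    have hle : mc Φ ε j m G ((i : ℝ) * c n) (((i : ℝ) + 1) * c n) (Rg Φ ε (((i : ℝ) + 1) * c n) W) ≤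
        M n W := by
      rw [hMd]
      exact Finset.single_le_sum (f := fun i : ℕ => mc Φ ε j m G ((i : ℝ) * c n)
        (((i : ℝ) + 1) * c n) (Rg Φ ε (((i : ℝ) + 1) * c n) W)) (fun _ _ => zero_le)
        (Finset.mem_range.2 hi)
    refine le_trans (hR.le_mc hΦ hε G hi1 hi2 ?_) hle
    intro u hu i' k
    refine hsep u ⟨hu.1, ?_⟩ i' k
    have : ((i : ℝ) + 1) * c n = (i : ℝ) * c n + c n := by ring
    linarith [hu.2]
  · refine (lintegral_liminf_le hMm).trans ?_
    refine (liminf_le_liminf (Eventually.of_forall fun n => ?_)).trans (liminf_const _).le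
    have h1 : ∫⁻ W, M n W ≤ ∑ i ∈ Finset.range (n + 1), ENNReal.ofReal (ε ^ 2) *
        ∫⁻ s in Icc ((i : ℝ) * c n) (((i : ℝ) + 1) * c n), ∫⁻ Y : κ → PhasePoint,
          ∫⁻ U : υ → PhasePoint, kw (U j).1 * Kin Φ ε j m G s Y U := by
      rw [hMd]
      simp only
      have hmi : ∀ i ∈ Finset.range (n + 1), Measurable (fun W : υ ⊕ κ → PhasePoint =>
          mc Φ ε j m G ((i : ℝ) * c n) (((i : ℝ) + 1) * c n) (Rg Φ ε (((i : ℝ) + 1) * c n) W)) :=
        fun i _ => (measurable_mc hΦ hε j m hG _ _).comp (measurable_Rg hΦ hε _)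
      rw [lintegral_finsetSum _ hmi]
      refine Finset.sum_le_sum fun i _ => ?_
      rw [lintegral_Rg hΦ hε _ (measurable_mc hΦ hε j m hG _ _)]
      exact cell_flux hΦ hε hG _ _
    refine h1.trans (le_of_eq ?_)
    rw [← Finset.mul_sum, grid_sum _ (hc0 n)]
    congr 2
    rw [hcd]
    simp only
    push_cast
    rw [mul_div_cancel₀ _ (by positivity)]

end Crest.Agent.R122.Flux350

end
end

-- ▼ part R122/VolFlux4_350
section

/-!
Row 122, helper350: the flux step for one released particle (FS1), (FS1Z).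
-/

set_option autoImplicit false
set_option linter.unusedSectionVars false

open MeasureTheory Set Filter Topology
open Crest.AnalysisR.Kinetic
open Crest.Agent.R122.Flow671 Crest.Agent.R122.Loc45 Crest.Agent.R122.Causal291
open Crest.Agent.R122.Omega969 Crest.Agent.R122.Disc416
open scoped Classical ENNReal

noncomputable section

namespace Crest.Agent.R122.Flux350

variable {Φ : Space3 → ℝ} {ε : ℝ} {υ κ : Type*} [Fintype υ] [Fintype κ]

/-- change of variables by the flow, without measurability of the integrand -/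
lemma lintegral_flow (hΦ : AdmissiblePotential Φ) (hε : 0 < ε) (s : ℝ)
    (f : (κ → PhasePoint) → ℝ≥0∞) : ∫⁻ Y, f (flow Φ ε s Y) = ∫⁻ Y, f Y := by
  let e : (κ → PhasePoint) ≃ᵐ (κ → PhasePoint) :=
    { toFun := flow Φ ε s
      invFun := flow Φ ε (-s)
      left_inv := fun Z => flow_neg_flow hΦ hε s Z
      right_inv := fun Z => flow_flow_neg hΦ hε s Z
      measurable_toFun := measurable_flow hΦ hε s
      measurable_invFun := measurable_flow hΦ hε (-s) }
  exact (measurePreserving_flow (ι := κ) hΦ hε s).lintegral_comp_emb e.measurableEmbedding f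

lemma lintegral_one_particle [Unique υ] (f : PhasePoint → ℝ≥0∞) :
    ∫⁻ U : υ → PhasePoint, f (U default) = ∫⁻ z, f z := by
  have hinst : ‹Fintype υ› = Unique.fintype := Subsingleton.elim _ _
  subst hinst
  exact (volume_preserving_funUnique υ PhasePoint).lintegral_comp_emb
    (MeasurableEquiv.funUnique υ PhasePoint).measurableEmbedding f

lemma sphere_disc (v w x : Space3) {H : Space3 → ℝ≥0∞} (hH : Measurable H) :
    ∫⁻ u, ENNReal.ofReal (inner ℝ u (w - v)) * H (x + ε • u) ∂sphM =
      ∫⁻ y in Metric.ball (0 : Plane) 1, ENNReal.ofReal ‖v - w‖ *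
        H (x + ε • entrancePoint (frameMap (v - w) y) (v - w)) := by
  by_cases hg : v - w = 0
  · have h1 : w - v = 0 := by rw [← neg_sub, hg, neg_zero]
    simp [hg, h1]
  · have h := omega_disc hg (ψ := fun u => H (x + ε • u))
      (hH.comp (Continuous.measurable (by fun_prop)))
    rw [lintegral_const_mul' _ _ ENNReal.ofReal_ne_top, h]
    refine lintegral_congr fun u => ?_
    rw [← inner_neg_left, neg_sub, real_inner_comm]

/-- **(FS1) Flux step, one released particle**, node coordinates. -/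
theorem FS1 [Unique υ] (hΦ : AdmissiblePotential Φ) (hε : 0 < ε) {T : ℝ} (hT : 0 ≤ T) (m : κ)
    {G : ℝ → (κ → PhasePoint) → PhasePoint → ℝ≥0∞}
    (hG : Measurable fun p : ℝ × (κ → PhasePoint) × PhasePoint => G p.1 p.2.1 p.2.2) :
    ∃ M : (υ ⊕ κ → PhasePoint) → ℝ≥0∞, Measurable M ∧
      (∀ W s, Rel Φ ε T default m W s →
        G s (keep Φ ε s W) (flow Φ ε s W (Sum.inl default)) ≤ M W) ∧
      ∫⁻ W, M W ≤ ENNReal.ofReal (ε ^ 2) * ∫⁻ s in Icc 0 T, ∫⁻ Y : κ → PhasePoint,
        ∫⁻ w : Space3, ∫⁻ y in Metric.ball (0 : Plane) 1,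
          ENNReal.ofReal ‖(flow Φ ε s Y m).2 - w‖ * G s Y
            ((flow Φ ε s Y m).1 + ε • entrancePoint (frameMap ((flow Φ ε s Y m).2 - w) y)
              ((flow Φ ε s Y m).2 - w), w) := by
  have hG' : Measurable fun p : ℝ × (κ → PhasePoint) × (υ → PhasePoint) =>
      (fun s Y (U : υ → PhasePoint) => G s Y (U default)) p.1 p.2.1 p.2.2 := by
    have h := hG.comp (measurable_fst.prodMk ((measurable_fst.comp measurable_snd).prodMk
      ((measurable_pi_apply default).comp (measurable_snd.comp measurable_snd))) :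
        Measurable fun p : ℝ × (κ → PhasePoint) × (υ → PhasePoint) => (p.1, (p.2.1, p.2.2 default)))
    exact h
  obtain ⟨M, hM, hM1, hM2⟩ := FSJ hΦ hε hT (default : υ) m
    (G := fun s Y (U : υ → PhasePoint) => G s Y (U default)) hG'
  refine ⟨M, hM, hM1, hM2.trans (le_of_eq ?_)⟩
  congr 1
  refine lintegral_congr fun s => lintegral_congr fun Y => ?_
  -- reduce to one particle
  have h1 : ∀ U : υ → PhasePoint, kw (U default).1 * Kin Φ ε default m
      (fun s Y (U : υ → PhasePoint) => G s Y (U default)) s Y U =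
      (fun z : PhasePoint => kw z.1 * ∫⁻ u, ENNReal.ofReal (inner ℝ u (z.2 - (flow Φ ε s Y m).2)) *
        G s Y ((flow Φ ε s Y m).1 + ε • u, z.2) ∂sphM) (U default) := by
    intro U
    unfold Kin
    simp only
    congr 1
    refine lintegral_congr fun u => ?_
    congr 2
    refine Prod.ext ?_ rfl
    simp [shiftX]
  simp only [h1]
  have h2 := lintegral_one_particle (υ := υ)
    (fun z : PhasePoint => kw z.1 * ∫⁻ u, ENNReal.ofReal (inner ℝ u (z.2 - (flow Φ ε s Y m).2)) *
        G s Y ((flow Φ ε s Y m).1 + ε • u, z.2) ∂sphM)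
  refine Eq.trans h2 ?_
  have hGs : Measurable fun p : (Space3 × Space3) => G s Y (p.1, p.2) := by
    have h := hG.comp (measurable_const.prodMk (measurable_const.prodMk measurable_id) :
      Measurable fun p : Space3 × Space3 => (s, (Y, p)))
    exact h
  have h3 : ∀ w : Space3, ∫⁻ u, ENNReal.ofReal (inner ℝ u (w - (flow Φ ε s Y m).2)) *
        G s Y ((flow Φ ε s Y m).1 + ε • u, w) ∂sphM =
      ∫⁻ y in Metric.ball (0 : Plane) 1,
          ENNReal.ofReal ‖(flow Φ ε s Y m).2 - w‖ * G s Y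
            ((flow Φ ε s Y m).1 + ε • entrancePoint (frameMap ((flow Φ ε s Y m).2 - w) y)
              ((flow Φ ε s Y m).2 - w), w) := by
    intro w
    refine sphere_disc (flow Φ ε s Y m).2 w (flow Φ ε s Y m).1 (H := fun x => G s Y (x, w)) ?_
    have h := hGs.comp (measurable_id.prodMk measurable_const : Measurable fun x : Space3 => (x, w))
    exact h
  simp only [h3]
  -- the weight integrates to one
  have hm : Measurable (fun w : Space3 => ∫⁻ y in Metric.ball (0 : Plane) 1,
          ENNReal.ofReal ‖(flow Φ ε s Y m).2 - w‖ * G s Y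
            ((flow Φ ε s Y m).1 + ε • entrancePoint (frameMap ((flow Φ ε s Y m).2 - w) y)
              ((flow Φ ε s Y m).2 - w), w)) := by
    have h4 : Measurable (fun q : Space3 × Space3 =>
        ENNReal.ofReal (inner ℝ q.2 (q.1 - (flow Φ ε s Y m).2)) *
        G s Y ((flow Φ ε s Y m).1 + ε • q.2, q.1)) := by
      refine (ENNReal.measurable_ofReal.comp (Continuous.measurable (by fun_prop))).mul ?_
      have h := hGs.comp (((measurable_snd.const_smul ε).const_add _).prodMk measurable_fst :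
        Measurable fun q : Space3 × Space3 => ((flow Φ ε s Y m).1 + ε • q.2, q.1))
      exact h
    have h5 := h4.lintegral_prod_right' (ν := sphM)
    simp only [h3] at h5
    exact h5
  rw [Measure.volume_eq_prod]
  refine (lintegral_prod_mul (f := kw) measurable_kw.aemeasurable hm.aemeasurable).trans ?_
  rw [lintegral_kw, one_mul]

/-- **(FS1Z)**: the same with the state at time `s`. -/
theorem FS1Z [Unique υ] (hΦ : AdmissiblePotential Φ) (hε : 0 < ε) {T : ℝ} (hT : 0 ≤ T) (m : κ)
    {G : ℝ → (κ → PhasePoint) → PhasePoint → ℝ≥0∞}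
    (hG : Measurable fun p : ℝ × (κ → PhasePoint) × PhasePoint => G p.1 p.2.1 p.2.2) :
    ∃ M : (υ ⊕ κ → PhasePoint) → ℝ≥0∞, Measurable M ∧
      (∀ W s, Rel Φ ε T default m W s →
        G s (keep Φ ε s W) (flow Φ ε s W (Sum.inl default)) ≤ M W) ∧
      ∫⁻ W, M W ≤ ENNReal.ofReal (ε ^ 2) * ∫⁻ s in Icc 0 T, ∫⁻ Z : κ → PhasePoint,
        ∫⁻ w : Space3, ∫⁻ y in Metric.ball (0 : Plane) 1,
          ENNReal.ofReal ‖(Z m).2 - w‖ * G s (flow Φ ε (-s) Z)
            ((Z m).1 + ε • entrancePoint (frameMap ((Z m).2 - w) y) ((Z m).2 - w), w) := by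
  obtain ⟨M, hM, hM1, hM2⟩ := FS1 (υ := υ) hΦ hε hT m hG
  refine ⟨M, hM, hM1, hM2.trans (le_of_eq ?_)⟩
  congr 1
  refine lintegral_congr fun s => ?_
  rw [← lintegral_flow hΦ hε s (fun Z : κ → PhasePoint => ∫⁻ w : Space3,
    ∫⁻ y in Metric.ball (0 : Plane) 1, ENNReal.ofReal ‖(Z m).2 - w‖ * G s (flow Φ ε (-s) Z)
      ((Z m).1 + ε • entrancePoint (frameMap ((Z m).2 - w) y) ((Z m).2 - w), w))]
  refine lintegral_congr fun Y => ?_
  simp only [flow_neg_flow hΦ hε]

end Crest.Agent.R122.Flux350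

end
end

-- ▼ part R122/VolFlux5_350

/-!
Row 122, helper350: the flux step with energy weight, for 726's release steps of Finset groups.
-/

set_option autoImplicit false
set_option linter.unusedSectionVars false

open MeasureTheory Set Filter Topology
open Crest.AnalysisR.Kinetic
open Crest.Agent.R122.Flow671 Crest.Agent.R122.Loc45 Crest.Agent.R122.Causal291
open Crest.Agent.R122.Omega969 Crest.Agent.R122.Disc416 Crest.Agent.R122.Chain726
open scoped Classical ENNReal

noncomputable section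

namespace Crest.Agent.R122.Flux350

variable {Φ : Space3 → ℝ} {ε : ℝ} {υ κ : Type*} [Fintype υ] [Fintype κ]

/-! ### Energy -/

lemma measurable_energy (hΦ : AdmissiblePotential Φ) (ε : ℝ) :
    Measurable (energy (ι := κ) Φ ε) := by
  have hm : Measurable Φ := Vol365.measurable_pot hΦ
  unfold Flow671.energy
  fun_prop

lemma energy_shiftX (Φ : Space3 → ℝ) (ε : ℝ) (a : Space3) (Z : κ → PhasePoint) :
    energy Φ ε (shiftX a Z) = energy Φ ε Z := by
  unfold Flow671.energy shiftX
  simp only [add_sub_add_right_eq_sub]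

lemma energy_unique [Unique υ] (Φ : Space3 → ℝ) (ε : ℝ) (Z : υ → PhasePoint) :
    energy Φ ε Z = ‖(Z default).2‖ ^ 2 / 2 := by
  unfold Flow671.energy
  simp [Fintype.card_unique]
  ring

/-- the energy splits at a release -/
lemma Rel.energy (hΦ : AdmissiblePotential Φ) (hε : 0 < ε) {T : ℝ} {j : υ} {m : κ}
    {W : υ ⊕ κ → PhasePoint} {s : ℝ} (hR : Rel Φ ε T j m W s) :
    Flow671.energy Φ ε W = Flow671.energy Φ ε (keep Φ ε s W) + Flow671.energy Φ ε (gone Φ ε s W) := by
  have h1 : flow Φ ε s W = Sum.elim (gone Φ ε s W) (fun k => flow Φ ε s W (Sum.inr k)) := by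
    funext i
    rcases i with i | i <;> rfl
  have h2 := energy_sum_elim hΦ hε (gone Φ ε s W) (fun k => flow Φ ε s W (Sum.inr k))
    (fun i k => hR.sep_le hΦ hε i k)
  rw [← h1, energy_flow hΦ hε] at h2
  rw [h2, keep, energy_flow hΦ hε, add_comm]

/-- **(FS1Z) with energy weight.** -/
theorem FS1w [Unique υ] (hΦ : AdmissiblePotential Φ) (hε : 0 < ε) {T : ℝ} (hT : 0 ≤ T) (m : κ)
    {G : ℝ → (κ → PhasePoint) → PhasePoint → ℝ≥0∞}
    (hG : Measurable fun p : ℝ × (κ → PhasePoint) × PhasePoint => G p.1 p.2.1 p.2.2) (γ : ℝ) :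
    ∃ M : (υ ⊕ κ → PhasePoint) → ℝ≥0∞, Measurable M ∧
      (∀ W s, Rel Φ ε T default m W s →
        G s (keep Φ ε s W) (flow Φ ε s W (Sum.inl default)) ≤ M W) ∧
      ∫⁻ W, ENNReal.ofReal (Real.exp (-(γ * energy Φ ε W))) * M W ≤
        ENNReal.ofReal (ε ^ 2) * ∫⁻ s in Icc 0 T, ∫⁻ Z : κ → PhasePoint,
        ∫⁻ w : Space3, ∫⁻ y in Metric.ball (0 : Plane) 1,
          ENNReal.ofReal (Real.exp (-(γ * (energy Φ ε Z + ‖w‖ ^ 2 / 2)))) *
          (ENNReal.ofReal ‖(Z m).2 - w‖ * G s (flow Φ ε (-s) Z)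
            ((Z m).1 + ε • entrancePoint (frameMap ((Z m).2 - w) y) ((Z m).2 - w), w)) := by
  have hE : Measurable (energy (ι := κ) Φ ε) := measurable_energy hΦ ε
  have hw : Measurable (fun p : ℝ × (κ → PhasePoint) × PhasePoint =>
      ENNReal.ofReal (Real.exp (-(γ * (energy Φ ε p.2.1 + ‖p.2.2.2‖ ^ 2 / 2))))) := by
    have h1 : Measurable (fun p : ℝ × (κ → PhasePoint) × PhasePoint => energy Φ ε p.2.1) :=
      hE.comp (measurable_fst.comp measurable_snd)
    have h2 : Measurable (fun p : ℝ × (κ → PhasePoint) × PhasePoint => ‖p.2.2.2‖ ^ 2 / 2) :=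
      ((measurable_snd.comp (measurable_snd.comp measurable_snd)).norm.pow_const 2).div_const 2
    exact ENNReal.measurable_ofReal.comp (Real.measurable_exp.comp
      ((h1.add h2).const_mul γ).neg)
  obtain ⟨M, hM, hM1, hM2⟩ := FS1Z (υ := υ) hΦ hε hT m
    (G := fun s Y z => ENNReal.ofReal (Real.exp (-(γ * (energy Φ ε Y + ‖z.2‖ ^ 2 / 2)))) * G s Y z)
    (hw.mul hG)
  have hEs : Measurable (energy (ι := υ ⊕ κ) Φ ε) := measurable_energy hΦ ε
  refine ⟨fun W => ENNReal.ofReal (Real.exp (γ * energy Φ ε W)) * M W, ?_, ?_, ?_⟩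
  · exact (ENNReal.measurable_ofReal.comp (Real.measurable_exp.comp (hEs.const_mul γ))).mul hM
  · intro W s hR
    have h1 := hM1 W s hR
    have h2 : energy Φ ε (keep Φ ε s W) + ‖(flow Φ ε s W (Sum.inl default)).2‖ ^ 2 / 2 =
        energy Φ ε W := by
      rw [hR.energy hΦ hε, energy_unique Φ ε (gone Φ ε s W)]
      rfl
    rw [h2] at h1
    calc G s (keep Φ ε s W) (flow Φ ε s W (Sum.inl default))
        = ENNReal.ofReal (Real.exp (γ * energy Φ ε W)) *
          (ENNReal.ofReal (Real.exp (-(γ * energy Φ ε W))) *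
            G s (keep Φ ε s W) (flow Φ ε s W (Sum.inl default))) := by
          rw [← mul_assoc, ← ENNReal.ofReal_mul (Real.exp_pos _).le, ← Real.exp_add, add_neg_cancel,
            Real.exp_zero, ENNReal.ofReal_one, one_mul]
      _ ≤ _ := mul_le_mul_right h1 _
  · have h1 : ∀ W : υ ⊕ κ → PhasePoint, ENNReal.ofReal (Real.exp (-(γ * energy Φ ε W))) *
        (ENNReal.ofReal (Real.exp (γ * energy Φ ε W)) * M W) = M W := by
      intro W
      rw [← mul_assoc, ← ENNReal.ofReal_mul (Real.exp_pos _).le, ← Real.exp_add, neg_add_cancel,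
        Real.exp_zero, ENNReal.ofReal_one, one_mul]
    simp only [h1]
    refine hM2.trans (le_of_eq ?_)
    simp only [energy_flow hΦ hε]
    congr 1
    refine lintegral_congr fun s => lintegral_congr fun Z => lintegral_congr fun w =>
      lintegral_congr fun y => ?_
    rw [mul_left_comm]

/-! ### Finset groups -/

variable {ι : Type*}

lemma lintegral_relabel {α β : Type*} [Fintype α] [Fintype β] (e : α ≃ β)
    {f : (α → PhasePoint) → ℝ≥0∞} :
    ∫⁻ W : β → PhasePoint, f (fun i => W (e i)) = ∫⁻ V : α → PhasePoint, f V := by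
  have h := (volume_measurePreserving_piCongrLeft (fun _ : β => PhasePoint) e).symm
  have h2 := h.lintegral_comp_emb
    (MeasurableEquiv.piCongrLeft (fun _ : β => PhasePoint) e).symm.measurableEmbedding f
  rw [← h2]
  rfl

/-- the released particle and the kept group -/
def spl {A A' : Finset ι} (h : A' ⊆ A) (hc : A'.card + 1 = A.card) (j : A) (hj : (j : ι) ∉ A') :
    Unit ⊕ A' ≃ A :=
  Equiv.ofBijective (Sum.elim (fun _ => j) (fun k => ⟨k, h k.2⟩)) (by
    rw [Fintype.bijective_iff_injective_and_card]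
    refine ⟨?_, ?_⟩
    · rintro (a | a) (b | b) hab
      · rfl
      · exact absurd (by have := congrArg Subtype.val hab; simpa using this ▸ b.2) hj
      · exact absurd (by have := congrArg Subtype.val hab; simpa using this ▸ a.2) hj
      · have := congrArg Subtype.val hab
        simp only [Sum.elim_inr] at this
        rw [Subtype.ext this]
    · rw [Fintype.card_sum, Fintype.card_unit, Fintype.card_coe, Fintype.card_coe, ← hc]
      ring)

@[simp] lemma spl_inl {A A' : Finset ι} (h : A' ⊆ A) (hc : A'.card + 1 = A.card) (j : A)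
    (hj : (j : ι) ∉ A') (u : Unit) : spl h hc j hj (Sum.inl u) = j := rfl

@[simp] lemma spl_inr {A A' : Finset ι} (h : A' ⊆ A) (hc : A'.card + 1 = A.card) (j : A)
    (hj : (j : ι) ∉ A') (k : A') : spl h hc j hj (Sum.inr k) = ⟨k, h k.2⟩ := rfl

/-- a step releasing one particle is a release in the sense of `Rel` -/
lemma rel_of_step (hΦ : AdmissiblePotential Φ) (hε : 0 < ε) {T s : ℝ} (hs : s ∈ Icc 0 T)
    {A A' : Finset ι} (h : A' ⊆ A) (hc : A'.card + 1 = A.card) (j : A) (hj : (j : ι) ∉ A')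
    {W : A → PhasePoint} {W' : A' → PhasePoint} (hS : Step Φ ε s W W') (m : A')
    (hm : dist (flow Φ ε s W j).1 (flow Φ ε s W ⟨m, h m.2⟩).1 = ε) :
    Rel Φ ε T () m (fun i => W (spl h hc j hj i)) s ∧
      keep Φ ε s (fun i => W (spl h hc j hj i)) = W' := by
  have hfl : ∀ u, flow Φ ε u (fun i => W (spl h hc j hj i)) =
      fun i => flow Φ ε u W (spl h hc j hj i) := fun u => flow_equiv hΦ hε _ u W
  refine ⟨⟨(Dom_equiv _).2 hS.dom, hs.1, hs.2, ?_, ?_⟩, ?_⟩
  · rw [hfl]
    exact hm
  · obtain ⟨d, hd, hsep⟩ := hS.sep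
    refine ⟨d, hd, fun u hu i k => ?_⟩
    rw [hfl]
    exact hsep u hu j ⟨k, h k.2⟩ hj k.2
  · rw [hS.state]
    unfold keep
    rw [hfl]
    rfl

/-- **(FS1) for Finset groups, with energy weight.** -/
theorem FS1fin (hΦ : AdmissiblePotential Φ) (hε : 0 < ε) {T : ℝ} (hT : 0 ≤ T)
    {A A' : Finset ι} (h : A' ⊆ A) (hc : A'.card + 1 = A.card) (j : A) (hj : (j : ι) ∉ A')
    {G : ℝ → (A' → PhasePoint) → A' → PhasePoint → ℝ≥0∞}
    (hG : ∀ m, Measurable fun p : ℝ × (A' → PhasePoint) × PhasePoint => G p.1 p.2.1 m p.2.2)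
    (γ : ℝ) :
    ∃ M : (A → PhasePoint) → ℝ≥0∞, Measurable M ∧
      (∀ (W : A → PhasePoint) (W' : A' → PhasePoint) (s : ℝ), s ∈ Icc 0 T → Step Φ ε s W W' →
        ∀ m : A', dist (flow Φ ε s W j).1 (flow Φ ε s W ⟨m, h m.2⟩).1 = ε →
          G s W' m (flow Φ ε s W j) ≤ M W) ∧
      ∫⁻ W, ENNReal.ofReal (Real.exp (-(γ * energy Φ ε W))) * M W ≤
        ENNReal.ofReal (ε ^ 2) * ∑ m : A', ∫⁻ s in Icc 0 T, ∫⁻ Z : A' → PhasePoint,
        ∫⁻ w : Space3, ∫⁻ y in Metric.ball (0 : Plane) 1,
          ENNReal.ofReal (Real.exp (-(γ * (energy Φ ε Z + ‖w‖ ^ 2 / 2)))) *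
          (ENNReal.ofReal ‖(Z m).2 - w‖ * G s (flow Φ ε (-s) Z) m
            ((Z m).1 + ε • entrancePoint (frameMap ((Z m).2 - w) y) ((Z m).2 - w), w)) := by
  have hF := fun m : A' => FS1w (υ := Unit) hΦ hε hT m (G := fun s Y z => G s Y m z) (hG m) γ
  choose M hM hM1 hM2 using hF
  have hre : Measurable (fun W : A → PhasePoint => fun i => W (spl h hc j hj i)) :=
    measurable_pi_lambda _ fun i => measurable_pi_apply _
  have hMr : ∀ m, Measurable (fun W : A → PhasePoint => M m (fun i => W (spl h hc j hj i))) :=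
    fun m => (hM m).comp hre
  refine ⟨fun W => ∑ m, M m (fun i => W (spl h hc j hj i)), Finset.measurable_sum _ fun m _ => hMr m,
    ?_, ?_⟩
  · intro W W' s hs hS m hm
    obtain ⟨h1, h2⟩ := rel_of_step hΦ hε hs h hc j hj hS m hm
    have h3 := hM1 m _ s h1
    rw [h2, flow_equiv hΦ hε] at h3
    simp only at h3
    refine le_trans h3 ?_
    exact Finset.single_le_sum (f := fun m => M m (fun i => W (spl h hc j hj i)))
      (fun _ _ => zero_le) (Finset.mem_univ m)
  · have hE : Measurable (fun W : A → PhasePoint =>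
        ENNReal.ofReal (Real.exp (-(γ * energy Φ ε W)))) :=
      ENNReal.measurable_ofReal.comp (Real.measurable_exp.comp
        ((measurable_energy hΦ ε).const_mul γ).neg)
    simp only [Finset.mul_sum]
    have hp : ∀ m ∈ (Finset.univ : Finset A'), Measurable (fun W : A → PhasePoint =>
        ENNReal.ofReal (Real.exp (-(γ * energy Φ ε W))) * M m (fun i => W (spl h hc j hj i))) :=
      fun m _ => hE.mul (hMr m)
    rw [lintegral_finsetSum _ hp]
    refine Finset.sum_le_sum fun m _ => ?_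
    refine le_trans (le_of_eq ?_) (hM2 m)
    rw [← lintegral_relabel (spl h hc j hj) (f := fun V =>
      ENNReal.ofReal (Real.exp (-(γ * energy Φ ε V))) * M m V)]
    refine lintegral_congr fun W => ?_
    rw [energy_equiv]

end Crest.Agent.R122.Flux350

end
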