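import Crest.Agent.R122.VolMain_365
import Crest.Agent.R122.VolGauss_365

-- ▼ part R122/VolTaper_365
section

/-!
Row 122, helper365: tapered histories.  A group of particles evolves by its own flow; at grid times
some particles may be deleted, if they just left the `ε`-neighbourhood of the surviving ones.
Volume bound for all initial configurations which have a tapered history ending in a given set.
-/

set_option autoImplicit false

open MeasureTheory Set
open Crest.AnalysisR.Kinetic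
open scoped ENNReal Classical

noncomputable section

namespace Crest.Agent.R122.Vol365

/-- The particles outside `p` have just left through a thin shell. -/
def Shell (ε V L δ : ℝ) {ι : Type} (p : ι → Prop) (z : ι → PhasePoint) : Prop :=
  (∃ k i, ¬ p k ∧ p i ∧ ε < dist (z k).1 (z i).1 ∧ dist (z k).1 (z i).1 ≤ ε + 2 * V * δ) ∧
  (∀ k, ¬ p k → ∃ i, p i ∧ dist (z k).1 (z i).1 ≤ L * ε) ∧ (∀ k, ¬ p k → ‖(z k).2‖ ≤ V)

/-- Final condition: roots in `A`, everybody close to a root. -/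
def Base {ρ : Type} (ε : ℝ) (A : Set (ρ → PhasePoint)) (V L : ℝ) {ι : Type} (e : ρ → ι)
    (z : ι → PhasePoint) : Prop :=
  (fun r => z (e r)) ∈ A ∧ (∀ k, ∃ r, dist (z k).1 (z (e r)).1 ≤ L * ε) ∧ ∀ k, ‖(z k).2‖ ≤ V


theorem measure_preimage_le' {α β : Type*} [MeasurableSpace α] [MeasurableSpace β] {μ : Measure α}
    {ν : Measure β} {f : α → β} (hf : MeasurePreserving f μ ν) (s : Set β) : μ (f ⁻¹' s) ≤ ν s := by
  calc μ (f ⁻¹' s) ≤ μ (f ⁻¹' (toMeasurable ν s)) :=
        measure_mono (preimage_mono (subset_toMeasurable ν s))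
    _ = ν (toMeasurable ν s) := hf.measure_preimage (measurableSet_toMeasurable ν s).nullMeasurableSet
    _ = ν s := measure_toMeasurable s

/-- Volume of a shell. -/
theorem vol_shell (c : Space3) {ε h : ℝ} (hε : 0 < ε) (h0 : 0 ≤ h) (hh : h ≤ ε) :
    volume {x : Space3 | ε < dist x c ∧ dist x c ≤ ε + h} ≤
      7 * ENNReal.ofReal h * ENNReal.ofReal ε ^ 2 * kap := by
  have hsub : {x : Space3 | ε < dist x c ∧ dist x c ≤ ε + h} =
      Metric.closedBall c (ε + h) \ Metric.closedBall c ε := by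
    ext x
    simp only [mem_sdiff, Metric.mem_closedBall, not_le]
    exact ⟨fun h => ⟨h.2, h.1⟩, fun h => ⟨h.2, h.1⟩⟩
  rw [hsub, measure_sdiff (Metric.closedBall_subset_closedBall (by linarith))
    Metric.isClosed_closedBall.measurableSet.nullMeasurableSet measure_closedBall_lt_top.ne,
    vol_closedBall _ (by linarith), vol_closedBall _ hε.le, ← ENNReal.ofReal_pow (by linarith),
    ← ENNReal.ofReal_pow hε.le]
  rw [tsub_le_iff_right]
  have h7 : (7 : ℝ≥0∞) = ENNReal.ofReal 7 := by simp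
  rw [← ENNReal.ofReal_pow hε.le, h7, ← ENNReal.ofReal_mul (by norm_num),
    ← ENNReal.ofReal_mul (by positivity), ← add_mul, ← ENNReal.ofReal_add (by positivity)
      (by positivity)]
  refine mul_le_mul_left ?_ _
  refine ENNReal.ofReal_le_ofReal ?_
  have h1 : 0 ≤ ε * h := by positivity
  have h2 : h * h ≤ ε * h := mul_le_mul_of_nonneg_right hh h0
  nlinarith [mul_nonneg hε.le h1, mul_le_mul_of_nonneg_left h2 hε.le,
    mul_le_mul_of_nonneg_left h2 h0]

/-- Constants. -/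
def M0 (K : ℕ) (V L : ℝ) : ℝ≥0∞ :=
  14 * (K : ℝ≥0∞) ^ 2 * kap ^ 2 * ENNReal.ofReal V ^ 4 +
    (K : ℝ≥0∞) * ENNReal.ofReal L ^ 3 * kap ^ 2 * ENNReal.ofReal V ^ 3


/-- One released particle near some survivor. -/
theorem vol_near {κ : Type} [Fintype κ] {K : ℕ} (hK : Fintype.card κ ≤ K) (x : κ → PhasePoint)
    {ε V L : ℝ} (hε : 0 < ε) (hV : 0 ≤ V) (hL : 0 ≤ L) :
    volume {y : PhasePoint | (∃ i, dist y.1 (x i).1 ≤ L * ε) ∧ ‖y.2‖ ≤ V} ≤
      (K : ℝ≥0∞) * ENNReal.ofReal L ^ 3 * kap ^ 2 * ENNReal.ofReal V ^ 3 * ENNReal.ofReal ε ^ 3 := by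
  have hsub : {y : PhasePoint | (∃ i, dist y.1 (x i).1 ≤ L * ε) ∧ ‖y.2‖ ≤ V} ⊆
      ⋃ i, cell (x i).1 (L * ε) V := by
    rintro y ⟨⟨i, hi⟩, hv⟩
    exact mem_iUnion.2 ⟨i, hi, by rwa [mem_closedBall_zero_iff]⟩
  refine (measure_mono hsub).trans ((measure_iUnion_fintype_le _ _).trans ?_)
  simp_rw [vol_cell _ (mul_nonneg hL hε.le) hV]
  rw [Finset.sum_const, nsmul_eq_mul, Finset.card_univ, ENNReal.ofReal_mul hL]
  have hK' : (Fintype.card κ : ℝ≥0∞) ≤ K := by exact_mod_cast hK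
  calc (Fintype.card κ : ℝ≥0∞) * ((ENNReal.ofReal L * ENNReal.ofReal ε) ^ 3 * kap *
        (ENNReal.ofReal V ^ 3 * kap))
      ≤ (K : ℝ≥0∞) * ((ENNReal.ofReal L * ENNReal.ofReal ε) ^ 3 * kap *
        (ENNReal.ofReal V ^ 3 * kap)) := by gcongr
    _ = _ := by ring

/-- One released particle in the shell of some survivor. -/
theorem vol_sh {κ : Type} [Fintype κ] {K : ℕ} (hK : Fintype.card κ ≤ K) (x : κ → PhasePoint)
    {ε V δ : ℝ} (hε : 0 < ε) (hV : 0 ≤ V) (hδ : 0 ≤ δ) (hh : 2 * V * δ ≤ ε) :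
    volume {y : PhasePoint | (∃ i, ε < dist y.1 (x i).1 ∧ dist y.1 (x i).1 ≤ ε + 2 * V * δ) ∧
        ‖y.2‖ ≤ V} ≤
      (K : ℝ≥0∞) * 14 * kap ^ 2 * ENNReal.ofReal V ^ 4 * ENNReal.ofReal δ * ENNReal.ofReal ε ^ 2 := by
  have hsub : {y : PhasePoint | (∃ i, ε < dist y.1 (x i).1 ∧ dist y.1 (x i).1 ≤ ε + 2 * V * δ) ∧
        ‖y.2‖ ≤ V} ⊆
      ⋃ i, ({y : Space3 | ε < dist y (x i).1 ∧ dist y (x i).1 ≤ ε + 2 * V * δ} ×ˢ
        Metric.closedBall (0 : Space3) V) := by
    rintro y ⟨⟨i, hi⟩, hv⟩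
    exact mem_iUnion.2 ⟨i, hi, by rwa [mem_closedBall_zero_iff]⟩
  refine (measure_mono hsub).trans ((measure_iUnion_fintype_le _ _).trans ?_)
  have h1 : ∀ i, volume ({y : Space3 | ε < dist y (x i).1 ∧ dist y (x i).1 ≤ ε + 2 * V * δ} ×ˢ
        Metric.closedBall (0 : Space3) V) ≤
      (7 * ENNReal.ofReal (2 * V * δ) * ENNReal.ofReal ε ^ 2 * kap) * (ENNReal.ofReal V ^ 3 * kap) := by
    intro i
    rw [Measure.volume_eq_prod, Measure.prod_prod, vol_closedBall _ hV]
    exact mul_le_mul_left (vol_shell _ hε (by positivity) hh) _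
  refine (Finset.sum_le_card_nsmul _ _ _ (fun i _ => h1 i)).trans ?_
  rw [nsmul_eq_mul, Finset.card_univ]
  have hK' : (Fintype.card κ : ℝ≥0∞) ≤ K := by exact_mod_cast hK
  have h2 : ENNReal.ofReal (2 * V * δ) = 2 * ENNReal.ofReal V * ENNReal.ofReal δ := by
    rw [ENNReal.ofReal_mul (by positivity), ENNReal.ofReal_mul (by norm_num)]; simp
  rw [h2]
  calc (Fintype.card κ : ℝ≥0∞) * (7 * (2 * ENNReal.ofReal V * ENNReal.ofReal δ) *
        ENNReal.ofReal ε ^ 2 * kap * (ENNReal.ofReal V ^ 3 * kap))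
      ≤ (K : ℝ≥0∞) * (7 * (2 * ENNReal.ofReal V * ENNReal.ofReal δ) *
        ENNReal.ofReal ε ^ 2 * kap * (ENNReal.ofReal V ^ 3 * kap)) := by gcongr
    _ = _ := by ring



theorem measurableSet_W {κ μ : Type} [Fintype κ] [Fintype μ] (ε V L δ : ℝ) :
    MeasurableSet {w : (κ → PhasePoint) × (μ → PhasePoint) |
        (∃ k i, ε < dist (w.2 k).1 (w.1 i).1 ∧ dist (w.2 k).1 (w.1 i).1 ≤ ε + 2 * V * δ) ∧
        (∀ k, ∃ i, dist (w.2 k).1 (w.1 i).1 ≤ L * ε) ∧ ∀ k, ‖(w.2 k).2‖ ≤ V} := by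
  have hk : ∀ k : μ, Measurable fun w : (κ → PhasePoint) × (μ → PhasePoint) => w.2 k := fun k =>
    (measurable_pi_apply k).comp measurable_snd
  have hi : ∀ i : κ, Measurable fun w : (κ → PhasePoint) × (μ → PhasePoint) => w.1 i := fun k =>
    (measurable_pi_apply k).comp measurable_fst
  have hd : ∀ (k : μ) (i : κ), Measurable fun w : (κ → PhasePoint) × (μ → PhasePoint) =>
      dist (w.2 k).1 (w.1 i).1 := fun k i => (hk k).fst.dist (hi i).fst
  have e : {w : (κ → PhasePoint) × (μ → PhasePoint) |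
        (∃ k i, ε < dist (w.2 k).1 (w.1 i).1 ∧ dist (w.2 k).1 (w.1 i).1 ≤ ε + 2 * V * δ) ∧
        (∀ k, ∃ i, dist (w.2 k).1 (w.1 i).1 ≤ L * ε) ∧ ∀ k, ‖(w.2 k).2‖ ≤ V} =
      (⋃ k, ⋃ i, {w | ε < dist (w.2 k).1 (w.1 i).1 ∧ dist (w.2 k).1 (w.1 i).1 ≤ ε + 2 * V * δ}) ∩
      ((⋂ k, ⋃ i, {w | dist (w.2 k).1 (w.1 i).1 ≤ L * ε}) ∩ ⋂ k, {w | ‖(w.2 k).2‖ ≤ V}) := by
    ext w
    simp only [mem_ofPred_eq, mem_inter_iff, mem_iUnion, mem_iInter]
  rw [e]
  refine (MeasurableSet.iUnion fun k => MeasurableSet.iUnion fun i => ?_).inter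
    ((MeasurableSet.iInter fun k => MeasurableSet.iUnion fun i => ?_).inter
      (MeasurableSet.iInter fun k => ?_))
  · exact (measurableSet_lt measurable_const (hd k i)).inter
      (measurableSet_le (hd k i) measurable_const)
  · exact measurableSet_le (hd k i) measurable_const
  · exact measurableSet_le (hk k).snd.norm measurable_const




end Crest.Agent.R122.Vol365
end
end

-- ▼ part R122/VolTaperDyn_365

/-!
Row 122, helper365: real histories (multi-root) of the Newton flow are tapered histories.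
-/

set_option autoImplicit false

open MeasureTheory Set
open Crest.AnalysisR.Kinetic
open Crest.Agent.R122.Flow671 Crest.Agent.R122.Loc45
open Crest.Agent.R122.Causal291 (Past Ct pth BC isClosed_past isClosed_ct_pth continuous_pth
  exists_isolated)
open scoped ENNReal Classical Topology

noncomputable section

namespace Crest.Agent.R122.Vol365

/-! ### Union of pasts -/

section past

variable {κ ρ : Type} {C : ℝ → κ → κ → Prop} {t : ℝ} {R : ρ → κ}










end past

/-! ### Chains -/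

theorem dist_le_of_rtg {ι : Type} [Fintype ι] {x : ι → Space3} {ε : ℝ} (hε : 0 ≤ ε) {i j : ι}
    (h : Relation.ReflTransGen (fun i j => dist (x i) (x j) ≤ ε) i j) :
    dist (x i) (x j) ≤ Fintype.card ι * ε := by
  let G : SimpleGraph ι := SimpleGraph.fromRel (fun i j => dist (x i) (x j) ≤ ε)
  have hadj : ∀ a b, G.Adj a b → dist (x a) (x b) ≤ ε := by
    intro a b hab
    rw [SimpleGraph.fromRel_adj] at hab
    rcases hab.2 with h | h
    · exact h
    · rw [dist_comm]; exact h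
  have hreach : ∀ a b, Relation.ReflTransGen (fun i j => dist (x i) (x j) ≤ ε) a b → G.Reachable a b := by
    intro a b hab
    induction hab with
    | refl => exact SimpleGraph.Reachable.refl _
    | @tail c d h1 h2 ih =>
      by_cases hcd : c = d
      · rw [← hcd]; exact ih
      · exact ih.trans (SimpleGraph.Adj.reachable ((SimpleGraph.fromRel_adj _ _ _).2 ⟨hcd, Or.inl h2⟩))
  have hwalk : ∀ a b (w : G.Walk a b), dist (x a) (x b) ≤ w.length * ε := by
    intro a b w
    induction w with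
    | nil => simp
    | @cons a b c hab w ih =>
      calc dist (x a) (x c) ≤ dist (x a) (x b) + dist (x b) (x c) := dist_triangle _ _ _
        _ ≤ ε + w.length * ε := add_le_add (hadj _ _ hab) ih
        _ = _ := by rw [SimpleGraph.Walk.length_cons]; push_cast; ring
  obtain ⟨w, hw⟩ := (hreach i j h).exists_isPath
  calc dist (x i) (x j) ≤ w.length * ε := hwalk i j w
    _ ≤ Fintype.card ι * ε := by
      refine mul_le_mul_of_nonneg_right ?_ hε
      exact_mod_cast hw.length_lt.le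


/-! ### Uniform isolation -/


/-! ### Real histories are tapered -/

section main

variable {Φ : Space3 → ℝ} {ε : ℝ}

theorem newton_flow (hΦ : AdmissiblePotential Φ) (hε : 0 < ε) (ι : Type) [Fintype ι] (t : ℝ)
    (z : ι → PhasePoint) : (newton hΦ hε).flow ι t z = flow Φ ε t z := by
  show nflow Φ ε ι t z = _
  rw [nflow_eq]

theorem newton_energy (hΦ : AdmissiblePotential Φ) (hε : 0 < ε) (ι : Type) [Fintype ι]
    (z : ι → PhasePoint) : (newton hΦ hε).energy ι z = energy Φ ε z := by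
  show nenergy Φ ε ι z = _
  rw [nenergy_eq]

theorem phi_ge (hΦ : AdmissiblePotential Φ) (hε : 0 < ε) {ι : Type} [Fintype ι]
    {Z : ι → PhasePoint} (hZ : Z ∈ Dom Φ ι) {i j : ι} (hij : i ≠ j) :
    -(2 * stabB Φ) ≤ Φ ((1 / ε) • ((Z i).1 - (Z j).1)) := by
  let e : Bool ↪ ι := ⟨fun b => if b then i else j, by
    intro a b h
    cases a <;> cases b <;> simp_all [hij.symm]⟩
  have h1 := neg_le_pot hΦ hε (Dom_comp e hZ)
  unfold pot at h1
  simp only [Fintype.sum_bool, Fintype.card_bool, Function.Embedding.coeFn_mk, e, if_true,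
    Bool.false_eq_true, if_false, sub_self, smul_zero] at h1
  have h2 : Φ ((1 / ε) • ((Z j).1 - (Z i).1)) = Φ ((1 / ε) • ((Z i).1 - (Z j).1)) := by
    apply hΦ.radial
    rw [← neg_sub (Z i).1 (Z j).1, smul_neg, norm_neg]
  rw [h2] at h1
  push_cast at h1
  linarith

theorem energy_comp_le (hΦ : AdmissiblePotential Φ) (hε : 0 < ε) {ρ ι : Type} [Fintype ρ]
    [Fintype ι] (e : ρ ↪ ι) {Z : ι → PhasePoint} (hZ : Z ∈ Dom Φ ι) :
    energy Φ ε (fun r => Z (e r)) ≤ energy Φ ε Z + stabB Φ * Fintype.card ι * Fintype.card ι := by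
  have hB := stabB_nonneg Φ
  rw [energy_eq_kin_add_pot, energy_eq_kin_add_pot]
  have h1 := kin_comp_le e Z
  have h2 : pot Φ ε (fun r => Z (e r)) ≤ pot Φ ε Z + stabB Φ * Fintype.card ι * Fintype.card ι := by
    rw [pot_eq_offDiag, pot_eq_offDiag]
    have e1 : ∑ p ∈ (Finset.univ : Finset ρ).offDiag, Φ (rel ε (fun r => Z (e r)) p.1 p.2) =
        ∑ p ∈ ((Finset.univ : Finset ρ).offDiag).map (e.prodMap e), Φ (rel ε Z p.1 p.2) := by
      rw [Finset.sum_map]; rfl
    have hsub : ((Finset.univ : Finset ρ).offDiag).map (e.prodMap e) ⊆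
        (Finset.univ : Finset ι).offDiag := by
      intro p hp
      rw [Finset.mem_map] at hp
      obtain ⟨q, hq, rfl⟩ := hp
      rw [Finset.mem_offDiag] at hq ⊢
      exact ⟨Finset.mem_univ _, Finset.mem_univ _, fun h => hq.2.2 (e.injective h)⟩
    rw [e1]
    have h3 : ∑ p ∈ ((Finset.univ : Finset ρ).offDiag).map (e.prodMap e),
          (Φ (rel ε Z p.1 p.2) + 2 * stabB Φ) ≤
        ∑ p ∈ (Finset.univ : Finset ι).offDiag, (Φ (rel ε Z p.1 p.2) + 2 * stabB Φ) := by
      refine Finset.sum_le_sum_of_subset_of_nonneg hsub fun p hp _ => ?_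
      rw [Finset.mem_offDiag] at hp
      have := phi_ge hΦ hε hZ hp.2.2
      have h4 : rel ε Z p.1 p.2 = (1 / ε) • ((Z p.1).1 - (Z p.2).1) := rfl
      rw [h4]; linarith
    rw [Finset.sum_add_distrib, Finset.sum_add_distrib, Finset.sum_const, Finset.sum_const] at h3
    have h5 : ((Finset.univ : Finset ι).offDiag.card : ℝ) ≤ Fintype.card ι * Fintype.card ι := by
      rw [Finset.offDiag_card]
      have : (Finset.univ : Finset ι).card * (Finset.univ : Finset ι).card -
        (Finset.univ : Finset ι).card ≤ Fintype.card ι * Fintype.card ι := by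
          rw [Finset.card_univ]; omega
      exact_mod_cast this
    rw [nsmul_eq_mul, nsmul_eq_mul] at h3
    have h6 : 0 ≤ ((((Finset.univ : Finset ρ).offDiag).map (e.prodMap e)).card : ℝ) * (2 * stabB Φ) := by
      positivity
    have h7 : ((Finset.univ : Finset ι).offDiag.card : ℝ) * (2 * stabB Φ) ≤
        Fintype.card ι * Fintype.card ι * (2 * stabB Φ) :=
      mul_le_mul_of_nonneg_right h5 (by positivity)
    linarith
  linarith

end main

end Crest.Agent.R122.Vol365

end
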