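import Crest.Agent.R122.ChainShift_726
import Crest.Agent.R122.ChainFam_726
import Crest.Agent.R122.VolChain_365
import Crest.Agent.R122.BadOne2_350
import Crest.Agent.R122.VolFlux5_350
import Crest.Agent.R122.BadDefs_726
import Crest.Agent.R122.VolTaperDyn_365
import Crest.Agent.R122.PartProd_973
import Crest.Agent.R122.GCBounds_311

-- ▼ part R122/BadVolMain_726
section

/-!
# Row 122, D5 (helper726): the volume statement `BadVol` for the bad family

Assembly of the majorants along release chains (helper365), of the bad steps of one particle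
(helper350, helper796), of the steps with at least two released particles (helper365) and of the
terminal groups (hypothesis `TermVol`).
-/

set_option autoImplicit false
set_option linter.unusedSectionVars false

open MeasureTheory Set Filter Topology
open Crest.AnalysisR.Kinetic
open scoped Classical ENNReal

noncomputable section

namespace Crest.Agent.R122.Chain726

open Kin796 Kin796.CTree Disc416 Tree674 Flow671 Loc45 Causal291 PathFlow968 Surj968 Graft968
open Vol365 NG416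

variable {Φ : Space3 → ℝ} {ε T te : ℝ}

/-- Bad terminal groups have small measure (hypothesis, helper818). -/
def TermVol (Φ : Space3 → ℝ) (T te : ℝ) : Prop :=
  ∀ (ι : Type) [Fintype ι] (γ : ℝ), 0 < γ → ∃ q : ℝ → ℝ≥0∞, Tendsto q (𝓝[>] 0) (𝓝 0) ∧
    ∀ ε : ℝ, 0 < ε → ε ≤ 1 → ∀ (A : Finset ι) (i : ι) (Ψ : Space3 → ℝ≥0∞), Measurable Ψ →
      ∃ M : (A → PhasePoint) → ℝ≥0∞, Measurable M ∧
        (∀ W ∈ Dom Φ A, ∀ i' : A, (i' : ι) = i → TermBad Φ ε T te i W → Ψ (W i').1 ≤ M W) ∧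
        ∫⁻ W, ENNReal.ofReal (Real.exp (-(γ * energy Φ ε W))) * M W ≤
          q ε * ENNReal.ofReal (ε ^ (2 * (A.card - 1))) * ∫⁻ x, Ψ x

/-! ### One particle -/

/-- Gaussian integral. -/
def gE (μ : ℝ) : ℝ≥0∞ := ∫⁻ v : Space3, ENNReal.ofReal (Real.exp (-(μ / 2 * ‖v‖ ^ 2)))

theorem gE_ne_top {μ : ℝ} (hμ : 0 < μ) : gE μ ≠ ∞ :=
  (GC311.lintegral_gaussian_lt_top (by linarith)).ne

theorem energy_unique {κ : Type*} [Fintype κ] [Unique κ] (Φ : Space3 → ℝ) (ε : ℝ)
    (W : κ → PhasePoint) : energy Φ ε W = ‖(W default).2‖ ^ 2 / 2 := by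
  rw [energy_eq_kin_add_pot]
  unfold kin pot
  rw [Fintype.sum_unique, Fintype.sum_unique, Fintype.sum_unique]
  simp
  ring

theorem eint_unique {κ : Type} [inst : Fintype κ] [Unique κ] (Φ : Space3 → ℝ) (ε μ : ℝ)
    {Ψ : Space3 → ℝ≥0∞} (hΨ : Measurable Ψ) :
    eint Φ ε μ (fun W : κ → PhasePoint => Ψ (W default).1) = (∫⁻ x, Ψ x) * gE μ := by
  obtain rfl : inst = Unique.fintype := Subsingleton.elim _ _
  unfold eint gE
  have hmp := volume_preserving_funUnique κ PhasePoint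
  set G : PhasePoint → ℝ≥0∞ := fun z => Ψ z.1 *
    ENNReal.ofReal (Real.exp (-(μ / 2 * ‖z.2‖ ^ 2))) with hG
  have hm : Measurable fun v : Space3 => ENNReal.ofReal (Real.exp (-(μ / 2 * ‖v‖ ^ 2))) := by
    fun_prop
  have hGm : Measurable G := (hΨ.comp measurable_fst).mul (hm.comp measurable_snd)
  have h1 : ∀ W : κ → PhasePoint, ENNReal.ofReal (Real.exp (-(μ * energy Φ ε W))) *
      Ψ (W default).1 = G (MeasurableEquiv.funUnique κ PhasePoint W) := by
    intro W
    rw [energy_unique]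
    show _ = Ψ (W default).1 * ENNReal.ofReal (Real.exp (-(μ / 2 * ‖(W default).2‖ ^ 2)))
    rw [mul_comm, show μ * (‖(W default).2‖ ^ 2 / 2) = μ / 2 * ‖(W default).2‖ ^ 2 by ring]
  rw [lintegral_congr h1, hmp.lintegral_comp hGm]
  show ∫⁻ z : Space3 × Space3, Ψ z.1 * ENNReal.ofReal (Real.exp (-(μ / 2 * ‖z.2‖ ^ 2)))
    ∂(volume.prod volume) = _
  exact lintegral_prod_mul hΨ.aemeasurable hm.aemeasurable

/-! ### Simultaneous releases -/

instance uniqueSingle {ι : Type*} (i : ι) : Unique (({i} : Finset ι) : Type _) where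
  default := ⟨i, Finset.mem_singleton_self i⟩
  uniq a := Subtype.ext (Finset.mem_singleton.1 a.2)

/-- **Releases of at least two particles.** -/
theorem multi_bad (hΦ : AdmissiblePotential Φ) {μ : ℝ} (hμ : 0 < μ) (hT : 0 ≤ T) (n : ℕ) :
    ∃ C : ℝ≥0∞, C ≠ ∞ ∧ ∀ ε : ℝ, 0 < ε → ε ≤ 1 → ∀ (ι : Type) (A A' : Finset ι) (i : ι),
      A.card ≤ n → A'.card + 2 ≤ A.card → ∀ Ψ : Space3 → ℝ≥0∞, Measurable Ψ →
      ∃ M : (A → PhasePoint) → ℝ≥0∞, Measurable M ∧
        (∀ (W : A → PhasePoint) (s : ℝ) (W' : A' → PhasePoint)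
          (W'' : ({i} : Finset ι) → PhasePoint), s ∈ Icc 0 T → Step Φ ε s W W' →
          Chain Φ ε T A' W' {i} W'' → Ψ (W'' default).1 ≤ M W) ∧
        eint Φ ε μ M ≤ C * ENNReal.ofReal ε ^ (2 * (A.card - 1) + 1) * ∫⁻ x, Ψ x := by
  obtain ⟨C₁, hC₁, h₁⟩ := chain_majorant hΦ hT n (μ / 4) (μ / 2) (by linarith) (by linarith)
  obtain ⟨C₂, hC₂, h₂⟩ := fstep_majorant hΦ (γ' := μ / 2) (γ := μ) (by linarith) (by linarith)
    hT n
  refine ⟨C₂ * C₁ * gE (μ / 4), ENNReal.mul_ne_top (ENNReal.mul_ne_top hC₂ hC₁)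
    (gE_ne_top (by linarith)), ?_⟩
  intro ε hε hε1 ι A A' i hA hcard Ψ hΨ
  by_cases hgood : A' ⊆ A ∧ i ∈ A'
  swap
  · refine ⟨fun _ => 0, measurable_const, ?_, by simp [eint]⟩
    intro W s W' W'' _ hst hch
    exact absurd ⟨hst.sub, hch.subset (Finset.mem_singleton_self i)⟩ hgood
  obtain ⟨hsub, hi⟩ := hgood
  have hF : Measurable fun W : ({i} : Finset ι) → PhasePoint => Ψ (W default).1 :=
    hΨ.comp (measurable_pi_apply _).fst
  obtain ⟨N, hN, hN1, hN2⟩ := h₁ ε hε hε1 ι A' {i} (by omega)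
    (fun W : ({i} : Finset ι) → PhasePoint => Ψ (W default).1) hF
  obtain ⟨M, hM, hM1, hM2⟩ := h₂ ε hε ι A A' hA hsub N hN
  refine ⟨M, hM, fun W s W' W'' hs hst hch => (hN1 W' W'' hch).trans (hM1 s hs W W' hst), ?_⟩
  rw [eint_unique Φ ε (μ / 4) hΨ, Finset.card_singleton] at hN2
  refine hM2.trans ((mul_le_mul_right hN2 _).trans ?_)
  have hpos : 1 ≤ A'.card := Finset.card_pos.2 ⟨i, hi⟩
  have hpow : ENNReal.ofReal ε ^ (2 + 3 * (A.card - A'.card - 1)) *
      ENNReal.ofReal ε ^ (2 * (A'.card - 1)) ≤ ENNReal.ofReal ε ^ (2 * (A.card - 1) + 1) := by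
    rw [← pow_add]
    refine pow_le_pow_right_of_le_one' ?_ (by omega)
    rw [← ENNReal.ofReal_one]
    exact ENNReal.ofReal_le_ofReal hε1
  calc C₂ * ENNReal.ofReal ε ^ (2 + 3 * (A.card - A'.card - 1)) *
        (C₁ * ENNReal.ofReal ε ^ (2 * (A'.card - 1)) * ((∫⁻ x, Ψ x) * gE (μ / 4)))
      = C₂ * C₁ * gE (μ / 4) * (ENNReal.ofReal ε ^ (2 + 3 * (A.card - A'.card - 1)) *
        ENNReal.ofReal ε ^ (2 * (A'.card - 1))) * ∫⁻ x, Ψ x := by ring
    _ ≤ C₂ * C₁ * gE (μ / 4) * ENNReal.ofReal ε ^ (2 * (A.card - 1) + 1) * ∫⁻ x, Ψ x := by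
        gcongr

/-! ### The bad event of the last group, with a pin -/

/-- The group `A` (pull-back `W`) is bad; `p` is the position of the root in the last group. -/
def BadPin (Φ : Space3 → ℝ) (ε T te : ℝ) {ι : Type} (i : ι) {A : Finset ι} (W : A → PhasePoint)
    (p : Space3) : Prop :=
  (∃ s ∈ Icc 0 T, ∃ (A' : Finset ι) (W' : A' → PhasePoint), Step Φ ε s W W' ∧
    A'.card + 2 ≤ A.card ∧ ∃ W'' : ({i} : Finset ι) → PhasePoint,
      Chain Φ ε T A' W' {i} W'' ∧ p = (W'' default).1) ∨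
  (∃ s ∈ Icc 0 T, ∃ (A' : Finset ι) (W' : A' → PhasePoint), Step Φ ε s W W' ∧
    A'.card + 1 = A.card ∧ ∃ (j : A) (m : A') (i' : A'), (i' : ι) = i ∧ (j : ι) ∉ A' ∧
        dist (flow Φ ε s W j).1 (flow Φ ε s W' m).1 = ε ∧
        (inner ℝ ((flow Φ ε s W j).1 - (flow Φ ε s W' m).1)
            ((flow Φ ε s W j).2 - (flow Φ ε s W' m).2) = 0 ∨
          0 < inner ℝ ((flow Φ ε s W j).1 - (flow Φ ε s W' m).1)
            ((flow Φ ε s W j).2 - (flow Φ ε s W' m).2) ∧
          BadGraft Φ ε T i' s W' m (flow Φ ε s W j)) ∧ p = (W' i').1) ∨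
  ∃ i' : A, (i' : ι) = i ∧ TermBad Φ ε T te i W ∧ p = (W i').1

theorem exists_badPin {ι : Type} {i : ι} {A : Finset ι} {W : A → PhasePoint}
    (h : BadStep Φ ε T i W ∨ TermBad Φ ε T te i W) : ∃ p, BadPin Φ ε T te i W p := by
  rcases h with ⟨s, hs, A', W', hst, h⟩ | h
  · rcases h with ⟨hc, W'', hch⟩ | ⟨hc, j, m, i', h1, h2, h3, h4⟩
    · exact ⟨_, Or.inl ⟨s, hs, A', W', hst, hc, W'', hch, rfl⟩⟩
    · exact ⟨_, Or.inr (Or.inl ⟨s, hs, A', W', hst, hc, j, m, i', h1, h2, h3, h4, rfl⟩)⟩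
  · obtain ⟨i', hi', -⟩ := id h
    exact ⟨_, Or.inr (Or.inr ⟨i', hi', h, rfl⟩)⟩

theorem BadPin.shift (hΦ : AdmissiblePotential Φ) (hε : 0 < ε) (a : Space3) {ι : Type} {i : ι}
    {A : Finset ι} {W : A → PhasePoint} {p : Space3} (h : BadPin Φ ε T te i W p) :
    BadPin Φ ε T te i (shiftX a W) (p + a) := by
  rcases h with ⟨s, hs, A', W', hst, hc, W'', hch, rfl⟩ |
    ⟨s, hs, A', W', hst, hc, j, m, i', h1, h2, h3, h4, rfl⟩ | ⟨i', hi', h, rfl⟩
  · exact Or.inl ⟨s, hs, A', _, hst.shift hΦ hε a, hc, _, hch.shift hΦ hε a, rfl⟩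
  · refine Or.inr (Or.inl ⟨s, hs, A', _, hst.shift hΦ hε a, hc, j, m, i', h1, h2, ?_, ?_, rfl⟩)
    · rw [flow_shiftX hΦ hε, flow_shiftX hΦ hε]
      show dist ((flow Φ ε s W j).1 + a) ((flow Φ ε s W' m).1 + a) = ε
      rw [dist_add_right]
      exact h3
    · have e1 : (flow Φ ε s (shiftX a W) j).1 - (flow Φ ε s (shiftX a W') m).1 =
          (flow Φ ε s W j).1 - (flow Φ ε s W' m).1 := by
        rw [flow_shiftX hΦ hε, flow_shiftX hΦ hε]
        show ((flow Φ ε s W j).1 + a) - ((flow Φ ε s W' m).1 + a) = _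
        abel
      have e2 : (flow Φ ε s (shiftX a W) j).2 - (flow Φ ε s (shiftX a W') m).2 =
          (flow Φ ε s W j).2 - (flow Φ ε s W' m).2 := by
        rw [flow_shiftX hΦ hε, flow_shiftX hΦ hε]
        rfl
      rw [e1, e2]
      refine h4.imp id fun h4 => ⟨h4.1, ?_⟩
      have h5 := h4.2.shift hΦ hε a
      have e3 : flow Φ ε s (shiftX a W) j = ((flow Φ ε s W j).1 + a, (flow Φ ε s W j).2) := by
        rw [flow_shiftX hΦ hε]
        rfl
      rw [e3]
      exact h5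
  · exact Or.inr (Or.inr ⟨i', hi', h.shift hΦ hε a, rfl⟩)

/-! ### Sums -/

theorem measurable_wexp (hΦ : AdmissiblePotential Φ) (hε : 0 < ε) (μ : ℝ) (κ : Type) [Fintype κ] :
    Measurable fun W : κ → PhasePoint => ENNReal.ofReal (Real.exp (-(μ * energy Φ ε W))) := by
  have hem := measurable_energy' hΦ hε κ
  fun_prop

theorem eint_add (hΦ : AdmissiblePotential Φ) (hε : 0 < ε) (μ : ℝ) {κ : Type} [Fintype κ]
    {F : (κ → PhasePoint) → ℝ≥0∞} (hF : Measurable F) (G : (κ → PhasePoint) → ℝ≥0∞) :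
    eint Φ ε μ (fun W => F W + G W) = eint Φ ε μ F + eint Φ ε μ G := by
  unfold eint
  simp_rw [mul_add]
  exact lintegral_add_left ((measurable_wexp hΦ hε μ κ).mul hF) _

theorem eint_sum (hΦ : AdmissiblePotential Φ) (hε : 0 < ε) (μ : ℝ) {κ : Type} [Fintype κ]
    {β : Type} (S : Finset β) {F : β → (κ → PhasePoint) → ℝ≥0∞} (hF : ∀ b, Measurable (F b)) :
    eint Φ ε μ (fun W => ∑ b ∈ S, F b W) = ∑ b ∈ S, eint Φ ε μ (F b) := by
  unfold eint
  simp_rw [Finset.mul_sum]
  exact lintegral_finsetSum _ fun b _ => (measurable_wexp hΦ hε μ κ).mul (hF b)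

/-- **Majorant of the bad event of one group.** -/
theorem pin_majorant (hΦ : AdmissiblePotential Φ) {μ : ℝ} (hμ : 0 < μ) (hT : 0 ≤ T)
    (hterm : TermVol Φ T te) {ι : Type} [Fintype ι] (i : ι) {Ψ : Space3 → ℝ≥0∞}
    (hΨ : Measurable Ψ) (hΨ1 : ∫⁻ x, Ψ x = 1) :
    ∃ q : ℝ → ℝ≥0∞, Tendsto q (𝓝[>] 0) (𝓝 0) ∧ ∀ ε : ℝ, 0 < ε → ε ≤ 1 → ∀ A : Finset ι,
      ∃ M : (A → PhasePoint) → ℝ≥0∞, Measurable M ∧
        (∀ W ∈ Dom Φ A, ∀ p, BadPin Φ ε T te i W p → Ψ p ≤ M W) ∧
        eint Φ ε μ M ≤ q ε * ENNReal.ofReal ε ^ (2 * (A.card - 1)) := by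
  obtain ⟨C₁, hC₁, h₁⟩ := multi_bad (T := T) hΦ hμ hT (Fintype.card ι)
  obtain ⟨q₂, hq₂, h₂⟩ := Flux350.bad_one (ι := ι) hΦ hμ T
  obtain ⟨q₃, hq₃, h₃⟩ := hterm ι μ hμ
  set N : ℝ≥0∞ := (Fintype.card (Finset ι) : ℝ≥0∞) with hN
  have hNt : N ≠ ∞ := ENNReal.natCast_ne_top _
  refine ⟨fun ε => N * (C₁ * ENNReal.ofReal ε) + N * q₂ ε + q₃ ε, ?_, ?_⟩
  · have e0 : Tendsto (fun ε : ℝ => ENNReal.ofReal ε) (𝓝[>] 0) (𝓝 0) := by
      have h := (ENNReal.continuous_ofReal.tendsto (0 : ℝ)).mono_left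
        (nhdsWithin_le_nhds : 𝓝[>] (0 : ℝ) ≤ 𝓝 0)
      rwa [ENNReal.ofReal_zero] at h
    have e1 := ENNReal.Tendsto.const_mul (a := N)
      (ENNReal.Tendsto.const_mul (a := C₁) e0 (Or.inr hC₁)) (Or.inr hNt)
    have e2 := ENNReal.Tendsto.const_mul (a := N) hq₂ (Or.inr hNt)
    simpa using (e1.add e2).add hq₃
  intro ε hε hε1 A
  have hofε : ∀ m : ℕ, ENNReal.ofReal (ε ^ m) = ENNReal.ofReal ε ^ m := fun m =>
    ENNReal.ofReal_pow hε.le m
  have hex₁ : ∀ A' : Finset ι, ∃ M : (A → PhasePoint) → ℝ≥0∞, Measurable M ∧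
      (A'.card + 2 ≤ A.card → ∀ (W : A → PhasePoint) (s : ℝ) (W' : A' → PhasePoint)
          (W'' : ({i} : Finset ι) → PhasePoint), s ∈ Icc 0 T → Step Φ ε s W W' →
          Chain Φ ε T A' W' {i} W'' → Ψ (W'' default).1 ≤ M W) ∧
      eint Φ ε μ M ≤ C₁ * ENNReal.ofReal ε * ENNReal.ofReal ε ^ (2 * (A.card - 1)) := by
    intro A'
    by_cases hc : A'.card + 2 ≤ A.card
    · obtain ⟨M, hM, hM1, hM2⟩ := h₁ ε hε hε1 ι A A' i (Finset.card_le_univ A) hc Ψ hΨ
      refine ⟨M, hM, fun _ => hM1, hM2.trans (le_of_eq ?_)⟩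
      rw [hΨ1]
      ring
    · exact ⟨fun _ => 0, measurable_const, fun h => absurd h hc, by simp [eint]⟩
  have hex₂ : ∀ A' : Finset ι, ∃ M : (A → PhasePoint) → ℝ≥0∞, Measurable M ∧
      (A'.card + 1 = A.card → ∀ (W : A → PhasePoint) (s : ℝ) (W' : A' → PhasePoint),
          s ∈ Icc 0 T → Step Φ ε s W W' →
          ∀ (j : A) (m i' : A'), (i' : ι) = i → (j : ι) ∉ A' →
            dist (flow Φ ε s W j).1 (flow Φ ε s W' m).1 = ε →
            (inner ℝ ((flow Φ ε s W j).1 - (flow Φ ε s W' m).1)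
                ((flow Φ ε s W j).2 - (flow Φ ε s W' m).2) = 0 ∨
              0 < inner ℝ ((flow Φ ε s W j).1 - (flow Φ ε s W' m).1)
                ((flow Φ ε s W j).2 - (flow Φ ε s W' m).2) ∧
              BadGraft Φ ε T i' s W' m (flow Φ ε s W j)) →
            Ψ (W' i').1 ≤ M W) ∧
      eint Φ ε μ M ≤ q₂ ε * ENNReal.ofReal ε ^ (2 * (A.card - 1)) := by
    intro A'
    by_cases hc : A'.card + 1 = A.card
    · obtain ⟨M, hM, hM1, hM2⟩ := h₂ ε hε hε1 A A' hc i Ψ hΨ
      refine ⟨M, hM, fun _ => hM1, (show eint Φ ε μ M ≤ _ from hM2).trans (le_of_eq ?_)⟩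
      rw [hΨ1, mul_one, hofε]
    · exact ⟨fun _ => 0, measurable_const, fun h => absurd h hc, by simp [eint]⟩
  obtain ⟨M₃, hM₃, hM₃1, hM₃2⟩ := h₃ ε hε hε1 A i Ψ hΨ
  choose M₁ hM₁ hM₁1 hM₁2 using hex₁
  choose M₂ hM₂ hM₂1 hM₂2 using hex₂
  have hs₁ : Measurable fun W => ∑ A' : Finset ι, M₁ A' W :=
    Finset.measurable_sum _ fun A' _ => hM₁ A'
  have hs₂ : Measurable fun W => ∑ A' : Finset ι, M₂ A' W :=
    Finset.measurable_sum _ fun A' _ => hM₂ A'
  refine ⟨fun W => (∑ A' : Finset ι, M₁ A' W) + (∑ A' : Finset ι, M₂ A' W) + M₃ W,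
    (hs₁.add hs₂).add hM₃, ?_, ?_⟩
  · intro W hW p hp
    rcases hp with ⟨s, hs, A', W', hst, hc, W'', hch, rfl⟩ |
      ⟨s, hs, A', W', hst, hc, j, m, i', h1, h2, h3, h4, rfl⟩ | ⟨i', hi', h, rfl⟩
    · refine (hM₁1 A' hc W s W' W'' hs hst hch).trans ?_
      refine le_trans (Finset.single_le_sum (f := fun A' => M₁ A' W) (fun _ _ => bot_le)
        (Finset.mem_univ A')) ?_
      exact le_self_add.trans le_self_add
    · refine (hM₂1 A' hc W s W' hs hst j m i' h1 h2 h3 h4).trans ?_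
      refine le_trans (Finset.single_le_sum (f := fun A' => M₂ A' W) (fun _ _ => bot_le)
        (Finset.mem_univ A')) ?_
      exact le_add_self.trans le_self_add
    · exact (hM₃1 W hW i' hi' h).trans le_add_self
  · have h12 : Measurable fun W => (∑ A' : Finset ι, M₁ A' W) + (∑ A' : Finset ι, M₂ A' W) :=
      hs₁.add hs₂
    have e1 : eint Φ ε μ (fun W => (∑ A' : Finset ι, M₁ A' W) + (∑ A' : Finset ι, M₂ A' W) +
        M₃ W) = (∑ A' : Finset ι, eint Φ ε μ (M₁ A')) + (∑ A' : Finset ι, eint Φ ε μ (M₂ A')) +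
        eint Φ ε μ M₃ := by
      rw [← eint_sum hΦ hε μ _ hM₁, ← eint_sum hΦ hε μ _ hM₂, ← eint_add hΦ hε μ hs₁]
      exact eint_add hΦ hε μ h12 M₃
    rw [e1]
    show _ ≤ (N * (C₁ * ENNReal.ofReal ε) + N * q₂ ε + q₃ ε) * _
    rw [add_mul, add_mul]
    refine add_le_add (add_le_add ?_ ?_) ?_
    · refine (Finset.sum_le_card_nsmul _ _ _ fun A' _ => hM₁2 A').trans (le_of_eq ?_)
      rw [nsmul_eq_mul, hN, Finset.card_univ]
      ring
    · refine (Finset.sum_le_card_nsmul _ _ _ fun A' _ => hM₂2 A').trans (le_of_eq ?_)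
      rw [nsmul_eq_mul, hN, Finset.card_univ]
      ring
    · refine (show eint Φ ε μ M₃ ≤ _ from hM₃2).trans (le_of_eq ?_)
      rw [hΨ1, mul_one, hofε]

/-- **The volume statement of D5 for the bad family.** -/
theorem badVol_of_term (hΦ : AdmissiblePotential Φ) (hT : 0 ≤ T) (hterm : TermVol Φ T te) {γ : ℝ}
    (hγ : 0 < γ) (K : ℕ) : BadVol γ K (badFam Φ T te) := by
  intro k _ j δ hδ
  obtain ⟨q, hq, hpin⟩ := pin_majorant hΦ hγ hT hterm j measurable_hb lintegral_hb
  obtain ⟨C, hC, hchain⟩ := chain_majorant hΦ hT k γ (2 * γ) hγ (by linarith)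
  set N : ℝ≥0∞ := (Fintype.card (Finset (Fin k)) : ℝ≥0∞) with hN
  have hNt : N ≠ ∞ := ENNReal.natCast_ne_top _
  have hlim : Tendsto (fun ε => N * (C * q ε)) (𝓝[>] 0) (𝓝 0) := by
    have h := ENNReal.Tendsto.const_mul (a := N)
      (ENNReal.Tendsto.const_mul (a := C) hq (Or.inr hC)) (Or.inr hNt)
    simpa using h
  have hev := (ENNReal.tendsto_nhds_zero.1 hlim) _ (ENNReal.ofReal_pos.2 hδ)
  obtain ⟨b, hb0, hbsub⟩ := (mem_nhdsGT_iff_exists_Ioo_subset).1 hev
  have hb0' : (0 : ℝ) < b := hb0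
  refine ⟨min b 1, lt_min hb0' one_pos, fun ε hε hε₀ => ?_⟩
  have hε1 : ε ≤ 1 := hε₀.le.trans (min_le_right _ _)
  have hsmall : N * (C * q ε) ≤ ENNReal.ofReal δ :=
    hbsub ⟨hε, hε₀.trans_le (min_le_left _ _)⟩
  choose M hM hM1 hM2 using hpin ε hε hε1
  have hex : ∀ A : Finset (Fin k), ∃ G : (↥(Finset.univ : Finset (Fin k)) → PhasePoint) → ℝ≥0∞,
      Measurable G ∧ (∀ (W : ↥(Finset.univ : Finset (Fin k)) → PhasePoint) (W' : A → PhasePoint),
        Chain Φ ε T Finset.univ W A W' → M A W' ≤ G W) ∧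
      eint Φ ε (2 * γ) G ≤ C * ENNReal.ofReal ε ^ (2 * (k - A.card)) * eint Φ ε γ (M A) := by
    intro A
    obtain ⟨G, hG, hG1, hG2⟩ := hchain ε hε hε1 (Fin k) Finset.univ A (by simp) (M A) (hM A)
    refine ⟨G, hG, hG1, ?_⟩
    rwa [Finset.card_univ, Fintype.card_fin] at hG2
  choose G hG hG1 hG2 using hex
  have hGs : Measurable fun W => ∑ A : Finset (Fin k), G A W :=
    Finset.measurable_sum _ fun A _ => hG A
  set σ : (Finset.univ : Finset (Fin k)) ≃ Fin k :=
    Equiv.subtypeUnivEquiv fun x => Finset.mem_univ x with hσ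
  have hGσ : Measurable fun V : Config k => ∑ A : Finset (Fin k), G A (fun x => V (σ x)) :=
    measurable_of_equiv σ hGs
  refine ⟨hb, (PairExcluded ε k).indicator fun V => ∑ A : Finset (Fin k), G A (fun x => V (σ x)),
    measurable_hb, hGσ.indicator (GC311.measurableSet_pairExcluded ε k), lintegral_hb.ge, ?_, ?_⟩
  · rintro V hV ⟨-, A, W, hch, hbad⟩
    obtain ⟨p, hp⟩ := exists_badPin hbad
    refine ⟨p, fun a => ?_⟩
    have hx : shiftX a V ∈ PairExcluded ε k := by
      intro i i' hii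
      have := hV i i' hii
      change ε < dist ((V i).1 + a) ((V i').1 + a)
      rwa [dist_add_right]
    rw [indicator_of_mem hx]
    have hch' := hch.shift hΦ hε a
    have hdom : shiftX a (grp Finset.univ V) ∈ Dom Φ (Finset.univ : Finset (Fin k)) := by
      refine Or.inr fun x y hxy h => ?_
      have h1 := hx x y fun h' => hxy (Subtype.ext h')
      have h2 : (shiftX a V x).1 = (shiftX a V y).1 := h
      rw [h2, dist_self] at h1
      linarith
    refine (hM1 A _ (hch'.dom' hΦ hε hdom) _ (hp.shift hΦ hε a)).trans ?_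
    refine (hG1 A _ _ hch').trans ?_
    exact Finset.single_le_sum (f := fun A => G A fun x => shiftX a V (σ x)) (fun _ _ => bot_le)
      (Finset.mem_univ A)
  · have h1 : ∫⁻ V : Config k, gwc γ V * (PairExcluded ε k).indicator
        (fun V => ∑ A : Finset (Fin k), G A (fun x => V (σ x))) V ≤
        eint Φ ε (2 * γ) fun V : Config k => ∑ A : Finset (Fin k), G A (fun x => V (σ x)) := by
      unfold eint
      refine lintegral_mono fun V => ?_
      by_cases hV : V ∈ PairExcluded ε k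
      · rw [indicator_of_mem hV, gwc_eq_exp, energy_pairExcluded hΦ hε hV]
      · rw [indicator_of_notMem hV, mul_zero]
        exact bot_le
    refine h1.trans ?_
    have h2 : eint Φ ε (2 * γ) (fun V : Config k => ∑ A : Finset (Fin k), G A (fun x => V (σ x))) =
        eint Φ ε (2 * γ) fun W => ∑ A : Finset (Fin k), G A W :=
      eint_equiv σ hGs (measurable_energy' hΦ hε _)
    rw [h2, eint_sum hΦ hε _ _ hG]
    have h3 : ∀ A : Finset (Fin k), eint Φ ε (2 * γ) (G A) ≤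
        C * q ε * ENNReal.ofReal ε ^ (2 * (k - 1)) := by
      intro A
      refine (hG2 A).trans ((mul_le_mul_right (hM2 A) _).trans ?_)
      have hpow : ENNReal.ofReal ε ^ (2 * (k - A.card)) * ENNReal.ofReal ε ^ (2 * (A.card - 1)) ≤
          ENNReal.ofReal ε ^ (2 * (k - 1)) := by
        rw [← pow_add]
        refine pow_le_pow_right_of_le_one' ?_ ?_
        · rw [← ENNReal.ofReal_one]
          exact ENNReal.ofReal_le_ofReal hε1
        · have := Finset.card_le_univ A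
          rw [Fintype.card_fin] at this
          omega
      calc C * ENNReal.ofReal ε ^ (2 * (k - A.card)) *
            (q ε * ENNReal.ofReal ε ^ (2 * (A.card - 1)))
          = C * q ε * (ENNReal.ofReal ε ^ (2 * (k - A.card)) *
            ENNReal.ofReal ε ^ (2 * (A.card - 1))) := by ring
        _ ≤ _ := mul_le_mul_right hpow _
    refine (Finset.sum_le_card_nsmul _ _ _ fun A _ => h3 A).trans ?_
    rw [nsmul_eq_mul, Finset.card_univ, ENNReal.ofReal_mul hδ.le, ENNReal.ofReal_pow hε.le,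
      ← mul_assoc]
    refine mul_le_mul_left ?_ _
    rw [← hN]
    exact hsmall

end Crest.Agent.R122.Chain726

end
end

-- ▼ part R122/BadTerm_818

/-!
# Bad terminal groups have small measure (row 122, D5, cases (t0) and (t1), helper818)
-/

set_option autoImplicit false
set_option linter.unusedSectionVars false

open MeasureTheory Set Filter Topology
open Crest.AnalysisR.Kinetic
open Crest.Agent.R122.Flow671 Crest.Agent.R122.Loc45 Crest.Agent.R122.Chain726
open Crest.Agent.R122.Flux350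
open scoped Classical ENNReal

noncomputable section

namespace Crest.Agent.R122.BadTerm818

variable {Φ : Space3 → ℝ} {ε : ℝ} {κ : Type} [Fintype κ]

/-! ### A static product bound -/

/-- integral over a configuration with one particle singled out -/
lemma lintegral_root (i : κ) {f : PhasePoint → ℝ≥0∞} (hf : Measurable f)
    {g : PhasePoint → PhasePoint → ℝ≥0∞} (hg : Measurable (Function.uncurry g)) {c : ℝ≥0∞}
    (hc : ∀ z, ∫⁻ y, g z y ≤ c) :
    ∫⁻ W : κ → PhasePoint, f (W i) * ∏ a : {a : κ // ¬ a = i}, g (W i) (W a) ≤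
      (∫⁻ z, f z) * c ^ (Fintype.card κ - 1) := by
  have hsf : ∀ p : κ → Prop, SFinite (volume : Measure ({a : κ // p a} → PhasePoint)) := by
    intro p
    have := PartProd973.sf_pi {a : κ // p a}
    infer_instance
  have h1 := volume_preserving_piEquivPiSubtypeProd (fun _ : κ => PhasePoint) (fun a => a = i)
  let F : (({a : κ // a = i} → PhasePoint) × ({a : κ // ¬ a = i} → PhasePoint)) → ℝ≥0∞ :=
    fun q => f (q.1 ⟨i, rfl⟩) * ∏ a : {a : κ // ¬ a = i}, g (q.1 ⟨i, rfl⟩) (q.2 a)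
  have hF : Measurable F := by
    have hi : Measurable (fun q : ({a : κ // a = i} → PhasePoint) ×
        ({a : κ // ¬ a = i} → PhasePoint) => q.1 ⟨i, rfl⟩) :=
      (measurable_pi_apply _).comp measurable_fst
    refine (hf.comp hi).mul (Finset.measurable_prod _ fun a _ => ?_)
    have ha : Measurable (fun q : ({a : κ // a = i} → PhasePoint) ×
        ({a : κ // ¬ a = i} → PhasePoint) => q.2 a) :=
      (measurable_pi_apply a).comp measurable_snd
    exact hg.comp (hi.prodMk ha)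
  have h2 : ∫⁻ W : κ → PhasePoint, f (W i) * ∏ a : {a : κ // ¬ a = i}, g (W i) (W a) =
      ∫⁻ q, F q ∂((volume : Measure ({a : κ // a = i} → PhasePoint)).prod
        (volume : Measure ({a : κ // ¬ a = i} → PhasePoint))) := by
    rw [← Measure.volume_eq_prod]
    have h2' := h1.lintegral_comp hF
    refine Eq.trans ?_ (h2'.trans ?_)
    · rfl
    · congr!
  have hF' : AEMeasurable F ((volume : Measure ({a : κ // a = i} → PhasePoint)).prod
      (volume : Measure ({a : κ // ¬ a = i} → PhasePoint))) := hF.aemeasurable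
  rw [h2, lintegral_prod _ hF']
  have h3 : ∀ U : {a : κ // a = i} → PhasePoint,
      ∫⁻ V : {a : κ // ¬ a = i} → PhasePoint, F (U, V) ≤
        f (U ⟨i, rfl⟩) * c ^ (Fintype.card κ - 1) := by
    intro U
    have hm : ∀ a : {a : κ // ¬ a = i}, Measurable (fun y => g (U ⟨i, rfl⟩) y) := fun a =>
      hg.comp (measurable_const.prodMk measurable_id)
    have h4 : ∫⁻ V : {a : κ // ¬ a = i} → PhasePoint, F (U, V) =
        f (U ⟨i, rfl⟩) * ∫⁻ V : {a : κ // ¬ a = i} → PhasePoint, ∏ a, g (U ⟨i, rfl⟩) (V a) := by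
      show ∫⁻ V : {a : κ // ¬ a = i} → PhasePoint, f (U ⟨i, rfl⟩) * _ = _
      rw [lintegral_const_mul]
      exact Finset.measurable_prod _ fun a _ => (hm a).comp (measurable_pi_apply a)
    rw [h4, PartProd973.lintegral_pi_prod' (X := fun _ : {a : κ // ¬ a = i} => PhasePoint)
      (w := fun _ y => g (U ⟨i, rfl⟩) y) hm]
    refine mul_le_mul_right ?_ _
    calc ∏ _a : {a : κ // ¬ a = i}, ∫⁻ y, g (U ⟨i, rfl⟩) y ≤ ∏ _a : {a : κ // ¬ a = i}, c :=
          Finset.prod_le_prod' fun a _ => hc _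
      _ = c ^ (Fintype.card κ - 1) := by
          rw [Finset.prod_const, Finset.card_univ]
          congr 1
          rw [Fintype.card_subtype_compl, Fintype.card_subtype_eq]
  refine (lintegral_mono h3).trans ?_
  have h5 : ∫⁻ U : {a : κ // a = i} → PhasePoint, f (U ⟨i, rfl⟩) * c ^ (Fintype.card κ - 1) =
      ∫⁻ z, f z * c ^ (Fintype.card κ - 1) := by
    have h6 := lintegral_one_particle (υ := {a : κ // a = i})
      (fun z => f z * c ^ (Fintype.card κ - 1))
    exact h6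
  rw [h5, lintegral_mul_const _ hf]

/-! ### Gaussian factors -/

/-- scaled Gaussian integral over positions -/
lemma lintegral_gauss_scaled {δ : ℝ} (hδ : 0 < δ) (hε : 0 < ε) (x₀ : Space3) :
    ∫⁻ x : Space3, ENNReal.ofReal (Real.exp (-(δ * (dist x x₀ / ε) ^ 2))) =
      ENNReal.ofReal (ε ^ 3) * ∫⁻ x : Space3, ENNReal.ofReal (Real.exp (-(δ * ‖x‖ ^ 2))) := by
  set G : Space3 → ℝ≥0∞ := fun x => ENNReal.ofReal (Real.exp (-(δ * ‖x‖ ^ 2))) with hG
  have hGm : Measurable G := by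
    refine ENNReal.measurable_ofReal.comp (Continuous.measurable ?_)
    fun_prop
  have h1 : ∀ x : Space3, ENNReal.ofReal (Real.exp (-(δ * (dist x x₀ / ε) ^ 2))) =
      G (ε⁻¹ • (x - x₀)) := by
    intro x
    rw [hG]
    simp only
    rw [norm_smul, Real.norm_eq_abs, abs_of_pos (inv_pos.2 hε), dist_eq_norm, div_eq_inv_mul]
  simp only [h1]
  rw [lintegral_sub_right_eq_self (fun x => G (ε⁻¹ • x)) x₀]
  have h2 : (volume : Measure Space3).map (fun x => ε⁻¹ • x) =
      ENNReal.ofReal (ε ^ 3) • volume := by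
    have := Measure.map_addHaar_smul (volume : Measure Space3) (inv_ne_zero hε.ne')
    rw [this]
    congr 1
    rw [finrank_euclideanSpace, Fintype.card_fin, inv_pow, inv_inv,
      abs_of_pos (pow_pos hε 3)]
  rw [← lintegral_map hGm (measurable_const_smul _), h2, lintegral_smul_measure, smul_eq_mul]

/-- speed bound of a configuration -/
def spd (Φ : Space3 → ℝ) (ε : ℝ) (W : κ → PhasePoint) : ℝ :=
  Real.sqrt (2 * (energy Φ ε W + stabB Φ * Fintype.card κ))

/-- everybody near the root -/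
def NearS (Φ : Space3 → ℝ) (ε : ℝ) (i : κ) : Set (κ → PhasePoint) :=
  {W | W ∈ Dom Φ κ ∧ ∀ a, dist (W a).1 (W i).1 ≤ (Fintype.card κ + 2 * spd Φ ε W) * ε}

lemma measurable_spd (hΦ : AdmissiblePotential Φ) : Measurable (spd (κ := κ) Φ ε) :=
  ((((measurable_energy hΦ ε).add_const _).const_mul 2)).sqrt

lemma measurableSet_NearS (hΦ : AdmissiblePotential Φ) (i : κ) :
    MeasurableSet (NearS Φ ε i) := by
  have h1 : NearS Φ ε i = Dom Φ κ ∩ ⋂ a : κ, {W | dist (W a).1 (W i).1 ≤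
      (Fintype.card κ + 2 * spd Φ ε W) * ε} := by
    ext W
    simp [NearS]
  rw [h1]
  refine (measurableSet_Dom Φ).inter (MeasurableSet.iInter fun a => ?_)
  exact measurableSet_le ((measurable_pi_apply a).fst.dist (measurable_pi_apply i).fst)
    (((measurable_spd hΦ).const_mul 2).const_add _ |>.mul_const _)

lemma NearS_shift (a : Space3) (i : κ) (W : κ → PhasePoint) :
    shiftX a W ∈ NearS Φ ε i ↔ W ∈ NearS Φ ε i := by
  have h1 : spd Φ ε (shiftX a W) = spd Φ ε W := by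
    unfold spd
    rw [energy_shiftX]
  have h2 : ∀ b : κ, dist (shiftX a W b).1 (shiftX a W i).1 = dist (W b).1 (W i).1 := by
    intro b
    simp [shiftX]
  simp only [NearS, mem_setOf_eq, Dom_shiftX, h1, h2]

/-- the constant of the static bound -/
def Cs (Φ : Space3 → ℝ) (γ : ℝ) (n : ℕ) : ℝ≥0∞ :=
  ENNReal.ofReal (Real.exp (γ * (stabB Φ * n) + γ * n ^ 2 / 16)) *
    ((∫⁻ v : Space3, ENNReal.ofReal (Real.exp (-(γ / 4 * ‖v‖ ^ 2)))) *
      ((∫⁻ x : Space3, ENNReal.ofReal (Real.exp (-(γ / (32 * n) * ‖x‖ ^ 2)))) *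
        ∫⁻ v : Space3, ENNReal.ofReal (Real.exp (-(γ / 4 * ‖v‖ ^ 2)))) ^ (n - 1))

lemma Cs_ne_top {γ : ℝ} (hγ : 0 < γ) {n : ℕ} (hn : 0 < n) : Cs Φ γ n ≠ ∞ := by
  have hn' : (0 : ℝ) < n := by exact_mod_cast hn
  have h1 := (GC311.lintegral_gaussian_lt_top (γ := γ / 4) (by positivity)).ne
  have h2 := (GC311.lintegral_gaussian_lt_top (γ := γ / (32 * n)) (by positivity)).ne
  exact ENNReal.mul_ne_top ENNReal.ofReal_ne_top (ENNReal.mul_ne_top h1
    (ENNReal.pow_ne_top (ENNReal.mul_ne_top h2 h1)))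

/-- pointwise domination on the near set -/
lemma near_dom (hΦ : AdmissiblePotential Φ) (hε : 0 < ε) {γ : ℝ} (hγ : 0 < γ) (i : κ)
    {W : κ → PhasePoint} (hW : W ∈ NearS Φ ε i) :
    -(γ * energy Φ ε W) ≤ (γ * (stabB Φ * Fintype.card κ) + γ * (Fintype.card κ : ℝ) ^ 2 / 16) +
      (-(γ / 4 * ‖(W i).2‖ ^ 2) + ∑ a : {a : κ // ¬ a = i},
        (-(γ / (32 * Fintype.card κ) * (dist (W a).1 (W i).1 / ε) ^ 2) +
          -(γ / 4 * ‖(W a).2‖ ^ 2))) := by
  set n : ℝ := (Fintype.card κ : ℝ) with hn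
  have hn0 : 1 ≤ n := by
    rw [hn]
    exact_mod_cast Fintype.card_pos_iff.2 ⟨i⟩
  set H : ℝ := energy Φ ε W + stabB Φ * n with hH
  have hk := kin_le hΦ hε hW.1
  have hk0 := kin_nonneg W
  have hH0 : 0 ≤ H := by rw [hH]; linarith
  have hV : spd Φ ε W ^ 2 = 2 * H := by
    unfold spd
    rw [Real.sq_sqrt (by rw [← hn]; linarith)]
  have hV0 : 0 ≤ spd Φ ε W := Real.sqrt_nonneg _
  -- distances
  have hd : ∀ a : {a : κ // ¬ a = i}, (dist (W a).1 (W i).1 / ε) ^ 2 ≤ 2 * n ^ 2 + 16 * H := by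
    intro a
    have h1 : dist (W a).1 (W i).1 / ε ≤ n + 2 * spd Φ ε W := by
      rw [div_le_iff₀ hε]
      exact hW.2 a
    have h2 : (dist (W a).1 (W i).1 / ε) ^ 2 ≤ (n + 2 * spd Φ ε W) ^ 2 :=
      pow_le_pow_left₀ (by positivity) h1 2
    nlinarith [sq_nonneg (n - 2 * spd Φ ε W)]
  have hcard : ((Fintype.card {a : κ // ¬ a = i} : ℕ) : ℝ) ≤ n := by
    rw [hn]
    exact_mod_cast Fintype.card_subtype_le _
  have hs1 : ∑ a : {a : κ // ¬ a = i}, γ / (32 * n) * (dist (W a).1 (W i).1 / ε) ^ 2 ≤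
      γ / 32 * (2 * n ^ 2 + 16 * H) := by
    calc ∑ a : {a : κ // ¬ a = i}, γ / (32 * n) * (dist (W a).1 (W i).1 / ε) ^ 2
        ≤ ∑ _a : {a : κ // ¬ a = i}, γ / (32 * n) * (2 * n ^ 2 + 16 * H) :=
          Finset.sum_le_sum fun a _ => mul_le_mul_of_nonneg_left (hd a) (by positivity)
      _ = (Fintype.card {a : κ // ¬ a = i} : ℝ) * (γ / (32 * n) * (2 * n ^ 2 + 16 * H)) := by
          rw [Finset.sum_const, Finset.card_univ, nsmul_eq_mul]
      _ ≤ n * (γ / (32 * n) * (2 * n ^ 2 + 16 * H)) :=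
          mul_le_mul_of_nonneg_right hcard (by positivity)
      _ = γ / 32 * (2 * n ^ 2 + 16 * H) := by
          field_simp
  -- kinetic energy
  have hkin : kin W = 1 / 2 * (‖(W i).2‖ ^ 2 + ∑ a : {a : κ // ¬ a = i}, ‖(W a).2‖ ^ 2) := by
    unfold kin
    congr 1
    rw [← Finset.sum_erase_add (s := Finset.univ) (f := fun a => ‖(W a).2‖ ^ 2)
      (Finset.mem_univ i), add_comm]
    congr 1
    refine Finset.sum_subtype _ (fun a => ?_) _
    simp
  have hs2 : ∑ a : {a : κ // ¬ a = i}, (-(γ / (32 * n) * (dist (W a).1 (W i).1 / ε) ^ 2) +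
          -(γ / 4 * ‖(W a).2‖ ^ 2)) =
      -(∑ a : {a : κ // ¬ a = i}, γ / (32 * n) * (dist (W a).1 (W i).1 / ε) ^ 2) +
        -(γ / 4 * ∑ a : {a : κ // ¬ a = i}, ‖(W a).2‖ ^ 2) := by
    rw [Finset.sum_add_distrib, Finset.sum_neg_distrib, Finset.sum_neg_distrib, ← Finset.mul_sum,
      ← Finset.mul_sum]
  rw [hs2]
  have h5 : γ * (kin W) ≤ γ * H := mul_le_mul_of_nonneg_left (by rw [hH]; exact hk) hγ.le
  have h6 : γ * energy Φ ε W = γ * H - γ * (stabB Φ * n) := by rw [hH]; ring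
  rw [hkin] at h5
  nlinarith

/-- **Static bound.** -/
lemma static_le (hΦ : AdmissiblePotential Φ) (hε : 0 < ε) {γ : ℝ} (hγ : 0 < γ) (i : κ) :
    ∫⁻ W : κ → PhasePoint, kw (W i).1 * (ENNReal.ofReal (Real.exp (-(γ * energy Φ ε W))) *
      (NearS Φ ε i).indicator 1 W) ≤
      Cs Φ γ (Fintype.card κ) * ENNReal.ofReal (ε ^ 3) ^ (Fintype.card κ - 1) := by
  set n : ℕ := Fintype.card κ with hn
  have hn0 : 0 < n := Fintype.card_pos_iff.2 ⟨i⟩
  have hn' : (0 : ℝ) < n := by exact_mod_cast hn0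
  set f : PhasePoint → ℝ≥0∞ := fun z => kw z.1 * ENNReal.ofReal (Real.exp (-(γ / 4 * ‖z.2‖ ^ 2)))
    with hf
  set g : PhasePoint → PhasePoint → ℝ≥0∞ := fun z y =>
    ENNReal.ofReal (Real.exp (-(γ / (32 * n) * (dist y.1 z.1 / ε) ^ 2))) *
      ENNReal.ofReal (Real.exp (-(γ / 4 * ‖y.2‖ ^ 2))) with hg
  have hkm : Measurable kw := measurable_kw
  have hfm : Measurable f := by
    have h1 : Measurable (fun z : PhasePoint => ENNReal.ofReal (Real.exp (-(γ / 4 * ‖z.2‖ ^ 2)))) :=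
      ENNReal.measurable_ofReal.comp (Continuous.measurable (by fun_prop))
    exact (hkm.comp measurable_fst).mul h1
  have hgm : Measurable (Function.uncurry g) := by
    have h1 : Measurable (fun q : PhasePoint × PhasePoint =>
        ENNReal.ofReal (Real.exp (-(γ / (32 * n) * (dist q.2.1 q.1.1 / ε) ^ 2)))) :=
      ENNReal.measurable_ofReal.comp (Continuous.measurable (by fun_prop))
    have h2 : Measurable (fun q : PhasePoint × PhasePoint =>
        ENNReal.ofReal (Real.exp (-(γ / 4 * ‖q.2.2‖ ^ 2)))) :=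
      ENNReal.measurable_ofReal.comp (Continuous.measurable (by fun_prop))
    exact h1.mul h2
  set Gv : ℝ≥0∞ := ∫⁻ v : Space3, ENNReal.ofReal (Real.exp (-(γ / 4 * ‖v‖ ^ 2))) with hGv
  set Gx : ℝ≥0∞ := ∫⁻ x : Space3, ENNReal.ofReal (Real.exp (-(γ / (32 * n) * ‖x‖ ^ 2))) with hGx
  have hgc : ∀ z, ∫⁻ y, g z y ≤ ENNReal.ofReal (ε ^ 3) * (Gx * Gv) := by
    intro z
    have h1 : ∫⁻ y : PhasePoint, g z y =
        (∫⁻ x : Space3, ENNReal.ofReal (Real.exp (-(γ / (32 * n) * (dist x z.1 / ε) ^ 2)))) * Gv := by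
      rw [hg]
      simp only
      rw [Measure.volume_eq_prod]
      refine lintegral_prod_mul (f := fun x : Space3 =>
        ENNReal.ofReal (Real.exp (-(γ / (32 * n) * (dist x z.1 / ε) ^ 2))))
        (g := fun v : Space3 => ENNReal.ofReal (Real.exp (-(γ / 4 * ‖v‖ ^ 2)))) ?_ ?_
      · exact (ENNReal.measurable_ofReal.comp (Continuous.measurable (by fun_prop))).aemeasurable
      · exact (ENNReal.measurable_ofReal.comp (Continuous.measurable (by fun_prop))).aemeasurable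
    rw [h1, lintegral_gauss_scaled (by positivity) hε, mul_assoc]
  have hfi : ∫⁻ z, f z = Gv := by
    rw [hf]
    simp only
    rw [Measure.volume_eq_prod]
    refine (lintegral_prod_mul (f := kw)
        (g := fun v : Space3 => ENNReal.ofReal (Real.exp (-(γ / 4 * ‖v‖ ^ 2))))
          hkm.aemeasurable ?_).trans ?_
    · exact (ENNReal.measurable_ofReal.comp (Continuous.measurable (by fun_prop))).aemeasurable
    · rw [lintegral_kw, one_mul]
  have hmain := lintegral_root i hfm hgm hgc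
  rw [hfi, ← hn] at hmain
  set c0 : ℝ≥0∞ := ENNReal.ofReal (Real.exp (γ * (stabB Φ * n) + γ * (n : ℝ) ^ 2 / 16)) with hc0
  have hpt : ∀ W : κ → PhasePoint, kw (W i).1 * (ENNReal.ofReal (Real.exp (-(γ * energy Φ ε W))) *
      (NearS Φ ε i).indicator 1 W) ≤
      c0 * (f (W i) * ∏ a : {a : κ // ¬ a = i}, g (W i) (W a)) := by
    intro W
    by_cases hW : W ∈ NearS Φ ε i
    · rw [indicator_of_mem hW, Pi.one_apply, mul_one]
      have h1 := near_dom hΦ hε hγ i hW
      rw [← hn] at h1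
      have h2 : ENNReal.ofReal (Real.exp (-(γ * energy Φ ε W))) ≤
          c0 * (ENNReal.ofReal (Real.exp (-(γ / 4 * ‖(W i).2‖ ^ 2))) *
            ∏ a : {a : κ // ¬ a = i}, g (W i) (W a)) := by
        refine (ENNReal.ofReal_le_ofReal (Real.exp_le_exp.2 h1)).trans (le_of_eq ?_)
        rw [Real.exp_add (γ * (stabB Φ * n) + γ * (n : ℝ) ^ 2 / 16),
          Real.exp_add (-(γ / 4 * ‖(W i).2‖ ^ 2)), Real.exp_sum,
          ENNReal.ofReal_mul (Real.exp_pos _).le,
          ENNReal.ofReal_mul (Real.exp_pos _).le,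
          ENNReal.ofReal_prod_of_nonneg (fun _ _ => (Real.exp_pos _).le)]
        congr 2
        refine Finset.prod_congr rfl fun a _ => ?_
        rw [Real.exp_add, ENNReal.ofReal_mul (Real.exp_pos _).le]
      calc kw (W i).1 * ENNReal.ofReal (Real.exp (-(γ * energy Φ ε W)))
          ≤ kw (W i).1 * (c0 * (ENNReal.ofReal (Real.exp (-(γ / 4 * ‖(W i).2‖ ^ 2))) *
            ∏ a : {a : κ // ¬ a = i}, g (W i) (W a))) := mul_le_mul_right h2 _
        _ = _ := by rw [hf]; ring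
    · rw [indicator_of_notMem hW, mul_zero, mul_zero]
      exact zero_le
  refine (lintegral_mono hpt).trans ?_
  rw [lintegral_const_mul']
  · refine (mul_le_mul_right hmain _).trans (le_of_eq ?_)
    unfold Cs
    rw [mul_pow]
    ring
  · rw [hc0]; exact ENNReal.ofReal_ne_top

lemma spd_flow (hΦ : AdmissiblePotential Φ) (hε : 0 < ε) (t : ℝ) (W : κ → PhasePoint) :
    spd Φ ε (flow Φ ε t W) = spd Φ ε W := by
  unfold spd
  rw [energy_flow hΦ hε]

/-- **The near set at a given time.** -/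
lemma flow_near_le (hΦ : AdmissiblePotential Φ) (hε : 0 < ε) {γ : ℝ} (hγ : 0 < γ) (i : κ) (t : ℝ)
    {Ψ : Space3 → ℝ≥0∞} (hΨ : Measurable Ψ) :
    ∫⁻ W : κ → PhasePoint, ENNReal.ofReal (Real.exp (-(γ * energy Φ ε W))) *
      (Ψ (W i).1 * (NearS Φ ε i).indicator 1 (flow Φ ε t W)) ≤
      (∫⁻ x, Ψ x) * (Cs Φ γ (Fintype.card κ) * ENNReal.ofReal (ε ^ 3) ^ (Fintype.card κ - 1)) := by
  have hE : Measurable (fun W : κ → PhasePoint =>
      ENNReal.ofReal (Real.exp (-(γ * energy Φ ε W)))) :=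
    ENNReal.measurable_ofReal.comp (Real.measurable_exp.comp
      ((measurable_energy hΦ ε).const_mul γ).neg)
  have hI : Measurable ((NearS (κ := κ) Φ ε i).indicator (1 : (κ → PhasePoint) → ℝ≥0∞)) :=
    measurable_one.indicator (measurableSet_NearS hΦ i)
  have hp : Measurable (fun U : κ → PhasePoint => (U i).1) := (measurable_pi_apply i).fst
  have hm : Measurable (fun W : κ → PhasePoint => ENNReal.ofReal (Real.exp (-(γ * energy Φ ε W))) *
      (Ψ (W i).1 * (NearS Φ ε i).indicator 1 (flow Φ ε t W))) :=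
    hE.mul ((hΨ.comp hp).mul (hI.comp (measurable_flow hΦ hε t)))
  rw [lintegral_avg hp (fun a U => rfl) hm]
  have hind : ∀ (a : Space3) (U : κ → PhasePoint),
      (NearS Φ ε i).indicator (1 : (κ → PhasePoint) → ℝ≥0∞) (shiftX a U) =
        (NearS Φ ε i).indicator 1 U := by
    intro a U
    by_cases h : U ∈ NearS Φ ε i
    · rw [indicator_of_mem h, indicator_of_mem ((NearS_shift a i U).2 h)]
      rfl
    · rw [indicator_of_notMem h, indicator_of_notMem (fun h' => h ((NearS_shift a i U).1 h'))]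
  set K : (κ → PhasePoint) → ℝ≥0∞ := fun V => ENNReal.ofReal (Real.exp (-(γ * energy Φ ε V))) *
    (NearS Φ ε i).indicator 1 V with hK
  have hKm : Measurable K := hE.mul hI
  have hKt : ∀ a U, K (shiftX a U) = K U := by
    intro a U
    rw [hK]
    simp only
    rw [energy_shiftX, hind]
  have h1 : ∀ U : κ → PhasePoint, kw (U i).1 * ∫⁻ a,
      ENNReal.ofReal (Real.exp (-(γ * energy Φ ε (shiftX a U)))) *
      (Ψ (shiftX a U i).1 * (NearS Φ ε i).indicator 1 (flow Φ ε t (shiftX a U))) =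
      (kw (U i).1 * K (flow Φ ε t U)) * ∫⁻ x, Ψ x := by
    intro U
    have h2 : ∀ a : Space3, ENNReal.ofReal (Real.exp (-(γ * energy Φ ε (shiftX a U)))) *
      (Ψ (shiftX a U i).1 * (NearS Φ ε i).indicator 1 (flow Φ ε t (shiftX a U))) =
        K (flow Φ ε t U) * Ψ ((U i).1 + a) := by
      intro a
      rw [energy_shiftX, flow_shiftX hΦ hε, hind, hK]
      simp only
      rw [energy_flow hΦ hε]
      have : (shiftX a U i).1 = (U i).1 + a := rfl
      rw [this]
      ring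
    simp only [h2]
    have h3 : Measurable (fun a : Space3 => Ψ ((U i).1 + a)) := hΨ.comp (measurable_const_add _)
    rw [lintegral_const_mul _ h3, lintegral_add_left_eq_self Ψ (U i).1]
    exact (mul_assoc _ _ _).symm
  simp only [h1]
  have hkK : Measurable (fun U : κ → PhasePoint => kw (U i).1 * K (flow Φ ε t U)) :=
    (measurable_kw.comp hp).mul (hKm.comp (measurable_flow hΦ hε t))
  rw [lintegral_mul_const _ hkK, lintegral_kw_flow hΦ hε i t hKm hKt, mul_comm]
  exact mul_le_mul_right (static_le hΦ hε hγ i) _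

/-- connected at a nearby time -/
lemma mem_near (hΦ : AdmissiblePotential Φ) (hε : 0 < ε) {W : κ → PhasePoint} (hW : W ∈ Dom Φ κ)
    {i : κ} {u t : ℝ} (hut : |u - t| ≤ ε)
    (h : ∀ k, Relation.ReflTransGen (fun a b => dst (flow Φ ε u W) a b ≤ ε) i k) :
    flow Φ ε t W ∈ NearS Φ ε i := by
  refine ⟨flow_mem hΦ hε hW t, fun a => ?_⟩
  rw [spd_flow hΦ hε]
  have h1 : dist (flow Φ ε u W i).1 (flow Φ ε u W a).1 ≤ Fintype.card κ * ε :=
    Vol365.dist_le_of_rtg (x := fun k => (flow Φ ε u W k).1) hε.le (h a)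
  have h0 : 0 ≤ spd Φ ε W := Real.sqrt_nonneg _
  have h2 : ∀ b : κ, dist (flow Φ ε u W b).1 (flow Φ ε t W b).1 ≤ spd Φ ε W * ε := fun b =>
    (dist_pos_flow_le hΦ hε hW t u b).trans (mul_le_mul_of_nonneg_left hut h0)
  have h3 := dist_triangle4 (flow Φ ε t W a).1 (flow Φ ε u W a).1 (flow Φ ε u W i).1
    (flow Φ ε t W i).1
  have h4 := h2 a
  have h5 := h2 i
  rw [dist_comm] at h4
  rw [dist_comm] at h1
  nlinarith

/-- **Bad terminal groups**, cases (t0) and (t1) of D5. -/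
theorem term_bad {ι : Type} [Fintype ι] (hΦ : AdmissiblePotential Φ) {γ : ℝ} (hγ : 0 < γ)
    (te T : ℝ) : ∃ q : ℝ → ℝ≥0∞, Tendsto q (𝓝[>] 0) (𝓝 0) ∧ ∀ ε : ℝ, 0 < ε → ε ≤ 1 →
      ∀ (A : Finset ι) (i : ι) (Ψ : Space3 → ℝ≥0∞), Measurable Ψ →
      ∃ M : (A → PhasePoint) → ℝ≥0∞, Measurable M ∧
        (∀ W ∈ Dom Φ A, ∀ i' : A, (i' : ι) = i → TermBad Φ ε T te i W → Ψ (W i').1 ≤ M W) ∧
        ∫⁻ W, ENNReal.ofReal (Real.exp (-(γ * energy Φ ε W))) * M W ≤
          q ε * ENNReal.ofReal (ε ^ (2 * (A.card - 1))) * ∫⁻ x, Ψ x := by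
  set S : ℝ≥0∞ := ∑ n ∈ Finset.range (Fintype.card ι + 1), if n = 0 then 0 else Cs Φ γ n with hS
  have hSt : S ≠ ∞ := by
    rw [hS]
    refine ENNReal.sum_ne_top.2 fun n _ => ?_
    split_ifs with h
    · exact ENNReal.zero_ne_top
    · exact Cs_ne_top hγ (Nat.pos_of_ne_zero h)
  set c0 : ℝ := max te 0 + 1 with hc0
  have hc01 : 1 ≤ c0 := by rw [hc0]; linarith [le_max_right te 0]
  refine ⟨fun ε => ENNReal.ofReal ε * (S * ENNReal.ofReal c0), ?_, ?_⟩
  · have h1 : Tendsto (fun ε : ℝ => ENNReal.ofReal ε) (𝓝[>] 0) (𝓝 0) := by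
      have := (ENNReal.continuous_ofReal.tendsto 0).mono_left
        (nhdsWithin_le_nhds (s := Ioi (0 : ℝ)))
      rwa [ENNReal.ofReal_zero] at this
    have h2 := ENNReal.Tendsto.mul_const (b := S * ENNReal.ofReal c0) h1
      (Or.inr (ENNReal.mul_ne_top hSt ENNReal.ofReal_ne_top))
    rwa [zero_mul] at h2
  intro ε hε hε1 A i Ψ hΨ
  by_cases hi : i ∈ A
  swap
  · refine ⟨fun _ => 0, measurable_const, ?_, ?_⟩
    · intro W _ i' hi'
      exact absurd (hi' ▸ i'.2) hi
    · simp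
  set i0 : A := ⟨i, hi⟩ with hi0
  set n : ℕ := A.card with hn
  have hcard : Fintype.card A = n := Fintype.card_coe A
  have hn0 : 0 < n := Finset.card_pos.2 ⟨i, hi⟩
  have hnS : Cs Φ γ n ≤ S := by
    have h1 : n ∈ Finset.range (Fintype.card ι + 1) :=
      Finset.mem_range.2 (Nat.lt_succ_of_le (Finset.card_le_univ A))
    have h2 := Finset.single_le_sum (f := fun n => if n = 0 then (0 : ℝ≥0∞) else Cs Φ γ n)
      (fun _ _ => zero_le) h1
    simp only [if_neg hn0.ne'] at h2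
    exact h2
  set N : ℕ := ⌊max te 0 / ε⌋₊ + 1 with hN
  have hI : Measurable ((NearS (κ := A) Φ ε i0).indicator (1 : (A → PhasePoint) → ℝ≥0∞)) :=
    measurable_one.indicator (measurableSet_NearS hΦ i0)
  have hIf : ∀ t : ℝ, Measurable (fun W : A → PhasePoint =>
      (NearS (κ := A) Φ ε i0).indicator (1 : (A → PhasePoint) → ℝ≥0∞) (flow Φ ε t W)) :=
    fun t => hI.comp (measurable_flow hΦ hε t)
  have hΨm : Measurable (fun W : A → PhasePoint => Ψ (W i0).1) :=
    hΨ.comp ((measurable_pi_apply i0).fst)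
  have hE : Measurable (fun W : A → PhasePoint =>
      ENNReal.ofReal (Real.exp (-(γ * energy Φ ε W)))) :=
    ENNReal.measurable_ofReal.comp (Real.measurable_exp.comp
      ((measurable_energy hΦ ε).const_mul γ).neg)
  by_cases h3 : 3 ≤ n
  · -- (t0)
    refine ⟨fun W => ∑ j ∈ Finset.range N, Ψ (W i0).1 *
      (NearS Φ ε i0).indicator 1 (flow Φ ε (j * ε) W), ?_, ?_, ?_⟩
    · exact Finset.measurable_sum _ fun j _ => hΨm.mul (hIf _)
    · intro W hW i' hi' hbad
      have hii : i' = i0 := Subtype.ext hi'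
      rw [hii]
      obtain ⟨i'', hi'', hb⟩ := hbad
      have hii'' : i'' = i0 := Subtype.ext hi''
      rw [hii''] at hb
      rcases hb with ⟨-, u, hu, hk⟩ | ⟨h2, -⟩
      · set j : ℕ := ⌊u / ε⌋₊ with hj
        have hjN : j ∈ Finset.range N := by
          rw [Finset.mem_range, hN, hj]
          refine Nat.lt_succ_of_le (Nat.floor_le_floor ?_)
          exact div_le_div_of_nonneg_right (hu.2.trans (le_max_left _ _)) hε.le
        have hj1 : (j : ℝ) * ε ≤ u := by
          have := Nat.floor_le (div_nonneg hu.1 hε.le)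
          rwa [le_div_iff₀ hε] at this
        have hj2 : u ≤ (j : ℝ) * ε + ε := by
          have := (Nat.lt_floor_add_one (u / ε)).le
          rw [div_le_iff₀ hε] at this
          linarith
        have hmem : flow Φ ε ((j : ℝ) * ε) W ∈ NearS Φ ε i0 := by
          refine mem_near hΦ hε hW (u := u) ?_ hk
          rw [abs_le]
          constructor <;> linarith
        have h4 : Ψ (W i0).1 = Ψ (W i0).1 *
            (NearS Φ ε i0).indicator (1 : (A → PhasePoint) → ℝ≥0∞) (flow Φ ε ((j : ℝ) * ε) W) := by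
          rw [indicator_of_mem hmem]
          simp
        rw [h4]
        exact Finset.single_le_sum (f := fun j : ℕ => Ψ (W i0).1 *
          (NearS Φ ε i0).indicator (1 : (A → PhasePoint) → ℝ≥0∞) (flow Φ ε (j * ε) W))
          (fun _ _ => zero_le) hjN
      · omega
    · have h5 : ∀ W : A → PhasePoint, ENNReal.ofReal (Real.exp (-(γ * energy Φ ε W))) *
          ∑ j ∈ Finset.range N, Ψ (W i0).1 *
            (NearS Φ ε i0).indicator 1 (flow Φ ε (j * ε) W) =
          ∑ j ∈ Finset.range N, ENNReal.ofReal (Real.exp (-(γ * energy Φ ε W))) *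
            (Ψ (W i0).1 * (NearS Φ ε i0).indicator 1 (flow Φ ε (j * ε) W)) := fun W =>
        Finset.mul_sum _ _ _
      simp only [h5]
      have hmj : ∀ j ∈ Finset.range N, Measurable (fun W : A → PhasePoint =>
          ENNReal.ofReal (Real.exp (-(γ * energy Φ ε W))) *
            (Ψ (W i0).1 * (NearS Φ ε i0).indicator 1 (flow Φ ε (j * ε) W))) :=
        fun j _ => hE.mul (hΨm.mul (hIf _))
      rw [lintegral_finsetSum _ hmj]
      refine (Finset.sum_le_sum (s := Finset.range N) fun (j : ℕ) _ =>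
        flow_near_le hΦ hε hγ i0 ((j : ℝ) * ε) hΨ).trans ?_
      rw [Finset.sum_const, Finset.card_range, nsmul_eq_mul, hcard]
      have h6 : (N : ℝ≥0∞) * ENNReal.ofReal (ε ^ 3) ^ (n - 1) ≤
          ENNReal.ofReal ε * ENNReal.ofReal c0 * ENNReal.ofReal (ε ^ (2 * (n - 1))) := by
        rw [← ENNReal.ofReal_pow (by positivity), ← ENNReal.ofReal_natCast,
          ← ENNReal.ofReal_mul (by positivity), ← ENNReal.ofReal_mul hε.le,
          ← ENNReal.ofReal_mul (by positivity)]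
        refine ENNReal.ofReal_le_ofReal ?_
        have h7 : (N : ℝ) * ε ≤ c0 := by
          rw [hN, hc0]
          push_cast
          have := Nat.floor_le (div_nonneg (le_max_right te 0) hε.le)
          rw [le_div_iff₀ hε] at this
          nlinarith
        obtain ⟨m, hm⟩ : ∃ m, n = m + 3 := ⟨n - 3, by omega⟩
        rw [hm]
        have e1 : m + 3 - 1 = m + 2 := by omega
        rw [e1]
        have h8 : (ε ^ 3) ^ (m + 2) = ε * (ε * ε ^ (2 * (m + 2))) * ε ^ m := by ring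
        rw [h8]
        have h9 : ε ^ m ≤ 1 := pow_le_one₀ hε.le hε1
        calc (N : ℝ) * (ε * (ε * ε ^ (2 * (m + 2))) * ε ^ m)
            = ((N : ℝ) * ε) * (ε * ε ^ (2 * (m + 2))) * ε ^ m := by ring
          _ ≤ c0 * (ε * ε ^ (2 * (m + 2))) * 1 :=
              mul_le_mul (mul_le_mul_of_nonneg_right h7 (by positivity)) h9 (by positivity)
                (by positivity)
          _ = ε * c0 * ε ^ (2 * (m + 2)) := by ring
      calc (N : ℝ≥0∞) * ((∫⁻ x, Ψ x) * (Cs Φ γ n * ENNReal.ofReal (ε ^ 3) ^ (n - 1)))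
          = ((N : ℝ≥0∞) * ENNReal.ofReal (ε ^ 3) ^ (n - 1)) * (Cs Φ γ n * ∫⁻ x, Ψ x) := by ring
        _ ≤ (ENNReal.ofReal ε * ENNReal.ofReal c0 * ENNReal.ofReal (ε ^ (2 * (n - 1)))) *
            (S * ∫⁻ x, Ψ x) := mul_le_mul' h6 (mul_le_mul_left hnS _)
        _ = _ := by ring
  · by_cases h2 : n = 2
    · -- (t1)
      refine ⟨fun W => Ψ (W i0).1 * (NearS Φ ε i0).indicator 1 (flow Φ ε T W),
        hΨm.mul (hIf _), ?_, ?_⟩
      · intro W hW i' hi' hbad
        have hii : i' = i0 := Subtype.ext hi'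
        rw [hii]
        obtain ⟨i'', hi'', hb⟩ := hbad
        have hii'' : i'' = i0 := Subtype.ext hi''
        rw [hii''] at hb
        rcases hb with ⟨h3', -⟩ | ⟨-, j, hj, hd⟩
        · exact absurd h3' h3
        · have hmem : flow Φ ε T W ∈ NearS Φ ε i0 := by
            refine mem_near hΦ hε hW (u := T) (by simp [hε.le]) ?_
            intro k
            have hk : k = i0 ∨ k = j := by
              by_contra hcon
              push Not at hcon
              have h4 : ({i0, j, k} : Finset A).card = 3 := by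
                rw [Finset.card_insert_of_notMem, Finset.card_insert_of_notMem,
                  Finset.card_singleton]
                · simpa using hcon.2.symm
                · simp only [Finset.mem_insert, Finset.mem_singleton]
                  push Not
                  exact ⟨hj.symm, hcon.1.symm⟩
              have h5 := Finset.card_le_univ ({i0, j, k} : Finset A)
              rw [h4, hcard, h2] at h5
              omega
            rcases hk with rfl | rfl
            · exact .refl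
            · exact .single hd
          simp only
          rw [indicator_of_mem hmem]
          simp
      · refine (flow_near_le hΦ hε hγ i0 T hΨ).trans ?_
        rw [hcard, h2]
        have h6 : ENNReal.ofReal (ε ^ 3) ^ (2 - 1) ≤
            ENNReal.ofReal ε * ENNReal.ofReal c0 * ENNReal.ofReal (ε ^ (2 * (2 - 1))) := by
          rw [← ENNReal.ofReal_pow (by positivity), ← ENNReal.ofReal_mul hε.le,
            ← ENNReal.ofReal_mul (by positivity)]
          refine ENNReal.ofReal_le_ofReal ?_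
          have : (ε ^ 3) ^ (2 - 1) = ε * 1 * ε ^ (2 * (2 - 1)) := by
            norm_num
            ring
          rw [this]
          exact mul_le_mul_of_nonneg_right (mul_le_mul_of_nonneg_left hc01 hε.le) (by positivity)
        calc (∫⁻ x, Ψ x) * (Cs Φ γ 2 * ENNReal.ofReal (ε ^ 3) ^ (2 - 1))
            = ENNReal.ofReal (ε ^ 3) ^ (2 - 1) * (Cs Φ γ 2 * ∫⁻ x, Ψ x) := by ring
          _ ≤ (ENNReal.ofReal ε * ENNReal.ofReal c0 * ENNReal.ofReal (ε ^ (2 * (2 - 1)))) *
              (S * ∫⁻ x, Ψ x) := by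
              rw [h2] at hnS
              exact mul_le_mul' h6 (mul_le_mul_left hnS _)
          _ = _ := by ring
    · refine ⟨fun _ => 0, measurable_const, ?_, by simp⟩
      intro W hW i' hi' hbad
      obtain ⟨i'', hi'', hb⟩ := hbad
      rcases hb with ⟨h3', -⟩ | ⟨h2', -⟩
      · exact absurd h3' h3
      · exact absurd h2' h2

end Crest.Agent.R122.BadTerm818

end
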