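import Crest.Agent.R122.VolGauss_365

/-!
Row 122, helper365: density bound for the root of undamped clusters of the Newton flow, uniform in
the interaction range.
-/

set_option autoImplicit false

open MeasureTheory Set
open Crest.AnalysisR.Kinetic
open Crest.Agent.R122.Flow671 Crest.Agent.R122.Loc45 Crest.Agent.R122.Causal291
open scoped ENNReal Classical

noncomputable section

namespace Crest.Agent.R122.Vol365

/-- Undirected contact relation of the Newton flow during `[a,b]`. -/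
def NContact (Φ : Space3 → ℝ) (ε : ℝ) {ι : Type} [Fintype ι] (a b : ℝ) (z : ι → PhasePoint)
    (i j : ι) : Prop :=
  ∃ t ∈ Icc a b, dist (flow Φ ε t z i).1 (flow Φ ε t z j).1 ≤ ε

theorem contact_newton {Φ : Space3 → ℝ} {ε : ℝ} (hΦ : AdmissiblePotential Φ) (hε : 0 < ε) {ι : Type}
    [Fintype ι] (a b : ℝ) (z : ι → PhasePoint) :
    (newton hΦ hε).Contact a b z = NContact Φ ε a b z := by
  ext i j
  unfold Bodies.Contact Bodies.pos NContact
  have : (newton hΦ hε).flow ι = nflow Φ ε ι := rfl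
  simp only [this, nflow_eq]

/-- **Connected isolated clusters of the Newton flow, Gaussian energy weight.** -/
theorem exists_conn_bound {Φ : Space3 → ℝ} (hΦ : AdmissiblePotential Φ) {γ : ℝ} (hγ : 0 < γ) (T : ℝ)
    (k : ℕ) : ∃ C : ℝ≥0∞, C ≠ ∞ ∧ ∀ ε : ℝ, 0 < ε → ε ≤ 1 → ∀ (ι : Type) [Fintype ι],
      Fintype.card ι = k → ∀ (i : ι) (a b τ : ℝ), a ≤ τ → τ ≤ b → b - a ≤ T →
      ∀ F : PhasePoint → ℝ≥0∞, Measurable F →
      ∫⁻ z in {z : ι → PhasePoint | z ∈ Dom Φ ι ∧ AllConn (NContact Φ ε a b z)},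
          ENNReal.ofReal (Real.exp (-(γ * energy Φ ε z))) * F (flow Φ ε τ z i) ≤
        C * ENNReal.ofReal ε ^ (2 * (k - 1)) * ∫⁻ y, gw (γ / 4) y * F y := by
  obtain ⟨C, q, hC, hBd⟩ := Bd_all k
  refine ⟨Cg (stabB Φ) γ (max T 1) k C q, Cg_ne_top (stabB_nonneg Φ) hγ
    (le_trans zero_le_one (le_max_right _ _)) k hC q, ?_⟩
  intro ε hε hε1 ι _ hk i a b τ ha hb hab F hF
  have h := (newton hΦ hε).gauss_conn hBd hγ hε1 (le_max_right T 1) hk i ha hb
    (hab.trans (le_max_left _ _)) hF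
  have e1 : (newton hΦ hε).flow ι = nflow Φ ε ι := rfl
  have e2 : (newton hΦ hε).energy ι = nenergy Φ ε ι := rfl
  have e3 : (newton hΦ hε).dom ι = Dom Φ ι := rfl
  simp only [e1, e2, e3, nflow_eq, nenergy_eq, contact_newton] at h
  exact h

/-- Product weights are dominated by the exponential of the kinetic energy. -/
theorem prod_f0_le {f₀ : PhasePoint → ℝ} {C₀ β : ℝ} (hC₀ : 0 ≤ C₀)
    (hf : ∀ z : PhasePoint, f₀ z ≤ C₀ * Real.exp (-(2 * β * ‖z.2‖ ^ 2))) {ι : Type} [Fintype ι]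
    (z : ι → PhasePoint) : ∏ i, ENNReal.ofReal (f₀ (z i)) ≤
      ENNReal.ofReal C₀ ^ Fintype.card ι * ENNReal.ofReal (Real.exp (-(4 * β * kin z))) := by
  have h1 : ∀ i ∈ (Finset.univ : Finset ι), ENNReal.ofReal (f₀ (z i)) ≤
      ENNReal.ofReal C₀ * ENNReal.ofReal (Real.exp (-(2 * β * ‖(z i).2‖ ^ 2))) := fun i _ => by
    rw [← ENNReal.ofReal_mul hC₀]
    exact ENNReal.ofReal_le_ofReal (hf _)
  refine (Finset.prod_le_prod' h1).trans ?_
  rw [Finset.prod_mul_distrib, Finset.prod_const, Finset.card_univ,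
    ← ENNReal.ofReal_prod_of_nonneg (fun i _ => (Real.exp_pos _).le), ← Real.exp_sum]
  refine le_of_eq ?_
  congr 3
  unfold kin
  rw [Finset.sum_neg_distrib, ← Finset.mul_sum]
  ring

/-- A configuration with mutual distances `> ε`. -/
def Excl (ε : ℝ) {ι : Type} (z : ι → PhasePoint) : Prop := ∀ i j, i ≠ j → ε < dist (z i).1 (z j).1

theorem Excl.dom {Φ : Space3 → ℝ} {ε : ℝ} (hε : 0 < ε) {ι : Type} {z : ι → PhasePoint}
    (h : Excl ε z) : z ∈ Dom Φ ι := Dom_of_far hε fun i j hij => (h i j hij).le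

theorem Excl.energy {Φ : Space3 → ℝ} (hΦ : AdmissiblePotential Φ) {ε : ℝ} (hε : 0 < ε) {ι : Type}
    [Fintype ι] {z : ι → PhasePoint} (h : Excl ε z) : energy Φ ε z = kin z := by
  rw [energy_eq_kin_add_pot, pot_eq_zero hΦ hε (fun i j hij => (h i j hij).le), add_zero]


/-- **Density of a particle of an undamped connected cluster**, initial law `f₀`. -/
theorem exists_root_bound {Φ : Space3 → ℝ} (hΦ : AdmissiblePotential Φ) {β : ℝ} (hβ : 0 < β)
    (T C₀ : ℝ) (hC₀ : 0 ≤ C₀) (k : ℕ) : ∃ C : ℝ≥0∞, C ≠ ∞ ∧ ∀ f₀ : PhasePoint → ℝ,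
      (∀ z : PhasePoint, f₀ z ≤ C₀ * Real.exp (-(2 * β * ‖z.2‖ ^ 2))) →
      ∀ ε : ℝ, 0 < ε → ε ≤ 1 → ∀ (ι : Type) [Fintype ι],
      Fintype.card ι = k → ∀ (i : ι) (a b τ : ℝ), a ≤ τ → τ ≤ b → b - a ≤ T →
      ∀ F : PhasePoint → ℝ≥0∞, Measurable F →
      ∫⁻ z in {z : ι → PhasePoint | Excl ε z ∧ AllConn (NContact Φ ε a b z)},
          (∏ j, ENNReal.ofReal (f₀ (z j))) * F (flow Φ ε τ z i) ≤
        C * ENNReal.ofReal ε ^ (2 * (k - 1)) * ∫⁻ y, gw β y * F y := by
  obtain ⟨C, hC, h⟩ := exists_conn_bound hΦ (γ := 4 * β) (by positivity) T k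
  refine ⟨ENNReal.ofReal C₀ ^ k * C, ENNReal.mul_ne_top (ENNReal.pow_ne_top ENNReal.ofReal_ne_top) hC,
    ?_⟩
  intro f₀ hf ε hε hε1 ι _ hk i a b τ ha hb hab F hF
  have h1 := h ε hε hε1 ι hk i a b τ ha hb hab F hF
  rw [show 4 * β / 4 = β by ring] at h1
  have hWm : MeasurableSet {z : ι → PhasePoint | z ∈ Dom Φ ι ∧ AllConn (NContact Φ ε a b z)} := by
    have := Bodies.measurableSet_rel ((newton hΦ hε).dom_meas ι)
      (fun z => (newton hΦ hε).Contact a b z)
      (fun i j => (newton hΦ hε).measurableSet_contact a b i j) AllConn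
    simp only [contact_newton] at this
    exact this
  have hXm : MeasurableSet {z : ι → PhasePoint | Excl ε z} := by
    unfold Excl
    simp only [ofPred_forall]
    refine MeasurableSet.iInter fun i => MeasurableSet.iInter fun j => MeasurableSet.iInter fun _ => ?_
    exact measurableSet_lt measurable_const
      ((measurable_pi_apply i).fst.dist (measurable_pi_apply j).fst)
  have hEm : MeasurableSet {z : ι → PhasePoint | Excl ε z ∧ AllConn (NContact Φ ε a b z)} := by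
    have : {z : ι → PhasePoint | Excl ε z ∧ AllConn (NContact Φ ε a b z)} =
        {z : ι → PhasePoint | Excl ε z} ∩
          {z : ι → PhasePoint | z ∈ Dom Φ ι ∧ AllConn (NContact Φ ε a b z)} := by
      ext z; constructor
      · rintro ⟨h1, h2⟩; exact ⟨h1, h1.dom hε, h2⟩
      · rintro ⟨h1, -, h2⟩; exact ⟨h1, h2⟩
    rw [this]; exact hXm.inter hWm
  have hsub : {z : ι → PhasePoint | Excl ε z ∧ AllConn (NContact Φ ε a b z)} ⊆
      {z : ι → PhasePoint | z ∈ Dom Φ ι ∧ AllConn (NContact Φ ε a b z)} :=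
    fun z hz => ⟨hz.1.dom hε, hz.2⟩
  calc ∫⁻ z in {z : ι → PhasePoint | Excl ε z ∧ AllConn (NContact Φ ε a b z)},
          (∏ j, ENNReal.ofReal (f₀ (z j))) * F (flow Φ ε τ z i)
      ≤ ∫⁻ z in {z : ι → PhasePoint | Excl ε z ∧ AllConn (NContact Φ ε a b z)},
          ENNReal.ofReal C₀ ^ k *
            (ENNReal.ofReal (Real.exp (-(4 * β * energy Φ ε z))) * F (flow Φ ε τ z i)) := by
        refine setLIntegral_mono' hEm fun z hz => ?_
        rw [← mul_assoc, hz.1.energy hΦ hε]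
        refine mul_le_mul_left ?_ _
        have := prod_f0_le hC₀ hf z
        rwa [hk] at this
    _ ≤ ∫⁻ z in {z : ι → PhasePoint | z ∈ Dom Φ ι ∧ AllConn (NContact Φ ε a b z)},
          ENNReal.ofReal C₀ ^ k *
            (ENNReal.ofReal (Real.exp (-(4 * β * energy Φ ε z))) * F (flow Φ ε τ z i)) :=
        lintegral_mono_set hsub
    _ = ENNReal.ofReal C₀ ^ k *
          ∫⁻ z in {z : ι → PhasePoint | z ∈ Dom Φ ι ∧ AllConn (NContact Φ ε a b z)},
            (ENNReal.ofReal (Real.exp (-(4 * β * energy Φ ε z))) * F (flow Φ ε τ z i)) :=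
        lintegral_const_mul' _ _ (ENNReal.pow_ne_top ENNReal.ofReal_ne_top)
    _ ≤ ENNReal.ofReal C₀ ^ k * (C * ENNReal.ofReal ε ^ (2 * (k - 1)) * ∫⁻ y, gw β y * F y) :=
        mul_le_mul_right h1 _
    _ = _ := by ring


end Crest.Agent.R122.Vol365
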