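import Crest.Agent.R122.VolD4_365
import Crest.Agent.R122.VolRoot_365
import Crest.Agent.R122.ClusterBC_311

/-!
Row 122, helper365: instantaneous density of the particles with a backward cluster of size at most
`K` in the real gas.
-/

set_option autoImplicit false

open MeasureTheory Set Filter
open Crest.AnalysisR.Kinetic
open Crest.Agent.R122.Flow671 Crest.Agent.R122.Loc45
open Crest.Agent.R122.Causal291 (Past Ct pth BC)
open Crest.Agent.R122.GC311
open scoped ENNReal Classical Topology

noncomputable section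

namespace Crest.Agent.R122.Vol365

variable {Φ : Space3 → ℝ} {ε : ℝ}



theorem gcE_le_const {f₀ : PhasePoint → ℝ} (hf : Measurable f₀)
    (h1 : ∫⁻ z, ENNReal.ofReal (f₀ z) ≤ 1) {G : (n : ℕ) → Config n → ℝ≥0∞} {c : ℝ≥0∞}
    (h : ∀ n, ∀ Z ∈ PairExcluded ε n, G n Z ≤ c) : gcE f₀ ε G ≤ c := by
  by_cases hc : c = ∞
  · rw [hc]; exact le_top
  · exact (gcE_mono f₀ ε (G := fun _ _ => c) h).trans (gcE_const f₀ ε hf h1 hc).le




end Crest.Agent.R122.Vol365

end
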