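import Crest.Agent.R122.BadPos_726
import Crest.Agent.R122.NGmaj_416
import Crest.Agent.R122.NGgas_416
import Crest.Agent.R122.VolTaperDyn_365
import Crest.Agent.R122.VolChain_365
import Crest.Agent.R122.BadDefs_726
import Crest.Agent.R122.Hid_424
import Crest.Agent.R122.VolGas_365
import Crest.Agent.R122.BadOne2_350
import Crest.Agent.R122.ChainShift_726
import Crest.Agent.R122.BadTerm_818_Mg

-- ▼ part R122/BadPos_416
section

/-!
# Row 122 (helper416): statements about the real position of the root of a bad cluster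

`Chain726.BadPos Φ ε T te V i t x` (726): the cluster `V` with root `i` is bad and `x` is a possible
real position of its root at time `t`.  `BadVolP`: volume statement with the position of
the root at an arbitrary time as pin, all chains at once.  `HitClass` (helper167): mass of the bad
hits of a structure.
-/

set_option autoImplicit false
set_option linter.unusedSectionVars false

open MeasureTheory Set Filter Topology
open Crest.AnalysisR.Kinetic
open Crest.Agent.R122.Loc45 Crest.Agent.R122.Flow671 Crest.Agent.R122.Chain726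
open Crest.Agent.R122.NG416
open scoped ENNReal NNReal Classical

noncomputable section

namespace Crest.Agent.R122.BadPos416

/-- **Volume of the bad clusters, pinned at the position of the root at time `t`**, uniform in `t`
and in the release chain. -/
def BadVolP (Φ : Space3 → ℝ) (T te γ : ℝ) (K : ℕ) : Prop :=
  ∀ k ≤ K, ∀ j : Fin k, ∀ δ : ℝ, 0 < δ → ∃ ε₀ : ℝ, 0 < ε₀ ∧ ∀ ε : ℝ, 0 < ε → ε < ε₀ →
    ∀ (t : ℝ) (Ψ : Space3 → ℝ≥0∞), Measurable Ψ → ∃ M : Config k → ℝ≥0∞, Measurable M ∧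
      (∀ V ∈ PairExcluded ε k, ∀ x, BadPos Φ ε T te V j t x → Ψ x ≤ M V) ∧
      ∫⁻ V, gwc γ V * M V ≤ ENNReal.ofReal (δ * ε ^ (2 * (k - 1))) * ∫⁻ x, Ψ x

/-- **Mass of the bad hits** (statement of helper167): a structure `G` with a Lipschitz covariant
curve `c`, hit within `R ε` during `[0, T]` by the root of a bad cluster of at most `K` particles. -/
def HitClass (Φ : Space3 → ℝ) (T te T' : ℝ) : Prop :=
  ∀ (J : Type) [Fintype J] (j₀ : J) (γ R : ℝ) (K : ℕ), 0 < γ →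
    ∃ η : ℝ → ℝ≥0∞, Tendsto η (𝓝[>] 0) (𝓝 0) ∧ ∀ ε : ℝ, 0 < ε → ε ≤ 1 →
    ∀ (Ω : Type) [MeasurableSpace Ω] (G : Ω → (J → PhasePoint) → ℝ≥0∞)
      (c : Ω → (J → PhasePoint) → ℝ → Space3) (Λ : Ω → (J → PhasePoint) → ℝ≥0),
      Measurable (Function.uncurry G) → (∀ ω a Z, G ω (shiftX a Z) = G ω Z) →
      (∀ t, Measurable fun p : Ω × (J → PhasePoint) => c p.1 p.2 t) →
      (∀ ω a Z t, c ω (shiftX a Z) t = c ω Z t + a) →
      (∀ ω Z, LipschitzOnWith (Λ ω Z) (c ω Z) (Icc 0 T)) →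
      Measurable (Function.uncurry Λ) → (∀ ω a Z, Λ ω (shiftX a Z) = Λ ω Z) →
      ∃ H : (k : ℕ) → Ω × (J → PhasePoint) × Config k → ℝ≥0∞, (∀ k, Measurable (H k)) ∧
        (∀ k ≤ K, ∀ ω Z, ∀ V ∈ PairExcluded ε k, ∀ i t x, t ∈ Icc 0 T →
          BadPos Φ ε T' te V i t x → dist x (c ω Z t) ≤ R * ε → 1 ≤ H k (ω, Z, V)) ∧
        ∀ k ≤ K, ∀ (ω : Ω) (i : Fin k) (env : Space3 → ℝ≥0∞), Measurable env →
          (∫⁻ Z, G ω Z * ∫⁻ V : Config k, env (V i).1 *
            ((∏ l, ENNReal.ofReal (Real.exp (-γ * ‖(V l).2‖ ^ 2))) * H k (ω, Z, V))) ≤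
          η ε * ENNReal.ofReal (ε ^ 2) ^ k * (∫⁻ x, env x) *
            ∫⁻ Z, hb (Z j₀).1 * (G ω Z * (1 + (Λ ω Z : ℝ≥0∞)))

end Crest.Agent.R122.BadPos416

end
end

-- ▼ part R122/HitAbs_416
section

/-!
# Row 122 (helper416): bad hits of a structure, abstract part

`P V t x` : possible positions `x` of the root of the cluster `V` at time `t` (all environments),
translation covariant and Lipschitz in time.  From pinned majorants at every time (`hM`) the majorant
`HH` of the hits of a Lipschitz curve, measurable in the curve, with its mass.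
-/

set_option autoImplicit false
set_option linter.unusedSectionVars false

open MeasureTheory Set Filter Topology
open Crest.AnalysisR.Kinetic
open Crest.Agent.R122.Loc45 Crest.Agent.R122.Vol365 Crest.Agent.R122.GC311
open Crest.Agent.R122.Flow671 Crest.Agent.R122.NG416
open scoped ENNReal NNReal Classical

noncomputable section

namespace Crest.Agent.R122.HitAbs416

/-- speed scale -/
def vD (D : ℝ) {k : ℕ} (V : Config k) : ℝ := Real.sqrt (2 * (kin V + D))


theorem measurable_vD (D : ℝ) {k : ℕ} : Measurable (vD D : Config k → ℝ) :=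
  ((measurable_kinc.add_const _).const_mul _).sqrt

/-- number of grid intervals -/
def gN (T r : ℝ) (n p : ℕ) : ℕ := ⌈T * ((1 + p) * (1 + n)) / r⌉₊ + 1

/-- grid times -/
def gT (T r : ℝ) (n p m : ℕ) : ℝ := m * (T / gN T r n p)

theorem gN_pos (T r : ℝ) (n p : ℕ) : (0 : ℝ) < gN T r n p := by
  unfold gN
  positivity

theorem gN_le {T R ε : ℝ} (hT : 0 ≤ T) (hR : 1 ≤ R) (hε : 0 < ε) (hε1 : ε ≤ 1) (n p : ℕ) :
    ((gN T (R * ε) n p + 1 : ℕ) : ℝ) ≤ (T + 3) / ε * ((1 + p) * (1 + n)) := by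
  have h1 : (⌈T * ((1 + p) * (1 + n)) / (R * ε)⌉₊ : ℝ) ≤ T * ((1 + p) * (1 + n)) / (R * ε) + 1 :=
    (Nat.ceil_lt_add_one (by positivity)).le
  have h2 : T * ((1 + p) * (1 + n)) / (R * ε) ≤ T * ((1 + p) * (1 + n)) / ε := by
    apply div_le_div_of_nonneg_left (by positivity) hε
    nlinarith
  have h3 : (1 : ℝ) ≤ ((1 + p) * (1 + n)) / ε := by
    rw [le_div_iff₀ hε]
    have hp : (0 : ℝ) ≤ p := Nat.cast_nonneg p
    have hn : (0 : ℝ) ≤ n := Nat.cast_nonneg n
    nlinarith [mul_nonneg hp hn]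
  unfold gN
  push_cast
  calc (⌈T * ((1 + p) * (1 + n)) / (R * ε)⌉₊ : ℝ) + 1 + 1
      ≤ T * ((1 + p) * (1 + n)) / ε + 3 * (((1 + p) * (1 + n)) / ε) := by linarith
    _ = (T + 3) / ε * ((1 + p) * (1 + n)) := by ring

/-- every time is close to a grid time -/
theorem exists_grid {T r : ℝ} (hT : 0 ≤ T) (hr : 0 < r) (n p : ℕ) {t : ℝ} (ht : t ∈ Icc 0 T) :
    ∃ m ∈ Finset.range (gN T r n p + 1), gT T r n p m ∈ Icc 0 T ∧
      |t - gT T r n p m| * ((1 + p) * (1 + n)) ≤ r := by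
  have hN := gN_pos T r n p
  rcases eq_or_lt_of_le hT with hT0 | hTpos
  · refine ⟨0, Finset.mem_range.2 (Nat.succ_pos _), ?_, ?_⟩
    · unfold gT; simp [hT]
    · have : t = 0 := le_antisymm (ht.2.trans hT0.ge) ht.1
      unfold gT
      simp [this, hr.le]
  set N : ℕ := gN T r n p with hNd
  have hNge : T * ((1 + p) * (1 + n)) / r ≤ N := by
    rw [hNd]; unfold gN; push_cast
    have := Nat.le_ceil (T * ((1 + (p : ℝ)) * (1 + n)) / r)
    linarith
  set m : ℕ := ⌊t * N / T⌋₊ with hm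
  have hq : 0 ≤ t * N / T := by have := ht.1; positivity
  have hm1 : (m : ℝ) ≤ t * N / T := Nat.floor_le hq
  have hm2 : t * N / T < m + 1 := Nat.lt_floor_add_one _
  have hmN : m ≤ N := by
    have : (m : ℝ) ≤ N := by
      refine hm1.trans ?_
      rw [div_le_iff₀ hTpos, mul_comm (N : ℝ) T]
      exact mul_le_mul_of_nonneg_right ht.2 hN.le
    exact_mod_cast this
  have ht1 : m * (T / N) ≤ t := by
    have := mul_le_mul_of_nonneg_right hm1 (show 0 ≤ T / N by positivity)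
    refine this.trans (le_of_eq ?_)
    field_simp
  have ht2 : t ≤ m * (T / N) + T / N := by
    have := mul_le_mul_of_nonneg_right hm2.le (show 0 ≤ T / N by positivity)
    have e : t * N / T * (T / N) = t := by field_simp
    rw [e] at this
    linarith
  have ht0 : 0 ≤ m * (T / N) := by positivity
  refine ⟨m, Finset.mem_range.2 (Nat.lt_succ_of_le hmN), ⟨ht0, ht1.trans ht.2⟩, ?_⟩
  have h3 : |t - gT T r n p m| ≤ T / N := by
    have e : gT T r n p m = m * (T / N) := rfl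
    rw [e, abs_of_nonneg (by linarith)]
    linarith
  have hp : (0 : ℝ) ≤ p := Nat.cast_nonneg p
  have hn : (0 : ℝ) ≤ n := Nat.cast_nonneg n
  calc |t - gT T r n p m| * ((1 + p) * (1 + n)) ≤ T / N * ((1 + p) * (1 + n)) :=
        mul_le_mul_of_nonneg_right h3 (by positivity)
    _ ≤ r := by
        rw [div_mul_eq_mul_div, div_le_iff₀ hN]
        rw [div_le_iff₀ hr] at hNge
        linarith

section

variable {k : ℕ}

/-- The majorant of the hits: `M t` are the pinned majorants, `y` the curve, `p` its Lipschitz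
constant. -/
def HH (T r D : ℝ) (M : ℝ → Config k → ℝ≥0∞) (p : ℕ) (y : ℝ → Space3) (V : Config k) : ℝ≥0∞ :=
  ∑' n : ℕ, (if ⌈vD D V⌉₊ = n then 1 else 0) *
    ∑ m ∈ Finset.range (gN T r n p + 1), M (gT T r n p m) (shiftX (-(y (gT T r n p m))) V)

theorem measurable_HH {T r D : ℝ} {M : ℝ → Config k → ℝ≥0∞} (hM : ∀ t, Measurable (M t))
    {X : Type*} [MeasurableSpace X] {p : X → ℕ} (hp : Measurable p) {y : X → ℝ → Space3}
    (hy : ∀ t, Measurable fun x => y x t) {V : X → Config k} (hV : Measurable V) :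
    Measurable fun x => HH T r D M (p x) (y x) (V x) := by
  have h1 : ∀ q : ℕ, Measurable fun x => HH T r D M q (y x) (V x) := by
    intro q
    unfold HH
    refine Measurable.tsum fun n => Measurable.mul ?_ ?_
    · refine Measurable.ite ?_ measurable_const measurable_const
      have h2 : Measurable fun x => ⌈vD D (V x)⌉₊ :=
        Nat.measurable_ceil.comp ((measurable_vD D).comp hV)
      exact h2 (measurableSet_singleton n)
    · refine Finset.measurable_sum _ fun m _ => ?_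
      exact (hM _).comp (measurable_shiftX2.comp ((hy _).neg.prodMk hV))
  have h2 : ∀ x, HH T r D M (p x) (y x) (V x) =
      ∑' q : ℕ, (if p x = q then 1 else 0) * HH T r D M q (y x) (V x) := by
    intro x
    rw [tsum_eq_single (p x)]
    · simp
    · intro q hq
      rw [if_neg (fun h => hq h.symm), zero_mul]
  simp_rw [h2]
  refine Measurable.tsum fun q => Measurable.mul ?_ (h1 q)
  exact Measurable.ite (hp (measurableSet_singleton q)) measurable_const measurable_const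

theorem HH_shift (T r D : ℝ) (M : ℝ → Config k → ℝ≥0∞) (p : ℕ) (y : ℝ → Space3) (a : Space3)
    (V : Config k) : HH T r D M p (fun t => y t + a) (shiftX a V) = HH T r D M p y V := by
  unfold HH
  have e1 : vD D (shiftX a V) = vD D V := rfl
  rw [e1]
  refine tsum_congr fun n => ?_
  congr 1
  refine Finset.sum_congr rfl fun m _ => ?_
  congr 1
  rw [shiftX_shiftX]
  congr 1
  change a + -(y (gT T r n p m) + a) = _
  rw [neg_add_rev, ← add_assoc, add_neg_cancel, zero_add]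

/-- Every hit is counted. -/
theorem one_le_HH {T R ε D : ℝ} (hT : 0 ≤ T) (hR : 0 < R) (hε : 0 < ε)
    {P : Config k → ℝ → Space3 → Prop}
    (cov : ∀ V t x a, P V t x → P (shiftX a V) t (x + a))
    (move : ∀ V ∈ PairExcluded ε k, ∀ t x, P V t x → ∀ t', ∃ x', P V t' x' ∧
      dist x x' ≤ vD D V * |t - t'|)
    {M : ℝ → Config k → ℝ≥0∞}
    (hM : ∀ t, ∀ V ∈ PairExcluded ε k, ∀ x, P V t x →
      (Metric.closedBall (0 : Space3) (3 * (R * ε))).indicator (fun _ => 1) x ≤ M t V)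
    {y : ℝ → Space3} {p : ℕ}
    (hy : ∀ s ∈ Icc 0 T, ∀ s' ∈ Icc 0 T, dist (y s) (y s') ≤ p * |s - s'|)
    {V : Config k} (hV : V ∈ PairExcluded ε k) {t : ℝ} (ht : t ∈ Icc 0 T) {x : Space3}
    (hx : P V t x) (hd : dist x (y t) ≤ R * ε) : 1 ≤ HH T (R * ε) D M p y V := by
  have hr : 0 < R * ε := mul_pos hR hε
  set n : ℕ := ⌈vD D V⌉₊ with hn
  have hvn : vD D V ≤ n := Nat.le_ceil _
  obtain ⟨m, hm, hmT, hmt⟩ := exists_grid (r := R * ε) hT hr n p ht
  set τ := gT T (R * ε) n p m with hτ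
  obtain ⟨x', hx', hxx⟩ := move V hV t x hx τ
  have hp0 : (0 : ℝ) ≤ p := Nat.cast_nonneg p
  have hn0 : (0 : ℝ) ≤ n := Nat.cast_nonneg n
  have ha := abs_nonneg (t - τ)
  have h1 : dist (y t) (y τ) ≤ R * ε := by
    refine (hy t ht τ hmT).trans (le_trans ?_ hmt)
    rw [mul_comm]
    refine mul_le_mul_of_nonneg_left ?_ ha
    nlinarith [mul_nonneg hp0 hn0]
  have h2 : dist x x' ≤ R * ε := by
    refine hxx.trans (le_trans ?_ hmt)
    rw [mul_comm]
    refine mul_le_mul_of_nonneg_left ?_ ha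
    nlinarith [mul_nonneg hp0 hn0]
  have h3 : dist x' (y τ) ≤ 3 * (R * ε) := by
    calc dist x' (y τ) ≤ dist x' x + dist x (y t) + dist (y t) (y τ) := dist_triangle4 _ _ _ _
      _ ≤ R * ε + R * ε + R * ε := by
          rw [dist_comm x' x]
          exact add_le_add (add_le_add h2 hd) h1
      _ = _ := by ring
  have hV' : shiftX (-(y τ)) V ∈ PairExcluded ε k := (pairExcluded_shiftX _ V).2 hV
  have h4 := hM τ _ hV' _ (cov V τ x' (-(y τ)) hx')
  have h5 : x' + -(y τ) ∈ Metric.closedBall (0 : Space3) (3 * (R * ε)) := by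
    rw [Metric.mem_closedBall, dist_zero_right, ← sub_eq_add_neg, ← dist_eq_norm]
    exact h3
  rw [indicator_of_mem h5] at h4
  unfold HH
  refine le_trans ?_ (ENNReal.le_tsum n)
  rw [if_pos rfl, one_mul]
  refine h4.trans ?_
  exact Finset.single_le_sum (f := fun m => M (gT T (R * ε) n p m)
    (shiftX (-(y (gT T (R * ε) n p m))) V)) (fun _ _ => bot_le) hm

/-- Gaussian tail of the speed scale. -/
theorem gwc_level_le {γ D : ℝ} (hγ : 0 < γ) (hD : 0 ≤ D) (V : Config k) (n : ℕ) :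
    (if ⌈vD D V⌉₊ = n then (1 : ℝ≥0∞) else 0) * gwc γ V ≤
      ENNReal.ofReal (Real.exp (γ * (2 + D)) * Real.exp (-γ) ^ n) * gwc (γ / 2) V := by
  by_cases h : ⌈vD D V⌉₊ = n
  swap
  · rw [if_neg h, zero_mul]; exact bot_le
  rw [if_pos h, one_mul, gwc_eq_exp, gwc_eq_exp, ← ENNReal.ofReal_mul (by positivity),
    ← Real.exp_nat_mul, ← Real.exp_add, ← Real.exp_add]
  refine ENNReal.ofReal_le_ofReal (Real.exp_le_exp.2 ?_)
  have hkin := kin_nonneg V
  have h1 : (n : ℝ) - 2 - D ≤ kin V := by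
    rcases Nat.eq_zero_or_pos n with h0 | h0
    · rw [h0]; push_cast; linarith
    · have h2 : ((n : ℝ) - 1) < vD D V := by
        have h3 : n - 1 < ⌈vD D V⌉₊ := by omega
        have h4 := Nat.lt_ceil.1 h3
        have h5 : ((n - 1 : ℕ) : ℝ) = (n : ℝ) - 1 := by
          rw [Nat.cast_sub h0]; simp
        rwa [h5] at h4
      have h3 : (1 : ℝ) ≤ n := by exact_mod_cast h0
      have h4 : ((n : ℝ) - 1) ^ 2 ≤ 2 * (kin V + D) := by
        have h5 : vD D V ^ 2 = 2 * (kin V + D) := by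
          unfold vD
          rw [Real.sq_sqrt (by positivity)]
        rw [← h5]
        exact pow_le_pow_left₀ (by linarith) h2.le 2
      nlinarith [sq_nonneg ((n : ℝ) - 2)]
  nlinarith [mul_le_mul_of_nonneg_left h1 hγ.le]

/-- the constant of the level sum -/
def SC (γ D : ℝ) : ℝ≥0∞ :=
  ∑' n : ℕ, ENNReal.ofReal (Real.exp (γ * (2 + D)) * Real.exp (-γ) ^ n) *
    ENNReal.ofReal (1 + n)

theorem SC_ne_top {γ D : ℝ} (hγ : 0 < γ) : SC γ D ≠ ∞ := by
  unfold SC
  have h1 : Summable fun n : ℕ => Real.exp (γ * (2 + D)) * Real.exp (-γ) ^ n * (1 + n) := by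
    have hr : ‖Real.exp (-γ)‖ < 1 := by
      rw [Real.norm_eq_abs, abs_of_pos (Real.exp_pos _), Real.exp_lt_one_iff]
      linarith
    have h2 := summable_pow_mul_geometric_of_norm_lt_one 1 hr
    have h3 := summable_geometric_of_norm_lt_one hr
    have h4 := (h2.add h3).mul_left (Real.exp (γ * (2 + D)))
    refine h4.congr fun n => ?_
    ring
  have h2 : ∀ n : ℕ, ENNReal.ofReal (Real.exp (γ * (2 + D)) * Real.exp (-γ) ^ n) *
      ENNReal.ofReal (1 + n) =
      ENNReal.ofReal (Real.exp (γ * (2 + D)) * Real.exp (-γ) ^ n * (1 + n)) := fun n => by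
    rw [ENNReal.ofReal_mul (p := Real.exp (γ * (2 + D)) * Real.exp (-γ) ^ n) (by positivity)]
  simp_rw [h2]
  exact h1.tsum_ofReal_ne_top

/-- Mass of the hits. -/
theorem lintegral_HH_le {T R ε D γ : ℝ} (hT : 0 ≤ T) (hR : 1 ≤ R) (hε : 0 < ε) (hε1 : ε ≤ 1)
    (hγ : 0 < γ) (hD : 0 ≤ D) {M : ℝ → Config k → ℝ≥0∞} (hM : ∀ t, Measurable (M t))
    {b : ℝ≥0∞} (hb : ∀ t, ∫⁻ V, gwc (γ / 2) V * M t V ≤ b) (p : ℕ) (y : ℝ → Space3) :
    ∫⁻ V, gwc γ V * HH T (R * ε) D M p y V ≤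
      SC γ D * ENNReal.ofReal ((T + 3) / ε) * ENNReal.ofReal (1 + p) * b := by
  have hsh : ∀ t : ℝ, ∀ a : Space3, ∫⁻ V, gwc (γ / 2) V * M t (shiftX a V) ≤ b := by
    intro t a
    refine le_trans (le_of_eq ?_) (hb t)
    rw [← lintegral_shiftX a fun V => gwc (γ / 2) V * M t V]
    rfl
  have hMm : ∀ t : ℝ, ∀ a : Space3, Measurable fun V : Config k =>
      gwc (γ / 2) V * M t (shiftX a V) := fun t a =>
    (measurable_gwc _).mul ((hM t).comp (measurable_shiftX a))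
  have h1 : ∀ V : Config k, gwc γ V * HH T (R * ε) D M p y V ≤
      ∑' n : ℕ, ENNReal.ofReal (Real.exp (γ * (2 + D)) * Real.exp (-γ) ^ n) *
        ∑ m ∈ Finset.range (gN T (R * ε) n p + 1), gwc (γ / 2) V *
          M (gT T (R * ε) n p m) (shiftX (-(y (gT T (R * ε) n p m))) V) := by
    intro V
    unfold HH
    rw [← ENNReal.tsum_mul_left]
    refine ENNReal.tsum_le_tsum fun n => ?_
    calc gwc γ V * ((if ⌈vD D V⌉₊ = n then 1 else 0) *
          ∑ m ∈ Finset.range (gN T (R * ε) n p + 1),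
            M (gT T (R * ε) n p m) (shiftX (-(y (gT T (R * ε) n p m))) V))
        = ((if ⌈vD D V⌉₊ = n then 1 else 0) * gwc γ V) *
          ∑ m ∈ Finset.range (gN T (R * ε) n p + 1),
            M (gT T (R * ε) n p m) (shiftX (-(y (gT T (R * ε) n p m))) V) := by ring
      _ ≤ (ENNReal.ofReal (Real.exp (γ * (2 + D)) * Real.exp (-γ) ^ n) * gwc (γ / 2) V) *
          ∑ m ∈ Finset.range (gN T (R * ε) n p + 1),
            M (gT T (R * ε) n p m) (shiftX (-(y (gT T (R * ε) n p m))) V) :=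
          mul_le_mul_left (gwc_level_le hγ hD V n) _
      _ = _ := by rw [mul_assoc, Finset.mul_sum]
  refine (lintegral_mono h1).trans ?_
  rw [lintegral_tsum fun n => (Measurable.const_mul (Finset.measurable_sum _ fun m _ =>
    hMm _ _) _).aemeasurable]
  have h2 : ∀ n : ℕ, ∫⁻ V, ENNReal.ofReal (Real.exp (γ * (2 + D)) * Real.exp (-γ) ^ n) *
        ∑ m ∈ Finset.range (gN T (R * ε) n p + 1), gwc (γ / 2) V *
          M (gT T (R * ε) n p m) (shiftX (-(y (gT T (R * ε) n p m))) V) ≤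
      ENNReal.ofReal (Real.exp (γ * (2 + D)) * Real.exp (-γ) ^ n) * ENNReal.ofReal (1 + n) *
        (ENNReal.ofReal ((T + 3) / ε) * ENNReal.ofReal (1 + p) * b) := by
    intro n
    rw [lintegral_const_mul _ (Finset.measurable_sum _ fun m _ => hMm _ _), mul_assoc]
    refine mul_le_mul_right ?_ _
    rw [lintegral_finsetSum _ fun m _ => hMm _ _]
    calc ∑ m ∈ Finset.range (gN T (R * ε) n p + 1), ∫⁻ V, gwc (γ / 2) V *
          M (gT T (R * ε) n p m) (shiftX (-(y (gT T (R * ε) n p m))) V)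
        ≤ ∑ _m ∈ Finset.range (gN T (R * ε) n p + 1), b := Finset.sum_le_sum fun m _ => hsh _ _
      _ = ENNReal.ofReal ((gN T (R * ε) n p + 1 : ℕ) : ℝ) * b := by
          rw [Finset.sum_const, nsmul_eq_mul, Finset.card_range, ENNReal.ofReal_natCast]
      _ ≤ ENNReal.ofReal ((T + 3) / ε * ((1 + p) * (1 + n))) * b :=
          mul_le_mul_left (ENNReal.ofReal_le_ofReal (gN_le hT hR hε hε1 n p)) _
      _ = _ := by
          rw [ENNReal.ofReal_mul (by positivity), ENNReal.ofReal_mul (by positivity)]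
          ring
  refine (ENNReal.tsum_le_tsum h2).trans (le_of_eq ?_)
  rw [ENNReal.tsum_mul_right]
  unfold SC
  ring

end

end Crest.Agent.R122.HitAbs416

end
end

-- ▼ part R122/BadMove_416
section

/-!
# Row 122 (helper416): the real root position of a bad cluster moves with bounded speed
-/

set_option autoImplicit false
set_option linter.unusedSectionVars false

open MeasureTheory Set Filter Topology
open Crest.AnalysisR.Kinetic
open Crest.Agent.R122.Loc45 Crest.Agent.R122.Vol365 Crest.Agent.R122.GC311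
open Crest.Agent.R122.Flow671 Crest.Agent.R122.NG416 Crest.Agent.R122.HitAbs416
open Crest.Agent.R122.BadPos416 Crest.Agent.R122.Chain726
open scoped ENNReal NNReal Classical

noncomputable section

namespace Crest.Agent.R122.BadMove416

variable {Φ : Space3 → ℝ} {ε T te : ℝ}

theorem step_energy (hΦ : AdmissiblePotential Φ) (hε : 0 < ε) {ι : Type} {s : ℝ}
    {A A' : Finset ι} {W : A → PhasePoint} {W' : A' → PhasePoint} (h : Step Φ ε s W W') :
    energy Φ ε W' ≤ energy Φ ε W + stabB Φ * A.card * A.card := by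
  have e1 : energy Φ ε W' = energy Φ ε (rs h.sub (flow Φ ε s W)) := by
    have := congrArg (energy Φ ε) h.state
    rw [this, energy_flow hΦ hε]
  have h1 := energy_comp_le hΦ hε (emb h.sub) (flow_mem hΦ hε h.dom s)
  rw [energy_flow hΦ hε, Fintype.card_coe] at h1
  rw [e1]
  exact h1

theorem chain_energy (hΦ : AdmissiblePotential Φ) (hε : 0 < ε) {ι : Type} (n : ℕ)
    {A A' : Finset ι} {W : A → PhasePoint} {W' : A' → PhasePoint} (h : Chain Φ ε T A W A' W')
    (hA : A.card ≤ n) :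
    energy Φ ε W' + stabB Φ * n * n * A'.card ≤ energy Φ ε W + stabB Φ * n * n * A.card := by
  have hB := stabB_nonneg Φ
  induction h with
  | refl _ _ => exact le_rfl
  | @step A A₁ A₂ W W₁ W₂ s hs h hc ih =>
    have h1 := step_energy hΦ hε h
    have h2 := h.card_lt
    have h3 := ih (by omega)
    have h4 : (A₁.card : ℝ) + 1 ≤ A.card := by exact_mod_cast h2
    have h5 : (A.card : ℝ) ≤ n := by exact_mod_cast hA
    have h6 : stabB Φ * A.card * A.card ≤ stabB Φ * n * n := by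
      have h0 : (0 : ℝ) ≤ A.card := Nat.cast_nonneg _
      have : (A.card : ℝ) * A.card ≤ n * n := mul_le_mul h5 h5 h0 (h0.trans h5)
      nlinarith
    have h7 : 0 ≤ stabB Φ * n * n := by positivity
    nlinarith

/-- the constant of the speed bound -/
def DK (Φ : Space3 → ℝ) (k : ℕ) : ℝ := stabB Φ * k * k * k + stabB Φ * k

theorem DK_nonneg (Φ : Space3 → ℝ) (k : ℕ) : 0 ≤ DK Φ k := by
  have hB := stabB_nonneg Φ
  unfold DK
  positivity

theorem DK_mono (Φ : Space3 → ℝ) {k K : ℕ} (h : k ≤ K) : DK Φ k ≤ DK Φ K := by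
  have hB := stabB_nonneg Φ
  have h1 : (k : ℝ) ≤ K := by exact_mod_cast h
  have h0 : (0 : ℝ) ≤ k := Nat.cast_nonneg _
  unfold DK
  gcongr

theorem grp_univ_dom {k : ℕ} (hε : 0 < ε) {V : Config k} (hV : V ∈ PairExcluded ε k) :
    grp Finset.univ V ∈ Dom Φ (Finset.univ : Finset (Fin k)) := by
  have h1 := pairExcluded_subset_Dom (Φ := Φ) hε k hV
  exact Dom_comp (e := Function.Embedding.subtype fun i => i ∈ (Finset.univ : Finset (Fin k))) h1

theorem grp_univ_energy (hΦ : AdmissiblePotential Φ) {k : ℕ} (hε : 0 < ε) {V : Config k}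
    (hV : V ∈ PairExcluded ε k) : energy Φ ε (grp Finset.univ V) = kin V := by
  rw [← energy_pairExcluded hΦ hε hV]
  exact energy_equiv Φ ε (Equiv.subtypeUnivEquiv (fun x : Fin k => Finset.mem_univ x)) V

/-- speed of a member of a group reached by a chain -/
theorem dist_group (hΦ : AdmissiblePotential Φ) (hε : 0 < ε) {k : ℕ} {V : Config k}
    (hV : V ∈ PairExcluded ε k) {A : Finset (Fin k)} {W : A → PhasePoint}
    (h : Chain Φ ε T Finset.univ (grp Finset.univ V) A W) (i : A) (t t' : ℝ) :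
    dist (flow Φ ε t W i).1 (flow Φ ε t' W i).1 ≤ vD (DK Φ k) V * |t - t'| := by
  have hB := stabB_nonneg Φ
  have hdom : W ∈ Dom Φ A := h.dom' hΦ hε (grp_univ_dom hε hV)
  have h1 := dist_pos_flow_le hΦ hε hdom t' t i
  refine h1.trans (mul_le_mul_of_nonneg_right ?_ (abs_nonneg _))
  unfold vD
  refine Real.sqrt_le_sqrt ?_
  have h2 := chain_energy hΦ hε k h (by rw [Finset.card_univ, Fintype.card_fin])
  rw [grp_univ_energy hΦ hε hV, Finset.card_univ, Fintype.card_fin] at h2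
  rw [Fintype.card_coe]
  have h3 : A.card ≤ k := by
    have := Finset.card_le_univ A
    rwa [Fintype.card_fin] at this
  have h4 : (A.card : ℝ) ≤ k := by exact_mod_cast h3
  have h5 : stabB Φ * A.card ≤ stabB Φ * k := mul_le_mul_of_nonneg_left h4 hB
  have h6 : 0 ≤ stabB Φ * k * k * A.card := by positivity
  unfold DK
  linarith

theorem badPos_move (hΦ : AdmissiblePotential Φ) (hε : 0 < ε) {k : ℕ} {V : Config k}
    (hV : V ∈ PairExcluded ε k) {i : Fin k} {t : ℝ} {x : Space3}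
    (h : BadPos Φ ε T te V i t x) (t' : ℝ) :
    ∃ x', BadPos Φ ε T te V i t' x' ∧ dist x x' ≤ vD (DK Φ k) V * |t - t'| := by
  obtain ⟨A', W', hc, h⟩ := h
  rcases h with ⟨s, hs, A₂, W₂, h1, h2, i', hi', rfl⟩ | ⟨h1, h2, i', hi', rfl⟩ |
    ⟨h2, i', hi', rfl⟩
  · exact ⟨(flow Φ ε t' W₂ i').1, ⟨A', W', hc, Or.inl ⟨s, hs, A₂, W₂, h1, h2, i', hi', rfl⟩⟩,
      dist_group hΦ hε hV (hc.trans (Chain.single hs h1)) i' t t'⟩
  · exact ⟨(flow Φ ε t' W' i').1, ⟨A', W', hc, Or.inr (Or.inl ⟨h1, h2, i', hi', rfl⟩)⟩,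
      dist_group hΦ hε hV hc i' t t'⟩
  · exact ⟨(flow Φ ε t' W' i').1, ⟨A', W', hc, Or.inr (Or.inr ⟨h2, i', hi', rfl⟩)⟩,
      dist_group hΦ hε hV hc i' t t'⟩

theorem vD_mono {D D' : ℝ} (h : D ≤ D') {k : ℕ} (V : Config k) : vD D V ≤ vD D' V := by
  unfold vD
  exact Real.sqrt_le_sqrt (by linarith)

end Crest.Agent.R122.BadMove416

end
end

-- ▼ part R122/HitClass_416
section

/-!
# Row 122 (helper416): `HitClass` from the volume statement `BadVolP`
-/

set_option autoImplicit false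
set_option linter.unusedSectionVars false
set_option maxHeartbeats 400000

open MeasureTheory Set Filter Topology
open Crest.AnalysisR.Kinetic
open Crest.Agent.R122.Loc45 Crest.Agent.R122.Vol365 Crest.Agent.R122.GC311
open Crest.Agent.R122.Flow671 Crest.Agent.R122.NG416 Crest.Agent.R122.HitAbs416
open Crest.Agent.R122.BadPos416 Crest.Agent.R122.Chain726 Crest.Agent.R122.BadMove416
open scoped ENNReal NNReal Classical

noncomputable section

namespace Crest.Agent.R122.HitClass416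

/-! ## Change of pin between two groups -/

section pin

variable {J κ : Type*} [Fintype J] [Fintype κ]

/-- joint translation invariance of the product measure -/
theorem lintegral_shift2 (a : Space3) {F : (J → PhasePoint) → (κ → PhasePoint) → ℝ≥0∞} :
    ∫⁻ Z, ∫⁻ V, F (shiftX a Z) (shiftX a V) = ∫⁻ Z, ∫⁻ V, F Z V := by
  have h1 : ∀ Z, ∫⁻ V, F (shiftX a Z) (shiftX a V) = ∫⁻ V, F (shiftX a Z) V := fun Z =>
    lintegral_shiftX a fun V => F (shiftX a Z) V
  simp_rw [h1]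
  exact lintegral_shiftX a fun Z => ∫⁻ V, F Z V

theorem pin_switch {F : (J → PhasePoint) → (κ → PhasePoint) → ℝ≥0∞}
    (hF : Measurable (Function.uncurry F))
    (hinv : ∀ a Z V, F (shiftX a Z) (shiftX a V) = F Z V) {q : (J → PhasePoint) → Space3}
    (hq : Pin q) {r : (κ → PhasePoint) → Space3} (hr : Pin r) {h h' : Space3 → ℝ≥0∞}
    (hh : Measurable h) (hh' : Measurable h') (h1 : ∫⁻ x, h' x = 1) :
    ∫⁻ Z, ∫⁻ V, h (r V) * F Z V = (∫⁻ x, h x) * ∫⁻ Z, ∫⁻ V, h' (q Z) * F Z V := by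
  have mF : ∀ Z, Measurable fun V => F Z V := fun Z =>
    hF.comp (measurable_const.prodMk measurable_id)
  -- insert the integral of `h'`
  have e1 : ∀ (Z : J → PhasePoint) (V : κ → PhasePoint),
      h (r V) * F Z V = ∫⁻ a, h' (q (shiftX a Z)) * (h (r V) * F Z V) := by
    intro Z V
    have hm : Measurable fun a : Space3 => h' (q (shiftX a Z)) :=
      (hh'.comp hq.1).comp (measurable_shiftX2.comp (measurable_id.prodMk measurable_const))
    rw [lintegral_mul_const _ hm]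
    have : ∫⁻ a, h' (q (shiftX a Z)) = 1 := by
      simp_rw [hq.2]
      rw [lintegral_add_left_eq_self (fun a => h' a) (q Z), h1]
    rw [this, one_mul]
  have mG : Measurable fun p : ((J → PhasePoint) × (κ → PhasePoint)) × Space3 =>
      h' (q (shiftX p.2 p.1.1)) * (h (r p.1.2) * F p.1.1 p.1.2) := by
    refine Measurable.mul ?_ (Measurable.mul ?_ ?_)
    · exact (hh'.comp hq.1).comp (measurable_shiftX2.comp (measurable_snd.prodMk measurable_fst.fst))
    · exact (hh.comp hr.1).comp measurable_fst.snd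
    · exact hF.comp measurable_fst
  have mG' : Measurable fun p : ((J → PhasePoint) × (κ → PhasePoint)) × Space3 =>
      h' (q p.1.1) * (h (r (shiftX (-p.2) p.1.2)) * F p.1.1 p.1.2) := by
    refine Measurable.mul ?_ (Measurable.mul ?_ ?_)
    · exact (hh'.comp hq.1).comp measurable_fst.fst
    · exact (hh.comp hr.1).comp (measurable_shiftX2.comp (measurable_snd.neg.prodMk measurable_fst.snd))
    · exact hF.comp measurable_fst
  -- Tonelli for three variables
  have swap : ∀ {G : (J → PhasePoint) → (κ → PhasePoint) → Space3 → ℝ≥0∞},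
      (Measurable fun p : ((J → PhasePoint) × (κ → PhasePoint)) × Space3 => G p.1.1 p.1.2 p.2) →
      ∫⁻ Z, ∫⁻ V, ∫⁻ a, G Z V a = ∫⁻ a, ∫⁻ Z, ∫⁻ V, G Z V a := by
    intro G hG
    have m1 : ∀ Z, Measurable fun p : (κ → PhasePoint) × Space3 => G Z p.1 p.2 := fun Z =>
      hG.comp ((measurable_const.prodMk measurable_fst).prodMk measurable_snd)
    have s1 : ∀ Z, ∫⁻ V, ∫⁻ a, G Z V a = ∫⁻ a, ∫⁻ V, G Z V a := fun Z =>
      lintegral_lintegral_swap (μ := (volume : Measure (κ → PhasePoint)))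
        (ν := (volume : Measure Space3)) (f := fun V a => G Z V a) (m1 Z).aemeasurable
    simp_rw [s1]
    have m2 : Measurable fun p : (J → PhasePoint) × Space3 => ∫⁻ V, G p.1 V p.2 := by
      have m3 : Measurable fun p : ((J → PhasePoint) × Space3) × (κ → PhasePoint) =>
          G p.1.1 p.2 p.1.2 :=
        hG.comp ((measurable_fst.fst.prodMk measurable_snd).prodMk measurable_fst.snd)
      exact m3.lintegral_prod_right'
    exact lintegral_lintegral_swap (μ := (volume : Measure (J → PhasePoint)))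
      (ν := (volume : Measure Space3)) (f := fun Z a => ∫⁻ V, G Z V a) m2.aemeasurable
  calc ∫⁻ Z, ∫⁻ V, h (r V) * F Z V
      = ∫⁻ Z, ∫⁻ V, ∫⁻ a, h' (q (shiftX a Z)) * (h (r V) * F Z V) :=
        lintegral_congr fun Z => lintegral_congr fun V => e1 Z V
    _ = ∫⁻ a, ∫⁻ Z, ∫⁻ V, h' (q (shiftX a Z)) * (h (r V) * F Z V) :=
        swap (G := fun Z V a => h' (q (shiftX a Z)) * (h (r V) * F Z V)) mG
    _ = ∫⁻ a, ∫⁻ Z, ∫⁻ V, h' (q Z) * (h (r (shiftX (-a) V)) * F Z V) := by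
        refine lintegral_congr fun a => ?_
        rw [← lintegral_shift2 (-a) (F := fun Z V => h' (q (shiftX a Z)) * (h (r V) * F Z V))]
        refine lintegral_congr fun Z => lintegral_congr fun V => ?_
        rw [shiftX_neg, hinv]
    _ = ∫⁻ Z, ∫⁻ V, ∫⁻ a, h' (q Z) * (h (r (shiftX (-a) V)) * F Z V) :=
        (swap (G := fun Z V a => h' (q Z) * (h (r (shiftX (-a) V)) * F Z V)) mG').symm
    _ = ∫⁻ Z, ∫⁻ V, (∫⁻ x, h x) * (h' (q Z) * F Z V) := by
        refine lintegral_congr fun Z => lintegral_congr fun V => ?_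
        have hm : Measurable fun a : Space3 => h (r (shiftX (-a) V)) :=
          (hh.comp hr.1).comp (measurable_shiftX2.comp (measurable_id.neg.prodMk measurable_const))
        rw [lintegral_const_mul _ (hm.mul_const _), lintegral_mul_const _ hm]
        have : ∫⁻ a, h (r (shiftX (-a) V)) = ∫⁻ x, h x := by
          simp_rw [hr.2]
          rw [lintegral_neg_eq_self (μ := (volume : Measure Space3)) (fun a => h (r V + a))]
          exact lintegral_add_left_eq_self (fun a => h a) (r V)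
        rw [this]
        ring
    _ = _ := by
        have m4 : Measurable fun p : (J → PhasePoint) × (κ → PhasePoint) =>
            h' (q p.1) * F p.1 p.2 := ((hh'.comp hq.1).comp measurable_fst).mul hF
        have m5 : ∀ Z, Measurable fun V => h' (q Z) * F Z V := fun Z => (mF Z).const_mul _
        have e2 : ∀ Z, ∫⁻ V, (∫⁻ x, h x) * (h' (q Z) * F Z V) =
            (∫⁻ x, h x) * ∫⁻ V, h' (q Z) * F Z V := fun Z => lintegral_const_mul _ (m5 Z)
        simp_rw [e2]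
        exact lintegral_const_mul _ m4.lintegral_prod_right'

end pin

/-- The bound at fixed `ε`. -/
def HitAt (Φ : Space3 → ℝ) (T te T' : ℝ) (J : Type) [Fintype J] (j₀ : J) (γ R : ℝ) (K : ℕ)
    (ε : ℝ) (δ : ℝ≥0∞) : Prop :=
  ∀ (Ω : Type) [MeasurableSpace Ω] (G : Ω → (J → PhasePoint) → ℝ≥0∞)
      (c : Ω → (J → PhasePoint) → ℝ → Space3) (Λ : Ω → (J → PhasePoint) → ℝ≥0),
      Measurable (Function.uncurry G) → (∀ ω a Z, G ω (shiftX a Z) = G ω Z) →
      (∀ t, Measurable fun p : Ω × (J → PhasePoint) => c p.1 p.2 t) →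
      (∀ ω a Z t, c ω (shiftX a Z) t = c ω Z t + a) →
      (∀ ω Z, LipschitzOnWith (Λ ω Z) (c ω Z) (Icc 0 T)) →
      Measurable (Function.uncurry Λ) → (∀ ω a Z, Λ ω (shiftX a Z) = Λ ω Z) →
      ∃ H : (k : ℕ) → Ω × (J → PhasePoint) × Config k → ℝ≥0∞, (∀ k, Measurable (H k)) ∧
        (∀ k ≤ K, ∀ ω Z, ∀ V ∈ PairExcluded ε k, ∀ i t x, t ∈ Icc 0 T →
          BadPos Φ ε T' te V i t x → dist x (c ω Z t) ≤ R * ε → 1 ≤ H k (ω, Z, V)) ∧
        ∀ k ≤ K, ∀ (ω : Ω) (i : Fin k) (env : Space3 → ℝ≥0∞), Measurable env →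
          (∫⁻ Z, G ω Z * ∫⁻ V : Config k, env (V i).1 *
            ((∏ l, ENNReal.ofReal (Real.exp (-γ * ‖(V l).2‖ ^ 2))) * H k (ω, Z, V))) ≤
          δ * ENNReal.ofReal (ε ^ 2) ^ k * (∫⁻ x, env x) *
            ∫⁻ Z, hb (Z j₀).1 * (G ω Z * (1 + (Λ ω Z : ℝ≥0∞)))

section

variable {Φ : Space3 → ℝ} {T te T' : ℝ} {J : Type} [Fintype J] {j₀ : J} {γ R : ℝ} {K : ℕ}

theorem HitAt.mono {ε : ℝ} {δ δ' : ℝ≥0∞} (h : HitAt Φ T te T' J j₀ γ R K ε δ) (hδ : δ ≤ δ') :
    HitAt Φ T te T' J j₀ γ R K ε δ' := by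
  intro Ω _ G c Λ h1 h2 h3 h4 h5 h6 h7
  obtain ⟨H, hH1, hH2, hH3⟩ := h Ω G c Λ h1 h2 h3 h4 h5 h6 h7
  refine ⟨H, hH1, hH2, fun k hk ω i env henv => (hH3 k hk ω i env henv).trans ?_⟩
  exact mul_le_mul_left (mul_le_mul_left (mul_le_mul_left hδ _) _) _

theorem gauss_eq_gwc (γ : ℝ) {k : ℕ} (V : Config k) :
    ∏ l, ENNReal.ofReal (Real.exp (-γ * ‖(V l).2‖ ^ 2)) = gwc γ V := by
  unfold gwc gw
  refine Finset.prod_congr rfl fun l _ => ?_
  rw [neg_mul]

/-- the trivial bound -/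
theorem hitAt_top {ε : ℝ} (hε : 0 < ε) : HitAt Φ T te T' J j₀ γ R K ε ∞ := by
  intro Ω _ G c Λ h1 h2 h3 h4 h5 h6 h7
  refine ⟨fun _ _ => 1, fun _ => measurable_const, fun _ _ _ _ _ _ _ _ _ _ _ _ => le_rfl, ?_⟩
  intro k hk ω i env henv
  have hε2 : ENNReal.ofReal (ε ^ 2) ^ k ≠ 0 := pow_ne_zero _ (ENNReal.ofReal_pos.2 (by positivity)).ne'
  have hGm : Measurable (G ω) := h1.comp (measurable_const.prodMk measurable_id)
  simp only [gauss_eq_gwc, mul_one]
  have e1 : ∫⁻ V : Config k, env (V i).1 * gwc γ V =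
      (∫⁻ x, env x) * ∫⁻ V : Config k, hb (V i).1 * gwc γ V :=
    lintegral_pin (pin_apply i) (pin_apply i) (tinv_gwc γ) henv measurable_hb lintegral_hb
  rw [e1]
  have e2 : ∫⁻ Z, G ω Z * ((∫⁻ x, env x) * ∫⁻ V : Config k, hb (V i).1 * gwc γ V) =
      (∫⁻ Z, G ω Z) * ((∫⁻ x, env x) * ∫⁻ V : Config k, hb (V i).1 * gwc γ V) :=
    lintegral_mul_const _ hGm
  rw [e2]
  by_cases he : ∫⁻ x, env x = 0
  · simp [he]
  by_cases hg : ∫⁻ Z, hb (Z j₀).1 * (G ω Z * (1 + (Λ ω Z : ℝ≥0∞))) = 0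
  · have h8 : ∫⁻ Z, hb (Z j₀).1 * (G ω Z * avg (fun _ => 1) Z) = 0 := by
      have hle : ∫⁻ Z, hb (Z j₀).1 * (G ω Z * avg (fun _ => 1) Z) ≤
          ∫⁻ Z, ∞ * (hb (Z j₀).1 * (G ω Z * (1 + (Λ ω Z : ℝ≥0∞)))) := by
        refine lintegral_mono fun Z => ?_
        have h9 : avg (fun _ : J → PhasePoint => (1 : ℝ≥0∞)) Z ≤ ∞ * (1 + (Λ ω Z : ℝ≥0∞)) := by
          rw [ENNReal.top_mul (by simp)]
          exact le_top
        calc hb (Z j₀).1 * (G ω Z * avg (fun _ => 1) Z)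
            ≤ hb (Z j₀).1 * (G ω Z * (∞ * (1 + (Λ ω Z : ℝ≥0∞)))) :=
              mul_le_mul_right (mul_le_mul_right h9 _) _
          _ = _ := by ring
      have hm : Measurable fun Z => hb (Z j₀).1 * (G ω Z * (1 + (Λ ω Z : ℝ≥0∞))) := by
        have h10 : Measurable (Λ ω) := h6.comp (measurable_const.prodMk measurable_id)
        exact (measurable_hb.comp (measurable_pi_apply j₀).fst).mul
          (hGm.mul (h10.coe_nnreal_ennreal.const_add 1))
      have h10 : ∫⁻ Z, ∞ * (hb (Z j₀).1 * (G ω Z * (1 + (Λ ω Z : ℝ≥0∞)))) =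
          ∞ * ∫⁻ Z, hb (Z j₀).1 * (G ω Z * (1 + (Λ ω Z : ℝ≥0∞))) := lintegral_const_mul _ hm
      rw [h10, hg, mul_zero] at hle
      exact le_antisymm hle bot_le
    have h11 := lintegral_unpin (pin_apply j₀) (G := G ω) ⟨hGm, fun a Z => h2 ω a Z⟩
      (J := fun _ => 1) measurable_const measurable_hb lintegral_hb
    simp only [one_mul] at h11
    rw [h11, h8]
    simp
  · have h12 : ∞ * ENNReal.ofReal (ε ^ 2) ^ k * (∫⁻ x, env x) *
        ∫⁻ Z, hb (Z j₀).1 * (G ω Z * (1 + (Λ ω Z : ℝ≥0∞))) = ∞ := by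
      rw [ENNReal.top_mul hε2, ENNReal.top_mul he, ENNReal.top_mul hg]
    rw [h12]
    exact le_top

/-- one root: change of pin and bound -/
theorem one_root {J : Type} [Fintype J] {j₀ : J} {γ : ℝ} {k : ℕ} (i : Fin k)
    {G : (J → PhasePoint) → ℝ≥0∞} (hG : Measurable G) (hG2 : ∀ a Z, G (shiftX a Z) = G Z)
    {X : (J → PhasePoint) → Config k → ℝ≥0∞} (hX : Measurable (Function.uncurry X))
    (hX2 : ∀ a Z V, X (shiftX a Z) (shiftX a V) = X Z V)
    {L : (J → PhasePoint) → ℝ≥0∞} (hL : Measurable L) {B : ℝ≥0∞}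
    (hB : ∀ Z, ∫⁻ V : Config k, gwc γ V * X Z V ≤ B * L Z)
    {env : Space3 → ℝ≥0∞} (henv : Measurable env) :
    ∫⁻ Z, ∫⁻ V : Config k, env (V i).1 * (G Z * (gwc γ V * X Z V)) ≤
      (∫⁻ x, env x) * (B * ∫⁻ Z, hb (Z j₀).1 * (G Z * L Z)) := by
  have hF : Measurable (Function.uncurry fun (Z : J → PhasePoint) (V : Config k) =>
      G Z * (gwc γ V * X Z V)) :=
    (hG.comp measurable_fst).mul (((measurable_gwc γ).comp measurable_snd).mul hX)
  have hinv : ∀ a (Z : J → PhasePoint) (V : Config k), G (shiftX a Z) *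
      (gwc γ (shiftX a V) * X (shiftX a Z) (shiftX a V)) = G Z * (gwc γ V * X Z V) := by
    intro a Z V
    rw [hG2, gwc_shiftX, hX2]
  have e0 := pin_switch (F := fun (Z : J → PhasePoint) (V : Config k) =>
      G Z * (gwc γ V * X Z V)) hF hinv (pin_apply j₀) (pin_apply i) henv measurable_hb lintegral_hb
  rw [e0]
  refine mul_le_mul_right ?_ _
  have e3 : ∀ Z, ∫⁻ V : Config k, hb (Z j₀).1 * (G Z * (gwc γ V * X Z V)) =
      hb (Z j₀).1 * (G Z * ∫⁻ V : Config k, gwc γ V * X Z V) := by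
    intro Z
    have hm : Measurable fun V : Config k => gwc γ V * X Z V :=
      (measurable_gwc γ).mul (hX.comp (measurable_const.prodMk measurable_id))
    rw [lintegral_const_mul _ (hm.const_mul _), lintegral_const_mul _ hm]
  simp_rw [e3]
  have hm5 : Measurable fun Z => hb (Z j₀).1 * (G Z * L Z) :=
    (measurable_hb.comp (measurable_pi_apply j₀).fst).mul (hG.mul hL)
  rw [← lintegral_const_mul B hm5]
  refine lintegral_mono fun Z => ?_
  calc hb (Z j₀).1 * (G Z * ∫⁻ V : Config k, gwc γ V * X Z V)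
      ≤ hb (Z j₀).1 * (G Z * (B * L Z)) := mul_le_mul_right (mul_le_mul_right (hB Z) _) _
    _ = _ := by ring

/-- sum over the roots -/
theorem sum_roots {J : Type} [Fintype J] {γ : ℝ} {k : ℕ} (i : Fin k)
    {G : (J → PhasePoint) → ℝ≥0∞} (hG : Measurable G)
    {X : Fin k → (J → PhasePoint) → Config k → ℝ≥0∞}
    (hX : ∀ j, Measurable (Function.uncurry (X j)))
    {env : Space3 → ℝ≥0∞} (henv : Measurable env) :
    ∫⁻ Z, G Z * ∫⁻ V : Config k, env (V i).1 * (gwc γ V * ∑ j, X j Z V) =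
      ∑ j, ∫⁻ Z, ∫⁻ V : Config k, env (V i).1 * (G Z * (gwc γ V * X j Z V)) := by
  have he : Measurable fun V : Config k => env (V i).1 := henv.comp (measurable_pi_apply i).fst
  have hmj : ∀ j : Fin k, Measurable fun p : (J → PhasePoint) × Config k =>
      env (p.2 i).1 * (G p.1 * (gwc γ p.2 * X j p.1 p.2)) := by
    intro j
    exact (he.comp measurable_snd).mul
      ((hG.comp measurable_fst).mul (((measurable_gwc γ).comp measurable_snd).mul (hX j)))
  have hin : ∀ j, Measurable fun Z : J → PhasePoint => ∫⁻ V : Config k,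
      env (V i).1 * (G Z * (gwc γ V * X j Z V)) := fun j => (hmj j).lintegral_prod_right'
  rw [← lintegral_finsetSum _ fun j _ => hin j]
  refine lintegral_congr fun Z => ?_
  have hXZ : ∀ j, Measurable fun V : Config k => X j Z V := fun j =>
    (hX j).comp (measurable_const.prodMk measurable_id)
  have hmZ : ∀ j, Measurable fun V : Config k => env (V i).1 * (G Z * (gwc γ V * X j Z V)) :=
    fun j => he.mul (((measurable_gwc γ).mul (hXZ j)).const_mul _)
  rw [← lintegral_finsetSum _ fun j _ => hmZ j]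
  have hmS : Measurable fun V : Config k => env (V i).1 * (gwc γ V * ∑ j, X j Z V) :=
    he.mul ((measurable_gwc γ).mul (Finset.measurable_sum _ fun j _ => hXZ j))
  rw [← lintegral_const_mul _ hmS]
  refine lintegral_congr fun V => ?_
  rw [Finset.mul_sum, Finset.mul_sum, Finset.mul_sum]
  refine Finset.sum_congr rfl fun j _ => ?_
  ring

theorem ceil_bound (l : ℝ≥0) : ENNReal.ofReal (1 + (⌈(l : ℝ)⌉₊ : ℝ)) ≤ 2 * (1 + (l : ℝ≥0∞)) := by
  have h10 : (⌈(l : ℝ)⌉₊ : ℝ) ≤ l + 1 := (Nat.ceil_lt_add_one (NNReal.coe_nonneg _)).le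
  have h11 : (1 : ℝ) + ⌈(l : ℝ)⌉₊ ≤ 2 * (1 + l) := by
    have := NNReal.coe_nonneg l
    linarith
  refine (ENNReal.ofReal_le_ofReal h11).trans (le_of_eq ?_)
  rw [ENNReal.ofReal_mul (by norm_num), ENNReal.ofReal_add (by norm_num)
    (NNReal.coe_nonneg _), ENNReal.ofReal_one, ENNReal.ofReal_coe_nnreal]
  norm_num

/-- arithmetic of the powers of `ε` -/
theorem eps_arith {ε : ℝ} (hε : 0 < ε) (hT : 0 ≤ T) {R' δ' : ℝ} (hR : 0 ≤ R') (hδ : 0 ≤ δ') {k : ℕ}
    (hk : 1 ≤ k) : ENNReal.ofReal ((T + 3) / ε) *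
      (ENNReal.ofReal (δ' * ε ^ (2 * (k - 1))) * volume (Metric.closedBall (0 : Space3) (3 * (R' * ε)))) =
    ENNReal.ofReal (27 * (T + 3) * R' ^ 3) * volume (Metric.closedBall (0 : Space3) 1) *
      ENNReal.ofReal δ' * ENNReal.ofReal (ε ^ 2) ^ k := by
  have hv : volume (Metric.closedBall (0 : Space3) (3 * (R' * ε))) =
      ENNReal.ofReal (27 * R' ^ 3 * ε ^ 3) * volume (Metric.closedBall (0 : Space3) 1) := by
    rw [EuclideanSpace.volume_closedBall_fin_three, EuclideanSpace.volume_closedBall_fin_three,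
      ENNReal.ofReal_one, one_pow, one_mul, ← ENNReal.ofReal_pow (by positivity)]
    congr 2
    ring
  obtain ⟨m, rfl⟩ := Nat.exists_eq_add_of_le' hk
  have h2 : m + 1 - 1 = m := by omega
  rw [hv, h2, ← ENNReal.ofReal_pow (by positivity)]
  have e : ENNReal.ofReal ((T + 3) / ε) * (ENNReal.ofReal (δ' * ε ^ (2 * m)) *
      (ENNReal.ofReal (27 * R' ^ 3 * ε ^ 3) * volume (Metric.closedBall (0 : Space3) 1))) =
      (ENNReal.ofReal ((T + 3) / ε) * ENNReal.ofReal (δ' * ε ^ (2 * m)) *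
        ENNReal.ofReal (27 * R' ^ 3 * ε ^ 3)) * volume (Metric.closedBall (0 : Space3) 1) := by ring
  have e' : ENNReal.ofReal (27 * (T + 3) * R' ^ 3) * volume (Metric.closedBall (0 : Space3) 1) *
      ENNReal.ofReal δ' * ENNReal.ofReal ((ε ^ 2) ^ (m + 1)) =
      (ENNReal.ofReal (27 * (T + 3) * R' ^ 3) * ENNReal.ofReal δ' *
        ENNReal.ofReal ((ε ^ 2) ^ (m + 1))) * volume (Metric.closedBall (0 : Space3) 1) := by ring
  rw [e, e', ← ENNReal.ofReal_mul (by positivity), ← ENNReal.ofReal_mul (by positivity),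
    ← ENNReal.ofReal_mul (by positivity), ← ENNReal.ofReal_mul (by positivity)]
  congr 2
  field_simp
  ring

theorem hitAt_of (hΦ : AdmissiblePotential Φ) {ε : ℝ} (hε : 0 < ε) (hε1 : ε ≤ 1) (hT : 0 ≤ T)
    (hγ : 0 < γ) {R' : ℝ} (hR1 : 1 ≤ R') (hRR : R ≤ R') {δ' : ℝ} (hδ' : 0 ≤ δ')
    (hM : ∀ k ≤ K, ∀ (j : Fin k) (t : ℝ), ∃ M : Config k → ℝ≥0∞, Measurable M ∧
      (∀ V ∈ PairExcluded ε k, ∀ x, BadPos Φ ε T' te V j t x →
        (Metric.closedBall (0 : Space3) (3 * (R' * ε))).indicator (fun _ => 1) x ≤ M V) ∧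
      ∫⁻ V, gwc (γ / 2) V * M V ≤ ENNReal.ofReal (δ' * ε ^ (2 * (k - 1))) *
        volume (Metric.closedBall (0 : Space3) (3 * (R' * ε)))) :
    HitAt Φ T te T' J j₀ γ R K ε ((K : ℝ≥0∞) * (SC γ (DK Φ K) * 2 *
      (ENNReal.ofReal (27 * (T + 3) * R' ^ 3) * volume (Metric.closedBall (0 : Space3) 1) *
        ENNReal.ofReal δ'))) := by
  choose M hM1 hM2 hM3 using hM
  intro Ω _ G c Λ h1 h2 h3 h4 h5 h6 h7
  have hceil : Measurable fun p : Ω × (J → PhasePoint) => ⌈(Λ p.1 p.2 : ℝ)⌉₊ :=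
    Nat.measurable_ceil.comp (measurable_coe_nnreal_real.comp h6)
  have hHm : ∀ (k : ℕ) (hk : k ≤ K) (j : Fin k), Measurable
      fun p : Ω × (J → PhasePoint) × Config k => HH T (R' * ε) (DK Φ K) (M k hk j)
        ⌈(Λ p.1 p.2.1 : ℝ)⌉₊ (c p.1 p.2.1) p.2.2 := by
    intro k hk j
    have hA : Measurable fun p : Ω × (J → PhasePoint) × Config k => (p.1, p.2.1) :=
      measurable_fst.prodMk measurable_snd.fst
    exact measurable_HH (hM1 k hk j) (hceil.comp hA) (fun t => (h3 t).comp hA) measurable_snd.snd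
  refine ⟨fun k p => if hk : k ≤ K then ∑ j, HH T (R' * ε) (DK Φ K) (M k hk j)
    ⌈(Λ p.1 p.2.1 : ℝ)⌉₊ (c p.1 p.2.1) p.2.2 else 0, ?_, ?_, ?_⟩
  · intro k
    by_cases hk : k ≤ K
    · simp only [dif_pos hk]
      exact Finset.measurable_sum _ fun j _ => hHm k hk j
    · simp only [dif_neg hk]
      exact measurable_const
  · intro k hk ω Z V hV i t x ht hx hd
    simp only [dif_pos hk]
    have hlip : ∀ s ∈ Icc 0 T, ∀ s' ∈ Icc 0 T,
        dist (c ω Z s) (c ω Z s') ≤ (⌈(Λ ω Z : ℝ)⌉₊ : ℝ) * |s - s'| := by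
      intro s hs s' hs'
      refine ((h5 ω Z).dist_le_mul s hs s' hs').trans ?_
      rw [Real.dist_eq]
      exact mul_le_mul_of_nonneg_right (Nat.le_ceil _) (abs_nonneg _)
    have h8 := one_le_HH (T := T) (R := R') (ε := ε) (D := DK Φ K) hT (by linarith) hε
      (P := fun V t x => BadPos Φ ε T' te V i t x)
      (fun V t x a h => h.shift hΦ hε a)
      (fun V hV t x h t' => by
        obtain ⟨x', h9, h10⟩ := badPos_move hΦ hε hV h t'
        exact ⟨x', h9, h10.trans (mul_le_mul_of_nonneg_right (vD_mono (DK_mono Φ hk) V)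
          (abs_nonneg _))⟩)
      (M := M k hk i) (fun t V hV x h => hM2 k hk i t V hV x h) hlip hV ht hx
      (hd.trans (mul_le_mul_of_nonneg_right hRR hε.le))
    exact h8.trans (Finset.single_le_sum (f := fun j => HH T (R' * ε) (DK Φ K) (M k hk j)
      ⌈(Λ ω Z : ℝ)⌉₊ (c ω Z) V) (fun _ _ => bot_le) (Finset.mem_univ i))
  · intro k hk ω i env henv
    simp only [dif_pos hk, gauss_eq_gwc]
    have hGm : Measurable (G ω) := h1.comp (measurable_const.prodMk measurable_id)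
    have hΛm : Measurable (Λ ω) := h6.comp (measurable_const.prodMk measurable_id)
    have hk1 : 1 ≤ k := by
      have := i.isLt
      omega
    set B : ℝ≥0∞ := (SC γ (DK Φ K) * 2 * (ENNReal.ofReal (27 * (T + 3) * R' ^ 3) *
          volume (Metric.closedBall (0 : Space3) 1) * ENNReal.ofReal δ')) *
          ENNReal.ofReal (ε ^ 2) ^ k with hB
    set X : Fin k → (J → PhasePoint) → Config k → ℝ≥0∞ := fun j Z V =>
      HH T (R' * ε) (DK Φ K) (M k hk j) ⌈(Λ ω Z : ℝ)⌉₊ (c ω Z) V with hXdef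
    have hXm : ∀ j, Measurable (Function.uncurry (X j)) := by
      intro j
      have hA : Measurable fun p : (J → PhasePoint) × Config k => (ω, (p.1, p.2)) :=
        measurable_const.prodMk (measurable_fst.prodMk measurable_snd)
      exact Measurable.comp (g := fun p : Ω × (J → PhasePoint) × Config k => HH T (R' * ε)
        (DK Φ K) (M k hk j) ⌈(Λ p.1 p.2.1 : ℝ)⌉₊ (c p.1 p.2.1) p.2.2)
        (f := fun p : (J → PhasePoint) × Config k => (ω, (p.1, p.2))) (hHm k hk j) hA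
    have hX2 : ∀ j a Z V, X j (shiftX a Z) (shiftX a V) = X j Z V := by
      intro j a Z V
      have e1 : c ω (shiftX a Z) = fun t => c ω Z t + a := funext fun t => h4 ω a Z t
      simp only [hXdef, h7, e1, HH_shift]
    have hXB : ∀ j Z, ∫⁻ V : Config k, gwc γ V * X j Z V ≤ B * (1 + (Λ ω Z : ℝ≥0∞)) := by
      intro j Z
      refine (lintegral_HH_le hT hR1 hε hε1 hγ (DK_nonneg Φ K) (hM1 k hk j)
        (fun t => hM3 k hk j t) _ _).trans ?_
      have h9 := ceil_bound (Λ ω Z)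
      calc SC γ (DK Φ K) * ENNReal.ofReal ((T + 3) / ε) *
            ENNReal.ofReal (1 + (⌈(Λ ω Z : ℝ)⌉₊ : ℝ)) *
            (ENNReal.ofReal (δ' * ε ^ (2 * (k - 1))) *
              volume (Metric.closedBall (0 : Space3) (3 * (R' * ε))))
          = SC γ (DK Φ K) * ENNReal.ofReal (1 + (⌈(Λ ω Z : ℝ)⌉₊ : ℝ)) *
            (ENNReal.ofReal ((T + 3) / ε) * (ENNReal.ofReal (δ' * ε ^ (2 * (k - 1))) *
              volume (Metric.closedBall (0 : Space3) (3 * (R' * ε))))) := by ring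
        _ = SC γ (DK Φ K) * ENNReal.ofReal (1 + (⌈(Λ ω Z : ℝ)⌉₊ : ℝ)) *
            (ENNReal.ofReal (27 * (T + 3) * R' ^ 3) *
              volume (Metric.closedBall (0 : Space3) 1) * ENNReal.ofReal δ' *
              ENNReal.ofReal (ε ^ 2) ^ k) := by
            rw [eps_arith hε hT (by linarith) hδ' hk1]
        _ ≤ SC γ (DK Φ K) * (2 * (1 + (Λ ω Z : ℝ≥0∞))) *
            (ENNReal.ofReal (27 * (T + 3) * R' ^ 3) *
              volume (Metric.closedBall (0 : Space3) 1) * ENNReal.ofReal δ' *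
              ENNReal.ofReal (ε ^ 2) ^ k) :=
            mul_le_mul_left (mul_le_mul_right h9 _) _
        _ = _ := by rw [hB]; ring
    have hLm : Measurable fun Z => (1 + (Λ ω Z : ℝ≥0∞)) := hΛm.coe_nnreal_ennreal.const_add 1
    have hone : ∀ j : Fin k, ∫⁻ Z, ∫⁻ V : Config k, env (V i).1 * (G ω Z * (gwc γ V * X j Z V)) ≤
        (∫⁻ x, env x) * (B * ∫⁻ Z, hb (Z j₀).1 * (G ω Z * (1 + (Λ ω Z : ℝ≥0∞)))) := fun j =>
      one_root i hGm (fun a Z => h2 ω a Z) (hXm j) (hX2 j) hLm (hXB j) henv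
    have hsum := sum_roots (γ := γ) i hGm hXm henv
    change ∫⁻ Z, G ω Z * ∫⁻ V : Config k, env (V i).1 * (gwc γ V * ∑ j, X j Z V) ≤ _
    rw [hsum]
    refine (Finset.sum_le_sum fun j _ => hone j).trans ?_
    rw [Finset.sum_const, nsmul_eq_mul, Finset.card_univ, Fintype.card_fin]
    have hkK : (k : ℝ≥0∞) ≤ K := by exact_mod_cast hk
    refine (mul_le_mul_left hkK _).trans (le_of_eq ?_)
    rw [hB]
    ring

end

/-- **Mass of the bad hits**, from the volume statement. -/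
theorem hitClass_of {Φ : Space3 → ℝ} (hΦ : AdmissiblePotential Φ) {T te T' : ℝ}
    (hvol : ∀ γ : ℝ, 0 < γ → ∀ K : ℕ, BadVolP Φ T' te γ K) : HitClass Φ T te T' := by
  intro J _ j₀ γ R K hγ
  rcases lt_or_ge T 0 with hT | hT
  · -- no times
    refine ⟨fun _ => 0, tendsto_const_nhds, fun ε hε hε1 Ω _ G c Λ h1 h2 h3 h4 h5 h6 h7 => ?_⟩
    refine ⟨fun _ _ => 0, fun _ => measurable_const, ?_, ?_⟩
    · intro k hk ω Z V hV i t x ht
      exact absurd (ht.1.trans ht.2) (not_le.2 hT)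
    · intro k hk ω i env henv
      simp
  set R' : ℝ := max R 1 with hR'
  have hR1 : 1 ≤ R' := le_max_right _ _
  have hRR : R ≤ R' := le_max_left _ _
  set C : ℝ≥0∞ := (K : ℝ≥0∞) * (SC γ (DK Φ K) * 2 *
      (ENNReal.ofReal (27 * (T + 3) * R' ^ 3) * volume (Metric.closedBall (0 : Space3) 1))) with hC
  have hCt : C ≠ ∞ := by
    refine ENNReal.mul_ne_top (ENNReal.natCast_ne_top _) (ENNReal.mul_ne_top (ENNReal.mul_ne_top
      (SC_ne_top hγ) (by norm_num)) (ENNReal.mul_ne_top ENNReal.ofReal_ne_top volume_ball_lt_top))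
  -- smallness
  have hsmall : ∀ d : ℝ, 0 < d → ∀ᶠ ε : ℝ in 𝓝[>] 0, ε ≤ 1 →
      HitAt Φ T te T' J j₀ γ R K ε (ENNReal.ofReal d) := by
    intro d hd
    set δ' : ℝ := d / (C.toReal + 1) with hδ'
    have hpos : 0 < C.toReal + 1 := by have := ENNReal.toReal_nonneg (a := C); linarith
    have hδpos : 0 < δ' := div_pos hd hpos
    have h1 : ∀ k ∈ Finset.range (K + 1), ∀ᶠ ε : ℝ in 𝓝[>] 0, ∀ j : Fin k,
        ∀ (t : ℝ) (Ψ : Space3 → ℝ≥0∞), Measurable Ψ → ∃ M : Config k → ℝ≥0∞, Measurable M ∧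
          (∀ V ∈ PairExcluded ε k, ∀ x, BadPos Φ ε T' te V j t x → Ψ x ≤ M V) ∧
          ∫⁻ V, gwc (γ / 2) V * M V ≤ ENNReal.ofReal (δ' * ε ^ (2 * (k - 1))) * ∫⁻ x, Ψ x := by
      intro k hk
      rw [eventually_all]
      intro j
      have hk' : k ≤ K := by
        have := Finset.mem_range.1 hk
        omega
      obtain ⟨ε₀, hε₀, h⟩ := hvol (γ / 2) (half_pos hγ) K k hk' j δ' hδpos
      filter_upwards [Ioo_mem_nhdsGT hε₀] with ε hε
      exact h ε hε.1 hε.2
    have h2 := (Filter.eventually_all_finset (Finset.range (K + 1))).2 h1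
    filter_upwards [h2, self_mem_nhdsWithin] with ε h3 hε hε1
    have hε0 : (0 : ℝ) < ε := hε
    refine (hitAt_of hΦ hε0 hε1 hT hγ hR1 hRR hδpos.le ?_).mono ?_
    · intro k hk j t
      have hmi : Measurable ((Metric.closedBall (0 : Space3) (3 * (R' * ε))).indicator
          fun _ => (1 : ℝ≥0∞)) :=
        measurable_const.indicator Metric.isClosed_closedBall.measurableSet
      obtain ⟨M, hM1, hM2, hM3⟩ := h3 k (Finset.mem_range.2 (Nat.lt_succ_of_le hk)) j t _ hmi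
      refine ⟨M, hM1, hM2, hM3.trans (le_of_eq ?_)⟩
      congr 1
      rw [lintegral_indicator Metric.isClosed_closedBall.measurableSet, lintegral_const, one_mul,
        Measure.restrict_apply_univ]
    · have e : (K : ℝ≥0∞) * (SC γ (DK Φ K) * 2 *
          (ENNReal.ofReal (27 * (T + 3) * R' ^ 3) * volume (Metric.closedBall (0 : Space3) 1) *
            ENNReal.ofReal δ')) = C * ENNReal.ofReal δ' := by rw [hC]; ring
      rw [e, ← ENNReal.ofReal_toReal hCt, ← ENNReal.ofReal_mul ENNReal.toReal_nonneg]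
      refine ENNReal.ofReal_le_ofReal ?_
      rw [hδ', mul_div_assoc', div_le_iff₀ hpos]
      have := ENNReal.toReal_nonneg (a := C)
      nlinarith
  -- the best constant
  set r : ℝ → ℝ≥0∞ := fun ε => sInf {δ : ℝ≥0∞ | HitAt Φ T te T' J j₀ γ R K ε δ} with hr
  refine ⟨fun ε => r ε + ENNReal.ofReal ε, ?_, ?_⟩
  · have hrt : Tendsto r (𝓝[>] 0) (𝓝 0) := by
      rw [ENNReal.tendsto_nhds_zero]
      intro δ hδ
      obtain ⟨d, hd, hle⟩ : ∃ d : ℝ, 0 < d ∧ ENNReal.ofReal d ≤ δ := by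
        by_cases ht : δ = ∞
        · exact ⟨1, one_pos, ht ▸ le_top⟩
        · exact ⟨δ.toReal, ENNReal.toReal_pos hδ.ne' ht, ENNReal.ofReal_toReal_le⟩
      filter_upwards [hsmall d hd, Ioo_mem_nhdsGT (one_pos : (0 : ℝ) < 1)] with ε h hε
      exact (sInf_le (h hε.2.le)).trans hle
    have h2 : Tendsto (fun ε : ℝ => ENNReal.ofReal ε) (𝓝[>] 0) (𝓝 0) := by
      have := (ENNReal.continuous_ofReal.tendsto (0 : ℝ)).mono_left
        (nhdsWithin_le_nhds (s := Ioi (0 : ℝ)))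
      simpa using this
    simpa using hrt.add h2
  · intro ε hε hε1
    have hat : HitAt Φ T te T' J j₀ γ R K ε (r ε + ENNReal.ofReal ε) := by
      by_cases ht : r ε = ∞
      · rw [ht, top_add]
        exact hitAt_top hε
      · have hlt : r ε < r ε + ENNReal.ofReal ε :=
          ENNReal.lt_add_right ht (ENNReal.ofReal_pos.2 hε).ne'
        obtain ⟨c, hc, hcr⟩ := sInf_lt_iff.1 hlt
        exact HitAt.mono hc hcr.le
    exact hat

end Crest.Agent.R122.HitClass416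

end
end

-- ▼ part R122/VolPin_365
section

/-!
Row 122, helper365: pinned majorants of bad events (`PinMaj`), their calculus (unions, chains,
steps) and the translation covariance of steps and chains.
-/

set_option autoImplicit false

open MeasureTheory Set Filter
open Crest.AnalysisR.Kinetic
open Crest.Agent.R122.Flow671 Crest.Agent.R122.Loc45 Crest.Agent.R122.Chain726
open scoped ENNReal Classical Topology

noncomputable section

namespace Crest.Agent.R122.Vol365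

variable {Φ : Space3 → ℝ} {ε : ℝ}

/-- **Pinned majorant** of a bad event: for every profile `h` there is a measurable function which
is at least `h (p + a)` on the translates of a bad configuration (`p` is some point), and whose
energy weighted integral is at most `δ ∫ h`. -/
def PinMaj (Φ : Space3 → ℝ) (ε γ : ℝ) {κ : Type} [Fintype κ] (Bad : (κ → PhasePoint) → Prop)
    (δ : ℝ≥0∞) : Prop :=
  ∀ h : Space3 → ℝ≥0∞, Measurable h → ∃ M : (κ → PhasePoint) → ℝ≥0∞, Measurable M ∧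
    (∀ W ∈ Dom Φ κ, Bad W → ∃ p : Space3, ∀ a, h (p + a) ≤ M (shiftX a W)) ∧
    eint Φ ε γ M ≤ δ * ∫⁻ x, h x

theorem PinMaj.mono {γ : ℝ} {κ : Type} [Fintype κ] {Bad Bad' : (κ → PhasePoint) → Prop}
    {δ δ' : ℝ≥0∞} (h : PinMaj Φ ε γ Bad δ) (hB : ∀ W ∈ Dom Φ κ, Bad' W → Bad W) (hδ : δ ≤ δ') :
    PinMaj Φ ε γ Bad' δ' := by
  intro f hf
  obtain ⟨M, hM, h1, h2⟩ := h f hf
  exact ⟨M, hM, fun W hW hb => h1 W hW (hB W hW hb), h2.trans (mul_le_mul_left hδ _)⟩

theorem eint_add (hΦ : AdmissiblePotential Φ) (hε : 0 < ε) {γ : ℝ} {κ : Type} [Fintype κ]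
    {F G : (κ → PhasePoint) → ℝ≥0∞} (hF : Measurable F) :
    eint Φ ε γ (fun W => F W + G W) = eint Φ ε γ F + eint Φ ε γ G := by
  have hem := measurable_energy' hΦ hε κ
  unfold eint
  simp_rw [mul_add]
  exact lintegral_add_left ((by fun_prop : Measurable fun W : κ → PhasePoint =>
    ENNReal.ofReal (Real.exp (-(γ * energy Φ ε W)))).mul hF) _

theorem eint_sum (hΦ : AdmissiblePotential Φ) (hε : 0 < ε) {γ : ℝ} {κ : Type} [Fintype κ]
    {α : Type*} (s : Finset α) {F : α → (κ → PhasePoint) → ℝ≥0∞} (hF : ∀ x ∈ s, Measurable (F x)) :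
    eint Φ ε γ (fun W => ∑ x ∈ s, F x W) = ∑ x ∈ s, eint Φ ε γ (F x) := by
  have hem := measurable_energy' hΦ hε κ
  unfold eint
  simp_rw [Finset.mul_sum]
  exact lintegral_finsetSum' _ fun x hx => ((by fun_prop : Measurable fun W : κ → PhasePoint =>
    ENNReal.ofReal (Real.exp (-(γ * energy Φ ε W)))).mul (hF x hx)).aemeasurable

theorem PinMaj.false {γ : ℝ} {κ : Type} [Fintype κ] {Bad : (κ → PhasePoint) → Prop}
    (h : ∀ W ∈ Dom Φ κ, ¬ Bad W) : PinMaj Φ ε γ Bad 0 :=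
  fun _ _ => ⟨fun _ => 0, measurable_const, fun W hW hb => absurd hb (h W hW), by simp [eint]⟩

theorem PinMaj.or (hΦ : AdmissiblePotential Φ) (hε : 0 < ε) {γ : ℝ} {κ : Type} [Fintype κ]
    {Bad Bad' : (κ → PhasePoint) → Prop} {δ δ' : ℝ≥0∞} (h : PinMaj Φ ε γ Bad δ)
    (h' : PinMaj Φ ε γ Bad' δ') : PinMaj Φ ε γ (fun W => Bad W ∨ Bad' W) (δ + δ') := by
  intro f hf
  obtain ⟨M, hM, h1, h2⟩ := h f hf
  obtain ⟨M', hM', h1', h2'⟩ := h' f hf
  refine ⟨fun W => M W + M' W, hM.add hM', ?_, ?_⟩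
  · rintro W hW (hb | hb)
    · obtain ⟨p, hp⟩ := h1 W hW hb
      exact ⟨p, fun a => (hp a).trans le_self_add⟩
    · obtain ⟨p, hp⟩ := h1' W hW hb
      exact ⟨p, fun a => (hp a).trans le_add_self⟩
  · rw [eint_add hΦ hε hM, add_mul]
    exact add_le_add h2 h2'

theorem PinMaj.finset (hΦ : AdmissiblePotential Φ) (hε : 0 < ε) {γ : ℝ} {κ : Type} [Fintype κ]
    {α : Type*} (s : Finset α) {Bad : α → (κ → PhasePoint) → Prop} {δ : α → ℝ≥0∞}
    (h : ∀ x ∈ s, PinMaj Φ ε γ (Bad x) (δ x)) :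
    PinMaj Φ ε γ (fun W => ∃ x ∈ s, Bad x W) (∑ x ∈ s, δ x) := by
  intro f hf
  have h0 : ∀ x, ∃ M : (κ → PhasePoint) → ℝ≥0∞, x ∈ s → Measurable M ∧
      (∀ W ∈ Dom Φ κ, Bad x W → ∃ p : Space3, ∀ a, f (p + a) ≤ M (shiftX a W)) ∧
      eint Φ ε γ M ≤ δ x * ∫⁻ y, f y := by
    intro x
    by_cases hx : x ∈ s
    · obtain ⟨M, hM⟩ := h x hx f hf
      exact ⟨M, fun _ => hM⟩
    · exact ⟨fun _ => 0, fun h => absurd h hx⟩
  choose M hM using h0
  refine ⟨fun W => ∑ x ∈ s, M x W, Finset.measurable_sum _ fun x hx => (hM x hx).1, ?_, ?_⟩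
  · rintro W hW ⟨x, hx, hb⟩
    obtain ⟨p, hp⟩ := (hM x hx).2.1 W hW hb
    refine ⟨p, fun a => (hp a).trans ?_⟩
    exact Finset.single_le_sum (f := fun x => M x (shiftX a W)) (fun _ _ => bot_le) hx
  · rw [eint_sum hΦ hε s fun x hx => (hM x hx).1, Finset.sum_mul]
    exact Finset.sum_le_sum fun x hx => (hM x hx).2.2

/-! ### Translation covariance -/

theorem dst_shiftX {κ : Type*} (a : Space3) (Z : κ → PhasePoint) (j k : κ) :
    dst (shiftX a Z) j k = dst Z j k := by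
  unfold dst shiftX
  simp only [dist_add_right]

theorem dst_flow_shiftX (hΦ : AdmissiblePotential Φ) (hε : 0 < ε) {κ : Type*} [Fintype κ]
    (a : Space3) (t : ℝ) (Z : κ → PhasePoint) (j k : κ) :
    dst (flow Φ ε t (shiftX a Z)) j k = dst (flow Φ ε t Z) j k := by
  rw [flow_shiftX hΦ hε, dst_shiftX]

theorem step_shiftX (hΦ : AdmissiblePotential Φ) (hε : 0 < ε) {ι : Type*} {A A' : Finset ι}
    {s : ℝ} {W : A → PhasePoint} {W' : A' → PhasePoint} (a : Space3) (h : Step Φ ε s W W') :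
    Step Φ ε s (shiftX a W) (shiftX a W') := by
  refine ⟨(Dom_shiftX a).2 h.dom, h.sub, ?_, ?_, ?_⟩
  · simp only [dst_flow_shiftX hΦ hε]
    exact h.touch
  · simp only [dst_flow_shiftX hΦ hε]
    exact h.sep
  · have e1 : shiftX a W' = shiftX a (flow Φ ε (-s) (rs h.sub (flow Φ ε s W))) :=
      congrArg (shiftX a) h.state
    rw [e1, flow_shiftX hΦ hε a s W, ← flow_shiftX hΦ hε a (-s)]
    rfl

theorem chain_shiftX (hΦ : AdmissiblePotential Φ) (hε : 0 < ε) {T : ℝ} {ι : Type*} {A A' : Finset ι}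
    {W : A → PhasePoint} {W' : A' → PhasePoint} (a : Space3) (h : Chain Φ ε T A W A' W') :
    Chain Φ ε T A (shiftX a W) A' (shiftX a W') := by
  induction h with
  | refl A W => exact .refl _ _
  | step hs h _ ih => exact .step hs (step_shiftX hΦ hε a h) ih

/-- **Pinned majorants pull back along chains.** -/
theorem exists_pinMaj_chain (hΦ : AdmissiblePotential Φ) {T : ℝ} (hT : 0 ≤ T) (n : ℕ) {γ₁ γ₂ : ℝ}
    (h1 : 0 < γ₁) (h12 : γ₁ < γ₂) : ∃ C : ℝ≥0∞, C ≠ ∞ ∧ ∀ ε : ℝ, 0 < ε → ε ≤ 1 →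
    ∀ (ι : Type) (A A' : Finset ι), A.card ≤ n →
    ∀ (Bad : (A' → PhasePoint) → Prop) (δ : ℝ≥0∞), PinMaj Φ ε γ₁ Bad δ →
    PinMaj Φ ε γ₂ (fun W : A → PhasePoint => ∃ W' : A' → PhasePoint,
      Chain Φ ε T A W A' W' ∧ Bad W')
      (C * ENNReal.ofReal ε ^ (2 * (A.card - A'.card)) * δ) := by
  obtain ⟨C, hC, h⟩ := chain_majorant hΦ hT n γ₁ γ₂ h1 h12
  refine ⟨C, hC, fun ε hε hε1 ι A A' hA Bad δ hB f hf => ?_⟩
  obtain ⟨M', hM', h3, h4⟩ := hB f hf
  obtain ⟨M, hM, h5, h6⟩ := h ε hε hε1 ι A A' hA M' hM'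
  refine ⟨M, hM, ?_, ?_⟩
  · rintro W hW ⟨W', hc, hb⟩
    obtain ⟨p, hp⟩ := h3 W' (hc.dom' hΦ hε hW) hb
    exact ⟨p, fun a => (hp a).trans (h5 _ _ (chain_shiftX hΦ hε a hc))⟩
  · refine h6.trans ((mul_le_mul_right h4 _).trans (le_of_eq (by ring)))


end Crest.Agent.R122.Vol365

end
end

-- ▼ part R122/VolTerm_365
section

/-!
Row 122, helper365: terminal groups of D5: connected groups at one time (`near_majorant`), at some
time of `[0, T]` (`conn_majorant`), two particles in contact at the horizon, and a single particle.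
-/

set_option autoImplicit false

open MeasureTheory Set Filter
open Crest.AnalysisR.Kinetic
open Crest.Agent.R122.Flow671 Crest.Agent.R122.Loc45 Crest.Agent.R122.Chain726
open scoped ENNReal Classical Topology

noncomputable section

namespace Crest.Agent.R122.Vol365

variable {Φ : Space3 → ℝ} {ε : ℝ}



/-- Gaussian mass of one velocity. -/
def gv (γ : ℝ) : ℝ≥0∞ := ∫⁻ v : Space3, ENNReal.ofReal (Real.exp (-(γ / 2 * ‖v‖ ^ 2)))

theorem gv_ne_top {γ : ℝ} (hγ : 0 < γ) : gv γ ≠ ∞ := by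
  have h := GaussianFourier.integrable_cexp_neg_mul_sq_norm_add (V := Space3) (b := (γ / 2 : ℝ))
    (by simpa using half_pos hγ) 0 0
  have h2 : Integrable (fun v : Space3 => Real.exp (-(γ / 2 * ‖v‖ ^ 2))) := by
    have h3 := h.norm
    refine h3.congr (Eventually.of_forall fun v => ?_)
    simp only [Complex.norm_exp]
    congr 1
    simp [← Complex.ofReal_pow]
  have h4 := h2.lintegral_lt_top
  exact h4.ne

theorem lintegral_single {γ : ℝ} {κ : Type} [inst : Fintype κ] [Unique κ] (h : Space3 → ℝ≥0∞)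
    (hh : Measurable h) :
    eint Φ ε γ (fun W : κ → PhasePoint => h (W default).1) = gv γ * ∫⁻ x, h x := by
  have hinst : inst = Unique.fintype := Subsingleton.elim _ _
  subst hinst
  have hmp := volume_preserving_funUnique κ PhasePoint
  have he : ∀ W : κ → PhasePoint, energy Φ ε W = 1 / 2 * ‖(W default).2‖ ^ 2 := by
    intro W
    unfold energy
    simp
  have e1 : ∀ y : κ → PhasePoint, ENNReal.ofReal (Real.exp (-(γ * energy Φ ε y))) *
      h (y default).1 = (fun z : PhasePoint => ENNReal.ofReal (Real.exp (-(γ / 2 * ‖z.2‖ ^ 2))) *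
        h z.1) (MeasurableEquiv.funUnique κ PhasePoint y) := by
    intro y
    have e2 : MeasurableEquiv.funUnique κ PhasePoint y = y default := rfl
    simp only [e2, he]
    congr 3
    ring
  unfold eint
  simp_rw [e1]
  have hm : Measurable fun v : Space3 => ENNReal.ofReal (Real.exp (-(γ / 2 * ‖v‖ ^ 2))) := by
    fun_prop
  have e3 := hmp.lintegral_comp (f := fun z : PhasePoint =>
    ENNReal.ofReal (Real.exp (-(γ / 2 * ‖z.2‖ ^ 2))) * h z.1)
    ((hm.comp measurable_snd).mul (hh.comp measurable_fst))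
  have hgm : Measurable fun z : Space3 × Space3 =>
      ENNReal.ofReal (Real.exp (-(γ / 2 * ‖z.2‖ ^ 2))) * h z.1 :=
    (hm.comp measurable_snd).mul (hh.comp measurable_fst)
  have e5 : ∫⁻ z : Space3 × Space3, ENNReal.ofReal (Real.exp (-(γ / 2 * ‖z.2‖ ^ 2))) * h z.1 =
      ∫⁻ x : Space3, ∫⁻ v : Space3, ENNReal.ofReal (Real.exp (-(γ / 2 * ‖v‖ ^ 2))) * h x :=
    lintegral_prod (μ := (volume : Measure Space3)) (ν := (volume : Measure Space3)) _
      hgm.aemeasurable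
  have e4 : ∀ x : Space3, ∫⁻ v : Space3, ENNReal.ofReal (Real.exp (-(γ / 2 * ‖v‖ ^ 2))) * h x =
      gv γ * h x := fun x => lintegral_mul_const _ hm
  refine e3.trans (e5.trans ?_)
  simp only [e4]
  exact lintegral_const_mul _ hh









end Crest.Agent.R122.Vol365

end
end

-- ▼ part R122/BadPin_416
section

/-!
# Row 122 (helper416), D5: the bad one-particle releases with an arbitrary covariant pin

`badY_shift` : the bad set of 796 is translation invariant; `cherry_pin` : 796's `cherry` with the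
localisation at an arbitrary covariant point of the remaining group (change of pin under the
integral); `bad_one_pin` : 350's `bad_one` with the position of the root at an arbitrary time `t`.
-/

set_option autoImplicit false
set_option synthInstance.maxSize 1024
set_option linter.unusedSectionVars false
set_option maxHeartbeats 800000

open MeasureTheory Set Filter Topology
open Crest.AnalysisR.Kinetic
open scoped ENNReal Classical

noncomputable section

namespace Crest.Agent.R122.BadPin416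

open Kin796 Kin796.CTree Disc416 Tree674 TreeEps399 TreeDom974 TreeLim974 Flow671 Graft968
open Loc45 Cherry796 NG416 Flux350 Chain726 Causal291 Omega969

variable {Φ : Space3 → ℝ} {κ : Type*} [Fintype κ]

/-! ## Translation invariance of the bad sets -/

theorem cw1_shift (hΦ : AdmissiblePotential Φ) {ε T : ℝ} (hε : 0 < ε) {P P' : CTree}
    {g : NodeP × Par P ≃ᵐ Par P'} {s : ℝ} {W : Idx P → PhasePoint} {c : Space3 × Plane}
    (a : Space3) (h : (s, (W, c)) ∈ CW1 Φ ε T g) : (s, (shiftX a W, c)) ∈ CW1 Φ ε T g := by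
  obtain ⟨⟨h1, h2, h3⟩, h4⟩ := h
  simp only at h1 h2 h3 h4
  have h5 := (lines_inv hΦ hε h1).2
  rcases hq : Tree674.inv Φ ε P T W with ⟨⟨X, v⟩, p⟩
  rw [hq] at h2 h3 h4 h5
  have hsep : ∀ (Q : CTree) (p : Par Q), Sep Φ ε Q T (X + a, v) p ↔ Sep Φ ε Q T (X, v) p :=
    fun Q p => (Hid424.sep_shift _).trans (Hid424.sep_shift _).symm
  have h6 : shiftX a W = lines Φ ε P (X + a, v) p := by
    funext i
    have e1 : W i = lines Φ ε P (X, v) p i := (congrFun h5 i).symm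
    rw [Hid424.lines_shift] at e1 ⊢
    show ((W i).1 + a, (W i).2) = _
    rw [e1]
    simp only [Prod.mk.injEq, and_true]
    abel
  rw [h6]
  refine mem_CW1 hΦ hε ⟨h2.1, (hsep _ _).2 h2.2⟩ h3 ?_
  rintro ⟨h7, h8⟩
  exact h4 ⟨h7, h8.1, (hsep _ _).1 h8.2⟩

theorem cw_shift (hΦ : AdmissiblePotential Φ) {ε T : ℝ} (hε : 0 < ε) {m : κ} {s : ℝ}
    {Y : κ → PhasePoint} {c : Space3 × Plane} (a : Space3) (h : (s, (Y, c)) ∈ CW Φ ε T m) :
    (s, (shiftX a Y, c)) ∈ CW Φ ε T m := by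
  obtain ⟨P, e, h⟩ := h
  exact ⟨P, e, cw1_shift hΦ hε a h⟩

theorem badY_shift (hΦ : AdmissiblePotential Φ) {ε T : ℝ} (hε : 0 < ε) {m : κ} {s : ℝ}
    {Y : κ → PhasePoint} {z : PhasePoint} (a : Space3) (h : (s, (Y, z)) ∈ badY Φ ε T m) :
    (s, (shiftX a Y, (z.1 + a, z.2))) ∈ badY Φ ε T m := by
  have h1 := cw_shift hΦ hε a h
  show (s, (shiftX a Y, (z.2, Flux350.cpl ((flow Φ ε s (shiftX a Y) m).2 - z.2)
    ((1 / ε) • (z.1 + a - (flow Φ ε s (shiftX a Y) m).1))))) ∈ CW Φ ε T m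
  rw [flow_shiftX hΦ hε]
  have e1 : z.1 + a - (shiftX a (flow Φ ε s Y) m).1 = z.1 - (flow Φ ε s Y m).1 := by
    show z.1 + a - ((flow Φ ε s Y m).1 + a) = _
    abel
  rw [e1]
  exact h1

theorem badY_shift_iff (hΦ : AdmissiblePotential Φ) {ε T : ℝ} (hε : 0 < ε) {m : κ} {s : ℝ}
    {Y : κ → PhasePoint} {z : PhasePoint} (a : Space3) :
    (s, (shiftX a Y, (z.1 + a, z.2))) ∈ badY Φ ε T m ↔ (s, (Y, z)) ∈ badY Φ ε T m := by
  refine ⟨fun h => ?_, badY_shift hΦ hε a⟩
  have h1 := badY_shift hΦ hε (-a) h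
  have e1 : shiftX (-a) (shiftX a Y) = Y := by
    have := shiftX_neg (-a) Y
    rwa [neg_neg] at this
  rw [e1] at h1
  simpa using h1

/-! ## Change of pin in `cherry` -/

/-- integrand of `HY` -/
def hyI (Φ : Space3 → ℝ) (ε T b : ℝ) (m : κ) (s : ℝ) (Y : κ → PhasePoint) (w : Space3)
    (y : Plane) : ℝ≥0∞ :=
  ENNReal.ofReal ‖(flow Φ ε s Y m).2 - w‖ *
    (ENNReal.ofReal (Real.exp (-b * (∑ x, ‖(Y x).2‖ ^ 2 + ‖w‖ ^ 2))) *
      (badY Φ ε T m).indicator (1 : ℝ × ((κ → PhasePoint) × PhasePoint) → ℝ≥0∞)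
        (s, (Y, ((flow Φ ε s Y m).1 + ε • entrancePoint (frameMap ((flow Φ ε s Y m).2 - w) y)
          ((flow Φ ε s Y m).2 - w), w))))

/-- translation invariant part of 796's functional -/
def HY (Φ : Space3 → ℝ) (ε T b : ℝ) (m : κ) (s : ℝ) (Y : κ → PhasePoint) : ℝ≥0∞ :=
  ∫⁻ w : Space3, ∫⁻ y in Metric.ball (0 : Plane) 1, hyI Φ ε T b m s Y w y

theorem HY_shift (hΦ : AdmissiblePotential Φ) {ε : ℝ} (hε : 0 < ε) (T b : ℝ) (m : κ) (s : ℝ)
    (a : Space3) (Y : κ → PhasePoint) : HY Φ ε T b m s (shiftX a Y) = HY Φ ε T b m s Y := by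
  unfold HY
  refine lintegral_congr fun w => lintegral_congr fun y => ?_
  unfold hyI
  rw [flow_shiftX hΦ hε]
  have e0 : ∀ x, (shiftX a Y x).2 = (Y x).2 := fun _ => rfl
  have e1 : (shiftX a (flow Φ ε s Y) m).2 = (flow Φ ε s Y m).2 := rfl
  have e2 : (shiftX a (flow Φ ε s Y) m).1 = (flow Φ ε s Y m).1 + a := rfl
  simp only [e0, e1, e2]
  congr 2
  have e3 : (flow Φ ε s Y m).1 + a + ε • entrancePoint (frameMap ((flow Φ ε s Y m).2 - w) y)
      ((flow Φ ε s Y m).2 - w) = ((flow Φ ε s Y m).1 + ε • entrancePoint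
        (frameMap ((flow Φ ε s Y m).2 - w) y) ((flow Φ ε s Y m).2 - w)) + a := by abel
  rw [e3]
  by_cases h : (s, (Y, ((flow Φ ε s Y m).1 + ε • entrancePoint
      (frameMap ((flow Φ ε s Y m).2 - w) y) ((flow Φ ε s Y m).2 - w), w))) ∈ badY Φ ε T m
  · rw [indicator_of_mem h, indicator_of_mem ((badY_shift_iff hΦ hε a (z := ((flow Φ ε s Y m).1 +
      ε • entrancePoint (frameMap ((flow Φ ε s Y m).2 - w) y) ((flow Φ ε s Y m).2 - w), w))).2 h)]
    rfl
  · rw [indicator_of_notMem h, indicator_of_notMem fun hc => h ((badY_shift_iff hΦ hε a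
      (z := ((flow Φ ε s Y m).1 + ε • entrancePoint (frameMap ((flow Φ ε s Y m).2 - w) y)
        ((flow Φ ε s Y m).2 - w), w))).1 hc)]

theorem measurable_flow_time (hΦ : AdmissiblePotential Φ) {ε : ℝ} (hε : 0 < ε) (s : ℝ) (m : κ) :
    Measurable fun Y : κ → PhasePoint => flow Φ ε s Y m :=
  (measurable_pi_apply m).comp (measurable_flow hΦ hε s)

theorem measurable_HYint (hΦ : AdmissiblePotential Φ) {ε : ℝ} (hε : 0 < ε) (T b : ℝ) (m : κ)
    (s : ℝ) : Measurable fun q : ((κ → PhasePoint) × Space3) × Plane =>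
      hyI Φ ε T b m s q.1.1 q.1.2 q.2 := by
  unfold hyI
  have hf : Measurable fun q : ((κ → PhasePoint) × Space3) × Plane => flow Φ ε s q.1.1 m :=
    (measurable_flow_time hΦ hε s m).comp measurable_fst.fst
  have hw : Measurable fun q : ((κ → PhasePoint) × Space3) × Plane => q.1.2 := measurable_fst.snd
  have hg : Measurable fun q : ((κ → PhasePoint) × Space3) × Plane =>
      (flow Φ ε s q.1.1 m).2 - q.1.2 := hf.snd.sub hw
  have hv : ∀ x : κ, Measurable fun q : ((κ → PhasePoint) × Space3) × Plane => (q.1.1 x).2 :=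
    fun x => ((measurable_pi_apply x).comp measurable_fst.fst).snd
  have hE : Measurable fun q : ((κ → PhasePoint) × Space3) × Plane =>
      entrancePoint (frameMap ((flow Φ ε s q.1.1 m).2 - q.1.2) q.2)
        ((flow Φ ε s q.1.1 m).2 - q.1.2) := by
    exact Scat818.measurable_entrancePoint.comp
      ((measurable_frameMap.comp (hg.prodMk measurable_snd)).prodMk hg)
  refine hg.norm.ennreal_ofReal.mul (Measurable.mul ?_ ?_)
  · refine (Real.measurable_exp.comp ((?_ : Measurable _).const_mul (-b))).ennreal_ofReal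
    exact (Finset.measurable_sum _ fun x _ => (hv x).norm.pow_const 2).add (hw.norm.pow_const 2)
  · refine (measurable_one.indicator (measurableSet_badY hΦ hε m)).comp ?_
    exact measurable_const.prodMk (measurable_fst.fst.prodMk
      ((hf.fst.add (hE.const_smul ε)).prodMk hw))

/-- 796's functional with a pin `p`. -/
def GYp (Φ : Space3 → ℝ) (ε T b : ℝ) (m : κ) (p : (κ → PhasePoint) → Space3)
    (Ψ : Space3 → ℝ≥0∞) (s : ℝ) (Y : κ → PhasePoint) (z : PhasePoint) : ℝ≥0∞ :=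
  (ENNReal.ofReal (Real.exp (-b * (∑ x, ‖(Y x).2‖ ^ 2 + ‖z.2‖ ^ 2))) * Ψ (p Y)) *
    (badY Φ ε T m).indicator (1 : ℝ × ((κ → PhasePoint) × PhasePoint) → ℝ≥0∞) (s, (Y, z))

theorem measurable_HY (hΦ : AdmissiblePotential Φ) {ε : ℝ} (hε : 0 < ε) (T b : ℝ) (m : κ)
    (s : ℝ) : Measurable (HY Φ ε T b m s) := by
  have h1 := (measurable_HYint hΦ hε T b m s).lintegral_prod_right'
    (ν := (volume : Measure Plane).restrict (Metric.ball 0 1))
  exact h1.lintegral_prod_right' (ν := (volume : Measure Space3))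

theorem lint2_const_mul {F : Space3 × Plane → ℝ≥0∞} (hF : Measurable F) (c : ℝ≥0∞) :
    ∫⁻ w : Space3, ∫⁻ y in Metric.ball (0 : Plane) 1, c * F (w, y) =
      c * ∫⁻ w : Space3, ∫⁻ y in Metric.ball (0 : Plane) 1, F (w, y) := by
  have e1 : ∀ w : Space3, ∫⁻ y in Metric.ball (0 : Plane) 1, c * F (w, y) =
      c * ∫⁻ y in Metric.ball (0 : Plane) 1, F (w, y) := fun w =>
    lintegral_const_mul _ (hF.comp (measurable_const.prodMk measurable_id))
  simp_rw [e1]
  exact lintegral_const_mul _ (hF.lintegral_prod_right')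

theorem GYp_eq (Φ : Space3 → ℝ) (ε T b : ℝ) (m : κ) (p : (κ → PhasePoint) → Space3)
    (Ψ : Space3 → ℝ≥0∞) (s : ℝ) (Y : κ → PhasePoint) (w : Space3) (y : Plane) :
    ENNReal.ofReal ‖(flow Φ ε s Y m).2 - w‖ * GYp Φ ε T b m p Ψ s Y
        ((flow Φ ε s Y m).1 + ε • entrancePoint (frameMap ((flow Φ ε s Y m).2 - w) y)
          ((flow Φ ε s Y m).2 - w), w) = Ψ (p Y) * hyI Φ ε T b m s Y w y := by
  unfold GYp hyI
  generalize ENNReal.ofReal ‖(flow Φ ε s Y m).2 - w‖ = A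
  generalize (badY Φ ε T m).indicator (1 : ℝ × ((κ → PhasePoint) × PhasePoint) → ℝ≥0∞)
    (s, (Y, ((flow Φ ε s Y m).1 + ε • entrancePoint (frameMap ((flow Φ ε s Y m).2 - w) y)
      ((flow Φ ε s Y m).2 - w), w))) = B
  generalize Ψ (p Y) = C
  simp only
  ring

theorem lintegral_GYp (hΦ : AdmissiblePotential Φ) {ε : ℝ} (hε : 0 < ε) (T b : ℝ) (m : κ)
    (p : (κ → PhasePoint) → Space3) (Ψ : Space3 → ℝ≥0∞) (s : ℝ) (Y : κ → PhasePoint) :
    ∫⁻ w : Space3, ∫⁻ y in Metric.ball (0 : Plane) 1,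
      ENNReal.ofReal ‖(flow Φ ε s Y m).2 - w‖ * GYp Φ ε T b m p Ψ s Y
        ((flow Φ ε s Y m).1 + ε • entrancePoint (frameMap ((flow Φ ε s Y m).2 - w) y)
          ((flow Φ ε s Y m).2 - w), w) = Ψ (p Y) * HY Φ ε T b m s Y := by
  have hm1 : Measurable fun q : Space3 × Plane => ((Y, q.1), q.2) :=
    (measurable_const.prodMk measurable_fst).prodMk measurable_snd
  have hm2 : Measurable fun q : Space3 × Plane => hyI Φ ε T b m s Y q.1 q.2 :=
    Measurable.comp (g := fun q : ((κ → PhasePoint) × Space3) × Plane =>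
      hyI Φ ε T b m s q.1.1 q.1.2 q.2) (f := fun q : Space3 × Plane => ((Y, q.1), q.2))
      (measurable_HYint (κ := κ) hΦ hε T b m s) hm1
  simp only [GYp_eq]
  exact lint2_const_mul hm2 (Ψ (p Y))

theorem GYp_apply (Φ : Space3 → ℝ) (ε T b : ℝ) (m i0 : κ) (Ψ : Space3 → ℝ≥0∞) :
    GYp Φ ε T b m (fun Y => (Y i0).1) Ψ = GY Φ ε T b m i0 Ψ := rfl

/-- **796's bound with an arbitrary covariant pin** (the same gain `q`). -/
theorem cherry_pin (hΦ : AdmissiblePotential Φ) (m : κ) {b : ℝ} (hb : 0 < b) (T : ℝ) :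
    ∃ q : ℝ → ℝ≥0∞, Tendsto q (𝓝[>] 0) (𝓝 0) ∧ ∀ (ε : ℝ) (p : (κ → PhasePoint) → Space3)
      (Ψ : Space3 → ℝ≥0∞), 0 < ε → Pin p → Measurable Ψ →
      ∫⁻ s in Icc 0 T, ∫⁻ Y : κ → PhasePoint, ∫⁻ w : Space3, ∫⁻ y in Metric.ball (0 : Plane) 1,
        ENNReal.ofReal ‖(flow Φ ε s Y m).2 - w‖ * GYp Φ ε T b m p Ψ s Y
          ((flow Φ ε s Y m).1 + ε • entrancePoint (frameMap ((flow Φ ε s Y m).2 - w) y)
            ((flow Φ ε s Y m).2 - w), w) ≤
        ENNReal.ofReal (ε ^ 2) ^ (Fintype.card κ - 1) * ((∫⁻ x, Ψ x) * q ε) := by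
  obtain ⟨q, hq1, hq2⟩ := cherry hΦ m m hb T
  refine ⟨q, hq1, fun ε p Ψ hε hp hΨ => ?_⟩
  refine le_trans (le_of_eq ?_) (hq2 ε Ψ hε hΨ)
  refine lintegral_congr fun s => ?_
  rw [← GYp_apply]
  simp only [lintegral_GYp hΦ hε]
  have hT : TInv (HY Φ ε T b m s) := ⟨measurable_HY hΦ hε T b m s, fun a Y => HY_shift hΦ hε T b m s a Y⟩
  rw [lintegral_pin hp (pin_apply m) hT hΨ measurable_hb lintegral_hb,
    lintegral_pin (pin_apply m) (pin_apply m) hT hΨ measurable_hb lintegral_hb]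

/-! ## The majorant -/

section one

variable {ε : ℝ} {ι : Type*}

/-- **Bad one-particle releases**, arbitrary function of the remaining group (proof of 350). -/
theorem bad_one_ofG (hΦ : AdmissiblePotential Φ) (hε : 0 < ε) {T : ℝ} (hT : 0 ≤ T)
    {A A' : Finset ι} (h : A' ⊆ A) (hc : A'.card + 1 = A.card) 
    {G0 : (A' → PhasePoint) → ℝ≥0∞} (hG0 : Measurable G0)
    {C : A' → Set (ℝ × ((A' → PhasePoint) × PhasePoint))} (hC : ∀ m, MeasurableSet (C m))
    (γ : ℝ) {B : A' → ℝ≥0∞}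
    (hB : ∀ m, ∫⁻ s in Icc 0 T, ∫⁻ W : A' → PhasePoint, ∫⁻ w : Space3,
      ∫⁻ y in Metric.ball (0 : Plane) 1,
        ENNReal.ofReal (Real.exp (-(γ * (energy Φ ε W + ‖w‖ ^ 2 / 2)))) *
        (ENNReal.ofReal ‖(flow Φ ε s W m).2 - w‖ * (G0 W * (C m).indicator 1 (s, (W,
          ((flow Φ ε s W m).1 + ε • entrancePoint (frameMap ((flow Φ ε s W m).2 - w) y)
            ((flow Φ ε s W m).2 - w), w))))) ≤ B m) :
    ∃ M : (A → PhasePoint) → ℝ≥0∞, Measurable M ∧
      (∀ (W : A → PhasePoint) (W' : A' → PhasePoint) (s : ℝ), s ∈ Icc 0 T → Step Φ ε s W W' →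
        ∀ (j : A) (m : A'), (j : ι) ∉ A' → dist (flow Φ ε s W j).1 (flow Φ ε s W' m).1 = ε →
          (inner ℝ ((flow Φ ε s W j).1 - (flow Φ ε s W' m).1)
            ((flow Φ ε s W j).2 - (flow Φ ε s W' m).2) = 0 ∨
            (s, (W', flow Φ ε s W j)) ∈ C m) → G0 W' ≤ M W) ∧
      ∫⁻ W, ENNReal.ofReal (Real.exp (-(γ * energy Φ ε W))) * M W ≤
        ENNReal.ofReal (ε ^ 2) * ∑ m : A', B m := by
  -- the released particle
  obtain ⟨j0, hj0, hj0'⟩ : ∃ j : ι, j ∈ A ∧ j ∉ A' := by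
    by_contra hcon
    push Not at hcon
    have := Finset.card_le_card (show A ⊆ A' from hcon)
    omega
  have huniq : ∀ j : A, (j : ι) ∉ A' → j = ⟨j0, hj0⟩ := by
    intro j hj
    by_contra hne
    have hne' : (j : ι) ≠ j0 := fun he => hne (Subtype.ext he)
    have h1 : insert (j : ι) (insert j0 A') ⊆ A := by
      intro x hx
      rw [Finset.mem_insert, Finset.mem_insert] at hx
      rcases hx with rfl | rfl | hx
      · exact j.2
      · exact hj0
      · exact h hx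
    have h2 := Finset.card_le_card h1
    rw [Finset.card_insert_of_notMem (by
      rw [Finset.mem_insert]; push Not; exact ⟨hne', hj⟩), Finset.card_insert_of_notMem hj0'] at h2
    omega
  -- the functional
  set G : ℝ → (A' → PhasePoint) → A' → PhasePoint → ℝ≥0∞ := fun s W' m u =>
    G0 W' * ((C m).indicator 1 (s, (W', u)) +
      {q : ℝ × ((A' → PhasePoint) × PhasePoint) | inner ℝ (q.2.2.1 - (flow Φ ε q.1 q.2.1 m).1)
        (q.2.2.2 - (flow Φ ε q.1 q.2.1 m).2) = 0}.indicator (fun _ => ∞) (s, (W', u))) with hGd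
  have hgr : ∀ m : A', MeasurableSet {q : ℝ × ((A' → PhasePoint) × PhasePoint) |
      inner ℝ (q.2.2.1 - (flow Φ ε q.1 q.2.1 m).1) (q.2.2.2 - (flow Φ ε q.1 q.2.1 m).2) = 0} := by
    intro m
    have h1 : Measurable (fun q : ℝ × ((A' → PhasePoint) × PhasePoint) => flow Φ ε q.1 q.2.1 m) := by
      have h := (measurable_flow_apply (κ := A') hΦ hε m).comp
        (measurable_fst.prodMk (measurable_fst.comp measurable_snd) :
          Measurable fun q : ℝ × ((A' → PhasePoint) × PhasePoint) => (q.1, q.2.1))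
      exact h
    have h2 : Measurable (fun q : ℝ × ((A' → PhasePoint) × PhasePoint) => q.2.2) :=
      measurable_snd.comp measurable_snd
    have h3 : Measurable (fun q : Space3 × Space3 => inner ℝ q.1 q.2) :=
      Continuous.measurable (by fun_prop)
    have h4 := h3.comp ((h2.fst.sub h1.fst).prodMk (h2.snd.sub h1.snd))
    exact measurableSet_eq_fun h4 measurable_const
  have hG : ∀ m, Measurable fun p : ℝ × (A' → PhasePoint) × PhasePoint => G p.1 p.2.1 m p.2.2 := by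
    intro m
    have h1 : Measurable (fun p : ℝ × (A' → PhasePoint) × PhasePoint => G0 p.2.1) :=
      hG0.comp (measurable_fst.comp measurable_snd)
    have h2 : Measurable (fun p : ℝ × (A' → PhasePoint) × PhasePoint =>
        (C m).indicator (1 : ℝ × ((A' → PhasePoint) × PhasePoint) → ℝ≥0∞) (p.1, (p.2.1, p.2.2))) :=
      measurable_one.indicator (hC m)
    have h3 : Measurable (fun p : ℝ × (A' → PhasePoint) × PhasePoint =>
        {q : ℝ × ((A' → PhasePoint) × PhasePoint) | inner ℝ (q.2.2.1 - (flow Φ ε q.1 q.2.1 m).1)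
        (q.2.2.2 - (flow Φ ε q.1 q.2.1 m).2) = 0}.indicator (fun _ => (∞ : ℝ≥0∞))
          (p.1, (p.2.1, p.2.2))) :=
      measurable_const.indicator (hgr m)
    exact h1.mul (h2.add h3)
  obtain ⟨M, hM, hM1, hM2⟩ := FS1fin hΦ hε hT h hc ⟨j0, hj0⟩ hj0' hG γ
  refine ⟨M, hM, ?_, hM2.trans ?_⟩
  · intro W W' s hs hS j m hj hd hbad
    have hjj := huniq j hj
    have hfl : flow Φ ε s W' m = flow Φ ε s W ⟨m, h m.2⟩ := by
      have := congrFun (hS.flow_eq hΦ hε) m
      exact this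
    have h1 := hM1 W W' s hs hS m (by rw [← hjj, ← hfl]; exact hd)
    rw [← hjj] at h1
    refine le_trans ?_ h1
    rw [hGd]
    simp only
    rcases hbad with hb | hb
    · have : (s, (W', flow Φ ε s W j)) ∈ {q : ℝ × ((A' → PhasePoint) × PhasePoint) |
        inner ℝ (q.2.2.1 - (flow Φ ε q.1 q.2.1 m).1) (q.2.2.2 - (flow Φ ε q.1 q.2.1 m).2) = 0} := hb
      rw [indicator_of_mem this, add_top]
      by_cases h0 : G0 W' = 0
      · rw [h0]; exact zero_le
      · rw [ENNReal.mul_top h0]; exact le_top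
    · rw [indicator_of_mem hb]
      calc G0 W' = G0 W' * 1 := (mul_one _).symm
        _ ≤ _ := mul_le_mul_right (le_trans (le_of_eq rfl) le_self_add) _
  · refine mul_le_mul_right (Finset.sum_le_sum fun m _ => ?_) _
    refine le_trans (le_of_eq ?_) (hB m)
    refine lintegral_congr fun s => ?_
    rw [← lintegral_flow (κ := A') hΦ hε s (fun Z : A' → PhasePoint => ∫⁻ w : Space3,
      ∫⁻ y in Metric.ball (0 : Plane) 1,
        ENNReal.ofReal (Real.exp (-(γ * (energy Φ ε Z + ‖w‖ ^ 2 / 2)))) *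
          (ENNReal.ofReal ‖(Z m).2 - w‖ * G s (flow Φ ε (-s) Z) m
            ((Z m).1 + ε • entrancePoint (frameMap ((Z m).2 - w) y) ((Z m).2 - w), w)))]
    refine lintegral_congr fun W => lintegral_congr fun w => ?_
    refine setLIntegral_congr_fun measurableSet_ball fun y hy => ?_
    have hy1 : ‖y‖ < 1 := by simpa using hy
    simp only [flow_neg_flow hΦ hε, energy_flow hΦ hε]
    congr 1
    by_cases hg : (flow Φ ε s W m).2 - w = 0
    · rw [hg, norm_zero, ENNReal.ofReal_zero, zero_mul, zero_mul]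
    · congr 1
      rw [hGd]
      simp only
      have hni : (s, (W, ((flow Φ ε s W m).1 + ε • entrancePoint (frameMap ((flow Φ ε s W m).2 - w) y)
            ((flow Φ ε s W m).2 - w), w))) ∉ {q : ℝ × ((A' → PhasePoint) × PhasePoint) |
        inner ℝ (q.2.2.1 - (flow Φ ε q.1 q.2.1 m).1) (q.2.2.2 - (flow Φ ε q.1 q.2.1 m).2) = 0} := by
        intro hcon
        have h1 : inner ℝ ((flow Φ ε s W m).1 + ε • entrancePoint
          (frameMap ((flow Φ ε s W m).2 - w) y) ((flow Φ ε s W m).2 - w) - (flow Φ ε s W m).1)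
          (w - (flow Φ ε s W m).2) = 0 := hcon
        rw [add_sub_cancel_left, ← neg_sub (flow Φ ε s W m).2 w] at h1
        exact inner_entrance_pos hε hg hy1 h1
      rw [indicator_of_notMem hni, add_zero]

end one

/-- the weight of the pinned functional is the energy weight -/
theorem weight_eq_pin (hΦ : AdmissiblePotential Φ) {ε : ℝ} (hε : 0 < ε) {T : ℝ} (hT : 0 ≤ T)
    (γ : ℝ) (m : κ) (p : (κ → PhasePoint) → Space3) (Ψ : Space3 → ℝ≥0∞) (s : ℝ)
    (W : κ → PhasePoint) (z : PhasePoint) (N : ℝ≥0∞) :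
    ENNReal.ofReal (Real.exp (-(γ * (energy Φ ε W + ‖z.2‖ ^ 2 / 2)))) *
      (N * (Ψ (p W) * (badY Φ ε T m).indicator 1 (s, (W, z)))) =
    N * GYp Φ ε T (γ / 2) m p Ψ s W z := by
  unfold GYp
  by_cases hb : (s, (W, z)) ∈ badY Φ ε T m
  · rw [energy_badY hΦ hε hT hb]
    rw [show -(γ * ((∑ x, ‖(W x).2‖ ^ 2) / 2 + ‖z.2‖ ^ 2 / 2)) =
      -(γ / 2) * (∑ x, ‖(W x).2‖ ^ 2 + ‖z.2‖ ^ 2) by ring]
    ring
  · rw [indicator_of_notMem hb]
    simp

/-- **Bad one-particle release steps, localised at an arbitrary covariant point of the remaining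
group** (350's `bad_one` with the pin `p`). -/
theorem bad_one_pin {ι : Type} [Fintype ι] (hΦ : AdmissiblePotential Φ) {γ : ℝ} (hγ : 0 < γ)
    (T : ℝ) :
    ∃ q : ℝ → ℝ≥0∞, Tendsto q (𝓝[>] 0) (𝓝 0) ∧ ∀ ε : ℝ, 0 < ε →
      ∀ (A A' : Finset ι), A'.card + 1 = A.card → ∀ (p : (A' → PhasePoint) → Space3), Pin p →
      ∀ (Ψ : Space3 → ℝ≥0∞), Measurable Ψ →
      ∃ M : (A → PhasePoint) → ℝ≥0∞, Measurable M ∧
        (∀ (W : A → PhasePoint) (s : ℝ) (W' : A' → PhasePoint), s ∈ Icc 0 T → Step Φ ε s W W' →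
          ∀ (j : A) (m i' : A'), (j : ι) ∉ A' →
            dist (flow Φ ε s W j).1 (flow Φ ε s W' m).1 = ε →
            (inner ℝ ((flow Φ ε s W j).1 - (flow Φ ε s W' m).1)
                ((flow Φ ε s W j).2 - (flow Φ ε s W' m).2) = 0 ∨
              0 < inner ℝ ((flow Φ ε s W j).1 - (flow Φ ε s W' m).1)
                ((flow Φ ε s W j).2 - (flow Φ ε s W' m).2) ∧
              BadGraft Φ ε T i' s W' m (flow Φ ε s W j)) →
            Ψ (p W') ≤ M W) ∧
        ∫⁻ W, ENNReal.ofReal (Real.exp (-(γ * energy Φ ε W))) * M W ≤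
          q ε * ENNReal.ofReal (ε ^ (2 * (A.card - 1))) * ∫⁻ x, Ψ x := by
  choose q hq1 hq2 using fun (A' : Finset ι) (m : A') =>
    cherry_pin (κ := A') hΦ m (half_pos hγ) T
  refine ⟨fun ε => ∑ A' : Finset ι, ∑ m : A', q A' m ε, ?_, ?_⟩
  · have h : Tendsto (fun ε => ∑ A' : Finset ι, ∑ m : A', q A' m ε) (𝓝[>] 0)
        (𝓝 (∑ A' : Finset ι, ∑ _m : A', 0)) :=
      tendsto_finsetSum _ fun A' _ => tendsto_finsetSum _ fun m _ => hq1 A' m
    simpa using h
  intro ε hε A A' hc p hp Ψ hΨ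
  by_cases hgood : 0 ≤ T ∧ A' ⊆ A ∧ A'.Nonempty
  swap
  · refine ⟨fun _ => 0, measurable_const, ?_, ?_⟩
    · intro W s W' hs hS j m i' hj hd hbad
      exact absurd ⟨hs.1.trans hs.2, hS.sub, ⟨i', i'.2⟩⟩ hgood
    · simp
  obtain ⟨hT, hsub, hne⟩ := hgood
  have hB : ∀ m : A', ∫⁻ s in Icc 0 T, ∫⁻ W : A' → PhasePoint, ∫⁻ w : Space3,
      ∫⁻ y in Metric.ball (0 : Plane) 1,
        ENNReal.ofReal (Real.exp (-(γ * (energy Φ ε W + ‖w‖ ^ 2 / 2)))) *
        (ENNReal.ofReal ‖(flow Φ ε s W m).2 - w‖ * (Ψ (p W) * (badY Φ ε T m).indicator 1 (s, (W,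
          ((flow Φ ε s W m).1 + ε • entrancePoint (frameMap ((flow Φ ε s W m).2 - w) y)
            ((flow Φ ε s W m).2 - w), w))))) ≤
      ENNReal.ofReal (ε ^ 2) ^ (Fintype.card A' - 1) * ((∫⁻ x, Ψ x) * q A' m ε) := by
    intro m
    refine le_trans (le_of_eq ?_) (hq2 A' m ε p Ψ hε hp hΨ)
    refine lintegral_congr fun s => lintegral_congr fun W => lintegral_congr fun w =>
      lintegral_congr fun y => ?_
    exact weight_eq_pin hΦ hε hT γ m p Ψ s W
      ((flow Φ ε s W m).1 + ε • entrancePoint (frameMap ((flow Φ ε s W m).2 - w) y)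
        ((flow Φ ε s W m).2 - w), w) (ENNReal.ofReal ‖(flow Φ ε s W m).2 - w‖)
  obtain ⟨M, hM, hM1, hM2⟩ := bad_one_ofG hΦ hε hT hsub hc (G0 := fun W => Ψ (p W))
    (hΨ.comp hp.1) (C := fun m => badY Φ ε T m) (fun m => measurableSet_badY hΦ hε m) γ hB
  refine ⟨M, hM, ?_, hM2.trans ?_⟩
  · intro W s W' hs hS j m i' hj hd hbad
    refine hM1 W W' s hs hS j m hj hd ?_
    rcases hbad with hb | ⟨-, hb⟩
    · exact Or.inl hb
    · exact Or.inr (mem_badY hΦ hε hb)
  · have hcard : Fintype.card A' = A'.card := Fintype.card_coe A'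
    have hpos : 1 ≤ A'.card := Finset.card_pos.2 hne
    have h1 : ENNReal.ofReal (ε ^ 2) * ENNReal.ofReal (ε ^ 2) ^ (Fintype.card A' - 1) =
        ENNReal.ofReal (ε ^ (2 * (A.card - 1))) := by
      rw [← pow_succ', hcard, ← ENNReal.ofReal_pow (sq_nonneg ε), ← pow_mul]
      congr 3
      omega
    rw [← Finset.mul_sum, ← Finset.mul_sum, ← mul_assoc, h1]
    have h2 : ∑ m : A', q A' m ε ≤ ∑ A' : Finset ι, ∑ m : A', q A' m ε :=
      Finset.single_le_sum (f := fun A' : Finset ι => ∑ m : A', q A' m ε)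
        (fun _ _ => zero_le) (Finset.mem_univ A')
    calc ENNReal.ofReal (ε ^ (2 * (A.card - 1))) * ((∫⁻ x, Ψ x) * ∑ m : A', q A' m ε)
        ≤ ENNReal.ofReal (ε ^ (2 * (A.card - 1))) * ((∫⁻ x, Ψ x) *
          ∑ A' : Finset ι, ∑ m : A', q A' m ε) :=
          mul_le_mul_right (mul_le_mul_right h2 _) _
      _ = _ := by ring

end Crest.Agent.R122.BadPin416

end
end

-- ▼ part R122/BadPin_350
section

/-!
Row 122, helper350: majorants of bad events localised at a moving position (`PosMaj`): calculus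
and change of pin.
-/

set_option autoImplicit false
set_option linter.unusedSectionVars false

open MeasureTheory Set Filter Topology
open Crest.AnalysisR.Kinetic
open Crest.Agent.R122.Flow671 Crest.Agent.R122.Loc45 Crest.Agent.R122.Causal291
open Crest.Agent.R122.Omega969 Crest.Agent.R122.Disc416 Crest.Agent.R122.Chain726
open Crest.Agent.R122.Cherry796
open Crest.Agent.R122.Vol365 (PinMaj eint)
open scoped Classical ENNReal

noncomputable section

namespace Crest.Agent.R122.Flux350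

variable {Φ : Space3 → ℝ} {ε : ℝ}

/-- **Localised majorant**: `Bad W x` = the configuration `W` is bad and `x` is the position used
for the localisation. -/
def PosMaj (Φ : Space3 → ℝ) (ε γ : ℝ) {κ : Type} [Fintype κ]
    (Bad : (κ → PhasePoint) → Space3 → Prop) (δ : ℝ≥0∞) : Prop :=
  ∀ Ψ : Space3 → ℝ≥0∞, Measurable Ψ → ∃ M : (κ → PhasePoint) → ℝ≥0∞, Measurable M ∧
    (∀ W ∈ Dom Φ κ, ∀ x, Bad W x → Ψ x ≤ M W) ∧ eint Φ ε γ M ≤ δ * ∫⁻ x, Ψ x

theorem PosMaj.mono {γ : ℝ} {κ : Type} [Fintype κ] {Bad Bad' : (κ → PhasePoint) → Space3 → Prop}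
    {δ δ' : ℝ≥0∞} (h : PosMaj Φ ε γ Bad δ) (hB : ∀ W ∈ Dom Φ κ, ∀ x, Bad' W x → Bad W x)
    (hδ : δ ≤ δ') : PosMaj Φ ε γ Bad' δ' := by
  intro f hf
  obtain ⟨M, hM, h1, h2⟩ := h f hf
  exact ⟨M, hM, fun W hW x hb => h1 W hW x (hB W hW x hb), h2.trans (mul_le_mul_left hδ _)⟩

theorem PosMaj.false {γ : ℝ} {κ : Type} [Fintype κ] {Bad : (κ → PhasePoint) → Space3 → Prop}
    (h : ∀ W ∈ Dom Φ κ, ∀ x, ¬ Bad W x) : PosMaj Φ ε γ Bad 0 :=
  fun _ _ => ⟨fun _ => 0, measurable_const, fun W hW x hb => absurd hb (h W hW x),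
    by simp [Vol365.eint]⟩


theorem PosMaj.or (hΦ : AdmissiblePotential Φ) (hε : 0 < ε) {γ : ℝ} {κ : Type} [Fintype κ]
    {Bad Bad' : (κ → PhasePoint) → Space3 → Prop} {δ δ' : ℝ≥0∞} (h : PosMaj Φ ε γ Bad δ)
    (h' : PosMaj Φ ε γ Bad' δ') : PosMaj Φ ε γ (fun W x => Bad W x ∨ Bad' W x) (δ + δ') := by
  intro f hf
  obtain ⟨M, hM, h1, h2⟩ := h f hf
  obtain ⟨M', hM', h1', h2'⟩ := h' f hf
  refine ⟨fun W => M W + M' W, hM.add hM', ?_, ?_⟩
  · rintro W hW x (hb | hb)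
    · exact (h1 W hW x hb).trans le_self_add
    · exact (h1' W hW x hb).trans le_add_self
  · rw [Vol365.eint_add hΦ hε hM, add_mul]
    exact add_le_add h2 h2'

theorem PosMaj.finset (hΦ : AdmissiblePotential Φ) (hε : 0 < ε) {γ : ℝ} {κ : Type} [Fintype κ]
    {α : Type*} (s : Finset α) {Bad : α → (κ → PhasePoint) → Space3 → Prop} {δ : α → ℝ≥0∞}
    (h : ∀ y ∈ s, PosMaj Φ ε γ (Bad y) (δ y)) :
    PosMaj Φ ε γ (fun W x => ∃ y ∈ s, Bad y W x) (∑ y ∈ s, δ y) := by
  intro f hf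
  have h0 : ∀ y, ∃ M : (κ → PhasePoint) → ℝ≥0∞, y ∈ s → Measurable M ∧
      (∀ W ∈ Dom Φ κ, ∀ x, Bad y W x → f x ≤ M W) ∧
      eint Φ ε γ M ≤ δ y * ∫⁻ z, f z := by
    intro y
    by_cases hy : y ∈ s
    · obtain ⟨M, hM⟩ := h y hy f hf
      exact ⟨M, fun _ => hM⟩
    · exact ⟨fun _ => 0, fun h => absurd h hy⟩
  choose M hM using h0
  refine ⟨fun W => ∑ y ∈ s, M y W, Finset.measurable_sum _ fun y hy => (hM y hy).1, ?_, ?_⟩
  · rintro W hW x ⟨y, hy, hb⟩
    exact ((hM y hy).2.1 W hW x hb).trans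
      (Finset.single_le_sum (f := fun y => M y W) (fun _ _ => bot_le) hy)
  · rw [Vol365.eint_sum hΦ hε s fun y hy => (hM y hy).1, Finset.sum_mul]
    exact Finset.sum_le_sum fun y hy => (hM y hy).2.2

/-- **Localised majorants pull back along chains.** -/
theorem exists_posMaj_chain (hΦ : AdmissiblePotential Φ) {T : ℝ} (hT : 0 ≤ T) (n : ℕ) {γ₁ γ₂ : ℝ}
    (h1 : 0 < γ₁) (h12 : γ₁ < γ₂) : ∃ C : ℝ≥0∞, C ≠ ∞ ∧ ∀ ε : ℝ, 0 < ε → ε ≤ 1 →
    ∀ (ι : Type) (A A' : Finset ι), A.card ≤ n →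
    ∀ (Bad : (A' → PhasePoint) → Space3 → Prop) (δ : ℝ≥0∞), PosMaj Φ ε γ₁ Bad δ →
    PosMaj Φ ε γ₂ (fun (W : A → PhasePoint) x => ∃ W' : A' → PhasePoint,
      Chain Φ ε T A W A' W' ∧ Bad W' x)
      (C * ENNReal.ofReal ε ^ (2 * (A.card - A'.card)) * δ) := by
  obtain ⟨C, hC, h⟩ := Vol365.chain_majorant hΦ hT n γ₁ γ₂ h1 h12
  refine ⟨C, hC, fun ε hε hε1 ι A A' hA Bad δ hB f hf => ?_⟩
  obtain ⟨M', hM', h3, h4⟩ := hB f hf
  obtain ⟨M, hM, h5, h6⟩ := h ε hε hε1 ι A A' hA M' hM'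
  refine ⟨M, hM, ?_, ?_⟩
  · rintro W hW x ⟨W', hc, hb⟩
    exact (h3 W' (hc.dom' hΦ hε hW) x hb).trans (h5 _ _ hc)
  · refine h6.trans ((mul_le_mul_right h4 _).trans (le_of_eq (by ring)))

/-- **Localised majorants pull back along one step.** -/
theorem exists_posMaj_step (hΦ : AdmissiblePotential Φ) {T : ℝ} (hT : 0 ≤ T) (K : ℕ) {γ₁ γ₂ : ℝ}
    (h1 : 0 < γ₁) (h12 : γ₁ < γ₂) : ∃ C : ℝ≥0∞, C ≠ ∞ ∧ ∀ ε : ℝ, 0 < ε →
    ∀ (ι : Type) (A A' : Finset ι), A.card ≤ K →
    ∀ (Bad : (A' → PhasePoint) → Space3 → Prop) (δ : ℝ≥0∞), PosMaj Φ ε γ₁ Bad δ →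
    PosMaj Φ ε γ₂ (fun (W : A → PhasePoint) x => ∃ s ∈ Icc 0 T, ∃ W' : A' → PhasePoint,
      Step Φ ε s W W' ∧ Bad W' x)
      (C * ENNReal.ofReal ε ^ (2 + 3 * (A.card - A'.card - 1)) * δ) := by
  obtain ⟨C, hC, h⟩ := Vol365.fstep_majorant hΦ h1 h12 hT K
  refine ⟨C, hC, fun ε hε ι A A' hA Bad δ hB => ?_⟩
  by_cases hsub : A' ⊆ A
  swap
  · refine (PosMaj.false (Bad := fun (W : A → PhasePoint) x => ∃ s ∈ Icc 0 T,
      ∃ W' : A' → PhasePoint, Step Φ ε s W W' ∧ Bad W' x) ?_).mono (fun W _ x h => h) bot_le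
    rintro W - x ⟨s, _, W', hst, _⟩
    exact hsub hst.sub
  intro f hf
  obtain ⟨M', hM', h3, h4⟩ := hB f hf
  obtain ⟨M, hM, h5, h6⟩ := h ε hε ι A A' hA hsub M' hM'
  refine ⟨M, hM, ?_, ?_⟩
  · rintro W hW x ⟨s, hs, W', hst, hb⟩
    exact (h3 W' (hst.dom' hΦ hε) x hb).trans (h5 s hs _ _ hst)
  · refine h6.trans ((mul_le_mul_right h4 _).trans (le_of_eq (by ring)))

/-! ### Change of pin -/

/-- measurability of the translational average -/
lemma measurable_avgX {κ : Type*} [Fintype κ] {M : (κ → PhasePoint) → ℝ≥0∞} (hM : Measurable M) :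
    Measurable fun W : κ → PhasePoint => ∫⁻ a, M (shiftX a W) := by
  have h : Measurable (fun q : (κ → PhasePoint) × Space3 => M (shiftX q.2 q.1)) := by
    have h := hM.comp (measurable_shiftX.comp
      (measurable_snd.prodMk measurable_fst : Measurable fun q : (κ → PhasePoint) × Space3 => (q.2, q.1)))
    exact h
  exact h.lintegral_prod_right' (f := fun q : (κ → PhasePoint) × Space3 => M (shiftX q.2 q.1))

lemma avgX_shift {κ : Type*} [Fintype κ] (M : (κ → PhasePoint) → ℝ≥0∞) (b : Space3) (W : κ → PhasePoint) :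
    ∫⁻ a, M (shiftX a (shiftX b W)) = ∫⁻ a, M (shiftX a W) := by
  simp only [shiftX_shiftX]
  exact lintegral_add_right_eq_self (fun a => M (shiftX a W)) b

/-- **Change of pin**, from the majorant of one profile. -/
theorem posMaj_of_one (hΦ : AdmissiblePotential Φ) {γ : ℝ} {κ : Type} [Fintype κ]
    {Bad : (κ → PhasePoint) → Prop} {δ : ℝ≥0∞} {M : (κ → PhasePoint) → ℝ≥0∞} (hM : Measurable M)
    (h1 : ∀ W ∈ Dom Φ κ, Bad W → ∃ q : Space3, ∀ a, kw (q + a) ≤ M (shiftX a W))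
    (h2 : eint Φ ε γ M ≤ δ)
    {p : (κ → PhasePoint) → Space3} (hp : Measurable p) (hpt : ∀ a W, p (shiftX a W) = p W + a) :
    PosMaj Φ ε γ (fun W x => Bad W ∧ x = p W) δ := by
  intro Ψ hΨ
  have hN := measurable_avgX hM
  refine ⟨fun W => Ψ (p W) * ∫⁻ a, M (shiftX a W), (hΨ.comp hp).mul hN, ?_, ?_⟩
  · rintro W hW x ⟨hb, rfl⟩
    obtain ⟨q, hq⟩ := h1 W hW hb
    calc Ψ (p W) = Ψ (p W) * ∫⁻ a, kw (q + a) := by rw [lintegral_kw_add, mul_one]
      _ ≤ _ := mul_le_mul_right (lintegral_mono hq) _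
  · have hE : Measurable (fun W : κ → PhasePoint =>
        ENNReal.ofReal (Real.exp (-(γ * energy Φ ε W)))) :=
      ENNReal.measurable_ofReal.comp (Real.measurable_exp.comp
        ((measurable_energy hΦ ε).const_mul γ).neg)
    unfold Vol365.eint at h2 ⊢
    rw [lintegral_avg hp hpt (m := fun W => ENNReal.ofReal (Real.exp (-(γ * energy Φ ε W))) *
      (Ψ (p W) * ∫⁻ a, M (shiftX a W))) (hE.mul ((hΨ.comp hp).mul hN))]
    rw [lintegral_avg hp hpt (m := fun W => ENNReal.ofReal (Real.exp (-(γ * energy Φ ε W))) *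
      M W) (hE.mul hM)] at h2
    have e1 : ∀ W : κ → PhasePoint, kw (p W) * ∫⁻ b, ENNReal.ofReal (Real.exp
        (-(γ * energy Φ ε (shiftX b W)))) * (Ψ (p (shiftX b W)) *
          ∫⁻ a, M (shiftX a (shiftX b W))) =
        (kw (p W) * ∫⁻ b, ENNReal.ofReal (Real.exp (-(γ * energy Φ ε (shiftX b W)))) *
          M (shiftX b W)) * ∫⁻ x, Ψ x := by
      intro W
      simp only [energy_shiftX, avgX_shift, hpt]
      have hΨp : Measurable fun b : Space3 => Ψ (p W + b) := hΨ.comp (measurable_const_add _)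
      have hMb : Measurable fun b : Space3 => M (shiftX b W) :=
        hM.comp (measurable_shiftX.comp (measurable_id.prodMk measurable_const))
      rw [lintegral_const_mul _ (hΨp.mul_const _), lintegral_mul_const _ hΨp,
        lintegral_add_left_eq_self (fun x => Ψ x) (p W), lintegral_const_mul _ hMb]
      ring
    simp only [e1]
    rw [lintegral_mul_const]
    · exact mul_le_mul_left h2 _
    · refine (measurable_kw.comp hp).mul ?_
      have h := measurable_avgX (M := fun W => ENNReal.ofReal (Real.exp (-(γ * energy Φ ε W))) *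
        M W) (hE.mul hM)
      exact h

/-- **Change of pin.** -/
theorem posMaj_of_pin (hΦ : AdmissiblePotential Φ) {γ : ℝ} {κ : Type} [Fintype κ]
    {Bad : (κ → PhasePoint) → Prop} {δ : ℝ≥0∞} (h : PinMaj Φ ε γ Bad δ)
    {p : (κ → PhasePoint) → Space3} (hp : Measurable p) (hpt : ∀ a W, p (shiftX a W) = p W + a) :
    PosMaj Φ ε γ (fun W x => Bad W ∧ x = p W) δ := by
  obtain ⟨M, hM, h1, h2⟩ := h kw measurable_kw
  rw [lintegral_kw, mul_one] at h2
  exact posMaj_of_one hΦ hM h1 h2 hp hpt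

/-- position of a particle at time `t` as a pin -/
lemma measurable_posT (hΦ : AdmissiblePotential Φ) (hε : 0 < ε) {κ : Type*} [Fintype κ] (t : ℝ)
    (i : κ) : Measurable fun W : κ → PhasePoint => (flow Φ ε t W i).1 :=
  ((measurable_pi_apply i).comp (measurable_flow hΦ hε t)).fst

lemma posT_shift (hΦ : AdmissiblePotential Φ) (hε : 0 < ε) {κ : Type*} [Fintype κ] (t : ℝ)
    (i : κ) (a : Space3) (W : κ → PhasePoint) :
    (flow Φ ε t (shiftX a W) i).1 = (flow Φ ε t W i).1 + a := by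
  rw [flow_shiftX hΦ hε]
  rfl

end Crest.Agent.R122.Flux350

end
end

-- ▼ part R122/BadVolP_350

/-!
Row 122, helper350: the volume statement of D5 localised at the possible positions of the root at
time `t` (uniformly in `t`).
-/

set_option autoImplicit false
set_option linter.unusedSectionVars false

open MeasureTheory Set Filter Topology
open Crest.AnalysisR.Kinetic
open Crest.Agent.R122.Flow671 Crest.Agent.R122.Loc45 Crest.Agent.R122.Causal291
open Crest.Agent.R122.Omega969 Crest.Agent.R122.Disc416 Crest.Agent.R122.Chain726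
open Crest.Agent.R122.Cherry796
open Crest.Agent.R122.Vol365 (PinMaj eint)
open scoped Classical ENNReal

noncomputable section

namespace Crest.Agent.R122.Flux350

variable {Φ : Space3 → ℝ} {ε : ℝ}

/-! ### The localised bad events of the last group -/

/-- bad group, root position of the group itself -/
def BL1 (Φ : Space3 → ℝ) (ε T te : ℝ) {ι : Type} (i : ι) (t : ℝ) {A : Finset ι}
    (W : A → PhasePoint) (x : Space3) : Prop :=
  ∃ i' : A, (i' : ι) = i ∧ (BadStep Φ ε T i W ∨ TermBad Φ ε T te i W) ∧ x = (flow Φ ε t W i').1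

/-- at least two released particles, root position of any younger group -/
def BL2 (Φ : Space3 → ℝ) (ε T : ℝ) {ι : Type} (i : ι) (t : ℝ) {A : Finset ι}
    (W : A → PhasePoint) (x : Space3) : Prop :=
  ∃ s ∈ Icc 0 T, ∃ (A' : Finset ι) (W' : A' → PhasePoint), Step Φ ε s W W' ∧
    A'.card + 2 ≤ A.card ∧ ∃ (B : Finset ι) (Y : B → PhasePoint) (i' : B), (i' : ι) = i ∧
      x = (flow Φ ε t Y i').1 ∧ Chain Φ ε T A' W' B Y ∧
      ∃ W'' : ({i} : Finset ι) → PhasePoint, Chain Φ ε T B Y {i} W''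

/-- one released particle -/
def BL3 (Φ : Space3 → ℝ) (ε T : ℝ) {ι : Type} (i : ι) (t : ℝ) {A : Finset ι}
    (W : A → PhasePoint) (x : Space3) : Prop :=
  ∃ s ∈ Icc 0 T, ∃ (A' : Finset ι) (W' : A' → PhasePoint), Step Φ ε s W W' ∧
    A'.card + 1 = A.card ∧ ∃ (j : A) (m i' : A'), (i' : ι) = i ∧ (j : ι) ∉ A' ∧
        dist (flow Φ ε s W j).1 (flow Φ ε s W' m).1 = ε ∧
        (inner ℝ ((flow Φ ε s W j).1 - (flow Φ ε s W' m).1)
            ((flow Φ ε s W j).2 - (flow Φ ε s W' m).2) = 0 ∨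
          0 < inner ℝ ((flow Φ ε s W j).1 - (flow Φ ε s W' m).1)
            ((flow Φ ε s W j).2 - (flow Φ ε s W' m).2) ∧
          BadGraft Φ ε T i' s W' m (flow Φ ε s W j)) ∧ x = (flow Φ ε t W' i').1

/-- 726's localised bad event is one of the three -/
lemma badLast_cases {T te t : ℝ} {ι : Type} {i : ι} {A : Finset ι} {W : A → PhasePoint}
    {x : Space3} (h : BadLast Φ ε T te i t W x) :
    BL1 Φ ε T te i t W x ∨ BL2 Φ ε T i t W x ∨ BL3 Φ ε T i t W x := by
  rcases h with ⟨s, hs, A', W', hst, hb, i', hi', hx⟩ | ⟨-, hb, i', hi', hx⟩ | ⟨hb, i', hi', hx⟩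
  · rcases hb with ⟨hc, W'', hch⟩ | ⟨hc, j, m, i2, hi2, hj, hd, hb⟩
    · exact Or.inr (Or.inl ⟨s, hs, A', W', hst, hc, A', W', i', hi', hx, .refl _ _, W'', hch⟩)
    · have : i2 = i' := Subtype.ext (hi2.trans hi'.symm)
      subst this
      exact Or.inr (Or.inr ⟨s, hs, A', W', hst, hc, j, m, i2, hi2, hj, hd, hb, hx⟩)
  · exact Or.inl ⟨i', hi', Or.inl hb, hx⟩
  · exact Or.inl ⟨i', hi', Or.inr hb, hx⟩

/-! ### The majorants -/

/-- `BL1` -/
theorem bl1_majorant (hΦ : AdmissiblePotential Φ) {μ : ℝ} (hμ : 0 < μ) {T te : ℝ} (hT : 0 ≤ T)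
    {ι : Type} [Fintype ι] (i : ι) :
    ∃ q : ℝ → ℝ≥0∞, Tendsto q (𝓝[>] 0) (𝓝 0) ∧ ∀ ε : ℝ, 0 < ε → ε ≤ 1 → ∀ (A : Finset ι) (t : ℝ),
      PosMaj Φ ε μ (fun (W : A → PhasePoint) x => BL1 Φ ε T te i t W x)
        (q ε * ENNReal.ofReal ε ^ (2 * (A.card - 1))) := by
  obtain ⟨q, hq, h⟩ := pin_majorant (te := te) hΦ hμ hT
    (fun ι _ γ hγ => BadTerm818.term_bad (ι := ι) hΦ hγ te T) i measurable_kw lintegral_kw
  refine ⟨q, hq, fun ε hε hε1 A t => ?_⟩
  by_cases hi : i ∈ A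
  swap
  · refine (PosMaj.false (Bad := fun (W : A → PhasePoint) x => BL1 Φ ε T te i t W x) ?_).mono
      (fun W _ x h => h) bot_le
    rintro W - x ⟨i', hi', -⟩
    exact hi (hi' ▸ i'.2)
  obtain ⟨M, hM, hM1, hM2⟩ := h ε hε hε1 A
  refine (posMaj_of_one (Bad := fun W : A → PhasePoint => BadStep Φ ε T i W ∨ TermBad Φ ε T te i W)
    hΦ hM ?_ hM2 (measurable_posT hΦ hε t (⟨i, hi⟩ : A)) (posT_shift hΦ hε t (⟨i, hi⟩ : A))).mono ?_ le_rfl
  · intro W hW hb
    obtain ⟨p, hp⟩ := exists_badPin hb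
    exact ⟨p, fun a => hM1 _ ((Dom_shiftX a).2 hW) _ (hp.shift hΦ hε a)⟩
  · rintro W - x ⟨i', hi', hb, hx⟩
    have : i' = ⟨i, hi⟩ := Subtype.ext hi'
    subst this
    exact ⟨hb, hx⟩

/-- every configuration of one particle -/
lemma pinMaj_single (Φ : Space3 → ℝ) (ε : ℝ) (γ : ℝ) {κ : Type} [Fintype κ] [Unique κ] :
    PinMaj Φ ε γ (fun _ : κ → PhasePoint => True) (Vol365.gv γ) := by
  intro f hf
  refine ⟨fun W => f (W default).1, hf.comp ((measurable_pi_apply _).fst), ?_, ?_⟩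
  · intro W _ _
    exact ⟨(W default).1, fun a => le_of_eq rfl⟩
  · exact (Vol365.lintegral_single f hf).le

/-- `BL2` -/
theorem bl2_majorant (hΦ : AdmissiblePotential Φ) {μ : ℝ} (hμ : 0 < μ) {T : ℝ} (hT : 0 ≤ T)
    {ι : Type} [Fintype ι] (i : ι) :
    ∃ C : ℝ≥0∞, C ≠ ∞ ∧ ∀ ε : ℝ, 0 < ε → ε ≤ 1 → ∀ (A : Finset ι) (t : ℝ),
      PosMaj Φ ε μ (fun (W : A → PhasePoint) x => BL2 Φ ε T i t W x)
        (C * ENNReal.ofReal ε * ENNReal.ofReal ε ^ (2 * (A.card - 1))) := by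
  obtain ⟨C₁, hC₁, h1⟩ := Vol365.exists_pinMaj_chain hΦ hT (Fintype.card ι) (γ₁ := μ / 4)
    (γ₂ := μ / 3) (by linarith) (by linarith)
  obtain ⟨C₂, hC₂, h2⟩ := exists_posMaj_chain hΦ hT (Fintype.card ι) (γ₁ := μ / 3)
    (γ₂ := μ / 2) (by linarith) (by linarith)
  obtain ⟨C₃, hC₃, h3⟩ := exists_posMaj_step hΦ hT (Fintype.card ι) (γ₁ := μ / 2)
    (γ₂ := μ) (by linarith) (by linarith)
  set N : ℝ≥0∞ := (Fintype.card (Finset ι) : ℝ≥0∞) with hN
  have hNt : N ≠ ∞ := ENNReal.natCast_ne_top _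
  refine ⟨N * (N * (C₃ * (C₂ * (C₁ * Vol365.gv (μ / 4))))), ENNReal.mul_ne_top hNt
    (ENNReal.mul_ne_top hNt (ENNReal.mul_ne_top hC₃ (ENNReal.mul_ne_top hC₂
      (ENNReal.mul_ne_top hC₁ (Vol365.gv_ne_top (by linarith)))))), ?_⟩
  intro ε hε hε1 A t
  have hε1' : ENNReal.ofReal ε ≤ 1 := by
    rw [← ENNReal.ofReal_one]; exact ENNReal.ofReal_le_ofReal hε1
  -- one pair `(A', B)`
  have key : ∀ A' B : Finset ι, PosMaj Φ ε μ (fun (W : A → PhasePoint) x =>
      ∃ s ∈ Icc 0 T, ∃ W' : A' → PhasePoint, Step Φ ε s W W' ∧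
        (A'.card + 2 ≤ A.card ∧ ∃ (Y : B → PhasePoint) (i' : B), (i' : ι) = i ∧
          x = (flow Φ ε t Y i').1 ∧ Chain Φ ε T A' W' B Y ∧
          ∃ W'' : ({i} : Finset ι) → PhasePoint, Chain Φ ε T B Y {i} W''))
      (C₃ * (C₂ * (C₁ * Vol365.gv (μ / 4))) *
        (ENNReal.ofReal ε * ENNReal.ofReal ε ^ (2 * (A.card - 1)))) := by
    intro A' B
    by_cases hc : A'.card + 2 ≤ A.card ∧ B ⊆ A' ∧ i ∈ B
    swap
    · refine (PosMaj.false (Bad := fun (W : A → PhasePoint) x =>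
        ∃ s ∈ Icc 0 T, ∃ W' : A' → PhasePoint, Step Φ ε s W W' ∧
        (A'.card + 2 ≤ A.card ∧ ∃ (Y : B → PhasePoint) (i' : B), (i' : ι) = i ∧
          x = (flow Φ ε t Y i').1 ∧ Chain Φ ε T A' W' B Y ∧
          ∃ W'' : ({i} : Finset ι) → PhasePoint, Chain Φ ε T B Y {i} W'')) ?_).mono
        (fun W _ x h => h) bot_le
      rintro W - x ⟨s, -, W', -, hcard, Y, i', hi', -, hch, -⟩
      exact hc ⟨hcard, hch.subset, hi' ▸ i'.2⟩
    obtain ⟨hcard, hBA, hi⟩ := hc
    have hBcard := Finset.card_le_card hBA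
    have hB1 : 1 ≤ B.card := Finset.card_pos.2 ⟨i, hi⟩
    have s1 := h1 ε hε hε1 ι B {i} (Finset.card_le_univ B) (fun _ => True) _
      (pinMaj_single Φ ε (μ / 4))
    have s2 := posMaj_of_pin hΦ s1 (measurable_posT hΦ hε t (⟨i, hi⟩ : B))
      (posT_shift hΦ hε t (⟨i, hi⟩ : B))
    have s3 := h2 ε hε hε1 ι A' B (Finset.card_le_univ A') _ _ s2
    have s4 := h3 ε hε ι A A' (Finset.card_le_univ A) _ _ s3
    refine s4.mono ?_ ?_
    · rintro W - x ⟨s, hs, W', hst, -, Y, i', hi', hx, hch, W'', hch'⟩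
      have : i' = ⟨i, hi⟩ := Subtype.ext hi'
      subst this
      exact ⟨s, hs, W', hst, Y, hch, ⟨W'', hch', trivial⟩, hx⟩
    · rw [Finset.card_singleton]
      calc C₃ * ENNReal.ofReal ε ^ (2 + 3 * (A.card - A'.card - 1)) *
            (C₂ * ENNReal.ofReal ε ^ (2 * (A'.card - B.card)) *
              (C₁ * ENNReal.ofReal ε ^ (2 * (B.card - 1)) * Vol365.gv (μ / 4)))
          = C₃ * (C₂ * (C₁ * Vol365.gv (μ / 4))) *
              (ENNReal.ofReal ε ^ (2 + 3 * (A.card - A'.card - 1)) *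
                ENNReal.ofReal ε ^ (2 * (A'.card - B.card)) *
                ENNReal.ofReal ε ^ (2 * (B.card - 1))) := by ring
        _ ≤ _ := by
            refine mul_le_mul_right ?_ _
            rw [← pow_add, ← pow_add, ← pow_succ']
            refine pow_le_pow_right_of_le_one' hε1' ?_
            omega
  have s5 := PosMaj.finset hΦ hε (Finset.univ : Finset (Finset ι)) fun A' _ =>
    PosMaj.finset hΦ hε (Finset.univ : Finset (Finset ι)) fun B _ => key A' B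
  refine s5.mono ?_ (le_of_eq ?_)
  · rintro W - x ⟨s, hs, A', W', hst, hcard, B, Y, i', h⟩
    exact ⟨A', Finset.mem_univ _, B, Finset.mem_univ _, s, hs, W', hst, hcard, Y, i', h⟩
  · simp only [Finset.sum_const, nsmul_eq_mul, Finset.card_univ]
    rw [← hN]
    ring

/-- `BL3` -/
theorem bl3_majorant (hΦ : AdmissiblePotential Φ) {μ : ℝ} (hμ : 0 < μ) (T : ℝ)
    {ι : Type} [Fintype ι] (i : ι) :
    ∃ q : ℝ → ℝ≥0∞, Tendsto q (𝓝[>] 0) (𝓝 0) ∧ ∀ ε : ℝ, 0 < ε → ε ≤ 1 → ∀ (A : Finset ι) (t : ℝ),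
      PosMaj Φ ε μ (fun (W : A → PhasePoint) x => BL3 Φ ε T i t W x)
        (q ε * ENNReal.ofReal ε ^ (2 * (A.card - 1))) := by
  obtain ⟨q, hq, h⟩ := BadPin416.bad_one_pin (ι := ι) hΦ hμ T
  set N : ℝ≥0∞ := (Fintype.card (Finset ι) : ℝ≥0∞) with hN
  have hNt : N ≠ ∞ := ENNReal.natCast_ne_top _
  refine ⟨fun ε => N * q ε, ?_, ?_⟩
  · have e2 := ENNReal.Tendsto.const_mul (a := N) hq (Or.inr hNt)
    simpa using e2
  intro ε hε hε1 A t
  have key : ∀ A' : Finset ι, PosMaj Φ ε μ (fun (W : A → PhasePoint) x =>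
      ∃ s ∈ Icc 0 T, ∃ W' : A' → PhasePoint, Step Φ ε s W W' ∧
    A'.card + 1 = A.card ∧ ∃ (j : A) (m i' : A'), (i' : ι) = i ∧ (j : ι) ∉ A' ∧
        dist (flow Φ ε s W j).1 (flow Φ ε s W' m).1 = ε ∧
        (inner ℝ ((flow Φ ε s W j).1 - (flow Φ ε s W' m).1)
            ((flow Φ ε s W j).2 - (flow Φ ε s W' m).2) = 0 ∨
          0 < inner ℝ ((flow Φ ε s W j).1 - (flow Φ ε s W' m).1)
            ((flow Φ ε s W j).2 - (flow Φ ε s W' m).2) ∧
          BadGraft Φ ε T i' s W' m (flow Φ ε s W j)) ∧ x = (flow Φ ε t W' i').1)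
      (q ε * ENNReal.ofReal ε ^ (2 * (A.card - 1))) := by
    intro A'
    by_cases hc : A'.card + 1 = A.card ∧ i ∈ A'
    swap
    · refine (PosMaj.false ?_).mono (fun W _ x h => h) bot_le
      rintro W - x ⟨s, -, W', -, hcard, j, m, i', hi', -⟩
      exact hc ⟨hcard, hi' ▸ i'.2⟩
    obtain ⟨hcard, hi⟩ := hc
    intro Ψ hΨ
    obtain ⟨M, hM, hM1, hM2⟩ := h ε hε A A' hcard (fun Y => (flow Φ ε t Y ⟨i, hi⟩).1)
      ⟨measurable_posT hΦ hε t (⟨i, hi⟩ : A'), posT_shift hΦ hε t (⟨i, hi⟩ : A')⟩ Ψ hΨ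
    refine ⟨M, hM, ?_, ?_⟩
    · rintro W - x ⟨s, hs, W', hst, -, j, m, i', hi', hj, hd, hb, hx⟩
      have : i' = ⟨i, hi⟩ := Subtype.ext hi'
      rw [hx, this]
      exact hM1 W s W' hs hst j m i' hj hd hb
    · refine (show eint Φ ε μ M ≤ _ from hM2).trans (le_of_eq ?_)
      rw [ENNReal.ofReal_pow hε.le]
  have s5 := PosMaj.finset hΦ hε (Finset.univ : Finset (Finset ι)) fun A' _ => key A'
  refine s5.mono ?_ (le_of_eq ?_)
  · rintro W - x ⟨s, hs, A', W', h⟩
    exact ⟨A', Finset.mem_univ _, s, hs, W', h⟩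
  · rw [Finset.sum_const, nsmul_eq_mul, Finset.card_univ, ← hN]
    ring

/-- 726's localised bad event -/
theorem badLast_majorant (hΦ : AdmissiblePotential Φ) {μ : ℝ} (hμ : 0 < μ) {T te : ℝ} (hT : 0 ≤ T)
    {ι : Type} [Fintype ι] (i : ι) :
    ∃ q : ℝ → ℝ≥0∞, Tendsto q (𝓝[>] 0) (𝓝 0) ∧ ∀ ε : ℝ, 0 < ε → ε ≤ 1 → ∀ (A : Finset ι) (t : ℝ),
      PosMaj Φ ε μ (fun (W : A → PhasePoint) x => BadLast Φ ε T te i t W x)
        (q ε * ENNReal.ofReal ε ^ (2 * (A.card - 1))) := by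
  obtain ⟨q1, hq1, h1⟩ := bl1_majorant (te := te) hΦ hμ hT i
  obtain ⟨C, hC, h2⟩ := bl2_majorant hΦ hμ hT i
  obtain ⟨q3, hq3, h3⟩ := bl3_majorant hΦ hμ T i
  refine ⟨fun ε => q1 ε + (C * ENNReal.ofReal ε + q3 ε), ?_, ?_⟩
  · have e0 : Tendsto (fun ε : ℝ => ENNReal.ofReal ε) (𝓝[>] 0) (𝓝 0) := by
      have h := (ENNReal.continuous_ofReal.tendsto (0 : ℝ)).mono_left
        (nhdsWithin_le_nhds : 𝓝[>] (0 : ℝ) ≤ 𝓝 0)
      rwa [ENNReal.ofReal_zero] at h
    have e1 := ENNReal.Tendsto.const_mul (a := C) e0 (Or.inr hC)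
    simpa using hq1.add (e1.add hq3)
  intro ε hε hε1 A t
  refine ((h1 ε hε hε1 A t).or hΦ hε ((h2 ε hε hε1 A t).or hΦ hε (h3 ε hε hε1 A t))).mono ?_
    (le_of_eq (by ring))
  intro W _ x h
  exact badLast_cases h

/-- **The volume statement of D5, localised at the position of the root at time `t`.** -/
theorem badVolP (hΦ : AdmissiblePotential Φ) {T : ℝ} (te : ℝ) (hT : 0 ≤ T) {γ : ℝ} (hγ : 0 < γ)
    (K : ℕ) : BadPos416.BadVolP Φ T te γ K := by
  intro k _ j δ hδ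
  obtain ⟨q, hq, hlast⟩ := badLast_majorant (te := te) hΦ hγ hT j
  obtain ⟨C, hC, hchain⟩ := exists_posMaj_chain hΦ hT k (γ₁ := γ) (γ₂ := 2 * γ) hγ (by linarith)
  set N : ℝ≥0∞ := (Fintype.card (Finset (Fin k)) : ℝ≥0∞) with hN
  have hNt : N ≠ ∞ := ENNReal.natCast_ne_top _
  have hlim : Tendsto (fun ε => N * (C * q ε)) (𝓝[>] 0) (𝓝 0) := by
    have h := ENNReal.Tendsto.const_mul (a := N)
      (ENNReal.Tendsto.const_mul (a := C) hq (Or.inr hC)) (Or.inr hNt)
    simpa using h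
  have hev := (ENNReal.tendsto_nhds_zero.1 hlim) _ (ENNReal.ofReal_pos.2 hδ)
  obtain ⟨b, hb0, hbsub⟩ := (mem_nhdsGT_iff_exists_Ioo_subset).1 hev
  have hb0' : (0 : ℝ) < b := hb0
  refine ⟨min b 1, lt_min hb0' one_pos, fun ε hε hε₀ t Ψ hΨ => ?_⟩
  have hε1 : ε ≤ 1 := hε₀.le.trans (min_le_right _ _)
  have hε1' : ENNReal.ofReal ε ≤ 1 := by
    rw [← ENNReal.ofReal_one]; exact ENNReal.ofReal_le_ofReal hε1
  have hsmall : N * (C * q ε) ≤ ENNReal.ofReal δ :=
    hbsub ⟨hε, hε₀.trans_le (min_le_left _ _)⟩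
  -- all groups
  have hall : PosMaj Φ ε (2 * γ) (fun (W : ↥(Finset.univ : Finset (Fin k)) → PhasePoint) x =>
      ∃ (A : Finset (Fin k)), A ∈ Finset.univ ∧ ∃ W' : A → PhasePoint,
        Chain Φ ε T Finset.univ W A W' ∧ BadLast Φ ε T te j t W' x)
      (ENNReal.ofReal (δ * ε ^ (2 * (k - 1)))) := by
    refine (PosMaj.finset hΦ hε (Finset.univ : Finset (Finset (Fin k))) fun A _ =>
      hchain ε hε hε1 (Fin k) Finset.univ A (by simp) _ _ (hlast ε hε hε1 A t)).mono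
      (fun W _ x h => h) ?_
    have h3 : ∀ A : Finset (Fin k), C * ENNReal.ofReal ε ^
        (2 * ((Finset.univ : Finset (Fin k)).card - A.card)) *
          (q ε * ENNReal.ofReal ε ^ (2 * (A.card - 1))) ≤
        C * q ε * ENNReal.ofReal ε ^ (2 * (k - 1)) := by
      intro A
      have hpow : ENNReal.ofReal ε ^ (2 * ((Finset.univ : Finset (Fin k)).card - A.card)) *
          ENNReal.ofReal ε ^ (2 * (A.card - 1)) ≤ ENNReal.ofReal ε ^ (2 * (k - 1)) := by
        rw [← pow_add]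
        refine pow_le_pow_right_of_le_one' hε1' ?_
        have := Finset.card_le_univ A
        rw [Finset.card_univ]
        rw [Fintype.card_fin] at this ⊢
        omega
      calc C * ENNReal.ofReal ε ^ (2 * ((Finset.univ : Finset (Fin k)).card - A.card)) *
            (q ε * ENNReal.ofReal ε ^ (2 * (A.card - 1)))
          = C * q ε * (ENNReal.ofReal ε ^ (2 * ((Finset.univ : Finset (Fin k)).card - A.card)) *
            ENNReal.ofReal ε ^ (2 * (A.card - 1))) := by ring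
        _ ≤ _ := mul_le_mul_right hpow _
    refine (Finset.sum_le_card_nsmul _ _ _ fun A _ => h3 A).trans ?_
    rw [nsmul_eq_mul, Finset.card_univ, ENNReal.ofReal_mul hδ.le, ENNReal.ofReal_pow hε.le,
      ← mul_assoc]
    refine mul_le_mul_left ?_ _
    rw [← hN]
    exact hsmall
  obtain ⟨G, hG, hG1, hG2⟩ := hall Ψ hΨ
  set σ : (Finset.univ : Finset (Fin k)) ≃ Fin k :=
    Equiv.subtypeUnivEquiv fun x => Finset.mem_univ x with hσ
  have hGσ : Measurable fun V : Config k => G (fun x => V (σ x)) :=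
    Vol365.measurable_of_equiv σ hG
  refine ⟨(PairExcluded ε k).indicator fun V => G (fun x => V (σ x)),
    hGσ.indicator (GC311.measurableSet_pairExcluded ε k), ?_, ?_⟩
  · rintro V hV x ⟨A, W, hch, hbad⟩
    rw [indicator_of_mem hV]
    have hdom : grp Finset.univ V ∈ Dom Φ (Finset.univ : Finset (Fin k)) := by
      refine Or.inr fun y z hyz h => ?_
      have h1 := hV y z fun h' => hyz (Subtype.ext h')
      have h2 : (V y).1 = (V z).1 := h
      rw [h2, dist_self] at h1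
      linarith
    exact hG1 _ hdom x ⟨A, Finset.mem_univ A, W, hch, hbad⟩
  · have h1 : ∫⁻ V : Config k, NG416.gwc γ V * (PairExcluded ε k).indicator
        (fun V => G (fun x => V (σ x))) V ≤
        eint Φ ε (2 * γ) fun V : Config k => G (fun x => V (σ x)) := by
      unfold Vol365.eint
      refine lintegral_mono fun V => ?_
      by_cases hV : V ∈ PairExcluded ε k
      · rw [indicator_of_mem hV, NG416.gwc_eq_exp, energy_pairExcluded hΦ hε hV]
      · rw [indicator_of_notMem hV, mul_zero]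
        exact bot_le
    refine h1.trans ?_
    have h2 : eint Φ ε (2 * γ) (fun V : Config k => G (fun x => V (σ x))) =
        eint Φ ε (2 * γ) fun W => G W :=
      Vol365.eint_equiv σ hG (Vol365.measurable_energy' hΦ hε _)
    rw [h2]
    exact hG2

end Crest.Agent.R122.Flux350

end
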