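import Crest.Agent.R122.BHGate_167
import Crest.Agent.R122.BadVolP_350_Mg

/-!
# Row 122, BadHit (helper167), part 6: unconditional form

* `bpos Φ T₁ te` : the predicate `Chain726.BadPos` of helper726.
* `hitClass_bpos` : the hit estimate (helper416, helper350).
* `gNull_badPos` : **the bad hits of a dominated structure are null**, unconditionally.
-/

set_option autoImplicit false
set_option linter.unusedSectionVars false

open MeasureTheory Set Filter Topology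
open Crest.AnalysisR.Kinetic
open Crest.Agent.R122.VL581 Crest.Agent.R122.VLMeas973
open Crest.Agent.R122.GC311 Crest.Agent.R122.LN2 Crest.Agent.R122.Gate424
open scoped Classical ENNReal

noncomputable section

namespace Crest.Agent.R122.BH167

/-- The possible positions of the root of a bad gas cluster. -/
def bpos (Φ : Space3 → ℝ) (T₁ te : ℝ) : PosPred := fun ε _ V i t x =>
  Chain726.BadPos Φ ε T₁ te V i t x

theorem hitClass_bpos {Φ : Space3 → ℝ} (hΦ : AdmissiblePotential Φ) (T : ℝ) {T₁ : ℝ} (te : ℝ)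
    (hT₁ : 0 ≤ T₁) : HitClass T (bpos Φ T₁ te) :=
  HitClass416.hitClass_of (T := T) (te := te) (T' := T₁) hΦ
    fun _ hγ K => Flux350.badVolP hΦ te hT₁ hγ K

variable {f₀ : PhasePoint → ℝ} {I Θ : Type} [MeasurableSpace Θ] {m : ℝ → I → Measure Θ}

/-- **The bad hits of a dominated structure are null.** -/
theorem gNull_badPos {Φ : Space3 → ℝ} (hΦ : AdmissiblePotential Φ) {T T₁ : ℝ}
    (hT : 0 ≤ T) (te : ℝ) (hT₁ : 0 ≤ T₁) {γ : ℝ} {ρ : Space3 → ℝ≥0∞} {C₀ : ℝ≥0∞}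
    {κ : Type} [Fintype κ] (hf : Measurable f₀)
    (h1 : ∫⁻ z, ENNReal.ofReal (f₀ z) ≤ 1) (he : Env f₀ γ ρ C₀) (hγ : 0 < γ) (C R : ℝ) (N K : ℕ)
    {s : ℕ} (hs : s ≤ Fintype.card κ) (A₀ : Finset κ) {c : ℝ≥0∞} (hc : c ≠ ∞)
    (Λ : Measure (κ → ℝ)) [IsFiniteMeasure Λ] {b : ℝ → I → Θ → κ → ℝ}
    {z : ℝ → I → Θ → κ → PhasePoint} (hm : ∀ ε i, SFinite (m ε i))
    (hdom : ∀ ε i, 0 < ε → Dom γ ρ ε s A₀ c Λ (m ε i) (b ε i) (z ε i)) :
    GNull f₀ m (fun ε i _ θ w =>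
      BadHitGas (bpos Φ T₁ te) Φ T C R ε N K s A₀ (b ε i θ) (z ε i θ) w) :=
  gNull_badHit hΦ (VC973.vc hΦ) hT (hitClass_bpos hΦ T te hT₁) hf h1 he hγ C R N K hs A₀ hc Λ hm
    hdom

end Crest.Agent.R122.BH167

end
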