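import Crest.Agent.R122.LNvs_410
import Crest.Agent.R122.VLSub_973
import Crest.Agent.R122.InfRule_879

/-!
# Row 122, LN1 (helper304): literal definitions

Everything lives on a virtual system `M : VSys J κ` of `VLDefs_581` (labels: gas particles and the
members of the structure), a configuration `Z` and ONE real (pseudo-)world `(X, C)` over it.

* `Geo` : alive contact in a family of paths (`CtB` convention: `b k < s` or `b l < s`).
* `CV M Z V` : contacts of the isolated world `V`.
* `RW M Z X C` : `(X, C)` is a real world over `M`; `C` may be smaller than the geometric contact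
  relation (ghost passes: the gas and the members of the structure which are not the exit line do
  not see each other).
* `preF C x v` : strict past of `x` at `v` (`Inf879.pre` at time `0`), as a finite set.
* `WCore` : agreement with isolated worlds inside a connected tree-like set (helper291).
* `Parts`, `NoBad`, `NoTwo`, `Agr`, `BadHit` : the deterministic alternatives of LN1.
-/

set_option autoImplicit false
set_option linter.unusedSectionVars false

open MeasureTheory Set Filter Topology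
open Crest.AnalysisR.Kinetic
open Crest.Agent.R122.GIV566 Crest.Agent.R122.VL581 Crest.Agent.R122.LNg410
open Crest.Agent.R122.Causal291
open scoped Classical

noncomputable section

namespace Crest.Agent.R122.LN304

variable {J κ : Type} [Fintype J]

/-- Alive contact in the family of paths `X` (with the births of `M`). -/
def Geo (M : VSys J κ) (X : ℝ → J → PhasePoint) (s : ℝ) (k l : J) : Prop :=
  M.bb k ≤ s ∧ M.bb l ≤ s ∧ (M.bb k < s ∨ M.bb l < s) ∧ dist (X s k).1 (X s l).1 ≤ M.ε

/-- Contacts of the isolated world `V`. -/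
def CV (M : VSys J κ) (Z : J → PhasePoint) (V : Finset J) (s : ℝ) (k l : J) : Prop :=
  k ∈ V ∧ l ∈ V ∧ M.o ≠ some k ∧ M.o ≠ some l ∧ Geo M (fun s => M.st V s Z) s k l

/-- A real (pseudo-)world over the virtual system `M`. -/
structure RW (M : VSys J κ) (Z : J → PhasePoint) (X : ℝ → J → PhasePoint)
    (C : ℝ → J → J → Prop) : Prop where
  symm : ∀ s j k, C s j k → C s k j
  closed : ∀ j k, j ≠ k → IsClosed {s | s ∈ Icc 0 M.T ∧ C s j k}
  cont : ∀ k, ContinuousOn (fun s => X s k) (Icc 0 M.T)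
  init : ∀ k, X 0 k = Z k
  geo : ∀ s k l, k ≠ l → C s k l → M.o ≠ some k ∧ M.o ≠ some l ∧ Geo M X s k l
  /-- locality: a group without contacts with outsiders and without ghost passes inside -/
  loc : ∀ (G V : Finset J) (a b : ℝ), G ⊆ V → 0 ≤ a → a ≤ b → b ≤ M.T → M.ok V b Z →
    (∀ s ∈ Icc a b, ∀ k ∈ G, ∀ j, j ∉ G → ¬ C s k j) →
    (∀ s ∈ Icc a b, ∀ k ∈ G, ∀ l ∈ G, k ≠ l → M.o ≠ some k → M.o ≠ some l → Geo M X s k l →
      C s k l) →
    (∀ s ∈ Icc a b, ∀ k ∈ G, ∀ j, j ∉ G → ¬ CV M Z V s k j) →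
    (∀ k ∈ G, X a k = M.st V a Z k) → ∀ s ∈ Icc a b, ∀ k ∈ G, X s k = M.st V s Z k
  /-- between a ghost pass and a later contact of the same pair there is another contact -/
  gh1 : ∀ s k l r, k ≠ l → M.o ≠ some k → M.o ≠ some l → 0 ≤ s → s ≤ r → r ≤ M.T →
    Geo M X s k l → ¬ C s k l → C r k l →
    ∃ r' ∈ Icc s r, ∃ m, m ≠ k ∧ m ≠ l ∧ (C r' k m ∨ C r' l m)
  /-- a contact does not become a ghost pass immediately, unless there is a third partner -/
  gh2 : ∀ s k l, k ≠ l → 0 ≤ s → s < M.T → C s k l →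
    (∃ m, m ≠ k ∧ m ≠ l ∧ (C s k m ∨ C s l m)) ∨
    ∃ δ > 0, ∀ r ∈ Icc s (s + δ), Geo M X r k l → C r k l

/-- The strict past of `(x, v)` as a finite set. -/
def preF (C : ℝ → J → J → Prop) (x : J) (v : ℝ) : Finset J :=
  Finset.univ.filter fun k => k ∈ Inf879.pre C x v 0

/-- The closed past of `(x, v)` as a finite set. -/
def bcF (C : ℝ → J → J → Prop) (x : J) (v : ℝ) : Finset J :=
  Finset.univ.filter fun k => Past C v x 0 k

/-- Tree-like, the part used by the deterministic theory (weaker than `TreeLike` and than `TLP`). -/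
def TL (M : VSys J κ) (c ℓ ς : ℝ) (P : Finset J) (Z : J → PhasePoint) : Prop :=
  (∀ A ⊆ P, M.ok A M.T Z) ∧ TLg P (vc M c P Z) ℓ ς


/-- **W-core** (helper291): inside a connected tree-like set `P` the real states explored from
`(x, v)` are the states in the isolated world of the past, and the explorations coincide. -/
def WCore (M : VSys J κ) (c ℓ ς : ℝ) (Z : J → PhasePoint) (X : ℝ → J → PhasePoint)
    (C : ℝ → J → J → Prop) : Prop :=
  ∀ P : Finset J, M.Conn c P Z → TL M c ℓ ς P Z → ∀ x, ∀ v ∈ Icc 0 M.T, bcF C x v ⊆ P →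
    (∀ s ∈ Icc 0 v, ∀ k, Past C v x s k → X s k = M.st (bcF C x v) s Z k) ∧
    (∀ s ∈ Icc 0 v, ∀ k, Past (CV M Z (bcF C x v)) v x s k ↔ Past C v x s k)

/-- Agreement of the strict past of `(x, v)` with its isolated world. -/
def Agr (M : VSys J κ) (Z : J → PhasePoint) (X : ℝ → J → PhasePoint) (C : ℝ → J → J → Prop)
    (x : J) (v : ℝ) : Prop :=
  ∀ s ∈ Ico 0 v, ∀ k ∈ Inf879.pre C x v s, X s k = M.st (preF C x v) s Z k

/-- The parts of the structure (`Λ` is the set of parts); all other labels are gas particles. -/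
structure Parts (M : VSys J κ) (c : ℝ) (Z : J → PhasePoint) (Λ : Finset (Finset J)) : Prop where
  conn : ∀ π ∈ Λ, M.Conn c π Z
  gas_o : ∀ i, (∀ π ∈ Λ, i ∉ π) → M.o ≠ some i
  gas_b : ∀ i, (∀ π ∈ Λ, i ∉ π) → M.b i ≤ 0
  gas_sep : ∀ i j, (∀ π ∈ Λ, i ∉ π) → (∀ π ∈ Λ, j ∉ π) → i ≠ j → M.ε < dist (Z i).1 (Z j).1

/-- The union of all parts. -/
def uni (Λ : Finset (Finset J)) : Finset J := Finset.univ.filter fun i => ∃ π ∈ Λ, i ∈ π

/-- All connected sets of bounded size which contain a part are tree-like. -/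
def NoBad (M : VSys J κ) (c ℓ ς : ℝ) (Z : J → PhasePoint) (Λ : Finset (Finset J)) (N : ℕ) : Prop :=
  ∀ P : Finset J, M.Conn c P Z → (∃ π ∈ Λ, π ⊆ P) → (P ∪ uni Λ).card ≤ N → TL M c ℓ ς P Z

/-- No connected set of bounded size contains a part and meets another one. -/
def NoTwo (M : VSys J κ) (c : ℝ) (Z : J → PhasePoint) (Λ : Finset (Finset J)) (N : ℕ) : Prop :=
  ∀ P : Finset J, M.Conn c P Z → (P ∪ uni Λ).card ≤ N → ∀ π ∈ Λ, ∀ π' ∈ Λ, π ⊆ P →
    (∃ i ∈ π', i ∈ P) → π = π'

/-- **BadHit** (alternative (iii)): a member `j` of a connected set `G` of bounded size which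
contains a part, with its real position equal to the one in the sub-world `A ⊆ G`, is in contact at
time `v` with a particle `k` whose strict real past is gas only, disjoint from `G`, of bounded size
and not reproduced by its isolated world. -/
def BadHit (M : VSys J κ) (c : ℝ) (Z : J → PhasePoint) (X : ℝ → J → PhasePoint)
    (C : ℝ → J → J → Prop) (Λ : Finset (Finset J)) (N : ℕ) : Prop :=
  ∃ (G A : Finset J) (j k : J) (v : ℝ),
    M.Conn c G Z ∧ (∃ π ∈ Λ, π ⊆ G) ∧ (G ∪ uni Λ).card ≤ N ∧ A ⊆ G ∧ j ∈ A ∧ M.ok A v Z ∧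
    v ∈ Ioc 0 M.T ∧ (preF C k v).card ≤ N ∧ Disjoint (preF C k v) G ∧
    Disjoint (preF C k v) (uni Λ) ∧ C v j k ∧ X v j = M.st A v Z j ∧
    dist (M.st A v Z j).1 (X v k).1 ≤ M.ε ∧ ¬ Agr M Z X C k v

end Crest.Agent.R122.LN304

end
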