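import Crest.Agent.R122.LN1Defs_304
import Crest.Agent.R122.LNW_291
import Crest.Agent.R122.VLInstD_442

/-!
# The W-core of LN1 (row 122): instance of `LNW_291` for real worlds over a virtual system

* `LWorld.free_of_iso`, `LWorld.no_return`: free motion of an isolated particle, no return.
* `wcore : RW M Z X C → 1 ≤ c → 2 ℓ ≤ ς → WCore M c ℓ ς Z X C`.
* `real_of_TL`, `hist_of_TL`, `ng_of_TL`, `conn_bcF`, `agr_of_TL`, `state_preF`, `conn_preF`.
-/

set_option autoImplicit false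
set_option linter.unusedSectionVars false

open MeasureTheory Set Filter Topology
open scoped NNReal ENNReal
open Crest.AnalysisR.Kinetic
open Crest.Agent.R122.Flow671 Crest.Agent.R122.Ins45 Crest.Agent.R122.VLInst442
open Crest.Agent.R122.GIV566 Crest.Agent.R122.VL581 Crest.Agent.R122.VL581.VSys
open Crest.Agent.R122.LNg410 Crest.Agent.R122.LN304
open Crest.Agent.R122.Causal291 Crest.Agent.R122.LinkD331
open scoped Classical

noncomputable section

namespace Crest.Agent.R122.LNW291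

/-! ### Two-body facts for worlds with births -/

theorem cont_dist {f g : ℝ → Space3} {s : Set ℝ} (hf : ContinuousOn f s) (hg : ContinuousOn g s) :
    ContinuousOn (fun t => dist (f t) (g t)) s :=
  continuous_dist.comp_continuousOn (hf.prodMk hg)

section lworld

variable {ι : Type*} [Fintype ι] {Φ : Space3 → ℝ} {ε : ℝ} {b : ι → ℝ} {a T : ℝ}
  {X : ℝ → ι → PhasePoint}

/-- A particle at distance at least `ε` from all other alive particles feels no force. -/
theorem bf_of_iso (hΦ : AdmissiblePotential Φ) (hε : 0 < ε) {t : ℝ} {Z : ι → PhasePoint} {i : ι}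
    (h : ∀ j, j ≠ i → b i ≤ t → b j ≤ t → ε ≤ dist (Z i).1 (Z j).1) :
    bf Φ ε b t Z i = ((Z i).2, 0) := by
  classical
  unfold bf
  by_cases hi : b i ≤ t
  · rw [if_pos hi]
    refine Prod.ext rfl ?_
    have h1 : ∀ j ∈ Finset.univ, (if b j ≤ t then gradient Φ ((1 / ε) • ((Z i).1 - (Z j).1)) else 0)
        = (0 : Space3) := by
      intro j _
      by_cases hj : b j ≤ t
      · rw [if_pos hj]
        by_cases hij : j = i
        · rw [hij, sub_self, smul_zero, grad_origin hΦ]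
        · refine grad_zero hΦ ?_
          have h2 := h j hij hi hj
          rw [dist_eq_norm] at h2
          rw [norm_smul, Real.norm_of_nonneg (by positivity), one_div, inv_mul_eq_div,
            le_div_iff₀ hε, one_mul]
          exact h2
      · rw [if_neg hj]
    simp only
    rw [Finset.sum_eq_zero h1, smul_zero]
  · rw [if_neg hi]

/-- An isolated particle flies freely. -/
theorem free_of_iso (hΦ : AdmissiblePotential Φ) (hε : 0 < ε) (hX : LWorld Φ ε b a T X) {s t : ℝ}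
    (hs : a ≤ s) (ht : t ≤ T) {i : ι}
    (h : ∀ u ∈ Ico s t, ∀ j, j ≠ i → b i ≤ u → b j ≤ u → ε ≤ dist (X u i).1 (X u j).1) :
    ∀ u ∈ Icc s t, X u i = ((X s i).1 + (u - s) • (X s i).2, (X s i).2) := by
  have hcI : ContinuousOn (fun u => X u i) (Icc s t) :=
    (hX.cont_apply i).mono (Icc_subset_Icc hs ht)
  have hd : ∀ u ∈ Ico s t, HasDerivWithinAt (fun u => X u i) ((X u i).2, 0) (Ici u) u := by
    intro u hu
    have h1 := (hasDerivWithinAt_pi.1 (hX.der u ⟨hs.trans hu.1, hu.2.trans_le ht⟩)) i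
    rwa [bf_of_iso hΦ hε (h u hu)] at h1
  have hv : ∀ u ∈ Icc s t, (X u i).2 = (X s i).2 :=
    constant_of_has_deriv_right_zero hcI.snd fun u hu => (hd u hu).snd
  have hx : ∀ u ∈ Icc s t, (X u i).1 - (u - s) • (X s i).2 = (X s i).1 - (s - s) • (X s i).2 := by
    refine constant_of_has_deriv_right_zero (f := fun u => (X u i).1 - (u - s) • (X s i).2)
      (hcI.fst.sub (by fun_prop)) fun u hu => ?_
    have h1 : HasDerivWithinAt (fun u => (X u i).1) (X u i).2 (Ici u) u := (hd u hu).fst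
    have h2 : HasDerivWithinAt (fun u : ℝ => (u - s) • (X s i).2) ((1 : ℝ) • (X s i).2) (Ici u) u :=
      (((hasDerivAt_id u).sub_const s).smul_const _).hasDerivWithinAt
    have h3 := h1.sub h2
    rwa [one_smul, hv u ⟨hu.1, hu.2.le⟩, sub_self] at h3
  intro u hu
  refine Prod.ext ?_ (hv u hu)
  have := hx u hu
  rw [sub_self, zero_smul, sub_zero] at this
  exact sub_eq_iff_eq_add.1 this

/-- **No return.** A pair which separates and meets nobody else stays separated. -/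
theorem no_return (hΦ : AdmissiblePotential Φ) (hε : 0 < ε) (hX : LWorld Φ ε b a T X)
    {u s₁ r : ℝ} {j k : ι} (hau : a ≤ u) (hus : u < s₁) (hsr : s₁ ≤ r) (hrT : r ≤ T)
    (hc : dist (X u j).1 (X u k).1 ≤ ε)
    (hm : ∀ s ∈ Ico u r, ∀ m, m ≠ j → m ≠ k → b m ≤ s →
      ε ≤ dist (X s j).1 (X s m).1 ∧ ε ≤ dist (X s k).1 (X s m).1)
    (hsep : ∀ s ∈ Ioc u s₁, ε < dist (X s j).1 (X s k).1) : ε < dist (X r j).1 (X r k).1 := by
  by_contra hcon
  have hcon' := not_lt.1 hcon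
  have hcont : ContinuousOn (fun s => dist (X s j).1 (X s k).1) (Icc a T) :=
    cont_dist (hX.cont_apply j).fst (hX.cont_apply k).fst
  -- first return
  set S : Set ℝ := {s | s ∈ Icc s₁ r ∧ dist (X s j).1 (X s k).1 ≤ ε} with hS
  have hSc : IsClosed S := by
    have h1 : ContinuousOn (fun s => dist (X s j).1 (X s k).1) (Icc s₁ r) :=
      hcont.mono (Icc_subset_Icc (hau.trans hus.le) hrT)
    exact h1.preimage_isClosed_of_isClosed isClosed_Icc isClosed_Iic
  have hSne : S.Nonempty := ⟨r, ⟨hsr, le_rfl⟩, hcon'⟩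
  have hSb : BddBelow S := ⟨s₁, fun s hs => hs.1.1⟩
  set r₀ := sInf S with hr₀
  have hrS : r₀ ∈ S := hSc.csInf_mem hSne hSb
  have hr₀1 : s₁ ≤ r₀ := hrS.1.1
  have hr₀r : r₀ ≤ r := hrS.1.2
  have hur₀ : u < r₀ := hus.trans_le hr₀1
  have hbig : ∀ s ∈ Ioo u r₀, ε < dist (X s j).1 (X s k).1 := by
    intro s hs
    rcases le_or_gt s s₁ with h | h
    · exact hsep s ⟨hs.1, h⟩
    · by_contra hn
      exact absurd (csInf_le hSb (show s ∈ S from ⟨⟨h.le, hs.2.le.trans hr₀r⟩, not_lt.1 hn⟩))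
        (not_le.2 hs.2)
  have huD : ε ≤ dist (X u j).1 (X u k).1 := by
    have h1 : ContinuousWithinAt (fun s => dist (X s j).1 (X s k).1) (Ioi u) u := by
      have h2 : ContinuousWithinAt (fun s => dist (X s j).1 (X s k).1) (Icc a T) u :=
        hcont u ⟨hau, hus.le.trans (hsr.trans hrT)⟩
      refine h2.mono_of_mem_nhdsWithin ?_
      have h3 : Iio T ∈ 𝓝[Ioi u] u :=
        mem_nhdsWithin_of_mem_nhds (Iio_mem_nhds (hus.trans_le (hsr.trans hrT)))
      filter_upwards [h3, self_mem_nhdsWithin] with s hs hs'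
      exact ⟨hau.trans (le_of_lt hs'), le_of_lt hs⟩
    have h4 : ∀ᶠ s in 𝓝[>] u, ε ≤ dist (X s j).1 (X s k).1 := by
      have h5 : Iio r₀ ∈ 𝓝[>] u := mem_nhdsWithin_of_mem_nhds (Iio_mem_nhds hur₀)
      filter_upwards [h5, self_mem_nhdsWithin] with s hs hs'
      exact (hbig s ⟨hs', hs⟩).le
    exact ge_of_tendsto h1 h4
  have hpair : ∀ s ∈ Ico u r₀, ε ≤ dist (X s j).1 (X s k).1 := by
    intro s hs
    rcases hs.1.lt_or_eq with h | h
    · exact (hbig s ⟨h, hs.2⟩).le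
    · rw [← h]; exact huD
  have hfj := free_of_iso hΦ hε hX hau (hr₀r.trans hrT) (i := j) fun s hs m hmj _ hbm => by
    by_cases hmk : m = k
    · rw [hmk]; exact hpair s hs
    · exact (hm s ⟨hs.1, hs.2.trans_le hr₀r⟩ m hmj hmk hbm).1
  have hfk := free_of_iso hΦ hε hX hau (hr₀r.trans hrT) (i := k) fun s hs m hmk _ hbm => by
    by_cases hmj : m = j
    · rw [hmj, dist_comm]; exact hpair s hs
    · exact (hm s ⟨hs.1, hs.2.trans_le hr₀r⟩ m hmj hmk hbm).2
  set c := (u + r₀) / 2 with hcdef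
  have hcI : c ∈ Icc u r₀ := ⟨by rw [hcdef]; linarith, by rw [hcdef]; linarith⟩
  have hcO : c ∈ Ioo u r₀ := ⟨by rw [hcdef]; linarith, by rw [hcdef]; linarith⟩
  have hrI : r₀ ∈ Icc u r₀ := ⟨hur₀.le, le_rfl⟩
  have h1 : (X c j).1 - (X c k).1 =
      (1 / 2 : ℝ) • ((X u j).1 - (X u k).1) + (1 / 2 : ℝ) • ((X r₀ j).1 - (X r₀ k).1) := by
    rw [hfj c hcI, hfk c hcI, hfj r₀ hrI, hfk r₀ hrI]
    simp only
    rw [hcdef]
    module
  have h2 : dist (X c j).1 (X c k).1 ≤ ε := by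
    rw [dist_eq_norm, h1]
    refine (norm_add_le _ _).trans ?_
    rw [norm_smul, norm_smul, ← dist_eq_norm, ← dist_eq_norm, Real.norm_of_nonneg (by norm_num)]
    have := hrS.2
    linarith
  exact absurd (hbig c hcO) (not_lt.2 h2)

end lworld

/-! ### The instance -/

section inst

/-- The ghost world of a real world over a virtual system. -/
def gw {J κ : Type} [Fintype J] (M : VSys J κ) (c : ℝ) (P : Finset J) (Z : J → PhasePoint)
    (X : ℝ → J → PhasePoint) (C : ℝ → J → J → Prop) : GW J PhasePoint where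
  C := C
  G s k l := M.o ≠ some k ∧ M.o ≠ some l ∧ Geo M X s k l
  x := X
  CA A := CV M Z A.toFinset
  z A s k := M.st A.toFinset s Z k
  VC s i j := i ∈ P ∧ j ∈ P ∧ vc M c P Z i j s

variable {J κ : Type} [Fintype J] {M : VSys J κ} {c ℓ ς : ℝ} {P : Finset J} {Z : J → PhasePoint}
  {X : ℝ → J → PhasePoint} {C : ℝ → J → J → Prop}

theorem geo_symm {X : ℝ → J → PhasePoint} {s : ℝ} {k l : J} (h : Geo M X s k l) :
    Geo M X s l k := ⟨h.2.1, h.1, h.2.2.1.symm, by rw [dist_comm]; exact h.2.2.2⟩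

theorem cv_symm {V : Finset J} {s : ℝ} {k l : J} (h : CV M Z V s k l) : CV M Z V s l k :=
  ⟨h.2.1, h.1, h.2.2.2.1, h.2.2.1, geo_symm h.2.2.2.2⟩

theorem pos_eq_of_ne {A : Finset J} {q : κ} {t : ℝ} {i : J} (h : M.o ≠ some i) :
    M.pos A q t Z i = (M.st A t Z i).1 := if_neg h

theorem vct_of_dist [Nonempty κ] (hε : 0 < M.ε) (hc : 1 ≤ c) {A B : Finset J} (hA : A ⊆ P)
    (hB : B ⊆ P) {k l : J} (hk : k ∈ A) (hl : l ∈ B) (hok : M.o ≠ some k) (hol : M.o ≠ some l)
    {s : ℝ} (h1 : M.ok A s Z) (h2 : M.ok B s Z)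
    (hd : dist (M.st A s Z k).1 (M.st B s Z l).1 ≤ M.ε) : M.VCt c P k l s Z := by
  obtain ⟨q⟩ := ‹Nonempty κ›
  refine ⟨A, hA, B, hB, q, q, hk, hl, h1, h2, fun h => absurd h hok, fun h => absurd h hol, ?_⟩
  rw [pos_eq_of_ne hok, pos_eq_of_ne hol]
  exact hd.trans (by nlinarith)

/-- Births in an ok sub-world are not contacts. -/
theorem lt_dist_of_birth {V : Finset J} {t : ℝ} (hok : M.ok V t Z) {i j : J} (hi : i ∈ V)
    (hj : j ∈ V) (hoi : M.o ≠ some i) (hoj : M.o ≠ some j) (hij : i ≠ j) (h : M.bb j ≤ M.bb i)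
    (ht : M.bb i < t) :
    M.ε < dist (M.st V (M.bb i) Z i).1 (M.st V (M.bb i) Z j).1 :=
  hok i hi hoi ht j hj hoj hij.symm h

theorem lt_dist_of_not_cv {V : Finset J} {t : ℝ} (hok : M.ok V t Z) {i j : J} (hi : i ∈ V)
    (hj : j ∈ V) (hoi : M.o ≠ some i) (hoj : M.o ≠ some j) (hij : i ≠ j) {s : ℝ} (hst : s < t)
    (hbi : M.bb i ≤ s) (hbj : M.bb j ≤ s) (h : ¬ CV M Z V s i j) :
    M.ε < dist (M.st V s Z i).1 (M.st V s Z j).1 := by
  by_cases hb : M.bb i < s ∨ M.bb j < s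
  · by_contra hn
    exact h ⟨hi, hj, hoi, hoj, hbi, hbj, hb, not_lt.1 hn⟩
  · push Not at hb
    have h1 : M.bb i = s := le_antisymm hbi hb.1
    have h2 : M.bb j = s := le_antisymm hbj hb.2
    have h3 := lt_dist_of_birth hok hi hj hoi hoj hij (by rw [h1, h2]) (by rw [h1]; exact hst)
    rwa [h1] at h3

variable (hΦ : AdmissiblePotential M.Φ) (hε : 0 < M.ε)

include hΦ hε

/-- Contacts in an ok sub-world form a closed set. -/
theorem closed_cv {V : Finset J} (hok : M.ok V M.T Z) {i j : J} (hij : i ≠ j) :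
    IsClosed {s | s ∈ Icc 0 M.T ∧ CV M Z V s i j} := by
  rcases lt_or_ge M.T 0 with hT | hT
  · have : {s | s ∈ Icc 0 M.T ∧ CV M Z V s i j} = ∅ := by
      ext s
      simp only [mem_ofPred_eq, mem_empty_iff_false, iff_false, not_and]
      exact fun h => absurd (h.1.trans h.2) (not_le.2 hT)
    rw [this]
    exact isClosed_empty
  by_cases hm : i ∈ V ∧ j ∈ V ∧ M.o ≠ some i ∧ M.o ≠ some j
  swap
  · have : {s | s ∈ Icc 0 M.T ∧ CV M Z V s i j} = ∅ := by
      ext s
      simp only [mem_ofPred_eq, mem_empty_iff_false, iff_false, not_and]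
      exact fun _ h => hm ⟨h.1, h.2.1, h.2.2.1, h.2.2.2.1⟩
    rw [this]
    exact isClosed_empty
  obtain ⟨hi, hj, hoi, hoj⟩ := hm
  have hcont : ContinuousOn (fun s => dist (M.st V s Z i).1 (M.st V s Z j).1) (Icc 0 M.T) := by
    have h1 : ∀ i, ContinuousOn (fun s => (M.st V s Z i).1) (Icc 0 M.T) := fun i =>
      ((st_continuousOn hΦ hε V Z i).mono fun s hs => ok_anti hs.2 hok).fst
    exact cont_dist (h1 i) (h1 j)
  have hcl : IsClosed ({s | s ∈ Icc 0 M.T ∧ dist (M.st V s Z i).1 (M.st V s Z j).1 ≤ M.ε} ∩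
      {s | M.bb i ≤ s} ∩ {s | M.bb j ≤ s}) :=
    ((hcont.preimage_isClosed_of_isClosed isClosed_Icc isClosed_Iic).inter isClosed_Ici).inter
      isClosed_Ici
  rw [← isSeqClosed_iff_isClosed] at hcl ⊢
  intro u σ hu hlim
  have h1 := hcl (fun n => ⟨⟨⟨(hu n).1, (hu n).2.2.2.2.2.2.2.2⟩, (hu n).2.2.2.2.2.1⟩,
    (hu n).2.2.2.2.2.2.1⟩) hlim
  obtain ⟨⟨⟨hσ, hd⟩, hbi⟩, hbj⟩ := h1
  refine ⟨hσ, hi, hj, hoi, hoj, hbi, hbj, ?_, hd⟩
  by_contra hn
  push Not at hn
  have h2 : M.bb i = σ := le_antisymm hbi hn.1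
  have h3 : M.bb j = σ := le_antisymm hbj hn.2
  -- the sequence is above `σ`, hence `σ < T`
  have h4 : σ < M.T := by
    have h5 := (hu 0).2.2.2.2.2.2.2.1
    rcases h5 with h5 | h5
    · rw [h2] at h5
      exact h5.trans_le (hu 0).1.2
    · rw [h3] at h5
      exact h5.trans_le (hu 0).1.2
  have h6 := lt_dist_of_birth hok hi hj hoi hoj hij (by rw [h2, h3]) (by rw [h2]; exact h4)
  rw [h2] at h6
  exact absurd hd (not_le.2 h6)

theorem gw_ok [Nonempty κ] (hW : RW M Z X C) (hc : 1 ≤ c) (hok : ∀ A ⊆ P, M.ok A M.T Z) :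
    (gw M c P Z X C).Ok M.T (P : Set J) := by
  classical
  have hAP : ∀ {A : Set J}, A ⊆ (P : Set J) → A.toFinset ⊆ P := by
    intro A hA i hi
    exact hA (Set.mem_toFinset.1 hi)
  have hokA : ∀ {A : Set J}, A ⊆ (P : Set J) → M.ok A.toFinset M.T Z := fun hA => hok _ (hAP hA)
  refine
    { symm := hW.symm
      symmA := fun A s i j h => cv_symm h
      supp := fun A s i j h => ⟨Set.mem_toFinset.1 h.1, Set.mem_toFinset.1 h.2.1⟩
      closed := hW.closed
      closedA := fun A hA i j hij => closed_cv hΦ hε (hokA hA) hij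
      eqc := ?_
      init := ?_
      geo := fun s _ i j hij h => hW.geo s i j hij h
      loc := ?_
      coh := ?_
      vcx := ?_
      vcA := ?_
      gopen := ?_
      gh1 := ?_
      gh2 := ?_
      nr := ?_ }
  · intro A hA k _
    have h1 : ContinuousOn (fun s => M.st A.toFinset s Z k) (Icc 0 M.T) :=
      (st_continuousOn hΦ hε A.toFinset Z k).mono fun s hs => ok_anti hs.2 (hokA hA)
    have h2 := (hW.cont k).prodMk h1
    have h3 := h2.preimage_isClosed_of_isClosed isClosed_Icc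
      (isClosed_eq (continuous_fst (X := PhasePoint) (Y := PhasePoint)) continuous_snd)
    exact h3
  · intro A _ k _
    change X 0 k = M.st A.toFinset 0 Z k
    rw [hW.init k, st_nonpos M le_rfl, fl_zero]
  · intro A hA G hG a b ha hab hb h1 h2 h3 h0 s hs k hk
    refine hW.loc G.toFinset A.toFinset a b (Set.toFinset_subset_toFinset.2 hG) ha hab hb
      (ok_anti hb (hokA hA)) ?_ ?_ ?_ ?_ s hs k (Set.mem_toFinset.2 hk)
    · intro s hs k hk j hj
      exact h1 s hs k (Set.mem_toFinset.1 hk) j fun h => hj (Set.mem_toFinset.2 h)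
    · intro s hs k hk l hl hkl hok hol hg
      exact h2 s hs k (Set.mem_toFinset.1 hk) l (Set.mem_toFinset.1 hl) hkl ⟨hok, hol, hg⟩
    · intro s hs k hk j hj
      exact h3 s hs k (Set.mem_toFinset.1 hk) j fun h => hj (Set.mem_toFinset.2 h)
    · intro k hk
      exact h0 k (Set.mem_toFinset.1 hk)
  · intro A hA s hs k hk l hl hkl h1 h2
    change X s k = M.st A.toFinset s Z k at h1
    change X s l = M.st A.toFinset s Z l at h2
    change (M.o ≠ some k ∧ M.o ≠ some l ∧ Geo M X s k l) ↔ CV M Z A.toFinset s k l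
    have hk' : k ∈ A.toFinset := Set.mem_toFinset.2 hk
    have hl' : l ∈ A.toFinset := Set.mem_toFinset.2 hl
    unfold CV Geo
    simp only
    rw [h1, h2]
    tauto
  · intro A hA B hB s hs k hk l hl hkl h1 h2 h3
    change X s k = M.st A.toFinset s Z k at h1
    change X s l = M.st B.toFinset s Z l at h2
    obtain ⟨hok', hol', hg⟩ := h3
    have hd := hg.2.2.2
    rw [h1, h2] at hd
    exact ⟨hA hk, hB hl, hs, vct_of_dist hε hc (hAP hA) (hAP hB) (Set.mem_toFinset.2 hk)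
      (Set.mem_toFinset.2 hl) hok' hol' (ok_anti hs.2 (hokA hA)) (ok_anti hs.2 (hokA hB)) hd⟩
  · intro A hA s hs k l hkl h
    obtain ⟨hk, hl, hok', hol', hg⟩ := h
    exact ⟨hAP hA hk, hAP hA hl, hs, vct_of_dist hε hc (hAP hA) (hAP hA) hk hl hok' hol'
      (ok_anti hs.2 (hokA hA)) (ok_anti hs.2 (hokA hA)) hg.2.2.2⟩
  · intro A hA s hs k hk l hl hkl h1 h2 hn
    change X s k = M.st A.toFinset s Z k at h1
    change X s l = M.st A.toFinset s Z l at h2
    change ¬ (M.o ≠ some k ∧ M.o ≠ some l ∧ Geo M X s k l) at hn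
    change ∃ δ > 0, ∀ r ∈ Icc s (s + δ), ¬ (M.o ≠ some k ∧ M.o ≠ some l ∧ Geo M X r k l)
    by_cases ho : M.o ≠ some k ∧ M.o ≠ some l
    swap
    · exact ⟨1, one_pos, fun r _ h => ho ⟨h.1, h.2.1⟩⟩
    rcases lt_or_ge s (M.bb k) with hbk | hbk
    · refine ⟨(M.bb k - s) / 2, by linarith, fun r hr h => ?_⟩
      have := h.2.2.1
      linarith [hr.2]
    rcases lt_or_ge s (M.bb l) with hbl | hbl
    · refine ⟨(M.bb l - s) / 2, by linarith, fun r hr h => ?_⟩
      have := h.2.2.2.1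
      linarith [hr.2]
    have hd : M.ε < dist (X s k).1 (X s l).1 := by
      by_cases hb : M.bb k < s ∨ M.bb l < s
      · by_contra h'
        exact hn ⟨ho.1, ho.2, hbk, hbl, hb, not_lt.1 h'⟩
      · push Not at hb
        have e1 : M.bb k = s := le_antisymm hbk hb.1
        have e2 : M.bb l = s := le_antisymm hbl hb.2
        have h3 := lt_dist_of_birth (hokA hA) (Set.mem_toFinset.2 hk) (Set.mem_toFinset.2 hl) ho.1
          ho.2 hkl (by rw [e1, e2]) (by rw [e1]; exact hs.2)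
        rw [e1] at h3
        rwa [h1, h2]
    have hcont : ContinuousWithinAt (fun r => dist (X r k).1 (X r l).1) (Icc 0 M.T) s :=
      (cont_dist (hW.cont k).fst (hW.cont l).fst) s ⟨hs.1, hs.2.le⟩
    have h4 : ∀ᶠ r in 𝓝[Icc 0 M.T] s, M.ε < dist (X r k).1 (X r l).1 :=
      hcont.eventually (lt_mem_nhds hd)
    rw [eventually_nhdsWithin_iff, Metric.eventually_nhds_iff] at h4
    obtain ⟨δ, hδ, h4⟩ := h4
    refine ⟨min (δ / 2) (M.T - s), lt_min (by linarith) (sub_pos.2 hs.2), fun r hr h => ?_⟩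
    have h5 : r ≤ s + δ / 2 := hr.2.trans (by linarith [min_le_left (δ / 2) (M.T - s)])
    have h6 : r ≤ M.T := hr.2.trans (by linarith [min_le_right (δ / 2) (M.T - s)])
    have h7 : dist r s < δ := by
      rw [Real.dist_eq, abs_of_nonneg (sub_nonneg.2 hr.1)]
      linarith
    exact absurd h.2.2.2.2.2 (not_le.2 (h4 h7 ⟨hs.1.trans hr.1, h6⟩))
  · intro s hs r hr k l hkl hsr hg hn hcr
    exact hW.gh1 s k l r hkl hg.1 hg.2.1 hs.1 hsr hr.2 hg.2.2 hn hcr
  · intro s hs k l hkl h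
    rcases hW.gh2 s k l hkl hs.1 hs.2 h with h' | ⟨δ, hδ, h'⟩
    · exact Or.inl h'
    · exact Or.inr ⟨δ, hδ, fun r hr hg => h' r hr hg.2.2⟩
  · intro A hA u s₁ r j k hjk hu hus hsr hrT hcu hm hsep hcr
    change CV M Z A.toFinset u j k at hcu
    change CV M Z A.toFinset r j k at hcr
    obtain ⟨hj, hk, hoj, hok', hbj, hbk, hb, hd⟩ := hcu
    have hdr := hcr.2.2.2.2.2.2.2
    have hLW := st_lworld hΦ hε (ok_anti hrT (hokA hA)) 0
    have huT : u < M.T := hus.trans_le (hsr.trans hrT)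
    refine absurd hdr (not_le.2 ?_)
    refine no_return hΦ hε hLW hu hus hsr le_rfl hd ?_ ?_
    · intro s hs m hmj hmk hbm
      obtain ⟨⟨hmA, hom⟩, hbm'⟩ := (ba_le_iff M hs.2).1 hbm
      have h1 := hm s ⟨hs.1, hs.2.le⟩ m hmj hmk
      have hsT : s < M.T := hs.2.trans_le hrT
      exact ⟨(lt_dist_of_not_cv (hokA hA) hj hmA hoj hom hmj.symm hsT (hbj.trans hs.1) hbm'
          h1.1).le,
        (lt_dist_of_not_cv (hokA hA) hk hmA hok' hom hmk.symm hsT (hbk.trans hs.1) hbm'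
          h1.2).le⟩
    · intro s hs
      have h1 : ¬ CV M Z A.toFinset s j k := hsep s hs
      by_contra hn
      exact h1 ⟨hj, hk, hoj, hok', hbj.trans hs.1.le, hbk.trans hs.1.le,
        Or.inl (hbj.trans_lt hs.1), not_lt.1 hn⟩

omit hΦ hε in
theorem gw_tl (hConn : M.Conn c P Z) (hTL : TL M c ℓ ς P Z) (hℓ : 2 * ℓ ≤ ς) :
    (gw M c P Z X C).TL M.T where
  acyc := by
    classical
    have h1 := (hTL.2.cut (conn_iff.1 hConn)).isAcyclic
    refine h1.anti ?_
    rintro i j ⟨hij, s, hs, h | h⟩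
    · exact ⟨hij, h.1, h.2.1, Or.inl ⟨s, h.2.2⟩⟩
    · exact ⟨hij, h.2.1, h.1, Or.inr ⟨s, h.2.2⟩⟩
  sep := by
    classical
    intro i j k l s s' s'' hij hkl hs hs' h1 h2 hv hv' hv''
    rcases TLg.sep hTL.2 (conn_iff.1 hConn) hℓ hv.1 hv.2.1 hij hv''.1 hv''.2.1 hkl hv.2.2 hv'.2.2
      hv''.2.2 h1 h2 with ⟨rfl, rfl⟩ | ⟨rfl, rfl⟩
    · rfl
    · exact Sym2.eq_swap

omit hΦ hε in
theorem toFinset_BC (x : J) (v : ℝ) (inst : Fintype (BC C v x)) :
    (BC C v x).toFinset = bcF C x v := by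
  ext k
  rw [Set.mem_toFinset]
  unfold bcF
  rw [Finset.mem_filter]
  exact ⟨fun h => ⟨Finset.mem_univ _, h⟩, fun h => h.2⟩

omit hΦ hε in
theorem mem_bcF {x k : J} {v : ℝ} : k ∈ bcF C x v ↔ Past C v x 0 k := by
  unfold bcF
  rw [Finset.mem_filter]
  exact ⟨fun h => h.2, fun h => ⟨Finset.mem_univ _, h⟩⟩

omit hΦ hε in
theorem mem_preF {x k : J} {v : ℝ} : k ∈ preF C x v ↔ ∃ s < v, Past C s x 0 k := by
  unfold preF
  rw [Finset.mem_filter]
  exact ⟨fun h => by
      obtain ⟨_, s, hs, h⟩ := h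
      exact ⟨s, hs.2, h⟩,
    fun ⟨s, hs, h⟩ => ⟨Finset.mem_univ _, s, ⟨h.le, hs⟩, h⟩⟩

omit hΦ hε in
theorem toFinset_pre (x : J) (v : ℝ) (inst : Fintype (pre C v x)) :
    (pre C v x).toFinset = preF C x v := by
  ext k
  rw [Set.mem_toFinset, mem_preF]
  exact Iff.rfl

theorem real_of_TL [Nonempty κ] (hW : RW M Z X C) (hc : 1 ≤ c) (hℓ : 2 * ℓ ≤ ς)
    (hConn : M.Conn c P Z) (hTL : TL M c ℓ ς P Z) {x : J} {v : ℝ} (hv : v ∈ Icc 0 M.T)
    (hP : bcF C x v ⊆ P) : (gw M c P Z X C).Real v x :=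
  GW.real_of_TL (gw_ok hΦ hε hW hc hTL.1) (gw_tl hConn hTL hℓ) v hv x
    fun _ hk => hP (mem_bcF.2 hk)

/-- **W-core.** -/
theorem wcore [Nonempty κ] (hW : RW M Z X C) (hc : 1 ≤ c) (hℓ : 2 * ℓ ≤ ς) :
    WCore M c ℓ ς Z X C := by
  intro P hConn hTL x v hv hP
  have h := real_of_TL hΦ hε hW hc hℓ hConn hTL hv hP
  constructor
  · intro s hs k hk
    have h1 := h.eq s hs k hk
    change X s k = M.st (BC C v x).toFinset s Z k at h1
    rwa [toFinset_BC] at h1
  · intro s hs k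
    have h1 := h.act s hs k
    change Past (CV M Z (BC C v x).toFinset) v x s k ↔ Past C v x s k at h1
    rwa [toFinset_BC] at h1


end inst

end Crest.Agent.R122.LNW291

end
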