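import Crest.Agent.R122.LNInst1_491
import Crest.Agent.R122.LN1Defs_304
import Crest.Agent.R122.LNWRW_291

/-!
# Row 122, LN1 (helper491): the glued world is a real pseudo-world `RW` (multi-exit glue)

Data (`GD`): a virtual system `M`, a partition of the structure labels into parts (`Sp i` is the
part of `i`, `Sp i = ∅` for gas particles), a set `A` of labels present in the derived world (gas
particles and exits handed over to the gas at the times `bD i`), the real paths `XD` of the derived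
world.  The glued world `XG`: exits follow their isolated part up to `bD i` and the derived world
afterwards; the other members of the parts follow their isolated parts for ever and are ghosts for
the gas.  `CG` : contacts seen by the glued world.

* `GD.iworld` : the glued paths are an `IWorld` (who feels whom: `RG`).
* `GD.rw` : `RW M Z XG CG`.
* `rw_plain` : plain worlds (no parts).
-/

set_option autoImplicit false
set_option linter.unusedSectionVars false

open MeasureTheory Set Filter Topology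
open scoped NNReal ENNReal
open Crest.AnalysisR.Kinetic
open Crest.Agent.R122.Flow671 Crest.Agent.R122.Loc45 Crest.Agent.R122.Ins45
open Crest.Agent.R122.VL581 Crest.Agent.R122.VL581.VSys Crest.Agent.R122.VLInst442
open Crest.Agent.R122.LNInst491 Crest.Agent.R122.LN304 Crest.Agent.R122.LNg410

noncomputable section

namespace Crest.Agent.R122.PWGlue491

variable {J κ : Type} [Fintype J] {M : VSys J κ} {Z : J → PhasePoint}

/-- `i` belongs to the gas at time `t`: present in the derived world and (if it is an exit of a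
part) already handed over. -/
def InG (Sp : J → Finset J) (bD : J → ℝ) (A : Finset J) (t : ℝ) (i : J) : Prop :=
  i ∈ A ∧ ((Sp i).Nonempty → bD i ≤ t)

/-- `i` feels `j` at time `t` (right-continuous version). -/
def RG (Sp : J → Finset J) (bD : J → ℝ) (A : Finset J) (t : ℝ) (i j : J) : Prop :=
  (InG Sp bD A t i ∧ InG Sp bD A t j) ∨ (¬ InG Sp bD A t i ∧ ¬ InG Sp bD A t j ∧ j ∈ Sp i)

/-- Closed version of `RG`. -/
def RcG (Sp : J → Finset J) (bD : J → ℝ) (A : Finset J) (t : ℝ) (i j : J) : Prop :=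
  (InG Sp bD A t i ∧ InG Sp bD A t j) ∨
    (j ∈ Sp i ∧ (i ∈ A → t ≤ bD i) ∧ (j ∈ A → t ≤ bD j))

/-- Paths of the glued world. -/
def XG (M : VSys J κ) (Z : J → PhasePoint) (Sp : J → Finset J) (bD : J → ℝ) (A : Finset J)
    (XD : ℝ → J → PhasePoint) (t : ℝ) (i : J) : PhasePoint :=
  haveI := Classical.propDecidable (InG Sp bD A t i)
  if InG Sp bD A t i then XD t i else M.st (Sp i) t Z i

/-- Contacts of the glued world. -/
def CG (M : VSys J κ) (Z : J → PhasePoint) (Sp : J → Finset J) (bD : J → ℝ) (A : Finset J)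
    (XD : ℝ → J → PhasePoint) (t : ℝ) (i j : J) : Prop :=
  M.o ≠ some i ∧ M.o ≠ some j ∧ RcG Sp bD A t i j ∧ Geo M (XG M Z Sp bD A XD) t i j

/-- Data of the glued world. -/
structure GD (M : VSys J κ) (Z : J → PhasePoint) (Sp : J → Finset J) (bD : J → ℝ) (A : Finset J)
    (XD : ℝ → J → PhasePoint) : Prop where
  mem : ∀ i, (Sp i).Nonempty → i ∈ Sp i
  eq : ∀ i k, k ∈ Sp i → Sp k = Sp i
  obsA : ∀ i ∈ A, M.o ≠ some i
  obsS : ∀ i, ∀ k ∈ Sp i, M.o ≠ some k
  ok : ∀ i, M.ok (Sp i) M.T Z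
  gasb : ∀ i ∈ A, Sp i = ∅ → bD i = M.bb i
  gas0 : ∀ i ∈ A, Sp i = ∅ → XD 0 i = Z i
  bb_le : ∀ i ∈ A, M.bb i ≤ bD i
  hand : ∀ i ∈ A, (Sp i).Nonempty → bD i ≤ M.T → XD (bD i) i = M.st (Sp i) (bD i) Z i
  exit : ∀ i ∈ A, ∀ t, bD i < t → t ≤ M.T → ∀ k ∈ Sp i, k ≠ i → M.bb k ≤ t →
    M.ε < dist (M.st (Sp i) t Z i).1 (M.st (Sp i) t Z k).1
  last : ∀ i ∈ A, (Sp i).Nonempty → bD i ≤ M.T → bD i = M.bb i ∨
    (∃ k ∈ Sp i, k ≠ i ∧ M.bb k ≤ bD i ∧
      dist (M.st (Sp i) (bD i) Z i).1 (M.st (Sp i) (bD i) Z k).1 ≤ M.ε) ∨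
    (∀ j ∈ A, j ≠ i → bD j ≤ bD i → M.ε < dist (XD (bD i) i).1 (XD (bD i) j).1)
  world : LWorld M.Φ M.ε (fun i : A => bD i) 0 M.T (fun s i => XD s i)
  sep : ∀ i ∈ A, ∀ j ∈ A, i ≠ j → bD i = bD j → bD i < M.T →
    ∀ᶠ s in 𝓝[>] (bD i), M.ε < dist (XD s i).1 (XD s j).1

variable {Sp : J → Finset J} {bD : J → ℝ} {A : Finset J} {XD : ℝ → J → PhasePoint}

theorem InG.mono {s t : ℝ} {i : J} (h : InG Sp bD A s i) (hst : s ≤ t) : InG Sp bD A t i :=
  ⟨h.1, fun h' => (h.2 h').trans hst⟩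

theorem XG_of_inG {t : ℝ} {i : J} (h : InG Sp bD A t i) : XG M Z Sp bD A XD t i = XD t i := by
  unfold XG
  rw [if_pos h]

theorem XG_of_not {t : ℝ} {i : J} (h : ¬ InG Sp bD A t i) :
    XG M Z Sp bD A XD t i = M.st (Sp i) t Z i := by
  unfold XG
  rw [if_neg h]

theorem not_inG_iff {t : ℝ} {i : J} : ¬ InG Sp bD A t i ↔ i ∉ A ∨ ((Sp i).Nonempty ∧ t < bD i) := by
  unfold InG
  constructor
  · intro h
    by_cases hA : i ∈ A
    · right
      by_contra h'
      exact h ⟨hA, fun hn => not_lt.1 fun h'' => h' ⟨hn, h''⟩⟩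
    · exact Or.inl hA
  · rintro (h | h) h'
    · exact h h'.1
    · exact absurd (h'.2 h.1) (not_le.2 h.2)

/-- On the right of `t` membership in the gas does not change. -/
theorem eventually_inG (t : ℝ) (i : J) : ∀ᶠ s in 𝓝[≥] t, (InG Sp bD A s i ↔ InG Sp bD A t i) := by
  by_cases h : InG Sp bD A t i
  · filter_upwards [self_mem_nhdsWithin] with s hs
    exact ⟨fun _ => h, fun _ => h.mono hs⟩
  · rcases not_inG_iff.1 h with h' | h'
    · filter_upwards with s
      exact ⟨fun h'' => absurd h''.1 h', fun h'' => absurd h''.1 h'⟩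
    · filter_upwards [mem_nhdsWithin_of_mem_nhds (Iio_mem_nhds h'.2)] with s hs
      exact ⟨fun h'' => absurd (h''.2 h'.1) (not_le.2 hs), fun h'' => absurd h'' h⟩

/-- The closed relation agrees with `RG` immediately after `t`. -/
theorem eventually_RcG (t : ℝ) (i j : J) (hj' : j ∈ Sp i → (Sp j).Nonempty) :
    ∀ᶠ s in 𝓝[>] t, (RcG Sp bD A s i j ↔ RG Sp bD A t i j) := by
  have hle : 𝓝[>] t ≤ 𝓝[≥] t := nhdsWithin_mono _ Ioi_subset_Ici_self
  filter_upwards [hle (eventually_inG (Sp := Sp) (bD := bD) (A := A) t i),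
    hle (eventually_inG (Sp := Sp) (bD := bD) (A := A) t j), self_mem_nhdsWithin] with s hi hj hs
  have hs' : t < s := hs
  unfold RcG RG
  rw [hi, hj]
  refine or_congr Iff.rfl ⟨fun h => ?_, fun h => ?_⟩
  · have hne : (Sp i).Nonempty := ⟨j, h.1⟩
    refine ⟨fun h' => ?_, fun h' => ?_, h.1⟩
    · exact absurd (h.2.1 h'.1) (not_le.2 ((h'.2 hne).trans_lt hs'))
    · exact absurd (h.2.2 h'.1) (not_le.2 ((h'.2 (hj' h.1)).trans_lt hs'))
  · refine ⟨h.2.2, fun hA => ?_, fun hA => ?_⟩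
    · by_contra hcon
      exact (fun h' => h.1 (hi.1 h')) ⟨hA, fun _ => (not_le.1 hcon).le⟩
    · by_contra hcon
      exact (fun h' => h.2.1 (hj.1 h')) ⟨hA, fun _ => (not_le.1 hcon).le⟩

namespace GD

variable (H : GD M Z Sp bD A XD)
include H

theorem mem_self {i j : J} (h : j ∈ Sp i) : i ∈ Sp i := H.mem i ⟨j, h⟩

theorem symm_mem {i j : J} (h : j ∈ Sp i) : i ∈ Sp j := by
  rw [H.eq i j h]
  exact H.mem i ⟨j, h⟩

theorem nonempty {i j : J} (h : j ∈ Sp i) : (Sp j).Nonempty := ⟨i, H.symm_mem h⟩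

theorem alive_iff {t : ℝ} {i : J} (h : InG Sp bD A t i) : M.bb i ≤ t ↔ bD i ≤ t := by
  rcases (Sp i).eq_empty_or_nonempty with h' | h'
  · rw [H.gasb i h.1 h']
  · exact ⟨fun _ => h.2 h', fun hb => (H.bb_le i h.1).trans hb⟩

/-- A label of the derived world which is alive there belongs to the gas. -/
theorem inG_of_alive {t : ℝ} {i : J} (hi : i ∈ A) (h : bD i ≤ t) : InG Sp bD A t i :=
  ⟨hi, fun _ => h⟩

section

variable (hΦ : AdmissiblePotential M.Φ) (hε : 0 < M.ε)
include hΦ hε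

theorem cont_st (i : J) (a : ℝ) : ContinuousOn (fun t => M.st (Sp i) t Z i) (Icc a M.T) :=
  (st_continuousOn hΦ hε (Sp i) Z i).mono fun _ ht => ok_anti ht.2 (H.ok i)

theorem cont_st' (i k : J) (a : ℝ) : ContinuousOn (fun t => M.st (Sp i) t Z k) (Icc a M.T) :=
  (st_continuousOn hΦ hε (Sp i) Z k).mono fun _ ht => ok_anti ht.2 (H.ok i)

theorem cont_XD {i : J} (hi : i ∈ A) : ContinuousOn (fun t => XD t i) (Icc 0 M.T) :=
  H.world.cont_apply ⟨i, hi⟩

/-- The paths of the glued world are continuous. -/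
theorem cont_XG (i : J) : ContinuousOn (fun t => XG M Z Sp bD A XD t i) (Icc 0 M.T) := by
  by_cases hi : i ∈ A
  · rcases (Sp i).eq_empty_or_nonempty with h' | h'
    · refine (H.cont_XD hΦ hε hi).congr fun t _ => ?_
      exact XG_of_inG ⟨hi, fun h'' => absurd h' h''.ne_empty⟩
    · by_cases hT : bD i ≤ M.T
      · have h0 : 0 ≤ bD i := (bb_nonneg M i).trans (H.bb_le i hi)
        rw [← Icc_union_Icc_eq_Icc h0 hT]
        refine ContinuousOn.union_of_isClosed ?_ ?_ isClosed_Icc isClosed_Icc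
        · refine ((H.cont_st hΦ hε i 0).mono (Icc_subset_Icc le_rfl hT)).congr fun t ht => ?_
          rcases ht.2.eq_or_lt with h | h
          · subst h
            rw [XG_of_inG ⟨hi, fun _ => le_rfl⟩]
            exact H.hand i hi h' hT
          · exact XG_of_not (not_inG_iff.2 (Or.inr ⟨h', h⟩))
        · refine ((H.cont_XD hΦ hε hi).mono (Icc_subset_Icc h0 le_rfl)).congr fun t ht => ?_
          exact XG_of_inG ⟨hi, fun _ => ht.1⟩
      · refine (H.cont_st hΦ hε i 0).congr fun t ht => ?_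
        exact XG_of_not (not_inG_iff.2 (Or.inr ⟨h', ht.2.trans_lt (not_le.1 hT)⟩))
  · refine (H.cont_st hΦ hε i 0).congr fun t _ => ?_
    exact XG_of_not (not_inG_iff.2 (Or.inl hi))

/-- After its exit the member `i` is at distance at least `ε` from its part. -/
theorem exit_le {i : J} (hi : i ∈ A) {t : ℝ} (ht : bD i ≤ t) (htT : t < M.T) (h0 : 0 ≤ t) {k : J}
    (hk : k ∈ Sp i) (hki : k ≠ i) (hbk : M.bb k ≤ t) :
    M.ε ≤ dist (M.st (Sp i) t Z i).1 (M.st (Sp i) t Z k).1 := by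
  have hmem : t ∈ Icc 0 M.T := ⟨h0, htT.le⟩
  have hsub : Icc t M.T ⊆ Icc 0 M.T := Icc_subset_Icc h0 le_rfl
  refine le_dist_of_frequently htT (x := fun s => (M.st (Sp i) s Z i).1)
    (y := fun s => (M.st (Sp i) s Z k).1) ((H.cont_st hΦ hε i 0 t hmem).mono hsub).fst
    ((H.cont_st' hΦ hε i k 0 t hmem).mono hsub).fst ?_
  refine Filter.Eventually.frequently ?_
  filter_upwards [Ioc_mem_nhdsGT htT] with s hs
  exact (H.exit i hi s (ht.trans_lt hs.1) hs.2 k hk hki (hbk.trans hs.1.le)).le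

/-- **The glued paths are a world with interaction relation `RG`.** -/
theorem iworld : IWorld M.Φ M.ε (fun t i j => (M.bb i ≤ t ∧ M.bb j ≤ t) ∧ RG Sp bD A t i j) 0 M.T
    (XG M Z Sp bD A XD) where
  cont := continuousOn_pi.2 fun i => H.cont_XG hΦ hε i
  der t ht i := by
    classical
    by_cases hi : InG Sp bD A t i
    · -- `i` belongs to the gas
      have h1 := (IWorld.of_lworld H.world).der t ht ⟨i, hi.1⟩
      have h2 : ∑ j, frc M.Φ ((M.bb i ≤ t ∧ M.bb j ≤ t) ∧ RG Sp bD A t i j)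
          ((1 / M.ε) • ((XG M Z Sp bD A XD t i).1 - (XG M Z Sp bD A XD t j).1)) =
          ∑ j : A, frc M.Φ (bD i ≤ t ∧ bD j ≤ t) ((1 / M.ε) • ((XD t i).1 - (XD t j).1)) := by
        rw [← Finset.sum_subset (Finset.subset_univ (Finset.univ.map
          (Function.Embedding.subtype fun j => j ∈ A))), Finset.sum_map]
        · refine Finset.sum_congr rfl fun j _ => ?_
          rw [XG_of_inG hi]
          change frc M.Φ ((M.bb i ≤ t ∧ M.bb (j : J) ≤ t) ∧ RG Sp bD A t i j)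
            ((1 / M.ε) • ((XD t i).1 - (XG M Z Sp bD A XD t (j : J)).1)) = _
          by_cases hj : InG Sp bD A t j
          · rw [XG_of_inG hj]
            refine frc_congr _ ?_ _
            rw [H.alive_iff hi, H.alive_iff hj]
            exact ⟨fun h => h.1, fun h => ⟨h, Or.inl ⟨hi, hj⟩⟩⟩
          · rw [frc_neg, frc_neg]
            · exact fun h => hj (H.inG_of_alive j.2 h.2)
            · rintro ⟨_, h | h⟩
              · exact hj h.2
              · exact h.1 hi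
        · intro j _ hj
          refine frc_neg _ (fun h => hj ?_) _
          rw [Finset.mem_map]
          rcases h.2 with h' | h'
          · exact ⟨⟨j, h'.2.1⟩, Finset.mem_univ _, rfl⟩
          · exact absurd hi h'.1
      rw [h2, XG_of_inG hi]
      refine h1.congr_of_eventuallyEq ?_ (XG_of_inG hi)
      filter_upwards [self_mem_nhdsWithin] with s hs
      exact XG_of_inG (hi.mono hs)
    · -- `i` follows its part
      have hev : (fun s => XG M Z Sp bD A XD s i) =ᶠ[𝓝[≥] t] fun s => M.st (Sp i) s Z i := by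
        filter_upwards [eventually_inG (Sp := Sp) (bD := bD) (A := A) t i] with s hs
        exact XG_of_not fun h => hi (hs.1 h)
      have hiXG : XG M Z Sp bD A XD t i = M.st (Sp i) t Z i := XG_of_not hi
      rcases (Sp i).eq_empty_or_nonempty with he | hne
      · -- not a member of a part: free
        have hnot : i ∉ M.mem (Sp i) t := by
          rw [he]
          intro h
          exact absurd (mem_mem.1 h).1 (Finset.notMem_empty i)
        have h0 : ∀ s, M.st (Sp i) s Z i = fl s (Z i) := fun s => st_outside M (by rw [he]; simp) Z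
        have h3 : ∑ j, frc M.Φ ((M.bb i ≤ t ∧ M.bb j ≤ t) ∧ RG Sp bD A t i j)
            ((1 / M.ε) • ((XG M Z Sp bD A XD t i).1 - (XG M Z Sp bD A XD t j).1)) = 0 := by
          refine Finset.sum_eq_zero fun j _ => frc_neg _ ?_ _
          rintro ⟨_, h | h⟩
          · exact hi h.1
          · rw [he] at h
            exact absurd h.2.2 (Finset.notMem_empty j)
        rw [h3, smul_zero, hiXG, h0]
        refine HasDerivWithinAt.congr_of_eventuallyEq
          (hasDerivAt_fl (Z i) t).hasDerivWithinAt (hev.trans ?_) (hiXG.trans (h0 t))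
        exact Filter.Eventually.of_forall fun s => h0 s
      · have hii : i ∈ Sp i := H.mem i hne
        have h1 := (IWorld.of_lworld (lworld_of_ok hΦ hε (H.ok i) 0)).der t ht
          ⟨i, hii, H.obsS i i hii⟩
        have h2 : ∑ j, frc M.Φ ((M.bb i ≤ t ∧ M.bb j ≤ t) ∧ RG Sp bD A t i j)
            ((1 / M.ε) • ((XG M Z Sp bD A XD t i).1 - (XG M Z Sp bD A XD t j).1)) =
            ∑ j : Mem M (Sp i), frc M.Φ (M.bb i ≤ t ∧ M.bb j ≤ t)
              ((1 / M.ε) • ((M.st (Sp i) t Z i).1 - (M.st (Sp i) t Z j).1)) := by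
          rw [← Finset.sum_subset (Finset.subset_univ (Finset.univ.map
            (memE M (Sp i)))), Finset.sum_map]
          · refine Finset.sum_congr rfl fun j _ => ?_
            rw [hiXG, memE_apply]
            by_cases hj : InG Sp bD A t j
            · -- `j` has left the part
              have h4 : frc M.Φ ((M.bb i ≤ t ∧ M.bb (j : J) ≤ t) ∧ RG Sp bD A t i j)
                  ((1 / M.ε) • ((M.st (Sp i) t Z i).1 - (XG M Z Sp bD A XD t (j : J)).1)) = 0 := by
                refine frc_neg _ ?_ _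
                rintro ⟨_, h | h⟩
                · exact hi h.1
                · exact h.2.1 hj
              rw [h4]
              by_cases hb : M.bb i ≤ t ∧ M.bb (j : J) ≤ t
              · have hSp : Sp (j : J) = Sp i := H.eq i j j.2.1
                have hij : (j : J) ≠ i := fun h => hi (h ▸ hj)
                have hne' : (Sp (j : J)).Nonempty := by rw [hSp]; exact hne
                have hii' : i ∈ Sp (j : J) := by rw [hSp]; exact hii
                have h5 := H.exit_le hΦ hε hj.1 (hj.2 hne') ht.2 ht.1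
                  (k := i) hii' hij.symm hb.1
                rw [hSp, dist_comm] at h5
                rw [frc_zero _ _ (grad_far hΦ hε h5)]
              · rw [frc_neg _ hb]
            · have hSp : Sp (j : J) = Sp i := H.eq i j j.2.1
              rw [XG_of_not hj, hSp]
              exact frc_congr _ ⟨fun h => h.1, fun h => ⟨h, Or.inr ⟨hi, hj, j.2.1⟩⟩⟩ _
          · intro j _ hj
            refine frc_neg _ (fun h => hj ?_) _
            rw [Finset.mem_map]
            rcases h.2 with h' | h'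
            · exact absurd h'.1 hi
            · exact ⟨⟨j, h'.2.2, H.obsS i j h'.2.2⟩, Finset.mem_univ _, rfl⟩
        rw [h2, hiXG]
        exact h1.congr_of_eventuallyEq hev hiXG
  dom t ht := by
    by_cases hC : ContDiff ℝ 2 M.Φ
    · exact Or.inl hC
    refine Or.inr fun i j hij h => ?_
    rcases h.2 with h' | h'
    · rw [XG_of_inG h'.1, XG_of_inG h'.2]
      have hbi := (H.alive_iff h'.1).1 h.1.1
      have hbj := (H.alive_iff h'.2).1 h.1.2
      exact (H.world.dom t ht).resolve_left hC ⟨i, h'.1.1⟩ ⟨j, h'.2.1⟩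
        (fun h'' => hij (congrArg Subtype.val h'')) hbi hbj
    · rw [XG_of_not h'.1, XG_of_not h'.2.1, H.eq i j h'.2.2]
      have hii := H.mem_self h'.2.2
      exact ((lworld_of_ok hΦ hε (H.ok i) 0).dom t ht).resolve_left hC
        ⟨i, hii, H.obsS i i hii⟩ ⟨j, h'.2.2, H.obsS i j h'.2.2⟩
        (fun h'' => hij (congrArg Subtype.val h'')) h.1.1 h.1.2

/-! ### The fields of `RW` -/

omit hΦ hε in
theorem rcG_symm {t : ℝ} {i j : J} (h : RcG Sp bD A t i j) : RcG Sp bD A t j i := by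
  rcases h with h | h
  · exact Or.inl ⟨h.2, h.1⟩
  · exact Or.inr ⟨H.symm_mem h.1, h.2.2, h.2.1⟩

omit hΦ hε in
theorem cG_symm {t : ℝ} {i j : J} (h : CG M Z Sp bD A XD t i j) : CG M Z Sp bD A XD t j i := by
  obtain ⟨h1, h2, h3, h4, h5, h6, h7⟩ := h
  exact ⟨h2, h1, H.rcG_symm h3, h5, h4, h6.symm, by rwa [dist_comm]⟩

omit hΦ hε in
theorem ne_obs_of_rcG {t : ℝ} {i j : J} (h : RcG Sp bD A t i j) : M.o ≠ some j := by
  rcases h with h | h
  · exact H.obsA j h.2.1
  · exact H.obsS i j h.1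

omit hΦ hε in
theorem init_XG (hT : 0 ≤ M.T) (k : J) : XG M Z Sp bD A XD 0 k = Z k := by
  by_cases hk : InG Sp bD A 0 k
  · rw [XG_of_inG hk]
    rcases (Sp k).eq_empty_or_nonempty with h | h
    · exact H.gas0 k hk.1 h
    · have h0 : bD k = 0 := le_antisymm (hk.2 h) ((bb_nonneg M k).trans (H.bb_le k hk.1))
      have h1 := H.hand k hk.1 h (h0.trans_le hT)
      rw [h0] at h1
      rw [h1, st_nonpos M le_rfl, fl_zero]
  · rw [XG_of_not hk, st_nonpos M le_rfl, fl_zero]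

omit hε hΦ in
theorem isClosed_rcG (i j : J) : IsClosed {s | RcG Sp bD A s i j} := by
  have h1 : ∀ k, IsClosed {s | InG Sp bD A s k} := by
    intro k
    by_cases hk : k ∈ A
    · by_cases hn : (Sp k).Nonempty
      · have : {s | InG Sp bD A s k} = Ici (bD k) := by
          ext s
          exact ⟨fun h => h.2 hn, fun h => ⟨hk, fun _ => h⟩⟩
        rw [this]
        exact isClosed_Ici
      · have : {s | InG Sp bD A s k} = univ := by
          ext s
          exact ⟨fun _ => mem_univ _, fun _ => ⟨hk, fun h => absurd h hn⟩⟩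
        rw [this]
        exact isClosed_univ
    · have : {s | InG Sp bD A s k} = ∅ := by
        ext s
        exact ⟨fun h => hk h.1, fun h => h.elim⟩
      rw [this]
      exact isClosed_empty
  have h2 : ∀ k, IsClosed {s : ℝ | k ∈ A → s ≤ bD k} := by
    intro k
    by_cases hk : k ∈ A
    · have : {s : ℝ | k ∈ A → s ≤ bD k} = Iic (bD k) := by
        ext s
        exact ⟨fun h => h hk, fun h _ => h⟩
      rw [this]
      exact isClosed_Iic
    · have : {s : ℝ | k ∈ A → s ≤ bD k} = univ := by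
        ext s
        exact ⟨fun _ => mem_univ _, fun _ h => absurd h hk⟩
      rw [this]
      exact isClosed_univ
  have h3 : {s | RcG Sp bD A s i j} = ({s | InG Sp bD A s i} ∩ {s | InG Sp bD A s j}) ∪
      ({s : ℝ | j ∈ Sp i} ∩ ({s : ℝ | i ∈ A → s ≤ bD i} ∩ {s : ℝ | j ∈ A → s ≤ bD j})) := rfl
  rw [h3]
  exact ((h1 i).inter (h1 j)).union (isClosed_const.inter ((h2 i).inter (h2 j)))

/-- Immediately after a common birth there is no contact. -/
theorem eventually_not_contact {j k : J} (hjk : j ≠ k) (hb : M.bb j = M.bb k)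
    (hT : M.bb j < M.T) : ∀ᶠ s in 𝓝[>] (M.bb j), ¬ (RcG Sp bD A s j k ∧
      dist (XG M Z Sp bD A XD s j).1 (XG M Z Sp bD A XD s k).1 ≤ M.ε) := by
  have h0 : 0 ≤ M.bb j := bb_nonneg M j
  have hle : 𝓝[>] (M.bb j) ≤ 𝓝[≥] (M.bb j) := nhdsWithin_mono _ Ioi_subset_Ici_self
  have hev := eventually_RcG (Sp := Sp) (bD := bD) (A := A) (M.bb j) j k
    (fun h => H.nonempty h)
  by_cases hR : RG Sp bD A (M.bb j) j k
  swap
  · filter_upwards [hev] with s hs h
    exact hR (hs.1 h.1)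
  rcases hR with hR | hR
  · -- both in the gas
    have h1 : bD j = M.bb j := le_antisymm ((H.alive_iff hR.1).1 le_rfl) (H.bb_le j hR.1.1)
    have h2 : bD k = M.bb k :=
      le_antisymm (by rw [← hb]; exact (H.alive_iff hR.2).1 hb.ge) (H.bb_le k hR.2.1)
    have h3 := H.sep j hR.1.1 k hR.2.1 hjk (by rw [h1, h2, hb]) (by rw [h1]; exact hT)
    rw [h1] at h3
    filter_upwards [h3, self_mem_nhdsWithin] with s hs hs' h
    rw [XG_of_inG (hR.1.mono (le_of_lt hs')), XG_of_inG (hR.2.mono (le_of_lt hs'))] at h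
    exact absurd h.2 (not_le.2 hs)
  · -- both in the part
    have hjj : j ∈ Sp j := H.mem_self hR.2.2
    have h1 := H.ok j j hjj (H.obsS j j hjj) hT k hR.2.2 (H.obsS j k hR.2.2) hjk.symm hb.ge
    have h2 : ContinuousWithinAt (fun s => dist (M.st (Sp j) s Z j).1 (M.st (Sp j) s Z k).1)
        (Icc 0 M.T) (M.bb j) :=
      ((H.cont_st hΦ hε j 0 _ ⟨h0, hT.le⟩).fst).dist ((H.cont_st' hΦ hε j k 0 _ ⟨h0, hT.le⟩).fst)
    have h3 : ∀ᶠ s in 𝓝[Icc 0 M.T] (M.bb j),
        M.ε < dist (M.st (Sp j) s Z j).1 (M.st (Sp j) s Z k).1 := h2.eventually_const_lt h1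
    have h4 : 𝓝[>] (M.bb j) ≤ 𝓝[Icc 0 M.T] (M.bb j) := by
      refine nhdsWithin_le_of_mem ?_
      exact mem_of_superset (Ioc_mem_nhdsGT hT) fun s hs => ⟨h0.trans hs.1.le, hs.2⟩
    filter_upwards [h4 h3, hle (eventually_inG (Sp := Sp) (bD := bD) (A := A) (M.bb j) j),
      hle (eventually_inG (Sp := Sp) (bD := bD) (A := A) (M.bb j) k)] with s hs hsj hsk h
    rw [XG_of_not (fun h' => hR.1 (hsj.1 h')), XG_of_not (fun h' => hR.2.1 (hsk.1 h')),
      H.eq j k hR.2.2] at h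
    exact absurd h.2 (not_le.2 hs)

theorem closed_CG (j k : J) (hjk : j ≠ k) :
    IsClosed {s | s ∈ Icc 0 M.T ∧ CG M Z Sp bD A XD s j k} := by
  by_cases ho : M.o ≠ some j ∧ M.o ≠ some k
  swap
  · have : {s | s ∈ Icc 0 M.T ∧ CG M Z Sp bD A XD s j k} = ∅ := by
      ext s
      exact ⟨fun h => ho ⟨h.2.1, h.2.2.1⟩, fun h => h.elim⟩
    rw [this]
    exact isClosed_empty
  set D : ℝ → ℝ := fun s => dist (XG M Z Sp bD A XD s j).1 (XG M Z Sp bD A XD s k).1 with hD
  have hDc : ContinuousOn D (Icc 0 M.T) := fun t ht =>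
    (H.cont_XG hΦ hε j t ht).fst.dist (H.cont_XG hΦ hε k t ht).fst
  have hF : IsClosed ({s | RcG Sp bD A s j k} ∩ (Ici (M.bb j) ∩ (Ici (M.bb k) ∩
      (Icc 0 M.T ∩ D ⁻¹' Iic M.ε)))) :=
    (H.isClosed_rcG j k).inter (isClosed_Ici.inter (isClosed_Ici.inter
      (hDc.preimage_isClosed_of_isClosed isClosed_Icc isClosed_Iic)))
  by_cases hb : M.bb j = M.bb k
  · by_cases hT : M.bb j < M.T
    · obtain ⟨u, hu, hsub⟩ := (mem_nhdsGT_iff_exists_Ioo_subset' hT).1
        (H.eventually_not_contact hΦ hε hjk hb hT)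
      have : {s | s ∈ Icc 0 M.T ∧ CG M Z Sp bD A XD s j k} =
          ({s | RcG Sp bD A s j k} ∩ (Ici (M.bb j) ∩ (Ici (M.bb k) ∩
      (Icc 0 M.T ∩ D ⁻¹' Iic M.ε)))) ∩ Ici u := by
        ext s
        constructor
        · rintro ⟨h1, h2, h3, h4, h5, h6, h7, h8⟩
          refine ⟨⟨h4, h5, h6, h1, h8⟩, ?_⟩
          have h9 : M.bb j < s := by
            rcases h7 with h7 | h7
            · exact h7
            · rw [hb]; exact h7
          by_contra hcon
          exact hsub ⟨h9, not_le.1 hcon⟩ ⟨h4, h8⟩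
        · rintro ⟨⟨h4, h5, h6, h1, h8⟩, h9⟩
          exact ⟨h1, ho.1, ho.2, h4, h5, h6, Or.inl (lt_of_lt_of_le hu h9), h8⟩
      rw [this]
      exact hF.inter isClosed_Ici
    · have : {s | s ∈ Icc 0 M.T ∧ CG M Z Sp bD A XD s j k} = ∅ := by
        ext s
        refine ⟨?_, fun h => h.elim⟩
        rintro ⟨h1, h2, h3, h4, h5, h6, h7, h8⟩
        rcases h7 with h7 | h7
        · exact hT (h7.trans_le h1.2)
        · exact hT (hb ▸ h7.trans_le h1.2)
      rw [this]
      exact isClosed_empty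
  · have : {s | s ∈ Icc 0 M.T ∧ CG M Z Sp bD A XD s j k} =
        ({s | RcG Sp bD A s j k} ∩ (Ici (M.bb j) ∩ (Ici (M.bb k) ∩
      (Icc 0 M.T ∩ D ⁻¹' Iic M.ε)))) := by
      ext s
      constructor
      · rintro ⟨h1, h2, h3, h4, h5, h6, h7, h8⟩
        exact ⟨h4, h5, h6, h1, h8⟩
      · rintro ⟨h4, h5, h6, h1, h8⟩
        refine ⟨h1, ho.1, ho.2, h4, h5, h6, ?_, h8⟩
        rcases lt_or_gt_of_ne hb with h9 | h9
        · exact Or.inl (h9.trans_le h6)
        · exact Or.inr (h9.trans_le h5)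
    rw [this]
    exact hF

omit hΦ hε in
/-- At its exit time an exit sees its partner. -/
theorem cG_partner {k m : J} (hk : k ∈ A) (hne : (Sp k).Nonempty) (hT : bD k ≤ M.T)
    (hb : M.bb k < bD k) (hm : m ∈ Sp k) (hmk : m ≠ k) (hbm : M.bb m ≤ bD k)
    (hd : dist (M.st (Sp k) (bD k) Z k).1 (M.st (Sp k) (bD k) Z m).1 ≤ M.ε) :
    CG M Z Sp bD A XD (bD k) k m := by
  have hSp : Sp m = Sp k := H.eq k m hm
  have hne' : (Sp m).Nonempty := H.nonempty hm
  have hkk : k ∈ Sp k := H.mem k hne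
  have hmA : m ∈ A → bD k ≤ bD m := by
    intro hmA
    by_contra hcon
    have h1 := H.exit m hmA (bD k) (not_le.1 hcon) hT k (by rw [hSp]; exact hkk) hmk.symm
      (H.bb_le k hk)
    rw [hSp, dist_comm] at h1
    exact absurd hd (not_le.2 h1)
  have hXk : XG M Z Sp bD A XD (bD k) k = M.st (Sp k) (bD k) Z k := by
    rw [XG_of_inG ⟨hk, fun _ => le_rfl⟩]
    exact H.hand k hk hne hT
  have hXm : XG M Z Sp bD A XD (bD k) m = M.st (Sp k) (bD k) Z m := by
    by_cases hi : InG Sp bD A (bD k) m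
    · have h2 : bD m = bD k := le_antisymm (hi.2 hne') (hmA hi.1)
      have h3 := H.hand m hi.1 hne' (h2.trans_le hT)
      rw [XG_of_inG hi, ← hSp]
      rw [h2] at h3
      exact h3
    · rw [XG_of_not hi, hSp]
  refine ⟨H.obsA k hk, H.obsS k m hm, Or.inr ⟨hm, fun _ => le_rfl, hmA⟩, H.bb_le k hk, hbm,
    Or.inl hb, ?_⟩
  rw [hXk, hXm]
  exact hd

omit hΦ hε in
/-- At its exit time an exit (with a partner) is in contact with a partner of its part, and both are
seen. -/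
theorem exists_partner {k : J} (hk : k ∈ A) (hne : (Sp k).Nonempty) (hT : bD k ≤ M.T)
    (hb : M.bb k < bD k) (hlast : ∃ m ∈ Sp k, m ≠ k ∧ M.bb m ≤ bD k ∧
      dist (M.st (Sp k) (bD k) Z k).1 (M.st (Sp k) (bD k) Z m).1 ≤ M.ε) :
    ∃ m ∈ Sp k, m ≠ k ∧ CG M Z Sp bD A XD (bD k) k m ∧
      dist (M.st (Sp k) (bD k) Z k).1 (M.st (Sp k) (bD k) Z m).1 ≤ M.ε ∧ M.bb m ≤ bD k := by
  obtain ⟨m, hm, hmk, hbm, hd⟩ := hlast
  exact ⟨m, hm, hmk, H.cG_partner hk hne hT hb hm hmk hbm hd, hd, hbm⟩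

/-- Without contacts the particle flies freely. -/
theorem free_of_noC {k : J} {a b : ℝ} (ha : 0 ≤ a) (hb : b ≤ M.T)
    (hno : ∀ t ∈ Ioo a b, ∀ j, j ≠ k → ¬ CG M Z Sp bD A XD t k j) :
    ∀ u ∈ Icc a b, XG M Z Sp bD A XD u k =
      ((XG M Z Sp bD A XD a k).1 + (u - a) • (XG M Z Sp bD A XD a k).2,
        (XG M Z Sp bD A XD a k).2) := by
  rcases le_or_gt a b with hab | hab
  swap
  · intro u hu
    exact absurd (hu.1.trans hu.2) (not_le.2 hab)
  have hX := (H.iworld hΦ hε).mono ha hb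
  have hW : LWorld M.Φ M.ε (fun _ : Unit => M.bb k) a b
      (fun t _ => XG M Z Sp bD A XD t k) := by
    refine hX.to_lworld hΦ hε (κ := Unit) ⟨fun _ => k, fun _ _ _ => rfl⟩
      (fun t _ x y hxy _ => absurd (Subsingleton.elim x y) hxy)
      (fun t _ x y hxy => absurd (Subsingleton.elim x y) hxy) (fun t ht _ j hj h => ?_)
    have hkj : k ≠ j := fun h' => hj () h'
    have hmem : t ∈ Icc 0 M.T := ⟨ha.trans ht.1, ht.2.le.trans hb⟩
    have hsub : Icc t b ⊆ Icc 0 M.T := Icc_subset_Icc (ha.trans ht.1) hb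
    refine le_dist_of_frequently ht.2 (x := fun s => (XG M Z Sp bD A XD s k).1)
      (y := fun s => (XG M Z Sp bD A XD s j).1)
      ((H.cont_XG hΦ hε k t hmem).mono hsub).fst ((H.cont_XG hΦ hε j t hmem).mono hsub).fst ?_
    refine Filter.Eventually.frequently ?_
    filter_upwards [Ioo_mem_nhdsGT ht.2,
      eventually_RcG (Sp := Sp) (bD := bD) (A := A) t k j (fun h => H.nonempty h)] with s hs hRs
    have hRc : RcG Sp bD A s k j := hRs.2 h.2
    by_contra hcon
    have hal := alv_of_lt (M := M) h.1.1 h.1.2 hs.1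
    exact hno s ⟨ht.1.trans_lt hs.1, hs.2⟩ j hkj.symm ⟨H.ne_obs_of_rcG (H.rcG_symm hRc),
      H.ne_obs_of_rcG hRc, hRc, hal.1, hal.2.1, hal.2.2, (not_le.1 hcon).le⟩
  intro u hu
  exact LNW291.free_of_iso hΦ hε hW le_rfl le_rfl (i := ())
    (fun t _ j hj => absurd (Subsingleton.elim j ()) hj) u hu

theorem gh1_aux {s r : ℝ} {k l : J} (hkl : k ≠ l) (h0 : 0 ≤ s) (hr : r ≤ M.T)
    (hg : Geo M (XG M Z Sp bD A XD) s k l)
    (hno : ¬ RcG Sp bD A s k l) (hk : InG Sp bD A r k) (hl : InG Sp bD A r l)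
    (hks : ¬ InG Sp bD A s k) (hls : InG Sp bD A s l ∨ bD l ≤ bD k)
    (hd : dist (XG M Z Sp bD A XD r k).1 (XG M Z Sp bD A XD r l).1 ≤ M.ε) :
    ∃ r' ∈ Icc s r, ∃ m, m ≠ k ∧ m ≠ l ∧
      (CG M Z Sp bD A XD r' k m ∨ CG M Z Sp bD A XD r' l m) := by
  obtain ⟨hbk, hbl, hbs, hgd⟩ := hg
  rcases not_inG_iff.1 hks with h | h
  · exact absurd hk.1 h
  have hbkr : bD k ≤ r := hk.2 h.1
  have hT : bD k ≤ M.T := hbkr.trans hr
  rcases H.last k hk.1 h.1 hT with h1 | hpart | hNB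
  · exact absurd h.2 (not_lt.2 (h1.trans_le hbk))
  · -- a partner
    obtain ⟨m, hm, hmk, hC, hdm, hbm⟩ := H.exists_partner hk.1 h.1 hT (hbk.trans_lt h.2) hpart
    refine ⟨bD k, ⟨h.2.le, hbkr⟩, m, hmk, ?_, Or.inl hC⟩
    rintro rfl
    -- the partner is not `l`
    have hSp : Sp m = Sp k := H.eq k m hm
    have hne' : (Sp m).Nonempty := H.nonempty hm
    by_cases hl' : InG Sp bD A s m
    · have h1 := H.exit m hl'.1 (bD k) ((hl'.2 hne').trans_lt h.2) hT k
        (by rw [hSp]; exact H.mem k h.1) hmk.symm (H.bb_le k hk.1)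
      rw [hSp, dist_comm] at h1
      exact absurd hdm (not_le.2 h1)
    · refine hno (Or.inr ⟨hm, fun _ => h.2.le, fun hA => ?_⟩)
      rcases not_inG_iff.1 hl' with h' | h'
      · exact absurd hA h'
      · exact h'.2.le
  · -- nobody near the birth point
    by_contra hcon
    push Not at hcon
    have hnl : ∀ t ∈ Icc s r, ∀ m, m ≠ k → m ≠ l →
        ¬ CG M Z Sp bD A XD t k m ∧ ¬ CG M Z Sp bD A XD t l m := hcon
    -- `l` is alive in the derived world at time `bD k`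
    have hbDl : bD l ≤ bD k := by
      rcases hls with h' | h'
      · exact ((H.alive_iff h').1 hbl).trans h.2.le
      · exact h'
    have hlk : M.ε < dist (XG M Z Sp bD A XD (bD k) k).1 (XG M Z Sp bD A XD (bD k) l).1 := by
      have h2 := hNB l hl.1 hkl.symm hbDl
      rw [XG_of_inG ⟨hk.1, fun _ => le_rfl⟩, XG_of_inG (H.inG_of_alive hl.1 hbDl)]
      exact h2
    -- before `bD k` the two do not see each other
    have hnokl : ∀ t, s ≤ t → t < bD k → ¬ RcG Sp bD A t k l := by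
      intro t hst htk hRc
      rcases hRc with h' | h'
      · exact absurd (h'.1.2 h.1) (not_le.2 htk)
      · have hne' := H.nonempty h'.1
        by_cases hl' : InG Sp bD A s l
        · exact hno (Or.inr ⟨h'.1, fun _ => h.2.le, fun hA => hst.trans (h'.2.2 hA)⟩)
        · refine hno (Or.inr ⟨h'.1, fun _ => h.2.le, fun hA => ?_⟩)
          rcases not_inG_iff.1 hl' with h'' | h''
          · exact absurd hA h''
          · exact h''.2.le
    -- first contact after `bD k`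
    set D : ℝ → ℝ := fun t => dist (XG M Z Sp bD A XD t k).1 (XG M Z Sp bD A XD t l).1 with hD
    have h0k : 0 ≤ bD k := h0.trans h.2.le
    have hDc : ContinuousOn D (Icc (bD k) r) := fun t ht =>
      ((H.cont_XG hΦ hε k t ⟨h0k.trans ht.1, ht.2.trans hr⟩).mono
        (Icc_subset_Icc h0k hr)).fst.dist
      ((H.cont_XG hΦ hε l t ⟨h0k.trans ht.1, ht.2.trans hr⟩).mono (Icc_subset_Icc h0k hr)).fst
    have hcomp : IsCompact (Icc (bD k) r ∩ D ⁻¹' Iic M.ε) :=
      isCompact_Icc.of_isClosed_subset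
        (hDc.preimage_isClosed_of_isClosed isClosed_Icc isClosed_Iic) inter_subset_left
    obtain ⟨r₀, ⟨hr₀, hr₀d⟩, hmin⟩ := hcomp.exists_isLeast ⟨r, ⟨hbkr, le_rfl⟩, hd⟩
    have hr₀d' : D r₀ ≤ M.ε := hr₀d
    have hkr₀ : bD k < r₀ := by
      rcases hr₀.1.eq_or_lt with h' | h'
      · rw [← h'] at hr₀d'
        exact absurd hr₀d' (not_le.2 hlk)
      · exact h'
    have hbefore : ∀ t ∈ Ico (bD k) r₀, M.ε < D t := by
      intro t ht
      by_contra h'
      exact absurd (hmin ⟨⟨ht.1, ht.2.le.trans hr₀.2⟩, not_lt.1 h'⟩) (not_le.2 ht.2)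
    -- free motion
    have hnoC : ∀ t ∈ Ioo s r₀, ¬ CG M Z Sp bD A XD t k l := by
      intro t ht hC
      rcases lt_or_ge t (bD k) with h' | h'
      · exact hnokl t ht.1.le h' hC.2.2.1
      · exact absurd hC.2.2.2.2.2.2 (not_le.2 (hbefore t ⟨h', ht.2⟩))
    have hfk := H.free_of_noC hΦ hε (k := k) h0 (hr₀.2.trans hr) (fun t ht j hj hC => by
      by_cases hjl : j = l
      · subst hjl
        exact hnoC t ht hC
      · exact (hnl t ⟨ht.1.le, ht.2.le.trans hr₀.2⟩ j hj hjl).1 hC)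
    have hfl := H.free_of_noC hΦ hε (k := l) h0 (hr₀.2.trans hr) (fun t ht j hj hC => by
      by_cases hjk : j = k
      · subst hjk
        exact hnoC t ht (H.cG_symm hC)
      · exact (hnl t ⟨ht.1.le, ht.2.le.trans hr₀.2⟩ j hjk hj).2 hC)
    -- convexity
    set w : Space3 := (XG M Z Sp bD A XD s k).1 - (XG M Z Sp bD A XD s l).1 with hw
    set g : Space3 := (XG M Z Sp bD A XD s k).2 - (XG M Z Sp bD A XD s l).2 with hg'
    have hrel : ∀ t ∈ Icc s r₀, (XG M Z Sp bD A XD t k).1 - (XG M Z Sp bD A XD t l).1 =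
        w + (t - s) • g := by
      intro t ht
      rw [hfk t ht, hfl t ht]
      change (XG M Z Sp bD A XD s k).1 + (t - s) • (XG M Z Sp bD A XD s k).2 -
        ((XG M Z Sp bD A XD s l).1 + (t - s) • (XG M Z Sp bD A XD s l).2) = _
      rw [hw, hg', smul_sub, add_sub_add_comm]
    have hsr₀ : s < r₀ := h.2.trans hkr₀
    have e1 : ‖w‖ ≤ M.ε := by rw [hw, ← dist_eq_norm]; exact hgd
    have e2 : ‖w + (r₀ - s) • g‖ ≤ M.ε := by
      rw [← hrel r₀ ⟨hsr₀.le, le_rfl⟩, ← dist_eq_norm]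
      exact hr₀d'
    have e3 : M.ε < ‖w + (bD k - s) • g‖ := by
      rw [← hrel (bD k) ⟨h.2.le, hkr₀.le⟩, ← dist_eq_norm]
      exact hlk
    have hpos : 0 < r₀ - s := sub_pos.2 hsr₀
    set θ : ℝ := (bD k - s) / (r₀ - s) with hθ
    have hθ0 : 0 ≤ θ := div_nonneg (sub_nonneg.2 h.2.le) hpos.le
    have hθ1 : θ ≤ 1 := (div_le_one hpos).2 (by linarith)
    have e4 : w + (bD k - s) • g = (1 - θ) • w + θ • (w + (r₀ - s) • g) := by
      have h5 : (bD k - s) = θ * (r₀ - s) := by rw [hθ]; field_simp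
      rw [h5, smul_add, sub_smul, one_smul, ← smul_smul]
      abel
    have e5 : ‖w + (bD k - s) • g‖ ≤ (1 - θ) * M.ε + θ * M.ε := by
      rw [e4]
      refine (norm_add_le _ _).trans (add_le_add ?_ ?_)
      · rw [norm_smul, Real.norm_of_nonneg (by linarith)]
        exact mul_le_mul_of_nonneg_left e1 (by linarith)
      · rw [norm_smul, Real.norm_of_nonneg hθ0]
        exact mul_le_mul_of_nonneg_left e2 hθ0
    linarith

theorem gh1_CG {s r : ℝ} {k l : J} (hkl : k ≠ l) (hok : M.o ≠ some k) (hol : M.o ≠ some l)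
    (h0 : 0 ≤ s) (hsr : s ≤ r) (hr : r ≤ M.T) (hg : Geo M (XG M Z Sp bD A XD) s k l)
    (hno : ¬ CG M Z Sp bD A XD s k l) (hC : CG M Z Sp bD A XD r k l) :
    ∃ r' ∈ Icc s r, ∃ m, m ≠ k ∧ m ≠ l ∧
      (CG M Z Sp bD A XD r' k m ∨ CG M Z Sp bD A XD r' l m) := by
  have hno' : ¬ RcG Sp bD A s k l := fun h => hno ⟨hok, hol, h, hg⟩
  have hd := hC.2.2.2.2.2.2
  have hswap : ∀ {r' : ℝ} {m : J}, (CG M Z Sp bD A XD r' l m ∨ CG M Z Sp bD A XD r' k m) →
      (CG M Z Sp bD A XD r' k m ∨ CG M Z Sp bD A XD r' l m) := fun h => h.symm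
  rcases hC.2.2.1 with h | h
  · have key1 : ¬ InG Sp bD A s k → (InG Sp bD A s l ∨ bD l ≤ bD k) →
        ∃ r' ∈ Icc s r, ∃ m, m ≠ k ∧ m ≠ l ∧
          (CG M Z Sp bD A XD r' k m ∨ CG M Z Sp bD A XD r' l m) := fun hks hls =>
      H.gh1_aux hΦ hε hkl h0 hr hg hno' h.1 h.2 hks hls hd
    have key2 : ¬ InG Sp bD A s l → (InG Sp bD A s k ∨ bD k ≤ bD l) →
        ∃ r' ∈ Icc s r, ∃ m, m ≠ k ∧ m ≠ l ∧
          (CG M Z Sp bD A XD r' k m ∨ CG M Z Sp bD A XD r' l m) := fun hls hks => by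
      obtain ⟨r', hr', m, hml, hmk, hC'⟩ := H.gh1_aux hΦ hε hkl.symm h0 hr
        ⟨hg.2.1, hg.1, hg.2.2.1.symm, by rw [dist_comm]; exact hg.2.2.2⟩
        (fun h' => hno' (H.rcG_symm h')) h.2 h.1 hls hks (by rw [dist_comm]; exact hd)
      exact ⟨r', hr', m, hmk, hml, hC'.symm⟩
    by_cases hks : InG Sp bD A s k
    · have hls : ¬ InG Sp bD A s l := fun h' => hno' (Or.inl ⟨hks, h'⟩)
      exact key2 hls (Or.inl hks)
    · by_cases hls : InG Sp bD A s l
      · exact key1 hks (Or.inl hls)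
      · rcases le_total (bD l) (bD k) with h' | h'
        · exact key1 hks (Or.inr h')
        · exact key2 hls (Or.inr h')
  · exact absurd (Or.inr ⟨h.1, fun hA => hsr.trans (h.2.1 hA), fun hA => hsr.trans (h.2.2 hA)⟩)
      hno'

/-- If no other gas particle is in contact with the exit `k` at its exit time, then `k` follows its
part for a while. -/
theorem follow {k : J} (hk : k ∈ A) (hne : (Sp k).Nonempty) (hT : bD k < M.T)
    (hfar : ∀ m ∈ A, m ≠ k → bD m ≤ bD k → M.ε < dist (XD (bD k) k).1 (XD (bD k) m).1) :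
    ∃ δ > 0, ∀ r ∈ Icc (bD k) (bD k + δ), r ≤ M.T ∧ XD r k = M.st (Sp k) r Z k := by
  classical
  have h0 : 0 ≤ bD k := (bb_nonneg M k).trans (H.bb_le k hk)
  have h1 : ∀ᶠ t in 𝓝[≥] (bD k), ∀ m ∈ A, m ≠ k → bD m ≤ t →
      M.ε < dist (XD t k).1 (XD t m).1 := by
    rw [Filter.eventually_all_finset]
    intro m hm
    by_cases hmk : m = k
    · filter_upwards with t h
      exact absurd hmk h
    by_cases hb : bD m ≤ bD k
    · have h2 : ContinuousWithinAt (fun s => dist (XD s k).1 (XD s m).1) (Icc 0 M.T) (bD k) :=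
        ((H.cont_XD hΦ hε hk _ ⟨h0, hT.le⟩).fst).dist ((H.cont_XD hΦ hε hm _ ⟨h0, hT.le⟩).fst)
      have h3 := h2.eventually_const_lt (hfar m hm hmk hb)
      have h4 : 𝓝[≥] (bD k) ≤ 𝓝[Icc 0 M.T] (bD k) := by
        refine nhdsWithin_le_of_mem ?_
        exact mem_of_superset (Icc_mem_nhdsGE hT) fun s hs => ⟨h0.trans hs.1, hs.2⟩
      filter_upwards [h4 h3] with t ht _ _
      exact ht
    · filter_upwards [mem_nhdsWithin_of_mem_nhds (Iio_mem_nhds (not_le.1 hb))] with t ht _ h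
      exact absurd h (not_le.2 ht)
  obtain ⟨u, hu, hsub⟩ := mem_nhdsGE_iff_exists_Icc_subset.1 h1
  have hu' : bD k < u := hu
  set u' := min u M.T with hu'def
  have huT : bD k < u' := lt_min hu' hT
  refine ⟨u' - bD k, by linarith, fun r hr => ?_⟩
  have hr' : r ∈ Icc (bD k) u' := ⟨hr.1, by linarith [hr.2]⟩
  refine ⟨hr'.2.trans (min_le_right _ _), ?_⟩
  -- the derived world
  have hW1 : LWorld M.Φ M.ε (fun _ : Unit => bD k) (bD k) u' (fun s _ => XD s k) := by
    have h2 := (H.world.mono h0 (min_le_right u M.T)).restrict hΦ hε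
      (κ := Unit) ⟨fun _ => ⟨k, hk⟩, fun _ _ _ => rfl⟩ (fun t ht _ _ j hj hbj => ?_)
    · exact h2
    · have hjk : (j : J) ≠ k := fun h => hj () (Subtype.ext h.symm)
      exact (hsub ⟨ht.1, ht.2.le.trans (min_le_left _ _)⟩ j j.2 hjk hbj).le
  -- the part
  have hkk := H.mem k hne
  have hW2 : LWorld M.Φ M.ε (fun _ : Unit => M.bb k) (bD k) u' (fun s _ => M.st (Sp k) s Z k) := by
    have h2 := ((lworld_of_ok hΦ hε (H.ok k) 0).mono h0 (min_le_right u M.T)).restrict hΦ hε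
      (κ := Unit) ⟨fun _ => ⟨k, hkk, H.obsS k k hkk⟩, fun _ _ _ => rfl⟩
      (fun t ht _ _ j hj hbj => ?_)
    · exact h2
    · have hjk : (j : J) ≠ k := fun h => hj () (Subtype.ext h.symm)
      exact H.exit_le hΦ hε hk ht.1 (ht.2.trans_le (min_le_right _ _)) (h0.trans ht.1) j.2.1 hjk hbj
  have hW2' := hW2.congr_births (b' := fun _ => bD k) fun _ t ht =>
    ⟨fun _ => ht.1, fun _ => (H.bb_le k hk).trans ht.1⟩
  exact congrFun (hW1.unique hΦ hε hW2' (funext fun _ => H.hand k hk hne hT.le) hr') ()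

theorem gh2_aux {s : ℝ} {k l : J} (hkl : k ≠ l) (hsT : s < M.T)
    (hl : l ∈ Sp k) (hks : s ≤ bD k) (hC : CG M Z Sp bD A XD s k l)
    (hk : InG Sp bD A s k) (hln : ¬ InG Sp bD A s l) :
    (∃ m, m ≠ k ∧ m ≠ l ∧ CG M Z Sp bD A XD s k m) ∨
      ∃ δ > 0, ∀ r ∈ Icc s (s + δ), Geo M (XG M Z Sp bD A XD) r k l → CG M Z Sp bD A XD r k l := by
  classical
  have hne : (Sp k).Nonempty := ⟨l, hl⟩
  have hs : s = bD k := le_antisymm hks (hk.2 hne)
  subst hs
  by_cases hesc : ∃ m, m ≠ k ∧ m ≠ l ∧ CG M Z Sp bD A XD (bD k) k m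
  · exact Or.inl hesc
  right
  have hkA := hk.1
  have hkk := H.mem k hne
  -- `k` is born before its exit time
  have hXk : XG M Z Sp bD A XD (bD k) k = M.st (Sp k) (bD k) Z k := by
    rw [XG_of_inG hk]
    exact H.hand k hkA hne hsT.le
  have hXl : XG M Z Sp bD A XD (bD k) l = M.st (Sp k) (bD k) Z l := by
    rw [XG_of_not hln, H.eq k l hl]
  obtain ⟨-, -, -, hb1, hb2, hb3, hd⟩ := hC
  have hbk : M.bb k < bD k := by
    by_contra hcon
    have h1 : M.bb k = bD k := le_antisymm hb1 (not_lt.1 hcon)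
    have h2 := H.ok k k hkk (H.obsS k k hkk) (by rw [h1]; exact hsT) l hl (H.obsS k l hl) hkl.symm
      (by rw [h1]; exact hb2)
    rw [h1] at h2
    rw [hXk, hXl] at hd
    exact absurd hd (not_le.2 h2)
  obtain ⟨δ, hδ, hfol⟩ := H.follow hΦ hε hkA hne hsT (fun m hm hmk hbm => by
    by_contra hcon
    have hmG : InG Sp bD A (bD k) m := H.inG_of_alive hm hbm
    have hml : m ≠ l := fun h => hln (h ▸ hmG)
    refine hesc ⟨m, hmk, hml, H.obsA k hkA, H.obsA m hm, Or.inl ⟨hk, hmG⟩, hb1,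
      (H.bb_le m hm).trans hbm, Or.inl hbk, ?_⟩
    rw [XG_of_inG hk, XG_of_inG hmG]
    exact not_lt.1 hcon)
  -- `l` stays in the part for a while
  obtain ⟨u, hu, hsub⟩ := mem_nhdsGE_iff_exists_Icc_subset.1
    (eventually_inG (Sp := Sp) (bD := bD) (A := A) (bD k) l)
  have hu' : bD k < u := hu
  refine ⟨min δ (u - bD k), lt_min hδ (by linarith), fun r hr hg => ?_⟩
  rcases hr.1.eq_or_lt with h | h
  · subst h
    exact ⟨H.obsA k hkA, H.obsS k l hl, Or.inr ⟨hl, fun _ => le_rfl, fun hlA => by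
      by_contra hcon
      exact hln ⟨hlA, fun _ => (not_le.1 hcon).le⟩⟩, hg⟩
  · exfalso
    have hr1 : r ≤ bD k + δ := hr.2.trans (by linarith [min_le_left δ (u - bD k)])
    have hr2 : r ≤ u := hr.2.trans (by linarith [min_le_right δ (u - bD k)])
    obtain ⟨hrT, hXr⟩ := hfol r ⟨hr.1, hr1⟩
    have hlr : ¬ InG Sp bD A r l := fun h' => hln ((hsub ⟨hr.1, hr2⟩).1 h')
    have h3 := H.exit k hkA r h hrT l hl hkl.symm hg.2.1
    obtain ⟨-, -, -, hd'⟩ := hg
    rw [XG_of_inG (hk.mono hr.1), hXr, XG_of_not hlr, H.eq k l hl] at hd'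
    exact absurd hd' (not_le.2 h3)

theorem gh2_CG {s : ℝ} {k l : J} (hkl : k ≠ l) (hsT : s < M.T)
    (hC : CG M Z Sp bD A XD s k l) :
    (∃ m, m ≠ k ∧ m ≠ l ∧ (CG M Z Sp bD A XD s k m ∨ CG M Z Sp bD A XD s l m)) ∨
      ∃ δ > 0, ∀ r ∈ Icc s (s + δ), Geo M (XG M Z Sp bD A XD) r k l → CG M Z Sp bD A XD r k l := by
  by_cases hR : RG Sp bD A s k l
  · -- the pair keeps seeing each other
    right
    have hev := eventually_RcG (Sp := Sp) (bD := bD) (A := A) s k l (fun h => H.nonempty h)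
    obtain ⟨u, hu, hsub⟩ := (mem_nhdsGT_iff_exists_Ioo_subset' hsT).1 hev
    have hu' : s < u := hu
    refine ⟨(u - s) / 2, by linarith, fun r hr hg => ?_⟩
    rcases hr.1.eq_or_lt with h | h
    · subst h
      exact hC
    · exact ⟨hC.1, hC.2.1, (hsub ⟨h, by linarith [hr.2]⟩).2 hR, hg⟩
  · rcases hC.2.2.1 with h | h
    · exact absurd (Or.inl h) hR
    · by_cases hk : InG Sp bD A s k
      · have hl : ¬ InG Sp bD A s l := fun h' => hR (Or.inl ⟨hk, h'⟩)
        rcases H.gh2_aux hΦ hε hkl hsT h.1 (h.2.1 hk.1) hC hk hl with ⟨m, h1, h2, h3⟩ | h'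
        · exact Or.inl ⟨m, h1, h2, Or.inl h3⟩
        · exact Or.inr h'
      · by_cases hl : InG Sp bD A s l
        · rcases H.gh2_aux hΦ hε hkl.symm hsT (H.symm_mem h.1) (h.2.2 hl.1) (H.cG_symm hC) hl hk
            with ⟨m, h1, h2, h3⟩ | ⟨δ, hδ, h'⟩
          · exact Or.inl ⟨m, h2, h1, Or.inr h3⟩
          · refine Or.inr ⟨δ, hδ, fun r hr hg => H.cG_symm (h' r hr ?_)⟩
            obtain ⟨g1, g2, g3, g4⟩ := hg
            exact ⟨g2, g1, g3.symm, by rwa [dist_comm]⟩
        · exact absurd (Or.inr ⟨hk, hl, h.1⟩) hR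

/-- **The glued world is a real pseudo-world over `M`.** -/
theorem rw (hT : 0 ≤ M.T) : RW M Z (XG M Z Sp bD A XD) (CG M Z Sp bD A XD) where
  symm s j k h := H.cG_symm h
  closed j k hjk := H.closed_CG hΦ hε j k hjk
  cont k := H.cont_XG hΦ hε k
  init k := H.init_XG hT k
  geo s k l _ h := ⟨h.1, h.2.1, h.2.2.2⟩
  loc G V a b hGV ha hab hb hok hiso hng hV h0 := by
    classical
    intro s hs k hk
    by_cases hko : M.o = some k
    · have hkA : k ∉ A := fun h => H.obsA k h hko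
      rw [XG_of_not fun h => hkA h.1, st_obstacle M hko, st_obstacle M hko]
    have hX := (H.iworld hΦ hε).mono ha hb
    refine LNInst491.loc hΦ hε hX (R := RG Sp bD A) (Rc := RcG Sp bD A)
      (fun t _ i j _ => eventually_RcG t i j fun h => H.nonempty h)
      (G := G.filter fun k => M.o ≠ some k) (fun k hk => (Finset.mem_filter.1 hk).2)
      (fun s hs k hk l hl hal hRc => ?_) (fun s hs k hk l hl hkl hal hRc => ?_)
      (V := V) (fun k hk => hGV (Finset.mem_filter.1 hk).1) hok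
      (fun s hs k hk l hl hlG hlo hal => ?_)
      (fun k hk => h0 k (Finset.mem_filter.1 hk).1) s hs k (Finset.mem_filter.2 ⟨hk, hko⟩)
    · have hlo : M.o ≠ some l := H.ne_obs_of_rcG hRc
      have hlG : l ∉ G := fun h => hl (Finset.mem_filter.2 ⟨h, hlo⟩)
      have hk' := Finset.mem_filter.1 hk
      by_contra hcon
      exact hiso s hs k hk'.1 l hlG ⟨hk'.2, hlo, hRc, hal.1, hal.2.1, hal.2.2, not_lt.1 hcon⟩
    · have hk' := Finset.mem_filter.1 hk
      have hl' := Finset.mem_filter.1 hl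
      by_contra hcon
      exact hRc (hng s hs k hk'.1 l hl'.1 hkl hk'.2 hl'.2
        ⟨hal.1, hal.2.1, hal.2.2, not_lt.1 hcon⟩).2.2.1
    · have hk' := Finset.mem_filter.1 hk
      have hlG' : l ∉ G := fun h => hlG (Finset.mem_filter.2 ⟨h, hlo⟩)
      by_contra hcon
      exact hV s hs k hk'.1 l hlG' ⟨hGV hk'.1, hl, hk'.2, hlo, hal.1, hal.2.1, hal.2.2,
        not_lt.1 hcon⟩
  gh1 s k l r hkl hok hol h0 hsr hr hg hno hC := H.gh1_CG hΦ hε hkl hok hol h0 hsr hr hg hno hC
  gh2 s k l hkl _ hsT hC := H.gh2_CG hΦ hε hkl hsT hC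

end

end GD

/-! ### Plain worlds -/



/-- Contacts of the gas (present particles, exits after their hand-over). -/
theorem cG_iff_of_inG (H : GD M Z Sp bD A XD) {t : ℝ} {i j : J} (hi : InG Sp bD A t i)
    (hj : InG Sp bD A t j) :
    CG M Z Sp bD A XD t i j ↔ M.bb i ≤ t ∧ M.bb j ≤ t ∧ (M.bb i < t ∨ M.bb j < t) ∧
      dist (XD t i).1 (XD t j).1 ≤ M.ε := by
  constructor
  · rintro ⟨-, -, -, h1, h2, h3, h4⟩
    rw [XG_of_inG hi, XG_of_inG hj] at h4
    exact ⟨h1, h2, h3, h4⟩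
  · rintro ⟨h1, h2, h3, h4⟩
    refine ⟨H.obsA i hi.1, H.obsA j hj.1, Or.inl ⟨hi, hj⟩, h1, h2, h3, ?_⟩
    rw [XG_of_inG hi, XG_of_inG hj]
    exact h4

/-- Who is seen by a gas particle which is not a member of a part: the gas. -/
theorem inG_of_cG_gas {t : ℝ} {i j : J} (hi : Sp i = ∅) (h : CG M Z Sp bD A XD t i j) :
    InG Sp bD A t i ∧ InG Sp bD A t j := by
  rcases h.2.2.1 with h' | h'
  · exact h'
  · rw [hi] at h'
    exact absurd h'.1 (Finset.notMem_empty j)


end Crest.Agent.R122.PWGlue491
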