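import Crest.Agent.R122.BadPos_726
import Crest.Agent.R122.PWGlue_491
import Crest.Agent.R122.LNTreeB_410
import Crest.Agent.R122.LNPart_424
import Crest.Agent.R122.BHFin_167

-- ▼ part R122/DetHit_726
section

/-!
# Row 122, BadHit, deterministic half (helper726)

The glued world of helper491 is a world `GWorld` on every set of gas labels (`gworld_GD`); hence the
strict real past of a gas label, consisting of gas labels only, is reproduced by its isolated world,
or it is a bad configuration with the real position of the root (`agr_or_badPos`), and the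
alternative `BadHit` of helper304 yields `BadPos` (`badPos_of_badHit`).
-/

set_option autoImplicit false
set_option linter.unusedSectionVars false

open MeasureTheory Set Filter Topology
open scoped NNReal ENNReal
open Crest.AnalysisR.Kinetic
open Crest.Agent.R122.Flow671 Crest.Agent.R122.Loc45 Crest.Agent.R122.Ins45
open Crest.Agent.R122.VL581 Crest.Agent.R122.VL581.VSys Crest.Agent.R122.VLInst442
open Crest.Agent.R122.LNInst491 Crest.Agent.R122.LN304 Crest.Agent.R122.LNg410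
open Crest.Agent.R122.Kin796 Crest.Agent.R122.Kin796.CTree Crest.Agent.R122.Tree674
open Crest.Agent.R122.PathFlow968 Crest.Agent.R122.Causal291
open Crest.Agent.R122.LNTree410 Crest.Agent.R122.PWGlue491
open scoped Classical

noncomputable section

namespace Crest.Agent.R122.Chain726

/-! ### Local worlds without births are flows -/

section lworld

variable {Φ : Space3 → ℝ} {ε : ℝ} {ι : Type*} [Fintype ι] {b : ι → ℝ} {a T : ℝ}
  {X : ℝ → ι → PhasePoint}

theorem lworld_eq_flow (hΦ : AdmissiblePotential Φ) (hε : 0 < ε) (hX : LWorld Φ ε b a T X)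
    (hb : ∀ i, b i ≤ a) {t : ℝ} (ht : t ∈ Icc a T) : X t = flow Φ ε (t - a) (X a) := by
  have h1 := hX.eq_flowA hΦ hε le_rfl ht.1 ht.2 (fun i hi => absurd (hb i) (not_le.2 hi))
  have h2 : alive b a = Finset.univ := by
    ext i
    simp [mem_alive, hb i]
  rw [h1, h2, flowA_univ hΦ hε]

/-- At the end of the time interval the alive particles are at different places, too. -/
theorem lworld_ne_end (hΦ : AdmissiblePotential Φ) (hε : 0 < ε) (hX : LWorld Φ ε b a T X)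
    (haT : a < T) : ContDiff ℝ 2 Φ ∨ ∀ i j, i ≠ j → b i ≤ a → b j ≤ a → (X T i).1 ≠ (X T j).1 := by
  by_cases hC : ContDiff ℝ 2 Φ
  · exact Or.inl hC
  right
  intro i j hij hi hj
  -- the last birth before `T`
  obtain ⟨s, hs, hsT, has⟩ : ∃ s, a ≤ s ∧ s < T ∧ ∀ k, s < b k → T ≤ b k := by
    have h1 : ∀ᶠ s in 𝓝[<] T, ∀ k : ι, s < b k → T ≤ b k := by
      rw [Filter.eventually_all]
      intro k
      by_cases hk : T ≤ b k
      · exact Filter.Eventually.of_forall fun _ _ => hk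
      · filter_upwards [Ioo_mem_nhdsLT (not_le.1 hk)] with s hs h
        exact absurd h (not_lt.2 hs.1.le)
    obtain ⟨s, hs, hs'⟩ := (h1.and (Ioo_mem_nhdsLT haT)).exists
    exact ⟨s, hs'.1.le, hs'.2, hs⟩
  have h1 := hX.eq_flowA hΦ hε hs hsT.le le_rfl has
  have h2 : (fun k : alive b s => X s k) ∈ Dom Φ (alive b s) := (hX.dom s ⟨hs, hsT⟩).dom
  have h3 := (flow_mem hΦ hε h2 (T - s)).resolve_left hC
  have hi' : i ∈ alive b s := mem_alive.2 (hi.trans hs)
  have hj' : j ∈ alive b s := mem_alive.2 (hj.trans hs)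
  rw [h1, flowA_mem _ _ _ hi', flowA_mem _ _ _ hj']
  exact h3 ⟨i, hi'⟩ ⟨j, hj'⟩ fun h => hij (congrArg Subtype.val h)

end lworld

/-! ### The exploration does not see contacts outside the time interval and self-contacts -/

section past

variable {J : Type} {C : ℝ → J → J → Prop} {T : ℝ}

/-- Contacts at times in `[0, T]`, closed under self-contacts. -/
def CI (C : ℝ → J → J → Prop) (T : ℝ) (s : ℝ) (j k : J) : Prop := (s ∈ Icc 0 T ∧ C s j k) ∨ j = k

theorem past_CI {r : ℝ} (hr : r ≤ T) {i k : J} {s : ℝ} (hs : 0 ≤ s) :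
    Past (CI C T) r i s k ↔ Past C r i s k := by
  constructor
  · intro h
    induction h with
    | root h => exact .root h
    | @step s s' j k h hc hs' ih =>
      have ih' := ih (hs.trans hs')
      rcases hc with hc | rfl
      · exact .step ih' hc.2 hs'
      · exact ih'.mono hs'
  · intro h
    induction h with
    | root h => exact .root h
    | @step s s' j k h hc hs' ih =>
      exact .step (ih (hs.trans hs')) (Or.inl ⟨⟨hs.trans hs', h.le.trans hr⟩, hc⟩) hs'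

theorem pre_CI {v : ℝ} (hv : v ≤ T) {i k : J} {s : ℝ} (hs : 0 ≤ s) :
    k ∈ Inf879.pre (CI C T) i v s ↔ k ∈ Inf879.pre C i v s :=
  ⟨fun ⟨r, hr, h⟩ => ⟨r, hr, (past_CI (hr.2.le.trans hv) hs).1 h⟩,
    fun ⟨r, hr, h⟩ => ⟨r, hr, (past_CI (hr.2.le.trans hv) hs).2 h⟩⟩

end past

/-! ### The glued world on gas labels -/

section glued

variable {J κ : Type} [Fintype J] {M : VSys J κ} {Z : J → PhasePoint} {Sp : J → Finset J}
  {bD : J → ℝ} {A : Finset J} {XD : ℝ → J → PhasePoint}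

theorem inG_gas {s : ℝ} {k : J} (hk : k ∈ A) (hS : Sp k = ∅) : InG Sp bD A s k :=
  ⟨hk, fun h => absurd hS h.ne_empty⟩

/-- **The glued world on a set of gas labels.** -/
theorem gworld_GD (hΦ : AdmissiblePotential M.Φ) (hε : 0 < M.ε) (H : GD M Z Sp bD A XD)
    (hT : 0 ≤ M.T) {G : Set J} (hG : ∀ k ∈ G, k ∈ A ∧ Sp k = ∅ ∧ M.bb k = 0)
    (hsep : ∀ j ∈ G, ∀ k ∈ G, j ≠ k → M.ε < dist (Z j).1 (Z k).1) :
    GWorld M.Φ M.ε M.T (XG M Z Sp bD A XD) (CI (CG M Z Sp bD A XD) M.T) G where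
  closed j k := by
    by_cases h : j = k
    · have h1 : {s | CI (CG M Z Sp bD A XD) M.T s j k} = univ := by
        ext s
        simp [CI, h]
      rw [h1]
      exact isClosed_univ
    · have h1 : {s | CI (CG M Z Sp bD A XD) M.T s j k} =
          {s | s ∈ Icc 0 M.T ∧ CG M Z Sp bD A XD s j k} := by
        ext s
        simp [CI, h]
      rw [h1]
      exact (H.rw hΦ hε hT).closed j k h
  symm s j k h := h.imp (fun h => ⟨h.1, (H.rw hΦ hε hT).symm s j k h.2⟩) Eq.symm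
  ct s hs j hj k hk := by
    by_cases h : j = k
    · subst h
      rw [dist_self]
      exact ⟨fun _ => hε.le, fun _ => Or.inr rfl⟩
    have hj' := hG j hj
    have hk' := hG k hk
    have hcg := cG_iff_of_inG H (inG_gas (bD := bD) (s := s) hj'.1 hj'.2.1)
      (inG_gas (bD := bD) (s := s) hk'.1 hk'.2.1)
    rw [XG_of_inG (inG_gas hj'.1 hj'.2.1), XG_of_inG (inG_gas hk'.1 hk'.2.1)]
    rw [hj'.2.2, hk'.2.2] at hcg
    constructor
    · rintro (h1 | h1)
      · exact (hcg.1 h1.2).2.2.2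
      · exact absurd h1 h
    · intro h1
      rcases hs.1.eq_or_lt with h2 | h2
      · subst h2
        rw [H.gas0 j hj'.1 hj'.2.1, H.gas0 k hk'.1 hk'.2.1] at h1
        exact absurd h1 (not_le.2 (hsep j hj k hk h))
      · exact Or.inl ⟨hs, hcg.2 ⟨hs.1, hs.1, Or.inl h2, h1⟩⟩
  dom s hs ι _ e he := by
    by_cases hC : ContDiff ℝ 2 M.Φ
    · exact Or.inl hC
    refine Or.inr fun i j hij => ?_
    have hne : e i ≠ e j := fun h => hij (e.injective h)
    have hi := hG (e i) (he ⟨i, rfl⟩)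
    have hj := hG (e j) (he ⟨j, rfl⟩)
    show (XG M Z Sp bD A XD s (e i)).1 ≠ (XG M Z Sp bD A XD s (e j)).1
    rcases hs.2.eq_or_lt with h | h
    · subst h
      rcases hs.1.eq_or_lt with h0 | h0
      · rw [← h0, XG_of_inG (inG_gas hi.1 hi.2.1), XG_of_inG (inG_gas hj.1 hj.2.1),
          H.gas0 _ hi.1 hi.2.1, H.gas0 _ hj.1 hj.2.1]
        intro h'
        have h1 := hsep _ (he ⟨i, rfl⟩) _ (he ⟨j, rfl⟩) hne
        rw [h', dist_self] at h1
        exact absurd h1 (not_lt.2 hε.le)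
      · rw [XG_of_inG (inG_gas hi.1 hi.2.1), XG_of_inG (inG_gas hj.1 hj.2.1)]
        refine (lworld_ne_end hΦ hε H.world h0).resolve_left hC ⟨e i, hi.1⟩ ⟨e j, hj.1⟩
          (fun h' => hne (congrArg Subtype.val h')) ?_ ?_
        · exact (H.gasb _ hi.1 hi.2.1).trans_le hi.2.2.le
        · exact (H.gasb _ hj.1 hj.2.1).trans_le hj.2.2.le
    · exact ((H.iworld hΦ hε).dom s ⟨hs.1, h⟩).resolve_left hC (e i) (e j) hne
        ⟨⟨hi.2.2.trans_le hs.1, hj.2.2.trans_le hs.1⟩,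
          Or.inl ⟨inG_gas hi.1 hi.2.1, inG_gas hj.1 hj.2.1⟩⟩
  iso ι _ e he a b ha hab hbT hiso := by
    have hg : ∀ k, e k ∈ A ∧ Sp (e k) = ∅ ∧ M.bb (e k) = 0 := fun k => hG _ (he ⟨k, rfl⟩)
    have h1 := ((H.iworld hΦ hε).mono ha hbT).to_lworld hΦ hε e (c := fun _ => 0)
      (fun t ht k l _ h => ⟨ha.trans ht.1, ha.trans ht.1⟩)
      (fun t ht k l _ hk hl h => absurd ⟨⟨(hg k).2.2.trans_le hk, (hg l).2.2.trans_le hl⟩,
        Or.inl ⟨inG_gas (hg k).1 (hg k).2.1, inG_gas (hg l).1 (hg l).2.1⟩⟩ h)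
      (fun t ht k j hj h => ?_)
    · intro s hs
      exact lworld_eq_flow hΦ hε h1 (fun _ => ha) hs
    · have ht0 : 0 ≤ t := ha.trans ht.1
      have hkG : InG Sp bD A t (e k) := inG_gas (hg k).1 (hg k).2.1
      have hjG : InG Sp bD A t j := by
        rcases h.2 with h' | h'
        · exact h'.2
        · exact absurd hkG h'.1
      have hkj : e k ≠ j := hj k
      have hjr : j ∉ range e := fun ⟨l, hl⟩ => hj l hl
      have hsub : Icc t M.T ⊆ Icc 0 M.T := Icc_subset_Icc ht0 le_rfl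
      have htT : t < M.T := ht.2.trans_le hbT
      refine le_dist_of_frequently htT (x := fun s => (XG M Z Sp bD A XD s (e k)).1)
        (y := fun s => (XG M Z Sp bD A XD s j).1)
        ((H.cont_XG hΦ hε (e k) t ⟨ht0, htT.le⟩).mono hsub).fst
        ((H.cont_XG hΦ hε j t ⟨ht0, htT.le⟩).mono hsub).fst ?_
      refine Filter.Eventually.frequently ?_
      filter_upwards [Ioo_mem_nhdsGT ht.2] with s hs
      by_contra hcon
      have hsI : s ∈ Icc 0 M.T := ⟨ht0.trans hs.1.le, hs.2.le.trans hbT⟩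
      refine hiso s ⟨ht.1.trans_lt hs.1, hs.2⟩ k j hjr (Or.inl ⟨hsI, ?_⟩)
      refine (cG_iff_of_inG H (hkG.mono hs.1.le) (hjG.mono hs.1.le)).2
        ⟨h.1.1.trans hs.1.le, h.1.2.trans hs.1.le, Or.inl ?_, ?_⟩
      · rw [(hg k).2.2]
        exact ht0.trans_lt hs.1
      · rw [← XG_of_inG (M := M) (Z := Z) (XD := XD) (hkG.mono hs.1.le),
          ← XG_of_inG (M := M) (Z := Z) (XD := XD) (hjG.mono hs.1.le)]
        exact (not_le.1 hcon).le

/-- Everybody in the past of a gas label, if the past consists of gas labels only, is a particle of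
the derived world. -/
theorem mem_of_preF {k : J} {v : ℝ} (hk : k ∈ A)
    (hgas : ∀ x ∈ preF (CG M Z Sp bD A XD) k v, Sp x = ∅) :
    ∀ x ∈ preF (CG M Z Sp bD A XD) k v, x ∈ A := by
  intro x hx
  obtain ⟨r, hr, hp⟩ := (Finset.mem_filter.1 hx).2
  cases hp with
  | root _ => exact hk
  | @step _ s' j _ h hc hs =>
    have hj : j ∈ preF (CG M Z Sp bD A XD) k v :=
      Finset.mem_filter.2 ⟨Finset.mem_univ _, r, hr, h.mono hs⟩
    exact (inG_of_cG_gas (hgas j hj) hc).2.1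

/-- **Alternative**: the strict real past of a gas label, consisting of gas labels only, is
reproduced by its isolated world, or its configuration is bad, with the real position of the
label. -/
theorem agr_or_badPos (hΦ : AdmissiblePotential M.Φ) (hε : 0 < M.ε) (H : GD M Z Sp bD A XD)
    {k : J} {v te T₁ : ℝ} (hv : v ∈ Ioc 0 M.T) (hte : M.T ≤ te) (hT₁ : te < T₁) (hk : k ∈ A)
    (hgas : ∀ x ∈ preF (CG M Z Sp bD A XD) k v, Sp x = ∅ ∧ M.b x ≤ 0)
    (hsep : ∀ x ∈ preF (CG M Z Sp bD A XD) k v, ∀ y ∈ preF (CG M Z Sp bD A XD) k v, x ≠ y →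
      M.ε < dist (Z x).1 (Z y).1) :
    Agr M Z (XG M Z Sp bD A XD) (CG M Z Sp bD A XD) k v ∨
    ∀ (ι : Type) [Fintype ι] (e : ι ↪ J) (i : ι),
      (∀ x, x ∈ preF (CG M Z Sp bD A XD) k v ↔ x ∈ range e) → e i = k →
      BadPos M.Φ M.ε T₁ te (fun x => Z (e x)) i v (XG M Z Sp bD A XD v k).1 := by
  by_contra hcon
  push Not at hcon
  obtain ⟨hnot, ι, hι, e, i, hr, hi, hbad⟩ := hcon
  refine hnot ?_
  have hT : 0 ≤ M.T := hv.1.le.trans hv.2
  have hA := mem_of_preF hk fun x hx => (hgas x hx).1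
  have hbb : ∀ x ∈ preF (CG M Z Sp bD A XD) k v, M.bb x = 0 := fun x hx =>
    max_eq_right (hgas x hx).2
  have hw : GWorld M.Φ M.ε M.T (XG M Z Sp bD A XD) (CI (CG M Z Sp bD A XD) M.T)
      {x | x ∈ preF (CG M Z Sp bD A XD) k v} :=
    gworld_GD hΦ hε H hT (fun x hx => ⟨hA x hx, (hgas x hx).1, hbb x hx⟩) hsep
  have hpre : ∀ s, 0 ≤ s → ∀ x, x ∈ Inf879.pre (CI (CG M Z Sp bD A XD) M.T) (e i) v s ↔
      x ∈ Inf879.pre (CG M Z Sp bD A XD) k v s := by
    intro s hs x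
    rw [hi]
    exact pre_CI hv.2 hs
  have hX0 : ∀ x, XG M Z Sp bD A XD 0 (e x) = Z (e x) := fun x => (H.rw hΦ hε hT).init _
  rcases det_pre_pos hΦ hε hw (te := te) (T := T₁) ⟨hv.1, hv.2.trans hte⟩ hv.2 hT₁
    (e := e) (i := i) (by rintro _ ⟨x, rfl⟩; exact (hr _).2 ⟨x, rfl⟩)
    (fun x => by
      rw [hpre 0 le_rfl, ← hr]
      simp [preF]) with h | h
  swap
  · exfalso
    apply hbad
    simp only [hX0] at h
    rw [hi] at h
    exact h
  obtain ⟨Q, f, ℓ, p, h⟩ := h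
  -- the tree as a part of the virtual system
  have htree : TreeIn M Z T₁ Q ℓ p (f.toEmbedding.trans e) := by
    refine ⟨fun x => (hgas _ ((hr _).2 ⟨f x, rfl⟩)).2, fun x => ?_, fun x => ?_, h.valid, h.sep⟩
    · rw [← h.lines x]
      exact (hX0 _).symm
    · exact H.obsA _ (hA _ ((hr _).2 ⟨f x, rfl⟩))
  have hpart : part (f.toEmbedding.trans e) = preF (CG M Z Sp bD A XD) k v := by
    ext x
    rw [mem_part, hr]
    constructor
    · rintro ⟨y, rfl⟩
      exact ⟨f y, rfl⟩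
    · rintro ⟨y, rfl⟩
      exact ⟨f.symm y, by simp⟩
  intro s hs x hx
  obtain ⟨y, rfl, hy⟩ := (h.past s hs.1 hs.2 x).1 ((hpre s hs.1 x).2 hx)
  rw [h.agree y s hs.1 hs.2.le hy, ← hpart]
  refine (htree.st_tree hΦ hε ⟨hs.1, ?_⟩ y).symm
  exact (hs.2.le.trans (hv.2.trans (hte.trans hT₁.le)))

/-- **(D)** The alternative `BadHit` of the glued world yields a bad gas cluster whose root, at its
real position, hits the structure. -/
theorem badPos_of_badHit (hΦ : AdmissiblePotential M.Φ) (hε : 0 < M.ε) (H : GD M Z Sp bD A XD)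
    {c te T₁ : ℝ} {Λ : Finset (Finset J)} {N : ℕ} (hte : M.T ≤ te) (hT₁ : te < T₁)
    (hP : Parts M c Z Λ) (hSp : ∀ x, (Sp x).Nonempty → x ∈ uni Λ)
    (h : BadHit M c Z (XG M Z Sp bD A XD) (CG M Z Sp bD A XD) Λ N) :
    ∃ (G A' : Finset J) (j k : J) (v : ℝ), M.Conn c G Z ∧ (∃ π ∈ Λ, π ⊆ G) ∧
      (G ∪ uni Λ).card ≤ N ∧ A' ⊆ G ∧ j ∈ A' ∧ M.ok A' v Z ∧ v ∈ Ioc 0 M.T ∧
      (preF (CG M Z Sp bD A XD) k v).card ≤ N ∧ Disjoint (preF (CG M Z Sp bD A XD) k v) G ∧
      Disjoint (preF (CG M Z Sp bD A XD) k v) (uni Λ) ∧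
      dist (M.st A' v Z j).1 (XG M Z Sp bD A XD v k).1 ≤ M.ε ∧
      k ∈ preF (CG M Z Sp bD A XD) k v ∧
      ∀ (ι : Type) [Fintype ι] (e : ι ↪ J) (i : ι),
        (∀ x, x ∈ preF (CG M Z Sp bD A XD) k v ↔ x ∈ range e) → e i = k →
        BadPos M.Φ M.ε T₁ te (fun x => Z (e x)) i v (XG M Z Sp bD A XD v k).1 := by
  obtain ⟨G, A', j, k, v, h1, h2, h3, h4, h5, h6, h7, h8, h9, h10, h11, h12, h13, h14⟩ := h
  have hkV : k ∈ preF (CG M Z Sp bD A XD) k v :=
    Finset.mem_filter.2 ⟨Finset.mem_univ _, Inf879.mem_pre_self h7.1⟩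
  have hnot : ∀ x ∈ preF (CG M Z Sp bD A XD) k v, x ∉ uni Λ := fun x hx hx' =>
    Finset.disjoint_left.1 h10 hx hx'
  have hgas : ∀ x ∈ preF (CG M Z Sp bD A XD) k v, Sp x = ∅ := by
    intro x hx
    by_contra hne
    exact hnot x hx (hSp x (Finset.nonempty_iff_ne_empty.2 hne))
  have hpi : ∀ x ∈ preF (CG M Z Sp bD A XD) k v, ∀ π ∈ Λ, x ∉ π := by
    intro x hx π hπ hxπ
    exact hnot x hx (Finset.mem_filter.2 ⟨Finset.mem_univ _, π, hπ, hxπ⟩)
  have hkA : k ∈ A := (inG_of_cG_gas (hgas k hkV) ((H.cG_symm h11))).1.1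
  refine ⟨G, A', j, k, v, h1, h2, h3, h4, h5, h6, h7, h8, h9, h10, h13, hkV, ?_⟩
  refine (agr_or_badPos hΦ hε H h7 hte hT₁ hkA
    (fun x hx => ⟨hgas x hx, hP.gas_b x (hpi x hx)⟩)
    (fun x hx y hy hxy => hP.gas_sep x y (hpi x hx) (hpi y hy) hxy)).resolve_left h14

end glued

end Crest.Agent.R122.Chain726

end
end

-- ▼ part R122/BHPull_726

/-!
# Row 122, BadHit, pull-back to a sub-gas (helper726)

`badHitGas_of_badHit` : the alternative `BadHit` (helper304) of a glued world (helper491) over the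
gas and a structure gives `BH167.BadHitGas` (helper167) for the predicate `BH167.bpos`.
-/

set_option autoImplicit false
set_option linter.unusedSectionVars false

open MeasureTheory Set Filter Topology
open Crest.AnalysisR.Kinetic
open Crest.Agent.R122.VL581 Crest.Agent.R122.VL581.VSys Crest.Agent.R122.VLMeas973
open Crest.Agent.R122.LN304 Crest.Agent.R122.LNg410 Crest.Agent.R122.LNBridge968
open Crest.Agent.R122.LNPart424 Crest.Agent.R122.PWGlue491 Crest.Agent.R122.BH167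
open scoped Classical ENNReal

noncomputable section

namespace Crest.Agent.R122.Chain726

/-- A finite family of disjoint nonempty sets in the range of `e` which covers the range gives a
partition of the labels. -/
theorem exists_finpartition {J' J : Type} [Fintype J'] (e : J' ↪ J) (Fs : Finset (Finset J))
    (hd : ∀ P ∈ Fs, ∀ P' ∈ Fs, P ≠ P' → Disjoint P P') (hc : ∀ y, ∃ P ∈ Fs, e y ∈ P)
    (hr : ∀ P ∈ Fs, ∀ x ∈ P, ∃ y, e y = x) (hn : ∀ P ∈ Fs, P.Nonempty) :
    ∃ π : Finpartition (Finset.univ : Finset J'), (∀ P', P' ∈ π.parts ↔ P'.map e ∈ Fs) ∧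
      π.parts.card = Fs.card ∧ ∀ P ∈ Fs, ∃ P' ∈ π.parts, P'.map e = P := by
  have hpre : ∀ P ∈ Fs, (P.preimage e e.injective.injOn).map e = P := by
    intro P hP
    ext x
    rw [Finset.mem_map]
    constructor
    · rintro ⟨y, hy, rfl⟩
      exact Finset.mem_preimage.1 hy
    · intro hx
      obtain ⟨y, rfl⟩ := hr P hP x hx
      exact ⟨y, Finset.mem_preimage.2 hx, rfl⟩
  set Qs : Finset (Finset J') := Fs.image fun P => P.preimage e e.injective.injOn with hQs
  have hmem : ∀ P', P' ∈ Qs ↔ P'.map e ∈ Fs := by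
    intro P'
    rw [hQs, Finset.mem_image]
    constructor
    · rintro ⟨P, hP, rfl⟩
      rw [hpre P hP]
      exact hP
    · intro h
      refine ⟨_, h, ?_⟩
      apply Finset.map_injective e
      rw [hpre _ h]
  have hcards : Qs.card = Fs.card := by
    have h7 : Qs.map ⟨Finset.map e, Finset.map_injective e⟩ = Fs := by
      ext P
      simp only [Finset.mem_map, Function.Embedding.coeFn_mk]
      constructor
      · rintro ⟨P', hP', rfl⟩
        exact (hmem _).1 hP'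
      · intro hP
        exact ⟨_, (hmem _).2 (by rw [hpre P hP]; exact hP), hpre P hP⟩
    rw [← h7, Finset.card_map]
  refine ⟨⟨Qs, ?_, ?_, ?_⟩, hmem, hcards, fun P hP => ⟨_, (hmem _).2 (by rw [hpre P hP]; exact hP),
    hpre P hP⟩⟩
  · rw [Finset.supIndep_iff_pairwiseDisjoint]
    intro P hP P' hP' hne
    have h4 := hd _ ((hmem P).1 hP) _ ((hmem P').1 hP') fun h => hne (Finset.map_injective e h)
    show Disjoint P P'
    rwa [Finset.disjoint_map] at h4
  · ext x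
    simp only [Finset.mem_univ, iff_true]
    rw [Finset.mem_sup]
    obtain ⟨P, hP, hx⟩ := hc x
    exact ⟨P.preimage e e.injective.injOn, (hmem _).2 (by rw [hpre P hP]; exact hP),
      Finset.mem_preimage.2 hx⟩
  · rw [Finset.bot_eq_empty]
    intro h
    have h5 := hn _ ((hmem _).1 h)
    rw [Finset.map_empty] at h5
    exact absurd h5 Finset.not_nonempty_empty

section gas

variable {Φ : Space3 → ℝ} {t T te T₁ ε c : ℝ} {S : Type} [Fintype S] {n : ℕ} {b : S → ℝ}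
  {z : S → PhasePoint} {w : Config n}

/-- The embedding of a set of gas labels. -/
theorem exists_embV (V : Finset (Fin n ⊕ S)) (hV : ∀ y : S, Sum.inr y ∉ V) :
    ∃ f : Fin V.card ↪ Fin n, ∀ x, x ∈ V ↔ x ∈ range (f.trans ⟨Sum.inl, Sum.inl_injective⟩) := by
  set A : Finset (Fin n) := Finset.univ.filter fun i => Sum.inl i ∈ V with hA
  have hAV : A.map ⟨Sum.inl, Sum.inl_injective⟩ = V := by
    ext x
    rw [Finset.mem_map]
    constructor
    · rintro ⟨i, hi, rfl⟩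
      exact (Finset.mem_filter.1 hi).2
    · intro hx
      rcases x with i | y
      · exact ⟨i, Finset.mem_filter.2 ⟨Finset.mem_univ _, hx⟩, rfl⟩
      · exact absurd hx (hV y)
  have hcard : A.card = V.card := by rw [← hAV, Finset.card_map]
  refine ⟨(A.orderEmbOfFin hcard).toEmbedding, fun x => ?_⟩
  constructor
  · intro hx
    rw [← hAV, Finset.mem_map] at hx
    obtain ⟨i, hi, rfl⟩ := hx
    have h1 : i ∈ Set.range (A.orderEmbOfFin hcard) := by
      rw [Finset.range_orderEmbOfFin]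
      exact hi
    obtain ⟨j, hj⟩ := h1
    exact ⟨j, by simp [hj]⟩
  · rintro ⟨j, rfl⟩
    exact (Finset.mem_filter.1 (A.orderEmbOfFin_mem hcard j)).2

/-- **The alternative `BadHit` of a glued world over the gas and a structure.** -/
theorem badHitGas_of_badHit (hΦ : AdmissiblePotential Φ) (hε : 0 < ε) (htT : t ≤ T) (hTe : T ≤ te)
    (hT₁ : te < T₁) {s N : ℕ} {A₀ : Finset S} {Λ : Finset (Finset (Fin n ⊕ S))}
    (hΛ : SParts s A₀ Λ) (hP : Parts (gsys Φ t ε n b) c (Sum.elim w z) Λ)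
    {Sp : Fin n ⊕ S → Finset (Fin n ⊕ S)} {bD : Fin n ⊕ S → ℝ} {A : Finset (Fin n ⊕ S)}
    {XD : ℝ → Fin n ⊕ S → PhasePoint} (H : GD (gsys Φ t ε n b) (Sum.elim w z) Sp bD A XD)
    (hSp : ∀ i : Fin n, Sp (Sum.inl i) = ∅)
    (h : BadHit (gsys Φ t ε n b) c (Sum.elim w z) (XG (gsys Φ t ε n b) (Sum.elim w z) Sp bD A XD)
      (CG (gsys Φ t ε n b) (Sum.elim w z) Sp bD A XD) Λ N) :
    BadHitGas (bpos Φ T₁ te) Φ T c 1 ε N N s A₀ b z w := by
  have hinr : ∀ y : S, (Sum.inr y : Fin n ⊕ S) ∈ uni Λ := fun y => by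
    obtain ⟨π, hπ, hy⟩ := hΛ.cov y
    exact mem_uni.2 ⟨π, hπ, hy⟩
  have hSp' : ∀ x, (Sp x).Nonempty → x ∈ uni Λ := by
    rintro (i | y) hx
    · rw [hSp i] at hx
      exact absurd hx Finset.not_nonempty_empty
    · exact hinr y
  obtain ⟨G, A', j, k, v, hG, ⟨π₀, hπ₀, hs⟩, hN, hA'G, hj, hok, hv, hVN, hVG, hVu, hd, hkV, hbad⟩ :=
    badPos_of_badHit (M := gsys Φ t ε n b) hΦ hε H (htT.trans hTe) hT₁ hP hSp' h
  obtain ⟨Fs, h1, h2, h3, ⟨G', hG', hGG'⟩, h5, -⟩ :=
    exists_parts hP.conn hΛ.disj hG hπ₀ hs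
  obtain ⟨Q₀, hQm, hN'⟩ : ∃ Q₀ : Finset (Fin n ⊕ S), (∀ x, x ∈ Q₀ ↔ x ∈ G ∨ x ∈ uni Λ) ∧
      Q₀.card ≤ N :=
    ⟨_, fun x => @Finset.mem_union _ (fun a b => Classical.propDecidable _) _ _ _, hN⟩
  obtain ⟨g, ι, e, hg, he, hQ⟩ := exists_emb Q₀ fun y => (hQm _).2 (Or.inr (hinr y))
  have hQ' : ∀ x, (∃ y, e y = x) ↔ x ∈ G ∨ x ∈ uni Λ := fun x => (hQ x).trans (hQm x)
  obtain ⟨f, hf⟩ := exists_embV (preF (CG (gsys Φ t ε n b) (Sum.elim w z) Sp bD A XD) k v)
    fun y hy => Finset.disjoint_left.1 hVu hy (hinr y)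
  obtain ⟨π, hπ1, hπ2, hπ3⟩ := exists_finpartition e Fs h1
    (fun y => (h3 _).2 ((hQ' _).1 ⟨y, rfl⟩)) (fun P hP x hx => (hQ' x).2 ((h3 x).1 ⟨P, hP, hx⟩))
    fun P hP => (h2 P hP).1.1
  have hpull := pull_gsys (Φ := Φ) (T := t) (ε := ε) b he
  have hpullT := pull_gsys (Φ := Φ) (T := T) (ε := ε) b he
  have hZe := elim_comp w z he
  refine ⟨g, hg.trans hN', ι, _, hVN, f, fun x y hxy => ?_, π, fun P hP' => ⟨?_, ?_⟩,
    hπ2.trans_le (h5.trans hΛ.card), ?_⟩
  · have h6 : (Sum.inl (ι x) : Fin n ⊕ S) ∈ G ∨ (Sum.inl (ι x) : Fin n ⊕ S) ∈ uni Λ :=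
      (hQ' _).1 ⟨Sum.inl x, by rw [he]; rfl⟩
    have h7 : (Sum.inl (ι x) : Fin n ⊕ S) ∈
        preF (CG (gsys Φ t ε n b) (Sum.elim w z) Sp bD A XD) k v :=
      (hf _).2 ⟨y, by rw [hxy]; rfl⟩
    rcases h6 with h6 | h6
    · exact Finset.disjoint_left.1 hVG h7 h6
    · exact Finset.disjoint_left.1 hVu h7 h6
  · have h6 := (hpull.conn hΦ hε).1 (h2 _ ((hπ1 P).1 hP')).1
    rw [hZe] at h6
    exact LN2.conn_of_hor (M := gsys Φ T ε g b) (t := t) htT h6
  · obtain ⟨π', hπ', hsub⟩ := (h2 _ ((hπ1 P).1 hP')).2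
    obtain ⟨y, hy, hyπ⟩ := hΛ.anch π' hπ'
    refine ⟨Sum.inr y, ?_, Finset.inr_mem_disjSum.2 hy⟩
    have h6 := hsub hyπ
    have h7 : e (Sum.inr y) = Sum.inr y := by rw [he]; rfl
    rw [← h7] at h6
    rwa [Finset.mem_map'] at h6
  · obtain ⟨P, hP', hPe⟩ := hπ3 G' hG'
    refine ⟨P, hP', ?_⟩
    -- the sub-world of the hit member
    have hA'P : A' ⊆ P.map e := by
      rw [hPe]
      exact hA'G.trans hGG'
    obtain ⟨B, hB, hBe⟩ := Finset.subset_map_iff.1 hA'P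
    rw [hBe] at hj hok hd
    obtain ⟨j', hj', rfl⟩ := Finset.mem_map.1 hj
    obtain ⟨i₀, hi₀⟩ := (hf k).1 hkV
    refine ⟨B, hB, j', hj', (), i₀, v, ⟨hv.1.le, hv.2.trans htT⟩,
      (XG (gsys Φ t ε n b) (Sum.elim w z) Sp bD A XD v k).1, ?_, ?_, ?_⟩
    · have h6 := (hpull.ok hΦ hε v).1 hok
      rw [hZe] at h6
      exact h6
    · exact hbad (Fin _) (f.trans ⟨Sum.inl, Sum.inl_injective⟩) i₀ hf hi₀
    · rw [hpull.st hΦ hε, hZe] at hd
      rw [one_mul, dist_comm]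
      exact hd

end gas

end Crest.Agent.R122.Chain726

end
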