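import Crest.Agent.R122.ChainPerm_726_Mg
import Crest.Agent.R122.ChainShift_726

/-!
# Row 122, D5 (helper726): the real position of the root of a bad cluster

`BadPos Φ ε T te V i t x` : the configuration `V` is bad (`BadCh`), and `x` is the position of the
root at time `t` in the isolated flow of the last real group.
`det_past_pos`, `det_pre_pos` : the real history is a collision tree, or `BadPos` holds with the real
position of the root.
-/

set_option autoImplicit false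
set_option linter.unusedSectionVars false

open Set Filter Topology
open Crest.AnalysisR.Kinetic
open scoped Classical

noncomputable section

namespace Crest.Agent.R122.Chain726

open Kin796 Kin796.CTree Disc416 Tree674 Flow671 Loc45 Causal291 PathFlow968 Surj968 Graft968

variable {Φ : Space3 → ℝ} {ε T te t u : ℝ}

/-- **Bad event of the last group** `A` (pull-back `W`); `x` is the position of the root at time `t`:
(a) a bad release step, `x` in the flow of the remaining (good) group; (b) a pair whose (virtual)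
release is bad, `x` in the flow of the pair; (c) a bad terminal group, `x` in its flow. -/
def BadLast (Φ : Space3 → ℝ) (ε T te : ℝ) {ι : Type*} (i : ι) (t : ℝ) {A : Finset ι}
    (W : A → PhasePoint) (x : Space3) : Prop :=
  (∃ s ∈ Icc 0 T, ∃ (A' : Finset ι) (W' : A' → PhasePoint), Step Φ ε s W W' ∧
    BadAt Φ ε T i s W W' ∧ ∃ i' : A', (i' : ι) = i ∧ x = (flow Φ ε t W' i').1) ∨
  (A.card = 2 ∧ BadStep Φ ε T i W ∧ ∃ i' : A, (i' : ι) = i ∧ x = (flow Φ ε t W i').1) ∨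
  (TermBad Φ ε T te i W ∧ ∃ i' : A, (i' : ι) = i ∧ x = (flow Φ ε t W i').1)

/-- **Bad group with root position.** -/
def BadGPos (Φ : Space3 → ℝ) (ε T te : ℝ) {ι : Type*} (i : ι) (t : ℝ) (x : Space3) (A : Finset ι)
    (W : A → PhasePoint) : Prop :=
  ∃ (A' : Finset ι) (W' : A' → PhasePoint), Chain Φ ε T A W A' W' ∧ BadLast Φ ε T te i t W' x

/-- **Bad configuration with root position.** -/
def BadPos (Φ : Space3 → ℝ) (ε T te : ℝ) {ι : Type*} [Fintype ι] (V : ι → PhasePoint) (i : ι)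
    (t : ℝ) (x : Space3) : Prop :=
  BadGPos Φ ε T te i t x Finset.univ (grp Finset.univ V)



/-! ### Covariance -/

theorem BadAt.map {ι ι' : Type*} {f : ι ≃ ι'} {A A' : Finset ι} {B B' : Finset ι'} {s : ℝ}
    {W : A → PhasePoint} {V : B → PhasePoint} {W' : A' → PhasePoint} {V' : B' → PhasePoint}
    {i : ι} (hΦ : AdmissiblePotential Φ) (hε : 0 < ε) (h : Mv f W V) (h' : Mv f W' V')
    (hb : BadAt Φ ε T i s W W') : BadAt Φ ε T (f i) s V V' := by
  rcases hb with ⟨hc, W'', hch⟩ | ⟨hc, j, m, i', hi', hj, hd, hb⟩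
  · left
    refine ⟨by rw [h.card, h'.card]; exact hc, ?_⟩
    obtain ⟨V'', -, hc'⟩ := Mv.chain hΦ hε hch h' {f i} fun k => by
      rw [Finset.mem_singleton, Finset.mem_singleton, f.injective.eq_iff]
    exact ⟨V'', hc'⟩
  · right
    have hflj : flow Φ ε s V (h.eqv j) = flow Φ ε s W j := (h.flw hΦ hε s).val_eqv j
    have hflm : flow Φ ε s V' (h'.eqv m) = flow Φ ε s W' m := (h'.flw hΦ hε s).val_eqv m
    refine ⟨by rw [h.card, h'.card]; exact hc, h.eqv j, h'.eqv m, h'.eqv i', congrArg f hi',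
      fun h1 => hj ((h'.mem _).2 h1), ?_, ?_⟩
    · rw [hflj, hflm]
      exact hd
    · rw [hflj, hflm]
      refine hb.imp id fun hb => ⟨hb.1, ?_⟩
      have h2 := hb.2
      rw [h'.eq] at h2
      exact h2.map hΦ hε h'.eqv

theorem BadLast.map {ι ι' : Type*} {f : ι ≃ ι'} {A : Finset ι} {B : Finset ι'}
    {W : A → PhasePoint} {V : B → PhasePoint} {i : ι} {x : Space3} (hΦ : AdmissiblePotential Φ)
    (hε : 0 < ε) (h : Mv f W V) (hb : BadLast Φ ε T te i t W x) :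
    BadLast Φ ε T te (f i) t V x := by
  rcases hb with ⟨s, hs, A', W', h1, h2, i', hi', rfl⟩ | ⟨hc, h1, i', hi', rfl⟩ |
    ⟨h1, i', hi', rfl⟩
  · obtain ⟨V', h'⟩ := Mv.mk' f A' W'
    have hfl : flow Φ ε t V' (h'.eqv i') = flow Φ ε t W' i' := (h'.flw hΦ hε t).val_eqv i'
    exact Or.inl ⟨s, hs, _, V', h.step hΦ hε h' h1, h2.map hΦ hε h h', h'.eqv i',
      congrArg f hi', by rw [hfl]⟩
  · have hfl : flow Φ ε t V (h.eqv i') = flow Φ ε t W i' := (h.flw hΦ hε t).val_eqv i'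
    exact Or.inr (Or.inl ⟨by rw [h.card]; exact hc, h1.map hΦ hε h, h.eqv i', congrArg f hi',
      by rw [hfl]⟩)
  · have hfl : flow Φ ε t V (h.eqv i') = flow Φ ε t W i' := (h.flw hΦ hε t).val_eqv i'
    exact Or.inr (Or.inr ⟨h1.map hΦ hε h, h.eqv i', congrArg f hi', by rw [hfl]⟩)

theorem BadGPos.map {ι ι' : Type*} {f : ι ≃ ι'} {A : Finset ι} {B : Finset ι'}
    {W : A → PhasePoint} {V : B → PhasePoint} {i : ι} {x : Space3} (hΦ : AdmissiblePotential Φ)
    (hε : 0 < ε) (h : Mv f W V) (hb : BadGPos Φ ε T te i t x A W) :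
    BadGPos Φ ε T te (f i) t x B V := by
  obtain ⟨A', W', hc, hb⟩ := hb
  obtain ⟨V', h', hc'⟩ := Mv.chain hΦ hε hc h (A'.map f.toEmbedding) fun k => by simp
  exact ⟨_, V', hc', hb.map hΦ hε h'⟩


theorem BadAt.shift {ι : Type*} {A A' : Finset ι} {s : ℝ} {W : A → PhasePoint}
    {W' : A' → PhasePoint} {i : ι} (hΦ : AdmissiblePotential Φ) (hε : 0 < ε) (a : Space3)
    (h : BadAt Φ ε T i s W W') : BadAt Φ ε T i s (shiftX a W) (shiftX a W') := by
  rcases h with ⟨hc, W'', hch⟩ | ⟨hc, j, m, i', h1, h2, h3, h4⟩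
  · exact Or.inl ⟨hc, _, hch.shift hΦ hε a⟩
  · refine Or.inr ⟨hc, j, m, i', h1, h2, ?_, ?_⟩
    · rw [flow_shiftX hΦ hε, flow_shiftX hΦ hε]
      show dist ((flow Φ ε s W j).1 + a) ((flow Φ ε s W' m).1 + a) = ε
      rw [dist_add_right]
      exact h3
    · have e1 : (flow Φ ε s (shiftX a W) j).1 - (flow Φ ε s (shiftX a W') m).1 =
          (flow Φ ε s W j).1 - (flow Φ ε s W' m).1 := by
        rw [flow_shiftX hΦ hε, flow_shiftX hΦ hε]
        show ((flow Φ ε s W j).1 + a) - ((flow Φ ε s W' m).1 + a) = _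
        abel
      have e2 : (flow Φ ε s (shiftX a W) j).2 - (flow Φ ε s (shiftX a W') m).2 =
          (flow Φ ε s W j).2 - (flow Φ ε s W' m).2 := by
        rw [flow_shiftX hΦ hε, flow_shiftX hΦ hε]
        rfl
      rw [e1, e2]
      refine h4.imp id fun h4 => ⟨h4.1, ?_⟩
      have h5 := h4.2.shift hΦ hε a
      have e3 : flow Φ ε s (shiftX a W) j = ((flow Φ ε s W j).1 + a, (flow Φ ε s W j).2) := by
        rw [flow_shiftX hΦ hε]
        rfl
      rw [e3]
      exact h5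

theorem BadStep.shift {ι : Type*} {A : Finset ι} {W : A → PhasePoint} {i : ι}
    (hΦ : AdmissiblePotential Φ) (hε : 0 < ε) (a : Space3) (h : BadStep Φ ε T i W) :
    BadStep Φ ε T i (shiftX a W) := by
  obtain ⟨s, hs, A', W', h1, h2⟩ := h
  exact ⟨s, hs, A', _, h1.shift hΦ hε a, h2.shift hΦ hε a⟩

theorem BadLast.shift {ι : Type*} {A : Finset ι} {W : A → PhasePoint} {i : ι} {x : Space3}
    (hΦ : AdmissiblePotential Φ) (hε : 0 < ε) (a : Space3) (h : BadLast Φ ε T te i t W x) :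
    BadLast Φ ε T te i t (shiftX a W) (x + a) := by
  have hfl : ∀ {B : Finset ι} (V : B → PhasePoint) (k : B),
      (flow Φ ε t V k).1 + a = (flow Φ ε t (shiftX a V) k).1 := fun V k => by
    rw [flow_shiftX hΦ hε]
    rfl
  rcases h with ⟨s, hs, A', W', h1, h2, i', hi', rfl⟩ | ⟨hc, h1, i', hi', rfl⟩ |
    ⟨h1, i', hi', rfl⟩
  · exact Or.inl ⟨s, hs, A', _, h1.shift hΦ hε a, h2.shift hΦ hε a, i', hi', hfl _ _⟩
  · exact Or.inr (Or.inl ⟨hc, h1.shift hΦ hε a, i', hi', hfl _ _⟩)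
  · exact Or.inr (Or.inr ⟨h1.shift hΦ hε a, i', hi', hfl _ _⟩)

/-- **Translation.** -/
theorem BadPos.shift {ι : Type*} [Fintype ι] {V : ι → PhasePoint} {i : ι} {x : Space3}
    (hΦ : AdmissiblePotential Φ) (hε : 0 < ε) (a : Space3) (h : BadPos Φ ε T te V i t x) :
    BadPos Φ ε T te (shiftX a V) i t (x + a) := by
  obtain ⟨A', W', hc, hb⟩ := h
  exact ⟨A', _, hc.shift hΦ hε a, hb.shift hΦ hε a⟩

/-! ### The deterministic theorem -/

section det

variable {κ : Type} [Fintype κ] {X : ℝ → κ → PhasePoint} {C : ℝ → κ → κ → Prop} {G : Set κ}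
  {P : ℝ → κ → Prop} {ι : Type} [Fintype ι] {e : ι ↪ κ} {i : ι}

/-- **The history of a real cluster is a collision tree, or the cluster is bad**, with the real
position of the root. -/
theorem det_pos (hΦ : AdmissiblePotential Φ) (hε : 0 < ε) (hw : GWorld Φ ε t X C G)
    (hP : Activity C u P) (hu : u ∈ Icc 0 te) (hut : u ≤ t) (hteT : te < T)
    (heG : range e ⊆ G) (hV : ∀ k, P 0 k ↔ k ∈ range e)
    (h0 : ∀ k, (∀ s, s < u → P s k) → P 0 k) (hi : ∀ s, s < u → P s (e i))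
    (hconn : ∀ k, (∀ s, s < u → P s k) → Relation.ReflTransGen
      (fun a b => C u a b ∧ ∀ s, s < u → P s b) (e i) k) :
    (∃ (Q : CTree) (f : Idx Q ≃ ι) (ℓ : PhasePoint) (p : Par Q),
      HistTree Φ ε T u X P (e i) Q ℓ p (fun x => e (f x))) ∨
    BadPos Φ ε T te (fun k => X 0 (e k)) i u (X u (e i)).1 := by
  have huT : u ≤ T := hu.2.trans hteT.le
  refine det_gen hΦ hε hw hP hu hut hteT heG hV h0 hi hconn
    (fun A W => BadGPos Φ ε T te i u (X u (e i)).1 A W) ?_ ?_ ?_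
  · rintro s hs A A' W W' hst ⟨A₁, W₁, hc, hb⟩
    exact ⟨A₁, W₁, .step hs hst hc, hb⟩
  · rintro τ hτ s hs A A' W hst ⟨hiA, Q, f, ℓ, p, hg, -, hpath⟩ hb
    refine ⟨A, W, .refl _ _, Or.inl ⟨s, ⟨hs.1, hs.2.trans huT⟩, A', _, hst, hb, ⟨i, hiA⟩,
      rfl, ?_⟩⟩
    have h1 := hpath ⟨i, hiA⟩ u ⟨hs.2, le_rfl⟩ (by
      show u ≤ τ i
      rw [hτ]
      exact huT)
    have h2 := hg.flow_eq hΦ hε ⟨hu.1, huT⟩ (f.symm ⟨i, hiA⟩)
    rw [Equiv.apply_symm_apply] at h2
    rw [h2, ← h1]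
  · intro A hiA h
    have hfl : (X u (e i)).1 =
        (flow Φ ε u (pull Φ ε (fun s k => X s (e k)) A u) ⟨i, hiA⟩).1 := by
      rw [flow_pull hΦ hε]
      rfl
    rcases h with ⟨hc, h⟩ | h
    · exact ⟨A, _, .refl _ _, Or.inr (Or.inl ⟨hc, h, ⟨i, hiA⟩, rfl, hfl⟩)⟩
    · exact ⟨A, _, .refl _ _, Or.inr (Or.inr ⟨h, ⟨i, hiA⟩, rfl, hfl⟩)⟩


/-- **Past at `u⁻`**, with the position of the root. -/
theorem det_pre_pos (hΦ : AdmissiblePotential Φ) (hε : 0 < ε) (hw : GWorld Φ ε t X C G)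
    (hu : u ∈ Ioc 0 te) (hut : u ≤ t) (hteT : te < T) (heG : range e ⊆ G)
    (hV : ∀ k, k ∈ Inf879.pre C (e i) u 0 ↔ k ∈ range e) :
    (∃ (Q : CTree) (f : Idx Q ≃ ι) (ℓ : PhasePoint) (p : Par Q),
      HistTree Φ ε T u X (fun s k => k ∈ Inf879.pre C (e i) u s) (e i) Q ℓ p
        (fun x => e (f x))) ∨
    BadPos Φ ε T te (fun k => X 0 (e k)) i u (X u (e i)).1 := by
  refine det_pos hΦ hε hw (activity_pre hw.closed (e i) u) ⟨hu.1.le, hu.2⟩ hut hteT heG hV
    (fun k hk => hk 0 hu.1) (fun s hs => ?_) (fun k hk => term_pre hw.closed hk)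
  obtain ⟨r, hr1, hr2⟩ := exists_between hs
  exact ⟨r, ⟨hr1.le, hr2⟩, .root hr1.le⟩

end det

end Crest.Agent.R122.Chain726

end
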