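import Crest.Agent.R122.Lines3_255

/-!
# Exit lines up to a time (row 122, block A9), relational part

* `cut C t`: the contact relation restricted to the times `≤ t`; explorations, sizes, influence and
  touches at times `≤ t` do not change.
* `LinesTo C C' m m' D σ K t`: the family `D` with exit times `σ` is closed up to the time `t` in the
  real world `C`, and `C'` is, up to `t`, the contact relation of the world in which the members of `D`
  are lines born at `σ`, with marks `m'`.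
* `LinesTo.infd_to`, `LinesTo.infd_iff`: infections.
* `touched_iff_to`: touches at the time `t`.
-/

set_option autoImplicit false
set_option linter.unusedSectionVars false

open Set
open Crest.Agent.R122.Causal291 (Past BC)
open Crest.Agent.R122.Inf879 Crest.Agent.R122.CausalGen291 Crest.Agent.R122.Lines255

namespace Crest.Agent.R122.CutRel879

/-- The contact relation up to the time `t`. -/
def cut {ι : Type*} (C : ℝ → ι → ι → Prop) (t : ℝ) : ℝ → ι → ι → Prop := fun s j k => s ≤ t ∧ C s j k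

section one

variable {ι : Type*} {C : ℝ → ι → ι → Prop} {t u s : ℝ} {i k : ι}



variable [Fintype ι] {m : ι → ℕ} {K : ℕ}



end one

section two

variable {ι₁ ι₂ κ : Type} {X : Type*}
variable {C₁ : ℝ → ι₁ → ι₁ → Prop} {C₂ : ℝ → ι₂ → ι₂ → Prop}
variable {z₁ : ℝ → ι₁ → X} {z₂ : ℝ → ι₂ → X} {e₁ : κ → ι₁} {e₂ : κ → ι₂} {t u : ℝ} {k : κ}

theorem fut_cut (hu : u ≤ t) :
    Fut (cut C₁ t) z₁ (cut C₂ t) z₂ e₁ e₂ u k ↔ Fut C₁ z₁ C₂ z₂ e₁ e₂ u k := by
  constructor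
  · intro h
    clear hu
    induction h with
    | init h h0 => exact .init h h0
    | new₁ j hj hc h0 hs => exact .new₁ j hj hc.2 h0 hs
    | new₂ j hj hc h0 hs => exact .new₂ j hj hc.2 h0 hs
    | chain₁ _ hc hs ih => exact .chain₁ ih hc.2 hs
    | chain₂ _ hc hs ih => exact .chain₂ ih hc.2 hs
  · intro h
    induction h with
    | init h h0 => exact .init h h0
    | new₁ j hj hc h0 hs => exact .new₁ j hj ⟨hs.trans hu, hc⟩ h0 hs
    | new₂ j hj hc h0 hs => exact .new₂ j hj ⟨hs.trans hu, hc⟩ h0 hs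
    | chain₁ _ hc hs ih => exact .chain₁ (ih (hs.trans hu)) ⟨hs.trans hu, hc⟩ hs
    | chain₂ _ hc hs ih => exact .chain₂ (ih (hs.trans hu)) ⟨hs.trans hu, hc⟩ hs

theorem touched_cut {P₁ : ℝ → ι₁ → Prop} {P₂ : ℝ → ι₂ → Prop} (hu : u ≤ t) :
    Touched (cut C₁ t) z₁ (cut C₂ t) z₂ e₁ e₂ P₁ P₂ u ↔ Touched C₁ z₁ C₂ z₂ e₁ e₂ P₁ P₂ u := by
  unfold CausalGen291.Touched
  simp only [fut_cut hu]

end two

/-! ### Lines up to a time -/

/-- Up to the time `t` the family `D` is closed in the real world `C`, and `C'` (marks `m'`) is the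
world in which its members are lines born at the times `σ`. -/
structure LinesTo {ι : Type*} [Fintype ι] (C C' : ℝ → ι → ι → Prop) (m m' : ι → ℕ) (D : Set ι)
    (σ : ι → ℝ) (K : ℕ) (t : ℝ) : Prop where
  symm : ∀ s j k, C s j k → C s k j
  closed : ∀ s, s ≤ t → ∀ j k, j ∈ D → s ≤ σ j → C s j k → k ∈ D ∧ s ≤ σ k
  of_strict : ∀ s, s ≤ t → ∀ j k, C s j k → (j ∈ D → σ j < s) → (k ∈ D → σ k < s) → C' s j k
  sub : ∀ s, s ≤ t → ∀ j k, C' s j k → C s j k
  left : ∀ s j k, C' s j k → j ∈ D → σ j ≤ s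
  right : ∀ s j k, C' s j k → k ∈ D → σ k ≤ s
  pos : ∀ j ∈ D, 0 ≤ σ j
  off : ∀ j, j ∉ D → m' j = m j
  mark : ∀ j ∈ D, σ j ≤ t → msize C m (σ j) j = m' j
  clean : ∀ j ∈ D, m' j ≤ K
  clean' : ∀ j ∈ D, t < σ j → msize C m t j ≤ K

namespace LinesTo

variable {ι : Type*} [Fintype ι] {C C' : ℝ → ι → ι → Prop} {m m' : ι → ℕ} {D : Set ι} {σ : ι → ℝ}
  {K : ℕ} {t u : ℝ} {y : ι}

theorem mono (h : LinesTo C C' m m' D σ K t) (hu : u ≤ t) : LinesTo C C' m m' D σ K u where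
  symm := h.symm
  closed s hs := h.closed s (hs.trans hu)
  of_strict s hs := h.of_strict s (hs.trans hu)
  sub s hs := h.sub s (hs.trans hu)
  left := h.left
  right := h.right
  pos := h.pos
  off := h.off
  mark j hj hs := h.mark j hj (hs.trans hu)
  clean := h.clean
  clean' j hj hs := by
    rcases le_or_gt (σ j) t with h1 | h1
    · exact (msize_mono hs.le j).trans ((h.mark j hj h1).le.trans (h.clean j hj))
    · exact (msize_mono hu j).trans (h.clean' j hj h1)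

theorem closed_cut (h : LinesTo C C' m m' D σ K t) : Closed (cut C t) D σ :=
  fun s j k hj hs hc => h.closed s hc.1 j k hj hs hc.2

theorem symm_cut (h : LinesTo C C' m m' D σ K t) (s : ℝ) (j k : ι) (hc : cut C t s j k) :
    cut C t s k j := ⟨hc.1, h.symm s j k hc.2⟩

theorem lines_cut (h : LinesTo C C' m m' D σ K t) : Lines (cut C t) (cut C' t) D σ where
  of_strict s j k hc hj hk := ⟨hc.1, h.of_strict s hc.1 j k hc.2 hj hk⟩
  sub s j k hc := ⟨hc.1, h.sub s hc.1 j k hc.2⟩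
  left s j k hc := h.left s j k hc.2
  right s j k hc := h.right s j k hc.2









end LinesTo

section touch

variable {ι₁ ι₂ κ : Type} [Fintype ι₁] [Fintype ι₂] {X : Type*}
variable {C₁ C₁' : ℝ → ι₁ → ι₁ → Prop} {C₂ C₂' : ℝ → ι₂ → ι₂ → Prop}
variable {z₁ z₁' : ℝ → ι₁ → X} {z₂ z₂' : ℝ → ι₂ → X} {e₁ : κ → ι₁} {e₂ : κ → ι₂}
variable {D₁ : Set ι₁} {D₂ : Set ι₂} {σ₁ : ι₁ → ℝ} {σ₂ : ι₂ → ℝ}
variable {m₁ m₁' : ι₁ → ℕ} {m₂ m₂' : ι₂ → ℕ} {K : ℕ} {t : ℝ}

/-- **Touches at the time `t`** are the same with the real family and with its lines if the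
infections at the time `t` are the same. -/
theorem touched_iff_to (hc : Compat z₁ z₁' z₂ z₂' e₁ e₂ D₁ D₂ σ₁ σ₂)
    (h₁ : LinesTo C₁ C₁' m₁ m₁' D₁ σ₁ K t) (h₂ : LinesTo C₂ C₂' m₂ m₂' D₂ σ₂ K t)
    (hP₁ : ∀ y, Infd C₁ m₁ K t y ↔ Infd C₁' m₁' K t y)
    (hP₂ : ∀ y, Infd C₂ m₂ K t y ↔ Infd C₂' m₂' K t y) :
    Touched C₁ z₁ C₂ z₂ e₁ e₂ (Infd C₁ m₁ K) (Infd C₂ m₂ K) t ↔
      Touched C₁' z₁' C₂' z₂' e₁ e₂ (Infd C₁' m₁' K) (Infd C₂' m₂' K) t := by
  rw [← touched_cut (C₁ := C₁) (C₂ := C₂) (le_refl t),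
    ← touched_cut (C₁ := C₁') (C₂ := C₂') (le_refl t)]
  exact Lines255.touched_iff hc h₁.closed_cut h₂.closed_cut h₁.symm_cut h₂.symm_cut h₁.lines_cut
    h₂.lines_cut hP₁ hP₂

end touch

end Crest.Agent.R122.CutRel879
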