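import Crest.Agent.R122.CausalGen_291

/-!
# Causal calculus for abstract contact relations (row 122, block F4): infection processes

`IsRule` (hereditary infection rule), `HistEq` (equal histories), `AgreeAt`, `first_discrepancy`,
`Touched`, `theta`.
-/

set_option autoImplicit false

open Set Filter Topology

namespace Crest.Agent.R122.CausalGen291

open Crest.Agent.R122.Causal291

/-- An infection rule on the window `[a, T]` for the contact relation `C`. -/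
structure IsRule {ι : Type*} (C : ℝ → ι → ι → Prop) (a T : ℝ) (P : ℝ → ι → Prop) : Prop where
  /-- an exploration which meets an infected pair is infected -/
  hered : ∀ i t j s, a ≤ s → t ≤ T → Past C t i s j → P s j → P t i
  /-- infection times are attained -/
  closed : ∀ i, IsClosed {s | s ∈ Icc a T ∧ P s i}

section rule

variable {ι : Type*} {C : ℝ → ι → ι → Prop} {a T : ℝ} {P : ℝ → ι → Prop}

theorem IsRule.mono (h : IsRule C a T P) {i : ι} {s t : ℝ} (ha : a ≤ s) (hst : s ≤ t)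
    (ht : t ≤ T) (hP : P s i) : P t i := h.hered i t i s ha ht (.root hst) hP

/-- Infection passes through contacts: if `j` is infected and `i` is in contact with `j`, then `i`
is infected. -/
theorem IsRule.contact (h : IsRule C a T P) {i j : ι} {s : ℝ} (ha : a ≤ s) (ht : s ≤ T)
    (hc : C s i j) (hP : P s j) : P s i :=
  h.hered i s j s ha ht (Past.contact (.root le_rfl) hc) hP

/-- With finitely many particles the infected set is constant just after each time. -/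
theorem IsRule.eventually_const [Finite ι] (h : IsRule C a T P) {s : ℝ} (ha : a ≤ s)
    (ht : s < T) : ∃ δ > 0, s + δ ≤ T ∧ ∀ s', s ≤ s' → s' ≤ s + δ → ∀ i, (P s' i ↔ P s i) := by
  classical
  have := Fintype.ofFinite ι
  have key : ∀ i, ∃ δ > 0, ∀ s', s ≤ s' → s' ≤ s + δ → s' ≤ T → (P s' i ↔ P s i) := by
    intro i
    by_cases hi : P s i
    · exact ⟨1, one_pos, fun s' h1 _ h3 => ⟨fun _ => hi, fun _ => h.mono ha h1 h3 hi⟩⟩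
    · -- closedness: not infected at `s` implies not infected shortly after
      by_contra hno
      push Not at hno
      have hx : ∀ n : ℕ, ∃ s', s ≤ s' ∧ s' ≤ s + 1 / ((n : ℝ) + 1) ∧ s' ≤ T ∧ P s' i := by
        intro n
        obtain ⟨s', h1, h2, h3, h4⟩ := hno (1 / ((n : ℝ) + 1)) (by positivity)
        refine ⟨s', h1, h2, h3, ?_⟩
        rcases h4 with h4 | h4
        · exact h4.1
        · exact absurd h4.2 hi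
      choose u hu1 hu2 hu3 hu4 using hx
      have hlim : Tendsto u atTop (𝓝 s) := by
        have h1 : Tendsto (fun n : ℕ => s + 1 / ((n : ℝ) + 1)) atTop (𝓝 s) := by
          simpa using (tendsto_const_nhds (x := s)).add
            (tendsto_one_div_add_atTop_nhds_zero_nat (𝕜 := ℝ))
        exact tendsto_of_tendsto_of_tendsto_of_le_of_le tendsto_const_nhds h1 hu1 hu2
      exact hi ((h.closed i).mem_of_tendsto hlim (Eventually.of_forall fun n =>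
        ⟨⟨ha.trans (hu1 n), hu3 n⟩, hu4 n⟩)).2
  choose δ hδ hδ' using key
  have hmin : ∃ η > 0, ∀ i, η ≤ δ i := by
    by_cases hne : Nonempty ι
    · obtain ⟨i₀, hi₀⟩ := Finite.exists_min δ
      exact ⟨δ i₀, hδ i₀, hi₀⟩
    · exact ⟨1, one_pos, fun i => absurd ⟨i⟩ hne⟩
  obtain ⟨η, hη, hηδ⟩ := hmin
  refine ⟨min η (T - s), lt_min hη (sub_pos.2 ht), by linarith [min_le_right η (T - s)], ?_⟩
  intro s' h1 h2 i
  exact hδ' i s' h1 (h2.trans (by linarith [min_le_left η (T - s), hηδ i]))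
    (h2.trans (by linarith [min_le_right η (T - s)]))

end rule

section two

variable {ι₁ ι₂ κ : Type} {X : Type*}
variable {C₁ : ℝ → ι₁ → ι₁ → Prop} {C₂ : ℝ → ι₂ → ι₂ → Prop}
variable {z₁ : ℝ → ι₁ → X} {z₂ : ℝ → ι₂ → X} {e₁ : κ → ι₁} {e₂ : κ → ι₂} {a T : ℝ}

/-- The histories of the common particle `i` up to time `t` are equal in both worlds: explorations
inside the common part, equal, with equal states. -/
structure HistEq (C₁ : ℝ → ι₁ → ι₁ → Prop) (z₁ : ℝ → ι₁ → X) (C₂ : ℝ → ι₂ → ι₂ → Prop)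
    (z₂ : ℝ → ι₂ → X) (e₁ : κ → ι₁) (e₂ : κ → ι₂) (t : ℝ) (i : κ) : Prop where
  sub₁ : ∀ s j, 0 ≤ s → Past C₁ t (e₁ i) s j → j ∈ range e₁
  sub₂ : ∀ s j, 0 ≤ s → Past C₂ t (e₂ i) s j → j ∈ range e₂
  iff : ∀ s k, 0 ≤ s → (Past C₁ t (e₁ i) s (e₁ k) ↔ Past C₂ t (e₂ i) s (e₂ k))
  eq : ∀ s k, 0 ≤ s → Past C₁ t (e₁ i) s (e₁ k) → z₁ s (e₁ k) = z₂ s (e₂ k)

theorem HistEq.symm {t : ℝ} {i : κ} (h : HistEq C₁ z₁ C₂ z₂ e₁ e₂ t i) :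
    HistEq C₂ z₂ C₁ z₁ e₂ e₁ t i :=
  ⟨h.sub₂, h.sub₁, fun s k hs => (h.iff s k hs).symm,
    fun s k hs hk => (h.eq s k hs ((h.iff s k hs).2 hk)).symm⟩

/-- Equal histories: the active sets correspond. -/
theorem HistEq.act {t s : ℝ} {i : κ} (h : HistEq C₁ z₁ C₂ z₂ e₁ e₂ t i) (hs : 0 ≤ s) :
    Act C₁ t (e₁ i) s = e₁ '' ActC C₁ e₁ t i s ∧ Act C₂ t (e₂ i) s = e₂ '' ActC C₁ e₁ t i s := by
  constructor
  · ext j
    constructor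
    · intro hj
      obtain ⟨k, rfl⟩ := h.sub₁ s j hs hj
      exact ⟨k, hj, rfl⟩
    · rintro ⟨k, hk, rfl⟩
      exact hk
  · ext j
    constructor
    · intro hj
      obtain ⟨k, rfl⟩ := h.sub₂ s j hs hj
      exact ⟨k, (h.iff s k hs).2 hj, rfl⟩
    · rintro ⟨k, hk, rfl⟩
      exact (h.iff s k hs).1 hk

theorem HistEq.of_past (hp : Pair T C₁ z₁ C₂ z₂ e₁ e₂) {t s : ℝ} (ht : t ≤ T)
    {i k : κ} (h : HistEq C₁ z₁ C₂ z₂ e₁ e₂ t i)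
    (hk : Past C₁ t (e₁ i) s (e₁ k)) (hs : 0 ≤ s) : HistEq C₁ z₁ C₂ z₂ e₁ e₂ s k := by
  have hk2 := (h.iff s k hs).1 hk
  have aux : ∀ (r : ℝ) (j : ι₁), Past C₁ s (e₁ k) r j → 0 ≤ r →
      ∀ l, e₁ l = j → Past C₂ s (e₂ k) r (e₂ l) := by
    intro r j hj
    induction hj with
    | @root r hr =>
      intro _ l hl
      rw [hp.inj₁ hl]
      exact .root hr
    | @step r r' j l' hj hc hrr' ih =>
      intro hr l hl
      subst hl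
      have hr' : 0 ≤ r' := hr.trans hrr'
      obtain ⟨m, rfl⟩ := h.sub₁ r' j hr' (hk.trans hj)
      refine .step (ih hr' m rfl) ?_ hrr'
      exact (hp.coh r' ⟨hr', ((hj.le).trans hk.le).trans ht⟩ m l
        (h.eq r' m hr' (hk.trans hj)) (h.eq r' l hr' ((hk.trans hj).contact hc))).1 hc
  have aux2 : ∀ (r : ℝ) (j : ι₂), Past C₂ s (e₂ k) r j → 0 ≤ r →
      ∀ l, e₂ l = j → Past C₁ s (e₁ k) r (e₁ l) := by
    intro r j hj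
    induction hj with
    | @root r hr =>
      intro _ l hl
      rw [hp.inj₂ hl]
      exact .root hr
    | @step r r' j l' hj hc hrr' ih =>
      intro hr l hl
      subst hl
      have hr' : 0 ≤ r' := hr.trans hrr'
      obtain ⟨m, rfl⟩ := h.sub₂ r' j hr' (hk2.trans hj)
      refine .step (ih hr' m rfl) ?_ hrr'
      exact (hp.coh r' ⟨hr', ((hj.le).trans hk.le).trans ht⟩ m l
        (h.eq r' m hr' ((h.iff r' m hr').2 (hk2.trans hj)))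
        (h.eq r' l hr' ((h.iff r' l hr').2 ((hk2.trans hj).contact hc)))).2 hc
  exact ⟨fun r j hr hj => h.sub₁ r j hr (hk.trans hj), fun r j hr hj => h.sub₂ r j hr (hk2.trans hj),
    fun r l hr => ⟨fun hl => aux r _ hl hr l rfl, fun hl => aux2 r _ hl hr l rfl⟩,
    fun r l hr hl => h.eq r l hr (hk.trans hl)⟩


/-- The history of a particle outside the forward closure is the same in both worlds. -/
theorem histEq_of_not_fut [Finite ι₁] [Finite ι₂] (hp : Pair T C₁ z₁ C₂ z₂ e₁ e₂)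
    {t : ℝ} (ht : t ∈ Icc 0 T) {i : κ} (hi : ¬ Fut C₁ z₁ C₂ z₂ e₁ e₂ t i) :
    HistEq C₁ z₁ C₂ z₂ e₁ e₂ t i := by
  have hforw : ∀ (s : ℝ) (j : ι₁), Past C₁ t (e₁ i) s j → 0 ≤ s →
      ∃ k, e₁ k = j ∧ Past C₂ t (e₂ i) s (e₂ k) ∧ ¬ Fut C₁ z₁ C₂ z₂ e₁ e₂ s k := by
    intro s j hj
    induction hj with
    | @root s h => exact fun _ => ⟨i, rfl, .root h, fun h' => hi (h'.mono h)⟩
    | @step s s' j l h hc hss' ih =>
      intro hs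
      have hs' : 0 ≤ s' := hs.trans hss'
      have hs'T : s' ∈ Icc 0 T := ⟨hs', h.le.trans ht.2⟩
      obtain ⟨k, rfl, h1, h2⟩ := ih hs'
      obtain ⟨m, rfl, h3, h4⟩ := contact_of_not_fut₁ hp hs'T h2 hc
      exact ⟨m, rfl, .step h1 h4 hss', fun h' => h3 (h'.mono hss')⟩
  have hback : ∀ (s : ℝ) (j : ι₂), Past C₂ t (e₂ i) s j → 0 ≤ s →
      ∃ k, e₂ k = j ∧ Past C₁ t (e₁ i) s (e₁ k) ∧ ¬ Fut C₁ z₁ C₂ z₂ e₁ e₂ s k := by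
    intro s j hj
    induction hj with
    | @root s h => exact fun _ => ⟨i, rfl, .root h, fun h' => hi (h'.mono h)⟩
    | @step s s' j l h hc hss' ih =>
      intro hs
      have hs' : 0 ≤ s' := hs.trans hss'
      have hs'T : s' ∈ Icc 0 T := ⟨hs', h.le.trans ht.2⟩
      obtain ⟨k, rfl, h1, h2⟩ := ih hs'
      obtain ⟨m, rfl, h3, h4⟩ := contact_of_not_fut₂ hp hs'T h2 hc
      exact ⟨m, rfl, .step h1 h4 hss', fun h' => h3 (h'.mono hss')⟩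
  refine ⟨fun s j hs hj => ?_, fun s j hs hj => ?_, fun s k hs => ⟨fun hk => ?_, fun hk => ?_⟩,
    fun s k hs hk => ?_⟩
  · obtain ⟨k, hk, _⟩ := hforw s j hj hs
    exact ⟨k, hk⟩
  · obtain ⟨k, hk, _⟩ := hback s j hj hs
    exact ⟨k, hk⟩
  · obtain ⟨k', hk', h1, _⟩ := hforw s _ hk hs
    rwa [hp.inj₁ hk'] at h1
  · obtain ⟨k', hk', h1, _⟩ := hback s _ hk hs
    rwa [hp.inj₂ hk'] at h1
  · obtain ⟨k', hk', _, h1⟩ := hforw s _ hk hs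
    rw [hp.inj₁ hk'] at h1
    exact agree_of_not_fut hp ⟨hs, hk.le.trans ht.2⟩ h1


/-- The infection processes agree at time `u`: no new particle is infected, the same common
particles are infected, and these have equal states. -/
structure AgreeAt (z₁ : ℝ → ι₁ → X) (z₂ : ℝ → ι₂ → X) (e₁ : κ → ι₁)
    (e₂ : κ → ι₂) (P₁ : ℝ → ι₁ → Prop) (P₂ : ℝ → ι₂ → Prop) (u : ℝ) : Prop where
  new₁ : ∀ j, P₁ u j → j ∈ range e₁
  new₂ : ∀ j, P₂ u j → j ∈ range e₂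
  iff : ∀ k, P₁ u (e₁ k) ↔ P₂ u (e₂ k)
  eq : ∀ k, P₁ u (e₁ k) → z₁ u (e₁ k) = z₂ u (e₂ k)

theorem AgreeAt.symm {P₁ : ℝ → ι₁ → Prop} {P₂ : ℝ → ι₂ → Prop} {u : ℝ}
    (h : AgreeAt z₁ z₂ e₁ e₂ P₁ P₂ u) : AgreeAt z₂ z₁ e₂ e₁ P₂ P₁ u :=
  ⟨h.new₂, h.new₁, fun k => (h.iff k).symm, fun k hk => (h.eq k ((h.iff k).2 hk)).symm⟩

/-- Agreement of the infection processes at time `s` persists for a short time. -/
theorem AgreeAt.eventually [Finite ι₁] [Finite ι₂] (hp : Pair T C₁ z₁ C₂ z₂ e₁ e₂)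
    (ha : 0 ≤ a) {P₁ : ℝ → ι₁ → Prop} {P₂ : ℝ → ι₂ → Prop} (hP₁ : IsRule C₁ a T P₁)
    (hP₂ : IsRule C₂ a T P₂) {s : ℝ} (has : a ≤ s) (hsT : s < T)
    (h : AgreeAt z₁ z₂ e₁ e₂ P₁ P₂ s) :
    ∃ δ > 0, ∀ s' ∈ Icc s (s + δ), AgreeAt z₁ z₂ e₁ e₂ P₁ P₂ s' := by
  obtain ⟨δ₁, hδ₁, hδ₁T, hc₁⟩ := hP₁.eventually_const has hsT
  obtain ⟨δ₂, hδ₂, hδ₂T, hc₂⟩ := hP₂.eventually_const has hsT
  let G : Set κ := {k | P₁ s (e₁ k)}
  have hs0 : s ∈ Ico 0 T := ⟨ha.trans has, hsT⟩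
  obtain ⟨δ₃, hδ₃, hδ₃T, key⟩ := extend_agree hp hs0 G (by
      intro k hk j hj hc
      have hPj := hP₁.contact has hsT.le (hp.symm₁ _ _ _ hc) hk
      obtain ⟨l, rfl⟩ := h.new₁ j hPj
      exact hj ⟨l, hPj, rfl⟩) (by
      intro k hk j hj hc
      have hPj := hP₂.contact has hsT.le (hp.symm₂ _ _ _ hc) ((h.iff k).1 hk)
      obtain ⟨l, rfl⟩ := h.new₂ j hPj
      exact hj ⟨l, (h.iff l).2 hPj, rfl⟩) (fun k hk => h.eq k hk)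
  set δ := min (min δ₁ δ₂) δ₃ with hδ
  have hδ0 : 0 < δ := lt_min (lt_min hδ₁ hδ₂) hδ₃
  have l₁ : δ ≤ δ₁ := (min_le_left _ _).trans (min_le_left _ _)
  have l₂ : δ ≤ δ₂ := (min_le_left _ _).trans (min_le_right _ _)
  have l₃ : δ ≤ δ₃ := min_le_right _ _
  refine ⟨δ, hδ0, fun s' hs' => ?_⟩
  have q₁ := fun j => hc₁ s' hs'.1 (hs'.2.trans (by linarith)) j
  have q₂ := fun j => hc₂ s' hs'.1 (hs'.2.trans (by linarith)) j
  refine ⟨fun j hj => h.new₁ j ((q₁ j).1 hj), fun j hj => h.new₂ j ((q₂ j).1 hj), fun k => ?_,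
    fun k hk => ?_⟩
  · rw [q₁, q₂]
    exact h.iff k
  · exact key s' ⟨hs'.1, hs'.2.trans (by linarith)⟩ k ((q₁ _).1 hk)



/-! ### Touches -/

/-- At time `s` a particle influenced by the difference of the two worlds, or a particle which is
not common, is infected in one of the two worlds. -/
def Touched (C₁ : ℝ → ι₁ → ι₁ → Prop) (z₁ : ℝ → ι₁ → X) (C₂ : ℝ → ι₂ → ι₂ → Prop)
    (z₂ : ℝ → ι₂ → X) (e₁ : κ → ι₁) (e₂ : κ → ι₂) (P₁ : ℝ → ι₁ → Prop) (P₂ : ℝ → ι₂ → Prop)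
    (s : ℝ) : Prop :=
  (∃ k, Fut C₁ z₁ C₂ z₂ e₁ e₂ s k ∧ (P₁ s (e₁ k) ∨ P₂ s (e₂ k))) ∨
    (∃ j, j ∉ range e₁ ∧ P₁ s j) ∨ ∃ j, j ∉ range e₂ ∧ P₂ s j

variable {P₁ : ℝ → ι₁ → Prop} {P₂ : ℝ → ι₂ → Prop}

theorem Touched.symm {s : ℝ} (h : Touched C₁ z₁ C₂ z₂ e₁ e₂ P₁ P₂ s) :
    Touched C₂ z₂ C₁ z₁ e₂ e₁ P₂ P₁ s := by
  rcases h with ⟨k, hk, h⟩ | h | h
  · exact Or.inl ⟨k, hk.symm, h.symm⟩
  · exact Or.inr (Or.inr h)
  · exact Or.inr (Or.inl h)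

theorem Touched.mono (hP₁ : IsRule C₁ a T P₁) (hP₂ : IsRule C₂ a T P₂) {s s' : ℝ}
    (ha : a ≤ s) (hss' : s ≤ s') (hT : s' ≤ T) (h : Touched C₁ z₁ C₂ z₂ e₁ e₂ P₁ P₂ s) :
    Touched C₁ z₁ C₂ z₂ e₁ e₂ P₁ P₂ s' := by
  rcases h with ⟨k, hk, hP | hP⟩ | ⟨j, hj, hP⟩ | ⟨j, hj, hP⟩
  · exact Or.inl ⟨k, hk.mono hss', Or.inl (hP₁.mono ha hss' hT hP)⟩
  · exact Or.inl ⟨k, hk.mono hss', Or.inr (hP₂.mono ha hss' hT hP)⟩
  · exact Or.inr (Or.inl ⟨j, hj, hP₁.mono ha hss' hT hP⟩)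
  · exact Or.inr (Or.inr ⟨j, hj, hP₂.mono ha hss' hT hP⟩)

/-- The touched times form a closed subset of `[a, T]`. -/
theorem isClosed_touched [Finite κ] [Finite ι₁] [Finite ι₂] (hp : Pair T C₁ z₁ C₂ z₂ e₁ e₂)
    (ha : 0 ≤ a) (hP₁ : IsRule C₁ a T P₁) (hP₂ : IsRule C₂ a T P₂) :
    IsClosed {s | s ∈ Icc a T ∧ Touched C₁ z₁ C₂ z₂ e₁ e₂ P₁ P₂ s} := by
  have : {s | s ∈ Icc a T ∧ Touched C₁ z₁ C₂ z₂ e₁ e₂ P₁ P₂ s} =
      (⋃ k, {s | s ∈ Icc 0 T ∧ Fut C₁ z₁ C₂ z₂ e₁ e₂ s k} ∩ {s | s ∈ Icc a T ∧ P₁ s (e₁ k)}) ∪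
      (⋃ k, {s | s ∈ Icc 0 T ∧ Fut C₁ z₁ C₂ z₂ e₁ e₂ s k} ∩ {s | s ∈ Icc a T ∧ P₂ s (e₂ k)}) ∪
      (⋃ j ∈ {j : ι₁ | j ∉ range e₁}, {s | s ∈ Icc a T ∧ P₁ s j}) ∪
      ⋃ j ∈ {j : ι₂ | j ∉ range e₂}, {s | s ∈ Icc a T ∧ P₂ s j} := by
    ext s
    simp only [Touched, mem_union, mem_iUnion, mem_inter_iff, mem_ofPred_eq, exists_prop]
    constructor
    · rintro ⟨hs, ⟨k, hk, hP | hP⟩ | ⟨j, hj, hP⟩ | ⟨j, hj, hP⟩⟩
      · exact Or.inl (Or.inl (Or.inl ⟨k, ⟨⟨ha.trans hs.1, hs.2⟩, hk⟩, hs, hP⟩))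
      · exact Or.inl (Or.inl (Or.inr ⟨k, ⟨⟨ha.trans hs.1, hs.2⟩, hk⟩, hs, hP⟩))
      · exact Or.inl (Or.inr ⟨j, hj, hs, hP⟩)
      · exact Or.inr ⟨j, hj, hs, hP⟩
    · rintro (((⟨k, ⟨_, hk⟩, hs, hP⟩ | ⟨k, ⟨_, hk⟩, hs, hP⟩) | ⟨j, hj, hs, hP⟩) | ⟨j, hj, hs, hP⟩)
      · exact ⟨hs, Or.inl ⟨k, hk, Or.inl hP⟩⟩
      · exact ⟨hs, Or.inl ⟨k, hk, Or.inr hP⟩⟩
      · exact ⟨hs, Or.inr (Or.inl ⟨j, hj, hP⟩)⟩
      · exact ⟨hs, Or.inr (Or.inr ⟨j, hj, hP⟩)⟩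
  rw [this]
  refine IsClosed.union (IsClosed.union (IsClosed.union ?_ ?_) ?_) ?_
  · exact isClosed_iUnion_of_finite fun k =>
      (isClosed_fut hp.inj₁ hp.inj₂ hp.closed₁ hp.closed₂ k).inter (hP₁.closed (e₁ k))
  · exact isClosed_iUnion_of_finite fun k =>
      (isClosed_fut hp.inj₁ hp.inj₂ hp.closed₁ hp.closed₂ k).inter (hP₂.closed (e₂ k))
  · exact Set.Finite.isClosed_biUnion (Set.toFinite _) fun j _ => hP₁.closed j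
  · exact Set.Finite.isClosed_biUnion (Set.toFinite _) fun j _ => hP₂.closed j

/-- If not touched at `s`, then the infection processes agree at `s`, and no influenced particle is
infected. -/
theorem agreeAt_of_not_touched [Finite ι₁] [Finite ι₂] (hp : Pair T C₁ z₁ C₂ z₂ e₁ e₂)
    (hcoh : ∀ s ∈ Icc a T, ∀ k, HistEq C₁ z₁ C₂ z₂ e₁ e₂ s k → (P₁ s (e₁ k) ↔ P₂ s (e₂ k)))
    (ha : 0 ≤ a) {s : ℝ} (hs : s ∈ Icc a T) (h : ¬ Touched C₁ z₁ C₂ z₂ e₁ e₂ P₁ P₂ s) :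
    AgreeAt z₁ z₂ e₁ e₂ P₁ P₂ s ∧
      ∀ k, Fut C₁ z₁ C₂ z₂ e₁ e₂ s k → ¬ P₁ s (e₁ k) ∧ ¬ P₂ s (e₂ k) := by
  have h1 : ∀ k, Fut C₁ z₁ C₂ z₂ e₁ e₂ s k → ¬ P₁ s (e₁ k) ∧ ¬ P₂ s (e₂ k) :=
    fun k hk => ⟨fun hP => h (Or.inl ⟨k, hk, Or.inl hP⟩), fun hP => h (Or.inl ⟨k, hk, Or.inr hP⟩)⟩
  have h2 : ∀ j, P₁ s j → j ∈ range e₁ := by
    intro j hj
    by_contra hjr
    exact h (Or.inr (Or.inl ⟨j, hjr, hj⟩))
  have h3 : ∀ j, P₂ s j → j ∈ range e₂ := by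
    intro j hj
    by_contra hjr
    exact h (Or.inr (Or.inr ⟨j, hjr, hj⟩))
  have hs0 : s ∈ Icc 0 T := ⟨ha.trans hs.1, hs.2⟩
  refine ⟨⟨h2, h3, fun k => ?_, fun k hk => ?_⟩, h1⟩
  · by_cases hk : Fut C₁ z₁ C₂ z₂ e₁ e₂ s k
    · exact ⟨fun hP => absurd hP (h1 k hk).1, fun hP => absurd hP (h1 k hk).2⟩
    · exact hcoh s hs k (histEq_of_not_fut hp hs0 hk)
  · by_cases hkf : Fut C₁ z₁ C₂ z₂ e₁ e₂ s k
    · exact absurd hk (h1 k hkf).1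
    · exact agree_of_not_fut hp hs0 hkf

/-- The touch time: first touched time in `[a, T]`, and `T + 1` if there is none. -/
noncomputable def theta (C₁ : ℝ → ι₁ → ι₁ → Prop) (z₁ : ℝ → ι₁ → X) (C₂ : ℝ → ι₂ → ι₂ → Prop)
    (z₂ : ℝ → ι₂ → X) (e₁ : κ → ι₁) (e₂ : κ → ι₂) (a T : ℝ) (P₁ : ℝ → ι₁ → Prop)
    (P₂ : ℝ → ι₂ → Prop) : ℝ :=
  open scoped Classical in
  if ∃ s ∈ Icc a T, Touched C₁ z₁ C₂ z₂ e₁ e₂ P₁ P₂ s then
    sInf {s | s ∈ Icc a T ∧ Touched C₁ z₁ C₂ z₂ e₁ e₂ P₁ P₂ s} else T + 1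

theorem touched_iff_theta_le [Finite κ] [Finite ι₁] [Finite ι₂]
    (hp : Pair T C₁ z₁ C₂ z₂ e₁ e₂) (ha : 0 ≤ a)
    (hP₁ : IsRule C₁ a T P₁) (hP₂ : IsRule C₂ a T P₂) {s : ℝ} (hs : s ∈ Icc a T) :
    Touched C₁ z₁ C₂ z₂ e₁ e₂ P₁ P₂ s ↔ theta C₁ z₁ C₂ z₂ e₁ e₂ a T P₁ P₂ ≤ s := by
  classical
  unfold theta
  by_cases hex : ∃ s ∈ Icc a T, Touched C₁ z₁ C₂ z₂ e₁ e₂ P₁ P₂ s
  · rw [if_pos hex]
    obtain ⟨s₁, hs₁, hs₁'⟩ := hex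
    have hbd : BddBelow {s | s ∈ Icc a T ∧ Touched C₁ z₁ C₂ z₂ e₁ e₂ P₁ P₂ s} :=
      ⟨a, fun s hs => hs.1.1⟩
    constructor
    · intro h
      exact csInf_le hbd ⟨hs, h⟩
    · intro h
      have hmem := (isClosed_touched hp ha hP₁ hP₂).csInf_mem ⟨s₁, hs₁, hs₁'⟩ hbd
      exact hmem.2.mono hP₁ hP₂ hmem.1.1 h hs.2
  · rw [if_neg hex]
    constructor
    · intro h
      exact absurd ⟨s, hs, h⟩ hex
    · intro h
      linarith [hs.2]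

theorem le_theta (haT : a ≤ T) : a ≤ theta C₁ z₁ C₂ z₂ e₁ e₂ a T P₁ P₂ := by
  classical
  unfold theta
  split_ifs with h
  · obtain ⟨s₁, hs₁, hs₁'⟩ := h
    exact le_csInf ⟨s₁, hs₁, hs₁'⟩ fun s hs => hs.1.1
  · linarith

theorem theta_le : theta C₁ z₁ C₂ z₂ e₁ e₂ a T P₁ P₂ ≤ T + 1 := by
  classical
  unfold theta
  split_ifs with h
  · obtain ⟨s₁, hs₁, hs₁'⟩ := h
    have hbd : BddBelow {s | s ∈ Icc a T ∧ Touched C₁ z₁ C₂ z₂ e₁ e₂ P₁ P₂ s} :=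
      ⟨a, fun s hs => hs.1.1⟩
    exact (csInf_le hbd ⟨hs₁, hs₁'⟩).trans (by linarith [hs₁.2])
  · exact le_rfl

/-- Two thetas are comparable as soon as the touched events are. -/
theorem theta_le_theta {ι₁' ι₂' κ' : Type} {X' : Type*}
    {C₁' : ℝ → ι₁' → ι₁' → Prop} {C₂' : ℝ → ι₂' → ι₂' → Prop}
    {z₁' : ℝ → ι₁' → X'} {z₂' : ℝ → ι₂' → X'} {e₁' : κ' → ι₁'} {e₂' : κ' → ι₂'}
    {P₁' : ℝ → ι₁' → Prop} {P₂' : ℝ → ι₂' → Prop}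
    (h : ∀ s ∈ Icc a T, Touched C₁' z₁' C₂' z₂' e₁' e₂' P₁' P₂' s →
      Touched C₁ z₁ C₂ z₂ e₁ e₂ P₁ P₂ s) :
    theta C₁ z₁ C₂ z₂ e₁ e₂ a T P₁ P₂ ≤ theta C₁' z₁' C₂' z₂' e₁' e₂' a T P₁' P₂' := by
  classical
  by_cases hex : ∃ s ∈ Icc a T, Touched C₁' z₁' C₂' z₂' e₁' e₂' P₁' P₂' s
  · unfold theta
    rw [if_pos hex]
    obtain ⟨s₁, hs₁, hs₁'⟩ := hex
    have hex2 : ∃ s ∈ Icc a T, Touched C₁ z₁ C₂ z₂ e₁ e₂ P₁ P₂ s := ⟨s₁, hs₁, h s₁ hs₁ hs₁'⟩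
    have hbd : BddBelow {s | s ∈ Icc a T ∧ Touched C₁ z₁ C₂ z₂ e₁ e₂ P₁ P₂ s} :=
      ⟨a, fun s hs => hs.1.1⟩
    rw [if_pos hex2]
    exact csInf_le_csInf hbd ⟨s₁, hs₁, hs₁'⟩ fun s hs => ⟨hs.1, h s hs.1 hs.2⟩
  · have : theta C₁' z₁' C₂' z₂' e₁' e₂' a T P₁' P₂' = T + 1 := by
      unfold theta
      rw [if_neg hex]
    rw [this]
    exact theta_le

end two

end Crest.Agent.R122.CausalGen291
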