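import Mathlib
import Crest.Agent.R122.Lines2_255
import Crest.Agent.R122.CausalGenInf_291

/-!
# Exit lines: transfer of the influence and of touches (row 122, block A9)

Two worlds `(C₁, z₁)` and `(C₂, z₂)` with a common part (`e₁`, `e₂`). In both a closed family
(`D₁`, `D₂`) is replaced by its exit lines: `(C₁', z₁')`, `(C₂', z₂')`. Either the families are the
same family of common particles with the same exit times, or one of them consists of particles which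
are not common (then it is the inserted object, and the other one may be empty).

* `fut_visible`: a particle of the family is not influenced before (or at) its exit time.
* `fut_iff`: the influence is the same with the real family and with its exit lines.
* `touched_iff`, `theta_eq`, `touched_lines`, `theta_lines_le`.
-/

set_option autoImplicit false

open Set

namespace Crest.Agent.R122.Lines255

open Crest.Agent.R122.Causal291 (Past BC)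
open Crest.Agent.R122.Inf879 Crest.Agent.R122.CausalGen291

variable {ι₁ ι₂ κ : Type} {X : Type*}
variable {C₁ C₁' : ℝ → ι₁ → ι₁ → Prop} {C₂ C₂' : ℝ → ι₂ → ι₂ → Prop}
variable {z₁ z₁' : ℝ → ι₁ → X} {z₂ z₂' : ℝ → ι₂ → X} {e₁ : κ → ι₁} {e₂ : κ → ι₂}
variable {D₁ : Set ι₁} {D₂ : Set ι₂} {σ₁ : ι₁ → ℝ} {σ₂ : ι₂ → ℝ}

/-- The two replacements are compatible with the common part. -/
structure Compat (z₁ z₁' : ℝ → ι₁ → X) (z₂ z₂' : ℝ → ι₂ → X) (e₁ : κ → ι₁) (e₂ : κ → ι₂)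
    (D₁ : Set ι₁) (D₂ : Set ι₂) (σ₁ : ι₁ → ℝ) (σ₂ : ι₂ → ℝ) : Prop where
  /-- a common particle is in both families or in none -/
  mem_iff : ∀ k, e₁ k ∈ D₁ ↔ e₂ k ∈ D₂
  /-- equal exit times -/
  exit : ∀ k, e₁ k ∈ D₁ → σ₁ (e₁ k) = σ₂ (e₂ k)
  /-- if a family contains a particle which is not common then it contains no common particle -/
  new₁ : ∀ j ∈ D₁, j ∉ range e₁ → ∀ k, e₁ k ∉ D₁
  new₂ : ∀ j ∈ D₂, j ∉ range e₂ → ∀ k, e₂ k ∉ D₂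
  /-- initial states: outside the families unchanged by the replacement -/
  out₁ : ∀ k, e₁ k ∉ D₁ → z₁' 0 (e₁ k) = z₁ 0 (e₁ k)
  out₂ : ∀ k, e₂ k ∉ D₂ → z₂' 0 (e₂ k) = z₂ 0 (e₂ k)
  /-- initial states: in the families the same in both worlds -/
  fam : ∀ k, e₁ k ∈ D₁ → z₁ 0 (e₁ k) = z₂ 0 (e₂ k)
  fam' : ∀ k, e₁ k ∈ D₁ → z₁' 0 (e₁ k) = z₂' 0 (e₂ k)

theorem Compat.symm (h : Compat z₁ z₁' z₂ z₂' e₁ e₂ D₁ D₂ σ₁ σ₂) :
    Compat z₂ z₂' z₁ z₁' e₂ e₁ D₂ D₁ σ₂ σ₁ where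
  mem_iff k := (h.mem_iff k).symm
  exit k hk := (h.exit k ((h.mem_iff k).2 hk)).symm
  new₁ := h.new₂
  new₂ := h.new₁
  out₁ := h.out₂
  out₂ := h.out₁
  fam k hk := (h.fam k ((h.mem_iff k).2 hk)).symm
  fam' k hk := (h.fam' k ((h.mem_iff k).2 hk)).symm

/-- A common particle of the family is not influenced before its exit time. The statement is for any
pair of relations contained in the contact relations of the real worlds, so it applies to the real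
worlds and to the worlds with lines. -/
theorem fut_visible (hc : Compat z₁ z₁' z₂ z₂' e₁ e₂ D₁ D₂ σ₁ σ₂)
    (hA₁ : Closed C₁ D₁ σ₁) (hA₂ : Closed C₂ D₂ σ₂)
    (hs₁ : ∀ s j k, C₁ s j k → C₁ s k j) (hs₂ : ∀ s j k, C₂ s j k → C₂ s k j)
    {B₁ : ℝ → ι₁ → ι₁ → Prop} {B₂ : ℝ → ι₂ → ι₂ → Prop} {y₁ : ℝ → ι₁ → X} {y₂ : ℝ → ι₂ → X}
    (hB₁ : ∀ s j k, B₁ s j k → C₁ s j k) (hB₂ : ∀ s j k, B₂ s j k → C₂ s j k)
    (hy : ∀ k, e₁ k ∈ D₁ → y₁ 0 (e₁ k) = y₂ 0 (e₂ k))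
    {s : ℝ} {k : κ} (h : Fut B₁ y₁ B₂ y₂ e₁ e₂ s k) (hk : e₁ k ∈ D₁) : σ₁ (e₁ k) < s := by
  induction h with
  | init h _ => exact absurd (hy _ hk) h
  | @new₁ s s' k j hj hc' _ hs =>
    by_contra hcon
    obtain ⟨h1, -⟩ := hA₁ s' _ j hk (hs.trans (not_lt.1 hcon)) (hs₁ _ _ _ (hB₁ _ _ _ hc'))
    exact hc.new₁ j h1 hj k hk
  | @new₂ s s' k j hj hc' _ hs =>
    by_contra hcon
    have hk2 : e₂ k ∈ D₂ := (hc.mem_iff k).1 hk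
    obtain ⟨h1, -⟩ := hA₂ s' _ j hk2 (by rw [← hc.exit k hk]; exact hs.trans (not_lt.1 hcon))
      (hs₂ _ _ _ (hB₂ _ _ _ hc'))
    exact hc.new₂ j h1 hj k hk2
  | @chain₁ s s' k l _ hc' hs ih =>
    by_contra hcon
    obtain ⟨h1, h2⟩ := hA₁ s' _ _ hk (hs.trans (not_lt.1 hcon)) (hs₁ _ _ _ (hB₁ _ _ _ hc'))
    exact absurd (ih h1) (not_lt.2 h2)
  | @chain₂ s s' k l _ hc' hs ih =>
    by_contra hcon
    have hk2 : e₂ k ∈ D₂ := (hc.mem_iff k).1 hk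
    obtain ⟨h1, h2⟩ := hA₂ s' _ _ hk2 (by rw [← hc.exit k hk]; exact hs.trans (not_lt.1 hcon))
      (hs₂ _ _ _ (hB₂ _ _ _ hc'))
    have h3 : e₁ l ∈ D₁ := (hc.mem_iff l).2 h1
    have h4 := ih h3
    rw [hc.exit l h3] at h4
    exact absurd h4 (not_lt.2 h2)

/-- **The influence is the same with the real family and with its exit lines.** -/
theorem fut_iff (hc : Compat z₁ z₁' z₂ z₂' e₁ e₂ D₁ D₂ σ₁ σ₂)
    (hA₁ : Closed C₁ D₁ σ₁) (hA₂ : Closed C₂ D₂ σ₂)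
    (hs₁ : ∀ s j k, C₁ s j k → C₁ s k j) (hs₂ : ∀ s j k, C₂ s j k → C₂ s k j)
    (hL₁ : Lines C₁ C₁' D₁ σ₁) (hL₂ : Lines C₂ C₂' D₂ σ₂) {s : ℝ} {k : κ} :
    Fut C₁ z₁ C₂ z₂ e₁ e₂ s k ↔ Fut C₁' z₁' C₂' z₂' e₁ e₂ s k := by
  constructor
  · intro h
    induction h with
    | @init s k h h0 =>
      have h1 : e₁ k ∉ D₁ := fun h1 => h (hc.fam k h1)
      have h2 : e₂ k ∉ D₂ := fun h2 => h1 ((hc.mem_iff k).2 h2)
      exact .init (by rw [hc.out₁ k h1, hc.out₂ k h2]; exact h) h0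
    | @new₁ s s' k j hj hc' h0 hs =>
      refine .new₁ j hj (hL₁.of_strict _ _ _ hc' ?_ ?_) h0 hs
      · intro hjD
        by_contra hcon
        exact hc.new₁ j hjD hj k (hA₁ _ _ _ hjD (not_lt.1 hcon) hc').1
      · intro hkD
        by_contra hcon
        exact hc.new₁ j (hA₁ _ _ _ hkD (not_lt.1 hcon) (hs₁ _ _ _ hc')).1 hj k hkD
    | @new₂ s s' k j hj hc' h0 hs =>
      refine .new₂ j hj (hL₂.of_strict _ _ _ hc' ?_ ?_) h0 hs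
      · intro hjD
        by_contra hcon
        exact hc.new₂ j hjD hj k (hA₂ _ _ _ hjD (not_lt.1 hcon) hc').1
      · intro hkD
        by_contra hcon
        exact hc.new₂ j (hA₂ _ _ _ hkD (not_lt.1 hcon) (hs₂ _ _ _ hc')).1 hj k hkD
    | @chain₁ s s' k l hl hc' hs ih =>
      have hv : e₁ l ∈ D₁ → σ₁ (e₁ l) < s' := fun h =>
        fut_visible hc hA₁ hA₂ hs₁ hs₂ (fun _ _ _ h => h) (fun _ _ _ h => h) hc.fam hl h
      refine .chain₁ ih (hL₁.of_strict _ _ _ hc' hv ?_) hs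
      intro hkD
      by_contra hcon
      obtain ⟨h1, h2⟩ := hA₁ _ _ _ hkD (not_lt.1 hcon) (hs₁ _ _ _ hc')
      exact absurd (hv h1) (not_lt.2 h2)
    | @chain₂ s s' k l hl hc' hs ih =>
      have hv : e₂ l ∈ D₂ → σ₂ (e₂ l) < s' := fun h => by
        have h1 := (hc.mem_iff l).2 h
        rw [← hc.exit l h1]
        exact fut_visible hc hA₁ hA₂ hs₁ hs₂ (fun _ _ _ h => h) (fun _ _ _ h => h) hc.fam hl h1
      refine .chain₂ ih (hL₂.of_strict _ _ _ hc' hv ?_) hs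
      intro hkD
      by_contra hcon
      obtain ⟨h1, h2⟩ := hA₂ _ _ _ hkD (not_lt.1 hcon) (hs₂ _ _ _ hc')
      exact absurd (hv h1) (not_lt.2 h2)
  · intro h
    induction h with
    | @init s k h h0 =>
      have h1 : e₁ k ∉ D₁ := fun h1 => h (hc.fam' k h1)
      have h2 : e₂ k ∉ D₂ := fun h2 => h1 ((hc.mem_iff k).2 h2)
      exact .init (by rw [← hc.out₁ k h1, ← hc.out₂ k h2]; exact h) h0
    | @new₁ s s' k j hj hc' h0 hs => exact .new₁ j hj (hL₁.sub _ _ _ hc') h0 hs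
    | @new₂ s s' k j hj hc' h0 hs => exact .new₂ j hj (hL₂.sub _ _ _ hc') h0 hs
    | @chain₁ s s' k l hl hc' hs ih => exact .chain₁ ih (hL₁.sub _ _ _ hc') hs
    | @chain₂ s s' k l hl hc' hs ih => exact .chain₂ ih (hL₂.sub _ _ _ hc') hs

variable {P₁ P₁' : ℝ → ι₁ → Prop} {P₂ P₂' : ℝ → ι₂ → Prop}

/-- Touches are the same if the infected sets are the same. -/
theorem touched_iff (hc : Compat z₁ z₁' z₂ z₂' e₁ e₂ D₁ D₂ σ₁ σ₂)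
    (hA₁ : Closed C₁ D₁ σ₁) (hA₂ : Closed C₂ D₂ σ₂)
    (hs₁ : ∀ s j k, C₁ s j k → C₁ s k j) (hs₂ : ∀ s j k, C₂ s j k → C₂ s k j)
    (hL₁ : Lines C₁ C₁' D₁ σ₁) (hL₂ : Lines C₂ C₂' D₂ σ₂) {s : ℝ}
    (hP₁ : ∀ j, P₁ s j ↔ P₁' s j) (hP₂ : ∀ j, P₂ s j ↔ P₂' s j) :
    Touched C₁ z₁ C₂ z₂ e₁ e₂ P₁ P₂ s ↔ Touched C₁' z₁' C₂' z₂' e₁ e₂ P₁' P₂' s := by
  unfold CausalGen291.Touched
  simp only [hP₁, hP₂, fut_iff hc hA₁ hA₂ hs₁ hs₂ hL₁ hL₂]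

/-- A touch of the real worlds is a touch of the worlds with lines. -/
theorem touched_lines (hc : Compat z₁ z₁' z₂ z₂' e₁ e₂ D₁ D₂ σ₁ σ₂)
    (hA₁ : Closed C₁ D₁ σ₁) (hA₂ : Closed C₂ D₂ σ₂)
    (hs₁ : ∀ s j k, C₁ s j k → C₁ s k j) (hs₂ : ∀ s j k, C₂ s j k → C₂ s k j)
    (hL₁ : Lines C₁ C₁' D₁ σ₁) (hL₂ : Lines C₂ C₂' D₂ σ₂) {s : ℝ}
    (hP₁ : ∀ j, P₁ s j → P₁' s j) (hP₂ : ∀ j, P₂ s j → P₂' s j)
    (h : Touched C₁ z₁ C₂ z₂ e₁ e₂ P₁ P₂ s) :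
    Touched C₁' z₁' C₂' z₂' e₁ e₂ P₁' P₂' s := by
  rcases h with ⟨k, hk, h⟩ | ⟨j, hj, h⟩ | ⟨j, hj, h⟩
  · exact Or.inl ⟨k, (fut_iff hc hA₁ hA₂ hs₁ hs₂ hL₁ hL₂).1 hk, h.imp (hP₁ _) (hP₂ _)⟩
  · exact Or.inr (Or.inl ⟨j, hj, hP₁ _ h⟩)
  · exact Or.inr (Or.inr ⟨j, hj, hP₂ _ h⟩)

/-- **The touch time is the same with the real family and with its exit lines.** -/
theorem theta_eq (hc : Compat z₁ z₁' z₂ z₂' e₁ e₂ D₁ D₂ σ₁ σ₂)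
    (hA₁ : Closed C₁ D₁ σ₁) (hA₂ : Closed C₂ D₂ σ₂)
    (hs₁ : ∀ s j k, C₁ s j k → C₁ s k j) (hs₂ : ∀ s j k, C₂ s j k → C₂ s k j)
    (hL₁ : Lines C₁ C₁' D₁ σ₁) (hL₂ : Lines C₂ C₂' D₂ σ₂) {a T : ℝ}
    (hP₁ : ∀ s ∈ Icc a T, ∀ j, P₁ s j ↔ P₁' s j) (hP₂ : ∀ s ∈ Icc a T, ∀ j, P₂ s j ↔ P₂' s j) :
    theta C₁ z₁ C₂ z₂ e₁ e₂ a T P₁ P₂ = theta C₁' z₁' C₂' z₂' e₁ e₂ a T P₁' P₂' :=
  le_antisymm
    (theta_le_theta fun s hs h =>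
      (touched_iff hc hA₁ hA₂ hs₁ hs₂ hL₁ hL₂ (hP₁ s hs) (hP₂ s hs)).2 h)
    (theta_le_theta fun s hs h =>
      (touched_iff hc hA₁ hA₂ hs₁ hs₂ hL₁ hL₂ (hP₁ s hs) (hP₂ s hs)).1 h)

theorem theta_lines_le (hc : Compat z₁ z₁' z₂ z₂' e₁ e₂ D₁ D₂ σ₁ σ₂)
    (hA₁ : Closed C₁ D₁ σ₁) (hA₂ : Closed C₂ D₂ σ₂)
    (hs₁ : ∀ s j k, C₁ s j k → C₁ s k j) (hs₂ : ∀ s j k, C₂ s j k → C₂ s k j)
    (hL₁ : Lines C₁ C₁' D₁ σ₁) (hL₂ : Lines C₂ C₂' D₂ σ₂) {a T : ℝ}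
    (hP₁ : ∀ s ∈ Icc a T, ∀ j, P₁ s j → P₁' s j) (hP₂ : ∀ s ∈ Icc a T, ∀ j, P₂ s j → P₂' s j) :
    theta C₁' z₁' C₂' z₂' e₁ e₂ a T P₁' P₂' ≤ theta C₁ z₁ C₂ z₂ e₁ e₂ a T P₁ P₂ :=
  theta_le_theta fun s hs h =>
    touched_lines hc hA₁ hA₂ hs₁ hs₂ hL₁ hL₂ (hP₁ s hs) (hP₂ s hs) h

/-! ### The rule `K <` marked size -/

section rule

variable [Fintype ι₁] [Fintype ι₂] {m₁ : ι₁ → ℕ} {m₂ : ι₂ → ℕ} {K : ℕ} {a T : ℝ}


/-- The data of a clean family replaced by its exit lines. -/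
structure Repl {ι : Type*} [Fintype ι] (C C' : ℝ → ι → ι → Prop) (m : ι → ℕ) (D : Set ι)
    (σ : ι → ℝ) (K : ℕ) : Prop where
  symm : ∀ s j k, C s j k → C s k j
  closed : Closed C D σ
  lines : Lines C C' D σ
  pos : ∀ j ∈ D, 0 ≤ σ j
  clean : ∀ j ∈ D, msize C m (σ j) j ≤ K


theorem Repl.infd_lines {ι : Type*} [Fintype ι] {C C' : ℝ → ι → ι → Prop} {m : ι → ℕ} {D : Set ι}
    {σ : ι → ℝ} (h : Repl C C' m D σ K) {t : ℝ} {i : ι} (hi : Infd C m K t i) :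
    Infd C' (lmark C m D σ) K t i :=
  infd_lines_all h.closed h.symm h.lines h.pos h.clean hi



end rule

end Crest.Agent.R122.Lines255
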