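import Mathlib
import Crest.Prelude.Def_KineticLimit
import Crest.Agent.R122.BirthsEvo_45

/-!
# Worlds with births (row 122, block INS, helper45), part 3: hiding and unhiding groups

* `lineAt`, `rebirthPath`, `BWorld.rebirth`: postpone the births of some particles to later times
  `b'`. If at every time the visible particles (`b' i ≤ t`) are at distance at least `ε` from the
  hidden ones (`b j ≤ t < b' j`), then the visible particles form a world with births `b'`.
  Applications: a clean unhit cluster `D` is the family of its exit lines born at their exit times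
  (plus the root line born at its last vertex); after an isolated encounter of a line `l` with a
  particle `c` the world `Z + l` is the world `Z₀ + l' + c'`; an isolated particle may be born later.
* `BWorld.unhide`: the converse (factorisation).
* `BWorld.restrict`: an isolated sub-family is a world with births.
* `insW`: insertion of a family of lines; `BWorld.insert_free`: untouched insertion.
-/

set_option autoImplicit false
set_option linter.unusedSectionVars false

open MeasureTheory Set Filter Topology
open scoped NNReal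
open Crest.AnalysisR.Kinetic
open Crest.Agent.R122.Flow671 Crest.Agent.R122.Loc45

namespace Crest.Agent.R122.Ins45

noncomputable section

variable {Φ : Space3 → ℝ} {ε : ℝ} {ι κ μ : Type*} [Fintype ι] [Fintype κ]

/-- The state at time `t` of the free path which is in the state `z` at time `τ`. -/
def lineAt (τ : ℝ) (z : PhasePoint) (t : ℝ) : PhasePoint := (z.1 + (t - τ) • z.2, z.2)

@[simp] theorem lineAt_self (τ : ℝ) (z : PhasePoint) : lineAt τ z τ = z := by
  simp [lineAt]

theorem lineAt_lineAt (τ s t : ℝ) (z : PhasePoint) : lineAt s (lineAt τ z s) t = lineAt τ z t := by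
  unfold lineAt
  refine Prod.ext ?_ rfl
  simp only
  rw [add_assoc, ← add_smul]
  congr 2
  ring

theorem continuous_lineAt (τ : ℝ) (z : PhasePoint) : Continuous (lineAt τ z) := by
  unfold lineAt
  fun_prop

theorem hasDerivAt_lineAt (τ : ℝ) (z : PhasePoint) (t : ℝ) :
    HasDerivAt (lineAt τ z) ((lineAt τ z t).2, 0) t := by
  have h1 : HasDerivAt (fun t : ℝ => z.1 + (t - τ) • z.2) z.2 t := by
    have h4 : HasDerivAt (fun t : ℝ => (t - τ) • z.2) ((1 : ℝ) • z.2) t :=
      ((hasDerivAt_id t).sub_const τ).smul_const _
    rw [one_smul] at h4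
    exact h4.const_add _
  exact h1.prodMk (hasDerivAt_const _ _)


/-- A world with births: in coordinates, an unborn particle is on its free line. -/
theorem BWorld.lineAt_of_unborn (hΦ : AdmissiblePotential Φ) (hε : 0 < ε) {b : ι → ℝ} {t₀ : ℝ}
    {X : ℝ → ι → PhasePoint} (hX : BWorld Φ ε b t₀ X) (i : ι) {t : ℝ} (ht₀ : t₀ ≤ t)
    (ht : t ≤ b i) : X t i = lineAt (b i) (X (b i) i) t := by
  rw [hX.free_of_unborn hΦ hε i ht₀ ht, hX.free_of_unborn hΦ hε i (ht₀.trans ht) le_rfl]
  unfold lineAt
  refine Prod.ext ?_ rfl
  simp only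
  rw [add_assoc, ← add_smul]
  congr 2
  ring

/-! ### Hiding -/

/-- Path of the world in which the births are postponed to `b'`. -/
def rebirthPath (b' : ι → ℝ) (X : ℝ → ι → PhasePoint) (t : ℝ) (i : ι) : PhasePoint :=
  if t < b' i then lineAt (b' i) (X (b' i) i) t else X t i

omit [Fintype ι] in
theorem rebirthPath_of_le {b' : ι → ℝ} {X : ℝ → ι → PhasePoint} {t : ℝ} {i : ι} (h : b' i ≤ t) :
    rebirthPath b' X t i = X t i := by
  unfold rebirthPath
  rw [if_neg (not_lt.2 h)]

omit [Fintype ι] in
theorem rebirthPath_of_ge {b' : ι → ℝ} {X : ℝ → ι → PhasePoint} {t : ℝ} {i : ι} (h : t ≤ b' i) :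
    rebirthPath b' X t i = lineAt (b' i) (X (b' i) i) t := by
  rcases h.lt_or_eq with h | h
  · unfold rebirthPath
    rw [if_pos h]
  · subst h
    rw [rebirthPath_of_le le_rfl, lineAt_self]

/-- **Hiding lemma.** -/
theorem BWorld.rebirth (hΦ : AdmissiblePotential Φ) (hε : 0 < ε) {b b' : ι → ℝ}
    {t₀ : ℝ} {X : ℝ → ι → PhasePoint} (hX : BWorld Φ ε b t₀ X) (hbb' : ∀ i, b i ≤ b' i)
    (hfar : ∀ t, t₀ ≤ t → ∀ i j, b' i ≤ t → b j ≤ t → t < b' j → ε ≤ dist (X t i).1 (X t j).1) :
    BWorld Φ ε b' t₀ (rebirthPath b' X) where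
  cont := by
    refine continuousOn_pi.2 fun i => ?_
    by_cases hi : b' i ≤ t₀
    · refine (hX.cont_apply i).congr fun t ht => ?_
      exact rebirthPath_of_le (hi.trans ht)
    · push Not at hi
      have h3 : Ici t₀ = Icc t₀ (b' i) ∪ Ici (b' i) := by
        ext t
        simp only [mem_Ici, mem_union, mem_Icc]
        constructor
        · intro h
          rcases le_total t (b' i) with h' | h'
          · exact Or.inl ⟨h, h'⟩
          · exact Or.inr h'
        · rintro (h | h)
          · exact h.1
          · exact hi.le.trans h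
      rw [h3]
      refine ContinuousOn.union_of_isClosed ?_ ?_ isClosed_Icc isClosed_Ici
      · exact (continuous_lineAt _ _).continuousOn.congr fun t ht => rebirthPath_of_ge ht.2
      · exact ((hX.cont_apply i).mono (Ici_subset_Ici.2 hi.le)).congr fun t ht =>
          rebirthPath_of_le ht
  der t ht := by
    classical
    rw [hasDerivWithinAt_pi]
    intro i
    rcases lt_or_ge t (b' i) with hi | hi
    · -- hidden or unborn: free line
      rw [bf_of_unborn Φ ε _ hi, rebirthPath_of_ge hi.le]
      have h1 := (hasDerivAt_lineAt (b' i) (X (b' i) i) t).hasDerivWithinAt (s := Ici t)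
      refine h1.congr_of_eventuallyEq ?_ (rebirthPath_of_ge hi.le)
      filter_upwards [Icc_mem_nhdsGE hi] with u hu
      exact rebirthPath_of_ge hu.2
    · have h1 := (hasDerivWithinAt_pi.1 (hX.der t ht)) i
      have h2 : bf Φ ε b' t (rebirthPath b' X t) i = bf Φ ε b t (X t) i := by
        unfold bf
        rw [if_pos hi, if_pos ((hbb' i).trans hi), rebirthPath_of_le hi]
        congr 2
        refine Finset.sum_congr rfl fun j _ => ?_
        by_cases hj : b' j ≤ t
        · rw [if_pos hj, if_pos ((hbb' j).trans hj), rebirthPath_of_le hj]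
        · rw [if_neg hj]
          by_cases hj' : b j ≤ t
          · rw [if_pos hj']
            exact (grad_far hΦ hε (hfar t ht i j hi hj' (not_le.1 hj))).symm
          · rw [if_neg hj']
      rw [h2]
      exact h1.congr (fun u hu => rebirthPath_of_le (hi.trans hu)) (rebirthPath_of_le hi)
  dom t ht := by
    refine (hX.dom t ht).imp id fun h i j hij hi hj => ?_
    rw [rebirthPath_of_le hi, rebirthPath_of_le hj]
    exact h i j hij ((hbb' i).trans hi) ((hbb' j).trans hj)

/-- Particles whose birth is not postponed keep their paths. -/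
theorem BWorld.rebirth_eq (hΦ : AdmissiblePotential Φ) (hε : 0 < ε) {b b' : ι → ℝ}
    {t₀ : ℝ} {X : ℝ → ι → PhasePoint} (hX : BWorld Φ ε b t₀ X) {i : ι} (hi : b' i = b i) {t : ℝ}
    (ht : t₀ ≤ t) : rebirthPath b' X t i = X t i := by
  rcases le_total (b' i) t with h | h
  · exact rebirthPath_of_le h
  · rw [rebirthPath_of_ge h, hi, hX.lineAt_of_unborn hΦ hε i ht (hi ▸ h)]

/-! ### Restriction to an isolated sub-family -/

/-- An isolated sub-family of a world with births is a world with births. -/
theorem BWorld.restrict (hΦ : AdmissiblePotential Φ) (hε : 0 < ε) {b : κ → ℝ} {t₀ : ℝ}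
    {X : ℝ → κ → PhasePoint} (hX : BWorld Φ ε b t₀ X) (e : ι ↪ κ)
    (hfar : ∀ t, t₀ ≤ t → ∀ i, b (e i) ≤ t → ∀ j, j ∉ range e → b j ≤ t →
      ε ≤ dist (X t (e i)).1 (X t j).1) :
    BWorld Φ ε (fun i => b (e i)) t₀ (fun t i => X t (e i)) where
  cont := continuousOn_pi.2 fun i => hX.cont_apply (e i)
  der t ht := by
    classical
    rw [hasDerivWithinAt_pi]
    intro i
    have h1 := (hasDerivWithinAt_pi.1 (hX.der t ht)) (e i)
    have h2 : bf Φ ε (fun i => b (e i)) t (fun i => X t (e i)) i = bf Φ ε b t (X t) (e i) := by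
      unfold bf
      by_cases hi : b (e i) ≤ t
      · rw [if_pos hi, if_pos hi]
        congr 2
        symm
        rw [← Finset.sum_subset (Finset.subset_univ (Finset.univ.map e)), Finset.sum_map]
        intro j _ hj
        by_cases hj' : b j ≤ t
        · rw [if_pos hj']
          refine grad_far hΦ hε (hfar t ht i hi j ?_ hj')
          rintro ⟨k, rfl⟩
          exact hj (by simp)
        · rw [if_neg hj']
      · rw [if_neg hi, if_neg hi]
    rw [h2]
    exact h1
  dom t ht := (hX.dom t ht).imp id fun h i j hij hi hj =>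
    h (e i) (e j) (fun h' => hij (e.injective h')) hi hj

/-- Relabelling. -/
theorem BWorld.equiv {b : κ → ℝ} {t₀ : ℝ}
    {X : ℝ → κ → PhasePoint} (hX : BWorld Φ ε b t₀ X) (σ : ι ≃ κ) :
    BWorld Φ ε (fun i => b (σ i)) t₀ (fun t i => X t (σ i)) where
  cont := continuousOn_pi.2 fun i => hX.cont_apply (σ i)
  der t ht := by
    classical
    rw [hasDerivWithinAt_pi]
    intro i
    have h1 := (hasDerivWithinAt_pi.1 (hX.der t ht)) (σ i)
    have h2 : bf Φ ε (fun i => b (σ i)) t (fun i => X t (σ i)) i = bf Φ ε b t (X t) (σ i) := by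
      unfold bf
      by_cases hi : b (σ i) ≤ t
      · rw [if_pos hi, if_pos hi]
        congr 2
        exact Fintype.sum_equiv σ _ _ fun j => rfl
      · rw [if_neg hi, if_neg hi]
    rw [h2]
    exact h1
  dom t ht := (hX.dom t ht).imp id fun h i j hij hi hj =>
    h (σ i) (σ j) (fun h' => hij (σ.injective h')) hi hj


/-- A single line is a world with births. -/
theorem bworld_line (hΦ : AdmissiblePotential Φ) (τ : ℝ) (z : PhasePoint) (t₀ : ℝ) :
    BWorld Φ ε (fun _ : Unit => τ) t₀ (fun t _ => lineAt τ z t) where
  cont := (continuous_pi fun _ => continuous_lineAt τ z).continuousOn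
  der t _ := by
    classical
    rw [hasDerivWithinAt_pi]
    intro x
    have h2 : bf Φ ε (fun _ : Unit => τ) t (fun _ => lineAt τ z t) x = ((lineAt τ z t).2, 0) := by
      unfold bf
      by_cases h : τ ≤ t
      · simp [h, grad_origin hΦ]
      · simp [h]
    rw [h2]
    exact (hasDerivAt_lineAt τ z t).hasDerivWithinAt
  dom t _ := Or.inr fun i j hij => absurd (Subsingleton.elim i j) hij

/-! ### Unhiding -/



end

end Crest.Agent.R122.Ins45
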