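import Mathlib
import Crest.Prelude.Def_KineticLimit
import Crest.Agent.R122.Rebirth_45
import Crest.Agent.R122.CtB_879
import Crest.Agent.R122.CausalGen_291
import Crest.Agent.R122.Lines1_255

-- ▼ part R122/ReplPath_302
section

/-!
# Replacement of a cluster by its exit lines (row 122, block A9), trajectories (helper302)

`X` is a world with births `b`, `D` a set of particles with exit times `σ` (`b ≤ σ`, `σ = b` off
`D`), such that before their exits the particles of `D` are in contact only with particles of `D`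
which have not exited either (`Sealed`). Then `lines b' = σ`: the path `rebirthPath σ X` is a world
with births `σ`, in which every particle of `D` is a line born at its exit time, all the others
have the same paths, and the contacts are the contacts of `X` between visible particles.
-/

set_option autoImplicit false
set_option linter.unusedSectionVars false

open MeasureTheory Set Filter Topology
open Crest.AnalysisR.Kinetic
open Crest.Agent.R122.Flow671 Crest.Agent.R122.Loc45 Crest.Agent.R122.Ins45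
open Crest.Agent.R122.Causal291 Crest.Agent.R122.Inf879

namespace Crest.Agent.R122.Repl302

noncomputable section

/-- The particles of `D` are in contact, before their exit times `σ`, only with particles of `D`
which have not exited. -/
def SealedD {ι : Type*} (C : ℝ → ι → ι → Prop) (D : Set ι) (σ : ι → ℝ) (t₀ : ℝ) : Prop :=
  ∀ s j k, t₀ ≤ s → j ∈ D → s ≤ σ j → C s j k → k ∈ D ∧ s ≤ σ k

variable {Φ : Space3 → ℝ} {ε : ℝ} {ι : Type*} [Fintype ι]
variable {b σ : ι → ℝ} {t₀ : ℝ} {X : ℝ → ι → PhasePoint} {D : Set ι}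

theorem mem_of_hidden (hoff : ∀ i, i ∉ D → σ i = b i) {t : ℝ} {j : ι} (hj : b j ≤ t)
    (hj' : t < σ j) : j ∈ D := by
  by_contra h
  rw [hoff j h] at hj'
  exact absurd hj' (not_lt.2 hj)

/-- A visible particle is at distance at least `ε` from a hidden one. -/
theorem le_dist_of_sealed (hX : BWorld Φ ε b t₀ X) (hbσ : ∀ i, b i ≤ σ i)
    (hoff : ∀ i, i ∉ D → σ i = b i) (hD : SealedD (CtB b X ε) D σ t₀) {t : ℝ} (ht : t₀ ≤ t)
    {i j : ι} (hi : σ i ≤ t) (hj : b j ≤ t) (hj' : t < σ j) :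
    ε ≤ dist (X t i).1 (X t j).1 := by
  by_contra hcon
  push Not at hcon
  have hjD : j ∈ D := mem_of_hidden hoff hj hj'
  have hc : ContinuousOn (fun s => dist (X s i).1 (X s j).1) (Ici t₀) :=
    continuous_dist.comp_continuousOn ((hX.cont_pos i).prodMk (hX.cont_pos j))
  have h1 : ∀ᶠ s in 𝓝[>] t, dist (X s i).1 (X s j).1 < ε := by
    have h2 : ContinuousWithinAt (fun s => dist (X s i).1 (X s j).1) (Ioi t) t :=
      (hc t ht).mono fun s hs => ht.trans (le_of_lt hs)
    exact h2.eventually_lt_const hcon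
  have h2 : ∀ᶠ s in 𝓝[>] t, s < σ j := by
    filter_upwards [Ioo_mem_nhdsGT hj'] with s hs using hs.2
  obtain ⟨s, ⟨hs1, hs2⟩, hs3⟩ := ((h1.and h2).and self_mem_nhdsWithin).exists
  have hs3' : t < s := hs3
  have hC : CtB b X ε s j i := by
    refine ⟨hj.trans hs3'.le, ((hbσ i).trans hi).trans hs3'.le, Or.inr (Or.inl ?_), ?_⟩
    · exact hj.trans_lt hs3'
    · rw [dist_comm]; exact hs1.le
  have h3 := hD s j i (ht.trans hs3'.le) hjD hs2.le hC
  exact absurd (hi.trans_lt hs3') (not_lt.2 h3.2)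

/-- **Replacement lemma, trajectories.** -/
theorem bworld_lines (hΦ : AdmissiblePotential Φ) (hε : 0 < ε) (hX : BWorld Φ ε b t₀ X)
    (hbσ : ∀ i, b i ≤ σ i) (hoff : ∀ i, i ∉ D → σ i = b i)
    (hD : SealedD (CtB b X ε) D σ t₀) :
    BWorld Φ ε σ t₀ (rebirthPath σ X) :=
  hX.rebirth hΦ hε hbσ fun _ ht _ _ hi hj hj' => le_dist_of_sealed hX hbσ hoff hD ht hi hj hj'


/-- Contacts of the world with lines: contacts of `X` between visible particles. -/
theorem ctB_lines {s : ℝ} {j k : ι} (hbσ : ∀ i, b i ≤ σ i) :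
    CtB σ (rebirthPath σ X) ε s j k ↔
      σ j ≤ s ∧ σ k ≤ s ∧ (j = k ∨ σ j < s ∨ σ k < s) ∧ CtB b X ε s j k := by
  constructor
  · rintro ⟨h1, h2, h3, h4⟩
    rw [rebirthPath_of_le h1, rebirthPath_of_le h2] at h4
    refine ⟨h1, h2, h3, (hbσ j).trans h1, (hbσ k).trans h2, ?_, h4⟩
    rcases h3 with h3 | h3 | h3
    · exact Or.inl h3
    · exact Or.inr (Or.inl ((hbσ j).trans_lt h3))
    · exact Or.inr (Or.inr ((hbσ k).trans_lt h3))
  · rintro ⟨h1, h2, h3, _, _, _, h4⟩
    refine ⟨h1, h2, h3, ?_⟩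
    rw [rebirthPath_of_le h1, rebirthPath_of_le h2]
    exact h4

/-- First half of the interface with the relational core. -/
theorem ctB_lines_of_ctB {s : ℝ} {j k : ι} (hbσ : ∀ i, b i ≤ σ i) (hoff : ∀ i, i ∉ D → σ i = b i)
    (h : CtB b X ε s j k) (hj : j ∈ D → σ j < s) (hk : k ∈ D → σ k < s) :
    CtB σ (rebirthPath σ X) ε s j k := by
  have hj1 : σ j ≤ s := by
    by_cases hjD : j ∈ D
    · exact (hj hjD).le
    · rw [hoff j hjD]; exact h.1
  have hk1 : σ k ≤ s := by
    by_cases hkD : k ∈ D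
    · exact (hk hkD).le
    · rw [hoff k hkD]; exact h.2.1
  refine (ctB_lines hbσ).2 ⟨hj1, hk1, ?_, h⟩
  by_cases hjD : j ∈ D
  · exact Or.inr (Or.inl (hj hjD))
  by_cases hkD : k ∈ D
  · exact Or.inr (Or.inr (hk hkD))
  rw [hoff j hjD, hoff k hkD]
  exact h.2.2.1

/-- Second half of the interface with the relational core. -/
theorem ctB_of_ctB_lines {s : ℝ} {j k : ι} (hbσ : ∀ i, b i ≤ σ i)
    (h : CtB σ (rebirthPath σ X) ε s j k) :
    CtB b X ε s j k ∧ (j ∈ D → σ j ≤ s) ∧ (k ∈ D → σ k ≤ s) :=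
  let h' := (ctB_lines hbσ).1 h
  ⟨h'.2.2.2, fun _ => h'.1, fun _ => h'.2.1⟩


end

end Crest.Agent.R122.Repl302
end

-- ▼ part R122/ReplOwn_302

/-!
# Replacement of a cluster by its exit lines (row 122, block A9), clusters and own worlds

* `closed_cluster`, `closed_cluster_root`: the backward cluster `D` of `(c, T)` with the last
  activity times `tau` (the root line may be born at the last contact of the root) is closed in the
  sense of `Lines255.Closed`.
* `bworld_of_closed`, `lines_ctB`: the world with lines and its contact relation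
  (`Lines255.Lines`).
* `own_past_iff`, `tau_eq_of_compare`, `closed_of_compare`: the cluster in its own isolated world and
  in the big world.
-/

set_option autoImplicit false
set_option linter.unusedSectionVars false

open MeasureTheory Set Filter Topology
open Crest.AnalysisR.Kinetic
open Crest.Agent.R122.Flow671 Crest.Agent.R122.Loc45 Crest.Agent.R122.Ins45
open Crest.Agent.R122.Causal291 Crest.Agent.R122.Inf879 Crest.Agent.R122.CausalGen291
open Crest.Agent.R122.Lines255

namespace Crest.Agent.R122.Repl302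

noncomputable section

/-! ### Clusters -/

section cluster

variable {ι : Type*} {C : ℝ → ι → ι → Prop} {T : ℝ} {c : ι}



variable {ρ : ℝ} {b : ι → ℝ}






end cluster

/-! ### The world with lines -/

section lines

variable {Φ : Space3 → ℝ} {ε : ℝ} {ι : Type*} [Fintype ι]
variable {b σ : ι → ℝ} {t₀ : ℝ} {X : ℝ → ι → PhasePoint} {D : Set ι}

/-- **World with lines**, from `Lines255.Closed`. -/
theorem bworld_of_closed (hΦ : AdmissiblePotential Φ) (hε : 0 < ε) (hX : BWorld Φ ε b t₀ X)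
    (hbσ : ∀ i, b i ≤ σ i) (hoff : ∀ i, i ∉ D → σ i = b i) (hD : Closed (CtB b X ε) D σ) :
    BWorld Φ ε σ t₀ (rebirthPath σ X) :=
  bworld_lines hΦ hε hX hbσ hoff fun s j k _ hj hs hc => hD s j k hj hs hc

/-- The contact relation of the world with lines. -/
theorem lines_ctB (hbσ : ∀ i, b i ≤ σ i) (hoff : ∀ i, i ∉ D → σ i = b i) :
    Lines (CtB b X ε) (CtB σ (rebirthPath σ X) ε) D σ where
  of_strict _ _ _ h hj hk := ctB_lines_of_ctB hbσ hoff h hj hk
  sub _ _ _ h := (ctB_of_ctB_lines (D := D) hbσ h).1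
  left _ _ _ h hj := (ctB_of_ctB_lines hbσ h).2.1 hj
  right _ _ _ h hk := (ctB_of_ctB_lines hbσ h).2.2 hk

end lines

/-! ### Own isolated world -/

section own

variable {ι₁ ι₂ : Type} {S : Type*} {T t : ℝ}
variable {C₁ : ℝ → ι₁ → ι₁ → Prop} {C₂ : ℝ → ι₂ → ι₂ → Prop}
variable {z₁ : ℝ → ι₁ → S} {z₂ : ℝ → ι₂ → S} {e : ι₁ → ι₂} {r : ι₁}

/-- Result of the comparison of the isolated world `1` of a cluster with the big world `2`: equal
states and equal explorations from the root `(r, t)`. -/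
structure SameCluster (C₁ : ℝ → ι₁ → ι₁ → Prop) (z₁ : ℝ → ι₁ → S) (C₂ : ℝ → ι₂ → ι₂ → Prop)
    (z₂ : ℝ → ι₂ → S) (e : ι₁ → ι₂) (t : ℝ) (r : ι₁) : Prop where
  state : ∀ s ∈ Icc 0 t, ∀ k, Past C₁ t r s k → z₁ s k = z₂ s (e k)
  act : ∀ s ∈ Icc 0 t, ∀ x, Past C₂ t (e r) s x ↔ ∃ k, e k = x ∧ Past C₁ t r s k
  contact : ∀ s ∈ Icc 0 t, ∀ k l, Past C₁ t r s k → (C₁ s k l ↔ C₂ s (e k) (e l))


variable (H : SameCluster C₁ z₁ C₂ z₂ e t r) (he : Function.Injective e)
include H he

theorem SameCluster.past_iff {s : ℝ} (hs : s ∈ Icc 0 t) {k : ι₁} :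
    Past C₂ t (e r) s (e k) ↔ Past C₁ t r s k := by
  rw [H.act s hs]
  constructor
  · rintro ⟨l, hl, h⟩
    rwa [← he hl]
  · intro h
    exact ⟨k, rfl, h⟩

/-- Own pasts of the members are the same in the two worlds. -/
theorem SameCluster.own_past {s₁ : ℝ} {j : ι₁} (hj : Past C₁ t r s₁ j) {s : ℝ} (hs : 0 ≤ s)
    {x : ι₂} : Past C₂ s₁ (e j) s x ↔ ∃ k, e k = x ∧ Past C₁ s₁ j s k := by
  constructor
  · intro h
    induction h with
    | root h => exact ⟨j, rfl, .root h⟩
    | @step s s' y x h hc hss' ih =>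
      obtain ⟨l, rfl, hl⟩ := ih (hs.trans hss')
      have hs' : s' ∈ Icc 0 t := ⟨hs.trans hss', (hj.trans hl).le⟩
      have h1 : Past C₂ t (e r) s' x :=
        Past.contact ((H.act s' hs' _).2 ⟨l, rfl, hj.trans hl⟩) hc
      obtain ⟨k, rfl, _⟩ := (H.act s' hs' x).1 h1
      exact ⟨k, rfl, .step hl ((H.contact s' hs' l k (hj.trans hl)).2 hc) hss'⟩
  · rintro ⟨k, rfl, h⟩
    induction h with
    | root h => exact .root h
    | @step s s' l k h hc hss' ih =>
      have hs' : s' ∈ Icc 0 t := ⟨hs.trans hss', (hj.trans h).le⟩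
      exact .step (ih (hs.trans hss')) ((H.contact s' hs' l k (hj.trans h)).1 hc) hss'

theorem SameCluster.bc_eq (ht : 0 ≤ t) : BC C₂ t (e r) = e '' BC C₁ t r := by
  ext x
  simp only [mem_BC, mem_image]
  rw [H.act 0 ⟨le_rfl, ht⟩]
  exact ⟨fun ⟨k, h1, h2⟩ => ⟨k, h2, h1⟩, fun ⟨k, h1, h2⟩ => ⟨k, h2, h1⟩⟩


end own

end

end Crest.Agent.R122.Repl302
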