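import Crest.Agent.R122.Reborn_45
import Crest.Agent.R122.Lines3_255
import Crest.Agent.R122.ReplOwn_302

-- ▼ part R122/HitUse_45
section

/-!
# The one-contact lemma in entrance coordinates (row 122, block A7, helper45)

`GoodEnc.one_std`: (1.6) with the lines `lineL'`, `lineC'`, `lineC` of `OCout_796` (all born at the exit
time), `GoodEnc.hitE`: `Hit`, outgoing lines and undeflected line in one statement.

* `UnIso` : the UNDEFLECTED partner is isolated during the encounter.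
* `GoodEnc.path_c` : the path of `c` in `Z` during the encounter is the free line.
* `GoodEnc.reb_eq` : `reb cl s' = (lineC, Z.m c)`.
-/

set_option autoImplicit false
set_option linter.unusedSectionVars false

open MeasureTheory Set Filter Topology
open scoped ENNReal
open Crest.AnalysisR.Kinetic
open Crest.Agent.R122.Flow671 Crest.Agent.R122.Loc45 Crest.Agent.R122.Causal291
open Crest.Agent.R122.Inf879 Crest.Agent.R122.EDefs602 Crest.Agent.R122.Tree674
open Crest.Agent.R122.Scat818 Crest.Agent.R122.OCout796 Crest.Agent.R122.MWAlg255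

namespace Crest.Agent.R122.Ins45

noncomputable section

open scoped Classical

variable {ι : Type} [Fintype ι] {Φ : Space3 → ℝ} {ε : ℝ} {Z : MW ι} {l : ML} {c : ι}
  {s s' : ℝ} {y : Space3} {q : CD} {K : ℕ}

/-- The free line through `(s, (y, u))` keeps distance `> ε` to the particles of `rest Z c` during
`[s, s']`. -/
def UnIso (Φ : Space3 → ℝ) (ε : ℝ) (Z : MW ι) (c : ι) (s s' : ℝ) (z : PhasePoint) : Prop :=
  ∀ t (k : Oth c), s ≤ t → t ≤ s' → Z.b k ≤ t →
    ε < dist (lineAt s z t).1 ((rest Z c).path Φ ε t k).1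

/-- The path of an isolated line `c` in `Z`. -/
theorem UnIso.path_c {z : PhasePoint} (h : UnIso Φ ε Z c s s' z) (hΦ : AdmissiblePotential Φ)
    (hε : 0 < ε) (hZ : Z.Ok Φ ε) (hR : (rest Z c).Ok Φ ε) (hs : 0 ≤ s) (hbc : Z.b c ≤ s)
    (hfree : ∀ t k, t < s → Z.C Φ ε t c k → k = c) (hz : Z.path Φ ε s c = z) {t : ℝ}
    (ht : t ∈ Icc s s') :
    Z.path Φ ε t c = lineAt s z t ∧ ∀ k : Oth c, Z.path Φ ε t k = (rest Z c).path Φ ε t k := by
  have hline : BWorld Φ ε (fun _ : Unit => Z.b c) s (fun t _ => lineAt s z t) :=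
    (bworld_line hΦ s z s).congr_births fun _ r hr => ⟨fun _ => hbc.trans hr, fun _ => hr⟩
  have key := BWorld.agree_sum hΦ hε (b := Z.b) (t₀ := s)
    (X := fun t (_ : Unit) => lineAt s z t) (Y := (rest Z c).path Φ ε)
    (W := Z.path Φ ε) (e := fun _ : Unit => c) (f := (Subtype.val : Oth c → ι))
    (fun _ _ _ => rfl) Subtype.val_injective
    (fun x => by
      by_cases hx : x = c
      · exact Or.inl ⟨(), hx.symm⟩
      · exact Or.inr ⟨⟨x, hx⟩, rfl⟩)
    (hZ.bw.mono hs) hline (hR.bw.mono hs)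
    (fun _ => by rw [hz, lineAt_self])
    (fun k => (rest_path hΦ hε hZ hR hfree ⟨hs, le_rfl⟩ k).symm)
    (s := s') (fun r hr _ k _ hk => h r k hr.1 hr.2.le hk) t ht
  exact ⟨key.1 (), key.2⟩

theorem UnIso.free {z : PhasePoint} (h : UnIso Φ ε Z c s s' z) (hΦ : AdmissiblePotential Φ)
    (hε : 0 < ε) (hZ : Z.Ok Φ ε) (hR : (rest Z c).Ok Φ ε) (hs : 0 ≤ s) (hbc : Z.b c ≤ s)
    (hfree : ∀ t k, t < s → Z.C Φ ε t c k → k = c) (hz : Z.path Φ ε s c = z) (t : ℝ) (k : ι)
    (ht : t ≤ s') (hc : Z.C Φ ε t c k) : k = c := by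
  rcases lt_or_ge t s with h1 | h1
  · exact hfree t k h1 hc
  · by_contra hk
    have h2 := h.path_c hΦ hε hZ hR hs hbc hfree hz (t := t) ⟨h1, ht⟩
    have h3 : dist (Z.path Φ ε t c).1 (Z.path Φ ε t k).1 ≤ ε := hc.2.2.2
    rw [h2.1, h2.2 ⟨k, hk⟩] at h3
    exact absurd (h t ⟨k, hk⟩ h1 ht (MW.C_born' hc)) (not_lt.2 h3)

/-- A line without contact is on its free extension. -/
theorem path_line_of_free (hΦ : AdmissiblePotential Φ) (hε : 0 < ε) (hZ : Z.Ok Φ ε) {cl : ML}
    (hcl : IsLine Z c cl) (hfree : ∀ t k, t < s → Z.C Φ ε t c k → k = c) {t : ℝ}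
    (ht : t ∈ Icc 0 s) : Z.path Φ ε t c = lineAt cl.1.1 cl.1.2 t := by
  have h1 := hZ.bw.free hΦ hε c (a := 0) (T := s) le_rfl
    (fun r hr hb x hx hbx => hZ.bw.le_dist_of_not_ctB hr.1 hr.2 hb hbx fun r' hr' hc =>
      hx (hfree r' x hr'.2 hc)) t ht
  rw [h1, MW.path_zero hΦ hε, hcl.z, back_eq_lineAt]
  exact lineAt_lineAt cl.1.1 0 t cl.1.2

namespace GoodEnc

variable (h : GoodEnc Φ ε Z l c s y q) (hΦ : AdmissiblePotential Φ) (hε : 0 < ε)
  (hZ : Z.Ok Φ ε) (hZl : (Z.ins l).Ok Φ ε) (hR : (rest Z c).Ok Φ ε)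

include h hΦ hε hZ in
/-- The undeflected line, reborn at the exit time. -/
theorem reb_eq {cl : ML} (hcl : IsLine Z c cl) :
    reb cl (s + outT Φ ε q) = (lineC Φ ε s y q, Z.m c) := by
  have h1 := path_line_of_free (s := s) hΦ hε hZ hcl (fun t k ht => h.free t k ht.le)
    ⟨h.nonneg_s, le_rfl⟩
  rw [h.state_c] at h1
  unfold reb
  rw [hcl.m]
  refine Prod.ext (Prod.ext rfl ?_) rfl
  change lineAt cl.1.1 cl.1.2 (s + outT Φ ε q) = (lineC Φ ε s y q).2
  rw [← lineAt_lineAt cl.1.1 s (s + outT Φ ε q) cl.1.2, ← h1]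
  unfold lineAt lineC
  rw [add_sub_cancel_left]

include h hΦ hε hZ hR in
/-- The touch time of `c` in `Z₀` is the touch time of the line born at the exit time. -/
theorem thetaL_lineC {cl : ML} (hcl : IsLine Z c cl)
    (hu : UnIso Φ ε Z c s (s + outT Φ ε q) (y, q.2.1)) (T : ℝ) :
    (rest Z c).thetaL Φ ε K T (lineC Φ ε s y q, Z.m c) = (rest Z c).thetaL Φ ε K T cl ∧
      ((rest Z c).ins (lineC Φ ε s y q, Z.m c)).Ok Φ ε := by
  rw [← h.reb_eq hΦ hε hZ hcl]
  refine thetaL_reb_rest hΦ hε hZ hcl h.born ?_ ?_ T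
  · have := h.pass.outT_pos hε
    linarith [h.bc]
  · exact hu.free hΦ hε hZ hR h.nonneg_s h.bc (fun t k ht => h.free t k ht.le) h.state_c

include h hΦ hε hZ hZl hR in
/-- **(1.6) in entrance coordinates.** -/
theorem one_std (hRl : ((rest Z c).ins (lineL' Φ ε s y q, l.2 + Z.m c)).Ok Φ ε)
    (hK : l.2 + Z.m c ≤ K) {cl : ML} (hcl : IsLine Z c cl) (T : ℝ) :
    min ((rest Z c).thetaL Φ ε K T cl)
      (min ((rest Z c).thetaL Φ ε K T (lineL' Φ ε s y q, l.2 + Z.m c))
        (((rest Z c).ins (lineL' Φ ε s y q, l.2 + Z.m c)).thetaL Φ ε K T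
          (lineC' Φ ε s y q, l.2 + Z.m c))) ≤ Z.thetaL Φ ε K T l := by
  have h1 := h.outL_eq hΦ hε hZ hZl hR
  have h2 := h.outC_eq hΦ hε hZ hZl hR
  have h3 := (h.hit hΦ hε hZ hZl hR).one hΦ hε hZ hZl hR (by rw [h1]; exact hRl) hK hcl T
  rw [h1, h2] at h3
  exact h3

include h hΦ hε hZ hZl hR in
/-- **(1.6) in entrance coordinates**, undeflected line born at the exit time. -/
theorem one_std' (hRl : ((rest Z c).ins (lineL' Φ ε s y q, l.2 + Z.m c)).Ok Φ ε)
    (hK : l.2 + Z.m c ≤ K) {cl : ML} (hcl : IsLine Z c cl)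
    (hu : UnIso Φ ε Z c s (s + outT Φ ε q) (y, q.2.1)) (T : ℝ) :
    min ((rest Z c).thetaL Φ ε K T (lineC Φ ε s y q, Z.m c))
      (min ((rest Z c).thetaL Φ ε K T (lineL' Φ ε s y q, l.2 + Z.m c))
        (((rest Z c).ins (lineL' Φ ε s y q, l.2 + Z.m c)).thetaL Φ ε K T
          (lineC' Φ ε s y q, l.2 + Z.m c))) ≤ Z.thetaL Φ ε K T l := by
  rw [(h.thetaL_lineC hΦ hε hZ hR hcl hu T).1]
  exact h.one_std hΦ hε hZ hZl hR hRl hK hcl T

/-! ### No touch before the contact, direct touch, size crossing -/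

include h hΦ hε hZ hZl in
/-- No touch before the contact. -/
theorem le_thetaL (hl : l.2 ≤ K) {T : ℝ} (hsT : s ≤ T + 1) : s ≤ Z.thetaL Φ ε K T l := by
  by_contra hlt
  rw [not_le] at hlt
  have hex : ∃ r ∈ Icc 0 T, Z.Touched Φ ε K (MW.line l) r := by
    by_contra hno
    push Not at hno
    have h1 : Z.thetaL Φ ε K T l = T + 1 := MW.theta_eq_of_not_touched hno
    linarith
  have h1 : Z.thetaL Φ ε K T l = sInf {r | r ∈ Icc 0 T ∧ Z.Touched Φ ε K (MW.line l) r} := by
    unfold MW.thetaL MW.theta CausalGen291.theta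
    exact if_pos hex
  rw [h1] at hlt
  obtain ⟨r, hr, hrs⟩ := exists_lt_of_csInf_lt (by obtain ⟨r, hr, hr'⟩ := hex; exact ⟨r, hr, hr'⟩) hlt
  refine MW.not_touched_of_no_contact (s := r) (A := MW.line l) (Z := Z) hΦ hε ?_ ?_ hr.2
  · intro r' hr' x k hc
    cases x
    exact h.first.not_C hΦ hε hZ hZl h.nonneg (hr'.2.trans_lt hrs) k hc
  · simpa [MW.line, MW.lines] using hl



end GoodEnc

/-! ### First contact of the free line -/




end

end Crest.Agent.R122.Ins45
end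

-- ▼ part R122/RealLines_45

/-!
# A closed family of a world replaced by its lines (row 122, blocks A9/A7, helper45)

`Z` a marked world, `f : κ → α` labels of a family of particles of `Z`, `ls : κ → ML` marked lines.

* `lw Z f ls` : the world `Z` in which the particle `f i` is the line `ls i`.
* `FamIn Φ ε Z f ls` : up to the birth of its line every particle of the family is in contact only
  with particles of the family whose lines are not born yet; at its birth the line has the state of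
  the particle, and its mark is at least the size of the particle.
* `FamIn.path_lw`, `FamIn.path_eq`, `FamIn.path_off` : paths of the world with lines.
* `FamIn.C_lw` : a contact of the world with lines is a contact of `Z`.
* `FamIn.theta_le` : `θ (lw Z f ls, A) ≤ θ (Z, A)`.
* `FamIn.theta_eq` : equality under helper255's `NoDouble` if the marks are the sizes.
-/

set_option autoImplicit false
set_option linter.unusedSectionVars false

open MeasureTheory Set Filter Topology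
open scoped ENNReal
open Crest.AnalysisR.Kinetic
open Crest.Agent.R122.Flow671 Crest.Agent.R122.Loc45 Crest.Agent.R122.Causal291
open Crest.Agent.R122.Inf879 Crest.Agent.R122.EDefs602 Crest.Agent.R122.Lines255
open Crest.Agent.R122.Repl302 Crest.Agent.R122.MWAlg255

namespace Crest.Agent.R122.Ins45

noncomputable section

open scoped Classical

/-! ### Marks -/

theorem msize_mono_mark {α : Type} [Fintype α] {C : ℝ → α → α → Prop} {m m' : α → ℕ}
    (h : ∀ j, m j ≤ m' j) (t : ℝ) (i : α) : msize C m t i ≤ msize C m' t i := by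
  unfold msize
  refine Finset.sum_le_sum fun k _ => ?_
  by_cases hk : k ∈ BC C t i
  · rw [if_pos hk, if_pos hk]; exact h k
  · rw [if_neg hk, if_neg hk]

theorem infd_mono_mark {α : Type} [Fintype α] {C : ℝ → α → α → Prop} {m m' : α → ℕ} {K : ℕ}
    (h : ∀ j, m j ≤ m' j) {t : ℝ} {i : α} (hi : Infd C m K t i) : Infd C m' K t i :=
  lt_of_lt_of_le hi (msize_mono_mark h t i)

variable {α κ β : Type} [Fintype α] [Fintype κ] [Fintype β] {Φ : Space3 → ℝ} {ε : ℝ}
  {Z : MW α} {f : κ → α} {ls : κ → ML} {K : ℕ}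

/-- The world `Z` in which the particle `f i` is the line `ls i`. -/
def lw (Z : MW α) (f : κ → α) (ls : κ → ML) : MW α where
  b := Function.extend f (fun i => (ls i).1.1) Z.b
  z := Function.extend f (fun i => back (ls i).1) Z.z
  m := Function.extend f (fun i => (ls i).2) Z.m

/-- The family `f` of particles of `Z` is closed up to the births of the lines `ls`. -/
structure FamIn (Φ : Space3 → ℝ) (ε : ℝ) (Z : MW α) (f : κ → α) (ls : κ → ML) : Prop where
  inj : Function.Injective f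
  le : ∀ i, Z.b (f i) ≤ (ls i).1.1
  pos : ∀ i, 0 ≤ (ls i).1.1
  state : ∀ i, Z.path Φ ε (ls i).1.1 (f i) = (ls i).1.2
  closed : ∀ i t x, t ≤ (ls i).1.1 → Z.C Φ ε t (f i) x → ∃ j, x = f j ∧ t ≤ (ls j).1.1
  size : ∀ i, msize (Z.C Φ ε) Z.m (ls i).1.1 (f i) ≤ (ls i).2

theorem lw_b (hf : Function.Injective f) (i : κ) : (lw Z f ls).b (f i) = (ls i).1.1 :=
  hf.extend_apply (fun i => (ls i).1.1) Z.b i

theorem lw_z (hf : Function.Injective f) (i : κ) : (lw Z f ls).z (f i) = back (ls i).1 :=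
  hf.extend_apply (fun i => back (ls i).1) Z.z i

theorem lw_m (hf : Function.Injective f) (i : κ) : (lw Z f ls).m (f i) = (ls i).2 :=
  hf.extend_apply (fun i => (ls i).2) Z.m i

theorem lw_b_off {x : α} (hx : x ∉ range f) : (lw Z f ls).b x = Z.b x :=
  Function.extend_apply' (fun i => (ls i).1.1) Z.b x (fun ⟨i, hi⟩ => hx ⟨i, hi⟩)

theorem lw_z_off {x : α} (hx : x ∉ range f) : (lw Z f ls).z x = Z.z x :=
  Function.extend_apply' (fun i => back (ls i).1) Z.z x (fun ⟨i, hi⟩ => hx ⟨i, hi⟩)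

theorem lw_m_off {x : α} (hx : x ∉ range f) : (lw Z f ls).m x = Z.m x :=
  Function.extend_apply' (fun i => (ls i).2) Z.m x (fun ⟨i, hi⟩ => hx ⟨i, hi⟩)

theorem extend_sumElim {γ : Type*} (hf : Function.Injective f) (g : κ → γ) (a : α → γ) (b : β → γ) :
    Function.extend (fun i => (Sum.inl (f i) : α ⊕ β)) g (Sum.elim a b) =
      Sum.elim (Function.extend f g a) b := by
  have hf' : Function.Injective (fun i => (Sum.inl (f i) : α ⊕ β)) := Sum.inl_injective.comp hf
  funext x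
  rcases x with x | x
  · by_cases hx : x ∈ range f
    · obtain ⟨i, rfl⟩ := hx
      rw [Sum.elim_inl, hf.extend_apply]
      exact hf'.extend_apply g _ i
    · rw [Sum.elim_inl, Function.extend_apply' _ _ x (fun ⟨i, hi⟩ => hx ⟨i, hi⟩),
        Function.extend_apply' _ _ (Sum.inl x : α ⊕ β)
          (fun ⟨i, hi⟩ => hx ⟨i, Sum.inl_injective hi⟩)]
      rfl
  · rw [Sum.elim_inr, Function.extend_apply' _ _ (Sum.inr x : α ⊕ β)
      (fun ⟨i, hi⟩ => by cases hi)]
    rfl

/-- Insertion of a world and replacement commute. -/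
theorem lw_add (hf : Function.Injective f) (A : MW β) :
    lw (Z.add A) (fun i => Sum.inl (f i)) ls = (lw Z f ls).add A := by
  unfold lw MW.add
  simp only
  rw [extend_sumElim hf, extend_sumElim hf, extend_sumElim hf]

namespace FamIn

variable (h : FamIn Φ ε Z f ls) (hΦ : AdmissiblePotential Φ) (hε : 0 < ε)
  (hZ : BWorld Φ ε Z.b 0 (Z.path Φ ε))

include h in
theorem b_le (x : α) : Z.b x ≤ (lw Z f ls).b x := by
  by_cases hx : x ∈ range f
  · obtain ⟨i, rfl⟩ := hx
    rw [lw_b h.inj]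
    exact h.le i
  · rw [lw_b_off hx]

include h in
theorem closed' : Closed (Z.C Φ ε) (range f) (lw Z f ls).b := by
  rintro t _ x ⟨i, rfl⟩ ht hc
  rw [lw_b h.inj] at ht
  obtain ⟨j, rfl, hj⟩ := h.closed i t x ht hc
  exact ⟨⟨j, rfl⟩, by rw [lw_b h.inj]; exact hj⟩

include h hΦ hε hZ in
theorem bw_lines : BWorld Φ ε (lw Z f ls).b 0 (rebirthPath (lw Z f ls).b (Z.path Φ ε)) :=
  bworld_of_closed hΦ hε hZ h.b_le (fun _ hx => lw_b_off hx) h.closed'

include h hΦ hε hZ in
theorem rebirth_zero : rebirthPath (lw Z f ls).b (Z.path Φ ε) 0 = (lw Z f ls).z := by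
  funext x
  by_cases hx : x ∈ range f
  · obtain ⟨i, rfl⟩ := hx
    rw [rebirthPath_of_ge (by rw [lw_b h.inj]; exact h.pos i), lw_b h.inj, lw_z h.inj, h.state i]
    exact (back_eq_lineAt (ls i).1.1 (ls i).1.2).symm
  · rw [hZ.rebirth_eq hΦ hε (lw_b_off hx) le_rfl, lw_z_off hx, MW.path_zero hΦ hε]

include h hΦ hε hZ in
/-- **Paths of the world with lines.** -/
theorem path_lw {t : ℝ} (ht : 0 ≤ t) :
    (lw Z f ls).path Φ ε t = rebirthPath (lw Z f ls).b (Z.path Φ ε) t := by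
  rw [(h.bw_lines hΦ hε hZ).eq_evo hΦ hε ht, h.rebirth_zero hΦ hε hZ]
  rfl

include h hΦ hε hZ in
/-- Born particles. -/
theorem path_eq {t : ℝ} (ht : 0 ≤ t) {x : α} (hx : (lw Z f ls).b x ≤ t) :
    (lw Z f ls).path Φ ε t x = Z.path Φ ε t x := by
  rw [h.path_lw hΦ hε hZ ht, rebirthPath_of_le hx]


include h hΦ hε hZ in
theorem bw : BWorld Φ ε (lw Z f ls).b 0 ((lw Z f ls).path Φ ε) :=
  (h.bw_lines hΦ hε hZ).congr fun _ ht => h.path_lw hΦ hε hZ ht

variable (hb : ∀ x, 0 ≤ Z.b x)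

include h hΦ hε hZ hb in
theorem C_iff (t : ℝ) (x y : α) : (lw Z f ls).C Φ ε t x y ↔
    CtB (lw Z f ls).b (rebirthPath (lw Z f ls).b (Z.path Φ ε)) ε t x y := by
  rcases lt_or_ge t 0 with h0 | h0
  · exact ⟨fun h' => absurd (((hb x).trans (h.b_le x)).trans (MW.C_born h')) (not_le.2 h0),
      fun h' => absurd (((hb x).trans (h.b_le x)).trans h'.born) (not_le.2 h0)⟩
  · refine ctB_congr Iff.rfl rfl rfl ?_ ?_
    · rw [h.path_lw hΦ hε hZ h0]
    · rw [h.path_lw hΦ hε hZ h0]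

include h hΦ hε hZ hb in
theorem lines : Lines (Z.C Φ ε) ((lw Z f ls).C Φ ε) (range f) (lw Z f ls).b := by
  have h1 := lines_ctB (X := Z.path Φ ε) (ε := ε) (D := range f) h.b_le
    (fun _ hx => lw_b_off hx)
  exact ⟨fun s j k hc hj hk => (h.C_iff hΦ hε hZ hb s j k).2 (h1.of_strict s j k hc hj hk),
    fun s j k hc => h1.sub s j k ((h.C_iff hΦ hε hZ hb s j k).1 hc),
    fun s j k hc => h1.left s j k ((h.C_iff hΦ hε hZ hb s j k).1 hc),
    fun s j k hc => h1.right s j k ((h.C_iff hΦ hε hZ hb s j k).1 hc)⟩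

include h hΦ hε hZ hb in
/-- A contact of the world with lines is a contact of `Z`. -/
theorem C_sub {t : ℝ} {x y : α} (hc : (lw Z f ls).C Φ ε t x y) : Z.C Φ ε t x y :=
  (h.lines hΦ hε hZ hb).sub t x y hc

include h hΦ hε hZ hb in
/-- The data of helper255. -/
theorem repl (hK : ∀ i, (ls i).2 ≤ K) :
    Repl (Z.C Φ ε) ((lw Z f ls).C Φ ε) Z.m (range f) (lw Z f ls).b K where
  symm _ _ _ hc := MW.C_symm _ hc
  closed := h.closed'
  lines := h.lines hΦ hε hZ hb
  pos x _ := (hb x).trans (h.b_le x)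
  clean := by
    rintro _ ⟨i, rfl⟩
    rw [lw_b h.inj]
    exact (h.size i).trans (hK i)

include h in
theorem lmark_le (x : α) : lmark (Z.C Φ ε) Z.m (range f) (lw Z f ls).b x ≤ (lw Z f ls).m x := by
  by_cases hx : x ∈ range f
  · rw [lmark_of_mem hx]
    obtain ⟨i, rfl⟩ := hx
    rw [lw_b h.inj, lw_m h.inj]
    exact h.size i
  · rw [lmark_of_not_mem hx, lw_m_off hx]


include h hΦ hε hZ hb in
/-- Infected in `Z` implies infected in the world with lines. -/
theorem inf (hK : ∀ i, (ls i).2 ≤ K) {t : ℝ} {x : α} (hx : Z.Inf Φ ε K t x) :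
    (lw Z f ls).Inf Φ ε K t x :=
  infd_mono_mark h.lmark_le ((h.repl hΦ hε hZ hb hK).infd_lines hx)

/-- Common part of the two pairs of worlds. -/
theorem compat (A : MW β) (hΦ : AdmissiblePotential Φ) (hε : 0 < ε) :
    Compat (Z.path Φ ε) ((lw Z f ls).path Φ ε) ((Z.add A).path Φ ε)
      (((lw Z f ls).add A).path Φ ε) id Sum.inl (range f)
      (range fun i => (Sum.inl (f i) : α ⊕ β)) (lw Z f ls).b ((lw Z f ls).add A).b where
  mem_iff x := by
    constructor
    · rintro ⟨i, hi⟩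
      exact ⟨i, congrArg Sum.inl hi⟩
    · rintro ⟨i, hi⟩
      exact ⟨i, Sum.inl_injective hi⟩
  exit x _ := rfl
  new₁ x _ hx := absurd ⟨x, rfl⟩ hx
  new₂ := by
    rintro _ ⟨i, rfl⟩ hx
    exact absurd ⟨f i, rfl⟩ hx
  out₁ x hx := by
    rw [MW.path_zero hΦ hε, MW.path_zero hΦ hε]
    exact lw_z_off hx
  out₂ x hx := by
    rw [MW.path_zero hΦ hε, MW.path_zero hΦ hε]
    change (lw Z f ls).z x = Z.z x
    exact lw_z_off fun ⟨i, hi⟩ => hx ⟨i, congrArg Sum.inl hi⟩
  fam x _ := by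
    rw [MW.path_zero hΦ hε, MW.path_zero hΦ hε]
    rfl
  fam' x _ := by
    rw [MW.path_zero hΦ hε, MW.path_zero hΦ hε]
    rfl

end FamIn

/-- **Replacement of a closed family by its lines**: the touch time can only decrease. -/
theorem theta_lw_le (hΦ : AdmissiblePotential Φ) (hε : 0 < ε) {A : MW β} (h : FamIn Φ ε Z f ls)
    (h₂ : FamIn Φ ε (Z.add A) (fun i => (Sum.inl (f i) : α ⊕ β)) ls)
    (hZ : BWorld Φ ε Z.b 0 (Z.path Φ ε))
    (hZA : BWorld Φ ε (Z.add A).b 0 ((Z.add A).path Φ ε)) (hb : ∀ x, 0 ≤ Z.b x)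
    (hA : ∀ x, 0 ≤ A.b x) (hK : ∀ i, (ls i).2 ≤ K) (T : ℝ) :
    (lw Z f ls).theta Φ ε K T A ≤ Z.theta Φ ε K T A := by
  have hb₂ : ∀ x, 0 ≤ (Z.add A).b x := by
    rintro (x | x)
    · exact hb x
    · exact hA x
  have e2 : lw (Z.add A) (fun i => (Sum.inl (f i) : α ⊕ β)) ls = (lw Z f ls).add A := lw_add h.inj A
  have r1 := h.repl hΦ hε hZ hb hK
  have r2 := h₂.repl hΦ hε hZA hb₂ hK
  rw [e2] at r2
  have i2 : ∀ {t : ℝ} {x : α ⊕ β}, (Z.add A).Inf Φ ε K t x →
      ((lw Z f ls).add A).Inf Φ ε K t x := by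
    intro t x hx
    have := h₂.inf hΦ hε hZA hb₂ hK hx
    rw [e2] at this
    exact this
  exact theta_lines_le (FamIn.compat A hΦ hε) r1.closed r2.closed r1.symm r2.symm r1.lines
    r2.lines (fun _ _ _ hx => h.inf hΦ hε hZ hb hK hx) (fun _ _ _ hx => i2 hx)


end

end Crest.Agent.R122.Ins45
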