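import Crest.Agent.R122.BPair_45
import Crest.Agent.R122.CutRel_879
import Crest.Agent.R122.RealLines_45

-- ▼ part R122/Hid_879
section

/-!
# Hidden particles which are not hit (row 122, blocks A7/A9), path level

`X` a world (labels `α`, births `b`), `X'` a larger world (labels `γ`, embedding `j`), `D ⊆ range j` a
family, `W'` the world with the labels of `X'` in which the members of `D` are born at their exit
times `σ'`. If the hidden members are isolated in `X` up to `t`, and no visible particle of `W'` comes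
near the curve (in `X`) of a hidden member, then up to `t` the hidden members have in `X'` the same
paths as in `X`, and the visible particles have in `X'` the same paths as in `W'`.

* `HidHyp`, `HidHyp.agree`.
-/

set_option autoImplicit false
set_option linter.unusedSectionVars false

open MeasureTheory Set Filter Topology
open Crest.AnalysisR.Kinetic
open Crest.Agent.R122.Flow671 Crest.Agent.R122.Loc45 Crest.Agent.R122.Ins45

namespace Crest.Agent.R122.Hid879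

noncomputable section

open scoped Classical

variable {α γ : Type} [Fintype α] [Fintype γ]

/-- Hypotheses of the hiding lemma up to time `t`. -/
structure HidHyp (Φ : Space3 → ℝ) (ε t : ℝ) (b : α → ℝ) (X : ℝ → α → PhasePoint)
    (b' : γ → ℝ) (X' : ℝ → γ → PhasePoint) (σ' : γ → ℝ) (W' : ℝ → γ → PhasePoint)
    (j : α → γ) (D : Set γ) : Prop where
  hX : BWorld Φ ε b 0 X
  hX' : BWorld Φ ε b' 0 X'
  hW : BWorld Φ ε σ' 0 W'
  inj : Function.Injective j
  sub : D ⊆ range j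
  birth : ∀ a, b' (j a) = b a
  off : ∀ y, y ∉ D → σ' y = b' y
  le : ∀ y, b' y ≤ σ' y
  pos : ∀ y ∈ D, 0 ≤ σ' y
  init : ∀ a, X' 0 (j a) = X 0 a
  init' : ∀ y, y ∉ D → X' 0 y = W' 0 y
  match_ : ∀ a, j a ∈ D → σ' (j a) ≤ t → W' (σ' (j a)) (j a) = X (σ' (j a)) a
  /-- in `X` the hidden members are near hidden members only -/
  closed : ∀ u ∈ Icc 0 t, ∀ a a', j a ∈ D → u ≤ σ' (j a) → b a' ≤ u →
    dist (X u a).1 (X u a').1 ≤ ε → j a' ∈ D ∧ u ≤ σ' (j a')
  /-- the visible particles of `W'` avoid the curves of the hidden members -/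
  avoid : ∀ u ∈ Icc 0 t, ∀ a, j a ∈ D → u ≤ σ' (j a) → ∀ y, σ' y ≤ u →
    ¬ (y ∈ D ∧ u ≤ σ' y) → ε < dist (X u a).1 (W' u y).1

namespace HidHyp

variable {Φ : Space3 → ℝ} {ε t : ℝ} {b : α → ℝ} {X : ℝ → α → PhasePoint} {b' : γ → ℝ}
  {X' : ℝ → γ → PhasePoint} {σ' : γ → ℝ} {W' : ℝ → γ → PhasePoint} {j : α → γ} {D : Set γ}

/-- The conclusion at time `u`. -/
def Agr (X : ℝ → α → PhasePoint) (X' : ℝ → γ → PhasePoint) (σ' : γ → ℝ)
    (W' : ℝ → γ → PhasePoint) (j : α → γ) (D : Set γ) (u : ℝ) : Prop :=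
  (∀ a, j a ∈ D → u ≤ σ' (j a) → X' u (j a) = X u a) ∧
    ∀ y, (y ∈ D → σ' y ≤ u) → X' u y = W' u y

theorem eq_of_left {x : Type} {f g : ℝ → x} [TopologicalSpace x] [T2Space x] {c u : ℝ}
    (hf : ContinuousOn f (Ici 0)) (hg : ContinuousOn g (Ici 0)) (hc : 0 ≤ c) (hcu : c < u)
    (h : ∀ r ∈ Ico c u, f r = g r) : f u = g u := by
  have h0 : (0 : ℝ) ≤ u := hc.trans hcu.le
  have hf' : Tendsto f (𝓝[<] u) (𝓝 (f u)) := by
    have h1 : ContinuousWithinAt f (Ico 0 u) u := (hf u h0).mono fun r hr => hr.1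
    refine h1.tendsto.mono_left (nhdsWithin_le_of_mem ?_)
    exact Ico_mem_nhdsLT (hc.trans_lt hcu)
  have hg' : Tendsto g (𝓝[<] u) (𝓝 (g u)) := by
    have h1 : ContinuousWithinAt g (Ico 0 u) u := (hg u h0).mono fun r hr => hr.1
    refine h1.tendsto.mono_left (nhdsWithin_le_of_mem ?_)
    exact Ico_mem_nhdsLT (hc.trans_lt hcu)
  refine tendsto_nhds_unique (hf'.congr' ?_) hg'
  filter_upwards [Ico_mem_nhdsLT hcu] with r hr
  exact h r hr

theorem agr_zero (h : HidHyp Φ ε t b X b' X' σ' W' j D) (ht : 0 ≤ t) : Agr X X' σ' W' j D 0 := by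
  refine ⟨fun a _ _ => h.init a, fun y hy => ?_⟩
  by_cases hD : y ∈ D
  · obtain ⟨a, rfl⟩ := h.sub hD
    have h1 : σ' (j a) = 0 := le_antisymm (hy hD) (h.pos _ hD)
    have h2 := h.match_ a hD (h1.le.trans ht)
    rw [h1] at h2
    rw [h.init, h2]
  · exact h.init' y hD

theorem agr_left (h : HidHyp Φ ε t b X b' X' σ' W' j D) {u : ℝ} (hu : 0 < u) (hut : u ≤ t)
    (hr : ∀ r ∈ Ico 0 u, Agr X X' σ' W' j D r) : Agr X X' σ' W' j D u := by
  have h1 : ∀ a, j a ∈ D → u ≤ σ' (j a) → X' u (j a) = X u a := fun a ha hua =>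
    eq_of_left (h.hX'.cont_apply (j a)) (h.hX.cont_apply a) le_rfl hu fun r hr' =>
      (hr r hr').1 a ha (hr'.2.le.trans hua)
  refine ⟨h1, fun y hy => ?_⟩
  by_cases hyu : y ∈ D ∧ u ≤ σ' y
  · obtain ⟨hD, hyu⟩ := hyu
    obtain ⟨a, rfl⟩ := h.sub hD
    have h2 : σ' (j a) = u := le_antisymm (hy hD) hyu
    have h3 := h.match_ a hD (h2.le.trans hut)
    rw [h2] at h3
    rw [h1 a hD hyu, h3]
  · by_cases hD : y ∈ D
    · have h2 : σ' y < u := not_le.1 fun h' => hyu ⟨hD, h'⟩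
      exact eq_of_left (h.hX'.cont_apply y) (h.hW.cont_apply y) (h.pos y hD) h2 fun r hr' =>
        (hr r ⟨(h.pos y hD).trans hr'.1, hr'.2⟩).2 y fun _ => hr'.1
    · exact eq_of_left (h.hX'.cont_apply y) (h.hW.cont_apply y) le_rfl hu fun r hr' =>
        (hr r hr').2 y fun h' => absurd h' hD

theorem ev_dist {μ : Type} [Fintype μ] {Y : ℝ → μ → PhasePoint}
    {c : μ → ℝ} (hY : BWorld Φ ε c 0 Y) {u : ℝ} (hu : 0 ≤ u) {p q : μ}
    (hd : ε < dist (Y u p).1 (Y u q).1) :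
    ∀ᶠ r in 𝓝[≥] u, ε < dist (Y r p).1 (Y r q).1 := by
  have h1 : ContinuousWithinAt (fun r => dist (Y r p).1 (Y r q).1) (Ici u) u := by
    have h2 : ContinuousOn (fun r => dist (Y r p).1 (Y r q).1) (Ici 0) :=
      continuous_dist.comp_continuousOn ((hY.cont_pos p).prodMk (hY.cont_pos q))
    exact (h2 u hu).mono (Ici_subset_Ici.2 hu)
  exact h1.eventually (lt_mem_nhds hd)

theorem agr_step (h : HidHyp Φ ε t b X b' X' σ' W' j D) (hΦ : AdmissiblePotential Φ) (hε : 0 < ε)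
    {u : ℝ} (hu : 0 ≤ u) (hut : u < t) (ha : Agr X X' σ' W' j D u) :
    ∃ v, u < v ∧ v ≤ t ∧ ∀ r ∈ Icc u v, Agr X X' σ' W' j D r := by
  obtain ⟨ha1, ha2⟩ := ha
  -- members which are hidden at time `u`
  set S₁ : Set α := {a | j a ∈ D ∧ u ≤ σ' (j a)} with hS₁
  have F1 : ∀ a ∈ S₁, ∀ a', a' ∉ S₁ → b a' ≤ u → ε < dist (X u a).1 (X u a').1 := by
    intro a haS a' ha' hb
    by_contra hle
    exact ha' (h.closed u ⟨hu, hut.le⟩ a a' haS.1 haS.2 hb (not_lt.1 hle))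
  have F2 : ∀ a ∈ S₁, ∀ y, y ∉ j '' S₁ → b' y ≤ u → ε < dist (X' u (j a)).1 (X' u y).1 := by
    intro a haS y hy hb
    have hvis : ¬ (y ∈ D ∧ u ≤ σ' y) := by
      rintro ⟨hD, hyu⟩
      obtain ⟨a', rfl⟩ := h.sub hD
      exact hy ⟨a', ⟨hD, hyu⟩, rfl⟩
    have hσ : σ' y ≤ u := by
      by_cases hD : y ∈ D
      · exact (not_le.1 fun h' => hvis ⟨hD, h'⟩).le
      · rw [h.off y hD]; exact hb
    rw [ha1 a haS.1 haS.2, ha2 y fun _ => hσ]
    exact h.avoid u ⟨hu, hut.le⟩ a haS.1 haS.2 y hσ hvis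
  have ev : ∀ᶠ r in 𝓝[≥] u, (∀ a ∈ S₁, ∀ a', a' ∉ S₁ → b a' ≤ u →
      ε < dist (X r a).1 (X r a').1) ∧ (∀ a ∈ S₁, ∀ y, y ∉ j '' S₁ → b' y ≤ u →
      ε < dist (X' r (j a)).1 (X' r y).1) ∧ (∀ y, u < b' y → r < b' y) ∧
      (∀ y, u < σ' y → r < σ' y) ∧ r < t := by
    refine (eventually_all.2 fun a => ?_).and ((eventually_all.2 fun a => ?_).and
      ((eventually_all.2 fun y => ?_).and ((eventually_all.2 fun y => ?_).and ?_)))
    · by_cases haS : a ∈ S₁
      · have h1 : ∀ᶠ r in 𝓝[≥] u, ∀ a', a' ∉ S₁ → b a' ≤ u → ε < dist (X r a).1 (X r a').1 := by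
          refine eventually_all.2 fun a' => ?_
          by_cases hc : a' ∉ S₁ ∧ b a' ≤ u
          · filter_upwards [ev_dist h.hX hu (F1 a haS a' hc.1 hc.2)] with r hr _ _
            exact hr
          · exact Eventually.of_forall fun r h1 h2 => absurd ⟨h1, h2⟩ hc
        filter_upwards [h1] with r hr _
        exact hr
      · exact Eventually.of_forall fun r h1 => absurd h1 haS
    · by_cases haS : a ∈ S₁
      · have h1 : ∀ᶠ r in 𝓝[≥] u, ∀ y, y ∉ j '' S₁ → b' y ≤ u →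
            ε < dist (X' r (j a)).1 (X' r y).1 := by
          refine eventually_all.2 fun y => ?_
          by_cases hc : y ∉ j '' S₁ ∧ b' y ≤ u
          · filter_upwards [ev_dist h.hX' hu (F2 a haS y hc.1 hc.2)] with r hr _ _
            exact hr
          · exact Eventually.of_forall fun r h1 h2 => absurd ⟨h1, h2⟩ hc
        filter_upwards [h1] with r hr _
        exact hr
      · exact Eventually.of_forall fun r h1 => absurd h1 haS
    · by_cases hy : u < b' y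
      · filter_upwards [mem_nhdsWithin_of_mem_nhds (Iio_mem_nhds hy)] with r hr _
        exact hr
      · exact Eventually.of_forall fun r h1 => absurd h1 hy
    · by_cases hy : u < σ' y
      · filter_upwards [mem_nhdsWithin_of_mem_nhds (Iio_mem_nhds hy)] with r hr _
        exact hr
      · exact Eventually.of_forall fun r h1 => absurd h1 hy
    · exact mem_nhdsWithin_of_mem_nhds (Iio_mem_nhds hut)
  obtain ⟨v, huv, hv⟩ := mem_nhdsGE_iff_exists_Icc_subset.1 ev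
  have huv' : u < v := huv
  have hvt : v < t := (hv ⟨huv'.le, le_rfl⟩).2.2.2.2
  -- the hidden members
  have A1 : ∀ a ∈ S₁, ∀ r ∈ Icc u v, X' r (j a) = X r a := by
    refine BWorld.agree_own hΦ hε h.hX' h.hX (e := j) (f := id) h.inj Function.injective_id
      (S := S₁) (A := ∅) hu hu (fun a _ r _ => ?_) (fun _ h' => absurd h' (notMem_empty _))
      (fun a haS => ha1 a haS.1 haS.2) ?_ ?_
    · rw [h.birth a]; rfl
    · intro r hr a haS _ y hby hne
      refine ((hv ⟨hr.1, hr.2.le⟩).2.1 a haS y ?_ ?_).le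
      · rintro ⟨a', ha', rfl⟩
        exact hne a' (Or.inl ha') rfl
      · by_contra hlt
        exact absurd hby (not_le.2 ((hv ⟨hr.1, hr.2.le⟩).2.2.1 y (not_le.1 hlt)))
    · intro r hr a haS _ a' hba hne
      refine ((hv ⟨hr.1, hr.2.le⟩).1 a haS a' (fun ha' => hne a' (Or.inl ha') rfl) ?_).le
      by_contra hlt
      have h1 := (hv ⟨hr.1, hr.2.le⟩).2.2.1 (j a') (by rw [h.birth]; exact not_le.1 hlt)
      rw [h.birth] at h1
      exact absurd hba (not_le.2 h1)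
  -- the visible particles
  have A2 : ∀ y ∈ {y : γ | ¬ (y ∈ D ∧ u < σ' y)}, ∀ r ∈ Icc u v, X' r (id y) = W' r (id y) := by
    refine BWorld.agree_own hΦ hε h.hX' h.hW (e := id) (f := id) Function.injective_id
      Function.injective_id (S := {y : γ | ¬ (y ∈ D ∧ u < σ' y)}) (A := ∅) hu hu
      (fun y hy r hr => ?_) (fun _ h' => absurd h' (notMem_empty _)) (fun y hy => ?_) ?_ ?_
    · have hy' : y ∈ {y : γ | ¬ (y ∈ D ∧ u < σ' y)} := hy.resolve_right (notMem_empty _)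
      change b' y ≤ r ↔ σ' y ≤ r
      by_cases hD : y ∈ D
      · have h1 : σ' y ≤ u := not_lt.1 fun h2 => hy' ⟨hD, h2⟩
        exact ⟨fun _ => h1.trans hr.1, fun _ => (h.le y).trans (h1.trans hr.1)⟩
      · rw [h.off y hD]
    · exact ha2 y fun hD => not_lt.1 fun h2 => hy ⟨hD, h2⟩
    · intro r hr m hm hbm k hbk hk
      change ε ≤ dist (X' r m).1 (X' r k).1
      have hk' : k ∈ D ∧ u < σ' k := by
        by_contra hcon
        exact hk k (Or.inl hcon) rfl
      obtain ⟨hkD, hku⟩ := hk'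
      obtain ⟨a, rfl⟩ := h.sub hkD
      have haS : a ∈ S₁ := ⟨hkD, hku.le⟩
      have hbm' : b' m ≤ u := by
        by_contra hlt
        exact absurd hbm (not_le.2 ((hv ⟨hr.1, hr.2.le⟩).2.2.1 m (not_le.1 hlt)))
      by_cases hmS : m ∈ j '' S₁
      · obtain ⟨a₂, ha₂, rfl⟩ := hmS
        have hσ : σ' (j a₂) = u :=
          le_antisymm (not_lt.1 fun h2 => hm ⟨ha₂.1, h2⟩) ha₂.2
        have key : ∀ q ∈ Ioc u v, ε < dist (X q a).1 (X q a₂).1 := by
          intro q hq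
          by_contra hle
          have h1 := h.closed q ⟨hu.trans hq.1.le, hq.2.trans hvt.le⟩ a a₂ hkD
            ((hv ⟨hq.1.le, hq.2⟩).2.2.2.1 _ hku).le
            (by rw [h.birth] at hbm'; exact hbm'.trans hq.1.le) (not_lt.1 hle)
          rw [hσ] at h1
          exact absurd h1.2 (not_le.2 hq.1)
        rw [A1 a haS r ⟨hr.1, hr.2.le⟩, A1 a₂ ha₂ r ⟨hr.1, hr.2.le⟩, dist_comm]
        rcases hr.1.lt_or_eq with hlt | heq
        · exact (key r ⟨hlt, hr.2.le⟩).le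
        · subst heq
          have hc : ContinuousWithinAt (fun q => dist (X q a).1 (X q a₂).1) (Ioi u) u := by
            have h2 : ContinuousOn (fun q => dist (X q a).1 (X q a₂).1) (Ici 0) :=
              continuous_dist.comp_continuousOn ((h.hX.cont_pos a).prodMk (h.hX.cont_pos a₂))
            exact (h2 u hu).mono fun q hq => hu.trans (le_of_lt hq)
          refine ge_of_tendsto hc.tendsto ?_
          filter_upwards [Ioc_mem_nhdsGT huv'] with q hq
          exact (key q hq).le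
      · rw [dist_comm]
        exact ((hv ⟨hr.1, hr.2.le⟩).2.1 a haS m hmS hbm').le
    · intro r hr m _ _ k hbk hk
      exfalso
      have hk' : k ∈ D ∧ u < σ' k := by
        by_contra hcon
        exact hk k (Or.inl hcon) rfl
      exact absurd hbk (not_le.2 ((hv ⟨hr.1, hr.2.le⟩).2.2.2.1 k hk'.2))
  refine ⟨v, huv', hvt.le, fun r hr => ⟨fun a hD har => ?_, fun y hy => ?_⟩⟩
  · exact A1 a ⟨hD, hr.1.trans har⟩ r hr
  · refine A2 y ?_ r hr
    rintro ⟨hD, hlt⟩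
    exact absurd (hy hD) (not_le.2 ((hv hr).2.2.2.1 y hlt))

/-- **Hidden members which are not hit.** -/
theorem agree (h : HidHyp Φ ε t b X b' X' σ' W' j D) (hΦ : AdmissiblePotential Φ) (hε : 0 < ε)
    (ht : 0 ≤ t) : ∀ u ∈ Icc 0 t, Agr X X' σ' W' j D u := by
  set s : Set ℝ := {u | ∀ r ∈ Icc 0 u, Agr X X' σ' W' j D r} with hs
  have hcl : IsClosed (s ∩ Icc 0 t) := by
    refine IsSeqClosed.isClosed fun x u hx hxu => ?_
    have hu : u ∈ Icc 0 t := isClosed_Icc.mem_of_tendsto hxu (Eventually.of_forall fun n => (hx n).2)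
    refine ⟨fun r hr => ?_, hu⟩
    have key : ∀ r ∈ Ico 0 u, Agr X X' σ' W' j D r := by
      intro r hr
      obtain ⟨n, hn⟩ := (hxu.eventually (lt_mem_nhds hr.2)).exists
      exact (hx n).1 r ⟨hr.1, hn.le⟩
    rcases hr.2.lt_or_eq with hlt | heq
    · exact key r ⟨hr.1, hlt⟩
    · subst heq
      rcases hr.1.lt_or_eq with h0 | h0
      · exact h.agr_left h0 hu.2 key
      · rw [← h0]
        exact h.agr_zero ht
  have h1 : Icc 0 t ⊆ s := by
    refine hcl.Icc_subset_of_forall_exists_gt ?_ fun u hu y hy => ?_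
    · intro r hr
      have h2 : r = 0 := le_antisymm hr.2 hr.1
      rw [h2]
      exact h.agr_zero ht
    · obtain ⟨v, huv, hvt, hv⟩ := h.agr_step hΦ hε hu.2.1 hu.2.2 (hu.1 u ⟨hu.2.1, le_rfl⟩)
      refine ⟨min v y, fun r hr => ?_, lt_min huv hy, min_le_right _ _⟩
      rcases le_total r u with h2 | h2
      · exact hu.1 r ⟨hr.1, h2⟩
      · exact hv r ⟨h2, hr.2.trans (min_le_left _ _)⟩
  exact fun u hu => h1 hu u ⟨hu.1, le_rfl⟩

end HidHyp

end

end Crest.Agent.R122.Hid879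
end

-- ▼ part R122/HidMW_879

/-!
# Hidden members which are not hit, marked worlds (row 122, blocks A7/A9)

`Ω` a real world, `f` a family with lines `ls` (`FamIn`, helper45), `B` an inserted object.

* `FamIn.linesTo` : `LinesTo` for `Ω` and `lw Ω f ls`.
* `Avoid Φ ε Ω f ls B t` : up to `t` the visible particles of `(lw Ω f ls).add B` stay away from the
  curves of the hidden members.
* `HidIn` : hypotheses; `HidIn.path_hid`, `HidIn.path_vis` : paths in `Ω.add B` up to `t`;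
  `HidIn.linesTo` : `LinesTo` for `Ω.add B` and `(lw Ω f ls).add B`.
* `HidIn.touched_iff` : touches at the time `t`.
-/

set_option autoImplicit false
set_option linter.unusedSectionVars false

open MeasureTheory Set Filter Topology
open Crest.AnalysisR.Kinetic
open Crest.Agent.R122.Flow671 Crest.Agent.R122.Loc45 Crest.Agent.R122.Ins45
open Crest.Agent.R122.Causal291 (Past BC)
open Crest.Agent.R122.Inf879 Crest.Agent.R122.EDefs602 Crest.Agent.R122.Lines255
open Crest.Agent.R122.CutRel879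

namespace Crest.Agent.R122.Hid879

noncomputable section

open scoped Classical

variable {α β κ : Type} [Fintype α] [Fintype β] [Fintype κ] {Φ : Space3 → ℝ} {ε t : ℝ}
  {Ω : MW α} {f : κ → α} {ls : κ → ML} {B : MW β} {K : ℕ}

/-- The state of a line at its birth. -/
theorem path_birth (hΦ : AdmissiblePotential Φ) (hε : 0 < ε) {Z : MW α}
    (hZ : BWorld Φ ε Z.b 0 (Z.path Φ ε)) {x : α} {l : ℝ × PhasePoint} (hb : Z.b x = l.1)
    (hz : Z.z x = back l) (h0 : 0 ≤ l.1) : Z.path Φ ε l.1 x = l.2 := by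
  have h1 := hZ.free_of_unborn hΦ hε x (t := l.1) h0 hb.ge
  rw [h1, MW.path_zero hΦ hε, hz]
  unfold back
  refine Prod.ext ?_ rfl
  simp

/-- `LinesTo` for the real world itself. -/
theorem _root_.Crest.Agent.R122.Ins45.FamIn.linesTo (h : FamIn Φ ε Ω f ls)
    (hΦ : AdmissiblePotential Φ) (hε : 0 < ε) (hΩ : BWorld Φ ε Ω.b 0 (Ω.path Φ ε))
    (hb : ∀ x, 0 ≤ Ω.b x) (hK : ∀ i, (ls i).2 ≤ K)
    (hs : ∀ i, msize (Ω.C Φ ε) Ω.m (ls i).1.1 (f i) = (ls i).2) (t : ℝ) :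
    LinesTo (Ω.C Φ ε) ((lw Ω f ls).C Φ ε) Ω.m (lw Ω f ls).m (range f) (lw Ω f ls).b K t where
  symm _ _ _ hc := MW.C_symm _ hc
  closed s _ := h.closed' s
  of_strict s _ := (h.lines hΦ hε hΩ hb).of_strict s
  sub s _ := (h.lines hΦ hε hΩ hb).sub s
  left := (h.lines hΦ hε hΩ hb).left
  right := (h.lines hΦ hε hΩ hb).right
  pos x _ := (hb x).trans (h.b_le x)
  off _ hj := lw_m_off hj
  mark := by
    rintro _ ⟨i, rfl⟩ _
    rw [lw_b h.inj, lw_m h.inj]
    exact hs i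
  clean := by
    rintro _ ⟨i, rfl⟩
    rw [lw_m h.inj]
    exact hK i
  clean' := by
    rintro _ ⟨i, rfl⟩ hi
    rw [lw_b h.inj] at hi
    exact (msize_mono hi.le (f i)).trans ((hs i).le.trans (hK i))

/-- Up to `t` the visible particles of `(lw Ω f ls).add B` stay away from the hidden curves. -/
def Avoid (Φ : Space3 → ℝ) (ε : ℝ) (Ω : MW α) (f : κ → α) (ls : κ → ML) (B : MW β) (t : ℝ) :
    Prop :=
  ∀ u ∈ Icc 0 t, ∀ i, u ≤ (ls i).1.1 → ∀ y : α ⊕ β, ((lw Ω f ls).add B).b y ≤ u →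
    (∀ k, y = Sum.inl (f k) → (ls k).1.1 < u) →
    ε < dist (Ω.path Φ ε u (f i)).1 (((lw Ω f ls).add B).path Φ ε u y).1

/-- Hypotheses for the insertion of `B` up to the time `t`. -/
structure HidIn (Φ : Space3 → ℝ) (ε : ℝ) (Ω : MW α) (f : κ → α) (ls : κ → ML) (B : MW β)
    (t : ℝ) : Prop where
  fam : FamIn Φ ε Ω f ls
  bw : BWorld Φ ε Ω.b 0 (Ω.path Φ ε)
  bwB : BWorld Φ ε (Ω.add B).b 0 ((Ω.add B).path Φ ε)
  bwL : BWorld Φ ε ((lw Ω f ls).add B).b 0 (((lw Ω f ls).add B).path Φ ε)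
  /-- the members are born at the time `0` -/
  b0 : ∀ i, Ω.b (f i) = 0
  pos : ∀ x, 0 ≤ Ω.b x
  posB : ∀ x, 0 ≤ B.b x
  /-- at the time `0` the members are away from the others -/
  sep0 : ∀ i x, x ∉ range f → Ω.b x ≤ 0 → ε < dist (Ω.path Φ ε 0 (f i)).1 (Ω.path Φ ε 0 x).1
  avoid : Avoid Φ ε Ω f ls B t

namespace HidIn

variable (h : HidIn Φ ε Ω f ls B t)

include h in
theorem mono {s : ℝ} (hs : s ≤ t) : HidIn Φ ε Ω f ls B s :=
  ⟨h.fam, h.bw, h.bwB, h.bwL, h.b0, h.pos, h.posB, h.sep0,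
    fun u hu => h.avoid u ⟨hu.1, hu.2.trans hs⟩⟩

theorem inl_mem {y : α} : (Sum.inl y : α ⊕ β) ∈ range (fun i => (Sum.inl (f i) : α ⊕ β)) ↔
    y ∈ range f := by
  constructor
  · rintro ⟨i, hi⟩
    exact ⟨i, Sum.inl_injective hi⟩
  · rintro ⟨i, hi⟩
    exact ⟨i, congrArg Sum.inl hi⟩


include h in
theorem b_mem (i : κ) : ((lw Ω f ls).add B).b (Sum.inl (f i)) = (ls i).1.1 := lw_b h.fam.inj i

include h in
theorem b_off {y : α ⊕ β} (hy : y ∉ range (fun i => (Sum.inl (f i) : α ⊕ β))) :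
    ((lw Ω f ls).add B).b y = (Ω.add B).b y := by
  rcases y with y | y
  · exact lw_b_off fun h' => hy (inl_mem.2 h')
  · rfl

include h in
theorem b_le (y : α ⊕ β) : (Ω.add B).b y ≤ ((lw Ω f ls).add B).b y := by
  rcases y with y | y
  · exact h.fam.b_le y
  · exact le_rfl

include h in
theorem b_nonneg (y : α ⊕ β) : 0 ≤ (Ω.add B).b y := by
  rcases y with y | y
  · exact h.pos y
  · exact h.posB y

include h in
theorem hidHyp (hΦ : AdmissiblePotential Φ) (hε : 0 < ε) :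
    HidHyp Φ ε t Ω.b (Ω.path Φ ε) (Ω.add B).b ((Ω.add B).path Φ ε) ((lw Ω f ls).add B).b
      (((lw Ω f ls).add B).path Φ ε) Sum.inl (range fun i => (Sum.inl (f i) : α ⊕ β)) where
  hX := h.bw
  hX' := h.bwB
  hW := h.bwL
  inj := Sum.inl_injective
  sub := by
    rintro _ ⟨i, rfl⟩
    exact ⟨f i, rfl⟩
  birth _ := rfl
  off y hy := h.b_off hy
  le := h.b_le
  pos := by
    rintro _ ⟨i, rfl⟩
    rw [h.b_mem]
    exact h.fam.pos i
  init a := by
    rw [MW.path_zero hΦ hε, MW.path_zero hΦ hε]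
    rfl
  init' y hy := by
    rw [MW.path_zero hΦ hε, MW.path_zero hΦ hε]
    rcases y with y | y
    · exact (lw_z_off fun h' => hy (inl_mem.2 h')).symm
    · rfl
  match_ a ha hat := by
    obtain ⟨i, rfl⟩ := inl_mem.1 ha
    rw [h.b_mem] at hat ⊢
    rw [h.fam.state i]
    exact path_birth hΦ hε h.bwL (h.b_mem i) (lw_z h.fam.inj i) (h.fam.pos i)
  closed u hu a a' ha hua ha' hd := by
    obtain ⟨i, rfl⟩ := inl_mem.1 ha
    rw [h.b_mem] at hua
    rcases hu.1.lt_or_eq with h0 | h0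
    · obtain ⟨k, rfl, hk⟩ := h.fam.closed i u a' hua
        ⟨by rw [h.b0 i]; exact hu.1, ha', Or.inr (Or.inl (by rw [h.b0 i]; exact h0)), hd⟩
      exact ⟨inl_mem.2 ⟨k, rfl⟩, by rw [h.b_mem]; exact hk⟩
    · subst h0
      by_cases hr : a' ∈ range f
      · obtain ⟨k, rfl⟩ := hr
        exact ⟨inl_mem.2 ⟨k, rfl⟩, by rw [h.b_mem]; exact h.fam.pos k⟩
      · exact absurd hd (not_le.2 (h.sep0 i a' hr ha'))
  avoid u hu a ha hua y hy hvis := by
    obtain ⟨i, rfl⟩ := inl_mem.1 ha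
    rw [h.b_mem] at hua
    refine h.avoid u hu i hua y hy fun k hk => ?_
    by_contra hlt
    exact hvis ⟨⟨k, hk.symm⟩, by rw [hk, h.b_mem]; exact not_lt.1 hlt⟩

include h in
/-- Paths of the hidden members. -/
theorem path_hid (hΦ : AdmissiblePotential Φ) (hε : 0 < ε) {u : ℝ} (hu : u ∈ Icc 0 t) {i : κ}
    (hi : u ≤ (ls i).1.1) : (Ω.add B).path Φ ε u (Sum.inl (f i)) = Ω.path Φ ε u (f i) :=
  ((h.hidHyp hΦ hε).agree hΦ hε (hu.1.trans hu.2) u hu).1 (f i) (inl_mem.2 ⟨i, rfl⟩)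
    (by rw [h.b_mem]; exact hi)

include h in
/-- Paths of the visible particles. -/
theorem path_vis (hΦ : AdmissiblePotential Φ) (hε : 0 < ε) {u : ℝ} (hu : u ∈ Icc 0 t) {y : α ⊕ β}
    (hy : y ∈ range (fun i => (Sum.inl (f i) : α ⊕ β)) → ((lw Ω f ls).add B).b y ≤ u) :
    (Ω.add B).path Φ ε u y = ((lw Ω f ls).add B).path Φ ε u y :=
  ((h.hidHyp hΦ hε).agree hΦ hε (hu.1.trans hu.2) u hu).2 y hy

include h in
/-- The family is closed in `Ω.add B` up to `t`. -/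
theorem closed (hΦ : AdmissiblePotential Φ) (hε : 0 < ε) {s : ℝ} (hs : s ≤ t) {i : κ}
    (hi : s ≤ (ls i).1.1) {y : α ⊕ β} (hc : (Ω.add B).C Φ ε s (Sum.inl (f i)) y) :
    ∃ k, y = Sum.inl (f k) ∧ s ≤ (ls k).1.1 := by
  obtain ⟨c1, c2, c3, c4⟩ := hc
  have h0 : 0 ≤ s := (h.b_nonneg _).trans c1
  by_contra hno
  push Not at hno
  have hyb : ((lw Ω f ls).add B).b y ≤ s := by
    by_cases hy : y ∈ range (fun i => (Sum.inl (f i) : α ⊕ β))
    · obtain ⟨k, rfl⟩ := hy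
      rw [h.b_mem]
      exact (hno k rfl).le
    · rw [h.b_off hy]; exact c2
  have h1 := h.avoid s ⟨h0, hs⟩ i hi y hyb hno
  rw [← h.path_vis hΦ hε ⟨h0, hs⟩ fun _ => hyb, ← h.path_hid hΦ hε ⟨h0, hs⟩ hi] at h1
  exact absurd c4 (not_le.2 h1)

include h in
/-- A contact of two hidden members. -/
theorem C_hid (hΦ : AdmissiblePotential Φ) (hε : 0 < ε) {s : ℝ} (hs : s ≤ t) {i k : κ}
    (hi : s ≤ (ls i).1.1) (hk : s ≤ (ls k).1.1) :
    (Ω.add B).C Φ ε s (Sum.inl (f i)) (Sum.inl (f k)) ↔ Ω.C Φ ε s (f i) (f k) := by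
  have key : 0 ≤ s → ((Ω.add B).C Φ ε s (Sum.inl (f i)) (Sum.inl (f k)) ↔
      Ω.C Φ ε s (f i) (f k)) := by
    intro h0
    change (_ ∧ _ ∧ _ ∧ _) ↔ (_ ∧ _ ∧ _ ∧ _)
    rw [h.path_hid hΦ hε ⟨h0, hs⟩ hi, h.path_hid hΦ hε ⟨h0, hs⟩ hk]
    refine and_congr Iff.rfl (and_congr Iff.rfl (and_congr ?_ Iff.rfl))
    refine or_congr ?_ Iff.rfl
    exact Sum.inl_injective.eq_iff
  constructor
  · intro hc
    exact (key ((h.b_nonneg _).trans (MW.C_born hc))).1 hc
  · intro hc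
    exact (key ((h.pos _).trans (MW.C_born hc))).2 hc

include h in
/-- The own past of a hidden member. -/
theorem own_past (hΦ : AdmissiblePotential Φ) (hε : 0 < ε) {τ : ℝ} (hτ : τ ≤ t) {i : κ}
    (hi : τ ≤ (ls i).1.1) {s : ℝ} {y : α ⊕ β} :
    Past ((Ω.add B).C Φ ε) τ (Sum.inl (f i)) s y ↔
      ∃ k, y = Sum.inl (f k) ∧ s ≤ (ls k).1.1 ∧ Past (Ω.C Φ ε) τ (f i) s (f k) := by
  constructor
  · intro hp
    induction hp with
    | @root s hs => exact ⟨i, rfl, hs.trans hi, .root hs⟩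
    | @step s s' y y' hy hc hs ih =>
      obtain ⟨k, rfl, hk, hpk⟩ := ih
      obtain ⟨k', rfl, hk'⟩ := h.closed hΦ hε (hy.le.trans hτ) hk hc
      exact ⟨k', rfl, hs.trans hk',
        .step hpk ((h.C_hid hΦ hε (hy.le.trans hτ) hk hk').1 hc) hs⟩
  · rintro ⟨k, rfl, hk, hp⟩
    have key : ∀ {s : ℝ} {a : α}, Past (Ω.C Φ ε) τ (f i) s a → ∃ k, a = f k ∧
        s ≤ (ls k).1.1 ∧ Past ((Ω.add B).C Φ ε) τ (Sum.inl (f i)) s (Sum.inl (f k)) := by
      intro s a hp
      induction hp with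
      | @root s hs => exact ⟨i, rfl, hs.trans hi, .root hs⟩
      | @step s s' a a' ha hc hs ih =>
        obtain ⟨k, rfl, hk, hpk⟩ := ih
        obtain ⟨k', rfl, hk'⟩ := h.fam.closed k s' a' hk hc
        exact ⟨k', rfl, hs.trans hk',
          .step hpk ((h.C_hid hΦ hε (ha.le.trans hτ) hk hk').2 hc) hs⟩
    obtain ⟨k', hk', _, hp'⟩ := key hp
    rw [hk']
    exact hp'

include h in
/-- The own size of a hidden member. -/
theorem own_msize (hΦ : AdmissiblePotential Φ) (hε : 0 < ε) {τ : ℝ} (hτ : τ ≤ t) {i : κ}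
    (hi : τ ≤ (ls i).1.1) :
    msize ((Ω.add B).C Φ ε) (Ω.add B).m τ (Sum.inl (f i)) = msize (Ω.C Φ ε) Ω.m τ (f i) := by
  unfold msize
  rw [Fintype.sum_sum_type]
  have h1 : ∀ x : β, (if (Sum.inr x : α ⊕ β) ∈ BC ((Ω.add B).C Φ ε) τ (Sum.inl (f i)) then
      (Ω.add B).m (Sum.inr x) else 0) = 0 := by
    intro x
    rw [if_neg]
    intro hp
    obtain ⟨k, hk, _⟩ := (h.own_past hΦ hε hτ hi).1 hp
    cases hk
  have h2 : ∀ a : α, (if (Sum.inl a : α ⊕ β) ∈ BC ((Ω.add B).C Φ ε) τ (Sum.inl (f i)) then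
      (Ω.add B).m (Sum.inl a) else 0) = if a ∈ BC (Ω.C Φ ε) τ (f i) then Ω.m a else 0 := by
    intro a
    have h3 : (Sum.inl a : α ⊕ β) ∈ BC ((Ω.add B).C Φ ε) τ (Sum.inl (f i)) ↔
        a ∈ BC (Ω.C Φ ε) τ (f i) := by
      constructor
      · intro hp
        obtain ⟨k, hk, _, hp'⟩ := (h.own_past hΦ hε hτ hi).1 hp
        rw [Sum.inl_injective hk]
        exact hp'
      · intro hp
        have hcl := Lines255.own_past (C := Ω.C Φ ε) h.fam.closed' (j := f i) ⟨i, rfl⟩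
          (s₀ := τ) (by rw [lw_b h.fam.inj]; exact hi) hp
        obtain ⟨⟨k, rfl⟩, hk⟩ := hcl
        rw [lw_b h.fam.inj] at hk
        exact (h.own_past hΦ hε hτ hi).2 ⟨k, rfl, hk, hp⟩
    exact if_congr h3 rfl rfl
  rw [Finset.sum_congr rfl fun a _ => h2 a, Finset.sum_congr rfl fun x _ => h1 x,
    Finset.sum_const_zero, add_zero]

include h in
/-- **`LinesTo` for `Ω.add B`.** -/
theorem linesTo (hΦ : AdmissiblePotential Φ) (hε : 0 < ε) (hK : ∀ i, (ls i).2 ≤ K)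
    (hs : ∀ i, msize (Ω.C Φ ε) Ω.m (ls i).1.1 (f i) = (ls i).2) :
    LinesTo ((Ω.add B).C Φ ε) (((lw Ω f ls).add B).C Φ ε) (Ω.add B).m ((lw Ω f ls).add B).m
      (range fun i => (Sum.inl (f i) : α ⊕ β)) ((lw Ω f ls).add B).b K t where
  symm _ _ _ hc := MW.C_symm _ hc
  closed := by
    rintro s hst _ y ⟨i, rfl⟩ hi hc
    rw [h.b_mem] at hi
    obtain ⟨k, rfl, hk⟩ := h.closed hΦ hε hst hi hc
    exact ⟨⟨k, rfl⟩, by rw [h.b_mem]; exact hk⟩
  of_strict := by
    intro s hst x y hc hx hy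
    obtain ⟨c1, c2, c3, c4⟩ := hc
    have h0 : 0 ≤ s := (h.b_nonneg _).trans c1
    have hbx : ((lw Ω f ls).add B).b x ≤ s := by
      by_cases hD : x ∈ range (fun i => (Sum.inl (f i) : α ⊕ β))
      · exact (hx hD).le
      · rw [h.b_off hD]; exact c1
    have hby : ((lw Ω f ls).add B).b y ≤ s := by
      by_cases hD : y ∈ range (fun i => (Sum.inl (f i) : α ⊕ β))
      · exact (hy hD).le
      · rw [h.b_off hD]; exact c2
    refine ⟨hbx, hby, ?_, ?_⟩
    · rcases c3 with c3 | c3 | c3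
      · exact Or.inl c3
      · right; left
        by_cases hD : x ∈ range (fun i => (Sum.inl (f i) : α ⊕ β))
        · exact hx hD
        · rw [h.b_off hD]; exact c3
      · right; right
        by_cases hD : y ∈ range (fun i => (Sum.inl (f i) : α ⊕ β))
        · exact hy hD
        · rw [h.b_off hD]; exact c3
    · rw [← h.path_vis hΦ hε ⟨h0, hst⟩ fun _ => hbx, ← h.path_vis hΦ hε ⟨h0, hst⟩ fun _ => hby]
      exact c4
  sub := by
    intro s hst x y hc
    obtain ⟨c1, c2, c3, c4⟩ := hc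
    have h0 : 0 ≤ s := (h.b_nonneg x).trans ((h.b_le x).trans c1)
    refine ⟨(h.b_le x).trans c1, (h.b_le y).trans c2, ?_, ?_⟩
    · rcases c3 with c3 | c3 | c3
      · exact Or.inl c3
      · exact Or.inr (Or.inl ((h.b_le x).trans_lt c3))
      · exact Or.inr (Or.inr ((h.b_le y).trans_lt c3))
    · rw [h.path_vis hΦ hε ⟨h0, hst⟩ fun _ => c1, h.path_vis hΦ hε ⟨h0, hst⟩ fun _ => c2]
      exact c4
  left _ _ _ hc _ := hc.1
  right _ _ _ hc _ := hc.2.1
  pos := by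
    rintro _ ⟨i, rfl⟩
    rw [h.b_mem]
    exact h.fam.pos i
  off y hy := by
    rcases y with y | y
    · exact lw_m_off fun h' => hy (inl_mem.2 h')
    · rfl
  mark := by
    rintro _ ⟨i, rfl⟩ hi
    rw [h.b_mem] at hi ⊢
    rw [h.own_msize hΦ hε hi le_rfl, hs i]
    exact (lw_m h.fam.inj i).symm
  clean := by
    rintro _ ⟨i, rfl⟩
    exact (lw_m h.fam.inj i).le.trans (hK i)
  clean' := by
    rintro _ ⟨i, rfl⟩ hi
    rw [h.b_mem] at hi
    rw [h.own_msize hΦ hε le_rfl hi.le]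
    exact (msize_mono hi.le (f i)).trans ((hs i).le.trans (hK i))

include h in
/-- **Touches at the time `t`**: real family versus its lines. -/
theorem touched_iff (hΦ : AdmissiblePotential Φ) (hε : 0 < ε) (hK : ∀ i, (ls i).2 ≤ K)
    (hs : ∀ i, msize (Ω.C Φ ε) Ω.m (ls i).1.1 (f i) = (ls i).2)
    (hP₁ : ∀ y, Ω.Inf Φ ε K t y ↔ (lw Ω f ls).Inf Φ ε K t y)
    (hP₂ : ∀ y, (Ω.add B).Inf Φ ε K t y ↔ ((lw Ω f ls).add B).Inf Φ ε K t y) :
    Ω.Touched Φ ε K B t ↔ (lw Ω f ls).Touched Φ ε K B t := by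
  exact touched_iff_to (FamIn.compat (f := f) (ls := ls) B hΦ hε)
    (h.fam.linesTo hΦ hε h.bw h.pos hK hs t) (h.linesTo hΦ hε hK hs) hP₁ hP₂

end HidIn

end

end Crest.Agent.R122.Hid879
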