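import Crest.Agent.R122.CausalW1_291

/-!
# A world contained in two worlds, closed end (row 122, E_FINAL (1.6'), (1.7))

`Three`: worlds `Z`, `Z+A`, `Z+L` (no fourth world). If neither `A` nor `L` has touched `Z` before
`s` and there is no clean link up to and including `s`, then a touch of `Z` by `A` or by `L` at `s`
is a touch of the pair `(Z+A, Z+L)` at `s`; with `touched_mid` this gives
`θ(Z+A, Z+L) = min (θ(Z, A)) (θ(Z, L))` off the link event at the minimum.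
-/

set_option autoImplicit false
set_option linter.unusedSectionVars false

open Set Filter Topology

namespace Crest.Agent.R122.CausalGen291

open Crest.Agent.R122.Causal291

/-- Three worlds over `κ` (base `Z`), `ιA` (`Z+A`), `ιL` (`Z+L`). -/
structure Three (κ ιA ιL : Type) (X : Type*) where
  C₀ : ℝ → κ → κ → Prop
  CA : ℝ → ιA → ιA → Prop
  CL : ℝ → ιL → ιL → Prop
  CX : ℝ → ιA → ιL → Prop
  z₀ : ℝ → κ → X
  zA : ℝ → ιA → X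
  zL : ℝ → ιL → X
  eA : κ → ιA
  eL : κ → ιL


namespace Three

variable {κ ιA ιL : Type} {X : Type*}

def swap (F : Three κ ιA ιL X) : Three κ ιL ιA X :=
  ⟨F.C₀, F.CL, F.CA, fun s y x => F.CX s x y, F.z₀, F.zL, F.zA, F.eL, F.eA⟩

def FA (F : Three κ ιA ιL X) (s : ℝ) : Set κ := {k | Fut F.C₀ F.z₀ F.CA F.zA id F.eA s k}

def FL (F : Three κ ιA ιL X) (s : ℝ) : Set κ := {k | Fut F.C₀ F.z₀ F.CL F.zL id F.eL s k}

def CFA (F : Three κ ιA ιL X) (a : ℝ) (P₀ : ℝ → κ → Prop) (PA : ℝ → ιA → Prop) (s : ℝ) : Set κ :=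
  {k | CFut F.C₀ F.z₀ F.CA F.zA id F.eA a P₀ PA s k}

def CFL (F : Three κ ιA ιL X) (a : ℝ) (P₀ : ℝ → κ → Prop) (PL : ℝ → ιL → Prop) (s : ℝ) : Set κ :=
  {k | CFut F.C₀ F.z₀ F.CL F.zL id F.eL a P₀ PL s k}



def CIA (F : Three κ ιA ιL X) (a : ℝ) (P₀ : ℝ → κ → Prop) (PA : ℝ → ιA → Prop) (s : ℝ) : Set ιA :=
  {x | ∀ k, x = F.eA k → k ∈ F.CFA a P₀ PA s}

def CIL (F : Three κ ιA ιL X) (a : ℝ) (P₀ : ℝ → κ → Prop) (PL : ℝ → ιL → Prop) (s : ℝ) : Set ιL :=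
  {y | ∀ k, y = F.eL k → k ∈ F.CFL a P₀ PL s}

/-- Clean link between `A` and `L` up to and including time `s`. -/
def Link (F : Three κ ιA ιL X) (a : ℝ) (P₀ : ℝ → κ → Prop) (PA : ℝ → ιA → Prop)
    (PL : ℝ → ιL → Prop) (s : ℝ) : Prop :=
  ∃ u ∈ Icc 0 s, (∃ k, k ∈ F.CFA a P₀ PA u ∧ k ∈ F.CFL a P₀ PL u) ∨
    ∃ x y, x ∈ F.CIA a P₀ PA u ∧ y ∈ F.CIL a P₀ PL u ∧ F.CX u x y


variable {F : Three κ ιA ιL X} {a T : ℝ} {P₀ : ℝ → κ → Prop} {PA : ℝ → ιA → Prop}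
  {PL : ℝ → ιL → Prop}

theorem Link.mono {s s' : ℝ} (h : F.Link a P₀ PA PL s) (hs : s ≤ s') : F.Link a P₀ PA PL s' := by
  obtain ⟨u, hu, h⟩ := h
  exact ⟨u, ⟨hu.1, hu.2.trans hs⟩, h⟩

theorem Link.swap {s : ℝ} (h : F.Link a P₀ PA PL s) : F.swap.Link a P₀ PL PA s := by
  obtain ⟨u, hu, ⟨k, hk, hk'⟩ | ⟨x, y, hx, hy, hc⟩⟩ := h
  · exact ⟨u, hu, Or.inl ⟨k, hk', hk⟩⟩
  · exact ⟨u, hu, Or.inr ⟨y, x, hy, hx, hc⟩⟩

/-- Dynamical hypotheses. -/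
structure Dyn (F : Three κ ιA ιL X) (T : ℝ) : Prop where
  p₀A : Pair T F.C₀ F.z₀ F.CA F.zA id F.eA
  p₀L : Pair T F.C₀ F.z₀ F.CL F.zL id F.eL
  pAL : Pair T F.CA F.zA F.CL F.zL F.eA F.eL
  initA : ∀ k, F.z₀ 0 k = F.zA 0 (F.eA k)
  initL : ∀ k, F.z₀ 0 k = F.zL 0 (F.eL k)
  cohXL : ∀ s ∈ Icc 0 T, ∀ k y, F.zA s (F.eA k) = F.zL s (F.eL k) → F.CX s (F.eA k) y →
    F.CL s (F.eL k) y
  cohXA : ∀ s ∈ Icc 0 T, ∀ x k, F.zA s (F.eA k) = F.zL s (F.eL k) → F.CX s x (F.eL k) →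
    F.CA s x (F.eA k)

/-- Infection rules of the three worlds, coherent. -/
structure Rules (F : Three κ ιA ιL X) (a T : ℝ) (P₀ : ℝ → κ → Prop) (PA : ℝ → ιA → Prop)
    (PL : ℝ → ιL → Prop) : Prop where
  r₀ : IsRule F.C₀ a T P₀
  rA : IsRule F.CA a T PA
  rL : IsRule F.CL a T PL
  coh₀A : ∀ s ∈ Icc a T, ∀ k, HistEq F.C₀ F.z₀ F.CA F.zA id F.eA s k → (P₀ s k ↔ PA s (F.eA k))
  coh₀L : ∀ s ∈ Icc a T, ∀ k, HistEq F.C₀ F.z₀ F.CL F.zL id F.eL s k → (P₀ s k ↔ PL s (F.eL k))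

theorem Dyn.swap (h : F.Dyn T) : F.swap.Dyn T where
  p₀A := h.p₀L
  p₀L := h.p₀A
  pAL := h.pAL.symm
  initA := h.initL
  initL := h.initA
  cohXL := fun s hs k y he hc => h.p₀A.symm₂ _ _ _ (h.cohXA s hs y k he.symm hc)
  cohXA := fun s hs x k he hc => h.p₀L.symm₂ _ _ _ (h.cohXL s hs k x he.symm hc)

theorem Rules.swap (h : F.Rules a T P₀ PA PL) : F.swap.Rules a T P₀ PL PA where
  r₀ := h.r₀
  rA := h.rL
  rL := h.rA
  coh₀A := h.coh₀L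
  coh₀L := h.coh₀A

def UntA (F : Three κ ιA ιL X) (a : ℝ) (P₀ : ℝ → κ → Prop) (PA : ℝ → ιA → Prop) (s : ℝ) : Prop :=
  ∀ u, a ≤ u → u < s → ¬ Touched F.C₀ F.z₀ F.CA F.zA id F.eA P₀ PA u

def UntL (F : Three κ ιA ιL X) (a : ℝ) (P₀ : ℝ → κ → Prop) (PL : ℝ → ιL → Prop) (s : ℝ) : Prop :=
  ∀ u, a ≤ u → u < s → ¬ Touched F.C₀ F.z₀ F.CL F.zL id F.eL P₀ PL u

theorem cfa_of_fa (hR : F.Rules a T P₀ PA PL) {s : ℝ} (hsT : s ≤ T) (hA : F.UntA a P₀ PA s)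
    {u : ℝ} (hu : u < s) {k : κ} (hk : k ∈ F.FA u) : k ∈ F.CFA a P₀ PA u :=
  CFut.of_fut hR.r₀ hR.rA hsT hA hu hk

theorem cfl_of_fl (hR : F.Rules a T P₀ PA PL) {s : ℝ} (hsT : s ≤ T) (hL : F.UntL a P₀ PL s)
    {u : ℝ} (hu : u < s) {k : κ} (hk : k ∈ F.FL u) : k ∈ F.CFL a P₀ PL u :=
  CFut.of_fut hR.r₀ hR.rL hsT hL hu hk

theorem cfl_not_cfa {s : ℝ} (hlk : ¬ F.Link a P₀ PA PL s) {u : ℝ} (hu : u ≤ s) {k : κ}
    (hk : k ∈ F.CFL a P₀ PL u) : k ∉ F.CFA a P₀ PA u :=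
  fun hk' => hlk ⟨u, ⟨CFut.nonneg hk, hu⟩, Or.inl ⟨k, hk', hk⟩⟩

variable [Finite κ] [Finite ιA] [Finite ιL]

theorem infected_iffA (hd : F.Dyn T) (hR : F.Rules a T P₀ PA PL) (ha : 0 ≤ a) {s : ℝ}
    (hsT : s ≤ T) (hA : F.UntA a P₀ PA s) {u : ℝ} (hau : a ≤ u) (hu : u < s) (k : κ) :
    P₀ u k ↔ PA u (F.eA k) :=
  (agreeAt_of_not_touched hd.p₀A hR.coh₀A ha ⟨hau, hu.le.trans hsT⟩ (hA u hau hu)).1.iff k

theorem infected_iffL (hd : F.Dyn T) (hR : F.Rules a T P₀ PA PL) (ha : 0 ≤ a) {s : ℝ}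
    (hsT : s ≤ T) (hL : F.UntL a P₀ PL s) {u : ℝ} (hau : a ≤ u) (hu : u < s) (k : κ) :
    P₀ u k ↔ PL u (F.eL k) :=
  (agreeAt_of_not_touched hd.p₀L hR.coh₀L ha ⟨hau, hu.le.trans hsT⟩ (hL u hau hu)).1.iff k

theorem agreeA_closed (hd : F.Dyn T) {s : ℝ} (hs : s ∈ Icc 0 T) {k : κ}
    (hk : ∀ v, v < s → k ∉ F.FA v) : F.z₀ s k = F.zA s (F.eA k) :=
  agree_of_not_fut_lt hd.p₀A hs (hd.initA k) fun v _ hv => hk v hv


theorem not_fa_of_cfl (hR : F.Rules a T P₀ PA PL) {s : ℝ} (hs : s ∈ Icc 0 T)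
    (hA : F.UntA a P₀ PA s) (hlk : ¬ F.Link a P₀ PA PL s) {u : ℝ} (hu : u ≤ s) {k : κ}
    (hk : k ∈ F.CFL a P₀ PL u) : ∀ v, v < u → k ∉ F.FA v := fun _ hv hkA =>
  cfl_not_cfa hlk hu hk ((cfa_of_fa hR hs.2 hA (hv.trans_le hu) hkA).mono hv.le)








end Three

/-! ### A union of two objects touches with the first of them -/

namespace Four

variable {κ ιA ιL ι : Type} {X : Type*} {F : Four κ ιA ιL ι X} {a T : ℝ} {P₀ : ℝ → κ → Prop}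
  {PA : ℝ → ιA → Prop} {PL : ℝ → ιL → Prop} {P : ℝ → ι → Prop}
variable [Finite κ] [Finite ιA] [Finite ιL] [Finite ι]

/-- The clean closure of `L` is influenced by `A ∪ L`. -/
theorem fut_union_of_cfl (hd : F.Dyn T) (hR : F.Rules a T P₀ PA PL P) {s : ℝ} (hs : s ∈ Icc 0 T)
    (hA : F.UntA a P₀ PA s) (hL : F.UntL a P₀ PL s) (hlk : ¬ F.Link a P₀ PA PL s) {u : ℝ}
    (hu : u ≤ s) {k : κ} (hk : k ∈ F.CFL a P₀ PL u) :
    Fut F.C₀ F.z₀ F.C F.z id (F.fA ∘ F.eA) u k := by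
  change CFut F.C₀ F.z₀ F.CL F.zL id F.eL a P₀ PL u k at hk
  have nfa : ∀ {u : ℝ}, u ≤ s → ∀ {k : κ}, CFut F.C₀ F.z₀ F.CL F.zL id F.eL a P₀ PL u k →
      ∀ v, v < u → k ∉ F.FA v := fun hu _ hk => not_fa_of_cfl hR hs hA hlk hu hk
  have gl : ∀ {u : ℝ}, u ≤ s → ∀ {k : κ}, CFut F.C₀ F.z₀ F.CL F.zL id F.eL a P₀ PL u k →
      F.zL u (F.eL k) = F.z u (F.fL (F.eL k)) := by
    intro u hu k hk
    refine glueL_closed hd hR hs hA hL hlk ⟨CFut.nonneg hk, hu⟩ fun v hv k' hk' => ?_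
    rw [← F.eL_inj hk']
    exact nfa hu hk v hv
  induction hk with
  | @init u k h h0 => exact absurd (init₀ hd hs.1 hlk k).2 h
  | new₁ j hj _ _ _ _ => exact absurd ⟨j, rfl⟩ hj
  | @new₂ u u' k y hy hc h0 huu hcl =>
    have hu's : u' ≤ s := huu.trans hu
    have hk' : CFut F.C₀ F.z₀ F.CL F.zL id F.eL a P₀ PL u' k := .new₂ y hy hc h0 le_rfl hcl
    refine .new₂ (F.fL y) ?_ ?_ h0 huu
    · rintro ⟨k', hk''⟩
      rw [Function.comp_apply, F.comm k'] at hk''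
      exact hy ⟨k', F.fL_inj hk''⟩
    · rw [Function.comp_apply, F.comm k]
      exact (hd.pL.coh u' ⟨h0, hu's.trans hs.2⟩ y (F.eL k)
        (glueL_closed hd hR hs hA hL hlk ⟨h0, hu's⟩ fun v hv k' hk'' => absurd ⟨k', hk''.symm⟩ hy)
        (gl hu's hk')).1 hc
  | @chain₁ u u' k l h hc huu hcl ih => exact .chain₁ (ih (huu.trans hu)) hc huu
  | @chain₂ u u' k l h hc huu hcl ih =>
    have hu's : u' ≤ s := huu.trans hu
    have h0 : 0 ≤ u' := CFut.nonneg h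
    have hk' : CFut F.C₀ F.z₀ F.CL F.zL id F.eL a P₀ PL u' k := .chain₂ h hc le_rfl hcl
    refine .chain₂ (ih hu's) ?_ huu
    rw [Function.comp_apply, Function.comp_apply, F.comm k, F.comm l]
    exact (hd.pL.coh u' ⟨h0, hu's.trans hs.2⟩ (F.eL l) (F.eL k) (gl hu's h) (gl hu's hk')).1 hc

/-- Off the link event, a touch of `Z` by `L` at `s` (nobody having touched before) is a touch of
`Z` by `A ∪ L`. -/
theorem touched_union_closed (hd : F.Dyn T) (hX : F.CohX T) (hR : F.Rules a T P₀ PA PL P)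
    (ha : 0 ≤ a) {s : ℝ} (hs : s ∈ Icc a T) (hA : F.UntA a P₀ PA s) (hL : F.UntL a P₀ PL s)
    (hlk : ¬ F.Link a P₀ PA PL s)
    (h : Touched F.C₀ F.z₀ F.CL F.zL id F.eL P₀ PL s) :
    Touched F.C₀ F.z₀ F.C F.z id (F.fA ∘ F.eA) P₀ P s := by
  have hs0 : s ∈ Icc 0 T := ⟨ha.trans hs.1, hs.2⟩
  have hss : s ∈ Icc 0 s := ⟨hs0.1, le_rfl⟩
  by_cases hH : Hit F.C₀ F.z₀ F.CL F.zL id F.eL a P₀ PL s
  · obtain ⟨i, hi, hc⟩ := hH
    unfold CleanB at hi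
    push Not at hi
    obtain ⟨u₀, hau, hus, hP⟩ := hi
    have hP0 : P₀ u₀ i := by
      by_contra hno
      exact hno ((infected_iffL hd hR ha hs.2 hL hau hus i).2 (hP hno))
    have hP0s : P₀ s i := hR.r₀.mono hau hus.le hs.2 hP0
    have hiA : ∀ v, v < s → i ∉ F.FA v := by
      intro v hv hiv
      refine hA (max v u₀) (hau.trans (le_max_right _ _)) (max_lt hv hus)
        (Or.inl ⟨i, ?_, Or.inl ?_⟩)
      · exact Fut.mono hiv (le_max_left _ _)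
      · exact hR.r₀.mono hau (le_max_right _ _) ((max_lt hv hus).le.trans hs.2) hP0
    have e3 : F.zL s (F.eL i) = F.z s (F.fL (F.eL i)) :=
      glueL_closed hd hR hs0 hA hL hlk hss fun v hv k' hk' => by
        rw [← F.eL_inj hk']; exact hiA v hv
    refine Or.inl ⟨i, ?_, Or.inl hP0s⟩
    rcases hc with ⟨j, hj, _⟩ | ⟨y, hy, hc⟩ | ⟨l, hl, hc⟩
    · exact absurd ⟨j, rfl⟩ hj
    · refine .new₂ (F.fL y) ?_ ?_ hs0.1 le_rfl
      · rintro ⟨k', hk''⟩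
        rw [Function.comp_apply, F.comm k'] at hk''
        exact hy ⟨k', F.fL_inj hk''⟩
      · rw [Function.comp_apply, F.comm i]
        exact (hd.pL.coh s hs0 y (F.eL i)
          (glueL_closed hd hR hs0 hA hL hlk hss fun v hv k' hk'' => absurd ⟨k', hk''.symm⟩ hy)
          e3).1 hc
    · have hl' : l ∈ F.CFL a P₀ PL s := hl
      have hlA := not_fa_of_cfl hR hs0 hA hlk le_rfl hl'
      have hlfut := fut_union_of_cfl hd hR hs0 hA hL hlk le_rfl hl'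
      rcases hc with hc | hc
      · exact .chain₁ hlfut hc le_rfl
      · refine .chain₂ hlfut ?_ le_rfl
        rw [Function.comp_apply, Function.comp_apply, F.comm i, F.comm l]
        exact (hd.pL.coh s hs0 (F.eL l) (F.eL i)
          (glueL_closed hd hR hs0 hA hL hlk hss fun v hv k' hk' => by
            rw [← F.eL_inj hk']; exact hlA v hv) e3).1 hc
  · have hu : F.Unlinked s := unlinked_of_not_hit hd hX hR ha hs hA hL hlk hH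
    have hds : F.Dyn s := hd.mono hs.2
    have hPL : ∀ y, (∀ k, y = F.eL k → k ∉ F.FA s) → (PL s y ↔ P s (F.fL y)) :=
      fun y hy => hR.st.cohL s hs y (histL hds hu hss hy)
    rcases h with ⟨k, hk, hP⟩ | ⟨j, hj, _⟩ | ⟨y, hy, hP⟩
    · have hkc : k ∈ F.CFL a P₀ PL s := CFut.of_not_hit hR.r₀ hR.rL hs.2 hL hH hk
      have hkA : k ∉ F.FA s := fun h => hu.disj s hss k h hk
      refine Or.inl ⟨k, fut_union_of_cfl hd hR hs0 hA hL hlk le_rfl hkc, ?_⟩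
      rcases hP with hP | hP
      · exact Or.inl hP
      · right
        rw [Function.comp_apply, F.comm k]
        exact (hPL _ fun k' hk' => by rw [← F.eL_inj hk']; exact hkA).1 hP
    · exact absurd ⟨j, rfl⟩ hj
    · refine Or.inr (Or.inr ⟨F.fL y, ?_, (hPL y fun k hk => absurd ⟨k, hk.symm⟩ hy).1 hP⟩)
      rintro ⟨k', hk''⟩
      rw [Function.comp_apply, F.comm k'] at hk''
      exact hy ⟨k', F.fL_inj hk''⟩

theorem CohX.swap (hd : F.Dyn T) (h : F.CohX T) : F.swap.CohX T where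
  cohXL := fun s hs k y he hc => hd.p₀A.symm₂ _ _ _ (h.cohXA s hs y k he.symm hc)
  cohXA := fun s hs x k he hc => hd.p₀L.symm₂ _ _ _ (h.cohXL s hs k x he.symm hc)

/-- The symmetric statement. -/
theorem touched_union_closed' (hd : F.Dyn T) (hX : F.CohX T) (hR : F.Rules a T P₀ PA PL P)
    (ha : 0 ≤ a) {s : ℝ} (hs : s ∈ Icc a T) (hA : F.UntA a P₀ PA s) (hL : F.UntL a P₀ PL s)
    (hlk : ¬ F.Link a P₀ PA PL s)
    (h : Touched F.C₀ F.z₀ F.CA F.zA id F.eA P₀ PA s) :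
    Touched F.C₀ F.z₀ F.C F.z id (F.fA ∘ F.eA) P₀ P s := by
  have h1 := touched_union_closed (F := F.swap) hd.swap (CohX.swap hd hX) hR.swap ha hs hL hA
    (fun h' => hlk h'.swap) h
  have h2 : F.swap.fA ∘ F.swap.eA = F.fA ∘ F.eA := funext fun k => (F.comm k).symm
  rw [h2] at h1
  exact h1

theorem theta_dich {ι₁ ι₂ κ' : Type} {X' : Type*} {C₁ : ℝ → ι₁ → ι₁ → Prop}
    {C₂ : ℝ → ι₂ → ι₂ → Prop} {z₁ : ℝ → ι₁ → X'} {z₂ : ℝ → ι₂ → X'} {e₁ : κ' → ι₁} {e₂ : κ' → ι₂}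
    {P₁ : ℝ → ι₁ → Prop} {P₂ : ℝ → ι₂ → Prop} (a T : ℝ) :
    theta C₁ z₁ C₂ z₂ e₁ e₂ a T P₁ P₂ ≤ T ∨ theta C₁ z₁ C₂ z₂ e₁ e₂ a T P₁ P₂ = T + 1 := by
  classical
  unfold theta
  split_ifs with hex
  · left
    obtain ⟨s₁, hs₁, hs₁'⟩ := hex
    have hbd : BddBelow {s | s ∈ Icc a T ∧ Touched C₁ z₁ C₂ z₂ e₁ e₂ P₁ P₂ s} :=
      ⟨a, fun s hs => hs.1.1⟩
    exact (csInf_le hbd ⟨hs₁, hs₁'⟩).trans hs₁.2
  · exact Or.inr rfl

/-- **`θ(Z, A ∪ L) = min (θ(Z, A)) (θ(Z, L))` off the link event at the minimum.** -/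
theorem theta_union (hd : F.Dyn T) (hX : F.CohX T) (hR : F.Rules a T P₀ PA PL P)
    (hp : Pair T F.C₀ F.z₀ F.C F.z id (F.fA ∘ F.eA))
    (ha : 0 ≤ a) (haT : a ≤ T)
    (hlk : ¬ F.Link a P₀ PA PL (min (theta F.C₀ F.z₀ F.CA F.zA id F.eA a T P₀ PA)
      (theta F.C₀ F.z₀ F.CL F.zL id F.eL a T P₀ PL))) :
    theta F.C₀ F.z₀ F.C F.z id (F.fA ∘ F.eA) a T P₀ P =
      min (theta F.C₀ F.z₀ F.CA F.zA id F.eA a T P₀ PA)
        (theta F.C₀ F.z₀ F.CL F.zL id F.eL a T P₀ PL) := by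
  set θA := theta F.C₀ F.z₀ F.CA F.zA id F.eA a T P₀ PA with hθA
  set θL := theta F.C₀ F.z₀ F.CL F.zL id F.eL a T P₀ PL with hθL
  set θ := theta F.C₀ F.z₀ F.C F.z id (F.fA ∘ F.eA) a T P₀ P with hθ
  have haA : a ≤ θA := le_theta haT
  have haL : a ≤ θL := le_theta haT
  have haθ : a ≤ θ := le_theta haT
  have hA1 : θA ≤ T + 1 := theta_le
  have h1 : θ ≤ T + 1 := theta_le
  have unA : ∀ {s : ℝ}, s ≤ T → s ≤ θA → F.UntA a P₀ PA s := fun hsT h =>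
    untouched_of_le_theta hd.p₀A ha hR.r₀ hR.rA hsT h
  have unL : ∀ {s : ℝ}, s ≤ T → s ≤ θL → F.UntL a P₀ PL s := fun hsT h =>
    untouched_of_le_theta hd.p₀L ha hR.r₀ hR.rL hsT h
  apply le_antisymm
  · rcases le_total θA θL with h | h
    · rw [min_eq_left h] at hlk ⊢
      rcases theta_dich (C₁ := F.C₀) (z₁ := F.z₀) (C₂ := F.CA) (z₂ := F.zA) (e₁ := id)
        (e₂ := F.eA) (P₁ := P₀) (P₂ := PA) a T with h2 | h2
      · have ht := (touched_iff_theta_le hd.p₀A ha hR.r₀ hR.rA ⟨haA, h2⟩).2 le_rfl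
        exact (touched_iff_theta_le hp ha hR.r₀ hR.r ⟨haA, h2⟩).1
          (touched_union_closed' hd hX hR ha ⟨haA, h2⟩ (unA h2 le_rfl) (unL h2 h) hlk ht)
      · rw [hθA, h2]; exact h1
    · rw [min_eq_right h] at hlk ⊢
      rcases theta_dich (C₁ := F.C₀) (z₁ := F.z₀) (C₂ := F.CL) (z₂ := F.zL) (e₁ := id)
        (e₂ := F.eL) (P₁ := P₀) (P₂ := PL) a T with h2 | h2
      · have ht := (touched_iff_theta_le hd.p₀L ha hR.r₀ hR.rL ⟨haL, h2⟩).2 le_rfl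
        exact (touched_iff_theta_le hp ha hR.r₀ hR.r ⟨haL, h2⟩).1
          (touched_union_closed hd hX hR ha ⟨haL, h2⟩ (unA h2 h) (unL h2 le_rfl) hlk ht)
      · rw [hθL, h2]; exact h1
  · -- `min (θ_A) (θ_L) ≤ θ`
    by_contra hlt
    push Not at hlt
    rcases theta_dich (C₁ := F.C₀) (z₁ := F.z₀) (C₂ := F.C) (z₂ := F.z) (e₁ := id)
        (e₂ := F.fA ∘ F.eA) (P₁ := P₀) (P₂ := P) a T with h2 | h2
    · have ht := (touched_iff_theta_le hp ha hR.r₀ hR.r ⟨haθ, h2⟩).2 le_rfl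
      rcases touched_trans hd.p₀A hd.pA ha hR.st.coh₀A hR.st.cohA ⟨haθ, h2⟩ ht with h3 | h3
      · have h4 := (touched_iff_theta_le hd.p₀A ha hR.r₀ hR.rA ⟨haθ, h2⟩).1 h3
        exact absurd (hlt.trans_le (min_le_left _ _)) (not_lt.2 h4)
      · -- `L` touches `Z+A` at `θ < min`: then it touches `Z`
        have hA : F.UntA a P₀ PA θ := unA h2 (hlt.le.trans (min_le_left _ _))
        have hL : F.UntL a P₀ PL θ := unL h2 (hlt.le.trans (min_le_right _ _))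
        have h4 := (touched_iff_closed hd hX hR ha ⟨haθ, h2⟩ hA hL
          fun h' => hlk (h'.mono hlt.le)).2 h3
        have h5 := (touched_iff_theta_le hd.p₀L ha hR.r₀ hR.rL ⟨haθ, h2⟩).1 h4
        exact absurd (hlt.trans_le (min_le_right _ _)) (not_lt.2 h5)
    · have h3 : θ = T + 1 := h2
      rw [h3] at hlt
      exact absurd (hlt.trans_le (min_le_left _ _)) (not_lt.2 hA1)

end Four

end Crest.Agent.R122.CausalGen291
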