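import Crest.Agent.R122.EW1_879
import Crest.Agent.R122.CausalOC_291
import Crest.Agent.R122.MWAlg_255

/-!
# Touch times of unions and of families of lines (row 122, section E, A8)

* `MW.Ok.comap`, `MW.Ok.of_comap`: relabelling of good worlds.
* `MW.min_theta_le_add`: `min (θ(Z,A)) (θ(Z+A,B)) ≤ θ(Z,A+B)`, always.
* `MW.NoLink Φ ε K T Z A B`: no clean link between `A` and `B` in `Z` up to and including
  `min T (θ(Z,A)) (θ(Z,B))`.
* `MW.W1_of_noLink`, `MW.theta_add_eq`: `θ(Z,A+B) = min (θ(Z,A)) (θ(Z,B))`.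
* `MW.OkFam`, `MW.NoLinkFam`, `MW.theta_sub_eq_fold`, `MW.theta_lines_eq_fold`: the touch time of a
  family of lines is the minimum (capped at `T + 1`) of the touch times of its lines.
-/

set_option autoImplicit false
set_option linter.unusedSectionVars false

open MeasureTheory Set Filter Topology
open scoped ENNReal
open Crest.AnalysisR.Kinetic
open Crest.Agent.R122.Flow671 Crest.Agent.R122.Ins45 Crest.Agent.R122.Causal291
open Crest.Agent.R122.Inf879 Crest.Agent.R122.GC311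

namespace Crest.Agent.R122.EDefs602

namespace MW

variable {ι ι' κ κ₁ κ₂ : Type} [Fintype ι] [Fintype ι'] [Fintype κ] [Fintype κ₁] [Fintype κ₂]
variable {Φ : Space3 → ℝ} {ε T s : ℝ} {K : ℕ} {Z : MW ι} {A : MW κ₁} {B : MW κ₂}

/-! ### Relabelling of good worlds -/

/-- Relabelling of a good world. -/
theorem Ok.comap (hΦ : AdmissiblePotential Φ) (hε : 0 < ε) (h : Z.Ok Φ ε) (e : ι' ≃ ι) :
    (Z.comap e).Ok Φ ε := by
  have hp : (Z.comap e).path Φ ε = fun t i => Z.path Φ ε t (e i) := by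
    funext t i
    exact MWAlg255.path_comap hΦ hε Z e t i
  refine ⟨⟨?_, ?_, ?_⟩, ?_⟩
  · rw [hp]
    exact continuousOn_pi.2 fun i => h.bw.cont_apply (e i)
  · intro t ht
    rw [hp]
    have h1 := hasDerivWithinAt_pi.1 (h.bw.der t ht)
    refine hasDerivWithinAt_pi.2 fun i => ?_
    have h2 : bf Φ ε (Z.comap e).b t (fun i => Z.path Φ ε t (e i)) i =
        bf Φ ε Z.b t (Z.path Φ ε t) (e i) := by
      classical
      unfold bf
      refine Prod.ext rfl ?_
      simp only [MW.comap]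
      congr 1
      congr 1
      exact Equiv.sum_comp e (fun j => if Z.b j ≤ t then
        gradient Φ ((1 / ε) • ((Z.path Φ ε t (e i)).1 - (Z.path Φ ε t j).1)) else 0)
    rw [h2]
    exact h1 (e i)
  · intro t ht
    rw [hp]
    exact (h.bw.dom t ht).imp id fun h' i j hij hi hj => h' (e i) (e j) (e.injective.ne hij) hi hj
  · intro j k hjk hb
    rw [hp]
    exact h.sep (e j) (e k) (e.injective.ne hjk) hb

theorem comap_symm (Z : MW ι) (e : ι' ≃ ι) : (Z.comap e).comap e.symm = Z := by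
  unfold MW.comap
  simp

theorem Ok.of_comap (hΦ : AdmissiblePotential Φ) (hε : 0 < ε) (e : ι' ≃ ι)
    (h : (Z.comap e).Ok Φ ε) : Z.Ok Φ ε := by
  have := h.comap hΦ hε e.symm
  rwa [comap_symm] at this

theorem ok_comap_iff (hΦ : AdmissiblePotential Φ) (hε : 0 < ε) (e : ι' ≃ ι) :
    (Z.comap e).Ok Φ ε ↔ Z.Ok Φ ε := ⟨Ok.of_comap hΦ hε e, fun h => h.comap hΦ hε e⟩

theorem ok_add_assoc (hΦ : AdmissiblePotential Φ) (hε : 0 < ε) :
    ((Z.add A).add B).Ok Φ ε ↔ (Z.add (A.add B)).Ok Φ ε := by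
  rw [MWAlg255.add_assoc_comap]
  exact ok_comap_iff hΦ hε _

/-! ### Touch time of `A + B` -/

/-- The touch time of `A + B` in terms of the world `(Z + A) + B`. -/
theorem theta_add_assoc (hΦ : AdmissiblePotential Φ) (hε : 0 < ε) (K : ℕ) (T : ℝ) (Z : MW ι)
    (A : MW κ₁) (B : MW κ₂) :
    Z.theta Φ ε K T (A.add B) = CausalGen291.theta (Z.C Φ ε) (Z.path Φ ε)
      (((Z.add A).add B).C Φ ε) (((Z.add A).add B).path Φ ε) id (Sum.inl ∘ Sum.inl) 0 T
      (Z.Inf Φ ε K) (((Z.add A).add B).Inf Φ ε K) := by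
  have hrel : MWAlg255.Rel (Z.C Φ ε) (Z.path Φ ε) ((Z.add (A.add B)).C Φ ε)
      ((Z.add (A.add B)).path Φ ε) id Sum.inl (Z.C Φ ε) (Z.path Φ ε)
      (((Z.add A).add B).C Φ ε) (((Z.add A).add B).path Φ ε) id (Sum.inl ∘ Sum.inl)
      (Equiv.refl ι) (Equiv.refl ι) (Equiv.sumAssoc ι κ₁ κ₂) :=
    { c₁ := fun _ _ _ => Iff.rfl
      c₂ := fun s j k => by
        rw [MWAlg255.add_assoc_comap]
        exact MWAlg255.C_comap hΦ hε _ _ s j k
      s₁ := fun _ _ => rfl
      s₂ := fun s j => by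
        rw [MWAlg255.add_assoc_comap]
        exact MWAlg255.path_comap hΦ hε _ _ s j
      m₁ := fun _ => rfl
      m₂ := fun _ => rfl }
  refine (hrel.theta_eq (t₀ := 0) (T := T) (fun _ _ => Iff.rfl) fun s j => ?_).symm
  rw [MWAlg255.add_assoc_comap]
  exact MWAlg255.Inf_comap hΦ hε K _ _ s j

theorem com_add_add (Z : MW ι) (A : MW κ₁) (B : MW κ₂) :
    Com Z ((Z.add A).add B) id (Sum.inl ∘ Sum.inl) :=
  ⟨Function.injective_id, Sum.inl_injective.comp Sum.inl_injective, fun _ => rfl, fun _ => rfl⟩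

/-- **Triangle inequality** (no hypothesis on links). -/
theorem min_theta_le_add (hΦ : AdmissiblePotential Φ) (hε : 0 < ε) (hZ : Z.Ok Φ ε)
    (hA : (Z.add A).Ok Φ ε) (hAB : ((Z.add A).add B).Ok Φ ε) (hT : 0 ≤ T) :
    min (Z.theta Φ ε K T A) ((Z.add A).theta Φ ε K T B) ≤ Z.theta Φ ε K T (A.add B) := by
  have hU := (ok_add_assoc hΦ hε).1 hAB
  rcases theta_le_or (K := K) (T := T) hΦ hε hZ hU with h | h
  · have h0 : 0 ≤ Z.theta Φ ε K T (A.add B) := theta_nonneg hT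
    rw [theta_add_assoc hΦ hε] at h h0 ⊢
    have ht := (CausalGen291.touched_iff_theta_le ((com_add_add Z A B).pair hΦ hε hZ hAB T) le_rfl
      (hZ.rule 0 T K) (hAB.rule 0 T K) ⟨h0, h⟩).2 le_rfl
    rcases CausalGen291.touched_trans (P₁ := Z.Inf Φ ε K) (P₂ := (Z.add A).Inf Φ ε K)
      (P₃ := ((Z.add A).add B).Inf Φ ε K) ((com_add Z A).pair hΦ hε hZ hA T)
      ((com_add (Z.add A) B).pair hΦ hε hA hAB T) le_rfl (fun _ _ _ h => (com_add Z A).coh h)
      (fun _ _ _ h => (com_add (Z.add A) B).coh h) ⟨h0, h⟩ ht with h1 | h1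
    · exact (min_le_left _ _).trans (theta_le_of_touched ⟨h0, h⟩ h1)
    · exact (min_le_right _ _).trans (theta_le_of_touched ⟨h0, h⟩ h1)
  · rw [h]
    exact (min_le_left _ _).trans theta_le

/-- No clean link between `A` and `B` in `Z` up to the first touch. -/
def NoLink (Φ : Space3 → ℝ) (ε : ℝ) (K : ℕ) (T : ℝ) (Z : MW ι) (A : MW κ₁) (B : MW κ₂) : Prop :=
  ∀ s, 0 ≤ s → s ≤ T → s ≤ Z.theta Φ ε K T A → s ≤ Z.theta Φ ε K T B → ¬ Z.LINK Φ ε K A B s


theorem W1_of_noLink (hΦ : AdmissiblePotential Φ) (hε : 0 < ε) (hZ : Z.Ok Φ ε)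
    (hA : (Z.add A).Ok Φ ε) (hB : (Z.add B).Ok Φ ε) (hAB : ((Z.add A).add B).Ok Φ ε) (hT : 0 ≤ T)
    (hlk : NoLink Φ ε K T Z A B) : Decomp811.W1E Φ ε K T Z A B :=
  W1_of_not_link hΦ hε hZ hA hB hAB hT fun s h0 hsT hsA hsB _ => hlk s h0 hsT hsA hsB

/-- **Touch time of a union of unlinked objects.** -/
theorem theta_add_eq (hΦ : AdmissiblePotential Φ) (hε : 0 < ε) (hZ : Z.Ok Φ ε)
    (hA : (Z.add A).Ok Φ ε) (hB : (Z.add B).Ok Φ ε) (hAB : ((Z.add A).add B).Ok Φ ε) (hT : 0 ≤ T)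
    (hlk : NoLink Φ ε K T Z A B) :
    Z.theta Φ ε K T (A.add B) = min (Z.theta Φ ε K T A) (Z.theta Φ ε K T B) := by
  have hA0 : 0 ≤ Z.theta Φ ε K T A := theta_nonneg hT
  have hB0 : 0 ≤ Z.theta Φ ε K T B := theta_nonneg hT
  by_cases hm : min (Z.theta Φ ε K T A) (Z.theta Φ ε K T B) ≤ T
  · rw [theta_add_assoc hΦ hε]
    exact CausalGen291.Four.theta_union (four_dyn hΦ hε hZ hA hB hAB T) (four_cohX Φ ε Z A B T)
      (four_rules hZ hA hB hAB K 0 T) ((com_add_add Z A B).pair hΦ hε hZ hAB T) le_rfl hT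
      (hlk _ (le_min hA0 hB0) hm (min_le_left _ _) (min_le_right _ _))
  · push Not at hm
    rw [lt_min_iff] at hm
    have h1 := (theta_le_or (K := K) (T := T) hΦ hε hZ hA).resolve_left (not_le.2 hm.1)
    have h2 := (theta_le_or (K := K) (T := T) hΦ hε hZ hB).resolve_left (not_le.2 hm.2)
    have hU := (ok_add_assoc hΦ hε).1 hAB
    rw [h1, h2, min_self]
    rcases theta_le_or (K := K) (T := T) hΦ hε hZ hU with h | h
    · exfalso
      have h3 := min_theta_le_add (K := K) hΦ hε hZ hA hAB hT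
      have h4 : (Z.add A).theta Φ ε K T B ≤ T := by
        rcases min_le_iff.1 (le_refl (min (Z.theta Φ ε K T A) ((Z.add A).theta Φ ε K T B))) with
          h5 | h5
        · exact absurd ((h5.trans h3).trans h) (not_le.2 hm.1)
        · exact (h5.trans h3).trans h
      have h6 := (W1_of_noLink hΦ hε hZ hA hB hAB hT hlk).iff_le (h4.trans hm.1.le)
      exact absurd ((h6.1 le_rfl).trans h4) (not_le.2 hm.2)
    · exact h

/-! ### Families of lines -/

open MWAlg255 (sub)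

/-- All worlds `Z +` sub-family are good. -/
def OkFam (Φ : Space3 → ℝ) (ε : ℝ) (Z : MW ι) (ls : κ → ML) : Prop :=
  ∀ S : Finset κ, (Z.add (sub ls S)).Ok Φ ε

/-- Each line of the family is unlinked to the sub-families which do not contain it. -/
def NoLinkFam (Φ : Space3 → ℝ) (ε : ℝ) (K : ℕ) (T : ℝ) (Z : MW ι) (ls : κ → ML) : Prop :=
  ∀ (S : Finset κ) (k : κ), k ∉ S → NoLink Φ ε K T Z (sub ls S) (line (ls k))

variable {ls : κ → ML}

theorem OkFam.base (hΦ : AdmissiblePotential Φ) (hε : 0 < ε) (h : OkFam Φ ε Z ls) :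
    Z.Ok Φ ε := by
  have h1 := h ∅
  have : IsEmpty ((∅ : Finset κ) : Type) := by
    refine ⟨fun x => ?_⟩
    exact absurd x.2 (Finset.notMem_empty _)
  rw [MWAlg255.add_empty_comap] at h1
  exact h1.of_comap hΦ hε _

theorem OkFam.line (hΦ : AdmissiblePotential Φ) (hε : 0 < ε) (h : OkFam Φ ε Z ls) (k : κ) :
    (Z.add (MW.line (ls k))).Ok Φ ε := by
  have h1 : (Z.add (sub ls {k})).comap (Equiv.sumCongr (Equiv.refl ι)
      (Equiv.ofUnique Unit ({k} : Finset κ) : Unit ≃ ({k} : Finset κ))) =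
        Z.add (MW.line (ls k)) := by
    rw [← MWAlg255.add_comap]
    rfl
  rw [← h1]
  exact (h {k}).comap hΦ hε _

theorem OkFam.lines (hΦ : AdmissiblePotential Φ) (hε : 0 < ε) (h : OkFam Φ ε Z ls) :
    (Z.add (MW.lines ls)).Ok Φ ε := by
  have h1 : (Z.add (sub ls Finset.univ)).comap (Equiv.sumCongr (Equiv.refl ι)
      (Equiv.subtypeUnivEquiv (fun x => Finset.mem_univ x)).symm) = Z.add (MW.lines ls) := by
    rw [← MWAlg255.add_comap]
    rfl
  rw [← h1]
  exact (h Finset.univ).comap hΦ hε _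

theorem OkFam.add_insert [DecidableEq κ] (hΦ : AdmissiblePotential Φ) (hε : 0 < ε)
    (h : OkFam Φ ε Z ls) {S : Finset κ} {k : κ} (hk : k ∉ S) :
    ((Z.add (sub ls S)).add (MW.line (ls k))).Ok Φ ε := by
  rw [ok_add_assoc hΦ hε]
  have h1 : (Z.add (sub ls (insert k S))).comap (Equiv.sumCongr (Equiv.refl ι)
      (MWAlg255.insertEquiv hk)) = Z.add ((sub ls S).add (MW.line (ls k))) := by
    rw [← MWAlg255.add_comap, MWAlg255.sub_insert]
    rfl
  rw [← h1]
  exact (h _).comap hΦ hε _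

theorem theta_sub_insert_eq [DecidableEq κ] (hΦ : AdmissiblePotential Φ) (hε : 0 < ε)
    (hok : OkFam Φ ε Z ls) (hlk : NoLinkFam Φ ε K T Z ls) (hT : 0 ≤ T) {S : Finset κ} {k : κ}
    (hk : k ∉ S) : Z.theta Φ ε K T (sub ls (insert k S)) =
      min (Z.theta Φ ε K T (sub ls S)) (Z.thetaL Φ ε K T (ls k)) := by
  rw [MWAlg255.theta_sub_insert hΦ hε K T Z ls hk]
  exact theta_add_eq hΦ hε (hok.base hΦ hε) (hok S) (hok.line hΦ hε k) (hok.add_insert hΦ hε hk) hT
    (hlk S k hk)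

/-- **The touch time of a family of unlinked lines.** -/
theorem theta_sub_eq_fold (hΦ : AdmissiblePotential Φ) (hε : 0 < ε)
    (hok : OkFam Φ ε Z ls) (hlk : NoLinkFam Φ ε K T Z ls) (hT : 0 ≤ T) (S : Finset κ) :
    Z.theta Φ ε K T (sub ls S) = S.fold min (T + 1) fun k => Z.thetaL Φ ε K T (ls k) := by
  classical
  induction S using Finset.induction_on with
  | empty =>
    have : IsEmpty ((∅ : Finset κ) : Type) := by
      refine ⟨fun x => ?_⟩
      exact absurd x.2 (Finset.notMem_empty _)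
    rw [Finset.fold_empty]
    exact MWAlg255.theta_empty hΦ hε K T Z _
  | @insert k S hk ih =>
    rw [theta_sub_insert_eq hΦ hε hok hlk hT hk, Finset.fold_insert hk, ih, min_comm]

theorem theta_lines_eq_fold (hΦ : AdmissiblePotential Φ) (hε : 0 < ε)
    (hok : OkFam Φ ε Z ls) (hlk : NoLinkFam Φ ε K T Z ls) (hT : 0 ≤ T) :
    Z.theta Φ ε K T (MW.lines ls) =
      Finset.univ.fold min (T + 1) fun k => Z.thetaL Φ ε K T (ls k) := by
  rw [← MWAlg255.theta_sub_univ hΦ hε, theta_sub_eq_fold hΦ hε hok hlk hT]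

/-- The family touches not later than its lines. -/
theorem theta_lines_le (hΦ : AdmissiblePotential Φ) (hε : 0 < ε)
    (hok : OkFam Φ ε Z ls) (hlk : NoLinkFam Φ ε K T Z ls) (hT : 0 ≤ T) (k : κ) :
    Z.theta Φ ε K T (MW.lines ls) ≤ Z.thetaL Φ ε K T (ls k) := by
  rw [theta_lines_eq_fold hΦ hε hok hlk hT, Finset.fold_min_le]
  exact Or.inr ⟨k, Finset.mem_univ k, le_rfl⟩



end MW

end Crest.Agent.R122.EDefs602
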