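import Crest.Agent.R122.BoltzSplit_814

-- ▼ part R122/BoltzHonest_814
section

/-!
Row 122, Boltzmann side (helper814): the honest gain/loss split of `collisionOperator` for
Gaussian-bounded measurable `h`, and the loss frequency.
-/

set_option autoImplicit false

open MeasureTheory ProbabilityTheory
open Crest.AnalysisR.Kinetic
open scoped ENNReal Classical

noncomputable section

namespace Crest.Agent.R122.Boltz814

variable {Φ : Space3 → ℝ}

/-- `ofReal` of a real function -/
def toE {α : Type*} (h : α → ℝ) : α → ℝ≥0∞ := fun u => ENNReal.ofReal (h u)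

lemma toE_gauss {h : Space3 → ℝ} {γ C : ℝ} (hC0 : 0 ≤ C)
    (hC : ∀ u, h u ≤ C * Real.exp (-γ * ‖u‖ ^ 2)) (u : Space3) :
    toE h u ≤ ENNReal.ofReal C * ENNReal.ofReal (Real.exp (-γ * ‖u‖ ^ 2)) := by
  rw [← ENNReal.ofReal_mul hC0]
  exact ENNReal.ofReal_le_ofReal (hC u)

lemma integrable_norm_sub_mul {h : Space3 → ℝ} (hm : Measurable h) (h0 : ∀ u, 0 ≤ h u)
    {γ C : ℝ} (hγ : 0 < γ) (hC : ∀ u, h u ≤ C * Real.exp (-γ * ‖u‖ ^ 2)) (v : Space3) :
    Integrable (fun w => ‖v - w‖ * h w) := by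
  refine ((integrable_norm_sub_mul_gauss hγ v).const_mul C).mono' (by fun_prop)
    (Filter.Eventually.of_forall fun w => ?_)
  rw [Real.norm_eq_abs, abs_of_nonneg (mul_nonneg (norm_nonneg _) (h0 w))]
  calc ‖v - w‖ * h w ≤ ‖v - w‖ * (C * Real.exp (-γ * ‖w‖ ^ 2)) := by
        gcongr; exact hC w
    _ = C * (‖v - w‖ * Real.exp (-γ * ‖w‖ ^ 2)) := by ring

lemma nu_nonneg {h : Space3 → ℝ} (h0 : ∀ u, 0 ≤ h u) (v : Space3) : 0 ≤ nu h v :=
  mul_nonneg Real.pi_pos.le (integral_nonneg fun w => mul_nonneg (norm_nonneg _) (h0 w))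

/-- real and extended loss frequencies agree -/
lemma ofReal_nu {h : Space3 → ℝ} (hm : Measurable h) (h0 : ∀ u, 0 ≤ h u)
    {γ C : ℝ} (hγ : 0 < γ) (hC : ∀ u, h u ≤ C * Real.exp (-γ * ‖u‖ ^ 2)) (v : Space3) :
    ENNReal.ofReal (nu h v) = nuE (toE h) v := by
  unfold nu nuE toE
  rw [ENNReal.ofReal_mul Real.pi_pos.le, ofReal_integral_eq_lintegral_ofReal
    (integrable_norm_sub_mul hm h0 hγ hC v)
    (Filter.Eventually.of_forall fun w => mul_nonneg (norm_nonneg _) (h0 w))]
  congr 1
  refine lintegral_congr fun w => ?_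
  rw [ENNReal.ofReal_mul (norm_nonneg _)]

/-- bound on the loss frequency -/
lemma nu_le {h : Space3 → ℝ} (hm : Measurable h) (h0 : ∀ u, 0 ≤ h u)
    {γ C : ℝ} (hγ : 0 < γ) (hC : ∀ u, h u ≤ C * Real.exp (-γ * ‖u‖ ^ 2))
    (v : Space3) : nu h v ≤ Real.pi * C * gaussMoment γ 1 * (1 + ‖v‖) := by
  unfold nu gaussMoment
  have h1 : ∫ w, ‖v - w‖ * h w ≤
      ∫ w : Space3, (1 + ‖v‖) * C * ((1 + ‖w‖) ^ 1 * Real.exp (-γ * ‖w‖ ^ 2)) := by
    refine integral_mono (integrable_norm_sub_mul hm h0 hγ hC v)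
      ((integrable_one_add_pow_mul_gauss hγ 1).const_mul _) fun w => ?_
    calc ‖v - w‖ * h w ≤ ((1 + ‖v‖) * (1 + ‖w‖)) * (C * Real.exp (-γ * ‖w‖ ^ 2)) :=
          mul_le_mul (norm_sub_le_mul v w) (hC w) (h0 w) (by positivity)
      _ = _ := by ring
  rw [integral_const_mul] at h1
  calc Real.pi * ∫ w, ‖v - w‖ * h w ≤ Real.pi * ((1 + ‖v‖) * C *
        ∫ w : Space3, (1 + ‖w‖) ^ 1 * Real.exp (-γ * ‖w‖ ^ 2)) := by gcongr
    _ = _ := by ring

lemma Qp_ne_top (hS : ScatFacts Φ) {h : Space3 → ℝ}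
    {γ C : ℝ} (hγ : 0 < γ) (hC0 : 0 ≤ C) (hC : ∀ u, h u ≤ C * Real.exp (-γ * ‖u‖ ^ 2))
    (v : Space3) : Qp Φ (toE h) (toE h) v ≠ ⊤ := by
  refine ne_top_of_le_ne_top ?_ (Qp_le_gauss hS hγ (toE_gauss hC0 hC) (toE_gauss hC0 hC) v)
  exact ENNReal.mul_ne_top (ENNReal.mul_ne_top (ENNReal.mul_ne_top ENNReal.ofReal_ne_top
    ENNReal.ofReal_ne_top) ENNReal.ofReal_ne_top)
    (ENNReal.mul_ne_top ENNReal.ofReal_ne_top ENNReal.ofReal_ne_top)

/-- the real inner gain integral -/
lemma inner_integral_eq (hS : ScatFacts Φ) {h : Space3 → ℝ} (hm : Measurable h)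
    (h0 : ∀ u, 0 ≤ h u) {γ C : ℝ} (hC0 : 0 ≤ C)
    (hC : ∀ u, h u ≤ C * Real.exp (-γ * ‖u‖ ^ 2)) {v w : Space3} (hvw : v - w ≠ 0) :
    ∫ b in impactDisc (v - w), (h (postVelocities Φ b v w).1 * h (postVelocities Φ b v w).2 -
      h v * h w) ∂μHE[2] =
      (gainInner Φ (toE h) (toE h) v w).toReal - Real.pi * (h v * h w) := by
  have hfin : IsFiniteMeasure ((μHE[2] : Measure Space3).restrict (impactDisc (v - w))) := by
    refine ⟨?_⟩
    rw [Measure.restrict_apply_univ, hausdorff_impactDisc hvw]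
    exact ENNReal.ofReal_lt_top
  -- measurability of the gain integrand
  have hpair : Measurable fun b : Space3 => ((v, w), b) := measurable_const.prodMk measurable_id
  have hpost : Measurable (fun b : Space3 => postOn Φ b v w) := by
    have h3 := Measurable.comp (measurable_postOn hS) hpair
    exact h3
  have hG' : Measurable (fun b : Space3 => h (postOn Φ b v w).1 * h (postOn Φ b v w).2) :=
    (hm.comp hpost.fst).mul (hm.comp hpost.snd)
  have hae : (fun b : Space3 => h (postOn Φ b v w).1 * h (postOn Φ b v w).2)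
      =ᵐ[(μHE[2] : Measure Space3).restrict (impactDisc (v - w))]
      fun b => h (postVelocities Φ b v w).1 * h (postVelocities Φ b v w).2 := by
    filter_upwards [ae_restrict_mem (measurableSet_impactDisc (v - w))] with b hb
    simp only [postOn_of_mem hb]
  have hG : AEStronglyMeasurable (fun b : Space3 =>
      h (postVelocities Φ b v w).1 * h (postVelocities Φ b v w).2)
      ((μHE[2] : Measure Space3).restrict (impactDisc (v - w))) :=
    hG'.aestronglyMeasurable.congr hae
  have hGi : Integrable (fun b : Space3 =>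
      h (postVelocities Φ b v w).1 * h (postVelocities Φ b v w).2)
      ((μHE[2] : Measure Space3).restrict (impactDisc (v - w))) := by
    refine Integrable.mono' (integrable_const (C ^ 2 * Real.exp (-γ * (‖v‖ ^ 2 + ‖w‖ ^ 2)))) hG ?_
    filter_upwards [ae_restrict_mem (measurableSet_impactDisc (v - w))] with b hb
    rw [Real.norm_eq_abs, abs_of_nonneg (mul_nonneg (h0 _) (h0 _))]
    calc h (postVelocities Φ b v w).1 * h (postVelocities Φ b v w).2
        ≤ (C * Real.exp (-γ * ‖(postVelocities Φ b v w).1‖ ^ 2)) *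
          (C * Real.exp (-γ * ‖(postVelocities Φ b v w).2‖ ^ 2)) :=
          mul_le_mul (hC _) (hC _) (h0 _) (by positivity)
      _ = C ^ 2 * Real.exp (-γ * (‖v‖ ^ 2 + ‖w‖ ^ 2)) := by
          rw [← norm_sq_post hS hb hvw, mul_add, Real.exp_add]; ring
  rw [integral_sub hGi (integrable_const _)]
  congr 1
  · rw [integral_eq_lintegral_of_nonneg_ae
      (Filter.Eventually.of_forall fun b => mul_nonneg (h0 _) (h0 _)) hG]
    unfold gainInner toE
    congr 1
    refine lintegral_congr fun b => ?_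
    rw [ENNReal.ofReal_mul (h0 _)]
  · rw [integral_const]
    simp only [MeasurableSet.univ, measureReal_restrict_apply, Set.univ_inter, smul_eq_mul]
    rw [Measure.real, hausdorff_impactDisc hvw, ENNReal.toReal_ofReal Real.pi_pos.le]

/-- **Honest gain/loss split** of the collision operator. -/
theorem collisionOperator_eq (hS : ScatFacts Φ) {h : Space3 → ℝ} (hm : Measurable h)
    (h0 : ∀ u, 0 ≤ h u) {γ C : ℝ} (hγ : 0 < γ) (hC0 : 0 ≤ C)
    (hC : ∀ u, h u ≤ C * Real.exp (-γ * ‖u‖ ^ 2)) (v : Space3) :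
    collisionOperator Φ h v = (Qp Φ (toE h) (toE h) v).toReal - h v * nu h v := by
  unfold collisionOperator
  have hmE : Measurable (toE h) := ENNReal.measurable_ofReal.comp hm
  have hgm := measurable_gainInner hS hmE hmE v
  have hgfin : ∀ w, ENNReal.ofReal ‖v - w‖ * gainInner Φ (toE h) (toE h) v w < ⊤ := by
    intro w
    by_cases hvw : v - w = 0
    · simp [hvw]
    · refine ENNReal.mul_lt_top ENNReal.ofReal_lt_top (lt_of_le_of_lt
        (gainInner_le hS (toE_gauss hC0 hC) (toE_gauss hC0 hC) hvw) ?_)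
      refine ENNReal.mul_lt_top (ENNReal.mul_lt_top (ENNReal.mul_lt_top ENNReal.ofReal_lt_top
        ENNReal.ofReal_lt_top) ENNReal.ofReal_lt_top)
        (ENNReal.mul_lt_top ENNReal.ofReal_lt_top ENNReal.ofReal_lt_top)
  have hQ := Qp_ne_top hS hγ hC0 hC v
  have hgi : Integrable (fun w => (ENNReal.ofReal ‖v - w‖ *
      gainInner Φ (toE h) (toE h) v w).toReal) :=
    integrable_toReal_of_lintegral_ne_top hgm.aemeasurable hQ
  have hli := (integrable_norm_sub_mul hm h0 hγ hC v).const_mul (Real.pi * h v)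
  have hcongr : (fun w => ‖v - w‖ * ∫ b in impactDisc (v - w),
      (h (postVelocities Φ b v w).1 * h (postVelocities Φ b v w).2 - h v * h w) ∂μHE[2]) =
      fun w => (ENNReal.ofReal ‖v - w‖ * gainInner Φ (toE h) (toE h) v w).toReal -
        (Real.pi * h v) * (‖v - w‖ * h w) := by
    funext w
    by_cases hvw : v - w = 0
    · simp [hvw]
    · rw [inner_integral_eq hS hm h0 hC0 hC hvw, ENNReal.toReal_mul,
        ENNReal.toReal_ofReal (norm_nonneg _)]
      ring
  rw [hcongr, integral_sub hgi hli, integral_toReal hgm.aemeasurable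
    (Filter.Eventually.of_forall hgfin), integral_const_mul]
  unfold nu
  rw [Qp_eq]
  ring

end Crest.Agent.R122.Boltz814

end
end

-- ▼ part R122/BoltzChar_814
section

/-!
Row 122, Boltzmann side (helper814): a regular kinetic solution along characteristics; Duhamel
(mild) form with damping, real version.
-/

set_option autoImplicit false

open MeasureTheory ProbabilityTheory Set
open Crest.AnalysisR.Kinetic
open scoped ENNReal Classical

noncomputable section

namespace Crest.Agent.R122.Boltz814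

variable {Φ : Space3 → ℝ} {β T : ℝ} {f₀ : PhasePoint → ℝ} {f : ℝ → PhasePoint → ℝ}

/-- Gaussian bound in the form used below. -/
lemma exists_gauss_bound (hT : 0 < T) (hf : IsRegularKineticSolution Φ β T f₀ f) :
    ∃ C : ℝ, 0 ≤ C ∧ ∀ t ∈ Icc 0 T, ∀ x v : Space3,
      f t (x, v) ≤ C * Real.exp (-(2 * β) * ‖v‖ ^ 2) := by
  obtain ⟨C, hC⟩ := hf.gaussian
  have h0 : (0 : ℝ) ∈ Icc 0 T := ⟨le_rfl, hT.le⟩
  refine ⟨C, ?_, fun t ht x v => ?_⟩
  · exact le_trans (mul_nonneg (Real.exp_nonneg _) (hf.nonneg 0 h0 (0, 0))) (hC 0 h0 0 0)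
  · have h := hC t ht x v
    have hpos := Real.exp_pos (-(2 * β) * ‖v‖ ^ 2)
    have h1 : Real.exp (2 * β * ‖v‖ ^ 2) * Real.exp (-(2 * β) * ‖v‖ ^ 2) = 1 := by
      rw [← Real.exp_add]; simp
    calc f t (x, v) = (Real.exp (2 * β * ‖v‖ ^ 2) * Real.exp (-(2 * β) * ‖v‖ ^ 2)) *
          f t (x, v) := by rw [h1, one_mul]
      _ = (Real.exp (2 * β * ‖v‖ ^ 2) * f t (x, v)) * Real.exp (-(2 * β) * ‖v‖ ^ 2) := by ring
      _ ≤ C * Real.exp (-(2 * β) * ‖v‖ ^ 2) := by gcongr

lemma continuous_slice (hf : IsRegularKineticSolution Φ β T f₀ f) {t : ℝ} (ht : t ∈ Icc 0 T) :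
    Continuous (f t) := by
  have h := hf.continuous
  have h2 : ContinuousOn (fun z : PhasePoint => f t z) univ := by
    refine h.comp (f := fun z : PhasePoint => (t, z)) (by fun_prop) ?_
    intro z _
    exact ⟨ht, mem_univ _⟩
  exact continuousOn_univ.1 h2

lemma continuousOn_char (hf : IsRegularKineticSolution Φ β T f₀ f) (x v w : Space3) :
    ContinuousOn (fun t => f t (x + t • v, w)) (Icc 0 T) := by
  refine hf.continuous.comp (f := fun t : ℝ => (t, (x + t • v, w))) (by fun_prop) ?_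
  intro t ht
  exact ⟨ht, mem_univ _⟩

/-- Derivative along characteristics, and continuity of this derivative. -/
lemma char_deriv (hT : 0 < T) (hf : IsRegularKineticSolution Φ β T f₀ f) (x v : Space3) :
    (∀ t ∈ Icc 0 T, HasDerivWithinAt (fun s => f s (x + s • v, v))
      (collisionOperator Φ (fun w => f t (x + t • v, w)) v) (Icc 0 T) t) ∧
    ContinuousOn (fun t => collisionOperator Φ (fun w => f t (x + t • v, w)) v) (Icc 0 T) := by
  set S : Set (ℝ × Space3) := Icc 0 T ×ˢ univ with hSdef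
  set F : ℝ × Space3 → ℝ := fun p => f p.1 (p.2, v) with hF
  have hcd : ContDiffOn ℝ 1 F S := hf.contDiff v
  have hU : UniqueDiffOn ℝ S := (uniqueDiffOn_Icc hT).prod uniqueDiffOn_univ
  have hdiff : ∀ p ∈ S, HasFDerivWithinAt F (fderivWithin ℝ F S p) S p := fun p hp =>
    ((hcd.differentiableOn (by norm_num)) p hp).hasFDerivWithinAt
  have hmem : ∀ t ∈ Icc 0 T, ∀ y : Space3, (t, y) ∈ S := fun t ht y => ⟨ht, mem_univ _⟩
  -- the directional derivative along the characteristic
  have hdir : ∀ t ∈ Icc 0 T, fderivWithin ℝ F S (t, x + t • v) (1, v) =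
      collisionOperator Φ (fun w => f t (x + t • v, w)) v := by
    intro t ht
    set y := x + t • v with hy
    have hd := hdiff (t, y) (hmem t ht y)
    -- time derivative
    have h1 : HasDerivWithinAt (fun s => f s (y, v)) (fderivWithin ℝ F S (t, y) (1, 0))
        (Icc 0 T) t := by
      have hc : HasDerivWithinAt (fun s : ℝ => (s, y)) ((1 : ℝ), (0 : Space3)) (Icc 0 T) t :=
        (hasDerivWithinAt_id t _).prodMk (hasDerivWithinAt_const t _ y)
      exact hd.comp_hasDerivWithinAt t hc (fun s hs => hmem s hs y)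
    -- space derivative
    have h2 : HasFDerivAt (fun z => f t (z, v))
        ((fderivWithin ℝ F S (t, y)).comp (ContinuousLinearMap.inr ℝ ℝ Space3)) y := by
      have hc : HasFDerivWithinAt (fun z : Space3 => (t, z))
          (ContinuousLinearMap.inr ℝ ℝ Space3) univ y := by
        have := (hasFDerivWithinAt_const t y (univ : Set Space3) (𝕜 := ℝ)).prodMk
          (hasFDerivWithinAt_id y univ)
        exact this
      have := hd.comp y hc (fun z _ => hmem t ht z)
      exact hasFDerivWithinAt_univ.1 this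
    have hB := hf.boltzmann t ht y v
    rw [h1.derivWithin ((uniqueDiffOn_Icc hT) t ht), h2.fderiv] at hB
    rw [← hB]
    simp only [ContinuousLinearMap.comp_apply, ContinuousLinearMap.inr_apply]
    rw [← map_add]
    simp
  refine ⟨fun t ht => ?_, ?_⟩
  · have hc : HasDerivWithinAt (fun s : ℝ => (s, x + s • v)) ((1 : ℝ), v) (Icc 0 T) t := by
      refine (hasDerivWithinAt_id t _).prodMk ?_
      have := ((hasDerivWithinAt_id t (Icc 0 T)).smul_const v).const_add x
      simpa using this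
    have h := (hdiff (t, x + t • v) (hmem t ht _)).comp_hasDerivWithinAt t hc
      (fun s hs => hmem s hs _)
    rw [hdir t ht] at h
    exact h
  · have hcont : ContinuousOn (fderivWithin ℝ F S) S :=
      hcd.continuousOn_fderivWithin hU (by norm_num)
    have hcc : ContinuousOn (fun t : ℝ => fderivWithin ℝ F S (t, x + t • v)) (Icc 0 T) :=
      hcont.comp (f := fun t : ℝ => (t, x + t • v)) (by fun_prop) (fun t ht => hmem t ht _)
    have := hcc.clm_apply (continuousOn_const (c := ((1 : ℝ), v)))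
    exact this.congr fun t ht => (hdir t ht).symm

/-- continuity of the loss frequency along characteristics -/
lemma continuousOn_nu_char (hβ : 0 < β) (hT : 0 < T) (hf : IsRegularKineticSolution Φ β T f₀ f)
    (x v : Space3) :
    ContinuousOn (fun t => nu (fun w => f t (x + t • v, w)) v) (Icc 0 T) := by
  obtain ⟨C, hC0, hC⟩ := exists_gauss_bound hT hf
  unfold nu
  refine ContinuousOn.mul continuousOn_const ?_
  refine continuousOn_of_dominated (bound := fun w => C * (‖v - w‖ *
    Real.exp (-(2 * β) * ‖w‖ ^ 2))) ?_ ?_ ?_ ?_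
  · intro t ht
    have := continuous_slice hf ht
    have h2 : Continuous (fun w : Space3 => f t (x + t • v, w)) := this.comp (by fun_prop)
    exact (Continuous.mul (by fun_prop) h2).aestronglyMeasurable
  · intro t ht
    refine Filter.Eventually.of_forall fun w => ?_
    rw [Real.norm_eq_abs, abs_of_nonneg (mul_nonneg (norm_nonneg _) (hf.nonneg t ht _))]
    calc ‖v - w‖ * f t (x + t • v, w) ≤ ‖v - w‖ * (C * Real.exp (-(2 * β) * ‖w‖ ^ 2)) := by
          gcongr; exact hC t ht _ _
      _ = _ := by ring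
  · exact (integrable_norm_sub_mul_gauss (by positivity) v).const_mul C
  · refine Filter.Eventually.of_forall fun w => ?_
    exact continuousOn_const.mul (continuousOn_char hf x v w)

/-- gain along characteristics -/
def gainChar (Φ : Space3 → ℝ) (f : ℝ → PhasePoint → ℝ) (x v : Space3) (t : ℝ) : ℝ :=
  (Qp Φ (toE fun w => f t (x + t • v, w)) (toE fun w => f t (x + t • v, w)) v).toReal

/-- loss frequency along characteristics -/
def nuChar (f : ℝ → PhasePoint → ℝ) (x v : Space3) (t : ℝ) : ℝ :=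
  nu (fun w => f t (x + t • v, w)) v

lemma measurable_slice (hf : IsRegularKineticSolution Φ β T f₀ f) {t : ℝ} (ht : t ∈ Icc 0 T)
    (x : Space3) : Measurable (fun w : Space3 => f t (x, w)) :=
  ((continuous_slice hf ht).comp (by fun_prop : Continuous fun w : Space3 => (x, w))).measurable

lemma collision_char (hβ : 0 < β) (hT : 0 < T) (hS : ScatFacts Φ)
    (hf : IsRegularKineticSolution Φ β T f₀ f) (x v : Space3) {t : ℝ} (ht : t ∈ Icc 0 T) :
    collisionOperator Φ (fun w => f t (x + t • v, w)) v =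
      gainChar Φ f x v t - f t (x + t • v, v) * nuChar f x v t := by
  obtain ⟨C, hC0, hC⟩ := exists_gauss_bound hT hf
  exact collisionOperator_eq hS (measurable_slice hf ht _) (fun w => hf.nonneg t ht _)
    (γ := 2 * β) (by positivity) hC0 (fun w => hC t ht _ w) v

lemma continuousOn_gainChar (hβ : 0 < β) (hT : 0 < T) (hS : ScatFacts Φ)
    (hf : IsRegularKineticSolution Φ β T f₀ f) (x v : Space3) :
    ContinuousOn (gainChar Φ f x v) (Icc 0 T) := by
  have h1 := (char_deriv hT hf x v).2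
  have h2 := (continuousOn_char hf x v v).mul (continuousOn_nu_char hβ hT hf x v)
  refine (h1.add h2).congr fun t ht => ?_
  have h3 := collision_char hβ hT hS hf x v ht
  show gainChar Φ f x v t = collisionOperator Φ (fun w => f t (x + t • v, w)) v +
    f t (x + t • v, v) * nuChar f x v t
  rw [h3]
  ring

lemma hasDerivAt_primitive {g : ℝ → ℝ} (hg : ContinuousOn g (Icc 0 T)) {t : ℝ}
    (ht : t ∈ Ioo 0 T) : HasDerivAt (fun u => ∫ r in (0 : ℝ)..u, g r) (g t) t := by
  have hnhds : Icc 0 T ∈ nhds t := Icc_mem_nhds ht.1 ht.2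
  have hint : IntervalIntegrable g volume 0 t := by
    refine (hg.mono ?_).intervalIntegrable
    rw [uIcc_of_le ht.1.le]
    exact Icc_subset_Icc_right ht.2.le
  refine intervalIntegral.integral_hasDerivAt_right hint ?_ (hg.continuousAt hnhds)
  exact ⟨Icc 0 T, hnhds, hg.aestronglyMeasurable measurableSet_Icc⟩

lemma continuousOn_primitive' {g : ℝ → ℝ} (hT : 0 < T) (hg : ContinuousOn g (Icc 0 T)) :
    ContinuousOn (fun u => ∫ r in (0 : ℝ)..u, g r) (Icc 0 T) := by
  have hint : IntegrableOn g (uIcc 0 T) := by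
    rw [uIcc_of_le hT.le]
    exact hg.integrableOn_Icc
  have := intervalIntegral.continuousOn_primitive_interval hint
  rwa [uIcc_of_le hT.le] at this

/-- **Damped Duhamel formula** along a characteristic, real version. -/
theorem duhamel_char (hβ : 0 < β) (hT : 0 < T) (hS : ScatFacts Φ)
    (hf : IsRegularKineticSolution Φ β T f₀ f) (x v : Space3) {s t : ℝ} (hs : 0 ≤ s)
    (hst : s ≤ t) (htT : t ≤ T) :
    f t (x + t • v, v) = Real.exp (-∫ r in s..t, nuChar f x v r) * f s (x + s • v, v) +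
      ∫ r in s..t, Real.exp (-∫ r' in r..t, nuChar f x v r') * gainChar Φ f x v r := by
  have hnu : ContinuousOn (nuChar f x v) (Icc 0 T) := continuousOn_nu_char hβ hT hf x v
  have hG := continuousOn_gainChar hβ hT hS hf x v
  set N : ℝ → ℝ := fun u => ∫ r in (0 : ℝ)..u, nuChar f x v r with hN
  have hNc : ContinuousOn N (Icc 0 T) := continuousOn_primitive' hT hnu
  have hint : ∀ a ∈ Icc 0 T, ∀ b ∈ Icc 0 T, IntervalIntegrable (nuChar f x v) volume a b := by
    intro a ha b hb
    refine (hnu.mono ?_).intervalIntegrable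
    exact ordConnected_Icc.uIcc_subset ha hb
  have hNsub : ∀ a ∈ Icc 0 T, ∀ b ∈ Icc 0 T, ∫ r in a..b, nuChar f x v r = N b - N a := by
    intro a ha b hb
    have h0 : (0 : ℝ) ∈ Icc 0 T := ⟨le_rfl, hT.le⟩
    rw [hN]
    simp only
    rw [intervalIntegral.integral_interval_sub_left (hint 0 h0 b hb) (hint 0 h0 a ha)]
  have hsI : s ∈ Icc 0 T := ⟨hs, hst.trans htT⟩
  have htI : t ∈ Icc 0 T := ⟨hs.trans hst, htT⟩
  have hsub : Icc s t ⊆ Icc 0 T := Icc_subset_Icc hs htT
  -- FTC for `φ e^N`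
  have hφc : ContinuousOn (fun u => f u (x + u • v, v)) (Icc 0 T) := continuousOn_char hf x v v
  have hderiv : ∀ u ∈ Ioo s t, HasDerivAt (fun u => f u (x + u • v, v) * Real.exp (N u))
      (gainChar Φ f x v u * Real.exp (N u)) u := by
    intro u hu
    have huo : u ∈ Ioo 0 T := ⟨hs.trans_lt hu.1, hu.2.trans_le htT⟩
    have huI : u ∈ Icc 0 T := Ioo_subset_Icc_self huo
    have h1 := ((char_deriv hT hf x v).1 u huI).hasDerivAt (Icc_mem_nhds huo.1 huo.2)
    have h2 : HasDerivAt N (nuChar f x v u) u := hasDerivAt_primitive hnu huo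
    have h3 := h1.mul h2.exp
    rw [collision_char hβ hT hS hf x v huI] at h3
    refine h3.congr_deriv ?_
    ring
  have hFTC : ∫ u in s..t, gainChar Φ f x v u * Real.exp (N u) =
      f t (x + t • v, v) * Real.exp (N t) - f s (x + s • v, v) * Real.exp (N s) := by
    refine intervalIntegral.integral_eq_sub_of_hasDerivAt_of_le hst ?_ hderiv ?_
    · exact (hφc.mul (Real.continuous_exp.comp_continuousOn hNc)).mono hsub
    · refine ContinuousOn.intervalIntegrable ?_
      rw [uIcc_of_le hst]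
      exact (hG.mul (Real.continuous_exp.comp_continuousOn hNc)).mono hsub
  have hI : ∫ r in s..t, Real.exp (-∫ r' in r..t, nuChar f x v r') * gainChar Φ f x v r =
      Real.exp (-(N t)) * ∫ u in s..t, gainChar Φ f x v u * Real.exp (N u) := by
    rw [← intervalIntegral.integral_const_mul]
    refine intervalIntegral.integral_congr fun r hr => ?_
    rw [uIcc_of_le hst] at hr
    rw [hNsub r (hsub hr) t htI, show -(N t - N r) = -(N t) + N r by ring, Real.exp_add]
    ring
  rw [hI, hFTC, hNsub s hsI t htI, show -(N t - N s) = -(N t) + N s by ring, Real.exp_add]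
  have h1 : Real.exp (-(N t)) * Real.exp (N t) = 1 := by rw [← Real.exp_add]; simp
  linear_combination (-(f t (x + t • v, v))) * h1


end Crest.Agent.R122.Boltz814

end
end

-- ▼ part R122/BoltzMild_814

/-!
Row 122, Boltzmann side (helper814): `ℝ≥0∞` mild form of a regular kinetic solution, measurable
everywhere (the solution is cut off outside `[0,T]`).

* `fE T f t x v`      : the solution, `ℝ≥0∞`-valued, `0` outside `[0,T]`;
* `damp T f s t x v`  : the damping factor on `[s,t]` of the particle which at time `t` is at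
                         `(x,v)`;
* `mild_damped`, `mild_undamped`.
-/

set_option autoImplicit false

open MeasureTheory ProbabilityTheory Set
open Crest.AnalysisR.Kinetic
open scoped ENNReal Classical

noncomputable section

namespace Crest.Agent.R122.Boltz814

variable {Φ : Space3 → ℝ} {β T : ℝ} {f₀ : PhasePoint → ℝ} {f : ℝ → PhasePoint → ℝ}

/-- the solution as an everywhere measurable `ℝ≥0∞`-valued function -/
def fE (T : ℝ) (f : ℝ → PhasePoint → ℝ) (t : ℝ) (x v : Space3) : ℝ≥0∞ :=
  if t ∈ Icc 0 T then ENNReal.ofReal (f t (x, v)) else 0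

lemma fE_of_mem {t : ℝ} (ht : t ∈ Icc 0 T) (x v : Space3) :
    fE T f t x v = ENNReal.ofReal (f t (x, v)) := if_pos ht

lemma fE_slice {t : ℝ} (ht : t ∈ Icc 0 T) (x : Space3) :
    fE T f t x = toE (fun w => f t (x, w)) := by
  funext w; exact if_pos ht

/-- joint measurability of `fE` -/
lemma measurable_fE (hf : IsRegularKineticSolution Φ β T f₀ f) :
    Measurable (fun p : ℝ × Space3 × Space3 => fE T f p.1 p.2.1 p.2.2) := by
  have h1 : Measurable ((Icc 0 T ×ˢ univ : Set (ℝ × PhasePoint)).piecewise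
      (fun p : ℝ × PhasePoint => f p.1 p.2) (fun _ => 0)) :=
    hf.continuous.measurable_piecewise continuousOn_const
      (measurableSet_Icc.prod MeasurableSet.univ)
  have h2 : (fun p : ℝ × Space3 × Space3 => fE T f p.1 p.2.1 p.2.2) =
      fun p : ℝ × PhasePoint => ENNReal.ofReal ((Icc 0 T ×ˢ univ :
        Set (ℝ × PhasePoint)).piecewise (fun p : ℝ × PhasePoint => f p.1 p.2)
        (fun _ => 0) p) := by
    funext p
    unfold fE
    by_cases hp : p.1 ∈ Icc 0 T
    · rw [if_pos hp, piecewise_eq_of_mem _ _ _ (show p ∈ Icc 0 T ×ˢ univ from ⟨hp, mem_univ _⟩)]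
    · rw [if_neg hp, piecewise_eq_of_notMem _ _ _
        (show p ∉ Icc 0 T ×ˢ univ from fun h => hp h.1)]
      simp
  rw [h2]
  exact ENNReal.measurable_ofReal.comp h1

/-- Gaussian bound for `fE` -/
lemma fE_le {C : ℝ} (hC0 : 0 ≤ C) (hC : ∀ t ∈ Icc 0 T, ∀ x v : Space3,
      f t (x, v) ≤ C * Real.exp (-(2 * β) * ‖v‖ ^ 2)) (t : ℝ) (x v : Space3) :
    fE T f t x v ≤ ENNReal.ofReal C * ENNReal.ofReal (Real.exp (-(2 * β) * ‖v‖ ^ 2)) := by
  unfold fE
  split_ifs with ht
  · rw [← ENNReal.ofReal_mul hC0]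
    exact ENNReal.ofReal_le_ofReal (hC t ht x v)
  · exact bot_le

/-- loss frequency of the solution, everywhere measurable -/
def nuF (T : ℝ) (f : ℝ → PhasePoint → ℝ) (t : ℝ) (x v : Space3) : ℝ≥0∞ := nuE (fE T f t x) v

lemma measurable_nuF (hf : IsRegularKineticSolution Φ β T f₀ f) :
    Measurable (fun p : ℝ × Space3 × Space3 => nuF T f p.1 p.2.1 p.2.2) := by
  unfold nuF nuE
  refine Measurable.const_mul ?_ _
  have h1 : Measurable (fun q : (ℝ × Space3 × Space3) × Space3 =>
      ENNReal.ofReal ‖q.1.2.2 - q.2‖ * fE T f q.1.1 q.1.2.1 q.2) := by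
    refine Measurable.mul (by fun_prop) ?_
    have hm : Measurable (fun q : (ℝ × Space3 × Space3) × Space3 => (q.1.1, q.1.2.1, q.2)) := by
      fun_prop
    have h3 := Measurable.comp (measurable_fE hf) hm
    exact h3
  exact h1.lintegral_prod_right'

lemma nuF_of_mem (hβ : 0 < β) (hT : 0 < T) (hf : IsRegularKineticSolution Φ β T f₀ f) {t : ℝ}
    (ht : t ∈ Icc 0 T) (x v : Space3) :
    nuF T f t x v = ENNReal.ofReal (nu (fun w => f t (x, w)) v) := by
  obtain ⟨C, hC0, hC⟩ := exists_gauss_bound hT hf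
  unfold nuF
  rw [fE_slice ht, ofReal_nu (measurable_slice hf ht x) (fun w => hf.nonneg t ht _)
    (γ := 2 * β) (by positivity) (fun w => hC t ht x w)]

lemma nuF_of_notMem {t : ℝ} (ht : t ∉ Icc 0 T) (x v : Space3) : nuF T f t x v = 0 := by
  unfold nuF nuE fE
  simp [ht]

/-- bound on the loss frequency -/
lemma exists_nuF_le (hβ : 0 < β) (hT : 0 < T) (hf : IsRegularKineticSolution Φ β T f₀ f) :
    ∃ L : ℝ, 0 ≤ L ∧ ∀ t x v, nuF T f t x v ≤ ENNReal.ofReal (L * (1 + ‖v‖)) := by
  obtain ⟨C, hC0, hC⟩ := exists_gauss_bound hT hf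
  refine ⟨Real.pi * C * gaussMoment (2 * β) 1, by
    have := gaussMoment_nonneg (2 * β) 1
    positivity, fun t x v => ?_⟩
  by_cases ht : t ∈ Icc 0 T
  · rw [nuF_of_mem hβ hT hf ht]
    exact ENNReal.ofReal_le_ofReal (nu_le (measurable_slice hf ht x)
      (fun w => hf.nonneg t ht _) (by positivity) (fun w => hC t ht x w) v)
  · rw [nuF_of_notMem ht]; exact bot_le

/-- integrated loss frequency on `[s,t]` along the characteristic through `(x,v)` at time `t` -/
def lossInt (T : ℝ) (f : ℝ → PhasePoint → ℝ) (s t : ℝ) (x v : Space3) : ℝ≥0∞ :=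
  ∫⁻ r in Ioc s t, nuF T f r (x - (t - r) • v) v

/-- damping factor on `[s,t]` along the characteristic through `(x,v)` at time `t` -/
def damp (T : ℝ) (f : ℝ → PhasePoint → ℝ) (s t : ℝ) (x v : Space3) : ℝ≥0∞ :=
  ENNReal.ofReal (Real.exp (-(lossInt T f s t x v).toReal))

lemma damp_le_one (s t : ℝ) (x v : Space3) : damp T f s t x v ≤ 1 := by
  unfold damp
  rw [← ENNReal.ofReal_one]
  refine ENNReal.ofReal_le_ofReal (Real.exp_le_one_iff.2 ?_)
  simp

lemma measurable_lossInt (hf : IsRegularKineticSolution Φ β T f₀ f) :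
    Measurable (fun p : ℝ × ℝ × Space3 × Space3 => lossInt T f p.1 p.2.1 p.2.2.1 p.2.2.2) := by
  unfold lossInt
  have h1 : ∀ p : ℝ × ℝ × Space3 × Space3,
      ∫⁻ r in Ioc p.1 p.2.1, nuF T f r (p.2.2.1 - (p.2.1 - r) • p.2.2.2) p.2.2.2 =
      ∫⁻ r, (if p.1 < r ∧ r ≤ p.2.1 then
        nuF T f r (p.2.2.1 - (p.2.1 - r) • p.2.2.2) p.2.2.2 else 0) := by
    intro p
    rw [← lintegral_indicator measurableSet_Ioc]
    refine lintegral_congr fun r => ?_
    simp only [indicator, mem_Ioc]
  simp_rw [h1]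
  have h2 : Measurable (fun q : (ℝ × ℝ × Space3 × Space3) × ℝ =>
      (if q.1.1 < q.2 ∧ q.2 ≤ q.1.2.1 then
        nuF T f q.2 (q.1.2.2.1 - (q.1.2.1 - q.2) • q.1.2.2.2) q.1.2.2.2 else 0)) := by
    have hs1 : MeasurableSet {q : (ℝ × ℝ × Space3 × Space3) × ℝ | q.1.1 < q.2} :=
      measurableSet_lt (by fun_prop) (by fun_prop)
    have hs2 : MeasurableSet {q : (ℝ × ℝ × Space3 × Space3) × ℝ | q.2 ≤ q.1.2.1} :=
      measurableSet_le (by fun_prop) (by fun_prop)
    refine Measurable.ite (hs1.inter hs2) ?_ measurable_const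
    · have hm : Measurable (fun q : (ℝ × ℝ × Space3 × Space3) × ℝ =>
          (q.2, q.1.2.2.1 - (q.1.2.1 - q.2) • q.1.2.2.2, q.1.2.2.2)) := by
        fun_prop
      have h3 := Measurable.comp (measurable_nuF hf) hm
      exact h3
  exact h2.lintegral_prod_right'

lemma measurable_damp (hf : IsRegularKineticSolution Φ β T f₀ f) :
    Measurable (fun p : ℝ × ℝ × Space3 × Space3 => damp T f p.1 p.2.1 p.2.2.1 p.2.2.2) := by
  unfold damp
  exact ENNReal.measurable_ofReal.comp
    (Real.measurable_exp.comp ((measurable_lossInt hf).ennreal_toReal.neg))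

lemma lossInt_le (hβ : 0 < β) (hT : 0 < T) (hf : IsRegularKineticSolution Φ β T f₀ f) :
    ∃ L : ℝ, 0 ≤ L ∧ ∀ s t x v, lossInt T f s t x v ≤
      ENNReal.ofReal (L * (1 + ‖v‖)) * ENNReal.ofReal (t - s) := by
  obtain ⟨L, hL, h⟩ := exists_nuF_le hβ hT hf
  refine ⟨L, hL, fun s t x v => ?_⟩
  unfold lossInt
  calc ∫⁻ r in Ioc s t, nuF T f r (x - (t - r) • v) v
      ≤ ∫⁻ _r in Ioc s t, ENNReal.ofReal (L * (1 + ‖v‖)) := lintegral_mono fun r => h r _ v
    _ = _ := by simp

lemma lossInt_ne_top (hβ : 0 < β) (hT : 0 < T) (hf : IsRegularKineticSolution Φ β T f₀ f)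
    (s t : ℝ) (x v : Space3) : lossInt T f s t x v ≠ ⊤ := by
  obtain ⟨L, hL, h⟩ := lossInt_le hβ hT hf
  exact ne_top_of_le_ne_top (ENNReal.mul_ne_top ENNReal.ofReal_ne_top ENNReal.ofReal_ne_top)
    (h s t x v)




/-- damping in terms of the real loss frequency along the characteristic -/
lemma damp_eq (hβ : 0 < β) (hT : 0 < T) (hf : IsRegularKineticSolution Φ β T f₀ f)
    {s t : ℝ} (hs : 0 ≤ s) (hst : s ≤ t) (htT : t ≤ T) (y v : Space3) :
    damp T f s t (y + t • v) v =
      ENNReal.ofReal (Real.exp (-∫ r in s..t, nuChar f y v r)) := by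
  unfold damp
  congr 3
  have hsub : Icc s t ⊆ Icc 0 T := Icc_subset_Icc hs htT
  have hnu : ContinuousOn (nuChar f y v) (Icc s t) :=
    (continuousOn_nu_char hβ hT hf y v).mono hsub
  rw [intervalIntegral.integral_of_le hst, integral_eq_lintegral_of_nonneg_ae]
  · unfold lossInt
    congr 1
    refine setLIntegral_congr_fun measurableSet_Ioc fun r hr => ?_
    have hrI : r ∈ Icc 0 T := hsub (Ioc_subset_Icc_self hr)
    show nuF T f r (y + t • v - (t - r) • v) v = ENNReal.ofReal (nuChar f y v r)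
    rw [nuF_of_mem hβ hT hf hrI]
    unfold nuChar
    have hpos : y + t • v - (t - r) • v = y + r • v := by module
    rw [hpos]
  · filter_upwards [ae_restrict_mem measurableSet_Ioc] with r hr
    exact nu_nonneg (fun w => hf.nonneg r (hsub (Ioc_subset_Icc_self hr)) _) v
  · exact (hnu.mono Ioc_subset_Icc_self).aestronglyMeasurable measurableSet_Ioc

/-- the gain term of the solution -/
def gainF (Φ : Space3 → ℝ) (T : ℝ) (f : ℝ → PhasePoint → ℝ) (t : ℝ) (x v : Space3) : ℝ≥0∞ :=
  Qp Φ (fE T f t x) (fE T f t x) v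


lemma gainF_ne_top (hβ : 0 < β) (hT : 0 < T) (hS : ScatFacts Φ)
    (hf : IsRegularKineticSolution Φ β T f₀ f) (t : ℝ) (x v : Space3) :
    gainF Φ T f t x v ≠ ⊤ := by
  obtain ⟨C, hC0, hC⟩ := exists_gauss_bound hT hf
  unfold gainF
  refine ne_top_of_le_ne_top ?_ (Qp_le_gauss hS (γ := 2 * β) (by positivity)
    (fE_le hC0 hC t x) (fE_le hC0 hC t x) v)
  exact ENNReal.mul_ne_top (ENNReal.mul_ne_top (ENNReal.mul_ne_top ENNReal.ofReal_ne_top
    ENNReal.ofReal_ne_top) ENNReal.ofReal_ne_top)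
    (ENNReal.mul_ne_top ENNReal.ofReal_ne_top ENNReal.ofReal_ne_top)

lemma ofReal_gainChar (hβ : 0 < β) (hT : 0 < T) (hS : ScatFacts Φ)
    (hf : IsRegularKineticSolution Φ β T f₀ f) (y v : Space3) {r : ℝ} (hr : r ∈ Icc 0 T) :
    ENNReal.ofReal (gainChar Φ f y v r) = gainF Φ T f r (y + r • v) v := by
  have h := gainF_ne_top hβ hT hS hf r (y + r • v) v
  unfold gainF at h ⊢
  unfold gainChar
  rw [fE_slice hr] at h ⊢
  exact ENNReal.ofReal_toReal h

/-- **Damped mild form**, along forward characteristics. -/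
theorem mild_damped_char (hβ : 0 < β) (hT : 0 < T) (hS : ScatFacts Φ)
    (hf : IsRegularKineticSolution Φ β T f₀ f) {s t : ℝ} (hs : 0 ≤ s)
    (hst : s ≤ t) (htT : t ≤ T) (y v : Space3) :
    fE T f t (y + t • v) v = damp T f s t (y + t • v) v * fE T f s (y + s • v) v +
      ∫⁻ r in Ioc s t, damp T f r t (y + t • v) v * gainF Φ T f r (y + r • v) v := by
  have hsI : s ∈ Icc 0 T := ⟨hs, hst.trans htT⟩
  have htI : t ∈ Icc 0 T := ⟨hs.trans hst, htT⟩
  have hsub : Icc s t ⊆ Icc 0 T := Icc_subset_Icc hs htT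
  have hD := duhamel_char hβ hT hS hf y v hs hst htT
  rw [fE_of_mem htI, fE_of_mem hsI, hD, damp_eq hβ hT hf hs hst htT]
  have hcont : ContinuousOn (fun r => Real.exp (-∫ r' in r..t, nuChar f y v r') *
      gainChar Φ f y v r) (Icc s t) := by
    refine ContinuousOn.mul ?_ ((continuousOn_gainChar hβ hT hS hf y v).mono hsub)
    refine Real.continuous_exp.comp_continuousOn (ContinuousOn.neg ?_)
    have hint : IntegrableOn (nuChar f y v) (uIcc s t) := by
      rw [uIcc_of_le hst]
      exact ((continuousOn_nu_char hβ hT hf y v).mono hsub).integrableOn_Icc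
    have h1 := intervalIntegral.continuousOn_primitive_interval_left hint
    rwa [uIcc_of_le hst] at h1
  have hnn : ∀ r ∈ Ioc s t, 0 ≤ Real.exp (-∫ r' in r..t, nuChar f y v r') *
      gainChar Φ f y v r := fun r _ => mul_nonneg (Real.exp_nonneg _) ENNReal.toReal_nonneg
  have hi0 : 0 ≤ ∫ r in s..t, Real.exp (-∫ r' in r..t, nuChar f y v r') *
      gainChar Φ f y v r := intervalIntegral.integral_nonneg hst fun r _ =>
      mul_nonneg (Real.exp_nonneg _) ENNReal.toReal_nonneg
  rw [ENNReal.ofReal_add (mul_nonneg (Real.exp_nonneg _) (hf.nonneg s hsI _)) hi0,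
    ENNReal.ofReal_mul (Real.exp_nonneg _)]
  congr 1
  rw [intervalIntegral.integral_of_le hst, ofReal_integral_eq_lintegral_ofReal
    ((hcont.integrableOn_Icc).mono_set Ioc_subset_Icc_self)
    (by filter_upwards [ae_restrict_mem measurableSet_Ioc] with r hr using hnn r hr)]
  refine setLIntegral_congr_fun measurableSet_Ioc fun r hr => ?_
  have hrI : r ∈ Icc 0 T := hsub (Ioc_subset_Icc_self hr)
  show ENNReal.ofReal (Real.exp (-∫ r' in r..t, nuChar f y v r') * gainChar Φ f y v r) =
    damp T f r t (y + t • v) v * gainF Φ T f r (y + r • v) v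
  rw [ENNReal.ofReal_mul (Real.exp_nonneg _), ofReal_gainChar hβ hT hS hf y v hrI,
    damp_eq hβ hT hf (hs.trans hr.1.le) hr.2 htT]

/-- **Damped mild form** of a regular kinetic solution on every window `[s,t] ⊆ [0,T]`. -/
theorem mild_damped (hβ : 0 < β) (hT : 0 < T) (hS : ScatFacts Φ)
    (hf : IsRegularKineticSolution Φ β T f₀ f) {s t : ℝ} (hs : 0 ≤ s)
    (hst : s ≤ t) (htT : t ≤ T) (x v : Space3) :
    fE T f t x v = damp T f s t x v * fE T f s (x - (t - s) • v) v +
      ∫⁻ r in Ioc s t, damp T f r t x v * gainF Φ T f r (x - (t - r) • v) v := by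
  have h := mild_damped_char hβ hT hS hf hs hst htT (x - t • v) v
  have e1 : x - t • v + t • v = x := by module
  have e2 : x - t • v + s • v = x - (t - s) • v := by module
  rw [e1, e2] at h
  rw [h]
  congr 1
  refine setLIntegral_congr_fun measurableSet_Ioc fun r _ => ?_
  have e3 : x - t • v + r • v = x - (t - r) • v := by module
  simp only [e3]


end Crest.Agent.R122.Boltz814

end
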