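import Crest.Agent.R122.HitG1_167
import Crest.Agent.R122.CausalMeas_291
import Crest.Agent.R122.ClusterMecke_311
import Crest.Agent.R122.CausalNewton_291

-- ▼ part R122/HitMeas_167
section

/-!
# Measurability of first-hit events (row 122, helper167)

Random worlds `x : Ω → ℝ → ι → PhasePoint` (continuous in time, measurable in `ω`), measurable
random times `σ : Ω → ℝ`.
-/

set_option autoImplicit false

open Set Filter Topology MeasureTheory
open Crest.AnalysisR.Kinetic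

namespace Crest.Agent.R122.Hit167

open Causal291

section

variable {Ω : Type*} [MeasurableSpace Ω] {ι α β : Type*}
variable {x : Ω → ℝ → ι → PhasePoint} {ε : ℝ} {c : α → ℝ → Space3} {θ : α → ℝ}

/-- Evaluation at a random time. -/
theorem measurable_eval (hx : ∀ ω j, Continuous fun s => x ω s j)
    (hm : ∀ s j, Measurable fun ω => x ω s j) {σ : Ω → ℝ} (hσ : Measurable σ) (j : ι) :
    Measurable fun ω => x ω (σ ω) j := by
  have h : Measurable (Function.uncurry fun (s : ℝ) (ω : Ω) => x ω s j) :=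
    measurable_uncurry_of_continuous_of_measurable (fun ω => hx ω j) (fun s => hm s j)
  exact h.comp (hσ.prodMk measurable_id)

theorem measurableSet_hitsAt [Finite α] (hx : ∀ ω j, Continuous fun s => x ω s j)
    (hm : ∀ s j, Measurable fun ω => x ω s j) (hc : ∀ a, Continuous (c a)) {σ : Ω → ℝ}
    (hσ : Measurable σ) (j : ι) : MeasurableSet {ω | HitsAt (x ω) ε c θ (σ ω) j} := by
  have : {ω | HitsAt (x ω) ε c θ (σ ω) j} =
      ⋃ a : α, ({ω | σ ω ≤ θ a} ∩ {ω | dist (c a (σ ω)) (x ω (σ ω) j).1 ≤ ε}) := by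
    ext ω
    simp only [HitsAt, mem_iUnion, mem_inter_iff, mem_ofPred_eq]
  rw [this]
  refine MeasurableSet.iUnion fun a => (measurableSet_le hσ measurable_const).inter ?_
  exact measurableSet_le (((hc a).measurable.comp hσ).dist (measurable_eval hx hm hσ j).fst)
    measurable_const

theorem measurableSet_aloneAt [Finite ι] (hx : ∀ ω j, Continuous fun s => x ω s j)
    (hm : ∀ s j, Measurable fun ω => x ω s j) {σ : Ω → ℝ}
    (hσ : Measurable σ) (j : ι) : MeasurableSet {ω | AloneAt (x ω) ε j (σ ω)} := by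
  have : {ω | AloneAt (x ω) ε j (σ ω)} =
      ⋂ i : ι, ⋂ _ : i ≠ j, {ω | ε < dist (x ω (σ ω) j).1 (x ω (σ ω) i).1} := by
    ext ω
    simp only [AloneAt, mem_iInter, mem_ofPred_eq]
  rw [this]
  refine MeasurableSet.iInter fun i => MeasurableSet.iInter fun _ => ?_
  exact measurableSet_lt measurable_const
    ((measurable_eval hx hm hσ j).fst.dist (measurable_eval hx hm hσ i).fst)

/-- "Somewhere in `[0, σ)`, below the random time `τ`, above (strictly) the random time `τ'`, a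
continuous process is at most `ε`". -/
theorem measurableSet_exists_window {g : Ω → ℝ → ℝ} (hgc : ∀ ω, Continuous (g ω))
    (hgm : ∀ s, Measurable fun ω => g ω s) (ε : ℝ) {σ τ τ' : Ω → ℝ} (hσ : Measurable σ)
    (hτ : Measurable τ) (hτ' : Measurable τ') :
    MeasurableSet {ω | ∃ s ∈ Ico 0 (σ ω), s ≤ τ ω ∧ τ' ω < s ∧ g ω s ≤ ε} := by
  have key : {ω | ∃ s ∈ Ico 0 (σ ω), s ≤ τ ω ∧ τ' ω < s ∧ g ω s ≤ ε} =
      ⋃ n : ℕ, {ω | ∃ s ∈ Icc (max 0 (τ' ω + 1 / ((n : ℝ) + 1)))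
        (min (τ ω) (σ ω - 1 / ((n : ℝ) + 1))), g ω s ≤ ε} := by
    ext ω
    simp only [mem_iUnion, mem_ofPred_eq]
    constructor
    · rintro ⟨s, hs, hsτ, hs', hg⟩
      obtain ⟨n, hn⟩ := exists_nat_one_div_lt (lt_min (sub_pos.2 hs') (sub_pos.2 hs.2))
      have h1 := hn.trans_le (min_le_left _ _)
      have h2 := hn.trans_le (min_le_right _ _)
      refine ⟨n, s, ⟨max_le hs.1 (by linarith), le_min hsτ (by linarith)⟩, hg⟩
    · rintro ⟨n, s, hs, hg⟩
      have hn : (0 : ℝ) < 1 / ((n : ℝ) + 1) := by positivity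
      have h1 := max_le_iff.1 hs.1
      have h2 := le_min_iff.1 hs.2
      exact ⟨s, ⟨h1.1, by linarith [h2.2]⟩, h2.1, by linarith [h1.2], hg⟩
  rw [key]
  exact MeasurableSet.iUnion fun n => measurableSet_exists_Icc
    (measurable_const.max (hτ'.add_const _)) (hτ.min (hσ.sub_const _)) hgc hgm ε

/-- The version without lower bound. -/
theorem measurableSet_exists_window' {g : Ω → ℝ → ℝ} (hgc : ∀ ω, Continuous (g ω))
    (hgm : ∀ s, Measurable fun ω => g ω s) (ε : ℝ) {σ τ : Ω → ℝ} (hσ : Measurable σ)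
    (hτ : Measurable τ) :
    MeasurableSet {ω | ∃ s ∈ Ico 0 (σ ω), s ≤ τ ω ∧ g ω s ≤ ε} := by
  have key : {ω | ∃ s ∈ Ico 0 (σ ω), s ≤ τ ω ∧ g ω s ≤ ε} =
      {ω | ∃ s ∈ Ico 0 (σ ω), s ≤ τ ω ∧ (-1 : ℝ) < s ∧ g ω s ≤ ε} := by
    ext ω
    constructor
    · rintro ⟨s, hs, h1, h2⟩
      exact ⟨s, hs, h1, by linarith [hs.1], h2⟩
    · rintro ⟨s, hs, h1, _, h2⟩
      exact ⟨s, hs, h1, h2⟩
  rw [key]
  exact measurableSet_exists_window hgc hgm ε hσ hτ (measurable_const (a := (-1 : ℝ)))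

theorem measurableSet_unhit [Finite α] [Finite ι] (hx : ∀ ω j, Continuous fun s => x ω s j)
    (hm : ∀ s j, Measurable fun ω => x ω s j) (hc : ∀ a, Continuous (c a)) {σ : Ω → ℝ}
    (hσ : Measurable σ) : MeasurableSet {ω | Unhit (x ω) ε c θ (σ ω)} := by
  have : {ω | Unhit (x ω) ε c θ (σ ω)} =
      (⋃ k : ι, ⋃ a : α, {ω | ∃ s ∈ Ico 0 (σ ω), s ≤ θ a ∧ dist (c a s) (x ω s k).1 ≤ ε})ᶜ := by
    ext ω
    simp only [Unhit, HitsAt, mem_compl_iff, mem_iUnion, mem_ofPred_eq]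
    constructor
    · rintro h ⟨k, a, s, hs, ha, hd⟩
      exact h s hs k ⟨a, ha, hd⟩
    · rintro h s hs k ⟨a, ha, hd⟩
      exact h ⟨k, a, s, hs, ha, hd⟩
  rw [this]
  refine (MeasurableSet.iUnion fun k => MeasurableSet.iUnion fun a => ?_).compl
  exact measurableSet_exists_window' (g := fun ω s => dist (c a s) (x ω s k).1)
    (fun ω => (hc a).dist (hx ω k).fst) (fun s => measurable_const.dist (hm s k).fst) ε hσ
    measurable_const

/-- Isolation of a family given by random protected times. -/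
theorem measurableSet_iso_fam [Finite ι] [Finite β] (hx : ∀ ω j, Continuous fun s => x ω s j)
    (hm : ∀ s j, Measurable fun ω => x ω s j) {f : β → ι} (hf : Function.Injective f)
    {τ : Ω → β → ℝ} (hτ : ∀ b, Measurable fun ω => τ ω b) {σ : Ω → ℝ} (hσ : Measurable σ) :
    MeasurableSet {ω | Iso (x ω) ε (fun s => f '' fam (τ ω) s) (σ ω)} := by
  classical
  have : {ω | Iso (x ω) ε (fun s => f '' fam (τ ω) s) (σ ω)} =
      (⋃ k : β, ⋃ i : ι, if h : ∃ l, f l = i then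
        {ω | ∃ s ∈ Ico 0 (σ ω), s ≤ τ ω k ∧ τ ω h.choose < s ∧
          dist (x ω s (f k)).1 (x ω s i).1 ≤ ε}
        else {ω | ∃ s ∈ Ico 0 (σ ω), s ≤ τ ω k ∧ dist (x ω s (f k)).1 (x ω s i).1 ≤ ε})ᶜ := by
    ext ω
    simp only [mem_compl_iff, mem_iUnion, mem_ofPred_eq]
    constructor
    · rintro h ⟨k, i, hi⟩
      split_ifs at hi with hl
      · obtain ⟨s, hs, h1, h2, h3⟩ := hi
        refine absurd h3 (not_le.2 (h s hs (f k) ⟨k, h1, rfl⟩ i ?_))
        rintro ⟨l, hl1, hl2⟩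
        have : hl.choose = l := hf (hl.choose_spec.trans hl2.symm)
        rw [this] at h2
        exact absurd hl1 (not_le.2 h2)
      · obtain ⟨s, hs, h1, h3⟩ := hi
        refine absurd h3 (not_le.2 (h s hs (f k) ⟨k, h1, rfl⟩ i ?_))
        rintro ⟨l, _, hl2⟩
        exact hl ⟨l, hl2⟩
    · rintro h s hs _ ⟨k, hk, rfl⟩ i hi
      by_contra hle
      push Not at hle
      refine h ⟨k, i, ?_⟩
      split_ifs with hl
      · refine ⟨s, hs, hk, ?_, hle⟩
        by_contra hle2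
        push Not at hle2
        exact hi ⟨hl.choose, hle2, hl.choose_spec⟩
      · exact ⟨s, hs, hk, hle⟩
  rw [this]
  refine (MeasurableSet.iUnion fun k => MeasurableSet.iUnion fun i => ?_).compl
  split_ifs with hl
  · exact measurableSet_exists_window (g := fun ω s => dist (x ω s (f k)).1 (x ω s i).1)
      (fun ω => (hx ω _).fst.dist (hx ω i).fst) (fun s => (hm s _).fst.dist (hm s i).fst) ε hσ
      (hτ k) (hτ _)
  · exact measurableSet_exists_window' (g := fun ω s => dist (x ω s (f k)).1 (x ω s i).1)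
      (fun ω => (hx ω _).fst.dist (hx ω i).fst) (fun s => (hm s _).fst.dist (hm s i).fst) ε hσ
      (hτ k)

/-- The exploration of `(j, σ⁻)`. -/
theorem measurableSet_preAct [Finite ι] (hx : ∀ ω j, Continuous fun s => x ω s j)
    (hm : ∀ s j, Measurable fun ω => x ω s j) (j k : ι) {σ s : Ω → ℝ} (hσ : Measurable σ)
    (hs : Measurable s) : MeasurableSet {ω | k ∈ preAct (x ω) ε j (σ ω) (s ω)} := by
  have hP : MeasurableSet {p : ℝ × ℝ × Ω | Past (Ct (x p.2.2) ε) p.1 j p.2.1 k} :=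
    measurableSet_past_joint (ε := ε)
    (d := fun ω s j k => dist (x ω s j).1 (x ω s k).1)
    (fun ω j k => (hx ω j).fst.dist (hx ω k).fst) (fun s j k => (hm s j).fst.dist (hm s k).fst) j k
  have hf : ∀ q : ℚ, Measurable (fun ω : Ω => ((q : ℝ), s ω, ω)) := fun q =>
    measurable_const.prodMk (hs.prodMk measurable_id)
  have hpre : ∀ q : ℚ, MeasurableSet {ω | Past (Ct (x ω) ε) (q : ℝ) j (s ω) k} := fun q => hf q hP
  have key : {ω | k ∈ preAct (x ω) ε j (σ ω) (s ω)} =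
      ⋃ q : ℚ, ({ω | (q : ℝ) < σ ω} ∩ {ω | Past (Ct (x ω) ε) (q : ℝ) j (s ω) k}) := by
    ext ω
    simp only [preAct, mem_iUnion, mem_inter_iff, mem_ofPred_eq]
    constructor
    · rintro ⟨r, hr, hp⟩
      obtain ⟨q, hq1, hq2⟩ := exists_rat_btwn hr.2
      exact ⟨q, hq2, Past.extend hq1.le hp⟩
    · rintro ⟨q, hq, hp⟩
      exact ⟨q, ⟨hp.le, hq⟩, hp⟩
  rw [key]
  exact MeasurableSet.iUnion fun q => (measurableSet_lt measurable_const hσ).inter (hpre q)

/-- Protected times of the backward cluster of `(j, σ⁻)`. -/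
theorem measurable_tauPre [Finite ι] (hx : ∀ ω j, Continuous fun s => x ω s j)
    (hm : ∀ s j, Measurable fun ω => x ω s j) (j k : ι) {σ : Ω → ℝ} (hσ : Measurable σ) :
    Measurable fun ω => tauPre (x ω) ε j (σ ω) k := by
  refine measurable_of_Ioi fun a => ?_
  set S : Ω → Set ℝ := fun ω => {s | s < σ ω ∧ k ∈ preAct (x ω) ε j (σ ω) s} with hS
  have hdown : ∀ ω u v, u ≤ v → v ∈ S ω → u ∈ S ω := by
    rintro ω u v huv ⟨hv, w, hw, hp⟩
    exact ⟨huv.trans_lt hv, w, ⟨huv.trans hw.1, hw.2⟩, hp.mono huv⟩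
  have hbdd : ∀ ω, BddAbove (S ω) := fun ω => ⟨σ ω, fun u hu => hu.1.le⟩
  have hmS : ∀ q : ℝ, MeasurableSet {ω | q ∈ S ω} := fun q =>
    (measurableSet_lt measurable_const hσ).inter
      (measurableSet_preAct hx hm j k hσ (measurable_const (a := q)))
  have key : (fun ω => tauPre (x ω) ε j (σ ω) k) ⁻¹' Ioi a =
      (⋃ q : ℚ, {ω | a < (q : ℝ) ∧ (q : ℝ) ∈ S ω}) ∪
        ((⋃ q : ℚ, {ω | (q : ℝ) ∈ S ω})ᶜ ∩ {_ω | a < 0}) := by
    ext ω
    simp only [mem_preimage, mem_Ioi, mem_union, mem_inter_iff, mem_compl_iff, mem_iUnion,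
      mem_ofPred_eq]
    change a < sSup (S ω) ↔ _
    by_cases hne : (S ω).Nonempty
    · constructor
      · intro h
        obtain ⟨u, hu, hau⟩ := exists_lt_of_lt_csSup hne h
        obtain ⟨q, hq1, hq2⟩ := exists_rat_btwn hau
        exact Or.inl ⟨q, hq1, hdown ω q u hq2.le hu⟩
      · rintro (⟨q, hq1, hq2⟩ | ⟨h1, _⟩)
        · exact hq1.trans_le (le_csSup (hbdd ω) hq2)
        · exfalso
          obtain ⟨u, hu⟩ := hne
          obtain ⟨q, hq1, hq2⟩ := exists_rat_btwn (show u - 1 < u by linarith)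
          exact h1 ⟨q, hdown ω q u hq2.le hu⟩
    · rw [not_nonempty_iff_eq_empty] at hne
      rw [hne, Real.sSup_empty]
      simp
  rw [key]
  refine (MeasurableSet.iUnion fun q => ?_).union
    ((MeasurableSet.iUnion fun q : ℚ => hmS q).compl.inter (MeasurableSet.const _))
  by_cases hq : a < (q : ℝ)
  · simp only [hq, true_and]
    exact hmS q
  · simp only [hq, false_and]
    exact MeasurableSet.const _

/-- The good ghost hit event at a random time (hitter alone). -/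
theorem measurableSet_goodGhostHit [Finite ι] [Finite α]
    (hx : ∀ ω j, Continuous fun s => x ω s j)
    (hm : ∀ s j, Measurable fun ω => x ω s j) (hc : ∀ a, Continuous (c a)) (j : ι) {σ : Ω → ℝ}
    (hσ : Measurable σ) : MeasurableSet {ω | GoodGhostHit (x ω) ε c θ j (σ ω)} := by
  have hd : ∀ ω (j k : ι), Continuous fun s => dist (x ω s j).1 (x ω s k).1 :=
    fun ω j k => (hx ω j).fst.dist (hx ω k).fst
  have hdm : ∀ s (j k : ι), Measurable fun ω => dist (x ω s j).1 (x ω s k).1 :=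
    fun s j k => (hm s j).fst.dist (hm s k).fst
  have key : {ω | GoodGhostHit (x ω) ε c θ j (σ ω)} =
      {ω | HitsAt (x ω) ε c θ (σ ω) j} ∩ (⋂ k : ι, {ω | k ∈ preAct (x ω) ε j (σ ω) 0}) ∩
      (⋃ q : ℚ, ⋃ k : ι, ⋃ a : α, ({ω | (q : ℝ) < σ ω} ∩
        {ω | ∃ s ∈ Icc 0 (θ a), Past (Ct (x ω) ε) (q : ℝ) j s k ∧
          dist (c a s) (x ω s k).1 ≤ ε}))ᶜ := by
    ext ω
    simp only [mem_inter_iff, mem_iInter, mem_compl_iff, mem_iUnion, mem_ofPred_eq]
    constructor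
    · intro h
      refine ⟨⟨h.hits, fun k => by rw [h.full]; exact mem_univ k⟩, ?_⟩
      rintro ⟨q, k, a, hq, s, hs, hp, hdist⟩
      have hsq : s ≤ q := hp.le
      exact h.unhit s ⟨hs.1, hsq.trans_lt hq⟩ k ⟨q, ⟨hsq, hq⟩, hp⟩ ⟨a, hs.2, hdist⟩
    · rintro ⟨⟨h1, h2⟩, h3⟩
      refine ⟨h1, eq_univ_of_forall h2, ?_⟩
      rintro s hs k ⟨r, hr, hp⟩ ⟨a, ha, hdist⟩
      obtain ⟨q, hq1, hq2⟩ := exists_rat_btwn hr.2
      exact h3 ⟨q, k, a, hq2, s, ⟨hs.1, ha⟩, Past.extend hq1.le hp, hdist⟩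
  rw [key]
  refine ((measurableSet_hitsAt hx hm hc hσ j).inter (MeasurableSet.iInter fun k =>
    measurableSet_preAct hx hm j k hσ measurable_const)).inter
    (MeasurableSet.iUnion fun q => MeasurableSet.iUnion fun k => MeasurableSet.iUnion fun a => ?_).compl
  refine (measurableSet_lt measurable_const hσ).inter ?_
  have h1 : MeasurableSet {p : ℝ × Ω | ∃ s ∈ Icc 0 (θ a), Past (Ct (x p.2) ε) p.1 j s k ∧
      dist (c a s) (x p.2 s k).1 ≤ ε} :=
    measurableSet_touch (ε := ε) (d := fun ω s j k => dist (x ω s j).1 (x ω s k).1)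
    hd hdm j k (α := fun _ => 0) (β := fun _ => θ a) measurable_const measurable_const
    (g := fun ω s => dist (c a s) (x ω s k).1) (fun ω => (hc a).dist (hx ω k).fst)
    (fun s => measurable_const.dist (hm s k).fst) ε
  have h2 : Measurable (fun ω : Ω => ((q : ℝ), ω)) := measurable_const.prodMk measurable_id
  exact h2 h1

/-- First time `≥ t₀` at which `j` hits the test family. -/
noncomputable def hitTime (z : ℝ → ι → PhasePoint) (ε : ℝ) (c : α → ℝ → Space3) (θ : α → ℝ)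
    (t₀ : ℝ) (j : ι) : ℝ := sInf {s | t₀ ≤ s ∧ HitsAt z ε c θ s j}

theorem isClosed_hitsAt [Finite α] {z : ℝ → ι → PhasePoint} (hz : ∀ k, Continuous fun s => z s k)
    (hc : ∀ a, Continuous (c a)) (k : ι) : IsClosed {s | HitsAt z ε c θ s k} := by
  have : {s | HitsAt z ε c θ s k} = ⋃ a : α, (Iic (θ a) ∩ {s | dist (c a s) (z s k).1 ≤ ε}) := by
    ext s
    simp only [HitsAt, mem_iUnion, mem_inter_iff, mem_Iic, mem_ofPred_eq]
  rw [this]
  exact isClosed_iUnion_of_finite fun a =>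
    isClosed_Iic.inter (isClosed_le ((hc a).dist (hz k).fst) continuous_const)

/-- A hit at time `σ ≥ t₀` with no hit in `[t₀, σ)` identifies `hitTime`. -/
theorem hitTime_eq {z : ℝ → ι → PhasePoint} {t₀ σ : ℝ} {j : ι} (h0 : t₀ ≤ σ)
    (h : HitsAt z ε c θ σ j) (hno : ∀ s ∈ Ico t₀ σ, ¬ HitsAt z ε c θ s j) :
    hitTime z ε c θ t₀ j = σ := by
  refine le_antisymm (csInf_le ⟨t₀, fun s hs => hs.1⟩ ⟨h0, h⟩) ?_
  refine le_csInf ⟨σ, h0, h⟩ ?_
  rintro s ⟨hs0, hs⟩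
  by_contra hlt
  push Not at hlt
  exact hno s ⟨hs0, hlt⟩ hs

theorem measurable_hitTime [Finite ι] [Finite α] (hx : ∀ ω j, Continuous fun s => x ω s j)
    (hm : ∀ s j, Measurable fun ω => x ω s j) (hc : ∀ a, Continuous (c a)) (t₀ : ℝ) (j : ι) :
    Measurable fun ω => hitTime (x ω) ε c θ t₀ j := by
  have hex : ∀ b : ℝ, MeasurableSet {ω | ∃ s ∈ Icc t₀ b, HitsAt (x ω) ε c θ s j} := by
    intro b
    have : {ω | ∃ s ∈ Icc t₀ b, HitsAt (x ω) ε c θ s j} =
        ⋃ a : α, {ω | ∃ s ∈ Icc t₀ (min b (θ a)), dist (c a s) (x ω s j).1 ≤ ε} := by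
      ext ω
      simp only [mem_iUnion, mem_ofPred_eq]
      constructor
      · rintro ⟨s, hs, a, ha, hd⟩
        exact ⟨a, s, ⟨hs.1, le_min hs.2 ha⟩, hd⟩
      · rintro ⟨a, s, hs, hd⟩
        exact ⟨s, ⟨hs.1, hs.2.trans (min_le_left _ _)⟩, a, hs.2.trans (min_le_right _ _), hd⟩
    rw [this]
    exact MeasurableSet.iUnion fun a => measurableSet_exists_Icc
      (g := fun ω s => dist (c a s) (x ω s j).1) measurable_const measurable_const
      (fun ω => (hc a).dist (hx ω j).fst) (fun s => measurable_const.dist (hm s j).fst) ε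
  refine measurable_of_Iic fun b => ?_
  have key : (fun ω => hitTime (x ω) ε c θ t₀ j) ⁻¹' Iic b =
      {ω | ∃ s ∈ Icc t₀ b, HitsAt (x ω) ε c θ s j} ∪
        ((⋃ n : ℕ, {ω | ∃ s ∈ Icc t₀ (n : ℝ), HitsAt (x ω) ε c θ s j})ᶜ ∩ {_ω | 0 ≤ b}) := by
    ext ω
    simp only [mem_preimage, mem_Iic, mem_union, mem_inter_iff, mem_compl_iff, mem_iUnion,
      mem_ofPred_eq]
    set S : Set ℝ := {s | t₀ ≤ s ∧ HitsAt (x ω) ε c θ s j} with hS
    change sInf S ≤ b ↔ _
    have hcl : IsClosed S := isClosed_Ici.inter (isClosed_hitsAt (hx ω) hc j)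
    by_cases hne : S.Nonempty
    · have hmem := hcl.csInf_mem hne ⟨t₀, fun s hs => hs.1⟩
      constructor
      · intro h
        exact Or.inl ⟨sInf S, ⟨hmem.1, h⟩, hmem.2⟩
      · rintro (⟨s, hs, h⟩ | ⟨h1, _⟩)
        · exact (csInf_le ⟨t₀, fun s hs => hs.1⟩ (show s ∈ S from ⟨hs.1, h⟩)).trans hs.2
        · exfalso
          obtain ⟨n, hn⟩ := exists_nat_ge (sInf S)
          exact h1 ⟨n, sInf S, ⟨hmem.1, hn⟩, hmem.2⟩
    · have hemp : S = ∅ := not_nonempty_iff_eq_empty.1 hne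
      rw [hemp, Real.sInf_empty]
      constructor
      · intro hb
        refine Or.inr ⟨?_, hb⟩
        rintro ⟨n, s, hs, h⟩
        exact hne ⟨s, hs.1, h⟩
      · rintro (⟨s, hs, h⟩ | ⟨_, hb⟩)
        · exact absurd ⟨s, hs.1, h⟩ hne
        · exact hb
  rw [key]
  exact (hex b).union ((MeasurableSet.iUnion fun n : ℕ => hex n).compl.inter (MeasurableSet.const _))

end

end Crest.Agent.R122.Hit167
end

-- ▼ part R122/HitG2_167
section

/-!
# The first-hit identity in the gas (row 122, helper167)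

`Cls` is a class of clusters `𝒢 k V j σ` (`V : Config k` with root `j` at time `σ⁻`).
`HitF` is the good first hit in the real world `X` by the particle `f j` with backward cluster `f`,
`HitD` the same event in the coordinates "isolated world of the cluster" / "rest".
-/

set_option autoImplicit false

open Set Filter Topology MeasureTheory
open scoped Classical ENNReal
open Crest.AnalysisR.Kinetic

namespace Crest.Agent.R122.Hit167

open Causal291 Flow671 Loc45 GC311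

/-- Classes of clusters. -/
abbrev Cls : Type := (k : ℕ) → Config k → Fin k → ℝ → Prop

/-- Relabelling invariance of a class. -/
def Cls.Inv (𝒢 : Cls) : Prop :=
  ∀ (k : ℕ) (V : Config k) (j : Fin k) (σ : ℝ) (e : Equiv.Perm (Fin k)),
    𝒢 k (fun i => V (e i)) j σ ↔ 𝒢 k V (e j) σ

/-- Joint measurability of a class. -/
def Cls.Meas (𝒢 : Cls) : Prop :=
  ∀ (k : ℕ) (j : Fin k), MeasurableSet {p : Config k × ℝ | 𝒢 k p.1 j p.2}

section defs

variable (Φ : Space3 → ℝ) (ε : ℝ) {α : Type} (c : α → ℝ → Space3) (θ : α → ℝ) (𝒢 : Cls)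

/-- Good first hit of the test family at time `σ` by the particle `f j` of the world `X`, whose
backward cluster (of `(f j, σ⁻)`) is `f`. -/
structure HitF {ι : Type} [Fintype ι] (X : ι → PhasePoint) {k : ℕ} (f : Fin k → ι) (j : Fin k)
    (σ : ℝ) : Prop where
  ghost : GhostHit (pth Φ ε X) ε c θ f j σ
  iso : Iso (pth Φ ε (fun i => X (f i))) ε (fun s => f ⁻¹' preAct (pth Φ ε X) ε (f j) σ s) σ
  alone : AloneAt (pth Φ ε (fun i => X (f i))) ε j σ
  cls : 𝒢 k (fun i => X (f i)) j σ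

/-- Good cluster in its isolated world. -/
structure GoodV {k : ℕ} (V : Config k) (j : Fin k) (σ : ℝ) : Prop where
  good : GoodGhostHit (pth Φ ε V) ε c θ j σ
  alone : AloneAt (pth Φ ε V) ε j σ
  cls : 𝒢 k V j σ

/-- The condition on the rest of the world: the protected family `fam (tauPre ..)` is isolated in
the world `X` on `[0, σ)` and the test family is unhit before `σ`. -/
structure RestV {ι : Type} [Fintype ι] (X : ι → PhasePoint) {k : ℕ} (f : Fin k → ι) (j : Fin k)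
    (σ : ℝ) : Prop where
  iso : Iso (pth Φ ε X) ε (fun s => f '' fam (tauPre (pth Φ ε fun i => X (f i)) ε j σ) s) σ
  unhit : Unhit (pth Φ ε X) ε c θ σ

/-- The first-hit event in the coordinates cluster / rest. -/
def HitD {ι : Type} [Fintype ι] (X : ι → PhasePoint) {k : ℕ} (f : Fin k → ι) (j : Fin k)
    (σ : ℝ) : Prop :=
  GoodV Φ ε c θ 𝒢 (fun i => X (f i)) j σ ∧ RestV Φ ε c θ X f j σ

end defs

section relabel

variable {Φ : Space3 → ℝ} {ε : ℝ} {α : Type} {c : α → ℝ → Space3} {θ : α → ℝ} {𝒢 : Cls}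

theorem aloneAt_relabel {ι ι' : Type*} (g : ι ≃ ι') {z : ℝ → ι' → PhasePoint} {j : ι} {σ : ℝ} :
    AloneAt (fun s i => z s (g i)) ε j σ ↔ AloneAt z ε (g j) σ := by
  constructor
  · intro h i hi
    have := h (g.symm i) (by
      rintro rfl
      exact hi (by simp))
    simpa using this
  · intro h i hi
    exact h (g i) (fun h' => hi (g.injective h'))

theorem unhit_relabel {ι ι' : Type*} (g : ι ≃ ι') {z : ℝ → ι' → PhasePoint} {σ : ℝ} :
    Unhit (fun s i => z s (g i)) ε c θ σ ↔ Unhit z ε c θ σ := by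
  constructor
  · intro h s hs k hk
    refine h s hs (g.symm k) ?_
    obtain ⟨a, ha, hd⟩ := hk
    exact ⟨a, ha, by simpa using hd⟩
  · intro h s hs k hk
    exact h s hs (g k) hk

theorem HitF.perm (hΦ : AdmissiblePotential Φ) (hε : 0 < ε) (h𝒢 : 𝒢.Inv) {ι : Type} [Fintype ι]
    (X : ι → PhasePoint) {k : ℕ} (f : Fin k → ι) (e : Equiv.Perm (Fin k)) (j : Fin k) (σ : ℝ) :
    HitF Φ ε c θ 𝒢 X (fun i => f (e i)) j σ ↔ HitF Φ ε c θ 𝒢 X f (e j) σ := by
  have hp : pth Φ ε (fun i => X (f (e i))) = fun s i => pth Φ ε (fun i => X (f i)) s (e i) :=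
    pth_relabel hΦ hε e (fun i => X (f i))
  have hrange : range (fun i => f (e i)) = range f := by
    rw [← Function.comp_def, e.surjective.range_comp]
  have h1 : GhostHit (pth Φ ε X) ε c θ (fun i => f (e i)) j σ ↔
      GhostHit (pth Φ ε X) ε c θ f (e j) σ := by
    constructor
    · rintro ⟨a, b, d⟩
      exact ⟨a, b, by rw [← hrange]; exact d⟩
    · rintro ⟨a, b, d⟩
      exact ⟨a, b, by rw [hrange]; exact d⟩
  have h2 : Iso (pth Φ ε (fun i => X (f (e i)))) ε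
        (fun s => (fun i => f (e i)) ⁻¹' preAct (pth Φ ε X) ε (f (e j)) σ s) σ ↔
      Iso (pth Φ ε (fun i => X (f i))) ε (fun s => f ⁻¹' preAct (pth Φ ε X) ε (f (e j)) σ s) σ := by
    rw [hp]
    have := iso_relabel (ε := ε) (t := σ) (z := pth Φ ε (fun i => X (f i))) e
      (A := fun s => (fun i => f (e i)) ⁻¹' preAct (pth Φ ε X) ε (f (e j)) σ s)
    rw [this]
    have he : (fun s => e '' ((fun i => f (e i)) ⁻¹' preAct (pth Φ ε X) ε (f (e j)) σ s)) =
        fun s => f ⁻¹' preAct (pth Φ ε X) ε (f (e j)) σ s := by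
      funext s
      rw [show (fun i => f (e i)) = f ∘ e from rfl, preimage_comp,
        image_preimage_eq _ e.surjective]
    rw [he]
  have h3 : AloneAt (pth Φ ε (fun i => X (f (e i)))) ε j σ ↔
      AloneAt (pth Φ ε (fun i => X (f i))) ε (e j) σ := by
    rw [hp]
    exact aloneAt_relabel e
  have h4 := h𝒢 k (fun i => X (f i)) j σ e
  constructor
  · rintro ⟨a, b, d, g⟩
    exact ⟨h1.1 a, h2.1 b, h3.1 d, h4.1 g⟩
  · rintro ⟨a, b, d, g⟩
    exact ⟨h1.2 a, h2.2 b, h3.2 d, h4.2 g⟩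

theorem HitF.relabel (hΦ : AdmissiblePotential Φ) (hε : 0 < ε) {ι ι' : Type} [Fintype ι]
    [Fintype ι'] (g : ι ≃ ι') (X : ι' → PhasePoint) {k : ℕ} (f : Fin k → ι) (j : Fin k) (σ : ℝ) :
    HitF Φ ε c θ 𝒢 (fun i => X (g i)) f j σ ↔ HitF Φ ε c θ 𝒢 X (fun i => g (f i)) j σ := by
  have hp : pth Φ ε (fun i => X (g i)) = fun s i => pth Φ ε X s (g i) := pth_relabel hΦ hε g X
  have hpre : ∀ s, preAct (pth Φ ε fun i => X (g i)) ε (f j) σ s =
      g ⁻¹' preAct (pth Φ ε X) ε (g (f j)) σ s := by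
    intro s
    rw [hp]
    exact preAct_relabel g
  have h1 : GhostHit (pth Φ ε fun i => X (g i)) ε c θ f j σ ↔
      GhostHit (pth Φ ε X) ε c θ (fun i => g (f i)) j σ := by
    have hfull : preAct (pth Φ ε fun i => X (g i)) ε (f j) σ 0 = range f ↔
        preAct (pth Φ ε X) ε (g (f j)) σ 0 = range (fun i => g (f i)) := by
      rw [hpre 0, show (fun i => g (f i)) = g ∘ f from rfl, range_comp]
      constructor
      · intro h
        rw [← h, image_preimage_eq _ g.surjective]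
      · intro h
        rw [h, preimage_image_eq _ g.injective]
    constructor
    · rintro ⟨a, b, d⟩
      rw [hp] at a b
      exact ⟨(unhit_relabel g).1 a, b, hfull.1 d⟩
    · rintro ⟨a, b, d⟩
      refine ⟨?_, ?_, hfull.2 d⟩
      · rw [hp]
        exact (unhit_relabel g).2 a
      · rw [hp]
        exact b
  have h2 : (fun s => f ⁻¹' preAct (pth Φ ε fun i => X (g i)) ε (f j) σ s) =
      fun s => (fun i => g (f i)) ⁻¹' preAct (pth Φ ε X) ε (g (f j)) σ s := by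
    funext s
    rw [hpre s]
    rfl
  constructor
  · rintro ⟨a, b, d, g'⟩
    rw [h2] at b
    exact ⟨h1.1 a, b, d, g'⟩
  · rintro ⟨a, b, d, g'⟩
    refine ⟨h1.2 a, ?_, d, g'⟩
    rw [h2]
    exact b

end relabel

section dict

variable {Φ : Space3 → ℝ} {ε : ℝ} {α : Type} {c : α → ℝ → Space3} {θ : α → ℝ} {𝒢 : Cls}

theorem HitD.nonneg_pos {ι : Type} [Fintype ι] {X : ι → PhasePoint} {k : ℕ} {f : Fin k → ι}
    {j : Fin k} {σ : ℝ} (hσ : 0 ≤ σ) (h : HitD Φ ε c θ 𝒢 X f j σ) : 0 < σ := h.1.good.pos hσ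

/-- **The dictionary**: real world versus cluster / rest. -/
theorem hitF_iff_hitD (hΦ : AdmissiblePotential Φ) (hε : 0 < ε) {ι : Type} [Fintype ι]
    {X : ι → PhasePoint} (hX : X ∈ Dom Φ ι) {k : ℕ} {f : Fin k → ι} (hf : Function.Injective f)
    {j : Fin k} {σ : ℝ} (hσ : 0 ≤ σ) :
    HitF Φ ε c θ 𝒢 X f j σ ↔ HitD Φ ε c θ 𝒢 X f j σ := by
  have hXf : (fun i => X (f i)) ∈ Dom Φ (Fin k) := Dom_comp ⟨f, hf⟩ hX
  have hzB : ∀ i, Continuous fun s => pth Φ ε (fun i => X (f i)) s i := continuous_pth hΦ hε _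
  have hz : ∀ i, Continuous fun s => pth Φ ε X s i := continuous_pth hΦ hε _
  have hloc : LocUniq ε σ (pth Φ ε (fun i => X (f i))) (pth Φ ε X) :=
    locUniq_pth hΦ hε σ hXf hX
  have h0 : ∀ i, pth Φ ε (fun i => X (f i)) 0 i = pth Φ ε X 0 (f i) := by
    intro i
    simp only [pth]
    rw [flow_zero hΦ hε, flow_zero hΦ hε]
  have key := ghostHit_iff (c := c) (θ := θ) (j := j) (fun i => (hzB i).continuousOn)
    (fun i => (hz i).continuousOn) hloc hf h0 hσ le_rfl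
  constructor
  · rintro ⟨h1, h2, h3, h4⟩
    obtain ⟨g1, g2, g3⟩ := key.1 ⟨h1, h2⟩
    refine ⟨⟨g1, h3, h4⟩, ⟨g2.congr fun s hs => ?_, g3⟩⟩
    rw [preAct_eq_fam hzB (g1.pos hσ) g1.full h3 hs]
  · rintro ⟨⟨g1, h3, h4⟩, ⟨g2, g3⟩⟩
    have g2' : Iso (pth Φ ε X) ε
        (fun s => f '' preAct (pth Φ ε fun i => X (f i)) ε j σ s) σ := by
      refine g2.congr fun s hs => ?_
      rw [preAct_eq_fam hzB (g1.pos hσ) g1.full h3 hs]
    obtain ⟨h1, h2⟩ := key.2 ⟨g1, g2', g3⟩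
    exact ⟨h1, h2, h3, h4⟩

theorem hitD_time {ι : Type} [Fintype ι] {X : ι → PhasePoint} {k : ℕ} {f : Fin k → ι}
    {j : Fin k} {σ : ℝ} (hσ : 0 ≤ σ) (h : GoodV Φ ε c θ 𝒢 (fun i => X (f i)) j σ) :
    hitTime (pth Φ ε fun i => X (f i)) ε c θ 0 j = σ :=
  hitTime_eq hσ h.good.hits fun s hs => h.good.unhit s hs j (mem_preAct_self hs.2)


/-- The first-hit event in the window `[t₀, t)`, with the explicit time. -/
theorem exists_hitD_iff {ι : Type} [Fintype ι] {X : ι → PhasePoint} {k : ℕ} {f : Fin k → ι}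
    {j : Fin k} {t₀ t : ℝ} (ht₀ : 0 ≤ t₀) :
    (∃ σ ∈ Ico t₀ t, HitD Φ ε c θ 𝒢 X f j σ) ↔
      (hitTime (pth Φ ε fun i => X (f i)) ε c θ 0 j ∈ Ico t₀ t ∧
        HitD Φ ε c θ 𝒢 X f j (hitTime (pth Φ ε fun i => X (f i)) ε c θ 0 j)) := by
  constructor
  · rintro ⟨σ, hσ, h⟩
    have := hitD_time (ht₀.trans hσ.1) h.1
    rw [this]
    exact ⟨hσ, h⟩
  · rintro ⟨h1, h2⟩
    exact ⟨_, h1, h2⟩

end dict

section meas

variable {Φ : Space3 → ℝ} {ε : ℝ} {α : Type} [Finite α] {c : α → ℝ → Space3} {θ : α → ℝ}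
  {𝒢 : Cls}

theorem measurable_pth (hΦ : AdmissiblePotential Φ) (hε : 0 < ε) {k n : ℕ} (f : Fin k → Fin n)
    (s : ℝ) (j : Fin k) :
    Measurable fun X : Config n => pth Φ ε (fun i => X (f i)) s j := by
  have h1 : Measurable fun X : Config n => (fun i => X (f i) : Config k) :=
    measurable_pi_iff.2 fun i => measurable_pi_apply (f i)
  exact (measurable_pi_apply j).comp ((measurable_flow hΦ hε s).comp h1)

omit [Finite α] in
theorem measurable_pth_id (hΦ : AdmissiblePotential Φ) (hε : 0 < ε) {n : ℕ} (s : ℝ) (j : Fin n) :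
    Measurable fun X : Config n => pth Φ ε X s j :=
  (measurable_pi_apply j).comp (measurable_flow hΦ hε s)

theorem measurableSet_goodV (hΦ : AdmissiblePotential Φ) (hε : 0 < ε)
    (hc : ∀ a, Continuous (c a)) (h𝒢 : 𝒢.Meas) {k : ℕ} (j : Fin k) {Ω : Type*}
    [MeasurableSpace Ω] {X : Ω → Config k} (hX : Measurable X) {σ : Ω → ℝ} (hσ : Measurable σ) :
    MeasurableSet {ω | GoodV Φ ε c θ 𝒢 (X ω) j (σ ω)} := by
  have hx : ∀ ω i, Continuous fun s => pth Φ ε (X ω) s i := fun ω => continuous_pth hΦ hε _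
  have hm : ∀ s i, Measurable fun ω => pth Φ ε (X ω) s i := fun s i =>
    (measurable_pth_id hΦ hε s i).comp hX
  have : {ω | GoodV Φ ε c θ 𝒢 (X ω) j (σ ω)} =
      {ω | GoodGhostHit (pth Φ ε (X ω)) ε c θ j (σ ω)} ∩
        {ω | AloneAt (pth Φ ε (X ω)) ε j (σ ω)} ∩ {ω | 𝒢 k (X ω) j (σ ω)} := by
    ext ω
    exact ⟨fun h => ⟨⟨h.good, h.alone⟩, h.cls⟩, fun h => ⟨h.1.1, h.1.2, h.2⟩⟩
  rw [this]
  exact ((measurableSet_goodGhostHit hx hm hc j hσ).inter (measurableSet_aloneAt hx hm hσ j)).inter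
    ((hX.prodMk hσ) (h𝒢 k j))

theorem measurableSet_restV (hΦ : AdmissiblePotential Φ) (hε : 0 < ε)
    (hc : ∀ a, Continuous (c a)) {k n : ℕ} {f : Fin k → Fin n} (hf : Function.Injective f)
    (j : Fin k) {Ω : Type*} [MeasurableSpace Ω] {X : Ω → Config n} (hX : Measurable X)
    {σ : Ω → ℝ} (hσ : Measurable σ) :
    MeasurableSet {ω | RestV Φ ε c θ (X ω) f j (σ ω)} := by
  have hx : ∀ ω i, Continuous fun s => pth Φ ε (X ω) s i := fun ω => continuous_pth hΦ hε _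
  have hm : ∀ s i, Measurable fun ω => pth Φ ε (X ω) s i := fun s i =>
    (measurable_pth_id hΦ hε s i).comp hX
  have hx' : ∀ ω i, Continuous fun s => pth Φ ε (fun i => X ω (f i)) s i :=
    fun ω => continuous_pth hΦ hε _
  have hm' : ∀ s i, Measurable fun ω => pth Φ ε (fun i => X ω (f i)) s i := fun s i =>
    (measurable_pth hΦ hε f s i).comp hX
  have : {ω | RestV Φ ε c θ (X ω) f j (σ ω)} =
      {ω | Iso (pth Φ ε (X ω)) ε
        (fun s => f '' fam (tauPre (pth Φ ε fun i => X ω (f i)) ε j (σ ω)) s) (σ ω)} ∩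
        {ω | Unhit (pth Φ ε (X ω)) ε c θ (σ ω)} := by
    ext ω
    exact ⟨fun h => ⟨h.iso, h.unhit⟩, fun h => ⟨h.1, h.2⟩⟩
  rw [this]
  exact (measurableSet_iso_fam hx hm hf (fun b => measurable_tauPre hx' hm' j b hσ) hσ).inter
    (measurableSet_unhit hx hm hc hσ)

theorem measurableSet_hitD (hΦ : AdmissiblePotential Φ) (hε : 0 < ε)
    (hc : ∀ a, Continuous (c a)) (h𝒢 : 𝒢.Meas) {k n : ℕ} {f : Fin k → Fin n}
    (hf : Function.Injective f) (j : Fin k) {t₀ t : ℝ} (ht₀ : 0 ≤ t₀) :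
    MeasurableSet {X : Config n | ∃ σ ∈ Ico t₀ t, HitD Φ ε c θ 𝒢 X f j σ} := by
  have hXf : Measurable fun X : Config n => (fun i => X (f i) : Config k) :=
    measurable_pi_iff.2 fun i => measurable_pi_apply (f i)
  have hx' : ∀ (X : Config n) i, Continuous fun s => pth Φ ε (fun i => X (f i)) s i :=
    fun X => continuous_pth hΦ hε _
  have hm' : ∀ s i, Measurable fun X : Config n => pth Φ ε (fun i => X (f i)) s i :=
    fun s i => measurable_pth hΦ hε f s i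
  have hσ := measurable_hitTime (θ := θ) (ε := ε) hx' hm' hc 0 j
  have : {X : Config n | ∃ σ ∈ Ico t₀ t, HitD Φ ε c θ 𝒢 X f j σ} =
      {X | hitTime (pth Φ ε fun i => X (f i)) ε c θ 0 j ∈ Ico t₀ t} ∩
      ({X | GoodV Φ ε c θ 𝒢 (fun i => X (f i)) j
        (hitTime (pth Φ ε fun i => X (f i)) ε c θ 0 j)} ∩
      {X | RestV Φ ε c θ X f j (hitTime (pth Φ ε fun i => X (f i)) ε c θ 0 j)}) := by
    ext X
    exact exists_hitD_iff ht₀
  rw [this]
  exact (hσ measurableSet_Ico).inter ((measurableSet_goodV hΦ hε hc h𝒢 j hXf hσ).inter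
    (measurableSet_restV hΦ hε hc hf j measurable_id hσ))

end meas

end Crest.Agent.R122.Hit167
end

-- ▼ part R122/HitG3_167
section

/-!
# The first-hit identity in the gas, II: Mecke formula (row 122, helper167)
-/

set_option autoImplicit false

open Set Filter Topology MeasureTheory
open scoped Classical ENNReal
open Crest.AnalysisR.Kinetic

namespace Crest.Agent.R122.Hit167

open Causal291 Flow671 Loc45 GC311

section defs

variable (Φ : Space3 → ℝ) (ε : ℝ) {α : Type} (c : α → ℝ → Space3) (θ : α → ℝ) (𝒢 : Cls)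
  (t₀ t : ℝ)

/-- First hit in the window by the particle `i` with backward cluster `B`. -/
def EvS {n : ℕ} (Z : Config n) (B : Finset (Fin n)) (i : Fin n) : Prop :=
  ∃ (k : ℕ) (f : Fin k ↪ Fin n) (j : Fin k), Finset.univ.map f = B ∧ f j = i ∧
    ∃ σ ∈ Ico t₀ t, HitD Φ ε c θ 𝒢 Z f j σ

/-- Indicator in `ℝ≥0∞`. -/
noncomputable def ind (p : Prop) : ℝ≥0∞ := if p then 1 else 0

/-- Number of good first hitters with backward cluster `B`. -/
noncomputable def Gfun (n : ℕ) (B : Finset (Fin n)) (Z : Config n) : ℝ≥0∞ :=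
  ∑ i ∈ B, ind (EvS Φ ε c θ 𝒢 t₀ t Z B i)

end defs

theorem ind_le_one (p : Prop) : ind p ≤ 1 := by
  unfold ind; split_ifs <;> simp

theorem ind_congr {p q : Prop} (h : p ↔ q) : ind p = ind q := by
  unfold ind; simp [h]


theorem ind_true {p : Prop} (h : p) : ind p = 1 := by simp [ind, h]

theorem ind_false {p : Prop} (h : ¬ p) : ind p = 0 := by simp [ind, h]

theorem ind_and (p q : Prop) : ind (p ∧ q) = ind p * ind q := by
  unfold ind
  by_cases hp : p <;> by_cases hq : q <;> simp [hp, hq]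

theorem measurable_ind {Ω : Type*} [MeasurableSpace Ω] {p : Ω → Prop}
    (h : MeasurableSet {ω | p ω}) : Measurable fun ω => ind (p ω) :=
  Measurable.ite h measurable_const measurable_const

section main

variable {Φ : Space3 → ℝ} {ε : ℝ} {α : Type} {c : α → ℝ → Space3} {θ : α → ℝ}
  {𝒢 : Cls} {t₀ t : ℝ}

/-- Two embeddings of the same set differ by a permutation. -/
theorem exists_perm_of_map_eq {k k' n : ℕ} (f : Fin k ↪ Fin n) (f' : Fin k' ↪ Fin n)
    (h : Finset.univ.map f = Finset.univ.map f') :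
    ∃ hk : k = k', ∃ e : Equiv.Perm (Fin k'), ∀ i : Fin k, f i = f' (e (Fin.cast hk i)) := by
  have hk : k = k' := by
    have := congrArg Finset.card h
    simpa using this
  subst hk
  have h1 : ∀ i : Fin k, ∃ i' : Fin k, f' i' = f i := by
    intro i
    have : f i ∈ Finset.univ.map f' := by
      rw [← h]; simp
    simpa using this
  choose e he using h1
  have hinj : Function.Injective e := by
    intro a b hab
    apply f.injective
    rw [← he a, ← he b, hab]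
  refine ⟨rfl, Equiv.ofBijective e (Finite.injective_iff_bijective.1 hinj), fun i => ?_⟩
  simp [he i]

/-- `EvS` can be read in any enumeration of `B`. -/
theorem evS_iff (hΦ : AdmissiblePotential Φ) (hε : 0 < ε) (h𝒢 : 𝒢.Inv) (ht₀ : 0 ≤ t₀) {n : ℕ}
    {Z : Config n} (hZ : Z ∈ Dom Φ (Fin n)) {k : ℕ} (f : Fin k ↪ Fin n) (j : Fin k) :
    EvS Φ ε c θ 𝒢 t₀ t Z (Finset.univ.map f) (f j) ↔
      ∃ σ ∈ Ico t₀ t, HitD Φ ε c θ 𝒢 Z f j σ := by
  constructor
  · rintro ⟨k', f', j', hB, hj, σ, hσ, h⟩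
    obtain ⟨rfl, e, he⟩ := exists_perm_of_map_eq f' f hB
    simp only [Fin.cast_refl, id] at he
    refine ⟨σ, hσ, ?_⟩
    have hσ0 : 0 ≤ σ := ht₀.trans hσ.1
    rw [← hitF_iff_hitD hΦ hε hZ f'.injective hσ0] at h
    rw [← hitF_iff_hitD hΦ hε hZ f.injective hσ0]
    have hf' : (f' : Fin k' → Fin n) = fun i => f (e i) := funext he
    rw [hf'] at h
    rw [HitF.perm hΦ hε h𝒢] at h
    have hj' : e j' = j := by
      apply f.injective
      rw [← he j', hj]
    rwa [hj'] at h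
  · rintro ⟨σ, hσ, h⟩
    exact ⟨k, f, j, rfl, rfl, σ, hσ, h⟩

theorem evS_map (hΦ : AdmissiblePotential Φ) (hε : 0 < ε) (ht₀ : 0 ≤ t₀) {n : ℕ}
    (π : Equiv.Perm (Fin n)) {Z : Config n} (hZ : Z ∈ Dom Φ (Fin n)) (B : Finset (Fin n))
    (i : Fin n) :
    EvS Φ ε c θ 𝒢 t₀ t Z (B.map π.toEmbedding) (π i) ↔
      EvS Φ ε c θ 𝒢 t₀ t (fun i => Z (π i)) B i := by
  have hZ' : (fun i => Z (π i)) ∈ Dom Φ (Fin n) := (Dom_equiv π).2 hZ
  constructor
  · rintro ⟨k, f, j, hB, hj, σ, hσ, h⟩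
    refine ⟨k, f.trans π.symm.toEmbedding, j, ?_, ?_, σ, hσ, ?_⟩
    · rw [← Finset.map_map, hB, Finset.map_map]
      ext x
      simp
    · simp [hj]
    · have hσ0 : 0 ≤ σ := ht₀.trans hσ.1
      rw [← hitF_iff_hitD hΦ hε hZ f.injective hσ0] at h
      rw [← hitF_iff_hitD hΦ hε hZ' (f.trans π.symm.toEmbedding).injective hσ0,
        HitF.relabel hΦ hε π Z]
      have : (fun i => π ((f.trans π.symm.toEmbedding) i)) = f := by
        funext i; simp
      rw [this]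
      exact h
  · rintro ⟨k, f, j, hB, hj, σ, hσ, h⟩
    refine ⟨k, f.trans π.toEmbedding, j, ?_, ?_, σ, hσ, ?_⟩
    · rw [← Finset.map_map, hB]
    · simp [hj]
    · have hσ0 : 0 ≤ σ := ht₀.trans hσ.1
      rw [← hitF_iff_hitD hΦ hε hZ' f.injective hσ0, HitF.relabel hΦ hε π Z] at h
      rw [← hitF_iff_hitD hΦ hε hZ (f.trans π.toEmbedding).injective hσ0]
      exact h

theorem gfun_map (hΦ : AdmissiblePotential Φ) (hε : 0 < ε) (ht₀ : 0 ≤ t₀) (n : ℕ)
    (π : Equiv.Perm (Fin n)) (B : Finset (Fin n)) (Z : Config n) (hZ : Z ∈ PairExcluded ε n) :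
    Gfun Φ ε c θ 𝒢 t₀ t n (B.map π.toEmbedding) Z =
      Gfun Φ ε c θ 𝒢 t₀ t n B (fun i => Z (π i)) := by
  unfold Gfun
  rw [Finset.sum_map]
  refine Finset.sum_congr rfl fun i _ => ?_
  exact ind_congr (evS_map hΦ hε ht₀ π (pairExcluded_subset_Dom hε n hZ) B i)


/-- `Gfun` with the indicator of admissible configurations (measurable). -/
theorem gfun_eq (hΦ : AdmissiblePotential Φ) (hε : 0 < ε) (h𝒢 : 𝒢.Inv) (ht₀ : 0 ≤ t₀)
    {n : ℕ} (B : Finset (Fin n)) (Z : Config n) (hZ : Z ∈ PairExcluded ε n) :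
    Gfun Φ ε c θ 𝒢 t₀ t n B Z = ∑ j : Fin B.card,
      ind (∃ σ ∈ Ico t₀ t, HitD Φ ε c θ 𝒢 Z (B.orderEmbOfFin rfl).toEmbedding j σ) := by
  unfold Gfun
  have h1 : Finset.univ.map (B.orderEmbOfFin rfl).toEmbedding = B :=
    Finset.map_orderEmbOfFin_univ B rfl
  conv_lhs => rw [← h1]
  rw [Finset.sum_map]
  refine Finset.sum_congr rfl fun j _ => ?_
  exact ind_congr (evS_iff hΦ hε h𝒢 ht₀ (pairExcluded_subset_Dom hε n hZ) _ j)

/-- The conditional expectation of the rest of the world given the cluster `V` with root `j` at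
time `σ`. -/
noncomputable def restE (f₀ : PhasePoint → ℝ) (Φ : Space3 → ℝ) (ε : ℝ) {α : Type}
    (c : α → ℝ → Space3) (θ : α → ℝ) {k : ℕ} (V : Config k) (j : Fin k) (σ : ℝ) : ℝ≥0∞ :=
  gcE f₀ ε fun m w => perpInd ε V w *
    ind (RestV Φ ε c θ (Fin.append V w : Config (k + m)) (Fin.castAdd m) j σ)

/-- Mass of the first hits in `[t₀, t)` by clusters of size `k` in the class `𝒢`. -/
noncomputable def hitMass (f₀ : PhasePoint → ℝ) (Φ : Space3 → ℝ) (ε : ℝ) {α : Type}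
    (c : α → ℝ → Space3) (θ : α → ℝ) (𝒢 : Cls) (t₀ t : ℝ) (k : ℕ) : ℝ≥0∞ :=
  activity ε ^ k / (k.factorial : ℝ≥0∞) * ∫⁻ V : Config k, gcWeight f₀ ε k V *
    ∑ j : Fin k, ind (hitTime (pth Φ ε V) ε c θ 0 j ∈ Ico t₀ t ∧
      GoodV Φ ε c θ 𝒢 V j (hitTime (pth Φ ε V) ε c θ 0 j)) *
      restE f₀ Φ ε c θ V j (hitTime (pth Φ ε V) ε c θ 0 j)

theorem append_comp_castAdd {k m : ℕ} (V : Config k) (w : Config m) :
    (fun i => (Fin.append V w : Config (k + m)) (Fin.castAdd m i)) = V := by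
  funext i
  exact Fin.append_left V w i

/-- Splitting of the first-hit event. -/
theorem ind_hitD_append (ht₀ : 0 ≤ t₀) {k m : ℕ} (V : Config k) (w : Config m) (j : Fin k) :
    ind (∃ σ ∈ Ico t₀ t, HitD Φ ε c θ 𝒢 (Fin.append V w : Config (k + m)) (Fin.castAdd m) j σ) =
      ind (hitTime (pth Φ ε V) ε c θ 0 j ∈ Ico t₀ t ∧
        GoodV Φ ε c θ 𝒢 V j (hitTime (pth Φ ε V) ε c θ 0 j)) *
      ind (RestV Φ ε c θ (Fin.append V w : Config (k + m)) (Fin.castAdd m) j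
        (hitTime (pth Φ ε V) ε c θ 0 j)) := by
  rw [← ind_and]
  refine ind_congr ?_
  rw [exists_hitD_iff ht₀, append_comp_castAdd]
  unfold HitD
  rw [append_comp_castAdd]
  tauto

variable [Finite α]

theorem measurable_ind_restV (hΦ : AdmissiblePotential Φ) (hε : 0 < ε)
    (hc : ∀ a, Continuous (c a)) {k m : ℕ} (V : Config k) (j : Fin k) (σ : ℝ) :
    Measurable fun w : Config m =>
      ind (RestV Φ ε c θ (Fin.append V w : Config (k + m)) (Fin.castAdd m) j σ) :=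
  measurable_ind (measurableSet_restV hΦ hε hc (Fin.castAdd_injective k m) j
    (measurable_append_right V) measurable_const)

/-- **Mecke formula for the first hits.** -/
theorem mecke_hit {f₀ : PhasePoint → ℝ} (hf : Measurable f₀) (hΦ : AdmissiblePotential Φ)
    (hε : 0 < ε) (hc : ∀ a, Continuous (c a)) (h𝒢 : 𝒢.Inv) (h𝒢m : 𝒢.Meas) (ht₀ : 0 ≤ t₀)
    (k : ℕ) :
    gcE f₀ ε (fun n Z => ∑ B ∈ (Finset.univ : Finset (Fin n)).powersetCard k,
      Gfun Φ ε c θ 𝒢 t₀ t n B Z) = hitMass f₀ Φ ε c θ 𝒢 t₀ t k := by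
  set G : (n : ℕ) → Finset (Fin n) → Config n → ℝ≥0∞ := fun n B Z => ∑ j : Fin B.card,
      ind (∃ σ ∈ Ico t₀ t, HitD Φ ε c θ 𝒢 Z (B.orderEmbOfFin rfl).toEmbedding j σ) with hG
  have hGe : ∀ n B Z, Z ∈ PairExcluded ε n → G n B Z = Gfun Φ ε c θ 𝒢 t₀ t n B Z :=
    fun n B Z hZ => (gfun_eq hΦ hε h𝒢 ht₀ B Z hZ).symm
  have hGm : ∀ n B, Measurable (G n B) := by
    intro n B
    refine Finset.measurable_sum _ fun j _ => measurable_ind ?_
    exact measurableSet_hitD hΦ hε hc h𝒢m (B.orderEmbOfFin rfl).toEmbedding.injective j ht₀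
  have hGi : ∀ (n : ℕ) (π : Equiv.Perm (Fin n)) (B : Finset (Fin n)) (Z : Config n),
      Z ∈ PairExcluded ε n → G n (B.map π.toEmbedding) Z = G n B (fun i => Z (π i)) := by
    intro n π B Z hZ
    rw [hGe n _ Z hZ, hGe n _ _ ((pairExcluded_comp_iff π Z).2 hZ), gfun_map hΦ hε ht₀ n π B Z hZ]
  have h1 : gcE f₀ ε (fun n Z => ∑ B ∈ (Finset.univ : Finset (Fin n)).powersetCard k,
      Gfun Φ ε c θ 𝒢 t₀ t n B Z) =
      gcE f₀ ε (fun n Z => ∑ B ∈ (Finset.univ : Finset (Fin n)).powersetCard k, G n B Z) :=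
    gcE_congr f₀ ε fun n Z hZ => Finset.sum_congr rfl fun B _ => (hGe n B Z hZ).symm
  rw [h1, mecke_finset hf k hGi hGm]
  unfold hitMass
  congr 1
  refine lintegral_congr fun V => ?_
  by_cases hV : V ∈ PairExcluded ε k
  swap
  · have : gcWeight f₀ ε k V = 0 := by simp [gcWeight, Set.indicator_of_notMem hV]
    rw [this, zero_mul, zero_mul]
  congr 1
  -- identify the integrand of the rest
  have h2 : gcE f₀ ε (fun m w => perpInd ε V w *
      G (k + m) (Finset.univ.map (Fin.castAddEmb m)) (Fin.append V w)) =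
      gcE f₀ ε (fun m w => ∑ j : Fin k, ind (hitTime (pth Φ ε V) ε c θ 0 j ∈ Ico t₀ t ∧
        GoodV Φ ε c θ 𝒢 V j (hitTime (pth Φ ε V) ε c θ 0 j)) * (perpInd ε V w *
        ind (RestV Φ ε c θ (Fin.append V w : Config (k + m)) (Fin.castAdd m) j
          (hitTime (pth Φ ε V) ε c θ 0 j)))) := by
    refine gcE_congr f₀ ε fun m w hw => ?_
    unfold perpInd
    by_cases hp : Perp ε V w
    swap
    · simp [if_neg hp]
    rw [if_pos hp, one_mul]
    have hVw : (Fin.append V w : Config (k + m)) ∈ PairExcluded ε (k + m) :=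
      (append_mem_pairExcluded_iff V w).2 ⟨hV, hw, hp⟩
    rw [hGe _ _ _ hVw]
    unfold Gfun
    rw [Finset.sum_map]
    refine Finset.sum_congr rfl fun j _ => ?_
    rw [one_mul, ← ind_hitD_append ht₀ V w j]
    refine ind_congr ?_
    exact evS_iff hΦ hε h𝒢 ht₀ (pairExcluded_subset_Dom hε _ hVw) (Fin.castAddEmb m) j
  have h3 := gcE_finset_sum hf ε (Finset.univ : Finset (Fin k))
    (F := fun j m w => ind (hitTime (pth Φ ε V) ε c θ 0 j ∈ Ico t₀ t ∧
        GoodV Φ ε c θ 𝒢 V j (hitTime (pth Φ ε V) ε c θ 0 j)) * (perpInd ε V w *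
        ind (RestV Φ ε c θ (Fin.append V w : Config (k + m)) (Fin.castAdd m) j
          (hitTime (pth Φ ε V) ε c θ 0 j))))
    (fun j _ m => measurable_const.mul
      ((measurable_perpInd_right ε m V).mul (measurable_ind_restV hΦ hε hc V j _)))
  rw [h2]
  refine h3.trans ?_
  refine Finset.sum_congr rfl fun j _ => ?_
  rw [gcE_const_mul f₀ ε]
  · rfl
  · exact ne_top_of_le_ne_top ENNReal.one_ne_top (ind_le_one _)

end main

end Crest.Agent.R122.Hit167
end

-- ▼ part R122/HitG4_167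

/-!
# The first-hit inequalities of the gas (row 122, helper167)

`U t` is the probability that the test family is unhit before time `t`.

* `unhit_le` : `U t₀ ≤ U t + ∑_{k ≤ K} hitMass k + P(BadR)`.
* `le_unhit` : `U t + ∑_{k ≤ K} hitMass k ≤ U t₀` (if simultaneous first hits are null).
-/

set_option autoImplicit false

open Set Filter Topology MeasureTheory
open scoped Classical ENNReal
open Crest.AnalysisR.Kinetic

namespace Crest.Agent.R122.Hit167

open Causal291 Flow671 Loc45 GC311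

/-! ### Additivity and monotonicity of `gcE` up to null sets -/

theorem gcE_mono_ae (f₀ : PhasePoint → ℝ) (ε : ℝ) {F G : (n : ℕ) → Config n → ℝ≥0∞}
    (h : ∀ n, ∀ᵐ Z : Config n, Z ∈ PairExcluded ε n → F n Z ≤ G n Z) :
    gcE f₀ ε F ≤ gcE f₀ ε G := by
  unfold gcE
  refine mul_le_mul_right (ENNReal.tsum_le_tsum fun n => mul_le_mul_right
    (lintegral_mono_ae ?_) _) _
  filter_upwards [h n] with Z hZ
  by_cases hp : Z ∈ PairExcluded ε n
  · exact mul_le_mul_right (hZ hp) _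
  · simp [gcWeight, Set.indicator_of_notMem hp]

theorem gcE_add' {f₀ : PhasePoint → ℝ} (hf : Measurable f₀) (ε : ℝ)
    {F F' G : (n : ℕ) → Config n → ℝ≥0∞} (hF : ∀ n, Measurable (F' n))
    (h : ∀ n, ∀ Z ∈ PairExcluded ε n, F n Z = F' n Z) :
    gcE f₀ ε (fun n Z => F n Z + G n Z) = gcE f₀ ε F + gcE f₀ ε G := by
  rw [gcE_congr f₀ ε h, ← gcE_add hf ε hF]
  exact gcE_congr f₀ ε fun n Z hZ => by rw [h n Z hZ]

section defs

variable (f₀ : PhasePoint → ℝ) (Φ : Space3 → ℝ) (ε : ℝ) {α : Type} (c : α → ℝ → Space3)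
  (θ : α → ℝ) (𝒢 : Cls) (t₀ t : ℝ)

/-- Probability that the test family is unhit before time `t`. -/
noncomputable def U : ℝ≥0∞ := gcE f₀ ε fun _ Z => ind (Unhit (pth Φ ε Z) ε c θ t)

/-- The particle `i` at time `σ⁻` of the real world `Z` has a good backward cluster of at most `K`
particles: its real family is isolated in the isolated world of the cluster, `i` is alone there at
time `σ`, and the cluster belongs to the class `𝒢`. -/
def GoodR (K : ℕ) {n : ℕ} (Z : Config n) (i : Fin n) (σ : ℝ) : Prop :=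
  ∃ (k : ℕ) (f : Fin k ↪ Fin n) (j : Fin k), k ≤ K ∧ f j = i ∧
    preAct (pth Φ ε Z) ε i σ 0 = range f ∧
    Iso (pth Φ ε (fun l => Z (f l))) ε (fun s => f ⁻¹' preAct (pth Φ ε Z) ε i σ s) σ ∧
    AloneAt (pth Φ ε (fun l => Z (f l))) ε j σ ∧ 𝒢 k (fun l => Z (f l)) j σ

/-- Bad first hit in the window. -/
def BadR (K : ℕ) {n : ℕ} (Z : Config n) : Prop :=
  ∃ σ ∈ Ico t₀ t, Unhit (pth Φ ε Z) ε c θ σ ∧
    ∃ i, HitsAt (pth Φ ε Z) ε c θ σ i ∧ ¬ GoodR Φ ε 𝒢 K Z i σ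

/-- Two particles hit the test family at the same first hitting time. -/
def MultHit {n : ℕ} (Z : Config n) : Prop :=
  ∃ σ ∈ Ico t₀ t, 0 < σ ∧ Unhit (pth Φ ε Z) ε c θ σ ∧
    ∃ i i', i ≠ i' ∧ HitsAt (pth Φ ε Z) ε c θ σ i ∧ HitsAt (pth Φ ε Z) ε c θ σ i'

end defs

section main

variable {f₀ : PhasePoint → ℝ} {Φ : Space3 → ℝ} {ε : ℝ} {α : Type} [Finite α]
  {c : α → ℝ → Space3} {θ : α → ℝ} {𝒢 : Cls} {t₀ t : ℝ}

theorem measurable_ind_unhit (hΦ : AdmissiblePotential Φ) (hε : 0 < ε)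
    (hc : ∀ a, Continuous (c a)) (t : ℝ) (n : ℕ) :
    Measurable fun Z : Config n => ind (Unhit (pth Φ ε Z) ε c θ t) :=
  measurable_ind (measurableSet_unhit (fun Z => continuous_pth hΦ hε Z)
    (fun s j => measurable_pth_id hΦ hε s j) hc measurable_const)

/-- A good real hit gives an event `EvS`. -/
theorem GoodR.evS (hΦ : AdmissiblePotential Φ) (hε : 0 < ε) (ht₀ : 0 ≤ t₀) {K n : ℕ}
    {Z : Config n} (hZ : Z ∈ PairExcluded ε n) {i : Fin n} {σ : ℝ} (hσ : σ ∈ Ico t₀ t)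
    (h : GoodR Φ ε 𝒢 K Z i σ) (hU : Unhit (pth Φ ε Z) ε c θ σ)
    (hi : HitsAt (pth Φ ε Z) ε c θ σ i) :
    ∃ B : Finset (Fin n), B.card ≤ K ∧ i ∈ B ∧ EvS Φ ε c θ 𝒢 t₀ t Z B i := by
  obtain ⟨k, f, j, hk, rfl, hfull, hiso, hal, hcl⟩ := h
  refine ⟨Finset.univ.map f, by simpa using hk, by simp, k, f, j, rfl, rfl, σ, hσ, ?_⟩
  rw [← hitF_iff_hitD hΦ hε (pairExcluded_subset_Dom hε n hZ) f.injective (ht₀.trans hσ.1)]
  exact ⟨⟨hU, hi, hfull⟩, hiso, hal, hcl⟩

/-- Pointwise upper bound. -/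
theorem ind_unhit_le (hΦ : AdmissiblePotential Φ) (hε : 0 < ε)
    (hc : ∀ a, Continuous (c a)) (ht₀ : 0 ≤ t₀) (K : ℕ) {n : ℕ} {Z : Config n}
    (hZ : Z ∈ PairExcluded ε n) :
    ind (Unhit (pth Φ ε Z) ε c θ t₀) ≤
      (∑ k ∈ Finset.range (K + 1), ∑ B ∈ (Finset.univ : Finset (Fin n)).powersetCard k,
        Gfun Φ ε c θ 𝒢 t₀ t n B Z) +
      (ind (Unhit (pth Φ ε Z) ε c θ t) + ind (BadR Φ ε c θ 𝒢 t₀ t K Z)) := by
  by_cases h0 : Unhit (pth Φ ε Z) ε c θ t₀
  swap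
  · rw [ind_false h0]; exact zero_le
  rw [ind_true h0]
  by_cases h1 : Unhit (pth Φ ε Z) ε c θ t
  · rw [ind_true h1]
    exact le_add_left le_self_add
  by_cases h2 : BadR Φ ε c θ 𝒢 t₀ t K Z
  · rw [ind_true h2]
    exact le_add_left le_add_self
  refine le_add_right ?_
  obtain ⟨σ, hσ, hσ0, hU, i, hi⟩ := exists_first_hit (continuous_pth hΦ hε Z) hc h0 h1
  have hg : GoodR Φ ε 𝒢 K Z i σ := by
    by_contra hg
    exact h2 ⟨σ, ⟨hσ0, hσ.2⟩, hU, i, hi, hg⟩
  obtain ⟨B, hB, hiB, hE⟩ := hg.evS hΦ hε ht₀ hZ ⟨hσ0, hσ.2⟩ hU hi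
  calc (1 : ℝ≥0∞) = ind (EvS Φ ε c θ 𝒢 t₀ t Z B i) := (ind_true hE).symm
    _ ≤ Gfun Φ ε c θ 𝒢 t₀ t n B Z :=
        Finset.single_le_sum (f := fun i => ind (EvS Φ ε c θ 𝒢 t₀ t Z B i))
          (fun _ _ => zero_le) hiB
    _ ≤ ∑ B ∈ (Finset.univ : Finset (Fin n)).powersetCard B.card, Gfun Φ ε c θ 𝒢 t₀ t n B Z :=
        Finset.single_le_sum (f := fun B => Gfun Φ ε c θ 𝒢 t₀ t n B Z) (fun _ _ => zero_le)
          (Finset.mem_powersetCard.2 ⟨Finset.subset_univ _, rfl⟩)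
    _ ≤ _ := Finset.single_le_sum
        (f := fun k => ∑ B ∈ (Finset.univ : Finset (Fin n)).powersetCard k,
          Gfun Φ ε c θ 𝒢 t₀ t n B Z) (fun _ _ => zero_le) (Finset.mem_range.2 (by omega))

/-- Consequences of `EvS`. -/
theorem EvS.spec (hΦ : AdmissiblePotential Φ) (hε : 0 < ε) (ht₀ : 0 ≤ t₀) {n : ℕ}
    {Z : Config n} (hZ : Z ∈ PairExcluded ε n) {B : Finset (Fin n)} {i : Fin n}
    (h : EvS Φ ε c θ 𝒢 t₀ t Z B i) :
    ∃ σ ∈ Ico t₀ t, 0 < σ ∧ Unhit (pth Φ ε Z) ε c θ σ ∧ HitsAt (pth Φ ε Z) ε c θ σ i ∧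
      (B : Set (Fin n)) = preAct (pth Φ ε Z) ε i σ 0 := by
  obtain ⟨k, f, j, rfl, rfl, σ, hσ, hD⟩ := h
  have hpos : 0 < σ := hD.nonneg_pos (ht₀.trans hσ.1)
  rw [← hitF_iff_hitD hΦ hε (pairExcluded_subset_Dom hε n hZ) f.injective (ht₀.trans hσ.1)] at hD
  refine ⟨σ, hσ, hpos, hD.ghost.unhit, hD.ghost.hits, ?_⟩
  rw [hD.ghost.full]
  simp

omit [Finite α] in
theorem sum_ind_le_one {β : Type*} (s : Finset β) (p : β → Prop)
    (h : ∀ a ∈ s, ∀ b ∈ s, p a → p b → a = b) : ∑ a ∈ s, ind (p a) ≤ 1 := by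
  by_cases hex : ∃ a ∈ s, p a
  · obtain ⟨a, ha, hpa⟩ := hex
    rw [Finset.sum_eq_single_of_mem a ha]
    · exact ind_le_one _
    · intro b hb hba
      exact ind_false fun hpb => hba (h b hb a ha hpb hpa)
  · push Not at hex
    rw [Finset.sum_eq_zero fun a ha => ind_false (hex a ha)]
    exact zero_le

/-- Pointwise lower bound. -/
theorem ind_add_le (hΦ : AdmissiblePotential Φ) (hε : 0 < ε) (ht₀ : 0 ≤ t₀) (htt : t₀ ≤ t)
    (K : ℕ) {n : ℕ} {Z : Config n} (hZ : Z ∈ PairExcluded ε n)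
    (hM : ¬ MultHit Φ ε c θ t₀ t Z) :
    (∑ k ∈ Finset.range (K + 1), ∑ B ∈ (Finset.univ : Finset (Fin n)).powersetCard k,
        Gfun Φ ε c θ 𝒢 t₀ t n B Z) + ind (Unhit (pth Φ ε Z) ε c θ t) ≤
      ind (Unhit (pth Φ ε Z) ε c θ t₀) := by
  -- the double sum as one sum over pairs
  have hsum : (∑ k ∈ Finset.range (K + 1), ∑ B ∈ (Finset.univ : Finset (Fin n)).powersetCard k,
        Gfun Φ ε c θ 𝒢 t₀ t n B Z) ≤
      ∑ p : Finset (Fin n) × Fin n, ind (EvS Φ ε c θ 𝒢 t₀ t Z p.1 p.2) := by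
    rw [Fintype.sum_prod_type]
    calc (∑ k ∈ Finset.range (K + 1), ∑ B ∈ (Finset.univ : Finset (Fin n)).powersetCard k,
          Gfun Φ ε c θ 𝒢 t₀ t n B Z)
        = ∑ B ∈ (Finset.univ : Finset (Finset (Fin n))).filter (fun B => B.card < K + 1),
          Gfun Φ ε c θ 𝒢 t₀ t n B Z := by
          have h1 := Finset.sum_fiberwise_of_maps_to (s := (Finset.univ :
            Finset (Finset (Fin n))).filter (fun B => B.card < K + 1)) (t := Finset.range (K + 1))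
            (g := fun B => B.card) (fun B hB => by simpa using hB)
            (fun B => Gfun Φ ε c θ 𝒢 t₀ t n B Z)
          rw [← h1]
          refine Finset.sum_congr rfl fun k hk => ?_
          refine Finset.sum_congr ?_ fun _ _ => rfl
          ext B
          simp only [Finset.mem_powersetCard, Finset.subset_univ, true_and, Finset.mem_filter,
            Finset.mem_univ]
          constructor
          · intro h; exact ⟨by rw [h]; exact Finset.mem_range.1 hk, h⟩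
          · intro h; exact h.2
      _ ≤ ∑ B : Finset (Fin n), Gfun Φ ε c θ 𝒢 t₀ t n B Z :=
          Finset.sum_le_sum_of_subset (Finset.filter_subset _ _)
      _ ≤ ∑ B : Finset (Fin n), ∑ i : Fin n, ind (EvS Φ ε c θ 𝒢 t₀ t Z B i) := by
          refine Finset.sum_le_sum fun B _ => ?_
          exact Finset.sum_le_sum_of_subset (Finset.subset_univ _)
  refine (add_le_add_left hsum _).trans ?_
  by_cases h1 : Unhit (pth Φ ε Z) ε c θ t
  · have h0 : Unhit (pth Φ ε Z) ε c θ t₀ := h1.mono htt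
    rw [ind_true h1, ind_true h0, Finset.sum_eq_zero, zero_add]
    rintro ⟨B, i⟩ _
    refine ind_false fun hE => ?_
    obtain ⟨σ, hσ, hpos, _, hi, _⟩ := hE.spec hΦ hε ht₀ hZ
    exact h1 σ ⟨hpos.le, hσ.2⟩ i hi
  rw [ind_false h1, add_zero]
  by_cases hex : ∃ p : Finset (Fin n) × Fin n, EvS Φ ε c θ 𝒢 t₀ t Z p.1 p.2
  · obtain ⟨⟨B, i⟩, hE⟩ := hex
    obtain ⟨σ, hσ, hpos, hU, hi, hB⟩ := hE.spec hΦ hε ht₀ hZ
    rw [ind_true (hU.mono hσ.1)]
    refine sum_ind_le_one _ _ ?_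
    have key : ∀ p : Finset (Fin n) × Fin n, EvS Φ ε c θ 𝒢 t₀ t Z p.1 p.2 → p = (B, i) := by
      rintro ⟨B', i'⟩ hE'
      obtain ⟨σ', hσ', hpos', hU', hi', hB'⟩ := hE'.spec hΦ hε ht₀ hZ
      have hσσ : σ' = σ := first_hit_unique hpos'.le hpos.le hU' hi' hU hi
      subst hσσ
      have hii : i' = i := by
        by_contra hne
        exact hM ⟨σ', hσ, hpos, hU, i', i, hne, hi', hi⟩
      have hBB : B' = B := by
        subst hii
        exact Finset.coe_injective (hB'.trans hB.symm)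
      rw [hBB, hii]
    intro p _ q _ hp hq
    rw [key p hp, key q hq]
  · push Not at hex
    rw [Finset.sum_eq_zero fun p _ => ind_false (hex p)]
    exact zero_le

/-- Expectation of the number of good first hitters. -/
theorem gcE_sum_gfun (hf : Measurable f₀) (hΦ : AdmissiblePotential Φ)
    (hε : 0 < ε) (hc : ∀ a, Continuous (c a)) (h𝒢 : 𝒢.Inv) (h𝒢m : 𝒢.Meas) (ht₀ : 0 ≤ t₀)
    (K : ℕ) (H : (n : ℕ) → Config n → ℝ≥0∞) :
    gcE f₀ ε (fun n Z => (∑ k ∈ Finset.range (K + 1),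
      ∑ B ∈ (Finset.univ : Finset (Fin n)).powersetCard k, Gfun Φ ε c θ 𝒢 t₀ t n B Z) + H n Z) =
      (∑ k ∈ Finset.range (K + 1), hitMass f₀ Φ ε c θ 𝒢 t₀ t k) + gcE f₀ ε H := by
  set G' : (n : ℕ) → Finset (Fin n) → Config n → ℝ≥0∞ := fun n B Z => ∑ j : Fin B.card,
      ind (∃ σ ∈ Ico t₀ t, HitD Φ ε c θ 𝒢 Z (B.orderEmbOfFin rfl).toEmbedding j σ) with hG
  have hGe : ∀ n B Z, Z ∈ PairExcluded ε n → Gfun Φ ε c θ 𝒢 t₀ t n B Z = G' n B Z :=
    fun n B Z hZ => gfun_eq hΦ hε h𝒢 ht₀ B Z hZ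
  have hGm : ∀ n B, Measurable (G' n B) := by
    intro n B
    refine Finset.measurable_sum _ fun j _ => measurable_ind ?_
    exact measurableSet_hitD hΦ hε hc h𝒢m (B.orderEmbOfFin rfl).toEmbedding.injective j ht₀
  rw [gcE_add' hf ε (F' := fun n Z => ∑ k ∈ Finset.range (K + 1),
      ∑ B ∈ (Finset.univ : Finset (Fin n)).powersetCard k, G' n B Z)
    (fun n => Finset.measurable_sum _ fun k _ => Finset.measurable_sum _ fun B _ => hGm n B)
    (fun n Z hZ => Finset.sum_congr rfl fun k _ => Finset.sum_congr rfl fun B _ => hGe n B Z hZ)]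
  congr 1
  have h1 : gcE f₀ ε (fun n Z => ∑ k ∈ Finset.range (K + 1),
      ∑ B ∈ (Finset.univ : Finset (Fin n)).powersetCard k, Gfun Φ ε c θ 𝒢 t₀ t n B Z) =
      gcE f₀ ε (fun n Z => ∑ k ∈ Finset.range (K + 1),
        ∑ B ∈ (Finset.univ : Finset (Fin n)).powersetCard k, G' n B Z) :=
    gcE_congr f₀ ε fun n Z hZ => Finset.sum_congr rfl fun k _ => Finset.sum_congr rfl
      fun B _ => hGe n B Z hZ
  have h2 := gcE_finset_sum hf ε (Finset.range (K + 1))
    (F := fun k n Z => ∑ B ∈ (Finset.univ : Finset (Fin n)).powersetCard k, G' n B Z)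
    (fun k _ n => Finset.measurable_sum _ fun B _ => hGm n B)
  rw [h1]
  refine h2.trans ?_
  refine Finset.sum_congr rfl fun k _ => ?_
  rw [← mecke_hit hf hΦ hε hc h𝒢 h𝒢m ht₀ k]
  exact gcE_congr f₀ ε fun n Z hZ => Finset.sum_congr rfl fun B _ => (hGe n B Z hZ).symm

/-- **First-hit inequality, upper bound.** -/
theorem unhit_le (hf : Measurable f₀) (hΦ : AdmissiblePotential Φ) (hε : 0 < ε)
    (hc : ∀ a, Continuous (c a)) (h𝒢 : 𝒢.Inv) (h𝒢m : 𝒢.Meas) (ht₀ : 0 ≤ t₀) (K : ℕ) :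
    U f₀ Φ ε c θ t₀ ≤ U f₀ Φ ε c θ t +
      ∑ k ∈ Finset.range (K + 1), hitMass f₀ Φ ε c θ 𝒢 t₀ t k +
      gcE f₀ ε (fun _ Z => ind (BadR Φ ε c θ 𝒢 t₀ t K Z)) := by
  have h1 : U f₀ Φ ε c θ t₀ ≤ gcE f₀ ε (fun n Z => (∑ k ∈ Finset.range (K + 1),
      ∑ B ∈ (Finset.univ : Finset (Fin n)).powersetCard k, Gfun Φ ε c θ 𝒢 t₀ t n B Z) +
      (ind (Unhit (pth Φ ε Z) ε c θ t) + ind (BadR Φ ε c θ 𝒢 t₀ t K Z))) :=
    gcE_mono f₀ ε fun n Z hZ => ind_unhit_le hΦ hε hc ht₀ K hZ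
  rw [gcE_sum_gfun hf hΦ hε hc h𝒢 h𝒢m ht₀ K, gcE_add hf ε
    (fun n => measurable_ind_unhit hΦ hε hc t n)] at h1
  refine h1.trans (le_of_eq ?_)
  unfold U
  ring

/-- **First-hit inequality, lower bound.** -/
theorem le_unhit (hf : Measurable f₀) (hΦ : AdmissiblePotential Φ) (hε : 0 < ε)
    (hc : ∀ a, Continuous (c a)) (h𝒢 : 𝒢.Inv) (h𝒢m : 𝒢.Meas) (ht₀ : 0 ≤ t₀) (htt : t₀ ≤ t)
    (K : ℕ) (hM : ∀ n, ∀ᵐ Z : Config n, Z ∈ PairExcluded ε n → ¬ MultHit Φ ε c θ t₀ t Z) :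
    U f₀ Φ ε c θ t + ∑ k ∈ Finset.range (K + 1), hitMass f₀ Φ ε c θ 𝒢 t₀ t k ≤
      U f₀ Φ ε c θ t₀ := by
  have h1 := gcE_sum_gfun (θ := θ) (t := t) hf hΦ hε hc h𝒢 h𝒢m ht₀ K
    (fun _ Z => ind (Unhit (pth Φ ε Z) ε c θ t))
  have h2 : gcE f₀ ε (fun n Z => (∑ k ∈ Finset.range (K + 1),
      ∑ B ∈ (Finset.univ : Finset (Fin n)).powersetCard k, Gfun Φ ε c θ 𝒢 t₀ t n B Z) +
      ind (Unhit (pth Φ ε Z) ε c θ t)) ≤ U f₀ Φ ε c θ t₀ := by
    refine gcE_mono_ae f₀ ε fun n => ?_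
    filter_upwards [hM n] with Z hZ hp
    exact ind_add_le hΦ hε ht₀ htt K hp (hZ hp)
  rw [h1] at h2
  rw [add_comm]
  exact h2

end main

end Crest.Agent.R122.Hit167
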