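import Crest.Agent.R122.Coll_674
import Crest.Agent.R122.CausalDyn_291

/-!
# Row 122, block FP (helper973): decoding a collision tree from a world

`Follow z ε P i t e`: in the world `z`, the backward history of the particle `i` from time `t` is a
binary collision tree of type `P`, the leaf `k : Idx P` being the particle `e k`.

* `Follow.unique`: the pair `(P, e)` is determined by the world (pure combinatorics of contact times).
* `follow_of_emb`: a world which agrees with the explicit trajectory of a tree on the protected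
  times, with all other particles away from the protected tubes, follows the tree.
* `param_unique`: the parameters of a tree are determined by its trajectory.
-/

set_option autoImplicit false

open MeasureTheory Crest.AnalysisR.Kinetic
open scoped Classical ENNReal

noncomputable section

namespace Crest.Agent.R122.Final973

open Kin796 Kin796.CTree Disc416 Tree674 Causal291

variable {κ : Type*}

/-- `(s', s, j)` is the last collision of `i` before `t` in the world `z`: exit time `s`, entrance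
time `s'`, partner `j`. -/
structure NodeAt (z : ℝ → κ → PhasePoint) (ε : ℝ) (i : κ) (t s' s : ℝ) (j : κ) : Prop where
  nonneg : 0 ≤ s'
  le : s' ≤ s
  lt : s < t
  ne : j ≠ i
  contact : Ct z ε s i j
  free : ∀ u ∈ Set.Ioo s t, ∀ k, k ≠ i → ¬ Ct z ε u i k
  only : ∀ k, k ≠ i → k ≠ j → ¬ Ct z ε s i k
  contact' : Ct z ε s' i j
  before : ∀ u ∈ Set.Ico 0 s', ¬ Ct z ε u i j

/-- The world `z` follows the tree `P` backwards from `(i, t)`, with embedding `e`. -/
def Follow (z : ℝ → κ → PhasePoint) (ε : ℝ) : ∀ P : CTree, κ → ℝ → (Idx P → κ) → Prop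
  | leaf => fun i t e => e (root leaf) = i ∧ ∀ u ∈ Set.Ico 0 t, ∀ k, k ≠ i → ¬ Ct z ε u i k
  | node l r => fun i t e => ∃ s' s j, NodeAt z ε i t s' s j ∧
      Follow z ε l i s' (fun x => e (Sum.inl x)) ∧ Follow z ε r j s' (fun x => e (Sum.inr x))

theorem NodeAt.unique {z : ℝ → κ → PhasePoint} {ε : ℝ} {i : κ} {t s₁' s₁ s₂' s₂ : ℝ} {j₁ j₂ : κ}
    (h₁ : NodeAt z ε i t s₁' s₁ j₁) (h₂ : NodeAt z ε i t s₂' s₂ j₂) :
    s₁' = s₂' ∧ s₁ = s₂ ∧ j₁ = j₂ := by
  have hs : s₁ = s₂ := by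
    rcases lt_trichotomy s₁ s₂ with h | h | h
    · exact absurd h₂.contact (h₁.free s₂ ⟨h, h₂.lt⟩ j₂ h₂.ne)
    · exact h
    · exact absurd h₁.contact (h₂.free s₁ ⟨h, h₁.lt⟩ j₁ h₁.ne)
  subst hs
  have hj : j₁ = j₂ := by
    by_contra hne
    exact h₂.only j₁ h₁.ne hne h₁.contact
  subst hj
  refine ⟨?_, rfl, rfl⟩
  rcases lt_trichotomy s₁' s₂' with h | h | h
  · exact absurd h₁.contact' (h₂.before s₁' ⟨h₁.nonneg, h⟩)
  · exact h
  · exact absurd h₂.contact' (h₁.before s₂' ⟨h₂.nonneg, h⟩)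

/-- **Uniqueness of the tree followed by a particle.** -/
theorem Follow.unique {z : ℝ → κ → PhasePoint} {ε : ℝ} :
    ∀ {P P' : CTree} {i : κ} {t : ℝ} {e : Idx P → κ} {e' : Idx P' → κ},
      Follow z ε P i t e → Follow z ε P' i t e' →
      (⟨P, e⟩ : Σ P : CTree, (Idx P → κ)) = ⟨P', e'⟩
  | leaf, leaf, i, t, e, e', h, h' => by
      have : e = e' := by
        funext x
        have hx : x = root leaf := rfl
        rw [hx]
        exact h.1.trans h'.1.symm
      rw [this]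
  | leaf, node l' r', i, t, e, e', h, h' => by
      obtain ⟨s', s, j, hn, -, -⟩ := h'
      exact absurd hn.contact (h.2 s ⟨hn.nonneg.trans hn.le, hn.lt⟩ j hn.ne)
  | node l r, leaf, i, t, e, e', h, h' => by
      obtain ⟨s', s, j, hn, -, -⟩ := h
      exact absurd hn.contact (h'.2 s ⟨hn.nonneg.trans hn.le, hn.lt⟩ j hn.ne)
  | node l r, node l' r', i, t, e, e', h, h' => by
      obtain ⟨s₁', s₁, j₁, hn₁, hl₁, hr₁⟩ := h
      obtain ⟨s₂', s₂, j₂, hn₂, hl₂, hr₂⟩ := h'
      obtain ⟨rfl, rfl, rfl⟩ := hn₁.unique hn₂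
      have h1 := Follow.unique hl₁ hl₂
      have h2 := Follow.unique hr₁ hr₂
      obtain ⟨rfl, h1⟩ := Sigma.mk.inj_iff.1 h1
      obtain ⟨rfl, h2⟩ := Sigma.mk.inj_iff.1 h2
      have h1 := eq_of_heq h1
      have h2 := eq_of_heq h2
      have : e = e' := by
        funext x
        rcases x with x | x
        · exact congrFun h1 x
        · exact congrFun h2 x
      rw [this]


/-! ### Facts about trajectories -/

variable {Φ : Space3 → ℝ} {ε : ℝ}

theorem prot_root : ∀ (P : CTree) (T : ℝ) (p : Par P), prot P T p (root P) = T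
  | leaf, _, _ => rfl
  | node l _, T, p => prot_root l T p.2.1

theorem prot_mono : ∀ (P : CTree) {T T' : ℝ} (p : Par P) (k : Idx P), T ≤ T' →
    prot P T p k ≤ prot P T' p k
  | leaf, _, _, _, _, h => h
  | node l _, _, _, p, Sum.inl k, h => prot_mono l p.2.1 k h
  | node _ _, _, _, _, Sum.inr _, _ => le_rfl

theorem le_prot : ∀ (P : CTree) {T T' u : ℝ} (p : Par P) (k : Idx P), u ≤ prot P T p k → u ≤ T' →
    u ≤ prot P T' p k
  | leaf, _, _, _, _, _, _, h => h
  | node l _, _, _, _, p, Sum.inl k, h, h' => le_prot l p.2.1 k h h'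
  | node _ _, _, _, _, _, Sum.inr _, h, _ => h

theorem prot_le : ∀ (P : CTree) {T : ℝ} {v : Space3} (p : Par P) (k : Idx P), 0 ≤ ε →
    Ord Φ ε P T v p → prot P T p k ≤ T
  | leaf, _, _, _, _, _, _ => le_rfl
  | node l r, T, v, p, Sum.inl k, hε, h => by
      have h1 : Tree674.sin Φ ε v p.1 ≤ T := (sin_le Φ hε v p.1).trans h.1.le
      have h2 := prot_le l p.2.1 k hε h.2.2.1
      by_cases hk : T < prot l T p.2.1 k
      · have h3 : T ≤ prot l (Tree674.sin Φ ε v p.1) p.2.1 k ∨ True := Or.inr trivial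
        -- if `k` is the root its protected time is `T`, otherwise it does not depend on `T`
        rcases prot_cases l T (Tree674.sin Φ ε v p.1) p.2.1 k with h | h
        · exact h.1.le
        · show prot l T p.2.1 k ≤ T
          rw [h]; exact h2.trans h1
      · exact not_lt.1 hk
  | node l r, T, v, p, Sum.inr k, hε, h => by
      have h1 : Tree674.sin Φ ε v p.1 ≤ T := (sin_le Φ hε v p.1).trans h.1.le
      have h2 := prot_le r p.2.2 k hε h.2.2.2
      rcases prot_cases r p.1.1 (Tree674.sin Φ ε v p.1) p.2.2 k with h' | h'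
      · show prot r p.1.1 p.2.2 k ≤ T
        rw [h'.1]; exact h.1.le
      · show prot r p.1.1 p.2.2 k ≤ T
        rw [h']; exact h2.trans h1
where
  prot_cases : ∀ (P : CTree) (T T' : ℝ) (p : Par P) (k : Idx P),
      (prot P T p k = T ∧ prot P T' p k = T') ∨ prot P T p k = prot P T' p k
    | leaf, _, _, _, _ => Or.inl ⟨rfl, rfl⟩
    | node l _, T, T', p, Sum.inl k => prot_cases l T T' p.2.1 k
    | node _ _, _, _, _, Sum.inr _ => Or.inr rfl

theorem inWindow_lt : ∀ (P : CTree) {T : ℝ} {v : Space3} {p : Par P} {i j : Idx P} {u : ℝ},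
    0 ≤ ε → Ord Φ ε P T v p → InWindow Φ ε P v p i j u → u < T
  | leaf, _, _, _, _, _, _, _, _, h => h.elim
  | node l r, T, v, p, i, j, u, hε, ho, h => by
      have h1 : Tree674.sin Φ ε v p.1 < T := (sin_le Φ hε v p.1).trans_lt ho.1
      rcases h with ⟨-, -, -, h⟩ | ⟨i', j', -, -, h⟩ | ⟨i', j', -, -, h⟩
      · exact h.trans_lt ho.1
      · exact (inWindow_lt l hε ho.2.2.1 h).trans h1
      · exact (inWindow_lt r hε ho.2.2.2 h).trans h1

/-- the particles of a window are protected during the window -/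
theorem inWindow_prot : ∀ (P : CTree) {T : ℝ} {v : Space3} {p : Par P} {i j : Idx P} {u : ℝ},
    0 ≤ ε → Ord Φ ε P T v p → InWindow Φ ε P v p i j u → u ≤ prot P T p i ∧ u ≤ prot P T p j
  | leaf, _, _, _, _, _, _, _, _, h => h.elim
  | node l r, T, v, p, i, j, u, hε, ho, h => by
      have hle : Tree674.sin Φ ε v p.1 ≤ p.1.1 := sin_le Φ hε v p.1
      rcases h with ⟨rfl, rfl, -, h⟩ | ⟨i', j', rfl, rfl, h⟩ | ⟨i', j', rfl, rfl, h⟩
      · refine ⟨?_, ?_⟩
        · show u ≤ prot l T p.2.1 (root l)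
          rw [prot_root]; exact h.trans ho.1.le
        · show u ≤ prot r p.1.1 p.2.2 (root r)
          rw [prot_root]; exact h
      · have h1 := inWindow_prot l hε ho.2.2.1 h
        exact ⟨h1.1.trans (prot_mono l p.2.1 i' (hle.trans ho.1.le)),
          h1.2.trans (prot_mono l p.2.1 j' (hle.trans ho.1.le))⟩
      · have h1 := inWindow_prot r hε ho.2.2.2 h
        exact ⟨h1.1.trans (prot_mono r p.2.2 i' hle), h1.2.trans (prot_mono r p.2.2 j' hle)⟩

/-- after the last exit time the root is on its line -/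
theorem path_root : ∀ (P : CTree) {T : ℝ} {ℓ : PhasePoint} {p : Par P} {u : ℝ},
    0 ≤ ε → Ord Φ ε P T ℓ.2 p → T ≤ u → path Φ ε P ℓ p u (root P) = onLine ℓ u
  | leaf, _, _, _, _, _, _, _ => rfl
  | node l r, T, ℓ, p, u, hε, ho, hu => by
      have h1 : Tree674.sin Φ ε ℓ.2 p.1 < u := ((sin_le Φ hε ℓ.2 p.1).trans_lt ho.1).trans_le hu
      have h2 : p.1.1 ≤ u := ho.1.le.trans hu
      show (if u ≤ Tree674.sin Φ ε ℓ.2 p.1 then
        Sum.elim (path Φ ε l (inMap Φ ε ℓ p.1).1 p.2.1 u) (path Φ ε r (inMap Φ ε ℓ p.1).2 p.2.2 u)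
      else
        Sum.elim
          (Function.update (path Φ ε l (inMap Φ ε ℓ p.1).1 p.2.1 u) (root l)
            (colPath Φ ε ℓ p.1 u).1)
          (Function.update (path Φ ε r (inMap Φ ε ℓ p.1).2 p.2.2 u) (root r)
            (colPath Φ ε ℓ p.1 u).2)) (Sum.inl (root l)) = onLine ℓ u
      rw [if_neg (not_le.2 h1), Sum.elim_inl, Function.update_self, colPath, if_pos h2]

theorem path_node_of_le {l r : CTree} {ℓ : PhasePoint} {p : Par (node l r)} {u : ℝ}
    (hu : u ≤ Tree674.sin Φ ε ℓ.2 p.1) :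
    path Φ ε (node l r) ℓ p u =
      Sum.elim (path Φ ε l (inMap Φ ε ℓ p.1).1 p.2.1 u) (path Φ ε r (inMap Φ ε ℓ p.1).2 p.2.2 u) :=
  if_pos hu

theorem path_node_of_lt {l r : CTree} {ℓ : PhasePoint} {p : Par (node l r)} {u : ℝ}
    (hu : Tree674.sin Φ ε ℓ.2 p.1 < u) :
    path Φ ε (node l r) ℓ p u = Sum.elim
          (Function.update (path Φ ε l (inMap Φ ε ℓ p.1).1 p.2.1 u) (root l)
            (colPath Φ ε ℓ p.1 u).1)
          (Function.update (path Φ ε r (inMap Φ ε ℓ p.1).2 p.2.2 u) (root r)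
            (colPath Φ ε ℓ p.1 u).2) :=
  if_neg (not_le.2 hu)

/-! ### From trajectories to `Follow` -/

/-- The world `z` contains the tree `(P, ℓ, p)` (root time `T`): the states of the particles agree
with the explicit trajectory up to their protected times, and every particle which is not protected
stays at distance more than `ε` from the protected ones. -/
structure Emb (Φ : Space3 → ℝ) (ε : ℝ) (z : ℝ → κ → PhasePoint) (P : CTree) (T : ℝ)
    (ℓ : PhasePoint) (p : Par P) (e : Idx P → κ) : Prop where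
  inj : Function.Injective e
  agree : ∀ k u, 0 ≤ u → u ≤ prot P T p k → z u (e k) = path Φ ε P ℓ p u k
  avoid : ∀ k u, 0 ≤ u → u < T → u ≤ prot P T p k → ∀ j,
    (∀ k', e k' = j → prot P T p k' < u) → ε < dist (z u (e k)).1 (z u j).1

theorem Sep.left {l r : CTree} {T : ℝ} {ℓ : PhasePoint} {p : Par (node l r)} (hε : 0 ≤ ε)
    (ho : Ord Φ ε (node l r) T ℓ.2 p) (h : Sep Φ ε (node l r) T ℓ p) :
    Sep Φ ε l (Tree674.sin Φ ε ℓ.2 p.1) (inMap Φ ε ℓ p.1).1 p.2.1 := by
  intro i j hij u hu h1 h2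
  have hT : Tree674.sin Φ ε ℓ.2 p.1 ≤ T := (sin_le Φ hε ℓ.2 p.1).trans ho.1.le
  have h3 := h (Sum.inl i) (Sum.inl j) (fun hh => hij (Sum.inl_injective hh)) u
    ⟨hu.1, hu.2.trans hT⟩ ?_ ?_
  · rw [path_node_of_le hu.2] at h3
    exact h3
  · rintro (⟨-, hh, -⟩ | ⟨i', j', hi, hj, hw⟩ | ⟨i', j', hi, -, -⟩)
    · cases hh
    · cases hi; cases hj; exact h1 hw
    · cases hi
  · rintro (⟨-, hh, -⟩ | ⟨i', j', hi, hj, hw⟩ | ⟨i', j', hi, -, -⟩)
    · cases hh
    · cases hi; cases hj; exact h2 hw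
    · cases hi

theorem Sep.right {l r : CTree} {T : ℝ} {ℓ : PhasePoint} {p : Par (node l r)} (hε : 0 ≤ ε)
    (ho : Ord Φ ε (node l r) T ℓ.2 p) (h : Sep Φ ε (node l r) T ℓ p) :
    Sep Φ ε r (Tree674.sin Φ ε ℓ.2 p.1) (inMap Φ ε ℓ p.1).2 p.2.2 := by
  intro i j hij u hu h1 h2
  have hT : Tree674.sin Φ ε ℓ.2 p.1 ≤ T := (sin_le Φ hε ℓ.2 p.1).trans ho.1.le
  have h3 := h (Sum.inr i) (Sum.inr j) (fun hh => hij (Sum.inr_injective hh)) u
    ⟨hu.1, hu.2.trans hT⟩ ?_ ?_
  · rw [path_node_of_le hu.2] at h3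
    exact h3
  · rintro (⟨hh, -, -⟩ | ⟨i', j', hi, -, -⟩ | ⟨i', j', hi, hj, hw⟩)
    · cases hh
    · cases hi
    · cases hi; cases hj; exact h1 hw
  · rintro (⟨hh, -, -⟩ | ⟨i', j', hi, -, -⟩ | ⟨i', j', hi, hj, hw⟩)
    · cases hh
    · cases hi
    · cases hi; cases hj; exact h2 hw

theorem dist_out (hε : 0 < ε) {v : Space3} {a : NodeP} (ha : Adm1 Φ v a) (ℓ : PhasePoint)
    (hv : ℓ.2 = v) : dist (onLine ℓ a.1).1 (onLine (outLine ε ℓ a) a.1).1 = ε := by
  subst hv
  have h1 : (onLine ℓ a.1).1 - (onLine (outLine ε ℓ a) a.1).1 =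
      -(ε • entrancePoint (nb ℓ.2 a) (ng ℓ.2 a)) := by
    simp only [onLine, outLine]
    abel
  rw [dist_eq_norm, h1, norm_neg, norm_smul, Scat818.norm_entrance ha.nb_mem ha.ng_ne, mul_one,
    Real.norm_eq_abs, abs_of_pos hε]

theorem dist_in (hε : 0 < ε) {ℓ : PhasePoint} {a : NodeP} (ha : Adm1 Φ ℓ.2 a) :
    dist (onLine (inMap Φ ε ℓ a).1 (Tree674.sin Φ ε ℓ.2 a)).1
      (onLine (inMap Φ ε ℓ a).2 (Tree674.sin Φ ε ℓ.2 a)).1 = ε := by
  have h1 : (onLine (inMap Φ ε ℓ a).1 (Tree674.sin Φ ε ℓ.2 a)).1 -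
      (onLine (inMap Φ ε ℓ a).2 (Tree674.sin Φ ε ℓ.2 a)).1 =
      -(ε • qx Φ (nb ℓ.2 a) (ng ℓ.2 a)) := by
    simp only [onLine, inMap, xin]
    module
  rw [dist_eq_norm, h1, norm_neg, norm_smul, norm_qx ha.nt, mul_one,
    Real.norm_eq_abs, abs_of_pos hε]

theorem sin_lt (hε : 0 < ε) {v : Space3} {a : NodeP} (ha : Adm1 Φ v a) :
    Tree674.sin Φ ε v a < a.1 := by
  unfold Tree674.sin
  have := mul_pos hε (tau_pos ha.nt)
  linarith

theorem window_of_sin_le {l r : CTree} {T : ℝ} {v : Space3} {p : Par (node l r)} (hε : 0 ≤ ε)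
    (ho : Ord Φ ε (node l r) T v p) {i j : Idx (node l r)} {u : ℝ}
    (h : InWindow Φ ε (node l r) v p i j u) (hsu : Tree674.sin Φ ε v p.1 ≤ u) :
    i = Sum.inl (root l) ∧ j = Sum.inr (root r) ∧ u ≤ p.1.1 := by
  rcases h with ⟨hi, hj, -, hu⟩ | ⟨i', j', -, -, h⟩ | ⟨i', j', -, -, h⟩
  · exact ⟨hi, hj, hu⟩
  · exact absurd (inWindow_lt l hε ho.2.2.1 h) (not_lt.2 hsu)
  · exact absurd (inWindow_lt r hε ho.2.2.2 h) (not_lt.2 hsu)

/-- separation of a protected particle from every other particle outside of the windows -/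
theorem Emb.sep {P : CTree} {T : ℝ} {ℓ : PhasePoint} {p : Par P} {z : ℝ → κ → PhasePoint}
    {e : Idx P → κ} (he : Emb Φ ε z P T ℓ p e) (hs : Sep Φ ε P T ℓ p)
    (k : Idx P) {u : ℝ} (hu0 : 0 ≤ u) (huT : u < T) (huk : u ≤ prot P T p k)
    {j : κ} (hj : j ≠ e k) (hw : ∀ k', e k' = j → ¬ InWindow Φ ε P ℓ.2 p k k' u ∧
      ¬ InWindow Φ ε P ℓ.2 p k' k u) : ε < dist (z u (e k)).1 (z u j).1 := by
  by_cases hact : ∃ k', e k' = j ∧ u ≤ prot P T p k'
  · obtain ⟨k', rfl, hk'⟩ := hact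
    rw [he.agree k u hu0 huk, he.agree k' u hu0 hk']
    refine hs k k' ?_ u ⟨hu0, huT.le⟩ (hw k' rfl).1 (hw k' rfl).2
    rintro rfl
    exact hj rfl
  · push Not at hact
    exact he.avoid k u hu0 huT huk j hact

theorem nodeAt_of_emb (hε : 0 < ε) {z : ℝ → κ → PhasePoint} {l r : CTree} {T : ℝ}
    {ℓ : PhasePoint} {p : Par (node l r)} {e : Idx (node l r) → κ}
    (hv : Valid Φ ε (node l r) T ℓ.2 p) (hs : Sep Φ ε (node l r) T ℓ p)
    (he : Emb Φ ε z (node l r) T ℓ p e) :
    NodeAt z ε (e (Sum.inl (root l))) T (Tree674.sin Φ ε ℓ.2 p.1) p.1.1 (e (Sum.inr (root r))) := by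
  obtain ⟨⟨ha, hal, har⟩, hT, hs0, hol, hor⟩ := hv
  have hO : Ord Φ ε (node l r) T ℓ.2 p := ⟨hT, hs0, hol, hor⟩
  set s' := Tree674.sin Φ ε ℓ.2 p.1 with hs'
  have hlt : s' < p.1.1 := sin_lt hε ha
  have hsT : s' < T := hlt.trans hT
  have hrootl : prot (node l r) T p (Sum.inl (root l)) = T := prot_root l T p.2.1
  have hrootr : prot (node l r) T p (Sum.inr (root r)) = p.1.1 := prot_root r p.1.1 p.2.2
  refine ⟨hs0.le, hlt.le, hT, (fun h => by cases he.inj h), ?_, ?_, ?_, ?_, ?_⟩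
  · -- contact at the exit time
    have h0 : (0 : ℝ) ≤ p.1.1 := hs0.le.trans hlt.le
    show dist _ _ ≤ ε
    rw [he.agree (Sum.inl (root l)) p.1.1 h0 (by rw [hrootl]; exact hT.le),
      he.agree (Sum.inr (root r)) p.1.1 h0 (by rw [hrootr]), path_node_of_lt hlt]
    rw [Sum.elim_inl, Sum.elim_inr, Function.update_self, Function.update_self]
    rw [colPath, if_pos le_rfl]
    exact (dist_out hε ha ℓ rfl).le
  · intro u hu k hk hc
    have h1 := he.sep hs (Sum.inl (root l)) (hs0.le.trans (hlt.le.trans hu.1.le)) hu.2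
      (by rw [hrootl]; exact hu.2.le) hk ?_
    · exact absurd hc (not_le.2 h1)
    · intro k' hk'
      have hsu : s' ≤ u := hlt.le.trans hu.1.le
      exact ⟨fun hw => absurd (window_of_sin_le hε.le hO hw hsu).2.2 (not_le.2 hu.1),
        fun hw => absurd (window_of_sin_le hε.le hO hw hsu).2.2 (not_le.2 hu.1)⟩
  · intro k hk hkj hc
    have h1 := he.sep hs (Sum.inl (root l)) (hs0.le.trans hlt.le) hT
      (by rw [hrootl]; exact hT.le) hk ?_
    · exact absurd hc (not_le.2 h1)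
    · intro k' hk'
      refine ⟨fun hw => hkj ?_, fun hw => ?_⟩
      · rw [← hk', (window_of_sin_le hε.le hO hw hlt.le).2.1]
      · have := (window_of_sin_le hε.le hO hw hlt.le).2.1
        cases this
  · -- contact at the entrance time
    show dist _ _ ≤ ε
    rw [he.agree (Sum.inl (root l)) s' hs0.le (by rw [hrootl]; exact hsT.le),
      he.agree (Sum.inr (root r)) s' hs0.le (by rw [hrootr]; exact hlt.le),
      path_node_of_le le_rfl, Sum.elim_inl, Sum.elim_inr,
      path_root l (ℓ := (inMap Φ ε ℓ p.1).1) hε.le hol le_rfl,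
      path_root r (ℓ := (inMap Φ ε ℓ p.1).2) hε.le hor le_rfl]
    exact (dist_in hε ha).le
  · intro u hu hc
    have h1 := he.sep hs (Sum.inl (root l)) hu.1 (hu.2.trans hsT)
      (by rw [hrootl]; exact (hu.2.trans hsT).le) (j := e (Sum.inr (root r)))
      (fun h => by cases he.inj h) ?_
    · exact absurd hc (not_le.2 h1)
    · intro k' hk'
      have hk'' := he.inj hk'
      subst hk''
      constructor
      · rintro (⟨-, -, h, -⟩ | ⟨i', j', -, hj, -⟩ | ⟨i', j', hi, -, -⟩)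
        · exact absurd hu.2 (not_lt.2 h)
        · cases hj
        · cases hi
      · rintro (⟨h, -, -, -⟩ | ⟨i', j', hi, -, -⟩ | ⟨i', j', -, hj, -⟩)
        · cases h
        · cases hi
        · cases hj

theorem Emb.left (hε : 0 < ε) {z : ℝ → κ → PhasePoint} {l r : CTree} {T : ℝ}
    {ℓ : PhasePoint} {p : Par (node l r)} {e : Idx (node l r) → κ}
    (hv : Valid Φ ε (node l r) T ℓ.2 p) (hs : Sep Φ ε (node l r) T ℓ p)
    (he : Emb Φ ε z (node l r) T ℓ p e) :
    Emb Φ ε z l (Tree674.sin Φ ε ℓ.2 p.1) (inMap Φ ε ℓ p.1).1 p.2.1 (fun x => e (Sum.inl x)) := by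
  obtain ⟨⟨ha, hal, har⟩, hT, hs0, hol, hor⟩ := hv
  have hsT : Tree674.sin Φ ε ℓ.2 p.1 < T := (sin_lt hε ha).trans hT
  have hpl : ∀ (k : Idx l) (u : ℝ), u ≤ prot l (Tree674.sin Φ ε ℓ.2 p.1) p.2.1 k →
      u ≤ prot (node l r) T p (Sum.inl k) :=
    fun k u hu => hu.trans (prot_mono l p.2.1 k hsT.le)
  refine ⟨fun a b h => Sum.inl_injective (he.inj h), ?_, ?_⟩
  · intro k u hu0 huk
    have hus := huk.trans (prot_le l p.2.1 k hε.le hol)
    rw [he.agree (Sum.inl k) u hu0 (hpl k u huk), path_node_of_le hus]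
    rfl
  · intro k u hu0 hus huk j hj
    refine he.sep hs (Sum.inl k) hu0 (hus.trans hsT) (hpl k u huk) ?_ ?_
    · rintro rfl
      exact absurd huk (not_le.2 (hj k rfl))
    · rintro k' hk'
      rcases k' with k' | k'
      · have hrel := hj k' hk'
        constructor
        · rintro (⟨-, h, -⟩ | ⟨i', j', hi, hj', hw⟩ | ⟨i', j', hi, -, -⟩)
          · cases h
          · cases hi; cases hj'
            exact absurd (inWindow_prot l hε.le hol hw).2 (not_le.2 hrel)
          · cases hi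
        · rintro (⟨-, h, -⟩ | ⟨i', j', hi, hj', hw⟩ | ⟨i', j', hi, -, -⟩)
          · cases h
          · cases hi; cases hj'
            exact absurd (inWindow_prot l hε.le hol hw).1 (not_le.2 hrel)
          · cases hi
      · constructor
        · rintro (⟨-, -, h, -⟩ | ⟨i', j', -, hj', -⟩ | ⟨i', j', hi, -, -⟩)
          · exact absurd hus (not_lt.2 h)
          · cases hj'
          · cases hi
        · rintro (⟨h, -, -, -⟩ | ⟨i', j', hi, -, -⟩ | ⟨i', j', -, hj', -⟩)
          · cases h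
          · cases hi
          · cases hj'

theorem Emb.right (hε : 0 < ε) {z : ℝ → κ → PhasePoint} {l r : CTree} {T : ℝ}
    {ℓ : PhasePoint} {p : Par (node l r)} {e : Idx (node l r) → κ}
    (hv : Valid Φ ε (node l r) T ℓ.2 p) (hs : Sep Φ ε (node l r) T ℓ p)
    (he : Emb Φ ε z (node l r) T ℓ p e) :
    Emb Φ ε z r (Tree674.sin Φ ε ℓ.2 p.1) (inMap Φ ε ℓ p.1).2 p.2.2 (fun x => e (Sum.inr x)) := by
  obtain ⟨⟨ha, hal, har⟩, hT, hs0, hol, hor⟩ := hv
  have hlt := sin_lt hε ha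
  have hsT : Tree674.sin Φ ε ℓ.2 p.1 < T := hlt.trans hT
  have hpr : ∀ (k : Idx r) (u : ℝ), u ≤ prot r (Tree674.sin Φ ε ℓ.2 p.1) p.2.2 k →
      u ≤ prot (node l r) T p (Sum.inr k) :=
    fun k u hu => hu.trans (prot_mono r p.2.2 k hlt.le)
  refine ⟨fun a b h => Sum.inr_injective (he.inj h), ?_, ?_⟩
  · intro k u hu0 huk
    have hus := huk.trans (prot_le r p.2.2 k hε.le hor)
    rw [he.agree (Sum.inr k) u hu0 (hpr k u huk), path_node_of_le hus]
    rfl
  · intro k u hu0 hus huk j hj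
    refine he.sep hs (Sum.inr k) hu0 (hus.trans hsT) (hpr k u huk) ?_ ?_
    · rintro rfl
      exact absurd huk (not_le.2 (hj k rfl))
    · rintro k' hk'
      rcases k' with k' | k'
      · constructor
        · rintro (⟨h, -, -, -⟩ | ⟨i', j', hi, -, -⟩ | ⟨i', j', -, hj', -⟩)
          · cases h
          · cases hi
          · cases hj'
        · rintro (⟨-, -, h, -⟩ | ⟨i', j', -, hj', -⟩ | ⟨i', j', hi, -, -⟩)
          · exact absurd hus (not_lt.2 h)
          · cases hj'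
          · cases hi
      · have hrel := hj k' hk'
        constructor
        · rintro (⟨h, -, -⟩ | ⟨i', j', hi, -, -⟩ | ⟨i', j', hi, hj', hw⟩)
          · cases h
          · cases hi
          · cases hi; cases hj'
            exact absurd (inWindow_prot r hε.le hor hw).2 (not_le.2 hrel)
        · rintro (⟨h, -, -⟩ | ⟨i', j', hi, -, -⟩ | ⟨i', j', hi, hj', hw⟩)
          · cases h
          · cases hi
          · cases hi; cases hj'
            exact absurd (inWindow_prot r hε.le hor hw).1 (not_le.2 hrel)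

/-- **A world which contains a tree follows it.** -/
theorem follow_of_emb (hε : 0 < ε) {z : ℝ → κ → PhasePoint} :
    ∀ {P : CTree} {T : ℝ} {ℓ : PhasePoint} {p : Par P} {e : Idx P → κ},
      Valid Φ ε P T ℓ.2 p → Sep Φ ε P T ℓ p → Emb Φ ε z P T ℓ p e →
      Follow z ε P (e (root P)) T e
  | leaf, T, ℓ, p, e, hv, hs, he => by
      refine ⟨rfl, fun u hu k hk hc => ?_⟩
      have h1 := he.avoid (root leaf) u hu.1 hu.2 hu.2.le k (fun k' hk' => absurd hk'.symm hk)
      exact absurd hc (not_le.2 h1)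
  | node l r, T, ℓ, p, e, hv, hs, he => by
      refine ⟨Tree674.sin Φ ε ℓ.2 p.1, p.1.1, e (Sum.inr (root r)), nodeAt_of_emb hε hv hs he, ?_, ?_⟩
      · exact follow_of_emb hε (z := z) (P := l) (ℓ := (inMap Φ ε ℓ p.1).1) (p := p.2.1)
          (e := fun x => e (Sum.inl x)) ⟨hv.1.2.1, hv.2.2.2.1⟩ (Sep.left hε.le hv.2 hs)
          (Emb.left hε hv hs he)
      · exact follow_of_emb hε (z := z) (P := r) (ℓ := (inMap Φ ε ℓ p.1).2) (p := p.2.2)
          (e := fun x => e (Sum.inr x)) ⟨hv.1.2.2, hv.2.2.2.2⟩ (Sep.right hε.le hv.2 hs)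
          (Emb.right hε hv hs he)

/-! ### The parameters are determined by the trajectory -/







end Crest.Agent.R122.Final973

end
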