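import Crest.Agent.R122.HitG1_167
import Crest.Agent.R122.PathCausal_968
import Crest.Agent.R122.GIVDefs_566
import Crest.Agent.R122.HitG4_167
import Crest.Agent.R122.Relabel_674

-- ▼ part R122/TreeHit_317
section

/-!
# Ghost hits of trees (row 122, helper317)

For a valid separated tree `(ℓ, p)` at time `σ > 0`, with isolated world `pth Φ ε (lines ..)`:

* `mem_preAct_iff`: the exploration of `(root, σ⁻)` is `{m | s ≤ prot P σ p m}`;
* `preAct_zero`, `aloneAt`, `tauPre_eq`;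
* `goodGhostHit_iff`: `GoodGhostHit` of `Hit167` in tree form.
-/

set_option autoImplicit false

open Set Filter Topology
open Crest.AnalysisR.Kinetic

namespace Crest.Agent.R122.TreeHit317

open Kin796 Kin796.CTree Tree674 Flow671 Loc45 Causal291 PathFlow968 Hit167

variable {Φ : Space3 → ℝ} {ε : ℝ}

/-- A valid tree at time `σ` is valid at slightly earlier times. -/
theorem exists_earlier : ∀ {P : CTree} {σ : ℝ} {v : Space3} {p : Par P}, Valid Φ ε P σ v p →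
    ∀ {s : ℝ}, s < σ → ∃ r ∈ Ioo s σ, Valid Φ ε P r v p
  | leaf, σ, v, p, _, s, hs => ⟨(s + σ) / 2, ⟨by linarith, by linarith⟩, trivial, trivial⟩
  | node l r, σ, v, p, h, s, hs => by
      have h1 : p.1.1 < σ := h.2.1
      have h2 : max s p.1.1 < σ := max_lt hs h1
      refine ⟨(max s p.1.1 + σ) / 2, ⟨?_, by linarith⟩, h.1, ?_, h.2.2⟩
      · have := le_max_left s p.1.1
        linarith
      · have := le_max_right s p.1.1
        linarith

theorem sep_mono {P : CTree} {σ r : ℝ} {ℓ : PhasePoint} {p : Par P} (h : Sep Φ ε P σ ℓ p)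
    (hr : r ≤ σ) : Sep Φ ε P r ℓ p :=
  fun i j hij u hu => h i j hij u ⟨hu.1, hu.2.trans hr⟩

section

variable {P : CTree} {σ : ℝ} {ℓ : PhasePoint} {p : Par P}

/-- The protected time of a non-root particle is strictly before `σ`. -/
theorem prot_lt (hε : 0 < ε) (hσ : 0 < σ) (hv : Valid Φ ε P σ ℓ.2 p) {k : Idx P}
    (hk : k ≠ root P) : prot P σ p k < σ := by
  obtain ⟨r, hr, hv'⟩ := exists_earlier hv hσ
  rw [prot_eq_of_ne P σ r p hk]
  exact (prot_le hε.le P r ℓ.2 p hv'.2 k).trans_lt hr.2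

/-- **Exploration before the hitting time.** -/
theorem mem_preAct_iff (hΦ : AdmissiblePotential Φ) (hε : 0 < ε) (hσ : 0 < σ)
    (hv : Valid Φ ε P σ ℓ.2 p) (hs : Sep Φ ε P σ ℓ p) {s : ℝ} (h0 : 0 ≤ s) (hsσ : s < σ)
    {k : Idx P} :
    k ∈ preAct (pth Φ ε (lines Φ ε P ℓ p)) ε (root P) σ s ↔ s ≤ prot P σ p k := by
  constructor
  · rintro ⟨r', hr', hp⟩
    exact (past_world_iff hΦ hε hσ.le hv hs h0).1 (Past.extend hr'.2.le hp)
  · intro h
    by_cases hk : k = root P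
    · subst hk
      exact mem_preAct_self hsσ
    · obtain ⟨r, hr, hv'⟩ := exists_earlier hv hsσ
      rw [prot_eq_of_ne P σ r p hk] at h
      exact ⟨r, ⟨hr.1.le, hr.2⟩, (past_world_iff hΦ hε (h0.trans hr.1.le) hv'
        (sep_mono hs hr.2.le) h0).2 h⟩

theorem preAct_zero (hΦ : AdmissiblePotential Φ) (hε : 0 < ε) (hσ : 0 < σ)
    (hv : Valid Φ ε P σ ℓ.2 p) (hs : Sep Φ ε P σ ℓ p) :
    preAct (pth Φ ε (lines Φ ε P ℓ p)) ε (root P) σ 0 = univ := by
  ext k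
  simp only [mem_univ, iff_true]
  exact (mem_preAct_iff hΦ hε hσ hv hs le_rfl hσ).2 (prot_nonneg hε.le P hσ.le ℓ.2 p hv.2 k)

/-- The hitter is alone. -/
theorem aloneAt (hΦ : AdmissiblePotential Φ) (hε : 0 < ε) (hσ : 0 < σ)
    (hv : Valid Φ ε P σ ℓ.2 p) (hs : Sep Φ ε P σ ℓ p) :
    AloneAt (pth Φ ε (lines Φ ε P ℓ p)) ε (root P) σ := by
  intro i hi
  have h1 : pth Φ ε (lines Φ ε P ℓ p) σ = path Φ ε P ℓ p σ :=
    (path_eq_flow hΦ hε hv hs ⟨hσ.le, le_rfl⟩).symm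
  rw [h1]
  refine hs (root P) i (Ne.symm hi) σ ⟨hσ.le, le_rfl⟩ (fun h => ?_) (fun h => ?_)
  · exact absurd (InWindow.mem hε.le P σ ℓ.2 p hv.2 _ _ _ h).2 (lt_irrefl σ)
  · exact absurd (InWindow.mem hε.le P σ ℓ.2 p hv.2 _ _ _ h).2 (lt_irrefl σ)

/-- Protected times. -/
theorem tauPre_eq (hΦ : AdmissiblePotential Φ) (hε : 0 < ε) (hσ : 0 < σ)
    (hv : Valid Φ ε P σ ℓ.2 p) (hs : Sep Φ ε P σ ℓ p) (k : Idx P) :
    tauPre (pth Φ ε (lines Φ ε P ℓ p)) ε (root P) σ k = prot P σ p k := by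
  by_cases hk : k = root P
  · subst hk
    rw [tauPre_self, prot_root]
  · have hp0 := prot_nonneg hε.le P hσ.le ℓ.2 p hv.2 k
    have hlt := prot_lt hε hσ hv hk
    unfold tauPre
    refine le_antisymm (csSup_le ⟨_, hlt, (mem_preAct_iff hΦ hε hσ hv hs hp0 hlt).2 le_rfl⟩ ?_) ?_
    · rintro s ⟨h1, h2⟩
      rcases le_total s 0 with h3 | h3
      · exact h3.trans hp0
      · exact (mem_preAct_iff hΦ hε hσ hv hs h3 h1).1 h2
    · exact le_csSup ⟨σ, fun s h => h.1.le⟩ ⟨hlt, (mem_preAct_iff hΦ hε hσ hv hs hp0 hlt).2 le_rfl⟩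

variable {α : Type*} {c : α → ℝ → Space3} {θ : α → ℝ}

/-- **Good ghost hits of a tree.** -/
theorem goodGhostHit_iff (hΦ : AdmissiblePotential Φ) (hε : 0 < ε) (hσ : 0 < σ)
    (hv : Valid Φ ε P σ ℓ.2 p) (hs : Sep Φ ε P σ ℓ p) :
    GoodGhostHit (pth Φ ε (lines Φ ε P ℓ p)) ε c θ (root P) σ ↔
      (∃ a, σ ≤ θ a ∧ dist (c a σ) (onLine ℓ σ).1 ≤ ε) ∧
      ∀ u ∈ Ico 0 σ, ∀ m, u ≤ prot P σ p m → ∀ a, u ≤ θ a →
        ε < dist (c a u) (path Φ ε P ℓ p u m).1 := by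
  have hpath : ∀ u ∈ Icc 0 σ, pth Φ ε (lines Φ ε P ℓ p) u = path Φ ε P ℓ p u := fun u hu =>
    (path_eq_flow hΦ hε hv hs hu).symm
  have hroot : pth Φ ε (lines Φ ε P ℓ p) σ (root P) = onLine ℓ σ :=
    flow_root hΦ hε hσ.le hv hs
  constructor
  · intro h
    refine ⟨?_, fun u hu m hm a ha => ?_⟩
    · obtain ⟨a, ha, hd⟩ := h.hits
      rw [hroot] at hd
      exact ⟨a, ha, hd⟩
    · by_contra hle
      push Not at hle
      refine h.unhit u hu m ((mem_preAct_iff hΦ hε hσ hv hs hu.1 hu.2).2 hm) ⟨a, ha, ?_⟩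
      rw [hpath u ⟨hu.1, hu.2.le⟩]
      exact hle
  · rintro ⟨⟨a, ha, hd⟩, h2⟩
    refine ⟨⟨a, ha, ?_⟩, preAct_zero hΦ hε hσ hv hs, ?_⟩
    · rw [hroot]
      exact hd
    · rintro u hu m hm ⟨b, hb, hd'⟩
      rw [hpath u ⟨hu.1, hu.2.le⟩] at hd'
      exact absurd (h2 u hu m ((mem_preAct_iff hΦ hε hσ hv hs hu.1 hu.2).1 hm) b hb)
        (not_lt.2 hd')

end

end Crest.Agent.R122.TreeHit317
end

-- ▼ part R122/IDefs_317

/-!
# The first-hit identity in tree form: definitions (row 122, helper317, block F, I1)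

* `ptubes Φ ε P ℓ p σ` : protected tubes of a tree with root time `σ`;
* `sigHit`, `FirstAt` : first hitting time of the root, first good hit;
* `Hgh Φ f₀ ε P S tw t` : mass of the first good hits in `[tw, t)` by trees of type `P`;
* `clTubes`, `treeCls`, `hitMassG`, `errC` : the same in configuration form.
-/

set_option autoImplicit false

open MeasureTheory Set Filter
open scoped Classical ENNReal Topology
open Crest.AnalysisR.Kinetic

noncomputable section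

namespace Crest.Agent.R122.IStep317

open Kin796 Kin796.CTree Tree674 Flow671 Loc45 Causal291 PathFlow968 Hit167 GC311 GIV566
  TreeHit317 Relabel674

/-- Protected tubes of a tree with root time `σ`. -/
def ptubes (Φ : Space3 → ℝ) (ε : ℝ) (P : CTree) (ℓ : PhasePoint) (p : Par P) (σ : ℝ) :
    Tubes (Idx P) := ⟨fun m u => (path Φ ε P ℓ p u m).1, fun m => prot P σ p m⟩

/-- First time at which the root of the tree hits the family `S`. -/
def sigHit (Φ : Space3 → ℝ) (ε : ℝ) (P : CTree) {ι : Type} (S : Tubes ι)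
    (z : PhasePoint × Par P) : ℝ :=
  sInf {s | 0 ≤ s ∧ ∃ i, s ≤ S.b i ∧ dist (S.c i s) (path Φ ε P z.1 z.2 s (root P)).1 ≤ ε}

/-- First good hit of `S` at time `σ` by the tree `z`. -/
structure FirstAt (Φ : Space3 → ℝ) (ε : ℝ) (P : CTree) {ι : Type} (S : Tubes ι)
    (z : PhasePoint × Par P) (σ : ℝ) : Prop where
  valid : Valid Φ ε P σ z.1.2 z.2
  sep : Sep Φ ε P σ z.1 z.2
  hit : ∃ i, σ ≤ S.b i ∧ dist (S.c i σ) (onLine z.1 σ).1 ≤ ε
  first : ∀ u ∈ Ico 0 σ, ∀ m, u ≤ prot P σ z.2 m → ∀ i, u ≤ S.b i →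
    ε < dist (S.c i u) (path Φ ε P z.1 z.2 u m).1

/-- Mass of the first good hits of `S` in `[tw, t)` by trees of type `P`, weighted by the
probability that `S` and the protected tubes of the tree are unhit. -/
def Hgh (Φ : Space3 → ℝ) (f₀ : PhasePoint → ℝ) (ε : ℝ) (P : CTree) {ι : Type} (S : Tubes ι)
    (tw t : ℝ) : ℝ≥0∞ :=
  activity ε * ∫⁻ z : PhasePoint × Par P,
    if sigHit Φ ε P S z ∈ Ico tw t ∧ 0 < sigHit Φ ε P S z ∧
        FirstAt Φ ε P S z (sigHit Φ ε P S z) then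
      wt Φ P z.1.2 z.2 * ((∏ x, ENNReal.ofReal (f₀ (lines Φ ε P z.1 z.2 x))) *
        uG Φ f₀ ε (S.sum (ptubes Φ ε P z.1 z.2 (sigHit Φ ε P S z))) (sigHit Φ ε P S z))
    else 0

/-- Protected tubes of the cluster `V` with root `j` at time `σ`. -/
def clTubes (Φ : Space3 → ℝ) (ε : ℝ) {k : ℕ} (V : Config k) (j : Fin k) (σ : ℝ) : Tubes (Fin k) :=
  ⟨fun i u => (pth Φ ε V u i).1, fun i => tauPre (pth Φ ε V) ε j σ i⟩

/-- The class of tree clusters. -/
def treeCls (Φ : Space3 → ℝ) (ε : ℝ) : Cls := fun _ V j σ => TreeLike Φ ε σ V j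

/-- First hitting time of the particle `j` of the isolated world of `V`. -/
def hT (Φ : Space3 → ℝ) (ε : ℝ) {ι : Type} (S : Tubes ι) {k : ℕ} (V : Config k) (j : Fin k) : ℝ :=
  hitTime (pth Φ ε V) ε S.c S.b 0 j

/-- `hitMass` with the ghost avoidance probability. -/
def hitMassG (Φ : Space3 → ℝ) (f₀ : PhasePoint → ℝ) (ε : ℝ) {ι : Type} (S : Tubes ι) (𝒢 : Cls)
    (tw t : ℝ) (k : ℕ) : ℝ≥0∞ :=
  activity ε ^ k / (k.factorial : ℝ≥0∞) * ∫⁻ V : Config k, gcWeight f₀ ε k V *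
    ∑ j : Fin k, ind (hT Φ ε S V j ∈ Ico tw t ∧ GoodV Φ ε S.c S.b 𝒢 V j (hT Φ ε S V j)) *
      uG Φ f₀ ε (S.sum (clTubes Φ ε V j (hT Φ ε S V j))) (hT Φ ε S V j)

/-- Error (c): real versus ghost avoidance for one cluster. -/
def errC (Φ : Space3 → ℝ) (f₀ : PhasePoint → ℝ) (ε : ℝ) {ι : Type} (S : Tubes ι) (𝒢 : Cls)
    (tw t : ℝ) (k : ℕ) : ℝ≥0∞ :=
  activity ε ^ k / (k.factorial : ℝ≥0∞) * ∫⁻ V : Config k, gcWeight f₀ ε k V *
    ∑ j : Fin k, ind (hT Φ ε S V j ∈ Ico tw t ∧ GoodV Φ ε S.c S.b 𝒢 V j (hT Φ ε S V j)) *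
      adiff (restE f₀ Φ ε S.c S.b V j (hT Φ ε S V j))
        (uG Φ f₀ ε (S.sum (clTubes Φ ε V j (hT Φ ε S V j))) (hT Φ ε S V j))

/-! ### The hitting time of a tree -/

section tree

variable {Φ : Space3 → ℝ} {f₀ : PhasePoint → ℝ} {ε : ℝ} {P : CTree} {ι : Type} {S : Tubes ι}
  {z : PhasePoint × Par P} {σ : ℝ}

theorem FirstAt.sigHit_eq (hε : 0 < ε) (hσ : 0 ≤ σ) (h : FirstAt Φ ε P S z σ) :
    sigHit Φ ε P S z = σ := by
  have hroot : path Φ ε P z.1 z.2 σ (root P) = onLine z.1 σ :=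
    path_root_after hε.le h.valid.2 le_rfl
  refine le_antisymm (csInf_le ⟨0, fun s hs => hs.1⟩ ⟨hσ, ?_⟩) ?_
  · obtain ⟨i, hi, hd⟩ := h.hit
    exact ⟨i, hi, by rw [hroot]; exact hd⟩
  · refine le_csInf ?_ ?_
    · obtain ⟨i, hi, hd⟩ := h.hit
      exact ⟨σ, hσ, i, hi, by rw [hroot]; exact hd⟩
    · rintro s ⟨hs0, i, hi, hd⟩
      by_contra hlt
      push Not at hlt
      have := h.first s ⟨hs0, hlt⟩ (root P) (by rw [PathFlow968.prot_root]; exact hlt.le) i hi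
      exact absurd this (not_lt.2 hd)

/-- `FirstAt` in the coordinates of `Hit167`. -/
theorem firstAt_iff (hΦ : AdmissiblePotential Φ) (hε : 0 < ε) (hσ : 0 < σ) :
    FirstAt Φ ε P S z σ ↔ Valid Φ ε P σ z.1.2 z.2 ∧ Sep Φ ε P σ z.1 z.2 ∧
      GoodGhostHit (pth Φ ε (lines Φ ε P z.1 z.2)) ε S.c S.b (root P) σ := by
  constructor
  · rintro ⟨h1, h2, h3, h4⟩
    exact ⟨h1, h2, (goodGhostHit_iff hΦ hε hσ h1 h2).2 ⟨h3, h4⟩⟩
  · rintro ⟨h1, h2, h3⟩
    obtain ⟨h4, h5⟩ := (goodGhostHit_iff hΦ hε hσ h1 h2).1 h3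
    exact ⟨h1, h2, h4, h5⟩

end tree

/-! ### Relabelling -/

section relabel

variable {Φ : Space3 → ℝ} {f₀ : PhasePoint → ℝ} {ε : ℝ}


theorem hitTime_relabel {α ι ι' : Type*} {c : α → ℝ → Space3} {θ : α → ℝ} (g : ι → ι')
    {z : ℝ → ι' → PhasePoint} {t₀ : ℝ} {k : ι} :
    hitTime (fun s i => z s (g i)) ε c θ t₀ k = hitTime z ε c θ t₀ (g k) := rfl

theorem goodGhostHit_relabel {α : Type*} {ι ι' : Type*} {c : α → ℝ → Space3} {θ : α → ℝ}
    (g : ι ≃ ι') {z : ℝ → ι' → PhasePoint} {j : ι} {σ : ℝ} :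
    GoodGhostHit (fun s i => z s (g i)) ε c θ j σ ↔ GoodGhostHit z ε c θ (g j) σ := by
  constructor
  · rintro ⟨h1, h2, h3⟩
    refine ⟨h1, ?_, ?_⟩
    · rw [preAct_relabel g] at h2
      have := congrArg (fun A => g '' A) h2
      simpa [image_preimage_eq _ g.surjective] using this
    · intro s hs k hk
      obtain ⟨k, rfl⟩ := g.surjective k
      refine h3 s hs k ?_
      rw [preAct_relabel g]
      exact hk
  · rintro ⟨h1, h2, h3⟩
    refine ⟨h1, ?_, ?_⟩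
    · rw [preAct_relabel g, h2, preimage_univ]
    · intro s hs k hk
      rw [preAct_relabel g] at hk
      exact h3 s hs (g k) hk

theorem tauPre_relabel {ι ι' : Type*} (g : ι ≃ ι') {z : ℝ → ι' → PhasePoint} {j k : ι} {σ : ℝ} :
    tauPre (fun s i => z s (g i)) ε j σ k = tauPre z ε (g j) σ (g k) := by
  unfold tauPre
  congr 1
  ext s
  simp only [mem_ofPred_eq]
  rw [preAct_relabel g]
  rfl

/-- The avoidance probability does not depend on the labelling of the tubes. -/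
theorem uG_congr_tubes {ι ι' : Type} (e : ι' ≃ ι) {S : Tubes ι} {S' : Tubes ι'} {t : ℝ}
    (hb : ∀ i, S'.b i = S.b (e i)) (hc : ∀ i, ∀ s ∈ Icc 0 (min (S'.b i) t), S'.c i s = S.c (e i) s) :
    uG Φ f₀ ε S' t = uG Φ f₀ ε S t := by
  unfold uG unhitInd
  congr 1
  funext n w
  have : unhit Φ ε S' t w ↔ unhit Φ ε S t w := by
    constructor
    · intro h i j s hs
      obtain ⟨i, rfl⟩ := e.surjective i
      rw [← hb] at hs
      have := h i j s hs
      rwa [hc i s hs] at this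
    · intro h i j s hs
      rw [hc i s hs]
      rw [hb] at hs
      exact h (e i) j s hs
  simp only [this]

end relabel

end Crest.Agent.R122.IStep317
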