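import Crest.Agent.R122.MWFam2_255

/-!
# States and influences of a family of unlinked lines (row 122, block A8, request of helper424)

`s ≤ T` is a time before which no line of `S` has touched `Z` and up to which no two lines of `S`
are linked in `Z`; `0 ≤ u ≤ s`.

* `cf_sub_iff` : the clean closure of the family is the union of the clean closures of its lines.
* `path_sub_inr` : a line of the family has the same state in `Z + S` as in `Z + line`.
* `path_sub_inl` : a particle of `Z` in the clean closure of the line `k` has the same state in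
  `Z + S` and in `Z + k`.
* `cf_of_fut` : before (and at) untouched times the full influence is the clean closure.
* `fut_sub` : the statements in terms of the full influence, at a time before the touch time.
-/

set_option autoImplicit false
set_option linter.unusedSectionVars false

open MeasureTheory Set Filter Topology
open Crest.AnalysisR.Kinetic
open Crest.Agent.R122.EDefs602 Crest.Agent.R122.MWAlg255 Crest.Agent.R122.CausalGen291

namespace Crest.Agent.R122.LinkU255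

open Crest.Agent.R122.Causal291 Crest.Agent.R122.CausalGen291.Four

variable {κ ιA ιL ι : Type} {X : Type*}
variable {F : Four κ ιA ιL ι X} {a T : ℝ} {P₀ : ℝ → κ → Prop} {PA : ℝ → ιA → Prop}
  {PL : ℝ → ιL → Prop} {P : ℝ → ι → Prop}
variable [Finite κ] [Finite ιA] [Finite ιL] [Finite ι]

/-- Coherence for the pair `Z`, `Z+A+L`. -/
structure Coh13 (F : Four κ ιA ιL ι X) (a T : ℝ) (P₀ : ℝ → κ → Prop) (P : ℝ → ι → Prop) :
    Prop where
  pair : Pair T F.C₀ F.z₀ F.C F.z id (fun k => F.fA (F.eA k))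
  coh : ∀ s ∈ Icc a T, ∀ k, HistEq F.C₀ F.z₀ F.C F.z id (fun k => F.fA (F.eA k)) s k →
    (P₀ s k ↔ P s (F.fA (F.eA k)))

theorem fA_eA_eq (F : Four κ ιA ιL ι X) : (fun k => F.fA (F.eA k)) = fun k => F.fL (F.eL k) :=
  funext F.comm

theorem Coh13.swap (h : Coh13 F a T P₀ P) : Coh13 F.swap a T P₀ P where
  pair := by
    have h1 := h.pair
    rw [fA_eA_eq] at h1
    exact h1
  coh s hs k hk := by
    have h1 : HistEq F.C₀ F.z₀ F.C F.z id (fun k => F.fA (F.eA k)) s k := by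
      rw [fA_eA_eq]
      exact hk
    have h2 := h.coh s hs k h1
    rw [F.comm k] at h2
    exact h2

/-- Before `s`, `Z` and `Z+A+L` agree on who is infected. -/
theorem infected_iff_union (hd : F.Dyn T) (hX : F.CohX T) (hR : F.Rules a T P₀ PA PL P)
    (ha : 0 ≤ a) (h13 : Coh13 F a T P₀ P) {s : ℝ} (hsT : s ≤ T) (h : NoLink F a P₀ PA PL s)
    {u : ℝ} (hau : a ≤ u) (hu : u < s) (k : κ) : P₀ u k ↔ P u (F.fA (F.eA k)) :=
  (agreeAt_of_not_touched h13.pair h13.coh ha ⟨hau, hu.le.trans hsT⟩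
    (unt_union hd hX hR ha hsT h u hau hu)).1.iff k

/-- The clean closure of `A` is part of the clean closure of `A ∪ L`. -/
theorem cfut_of_cfa (hd : F.Dyn T) (hX : F.CohX T) (hR : F.Rules a T P₀ PA PL P)
    (ha : 0 ≤ a) (h13 : Coh13 F a T P₀ P) {s : ℝ} (hs : s ∈ Icc 0 T)
    (h : NoLink F a P₀ PA PL s) {u : ℝ} (hu : u ≤ s) {k : κ} (hk : k ∈ F.CFA a P₀ PA u) :
    CFut F.C₀ F.z₀ F.C F.z id (fun k => F.fA (F.eA k)) a P₀ P u k := by
  change CFut F.C₀ F.z₀ F.CA F.zA id F.eA a P₀ PA u k at hk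
  have gl : ∀ {u : ℝ}, u ≤ s → ∀ {k : κ}, CFut F.C₀ F.z₀ F.CA F.zA id F.eA a P₀ PA u k →
      F.zA u (F.eA k) = F.z u (F.fA (F.eA k)) := by
    intro u hu k hk
    refine glue_of_cia hd hR hs h ⟨CFut.nonneg hk, hu⟩ fun k' hk' => ?_
    rw [← F.eA_inj hk']
    exact hk
  have cl : ∀ {u : ℝ} {k : κ}, u ≤ s → CleanB a P₀ PA id F.eA u k →
      CleanB a P₀ P id (fun k => F.fA (F.eA k)) u k := by
    intro u k hu hk v hav hvu
    refine ⟨(hk v hav hvu).1, fun h' => (hk v hav hvu).1 ?_⟩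
    exact (infected_iff_union hd hX hR ha h13 hs.2 h hav (hvu.trans_le hu) k).2 h'
  induction hk with
  | @init u k hz h0 => exact absurd (init₀ hd hs.1 h.nl k).1 hz
  | new₁ j hj _ _ _ _ => exact absurd ⟨j, rfl⟩ hj
  | @new₂ u u' k y hy hc h0 huu hcl =>
    have hu's : u' ≤ s := huu.trans hu
    have hk' : CFut F.C₀ F.z₀ F.CA F.zA id F.eA a P₀ PA u' k := .new₂ y hy hc h0 le_rfl hcl
    refine .new₂ (F.fA y) ?_ ?_ h0 huu (cl hu's hcl)
    · rintro ⟨x, hx⟩
      exact hy ⟨x, F.fA_inj hx⟩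
    · refine (hd.pA.coh u' ⟨h0, hu's.trans hs.2⟩ y (F.eA k) ?_ (gl hu's hk')).1 hc
      exact glue_of_cia hd hR hs h ⟨h0, hu's⟩ fun k' hk' => absurd ⟨k', hk'.symm⟩ hy
  | @chain₁ u u' k l hl hc huu hcl ih =>
    exact .chain₁ (ih (huu.trans hu)) hc huu (cl (huu.trans hu) hcl)
  | @chain₂ u u' k l hl hc huu hcl ih =>
    have hu's : u' ≤ s := huu.trans hu
    have h0 : 0 ≤ u' := CFut.nonneg hl
    have hk' : CFut F.C₀ F.z₀ F.CA F.zA id F.eA a P₀ PA u' k := .chain₂ hl hc le_rfl hcl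
    refine .chain₂ (ih hu's) ?_ huu (cl hu's hcl)
    exact (hd.pA.coh u' ⟨h0, hu's.trans hs.2⟩ (F.eA l) (F.eA k) (gl hu's hl) (gl hu's hk')).1 hc

/-- The clean closure of `A ∪ L` is the union of the clean closures. -/
theorem cfut_union_iff (hd : F.Dyn T) (hX : F.CohX T) (hR : F.Rules a T P₀ PA PL P)
    (ha : 0 ≤ a) (h13 : Coh13 F a T P₀ P) {s : ℝ} (hs : s ∈ Icc 0 T)
    (h : NoLink F a P₀ PA PL s) {u : ℝ} (hu : u ≤ s) {k : κ} :
    CFut F.C₀ F.z₀ F.C F.z id (fun k => F.fA (F.eA k)) a P₀ P u k ↔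
      k ∈ F.CFA a P₀ PA u ∨ k ∈ F.CFL a P₀ PL u := by
  refine ⟨cfut_union hd hR ha hs h hu, ?_⟩
  rintro (hk | hk)
  · exact cfut_of_cfa hd hX hR ha h13 hs h hu hk
  · have h1 := cfut_of_cfa (F := F.swap) hd.swap (cohX_swap hd hX) hR.swap ha h13.swap hs h.swap
      hu hk
    rw [fA_eA_eq]
    exact h1

/-- The state in `Z+A+L` of a particle of `Z` in the clean closure of `B` (another object) in `Z`
which is not influenced by `L`, is its state in `Z+A`. -/
theorem glue_of_not_cfl (hd : F.Dyn T) (hR : F.Rules a T P₀ PA PL P) {s : ℝ}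
    (hs : s ∈ Icc 0 T) (h : NoLink F a P₀ PA PL s) {u : ℝ} (hu : u ∈ Icc 0 s) {k : κ}
    (hk : k ∉ F.CFL a P₀ PL u) : F.zA u (F.eA k) = F.z u (F.fA (F.eA k)) := by
  refine glueL_closed (F := F.swap) hd.swap hR.swap hs h.swap.untA h.swap.untL h.swap.nl hu
    fun v hv k' hk' hF => hk ?_
  have hkk : k = k' := F.eA_inj hk'
  subst hkk
  exact (cfl_of_fl hR hs.2 h.untL (hv.trans_le hu.2) hF).mono hv.le

end Crest.Agent.R122.LinkU255

namespace Crest.Agent.R122.MWFam255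

open Crest.Agent.R122.LinkU255

noncomputable section

variable {Φ : Space3 → ℝ} {ε T s u : ℝ} {K : ℕ} {ι κ κ' κ₁ κ₂ μ : Type}
variable [Fintype ι] [Fintype κ] [Fintype κ'] [Fintype κ₁] [Fintype κ₂] [Fintype μ]

theorem coh13 (hΦ : AdmissiblePotential Φ) (hε : 0 < ε) {Z : MW ι} {A : MW κ} {A' : MW κ'}
    (h : Ok4 Φ ε Z A A') : Coh13 (MW.four Φ ε Z A A') 0 T (Z.Inf Φ ε K)
      (((Z.add A).add A').Inf Φ ε K) where
  pair := (MW.com_add_add Z A A').pair hΦ hε h.z h.ab T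
  coh _ _ _ hk := (MW.com_add_add Z A A').coh hk

/-- The clean closure of a union. -/
theorem cf_add_iff (hΦ : AdmissiblePotential Φ) (hε : 0 < ε) {Z : MW ι} {A : MW κ} {A' : MW κ'}
    (h : Ok4 Φ ε Z A A') (hs0 : 0 ≤ s) (hsT : s ≤ T) (hA : s ≤ Z.theta Φ ε K T A)
    (hA' : s ≤ Z.theta Φ ε K T A') (hlk : ¬ Z.LINK Φ ε K A A' s) (hu : u ≤ s) {k : ι} :
    CF Φ ε K Z (A.add A') u k ↔ CF Φ ε K Z A u k ∨ CF Φ ε K Z A' u k := by
  rw [cf_assoc hΦ hε]
  exact cfut_union_iff (MW.four_dyn hΦ hε h.z h.a h.b h.ab T) (MW.four_cohX Φ ε Z A A' T)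
    (MW.four_rules h.z h.a h.b h.ab K 0 T) le_rfl (coh13 hΦ hε h) ⟨hs0, hsT⟩
    (h.noLink hΦ hε hsT hA hA' hlk) hu

section fam

variable [DecidableEq κ]

theorem path_sub_insert (hΦ : AdmissiblePotential Φ) (hε : 0 < ε) {Z : MW ι} {ls : κ → ML}
    {S : Finset κ} {k : κ} (hk : k ∉ S) (x : (ι ⊕ S) ⊕ Unit) :
    (Z.add (sub ls (insert k S))).path Φ ε u
        (Equiv.sumCongr (Equiv.refl ι) (insertEquiv hk) (Equiv.sumAssoc ι S Unit x)) =
      ((Z.add (sub ls S)).add (MW.line (ls k))).path Φ ε u x := by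
  rw [path_assoc hΦ hε, ← sub_insert ls hk, add_comap_right, path_comap hΦ hε]

/-- **The states of a family of pairwise unlinked lines**, and its clean closure. -/
theorem fam_core2 (hΦ : AdmissiblePotential Φ) (hε : 0 < ε) {Z : MW ι} {ls : κ → ML}
    (hok : OkF Φ ε Z ls) (hs0 : 0 ≤ s) (hsT : s ≤ T) (S : Finset κ)
    (hle : ∀ k ∈ S, s ≤ Z.thetaL Φ ε K T (ls k))
    (hlk : ∀ j ∈ S, ∀ k ∈ S, j ≠ k → ¬ Z.LINK Φ ε K (MW.line (ls j)) (MW.line (ls k)) s)
    (hu : u ∈ Icc 0 s) :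
    (∀ i, CF Φ ε K Z (sub ls S) u i ↔ ∃ k ∈ S, CF Φ ε K Z (MW.line (ls k)) u i) ∧
      (∀ k (hk : k ∈ S), (Z.add (sub ls S)).path Φ ε u (Sum.inr ⟨k, hk⟩) =
        (Z.add (MW.line (ls k))).path Φ ε u (Sum.inr ())) ∧
      (∀ k ∈ S, ∀ i, CF Φ ε K Z (MW.line (ls k)) u i →
        (Z.add (sub ls S)).path Φ ε u (Sum.inl i) =
          (Z.add (MW.line (ls k))).path Φ ε u (Sum.inl i)) := by
  induction S using Finset.induction_on with
  | empty =>
    refine ⟨fun i => ⟨fun h => absurd (CF.fut h) (not_fut_empty hΦ hε Z _), ?_⟩, ?_, ?_⟩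
    · rintro ⟨k, hk, _⟩
      exact absurd hk (Finset.notMem_empty k)
    · intro k hk
      exact absurd hk (Finset.notMem_empty k)
    · intro k hk
      exact absurd hk (Finset.notMem_empty k)
  | @insert k S hk ih =>
    have hleS : ∀ j ∈ S, s ≤ Z.thetaL Φ ε K T (ls j) :=
      fun j hj => hle j (Finset.mem_insert_of_mem hj)
    have hlkS : ∀ j ∈ S, ∀ l ∈ S, j ≠ l →
        ¬ Z.LINK Φ ε K (MW.line (ls j)) (MW.line (ls l)) s :=
      fun j hj l hl => hlk j (Finset.mem_insert_of_mem hj) l (Finset.mem_insert_of_mem hl)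
    obtain ⟨i1, i2, i3⟩ := ih hleS hlkS
    obtain ⟨c1, c2, -⟩ := fam_core hΦ hε hok hs0 hsT S hleS hlkS
    have h4 := hok.ok4 hΦ hε hk
    have hkθ : s ≤ Z.theta Φ ε K T (MW.line (ls k)) := hle k (Finset.mem_insert_self k S)
    have hne : ∀ j ∈ S, j ≠ k := fun j hj h => hk (h ▸ hj)
    have hjk : ∀ j ∈ S, ¬ Z.LINK Φ ε K (MW.line (ls j)) (MW.line (ls k)) s := fun j hj =>
      hlk j (Finset.mem_insert_of_mem hj) k (Finset.mem_insert_self k S) (hne j hj)
    have hn : ¬ Z.LINK Φ ε K (sub ls S) (MW.line (ls k)) s := c2 Unit (MW.line (ls k)) hjk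
    have hd := MW.four_dyn hΦ hε h4.z h4.a h4.b h4.ab T
    have hR := MW.four_rules h4.z h4.a h4.b h4.ab K 0 T
    have hnl := h4.noLink (K := K) hΦ hε hsT c1 hkθ hn
    have hsI : s ∈ Icc 0 T := ⟨hs0, hsT⟩
    refine ⟨fun i => ?_, fun j hj => ?_, fun j hj i hi => ?_⟩
    · have h5 : CF Φ ε K Z (sub ls (insert k S)) u i ↔
          CF Φ ε K Z ((sub ls S).add (MW.line (ls k))) u i := by
        rw [← sub_insert ls hk]
        exact (cf_comap hΦ hε Z _ _ u i).symm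
      rw [h5, cf_add_iff hΦ hε h4 hs0 hsT c1 hkθ hn hu.2, i1 i]
      constructor
      · rintro (⟨j, hj, h6⟩ | h6)
        · exact ⟨j, Finset.mem_insert_of_mem hj, h6⟩
        · exact ⟨k, Finset.mem_insert_self k S, h6⟩
      · rintro ⟨j, hj, h6⟩
        rcases Finset.mem_insert.1 hj with rfl | hj
        · exact Or.inr h6
        · exact Or.inl ⟨j, hj, h6⟩
    · by_cases hjS : j ∈ S
      · have h6 : (Sum.inr ⟨j, hj⟩ : ι ⊕ (insert k S : Finset κ)) =
            Equiv.sumCongr (Equiv.refl ι) (insertEquiv hk)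
              (Equiv.sumAssoc ι S Unit (Sum.inl (Sum.inr ⟨j, hjS⟩))) := rfl
        rw [h6, path_sub_insert hΦ hε hk]
        have h7 := glue_of_cia hd hR hsI hnl hu (x := (Sum.inr ⟨j, hjS⟩ : ι ⊕ S)) ci_inr
        exact (Eq.symm h7).trans (i2 j hjS)
      · have hjk' : j = k := (Finset.mem_insert.1 hj).resolve_right hjS
        subst hjk'
        have h6 : (Sum.inr ⟨j, hj⟩ : ι ⊕ (insert j S : Finset κ)) =
            Equiv.sumCongr (Equiv.refl ι) (insertEquiv hk)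
              (Equiv.sumAssoc ι S Unit (Sum.inr ())) := rfl
        rw [h6, path_sub_insert hΦ hε hk]
        exact (glue_of_cil hd hR hsI hnl hu (y := (Sum.inr () : ι ⊕ Unit)) ci_inr).symm
    · rcases Finset.mem_insert.1 hj with rfl | hjS
      · have h6 : (Sum.inl i : ι ⊕ (insert j S : Finset κ)) =
            Equiv.sumCongr (Equiv.refl ι) (insertEquiv hk)
              (Equiv.sumAssoc ι S Unit (Sum.inl (Sum.inl i))) := rfl
        rw [h6, path_sub_insert hΦ hε hk]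
        exact (glue_of_cil hd hR hsI hnl hu (y := (Sum.inl i : ι ⊕ Unit)) (ci_inl hi)).symm
      · have h6 : (Sum.inl i : ι ⊕ (insert k S : Finset κ)) =
            Equiv.sumCongr (Equiv.refl ι) (insertEquiv hk)
              (Equiv.sumAssoc ι S Unit (Sum.inl (Sum.inl i))) := rfl
        rw [h6, path_sub_insert hΦ hε hk]
        refine Eq.trans (Eq.symm ?_) (i3 j hjS i hi)
        refine glue_of_not_cfl hd hR hsI hnl hu (k := i) fun hik => ?_
        exact hjk j hjS (link_iff.2 ⟨u, hu, Or.inl ⟨i, hi, hik⟩⟩)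

end fam

/-- At an untouched time the full influence is the clean closure. -/
theorem cf_of_fut (hΦ : AdmissiblePotential Φ) (hε : 0 < ε) {Z : MW ι} {A : MW κ}
    (hZ : Z.Ok Φ ε) (hA : (Z.add A).Ok Φ ε) (hu0 : 0 ≤ u) (hn : ¬ Z.Touched Φ ε K A u) {i : ι}
    (hi : Z.Fut Φ ε A u i) : CF Φ ε K Z A u i := by
  refine CFut.of_not_hit (T := u) (hZ.rule 0 u K) (hA.rule 0 u K) le_rfl ?_ ?_ hi
  · intro v hv hvu ht
    exact hn (MW.Touched.mono hZ hA hv hvu.le ht)
  · intro hH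
    exact hn (hH.touched (hZ.rule 0 u K) (hA.rule 0 u K) le_rfl ⟨hu0, le_rfl⟩)

theorem cf_iff_fut (hΦ : AdmissiblePotential Φ) (hε : 0 < ε) {Z : MW ι} {A : MW κ}
    (hZ : Z.Ok Φ ε) (hA : (Z.add A).Ok Φ ε) (hu0 : 0 ≤ u) (hn : ¬ Z.Touched Φ ε K A u) {i : ι} :
    CF Φ ε K Z A u i ↔ Z.Fut Φ ε A u i :=
  ⟨CF.fut, cf_of_fut hΦ hε hZ hA hu0 hn⟩

section fam

variable [DecidableEq κ]

/-- The sub-family `S` has not touched at `u`: neither has any of its lines. -/
theorem lt_thetaL_of_sub (hΦ : AdmissiblePotential Φ) (hε : 0 < ε) {Z : MW ι}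
    {ls : κ → ML} (hok : OkF Φ ε Z ls) {S : Finset κ} (hn : NoLk Φ ε K T Z ls S)
    (hu : u ∈ Icc 0 T) (hnt : ¬ Z.Touched Φ ε K (sub ls S) u) {k : κ} (hk : k ∈ S) :
    u < Z.thetaL Φ ε K T (ls k) := by
  have h1 : ¬ Z.theta Φ ε K T (sub ls S) ≤ u := fun h =>
    hnt ((MW.touched_iff hΦ hε hok.z (hok.sub S) hu).2 h)
  push Not at h1
  exact h1.trans_le (theta_sub_le hΦ hε (hu.1.trans hu.2) hok hn hk)

/-- **Influences and states at an untouched time** (pairwise unlinked lines): every influenced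
particle is influenced by a single line and has the same state as in the world with this line only;
the lines of the family have the same states as in the worlds with a single line. -/
theorem fut_sub (hΦ : AdmissiblePotential Φ) (hε : 0 < ε) {Z : MW ι} {ls : κ → ML}
    (hok : OkF Φ ε Z ls) {S : Finset κ} (hn : NoLk Φ ε K T Z ls S) (hu : u ∈ Icc 0 T)
    (hnt : ¬ Z.Touched Φ ε K (sub ls S) u) :
    (∀ i, Z.Fut Φ ε (sub ls S) u i ↔ ∃ k ∈ S, Z.Fut Φ ε (MW.line (ls k)) u i) ∧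
      (∀ k (hk : k ∈ S), (Z.add (sub ls S)).path Φ ε u (Sum.inr ⟨k, hk⟩) =
        (Z.ins (ls k)).path Φ ε u (Sum.inr ())) ∧
      (∀ k ∈ S, ∀ i, Z.Fut Φ ε (MW.line (ls k)) u i →
        (Z.add (sub ls S)).path Φ ε u (Sum.inl i) = (Z.ins (ls k)).path Φ ε u (Sum.inl i)) := by
  have hlt := fun k hk => lt_thetaL_of_sub hΦ hε hok hn hu hnt (k := k) hk
  have hle : ∀ k ∈ S, u ≤ Z.thetaL Φ ε K T (ls k) := fun k hk => (hlt k hk).le
  obtain ⟨h1, h2, h3⟩ := fam_core2 hΦ hε hok hu.1 hu.2 S hle (hn u hu.1 hu.2 hle)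
    (u := u) ⟨hu.1, le_rfl⟩
  have hk' : ∀ k ∈ S, ¬ Z.Touched Φ ε K (MW.line (ls k)) u := by
    intro k hk ht
    have := (MW.touched_iff hΦ hε hok.z (hok.line hΦ hε k) (T := T) hu).1 ht
    exact absurd this (not_le.2 (hlt k hk))
  refine ⟨fun i => ?_, h2, fun k hk i hi => h3 k hk i
    (cf_of_fut hΦ hε hok.z (hok.line hΦ hε k) hu.1 (hk' k hk) hi)⟩
  rw [← cf_iff_fut hΦ hε hok.z (hok.sub S) hu.1 hnt, h1 i]
  constructor
  · rintro ⟨k, hk, h⟩
    exact ⟨k, hk, h.fut⟩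
  · rintro ⟨k, hk, h⟩
    exact ⟨k, hk, cf_of_fut hΦ hε hok.z (hok.line hΦ hε k) hu.1 (hk' k hk) h⟩


end fam

end

end Crest.Agent.R122.MWFam255
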