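import Crest.Agent.R122.LNLinkEx_818
import Crest.Agent.R122.RtGDet_302

/-!
# Row 122, LN1 events (helper383): returns

* `born_of_fut`, `cf_of_fut`, `lt_theta_of_not_touched` : before the touch time every influenced
  particle is born and is in the clean closure.
* `RetA`, `RetB` : return of the influence of the line, resp. of the line itself, to a family of
  tubes (radius `r`), in an arbitrary base world; `RetL`, `RetM` of helper302 are the case
  `Z = cfg w`, `r = ε`.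
* `RetC`, `RetD` : closed forms (helper879's (X3)).
* `not_retA`, `not_retB`, `not_retC`, `not_retD` : no return, from `LNEv818.ReachAll` and the exclusion of reached positions
  near the tubes.
-/

set_option autoImplicit false
set_option linter.unusedSectionVars false

open MeasureTheory Set Filter Topology
open scoped ENNReal
open Crest.AnalysisR.Kinetic
open Crest.Agent.R122.Flow671 Crest.Agent.R122.Ins45 Crest.Agent.R122.Causal291
open Crest.Agent.R122.Inf879 Crest.Agent.R122.GC311 Crest.Agent.R122.EDefs602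
open Crest.Agent.R122.EDefs602.MW Crest.Agent.R122.MWFam255 Crest.Agent.R122.GIV566
open Crest.Agent.R122.RtG302 (near RetL RetM)
open Crest.Agent.R122.LNEv818 (ReachAll)

namespace Crest.Agent.R122.LNEv383

noncomputable section

variable {ι κ ξ J : Type} [Fintype ι] [Fintype κ]
variable {Φ : Space3 → ℝ} {ε T s : ℝ} {K : ℕ} {Z : MW ι} {A : MW κ}

/-! ### Influenced particles are in the clean closure -/

/-- Influenced particles are born. -/
theorem born_of_fut (hΦ : AdmissiblePotential Φ) (hε : 0 < ε) {k : ι}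
    (h : Z.Fut Φ ε A s k) : Z.b k ≤ s := by
  cases h with
  | init h0 _ =>
    refine absurd ?_ h0
    rw [MW.path_zero hΦ hε, MW.path_zero hΦ hε]
    rfl
  | new₁ j hj _ _ _ => exact absurd ⟨j, rfl⟩ hj
  | new₂ j _ hc _ hs =>
    have h1 : (Z.add A).b (Sum.inl k) ≤ _ := MW.C_born' hc
    exact h1.trans hs
  | chain₁ _ hc hs => exact (MW.C_born' hc).trans hs
  | chain₂ _ hc hs =>
    have h1 : (Z.add A).b (Sum.inl k) ≤ _ := MW.C_born' hc
    exact h1.trans hs

/-- Particles of the clean closure are born. -/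
theorem born_of_cf (hΦ : AdmissiblePotential Φ) (hε : 0 < ε) {k : ι}
    (h : CF Φ ε K Z A s k) : Z.b k ≤ s := born_of_fut hΦ hε h.fut

/-- Untouched at time `s`: every particle influenced at time `s` is in the clean closure. -/
theorem cf_of_fut (hΦ : AdmissiblePotential Φ) (hε : 0 < ε) (hZ : Z.Ok Φ ε)
    (hZA : (Z.add A).Ok Φ ε) (hs : s ∈ Icc 0 T) (hnt : ¬ Z.Touched Φ ε K A s) {k : ι}
    (h : Z.Fut Φ ε A s k) : CF Φ ε K Z A s k := by
  have hP₁ := hZ.rule 0 T K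
  have hP₂ := hZA.rule 0 T K
  have hcl : ∀ {u : ℝ} {k : ι}, u ≤ s → Z.Fut Φ ε A u k →
      CausalGen291.CleanB 0 (Z.Inf Φ ε K) ((Z.add A).Inf Φ ε K) id Sum.inl u k := by
    intro u k hu hk v hv hvu
    constructor
    · intro hP
      exact hnt (Or.inl ⟨k, CausalGen291.Fut.mono hk hu,
        Or.inl (hP₁.mono hv (hvu.le.trans hu) hs.2 hP)⟩)
    · intro hP
      exact hnt (Or.inl ⟨k, CausalGen291.Fut.mono hk hu,
        Or.inr (hP₂.mono hv (hvu.le.trans hu) hs.2 hP)⟩)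
  have key : ∀ {u : ℝ} {k : ι}, Z.Fut Φ ε A u k → u ≤ s → CF Φ ε K Z A u k := by
    intro u k hk
    induction hk with
    | init h hs => intro _; exact .init h hs
    | new₁ j hj hc h0 hs =>
      intro hu
      exact .new₁ j hj hc h0 hs (hcl (hs.trans hu) (.new₁ j hj hc h0 le_rfl))
    | new₂ j hj hc h0 hs =>
      intro hu
      exact .new₂ j hj hc h0 hs (hcl (hs.trans hu) (.new₂ j hj hc h0 le_rfl))
    | chain₁ h hc hs ih =>
      intro hu
      exact .chain₁ (ih (hs.trans hu)) hc hs (hcl (hs.trans hu) (.chain₁ h hc le_rfl))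
    | chain₂ h hc hs ih =>
      intro hu
      exact .chain₂ (ih (hs.trans hu)) hc hs (hcl (hs.trans hu) (.chain₂ h hc le_rfl))
  exact key h le_rfl

/-- Untouched at time `s`: the touch time is later. -/
theorem lt_theta_of_not_touched (hΦ : AdmissiblePotential Φ) (hε : 0 < ε) (hZ : Z.Ok Φ ε)
    (hZA : (Z.add A).Ok Φ ε) (hs : s ∈ Icc 0 T) (hnt : ¬ Z.Touched Φ ε K A s) :
    s < Z.theta Φ ε K T A := by
  by_contra h
  exact hnt ((touched_iff hΦ hε hZ hZA hs).2 (not_lt.1 h))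

/-! ### Returns -/

/-- Return of the influence of the line `l` to `O` (radius `r`) before the line touches, base world
`Z`. -/
def RetA (Φ : Space3 → ℝ) (ε r : ℝ) (K : ℕ) (u₀ : ℝ) (Z : MW ι) (l : ML) (O : Tubes ξ) : Prop :=
  ∃ v ∈ Icc 0 u₀, ¬ Z.Touched Φ ε K (MW.line l) v ∧
    ∃ i, Z.Fut Φ ε (MW.line l) v i ∧
      (near r O v (Z.path Φ ε v i).1 ∨ near r O v ((Z.ins l).path Φ ε v (Sum.inl i)).1)

/-- Return of the line `l` to `O` (radius `r`), after its birth and before it touches. -/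
def RetB (Φ : Space3 → ℝ) (ε r : ℝ) (K : ℕ) (u₀ : ℝ) (Z : MW ι) (l : ML) (O : Tubes ξ) : Prop :=
  ∃ v ∈ Icc 0 u₀, ¬ Z.Touched Φ ε K (MW.line l) v ∧ l.1.1 < v ∧
    near r O v ((Z.ins l).path Φ ε v (Sum.inr ())).1

theorem retL_iff (hΦ : AdmissiblePotential Φ) (hε : 0 < ε) {m : ℕ} (u₀ : ℝ) (w : Config m) (l : ML)
    (O : Tubes ξ) : RetL Φ ε K u₀ w l O ↔ RetA Φ ε ε K u₀ (MW.cfg w) l O := by
  unfold RetL RetA
  rw [EBasic602.cfg_path hΦ hε]

theorem retM_iff {m : ℕ} (u₀ : ℝ) (w : Config m) (l : ML) (O : Tubes ξ) :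
    RetM Φ ε K u₀ w l O ↔ RetB Φ ε ε K u₀ (MW.cfg w) l O := Iff.rfl

variable {R : J → ℝ → Space3 → Prop} {lab : ι → J} {a : ML} {p : J} {O : Tubes ξ} {r : ℝ}

/-- **No return of the influence.** -/
theorem not_retA (hΦ : AdmissiblePotential Φ) (hε : 0 < ε) (hZ : Z.Ok Φ ε)
    (hZa : (Z.ins a).Ok Φ ε) (h : ReachAll R Φ ε K T Z lab a p)
    (hR : ∀ k v q, v ∈ Icc 0 T → R (lab k) v q → ¬ near r O v q) : ¬ RetA Φ ε r K T Z a O := by
  rintro ⟨v, hv, hnt, i, hi, hn⟩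
  have h1 : CF Φ ε K Z (MW.line a) v i := cf_of_fut hΦ hε hZ hZa hv hnt hi
  have h2 : v ≤ Z.thetaL Φ ε K T a := (lt_theta_of_not_touched hΦ hε hZ hZa hv hnt).le
  have h0 : (Z.add (MW.line a)).b (Sum.inl i) ≤ v := by
    have := born_of_fut hΦ hε hi
    exact this
  have h3 := h v hv h2 (Sum.inl i) (ci_inl h1) h0
  rcases hn with hn | hn
  · exact hR i v _ hv (h3.2 i rfl) hn
  · exact hR i v _ hv h3.1 hn

/-- **No return of the line.** -/
theorem not_retB (hΦ : AdmissiblePotential Φ) (hε : 0 < ε) (hZ : Z.Ok Φ ε)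
    (hZa : (Z.ins a).Ok Φ ε) (h : ReachAll R Φ ε K T Z lab a p)
    (hR : ∀ v q, v ∈ Icc 0 T → a.1.1 < v → R p v q → ¬ near r O v q) :
    ¬ RetB Φ ε r K T Z a O := by
  rintro ⟨v, hv, hnt, hb, hn⟩
  have h2 : v ≤ Z.thetaL Φ ε K T a := (lt_theta_of_not_touched hΦ hε hZ hZa hv hnt).le
  have h3 := h v hv h2 (Sum.inr ()) ci_inr hb.le
  exact hR v _ hv hb h3.1 hn

/-! ### Closed form -/

/-- Return to `O` (radius `r`), closed form: up to (and including) the touch time, clean closure,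
births included; only the world `Z + l` (helper879's (X3)). -/
def RetC (Φ : Space3 → ℝ) (ε r : ℝ) (K : ℕ) (T : ℝ) (Z : MW ι) (l : ML) (O : Tubes ξ) : Prop :=
  ∃ v ∈ Icc 0 T, v ≤ Z.thetaL Φ ε K T l ∧
    ((l.1.1 ≤ v ∧ near r O v ((Z.ins l).path Φ ε v (Sum.inr ())).1) ∨
      ∃ k, CF Φ ε K Z (MW.line l) v k ∧ near r O v ((Z.ins l).path Φ ε v (Sum.inl k)).1)

/-- Closed form, both worlds `Z` and `Z + l`. -/
def RetD (Φ : Space3 → ℝ) (ε r : ℝ) (K : ℕ) (T : ℝ) (Z : MW ι) (l : ML) (O : Tubes ξ) : Prop :=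
  ∃ v ∈ Icc 0 T, v ≤ Z.thetaL Φ ε K T l ∧
    ((l.1.1 ≤ v ∧ near r O v ((Z.ins l).path Φ ε v (Sum.inr ())).1) ∨
      ∃ k, CF Φ ε K Z (MW.line l) v k ∧ (near r O v ((Z.ins l).path Φ ε v (Sum.inl k)).1 ∨
        near r O v (Z.path Φ ε v k).1))

theorem retC_retD {l : ML} {u₀ : ℝ} (h : RetC Φ ε r K u₀ Z l O) : RetD Φ ε r K u₀ Z l O := by
  obtain ⟨v, hv, hle, h⟩ := h
  exact ⟨v, hv, hle, h.imp id fun ⟨k, h1, h2⟩ => ⟨k, h1, Or.inl h2⟩⟩

/-- **No return**, closed form. -/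
theorem not_retD (hΦ : AdmissiblePotential Φ) (hε : 0 < ε) (h : ReachAll R Φ ε K T Z lab a p)
    (hR : ∀ k v q, v ∈ Icc 0 T → R (lab k) v q → ¬ near r O v q)
    (hR' : ∀ v q, v ∈ Icc 0 T → a.1.1 ≤ v → R p v q → ¬ near r O v q) :
    ¬ RetD Φ ε r K T Z a O := by
  rintro ⟨v, hv, hle, ⟨hb, hn⟩ | ⟨k, hk, hn⟩⟩
  · exact hR' v _ hv hb (h v hv hle (Sum.inr ()) ci_inr hb).1 hn
  · have h0 : (Z.add (MW.line a)).b (Sum.inl k) ≤ v := by
      have := born_of_cf hΦ hε hk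
      exact this
    have h3 := h v hv hle (Sum.inl k) (ci_inl hk) h0
    rcases hn with hn | hn
    · exact hR k v _ hv h3.1 hn
    · exact hR k v _ hv (h3.2 k rfl) hn




end

end Crest.Agent.R122.LNEv383
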