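import Crest.Agent.R122.CausalGenInf_291
import Crest.Agent.R122.InfRule_879

/-!
# The infection rule with marks is a rule of helper291's abstract calculus (row 122, section E)

* `cut C T`: contacts of different particles at the times of `[0, T]`; explorations between times of `[0, T]` are
  the same for `C` and `cut C T`.
* `isRule_infdG`: under relative closedness of contacts, `Infd C m K` is an `IsRule` of
  `CausalGenInf_291` on every window `[a, T]`, `0 ≤ a`.
* `msize_eq_of_histEqG`, `infd_iff_of_histEqG`: coherence.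
* `infd_alternative_Icc`, `msizePre_le_iff`, `msize_le_sum_pre_Icc`: relative versions of the
  alternative at an infection time.
-/

set_option autoImplicit false
set_option linter.unusedSectionVars false

open Set Filter Topology
open Crest.Agent.R122.Causal291

namespace Crest.Agent.R122.Inf879

section cut

variable {ι : Type*} {C : ℝ → ι → ι → Prop} {T : ℝ}

/-- The contacts of different particles during `[0, T]`. -/
def cut (C : ℝ → ι → ι → Prop) (T : ℝ) : ℝ → ι → ι → Prop :=
  fun s j k => j ≠ k ∧ s ∈ Icc 0 T ∧ C s j k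

theorem isClosed_cut (hC : ∀ j k, j ≠ k → IsClosed {s | s ∈ Icc 0 T ∧ C s j k}) (j k : ι) :
    IsClosed {s | cut C T s j k} := by
  by_cases hjk : j = k
  · have : {s | cut C T s j k} = ∅ := by
      ext s
      simp only [cut, mem_ofPred_eq, mem_empty_iff_false, iff_false]
      exact fun h => h.1 hjk
    rw [this]
    exact isClosed_empty
  · have : {s | cut C T s j k} = {s | s ∈ Icc 0 T ∧ C s j k} := by
      ext s
      simp only [cut, mem_ofPred_eq]
      exact ⟨fun h => h.2, fun h => ⟨hjk, h⟩⟩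
    rw [this]
    exact hC j k hjk

theorem past_cut_iff {t s : ℝ} {i k : ι} (hs : 0 ≤ s) (ht : t ≤ T) :
    Past (cut C T) t i s k ↔ Past C t i s k := by
  constructor
  · intro h
    exact h.mono_rel fun _ _ _ h => h.2.2
  · intro h
    induction h with
    | root h => exact .root h
    | @step s s' j k h' hc hs' ih =>
      by_cases hjk : j = k
      · subst hjk
        exact (ih (hs.trans hs')).mono hs'
      · exact .step (ih (hs.trans hs')) ⟨hjk, ⟨hs.trans hs', h'.le.trans ht⟩, hc⟩ hs'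

theorem BC_cut {t : ℝ} (ht : t ≤ T) (i : ι) : BC (cut C T) t i = BC C t i := by
  ext k
  exact past_cut_iff le_rfl ht

theorem pre_cut {σ s : ℝ} (hs : 0 ≤ s) (hσ : σ ≤ T) (j : ι) :
    pre (cut C T) j σ s = pre C j σ s := by
  ext k
  constructor
  · rintro ⟨r, hr, hp⟩
    exact ⟨r, hr, (past_cut_iff hs (hr.2.le.trans hσ)).1 hp⟩
  · rintro ⟨r, hr, hp⟩
    exact ⟨r, hr, (past_cut_iff hs (hr.2.le.trans hσ)).2 hp⟩

variable [Fintype ι] {m : ι → ℕ} {K : ℕ}

theorem msize_cut {t : ℝ} (ht : t ≤ T) (i : ι) : msize (cut C T) m t i = msize C m t i :=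
  msize_congr (BC_cut ht i)

theorem infd_cut {t : ℝ} (ht : t ≤ T) (i : ι) : Infd (cut C T) m K t i ↔ Infd C m K t i := by
  unfold Infd
  rw [msize_cut ht]


/-- Infection times are attained, relative version. -/
theorem isClosed_infd_Icc (hC : ∀ j k, j ≠ k → IsClosed {s | s ∈ Icc 0 T ∧ C s j k}) (a : ℝ) (i : ι) :
    IsClosed {s | s ∈ Icc a T ∧ Infd C m K s i} := by
  have h1 : {s | s ∈ Icc a T ∧ Infd C m K s i} = Icc a T ∩ {s | Infd (cut C T) m K s i} := by
    ext s
    simp only [mem_ofPred_eq, mem_inter_iff]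
    constructor
    · rintro ⟨hs, h⟩
      exact ⟨hs, (infd_cut hs.2 i).2 h⟩
    · rintro ⟨hs, h⟩
      exact ⟨hs, (infd_cut hs.2 i).1 h⟩
  rw [h1]
  exact isClosed_Icc.inter (isClosed_infd (C := cut C T) (isClosed_cut hC) i)

/-- The infection rule is a rule of the abstract calculus. -/
theorem isRule_infdG (hC : ∀ j k, j ≠ k → IsClosed {s | s ∈ Icc 0 T ∧ C s j k}) (a : ℝ) (m : ι → ℕ)
    (K : ℕ) : CausalGen291.IsRule C a T (Infd C m K) where
  hered _ _ _ _ _ _ h hj := hj.of_past h
  closed i := isClosed_infd_Icc hC a i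



/-- The exploration from `(i, t)` as a union over the contact cluster, relative version. -/
theorem Act_eq_biUnion_pre_Icc (hC : ∀ j k, j ≠ k → IsClosed {s | s ∈ Icc 0 T ∧ C s j k}) {t s : ℝ}
    {i : ι} (hs0 : 0 ≤ s) (hs : s < t) (ht : t ≤ T) :
    Act C t i s = ⋃ j ∈ Act C t i t, pre C j t s := by
  have h1 := Act_eq_biUnion_pre (C := cut C T) (isClosed_cut hC) (i := i) hs
  have h2 : ∀ r, 0 ≤ r → Act (cut C T) t i r = Act C t i r := fun r hr => by
    ext k; exact past_cut_iff hr ht
  rw [h2 s hs0, h2 t (hs0.trans hs.le)] at h1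
  rw [h1]
  refine iUnion₂_congr fun j _ => pre_cut hs0 ht j



/-- A particle without contacts during `[0, t]` has the size of its mark. -/
theorem msize_of_no_contact {t : ℝ} {i : ι} (ht : 0 ≤ t)
    (h : ∀ r, 0 ≤ r → r ≤ t → ∀ j, C r i j → j = i) : msize C m t i = m i := by
  classical
  have h1 : BC C t i = {i} := by
    ext k
    constructor
    · intro hk
      have key : ∀ (r : ℝ) (l : ι), Past C t i r l → 0 ≤ r → l = i := by
        intro r l hl
        induction hl with
        | root _ => exact fun _ => rfl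
        | @step r r' l' l hl' hc hrr' ih =>
          intro hr
          have h2 : l' = i := ih (hr.trans hrr')
          subst h2
          exact h r' (hr.trans hrr') hl'.le l hc
      exact key 0 k hk le_rfl
    · rintro rfl
      exact root_mem_BC ht
  unfold msize
  rw [h1]
  simp

end cut

section coh

variable {ι₁ ι₂ κ : Type} {X : Type*} [Fintype ι₁] [Fintype ι₂] [Finite κ]
variable {C₁ : ℝ → ι₁ → ι₁ → Prop} {C₂ : ℝ → ι₂ → ι₂ → Prop}
variable {z₁ : ℝ → ι₁ → X} {z₂ : ℝ → ι₂ → X} {e₁ : κ → ι₁} {e₂ : κ → ι₂}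
variable {m₁ : ι₁ → ℕ} {m₂ : ι₂ → ℕ}

/-- Equal histories give equal sizes. -/
theorem msize_eq_of_histEqG (he₁ : Function.Injective e₁) (he₂ : Function.Injective e₂)
    (hm : ∀ k, m₁ (e₁ k) = m₂ (e₂ k)) {t : ℝ} {i : κ}
    (h : CausalGen291.HistEq C₁ z₁ C₂ z₂ e₁ e₂ t i) :
    msize C₁ m₁ t (e₁ i) = msize C₂ m₂ t (e₂ i) :=
  msize_transport he₁ he₂ (fun j hj => h.sub₁ 0 j le_rfl hj) (fun j hj => h.sub₂ 0 j le_rfl hj)
    (fun k => h.iff 0 k le_rfl) fun k _ => hm k

/-- Equal histories give equal infection status. -/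
theorem infd_iff_of_histEqG (he₁ : Function.Injective e₁) (he₂ : Function.Injective e₂)
    (hm : ∀ k, m₁ (e₁ k) = m₂ (e₂ k)) {t : ℝ} {i : κ}
    (h : CausalGen291.HistEq C₁ z₁ C₂ z₂ e₁ e₂ t i) (K : ℕ) :
    Infd C₁ m₁ K t (e₁ i) ↔ Infd C₂ m₂ K t (e₂ i) := by
  unfold Infd
  rw [msize_eq_of_histEqG he₁ he₂ hm h]

end coh

end Crest.Agent.R122.Inf879
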