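import Crest.Agent.R122.EDefs_602
import Crest.Agent.R122.BPair_45
import Crest.Agent.R122.InfGen_879
import Crest.Agent.R122.CausalGenFour_291

/-!
# Marked worlds: the abstract causal calculus applied (row 122, section E)

For the marked worlds of `EDefs_602`:

* `MW.Ok Φ ε Z`: the evolution of `Z` is a world with births (`BWorld`), and simultaneously born
  particles separate (`BirthSep`).
* `MW.Com Z₁ Z₂ e₁ e₂`: common part (equal births and marks); `MW.com_add` for `Z`, `Z.add A`.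
* `MW.Com.pair`: the `Pair` of helper291; `MW.Ok.rule`: `IsRule`; `MW.Com.coh`: coherence.
* `MW.touched_iff`: `Z.Touched Φ ε K A s ↔ Z.theta Φ ε K T A ≤ s`; `MW.touched_theta`;
  `MW.theta_le_iff_horizon`; `MW.agree_of_lt_theta`: before the touch time the infection processes
  agree and no influenced particle is infected.
* `MW.not_fut_of_no_contact`, `MW.not_touched_of_no_contact`, `MW.birth_le_theta`.
* `MW.touched_of_contact`, `MW.touched_of_inf_new`: direct touches.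
* `MW.four`, `MW.four_dyn`, `MW.four_status`: the four worlds `Z`, `Z+A`, `Z+B`, `Z+A+B`.
-/

set_option autoImplicit false
set_option linter.unusedSectionVars false

open MeasureTheory Set Filter Topology
open scoped ENNReal
open Crest.AnalysisR.Kinetic
open Crest.Agent.R122.Flow671 Crest.Agent.R122.Ins45 Crest.Agent.R122.Causal291
open Crest.Agent.R122.Inf879 Crest.Agent.R122.GC311

namespace Crest.Agent.R122.EDefs602

namespace MW

variable {ι ι₁ ι₂ κ κ₁ κ₂ : Type} [Fintype ι] [Fintype ι₁] [Fintype ι₂] [Fintype κ] [Fintype κ₁]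
  [Fintype κ₂]
variable {Φ : Space3 → ℝ} {ε T a s : ℝ} {K : ℕ}

/-- Good marked world: the evolution is a world with births, and particles born at the same instant
separate. -/
structure Ok (Φ : Space3 → ℝ) (ε : ℝ) (Z : MW ι) : Prop where
  bw : BWorld Φ ε Z.b 0 (Z.path Φ ε)
  sep : BirthSep Z.b (Z.path Φ ε) ε

theorem path_zero (hΦ : AdmissiblePotential Φ) (hε : 0 < ε) (Z : MW ι) :
    Z.path Φ ε 0 = Z.z := evo_self hΦ hε _ _ _

theorem C_symm (Z : MW ι) {j k : ι} (h : Z.C Φ ε s j k) : Z.C Φ ε s k j := CtB.symm h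

theorem C_born {Z : MW ι} {j k : ι} (h : Z.C Φ ε s j k) : Z.b j ≤ s := CtB.born h

theorem C_born' {Z : MW ι} {j k : ι} (h : Z.C Φ ε s j k) : Z.b k ≤ s := CtB.born' h

theorem Ok.closed {Z : MW ι} (h : Z.Ok Φ ε) (T : ℝ) (j k : ι) :
    IsClosed {s | s ∈ Icc 0 T ∧ Z.C Φ ε s j k} :=
  isClosed_ctB_Icc (fun i => (h.bw.cont_pos i).mono Icc_subset_Ici_self) h.sep j k

/-- The infection of a good world is a rule. -/
theorem Ok.rule {Z : MW ι} (h : Z.Ok Φ ε) (a T : ℝ) (K : ℕ) :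
    CausalGen291.IsRule (Z.C Φ ε) a T (Z.Inf Φ ε K) :=
  isRule_infdG (fun j k _ => h.closed T j k) a Z.m K

/-- Two marked worlds with a common part. -/
structure Com (Z₁ : MW ι₁) (Z₂ : MW ι₂) (e₁ : κ → ι₁) (e₂ : κ → ι₂) : Prop where
  inj₁ : Function.Injective e₁
  inj₂ : Function.Injective e₂
  b : ∀ k, Z₁.b (e₁ k) = Z₂.b (e₂ k)
  m : ∀ k, Z₁.m (e₁ k) = Z₂.m (e₂ k)

theorem Com.symm {Z₁ : MW ι₁} {Z₂ : MW ι₂} {e₁ : κ → ι₁} {e₂ : κ → ι₂} (h : Com Z₁ Z₂ e₁ e₂) :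
    Com Z₂ Z₁ e₂ e₁ := ⟨h.inj₂, h.inj₁, fun k => (h.b k).symm, fun k => (h.m k).symm⟩

/-- `Z` and `Z.add A`. -/
theorem com_add (Z : MW ι) (A : MW κ) : Com Z (Z.add A) id Sum.inl :=
  ⟨Function.injective_id, Sum.inl_injective, fun _ => rfl, fun _ => rfl⟩

theorem Com.pair {Z₁ : MW ι₁} {Z₂ : MW ι₂} {e₁ : κ → ι₁} {e₂ : κ → ι₂} (h : Com Z₁ Z₂ e₁ e₂)
    (hΦ : AdmissiblePotential Φ) (hε : 0 < ε) (h₁ : Z₁.Ok Φ ε) (h₂ : Z₂.Ok Φ ε) (T : ℝ) :
    CausalGen291.Pair T (Z₁.C Φ ε) (Z₁.path Φ ε) (Z₂.C Φ ε) (Z₂.path Φ ε) e₁ e₂ :=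
  BWorld.pair hΦ hε h₁.bw h₂.bw h.inj₁ h.inj₂ h.b h₁.sep h₂.sep T

theorem Com.coh {Z₁ : MW ι₁} {Z₂ : MW ι₂} {e₁ : κ → ι₁} {e₂ : κ → ι₂} (h : Com Z₁ Z₂ e₁ e₂)
    {s : ℝ} {k : κ}
    (hk : CausalGen291.HistEq (Z₁.C Φ ε) (Z₁.path Φ ε) (Z₂.C Φ ε) (Z₂.path Φ ε) e₁ e₂ s k) :
    Z₁.Inf Φ ε K s (e₁ k) ↔ Z₂.Inf Φ ε K s (e₂ k) :=
  infd_iff_of_histEqG h.inj₁ h.inj₂ h.m hk K

variable {Z : MW ι} {A : MW κ}

/-! ### Touch times -/

/-- Touched at time `s` if and only if the touch time is at most `s`. -/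
theorem touched_iff (hΦ : AdmissiblePotential Φ) (hε : 0 < ε) (hZ : Z.Ok Φ ε)
    (hZA : (Z.add A).Ok Φ ε) (hs : s ∈ Icc 0 T) :
    Z.Touched Φ ε K A s ↔ Z.theta Φ ε K T A ≤ s :=
  CausalGen291.touched_iff_theta_le ((com_add Z A).pair hΦ hε hZ hZA T) le_rfl (hZ.rule 0 T K)
    (hZA.rule 0 T K) hs

theorem theta_nonneg (hT : 0 ≤ T) : 0 ≤ Z.theta Φ ε K T A := CausalGen291.le_theta hT

theorem theta_le : Z.theta Φ ε K T A ≤ T + 1 := CausalGen291.theta_le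

/-- The touch time is attained. -/
theorem touched_theta (hΦ : AdmissiblePotential Φ) (hε : 0 < ε) (hZ : Z.Ok Φ ε)
    (hZA : (Z.add A).Ok Φ ε) (hT : 0 ≤ T) (h : Z.theta Φ ε K T A ≤ T) :
    Z.Touched Φ ε K A (Z.theta Φ ε K T A) :=
  (touched_iff hΦ hε hZ hZA ⟨theta_nonneg hT, h⟩).2 le_rfl

/-- Not touched up to `T`: the touch time is `T + 1`. -/
theorem theta_eq_of_not_touched (h : ∀ s ∈ Icc 0 T, ¬ Z.Touched Φ ε K A s) :
    Z.theta Φ ε K T A = T + 1 := by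
  classical
  unfold theta CausalGen291.theta
  rw [if_neg]
  rintro ⟨s, hs, h'⟩
  exact h s hs h'

theorem theta_le_or (hΦ : AdmissiblePotential Φ) (hε : 0 < ε) (hZ : Z.Ok Φ ε)
    (hZA : (Z.add A).Ok Φ ε) : Z.theta Φ ε K T A ≤ T ∨ Z.theta Φ ε K T A = T + 1 := by
  by_cases h : ∃ s ∈ Icc 0 T, Z.Touched Φ ε K A s
  · obtain ⟨s, hs, h⟩ := h
    exact Or.inl (((touched_iff hΦ hε hZ hZA hs).1 h).trans hs.2)
  · push Not at h
    exact Or.inr (theta_eq_of_not_touched h)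

/-- A touch bounds the touch time. -/
theorem theta_le_of_touched (hs : s ∈ Icc 0 T) (h : Z.Touched Φ ε K A s) :
    Z.theta Φ ε K T A ≤ s := by
  classical
  unfold theta CausalGen291.theta
  rw [if_pos ⟨s, hs, h⟩]
  exact csInf_le ⟨0, fun r hr => hr.1.1⟩ ⟨hs, h⟩

/-- Touches persist. -/
theorem Touched.mono (hZ : Z.Ok Φ ε) (hZA : (Z.add A).Ok Φ ε) {s s' : ℝ} (h0 : 0 ≤ s)
    (hss' : s ≤ s') (h : Z.Touched Φ ε K A s) : Z.Touched Φ ε K A s' :=
  CausalGen291.Touched.mono (hZ.rule 0 s' K) (hZA.rule 0 s' K) h0 hss' le_rfl h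

/-- The horizon plays no role. -/
theorem theta_le_iff_horizon (hΦ : AdmissiblePotential Φ) (hε : 0 < ε) (hZ : Z.Ok Φ ε)
    (hZA : (Z.add A).Ok Φ ε) {T' : ℝ} (hs0 : 0 ≤ s) (hsT : s ≤ T) (hsT' : s ≤ T') :
    Z.theta Φ ε K T A ≤ s ↔ Z.theta Φ ε K T' A ≤ s := by
  rw [← touched_iff hΦ hε hZ hZA ⟨hs0, hsT⟩, ← touched_iff hΦ hε hZ hZA ⟨hs0, hsT'⟩]

/-- Before the touch time the infection processes agree and no influenced particle is infected. -/
theorem agree_of_lt_theta (hΦ : AdmissiblePotential Φ) (hε : 0 < ε) (hZ : Z.Ok Φ ε)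
    (hZA : (Z.add A).Ok Φ ε) (hs : s ∈ Icc 0 T) (h : s < Z.theta Φ ε K T A) :
    CausalGen291.AgreeAt (Z.path Φ ε) ((Z.add A).path Φ ε) id Sum.inl (Z.Inf Φ ε K)
      ((Z.add A).Inf Φ ε K) s ∧
    ∀ k, Z.Fut Φ ε A s k → ¬ Z.Inf Φ ε K s k ∧ ¬ (Z.add A).Inf Φ ε K s (Sum.inl k) := by
  have h1 : ¬ Z.Touched Φ ε K A s := fun h' =>
    absurd ((touched_iff hΦ hε hZ hZA hs).1 h') (not_le.2 h)
  exact CausalGen291.agreeAt_of_not_touched ((com_add Z A).pair hΦ hε hZ hZA T)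
    (fun s _ k hk => (com_add Z A).coh hk) le_rfl hs h1

/-- Before the touch time the new particles are not infected. -/
theorem not_inf_new_of_lt_theta (hΦ : AdmissiblePotential Φ) (hε : 0 < ε) (hZ : Z.Ok Φ ε)
    (hZA : (Z.add A).Ok Φ ε) (hs : s ∈ Icc 0 T) (h : s < Z.theta Φ ε K T A) (x : κ) :
    ¬ (Z.add A).Inf Φ ε K s (Sum.inr x) := by
  intro hx
  obtain ⟨k, hk⟩ := (agree_of_lt_theta hΦ hε hZ hZA hs h).1.new₂ _ hx
  cases hk

/-- Before the touch time a particle of `Z` is infected in `Z` if and only if it is infected in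
`Z.add A`. -/
theorem inf_iff_of_lt_theta (hΦ : AdmissiblePotential Φ) (hε : 0 < ε) (hZ : Z.Ok Φ ε)
    (hZA : (Z.add A).Ok Φ ε) (hs : s ∈ Icc 0 T) (h : s < Z.theta Φ ε K T A) (k : ι) :
    Z.Inf Φ ε K s k ↔ (Z.add A).Inf Φ ε K s (Sum.inl k) :=
  (agree_of_lt_theta hΦ hε hZ hZA hs h).1.iff k

/-- A particle which is not influenced has the same state, the same past and the same infection
status. -/
theorem histEq_of_not_fut (hΦ : AdmissiblePotential Φ) (hε : 0 < ε) (hZ : Z.Ok Φ ε)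
    (hZA : (Z.add A).Ok Φ ε) (hs : 0 ≤ s) {k : ι} (h : ¬ Z.Fut Φ ε A s k) :
    CausalGen291.HistEq (Z.C Φ ε) (Z.path Φ ε) ((Z.add A).C Φ ε) ((Z.add A).path Φ ε) id Sum.inl
      s k :=
  CausalGen291.histEq_of_not_fut ((com_add Z A).pair hΦ hε hZ hZA s) ⟨hs, le_rfl⟩ h

theorem path_eq_of_not_fut (hΦ : AdmissiblePotential Φ) (hε : 0 < ε) (hZ : Z.Ok Φ ε)
    (hZA : (Z.add A).Ok Φ ε) (hs : 0 ≤ s) {k : ι} (h : ¬ Z.Fut Φ ε A s k) :
    Z.path Φ ε s k = (Z.add A).path Φ ε s (Sum.inl k) :=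
  CausalGen291.agree_of_not_fut ((com_add Z A).pair hΦ hε hZ hZA s) ⟨hs, le_rfl⟩ h

/-! ### Influence starts with a contact -/

/-- Without contact between `A` and `Z` up to time `s` no particle is influenced. -/
theorem not_fut_of_no_contact (hΦ : AdmissiblePotential Φ) (hε : 0 < ε)
    (h : ∀ r ∈ Icc 0 s, ∀ x k, ¬ (Z.add A).C Φ ε r (Sum.inr x) (Sum.inl k)) (k : ι) :
    ¬ Z.Fut Φ ε A s k := by
  intro hk
  have key : ∀ (r : ℝ) (k : ι), Z.Fut Φ ε A r k → r ≤ s → False := by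
    intro r k hk
    induction hk with
    | @init r k h0 _ =>
      intro _
      refine h0 ?_
      have h1 : Z.path Φ ε 0 = Z.z := path_zero hΦ hε Z
      have h2 : (Z.add A).path Φ ε 0 = (Z.add A).z := path_zero hΦ hε (Z.add A)
      rw [h1, h2]
      rfl
    | new₁ j hj _ _ _ => exact fun _ => hj ⟨j, rfl⟩
    | @new₂ r r' k j hj hc h0 hr =>
      intro hrs
      cases j with
      | inl j => exact hj ⟨j, rfl⟩
      | inr x => exact h r' ⟨h0, hr.trans hrs⟩ x k hc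
    | chain₁ _ _ hr ih => exact fun hrs => ih (hr.trans hrs)
    | chain₂ _ _ hr ih => exact fun hrs => ih (hr.trans hrs)
  exact key s k hk le_rfl


/-- Without contact between `A` and `Z` the pasts of the particles of `A` consist of particles of
`A`. -/
theorem past_new_of_no_contact {t s : ℝ}
    (h : ∀ r ∈ Icc 0 t, ∀ x k, ¬ (Z.add A).C Φ ε r (Sum.inr x) (Sum.inl k)) {x : κ} {j : ι ⊕ κ}
    (hs : 0 ≤ s) (hj : Past ((Z.add A).C Φ ε) t (Sum.inr x) s j) : ∃ y, j = Sum.inr y := by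
  revert hs
  induction hj with
  | root _ => exact fun _ => ⟨x, rfl⟩
  | @step r r' l j hl hc hr ih =>
    intro hs
    obtain ⟨y, rfl⟩ := ih (hs.trans hr)
    cases j with
    | inl k => exact absurd hc (h r' ⟨hs.trans hr, hl.le⟩ y k)
    | inr y' => exact ⟨y', rfl⟩

/-- A set of particles which is not infected by itself has not touched before its first contact. -/
theorem not_touched_of_no_contact (hΦ : AdmissiblePotential Φ) (hε : 0 < ε)
    (h : ∀ r ∈ Icc 0 s, ∀ x k, ¬ (Z.add A).C Φ ε r (Sum.inr x) (Sum.inl k))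
    (hm : ∑ x, A.m x ≤ K) : ¬ Z.Touched Φ ε K A s := by
  rintro (⟨k, hk, _⟩ | ⟨j, hj, _⟩ | ⟨j, hj, hP⟩)
  · exact not_fut_of_no_contact hΦ hε h k hk
  · exact hj ⟨j, rfl⟩
  · cases j with
    | inl j => exact hj ⟨j, rfl⟩
    | inr x =>
      classical
      refine absurd (show K < msize ((Z.add A).C Φ ε) (Z.add A).m s (Sum.inr x) from hP) ?_
      rw [not_lt]
      refine le_trans ?_ hm
      unfold msize
      rw [Fintype.sum_sum_type]
      have h1 : ∑ k : ι, (if (Sum.inl k : ι ⊕ κ) ∈ BC ((Z.add A).C Φ ε) s (Sum.inr x) then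
          (Z.add A).m (Sum.inl k) else 0) = 0 := by
        refine Finset.sum_eq_zero fun k _ => if_neg fun hk => ?_
        obtain ⟨y, hy⟩ := past_new_of_no_contact h le_rfl hk
        cases hy
      rw [h1, zero_add]
      refine Finset.sum_le_sum fun y _ => ?_
      split_ifs
      · exact le_rfl
      · exact Nat.zero_le _

/-- No touch before the births. -/
theorem birth_le_theta (hΦ : AdmissiblePotential Φ) (hε : 0 < ε) (hZ : Z.Ok Φ ε)
    (hZA : (Z.add A).Ok Φ ε) {τ : ℝ} (hτT : τ ≤ T) (hb : ∀ x, τ ≤ A.b x)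
    (hm : ∑ x, A.m x ≤ K) : τ ≤ Z.theta Φ ε K T A ∨ τ < 0 := by
  rcases lt_or_ge τ 0 with h0 | h0
  · exact Or.inr h0
  left
  by_contra hlt
  push Not at hlt
  have hθ0 : 0 ≤ Z.theta Φ ε K T A := theta_nonneg (h0.trans hτT)
  have h1 := touched_theta hΦ hε hZ hZA (h0.trans hτT) (hlt.le.trans hτT)
  refine not_touched_of_no_contact hΦ hε (fun r hr x k hc => ?_) hm h1
  have h2 : (Z.add A).b (Sum.inr x) ≤ r := C_born hc
  have h3 : A.b x ≤ r := h2
  exact absurd (hb x) (not_le.2 (h3.trans_lt (hr.2.trans_lt hlt)))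

/-- First contact: a set of particles which is not infected by itself touches only after a
contact. -/
theorem exists_contact_le_theta (hΦ : AdmissiblePotential Φ) (hε : 0 < ε) (hZ : Z.Ok Φ ε)
    (hZA : (Z.add A).Ok Φ ε) (hT : 0 ≤ T) (h : Z.theta Φ ε K T A ≤ T) (hm : ∑ x, A.m x ≤ K) :
    ∃ r ∈ Icc 0 (Z.theta Φ ε K T A), ∃ x k, (Z.add A).C Φ ε r (Sum.inr x) (Sum.inl k) := by
  by_contra hno
  push Not at hno
  exact not_touched_of_no_contact hΦ hε hno hm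
    (touched_theta hΦ hε hZ hZA hT h)

/-! ### Direct touches -/

/-- A contact of a new particle with an infected one is a touch. -/
theorem touched_of_contact {x : κ} {k : ι} (h0 : 0 ≤ s)
    (hc : (Z.add A).C Φ ε s (Sum.inr x) (Sum.inl k))
    (hk : Z.Inf Φ ε K s k ∨ (Z.add A).Inf Φ ε K s (Sum.inl k)) : Z.Touched Φ ε K A s :=
  Or.inl ⟨k, CausalGen291.Fut.new₂ (Sum.inr x) (by rintro ⟨j, hj⟩; cases hj) hc h0 le_rfl, hk⟩


/-- An infected influenced particle is a touch. -/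
theorem touched_of_fut {k : ι} (hk : Z.Fut Φ ε A s k)
    (h : Z.Inf Φ ε K s k ∨ (Z.add A).Inf Φ ε K s (Sum.inl k)) : Z.Touched Φ ε K A s :=
  Or.inl ⟨k, hk, h⟩

/-! ### Four worlds -/

/-- Contact between a particle of `Z+A` and a particle of `Z+B`, positions taken in the two
worlds. -/
def CX (Φ : Space3 → ℝ) (ε : ℝ) (Z : MW ι) (A : MW κ₁) (B : MW κ₂) (s : ℝ) (x : ι ⊕ κ₁)
    (y : ι ⊕ κ₂) : Prop :=
  (Z.add A).b x ≤ s ∧ (Z.add B).b y ≤ s ∧
    ((Sum.inl x : (ι ⊕ κ₁) ⊕ κ₂) = Sum.elim (Sum.inl ∘ Sum.inl) Sum.inr y ∨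
      (Z.add A).b x < s ∨ (Z.add B).b y < s) ∧
    dist ((Z.add A).path Φ ε s x).1 ((Z.add B).path Φ ε s y).1 ≤ ε

/-- The four worlds `Z`, `Z+A`, `Z+B`, `Z+A+B`. -/
noncomputable def four (Φ : Space3 → ℝ) (ε : ℝ) (Z : MW ι) (A : MW κ₁) (B : MW κ₂) :
    CausalGen291.Four ι (ι ⊕ κ₁) (ι ⊕ κ₂) ((ι ⊕ κ₁) ⊕ κ₂) PhasePoint where
  C₀ := Z.C Φ ε
  CA := (Z.add A).C Φ ε
  CL := (Z.add B).C Φ ε
  C := ((Z.add A).add B).C Φ ε
  CX := CX Φ ε Z A B
  z₀ := Z.path Φ ε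
  zA := (Z.add A).path Φ ε
  zL := (Z.add B).path Φ ε
  z := ((Z.add A).add B).path Φ ε
  eA := Sum.inl
  eL := Sum.inl
  fA := Sum.inl
  fL := Sum.elim (Sum.inl ∘ Sum.inl) Sum.inr
  eA_inj := Sum.inl_injective
  eL_inj := Sum.inl_injective
  fA_inj := Sum.inl_injective
  fL_inj := by
    rintro (x | x) (y | y) h
    · exact congrArg Sum.inl (Sum.inl_injective (Sum.inl_injective h))
    · cases h
    · cases h
    · exact congrArg Sum.inr (Sum.inr_injective h)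
  comm _ := rfl
  cover := by
    rintro (x | x)
    · exact Or.inl ⟨x, rfl⟩
    · exact Or.inr ⟨Sum.inr x, rfl⟩
  pull := by
    rintro x (y | y) h
    · exact ⟨y, Sum.inl_injective h, rfl⟩
    · cases h

theorem com_fL (Z : MW ι) (A : MW κ₁) (B : MW κ₂) :
    Com (Z.add B) ((Z.add A).add B) (id : ι ⊕ κ₂ → ι ⊕ κ₂)
      (Sum.elim (Sum.inl ∘ Sum.inl) Sum.inr) :=
  ⟨Function.injective_id, (four (fun _ => 0) 0 Z A B).fL_inj, (by rintro (x | x) <;> rfl),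
    (by rintro (x | x) <;> rfl)⟩

/-- The dynamical hypotheses of the four worlds. -/
theorem four_dyn (hΦ : AdmissiblePotential Φ) (hε : 0 < ε) {Z : MW ι} {A : MW κ₁} {B : MW κ₂}
    (hZ : Z.Ok Φ ε) (hA : (Z.add A).Ok Φ ε) (hB : (Z.add B).Ok Φ ε)
    (hAB : ((Z.add A).add B).Ok Φ ε) (T : ℝ) : (four Φ ε Z A B).Dyn T where
  p₀A := (com_add Z A).pair hΦ hε hZ hA T
  p₀L := (com_add Z B).pair hΦ hε hZ hB T
  pA := (com_add (Z.add A) B).pair hΦ hε hA hAB T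
  pL := (com_fL Z A B).pair hΦ hε hB hAB T
  initA x := by
    change (Z.add A).path Φ ε 0 x = ((Z.add A).add B).path Φ ε 0 (Sum.inl x)
    rw [path_zero hΦ hε, path_zero hΦ hε]
    rfl
  initL y := by
    change (Z.add B).path Φ ε 0 y =
      ((Z.add A).add B).path Φ ε 0 (Sum.elim (Sum.inl ∘ Sum.inl) Sum.inr y)
    rw [path_zero hΦ hε, path_zero hΦ hε]
    cases y <;> rfl
  cohX s _ x y hx hy hc := by
    obtain ⟨h1, h2, h3, h4⟩ := hc
    have hbx : ((Z.add A).add B).b (Sum.inl x) = (Z.add A).b x := rfl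
    have hby : ((Z.add A).add B).b (Sum.elim (Sum.inl ∘ Sum.inl) Sum.inr y) = (Z.add B).b y := by
      cases y <;> rfl
    have hx' : (Z.add A).path Φ ε s x = ((Z.add A).add B).path Φ ε s (Sum.inl x) := hx
    have hy' : (Z.add B).path Φ ε s y =
        ((Z.add A).add B).path Φ ε s (Sum.elim (Sum.inl ∘ Sum.inl) Sum.inr y) := hy
    refine ⟨hbx ▸ h1, hby ▸ h2, ?_, ?_⟩
    · rcases h3 with h3 | h3 | h3
      · exact Or.inl h3
      · exact Or.inr (Or.inl (hbx ▸ h3))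
      · exact Or.inr (Or.inr (hby ▸ h3))
    · rw [hx', hy']
      exact h4

/-- The infection status is coherent in the four worlds. -/
theorem four_status (Φ : Space3 → ℝ) (ε : ℝ) (K : ℕ) (Z : MW ι) (A : MW κ₁) (B : MW κ₂)
    (a T : ℝ) : (four Φ ε Z A B).Status a T (Z.Inf Φ ε K) ((Z.add A).Inf Φ ε K)
      ((Z.add B).Inf Φ ε K) (((Z.add A).add B).Inf Φ ε K) where
  coh₀A _ _ _ h := (com_add Z A).coh h
  coh₀L _ _ _ h := (com_add Z B).coh h
  cohA _ _ _ h := (com_add (Z.add A) B).coh h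
  cohL _ _ _ h := (com_fL Z A B).coh h

end MW

end Crest.Agent.R122.EDefs602
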