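import Crest.Agent.R122.Weight2_984
import Crest.Agent.R122.EDefs_602

-- ▼ part R122/Decomp3_811
section

/-!
# Section E, inequality 3: the deterministic case list (row 122, H4/H5), helper811

Touch times are real numbers (`T + 1` = never, as in 291's `theta`).

* `W1 zA zB zAB` : closed-end world consistency for `zA = θ(Z, A)`, `zB = θ(Z, B)`,
  `zAB = θ(Z + A, B)` (E_FINAL (1.5)); equivalent to (S2), (S3) below, and to
  `∀ s ≤ zA, (zAB ≤ s ↔ zB ≤ s)`; it implies (S1).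
* `Times` : the touch times which occur in E6 for a contact of the second line `e` with a fresh
  clean cluster `D₂` (`L` = its lines, `E` = its exits, `c` = its root line), `w = w₂ + L`.
* `Times.Facts` : what the deterministic theory gives off LINK.
* `Times.cases3` : the trichotomy (A), (B), (C) of E6 in 285's form: ties are allowed, no tie is
  excluded.
* `Times.cases3_weight` : the same with the comparison of the weights
  `min (W_w(θ₁) inclusive, W_{w+d}(θ₂ -) left limit)`.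
-/

set_option autoImplicit false

open MeasureTheory Set
open scoped ENNReal

namespace Crest.Agent.R122.Decomp811

/-- Closed-end world consistency: `zA = θ(Z, A)`, `zB = θ(Z, B)`, `zAB = θ(Z + A, B)`. -/
structure W1 (zA zB zAB : ℝ) : Prop where
  eq : zB ≤ zA → zAB = zB
  lt : zA < zB → zA < zAB

namespace W1

variable {zA zB zAB : ℝ}

theorem iff_le (h : W1 zA zB zAB) {s : ℝ} (hs : s ≤ zA) : zAB ≤ s ↔ zB ≤ s := by
  rcases le_or_gt zB zA with h1 | h1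
  · rw [h.eq h1]
  · have h2 := h.lt h1
    constructor
    · intro h3; linarith
    · intro h3; linarith


theorem of_iff (h : ∀ s, s ≤ zA → (zAB ≤ s ↔ zB ≤ s)) : W1 zA zB zAB where
  eq h1 := by
    have h2 : zAB ≤ zB := (h zB h1).2 le_rfl
    exact le_antisymm h2 ((h zAB (h2.trans h1)).1 le_rfl)
  lt h1 := by
    by_contra h2
    push Not at h2
    have h3 := (h zAB h2).1 le_rfl
    linarith

/-- From the closed end (S2) and its converse (S3). -/
theorem of_S (s2 : zB ≤ zA → zAB ≤ zB) (s3 : zAB ≤ zA → zB ≤ zAB) : W1 zA zB zAB where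
  eq h1 := le_antisymm (s2 h1) (s3 ((s2 h1).trans h1))
  lt h1 := by
    by_contra h2
    push Not at h2
    have h3 := s3 h2
    linarith

/-- (S1) -/
theorem min_le (h : W1 zA zB zAB) : min zA zB ≤ zAB := by
  rcases le_or_gt zB zA with h1 | h1
  · rw [h.eq h1]; exact min_le_right _ _
  · exact (min_le_left _ _).trans (h.lt h1).le

theorem le_of_le (h : W1 zA zB zAB) (h1 : zAB ≤ zA) : zB ≤ zAB := (h.iff_le h1).1 le_rfl

/-- Smaller horizon. -/
theorem mono {zA' : ℝ} (h : W1 zA zB zAB) (hA : zA' ≤ zA) : W1 zA' zB zAB :=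
  of_iff fun _ hs => h.iff_le (hs.trans hA)

/-- Two steps: `Z → Z + A → Z + A + A'` (`zA' = θ(Z, A')`, `zAA' = θ(Z + A, A')`). -/
theorem trans {zA' zAA' zAA'B : ℝ} (hB : W1 zA zB zAB) (hA' : W1 zA zA' zAA')
    (hAB : W1 zAA' zAB zAA'B) : W1 (min zA zA') zB zAA'B := by
  refine of_iff fun s hs => ?_
  have h1 : s ≤ zA := hs.trans (min_le_left _ _)
  have h2 : s ≤ zA' := hs.trans (min_le_right _ _)
  have h3 : s ≤ zAA' := (le_min h1 h2).trans hA'.min_le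
  rw [hAB.iff_le h3, hB.iff_le h1]

end W1

/-- Touch times of E6. -/
structure Times where
  /-- `θ(w, d)`, `w = w₂ + L` -/
  θ₁ : ℝ
  /-- `θ(w + d, e)` -/
  θ₂ : ℝ
  /-- `θ(w₂, L)` -/
  tL : ℝ
  /-- first touch time of a line of `L` in `w₂` -/
  fA : ℝ
  /-- `θ(w₂, d)` -/
  td : ℝ
  /-- `θ(w₂ + d, E)` -/
  uE : ℝ
  /-- first touch time of an exit in `w₂ + d` -/
  fE : ℝ
  /-- `θ(w₂ + d, L)` -/
  uL : ℝ
  /-- `θ(w₂ + d, c)` -/
  bc : ℝ
  /-- `θ(w₂ + d, e')` -/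
  be : ℝ
  /-- `θ(w₂ + d, c')` -/
  bc' : ℝ
  /-- `θ(Z₀, c)`, `Z₀ = w₂ + d + E` -/
  zc : ℝ
  /-- `θ(Z₀, e')` -/
  ze : ℝ
  /-- `θ(Z₀, c')` -/
  zc' : ℝ
  /-- `θ(Z₀ + e', c')` -/
  zec' : ℝ

/-- What holds off LINK. -/
structure Times.Facts (t : Times) : Prop where
  /-- (1.5) for `Z = w₂`, `A = L`, `B = d` -/
  w_Ld : W1 t.tL t.td t.θ₁
  /-- a family does not touch before its first line (`w₂`, all lines) -/
  fA_le : t.fA ≤ t.tL
  /-- (S1) for `Z = w₂`, `A = d`, `B = ` an exit -/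
  fE_ge : min t.td t.fA ≤ t.fE
  /-- (S1) for `Z = w₂`, `A = d`, `B = c` -/
  bc_ge : min t.td t.fA ≤ t.bc
  /-- a family does not touch before its first line (`w₂ + d`, exits) -/
  fE_le : t.fE ≤ t.uE
  /-- a family does not touch before its first line (`w₂ + d`, exits and root) -/
  uL : min t.fE t.bc ≤ t.uL
  /-- (1.5) for `Z = w₂ + d`, `A = E`, `B = c` -/
  w_Ec : W1 t.uE t.bc t.zc
  /-- (1.5) for `Z = w₂ + d`, `A = E`, `B = e'` -/
  w_Ee : W1 t.uE t.be t.ze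
  /-- (1.5) for `Z = w₂ + d`, `A = E`, `B = c'` -/
  w_Ec' : W1 t.uE t.bc' t.zc'
  /-- (1.5) for `Z = w₂ + d`, `A = E + e'`, `B = c'` -/
  w_ec' : W1 (min t.uE t.be) t.bc' t.zec'
  /-- (1.6): one of the three successors touches not later than `e` -/
  one : min t.zc (min t.ze t.zec') ≤ t.θ₂
  /-- (1.6'): `e` or `c` touches not later than the outgoing successors of `e` (triangle inequality
  for `Z₀`, `Z₀ + c`, `Z₀ + e' + c'`; only the siblings `e'`, `c'` have to be unlinked, NOT `c` and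
  `{e', c'}`); only at times not later than all single touch times in `w₂ + d` -/
  re : t.ze ≤ t.fE → t.ze ≤ t.bc' → min t.θ₂ t.zc ≤ t.ze
  rc' : t.zc' ≤ t.fE → t.zc' ≤ t.be → min t.θ₂ t.zc ≤ t.zc'

namespace Times

variable {t : Times}

/-- **E6, trichotomy.** (A) a line of `D₂` touches `w₂` strictly before `θ₁`; (B) an exit of `D₂`
touches `w₂ + d` strictly before `θ₂`; (C) a successor `k` touches `w₂ + d` at a time in
`[θ₁, θ₂]`, not later than the lines of `D₂`. -/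
theorem cases3 (h : t.Facts) (h12 : t.θ₁ ≤ t.θ₂) :
    (t.fA < t.θ₁) ∨
    (t.td = t.θ₁ ∧ t.θ₁ ≤ t.fA ∧ t.θ₁ ≤ t.fE ∧ t.fE < t.θ₂ ∧ t.fE ≤ t.uL) ∨
    (t.td = t.θ₁ ∧ t.θ₁ ≤ t.fA ∧
      ((t.θ₁ ≤ t.bc ∧ t.bc ≤ t.θ₂ ∧ t.bc ≤ t.uL) ∨
        (t.θ₁ ≤ t.be ∧ t.be ≤ t.θ₂ ∧ t.be ≤ t.uL) ∨
        (t.θ₁ ≤ t.bc' ∧ t.bc' ≤ t.θ₂ ∧ t.bc' ≤ t.uL))) := by
  rcases lt_or_ge t.fA t.θ₁ with hA | hA
  · exact Or.inl hA
  right
  have hAL : t.θ₁ ≤ t.tL := hA.trans h.fA_le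
  -- `θ(w₂, d) = θ₁`
  have htd : t.td = t.θ₁ := by
    rcases le_or_gt t.td t.tL with h1 | h1
    · exact (h.w_Ld.eq h1).symm
    · have := h.w_Ld.lt h1
      linarith
  have hfE : t.θ₁ ≤ t.fE := (le_min htd.ge hA).trans h.fE_ge
  have huE : t.θ₁ ≤ t.uE := hfE.trans h.fE_le
  have hbc : t.θ₁ ≤ t.bc := (le_min htd.ge hA).trans h.bc_ge
  have hzc : t.θ₁ ≤ min t.θ₂ t.zc := le_min h12 ((le_min huE hbc).trans h.w_Ec.min_le)
  obtain ⟨hbe, hbc'⟩ : t.θ₁ ≤ t.be ∧ t.θ₁ ≤ t.bc' := by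
    by_contra hno
    rcases le_total t.be t.bc' with h0 | h0
    · have hlt : t.be < t.θ₁ := by
        by_contra hge
        push Not at hge
        exact hno ⟨hge, hge.trans h0⟩
      have h1 := h.w_Ee.eq (hlt.le.trans huE)
      have h2 := hzc.trans (h.re (by rw [h1]; exact hlt.le.trans hfE) (by rw [h1]; exact h0))
      linarith
    · have hlt : t.bc' < t.θ₁ := by
        by_contra hge
        push Not at hge
        exact hno ⟨hge.trans h0, hge⟩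
      have h1 := h.w_Ec'.eq (hlt.le.trans huE)
      have h2 := hzc.trans (h.rc' (by rw [h1]; exact hlt.le.trans hfE) (by rw [h1]; exact h0))
      linarith
  -- if `θ₂ ≤ uE` then one of the successors touches `w₂ + d` not later than `θ₂`
  have hsucc : t.θ₂ ≤ t.uE → t.bc ≤ t.θ₂ ∨ t.be ≤ t.θ₂ ∨ t.bc' ≤ t.θ₂ := by
    intro hle
    rcases min_le_iff.1 h.one with h2 | h2
    · exact Or.inl ((h.w_Ec.iff_le hle).1 h2)
    · rcases min_le_iff.1 h2 with h3 | h3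
      · exact Or.inr (Or.inl ((h.w_Ee.iff_le hle).1 h3))
      · rcases le_or_gt t.be t.θ₂ with h4 | h4
        · exact Or.inr (Or.inl h4)
        · exact Or.inr (Or.inr ((h.w_ec'.iff_le (le_min hle h4.le)).1 h3))
  -- the smallest of the three successor times
  obtain ⟨m, hm1, hm2, hm3, hm⟩ : ∃ m, m ≤ t.bc ∧ m ≤ t.be ∧ m ≤ t.bc' ∧
      (m = t.bc ∨ m = t.be ∨ m = t.bc') := by
    refine ⟨min t.bc (min t.be t.bc'), min_le_left _ _,
      (min_le_right _ _).trans (min_le_left _ _), (min_le_right _ _).trans (min_le_right _ _), ?_⟩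
    rcases min_choice t.bc (min t.be t.bc') with h1 | h1
    · exact Or.inl h1
    · rcases min_choice t.be t.bc' with h2 | h2
      · exact Or.inr (Or.inl (h1.trans h2))
      · exact Or.inr (Or.inr (h1.trans h2))
  rcases lt_or_ge t.fE m with hB | hC
  · -- (B)
    left
    refine ⟨htd, hA, hfE, ?_, (le_min le_rfl (hB.le.trans hm1)).trans h.uL⟩
    by_contra hle
    push Not at hle
    rcases hsucc (hle.trans h.fE_le) with h1 | h1 | h1 <;> linarith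
  · -- (C)
    right
    have hmθ : m ≤ t.θ₂ := by
      rcases le_or_gt t.fE t.θ₂ with h1 | h1
      · exact hC.trans h1
      · rcases hsucc (h1.le.trans h.fE_le) with h2 | h2 | h2 <;> linarith
    have hmL : m ≤ t.uL := (le_min hC hm1).trans h.uL
    refine ⟨htd, hA, ?_⟩
    rcases hm with rfl | rfl | rfl
    · exact Or.inl ⟨hbc, hmθ, hmL⟩
    · exact Or.inr (Or.inl ⟨hbe, hmθ, hmL⟩)
    · exact Or.inr (Or.inr ⟨hbc', hmθ, hmL⟩)

end Times

/-! ## Weights -/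

section weights

open Crest.Agent.R122.Weight984

variable {Ω : Type*} [MeasurableSpace Ω]

/-- The weight of a touched pair (285): the smaller of the inclusive weight at the first touch and
the left limit at the second touch. -/
noncomputable def om (L : ℝ) (ν : Measure Ω) (τw τwd : Ω → ℝ) (θ₁ θ₂ : ℝ) : ℝ≥0∞ :=
  min (W L (XR ν τw θ₁)) (W L (XRm ν τwd θ₂))

/-- Conclusion (A). -/
def CaseA (L : ℝ) (ν : Measure Ω) (τw τw₂ : Ω → ℝ) (N₂ : Set Ω) (t : Times)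
    (om : ℝ≥0∞) : Prop :=
  t.fA < t.θ₁ ∧ om ≤ W L (XR ν τw t.θ₁) ∧
    W L (XR ν τw t.fA) ≤ W L (XR ν τw₂ t.fA) + ENNReal.ofReal L * ν N₂

/-- Conclusion (B). -/
def CaseB (L : ℝ) (ν : Measure Ω) (τw₂ τw₂d : Ω → ℝ) (N₂ N₃ N₄ : Set Ω) (t : Times)
    (om : ℝ≥0∞) : Prop :=
  t.td = t.θ₁ ∧ t.θ₁ ≤ t.fA ∧ t.θ₁ ≤ t.fE ∧ t.fE < t.θ₂ ∧
    om ≤ min (W L (XR ν τw₂ t.td)) (W L (XR ν τw₂d t.fE)) + ENNReal.ofReal L * (ν N₂ + ν N₄) ∧
    W L (XRm ν τw₂d t.θ₁) ≤ W L (XRm ν τw₂ t.θ₁) + ENNReal.ofReal L * ν N₃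

/-- Conclusion (C) for a successor which touches `w₂ + d` at `b`. -/
def CaseC (L : ℝ) (ν : Measure Ω) (τw₂ τw₂d : Ω → ℝ) (N₂ N₄ : Set Ω) (t : Times)
    (omv : ℝ≥0∞) (b : ℝ) : Prop :=
  t.td = t.θ₁ ∧ t.θ₁ ≤ b ∧ b ≤ t.θ₂ ∧ b ≤ t.uL ∧
    omv ≤ om L ν τw₂ τw₂d t.td b + ENNReal.ofReal L * (ν N₂ + ν N₄)

/-- **E6, trichotomy with weights** (285's form). `τw, τwd, τw₂, τw₂d` = touch times of the test
lines in the worlds `w`, `w + d`, `w₂`, `w₂ + d`; `N₂, N₃, N₄` = link sets of `(w₂; L)`, `(w₂; d)`,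
`(w₂ + d; L)`. -/
theorem Times.cases3_weight {t : Times} (h : t.Facts) (h12 : t.θ₁ ≤ t.θ₂) {ν : Measure Ω}
    {L : ℝ} (hL : 0 < L) {τw τwd τw₂ τw₂d : Ω → ℝ} {N₂ N₃ N₄ : Set Ω}
    (c₂ : Cons1 τw₂ τw t.tL N₂) (c₃ : Cons1 τw₂ τw₂d t.td N₃) (c₄ : Cons1 τw₂d τwd t.uL N₄) :
    CaseA L ν τw τw₂ N₂ t (om L ν τw τwd t.θ₁ t.θ₂) ∨
    CaseB L ν τw₂ τw₂d N₂ N₃ N₄ t (om L ν τw τwd t.θ₁ t.θ₂) ∨
    CaseC L ν τw₂ τw₂d N₂ N₄ t (om L ν τw τwd t.θ₁ t.θ₂) t.bc ∨
    CaseC L ν τw₂ τw₂d N₂ N₄ t (om L ν τw τwd t.θ₁ t.θ₂) t.be ∨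
    CaseC L ν τw₂ τw₂d N₂ N₄ t (om L ν τw τwd t.θ₁ t.θ₂) t.bc' := by
  have hC : ∀ b, t.td = t.θ₁ → t.θ₁ ≤ t.fA → t.θ₁ ≤ b → b ≤ t.θ₂ → b ≤ t.uL →
      CaseC L ν τw₂ τw₂d N₂ N₄ t (om L ν τw τwd t.θ₁ t.θ₂) b := by
    intro b h1 h2 h3 h4 h5
    refine ⟨h1, h3, h4, h5, ?_⟩
    unfold om
    have e1 : W L (XR ν τw t.θ₁) ≤ W L (XR ν τw₂ t.θ₁) + ENNReal.ofReal L * ν N₂ :=
      c₂.W_XR_le hL (h2.trans h.fA_le)
    have e2 : W L (XRm ν τwd t.θ₂) ≤ W L (XRm ν τw₂d b) + ENNReal.ofReal L * ν N₄ :=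
      (W_anti hL.le (XRm_mono h4)).trans (c₄.W_XRm_le hL h5)
    rw [h1, ← min_add_add_right]
    refine min_le_min (e1.trans ?_) (e2.trans ?_)
    · gcongr; exact le_self_add
    · gcongr; exact le_add_self
  rcases t.cases3 h h12 with h1 | ⟨h1, h2, h3, h4, h5⟩ | ⟨h1, h2, h3⟩
  · exact Or.inl ⟨h1, min_le_left _ _, c₂.W_XR_le hL h.fA_le⟩
  · refine Or.inr (Or.inl ⟨h1, h2, h3, h4, ?_, c₃.W_XRm_le hL h1.ge⟩)
    unfold om
    have e1 : W L (XR ν τw t.θ₁) ≤ W L (XR ν τw₂ t.θ₁) + ENNReal.ofReal L * ν N₂ :=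
      c₂.W_XR_le hL (h2.trans h.fA_le)
    have e2 : W L (XRm ν τwd t.θ₂) ≤ W L (XR ν τw₂d t.fE) + ENNReal.ofReal L * ν N₄ :=
      (W_anti hL.le (XR_le_XRm h4)).trans (c₄.W_XR_le hL h5)
    rw [h1, ← min_add_add_right]
    refine min_le_min (e1.trans ?_) (e2.trans ?_)
    · gcongr; exact le_self_add
    · gcongr; exact le_add_self
  · rcases h3 with ⟨h5, h6, h7⟩ | ⟨h5, h6, h7⟩ | ⟨h5, h6, h7⟩
    · exact Or.inr (Or.inr (Or.inl (hC _ h1 h2 h5 h6 h7)))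
    · exact Or.inr (Or.inr (Or.inr (Or.inl (hC _ h1 h2 h5 h6 h7))))
    · exact Or.inr (Or.inr (Or.inr (Or.inr (hC _ h1 h2 h5 h6 h7))))

end weights

end Crest.Agent.R122.Decomp811
end

-- ▼ part R122/Decomp3E_811

/-!
# Section E, inequality 3: case list for the worlds of `EDefs_602` (row 122, H4/H5), helper811

`w₂ : MW ι` = environment, `F : κ → ML` = the marked lines of the fresh cluster `D₂` (root line
`F r`, exits `exF F r`), `d` first line, `e` second line, `e'`, `c'` the outgoing lines of the contact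
of `e` with the root of `D₂`.

The cluster `D₂` itself is present as an arbitrary inserted world `A` (`MW.lines F`, or the real
cluster `MW.cfg V`): only `θ₁, θ₂` and the two sets `badF` of test lines see it. World consistency
for `A` is asked only up to the first touch `firstT` of the single lines `F`.

* `W1E Z A B` : closed-end world consistency for `θ(Z,A), θ(Z,B), θ(Z+A,B)`.
* `E6FactsA` : the deterministic facts (all true off LINK), literally on `MW`;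
  `E6Facts` = the case `A = MW.lines F`.
* `touchP_leA` : `touchP (w₂ + A) d e ≤ (A) + (B) + Σ_k (C_k)`, the pointwise inequality which
  is integrated in E6: the sum over the lines of `D₂` is inside; `touchP_le` = the case
  `A = MW.lines F`.
-/

set_option autoImplicit false

open MeasureTheory Set
open scoped ENNReal
open Crest.AnalysisR.Kinetic
open Crest.Agent.R122.EDefs602 Crest.Agent.R122.Weight984

namespace Crest.Agent.R122.Decomp811

noncomputable section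

open scoped Classical

variable {ι κ lam ξ : Type} [Fintype ι] [Fintype κ] [Fintype lam] [Fintype ξ]

/-- Closed-end world consistency (E_FINAL (1.5)) for the worlds `Z`, `Z + A`, `Z + B`, `Z + A + B`. -/
def W1E (Φ : Space3 → ℝ) (ε : ℝ) (K : ℕ) (T : ℝ) (Z : MW ι) (A : MW κ) (B : MW lam) : Prop :=
  W1 (Z.theta Φ ε K T A) (Z.theta Φ ε K T B) ((Z.add A).theta Φ ε K T B)

/-- The exits of a family of lines with root `r`. -/
def exF (F : κ → ML) (r : κ) : {k : κ // k ≠ r} → ML := fun k => F k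

/-- First touch time of the lines of a family (each line alone in `Z`); `T + 1` = never. -/
def firstT (Φ : Space3 → ℝ) (ε : ℝ) (K : ℕ) (T : ℝ) (Z : MW ι) (F : κ → ML) : ℝ :=
  Finset.univ.fold min (T + 1) (fun k => Z.thetaL Φ ε K T (F k))

theorem firstT_le (Φ : Space3 → ℝ) (ε : ℝ) (K : ℕ) (T : ℝ) (Z : MW ι) (F : κ → ML) (k : κ) :
    firstT Φ ε K T Z F ≤ Z.thetaL Φ ε K T (F k) := by
  unfold firstT
  exact (Finset.fold_min_le (b := T + 1) _).2 (Or.inr ⟨k, Finset.mem_univ _, le_rfl⟩)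

theorem firstT_le_top (Φ : Space3 → ℝ) (ε : ℝ) (K : ℕ) (T : ℝ) (Z : MW ι) (F : κ → ML) :
    firstT Φ ε K T Z F ≤ T + 1 := by
  unfold firstT
  exact (Finset.fold_min_le (b := T + 1) _).2 (Or.inl le_rfl)

theorem le_firstT {Φ : Space3 → ℝ} {ε : ℝ} {K : ℕ} {T : ℝ} {Z : MW ι} {F : κ → ML} {x : ℝ}
    (h0 : x ≤ T + 1) (h : ∀ k, x ≤ Z.thetaL Φ ε K T (F k)) : x ≤ firstT Φ ε K T Z F := by
  unfold firstT
  exact (Finset.le_fold_min (b := T + 1) _).2 ⟨h0, fun k _ => h k⟩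

theorem exists_firstT {Φ : Space3 → ℝ} {ε : ℝ} {K : ℕ} {T : ℝ} {Z : MW ι} {F : κ → ML}
    (h : firstT Φ ε K T Z F < T + 1) : ∃ k, Z.thetaL Φ ε K T (F k) = firstT Φ ε K T Z F := by
  have h1 : firstT Φ ε K T Z F ≤ firstT Φ ε K T Z F := le_rfl
  rcases (Finset.fold_min_le (b := T + 1) _).1 h1 with h2 | ⟨k, _, h2⟩
  · exact absurd h (not_lt.2 h2)
  · exact ⟨k, le_antisymm h2 (firstT_le Φ ε K T Z F k)⟩

/-- Lines linked to `A` in `Z` (complement of the set on which world consistency holds). -/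
def badN (Φ : Space3 → ℝ) (ε : ℝ) (K : ℕ) (T : ℝ) (Z : MW ι) (A : MW κ) : Set ML :=
  {l | ¬ W1E Φ ε K T Z A (MW.line l)}

theorem cons1_badN (Φ : Space3 → ℝ) (ε : ℝ) (K : ℕ) (T : ℝ) (Z : MW ι) (A : MW κ) :
    Cons1 (Z.thetaL Φ ε K T) ((Z.add A).thetaL Φ ε K T) (Z.theta Φ ε K T A)
      (badN Φ ε K T Z A) where
  le l hl hle := by
    have h : W1E Φ ε K T Z A (MW.line l) := by
      by_contra hno
      exact hl hno
    exact (h.eq hle).le

/-- Lines `l` for which world consistency of `Z`, `Z + A` fails before the first touch of the single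
lines `F` in `Z`. -/
def badF (Φ : Space3 → ℝ) (ε : ℝ) (K : ℕ) (T : ℝ) (Z : MW ι) (A : MW ξ) (F : κ → ML) : Set ML :=
  {l | ¬ W1 (firstT Φ ε K T Z F) (Z.thetaL Φ ε K T l) ((Z.add A).thetaL Φ ε K T l)}

theorem cons1_badF (Φ : Space3 → ℝ) (ε : ℝ) (K : ℕ) (T : ℝ) (Z : MW ι) (A : MW ξ)
    (F : κ → ML) :
    Cons1 (Z.thetaL Φ ε K T) ((Z.add A).thetaL Φ ε K T) (firstT Φ ε K T Z F)
      (badF Φ ε K T Z A F) where
  le l hl hle := by
    have h : W1 (firstT Φ ε K T Z F) (Z.thetaL Φ ε K T l) ((Z.add A).thetaL Φ ε K T l) := by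
      by_contra hno
      exact hl hno
    exact (h.eq hle).le


/-- The world `Z₀ = w₂ + d + exits`. -/
def Z0 (w₂ : MW ι) (F : κ → ML) (r : κ) (d : ML) : MW ((ι ⊕ Unit) ⊕ {k : κ // k ≠ r}) :=
  (w₂.ins d).add (MW.lines (exF F r))

/-- Touch times of E6 for `EDefs_602` worlds. -/
def timesA (Φ : Space3 → ℝ) (ε : ℝ) (K : ℕ) (T : ℝ) (w₂ : MW ι) (A : MW ξ) (F : κ → ML) (r : κ)
    (d e e' c' : ML) : Times where
  θ₁ := (w₂.add A).thetaL Φ ε K T d
  θ₂ := ((w₂.add A).ins d).thetaL Φ ε K T e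
  tL := firstT Φ ε K T w₂ F
  fA := firstT Φ ε K T w₂ F
  td := w₂.thetaL Φ ε K T d
  uE := (w₂.ins d).theta Φ ε K T (MW.lines (exF F r))
  fE := firstT Φ ε K T (w₂.ins d) (exF F r)
  uL := firstT Φ ε K T (w₂.ins d) F
  bc := (w₂.ins d).thetaL Φ ε K T (F r)
  be := (w₂.ins d).thetaL Φ ε K T e'
  bc' := (w₂.ins d).thetaL Φ ε K T c'
  zc := (Z0 w₂ F r d).thetaL Φ ε K T (F r)
  ze := (Z0 w₂ F r d).thetaL Φ ε K T e'
  zc' := (Z0 w₂ F r d).thetaL Φ ε K T c'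
  zec' := ((Z0 w₂ F r d).ins e').thetaL Φ ε K T c'

/-- The deterministic facts used in E6, all true off LINK. -/
structure E6FactsA (Φ : Space3 → ℝ) (ε : ℝ) (K : ℕ) (T : ℝ) (w₂ : MW ι) (A : MW ξ) (F : κ → ML)
    (r : κ)
    (d e e' c' : ML) : Prop where
  /-- (1.5) `Z = w₂`, `A`, `B = d`, up to the first touch of the single lines -/
  w_Ld : W1 (firstT Φ ε K T w₂ F) (w₂.thetaL Φ ε K T d) ((w₂.add A).thetaL Φ ε K T d)
  /-- (1.5) `Z = w₂`, `A = d`, `B = ` a line of `D₂` -/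
  w_dk : ∀ k, W1E Φ ε K T w₂ (MW.line d) (MW.line (F k))
  /-- (1.5) `Z = w₂ + d`, `A = exits`, `B = c, e', c'` -/
  w_Ec : W1E Φ ε K T (w₂.ins d) (MW.lines (exF F r)) (MW.line (F r))
  w_Ee : W1E Φ ε K T (w₂.ins d) (MW.lines (exF F r)) (MW.line e')
  w_Ec' : W1E Φ ε K T (w₂.ins d) (MW.lines (exF F r)) (MW.line c')
  /-- (1.5) `Z = w₂ + d`, `A = exits + e'`, `B = c'` -/
  w_ec' : W1 (min ((w₂.ins d).theta Φ ε K T (MW.lines (exF F r)))
      ((w₂.ins d).thetaL Φ ε K T e')) ((w₂.ins d).thetaL Φ ε K T c')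
    (((Z0 w₂ F r d).ins e').thetaL Φ ε K T c')
  /-- a family does not touch before its first line -/
  fE : firstT Φ ε K T (w₂.ins d) (exF F r) ≤
    (w₂.ins d).theta Φ ε K T (MW.lines (exF F r))
  /-- (1.6) one-contact lemma for `e` in `w₂ + lines F + d` -/
  one : min ((Z0 w₂ F r d).thetaL Φ ε K T (F r)) (min ((Z0 w₂ F r d).thetaL Φ ε K T e')
    (((Z0 w₂ F r d).ins e').thetaL Φ ε K T c')) ≤
      ((w₂.add A).ins d).thetaL Φ ε K T e
  /-- (1.6'), with the alternative that `c` touches; only at times not later than all single touch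
  times of the exits and of `e'`, `c'` in `w₂ + d` -/
  re : (Z0 w₂ F r d).thetaL Φ ε K T e' ≤ firstT Φ ε K T (w₂.ins d) (exF F r) →
    (Z0 w₂ F r d).thetaL Φ ε K T e' ≤ (w₂.ins d).thetaL Φ ε K T c' →
    min (((w₂.add A).ins d).thetaL Φ ε K T e) ((Z0 w₂ F r d).thetaL Φ ε K T (F r)) ≤
      (Z0 w₂ F r d).thetaL Φ ε K T e'
  rc' : (Z0 w₂ F r d).thetaL Φ ε K T c' ≤ firstT Φ ε K T (w₂.ins d) (exF F r) →
    (Z0 w₂ F r d).thetaL Φ ε K T c' ≤ (w₂.ins d).thetaL Φ ε K T e' →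
    min (((w₂.add A).ins d).thetaL Φ ε K T e) ((Z0 w₂ F r d).thetaL Φ ε K T (F r)) ≤
      (Z0 w₂ F r d).thetaL Φ ε K T c'



variable {Φ : Space3 → ℝ} {ε : ℝ} {K : ℕ} {T : ℝ} {w₂ : MW ι} {A : MW ξ} {F : κ → ML} {r : κ}
  {d e e' c' : ML}

theorem E6FactsA.facts (h : E6FactsA Φ ε K T w₂ A F r d e e' c') :
    (timesA Φ ε K T w₂ A F r d e e' c').Facts where
  w_Ld := h.w_Ld
  fA_le := le_rfl
  fE_ge := le_firstT ((min_le_right _ _).trans (firstT_le_top ..)) fun k =>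
    (min_le_min_left _ (firstT_le Φ ε K T w₂ F k)).trans (h.w_dk k).min_le
  bc_ge := (min_le_min_left _ (firstT_le Φ ε K T w₂ F r)).trans (h.w_dk r).min_le
  fE_le := h.fE
  uL := by
    refine le_firstT ((min_le_left _ _).trans (firstT_le_top ..)) fun k => ?_
    by_cases hk : k = r
    · subst hk
      exact min_le_right _ _
    · exact (min_le_left _ _).trans (firstT_le Φ ε K T (w₂.ins d) (exF F r) ⟨k, hk⟩)
  w_Ec := h.w_Ec
  w_Ee := h.w_Ee
  w_Ec' := h.w_Ec'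
  w_ec' := h.w_ec'
  one := h.one
  re := h.re
  rc' := h.rc'

/-- Link masses of the comparison of weights. -/
def lk (Φ : Space3 → ℝ) (ε : ℝ) (K : ℕ) (P : EPar) (Z : MW ι) (A : MW ξ) (F : κ → ML) : ℝ≥0∞ :=
  ENNReal.ofReal P.L * lineM P.γ P.ρ K P.te (badF Φ ε K P.te Z A F)

/-- Term (A): `d` touches `w = w₂ + A` strictly after a line of `D₂` touched `w₂`. -/
def termA (Φ : Space3 → ℝ) (ε : ℝ) (K : ℕ) (P : EPar) (w₂ : MW ι) (A : MW ξ) (F : κ → ML)
    (d : ML) : ℝ≥0∞ :=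
  if firstT Φ ε K P.te w₂ F < (w₂.add A).thetaL Φ ε K P.te d ∧
      (w₂.add A).thetaL Φ ε K P.te d ≤ P.te then
    (w₂.add A).W Φ ε K P ((w₂.add A).thetaL Φ ε K P.te d) else 0

/-- Term (B) for a line `k` (an exit of `D₂`): `k` touches `w₂ + d` after `d` touched `w₂`; both
weights are inclusive. -/
def termB (Φ : Space3 → ℝ) (ε : ℝ) (K : ℕ) (P : EPar) (w₂ : MW ι) (d k : ML) : ℝ≥0∞ :=
  if P.tw < w₂.thetaL Φ ε K P.te d ∧
      w₂.thetaL Φ ε K P.te d ≤ (w₂.ins d).thetaL Φ ε K P.te k ∧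
      (w₂.ins d).thetaL Φ ε K P.te k ≤ P.te then
    min (w₂.W Φ ε K P (w₂.thetaL Φ ε K P.te d))
      ((w₂.ins d).W Φ ε K P ((w₂.ins d).thetaL Φ ε K P.te k)) else 0

/-- Indicator of the touch of `d` in the window. -/
def touch1 (Φ : Space3 → ℝ) (ε : ℝ) (K : ℕ) (P : EPar) (w₂ : MW ι) (d : ML) : ℝ≥0∞ :=
  if P.tw < w₂.thetaL Φ ε K P.te d ∧ w₂.thetaL Φ ε K P.te d ≤ P.te then 1 else 0

/-- The weights of `(w₂ + A) + d` and of `(w₂ + d) + A` agree (relabelling). -/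
def RelW (Φ : Space3 → ℝ) (ε : ℝ) (K : ℕ) (T : ℝ) (w₂ : MW ι) (A : MW ξ) (d : ML) : Prop :=
  ∀ l, ((w₂.add A).ins d).thetaL Φ ε K T l =
    ((w₂.ins d).add A).thetaL Φ ε K T l

/-- **E6, pointwise inequality**, for an arbitrary inserted object `A` of `D₂`; the root line may be
replaced by a line `cr` with the same touch time in `w₂ + d` (if this is not later than the touch
times of the exits). -/
theorem touchP_leR {P : EPar} (hL : 0 < P.L) (h : E6FactsA Φ ε K P.te w₂ A F r d e e' c')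
    (hrel : RelW Φ ε K P.te w₂ A d) {cr : ML}
    (hcr : (w₂.ins d).thetaL Φ ε K P.te (F r) ≤ P.te →
      (w₂.ins d).thetaL Φ ε K P.te (F r) ≤ firstT Φ ε K P.te (w₂.ins d) F →
      (w₂.ins d).thetaL Φ ε K P.te cr = (w₂.ins d).thetaL Φ ε K P.te (F r)) :
    (w₂.add A).touchP Φ ε K P d e ≤
      termA Φ ε K P w₂ A F d +
      ∑ k ∈ Finset.univ.filter (fun k => k ≠ r), termB Φ ε K P w₂ d (F k) +
      (w₂.touchP Φ ε K P d cr + w₂.touchP Φ ε K P d e' + w₂.touchP Φ ε K P d c') +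
      (lk Φ ε K P w₂ A F + lk Φ ε K P (w₂.ins d) A F) *
        touch1 Φ ε K P w₂ d := by
  set t := timesA Φ ε K P.te w₂ A F r d e e' c' with ht
  set ν := lineM P.γ P.ρ K P.te with hν
  by_cases hc : P.tw < (w₂.add A).thetaL Φ ε K P.te d ∧
      (w₂.add A).thetaL Φ ε K P.te d ≤
        ((w₂.add A).ins d).thetaL Φ ε K P.te e ∧
      ((w₂.add A).ins d).thetaL Φ ε K P.te e ≤ P.te
  swap
  · have h0 : (w₂.add A).touchP Φ ε K P d e = 0 := by
      unfold MW.touchP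
      rw [if_neg hc]
    rw [h0]
    exact bot_le
  obtain ⟨hc1, hc2, hc3⟩ := hc
  have h12 : t.θ₁ ≤ t.θ₂ := hc2
  have c₂ : Cons1 (w₂.thetaL Φ ε K P.te) ((w₂.add A).thetaL Φ ε K P.te) t.tL
      (badF Φ ε K P.te w₂ A F) := cons1_badF ..
  have c₃ : Cons1 (w₂.thetaL Φ ε K P.te) ((w₂.ins d).thetaL Φ ε K P.te) t.td
      (badN Φ ε K P.te w₂ (MW.line d)) := cons1_badN ..
  have c₄ : Cons1 ((w₂.ins d).thetaL Φ ε K P.te)
      (((w₂.add A).ins d).thetaL Φ ε K P.te) t.uL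
      (badF Φ ε K P.te (w₂.ins d) A F) := by
    have h1 := cons1_badF Φ ε K P.te (w₂.ins d) A F
    refine ⟨fun l hl hle => ?_⟩
    rw [hrel l]
    exact h1.le l hl hle
  have hom : (w₂.add A).touchP Φ ε K P d e =
      om P.L ν ((w₂.add A).thetaL Φ ε K P.te)
        (((w₂.add A).ins d).thetaL Φ ε K P.te) t.θ₁ t.θ₂ := by
    unfold MW.touchP
    rw [if_pos ⟨hc1, hc2, hc3⟩]
    rfl
  rw [hom]
  have hCgen : ∀ (l : ML) (b : ℝ), (b ≤ P.te → b ≤ t.uL →
      (w₂.ins d).thetaL Φ ε K P.te l = b) →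
      CaseC P.L ν (w₂.thetaL Φ ε K P.te) ((w₂.ins d).thetaL Φ ε K P.te)
        (badF Φ ε K P.te w₂ A F) (badF Φ ε K P.te (w₂.ins d) A F) t
        (om P.L ν ((w₂.add A).thetaL Φ ε K P.te)
        (((w₂.add A).ins d).thetaL Φ ε K P.te) t.θ₁ t.θ₂) b →
      om P.L ν ((w₂.add A).thetaL Φ ε K P.te)
        (((w₂.add A).ins d).thetaL Φ ε K P.te) t.θ₁ t.θ₂ ≤
      w₂.touchP Φ ε K P d l + (lk Φ ε K P w₂ A F +
        lk Φ ε K P (w₂.ins d) A F) * touch1 Φ ε K P w₂ d := by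
    rintro l b hb ⟨h1, h2, h3, h0, h4⟩
    have hbl := hb (h3.trans hc3) h0
    subst hbl
    have htd : w₂.thetaL Φ ε K P.te d = (w₂.add A).thetaL Φ ε K P.te d := h1
    have hP : w₂.touchP Φ ε K P d l = om P.L ν (w₂.thetaL Φ ε K P.te)
        ((w₂.ins d).thetaL Φ ε K P.te) t.td ((w₂.ins d).thetaL Φ ε K P.te l) := by
      unfold MW.touchP
      rw [if_pos ⟨by rw [htd]; exact hc1, by rw [htd]; exact h2, h3.trans hc3⟩]
      rfl
    have h1' : touch1 Φ ε K P w₂ d = 1 := by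
      unfold touch1
      rw [if_pos ⟨by rw [htd]; exact hc1, by rw [htd]; exact hc2.trans hc3⟩]
    rw [hP, h1', mul_one]
    refine h4.trans (le_of_eq ?_)
    unfold lk
    rw [← hν, mul_add]
  rcases t.cases3_weight h.facts h12 hL (ν := ν) c₂ c₃ c₄ with h1 | h1 | h1 | h1 | h1
  · -- (A)
    obtain ⟨h2, h3, _⟩ := h1
    have hA : om P.L ν ((w₂.add A).thetaL Φ ε K P.te)
        (((w₂.add A).ins d).thetaL Φ ε K P.te) t.θ₁ t.θ₂ ≤ termA Φ ε K P w₂ A F d := by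
      unfold termA
      rw [if_pos ⟨h2, hc2.trans hc3⟩]
      exact h3
    calc _ ≤ termA Φ ε K P w₂ A F d := hA
      _ ≤ _ := by
        rw [add_assoc, add_assoc]
        exact le_self_add
  · -- (B)
    obtain ⟨h2, h2', h3, h4, h5, _⟩ := h1
    have htd : w₂.thetaL Φ ε K P.te d = (w₂.add A).thetaL Φ ε K P.te d := h2
    have hfT : t.fE ≤ P.te := h4.le.trans hc3
    obtain ⟨⟨k, hkr⟩, hk⟩ := exists_firstT (Z := w₂.ins d) (F := exF F r) (Φ := Φ) (ε := ε)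
      (K := K) (T := P.te) (lt_of_le_of_lt hfT (by linarith))
    have hk' : (w₂.ins d).thetaL Φ ε K P.te (F k) = t.fE := hk
    have hdk : w₂.thetaL Φ ε K P.te d ≤ (w₂.ins d).thetaL Φ ε K P.te (F k) := by
      rw [hk', htd]
      exact h3
    have h1' : touch1 Φ ε K P w₂ d = 1 := by
      unfold touch1
      rw [if_pos ⟨by rw [htd]; exact hc1, by rw [htd]; exact hc2.trans hc3⟩]
    have hB : min (W P.L (XR ν (w₂.thetaL Φ ε K P.te) t.td))
        (W P.L (XR ν ((w₂.ins d).thetaL Φ ε K P.te) t.fE)) ≤ termB Φ ε K P w₂ d (F k) := by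
      unfold termB
      rw [if_pos ⟨by rw [htd]; exact hc1, hdk, hk'.le.trans hfT⟩]
      exact min_le_min le_rfl (W_anti hL.le (XR_mono hk'.le))
    have hsum : termB Φ ε K P w₂ d (F k) ≤
        ∑ k ∈ Finset.univ.filter (fun k => k ≠ r), termB Φ ε K P w₂ d (F k) :=
      Finset.single_le_sum (f := fun k => termB Φ ε K P w₂ d (F k)) (fun _ _ => zero_le)
        (by simp [hkr])
    calc _ ≤ min (W P.L (XR ν (w₂.thetaL Φ ε K P.te) t.td))
            (W P.L (XR ν ((w₂.ins d).thetaL Φ ε K P.te) t.fE)) +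
          ENNReal.ofReal P.L * (ν (badF Φ ε K P.te w₂ A F) +
            ν (badF Φ ε K P.te (w₂.ins d) A F)) := h5
      _ ≤ (∑ k ∈ Finset.univ.filter (fun k => k ≠ r), termB Φ ε K P w₂ d (F k)) +
          (lk Φ ε K P w₂ A F + lk Φ ε K P (w₂.ins d) A F) *
            touch1 Φ ε K P w₂ d := by
          rw [h1', mul_one]
          refine add_le_add (hB.trans hsum) (le_of_eq ?_)
          unfold lk
          rw [← hν, mul_add]
      _ ≤ _ := by
          gcongr ?_ + _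
          rw [add_assoc]
          exact le_add_of_nonneg_of_le zero_le le_self_add
  · have h2 := hCgen cr t.bc (fun h3 h4 => hcr h3 h4) h1
    refine h2.trans ?_
    gcongr ?_ + _
    refine le_trans ?_ le_add_self
    rw [add_assoc]
    exact le_self_add
  · have h2 := hCgen e' t.be (fun _ _ => rfl) h1
    refine h2.trans ?_
    gcongr ?_ + _
    refine le_trans ?_ le_add_self
    exact le_add_self.trans le_self_add
  · have h2 := hCgen c' t.bc' (fun _ _ => rfl) h1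
    refine h2.trans ?_
    gcongr ?_ + _
    exact le_add_self.trans le_add_self



/-- **E6, pointwise inequality for young links**: only (1.5) for `w₂`, `A`, `d`. -/
theorem touchP_le_youngA {P : EPar} (hL : 0 < P.L)
    (w_Ld : W1 (firstT Φ ε K P.te w₂ F) (w₂.thetaL Φ ε K P.te d)
      ((w₂.add A).thetaL Φ ε K P.te d)) :
    (w₂.add A).touchP Φ ε K P d e ≤
      termA Φ ε K P w₂ A F d + w₂.touchW Φ ε K P d +
      lk Φ ε K P w₂ A F * touch1 Φ ε K P w₂ d := by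
  by_cases hc : P.tw < (w₂.add A).thetaL Φ ε K P.te d ∧
      (w₂.add A).thetaL Φ ε K P.te d ≤ ((w₂.add A).ins d).thetaL Φ ε K P.te e ∧
      ((w₂.add A).ins d).thetaL Φ ε K P.te e ≤ P.te
  swap
  · have h0 : (w₂.add A).touchP Φ ε K P d e = 0 := by
      unfold MW.touchP
      rw [if_neg hc]
    rw [h0]
    exact bot_le
  have hc1 := hc.1
  have hc2 := hc.2.1.trans hc.2.2
  have hle : (w₂.add A).touchP Φ ε K P d e ≤
      (w₂.add A).W Φ ε K P ((w₂.add A).thetaL Φ ε K P.te d) := by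
    unfold MW.touchP
    rw [if_pos hc]
    exact min_le_left _ _
  refine hle.trans ?_
  rcases lt_or_ge (firstT Φ ε K P.te w₂ F) ((w₂.add A).thetaL Φ ε K P.te d) with hA | hA
  · have h1 : termA Φ ε K P w₂ A F d =
        (w₂.add A).W Φ ε K P ((w₂.add A).thetaL Φ ε K P.te d) := by
      unfold termA
      rw [if_pos ⟨hA, hc2⟩]
    rw [h1, add_assoc]
    exact le_self_add
  · have hAL : (w₂.add A).thetaL Φ ε K P.te d ≤ firstT Φ ε K P.te w₂ F := hA
    have htd : w₂.thetaL Φ ε K P.te d = (w₂.add A).thetaL Φ ε K P.te d :=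
      le_antisymm (w_Ld.le_of_le hAL) ((w_Ld.eq ((w_Ld.le_of_le hAL).trans hAL)).le)
    have h1 : touch1 Φ ε K P w₂ d = 1 := by
      unfold touch1
      rw [if_pos ⟨by rw [htd]; exact hc1, by rw [htd]; exact hc2⟩]
    have h2 : w₂.touchW Φ ε K P d = w₂.Wm Φ ε K P (w₂.thetaL Φ ε K P.te d) := by
      unfold MW.touchW
      rw [if_pos ⟨by rw [htd]; exact hc1, by rw [htd]; exact hc2⟩]
    have h3 : (w₂.add A).W Φ ε K P ((w₂.add A).thetaL Φ ε K P.te d) ≤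
        w₂.W Φ ε K P ((w₂.add A).thetaL Φ ε K P.te d) + lk Φ ε K P w₂ A F :=
      (cons1_badF Φ ε K P.te w₂ A F).W_XR_le (ν := lineM P.γ P.ρ K P.te) hL hAL
    have h4 : w₂.W Φ ε K P (w₂.thetaL Φ ε K P.te d) ≤
        w₂.Wm Φ ε K P (w₂.thetaL Φ ε K P.te d) :=
      W_anti hL.le (XRm_le_XR _)
    rw [h1, h2, mul_one, add_assoc]
    refine (h3.trans ?_).trans le_add_self
    rw [← htd]
    gcongr


/-- The weight in `w = w₂ + A` at the first touch of the lines, in terms of `w₂` (case (A)). -/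
theorem W_firstT_le {P : EPar} (hL : 0 < P.L) :
    (w₂.add A).W Φ ε K P (firstT Φ ε K P.te w₂ F) ≤
      w₂.W Φ ε K P (firstT Φ ε K P.te w₂ F) + lk Φ ε K P w₂ A F :=
  (cons1_badF Φ ε K P.te w₂ A F).W_XR_le (ν := lineM P.γ P.ρ K P.te) hL le_rfl


end

end Crest.Agent.R122.Decomp811
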