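import Crest.Agent.R122.CausalGenInf_291

/-!
# Triangle inequalities for influences and touch times (row 122, block INS, helper45)

Three worlds `1, 2, 3`. The common part of `1` and `2` is `κ₁₂`, of `2` and `3` is `κ₂₃`, and `κ` is
the pullback (the part common to all three).

* `fut_triangle`: influence(1,3) ⊆ influence(1,2) ∪ influence(2,3), always.
* `touched_triangle`, `theta_triangle`: `θ(1,3) ≥ min (θ(1,2)) (θ(2,3))`, always. In particular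
  `θ(Z, A ∪ B) ≥ min (θ(Z, A)) (θ(Z + A, B))`.
* `fut_of_unlinked_left/right`, `touched_of_unlinked_left/right`: the converse if the two influences
  are disjoint.
-/

set_option autoImplicit false

open Set Filter Topology

namespace Crest.Agent.R122.Ins45

open Crest.Agent.R122.Causal291 Crest.Agent.R122.CausalGen291

variable {ι₁ ι₂ ι₃ κ κ₁₂ κ₂₃ : Type} {X : Type*}
variable {C₁ : ℝ → ι₁ → ι₁ → Prop} {C₂ : ℝ → ι₂ → ι₂ → Prop} {C₃ : ℝ → ι₃ → ι₃ → Prop}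
variable {z₁ : ℝ → ι₁ → X} {z₂ : ℝ → ι₂ → X} {z₃ : ℝ → ι₃ → X}
variable {a₁ : κ₁₂ → ι₁} {a₂ : κ₁₂ → ι₂} {b₂ : κ₂₃ → ι₂} {b₃ : κ₂₃ → ι₃}
variable {i : κ → κ₁₂} {j : κ → κ₂₃} {a T : ℝ}

/-- `κ` is the part common to the worlds `1`, `2` and `3` (pullback). -/
structure Tri (a₂ : κ₁₂ → ι₂) (b₂ : κ₂₃ → ι₂) (i : κ → κ₁₂) (j : κ → κ₂₃) : Prop where
  comm : ∀ k, a₂ (i k) = b₂ (j k)
  pull : ∀ y w, a₂ y = b₂ w → ∃ k, i k = y ∧ j k = w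

theorem Tri.symm (h : Tri a₂ b₂ i j) : Tri b₂ a₂ j i where
  comm k := (h.comm k).symm
  pull y w hyw := by
    obtain ⟨k, h1, h2⟩ := h.pull w y hyw.symm
    exact ⟨k, h2, h1⟩

section one

variable [Finite ι₁] [Finite ι₂] [Finite ι₃]

/-- A contact in the world `1` of a particle common to all worlds which is not influenced by the
passage from `1` to `2`. -/
theorem contact_tri (h12 : Pair T C₁ z₁ C₂ z₂ a₁ a₂) (hT : Tri a₂ b₂ i j) {s : ℝ}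
    (hs : s ∈ Icc 0 T) {k : κ} (hk : ¬ Fut C₁ z₁ C₂ z₂ a₁ a₂ s (i k)) {x : ι₁}
    (hc : C₁ s x (a₁ (i k))) :
    (∃ l, x = a₁ (i l) ∧ ¬ Fut C₁ z₁ C₂ z₂ a₁ a₂ s (i l) ∧ C₂ s (b₂ (j l)) (b₂ (j k))) ∨
      ∃ y, x = a₁ y ∧ ¬ Fut C₁ z₁ C₂ z₂ a₁ a₂ s y ∧ y ∉ range i ∧ a₂ y ∉ range b₂ ∧
        C₂ s (a₂ y) (b₂ (j k)) := by
  obtain ⟨y, rfl, hy, hc2⟩ := contact_of_not_fut₁ h12 hs hk (h12.symm₁ _ _ _ hc)
  have hc2' : C₂ s (a₂ y) (b₂ (j k)) := by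
    rw [← hT.comm]
    exact h12.symm₂ _ _ _ hc2
  by_cases hy2 : a₂ y ∈ range b₂
  · obtain ⟨w, hw⟩ := hy2
    obtain ⟨l, rfl, rfl⟩ := hT.pull y w hw.symm
    exact Or.inl ⟨l, rfl, hy, by rw [← hT.comm l]; exact hc2'⟩
  · refine Or.inr ⟨y, rfl, hy, ?_, hy2, hc2'⟩
    rintro ⟨l, rfl⟩
    exact hy2 ⟨j l, (hT.comm l).symm⟩

/-- **Triangle inequality for influences.** -/
theorem fut_triangle (h12 : Pair T C₁ z₁ C₂ z₂ a₁ a₂) (h23 : Pair T C₂ z₂ C₃ z₃ b₂ b₃)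
    (hT : Tri a₂ b₂ i j) {s : ℝ} (hs : s ≤ T) {k : κ}
    (h : Fut C₁ z₁ C₃ z₃ (fun k => a₁ (i k)) (fun k => b₃ (j k)) s k) :
    Fut C₁ z₁ C₂ z₂ a₁ a₂ s (i k) ∨ Fut C₂ z₂ C₃ z₃ b₂ b₃ s (j k) := by
  induction h with
  | @init s k h h0 =>
    by_cases h' : z₁ 0 (a₁ (i k)) = z₂ 0 (a₂ (i k))
    · refine Or.inr (.init ?_ h0)
      rw [← hT.comm, ← h']
      exact h
    · exact Or.inl (.init h' h0)
  | @new₁ s s' k x hx hc h0 hss' =>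
    by_cases hk : Fut C₁ z₁ C₂ z₂ a₁ a₂ s' (i k)
    · exact Or.inl (hk.mono hss')
    rcases contact_tri h12 hT ⟨h0, hss'.trans hs⟩ hk hc with ⟨l, rfl, _⟩ | ⟨y, _, _, _, hy, hc2⟩
    · exact absurd ⟨l, rfl⟩ hx
    · exact Or.inr (.new₁ _ hy hc2 h0 hss')
  | @new₂ s s' k x hx hc h0 hss' =>
    by_cases hk : Fut C₂ z₂ C₃ z₃ b₂ b₃ s' (j k)
    · exact Or.inr (hk.mono hss')
    rcases contact_tri h23.symm hT.symm ⟨h0, hss'.trans hs⟩ (fun h => hk h.symm) hc with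
      ⟨l, rfl, _⟩ | ⟨y, _, _, _, hy, hc2⟩
    · exact absurd ⟨l, rfl⟩ hx
    · exact Or.inl (.new₂ _ hy hc2 h0 hss')
  | @chain₁ s s' k l hl hc hss' ih =>
    have h0 : 0 ≤ s' := hl.nonneg
    by_cases hk : Fut C₁ z₁ C₂ z₂ a₁ a₂ s' (i k)
    · exact Or.inl (hk.mono hss')
    rcases contact_tri h12 hT ⟨h0, hss'.trans hs⟩ hk hc with ⟨m, hm, hm', hc2⟩ | ⟨y, hy, _, hy', _⟩
    · have hml : i l = i m := h12.inj₁ hm
      rcases ih (hss'.trans hs) with h1 | h1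
      · exact absurd (hml ▸ h1) hm'
      · have hjl : b₂ (j l) = b₂ (j m) := by rw [← hT.comm, ← hT.comm, hml]
        refine Or.inr (.chain₁ h1 ?_ hss')
        rw [hjl]
        exact hc2
    · exact absurd ⟨l, (h12.inj₁ hy)⟩ hy'
  | @chain₂ s s' k l hl hc hss' ih =>
    have h0 : 0 ≤ s' := hl.nonneg
    by_cases hk : Fut C₂ z₂ C₃ z₃ b₂ b₃ s' (j k)
    · exact Or.inr (hk.mono hss')
    rcases contact_tri h23.symm hT.symm ⟨h0, hss'.trans hs⟩ (fun h => hk h.symm) hc with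
      ⟨m, hm, hm', hc2⟩ | ⟨y, hy, _, hy', _⟩
    · have hml : j l = j m := h23.inj₂ hm
      rcases ih (hss'.trans hs) with h1 | h1
      · have hjl : a₂ (i l) = a₂ (i m) := by rw [hT.comm, hT.comm, hml]
        refine Or.inl (.chain₂ h1 ?_ hss')
        rw [hjl]
        exact hc2
      · exact absurd (hml ▸ h1.symm) hm'
    · exact absurd ⟨l, (h23.inj₂ hy)⟩ hy'

/-- If the two influences are disjoint, the influence from `1` to `2` is part of the influence from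
`1` to `3`. -/
theorem fut_of_unlinked_left (h12 : Pair T C₁ z₁ C₂ z₂ a₁ a₂) (h23 : Pair T C₂ z₂ C₃ z₃ b₂ b₃)
    (hT : Tri a₂ b₂ i j) {S : ℝ} (hS : S ≤ T)
    (hd : ∀ s ≤ S, ∀ k, Fut C₁ z₁ C₂ z₂ a₁ a₂ s (i k) → ¬ Fut C₂ z₂ C₃ z₃ b₂ b₃ s (j k)) {s : ℝ}
    (hs : s ≤ S) {k : κ} (h : Fut C₁ z₁ C₂ z₂ a₁ a₂ s (i k)) :
    Fut C₁ z₁ C₃ z₃ (fun k => a₁ (i k)) (fun k => b₃ (j k)) s k := by
  generalize hy : i k = y at h
  induction h generalizing k with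
  | @init s y h h0 =>
    subst hy
    refine .init ?_ h0
    have h1 := agree_of_not_fut h23 ⟨h0, hs.trans hS⟩
      (hd s hs k (.init h h0))
    have h2 : z₂ 0 (b₂ (j k)) = z₃ 0 (b₃ (j k)) :=
      agree_of_not_fut h23 ⟨le_rfl, h0.trans (hs.trans hS)⟩
        (hd 0 (h0.trans hs) k (.init h le_rfl))
    change z₁ 0 (a₁ (i k)) ≠ z₃ 0 (b₃ (j k))
    rw [← h2, ← hT.comm]
    exact h
  | @new₁ s s' y x hx hc h0 hss' =>
    subst hy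
    refine .new₁ x ?_ hc h0 hss'
    rintro ⟨l, rfl⟩
    exact hx ⟨i l, rfl⟩
  | @new₂ s s' y x hx hc h0 hss' =>
    subst hy
    have hk := hd s' (hss'.trans hs) k (.new₂ x hx hc h0 le_rfl)
    rw [hT.comm] at hc
    obtain ⟨w, rfl, _, hc3⟩ := contact_of_not_fut₁ h23 ⟨h0, (hss'.trans hs).trans hS⟩ hk
      (h23.symm₁ _ _ _ hc)
    refine .new₂ (b₃ w) ?_ (h23.symm₂ _ _ _ hc3) h0 hss'
    rintro ⟨l, hl⟩
    have := h23.inj₂ hl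
    exact hx ⟨i l, by rw [hT.comm, this]⟩
  | @chain₁ s s' y x hx hc hss' ih =>
    subst hy
    have h0 : 0 ≤ s' := hx.nonneg
    by_cases hxr : x ∈ range i
    · obtain ⟨l, rfl⟩ := hxr
      exact .chain₁ (ih (hss'.trans hs) rfl) hc hss'
    · refine .new₁ (a₁ x) ?_ hc h0 hss'
      rintro ⟨l, hl⟩
      exact hxr ⟨l, h12.inj₁ hl⟩
  | @chain₂ s s' y x hx hc hss' ih =>
    subst hy
    have h0 : 0 ≤ s' := hx.nonneg
    have hk := hd s' (hss'.trans hs) k (.chain₂ hx hc le_rfl)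
    rw [hT.comm] at hc
    obtain ⟨w, hw, _, hc3⟩ := contact_of_not_fut₁ h23 ⟨h0, (hss'.trans hs).trans hS⟩ hk
      (h23.symm₁ _ _ _ hc)
    obtain ⟨l, rfl, rfl⟩ := hT.pull x w hw.symm
    exact .chain₂ (ih (hss'.trans hs) rfl) (h23.symm₂ _ _ _ hc3) hss'


end one

/-! ### Touches -/

section touch

variable [Finite ι₁] [Finite ι₂] [Finite ι₃]
variable {P₁ : ℝ → ι₁ → Prop} {P₂ : ℝ → ι₂ → Prop} {P₃ : ℝ → ι₃ → Prop}

/-- **Triangle inequality for touches.** -/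
theorem touched_triangle (h12 : Pair T C₁ z₁ C₂ z₂ a₁ a₂) (h23 : Pair T C₂ z₂ C₃ z₃ b₂ b₃)
    (hT : Tri a₂ b₂ i j) {s : ℝ} (hs : s ∈ Icc 0 T)
    (hcoh12 : ∀ k, HistEq C₁ z₁ C₂ z₂ a₁ a₂ s k → (P₁ s (a₁ k) ↔ P₂ s (a₂ k)))
    (hcoh23 : ∀ k, HistEq C₂ z₂ C₃ z₃ b₂ b₃ s k → (P₂ s (b₂ k) ↔ P₃ s (b₃ k)))
    (h : Touched C₁ z₁ C₃ z₃ (fun k => a₁ (i k)) (fun k => b₃ (j k)) P₁ P₃ s) :
    Touched C₁ z₁ C₂ z₂ a₁ a₂ P₁ P₂ s ∨ Touched C₂ z₂ C₃ z₃ b₂ b₃ P₂ P₃ s := by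
  rcases h with ⟨k, hk, hP⟩ | ⟨x, hx, hP⟩ | ⟨x, hx, hP⟩
  · rcases fut_triangle h12 h23 hT hs.2 hk with h1 | h1
    · rcases hP with hP | hP
      · exact Or.inl (Or.inl ⟨i k, h1, Or.inl hP⟩)
      · by_cases h2 : Fut C₂ z₂ C₃ z₃ b₂ b₃ s (j k)
        · exact Or.inr (Or.inl ⟨j k, h2, Or.inr hP⟩)
        · have h3 := (hcoh23 _ (histEq_of_not_fut h23 hs h2)).2 hP
          rw [← hT.comm] at h3
          exact Or.inl (Or.inl ⟨i k, h1, Or.inr h3⟩)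
    · rcases hP with hP | hP
      · by_cases h2 : Fut C₁ z₁ C₂ z₂ a₁ a₂ s (i k)
        · exact Or.inl (Or.inl ⟨i k, h2, Or.inl hP⟩)
        · have h3 := (hcoh12 _ (histEq_of_not_fut h12 hs h2)).1 hP
          rw [hT.comm] at h3
          exact Or.inr (Or.inl ⟨j k, h1, Or.inl h3⟩)
      · exact Or.inr (Or.inl ⟨j k, h1, Or.inr hP⟩)
  · by_cases hxr : x ∈ range a₁
    · obtain ⟨y, rfl⟩ := hxr
      by_cases h2 : Fut C₁ z₁ C₂ z₂ a₁ a₂ s y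
      · exact Or.inl (Or.inl ⟨y, h2, Or.inl hP⟩)
      · have h3 := (hcoh12 _ (histEq_of_not_fut h12 hs h2)).1 hP
        refine Or.inr (Or.inr (Or.inl ⟨a₂ y, ?_, h3⟩))
        rintro ⟨w, hw⟩
        obtain ⟨l, rfl, _⟩ := hT.pull y w hw.symm
        exact hx ⟨l, rfl⟩
    · exact Or.inl (Or.inr (Or.inl ⟨x, hxr, hP⟩))
  · by_cases hxr : x ∈ range b₃
    · obtain ⟨w, rfl⟩ := hxr
      by_cases h2 : Fut C₂ z₂ C₃ z₃ b₂ b₃ s w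
      · exact Or.inr (Or.inl ⟨w, h2, Or.inr hP⟩)
      · have h3 := (hcoh23 _ (histEq_of_not_fut h23 hs h2)).2 hP
        refine Or.inl (Or.inr (Or.inr ⟨b₂ w, ?_, h3⟩))
        rintro ⟨y, hy⟩
        obtain ⟨l, _, rfl⟩ := hT.pull y w hy
        exact hx ⟨l, rfl⟩
    · exact Or.inr (Or.inr (Or.inr ⟨x, hxr, hP⟩))


/-- If the influences are disjoint and every particle of the world `2` is common to all three
worlds, then a touch from `1` to `2` is a touch from `1` to `3`. -/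
theorem touched_of_unlinked_left (h12 : Pair T C₁ z₁ C₂ z₂ a₁ a₂)
    (h23 : Pair T C₂ z₂ C₃ z₃ b₂ b₃) (hT : Tri a₂ b₂ i j) {s : ℝ} (hs : s ∈ Icc 0 T)
    (hd : ∀ s' ≤ s, ∀ k, Fut C₁ z₁ C₂ z₂ a₁ a₂ s' (i k) → ¬ Fut C₂ z₂ C₃ z₃ b₂ b₃ s' (j k))
    (hi : Function.Surjective i)
    (hnew : ∀ x, x ∉ range a₂ → P₂ s x →
      ∃ w, x = b₂ w ∧ ¬ Fut C₂ z₂ C₃ z₃ b₂ b₃ s w)
    (hcoh23 : ∀ k, HistEq C₂ z₂ C₃ z₃ b₂ b₃ s k → (P₂ s (b₂ k) ↔ P₃ s (b₃ k)))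
    (h : Touched C₁ z₁ C₂ z₂ a₁ a₂ P₁ P₂ s) :
    Touched C₁ z₁ C₃ z₃ (fun k => a₁ (i k)) (fun k => b₃ (j k)) P₁ P₃ s := by
  rcases h with ⟨y, hy, hP⟩ | ⟨x, hx, hP⟩ | ⟨x, hx, hP⟩
  · obtain ⟨k, rfl⟩ := hi y
    refine Or.inl ⟨k, fut_of_unlinked_left h12 h23 hT hs.2 hd le_rfl hy, ?_⟩
    refine hP.imp id fun hP => ?_
    rw [hT.comm] at hP
    exact (hcoh23 _ (histEq_of_not_fut h23 hs (hd s le_rfl k hy))).1 hP
  · refine Or.inr (Or.inl ⟨x, ?_, hP⟩)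
    rintro ⟨l, rfl⟩
    exact hx ⟨i l, rfl⟩
  · obtain ⟨w, rfl, hw⟩ := hnew x hx hP
    refine Or.inr (Or.inr ⟨b₃ w, ?_, (hcoh23 _ (histEq_of_not_fut h23 hs hw)).1 hP⟩)
    rintro ⟨l, hl⟩
    have := h23.inj₂ hl
    exact hx ⟨i l, by rw [hT.comm, this]⟩


end touch

end Crest.Agent.R122.Ins45
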