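import Crest.Agent.R122.CausalW1_291
import Crest.Agent.R122.Triangle_45

/-!
# Two inserted groups without clean link: the union (row 122, block A8)

Four worlds `Z`, `Z+A`, `Z+L`, `Z+A+L` of `CausalGenFour_291`, clean links of `CausalW1_291`.
Hypotheses: neither `A` nor `L` has touched `Z` before `s`, no clean link up to and including `s`.

* `touched_union_iff`: `A ∪ L` touches `Z` at `s` iff `A` touches `Z` at `s` or `L` touches `Z` at
  `s`.
* `theta_union`: `θ(Z, A ∪ L) = min (θ(Z,A)) (θ(Z,L))` if there is no clean link up to the minimum.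
* `cfut_union`: the clean closure of `A ∪ L` is contained in the union of the clean closures.
* `glue_of_cia`, `glue_of_cil`: states of `A`, `L` and of their clean closures are the same in
  `Z+A+L`.
-/

set_option autoImplicit false
set_option linter.unusedSectionVars false

open Set Filter Topology

namespace Crest.Agent.R122.LinkU255

open Crest.Agent.R122.Causal291 Crest.Agent.R122.CausalGen291 Crest.Agent.R122.Ins45
open Crest.Agent.R122.CausalGen291.Four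

variable {κ ιA ιL ι : Type} {X : Type*}
variable {F : Four κ ιA ιL ι X} {a T : ℝ} {P₀ : ℝ → κ → Prop} {PA : ℝ → ιA → Prop}
  {PL : ℝ → ιL → Prop} {P : ℝ → ι → Prop}

/-- Neither `A` nor `L` has touched `Z` before `s`, no clean link up to and including `s`. -/
structure NoLink (F : Four κ ιA ιL ι X) (a : ℝ) (P₀ : ℝ → κ → Prop) (PA : ℝ → ιA → Prop)
    (PL : ℝ → ιL → Prop) (s : ℝ) : Prop where
  untA : F.UntA a P₀ PA s
  untL : F.UntL a P₀ PL s
  nl : ¬ F.Link a P₀ PA PL s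

theorem NoLink.swap {s : ℝ} (h : NoLink F a P₀ PA PL s) : NoLink F.swap a P₀ PL PA s where
  untA := h.untL
  untL := h.untA
  nl h' := h.nl (by
    obtain ⟨u, hu, ⟨k, hk, hk'⟩ | ⟨x, y, hx, hy, hc⟩⟩ := h'
    · exact ⟨u, hu, Or.inl ⟨k, hk', hk⟩⟩
    · exact ⟨u, hu, Or.inr ⟨y, x, hy, hx, hc⟩⟩)

theorem NoLink.mono {s s' : ℝ} (h : NoLink F a P₀ PA PL s) (hs : s' ≤ s) :
    NoLink F a P₀ PA PL s' where
  untA u hu hus := h.untA u hu (hus.trans_le hs)
  untL u hu hus := h.untL u hu (hus.trans_le hs)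
  nl h' := h.nl (h'.mono hs)

theorem cohX_swap (hd : F.Dyn T) (h : F.CohX T) : F.swap.CohX T where
  cohXL s hs k y he hc := hd.p₀A.symm₂ _ _ _ (h.cohXA s hs y k he.symm hc)
  cohXA s hs x k he hc := hd.p₀L.symm₂ _ _ _ (h.cohXL s hs k x he.symm hc)

variable [Finite κ] [Finite ιA] [Finite ιL] [Finite ι]

/-- States of `L` and of its clean closure. -/
theorem glue_of_cil (hd : F.Dyn T) (hR : F.Rules a T P₀ PA PL P) {s : ℝ} (hs : s ∈ Icc 0 T)
    (h : NoLink F a P₀ PA PL s) {u : ℝ} (hu : u ∈ Icc 0 s) {y : ιL}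
    (hy : y ∈ F.CIL a P₀ PL u) : F.zL u y = F.z u (F.fL y) :=
  glueL_closed hd hR hs h.untA h.untL h.nl hu fun v hv k hk =>
    not_fa_of_cfl hR hs h.untA h.nl hu.2 (hy k hk) v hv

theorem glue_of_cia (hd : F.Dyn T) (hR : F.Rules a T P₀ PA PL P) {s : ℝ} (hs : s ∈ Icc 0 T)
    (h : NoLink F a P₀ PA PL s) {u : ℝ} (hu : u ∈ Icc 0 s) {x : ιA}
    (hx : x ∈ F.CIA a P₀ PA u) : F.zA u x = F.z u (F.fA x) :=
  glue_of_cil (F := F.swap) hd.swap hR.swap hs h.swap hu hx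

/-- Clean before `u` with respect to `Z`, `Z+A+L` implies clean with respect to `Z`, `Z+L`. -/
theorem cleanL (hd : F.Dyn T) (hR : F.Rules a T P₀ PA PL P) (ha : 0 ≤ a) {s : ℝ}
    (hs : s ∈ Icc 0 T) (h : NoLink F a P₀ PA PL s) {u : ℝ} (hu : u ≤ s) {k : κ}
    (hk : CleanB a P₀ P id (fun k => F.fL (F.eL k)) u k) : CleanB a P₀ PL id F.eL u k := by
  intro v hav hvu
  refine ⟨(hk v hav hvu).1, fun h' => (hk v hav hvu).1 ?_⟩
  exact (infected_iffL hd hR ha hs.2 h.untL hav (hvu.trans_le hu) k).2 h'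

/-- **Clean closure of the union.** -/
theorem cfut_union (hd : F.Dyn T) (hR : F.Rules a T P₀ PA PL P) (ha : 0 ≤ a) {s : ℝ}
    (hs : s ∈ Icc 0 T) (h : NoLink F a P₀ PA PL s) {u : ℝ} (hu : u ≤ s) {k : κ}
    (hk : CFut F.C₀ F.z₀ F.C F.z id (fun k => F.fA (F.eA k)) a P₀ P u k) :
    k ∈ F.CFA a P₀ PA u ∨ k ∈ F.CFL a P₀ PL u := by
  have clA : ∀ {u : ℝ} {k : κ}, u ≤ s → CleanB a P₀ P id (fun k => F.fA (F.eA k)) u k →
      CleanB a P₀ PA id F.eA u k :=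
    fun hu hk => cleanL (F := F.swap) hd.swap hR.swap ha hs h.swap hu hk
  have clL : ∀ {u : ℝ} {k : κ}, u ≤ s → CleanB a P₀ P id (fun k => F.fA (F.eA k)) u k →
      CleanB a P₀ PL id F.eL u k := by
    intro u k hu hk
    refine cleanL hd hR ha hs h hu ?_
    have : (fun k => F.fA (F.eA k)) = fun k => F.fL (F.eL k) := funext F.comm
    rwa [this] at hk
  -- states of members of the closures which are not influenced before by the other group
  have stA : ∀ {u : ℝ} {k : κ}, u ∈ Icc 0 s → (∀ v, v < u → k ∉ F.FL v) →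
      F.zA u (F.eA k) = F.z u (F.fA (F.eA k)) := by
    intro u k hu hk
    refine glueL_closed (F := F.swap) hd.swap hR.swap hs h.swap.untA h.swap.untL h.swap.nl hu
      fun v hv k' hk' => ?_
    rw [← F.eA_inj hk']
    exact hk v hv
  have stL : ∀ {u : ℝ} {k : κ}, u ∈ Icc 0 s → (∀ v, v < u → k ∉ F.FA v) →
      F.zL u (F.eL k) = F.z u (F.fL (F.eL k)) := by
    intro u k hu hk
    refine glueL_closed hd hR hs h.untA h.untL h.nl hu fun v hv k' hk' => ?_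
    rw [← F.eL_inj hk']
    exact hk v hv
  have nlA : ∀ {u : ℝ} {k : κ}, u ≤ s → k ∈ F.CFA a P₀ PA u → ∀ v, v < u → k ∉ F.FL v :=
    fun hu hk => not_fa_of_cfl (F := F.swap) hR.swap hs h.swap.untA h.swap.nl hu hk
  have nlL : ∀ {u : ℝ} {k : κ}, u ≤ s → k ∈ F.CFL a P₀ PL u → ∀ v, v < u → k ∉ F.FA v :=
    fun hu hk => not_fa_of_cfl hR hs h.untA h.nl hu hk
  -- a particle influenced earlier by one of the groups
  have dich : ∀ {u : ℝ} {k : κ}, u ≤ s → (∃ v, v < u ∧ k ∈ F.FL v) → k ∈ F.CFL a P₀ PL u := by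
    rintro u k hu ⟨v, hv, hk⟩
    exact (cfl_of_fl hR hs.2 h.untL (hv.trans_le hu) hk).mono hv.le
  have dichA : ∀ {u : ℝ} {k : κ}, u ≤ s → (∃ v, v < u ∧ k ∈ F.FA v) → k ∈ F.CFA a P₀ PA u := by
    rintro u k hu ⟨v, hv, hk⟩
    exact (cfa_of_fa hR hs.2 h.untA (hv.trans_le hu) hk).mono hv.le
  induction hk with
  | @init u k hz h0 =>
    exfalso
    refine hz ?_
    exact (init₀ hd hs.1 h.nl k).1.trans (hd.initA _)
  | new₁ j hj _ _ _ _ => exact absurd ⟨j, rfl⟩ hj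
  | @new₂ u u' k j hj hc h0 huu hcl =>
    have hu's : u' ≤ s := huu.trans hu
    have hu'I : u' ∈ Icc 0 s := ⟨h0, hu's⟩
    have hu'T : u' ∈ Icc 0 T := ⟨h0, hu's.trans hs.2⟩
    by_cases hkA : ∃ v, v < u' ∧ k ∈ F.FA v
    · exact Or.inl ((dichA hu's hkA).mono huu)
    by_cases hkL : ∃ v, v < u' ∧ k ∈ F.FL v
    · exact Or.inr ((dich hu's hkL).mono huu)
    push Not at hkA hkL
    rcases F.cover j with ⟨x, rfl⟩ | ⟨y, rfl⟩
    · have hx : x ∉ range F.eA := by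
        rintro ⟨k', rfl⟩
        exact hj ⟨k', rfl⟩
      have e1 : F.zA u' x = F.z u' (F.fA x) :=
        glueL_closed (F := F.swap) hd.swap hR.swap hs h.swap.untA h.swap.untL h.swap.nl hu'I
          fun v hv k' hk' => absurd ⟨k', hk'.symm⟩ hx
      have hcA : F.CA u' x (F.eA k) := (hd.pA.coh u' hu'T x (F.eA k) e1 (stA hu'I hkL)).2 hc
      exact Or.inl (.new₂ x hx hcA h0 huu (clA hu's hcl))
    · have hy : y ∉ range F.eL := by
        rintro ⟨k', rfl⟩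
        exact hj ⟨k', F.comm k'⟩
      have e1 : F.zL u' y = F.z u' (F.fL y) :=
        glueL_closed hd hR hs h.untA h.untL h.nl hu'I
          fun v hv k' hk' => absurd ⟨k', hk'.symm⟩ hy
      have hc' : F.C u' (F.fL y) (F.fL (F.eL k)) := by
        rw [← F.comm k]; exact hc
      have hcL : F.CL u' y (F.eL k) := (hd.pL.coh u' hu'T y (F.eL k) e1 (stL hu'I hkA)).2 hc'
      exact Or.inr (.new₂ y hy hcL h0 huu (clL hu's hcl))
  | @chain₁ u u' k l hl hc huu hcl ih =>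
    have hu's : u' ≤ s := huu.trans hu
    rcases ih hu's with h1 | h1
    · exact Or.inl (.chain₁ h1 hc huu (clA hu's hcl))
    · exact Or.inr (.chain₁ h1 hc huu (clL hu's hcl))
  | @chain₂ u u' k l hl hc huu hcl ih =>
    have hu's : u' ≤ s := huu.trans hu
    have h0 : 0 ≤ u' := CFut.nonneg hl
    have hu'I : u' ∈ Icc 0 s := ⟨h0, hu's⟩
    have hu'T : u' ∈ Icc 0 T := ⟨h0, hu's.trans hs.2⟩
    by_cases hkA : ∃ v, v < u' ∧ k ∈ F.FA v
    · exact Or.inl ((dichA hu's hkA).mono huu)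
    by_cases hkL : ∃ v, v < u' ∧ k ∈ F.FL v
    · exact Or.inr ((dich hu's hkL).mono huu)
    push Not at hkA hkL
    rcases ih hu's with h1 | h1
    · have hcA : F.CA u' (F.eA l) (F.eA k) :=
        (hd.pA.coh u' hu'T (F.eA l) (F.eA k) (stA hu'I (nlA hu's h1)) (stA hu'I hkL)).2 hc
      exact Or.inl (.chain₂ h1 hcA huu (clA hu's hcl))
    · have hc' : F.C u' (F.fL (F.eL l)) (F.fL (F.eL k)) := by
        rw [← F.comm k, ← F.comm l]; exact hc
      have hcL : F.CL u' (F.eL l) (F.eL k) :=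
        (hd.pL.coh u' hu'T (F.eL l) (F.eL k) (stL hu'I (nlL hu's h1)) (stL hu'I hkA)).2 hc'
      exact Or.inr (.chain₂ h1 hcL huu (clL hu's hcl))

/-- The clean closure of `L` is influenced by `A ∪ L`. -/
theorem fut_dir_of_cfl (hd : F.Dyn T) (hR : F.Rules a T P₀ PA PL P) {s : ℝ} (hs : s ∈ Icc 0 T)
    (h : NoLink F a P₀ PA PL s) {u : ℝ} (hu : u ≤ s) {k : κ} (hk : k ∈ F.CFL a P₀ PL u) :
    Fut F.C₀ F.z₀ F.C F.z id (fun k => F.fL (F.eL k)) u k := by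
  change CFut F.C₀ F.z₀ F.CL F.zL id F.eL a P₀ PL u k at hk
  have gl : ∀ {u : ℝ}, u ≤ s → ∀ {k : κ}, CFut F.C₀ F.z₀ F.CL F.zL id F.eL a P₀ PL u k →
      F.zL u (F.eL k) = F.z u (F.fL (F.eL k)) := by
    intro u hu k hk
    refine glue_of_cil hd hR hs h ⟨CFut.nonneg hk, hu⟩ fun k' hk' => ?_
    rw [← F.eL_inj hk']
    exact hk
  induction hk with
  | @init u k hz h0 => exact absurd (init₀ hd hs.1 h.nl k).2 hz
  | new₁ j hj _ _ _ _ => exact absurd ⟨j, rfl⟩ hj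
  | @new₂ u u' k y hy hc h0 huu hcl =>
    have hu's : u' ≤ s := huu.trans hu
    have hk' : CFut F.C₀ F.z₀ F.CL F.zL id F.eL a P₀ PL u' k := .new₂ y hy hc h0 le_rfl hcl
    refine .new₂ (F.fL y) ?_ ?_ h0 huu
    · rintro ⟨x, hx⟩
      exact hy ⟨x, F.fL_inj hx⟩
    · exact (hd.pL.coh u' ⟨h0, hu's.trans hs.2⟩ y (F.eL k)
        (glueL_closed hd hR hs h.untA h.untL h.nl ⟨h0, hu's⟩
          fun v hv k' hk'' => absurd ⟨k', hk''.symm⟩ hy)
        (gl hu's hk')).1 hc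
  | @chain₁ u u' k l hl hc huu hcl ih => exact .chain₁ (ih (huu.trans hu)) hc huu
  | @chain₂ u u' k l hl hc huu hcl ih =>
    have hu's : u' ≤ s := huu.trans hu
    have h0 : 0 ≤ u' := CFut.nonneg hl
    have hk' : CFut F.C₀ F.z₀ F.CL F.zL id F.eL a P₀ PL u' k := .chain₂ hl hc le_rfl hcl
    refine .chain₂ (ih hu's) ?_ huu
    exact (hd.pL.coh u' ⟨h0, hu's.trans hs.2⟩ (F.eL l) (F.eL k) (gl hu's hl) (gl hu's hk')).1 hc

/-- A touch of `L` is a touch of `A ∪ L` (closed end). -/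
theorem touched_union_of_right (hd : F.Dyn T) (hX : F.CohX T) (hR : F.Rules a T P₀ PA PL P)
    (ha : 0 ≤ a) {s : ℝ} (hs : s ∈ Icc a T) (h : NoLink F a P₀ PA PL s)
    (ht : Touched F.C₀ F.z₀ F.CL F.zL id F.eL P₀ PL s) :
    Touched F.C₀ F.z₀ F.C F.z id (fun k => F.fL (F.eL k)) P₀ P s := by
  have hs0 : s ∈ Icc 0 T := ⟨ha.trans hs.1, hs.2⟩
  have hss : s ∈ Icc 0 s := ⟨hs0.1, le_rfl⟩
  by_cases hH : Hit F.C₀ F.z₀ F.CL F.zL id F.eL a P₀ PL s
  · -- direct contact with a particle infected before `s`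
    obtain ⟨i, hi, hc⟩ := hH
    unfold CleanB at hi
    push Not at hi
    obtain ⟨u₀, hau, hus, hP⟩ := hi
    have hP0 : P₀ u₀ i := by
      by_contra hno
      exact hno ((infected_iffL hd hR ha hs.2 h.untL hau hus i).2 (hP hno))
    have hP0s : P₀ s i := hR.r₀.mono hau hus.le hs.2 hP0
    have hiA : ∀ v, v < s → i ∉ F.FA v := by
      intro v hv hiv
      refine h.untA (max v u₀) (hau.trans (le_max_right _ _)) (max_lt hv hus)
        (Or.inl ⟨i, ?_, Or.inl ?_⟩)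
      · exact Fut.mono hiv (le_max_left _ _)
      · exact hR.r₀.mono hau (le_max_right _ _) ((max_lt hv hus).le.trans hs.2) hP0
    have e3 : F.zL s (F.eL i) = F.z s (F.fL (F.eL i)) :=
      glueL_closed hd hR hs0 h.untA h.untL h.nl hss fun v hv k' hk' => by
        rw [← F.eL_inj hk']; exact hiA v hv
    refine Or.inl ⟨i, ?_, Or.inl hP0s⟩
    rcases hc with ⟨j, hj, _⟩ | ⟨y, hy, hc⟩ | ⟨l, hl, hc⟩
    · exact absurd ⟨j, rfl⟩ hj
    · refine .new₂ (F.fL y) ?_ ?_ hs0.1 le_rfl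
      · rintro ⟨x, hx⟩
        exact hy ⟨x, F.fL_inj hx⟩
      · exact (hd.pL.coh s hs0 y (F.eL i)
          (glueL_closed hd hR hs0 h.untA h.untL h.nl hss
            fun v hv k' hk'' => absurd ⟨k', hk''.symm⟩ hy) e3).1 hc
    · have hlfut := fut_dir_of_cfl hd hR hs0 h le_rfl hl
      rcases hc with hc | hc
      · exact .chain₁ hlfut hc le_rfl
      · refine .chain₂ hlfut ?_ le_rfl
        refine (hd.pL.coh s hs0 (F.eL l) (F.eL i) ?_ e3).1 hc
        refine glue_of_cil hd hR hs0 h hss fun k' hk' => ?_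
        rw [← F.eL_inj hk']
        exact hl
  · -- the influences are unlinked up to and including `s`
    have hu : F.Unlinked s := unlinked_of_not_hit hd hX hR ha hs h.untA h.untL h.nl hH
    have hds : F.swap.Dyn s := (hd.mono hs.2).swap
    have hus : F.swap.Unlinked s := hu.swap
    refine touched_of_unlinked_left (T := T) (a₁ := id) (a₂ := F.eL) (b₂ := id) (b₃ := F.fL)
      (i := id) (j := F.eL) (P₂ := PL) hd.p₀L hd.pL
      ⟨fun _ => rfl, fun y w hw => ⟨y, rfl, hw⟩⟩ hs0 ?_ Function.surjective_id ?_ ?_ ht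
    · intro s' hs' k hk hk'
      obtain ⟨k', hk1, hk2⟩ := (Four.fut_iff (F := F.swap) hds hus hs').1 hk'
      have hkk : k = k' := F.eL_inj hk1
      subst hkk
      exact hu.disj s' ⟨Fut.nonneg hk2, hs'⟩ k hk2 hk
    · intro x hx _
      refine ⟨x, rfl, fun hx' => ?_⟩
      obtain ⟨k', hk1, _⟩ := (Four.fut_iff (F := F.swap) hds hus le_rfl).1 hx'
      exact hx ⟨k', hk1.symm⟩
    · intro k hk
      exact hR.st.cohL s hs k hk

theorem touched_union_of_left (hd : F.Dyn T) (hX : F.CohX T) (hR : F.Rules a T P₀ PA PL P)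
    (ha : 0 ≤ a) {s : ℝ} (hs : s ∈ Icc a T) (h : NoLink F a P₀ PA PL s)
    (ht : Touched F.C₀ F.z₀ F.CA F.zA id F.eA P₀ PA s) :
    Touched F.C₀ F.z₀ F.C F.z id (fun k => F.fA (F.eA k)) P₀ P s :=
  touched_union_of_right (F := F.swap) hd.swap (cohX_swap hd hX) hR.swap ha hs h.swap ht

/-- **Touches of a union (closed end).** -/
theorem touched_union_iff (hd : F.Dyn T) (hX : F.CohX T) (hR : F.Rules a T P₀ PA PL P)
    (ha : 0 ≤ a) {s : ℝ} (hs : s ∈ Icc a T) (h : NoLink F a P₀ PA PL s) :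
    Touched F.C₀ F.z₀ F.C F.z id (fun k => F.fA (F.eA k)) P₀ P s ↔
      Touched F.C₀ F.z₀ F.CA F.zA id F.eA P₀ PA s ∨
        Touched F.C₀ F.z₀ F.CL F.zL id F.eL P₀ PL s := by
  constructor
  · intro ht
    rcases touched_trans (e := F.eA) (f := F.fA) hd.p₀A hd.pA ha hR.st.coh₀A hR.st.cohA hs ht
      with h1 | h1
    · exact Or.inl h1
    · exact Or.inr ((touched_iff_closed hd hX hR ha hs h.untA h.untL h.nl).2 h1)
  · rintro (h1 | h1)
    · exact touched_union_of_left hd hX hR ha hs h h1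
    · have h2 := touched_union_of_right hd hX hR ha hs h h1
      have : (fun k => F.fA (F.eA k)) = fun k => F.fL (F.eL k) := funext F.comm
      rw [this]
      exact h2

/-- The union has not touched before `s`. -/
theorem unt_union (hd : F.Dyn T) (hX : F.CohX T) (hR : F.Rules a T P₀ PA PL P)
    (ha : 0 ≤ a) {s : ℝ} (hsT : s ≤ T) (h : NoLink F a P₀ PA PL s) :
    ∀ u, a ≤ u → u < s →
      ¬ Touched F.C₀ F.z₀ F.C F.z id (fun k => F.fA (F.eA k)) P₀ P u := by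
  intro u hau hus ht
  rcases (touched_union_iff hd hX hR ha ⟨hau, hus.le.trans hsT⟩ (h.mono hus.le)).1 ht with h1 | h1
  · exact h.untA u hau hus h1
  · exact h.untL u hau hus h1

/-! ### Touch times -/

/-- Up to `min T (min (θ(Z,A)) (θ(Z,L)))` nobody has touched before. -/
theorem noLink_of_le (hd : F.Dyn T) (hR : F.Rules a T P₀ PA PL P) (ha : 0 ≤ a) {s : ℝ}
    (hsT : s ≤ T) (hsA : s ≤ theta F.C₀ F.z₀ F.CA F.zA id F.eA a T P₀ PA)
    (hsL : s ≤ theta F.C₀ F.z₀ F.CL F.zL id F.eL a T P₀ PL) (hlk : ¬ F.Link a P₀ PA PL s) :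
    NoLink F a P₀ PA PL s where
  untA := untouched_of_le_theta hd.p₀A ha hR.r₀ hR.rA hsT hsA
  untL := untouched_of_le_theta hd.p₀L ha hR.r₀ hR.rL hsT hsL
  nl := hlk

section thetas

variable {ι₁ ι₂ κ₁ : Type}
variable {C₁ : ℝ → ι₁ → ι₁ → Prop} {C₂ : ℝ → ι₂ → ι₂ → Prop}
variable {z₁ : ℝ → ι₁ → X} {z₂ : ℝ → ι₂ → X} {e₁ : κ₁ → ι₁} {e₂ : κ₁ → ι₂}
variable {P₁ : ℝ → ι₁ → Prop} {P₂ : ℝ → ι₂ → Prop}

theorem theta_le_of {s : ℝ} (hs : s ∈ Icc a T) (h : Touched C₁ z₁ C₂ z₂ e₁ e₂ P₁ P₂ s) :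
    theta C₁ z₁ C₂ z₂ e₁ e₂ a T P₁ P₂ ≤ s := by
  classical
  unfold theta
  rw [if_pos ⟨s, hs, h⟩]
  exact csInf_le ⟨a, fun r hr => hr.1.1⟩ ⟨hs, h⟩

theorem theta_eq_of {h : ∀ s ∈ Icc a T, ¬ Touched C₁ z₁ C₂ z₂ e₁ e₂ P₁ P₂ s} :
    theta C₁ z₁ C₂ z₂ e₁ e₂ a T P₁ P₂ = T + 1 := by
  classical
  unfold theta
  rw [if_neg]
  rintro ⟨s, hs, h'⟩
  exact h s hs h'

theorem le_theta_of {s : ℝ} (hs : s ≤ T + 1)
    (h : ∀ u ∈ Icc a T, u < s → ¬ Touched C₁ z₁ C₂ z₂ e₁ e₂ P₁ P₂ u) :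
    s ≤ theta C₁ z₁ C₂ z₂ e₁ e₂ a T P₁ P₂ := by
  classical
  unfold theta
  split_ifs with hex
  · obtain ⟨s₁, hs₁, hs₁'⟩ := hex
    refine le_csInf ⟨s₁, hs₁, hs₁'⟩ fun u hu => ?_
    by_contra hlt
    push Not at hlt
    exact h u hu.1 hlt hu.2
  · exact hs

/-- The touch time is at most `T` or equal to `T + 1`. -/
theorem theta_dich : theta C₁ z₁ C₂ z₂ e₁ e₂ a T P₁ P₂ ≤ T ∨
    theta C₁ z₁ C₂ z₂ e₁ e₂ a T P₁ P₂ = T + 1 := by
  by_cases hex : ∃ s ∈ Icc a T, Touched C₁ z₁ C₂ z₂ e₁ e₂ P₁ P₂ s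
  · obtain ⟨s, hs, h⟩ := hex
    exact Or.inl ((theta_le_of hs h).trans hs.2)
  · push Not at hex
    exact Or.inr (theta_eq_of (h := hex))

variable [Finite ι₁] [Finite ι₂] [Finite κ₁]

theorem not_touched_of_lt {s : ℝ} (hp : Pair T C₁ z₁ C₂ z₂ e₁ e₂) (ha : 0 ≤ a)
    (hP₁ : IsRule C₁ a T P₁) (hP₂ : IsRule C₂ a T P₂) (hs : s ∈ Icc a T)
    (h : s < theta C₁ z₁ C₂ z₂ e₁ e₂ a T P₁ P₂) : ¬ Touched C₁ z₁ C₂ z₂ e₁ e₂ P₁ P₂ s :=
  fun h' => absurd ((touched_iff_theta_le hp ha hP₁ hP₂ hs).1 h') (not_le.2 h)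

theorem touched_theta (hp : Pair T C₁ z₁ C₂ z₂ e₁ e₂) (ha : 0 ≤ a) (haT : a ≤ T)
    (hP₁ : IsRule C₁ a T P₁) (hP₂ : IsRule C₂ a T P₂)
    (h : theta C₁ z₁ C₂ z₂ e₁ e₂ a T P₁ P₂ ≤ T) :
    Touched C₁ z₁ C₂ z₂ e₁ e₂ P₁ P₂ (theta C₁ z₁ C₂ z₂ e₁ e₂ a T P₁ P₂) :=
  (touched_iff_theta_le hp ha hP₁ hP₂ ⟨le_theta haT, h⟩).2 le_rfl

end thetas

/-- **Touch time of a union**: if there is no clean link up to
`min T (min (θ(Z,A)) (θ(Z,L)))`, then `θ(Z, A ∪ L) = min (θ(Z,A)) (θ(Z,L))`. -/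
theorem theta_union (hd : F.Dyn T) (hX : F.CohX T) (hR : F.Rules a T P₀ PA PL P)
    (ha : 0 ≤ a) (haT : a ≤ T)
    (hlk : ¬ F.Link a P₀ PA PL (min T (min (theta F.C₀ F.z₀ F.CA F.zA id F.eA a T P₀ PA)
      (theta F.C₀ F.z₀ F.CL F.zL id F.eL a T P₀ PL)))) :
    theta F.C₀ F.z₀ F.C F.z id (fun k => F.fA (F.eA k)) a T P₀ P =
      min (theta F.C₀ F.z₀ F.CA F.zA id F.eA a T P₀ PA)
        (theta F.C₀ F.z₀ F.CL F.zL id F.eL a T P₀ PL) := by
  set θA := theta F.C₀ F.z₀ F.CA F.zA id F.eA a T P₀ PA with hθA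
  set θL := theta F.C₀ F.z₀ F.CL F.zL id F.eL a T P₀ PL with hθL
  have nl : ∀ s, s ≤ T → s ≤ θA → s ≤ θL → NoLink F a P₀ PA PL s := fun s h1 h2 h3 =>
    noLink_of_le hd hR ha h1 h2 h3 fun h => hlk (h.mono (le_min h1 (le_min h2 h3)))
  apply le_antisymm
  · rcases le_total θA θL with h | h
    · rw [min_eq_left h]
      rcases theta_dich (C₁ := F.C₀) (z₁ := F.z₀) (C₂ := F.CA) (z₂ := F.zA) (e₁ := id)
        (e₂ := F.eA) (a := a) (T := T) (P₁ := P₀) (P₂ := PA) with h1 | h1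
      · have hm : θA ∈ Icc a T := ⟨le_theta haT, h1⟩
        refine theta_le_of hm ?_
        exact touched_union_of_left hd hX hR ha hm (nl θA h1 le_rfl h)
          (touched_theta hd.p₀A ha haT hR.r₀ hR.rA h1)
      · rw [hθA, h1]
        exact theta_le
    · rw [min_eq_right h]
      rcases theta_dich (C₁ := F.C₀) (z₁ := F.z₀) (C₂ := F.CL) (z₂ := F.zL) (e₁ := id)
        (e₂ := F.eL) (a := a) (T := T) (P₁ := P₀) (P₂ := PL) with h1 | h1
      · have hm : θL ∈ Icc a T := ⟨le_theta haT, h1⟩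
        refine theta_le_of hm ?_
        exact (touched_union_iff hd hX hR ha hm (nl θL h1 h le_rfl)).2
          (Or.inr (touched_theta hd.p₀L ha haT hR.r₀ hR.rL h1))
      · rw [hθL, h1]
        exact theta_le
  · refine le_theta_of ((min_le_left _ _).trans theta_le) fun u hu hum ht => ?_
    have h1 : u < θA := hum.trans_le (min_le_left _ _)
    have h2 : u < θL := hum.trans_le (min_le_right _ _)
    rcases (touched_union_iff hd hX hR ha hu (nl u hu.2 h1.le h2.le)).1 ht with h3 | h3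
    · exact not_touched_of_lt hd.p₀A ha hR.r₀ hR.rA hu h1 h3
    · exact not_touched_of_lt hd.p₀L ha hR.r₀ hR.rL hu h2 h3



end Crest.Agent.R122.LinkU255
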