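import Crest.Agent.R122.Triangle_45
import Crest.Agent.R122.Lines2_255
import Crest.Agent.R122.OneContact_45
import Crest.Agent.R122.EInf_879
import Crest.Agent.R122.MWAlg_255
import Crest.Agent.R122.ReplOwn_302
import Crest.Agent.R122.Lines3_255

-- ▼ part R122/OneTransfer_45
section

/-!
# One contact (row 122, block A7, helper45), relational part

The world `Z` (relation `C`, index type `ι`) and the world `Z + l` (relation `D`, index type `κ`, with
`e : ι → κ` and the new particle `l`). The line `l` is first in contact at time `s₁` with the particle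
`c`, and until `s₁'` the particles `l` and `c` are in contact with nobody else. In both worlds the
past of the encounter is replaced by exit lines: `C'` (in which `c` is born at `s₁`), `D'` (in which
`l` and `c` are born at `s₁'`). Then

* `Enc.fut`: influence of `l` in `Z` = influence of the difference of `Z₀ + c` and `Z₀ + l' + c'`,
  where `Z₀` is the common part (all particles except `c`).
* `Enc.touched`: a touch of `Z` by `l` is a touch of the pair `(Z₀ + c, Z₀ + l' + c')`.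
* `Enc.touched_rev`: the converse.
* `one_contact`: (1.6), `one_contact_rev`: (1.6').
-/

set_option autoImplicit false

open Set Filter Topology

namespace Crest.Agent.R122.Ins45

open Crest.Agent.R122.Causal291 Crest.Agent.R122.CausalGen291

variable {ι κ : Type} {X : Type*}

/-- Encounter of the inserted particle `l` with `c`. -/
structure Enc (C C' : ℝ → ι → ι → Prop) (D D' : ℝ → κ → κ → Prop) (z z' : ℝ → ι → X)
    (y y' : ℝ → κ → X) (e : ι → κ) (l : κ) (c : ι) (s₁ s₁' : ℝ) : Prop where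
  inj : Function.Injective e
  /-- `l` is the only new particle -/
  cov : ∀ x, x = l ∨ x ∈ range e
  new : l ∉ range e
  nonneg : 0 ≤ s₁
  le : s₁ ≤ s₁'
  /-- same initial data -/
  init : ∀ k, z 0 k = y 0 (e k)
  init' : ∀ k, k ≠ c → z' 0 k = y' 0 (e k)
  /-- the worlds with lines: after `s₁` nothing is hidden in `Z` -/
  vis : ∀ s j k, s₁ < s → C s j k → C' s j k
  /-- after `s₁'` nothing is hidden in `Z + l` -/
  vis₂ : ∀ s x x', s₁' < s → D s x x' → D' s x x'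
  /-- after `s₁` nothing is hidden in `Z + l` except `l` and `c` -/
  vis₂' : ∀ s j k, s₁ < s → j ≠ c → k ≠ c → D s (e j) (e k) → D' s (e j) (e k)
  sub : ∀ s j k, C' s j k → C s j k
  sub₂ : ∀ s x x', D' s x x' → D s x x'
  /-- no contact with `l` before `s₁` -/
  before : ∀ s k, 0 ≤ s → D s l (e k) → s₁ ≤ s
  /-- contact with `c` at `s₁` -/
  hit : D s₁ l (e c)
  /-- isolated encounter -/
  iso_l : ∀ s k, s₁ ≤ s → s ≤ s₁' → D s l (e k) → k = c
  iso_c : ∀ s k, s₁ ≤ s → s ≤ s₁' → D s (e c) (e k) → k = c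
  at₁ : ∀ k, C s₁ c k → k = c
  /-- births of `c` (in `Z₀ + c`) and of `c'` (in `Z₀ + l' + c'`) -/
  birth_c : ∀ s k, k ≠ c → C' s c k → s₁ ≤ s
  birth_c' : ∀ s k, k ≠ c → D' s (e c) (e k) → s₁' ≤ s

variable {C C' : ℝ → ι → ι → Prop} {D D' : ℝ → κ → κ → Prop} {z z' : ℝ → ι → X}
variable {y y' : ℝ → κ → X} {e : ι → κ} {l : κ} {c : ι} {s₁ s₁' : ℝ}

/-- The common part `Z₀`. -/
abbrev Oth (c : ι) : Type := {k : ι // k ≠ c}

/-- Embedding of the common part in `Z + l`. -/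
def emb (e : ι → κ) (c : ι) (k : Oth c) : κ := e k

theorem Enc.emb_inj (h : Enc C C' D D' z z' y y' e l c s₁ s₁') :
    Function.Injective (emb e c) := fun _ _ hab => Subtype.ext (h.inj hab)

theorem not_mem_range_val {x : ι} : x ∉ range (Subtype.val : Oth c → ι) ↔ x = c := by
  constructor
  · intro h
    by_contra hx
    exact h ⟨⟨x, hx⟩, rfl⟩
  · rintro hx ⟨⟨k, hk⟩, hkx⟩
    exact hk (hkx.trans hx)

theorem Enc.not_mem_range_emb (h : Enc C C' D D' z z' y y' e l c s₁ s₁') {x : κ} :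
    x ∉ range (emb e c) ↔ x = l ∨ x = e c := by
  constructor
  · intro hx
    rcases h.cov x with h1 | ⟨k, rfl⟩
    · exact Or.inl h1
    · by_cases hk : k = c
      · exact Or.inr (by rw [hk])
      · exact absurd ⟨⟨k, hk⟩, rfl⟩ hx
  · rintro (rfl | rfl) ⟨k, hk⟩
    · exact h.new ⟨k, hk⟩
    · exact k.2 (h.inj hk)

/-- **Transfer of the influence.** -/
theorem Enc.fut (h : Enc C C' D D' z z' y y' e l c s₁ s₁') {s : ℝ} {k : ι}
    (hk : Fut C z D y id e s k) :
    s₁ ≤ s ∧ (k = c ∨ (s₁ < s ∧ ∀ hkc : k ≠ c,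
      Fut C' z' D' y' (Subtype.val : Oth c → ι) (emb e c) s ⟨k, hkc⟩)) := by
  induction hk with
  | @init s k hne _ => exact absurd (h.init k) hne
  | @new₁ s s' k j hj _ _ _ => exact absurd ⟨j, rfl⟩ hj
  | @new₂ s s' k x hx hc h0 hs =>
    have hxl : x = l := (h.cov x).resolve_right hx
    subst hxl
    have h1 : s₁ ≤ s' := h.before s' k h0 hc
    refine ⟨h1.trans hs, ?_⟩
    by_cases hkc : k = c
    · exact Or.inl hkc
    · have h2 : s₁' < s' := by
        by_contra hle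
        exact hkc (h.iso_l s' k h1 (not_lt.1 hle) hc)
      refine Or.inr ⟨h.le.trans_lt (h2.trans_le hs), fun hkc => ?_⟩
      exact .new₂ x ((h.not_mem_range_emb).2 (Or.inl rfl)) (h.vis₂ s' _ _ h2 hc) h0 hs
  | @chain₁ s s' k m hm hc hs ih =>
    have h0 : 0 ≤ s' := hm.nonneg
    refine ⟨ih.1.trans hs, ?_⟩
    by_cases hkc : k = c
    · exact Or.inl hkc
    refine Or.inr ?_
    rcases ih.2 with rfl | ⟨h2, h3⟩
    · have h4 : s₁ < s' := by
        refine lt_of_le_of_ne ih.1 ?_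
        rintro rfl
        exact hkc (h.at₁ k hc)
      exact ⟨h4.trans_le hs, fun hkc => .new₁ m (not_mem_range_val.2 rfl)
        (h.vis s' _ _ h4 hc) h0 hs⟩
    · refine ⟨h2.trans_le hs, fun hkc => ?_⟩
      by_cases hmc : m = c
      · subst hmc
        exact .new₁ m (not_mem_range_val.2 rfl) (h.vis s' _ _ h2 hc) h0 hs
      · exact .chain₁ (h3 hmc) (h.vis s' _ _ h2 hc) hs
  | @chain₂ s s' k m hm hc hs ih =>
    have h0 : 0 ≤ s' := hm.nonneg
    refine ⟨ih.1.trans hs, ?_⟩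
    by_cases hkc : k = c
    · exact Or.inl hkc
    refine Or.inr ?_
    by_cases hmc : m = c
    · subst hmc
      have h4 : s₁' < s' := by
        by_contra hle
        exact hkc (h.iso_c s' k ih.1 (not_lt.1 hle) hc)
      exact ⟨h.le.trans_lt (h4.trans_le hs), fun hkc =>
        .new₂ (e m) ((h.not_mem_range_emb).2 (Or.inr rfl)) (h.vis₂ s' _ _ h4 hc) h0 hs⟩
    · obtain ⟨h2, h3⟩ := ih.2.resolve_left hmc
      exact ⟨h2.trans_le hs, fun hkc => .chain₂ (h3 hmc) (h.vis₂' s' _ _ h2 hmc hkc hc) hs⟩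



variable {P P' : ℝ → ι → Prop} {Q Q' : ℝ → κ → Prop}

/-- **Transfer of touches**: a touch of `Z` by `l` is a touch of the pair
`(Z₀ + c, Z₀ + l' + c')`. -/
theorem Enc.touched (h : Enc C C' D D' z z' y y' e l c s₁ s₁') {s : ℝ}
    (hP : ∀ k, P s k → P' s k) (hQ : ∀ x, Q s x → Q' s x)
    (ht : Touched C z D y id e P Q s) :
    Touched C' z' D' y' (Subtype.val : Oth c → ι) (emb e c) P' Q' s := by
  rcases ht with ⟨k, hk, hp⟩ | ⟨j, hj, _⟩ | ⟨x, hx, hq⟩
  · by_cases hkc : k = c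
    · subst hkc
      rcases hp with hp | hp
      · exact Or.inr (Or.inl ⟨k, not_mem_range_val.2 rfl, hP _ hp⟩)
      · exact Or.inr (Or.inr ⟨e k, (h.not_mem_range_emb).2 (Or.inr rfl), hQ _ hp⟩)
    · obtain ⟨_, h3⟩ := (h.fut hk).2.resolve_left hkc
      exact Or.inl ⟨⟨k, hkc⟩, h3 hkc, hp.imp (hP _) (hQ _)⟩
  · exact absurd ⟨j, rfl⟩ hj
  · have hxl : x = l := (h.cov x).resolve_right hx
    exact Or.inr (Or.inr ⟨x, (h.not_mem_range_emb).2 (Or.inl hxl), hQ _ hq⟩)


/-! ### The one-contact lemma -/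

section main

variable [Finite ι] [Finite κ]

/-- The world `Z₀` (relation `E`, states `w`) on `Oth c`, and the world `Z₀ + l'` (relation `F`, states
`v`) on the index type `μ` with `f : Oth c → μ` and `g : μ → κ`. -/
structure Mid {μ : Type} (T : ℝ) (C' : ℝ → ι → ι → Prop) (D' : ℝ → κ → κ → Prop) (z' : ℝ → ι → X)
    (y' : ℝ → κ → X) (E : ℝ → Oth c → Oth c → Prop) (w : ℝ → Oth c → X)
    (F : ℝ → μ → μ → Prop) (v : ℝ → μ → X) (e : ι → κ) (f : Oth c → μ) (g : μ → κ) : Prop where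
  comm : ∀ k, g (f k) = emb e c k
  pc : Pair T E w C' z' id (Subtype.val : Oth c → ι)
  pl : Pair T E w F v id f
  plc : Pair T F v D' y' id g
  plc₀ : Pair T E w D' y' id (emb e c)

variable {μ : Type} [Finite μ] {E : ℝ → Oth c → Oth c → Prop} {w : ℝ → Oth c → X}
variable {F : ℝ → μ → μ → Prop} {v : ℝ → μ → X} {f : Oth c → μ} {g : μ → κ} {T : ℝ}
variable {R : ℝ → Oth c → Prop} {S : ℝ → μ → Prop}

/-- The two triangles which are used. -/
theorem tri_id : Tri (id : Oth c → Oth c) (id : Oth c → Oth c) (id : Oth c → Oth c)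
    (id : Oth c → Oth c) := ⟨fun _ => rfl, fun y _ hy => ⟨y, rfl, hy⟩⟩

theorem tri_mid (f : Oth c → μ) : Tri f (id : μ → μ) (id : Oth c → Oth c) f :=
  ⟨fun _ => rfl, fun y _ hy => ⟨y, rfl, hy⟩⟩

/-- **(1.6), touched form.** If `l` touches `Z` at `s`, then `c` touches `Z₀`, or `l'` touches `Z₀`, or
`c'` touches `Z₀ + l'`, at `s`. -/
theorem one_contact (h : Enc C C' D D' z z' y y' e l c s₁ s₁')
    (hM : Mid T C' D' z' y' E w F v e f g) {s : ℝ} (hs : s ∈ Icc 0 T)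
    (hP : ∀ k, P s k → P' s k) (hQ : ∀ x, Q s x → Q' s x)
    (hc₁ : ∀ k, HistEq E w C' z' id (Subtype.val : Oth c → ι) s k → (R s k ↔ P' s k))
    (hc₂ : ∀ k, HistEq E w D' y' id (emb e c) s k → (R s k ↔ Q' s (emb e c k)))
    (hc₃ : ∀ k, HistEq E w F v id f s k → (R s k ↔ S s (f k)))
    (hc₄ : ∀ x, HistEq F v D' y' id g s x → (S s x ↔ Q' s (g x)))
    (ht : Touched C z D y id e P Q s) :
    Touched E w C' z' id (Subtype.val : Oth c → ι) R P' s ∨ Touched E w F v id f R S s ∨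
      Touched F v D' y' id g S Q' s := by
  have h1 := h.touched hP hQ ht
  -- triangle with the middle world `Z₀`
  rcases touched_triangle (a₁ := (Subtype.val : Oth c → ι)) (a₂ := id) (b₂ := id)
    (b₃ := emb e c) (i := id) (j := id) hM.pc.symm hM.plc₀ tri_id hs
    (fun k hk => (hc₁ k hk.symm).symm) (fun k hk => hc₂ k hk) h1 with h2 | h2
  · exact Or.inl h2.symm
  · -- triangle with the middle world `Z₀ + l'`
    have h3 : Touched E w D' y' (fun k : Oth c => id (id k)) (fun k : Oth c => g (f k)) R Q' s := by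
      have : (fun k : Oth c => g (f k)) = emb e c := funext hM.comm
      rw [this]
      exact h2
    rcases touched_triangle (a₁ := (id : Oth c → Oth c)) (a₂ := f) (b₂ := (id : μ → μ))
      (b₃ := g) (i := (id : Oth c → Oth c)) (j := f) hM.pl hM.plc (tri_mid f) hs hc₃ hc₄ h3 with h4 | h4
    · exact Or.inr (Or.inl h4)
    · exact Or.inr (Or.inr h4)




end main

end Crest.Agent.R122.Ins45
end

-- ▼ part R122/OneMW_45

/-!
# One contact (row 122, block A7, helper45), marked worlds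

`Z` is a marked world, `l` a marked line, `c` a particle of `Z` (a line, without contacts before
`s₁`). `MW.Hit`: the first contact of `l` in `Z + l` is with `c` at `s₁`, the encounter lasts until
`s₁'` and is isolated. `encW`: the world in which `l` and `c` are born at `s₁'` with their outgoing
states and the mark `m_l + m_c`; up to a relabelling it is `Z₀ + l' + c'` with `Z₀ = rest Z c` (all
particles except `c`), `l' = outL`, `c' = outC`.

* `Hit.ok`, `Hit.enc`, `Hit.inf`, `comap_encW`.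
* `Hit.touched_iff`: touches of `Z` by `l` = touches of the pair `(Z, encW)` with common part `Z₀`.
* `Hit.one`: **(1.6)** `min (θ(Z₀,c)) (min (θ(Z₀,l')) (θ(Z₀+l',c'))) ≤ θ(Z,l)`.
-/

set_option autoImplicit false
set_option linter.unusedSectionVars false

open MeasureTheory Set Filter Topology
open scoped ENNReal
open Crest.AnalysisR.Kinetic
open Crest.Agent.R122.Flow671 Crest.Agent.R122.Loc45 Crest.Agent.R122.Causal291
open Crest.Agent.R122.Inf879 Crest.Agent.R122.EDefs602 Crest.Agent.R122.Lines255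
open Crest.Agent.R122.Repl302 Crest.Agent.R122.MWAlg255

namespace Crest.Agent.R122.Ins45

noncomputable section

open scoped Classical

variable {ι : Type} [Fintype ι] {Φ : Space3 → ℝ} {ε : ℝ} {Z : MW ι} {l : ML} {c : ι}
  {s₁ s₁' : ℝ} {K : ℕ}

/-- The family `{l, c}` of the encounter. -/
def encD (c : ι) : Set (ι ⊕ Unit) := {x | x = Sum.inr () ∨ x = Sum.inl c}

/-- Births of the world after the encounter. -/
def encB (Z : MW ι) (l : ML) (c : ι) (s₁' : ℝ) (x : ι ⊕ Unit) : ℝ :=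
  if x ∈ encD c then s₁' else (Z.ins l).b x

/-- The world `Z + l` in which `l` and `c` are born at `s₁'`. -/
def encW (Φ : Space3 → ℝ) (ε : ℝ) (Z : MW ι) (l : ML) (c : ι) (s₁' : ℝ) : MW (ι ⊕ Unit) where
  b := encB Z l c s₁'
  z := rebirthPath (encB Z l c s₁') ((Z.ins l).path Φ ε) 0
  m := lmark ((Z.ins l).C Φ ε) (Z.ins l).m (encD c) (encB Z l c s₁')

/-- The outgoing line `l'`. -/
def outL (Φ : Space3 → ℝ) (ε : ℝ) (Z : MW ι) (l : ML) (c : ι) (s₁' : ℝ) : ML :=
  ((s₁', (Z.ins l).path Φ ε s₁' (Sum.inr ())), l.2 + Z.m c)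

/-- The outgoing line `c'`. -/
def outC (Φ : Space3 → ℝ) (ε : ℝ) (Z : MW ι) (l : ML) (c : ι) (s₁' : ℝ) : ML :=
  ((s₁', (Z.ins l).path Φ ε s₁' (Sum.inl c)), l.2 + Z.m c)

/-- The world without `c`. -/
def rest (Z : MW ι) (c : ι) : MW (Oth c) := Z.comap Subtype.val

/-- The first contact of `l` in `Z + l` is with `c` at time `s₁`; it lasts until `s₁'`, and during
`[s₁, s₁']` the particles `l` and `c` are in contact with nobody else. -/
structure Hit (Φ : Space3 → ℝ) (ε : ℝ) (Z : MW ι) (l : ML) (c : ι) (s₁ s₁' : ℝ) : Prop where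
  nonneg : 0 ≤ s₁
  le : s₁ ≤ s₁'
  born : ∀ k, 0 ≤ Z.b k
  bornl : 0 ≤ l.1.1
  /-- `c` has no contact in `Z` up to `s₁` -/
  free : ∀ s k, s ≤ s₁ → Z.C Φ ε s c k → k = c
  before : ∀ s k, s < s₁ → ¬ (Z.ins l).C Φ ε s (Sum.inr ()) (Sum.inl k)
  hit : (Z.ins l).C Φ ε s₁ (Sum.inr ()) (Sum.inl c)
  hit' : (Z.ins l).C Φ ε s₁' (Sum.inr ()) (Sum.inl c)
  iso_l : ∀ s k, s₁ ≤ s → s ≤ s₁' → (Z.ins l).C Φ ε s (Sum.inr ()) (Sum.inl k) → k = c
  iso_c : ∀ s k, s₁ ≤ s → s ≤ s₁' → (Z.ins l).C Φ ε s (Sum.inl c) (Sum.inl k) → k = c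
  /-- `l` and `c` separate after `s₁'` -/
  sep : ∃ δ > 0, ∀ s, s₁' < s → s < s₁' + δ →
    ε < dist ((Z.ins l).path Φ ε s (Sum.inr ())).1 ((Z.ins l).path Φ ε s (Sum.inl c)).1
  /-- nobody is born at `s₁'` -/
  noborn : ∀ k, k ≠ c → Z.b k ≠ s₁'


theorem inr_mem_encD {u : Unit} : (Sum.inr u : ι ⊕ Unit) ∈ encD c := Or.inl rfl

theorem inl_mem_encD {k : ι} : (Sum.inl k : ι ⊕ Unit) ∈ encD c ↔ k = c := by
  constructor
  · rintro (h | h)
    · cases h
    · exact Sum.inl_injective h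
  · rintro rfl
    exact Or.inr rfl

theorem encB_of_mem {x : ι ⊕ Unit} (h : x ∈ encD c) : encB Z l c s₁' x = s₁' := if_pos h

theorem encB_of_not_mem {x : ι ⊕ Unit} (h : x ∉ encD c) : encB Z l c s₁' x = (Z.ins l).b x :=
  if_neg h

theorem encB_inl {k : ι} (h : k ≠ c) : encB Z l c s₁' (Sum.inl k) = Z.b k :=
  encB_of_not_mem fun h' => h (inl_mem_encD.1 h')

namespace Hit

variable (h : Hit Φ ε Z l c s₁ s₁') (hΦ : AdmissiblePotential Φ) (hε : 0 < ε)
  (hZ : Z.Ok Φ ε) (hZl : (Z.ins l).Ok Φ ε)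

include h in
theorem nonneg' : 0 ≤ s₁' := h.nonneg.trans h.le

include h in
theorem born_ins (x : ι ⊕ Unit) : 0 ≤ (Z.ins l).b x := by
  rcases x with k | u
  · exact h.born k
  · exact h.bornl

include h in
theorem ins_b_le (x : ι ⊕ Unit) : (Z.ins l).b x ≤ encB Z l c s₁' x := by
  by_cases hx : x ∈ encD c
  · rw [encB_of_mem hx]
    rcases hx with rfl | rfl
    · exact (MW.C_born h.hit).trans h.le
    · exact (MW.C_born' h.hit).trans h.le
  · rw [encB_of_not_mem hx]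

include h hΦ hε hZ hZl in
/-- Up to `s₁` the particles of `Z` have the same paths in `Z` and in `Z + l`. -/
theorem agree {t : ℝ} (ht : t ∈ Icc 0 s₁) (k : ι) :
    Z.path Φ ε t k = (Z.ins l).path Φ ε t (Sum.inl k) := by
  refine BWorld.agree_own hΦ hε hZ.bw hZl.bw (e := (id : ι → ι)) (f := Sum.inl)
    Function.injective_id Sum.inl_injective (S := univ) (A := ∅) (a := 0) (T := s₁) le_rfl le_rfl
    (fun _ _ _ _ => Iff.rfl) (fun _ h => absurd h (notMem_empty _)) ?_ ?_ ?_ k (mem_univ k) t ht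
  · intro m _
    rw [MW.path_zero hΦ hε, MW.path_zero hΦ hε]
    rfl
  · intro _ _ _ _ _ j _ hj
    exact absurd rfl (hj j (Or.inl (mem_univ j)))
  · intro r hr m _ hm x hx hne
    rcases x with j | u
    · exact absurd rfl (hne j (Or.inl (mem_univ j)))
    · refine hZl.bw.le_dist_of_not_ctB hr.1 hr.2 hm hx fun r' hr' hc => ?_
      exact h.before r' m hr'.2 (MW.C_symm _ hc)

include h hΦ hε hZ hZl in
/-- Contacts inside `Z` up to `s₁`. -/
theorem contact_iff {t : ℝ} (ht : t ≤ s₁) (j k : ι) :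
    (Z.ins l).C Φ ε t (Sum.inl j) (Sum.inl k) ↔ Z.C Φ ε t j k := by
  rcases lt_or_ge t 0 with h0 | h0
  · exact ⟨fun h' => absurd ((h.born_ins (Sum.inl j)).trans (MW.C_born h')) (not_le.2 h0),
      fun h' => absurd ((h.born j).trans (MW.C_born h')) (not_le.2 h0)⟩
  · refine ctB_congr ⟨fun h' => Sum.inl_injective h', fun h' => by rw [h']⟩ rfl rfl ?_ ?_
    · rw [← h.agree hΦ hε hZ hZl ⟨h0, ht⟩]
    · rw [← h.agree hΦ hε hZ hZl ⟨h0, ht⟩]

include h hΦ hε hZ hZl in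
/-- The family `{l, c}` is closed up to `s₁'`. -/
theorem closed : Closed ((Z.ins l).C Φ ε) (encD c) (encB Z l c s₁') := by
  intro s x y hx hs hc
  have hy : y ∈ encD c := by
    rw [encB_of_mem hx] at hs
    rcases hx with rfl | rfl
    · rcases y with k | u
      · have h1 : s₁ ≤ s := by
          by_contra hlt
          exact h.before s k (not_le.1 hlt) hc
        exact inl_mem_encD.2 (h.iso_l s k h1 hs hc)
      · exact inr_mem_encD
    · rcases y with k | u
      · rcases le_total s₁ s with h1 | h1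
        · exact inl_mem_encD.2 (h.iso_c s k h1 hs hc)
        · exact inl_mem_encD.2 (h.free s k h1 ((h.contact_iff hΦ hε hZ hZl h1 c k).1 hc))
      · exact inr_mem_encD
  rw [encB_of_mem hx] at hs
  exact ⟨hy, by rw [encB_of_mem hy]; exact hs⟩

include h hΦ hε hZ hZl in
theorem bw_lines : BWorld Φ ε (encB Z l c s₁') 0
    (rebirthPath (encB Z l c s₁') ((Z.ins l).path Φ ε)) :=
  bworld_of_closed hΦ hε hZl.bw h.ins_b_le (fun _ hi => encB_of_not_mem hi)
    (h.closed hΦ hε hZ hZl)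

include h hΦ hε hZ hZl in
/-- The path of the world after the encounter. -/
theorem path_eq {t : ℝ} (ht : 0 ≤ t) :
    (encW Φ ε Z l c s₁').path Φ ε t = rebirthPath (encB Z l c s₁') ((Z.ins l).path Φ ε) t :=
  ((h.bw_lines hΦ hε hZ hZl).eq_evo hΦ hε ht).symm

include h hΦ hε hZ hZl in
theorem path_eq_of_le {t : ℝ} {x : ι ⊕ Unit} (ht : 0 ≤ t) (hx : encB Z l c s₁' x ≤ t) :
    (encW Φ ε Z l c s₁').path Φ ε t x = (Z.ins l).path Φ ε t x := by
  rw [h.path_eq hΦ hε hZ hZl ht, rebirthPath_of_le hx]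

include h hΦ hε hZ hZl in
theorem path_eq_inl {t : ℝ} {k : ι} (ht : 0 ≤ t) (hk : k ≠ c) :
    (encW Φ ε Z l c s₁').path Φ ε t (Sum.inl k) = (Z.ins l).path Φ ε t (Sum.inl k) := by
  rw [h.path_eq hΦ hε hZ hZl ht]
  exact hZl.bw.rebirth_eq hΦ hε (encB_of_not_mem fun h' => hk (inl_mem_encD.1 h')) ht

include h in
theorem encB_nonneg (x : ι ⊕ Unit) : 0 ≤ encB Z l c s₁' x := (h.born_ins x).trans (h.ins_b_le x)

include h hΦ hε hZ hZl in
/-- Contacts of the world after the encounter. -/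
theorem C_encW (s : ℝ) (x y : ι ⊕ Unit) : (encW Φ ε Z l c s₁').C Φ ε s x y ↔
    CtB (encB Z l c s₁') (rebirthPath (encB Z l c s₁') ((Z.ins l).path Φ ε)) ε s x y := by
  rcases lt_or_ge s 0 with h0 | h0
  · exact ⟨fun h' => absurd ((h.encB_nonneg x).trans (MW.C_born h')) (not_le.2 h0),
      fun h' => absurd ((h.encB_nonneg x).trans h'.born) (not_le.2 h0)⟩
  · refine ctB_congr Iff.rfl rfl rfl ?_ ?_
    · rw [h.path_eq hΦ hε hZ hZl h0]
    · rw [h.path_eq hΦ hε hZ hZl h0]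

include h hΦ hε hZ hZl in
theorem lines : Lines ((Z.ins l).C Φ ε) ((encW Φ ε Z l c s₁').C Φ ε) (encD c)
    (encB Z l c s₁') := by
  have h1 := lines_ctB (X := (Z.ins l).path Φ ε) (ε := ε) (D := encD c) h.ins_b_le
    (fun _ hi => encB_of_not_mem hi)
  exact ⟨fun s j k hc hj hk => (h.C_encW hΦ hε hZ hZl s j k).2 (h1.of_strict s j k hc hj hk),
    fun s j k hc => h1.sub s j k ((h.C_encW hΦ hε hZ hZl s j k).1 hc),
    fun s j k hc => h1.left s j k ((h.C_encW hΦ hε hZ hZl s j k).1 hc),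
    fun s j k hc => h1.right s j k ((h.C_encW hΦ hε hZ hZl s j k).1 hc)⟩

include h hΦ hε hZ hZl in
/-- The world after the encounter is good. -/
theorem ok : (encW Φ ε Z l c s₁').Ok Φ ε where
  bw := (h.bw_lines hΦ hε hZ hZl).congr fun t ht => h.path_eq hΦ hε hZ hZl ht
  sep := by
    intro x y hxy hb
    have hb' : encB Z l c s₁' x = encB Z l c s₁' y := hb
    have key : ∃ δ > 0, ∀ s, encB Z l c s₁' x < s → s < encB Z l c s₁' x + δ →
        ε < dist ((Z.ins l).path Φ ε s x).1 ((Z.ins l).path Φ ε s y).1 := by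
      by_cases hx : x ∈ encD c
      · by_cases hy : y ∈ encD c
        · obtain ⟨δ, hδ, hs⟩ := h.sep
          refine ⟨δ, hδ, fun s h1 h2 => ?_⟩
          rw [encB_of_mem hx] at h1 h2
          have h3 := hs s h1 h2
          rcases hx with rfl | rfl <;> rcases hy with rfl | rfl
          · exact absurd rfl hxy
          · exact h3
          · rw [dist_comm]; exact h3
          · exact absurd rfl hxy
        · exfalso
          rcases y with k | u
          · have hk : k ≠ c := fun h' => hy (inl_mem_encD.2 h')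
            rw [encB_of_mem hx, encB_inl hk] at hb'
            exact h.noborn k hk hb'.symm
          · exact hy inr_mem_encD
      · by_cases hy : y ∈ encD c
        · exfalso
          rcases x with k | u
          · have hk : k ≠ c := fun h' => hx (inl_mem_encD.2 h')
            rw [encB_of_mem hy, encB_inl hk] at hb'
            exact h.noborn k hk hb'
          · exact hx inr_mem_encD
        · rw [encB_of_not_mem hx, encB_of_not_mem hy] at hb'
          obtain ⟨δ, hδ, hs⟩ := hZl.sep x y hxy hb'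
          refine ⟨δ, hδ, fun s h1 h2 => ?_⟩
          rw [encB_of_not_mem hx] at h1 h2
          exact hs s h1 h2
    obtain ⟨δ, hδ, hs⟩ := key
    refine ⟨δ, hδ, fun s h1 h2 => ?_⟩
    have h1' : encB Z l c s₁' x < s := h1
    have hs0 : 0 ≤ s := (h.encB_nonneg x).trans h1'.le
    rw [h.path_eq_of_le hΦ hε hZ hZl hs0 h1'.le,
      h.path_eq_of_le hΦ hε hZ hZl hs0 (hb' ▸ h1'.le)]
    exact hs s h1 h2

include h hΦ hε hZ hZl in
/-- **The encounter in the abstract form.** -/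
theorem enc : Enc (Z.C Φ ε) (Z.C Φ ε) ((Z.ins l).C Φ ε) ((encW Φ ε Z l c s₁').C Φ ε)
    (Z.path Φ ε) (Z.path Φ ε) ((Z.ins l).path Φ ε) ((encW Φ ε Z l c s₁').path Φ ε)
    Sum.inl (Sum.inr ()) c s₁ s₁' where
  inj := Sum.inl_injective
  cov x := by
    rcases x with k | u
    · exact Or.inr ⟨k, rfl⟩
    · exact Or.inl rfl
  new := by rintro ⟨k, hk⟩; cases hk
  nonneg := h.nonneg
  le := h.le
  init k := h.agree hΦ hε hZ hZl ⟨le_rfl, h.nonneg⟩ k
  init' k hk := by
    rw [h.path_eq_inl hΦ hε hZ hZl le_rfl hk]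
    exact h.agree hΦ hε hZ hZl ⟨le_rfl, h.nonneg⟩ k
  vis _ _ _ _ hc := hc
  vis₂ s x x' hs hc := (h.lines hΦ hε hZ hZl).of_strict s x x' hc
    (fun hx => by rw [encB_of_mem hx]; exact hs) (fun hx => by rw [encB_of_mem hx]; exact hs)
  vis₂' s j k _ hj hk hc := (h.lines hΦ hε hZ hZl).of_strict s _ _ hc
    (fun hx => absurd (inl_mem_encD.1 hx) hj) (fun hx => absurd (inl_mem_encD.1 hx) hk)
  sub _ _ _ hc := hc
  sub₂ s x x' hc := (h.lines hΦ hε hZ hZl).sub s x x' hc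
  before s k _ hc := by
    by_contra hlt
    exact h.before s k (not_le.1 hlt) hc
  hit := h.hit
  iso_l := h.iso_l
  iso_c := h.iso_c
  at₁ k hc := h.free s₁ k le_rfl hc
  birth_c s k hk hc := by
    by_contra hlt
    exact hk (h.free s k (not_le.1 hlt).le hc)
  birth_c' s k _ hc := by
    have h1 := (h.lines hΦ hε hZ hZl).left s _ _ hc (inl_mem_encD.2 rfl)
    rwa [encB_of_mem (inl_mem_encD.2 rfl)] at h1

include h hΦ hε hZ hZl in
/-- The past of the family at its exit. -/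
theorem bc_eq {x : ι ⊕ Unit} (hx : x ∈ encD c) :
    BC ((Z.ins l).C Φ ε) s₁' x = encD c := by
  apply Subset.antisymm
  · intro y hy
    exact (own_past (h.closed hΦ hε hZ hZl) hx (encB_of_mem (Z := Z) (l := l) hx).ge hy).1
  · have h1 : Past ((Z.ins l).C Φ ε) s₁' (Sum.inr ()) 0 (Sum.inl c) :=
      .step (.root le_rfl) h.hit' h.nonneg'
    have h2 : Past ((Z.ins l).C Φ ε) s₁' (Sum.inl c) 0 (Sum.inr ()) :=
      .step (.root le_rfl) (MW.C_symm _ h.hit') h.nonneg'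
    intro y hy
    rcases hx with rfl | rfl <;> rcases hy with rfl | rfl
    · exact root_mem_BC h.nonneg'
    · exact h1
    · exact h2
    · exact root_mem_BC h.nonneg'

include h hΦ hε hZ hZl in
theorem msize_eq {x : ι ⊕ Unit} (hx : x ∈ encD c) :
    msize ((Z.ins l).C Φ ε) (Z.ins l).m s₁' x = l.2 + Z.m c := by
  unfold msize
  rw [h.bc_eq hΦ hε hZ hZl hx, Fintype.sum_sum_type]
  have h1 : ∑ k : ι, (if (Sum.inl k : ι ⊕ Unit) ∈ encD c then (Z.ins l).m (Sum.inl k) else 0) =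
      Z.m c := by
    have h2 : ∀ k : ι, (if (Sum.inl k : ι ⊕ Unit) ∈ encD c then (Z.ins l).m (Sum.inl k) else 0) =
        if k = c then Z.m k else 0 := by
      intro k
      by_cases hk : k = c
      · rw [if_pos (inl_mem_encD.2 hk), if_pos hk]
        rfl
      · rw [if_neg fun h' => hk (inl_mem_encD.1 h'), if_neg hk]
    rw [Finset.sum_congr rfl fun k _ => h2 k, Finset.sum_ite_eq' Finset.univ c Z.m,
      if_pos (Finset.mem_univ c)]
  rw [h1]
  have h3 : ∑ u : Unit, (if (Sum.inr u : ι ⊕ Unit) ∈ encD c then (Z.ins l).m (Sum.inr u) else 0) =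
      l.2 := by
    rw [Fintype.sum_unique, if_pos inr_mem_encD]
    rfl
  rw [h3, add_comm]

include h hΦ hε hZ hZl in
theorem m_of_mem {x : ι ⊕ Unit} (hx : x ∈ encD c) :
    (encW Φ ε Z l c s₁').m x = l.2 + Z.m c := by
  have h1 : (encW Φ ε Z l c s₁').m x =
      lmark ((Z.ins l).C Φ ε) (Z.ins l).m (encD c) (encB Z l c s₁') x := rfl
  rw [h1, lmark_of_mem hx, encB_of_mem hx]
  exact h.msize_eq hΦ hε hZ hZl hx

theorem m_inl {k : ι} (hk : k ≠ c) : (encW Φ ε Z l c s₁').m (Sum.inl k) = Z.m k := by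
  have h1 : (encW Φ ε Z l c s₁').m (Sum.inl k) =
      lmark ((Z.ins l).C Φ ε) (Z.ins l).m (encD c) (encB Z l c s₁') (Sum.inl k) := rfl
  rw [h1, lmark_of_not_mem fun h' => hk (inl_mem_encD.1 h')]
  rfl

include h hΦ hε hZ hZl in
theorem repl (hK : l.2 + Z.m c ≤ K) :
    Repl ((Z.ins l).C Φ ε) ((encW Φ ε Z l c s₁').C Φ ε) (Z.ins l).m (encD c)
      (encB Z l c s₁') K where
  symm _ _ _ hc := MW.C_symm _ hc
  closed := h.closed hΦ hε hZ hZl
  lines := h.lines hΦ hε hZ hZl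
  pos j _ := h.encB_nonneg j
  clean j hj := by
    rw [encB_of_mem hj, h.msize_eq hΦ hε hZ hZl hj]
    exact hK

include h hΦ hε hZ hZl in
/-- Infected in `Z + l` implies infected in the world after the encounter. -/
theorem inf (hK : l.2 + Z.m c ≤ K) {s : ℝ} {x : ι ⊕ Unit} (hx : (Z.ins l).Inf Φ ε K s x) :
    (encW Φ ε Z l c s₁').Inf Φ ε K s x :=
  (h.repl hΦ hε hZ hZl hK).infd_lines hx

/-! ### Touches -/

include h hΦ hε hZ hZl in
/-- A touch of `Z` by `l` is a touch of the pair `(Z₀ + c, Z₀ + l' + c')`. -/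
theorem touched (hK : l.2 + Z.m c ≤ K) {s : ℝ} (ht : Z.Touched Φ ε K (MW.line l) s) :
    CausalGen291.Touched (Z.C Φ ε) (Z.path Φ ε) ((encW Φ ε Z l c s₁').C Φ ε)
      ((encW Φ ε Z l c s₁').path Φ ε) (Subtype.val : Oth c → ι) (emb Sum.inl c)
      (Z.Inf Φ ε K) ((encW Φ ε Z l c s₁').Inf Φ ε K) s :=
  (h.enc hΦ hε hZ hZl).touched (fun _ hk => hk) (fun _ hx => h.inf hΦ hε hZ hZl hK hx) ht


end Hit

/-! ### Relabelling: the world after the encounter is `Z₀ + l' + c'` -/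

/-- The labels: `l'` gets the label of `l`, `c'` the label of `c`. -/
def encE (c : ι) : (Oth c ⊕ Unit) ⊕ Unit ≃ ι ⊕ Unit where
  toFun := Sum.elim (Sum.elim (fun k => Sum.inl k.1) fun _ => Sum.inr ()) fun _ => Sum.inl c
  invFun := Sum.elim (fun k => if hk : k = c then Sum.inr () else Sum.inl (Sum.inl ⟨k, hk⟩))
    fun _ => Sum.inl (Sum.inr ())
  left_inv := by
    rintro ((⟨k, hk⟩ | u) | u)
    · simp [hk]
    · rfl
    · simp
  right_inv := by
    rintro (k | u)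
    · by_cases hk : k = c
      · simp [hk]
      · simp [hk]
    · rfl

theorem back_eq_lineAt (τ : ℝ) (z : PhasePoint) : back (τ, z) = lineAt τ z 0 := by
  unfold back lineAt
  refine Prod.ext ?_ rfl
  simp only
  rw [zero_sub, neg_smul, sub_eq_add_neg]

theorem Hit.comap_encW (h : Hit Φ ε Z l c s₁ s₁') (hΦ : AdmissiblePotential Φ) (hε : 0 < ε)
    (hZ : Z.Ok Φ ε) (hZl : (Z.ins l).Ok Φ ε) :
    (encW Φ ε Z l c s₁').comap (encE c) =
      ((rest Z c).ins (outL Φ ε Z l c s₁')).ins (outC Φ ε Z l c s₁') := by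
  have hb : ((encW Φ ε Z l c s₁').comap (encE c)).b =
      (((rest Z c).ins (outL Φ ε Z l c s₁')).ins (outC Φ ε Z l c s₁')).b := by
    funext x
    rcases x with (⟨k, hk⟩ | u) | u
    · exact encB_inl hk
    · exact encB_of_mem inr_mem_encD
    · exact encB_of_mem (inl_mem_encD.2 rfl)
  have hz : ((encW Φ ε Z l c s₁').comap (encE c)).z =
      (((rest Z c).ins (outL Φ ε Z l c s₁')).ins (outC Φ ε Z l c s₁')).z := by
    funext x
    rcases x with (⟨k, hk⟩ | u) | u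
    · change rebirthPath (encB Z l c s₁') ((Z.ins l).path Φ ε) 0 (Sum.inl k) = Z.z k
      rw [hZl.bw.rebirth_eq hΦ hε (encB_of_not_mem fun h' => hk (inl_mem_encD.1 h')) le_rfl,
        MW.path_zero hΦ hε]
      rfl
    · change rebirthPath (encB Z l c s₁') ((Z.ins l).path Φ ε) 0 (Sum.inr ()) =
        back (s₁', (Z.ins l).path Φ ε s₁' (Sum.inr ()))
      have h1 : encB Z l c s₁' (Sum.inr ()) = s₁' := encB_of_mem inr_mem_encD
      rw [rebirthPath_of_ge (by rw [h1]; exact h.nonneg'), h1, back_eq_lineAt]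
    · change rebirthPath (encB Z l c s₁') ((Z.ins l).path Φ ε) 0 (Sum.inl c) =
        back (s₁', (Z.ins l).path Φ ε s₁' (Sum.inl c))
      have h1 : encB Z l c s₁' (Sum.inl c) = s₁' := encB_of_mem (inl_mem_encD.2 rfl)
      rw [rebirthPath_of_ge (by rw [h1]; exact h.nonneg'), h1, back_eq_lineAt]
  have hm : ((encW Φ ε Z l c s₁').comap (encE c)).m =
      (((rest Z c).ins (outL Φ ε Z l c s₁')).ins (outC Φ ε Z l c s₁')).m := by
    funext x
    rcases x with (⟨k, hk⟩ | u) | u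
    · exact Hit.m_inl hk
    · exact h.m_of_mem hΦ hε hZ hZl inr_mem_encD
    · exact h.m_of_mem hΦ hε hZ hZl (inl_mem_encD.2 rfl)
  have key : ∀ {κ : Type} (A B : MW κ), A.b = B.b → A.z = B.z → A.m = B.m → A = B := by
    intro κ A B h1 h2 h3
    cases A
    cases B
    simp only at h1 h2 h3
    subst h1 h2 h3
    rfl
  exact key _ _ hb hz hm

/-! ### The common parts -/

theorem com_rest (Z : MW ι) (c : ι) :
    MW.Com (rest Z c) Z id (Subtype.val : Oth c → ι) :=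
  ⟨Function.injective_id, Subtype.val_injective, fun _ => rfl, fun _ => rfl⟩

namespace Hit

variable (h : Hit Φ ε Z l c s₁ s₁') (hΦ : AdmissiblePotential Φ) (hε : 0 < ε)
  (hZ : Z.Ok Φ ε) (hZl : (Z.ins l).Ok Φ ε)

theorem emb_inj : Function.Injective (emb (Sum.inl : ι → ι ⊕ Unit) c) :=
  fun _ _ hab => Subtype.ext (Sum.inl_injective hab)

theorem com_rest_encW : MW.Com (rest Z c) (encW Φ ε Z l c s₁') id (emb Sum.inl c) where
  inj₁ := Function.injective_id
  inj₂ := emb_inj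
  b k := (encB_inl k.2).symm
  m k := (m_inl k.2).symm

include h hΦ hε hZ hZl in
theorem com_mid : MW.Com ((rest Z c).ins (outL Φ ε Z l c s₁')) (encW Φ ε Z l c s₁') id
    (fun x => encE c (Sum.inl x)) where
  inj₁ := Function.injective_id
  inj₂ _ _ hab := Sum.inl_injective ((encE c).injective hab)
  b x := by
    have := congrArg MW.b (h.comap_encW hΦ hε hZ hZl)
    exact (congrFun this (Sum.inl x)).symm
  m x := by
    have := congrArg MW.m (h.comap_encW hΦ hε hZ hZl)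
    exact (congrFun this (Sum.inl x)).symm

include h hΦ hε hZ hZl in
theorem mid (hR : (rest Z c).Ok Φ ε) (hRl : ((rest Z c).ins (outL Φ ε Z l c s₁')).Ok Φ ε)
    (T : ℝ) : Mid T (Z.C Φ ε) ((encW Φ ε Z l c s₁').C Φ ε) (Z.path Φ ε)
      ((encW Φ ε Z l c s₁').path Φ ε) ((rest Z c).C Φ ε) ((rest Z c).path Φ ε)
      (((rest Z c).ins (outL Φ ε Z l c s₁')).C Φ ε)
      (((rest Z c).ins (outL Φ ε Z l c s₁')).path Φ ε) Sum.inl Sum.inl
      (fun x => encE c (Sum.inl x)) where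
  comm _ := rfl
  pc := (com_rest Z c).pair hΦ hε hR hZ T
  pl := (MW.com_add (rest Z c) (MW.line (outL Φ ε Z l c s₁'))).pair hΦ hε hR hRl T
  plc := (h.com_mid hΦ hε hZ hZl).pair hΦ hε hRl (h.ok hΦ hε hZ hZl) T
  plc₀ := com_rest_encW.pair hΦ hε hR (h.ok hΦ hε hZ hZl) T

end Hit

/-- `Z` is `Z₀ + c`: the line `cl` has the birth, the free extension and the mark of `c`. -/
structure IsLine (Z : MW ι) (c : ι) (cl : ML) : Prop where
  b : Z.b c = cl.1.1
  z : Z.z c = back cl.1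
  m : Z.m c = cl.2

theorem comap_splitOff {cl : ML} (hcl : IsLine Z c cl) :
    Z.comap (splitOff c) = (rest Z c).ins cl := by
  unfold rest MW.ins MW.add MW.comap MW.line MW.lines
  congr 1
  · funext x
    rcases x with x | x
    · rfl
    · exact hcl.b
  · funext x
    rcases x with x | x
    · rfl
    · exact hcl.z
  · funext x
    rcases x with x | x
    · rfl
    · exact hcl.m

theorem rel_c (hΦ : AdmissiblePotential Φ) (hε : 0 < ε) {cl : ML} (hcl : IsLine Z c cl) :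
    Rel ((rest Z c).C Φ ε) ((rest Z c).path Φ ε) (Z.C Φ ε) (Z.path Φ ε) id
      (Subtype.val : Oth c → ι) ((rest Z c).C Φ ε) ((rest Z c).path Φ ε)
      (((rest Z c).ins cl).C Φ ε) (((rest Z c).ins cl).path Φ ε) id Sum.inl
      (Equiv.refl (Oth c)) (Equiv.refl (Oth c)) (splitOff c) where
  c₁ _ _ _ := Iff.rfl
  c₂ s j k := by rw [← comap_splitOff hcl]; exact C_comap hΦ hε Z (splitOff c) s j k
  s₁ _ _ := rfl
  s₂ s j := by rw [← comap_splitOff hcl]; exact path_comap hΦ hε Z (splitOff c) s j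
  m₁ _ := rfl
  m₂ _ := rfl

theorem touched_c_iff (hΦ : AdmissiblePotential Φ) (hε : 0 < ε) {cl : ML}
    (hcl : IsLine Z c cl) {s : ℝ} :
    (rest Z c).Touched Φ ε K (MW.line cl) s ↔
      CausalGen291.Touched ((rest Z c).C Φ ε) ((rest Z c).path Φ ε) (Z.C Φ ε) (Z.path Φ ε) id
        (Subtype.val : Oth c → ι) ((rest Z c).Inf Φ ε K) (Z.Inf Φ ε K) s :=
  (rel_c hΦ hε hcl).touched_iff (fun _ => Iff.rfl) fun j => by
    change ((rest Z c).ins cl).Inf Φ ε K s j ↔ _
    rw [← comap_splitOff hcl]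
    exact Inf_comap hΦ hε K Z (splitOff c) s j

namespace Hit

variable (h : Hit Φ ε Z l c s₁ s₁') (hΦ : AdmissiblePotential Φ) (hε : 0 < ε)
  (hZ : Z.Ok Φ ε) (hZl : (Z.ins l).Ok Φ ε)

include h hΦ hε hZ hZl in
theorem rel_c' : Rel (((rest Z c).ins (outL Φ ε Z l c s₁')).C Φ ε)
    (((rest Z c).ins (outL Φ ε Z l c s₁')).path Φ ε) ((encW Φ ε Z l c s₁').C Φ ε)
    ((encW Φ ε Z l c s₁').path Φ ε) id (fun x => encE c (Sum.inl x))
    (((rest Z c).ins (outL Φ ε Z l c s₁')).C Φ ε)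
    (((rest Z c).ins (outL Φ ε Z l c s₁')).path Φ ε)
    ((((rest Z c).ins (outL Φ ε Z l c s₁')).ins (outC Φ ε Z l c s₁')).C Φ ε)
    ((((rest Z c).ins (outL Φ ε Z l c s₁')).ins (outC Φ ε Z l c s₁')).path Φ ε) id Sum.inl
    (Equiv.refl _) (Equiv.refl _) (encE c) where
  c₁ _ _ _ := Iff.rfl
  c₂ s j k := by rw [← h.comap_encW hΦ hε hZ hZl]; exact C_comap hΦ hε _ (encE c) s j k
  s₁ _ _ := rfl
  s₂ s j := by rw [← h.comap_encW hΦ hε hZ hZl]; exact path_comap hΦ hε _ (encE c) s j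
  m₁ _ := rfl
  m₂ _ := rfl

include h hΦ hε hZ hZl in
theorem touched_c'_iff {s : ℝ} :
    ((rest Z c).ins (outL Φ ε Z l c s₁')).Touched Φ ε K (MW.line (outC Φ ε Z l c s₁')) s ↔
      CausalGen291.Touched (((rest Z c).ins (outL Φ ε Z l c s₁')).C Φ ε)
        (((rest Z c).ins (outL Φ ε Z l c s₁')).path Φ ε) ((encW Φ ε Z l c s₁').C Φ ε)
        ((encW Φ ε Z l c s₁').path Φ ε) id (fun x => encE c (Sum.inl x))
        (((rest Z c).ins (outL Φ ε Z l c s₁')).Inf Φ ε K) ((encW Φ ε Z l c s₁').Inf Φ ε K) s :=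
  (h.rel_c' hΦ hε hZ hZl).touched_iff (fun _ => Iff.rfl) fun j => by
    change (((rest Z c).ins (outL Φ ε Z l c s₁')).ins (outC Φ ε Z l c s₁')).Inf Φ ε K s j ↔ _
    rw [← h.comap_encW hΦ hε hZ hZl]
    exact Inf_comap hΦ hε K _ (encE c) s j

include h hΦ hε hZ hZl in
/-- **(1.6), touched form.** -/
theorem one_touched (hR : (rest Z c).Ok Φ ε)
    (hRl : ((rest Z c).ins (outL Φ ε Z l c s₁')).Ok Φ ε) (hK : l.2 + Z.m c ≤ K) {cl : ML}
    (hcl : IsLine Z c cl) {s : ℝ} (hs : 0 ≤ s) (ht : Z.Touched Φ ε K (MW.line l) s) :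
    (rest Z c).Touched Φ ε K (MW.line cl) s ∨
      (rest Z c).Touched Φ ε K (MW.line (outL Φ ε Z l c s₁')) s ∨
      ((rest Z c).ins (outL Φ ε Z l c s₁')).Touched Φ ε K (MW.line (outC Φ ε Z l c s₁')) s := by
  rw [touched_c_iff hΦ hε hcl, h.touched_c'_iff hΦ hε hZ hZl]
  exact one_contact (h.enc hΦ hε hZ hZl) (h.mid hΦ hε hZ hZl hR hRl s) ⟨hs, le_rfl⟩
    (fun _ hk => hk) (fun _ hx => h.inf hΦ hε hZ hZl hK hx)
    (fun _ hk => (com_rest Z c).coh hk) (fun _ hk => com_rest_encW.coh hk)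
    (fun _ hk => (MW.com_add (rest Z c) (MW.line (outL Φ ε Z l c s₁'))).coh hk)
    (fun _ hk => (h.com_mid hΦ hε hZ hZl).coh hk) ht

include h hΦ hε hZ hZl in
/-- **(1.6), the one-contact lemma.** -/
theorem one (hR : (rest Z c).Ok Φ ε)
    (hRl : ((rest Z c).ins (outL Φ ε Z l c s₁')).Ok Φ ε) (hK : l.2 + Z.m c ≤ K) {cl : ML}
    (hcl : IsLine Z c cl) (T : ℝ) :
    min ((rest Z c).thetaL Φ ε K T cl) (min ((rest Z c).thetaL Φ ε K T (outL Φ ε Z l c s₁'))
      (((rest Z c).ins (outL Φ ε Z l c s₁')).thetaL Φ ε K T (outC Φ ε Z l c s₁'))) ≤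
        Z.thetaL Φ ε K T l := by
  by_cases hex : ∃ s ∈ Icc 0 T, Z.Touched Φ ε K (MW.line l) s
  · have h1 : Z.thetaL Φ ε K T l = sInf {s | s ∈ Icc 0 T ∧ Z.Touched Φ ε K (MW.line l) s} := by
      unfold MW.thetaL MW.theta CausalGen291.theta
      exact if_pos hex
    rw [h1]
    obtain ⟨s, hs, hs'⟩ := hex
    refine le_csInf ⟨s, hs, hs'⟩ ?_
    rintro r ⟨hr, hr'⟩
    rcases h.one_touched hΦ hε hZ hZl hR hRl hK hcl hr.1 hr' with h2 | h2 | h2
    · exact (min_le_left _ _).trans (MW.theta_le_of_touched hr h2)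
    · exact (min_le_right _ _).trans ((min_le_left _ _).trans (MW.theta_le_of_touched hr h2))
    · exact (min_le_right _ _).trans ((min_le_right _ _).trans (MW.theta_le_of_touched hr h2))
  · push Not at hex
    have h1 : Z.thetaL Φ ε K T l = T + 1 := MW.theta_eq_of_not_touched hex
    rw [h1]
    exact (min_le_left _ _).trans MW.theta_le

end Hit

/-! ### With other labels for `Z₀` -/

theorem thetaL_relabel {ι₀ : Type} [Fintype ι₀] (hΦ : AdmissiblePotential Φ) (hε : 0 < ε)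
    {W : MW ι} {Z₀ : MW ι₀} (a : ι₀ ≃ ι) (hZ₀ : W.comap a = Z₀) (T : ℝ) (l : ML) :
    Z₀.thetaL Φ ε K T l = W.thetaL Φ ε K T l := by
  rw [← hZ₀]
  exact theta_comap_left hΦ hε K T W (MW.line l) a

theorem ins_comap {ι₀ : Type} {W : MW ι} {Z₀ : MW ι₀} (a : ι₀ ≃ ι) (hZ₀ : W.comap a = Z₀)
    (l : ML) : (W.ins l).comap (Equiv.sumCongr a (Equiv.refl Unit)) = Z₀.ins l := by
  rw [← hZ₀]
  exact (add_comap W (MW.line l) a (Equiv.refl Unit)).symm

theorem ok_comap {ι₀ : Type} [Fintype ι₀] (hΦ : AdmissiblePotential Φ) (hε : 0 < ε)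
    {W : MW ι} (hW : W.Ok Φ ε) (a : ι₀ ≃ ι) : (W.comap a).Ok Φ ε where
  bw := (hW.bw.equiv a).congr fun t _ => funext fun i => path_comap hΦ hε W a t i
  sep x y hxy hb := by
    obtain ⟨δ, hδ, hs⟩ := hW.sep (a x) (a y) (fun h' => hxy (a.injective h')) hb
    refine ⟨δ, hδ, fun s h1 h2 => ?_⟩
    rw [path_comap hΦ hε, path_comap hΦ hε]
    exact hs s h1 h2

theorem ok_of_comap {ι₀ : Type} [Fintype ι₀] (hΦ : AdmissiblePotential Φ) (hε : 0 < ε)
    {W : MW ι} {Z₀ : MW ι₀} (a : ι₀ ≃ ι) (hZ₀ : W.comap a = Z₀) (h : Z₀.Ok Φ ε) : W.Ok Φ ε := by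
  have h1 : Z₀.comap a.symm = W := by
    rw [← hZ₀]
    unfold MW.comap
    simp only [Equiv.apply_symm_apply]
  rw [← h1]
  exact ok_comap hΦ hε h a.symm

namespace Hit

variable (h : Hit Φ ε Z l c s₁ s₁') (hΦ : AdmissiblePotential Φ) (hε : 0 < ε)
  (hZ : Z.Ok Φ ε) (hZl : (Z.ins l).Ok Φ ε)

include h hΦ hε hZ hZl in
/-- **(1.6)** with other labels for `Z₀`. -/
theorem one' {ι₀ : Type} [Fintype ι₀] {Z₀ : MW ι₀} (a : ι₀ ≃ Oth c)
    (hZ₀ : (rest Z c).comap a = Z₀) (hR : Z₀.Ok Φ ε)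
    (hRl : (Z₀.ins (outL Φ ε Z l c s₁')).Ok Φ ε) (hK : l.2 + Z.m c ≤ K) {cl : ML}
    (hcl : IsLine Z c cl) (T : ℝ) :
    min (Z₀.thetaL Φ ε K T cl) (min (Z₀.thetaL Φ ε K T (outL Φ ε Z l c s₁'))
      ((Z₀.ins (outL Φ ε Z l c s₁')).thetaL Φ ε K T (outC Φ ε Z l c s₁'))) ≤
        Z.thetaL Φ ε K T l := by
  have h1 := h.one hΦ hε hZ hZl (ok_of_comap hΦ hε a hZ₀ hR)
    (ok_of_comap hΦ hε _ (ins_comap a hZ₀ (outL Φ ε Z l c s₁')) hRl) hK hcl T
  rw [thetaL_relabel hΦ hε a hZ₀, thetaL_relabel hΦ hε a hZ₀,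
    thetaL_relabel hΦ hε _ (ins_comap a hZ₀ (outL Φ ε Z l c s₁'))]
  exact h1

end Hit

/-- Labels for `Z = (w + lines F) + d`, `c` the line `r` of the family: `Z₀ = (w + d) + lines
(F without r)`. -/
def famE (ι κ : Type) (r : κ) :
    (ι ⊕ Unit) ⊕ {k : κ // k ≠ r} ≃ Oth (Sum.inl (Sum.inr r) : (ι ⊕ κ) ⊕ Unit) where
  toFun := Sum.elim (Sum.elim (fun i => ⟨Sum.inl (Sum.inl i), by simp⟩)
    fun u => ⟨Sum.inr u, by simp⟩) fun k => ⟨Sum.inl (Sum.inr k.1), fun h => k.2 (by simpa using h)⟩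
  invFun x := match x with
    | ⟨Sum.inl (Sum.inl i), _⟩ => Sum.inl (Sum.inl i)
    | ⟨Sum.inl (Sum.inr k), hk⟩ => Sum.inr ⟨k, fun h => hk (by rw [h])⟩
    | ⟨Sum.inr u, _⟩ => Sum.inl (Sum.inr u)
  left_inv := by
    rintro ((i | u) | k) <;> rfl
  right_inv := by
    rintro ⟨(i | k) | u, hx⟩ <;> rfl

theorem rest_fam {κ : Type} (w : MW ι) (F : κ → ML) (r : κ) (d : ML) :
    (rest ((w.add (MW.lines F)).ins d) (Sum.inl (Sum.inr r))).comap (famE ι κ r) =
      (w.ins d).add (MW.lines fun k : {k : κ // k ≠ r} => F k) := by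
  unfold rest MW.ins MW.add MW.comap MW.line MW.lines
  congr 1 <;> · funext x; rcases x with (x | x) | x <;> rfl

/-- **(1.6) for E6**: `e` hits the root line `r` of the family `F` in the world `(w + lines F) + d`. -/
theorem Hit.one_fam {κ : Type} [Fintype κ] {w : MW ι} {F : κ → ML} {r : κ} {d e : ML}
    (h : Hit Φ ε ((w.add (MW.lines F)).ins d) e (Sum.inl (Sum.inr r)) s₁ s₁')
    (hΦ : AdmissiblePotential Φ) (hε : 0 < ε) (hZ : ((w.add (MW.lines F)).ins d).Ok Φ ε)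
    (hZl : (((w.add (MW.lines F)).ins d).ins e).Ok Φ ε) {Z₀ : MW ((ι ⊕ Unit) ⊕ {k : κ // k ≠ r})}
    (hZ₀ : Z₀ = (w.ins d).add (MW.lines fun k : {k : κ // k ≠ r} => F k)) (hR : Z₀.Ok Φ ε)
    (hRl : (Z₀.ins (outL Φ ε ((w.add (MW.lines F)).ins d) e (Sum.inl (Sum.inr r)) s₁')).Ok Φ ε)
    (hK : e.2 + (F r).2 ≤ K) (T : ℝ) :
    min (Z₀.thetaL Φ ε K T (F r))
      (min (Z₀.thetaL Φ ε K T (outL Φ ε ((w.add (MW.lines F)).ins d) e (Sum.inl (Sum.inr r)) s₁'))
      ((Z₀.ins (outL Φ ε ((w.add (MW.lines F)).ins d) e (Sum.inl (Sum.inr r)) s₁')).thetaL Φ ε K T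
        (outC Φ ε ((w.add (MW.lines F)).ins d) e (Sum.inl (Sum.inr r)) s₁'))) ≤
      ((w.add (MW.lines F)).ins d).thetaL Φ ε K T e := by
  subst hZ₀
  exact h.one' hΦ hε hZ hZl (famE ι κ r) (rest_fam w F r d) hR hRl hK ⟨rfl, rfl, rfl⟩ T

end

end Crest.Agent.R122.Ins45
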