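import Crest.Agent.R122.CausalOC_291
import Crest.Agent.R122.InfGen_879
import Crest.Agent.R122.OneMW_45
import Crest.Agent.R122.EFam_879
import Crest.Agent.R122.LinkU_255
import Crest.Agent.R122.LinkLift_879
import Crest.Agent.R122.MWFam2_255
import Crest.Agent.R122.Decomp3E_811

-- ▼ part R122/TransferG_291
section

/-!
# One contact: transfer of touches (row 122, E_FINAL (1.6), (1.6')), abstract version

`Z` (over `ι₁ = κ ∪ {c}`), `Z+l` (over `ι₃`), `W = Z₀+l'+c'` (over `ιW = κ ∪ {n false, n true}`),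
`φ : ιW → ι₃` the bijection `l' ↦ l`, `c' ↦ c`. The hypotheses concern only contacts (`Transfer`).
In `W` we use the *transported* infection status `P₃ s (φ x)`.

* `Transfer.touched_iff`: `Touched (Z, Z+l; s) ↔ Touched (Z, W; s)` (transported status in `W`).
* `Transfer.size_le`, `Transfer.size_eq`: comparison of the marked sizes.
* `Transfer.rule`: the transported status is a rule in `W`.
* `Transfer.coh`: coherence with the sub-worlds of `W` which contain at most one of `l'`, `c'`.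
-/

set_option autoImplicit false
set_option linter.unusedSectionVars false

open Set Filter Topology

namespace Crest.Agent.R122.CausalGen291

open Crest.Agent.R122.Causal291 Crest.Agent.R122.Inf879

/-- Contact hypotheses of the one-contact transfer. -/
structure Transfer {κ ι₁ ι₃ ιW : Type} (T s₁ σ : ℝ) (C₁ : ℝ → ι₁ → ι₁ → Prop)
    (C₃ : ℝ → ι₃ → ι₃ → Prop) (CW : ℝ → ιW → ιW → Prop) (f : ι₁ → ι₃) (e₁ : κ → ι₁)
    (eW : κ → ιW) (φ : ιW → ι₃) (c : ι₁) (n : Bool → ιW) : Prop where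
  φ_bij : Function.Bijective φ
  f_inj : Function.Injective f
  φe : ∀ k, φ (eW k) = f (e₁ k)
  φc : φ (n true) = f c
  φl : φ (n false) ∉ range f
  cov₁ : ∀ x : ι₁, x = c ∨ x ∈ range e₁
  covW : ∀ x : ιW, (∃ b, x = n b) ∨ x ∈ range eW
  c_new : c ∉ range e₁
  n_new : ∀ b, n b ∉ range eW
  n_ne : n true ≠ n false
  s₁_nonneg : 0 ≤ s₁
  s₁_le : s₁ ≤ σ
  /-- contact of `l` and `c` at time `s₁` -/
  hit : C₃ s₁ (φ (n false)) (φ (n true))
  symm₃ : ∀ s x y, C₃ s x y → C₃ s y x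
  symmW : ∀ s x y, CW s x y → CW s y x
  /-- contacts of `W` are contacts of `Z+l` -/
  W3 : ∀ s ∈ Icc 0 T, ∀ x y, CW s x y → C₃ s (φ x) (φ y)
  /-- contacts of `Z+l` are contacts of `W`, except the early ones between `l` and `c` -/
  cW : ∀ s ∈ Icc 0 T, ∀ x y, C₃ s (φ x) (φ y) → CW s x y ∨ (x ∉ range eW ∧ y ∉ range eW ∧ s ≤ σ)
  /-- contacts of the undeflected `c` happen after `s₁` -/
  late₁ : ∀ s ∈ Icc 0 T, ∀ k, C₁ s c (e₁ k) → s₁ ≤ s
  /-- contacts of `l`, `c` in `Z+l` with other particles happen after `σ` -/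
  late₃ : ∀ s ∈ Icc 0 T, ∀ b k, C₃ s (φ (n b)) (φ (eW k)) → σ < s
  /-- contacts of `l'`, `c'` happen after their births -/
  lateW : ∀ s ∈ Icc 0 T, ∀ b y, CW s (n b) y → σ ≤ s

namespace Transfer

variable {κ ι₁ ι₃ ιW : Type} {X : Type*} {T s₁ σ a : ℝ} {C₁ : ℝ → ι₁ → ι₁ → Prop}
  {C₃ : ℝ → ι₃ → ι₃ → Prop} {CW : ℝ → ιW → ιW → Prop} {f : ι₁ → ι₃} {e₁ : κ → ι₁}
  {eW : κ → ιW} {φ : ιW → ι₃} {c : ι₁} {n : Bool → ιW}
  {z₁ : ℝ → ι₁ → X} {z₃ : ℝ → ι₃ → X} {zW : ℝ → ιW → X}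

/-- Contacts of `W` with a particle of `Z₀` are contacts of `Z+l`, and conversely. -/
theorem contact_iff (h : Transfer T s₁ σ C₁ C₃ CW f e₁ eW φ c n) {s : ℝ} (hs : s ∈ Icc 0 T)
    (x : ιW) (k : κ) : C₃ s (φ x) (f (e₁ k)) ↔ CW s x (eW k) := by
  rw [← h.φe k]
  constructor
  · intro hc
    rcases h.cW s hs x (eW k) hc with h1 | h1
    · exact h1
    · exact absurd ⟨k, rfl⟩ h1.2.1
  · exact h.W3 s hs x (eW k)

/-- Influence in `Z+l` implies influence in `W`. -/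
theorem fut_of_fut (h : Transfer T s₁ σ C₁ C₃ CW f e₁ eW φ c n)
    (hi : ∀ k, zW 0 (eW k) = z₃ 0 (f (e₁ k))) {s : ℝ} (hs : s ≤ T) {y : ι₁}
    (hy : Fut C₁ z₁ C₃ z₃ id f s y) :
    ∀ k, y = e₁ k → Fut C₁ z₁ CW zW e₁ eW s k := by
  induction hy with
  | @init s y h0 hs0 =>
    intro k hk
    subst hk
    refine .init ?_ hs0
    rw [hi]
    exact h0
  | new₁ j hj _ _ _ => exact absurd ⟨j, rfl⟩ hj
  | @new₂ s s' y j hj hc h0 hss' =>
    intro k hk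
    subst hk
    have hs'T : s' ∈ Icc 0 T := ⟨h0, hss'.trans hs⟩
    obtain ⟨x, rfl⟩ := h.φ_bij.2 j
    refine .new₂ x ?_ ((h.contact_iff hs'T x k).1 hc) h0 hss'
    rintro ⟨k', rfl⟩
    exact hj ⟨e₁ k', (h.φe k').symm⟩
  | @chain₁ s s' y y' h' hc hss' ih =>
    intro k hk
    subst hk
    rcases h.cov₁ y' with rfl | ⟨k', rfl⟩
    · exact .new₁ y' h.c_new hc h'.nonneg hss'
    · exact .chain₁ (ih (hss'.trans hs) k' rfl) hc hss'
  | @chain₂ s s' y y' h' hc hss' ih =>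
    intro k hk
    subst hk
    have hs'T : s' ∈ Icc 0 T := ⟨h'.nonneg, hss'.trans hs⟩
    rcases h.cov₁ y' with rfl | ⟨k', rfl⟩
    · rw [← h.φc] at hc
      exact .new₂ (n true) (h.n_new true) ((h.contact_iff hs'T _ k).1 hc) h'.nonneg hss'
    · rw [← h.φe k'] at hc
      exact .chain₂ (ih (hss'.trans hs) k' rfl) ((h.contact_iff hs'T _ k).1 hc) hss'

/-- From `s₁` on the particle `c` is influenced by `l`. -/
theorem fut_c (h : Transfer T s₁ σ C₁ C₃ CW f e₁ eW φ c n) {s : ℝ} (hs : s₁ ≤ s) :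
    Fut C₁ z₁ C₃ z₃ id f s c := by
  refine .new₂ (φ (n false)) h.φl ?_ h.s₁_nonneg hs
  rw [← h.φc]
  exact h.hit

/-- Influence in `W` implies influence in `Z+l`. -/
theorem fut_of_futW (h : Transfer T s₁ σ C₁ C₃ CW f e₁ eW φ c n)
    (hi : ∀ k, zW 0 (eW k) = z₃ 0 (f (e₁ k))) {s : ℝ} (hs : s ≤ T) {k : κ}
    (hk : Fut C₁ z₁ CW zW e₁ eW s k) : Fut C₁ z₁ C₃ z₃ id f s (e₁ k) := by
  induction hk with
  | @init s k h0 hs0 =>
    refine .init ?_ hs0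
    rw [← hi]
    exact h0
  | @new₁ s s' k j hj hc h0 hss' =>
    have hs'T : s' ∈ Icc 0 T := ⟨h0, hss'.trans hs⟩
    rcases h.cov₁ j with rfl | h1
    · exact .chain₁ (e₁ := id) (h.fut_c (h.late₁ s' hs'T k hc)) hc hss'
    · exact absurd h1 hj
  | @new₂ s s' k j hj hc h0 hss' =>
    have hs'T : s' ∈ Icc 0 T := ⟨h0, hss'.trans hs⟩
    rcases h.covW j with ⟨b, rfl⟩ | h1
    · cases b with
      | true =>
        have h1 : s₁ ≤ s' := h.s₁_le.trans (h.lateW s' hs'T true _ hc)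
        refine .chain₂ (h.fut_c h1) ?_ hss'
        rw [← h.φc]
        exact (h.contact_iff hs'T _ k).2 hc
      | false => exact .new₂ (φ (n false)) h.φl ((h.contact_iff hs'T _ k).2 hc) h0 hss'
    · exact absurd h1 hj
  | @chain₁ s s' k k' h' hc hss' ih =>
    exact .chain₁ (e₁ := id) (ih (hss'.trans hs)) hc hss'
  | @chain₂ s s' k k' h' hc hss' ih =>
    have hs'T : s' ∈ Icc 0 T := ⟨h'.nonneg, hss'.trans hs⟩
    refine .chain₂ (ih (hss'.trans hs)) ?_ hss'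
    have := (h.contact_iff hs'T (eW k') k).2 hc
    rwa [h.φe k'] at this

/-- **Exact transfer of touches**, with the transported infection status in `W`. -/
theorem touched_iff (h : Transfer T s₁ σ C₁ C₃ CW f e₁ eW φ c n)
    (hi : ∀ k, zW 0 (eW k) = z₃ 0 (f (e₁ k))) {P₁ : ℝ → ι₁ → Prop} {P₃ : ℝ → ι₃ → Prop} {s : ℝ}
    (hs : s ≤ T) (hc₁ : P₁ s c → s₁ ≤ s) (hc₃ : P₃ s (f c) → s₁ ≤ s) :
    Touched C₁ z₁ C₃ z₃ id f P₁ P₃ s ↔
      Touched C₁ z₁ CW zW e₁ eW P₁ (fun s x => P₃ s (φ x)) s := by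
  constructor
  · rintro (⟨y, hy, hP⟩ | ⟨j, hj, _⟩ | ⟨j, hj, hP⟩)
    · rcases h.cov₁ y with rfl | ⟨k, rfl⟩
      · rcases hP with hP | hP
        · exact Or.inr (Or.inl ⟨y, h.c_new, hP⟩)
        · refine Or.inr (Or.inr ⟨n true, h.n_new true, ?_⟩)
          change P₃ s (φ (n true))
          rw [h.φc]
          exact hP
      · refine Or.inl ⟨k, h.fut_of_fut hi hs hy k rfl, ?_⟩
        rcases hP with hP | hP
        · exact Or.inl hP
        · right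
          change P₃ s (φ (eW k))
          rw [h.φe]
          exact hP
    · exact absurd ⟨j, rfl⟩ hj
    · obtain ⟨x, rfl⟩ := h.φ_bij.2 j
      refine Or.inr (Or.inr ⟨x, ?_, hP⟩)
      rintro ⟨k, rfl⟩
      exact hj ⟨e₁ k, (h.φe k).symm⟩
  · rintro (⟨k, hk, hP⟩ | ⟨j, hj, hP⟩ | ⟨j, hj, hP⟩)
    · refine Or.inl ⟨e₁ k, h.fut_of_futW hi hs hk, ?_⟩
      rcases hP with hP | hP
      · exact Or.inl hP
      · right
        rw [← h.φe]
        exact hP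
    · rcases h.cov₁ j with rfl | h1
      · exact Or.inl ⟨j, h.fut_c (hc₁ hP), Or.inl hP⟩
      · exact absurd h1 hj
    · rcases h.covW j with ⟨b, rfl⟩ | h1
      · cases b with
        | true =>
          have hP' : P₃ s (f c) := by
            have : P₃ s (φ (n true)) := hP
            rwa [h.φc] at this
          exact Or.inl ⟨c, h.fut_c (hc₃ hP'), Or.inr hP'⟩
        | false => exact Or.inr (Or.inr ⟨φ (n false), h.φl, hP⟩)
      · exact absurd h1 hj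

/-- Explorations of `W` are explorations of `Z+l`. -/
theorem past_of_pastW (h : Transfer T s₁ σ C₁ C₃ CW f e₁ eW φ c n) {t s : ℝ} (ht : t ≤ T)
    {i x : ιW} (hx : Past CW t i s x) (hs : 0 ≤ s) : Past C₃ t (φ i) s (φ x) := by
  induction hx with
  | root h' => exact .root h'
  | @step s s' j k h' hc hss' ih =>
    exact .step (ih (hs.trans hss')) (h.W3 s' ⟨hs.trans hss', h'.le.trans ht⟩ _ _ hc) hss'

/-- Explorations of `Z+l` are explorations of `W`, except the early visits of `l` and `c`. -/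
theorem pastW_of_past (h : Transfer T s₁ σ C₁ C₃ CW f e₁ eW φ c n) {t s : ℝ} (ht : t ≤ T)
    {i : ιW} {y : ι₃} (hy : Past C₃ t (φ i) s y) (hs : 0 ≤ s) :
    ∀ x, y = φ x → Past CW t i s x ∨
      (x ∉ range eW ∧ s ≤ σ ∧ ∃ w, w ∉ range eW ∧ Past CW t i s w) := by
  induction hy with
  | root h' =>
    intro x hx
    rw [h.φ_bij.1 hx]
    exact Or.inl (.root h')
  | @step s s' j k h' hc hss' ih =>
    intro x hx
    subst hx
    have hs' : 0 ≤ s' := hs.trans hss'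
    have hs'T : s' ∈ Icc 0 T := ⟨hs', h'.le.trans ht⟩
    obtain ⟨xj, rfl⟩ := h.φ_bij.2 j
    rcases ih hs' xj rfl with h1 | ⟨h1, h2, w, hw, hw'⟩
    · rcases h.cW s' hs'T xj x hc with h3 | ⟨h3, h4, h5⟩
      · exact Or.inl (.step h1 h3 hss')
      · exact Or.inr ⟨h4, hss'.trans h5, xj, h3, h1.mono hss'⟩
    · rcases h.covW x with ⟨b, rfl⟩ | ⟨k, rfl⟩
      · exact Or.inr ⟨h.n_new b, hss'.trans h2, w, hw, hw'.mono hss'⟩
      · rcases h.covW xj with ⟨b, rfl⟩ | h3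
        · exact absurd (h.late₃ s' hs'T b k hc) (not_lt.2 h2)
        · exact absurd h3 h1

/-- The transported status is a rule of `W`. -/
theorem rule (h : Transfer T s₁ σ C₁ C₃ CW f e₁ eW φ c n) {P₃ : ℝ → ι₃ → Prop}
    (hP : IsRule C₃ a T P₃) (ha : 0 ≤ a) : IsRule CW a T (fun s x => P₃ s (φ x)) where
  hered _ _ _ _ hs ht hp hj := hP.hered _ _ _ _ hs ht (h.past_of_pastW ht hp (ha.trans hs)) hj
  closed i := hP.closed (φ i)

section size

variable [Fintype ι₃] [Fintype ιW] {m₃ : ι₃ → ℕ} {mW : ιW → ℕ}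

theorem mem_iff (h : Transfer T s₁ σ C₁ C₃ CW f e₁ eW φ c n) {t : ℝ} (ht : t ≤ T) (i : ιW)
    (k : κ) : φ (eW k) ∈ BC C₃ t (φ i) ↔ eW k ∈ BC CW t i := by
  constructor
  · intro hk
    rcases h.pastW_of_past ht hk le_rfl (eW k) rfl with h1 | h1
    · exact h1
    · exact absurd ⟨k, rfl⟩ h1.1
  · exact fun hk => h.past_of_pastW ht hk le_rfl

theorem exists_of_mem (h : Transfer T s₁ σ C₁ C₃ CW f e₁ eW φ c n) {t : ℝ} (ht : t ≤ T) (i : ιW)
    {b : Bool} (hb : φ (n b) ∈ BC C₃ t (φ i)) : ∃ b', n b' ∈ BC CW t i := by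
  rcases h.pastW_of_past ht hb le_rfl (n b) rfl with h1 | ⟨_, _, w, hw, hw'⟩
  · exact ⟨b, h1⟩
  · rcases h.covW w with ⟨b', rfl⟩ | h2
    · exact ⟨b', hw'⟩
    · exact absurd h2 hw

open scoped Classical in
/-- The size in `Z+l` as a sum over the particles of `W`. -/
theorem msize_eq (h : Transfer T s₁ σ C₁ C₃ CW f e₁ eW φ c n) (t : ℝ) (i : ιW) :
    msize C₃ m₃ t (φ i) = ∑ x : ιW, if φ x ∈ BC C₃ t (φ i) then m₃ (φ x) else 0 := by
  unfold msize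
  rw [← (Equiv.ofBijective φ h.φ_bij).sum_comp]
  refine Finset.sum_congr rfl fun x _ => ?_
  rw [Equiv.ofBijective_apply]

open scoped Classical in
theorem sum_split (h : Transfer T s₁ σ C₁ C₃ CW f e₁ eW φ c n) (g : ιW → ℕ) :
    ∑ x : ιW, g x = (g (n true) + g (n false)) + ∑ x ∈ Finset.univ.filter (fun x => x ∈ range eW),
      g x := by
  have h1 : (Finset.univ : Finset ιW) = {n true, n false} ∪
      Finset.univ.filter (fun x => x ∈ range eW) := by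
    ext x
    simp only [Finset.mem_univ, Finset.mem_union, Finset.mem_insert, Finset.mem_singleton,
      Finset.mem_filter, true_and, true_iff]
    rcases h.covW x with ⟨b, rfl⟩ | h1
    · cases b
      · exact Or.inl (Or.inr rfl)
      · exact Or.inl (Or.inl rfl)
    · exact Or.inr h1
  conv_lhs => rw [h1]
  rw [Finset.sum_union]
  · congr 1
    rw [Finset.sum_insert, Finset.sum_singleton]
    simpa using h.n_ne
  · rw [Finset.disjoint_left]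
    intro x hx hx'
    simp only [Finset.mem_insert, Finset.mem_singleton] at hx
    rw [Finset.mem_filter] at hx'
    rcases hx with rfl | rfl
    · exact h.n_new true hx'.2
    · exact h.n_new false hx'.2

/-- The size in `Z+l` is at most the size in `W`. -/
theorem size_le (h : Transfer T s₁ σ C₁ C₃ CW f e₁ eW φ c n)
    (hm : ∀ k, mW (eW k) = m₃ (φ (eW k)))
    (hn : ∀ b, mW (n b) = m₃ (φ (n false)) + m₃ (φ (n true))) {t : ℝ} (ht : t ≤ T) (i : ιW) :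
    msize C₃ m₃ t (φ i) ≤ msize CW mW t i := by
  classical
  rw [h.msize_eq t i]
  unfold msize
  rw [h.sum_split, h.sum_split]
  refine add_le_add ?_ (le_of_eq ?_)
  · by_cases hex : ∃ b', n b' ∈ BC CW t i
    · obtain ⟨b', hb'⟩ := hex
      have hN : m₃ (φ (n false)) + m₃ (φ (n true)) ≤
          (if n true ∈ BC CW t i then mW (n true) else 0) +
            (if n false ∈ BC CW t i then mW (n false) else 0) := by
        cases b' with
        | true =>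
          rw [if_pos hb', hn true]
          exact Nat.le_add_right _ _
        | false =>
          rw [if_pos hb', hn false]
          exact Nat.le_add_left _ _
      refine le_trans ?_ hN
      have h1 : (if φ (n true) ∈ BC C₃ t (φ i) then m₃ (φ (n true)) else 0) ≤ m₃ (φ (n true)) := by
        split_ifs
        · exact le_rfl
        · exact Nat.zero_le _
      have h2 : (if φ (n false) ∈ BC C₃ t (φ i) then m₃ (φ (n false)) else 0) ≤
          m₃ (φ (n false)) := by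
        split_ifs
        · exact le_rfl
        · exact Nat.zero_le _
      omega
    · have h1 : ∀ b, φ (n b) ∉ BC C₃ t (φ i) := fun b hb => hex (h.exists_of_mem ht i hb)
      rw [if_neg (h1 true), if_neg (h1 false)]
      exact Nat.zero_le _
  · refine Finset.sum_congr rfl fun x hx => ?_
    rw [Finset.mem_filter] at hx
    obtain ⟨k, rfl⟩ := hx.2
    by_cases hk : eW k ∈ BC CW t i
    · rw [if_pos hk, if_pos ((h.mem_iff ht i k).2 hk), hm]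
    · rw [if_neg hk, if_neg fun h' => hk ((h.mem_iff ht i k).1 h')]

/-- If one of the two lines is not in the past, the sizes are equal. -/
theorem size_eq (h : Transfer T s₁ σ C₁ C₃ CW f e₁ eW φ c n)
    (hm : ∀ k, mW (eW k) = m₃ (φ (eW k)))
    (hn : ∀ b, mW (n b) = m₃ (φ (n false)) + m₃ (φ (n true))) {t : ℝ} (ht : t ≤ T) {i : ιW}
    {b : Bool} (hb : n (!b) ∉ BC CW t i) (hi : i ≠ n b ∨ σ ≤ t) :
    msize C₃ m₃ t (φ i) = msize CW mW t i := by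
  classical
  rw [h.msize_eq t i]
  unfold msize
  rw [h.sum_split, h.sum_split]
  refine congrArg₂ (· + ·) ?_ ?_
  · by_cases hbb : n b ∈ BC CW t i
    · -- `n b` is in the past at time `σ`
      have h1 : Past CW t i σ (n b) := by
        rcases Past.cases' hbb with h2 | ⟨s', j, h2, _, h3, h4⟩
        · rcases hi with hi | hi
          · exact absurd h2.symm hi
          · rw [h2]; exact .root hi
        · have h5 : σ ≤ s' := h.lateW s' ⟨h2, h3.le.trans ht⟩ b j (h.symmW _ _ _ h4)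
          exact (Past.contact h3 h4).mono h5
      have hσ : 0 ≤ σ := h.s₁_nonneg.trans h.s₁_le
      have h2 : Past C₃ t (φ i) s₁ (φ (n b)) := (h.past_of_pastW ht h1 hσ).mono h.s₁_le
      have hc : C₃ s₁ (φ (n b)) (φ (n (!b))) := by
        cases b with
        | false => exact h.hit
        | true => exact h.symm₃ _ _ _ h.hit
      have h3 : φ (n (!b)) ∈ BC C₃ t (φ i) := (Past.contact h2 hc).mono h.s₁_nonneg
      have h4 : φ (n b) ∈ BC C₃ t (φ i) := h2.mono h.s₁_nonneg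
      cases b with
      | false =>
        simp only [Bool.not_false] at hb h3
        rw [if_pos h3, if_pos h4, if_neg hb, if_pos hbb, hn false]
        omega
      | true =>
        simp only [Bool.not_true] at hb h3
        rw [if_pos h3, if_pos h4, if_neg hb, if_pos hbb, hn true]
        omega
    · have hnone : ∀ b', n b' ∉ BC CW t i := by
        intro b'
        by_cases hbb' : b' = b
        · rw [hbb']; exact hbb
        · have : b' = !b := by cases b <;> cases b' <;> simp_all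
          rw [this]; exact hb
      have h1 : ∀ b', φ (n b') ∉ BC C₃ t (φ i) := by
        intro b' hb'
        obtain ⟨b'', h2⟩ := h.exists_of_mem ht i hb'
        exact hnone b'' h2
      rw [if_neg (h1 true), if_neg (h1 false), if_neg (hnone true), if_neg (hnone false)]
  · refine Finset.sum_congr rfl fun x hx => ?_
    rw [Finset.mem_filter] at hx
    obtain ⟨k, rfl⟩ := hx.2
    by_cases hk : eW k ∈ BC CW t i
    · rw [if_pos hk, if_pos ((h.mem_iff ht i k).2 hk), hm]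
    · rw [if_neg hk, if_neg fun h' => hk ((h.mem_iff ht i k).1 h')]

/-- Before `σ` the size of the lines `l'`, `c'` in `W` is their mark. -/
theorem size_early (h : Transfer T s₁ σ C₁ C₃ CW f e₁ eW φ c n) {t : ℝ} (ht0 : 0 ≤ t)
    (ht : t ≤ T) (htσ : t < σ) (b : Bool) : msize CW mW t (n b) = mW (n b) := by
  classical
  have h1 : BC CW t (n b) = {n b} := by
    ext k
    constructor
    · intro hk
      have key : ∀ (r : ℝ) (l : ιW), Past CW t (n b) r l → 0 ≤ r → l = n b := by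
        intro r l hl
        induction hl with
        | root _ => exact fun _ => rfl
        | @step r r' l' l hl' hc hrr' ih =>
          intro hr
          have h2 : l' = n b := ih (hr.trans hrr')
          subst h2
          exact absurd (h.lateW r' ⟨hr.trans hrr', hl'.le.trans ht⟩ b l hc)
            (not_le.2 (hl'.le.trans_lt htσ))
      exact key 0 k hk le_rfl
    · rintro rfl
      exact root_mem_BC ht0
  unfold msize
  rw [h1]
  simp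

/-- Coherence of the transported status with worlds which have a common part with `W` that does not
contain one of the two lines. -/
theorem coh_gen (h : Transfer T s₁ σ C₁ C₃ CW f e₁ eW φ c n)
    (hm : ∀ k, mW (eW k) = m₃ (φ (eW k)))
    (hn : ∀ b, mW (n b) = m₃ (φ (n false)) + m₃ (φ (n true))) {K : ℕ}
    (hK : m₃ (φ (n false)) + m₃ (φ (n true)) ≤ K)
    {ι' κ' : Type} [Fintype ι'] [Finite κ'] {C' : ℝ → ι' → ι' → Prop} {z' : ℝ → ι' → X}
    {m' : ι' → ℕ}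
    {e' : κ' → ι'} {g : κ' → ιW} (he' : Function.Injective e') (hg : Function.Injective g)
    (hm' : ∀ x, m' (e' x) = mW (g x)) {b : Bool}
    (hb : n (!b) ∉ range g) {t : ℝ} (ht : t ∈ Icc 0 T) {x : κ'}
    (hx : HistEq C' z' CW zW e' g t x) :
    Infd C' m' K t (e' x) ↔ Infd C₃ m₃ K t (φ (g x)) := by
  have h1 : msize C' m' t (e' x) = msize CW mW t (g x) :=
    msize_eq_of_histEqG he' hg (fun x => hm' x) hx
  have h2 : n (!b) ∉ BC CW t (g x) := fun h' => hb (hx.sub₂ 0 _ le_rfl h')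
  unfold Infd
  by_cases hi : g x ≠ n b ∨ σ ≤ t
  · rw [h1, h.size_eq hm hn ht.2 h2 hi]
  · push Not at hi
    have h3 : msize CW mW t (g x) ≤ K := by
      rw [hi.1, h.size_early ht.1 ht.2 hi.2, hn]
      exact hK
    rw [h1]
    constructor
    · intro h4
      exact absurd h4 (not_lt.2 h3)
    · intro h4
      exact absurd h4 (not_lt.2 ((h.size_le hm hn ht.2 (g x)).trans h3))

/-- Coherence of the transported status with sub-worlds of `W` which do not contain one of the two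
lines. -/
theorem coh (h : Transfer T s₁ σ C₁ C₃ CW f e₁ eW φ c n)
    (hm : ∀ k, mW (eW k) = m₃ (φ (eW k)))
    (hn : ∀ b, mW (n b) = m₃ (φ (n false)) + m₃ (φ (n true))) {K : ℕ}
    (hK : m₃ (φ (n false)) + m₃ (φ (n true)) ≤ K)
    {ι' : Type} [Fintype ι'] {C' : ℝ → ι' → ι' → Prop} {z' : ℝ → ι' → X} {m' : ι' → ℕ}
    {g : ι' → ιW} (hg : Function.Injective g) (hm' : ∀ x, m' x = mW (g x)) {b : Bool}
    (hb : n (!b) ∉ range g) {t : ℝ} (ht : t ∈ Icc 0 T) {x : ι'}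
    (hx : HistEq C' z' CW zW id g t x) :
    Infd C' m' K t x ↔ Infd C₃ m₃ K t (φ (g x)) :=
  h.coh_gen hm hn hK (e' := (id : ι' → ι')) Function.injective_id hg hm' hb ht hx


end size

end Transfer

end Crest.Agent.R122.CausalGen291
end

-- ▼ part R122/OneRev_291
section

/-!
# One contact, reverse direction and equality (row 122, E_FINAL (1.6'), (1.7)), marked worlds

`h : Hit Φ ε Z l c s₁ s₁'` (helper45): the first contact of `l` in `Z + l` is with `c`.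
`Z₀` = `Z` without `c` (any labels `a : ι₀ ≃ Oth c`), `l' = outL`, `c' = outC`.

* `NoCross Φ ε K T Z A B`: no particle of `Z` lies in both clean closures of `A` and `B` up to the
  first touch (no condition on direct contacts between `A` and `B`).
* `transfer`: the abstract transfer between `Z`, `Z + l` and `W = Z₀ + l' + c'`.
* `theta_eq`: `θ(Z,l) = min (θ(Z₀,c)) (min (θ(Z₀,l')) (θ(Z₀,c')))` if `l'`, `c'` are not linked in
  `Z₀`, and neither `l'` nor `c'` has a common particle with the undeflected `c`.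
* `le_of_out_le`, `le_of_out_le_fam`: single time form.
* `min_le_min`: `min (θ(Z,l)) (θ(Z₀,c)) ≤ min (θ(Z₀,l')) (θ(Z₀,c'))` if `l'`, `c'` are not linked in
  `Z₀` (nothing about `c`); `min_le_min_fam` = the fields `re`, `rc'` of `E6Facts` (helper811).
-/

set_option autoImplicit false
set_option linter.unusedSectionVars false

open MeasureTheory Set Filter Topology
open scoped ENNReal
open Crest.AnalysisR.Kinetic
open Crest.Agent.R122.Flow671 Crest.Agent.R122.Loc45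
open Crest.Agent.R122.Causal291 (Past BC)
open Crest.Agent.R122.Inf879 Crest.Agent.R122.EDefs602 Crest.Agent.R122.Lines255
open Crest.Agent.R122.Repl302 Crest.Agent.R122.MWAlg255 Crest.Agent.R122.Ins45
open Crest.Agent.R122.CausalGen291

namespace Crest.Agent.R122.OneRev291

noncomputable section

open scoped Classical

/-! ### Common particles of two clean closures -/

section cross

variable {ι κ₁ κ₂ : Type} [Fintype ι] [Fintype κ₁] [Fintype κ₂]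

/-- The clean closure of `A` in the world `Z` at time `u`. -/
def CC (Φ : Space3 → ℝ) (ε : ℝ) (K : ℕ) (Z : MW ι) (A : MW κ₁) (u : ℝ) (k : ι) : Prop :=
  CFut (Z.C Φ ε) (Z.path Φ ε) ((Z.add A).C Φ ε) ((Z.add A).path Φ ε) id Sum.inl 0
    (Z.Inf Φ ε K) ((Z.add A).Inf Φ ε K) u k

/-- A particle of `Z` lies in both clean closures up to and including time `s`. -/
def Cross (Φ : Space3 → ℝ) (ε : ℝ) (K : ℕ) (Z : MW ι) (A : MW κ₁) (B : MW κ₂) (s : ℝ) : Prop :=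
  ∃ u ∈ Icc 0 s, ∃ k, CC Φ ε K Z A u k ∧ CC Φ ε K Z B u k

variable {Φ : Space3 → ℝ} {ε T s : ℝ} {K : ℕ} {Z : MW ι} {A : MW κ₁} {B : MW κ₂}

theorem Cross.link (h : Cross Φ ε K Z A B s) : Z.LINK Φ ε K A B s := by
  obtain ⟨u, hu, k, h1, h2⟩ := h
  exact ⟨u, hu, Or.inl ⟨k, h1, h2⟩⟩

theorem Cross.mono {s' : ℝ} (h : Cross Φ ε K Z A B s) (hs : s ≤ s') : Cross Φ ε K Z A B s' := by
  obtain ⟨u, hu, h⟩ := h
  exact ⟨u, ⟨hu.1, hu.2.trans hs⟩, h⟩

theorem Cross.symm (h : Cross Φ ε K Z A B s) : Cross Φ ε K Z B A s := by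
  obtain ⟨u, hu, k, h1, h2⟩ := h
  exact ⟨u, hu, k, h2, h1⟩

/-- No common particle of the clean closures of `A` and `B` up to the first touch. -/
def NoCross (Φ : Space3 → ℝ) (ε : ℝ) (K : ℕ) (T : ℝ) (Z : MW ι) (A : MW κ₁) (B : MW κ₂) : Prop :=
  ∀ s, 0 ≤ s → s ≤ T → s ≤ Z.theta Φ ε K T A → s ≤ Z.theta Φ ε K T B → ¬ Cross Φ ε K Z A B s


theorem NoCross.symm (h : NoCross Φ ε K T Z A B) : NoCross Φ ε K T Z B A :=
  fun s h0 h1 h2 h3 h' => h s h0 h1 h3 h2 h'.symm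

end cross

/-! ### Equality of thetas -/

section congr

variable {ι₁ ι₂ κ ι₁' ι₂' κ' : Type} {X X' : Type*}
variable {C₁ : ℝ → ι₁ → ι₁ → Prop} {C₂ : ℝ → ι₂ → ι₂ → Prop} {z₁ : ℝ → ι₁ → X} {z₂ : ℝ → ι₂ → X}
  {e₁ : κ → ι₁} {e₂ : κ → ι₂} {P₁ : ℝ → ι₁ → Prop} {P₂ : ℝ → ι₂ → Prop}
  {C₁' : ℝ → ι₁' → ι₁' → Prop} {C₂' : ℝ → ι₂' → ι₂' → Prop} {z₁' : ℝ → ι₁' → X'}
  {z₂' : ℝ → ι₂' → X'} {e₁' : κ' → ι₁'} {e₂' : κ' → ι₂'} {P₁' : ℝ → ι₁' → Prop}
  {P₂' : ℝ → ι₂' → Prop}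

theorem theta_congr {a T : ℝ} (h : ∀ s ∈ Icc a T, Touched C₁ z₁ C₂ z₂ e₁ e₂ P₁ P₂ s ↔
    Touched C₁' z₁' C₂' z₂' e₁' e₂' P₁' P₂' s) :
    theta C₁ z₁ C₂ z₂ e₁ e₂ a T P₁ P₂ = theta C₁' z₁' C₂' z₂' e₁' e₂' a T P₁' P₂' := by
  unfold theta
  have h1 : (∃ s ∈ Icc a T, Touched C₁ z₁ C₂ z₂ e₁ e₂ P₁ P₂ s) ↔
      ∃ s ∈ Icc a T, Touched C₁' z₁' C₂' z₂' e₁' e₂' P₁' P₂' s :=
    exists_congr fun s => and_congr_right fun hs => h s hs
  have h2 : {s | s ∈ Icc a T ∧ Touched C₁ z₁ C₂ z₂ e₁ e₂ P₁ P₂ s} =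
      {s | s ∈ Icc a T ∧ Touched C₁' z₁' C₂' z₂' e₁' e₂' P₁' P₂' s} := by
    ext s
    exact and_congr_right fun hs => h s hs
  simp only [h1, h2]

end congr

/-! ### The transfer -/

section hit

variable {ι ι₀ : Type} [Fintype ι] [Fintype ι₀] {Φ : Space3 → ℝ} {ε : ℝ} {Z : MW ι} {l : ML}
  {c : ι} {s₁ s₁' : ℝ} {K : ℕ} {Z₀ : MW ι₀} {a : ι₀ ≃ Oth c}

/-- The world `W = Z₀ + l' + c'`. -/
abbrev WW (Φ : Space3 → ℝ) (ε : ℝ) (Z : MW ι) (l : ML) (c : ι) (s₁' : ℝ) (Z₀ : MW ι₀) :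
    MW ((ι₀ ⊕ Unit) ⊕ Unit) :=
  (Z₀.ins (outL Φ ε Z l c s₁')).ins (outC Φ ε Z l c s₁')

/-- The labels of `W` in `Z + l`. -/
def phi (a : ι₀ ≃ Oth c) : (ι₀ ⊕ Unit) ⊕ Unit ≃ ι ⊕ Unit :=
  (Equiv.sumCongr (Equiv.sumCongr a (Equiv.refl Unit)) (Equiv.refl Unit)).trans (encE c)

/-- The labels of `l'` and `c'`. -/
def nn (ι₀ : Type) (b : Bool) : (ι₀ ⊕ Unit) ⊕ Unit :=
  cond b (Sum.inr ()) (Sum.inl (Sum.inr ()))

/-- The embedding of the common part in `Z`. -/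
def e1 (a : ι₀ ≃ Oth c) (k : ι₀) : ι := (a k).1


theorem e1_ne (a : ι₀ ≃ Oth c) (k : ι₀) : e1 a k ≠ c := (a k).2

theorem exists_e1 (a : ι₀ ≃ Oth c) {k : ι} (hk : k ≠ c) : ∃ k₀, e1 a k₀ = k :=
  ⟨a.symm ⟨k, hk⟩, by unfold e1; rw [Equiv.apply_symm_apply]⟩



theorem phi_nn_false (a : ι₀ ≃ Oth c) : phi a (nn ι₀ false) = Sum.inr () := rfl

theorem comap_comap' {ι₁ ι₂ ι₃ : Type} (W : MW ι₃) (f : ι₂ → ι₃) (g : ι₁ → ι₂) :
    (W.comap f).comap g = W.comap (f ∘ g) := rfl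

section

variable (h : Hit Φ ε Z l c s₁ s₁') (hΦ : AdmissiblePotential Φ) (hε : 0 < ε)
  (hZ : Z.Ok Φ ε) (hZl : (Z.ins l).Ok Φ ε) (hZ₀ : (rest Z c).comap a = Z₀)

include h hΦ hε hZ hZl hZ₀ in
theorem comap_phi : (encW Φ ε Z l c s₁').comap (phi a) = WW Φ ε Z l c s₁' Z₀ := by
  have h1 := ins_comap a hZ₀ (outL Φ ε Z l c s₁')
  have h2 := ins_comap _ h1 (outC Φ ε Z l c s₁')
  rw [← h.comap_encW hΦ hε hZ hZl] at h2
  exact h2

include h hΦ hε hZ hZl hZ₀ in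
theorem C_WW (s : ℝ) (x y : (ι₀ ⊕ Unit) ⊕ Unit) : (WW Φ ε Z l c s₁' Z₀).C Φ ε s x y ↔
    (encW Φ ε Z l c s₁').C Φ ε s (phi a x) (phi a y) := by
  rw [← comap_phi h hΦ hε hZ hZl hZ₀]
  exact C_comap hΦ hε _ (phi a) s x y

include h hΦ hε hZ hZl hZ₀ in
theorem okWW : (WW Φ ε Z l c s₁' Z₀).Ok Φ ε := by
  rw [← comap_phi h hΦ hε hZ hZl hZ₀]
  exact MW.Ok.comap hΦ hε (h.ok hΦ hε hZ hZl) (phi a)


include hZ₀ in
theorem z_Z₀ (k : ι₀) : Z₀.z k = Z.z (e1 a k) := by rw [← hZ₀]; rfl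

include hZ₀ in
theorem m_Z₀ (k : ι₀) : Z₀.m k = Z.m (e1 a k) := by rw [← hZ₀]; rfl



include h hΦ hε hZ hZl in
theorem inside {s : ℝ} {x y : ι ⊕ Unit} (hx : x ∈ encD c) (hs : s ≤ s₁')
    (hc : (Z.ins l).C Φ ε s x y) : y ∈ encD c :=
  (h.closed hΦ hε hZ hZl s x y hx (by rw [encB_of_mem hx]; exact hs) hc).1

include h hΦ hε hZ hZl hZ₀ in
/-- **The transfer.** -/
theorem transfer (T : ℝ) : Transfer T s₁ s₁' (Z.C Φ ε) ((Z.ins l).C Φ ε)
    ((WW Φ ε Z l c s₁' Z₀).C Φ ε) Sum.inl (e1 a) (Sum.inl ∘ Sum.inl) (phi a) c (nn ι₀) where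
  φ_bij := (phi a).bijective
  f_inj := Sum.inl_injective
  φe _ := rfl
  φc := rfl
  φl := by
    rintro ⟨k, hk⟩
    rw [phi_nn_false] at hk
    cases hk
  cov₁ x := by
    by_cases hx : x = c
    · exact Or.inl hx
    · exact Or.inr (exists_e1 a hx)
  covW x := by
    rcases x with (x | u) | u
    · exact Or.inr ⟨x, rfl⟩
    · exact Or.inl ⟨false, rfl⟩
    · exact Or.inl ⟨true, rfl⟩
  c_new := by
    rintro ⟨k, hk⟩
    exact e1_ne a k hk
  n_new b := by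
    rintro ⟨k, hk⟩
    cases b
    · exact Sum.inl_ne_inr (Sum.inl_injective hk)
    · exact Sum.inl_ne_inr hk
  n_ne := fun hk => Sum.inr_ne_inl hk
  s₁_nonneg := h.nonneg
  s₁_le := h.le
  hit := h.hit
  symm₃ _ _ _ hc := MW.C_symm _ hc
  symmW _ _ _ hc := MW.C_symm _ hc
  W3 s _ x y hc :=
    (h.lines hΦ hε hZ hZl).sub s _ _ ((C_WW h hΦ hε hZ hZl hZ₀ s x y).1 hc)
  cW s _ x y hc := by
    by_cases hx : phi a x ∈ encD c
    · by_cases hs : s ≤ s₁'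
      · right
        have hy : phi a y ∈ encD c := inside h hΦ hε hZ hZl hx hs hc
        have key : ∀ z : (ι₀ ⊕ Unit) ⊕ Unit, phi a z ∈ encD c →
            z ∉ range (Sum.inl ∘ Sum.inl : ι₀ → (ι₀ ⊕ Unit) ⊕ Unit) := by
          rintro z hz ⟨k, rfl⟩
          have hz' : (Sum.inl (e1 a k) : ι ⊕ Unit) ∈ encD c := hz
          exact e1_ne a k (inl_mem_encD.1 hz')
        exact ⟨key x hx, key y hy, hs⟩
      · left
        rw [not_le] at hs
        refine (C_WW h hΦ hε hZ hZl hZ₀ s x y).2 ?_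
        exact (h.lines hΦ hε hZ hZl).of_strict s _ _ hc
          (fun hx => by rw [encB_of_mem hx]; exact hs) (fun hx => by rw [encB_of_mem hx]; exact hs)
    · left
      refine (C_WW h hΦ hε hZ hZl hZ₀ s x y).2 ?_
      refine (h.lines hΦ hε hZ hZl).of_strict s _ _ hc (fun hx' => absurd hx' hx) fun hy => ?_
      rw [encB_of_mem hy]
      by_contra hs
      exact hx (inside h hΦ hε hZ hZl hy (not_lt.1 hs) (MW.C_symm _ hc))
  late₁ s _ k hc := by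
    by_contra hs
    exact e1_ne a k (h.free s _ (not_le.1 hs).le hc)
  late₃ s _ b k hc := by
    by_contra hs
    have hx : phi a (nn ι₀ b) ∈ encD c := by
      cases b
      · exact inr_mem_encD
      · exact inl_mem_encD.2 rfl
    have hy : (Sum.inl (e1 a k) : ι ⊕ Unit) ∈ encD c :=
      inside h hΦ hε hZ hZl hx (not_lt.1 hs) hc
    exact e1_ne a k (inl_mem_encD.1 hy)
  lateW s _ b y hc := by
    have hx : phi a (nn ι₀ b) ∈ encD c := by
      cases b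
      · exact inr_mem_encD
      · exact inl_mem_encD.2 rfl
    have h1 := (h.lines hΦ hε hZ hZl).left s _ _ ((C_WW h hΦ hε hZ hZl hZ₀ s _ y).1 hc) hx
    rwa [encB_of_mem hx] at h1

include hZ₀ in
theorem m_WW (k : ι₀) : (WW Φ ε Z l c s₁' Z₀).m ((Sum.inl ∘ Sum.inl) k) =
    (Z.ins l).m (phi a ((Sum.inl ∘ Sum.inl) k)) := m_Z₀ hZ₀ k

theorem m_nn (b : Bool) : (WW Φ ε Z l c s₁' Z₀).m (nn ι₀ b) =
    (Z.ins l).m (phi a (nn ι₀ false)) + (Z.ins l).m (phi a (nn ι₀ true)) := by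
  cases b <;> rfl

/-- The transported infection status of `W`. -/
def PW (Φ : Space3 → ℝ) (ε : ℝ) (K : ℕ) (Z : MW ι) (l : ML) (a : ι₀ ≃ Oth c) (s : ℝ)
    (x : (ι₀ ⊕ Unit) ⊕ Unit) : Prop :=
  (Z.ins l).Inf Φ ε K s (phi a x)

include h in
theorem late_c (hK : l.2 + Z.m c ≤ K) {s : ℝ} (hs : 0 ≤ s) (hc : Z.Inf Φ ε K s c) : s₁ ≤ s := by
  by_contra hlt
  push Not at hlt
  have h1 : msize (Z.C Φ ε) Z.m s c = Z.m c :=
    msize_of_no_contact hs fun r _ hr j hj => h.free r j (hr.trans hlt.le) hj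
  have h2 : K < msize (Z.C Φ ε) Z.m s c := hc
  omega

include h hΦ hε hZ hZl in
theorem late_c' (hK : l.2 + Z.m c ≤ K) {s : ℝ} (hc : (Z.ins l).Inf Φ ε K s (Sum.inl c)) :
    s₁ ≤ s := by
  by_contra hlt
  push Not at hlt
  have h1 : msize ((Z.ins l).C Φ ε) (Z.ins l).m s (Sum.inl c) ≤
      msize ((Z.ins l).C Φ ε) (Z.ins l).m s₁' (Sum.inl c) :=
    msize_mono (hlt.le.trans h.le) _
  rw [h.msize_eq hΦ hε hZ hZl (inl_mem_encD.2 rfl)] at h1
  have h2 : K < msize ((Z.ins l).C Φ ε) (Z.ins l).m s (Sum.inl c) := hc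
  omega

include hZ₀ hΦ hε in
theorem path_zero_WW (k : ι₀) : (WW Φ ε Z l c s₁' Z₀).path Φ ε 0 ((Sum.inl ∘ Sum.inl) k) =
    (Z.ins l).path Φ ε 0 (Sum.inl (e1 a k)) := by
  rw [MW.path_zero hΦ hε, MW.path_zero hΦ hε]
  exact z_Z₀ hZ₀ k

include h hΦ hε hZ hZl hZ₀ in
/-- A touch of `Z` by `l` is a touch of the pair `(Z, W)` with the transported status. -/
theorem touched_iff_W (hK : l.2 + Z.m c ≤ K) {s : ℝ} (hs : 0 ≤ s) :
    Z.Touched Φ ε K (MW.line l) s ↔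
      Touched (Z.C Φ ε) (Z.path Φ ε) ((WW Φ ε Z l c s₁' Z₀).C Φ ε)
        ((WW Φ ε Z l c s₁' Z₀).path Φ ε) (e1 a) (Sum.inl ∘ Sum.inl) (Z.Inf Φ ε K)
        (PW Φ ε K Z l a) s :=
  (transfer h hΦ hε hZ hZl hZ₀ s).touched_iff (fun k => path_zero_WW hΦ hε hZ₀ k) le_rfl
    (fun hc => late_c h hK hs hc) (fun hc => late_c' h hΦ hε hZ hZl hK hc)

include h hΦ hε hZ hZl hZ₀ in
theorem thetaL_eq_W (hK : l.2 + Z.m c ≤ K) (T : ℝ) :
    Z.thetaL Φ ε K T l = theta (Z.C Φ ε) (Z.path Φ ε) ((WW Φ ε Z l c s₁' Z₀).C Φ ε)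
        ((WW Φ ε Z l c s₁' Z₀).path Φ ε) (e1 a) (Sum.inl ∘ Sum.inl) 0 T (Z.Inf Φ ε K)
        (PW Φ ε K Z l a) :=
  theta_congr fun _ hs => touched_iff_W h hΦ hε hZ hZl hZ₀ hK hs.1

include h hΦ hε hZ hZl hZ₀ in
/-- The transported status is a rule. -/
theorem rule_PW (T : ℝ) : IsRule ((WW Φ ε Z l c s₁' Z₀).C Φ ε) 0 T (PW Φ ε K Z l a) :=
  (transfer h hΦ hε hZ hZl hZ₀ T).rule (hZl.rule 0 T K) le_rfl

include h hΦ hε hZ hZl hZ₀ in
/-- Coherence with sub-worlds which contain at most one of the two lines. -/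
theorem coh_PW (hK : l.2 + Z.m c ≤ K) {ι' : Type} [Fintype ι'] {Z' : MW ι'}
    {g : ι' → (ι₀ ⊕ Unit) ⊕ Unit} (hg : Function.Injective g)
    (hm : ∀ x, Z'.m x = (WW Φ ε Z l c s₁' Z₀).m (g x)) {b : Bool} (hb : nn ι₀ (!b) ∉ range g)
    {t : ℝ} (ht : 0 ≤ t) {x : ι'}
    (hx : HistEq (Z'.C Φ ε) (Z'.path Φ ε) ((WW Φ ε Z l c s₁' Z₀).C Φ ε)
      ((WW Φ ε Z l c s₁' Z₀).path Φ ε) id g t x) :
    Z'.Inf Φ ε K t x ↔ PW Φ ε K Z l a t (g x) :=
  (transfer h hΦ hε hZ hZl hZ₀ t).coh (fun k => m_WW hZ₀ k) (fun b => m_nn (a := a) b)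
    (show l.2 + Z.m c ≤ K from hK) hg hm hb ⟨ht, le_rfl⟩ hx

end

/-! ### The equality -/

section eq

variable (h : Hit Φ ε Z l c s₁ s₁') (hΦ : AdmissiblePotential Φ) (hε : 0 < ε)
  (hZ : Z.Ok Φ ε) (hZl : (Z.ins l).Ok Φ ε) (hZ₀ : (rest Z c).comap a = Z₀)

theorem inr_not_mem_inl : nn ι₀ (!false) ∉ range (Sum.inl : ι₀ ⊕ Unit → (ι₀ ⊕ Unit) ⊕ Unit) := by
  rintro ⟨k, hk⟩
  exact Sum.inl_ne_inr hk

theorem nn_not_mem_fL : nn ι₀ (!true) ∉
    range (Sum.elim (Sum.inl ∘ Sum.inl) Sum.inr : ι₀ ⊕ Unit → (ι₀ ⊕ Unit) ⊕ Unit) := by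
  rintro ⟨k | k, hk⟩
  · exact Sum.inl_ne_inr (Sum.inl_injective hk)
  · exact Sum.inr_ne_inl hk

theorem nn_not_mem_inl_inl (b : Bool) :
    nn ι₀ b ∉ range (Sum.inl ∘ Sum.inl : ι₀ → (ι₀ ⊕ Unit) ⊕ Unit) := by
  rintro ⟨k, hk⟩
  cases b
  · exact Sum.inl_ne_inr (Sum.inl_injective hk)
  · exact Sum.inl_ne_inr hk

include h hΦ hε hZ hZl hZ₀ in
/-- The rules in the four worlds `Z₀`, `Z₀ + l'`, `Z₀ + c'`, `W`, transported status in `W`. -/
theorem four_rules_PW (hK : l.2 + Z.m c ≤ K) (hR : Z₀.Ok Φ ε)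
    (hRl : (Z₀.ins (outL Φ ε Z l c s₁')).Ok Φ ε) (hRc : (Z₀.ins (outC Φ ε Z l c s₁')).Ok Φ ε)
    (T : ℝ) :
    (MW.four Φ ε Z₀ (MW.line (outL Φ ε Z l c s₁')) (MW.line (outC Φ ε Z l c s₁'))).Rules 0 T
      (Z₀.Inf Φ ε K) ((Z₀.ins (outL Φ ε Z l c s₁')).Inf Φ ε K)
      ((Z₀.ins (outC Φ ε Z l c s₁')).Inf Φ ε K) (PW Φ ε K Z l a) where
  r₀ := hR.rule 0 T K
  rA := hRl.rule 0 T K
  rL := hRc.rule 0 T K
  r := rule_PW h hΦ hε hZ hZl hZ₀ T
  st :=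
    { coh₀A := fun _ _ _ hk => (MW.com_add Z₀ (MW.line (outL Φ ε Z l c s₁'))).coh hk
      coh₀L := fun _ _ _ hk => (MW.com_add Z₀ (MW.line (outC Φ ε Z l c s₁'))).coh hk
      cohA := fun s hs x hx =>
        coh_PW h hΦ hε hZ hZl hZ₀ hK (Z' := Z₀.ins (outL Φ ε Z l c s₁')) Sum.inl_injective
          (fun _ => rfl) inr_not_mem_inl hs.1 hx
      cohL := fun s hs x hx =>
        coh_PW h hΦ hε hZ hZl hZ₀ hK (Z' := Z₀.ins (outC Φ ε Z l c s₁'))
          (MW.four (fun _ => 0) 0 Z₀ (MW.line (outL Φ ε Z l c s₁'))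
            (MW.line (outC Φ ε Z l c s₁'))).fL_inj
          (by rintro (x | x) <;> rfl) nn_not_mem_fL hs.1 hx }

/-- The three worlds `Z₀`, `Z₀ + c`, `W`, no direct contacts between `c` and `l'`, `c'`. -/
def tri (Φ : Space3 → ℝ) (ε : ℝ) (Z : MW ι) (l : ML) (c : ι) (s₁' : ℝ) (Z₀ : MW ι₀) (cl : ML) :
    Three ι₀ (ι₀ ⊕ Unit) ((ι₀ ⊕ Unit) ⊕ Unit) PhasePoint where
  C₀ := Z₀.C Φ ε
  CA := (Z₀.ins cl).C Φ ε
  CL := (WW Φ ε Z l c s₁' Z₀).C Φ ε
  CX _ _ _ := False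
  z₀ := Z₀.path Φ ε
  zA := (Z₀.ins cl).path Φ ε
  zL := (WW Φ ε Z l c s₁' Z₀).path Φ ε
  eA := Sum.inl
  eL := Sum.inl ∘ Sum.inl

include h hΦ hε hZ hZl hZ₀ in
theorem tri_dyn (hR : Z₀.Ok Φ ε) {cl : ML} (hRcl : (Z₀.ins cl).Ok Φ ε) (T : ℝ) :
    (tri Φ ε Z l c s₁' Z₀ cl).Dyn T where
  p₀A := (MW.com_add Z₀ (MW.line cl)).pair hΦ hε hR hRcl T
  p₀L := (MW.com_add_add Z₀ (MW.line (outL Φ ε Z l c s₁'))
    (MW.line (outC Φ ε Z l c s₁'))).pair hΦ hε hR (okWW h hΦ hε hZ hZl hZ₀) T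
  pAL := (show MW.Com (Z₀.ins cl) (WW Φ ε Z l c s₁' Z₀) Sum.inl (Sum.inl ∘ Sum.inl) from
    ⟨Sum.inl_injective, Sum.inl_injective.comp Sum.inl_injective, fun _ => rfl,
      fun _ => rfl⟩).pair hΦ hε hRcl (okWW h hΦ hε hZ hZl hZ₀) T
  initA k := by
    change Z₀.path Φ ε 0 k = (Z₀.ins cl).path Φ ε 0 (Sum.inl k)
    rw [MW.path_zero hΦ hε, MW.path_zero hΦ hε]
    rfl
  initL k := by
    change Z₀.path Φ ε 0 k = (WW Φ ε Z l c s₁' Z₀).path Φ ε 0 (Sum.inl (Sum.inl k))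
    rw [MW.path_zero hΦ hε, MW.path_zero hΦ hε]
    rfl
  cohXL _ _ _ _ _ hc := hc.elim
  cohXA _ _ _ _ _ hc := hc.elim

include h hΦ hε hZ hZl hZ₀ in
theorem tri_rules (hK : l.2 + Z.m c ≤ K) (hR : Z₀.Ok Φ ε) {cl : ML}
    (hRcl : (Z₀.ins cl).Ok Φ ε) (T : ℝ) :
    (tri Φ ε Z l c s₁' Z₀ cl).Rules 0 T (Z₀.Inf Φ ε K) ((Z₀.ins cl).Inf Φ ε K)
      (PW Φ ε K Z l a) where
  r₀ := hR.rule 0 T K
  rA := hRcl.rule 0 T K
  rL := rule_PW h hΦ hε hZ hZl hZ₀ T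
  coh₀A _ _ _ hk := (MW.com_add Z₀ (MW.line cl)).coh hk
  coh₀L _ hs _ hk := coh_PW h hΦ hε hZ hZl hZ₀ hK (Z' := Z₀)
    (Sum.inl_injective.comp Sum.inl_injective) (fun _ => rfl) (nn_not_mem_inl_inl (!false)) hs.1 hk

/-- The labels of `Z₀ + c` in `Z`. -/
def ac (a : ι₀ ≃ Oth c) : ι₀ ⊕ Unit ≃ ι :=
  (Equiv.sumCongr a (Equiv.refl Unit)).trans (splitOff c)

include hZ₀ in
theorem comap_ac {cl : ML} (hcl : IsLine Z c cl) : Z.comap (ac a) = Z₀.ins cl := by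
  have h1 := ins_comap a hZ₀ cl
  rw [← comap_splitOff hcl] at h1
  exact h1

include hΦ hε hZ₀ in
/-- The pairs `(Z, W)` and `(Z₀ + c, W)` differ by a relabelling. -/
theorem theta_Z_eq {cl : ML} (hcl : IsLine Z c cl) (T : ℝ) :
    theta (Z.C Φ ε) (Z.path Φ ε) ((WW Φ ε Z l c s₁' Z₀).C Φ ε)
        ((WW Φ ε Z l c s₁' Z₀).path Φ ε) (e1 a) (Sum.inl ∘ Sum.inl) 0 T (Z.Inf Φ ε K)
        (PW Φ ε K Z l a) =
      theta ((Z₀.ins cl).C Φ ε) ((Z₀.ins cl).path Φ ε) ((WW Φ ε Z l c s₁' Z₀).C Φ ε)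
        ((WW Φ ε Z l c s₁' Z₀).path Φ ε) Sum.inl (Sum.inl ∘ Sum.inl) 0 T
        ((Z₀.ins cl).Inf Φ ε K) (PW Φ ε K Z l a) := by
  have hc := comap_ac hZ₀ hcl
  have hrel : Rel (Z.C Φ ε) (Z.path Φ ε) ((WW Φ ε Z l c s₁' Z₀).C Φ ε)
      ((WW Φ ε Z l c s₁' Z₀).path Φ ε) (e1 a) (Sum.inl ∘ Sum.inl) ((Z₀.ins cl).C Φ ε)
      ((Z₀.ins cl).path Φ ε) ((WW Φ ε Z l c s₁' Z₀).C Φ ε) ((WW Φ ε Z l c s₁' Z₀).path Φ ε)
      Sum.inl (Sum.inl ∘ Sum.inl) (Equiv.refl ι₀) (ac a) (Equiv.refl _) :=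
    { c₁ := fun s j k => by rw [← hc]; exact C_comap hΦ hε Z (ac a) s j k
      c₂ := fun _ _ _ => Iff.rfl
      s₁ := fun s j => by rw [← hc]; exact path_comap hΦ hε Z (ac a) s j
      s₂ := fun _ _ => rfl
      m₁ := fun _ => rfl
      m₂ := fun _ => rfl }
  refine (hrel.theta_eq (t₀ := 0) (T := T) (fun s j => ?_) fun _ _ => Iff.rfl).symm
  rw [← hc]
  exact Inf_comap hΦ hε K Z (ac a) s j

include hΦ hε hZ hZ₀ in
theorem ok_ins_cl {cl : ML} (hcl : IsLine Z c cl) : (Z₀.ins cl).Ok Φ ε := by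
  rw [← comap_ac hZ₀ hcl]
  exact MW.Ok.comap hΦ hε hZ (ac a)

include h hΦ hε hZ hZl hZ₀ in
/-- `W` touches `Z₀` with the first of `l'`, `c'` (no link up to the minimum). -/
theorem theta_W_eq' (hK : l.2 + Z.m c ≤ K) (hR : Z₀.Ok Φ ε)
    (hRl : (Z₀.ins (outL Φ ε Z l c s₁')).Ok Φ ε) (hRc : (Z₀.ins (outC Φ ε Z l c s₁')).Ok Φ ε)
    {T : ℝ} (hT : 0 ≤ T)
    (hlk : ¬ Z₀.LINK Φ ε K (MW.line (outL Φ ε Z l c s₁')) (MW.line (outC Φ ε Z l c s₁'))
      (min T (min (Z₀.thetaL Φ ε K T (outL Φ ε Z l c s₁'))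
        (Z₀.thetaL Φ ε K T (outC Φ ε Z l c s₁'))))) :
    theta (Z₀.C Φ ε) (Z₀.path Φ ε) ((WW Φ ε Z l c s₁' Z₀).C Φ ε)
        ((WW Φ ε Z l c s₁' Z₀).path Φ ε) id (Sum.inl ∘ Sum.inl) 0 T (Z₀.Inf Φ ε K)
        (PW Φ ε K Z l a) =
      min (Z₀.thetaL Φ ε K T (outL Φ ε Z l c s₁')) (Z₀.thetaL Φ ε K T (outC Φ ε Z l c s₁')) :=
  LinkU255.theta_union (MW.four_dyn hΦ hε hR hRl hRc (okWW h hΦ hε hZ hZl hZ₀) T)
    (MW.four_cohX Φ ε Z₀ _ _ T) (four_rules_PW h hΦ hε hZ hZl hZ₀ hK hR hRl hRc T) le_rfl hT hlk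




include h hΦ hε hZ hZl hZ₀ in
/-- Coherence of the worlds `Z₀ + c` and `W`. -/
theorem coh_VW (hK : l.2 + Z.m c ≤ K) (cl : ML) {t : ℝ} (ht : 0 ≤ t) {k : ι₀}
    (hk : HistEq ((Z₀.ins cl).C Φ ε) ((Z₀.ins cl).path Φ ε) ((WW Φ ε Z l c s₁' Z₀).C Φ ε)
      ((WW Φ ε Z l c s₁' Z₀).path Φ ε) (Sum.inl : ι₀ → ι₀ ⊕ Unit) (Sum.inl ∘ Sum.inl) t k) :
    (Z₀.ins cl).Inf Φ ε K t (Sum.inl k) ↔ PW Φ ε K Z l a t ((Sum.inl ∘ Sum.inl) k) :=
  (transfer h hΦ hε hZ hZl hZ₀ t).coh_gen (fun k => m_WW hZ₀ k) (fun b => m_nn (a := a) b)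
    (show l.2 + Z.m c ≤ K from hK) (mW := (WW Φ ε Z l c s₁' Z₀).m)
    (C' := (Z₀.ins cl).C Φ ε) (m' := (Z₀.ins cl).m)
    (e' := (Sum.inl : ι₀ → ι₀ ⊕ Unit)) (g := (Sum.inl ∘ Sum.inl : ι₀ → (ι₀ ⊕ Unit) ⊕ Unit))
    Sum.inl_injective (Sum.inl_injective.comp Sum.inl_injective) (fun _ => rfl)
    (nn_not_mem_inl_inl (!false)) ⟨ht, le_rfl⟩ hk

include h hΦ hε hZ hZl hZ₀ in
/-- **Triangle inequality** (no hypothesis on links): `W = Z₀ + l' + c'` touches `Z₀` not before `l`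
touches `Z` or the undeflected `c` touches `Z₀`. -/
theorem min_le_theta_W (hK : l.2 + Z.m c ≤ K) (hR : Z₀.Ok Φ ε) {cl : ML} (hcl : IsLine Z c cl)
    {T : ℝ} (hT : 0 ≤ T) :
    min (Z.thetaL Φ ε K T l) (Z₀.thetaL Φ ε K T cl) ≤
      theta (Z₀.C Φ ε) (Z₀.path Φ ε) ((WW Φ ε Z l c s₁' Z₀).C Φ ε)
        ((WW Φ ε Z l c s₁' Z₀).path Φ ε) id (Sum.inl ∘ Sum.inl) 0 T (Z₀.Inf Φ ε K)
        (PW Φ ε K Z l a) := by
  have hRcl : (Z₀.ins cl).Ok Φ ε := ok_ins_cl hΦ hε hZ hZ₀ hcl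
  have hd := tri_dyn h hΦ hε hZ hZl hZ₀ hR hRcl T
  have hr := tri_rules h hΦ hε hZ hZl hZ₀ hK hR hRcl T
  rcases Four.theta_dich (C₁ := Z₀.C Φ ε) (z₁ := Z₀.path Φ ε)
    (C₂ := (WW Φ ε Z l c s₁' Z₀).C Φ ε) (z₂ := (WW Φ ε Z l c s₁' Z₀).path Φ ε)
    (e₁ := id) (e₂ := Sum.inl ∘ Sum.inl) (P₁ := Z₀.Inf Φ ε K) (P₂ := PW Φ ε K Z l a) 0 T
    with h1 | h1
  · have h0 := le_theta (C₁ := Z₀.C Φ ε) (z₁ := Z₀.path Φ ε)
      (C₂ := (WW Φ ε Z l c s₁' Z₀).C Φ ε) (z₂ := (WW Φ ε Z l c s₁' Z₀).path Φ ε)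
      (e₁ := id) (e₂ := Sum.inl ∘ Sum.inl) (P₁ := Z₀.Inf Φ ε K) (P₂ := PW Φ ε K Z l a) hT
    have ht := (touched_iff_theta_le hd.p₀L le_rfl hr.r₀ hr.rL ⟨h0, h1⟩).2 le_rfl
    have htri : Ins45.Tri (Sum.inl : ι₀ → ι₀ ⊕ Unit) (Sum.inl : ι₀ → ι₀ ⊕ Unit)
        (id : ι₀ → ι₀) (id : ι₀ → ι₀) :=
      ⟨fun _ => rfl, fun y w hyw => ⟨y, rfl, Sum.inl_injective hyw⟩⟩
    rcases touched_triangle (P₁ := Z₀.Inf Φ ε K) (P₂ := (Z₀.ins cl).Inf Φ ε K)
      (P₃ := PW Φ ε K Z l a) hd.p₀A hd.pAL htri ⟨h0, h1⟩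
      (fun k hk => hr.coh₀A _ ⟨h0, h1⟩ k hk)
      (fun k hk => coh_VW h hΦ hε hZ hZl hZ₀ hK cl h0 hk) ht with h2 | h2
    · exact (min_le_right _ _).trans
        ((touched_iff_theta_le hd.p₀A le_rfl hr.r₀ hr.rA ⟨h0, h1⟩).1 h2)
    · refine (min_le_left _ _).trans ?_
      rw [thetaL_eq_W h hΦ hε hZ hZl hZ₀ hK T, theta_Z_eq hΦ hε hZ₀ hcl T]
      exact (touched_iff_theta_le hd.pAL le_rfl hr.rA hr.rL ⟨h0, h1⟩).1 h2
  · rw [h1]
    exact (min_le_left _ _).trans theta_le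

include h hΦ hε hZ hZl hZ₀ in
/-- **(1.6')** with the alternative that the undeflected `c` touches: only `l'` and `c'` have to be
unlinked, up to the minimum of their touch times. -/
theorem min_le_min' (hK : l.2 + Z.m c ≤ K) (hR : Z₀.Ok Φ ε)
    (hRl : (Z₀.ins (outL Φ ε Z l c s₁')).Ok Φ ε) (hRc : (Z₀.ins (outC Φ ε Z l c s₁')).Ok Φ ε)
    {cl : ML} (hcl : IsLine Z c cl) {T : ℝ} (hT : 0 ≤ T)
    (hlk : ¬ Z₀.LINK Φ ε K (MW.line (outL Φ ε Z l c s₁')) (MW.line (outC Φ ε Z l c s₁'))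
      (min T (min (Z₀.thetaL Φ ε K T (outL Φ ε Z l c s₁'))
        (Z₀.thetaL Φ ε K T (outC Φ ε Z l c s₁'))))) :
    min (Z.thetaL Φ ε K T l) (Z₀.thetaL Φ ε K T cl) ≤
      min (Z₀.thetaL Φ ε K T (outL Φ ε Z l c s₁')) (Z₀.thetaL Φ ε K T (outC Φ ε Z l c s₁')) := by
  rw [← theta_W_eq' h hΦ hε hZ hZl hZ₀ hK hR hRl hRc hT hlk]
  exact min_le_theta_W h hΦ hε hZ hZl hZ₀ hK hR hcl hT

include h hΦ hε hZ hZl hZ₀ in
theorem min_le_min (hK : l.2 + Z.m c ≤ K) (hR : Z₀.Ok Φ ε)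
    (hRl : (Z₀.ins (outL Φ ε Z l c s₁')).Ok Φ ε) (hRc : (Z₀.ins (outC Φ ε Z l c s₁')).Ok Φ ε)
    {cl : ML} (hcl : IsLine Z c cl) {T : ℝ} (hT : 0 ≤ T)
    (hlk : MW.NoLink Φ ε K T Z₀ (MW.line (outL Φ ε Z l c s₁')) (MW.line (outC Φ ε Z l c s₁'))) :
    min (Z.thetaL Φ ε K T l) (Z₀.thetaL Φ ε K T cl) ≤
      min (Z₀.thetaL Φ ε K T (outL Φ ε Z l c s₁')) (Z₀.thetaL Φ ε K T (outC Φ ε Z l c s₁')) :=
  min_le_min' h hΦ hε hZ hZl hZ₀ hK hR hRl hRc hcl hT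
    (hlk _ (le_min hT (le_min (MW.theta_nonneg hT) (MW.theta_nonneg hT))) (min_le_left _ _)
      ((min_le_right _ _).trans (min_le_left _ _)) ((min_le_right _ _).trans (min_le_right _ _)))

include h hΦ hε hZ hZl hZ₀ in
/-- **Single time form.** If `l'` or `c'` has touched `Z₀` at time `s ≤ T` and there is no link
between them up to and including `s`, then `l` has touched `Z` or `c` has touched `Z₀` at time
`s`. -/
theorem le_of_out_le (hK : l.2 + Z.m c ≤ K) (hR : Z₀.Ok Φ ε)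
    (hRl : (Z₀.ins (outL Φ ε Z l c s₁')).Ok Φ ε) (hRc : (Z₀.ins (outC Φ ε Z l c s₁')).Ok Φ ε)
    {cl : ML} (hcl : IsLine Z c cl) {T : ℝ} (hT : 0 ≤ T) {s : ℝ}
    (hs : Z₀.thetaL Φ ε K T (outL Φ ε Z l c s₁') ≤ s ∨
      Z₀.thetaL Φ ε K T (outC Φ ε Z l c s₁') ≤ s)
    (hlk : ¬ Z₀.LINK Φ ε K (MW.line (outL Φ ε Z l c s₁')) (MW.line (outC Φ ε Z l c s₁')) s) :
    Z.thetaL Φ ε K T l ≤ s ∨ Z₀.thetaL Φ ε K T cl ≤ s := by
  have h1 : min (Z₀.thetaL Φ ε K T (outL Φ ε Z l c s₁'))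
      (Z₀.thetaL Φ ε K T (outC Φ ε Z l c s₁')) ≤ s := min_le_iff.2 hs
  have h2 := min_le_min' h hΦ hε hZ hZl hZ₀ hK hR hRl hRc hcl hT
    fun h' => hlk (h'.mono ((min_le_right _ _).trans h1))
  exact min_le_iff.1 (h2.trans h1)

end eq

/-! ### The family form -/


/-- **(1.6') for E6**, single time form: `e'` or `c'` has touched `Z₀` at time `s`, no link between
`e'` and `c'` up to and including `s`. -/
theorem le_of_out_le_fam {κ : Type} [Fintype κ] {w : MW ι} {F : κ → ML} {r : κ} {d e : ML}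
    (h : Hit Φ ε ((w.add (MW.lines F)).ins d) e (Sum.inl (Sum.inr r)) s₁ s₁')
    (hΦ : AdmissiblePotential Φ) (hε : 0 < ε) (hZ : ((w.add (MW.lines F)).ins d).Ok Φ ε)
    (hZl : (((w.add (MW.lines F)).ins d).ins e).Ok Φ ε) {Z₀ : MW ((ι ⊕ Unit) ⊕ {k : κ // k ≠ r})}
    (hZ₀ : Z₀ = (w.ins d).add (MW.lines fun k : {k : κ // k ≠ r} => F k)) {e' c' : ML}
    (he' : e' = outL Φ ε ((w.add (MW.lines F)).ins d) e (Sum.inl (Sum.inr r)) s₁')
    (hc' : c' = outC Φ ε ((w.add (MW.lines F)).ins d) e (Sum.inl (Sum.inr r)) s₁')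
    (hR : Z₀.Ok Φ ε) (hRl : (Z₀.ins e').Ok Φ ε) (hRc : (Z₀.ins c').Ok Φ ε)
    (hK : e.2 + (F r).2 ≤ K) {T : ℝ} (hT : 0 ≤ T) {s : ℝ}
    (hs : Z₀.thetaL Φ ε K T e' ≤ s ∨ Z₀.thetaL Φ ε K T c' ≤ s)
    (hlk : ¬ Z₀.LINK Φ ε K (MW.line e') (MW.line c') s) :
    ((w.add (MW.lines F)).ins d).thetaL Φ ε K T e ≤ s ∨ Z₀.thetaL Φ ε K T (F r) ≤ s := by
  subst hZ₀ he' hc'
  exact le_of_out_le (a := famE ι κ r) h hΦ hε hZ hZl (rest_fam w F r d) hK hR hRl hRc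
    ⟨rfl, rfl, rfl⟩ hT hs hlk


end hit

end

end Crest.Agent.R122.OneRev291
end

-- ▼ part R122/E6Facts_879

/-!
# The deterministic facts of inequality 3 (row 122, E_FINAL E6), v2

* `E6Hyp`: the link interface of inequality 3: good worlds and absence of links between single lines,
  in `w₂` (lines `F` of the fresh cluster, `d`) and in `w₂ + d` (`F`; exits, `e'`, `c'`). The lines
  `F r` and `e'`, `c'` never coexist.
* `E6Hyp.w_Ld`, …, `E6Hyp.fdL`: the world consistencies of `E6FactsA` (helper811).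
* `E6Hyp.not_link_Z0`: `e'` and `c'` are unlinked in `Z₀ = w₂ + d + exits` up to the first touch.
* `E6Hyp.factsA`: `E6FactsA` for an arbitrary inserted object `A`, from the facts about `A`, the
  one-contact lemma and its single time reverse form.
* `E6Hyp.facts`, `E6Hyp.facts_hit`: `E6Facts` (object = lines), the second from a `Hit` (helper45).
-/

set_option autoImplicit false
set_option linter.unusedSectionVars false

open MeasureTheory Set Filter Topology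
open scoped ENNReal
open Crest.AnalysisR.Kinetic
open Crest.Agent.R122.EDefs602 Crest.Agent.R122.MWAlg255 Crest.Agent.R122.MWFam255
open Crest.Agent.R122.Decomp811 Crest.Agent.R122.Ins45

namespace Crest.Agent.R122.E6Hyp879

noncomputable section

open scoped Classical

variable {ι κ ξ : Type} [Fintype ι] [Fintype κ] [Fintype ξ]
variable {Φ : Space3 → ℝ} {ε T : ℝ} {K : ℕ}

/-- The lines `F` and the line `d`. -/
def withD (F : κ → ML) (d : ML) : κ ⊕ Unit → ML := Sum.elim F fun _ => d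

/-- The lines `F` and two more lines. -/
def plus (F : κ → ML) (e' c' : ML) : κ ⊕ Bool → ML := Sum.elim F fun b => cond b e' c'

/-- Good worlds and absence of links between single lines, for the structure of E6. -/
structure E6Hyp (Φ : Space3 → ℝ) (ε : ℝ) (K : ℕ) (T : ℝ) (w₂ : MW ι) (F : κ → ML) (r : κ)
    (d e' c' : ML) : Prop where
  /-- the lines `F`, `d` can be inserted together in `w₂` -/
  ok₁ : MW.OkFam Φ ε w₂ (withD F d)
  /-- the exits, `e'`, `c'` can be inserted together in `w₂ + d` -/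
  ok₂ : MW.OkFam Φ ε (w₂.ins d) (plus (exF F r) e' c')
  /-- `F`, `d` pairwise unlinked in `w₂` -/
  nl₀ : PairNL Φ ε K T w₂ (withD F d)
  /-- `F` pairwise unlinked in `w₂ + d` -/
  nl₁ : PairNL Φ ε K T (w₂.ins d) F
  /-- exits, `e'`, `c'` pairwise unlinked in `w₂ + d` -/
  nl₂ : PairNL Φ ε K T (w₂.ins d) (plus (exF F r) e' c')

/-- The exits in the family `F`. -/
def exEmb (r : κ) : {k : κ // k ≠ r} ↪ κ := Function.Embedding.subtype _

/-- The exits in the family `plus`. -/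
def inlEmb (α β : Type) : α ↪ α ⊕ β := ⟨Sum.inl, Sum.inl_injective⟩

/-- The exits and `e'`. -/
def exeEmb (α : Type) : α ⊕ Unit ↪ α ⊕ Bool :=
  ⟨Sum.map id fun _ => true, by
    rintro (x | x) (y | y) h
    · exact congrArg Sum.inl (Sum.inl_injective h)
    · cases h
    · cases h
    · rfl⟩

namespace E6Hyp

variable {w₂ : MW ι} {F : κ → ML} {r : κ} {d e e' c' : ML}

/-- The family `F` can be inserted in `w₂ + d`. -/
theorem okE (hΦ : AdmissiblePotential Φ) (hε : 0 < ε) (h : E6Hyp Φ ε K T w₂ F r d e' c') :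
    MW.OkFam Φ ε (w₂.ins d) F := by
  intro S
  have h1 := ok_lines_add hΦ hε h.ok₁
    (⟨fun _ : Unit => Sum.inr (), fun _ _ _ => rfl⟩ : Unit ↪ κ ⊕ Unit)
    (⟨fun i : S => Sum.inl i.1, fun i j h => Subtype.ext (Sum.inl_injective h)⟩ : S ↪ κ ⊕ Unit)
    (fun _ _ h => by cases h)
  exact h1

/-- The world `Z₀`. -/
theorem okZ0 (hΦ : AdmissiblePotential Φ) (hε : 0 < ε) (h : E6Hyp Φ ε K T w₂ F r d e' c') :
    (Z0 w₂ F r d).Ok Φ ε := (okFam_comp hΦ hε (h.okE hΦ hε) (exEmb r)).lines hΦ hε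


theorem okZ0e (hΦ : AdmissiblePotential Φ) (hε : 0 < ε) (h : E6Hyp Φ ε K T w₂ F r d e' c') :
    ((Z0 w₂ F r d).add (MW.line e')).Ok Φ ε :=
  ok_lines_add hΦ hε h.ok₂ (inlEmb _ Bool)
    (⟨fun _ : Unit => Sum.inr true, fun _ _ _ => rfl⟩ : Unit ↪ {k : κ // k ≠ r} ⊕ Bool)
    fun i _ h => by cases h

theorem okZ0c' (hΦ : AdmissiblePotential Φ) (hε : 0 < ε) (h : E6Hyp Φ ε K T w₂ F r d e' c') :
    ((Z0 w₂ F r d).add (MW.line c')).Ok Φ ε :=
  ok_lines_add hΦ hε h.ok₂ (inlEmb _ Bool)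
    (⟨fun _ : Unit => Sum.inr false, fun _ _ _ => rfl⟩ : Unit ↪ {k : κ // k ≠ r} ⊕ Bool)
    fun i _ h => by cases h

/-! ### World consistency -/

theorem w_Ld (hΦ : AdmissiblePotential Φ) (hε : 0 < ε) (hT : 0 ≤ T)
    (h : E6Hyp Φ ε K T w₂ F r d e' c') : W1E Φ ε K T w₂ (MW.lines F) (MW.line d) :=
  w1E_lines_line hΦ hε hT h.ok₁ h.nl₀ (inlEmb κ Unit) (Sum.inr ()) fun _ h => by cases h

theorem w_dk (hΦ : AdmissiblePotential Φ) (hε : 0 < ε) (hT : 0 ≤ T)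
    (h : E6Hyp Φ ε K T w₂ F r d e' c') (k : κ) : W1E Φ ε K T w₂ (MW.line d) (MW.line (F k)) :=
  w1E_line_line hΦ hε hT h.ok₁ h.nl₀ (j := Sum.inr ()) (k := Sum.inl k) (by simp)

theorem w_Ec (hΦ : AdmissiblePotential Φ) (hε : 0 < ε) (hT : 0 ≤ T)
    (h : E6Hyp Φ ε K T w₂ F r d e' c') :
    W1E Φ ε K T (w₂.ins d) (MW.lines (exF F r)) (MW.line (F r)) :=
  w1E_lines_line hΦ hε hT (h.okE hΦ hε) h.nl₁ (exEmb r) r fun i => i.2

theorem w_Ee (hΦ : AdmissiblePotential Φ) (hε : 0 < ε) (hT : 0 ≤ T)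
    (h : E6Hyp Φ ε K T w₂ F r d e' c') :
    W1E Φ ε K T (w₂.ins d) (MW.lines (exF F r)) (MW.line e') :=
  w1E_lines_line hΦ hε hT h.ok₂ h.nl₂ (inlEmb _ Bool) (Sum.inr true) fun _ h => by cases h

theorem w_Ec' (hΦ : AdmissiblePotential Φ) (hε : 0 < ε) (hT : 0 ≤ T)
    (h : E6Hyp Φ ε K T w₂ F r d e' c') :
    W1E Φ ε K T (w₂.ins d) (MW.lines (exF F r)) (MW.line c') :=
  w1E_lines_line hΦ hε hT h.ok₂ h.nl₂ (inlEmb _ Bool) (Sum.inr false) fun _ h => by cases h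

/-- The exits do not touch before the first of them. -/
theorem uE_eq (hΦ : AdmissiblePotential Φ) (hε : 0 < ε) (hT : 0 ≤ T)
    (h : E6Hyp Φ ε K T w₂ F r d e' c') :
    (w₂.ins d).theta Φ ε K T (MW.lines (exF F r)) = firstT Φ ε K T (w₂.ins d) (exF F r) :=
  theta_lines_eq hΦ hε hT (h.okE hΦ hε) h.nl₁ (exEmb r)



theorem lines_ex_e (F : κ → ML) (r : κ) (e' c' : ML) :
    MW.lines (fun i => plus (exF F r) e' c' (exeEmb _ i)) =
      (MW.lines (exF F r)).add (MW.line e') := by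
  unfold MW.lines MW.add MW.line
  congr 1 <;> · funext x; rcases x with x | x <;> rfl

theorem w_ec' (hΦ : AdmissiblePotential Φ) (hε : 0 < ε) (hT : 0 ≤ T)
    (h : E6Hyp Φ ε K T w₂ F r d e' c') :
    W1 (min ((w₂.ins d).theta Φ ε K T (MW.lines (exF F r)))
      ((w₂.ins d).thetaL Φ ε K T e')) ((w₂.ins d).thetaL Φ ε K T c')
    (((Z0 w₂ F r d).ins e').thetaL Φ ε K T c') := by
  have h1 : W1E Φ ε K T (w₂.ins d) (MW.lines fun i => plus (exF F r) e' c' (exeEmb _ i))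
      (MW.line c') := w1E_lines_line hΦ hε hT h.ok₂ h.nl₂ (exeEmb _) (Sum.inr false) (by
        rintro (i | i) h
        · cases h
        · cases h)
  rw [lines_ex_e] at h1
  have h2 : (w₂.ins d).theta Φ ε K T ((MW.lines (exF F r)).add (MW.line e')) =
      min ((w₂.ins d).theta Φ ε K T (MW.lines (exF F r)))
        ((w₂.ins d).theta Φ ε K T (MW.line e')) :=
    MW.theta_add_eq hΦ hε (h.ok₂.base hΦ hε) (h.okZ0 hΦ hε) (h.ok₂.line hΦ hε (Sum.inr true))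
      (h.okZ0e hΦ hε) hT (noLink_lines hΦ hε hT h.ok₂ h.nl₂ (inlEmb _ Bool)
        (⟨fun _ : Unit => Sum.inr true, fun _ _ _ => rfl⟩ : Unit ↪ {k : κ // k ≠ r} ⊕ Bool)
        fun _ _ h => by cases h)
  have h3 : ((Z0 w₂ F r d).add (MW.line e')).theta Φ ε K T (MW.line c') =
      ((w₂.ins d).add ((MW.lines (exF F r)).add (MW.line e'))).theta Φ ε K T (MW.line c') :=
    theta_base_assoc hΦ hε K T (w₂.ins d) (MW.lines (exF F r)) (MW.line e') (MW.line c')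
  have h4 : W1 ((w₂.ins d).theta Φ ε K T ((MW.lines (exF F r)).add (MW.line e')))
      ((w₂.ins d).theta Φ ε K T (MW.line c'))
      (((w₂.ins d).add ((MW.lines (exF F r)).add (MW.line e'))).theta Φ ε K T (MW.line c')) := h1
  rw [h2, ← h3] at h4
  exact h4

/-! ### The world `Z₀` -/

/-- Up to the first touch of the exits, `e'` and `c'` are unlinked in `Z₀`. -/
theorem not_link_Z0 (hΦ : AdmissiblePotential Φ) (hε : 0 < ε) (h : E6Hyp Φ ε K T w₂ F r d e' c')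
    {s : ℝ} (hs0 : 0 ≤ s) (hsT : s ≤ T) (hE : s ≤ firstT Φ ε K T (w₂.ins d) (exF F r))
    (he : s ≤ (w₂.ins d).thetaL Φ ε K T e') (hc : s ≤ (w₂.ins d).thetaL Φ ε K T c') :
    ¬ (Z0 w₂ F r d).LINK Φ ε K (MW.line e') (MW.line c') s := by
  have hT : 0 ≤ T := hs0.trans hsT
  have hE' : s ≤ (w₂.ins d).theta Φ ε K T (MW.lines (exF F r)) := by
    rw [h.uE_eq hΦ hε hT]
    exact hE
  have hne : MW.NoLink Φ ε K T (w₂.ins d) (MW.lines (exF F r)) (MW.line e') :=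
    noLink_lines hΦ hε hT h.ok₂ h.nl₂ (inlEmb _ Bool)
        (⟨fun _ : Unit => Sum.inr true, fun _ _ _ => rfl⟩ : Unit ↪ {k : κ // k ≠ r} ⊕ Bool)
        fun _ _ h => by cases h
  have hnc : MW.NoLink Φ ε K T (w₂.ins d) (MW.lines (exF F r)) (MW.line c') :=
    noLink_lines hΦ hε hT h.ok₂ h.nl₂ (inlEmb _ Bool)
        (⟨fun _ : Unit => Sum.inr false, fun _ _ _ => rfl⟩ : Unit ↪ {k : κ // k ≠ r} ⊕ Bool)
        fun _ _ h => by cases h
  exact MW.not_link_lift hΦ hε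
    ⟨h.ok₂.base hΦ hε, h.okZ0 hΦ hε, h.ok₂.line hΦ hε (Sum.inr true), h.okZ0e hΦ hε⟩
    ⟨h.ok₂.base hΦ hε, h.okZ0 hΦ hε, h.ok₂.line hΦ hε (Sum.inr false), h.okZ0c' hΦ hε⟩
    hs0 hsT hE' he hc (hne s hs0 hsT hE' he) (hnc s hs0 hsT hE' hc)
    (h.nl₂ (Sum.inr true) (Sum.inr false) (by simp) s hs0 hsT he hc)



/-! ### The facts -/



/-- The world `w₂ + F + d`. -/
theorem okLd (hΦ : AdmissiblePotential Φ) (hε : 0 < ε) (h : E6Hyp Φ ε K T w₂ F r d e' c') :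
    ((w₂.add (MW.lines F)).ins d).Ok Φ ε :=
  ok_lines_add hΦ hε h.ok₁ (inlEmb κ Unit)
    (⟨fun _ : Unit => Sum.inr (), fun _ _ _ => rfl⟩ : Unit ↪ κ ⊕ Unit) fun _ _ h => by cases h


end E6Hyp

end

end Crest.Agent.R122.E6Hyp879
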