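import Crest.Agent.R122.CausalGenFour_291

/-!
# World consistency with clean links, closed end (row 122, E_FINAL (1.5), 984 (R1))

* `CFut`: clean forward closure: like `Fut`, but every reached particle is infected before the
  contact time in neither of the two worlds.
* `Four.Link`: the clean closures of `A` and `L` (with respect to `Z`) meet or are in contact.
* `Four.touched_iff_closed`: if neither `A` nor `L` has touched `Z` before `s` and there is no link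
  up to and including `s`, then `L` touches `Z` at `s` iff `L` touches `Z+A` at `s`.
* `Four.theta_eq`: off the link event at `m = min (θ(Z,L)) (θ(Z+A,L))`, if `m ≤ θ(Z,A)` then
  `θ(Z,L) = θ(Z+A,L)`; consequences `(S1)`, `(S2)`, `(S3)`.
-/

set_option autoImplicit false
set_option linter.unusedSectionVars false

open Set Filter Topology

namespace Crest.Agent.R122.CausalGen291

open Crest.Agent.R122.Causal291

section clean

variable {ι₁ ι₂ κ : Type} {X : Type*}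

/-- `k` is infected before `s` in neither world. -/
def CleanB (a : ℝ) (P₁ : ℝ → ι₁ → Prop) (P₂ : ℝ → ι₂ → Prop) (e₁ : κ → ι₁) (e₂ : κ → ι₂) (s : ℝ)
    (k : κ) : Prop :=
  ∀ u, a ≤ u → u < s → ¬ P₁ u (e₁ k) ∧ ¬ P₂ u (e₂ k)

/-- Clean forward closure. -/
inductive CFut (C₁ : ℝ → ι₁ → ι₁ → Prop) (z₁ : ℝ → ι₁ → X) (C₂ : ℝ → ι₂ → ι₂ → Prop)
    (z₂ : ℝ → ι₂ → X) (e₁ : κ → ι₁) (e₂ : κ → ι₂) (a : ℝ) (P₁ : ℝ → ι₁ → Prop)
    (P₂ : ℝ → ι₂ → Prop) : ℝ → κ → Prop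
  | init {s : ℝ} {k : κ} (h : z₁ 0 (e₁ k) ≠ z₂ 0 (e₂ k)) (hs : 0 ≤ s) :
      CFut C₁ z₁ C₂ z₂ e₁ e₂ a P₁ P₂ s k
  | new₁ {s s' : ℝ} {k : κ} (j : ι₁) (hj : j ∉ range e₁) (hc : C₁ s' j (e₁ k)) (h0 : 0 ≤ s')
      (hs : s' ≤ s) (hcl : CleanB a P₁ P₂ e₁ e₂ s' k) : CFut C₁ z₁ C₂ z₂ e₁ e₂ a P₁ P₂ s k
  | new₂ {s s' : ℝ} {k : κ} (j : ι₂) (hj : j ∉ range e₂) (hc : C₂ s' j (e₂ k)) (h0 : 0 ≤ s')
      (hs : s' ≤ s) (hcl : CleanB a P₁ P₂ e₁ e₂ s' k) : CFut C₁ z₁ C₂ z₂ e₁ e₂ a P₁ P₂ s k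
  | chain₁ {s s' : ℝ} {k l : κ} (h : CFut C₁ z₁ C₂ z₂ e₁ e₂ a P₁ P₂ s' l)
      (hc : C₁ s' (e₁ l) (e₁ k)) (hs : s' ≤ s) (hcl : CleanB a P₁ P₂ e₁ e₂ s' k) :
      CFut C₁ z₁ C₂ z₂ e₁ e₂ a P₁ P₂ s k
  | chain₂ {s s' : ℝ} {k l : κ} (h : CFut C₁ z₁ C₂ z₂ e₁ e₂ a P₁ P₂ s' l)
      (hc : C₂ s' (e₂ l) (e₂ k)) (hs : s' ≤ s) (hcl : CleanB a P₁ P₂ e₁ e₂ s' k) :
      CFut C₁ z₁ C₂ z₂ e₁ e₂ a P₁ P₂ s k

variable {C₁ : ℝ → ι₁ → ι₁ → Prop} {C₂ : ℝ → ι₂ → ι₂ → Prop}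
variable {z₁ : ℝ → ι₁ → X} {z₂ : ℝ → ι₂ → X} {e₁ : κ → ι₁} {e₂ : κ → ι₂} {a T : ℝ}
variable {P₁ : ℝ → ι₁ → Prop} {P₂ : ℝ → ι₂ → Prop}

theorem CFut.fut {s : ℝ} {k : κ} (h : CFut C₁ z₁ C₂ z₂ e₁ e₂ a P₁ P₂ s k) :
    Fut C₁ z₁ C₂ z₂ e₁ e₂ s k := by
  induction h with
  | init h hs => exact .init h hs
  | new₁ j hj hc h0 hs _ => exact .new₁ j hj hc h0 hs
  | new₂ j hj hc h0 hs _ => exact .new₂ j hj hc h0 hs
  | chain₁ _ hc hs _ ih => exact .chain₁ ih hc hs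
  | chain₂ _ hc hs _ ih => exact .chain₂ ih hc hs

theorem CFut.mono {s s' : ℝ} {k : κ} (h : CFut C₁ z₁ C₂ z₂ e₁ e₂ a P₁ P₂ s k) (hs : s ≤ s') :
    CFut C₁ z₁ C₂ z₂ e₁ e₂ a P₁ P₂ s' k := by
  cases h with
  | init h h' => exact .init h (h'.trans hs)
  | new₁ j hj hc h0 h hcl => exact .new₁ j hj hc h0 (h.trans hs) hcl
  | new₂ j hj hc h0 h hcl => exact .new₂ j hj hc h0 (h.trans hs) hcl
  | chain₁ h hc h' hcl => exact .chain₁ h hc (h'.trans hs) hcl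
  | chain₂ h hc h' hcl => exact .chain₂ h hc (h'.trans hs) hcl

theorem CFut.nonneg {s : ℝ} {k : κ} (h : CFut C₁ z₁ C₂ z₂ e₁ e₂ a P₁ P₂ s k) : 0 ≤ s :=
  h.fut.nonneg

/-- Untouched before `s`: particles influenced before `s` are clean before `s`. -/
theorem cleanB_of_fut_lt (hP₁ : IsRule C₁ a T P₁) (hP₂ : IsRule C₂ a T P₂) {s : ℝ} (hsT : s ≤ T)
    (hU : ∀ u, a ≤ u → u < s → ¬ Touched C₁ z₁ C₂ z₂ e₁ e₂ P₁ P₂ u) {u : ℝ} {k : κ} (hu : u < s)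
    (h : Fut C₁ z₁ C₂ z₂ e₁ e₂ u k) : CleanB a P₁ P₂ e₁ e₂ s k := by
  intro v hav hvs
  have hw : max u v < s := max_lt hu hvs
  have haw : a ≤ max u v := hav.trans (le_max_right _ _)
  constructor
  · intro hP
    exact hU _ haw hw (Or.inl ⟨k, h.mono (le_max_left _ _),
      Or.inl (hP₁.mono hav (le_max_right _ _) (hw.le.trans hsT) hP)⟩)
  · intro hP
    exact hU _ haw hw (Or.inl ⟨k, h.mono (le_max_left _ _),
      Or.inr (hP₂.mono hav (le_max_right _ _) (hw.le.trans hsT) hP)⟩)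

theorem CleanB.mono {s s' : ℝ} {k : κ} (h : CleanB a P₁ P₂ e₁ e₂ s' k) (hs : s ≤ s') :
    CleanB a P₁ P₂ e₁ e₂ s k := fun u hu hus => h u hu (hus.trans_le hs)

/-- Untouched before `s`: all influenced particles before `s` are in the clean closure. -/
theorem CFut.of_fut (hP₁ : IsRule C₁ a T P₁) (hP₂ : IsRule C₂ a T P₂) {s : ℝ} (hsT : s ≤ T)
    (hU : ∀ u, a ≤ u → u < s → ¬ Touched C₁ z₁ C₂ z₂ e₁ e₂ P₁ P₂ u) {u : ℝ} {k : κ} (hu : u < s)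
    (h : Fut C₁ z₁ C₂ z₂ e₁ e₂ u k) : CFut C₁ z₁ C₂ z₂ e₁ e₂ a P₁ P₂ u k := by
  have key : ∀ {u' : ℝ} {k : κ}, u' < s → Fut C₁ z₁ C₂ z₂ e₁ e₂ u' k →
      CleanB a P₁ P₂ e₁ e₂ u' k :=
    fun hu' hk => (cleanB_of_fut_lt hP₁ hP₂ hsT hU hu' hk).mono hu'.le
  induction h with
  | init h hs => exact .init h hs
  | new₁ j hj hc h0 hs =>
    exact .new₁ j hj hc h0 hs (key (hs.trans_lt hu) (.new₁ j hj hc h0 le_rfl))
  | new₂ j hj hc h0 hs =>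
    exact .new₂ j hj hc h0 hs (key (hs.trans_lt hu) (.new₂ j hj hc h0 le_rfl))
  | chain₁ h hc hs ih =>
    exact .chain₁ (ih (hs.trans_lt hu)) hc hs (key (hs.trans_lt hu) (.chain₁ h hc le_rfl))
  | chain₂ h hc hs ih =>
    exact .chain₂ (ih (hs.trans_lt hu)) hc hs (key (hs.trans_lt hu) (.chain₂ h hc le_rfl))

/-- At time `s` a particle infected before `s` is in contact with the clean closure. -/
def Hit (C₁ : ℝ → ι₁ → ι₁ → Prop) (z₁ : ℝ → ι₁ → X) (C₂ : ℝ → ι₂ → ι₂ → Prop)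
    (z₂ : ℝ → ι₂ → X) (e₁ : κ → ι₁) (e₂ : κ → ι₂) (a : ℝ) (P₁ : ℝ → ι₁ → Prop)
    (P₂ : ℝ → ι₂ → Prop) (s : ℝ) : Prop :=
  ∃ i, ¬ CleanB a P₁ P₂ e₁ e₂ s i ∧ ((∃ j, j ∉ range e₁ ∧ C₁ s j (e₁ i)) ∨
    (∃ j, j ∉ range e₂ ∧ C₂ s j (e₂ i)) ∨
    ∃ l, CFut C₁ z₁ C₂ z₂ e₁ e₂ a P₁ P₂ s l ∧ (C₁ s (e₁ l) (e₁ i) ∨ C₂ s (e₂ l) (e₂ i)))

theorem Hit.touched (hP₁ : IsRule C₁ a T P₁) (hP₂ : IsRule C₂ a T P₂) {s : ℝ} (ha : 0 ≤ a)
    (hs : s ∈ Icc a T) (h : Hit C₁ z₁ C₂ z₂ e₁ e₂ a P₁ P₂ s) :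
    Touched C₁ z₁ C₂ z₂ e₁ e₂ P₁ P₂ s := by
  obtain ⟨i, hi, h⟩ := h
  have hs0 : 0 ≤ s := ha.trans hs.1
  have hfut : Fut C₁ z₁ C₂ z₂ e₁ e₂ s i := by
    rcases h with ⟨j, hj, hc⟩ | ⟨j, hj, hc⟩ | ⟨l, hl, hc | hc⟩
    · exact .new₁ j hj hc hs0 le_rfl
    · exact .new₂ j hj hc hs0 le_rfl
    · exact .chain₁ hl.fut hc le_rfl
    · exact .chain₂ hl.fut hc le_rfl
  unfold CleanB at hi
  push Not at hi
  obtain ⟨u, hau, hus, hP⟩ := hi
  by_cases hP1 : P₁ u (e₁ i)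
  · exact Or.inl ⟨i, hfut, Or.inl (hP₁.mono hau hus.le hs.2 hP1)⟩
  · exact Or.inl ⟨i, hfut, Or.inr (hP₂.mono hau hus.le hs.2 (hP hP1))⟩

/-- Untouched before `s` and no hit at `s`: the full closure at `s` is the clean closure. -/
theorem CFut.of_not_hit (hP₁ : IsRule C₁ a T P₁) (hP₂ : IsRule C₂ a T P₂) {s : ℝ} (hsT : s ≤ T)
    (hU : ∀ u, a ≤ u → u < s → ¬ Touched C₁ z₁ C₂ z₂ e₁ e₂ P₁ P₂ u)
    (hH : ¬ Hit C₁ z₁ C₂ z₂ e₁ e₂ a P₁ P₂ s) {k : κ}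
    (h : Fut C₁ z₁ C₂ z₂ e₁ e₂ s k) : CFut C₁ z₁ C₂ z₂ e₁ e₂ a P₁ P₂ s k := by
  have main : ∀ {u : ℝ} {k : κ}, Fut C₁ z₁ C₂ z₂ e₁ e₂ u k → u ≤ s →
      CFut C₁ z₁ C₂ z₂ e₁ e₂ a P₁ P₂ u k := by
    intro u k h
    have key : ∀ {u' : ℝ} {k : κ}, u' < s → Fut C₁ z₁ C₂ z₂ e₁ e₂ u' k →
        CleanB a P₁ P₂ e₁ e₂ u' k :=
      fun hu' hk => (cleanB_of_fut_lt hP₁ hP₂ hsT hU hu' hk).mono hu'.le
    induction h with
    | init h hs => exact fun _ => .init h hs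
    | @new₁ u u' k j hj hc h0 hs =>
      intro hu
      refine .new₁ j hj hc h0 hs ?_
      rcases (hs.trans hu).lt_or_eq with h1 | h1
      · exact key h1 (.new₁ j hj hc h0 le_rfl)
      · by_contra hcl
        subst h1
        exact hH ⟨k, hcl, Or.inl ⟨j, hj, hc⟩⟩
    | @new₂ u u' k j hj hc h0 hs =>
      intro hu
      refine .new₂ j hj hc h0 hs ?_
      rcases (hs.trans hu).lt_or_eq with h1 | h1
      · exact key h1 (.new₂ j hj hc h0 le_rfl)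
      · by_contra hcl
        subst h1
        exact hH ⟨k, hcl, Or.inr (Or.inl ⟨j, hj, hc⟩)⟩
    | @chain₁ u u' k l h hc hs ih =>
      intro hu
      have ih' := ih (hs.trans hu)
      refine .chain₁ ih' hc hs ?_
      rcases (hs.trans hu).lt_or_eq with h1 | h1
      · exact key h1 (.chain₁ h hc le_rfl)
      · by_contra hcl
        subst h1
        exact hH ⟨k, hcl, Or.inr (Or.inr ⟨l, ih', Or.inl hc⟩)⟩
    | @chain₂ u u' k l h hc hs ih =>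
      intro hu
      have ih' := ih (hs.trans hu)
      refine .chain₂ ih' hc hs ?_
      rcases (hs.trans hu).lt_or_eq with h1 | h1
      · exact key h1 (.chain₂ h hc le_rfl)
      · by_contra hcl
        subst h1
        exact hH ⟨k, hcl, Or.inr (Or.inr ⟨l, ih', Or.inr hc⟩)⟩
  exact main h le_rfl

/-- Agreement at a closed end: a particle not influenced before `s` has equal states at `s`. -/
theorem agree_of_not_fut_lt [Finite ι₁] [Finite ι₂] (hp : Pair T C₁ z₁ C₂ z₂ e₁ e₂) {s : ℝ}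
    (hs : s ∈ Icc 0 T) {k : κ} (h0 : z₁ 0 (e₁ k) = z₂ 0 (e₂ k))
    (h : ∀ u, 0 ≤ u → u < s → ¬ Fut C₁ z₁ C₂ z₂ e₁ e₂ u k) : z₁ s (e₁ k) = z₂ s (e₂ k) := by
  rcases hs.1.lt_or_eq with h1 | h1
  · have hmem : s ∈ closure (Ico 0 s) := by
      rw [closure_Ico h1.ne]
      exact ⟨h1.le, le_rfl⟩
    have hsub : Ico 0 s ⊆ {s | s ∈ Icc 0 T ∧ z₁ s (e₁ k) = z₂ s (e₂ k)} := fun u hu =>
      ⟨⟨hu.1, hu.2.le.trans hs.2⟩,
        agree_of_not_fut hp ⟨hu.1, hu.2.le.trans hs.2⟩ (h u hu.1 hu.2)⟩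
    exact ((hp.eqc k).closure_subset_iff.2 hsub hmem).2
  · rw [← h1]; exact h0

/-- Closed-end agreement from agreement before. -/
theorem agree_closed (hp : Pair T C₁ z₁ C₂ z₂ e₁ e₂) {s : ℝ} (hs : s ∈ Icc 0 T) {k : κ}
    (h0 : z₁ 0 (e₁ k) = z₂ 0 (e₂ k))
    (h : ∀ u, 0 ≤ u → u < s → z₁ u (e₁ k) = z₂ u (e₂ k)) : z₁ s (e₁ k) = z₂ s (e₂ k) := by
  rcases hs.1.lt_or_eq with h1 | h1
  · have hmem : s ∈ closure (Ico 0 s) := by
      rw [closure_Ico h1.ne]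
      exact ⟨h1.le, le_rfl⟩
    have hsub : Ico 0 s ⊆ {s | s ∈ Icc 0 T ∧ z₁ s (e₁ k) = z₂ s (e₂ k)} := fun u hu =>
      ⟨⟨hu.1, hu.2.le.trans hs.2⟩, h u hu.1 hu.2⟩
    exact ((hp.eqc k).closure_subset_iff.2 hsub hmem).2
  · rw [← h1]; exact h0

/-- `s ≤ θ` iff untouched before `s` (for `s ≤ T`). -/
theorem untouched_of_le_theta [Finite κ] [Finite ι₁] [Finite ι₂]
    (hp : Pair T C₁ z₁ C₂ z₂ e₁ e₂) (ha : 0 ≤ a)
    (hP₁ : IsRule C₁ a T P₁) (hP₂ : IsRule C₂ a T P₂) {s : ℝ} (hsT : s ≤ T)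
    (hs : s ≤ theta C₁ z₁ C₂ z₂ e₁ e₂ a T P₁ P₂) :
    ∀ u, a ≤ u → u < s → ¬ Touched C₁ z₁ C₂ z₂ e₁ e₂ P₁ P₂ u := by
  intro u hau hus h
  have := (touched_iff_theta_le hp ha hP₁ hP₂ (s := u) ⟨hau, hus.le.trans hsT⟩).1 h
  exact absurd (hs.trans this) (not_le.2 hus)

end clean

namespace Four

variable {κ ιA ιL ι : Type} {X : Type*}

/-- Clean closure of `A` with respect to `Z`. -/
def CFA (F : Four κ ιA ιL ι X) (a : ℝ) (P₀ : ℝ → κ → Prop) (PA : ℝ → ιA → Prop) (s : ℝ) : Set κ :=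
  {k | CFut F.C₀ F.z₀ F.CA F.zA id F.eA a P₀ PA s k}

/-- Clean closure of `L` with respect to `Z`. -/
def CFL (F : Four κ ιA ιL ι X) (a : ℝ) (P₀ : ℝ → κ → Prop) (PL : ℝ → ιL → Prop) (s : ℝ) : Set κ :=
  {k | CFut F.C₀ F.z₀ F.CL F.zL id F.eL a P₀ PL s k}

/-- `A` and its clean closure, in `Z+A`. -/
def CIA (F : Four κ ιA ιL ι X) (a : ℝ) (P₀ : ℝ → κ → Prop) (PA : ℝ → ιA → Prop) (s : ℝ) : Set ιA :=
  {x | ∀ k, x = F.eA k → k ∈ F.CFA a P₀ PA s}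

/-- `L` and its clean closure, in `Z+L`. -/
def CIL (F : Four κ ιA ιL ι X) (a : ℝ) (P₀ : ℝ → κ → Prop) (PL : ℝ → ιL → Prop) (s : ℝ) : Set ιL :=
  {y | ∀ k, y = F.eL k → k ∈ F.CFL a P₀ PL s}

/-- Clean link between `A` and `L` up to and including time `s`. -/
def Link (F : Four κ ιA ιL ι X) (a : ℝ) (P₀ : ℝ → κ → Prop) (PA : ℝ → ιA → Prop)
    (PL : ℝ → ιL → Prop) (s : ℝ) : Prop :=
  ∃ u ∈ Icc 0 s, (∃ k, k ∈ F.CFA a P₀ PA u ∧ k ∈ F.CFL a P₀ PL u) ∨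
    ∃ x y, x ∈ F.CIA a P₀ PA u ∧ y ∈ F.CIL a P₀ PL u ∧ F.CX u x y

theorem Link.mono {F : Four κ ιA ιL ι X} {a : ℝ} {P₀ : ℝ → κ → Prop} {PA : ℝ → ιA → Prop}
    {PL : ℝ → ιL → Prop} {s s' : ℝ} (h : F.Link a P₀ PA PL s) (hs : s ≤ s') :
    F.Link a P₀ PA PL s' := by
  obtain ⟨u, hu, h⟩ := h
  exact ⟨u, ⟨hu.1, hu.2.trans hs⟩, h⟩

theorem Link.swap {F : Four κ ιA ιL ι X} {a : ℝ} {P₀ : ℝ → κ → Prop} {PA : ℝ → ιA → Prop}
    {PL : ℝ → ιL → Prop} {s : ℝ} (h : F.Link a P₀ PA PL s) : F.swap.Link a P₀ PL PA s := by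
  obtain ⟨u, hu, ⟨k, hk, hk'⟩ | ⟨x, y, hx, hy, hc⟩⟩ := h
  · exact ⟨u, hu, Or.inl ⟨k, hk', hk⟩⟩
  · exact ⟨u, hu, Or.inr ⟨y, x, hy, hx, hc⟩⟩

/-- Coherence of cross contacts with contacts in `Z+L` and in `Z+A`. -/
structure CohX (F : Four κ ιA ιL ι X) (T : ℝ) : Prop where
  cohXL : ∀ s ∈ Icc 0 T, ∀ k y, F.zA s (F.eA k) = F.zL s (F.eL k) → F.CX s (F.eA k) y →
    F.CL s (F.eL k) y
  cohXA : ∀ s ∈ Icc 0 T, ∀ x k, F.zA s (F.eA k) = F.zL s (F.eL k) → F.CX s x (F.eL k) →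
    F.CA s x (F.eA k)

/-- Infection rules in the four worlds, coherent. -/
structure Rules (F : Four κ ιA ιL ι X) (a T : ℝ) (P₀ : ℝ → κ → Prop) (PA : ℝ → ιA → Prop)
    (PL : ℝ → ιL → Prop) (P : ℝ → ι → Prop) : Prop where
  r₀ : IsRule F.C₀ a T P₀
  rA : IsRule F.CA a T PA
  rL : IsRule F.CL a T PL
  r : IsRule F.C a T P
  st : F.Status a T P₀ PA PL P

variable {F : Four κ ιA ιL ι X} {a T : ℝ} {P₀ : ℝ → κ → Prop} {PA : ℝ → ιA → Prop}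
  {PL : ℝ → ιL → Prop} {P : ℝ → ι → Prop}

theorem Rules.swap (h : F.Rules a T P₀ PA PL P) : F.swap.Rules a T P₀ PL PA P where
  r₀ := h.r₀
  rA := h.rL
  rL := h.rA
  r := h.r
  st := h.st.swap

/-- `A` has not touched `Z` before `s`. -/
def UntA (F : Four κ ιA ιL ι X) (a : ℝ) (P₀ : ℝ → κ → Prop) (PA : ℝ → ιA → Prop) (s : ℝ) : Prop :=
  ∀ u, a ≤ u → u < s → ¬ Touched F.C₀ F.z₀ F.CA F.zA id F.eA P₀ PA u

/-- `L` has not touched `Z` before `s`. -/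
def UntL (F : Four κ ιA ιL ι X) (a : ℝ) (P₀ : ℝ → κ → Prop) (PL : ℝ → ιL → Prop) (s : ℝ) : Prop :=
  ∀ u, a ≤ u → u < s → ¬ Touched F.C₀ F.z₀ F.CL F.zL id F.eL P₀ PL u

theorem cfa_of_fa (hR : F.Rules a T P₀ PA PL P) {s : ℝ} (hsT : s ≤ T) (hA : F.UntA a P₀ PA s)
    {u : ℝ} (hu : u < s) {k : κ} (hk : k ∈ F.FA u) : k ∈ F.CFA a P₀ PA u :=
  CFut.of_fut hR.r₀ hR.rA hsT hA hu hk

theorem cfl_of_fl (hR : F.Rules a T P₀ PA PL P) {s : ℝ} (hsT : s ≤ T) (hL : F.UntL a P₀ PL s)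
    {u : ℝ} (hu : u < s) {k : κ} (hk : k ∈ F.FL u) : k ∈ F.CFL a P₀ PL u :=
  CFut.of_fut hR.r₀ hR.rL hsT hL hu hk

theorem cfl_not_cfa {s : ℝ} (hlk : ¬ F.Link a P₀ PA PL s) {u : ℝ} (hu : u ≤ s) {k : κ}
    (hk : k ∈ F.CFL a P₀ PL u) : k ∉ F.CFA a P₀ PA u :=
  fun hk' => hlk ⟨u, ⟨CFut.nonneg hk, hu⟩, Or.inl ⟨k, hk', hk⟩⟩

/-- No link: the initial states agree in all worlds. -/
theorem init₀ (hd : F.Dyn T) {s : ℝ} (hs : 0 ≤ s) (hlk : ¬ F.Link a P₀ PA PL s) (k : κ) :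
    F.z₀ 0 k = F.zA 0 (F.eA k) ∧ F.z₀ 0 k = F.zL 0 (F.eL k) := by
  have h1 : F.zA 0 (F.eA k) = F.zL 0 (F.eL k) := by rw [hd.initA, F.comm k, ← hd.initL]
  by_cases h : F.z₀ 0 k = F.zA 0 (F.eA k)
  · exact ⟨h, h.trans h1⟩
  · exfalso
    refine hlk ⟨0, ⟨le_rfl, hs⟩, Or.inl ⟨k, .init h le_rfl, .init ?_ le_rfl⟩⟩
    rw [← h1]
    exact h

/-- Unlinked before `s`. -/
theorem unlinked_lt (hR : F.Rules a T P₀ PA PL P) {s : ℝ} (hsT : s ≤ T)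
    (hA : F.UntA a P₀ PA s) (hL : F.UntL a P₀ PL s) (hlk : ¬ F.Link a P₀ PA PL s) {u : ℝ}
    (hu : u < s) : F.Unlinked u where
  disj v hv k hkA hkL := by
    have hvs : v < s := hv.2.trans_lt hu
    exact hlk ⟨v, ⟨hv.1, hvs.le⟩, Or.inl ⟨k, cfa_of_fa hR hsT hA hvs hkA,
      cfl_of_fl hR hsT hL hvs hkL⟩⟩
  far v hv x hx y hy hc := by
    have hvs : v < s := hv.2.trans_lt hu
    exact hlk ⟨v, ⟨hv.1, hvs.le⟩, Or.inr ⟨x, y, fun k hk => cfa_of_fa hR hsT hA hvs (hx k hk),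
      fun k hk => cfl_of_fl hR hsT hL hvs (hy k hk), hc⟩⟩

variable [Finite κ] [Finite ιA] [Finite ιL] [Finite ι]

/-- Before `s` the worlds agree on who is infected. -/
theorem infected_iffA (hd : F.Dyn T) (hR : F.Rules a T P₀ PA PL P) (ha : 0 ≤ a) {s : ℝ}
    (hsT : s ≤ T) (hA : F.UntA a P₀ PA s) {u : ℝ} (hau : a ≤ u) (hu : u < s) (k : κ) :
    P₀ u k ↔ PA u (F.eA k) :=
  (agreeAt_of_not_touched hd.p₀A hR.st.coh₀A ha ⟨hau, hu.le.trans hsT⟩ (hA u hau hu)).1.iff k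

theorem infected_iffL (hd : F.Dyn T) (hR : F.Rules a T P₀ PA PL P) (ha : 0 ≤ a) {s : ℝ}
    (hsT : s ≤ T) (hL : F.UntL a P₀ PL s) {u : ℝ} (hau : a ≤ u) (hu : u < s) (k : κ) :
    P₀ u k ↔ PL u (F.eL k) :=
  (agreeAt_of_not_touched hd.p₀L hR.st.coh₀L ha ⟨hau, hu.le.trans hsT⟩ (hL u hau hu)).1.iff k

omit [Finite ιL] [Finite ι] in
/-- Agreement of `Z` and `Z+A` at the closed end, outside the clean closure of `A`. -/
theorem agreeA_closed (hd : F.Dyn T) {s : ℝ} (hs : s ∈ Icc 0 T)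
    (hlk : ¬ F.Link a P₀ PA PL s) {u : ℝ} (hu : u ∈ Icc 0 s) {k : κ}
    (hk : ∀ v, v < u → k ∉ F.FA v) : F.z₀ u k = F.zA u (F.eA k) :=
  agree_of_not_fut_lt hd.p₀A ⟨hu.1, hu.2.trans hs.2⟩ (init₀ hd hs.1 hlk k).1
    fun v _ hv => hk v hv

omit [Finite ιA] [Finite ι] in
theorem agreeL_closed (hd : F.Dyn T) {s : ℝ} (hs : s ∈ Icc 0 T)
    (hlk : ¬ F.Link a P₀ PA PL s) {u : ℝ} (hu : u ∈ Icc 0 s) {k : κ}
    (hk : ∀ v, v < u → k ∉ F.FL v) : F.z₀ u k = F.zL u (F.eL k) :=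
  agree_of_not_fut_lt hd.p₀L ⟨hu.1, hu.2.trans hs.2⟩ (init₀ hd hs.1 hlk k).2
    fun v _ hv => hk v hv

/-- Glueing at the closed end. -/
theorem glueL_closed (hd : F.Dyn T) (hR : F.Rules a T P₀ PA PL P) {s : ℝ} (hs : s ∈ Icc 0 T)
    (hA : F.UntA a P₀ PA s) (hL : F.UntL a P₀ PL s) (hlk : ¬ F.Link a P₀ PA PL s) {u : ℝ}
    (hu : u ∈ Icc 0 s) {y : ιL} (hy : ∀ v, v < u → ∀ k, y = F.eL k → k ∉ F.FA v) :
    F.zL u y = F.z u (F.fL y) := by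
  refine agree_closed (e₁ := id) hd.pL ⟨hu.1, hu.2.trans hs.2⟩ (hd.initL y) fun v hv hvu => ?_
  have hvs : v < s := hvu.trans_le hu.2
  exact glueL (hd.mono (hvs.le.trans hs.2)) (unlinked_lt hR hs.2 hA hL hlk hvs) ⟨hv, le_rfl⟩
    (hy v hvu)

/-- A particle of the clean closure of `L` is not influenced by `A` before. -/
theorem not_fa_of_cfl (hR : F.Rules a T P₀ PA PL P) {s : ℝ} (hs : s ∈ Icc 0 T)
    (hA : F.UntA a P₀ PA s) (hlk : ¬ F.Link a P₀ PA PL s) {u : ℝ} (hu : u ≤ s) {k : κ}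
    (hk : k ∈ F.CFL a P₀ PL u) : ∀ v, v < u → k ∉ F.FA v := fun _ hv hkA =>
  cfl_not_cfa hlk hu hk ((cfa_of_fa hR hs.2 hA (hv.trans_le hu) hkA).mono hv.le)

/-- The clean closure of `L` (with respect to `Z`) is influenced by `L` in `Z+A`. -/
theorem fut_of_cfl (hd : F.Dyn T) (hR : F.Rules a T P₀ PA PL P) {s : ℝ} (hs : s ∈ Icc 0 T)
    (hA : F.UntA a P₀ PA s) (hL : F.UntL a P₀ PL s) (hlk : ¬ F.Link a P₀ PA PL s) {u : ℝ}
    (hu : u ≤ s) {k : κ} (hk : k ∈ F.CFL a P₀ PL u) :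
    Fut F.CA F.zA F.C F.z id F.fA u (F.eA k) := by
  change CFut F.C₀ F.z₀ F.CL F.zL id F.eL a P₀ PL u k at hk
  have nfa : ∀ {u : ℝ}, u ≤ s → ∀ {k : κ}, CFut F.C₀ F.z₀ F.CL F.zL id F.eL a P₀ PL u k →
      ∀ v, v < u → k ∉ F.FA v := fun hu _ hk => not_fa_of_cfl hR hs hA hlk hu hk
  have gl : ∀ {u : ℝ}, u ≤ s → ∀ {k : κ}, CFut F.C₀ F.z₀ F.CL F.zL id F.eL a P₀ PL u k →
      F.zL u (F.eL k) = F.z u (F.fL (F.eL k)) := by
    intro u hu k hk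
    refine glueL_closed hd hR hs hA hL hlk ⟨CFut.nonneg hk, hu⟩ fun v hv k' hk' => ?_
    rw [← F.eL_inj hk']
    exact nfa hu hk v hv
  induction hk with
  | @init u k h h0 => exact absurd (init₀ hd hs.1 hlk k).2 h
  | new₁ j hj _ _ _ _ => exact absurd ⟨j, rfl⟩ hj
  | @new₂ u u' k y hy hc h0 huu hcl =>
    have hu's : u' ≤ s := huu.trans hu
    have hk' : CFut F.C₀ F.z₀ F.CL F.zL id F.eL a P₀ PL u' k := .new₂ y hy hc h0 le_rfl hcl
    refine .new₂ (F.fL y) ?_ ?_ h0 huu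
    · rintro ⟨x, hx⟩
      obtain ⟨k', _, hk''⟩ := F.pull x y hx
      exact hy ⟨k', hk''.symm⟩
    · rw [F.comm k]
      exact (hd.pL.coh u' ⟨h0, hu's.trans hs.2⟩ y (F.eL k)
        (glueL_closed hd hR hs hA hL hlk ⟨h0, hu's⟩ fun v hv k' hk'' => absurd ⟨k', hk''.symm⟩ hy)
        (gl hu's hk')).1 hc
  | @chain₁ u u' k l h hc huu hcl ih =>
    have hu's : u' ≤ s := huu.trans hu
    have h0 : 0 ≤ u' := CFut.nonneg h
    have hk' : CFut F.C₀ F.z₀ F.CL F.zL id F.eL a P₀ PL u' k := .chain₁ h hc le_rfl hcl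
    refine .chain₁ (ih hu's) ?_ huu
    exact (hd.p₀A.coh u' ⟨h0, hu's.trans hs.2⟩ l k
      (agreeA_closed hd hs hlk ⟨h0, hu's⟩ (nfa hu's h))
      (agreeA_closed hd hs hlk ⟨h0, hu's⟩ (nfa hu's hk'))).1 hc
  | @chain₂ u u' k l h hc huu hcl ih =>
    have hu's : u' ≤ s := huu.trans hu
    have h0 : 0 ≤ u' := CFut.nonneg h
    have hk' : CFut F.C₀ F.z₀ F.CL F.zL id F.eL a P₀ PL u' k := .chain₂ h hc le_rfl hcl
    refine .chain₂ (ih hu's) ?_ huu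
    rw [F.comm k, F.comm l]
    exact (hd.pL.coh u' ⟨h0, hu's.trans hs.2⟩ (F.eL l) (F.eL k) (gl hu's h) (gl hu's hk')).1 hc

/-- If the clean closure of `L` is in contact at `s` with a particle infected before `s`, then `L`
touches `Z+A` at `s`. -/
theorem touched_of_hit (hd : F.Dyn T) (hR : F.Rules a T P₀ PA PL P) (ha : 0 ≤ a) {s : ℝ}
    (hs : s ∈ Icc a T) (hA : F.UntA a P₀ PA s) (hL : F.UntL a P₀ PL s)
    (hlk : ¬ F.Link a P₀ PA PL s) (hH : Hit F.C₀ F.z₀ F.CL F.zL id F.eL a P₀ PL s) :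
    Touched F.CA F.zA F.C F.z id F.fA PA P s := by
  have hs0 : s ∈ Icc 0 T := ⟨ha.trans hs.1, hs.2⟩
  have hss : s ∈ Icc 0 s := ⟨hs0.1, le_rfl⟩
  obtain ⟨i, hi, hc⟩ := hH
  unfold CleanB at hi
  push Not at hi
  obtain ⟨u₀, hau, hus, hP⟩ := hi
  have hP0 : P₀ u₀ i := by
    by_contra hno
    exact hno ((infected_iffL hd hR ha hs.2 hL hau hus i).2 (hP hno))
  have hPA : PA u₀ (F.eA i) := (infected_iffA hd hR ha hs.2 hA hau hus i).1 hP0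
  have hPAs : PA s (F.eA i) := hR.rA.mono hau hus.le hs.2 hPA
  -- `i` is influenced neither by `A` nor by `L` before `s`
  have hiA : ∀ v, v < s → i ∉ F.FA v := by
    intro v hv hiv
    refine hA (max v u₀) (hau.trans (le_max_right _ _)) (max_lt hv hus) (Or.inl ⟨i, ?_, Or.inl ?_⟩)
    · exact Fut.mono hiv (le_max_left _ _)
    · exact hR.r₀.mono hau (le_max_right _ _) ((max_lt hv hus).le.trans hs.2) hP0
  have hiL : ∀ v, v < s → i ∉ F.FL v := by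
    intro v hv hiv
    refine hL (max v u₀) (hau.trans (le_max_right _ _)) (max_lt hv hus) (Or.inl ⟨i, ?_, Or.inl ?_⟩)
    · exact Fut.mono hiv (le_max_left _ _)
    · exact hR.r₀.mono hau (le_max_right _ _) ((max_lt hv hus).le.trans hs.2) hP0
  have e1 : F.z₀ s i = F.zA s (F.eA i) := agreeA_closed hd hs0 hlk hss hiA
  have e3 : F.zL s (F.eL i) = F.z s (F.fL (F.eL i)) :=
    glueL_closed hd hR hs0 hA hL hlk hss fun v hv k' hk' => by rw [← F.eL_inj hk']; exact hiA v hv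
  have hfut : Fut F.CA F.zA F.C F.z id F.fA s (F.eA i) := by
    rcases hc with ⟨j, hj, _⟩ | ⟨y, hy, hc⟩ | ⟨l, hl, hc⟩
    · exact absurd ⟨j, rfl⟩ hj
    · refine .new₂ (F.fL y) ?_ ?_ hs0.1 le_rfl
      · rintro ⟨x, hx⟩
        obtain ⟨k', _, hk''⟩ := F.pull x y hx
        exact hy ⟨k', hk''.symm⟩
      · rw [F.comm i]
        exact (hd.pL.coh s hs0 y (F.eL i)
          (glueL_closed hd hR hs0 hA hL hlk hss fun v hv k' hk'' => absurd ⟨k', hk''.symm⟩ hy)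
          e3).1 hc
    · have hl' : l ∈ F.CFL a P₀ PL s := hl
      have hlA := not_fa_of_cfl hR hs0 hA hlk le_rfl hl'
      have hlfut := fut_of_cfl hd hR hs0 hA hL hlk le_rfl hl'
      rcases hc with hc | hc
      · refine .chain₁ hlfut ?_ le_rfl
        exact (hd.p₀A.coh s hs0 l i (agreeA_closed hd hs0 hlk hss hlA) e1).1 hc
      · refine .chain₂ hlfut ?_ le_rfl
        rw [F.comm i, F.comm l]
        exact (hd.pL.coh s hs0 (F.eL l) (F.eL i)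
          (glueL_closed hd hR hs0 hA hL hlk hss fun v hv k' hk' => by
            rw [← F.eL_inj hk']; exact hlA v hv) e3).1 hc
  exact Or.inl ⟨F.eA i, hfut, Or.inl hPAs⟩

/-- If neither `A` nor `L` has touched before `s`, there is no clean link up to `s`, and the clean
closure of `L` is not in contact at `s` with a particle infected before `s`, then the full closures
are unlinked up to and including `s`. -/
theorem unlinked_of_not_hit (hd : F.Dyn T) (hX : F.CohX T) (hR : F.Rules a T P₀ PA PL P)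
    (ha : 0 ≤ a) {s : ℝ} (hs : s ∈ Icc a T) (hA : F.UntA a P₀ PA s) (hL : F.UntL a P₀ PL s)
    (hlk : ¬ F.Link a P₀ PA PL s) (hH : ¬ Hit F.C₀ F.z₀ F.CL F.zL id F.eL a P₀ PL s) :
    F.Unlinked s := by
  have hs0 : s ∈ Icc 0 T := ⟨ha.trans hs.1, hs.2⟩
  have hss : s ∈ Icc 0 s := ⟨hs0.1, le_rfl⟩
  have cfl : ∀ {k : κ}, k ∈ F.FL s → k ∈ F.CFL a P₀ PL s := fun hk =>
    CFut.of_not_hit hR.r₀ hR.rL hs.2 hL hH hk
  -- clean before `s` in the pair `(Z, Z+A)`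
  have clA : ∀ {k : κ}, k ∈ F.CFL a P₀ PL s → CleanB a P₀ PL id F.eL s k →
      CleanB a P₀ PA id F.eA s k := by
    intro k _ hk u hau hus
    refine ⟨(hk u hau hus).1, fun h => (hk u hau hus).1 ?_⟩
    exact (infected_iffA hd hR ha hs.2 hA hau hus k).2 h
  have clean : ∀ {k : κ}, k ∈ F.CFL a P₀ PL s → CleanB a P₀ PL id F.eL s k := by
    intro k hk
    by_contra hno
    -- `k` is infected before `s`
    unfold CleanB at hno
    push Not at hno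
    obtain ⟨u₀, hau, hus, hP⟩ := hno
    have hP0 : P₀ u₀ k := by
      by_contra hno
      exact hno ((infected_iffL hd hR ha hs.2 hL hau hus k).2 (hP hno))
    -- hence not influenced before `s`, so reached exactly at time `s`, and clean before `s`
    have hkL : ∀ v, v < s → k ∉ F.FL v := by
      intro v hv hiv
      refine hL (max v u₀) (hau.trans (le_max_right _ _)) (max_lt hv hus)
        (Or.inl ⟨k, ?_, Or.inl ?_⟩)
      · exact Fut.mono hiv (le_max_left _ _)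
      · exact hR.r₀.mono hau (le_max_right _ _) ((max_lt hv hus).le.trans hs.2) hP0
    change CFut F.C₀ F.z₀ F.CL F.zL id F.eL a P₀ PL s k at hk
    have fin : ∀ {s' : ℝ}, s' ≤ s → F.FL s' k → CleanB a P₀ PL id F.eL s' k → False := by
      intro s' hs' hk' hcl
      rcases hs'.lt_or_eq with h1 | h1
      · exact hkL s' h1 hk'
      · rw [h1] at hcl
        exact (hcl u₀ hau hus).1 hP0
    cases hk with
    | init h h0 => exact h (init₀ hd hs0.1 hlk k).2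
    | new₁ j hj _ _ _ _ => exact hj ⟨j, rfl⟩
    | new₂ y hy hc h0 huu hcl => exact fin huu (.new₂ y hy hc h0 le_rfl) hcl
    | chain₁ h hc huu hcl => exact fin huu (.chain₁ h.fut hc le_rfl) hcl
    | chain₂ h hc huu hcl => exact fin huu (.chain₂ h.fut hc le_rfl) hcl
  have disj : ∀ {s' : ℝ} {k : κ}, Fut F.C₀ F.z₀ F.CA F.zA id F.eA s' k → s' ≤ s → k ∉ F.FL s := by
    intro s' k h
    have early : ∀ {v : ℝ} {k : κ}, v < s → k ∈ F.FA v → k ∉ F.FL s := by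
      intro v k hv hkA hkL
      exact cfl_not_cfa hlk le_rfl (cfl hkL) ((cfa_of_fa hR hs.2 hA hv hkA).mono hv.le)
    induction h with
    | @init s' k h h0 =>
      intro _
      exact absurd (init₀ hd hs0.1 hlk k).1 h
    | new₁ j hj _ _ _ => exact absurd ⟨j, rfl⟩ hj
    | @new₂ s' u k x hx hc h0 hus =>
      intro hs's
      rcases (hus.trans hs's).lt_or_eq with h1 | h1
      · exact early h1 (.new₂ x hx hc h0 le_rfl)
      · subst h1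
        intro hkL
        have hk := cfl hkL
        refine cfl_not_cfa hlk le_rfl hk ?_
        exact .new₂ x hx hc h0 le_rfl (clA hk (clean hk))
    | @chain₁ s' u k l h hc hus ih =>
      intro hs's
      rcases (hus.trans hs's).lt_or_eq with h1 | h1
      · exact early h1 (.chain₁ h hc le_rfl)
      · subst h1
        intro hkL
        exact ih le_rfl (.chain₁ (e₁ := id) hkL (hd.p₀A.symm₁ _ _ _ hc) le_rfl)
    | @chain₂ s' u k l h hc hus ih =>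
      intro hs's
      rcases (hus.trans hs's).lt_or_eq with h1 | h1
      · exact early h1 (.chain₂ h hc le_rfl)
      · subst h1
        intro hkL
        have hk := cfl hkL
        have hkA := not_fa_of_cfl hR hs0 hA hlk le_rfl hk
        have ek := agreeA_closed hd hs0 hlk hss hkA
        by_cases hl : ∀ v, v < u → l ∉ F.FA v
        · have el := agreeA_closed hd hs0 hlk hss hl
          have hc0 : F.C₀ u l k := (hd.p₀A.coh u hs0 l k el ek).2 hc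
          exact ih le_rfl (.chain₁ (e₁ := id) hkL (hd.p₀A.symm₁ _ _ _ hc0) le_rfl)
        · push Not at hl
          obtain ⟨v, hv, hlv⟩ := hl
          refine cfl_not_cfa hlk le_rfl hk ?_
          exact .chain₂ ((cfa_of_fa hR hs.2 hA hv hlv).mono hv.le) hc le_rfl (clA hk (clean hk))
  refine ⟨fun v hv k hkA hkL => ?_, fun v hv x hx y hy hc => ?_⟩
  · rcases hv.2.lt_or_eq with h1 | h1
    · exact (unlinked_lt hR hs.2 hA hL hlk h1).disj v ⟨hv.1, le_rfl⟩ k hkA hkL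
    · subst h1
      exact disj hkA le_rfl hkL
  · rcases hv.2.lt_or_eq with h1 | h1
    · exact (unlinked_lt hR hs.2 hA hL hlk h1).far v ⟨hv.1, le_rfl⟩ x hx y hy hc
    · subst h1
      by_cases hxc : x ∈ F.CIA a P₀ PA v
      · exact hlk ⟨v, hss, Or.inr ⟨x, y, hxc, fun k hk => cfl (hy k hk), hc⟩⟩
      · simp only [CIA, mem_ofPred_eq, not_forall] at hxc
        obtain ⟨k, rfl, hk⟩ := hxc
        have hkA : k ∈ F.FA v := hx k rfl
        have hkL : k ∉ F.FL v := disj hkA le_rfl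
        have e1 : F.z₀ v k = F.zA v (F.eA k) := agreeA_closed hd hs0 hlk hss
          fun w hw hkw => hk ((cfa_of_fa hR hs.2 hA hw hkw).mono hw.le)
        have e2 : F.z₀ v k = F.zL v (F.eL k) := agreeL_closed hd hs0 hlk hss
          fun w hw hkw => hkL (Fut.mono hkw hw.le)
        have hcL : F.CL v (F.eL k) y := hX.cohXL v hs0 k y (e1.symm.trans e2) hc
        apply hkL
        by_cases hyr : y ∈ range F.eL
        · obtain ⟨l, rfl⟩ := hyr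
          exact .chain₂ (hy l rfl) (hd.pL.symm₁ _ _ _ hcL) le_rfl
        · exact .new₂ y hyr (hd.pL.symm₁ _ _ _ hcL) hs0.1 le_rfl

/-- **World consistency (W1), closed end, clean links.** If neither `A` nor `L` has touched `Z`
before `s` and there is no clean link up to and including `s`, then `L` touches `Z` at `s` iff `L`
touches `Z+A` at `s`. -/
theorem touched_iff_closed (hd : F.Dyn T) (hX : F.CohX T) (hR : F.Rules a T P₀ PA PL P)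
    (ha : 0 ≤ a) {s : ℝ} (hs : s ∈ Icc a T) (hA : F.UntA a P₀ PA s) (hL : F.UntL a P₀ PL s)
    (hlk : ¬ F.Link a P₀ PA PL s) :
    Touched F.C₀ F.z₀ F.CL F.zL id F.eL P₀ PL s ↔ Touched F.CA F.zA F.C F.z id F.fA PA P s := by
  by_cases hH : Hit F.C₀ F.z₀ F.CL F.zL id F.eL a P₀ PL s
  · exact ⟨fun _ => touched_of_hit hd hR ha hs hA hL hlk hH,
      fun _ => hH.touched hR.r₀ hR.rL ha hs⟩
  · exact touched_iff (hd.mono hs.2) (unlinked_of_not_hit hd hX hR ha hs hA hL hlk hH) ha hs.1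
      (hR.st.mono hs.2)

/-- **W1 for touch times.** Let `m = min (θ(Z,L)) (θ(Z+A,L))`. If `m ≤ θ(Z,A)` and there is no clean
link up to and including `m`, then `θ(Z,L) = θ(Z+A,L)`. -/
theorem theta_eq (hd : F.Dyn T) (hX : F.CohX T) (hR : F.Rules a T P₀ PA PL P)
    (ha : 0 ≤ a) (haT : a ≤ T)
    (hm : min (theta F.C₀ F.z₀ F.CL F.zL id F.eL a T P₀ PL)
      (theta F.CA F.zA F.C F.z id F.fA a T PA P) ≤
      theta F.C₀ F.z₀ F.CA F.zA id F.eA a T P₀ PA)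
    (hlk : ¬ F.Link a P₀ PA PL (min (theta F.C₀ F.z₀ F.CL F.zL id F.eL a T P₀ PL)
      (theta F.CA F.zA F.C F.z id F.fA a T PA P))) :
    theta F.C₀ F.z₀ F.CL F.zL id F.eL a T P₀ PL =
      theta F.CA F.zA F.C F.z id F.fA a T PA P := by
  set θL := theta F.C₀ F.z₀ F.CL F.zL id F.eL a T P₀ PL with hθL
  set θAL := theta F.CA F.zA F.C F.z id F.fA a T PA P with hθAL
  set θA := theta F.C₀ F.z₀ F.CA F.zA id F.eA a T P₀ PA with hθA
  have key : ∀ m, a ≤ m → m ≤ T → m ≤ θA → m ≤ θL → ¬ F.Link a P₀ PA PL m →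
      (θL ≤ m ↔ θAL ≤ m) := by
    intro m ham hmT hmA hmL hlk
    rw [hθL, hθAL, ← touched_iff_theta_le hd.p₀L ha hR.r₀ hR.rL ⟨ham, hmT⟩,
      ← touched_iff_theta_le hd.pA ha hR.rA hR.r ⟨ham, hmT⟩]
    exact touched_iff_closed hd hX hR ha ⟨ham, hmT⟩
      (untouched_of_le_theta hd.p₀A ha hR.r₀ hR.rA hmT hmA)
      (untouched_of_le_theta hd.p₀L ha hR.r₀ hR.rL hmT hmL) hlk
  have dich : ∀ {θ : ℝ}, (θ = θL ∨ θ = θAL) → θ ≤ T ∨ θ = T + 1 := by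
    intro θ h
    classical
    rcases h with rfl | rfl
    · rw [hθL]
      unfold theta
      split_ifs with hex
      · left
        obtain ⟨s₁, hs₁, hs₁'⟩ := hex
        exact (csInf_le ⟨a, fun s hs => hs.1.1⟩ (show s₁ ∈ {s | s ∈ Icc a T ∧
          Touched F.C₀ F.z₀ F.CL F.zL id F.eL P₀ PL s} from ⟨hs₁, hs₁'⟩)).trans hs₁.2
      · exact Or.inr rfl
    · rw [hθAL]
      unfold theta
      split_ifs with hex
      · left
        obtain ⟨s₁, hs₁, hs₁'⟩ := hex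
        exact (csInf_le ⟨a, fun s hs => hs.1.1⟩ (show s₁ ∈ {s | s ∈ Icc a T ∧
          Touched F.CA F.zA F.C F.z id F.fA PA P s} from ⟨hs₁, hs₁'⟩)).trans hs₁.2
      · exact Or.inr rfl
  have haL : a ≤ θL := le_theta haT
  have haAL : a ≤ θAL := le_theta haT
  have hL1 : θL ≤ T + 1 := theta_le
  have hAL1 : θAL ≤ T + 1 := theta_le
  rcases le_total θL θAL with h | h
  · rw [min_eq_left h] at hm hlk
    rcases dich (θ := θL) (Or.inl rfl) with h1 | h1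
    · exact le_antisymm h ((key θL haL h1 hm le_rfl hlk).1 le_rfl)
    · exact le_antisymm h (by rw [h1]; exact hAL1)
  · rw [min_eq_right h] at hm hlk
    rcases dich (θ := θAL) (Or.inr rfl) with h1 | h1
    · exact le_antisymm ((key θAL haAL h1 hm h hlk).2 le_rfl) h
    · exact le_antisymm (by rw [h1]; exact hL1) h

/-- The same conclusion, hypotheses as in (S1)-(S3). -/
theorem S1 (hd : F.Dyn T) (hX : F.CohX T) (hR : F.Rules a T P₀ PA PL P)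
    (ha : 0 ≤ a) (haT : a ≤ T) {s : ℝ}
    (hsA : s ≤ theta F.C₀ F.z₀ F.CA F.zA id F.eA a T P₀ PA)
    (hsL : s ≤ theta F.C₀ F.z₀ F.CL F.zL id F.eL a T P₀ PL)
    (hlk : ¬ F.Link a P₀ PA PL (min (theta F.C₀ F.z₀ F.CL F.zL id F.eL a T P₀ PL)
      (theta F.CA F.zA F.C F.z id F.fA a T PA P))) :
    s ≤ theta F.CA F.zA F.C F.z id F.fA a T PA P := by
  by_contra hlt
  push Not at hlt
  have := theta_eq hd hX hR ha haT
    (((min_le_right _ _).trans hlt.le).trans hsA) hlk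
  rw [← this] at hlt
  exact absurd hsL (not_le.2 hlt)


theorem S3 (hd : F.Dyn T) (hX : F.CohX T) (hR : F.Rules a T P₀ PA PL P)
    (ha : 0 ≤ a) (haT : a ≤ T)
    (h : theta F.CA F.zA F.C F.z id F.fA a T PA P ≤
      theta F.C₀ F.z₀ F.CA F.zA id F.eA a T P₀ PA)
    (hlk : ¬ F.Link a P₀ PA PL (min (theta F.C₀ F.z₀ F.CL F.zL id F.eL a T P₀ PL)
      (theta F.CA F.zA F.C F.z id F.fA a T PA P))) :
    theta F.C₀ F.z₀ F.CL F.zL id F.eL a T P₀ PL ≤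
      theta F.CA F.zA F.C F.z id F.fA a T PA P :=
  (theta_eq hd hX hR ha haT ((min_le_right _ _).trans h) hlk).le

end Four

end Crest.Agent.R122.CausalGen291
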