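import Crest.Agent.R122.InEq2World_311
import Crest.Agent.R122.EBasic_602
import Crest.Agent.R122.EquivE_416
import Crest.Agent.R122.Decomp3E_811
import Crest.Agent.R122.EW1_879
import Crest.Agent.R122.UnwE_410
import Crest.Agent.R122.EFam_879
import Crest.Agent.R122.RtGKey_302

-- ▼ part R122/InEq2TWorld_335
section

/-!
# Row 122, INEQUALITY 2', touched half (helper335): the cluster `V` as an inserted world

* `appE` : `Fin m ⊕ Fin k ≃ Fin (k + m)`; `cfg_append` : the gas `V ∪ w` is `cfg w + cfg V` relabelled.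
* `tchV_iff` : `TchV` of helper311 is `Touched` of `EDefs_602` for `Z = cfg w`, `A = cfg V`.
* `thV` : touch time of `V`; `wm_append_le` : comparison of the weights.
-/

set_option autoImplicit false

open MeasureTheory Set Filter Topology
open scoped ENNReal
open Crest.AnalysisR.Kinetic
open Crest.Agent.R122.Flow671 Crest.Agent.R122.Causal291
open Crest.Agent.R122.Inf879 Crest.Agent.R122.GC311 Crest.Agent.R122.EDefs602
open Crest.Agent.R122.EquivE416 Crest.Agent.R122.InEq2 Crest.Agent.R122.Loc45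
open Crest.Agent.R122.EBasic602 Crest.Agent.R122.Decomp811 Crest.Agent.R122.Weight984

namespace Crest.Agent.R122.InEq2T

noncomputable section

open scoped Classical

variable {Φ : Space3 → ℝ} {ε : ℝ} {K : ℕ} {P : EPar} {k m : ℕ}

/-- `w` first, then `V`. -/
def appE (k m : ℕ) : Fin m ⊕ Fin k ≃ Fin (k + m) := (Equiv.sumComm _ _).trans finSumFinEquiv

@[simp] theorem appE_inl (i : Fin m) : appE k m (Sum.inl i) = Fin.natAdd k i := rfl
@[simp] theorem appE_inr (j : Fin k) : appE k m (Sum.inr j) = Fin.castAdd m j := rfl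

/-- The gas `V ∪ w` is `cfg w + cfg V` relabelled. -/
theorem cfg_append (V : Config k) (w : Config m) :
    (MW.cfg (Fin.append V w : Config (k + m))).comap (appE k m) =
      (MW.cfg w).add (MW.cfg V) := by
  unfold MW.comap MW.add MW.cfg
  congr 1
  · funext x; rcases x with x | x <;> rfl
  · funext x
    rcases x with x | x
    · exact Fin.append_right V w x
    · exact Fin.append_left V w x
  · funext x; rcases x with x | x <;> rfl

theorem path_append (hΦ : AdmissiblePotential Φ) (hε : 0 < ε) (V : Config k) (w : Config m)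
    (t : ℝ) (x : Fin m ⊕ Fin k) :
    ((MW.cfg w).add (MW.cfg V)).path Φ ε t x =
      pth Φ ε (Fin.append V w : Config (k + m)) t (appE k m x) := by
  rw [← cfg_append, path_comap hΦ hε]
  exact congrFun (congrFun (cfg_path hΦ hε (Fin.append V w : Config (k + m))) t) _

/-- Contacts of `cfg w + cfg V` are the contacts of the gas `V ∪ w`. -/
theorem C_append (hΦ : AdmissiblePotential Φ) (hε : 0 < ε) {V : Config k} {w : Config m}
    (hVw : (Fin.append V w : Config (k + m)) ∈ PairExcluded ε (k + m)) {s : ℝ} (hs : 0 ≤ s)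
    (x y : Fin m ⊕ Fin k) : ((MW.cfg w).add (MW.cfg V)).C Φ ε s x y ↔
      Ct (pth Φ ε (Fin.append V w : Config (k + m))) ε s (appE k m x) (appE k m y) := by
  rw [← cfg_append, C_comap hΦ hε]
  exact cfg_C_iff hΦ hε hVw hs _ _

/-- Infection in `cfg w + cfg V` is the infection in the gas `V ∪ w`. -/
theorem inf_append (hΦ : AdmissiblePotential Φ) (hε : 0 < ε) {V : Config k} {w : Config m}
    (hVw : (Fin.append V w : Config (k + m)) ∈ PairExcluded ε (k + m)) (s : ℝ)
    (x : Fin m ⊕ Fin k) : ((MW.cfg w).add (MW.cfg V)).Inf Φ ε K s x ↔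
      GInf Φ ε K (Fin.append V w : Config (k + m)) s (appE k m x) := by
  rw [← cfg_append, inf_comap hΦ hε, gInf_iff]
  exact cfg_inf_iff_size hΦ hε hVw s _

theorem inf_gas (hΦ : AdmissiblePotential Φ) (hε : 0 < ε) {w : Config m}
    (hw : w ∈ PairExcluded ε m) (s : ℝ) (i : Fin m) :
    (MW.cfg w).Inf Φ ε K s i ↔ GInf Φ ε K w s i := by
  rw [gInf_iff]
  exact cfg_inf_iff_size hΦ hε hw s i

theorem not_mem_range_natAdd {j : Fin (k + m)} (h : j ∉ range (Fin.natAdd k : Fin m → Fin (k + m))) :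
    ∃ i : Fin k, j = Fin.castAdd m i := by
  induction j using Fin.addCases with
  | left i => exact ⟨i, rfl⟩
  | right l => exact absurd ⟨l, rfl⟩ h

/-- The influence of `V` on the gas `w`. -/
theorem fut_iff (hΦ : AdmissiblePotential Φ) (hε : 0 < ε) {V : Config k} {w : Config m}
    (hw : w ∈ PairExcluded ε m)
    (hVw : (Fin.append V w : Config (k + m)) ∈ PairExcluded ε (k + m)) {s : ℝ} {i : Fin m} :
    Causal291.Fut (pth Φ ε w) (pth Φ ε (Fin.append V w : Config (k + m))) id (Fin.natAdd k) ε s i ↔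
      (MW.cfg w).Fut Φ ε (MW.cfg V) s i := by
  have hp0 : ∀ i, (MW.cfg w).path Φ ε 0 i = pth Φ ε w 0 i := fun i => by rw [cfg_path hΦ hε]
  have hp1 : ∀ i : Fin m, ((MW.cfg w).add (MW.cfg V)).path Φ ε 0 (Sum.inl i) =
      pth Φ ε (Fin.append V w : Config (k + m)) 0 (Fin.natAdd k i) := fun i =>
    path_append hΦ hε V w 0 (Sum.inl i)
  constructor
  · intro h
    unfold MW.Fut
    induction h with
    | @init s i h hs =>
      refine .init ?_ hs
      show (MW.cfg w).path Φ ε 0 i ≠ ((MW.cfg w).add (MW.cfg V)).path Φ ε 0 (Sum.inl i)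
      rw [hp0, hp1]; exact h
    | new₁ j hj => exact absurd ⟨j, rfl⟩ hj
    | @new₂ s s' i j hj hc h0 hs =>
      obtain ⟨x, rfl⟩ := not_mem_range_natAdd hj
      exact .new₂ (Sum.inr x) (by rintro ⟨y, hy⟩; cases hy)
        ((C_append hΦ hε hVw h0 (Sum.inr x) (Sum.inl i)).2 hc) h0 hs
    | @chain₁ s s' i l h hc hs ih =>
      exact .chain₁ ih ((cfg_C_iff hΦ hε hw h.nonneg l i).2 hc) hs
    | @chain₂ s s' i l h hc hs ih =>
      exact .chain₂ ih ((C_append hΦ hε hVw h.nonneg (Sum.inl l) (Sum.inl i)).2 hc) hs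
  · intro h
    unfold MW.Fut at h
    induction h with
    | @init s i h hs =>
      refine .init ?_ hs
      have h' : (MW.cfg w).path Φ ε 0 i ≠ ((MW.cfg w).add (MW.cfg V)).path Φ ε 0 (Sum.inl i) := h
      rw [hp0, hp1] at h'; exact h'
    | new₁ j hj => exact absurd ⟨j, rfl⟩ hj
    | @new₂ s s' i j hj hc h0 hs =>
      rcases j with j | x
      · exact absurd ⟨j, rfl⟩ hj
      · refine .new₂ (Fin.castAdd m x) ?_ ((C_append hΦ hε hVw h0 (Sum.inr x) (Sum.inl i)).1 hc) h0 hs
        rintro ⟨l, hl⟩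
        have := congrArg Fin.val hl
        simp only [Fin.val_natAdd, Fin.val_castAdd] at this
        omega
    | @chain₁ s s' i l h hc hs ih =>
      exact .chain₁ ih ((cfg_C_iff hΦ hε hw h.nonneg l i).1 hc) hs
    | @chain₂ s s' i l h hc hs ih =>
      exact .chain₂ ih ((C_append hΦ hε hVw h.nonneg (Sum.inl l) (Sum.inl i)).1 hc) hs

/-- **`TchV` is the touch event of `EDefs_602`.** -/
theorem tchV_iff (hΦ : AdmissiblePotential Φ) (hε : 0 < ε) {V : Config k} {w : Config m}
    (hw : w ∈ PairExcluded ε m)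
    (hVw : (Fin.append V w : Config (k + m)) ∈ PairExcluded ε (k + m)) (s : ℝ) :
    TchV Φ ε K V w s ↔ (MW.cfg w).Touched Φ ε K (MW.cfg V) s := by
  constructor
  · rintro (⟨l, hl, h⟩ | ⟨j, hj, h⟩)
    · refine Or.inl ⟨l, (fut_iff hΦ hε hw hVw).1 hl, ?_⟩
      rcases h with h | h
      · exact Or.inl ((inf_gas hΦ hε hw s l).2 h)
      · exact Or.inr ((inf_append hΦ hε hVw s (Sum.inl l)).2 h)
    · obtain ⟨x, rfl⟩ := not_mem_range_natAdd hj
      exact Or.inr (Or.inr ⟨Sum.inr x, (by rintro ⟨y, hy⟩; cases hy),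
        (inf_append hΦ hε hVw s (Sum.inr x)).2 h⟩)
  · rintro (⟨l, hl, h⟩ | ⟨j, hj, h⟩ | ⟨j, hj, h⟩)
    · refine Or.inl ⟨l, (fut_iff hΦ hε hw hVw).2 hl, ?_⟩
      rcases h with h | h
      · exact Or.inl ((inf_gas hΦ hε hw s l).1 h)
      · exact Or.inr ((inf_append hΦ hε hVw s (Sum.inl l)).1 h)
    · exact absurd ⟨j, rfl⟩ hj
    · rcases j with j | x
      · exact absurd ⟨j, rfl⟩ hj
      · refine Or.inr ⟨Fin.castAdd m x, ?_, (inf_append hΦ hε hVw s (Sum.inr x)).1 h⟩
        rintro ⟨l, hl⟩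
        have := congrArg Fin.val hl
        simp only [Fin.val_natAdd, Fin.val_castAdd] at this
        omega

/-! ### Good worlds -/

theorem add_ok (hΦ : AdmissiblePotential Φ) (hε : 0 < ε) {V : Config k} {w : Config m}
    (hVw : (Fin.append V w : Config (k + m)) ∈ PairExcluded ε (k + m)) :
    ((MW.cfg w).add (MW.cfg V)).Ok Φ ε := by
  rw [← cfg_append]
  exact (Unw410.cfg_ok hΦ hε hVw).comap hΦ hε _

/-- Touch time of the cluster `V` in the gas `w`, horizon `T`. -/
def thV (Φ : Space3 → ℝ) (ε : ℝ) (K : ℕ) (T : ℝ) (V : Config k) (w : Config m) : ℝ :=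
  (MW.cfg w).theta Φ ε K T (MW.cfg V)

theorem tchV_iff_thV (hΦ : AdmissiblePotential Φ) (hε : 0 < ε) {V : Config k} {w : Config m}
    (hw : w ∈ PairExcluded ε m)
    (hVw : (Fin.append V w : Config (k + m)) ∈ PairExcluded ε (k + m)) {s T : ℝ}
    (hs : s ∈ Icc 0 T) : TchV Φ ε K V w s ↔ thV Φ ε K T V w ≤ s := by
  rw [tchV_iff hΦ hε hw hVw]
  exact MW.touched_iff hΦ hε (Unw410.cfg_ok hΦ hε hw) (add_ok hΦ hε hVw) hs

theorem thV_le_of_tchV (hΦ : AdmissiblePotential Φ) (hε : 0 < ε) {V : Config k} {w : Config m}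
    (hw : w ∈ PairExcluded ε m)
    (hVw : (Fin.append V w : Config (k + m)) ∈ PairExcluded ε (k + m)) {s T : ℝ}
    (hs : s ∈ Icc 0 T) (h : TchV Φ ε K V w s) : thV Φ ε K T V w ≤ s :=
  (tchV_iff_thV hΦ hε hw hVw hs).1 h

theorem tchV_nonneg (hΦ : AdmissiblePotential Φ) (hε : 0 < ε) {V : Config k} {w : Config m} {s : ℝ}
    (h : TchV Φ ε K V w s) : 0 ≤ s := by
  rcases h with ⟨l, hl, _⟩ | ⟨j, _, h⟩
  · exact hl.nonneg
  · exact Infd.nonneg h

/-- Untouched before `σ ≤ T`. -/
theorem le_thV (hΦ : AdmissiblePotential Φ) (hε : 0 < ε) {V : Config k} {w : Config m}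
    (hw : w ∈ PairExcluded ε m)
    (hVw : (Fin.append V w : Config (k + m)) ∈ PairExcluded ε (k + m)) {σ T : ℝ}
    (hσ0 : 0 ≤ σ) (hσ : σ ≤ T) (h : ∀ s < σ, ¬ TchV Φ ε K V w s) : σ ≤ thV Φ ε K T V w := by
  by_contra hlt
  push Not at hlt
  have h0 : 0 ≤ thV Φ ε K T V w := MW.theta_nonneg (hσ0.trans hσ)
  exact h _ hlt ((tchV_iff_thV hΦ hε hw hVw ⟨h0, hlt.le.trans hσ⟩).2 le_rfl)

/-! ### Weights -/




end

end Crest.Agent.R122.InEq2T
end

-- ▼ part R122/InEq2TLine_335
section

/-!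
# Row 122, INEQUALITY 2', touched half (helper335): from the cluster to its exit lines

`ShadowS` : helper302's `Shadow` with strict isolation of the protected legs.  If, in the real world
`X` (structure + gas `w`), the gas `w` is touched by the structure at a time `s < v`, then the exit
lines born before `v`, inserted in `w`, have touched at time `s` (`ShadowS.touched_exits`).
No link condition is needed: the exit lines carry as marks (upper bounds of) the sizes of the own
backward clusters.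
-/

set_option autoImplicit false
set_option linter.unusedSectionVars false

open MeasureTheory Set Filter Topology
open Crest.AnalysisR.Kinetic
open Crest.Agent.R122.Flow671 Crest.Agent.R122.Causal291
open Crest.Agent.R122.Inf879 Crest.Agent.R122.GC311 Crest.Agent.R122.EDefs602
open Crest.Agent.R122.InEq2 Crest.Agent.R122.EBasic602 Crest.Agent.R122.MWAlg255
open Crest.Agent.R122.RtG302

namespace Crest.Agent.R122.InEq2T

noncomputable section

open scoped Classical

variable {κ' Ex κ : Type} [Fintype κ'] [Fintype Ex] [Fintype κ]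
variable {Φ : Space3 → ℝ} {ε v : ℝ} {G : Str κ' Ex} {m K : ℕ} {X : κ → PhasePoint} {e : κ' → κ}
  {g : Fin m → κ}

/-- `Shadow` with strict isolation and initial exclusion. -/
structure ShadowS (Φ : Space3 → ℝ) (ε : ℝ) (G : Str κ' Ex) (v : ℝ) (X : κ → PhasePoint)
    (e : κ' → κ) (g : Fin m → κ) : Prop extends Shadow Φ ε G v X e g where
  isoS : ∀ s ∈ Ico 0 v, ∀ x, s ≤ G.σ x → ∀ q, (∀ y, e y = q → G.σ y < s) →
    ε < dist (pth Φ ε X s (e x)).1 (pth Φ ε X s q).1
  excl : ∀ i j, i ≠ j → ε < dist (X i).1 (X j).1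

/-- The gas part. -/
def gasP (X : κ → PhasePoint) (g : Fin m → κ) : Config m := fun i => X (g i)

namespace ShadowS

variable (h : ShadowS Φ ε G v X e g)

include h

/-- Protected members are in contact with protected members only. -/
theorem sealed {r : ℝ} (hr : r ∈ Ico 0 v) {x : κ'} (hx : r ≤ G.σ x) {q : κ}
    (hc : Ct (pth Φ ε X) ε r (e x) q) : ∃ y, e y = q ∧ r ≤ G.σ y := by
  by_contra hno
  push Not at hno
  exact absurd hc (not_le.2 (h.isoS r hr x hx q hno))

theorem gas_mem : gasP X g ∈ PairExcluded ε m := by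
  intro i j hij
  exact h.excl _ _ (h.g_inj.ne hij)

/-- strictly visible at time `r` -/
def visS (_ : ShadowS Φ ε G v X e g) (r : ℝ) : Fin m ⊕ G.born v → Prop :=
  Sum.elim (fun _ => True) fun x => G.σ (G.j x) < r

theorem lab_inj : Function.Injective (G.lab v e g) := by
  rintro (a | a) (b | b) hab
  · exact congrArg Sum.inl (h.g_inj hab)
  · exact absurd hab.symm (h.disj _ _)
  · exact absurd hab (h.disj _ _)
  · exact congrArg Sum.inr (Subtype.ext (G.j_inj (h.e_inj hab)))

theorem path3 (hΦ : AdmissiblePotential Φ) (hε : 0 < ε) (hv0 : 0 ≤ v)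
    (hOk : (G.wL v (gasP X g)).Ok Φ ε) {r : ℝ} (hr : r ∈ Icc 0 v) {a : Fin m ⊕ G.born v}
    (ha : (G.wL v (gasP X g)).b a ≤ r) :
    (G.wL v (gasP X g)).path Φ ε r a = pth Φ ε X r (G.lab v e g a) := by
  rcases a with a | a
  · exact h.toShadow.path_eq hΦ hε hv0 hOk.bw hr a
  · refine h.toShadow.path_eq_exit hΦ hε hv0 hOk.bw hr a ?_
    rw [← G.birth]
    exact ha

/-- A contact of a strictly visible particle is a contact of the world with lines. -/
theorem real_c3 (hΦ : AdmissiblePotential Φ) (hε : 0 < ε) (hv0 : 0 ≤ v)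
    (hOk : (G.wL v (gasP X g)).Ok Φ ε) {r : ℝ} (hr : r ∈ Ico 0 v) {a : Fin m ⊕ G.born v}
    (ha : h.visS r a) {q : κ} (hc : Ct (pth Φ ε X) ε r (G.lab v e g a) q) :
    ∃ b, h.visS r b ∧ q = G.lab v e g b ∧ (G.wL v (gasP X g)).C Φ ε r a b := by
  have hba : (G.wL v (gasP X g)).b a ≤ r ∧ (0 < r → (G.wL v (gasP X g)).b a < r) := by
    rcases a with a | a
    · exact ⟨hr.1, fun h0 => h0⟩
    · have h1 : G.σ (G.j a) < r := ha
      have h2 : (G.ls a).1.1 < r := by rw [G.birth]; exact h1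
      exact ⟨h2.le, fun _ => h2⟩
  have hr' : r ∈ Icc 0 v := ⟨hr.1, hr.2.le⟩
  -- the partner
  obtain ⟨b, hb, rfl⟩ : ∃ b, h.visS r b ∧ q = G.lab v e g b := by
    rcases h.cover q with ⟨y, rfl⟩ | ⟨i, rfl⟩
    · have hy : G.σ y < r := by
        by_contra hno
        push Not at hno
        obtain ⟨y', hy', hy2⟩ := h.sealed hr hno hc.symm
        rcases a with a | a
        · exact h.disj y' a hy'
        · have : y' = G.j a := h.e_inj hy'
          subst this
          exact absurd ha (not_lt.2 hy2)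
      obtain ⟨x, rfl⟩ := h.exits y (hy.trans hr.2)
      exact ⟨Sum.inr ⟨x, Str.mem_born.2 (hy.trans hr.2)⟩, hy, rfl⟩
    · exact ⟨Sum.inl i, trivial, rfl⟩
  refine ⟨b, hb, rfl, ?_⟩
  have hbb : (G.wL v (gasP X g)).b b ≤ r := by
    rcases b with b | b
    · exact hr.1
    · have h1 : G.σ (G.j b) < r := hb
      have h2 : (G.ls b).1.1 < r := by rw [G.birth]; exact h1
      exact h2.le
  refine ⟨hba.1, hbb, ?_, ?_⟩
  · rcases hr.1.lt_or_eq with h0 | h0
    · exact Or.inr (Or.inl (hba.2 h0))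
    · left
      by_contra hab
      have h1 := h.excl _ _ (h.lab_inj.ne hab)
      subst h0
      have h2 : Ct (pth Φ ε X) ε 0 (G.lab v e g a) (G.lab v e g b) := hc
      unfold Ct at h2
      have h3 : pth Φ ε X 0 = X := flow_zero hΦ hε X
      rw [h3] at h2
      exact absurd h2 (not_le.2 h1)
  · rw [h.path3 hΦ hε hv0 hOk hr' hba.1, h.path3 hΦ hε hv0 hOk hr' hbb]
    exact hc

/-- The structure influences the gas only through its exit lines. -/
theorem fut_exits (hΦ : AdmissiblePotential Φ) (hε : 0 < ε) (hv0 : 0 ≤ v)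
    (hOk : (G.wL v (gasP X g)).Ok Φ ε) {s : ℝ} (hs : s < v) {i : Fin m}
    (hf : Causal291.Fut (pth Φ ε (gasP X g)) (pth Φ ε X) id g ε s i) :
    (MW.cfg (gasP X g)).Fut Φ ε (sub G.ls (G.born v)) s i := by
  revert hs
  induction hf with
  | @init s i h0 _ =>
    intro _
    refine absurd ?_ h0
    have h1 : pth Φ ε (gasP X g) 0 = gasP X g := flow_zero hΦ hε _
    have h2 : pth Φ ε X 0 = X := flow_zero hΦ hε X
    rw [h1, h2]
    rfl
  | new₁ j hj => exact absurd ⟨j, rfl⟩ hj
  | @new₂ s s' i j hj hc h0 hs' =>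
    intro hs
    have hr : s' ∈ Ico 0 v := ⟨h0, hs'.trans_lt hs⟩
    obtain ⟨b, hb, hq, hC⟩ := h.real_c3 hΦ hε hv0 hOk hr (a := Sum.inl i) trivial hc.symm
    rcases b with b | b
    · exact absurd ⟨b, hq.symm⟩ hj
    · exact .new₂ (Sum.inr b) (by rintro ⟨y, hy⟩; cases hy) (MW.C_symm _ hC) h0 hs'
  | @chain₁ s s' i l hl hc hs' ih =>
    intro hs
    exact .chain₁ (ih (hs'.trans_lt hs)) ((cfg_C_iff hΦ hε h.gas_mem hl.nonneg l i).2 hc) hs'
  | @chain₂ s s' i l hl hc hs' ih =>
    intro hs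
    have hr : s' ∈ Ico 0 v := ⟨hl.nonneg, hs'.trans_lt hs⟩
    obtain ⟨b, _, hq, hC⟩ := h.real_c3 hΦ hε hv0 hOk hr (a := Sum.inl l) trivial hc
    have hb : b = Sum.inl i := h.lab_inj hq.symm
    subst hb
    exact .chain₂ (ih (hs'.trans_lt hs)) hC hs'

/-- Explorations in the real world in terms of explorations in the world with exit lines. -/
theorem past_dec (hΦ : AdmissiblePotential Φ) (hε : 0 < ε) (hv0 : 0 ≤ v)
    (hOk : (G.wL v (gasP X g)).Ok Φ ε) {s : ℝ} (hs : s < v) {a : Fin m ⊕ G.born v}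
    (ha : h.visS s a) {r : ℝ} {q : κ} (hp : Past (Ct (pth Φ ε X) ε) s (G.lab v e g a) r q) :
    0 ≤ r → (∃ b, h.visS r b ∧ q = G.lab v e g b ∧ Past ((G.wL v (gasP X g)).C Φ ε) s a r b) ∨
      ∃ x : G.born v, r ≤ G.σ (G.j x) ∧
        Past ((G.wL v (gasP X g)).C Φ ε) s a (G.σ (G.j x)) (Sum.inr x) ∧
        Past (Ct (pth Φ ε X) ε) (G.σ (G.j x)) (e (G.j x)) r q := by
  induction hp with
  | @root r hr =>
    intro _
    rcases a with a | a
    · exact Or.inl ⟨Sum.inl a, trivial, rfl, .root hr⟩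
    · rcases lt_or_ge (G.σ (G.j a)) r with h1 | h1
      · exact Or.inl ⟨Sum.inr a, h1, rfl, .root hr⟩
      · have h2 : G.σ (G.j a) < s := ha
        exact Or.inr ⟨a, h1, .root h2.le, .root h1⟩
  | @step r s' q q' hq hc hr ih =>
    intro hr0
    have hs'0 : 0 ≤ s' := hr0.trans hr
    have hs's : s' ≤ s := hq.le
    rcases ih hs'0 with ⟨b, hb, rfl, hb'⟩ | ⟨x, hx, hx1, hx2⟩
    · obtain ⟨b', hb1, rfl, hC⟩ := h.real_c3 hΦ hε hv0 hOk ⟨hs'0, hs's.trans_lt hs⟩ hb hc
      rcases b' with b' | b'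
      · exact Or.inl ⟨Sum.inl b', trivial, rfl, .step hb' hC hr⟩
      · have hlt : G.σ (G.j b') < s' := hb1
        rcases lt_or_ge (G.σ (G.j b')) r with h1 | h1
        · exact Or.inl ⟨Sum.inr b', h1, rfl, .step hb' hC hr⟩
        · exact Or.inr ⟨b', h1, .step hb' hC hlt.le, .root h1⟩
    · exact Or.inr ⟨x, hr.trans hx, hx1, .step hx2 hc hr⟩

/-- **The real size is at most the marked size in the world with exit lines.** -/
theorem size_le (hΦ : AdmissiblePotential Φ) (hε : 0 < ε) (hv0 : 0 ≤ v)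
    (hOk : (G.wL v (gasP X g)).Ok Φ ε)
    (hmk : ∀ x ∈ G.born v, (BC (Ct (pth Φ ε X) ε) (G.σ (G.j x)) (e (G.j x))).ncard ≤ (G.ls x).2)
    {s : ℝ} (hs : s < v) {a : Fin m ⊕ G.born v} (ha : h.visS s a) :
    (BC (Ct (pth Φ ε X) ε) s (G.lab v e g a)).ncard ≤
      msize ((G.wL v (gasP X g)).C Φ ε) (G.wL v (gasP X g)).m s a := by
  set C3 := (G.wL v (gasP X g)).C Φ ε with hC3
  let own : Fin m ⊕ G.born v → Set κ :=
    Sum.elim (fun i => {g i}) fun x => BC (Ct (pth Φ ε X) ε) (G.σ (G.j x)) (e (G.j x))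
  have hsub : (BC (Ct (pth Φ ε X) ε) s (G.lab v e g a)).toFinset ⊆
      (Finset.univ.filter fun b => b ∈ BC C3 s a).biUnion fun b => (own b).toFinset := by
    intro q hq
    rw [Set.mem_toFinset] at hq
    rw [Finset.mem_biUnion]
    rcases h.past_dec hΦ hε hv0 hOk hs ha hq le_rfl with ⟨b, hb, rfl, hb'⟩ | ⟨x, hx, hx1, hx2⟩
    · rcases b with b | b
      · exact ⟨Sum.inl b, Finset.mem_filter.2 ⟨Finset.mem_univ _, hb'⟩, by
          rw [Set.mem_toFinset]; exact mem_singleton _⟩
      · exact absurd hb (not_lt.2 (G.nonneg _))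
    · exact ⟨Sum.inr x, Finset.mem_filter.2 ⟨Finset.mem_univ _, hx1.mono (G.nonneg _)⟩, by
        rw [Set.mem_toFinset]; exact hx2⟩
  have hown : ∀ b, (own b).toFinset.card ≤ (G.wL v (gasP X g)).m b := by
    rintro (b | b)
    · rw [← Set.ncard_eq_toFinset_card']
      exact (Set.ncard_singleton (g b)).le
    · have h1 := hmk b b.2
      rw [Set.ncard_eq_toFinset_card'] at h1
      exact h1
  rw [Set.ncard_eq_toFinset_card']
  calc (BC (Ct (pth Φ ε X) ε) s (G.lab v e g a)).toFinset.card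
      ≤ ((Finset.univ.filter fun b => b ∈ BC C3 s a).biUnion fun b => (own b).toFinset).card :=
        Finset.card_le_card hsub
    _ ≤ ∑ b ∈ Finset.univ.filter fun b => b ∈ BC C3 s a, (own b).toFinset.card :=
        Finset.card_biUnion_le
    _ ≤ ∑ b ∈ Finset.univ.filter fun b => b ∈ BC C3 s a, (G.wL v (gasP X g)).m b :=
        Finset.sum_le_sum fun b _ => hown b
    _ = msize C3 (G.wL v (gasP X g)).m s a := by
        unfold msize
        rw [Finset.sum_filter]

/-- The own past of a protected member consists of members. -/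
theorem past_prot {s : ℝ} (hs : s < v) {x : κ'} (hx : s ≤ G.σ x) {r : ℝ} {q : κ}
    (hp : Past (Ct (pth Φ ε X) ε) s (e x) r q) : 0 ≤ r → ∃ y, e y = q ∧ r ≤ G.σ y := by
  induction hp with
  | @root r hr => exact fun _ => ⟨x, rfl, hr.trans hx⟩
  | @step r s' q q' hq hc hr ih =>
    intro h0
    obtain ⟨y, rfl, hy⟩ := ih (h0.trans hr)
    obtain ⟨y', hy', hy2⟩ := h.sealed ⟨h0.trans hr, hq.le.trans_lt hs⟩ hy hc
    exact ⟨y', hy', hr.trans hy2⟩

/-- **A touch by the structure is a touch by its exit lines.** -/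
theorem touched_exits (hΦ : AdmissiblePotential Φ) (hε : 0 < ε) (hv0 : 0 ≤ v)
    (hOk : (G.wL v (gasP X g)).Ok Φ ε)
    (hmk : ∀ x ∈ G.born v, (BC (Ct (pth Φ ε X) ε) (G.σ (G.j x)) (e (G.j x))).ncard ≤ (G.ls x).2)
    (hK : Fintype.card κ' ≤ K) {s : ℝ} (hs : s < v)
    (ht : Causal291.Touched (pth Φ ε (gasP X g)) (pth Φ ε X) g ε
      (fun s l => K < (BC (Ct (pth Φ ε (gasP X g)) ε) s l).ncard)
      (fun s j => K < (BC (Ct (pth Φ ε X) ε) s j).ncard) s) :
    (MW.cfg (gasP X g)).Touched Φ ε K (sub G.ls (G.born v)) s := by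
  rcases ht with ⟨l, hl, hP⟩ | ⟨j, hj, hP⟩
  · refine Or.inl ⟨l, h.fut_exits hΦ hε hv0 hOk hs hl, ?_⟩
    rcases hP with hP | hP
    · left
      show (MW.cfg (gasP X g)).Inf Φ ε K s l
      rw [cfg_inf_iff_size hΦ hε h.gas_mem]
      exact hP
    · right
      have h1 := h.size_le hΦ hε hv0 hOk hmk hs (a := Sum.inl l) trivial
      exact lt_of_lt_of_le hP h1
  · rcases h.cover j with ⟨y, rfl⟩ | ⟨i, rfl⟩
    · rcases lt_or_ge (G.σ y) s with h1 | h1
      · obtain ⟨x, rfl⟩ := h.exits y (h1.trans hs)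
        have h2 := h.size_le hΦ hε hv0 hOk hmk hs
          (a := Sum.inr ⟨x, Str.mem_born.2 (h1.trans hs)⟩) h1
        exact Or.inr (Or.inr ⟨Sum.inr ⟨x, Str.mem_born.2 (h1.trans hs)⟩,
          (by rintro ⟨y, hy⟩; cases hy), lt_of_lt_of_le hP h2⟩)
      · exfalso
        have h2 : (BC (Ct (pth Φ ε X) ε) s (e y)).ncard ≤ Fintype.card κ' := by
          have h3 : BC (Ct (pth Φ ε X) ε) s (e y) ⊆ range e := by
            intro q hq
            obtain ⟨z, hz, _⟩ := h.past_prot hs h1 hq le_rfl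
            exact ⟨z, hz⟩
          refine (Set.ncard_le_ncard h3 (Set.toFinite _)).trans ?_
          rw [← Set.image_univ, Set.ncard_image_of_injective _ h.e_inj, Set.ncard_univ]
          exact le_of_eq Nat.card_eq_fintype_card
        omega
    · exact absurd ⟨i, rfl⟩ hj

end ShadowS

end

end Crest.Agent.R122.InEq2T
end

-- ▼ part R122/TreeOwn_335

/-!
# Own clusters of the exits of a tree (helper335)

`lastS P i` : the leaves under the last node of `i` (`mk P i` many).  Up to the release time of `i`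
the particles of `lastS P i` are in contact only with each other.
-/

set_option autoImplicit false
set_option linter.unusedSectionVars false

open MeasureTheory Set Filter Topology
open Crest.AnalysisR.Kinetic
open Crest.Agent.R122.Flow671 Crest.Agent.R122.Causal291
open Crest.Agent.R122.Inf879 Crest.Agent.R122.GC311 Crest.Agent.R122.EDefs602
open Crest.Agent.R122.Kin796 Crest.Agent.R122.Kin796.CTree Crest.Agent.R122.Tree674
open Crest.Agent.R122.PathFlow968 Crest.Agent.R122.TreeLines335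
open Crest.Agent.R122.RtG302

namespace Crest.Agent.R122.InEq2T

noncomputable section

open scoped Classical

/-- Leaves under the last node of `i`. -/
def lastS : ∀ P : CTree, Idx P → Finset (Idx P)
  | leaf => fun _ => Finset.univ
  | node l r => Sum.elim
      (fun i => if i = root l then Finset.univ else (lastS l i).map ⟨Sum.inl, Sum.inl_injective⟩)
      (fun i => if i = root r then Finset.univ else (lastS r i).map ⟨Sum.inr, Sum.inr_injective⟩)

theorem card_idx : ∀ P : CTree, Fintype.card (Idx P) = P.leaves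
  | leaf => rfl
  | node l r => by
      show Fintype.card (Idx l ⊕ Idx r) = l.leaves + r.leaves
      rw [Fintype.card_sum, card_idx l, card_idx r]

theorem card_lastS : ∀ (P : CTree) (i : Idx P), (lastS P i).card = mk P i
  | leaf, _ => rfl
  | node l r, Sum.inl i => by
      simp only [lastS, TreeLines335.mk, Sum.elim_inl]
      split_ifs
      · rw [Finset.card_univ, card_idx]
      · rw [Finset.card_map, card_lastS l i]
  | node l r, Sum.inr i => by
      simp only [lastS, TreeLines335.mk, Sum.elim_inr]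
      split_ifs
      · rw [Finset.card_univ, card_idx]
      · rw [Finset.card_map, card_lastS r i]

theorem mem_lastS : ∀ (P : CTree) (i : Idx P), i ∈ lastS P i
  | leaf, _ => Finset.mem_univ _
  | node l r, Sum.inl i => by
      simp only [lastS, Sum.elim_inl]
      split_ifs
      · exact Finset.mem_univ _
      · exact Finset.mem_map_of_mem _ (mem_lastS l i)
  | node l r, Sum.inr i => by
      simp only [lastS, Sum.elim_inr]
      split_ifs
      · exact Finset.mem_univ _
      · exact Finset.mem_map_of_mem _ (mem_lastS r i)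

/-- The set `lastS P i` is closed under the collision windows up to the release time of `i`. -/
theorem lastS_closed {Φ : Space3 → ℝ} {ε : ℝ} (hε : 0 ≤ ε) : ∀ {P : CTree} {T : ℝ} {v : Space3}
    {p : Par P}, Ord Φ ε P T v p → ∀ i y k s, y ∈ lastS P i → s ≤ TreeLines335.rel P p i →
    (InWindow Φ ε P v p y k s ∨ InWindow Φ ε P v p k y s) → k ∈ lastS P i
  | leaf, _, _, _, _, _, _, _, _, _, _, _ => Finset.mem_univ _
  | node l r, T, v, p, ho, Sum.inl i, y, k, s, hy, hs, hw => by
      by_cases hi : i = root l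
      · simp only [lastS, Sum.elim_inl, if_pos hi]
        exact Finset.mem_univ _
      simp only [lastS, Sum.elim_inl, if_neg hi, Finset.mem_map, Function.Embedding.coeFn_mk] at hy ⊢
      simp only [TreeLines335.rel, Sum.elim_inl, if_neg hi] at hs
      obtain ⟨y', hy', rfl⟩ := hy
      have hlt : TreeLines335.rel l p.2.1 i < Tree674.sin Φ ε v p.1 :=
        TreeLines335.rel_lt hε ho.2.1 ho.2.2.1 i
      rcases hw with hw | hw
      · rcases hw with ⟨_, _, h3, _⟩ | ⟨i', j', h1, rfl, h3⟩ | ⟨i', j', h1, _, _⟩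
        · exact absurd (h3.trans hs) (not_le.2 hlt)
        · have : y' = i' := Sum.inl_injective h1
          subst this
          exact ⟨j', lastS_closed hε ho.2.2.1 i y' j' s hy' hs (Or.inl h3), rfl⟩
        · cases h1
      · rcases hw with ⟨_, h2, _, _⟩ | ⟨i', j', rfl, h2, h3⟩ | ⟨i', j', _, h2, _⟩
        · cases h2
        · have : y' = j' := Sum.inl_injective h2
          subst this
          exact ⟨i', lastS_closed hε ho.2.2.1 i y' i' s hy' hs (Or.inr h3), rfl⟩
        · cases h2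
  | node l r, T, v, p, ho, Sum.inr i, y, k, s, hy, hs, hw => by
      by_cases hi : i = root r
      · simp only [lastS, Sum.elim_inr, if_pos hi]
        exact Finset.mem_univ _
      simp only [lastS, Sum.elim_inr, if_neg hi, Finset.mem_map, Function.Embedding.coeFn_mk] at hy ⊢
      simp only [TreeLines335.rel, Sum.elim_inr, if_neg hi] at hs
      obtain ⟨y', hy', rfl⟩ := hy
      have hlt : TreeLines335.rel r p.2.2 i < Tree674.sin Φ ε v p.1 :=
        TreeLines335.rel_lt hε ho.2.1 ho.2.2.2 i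
      rcases hw with hw | hw
      · rcases hw with ⟨h1, _, _, _⟩ | ⟨i', j', h1, _, _⟩ | ⟨i', j', h1, rfl, h3⟩
        · cases h1
        · cases h1
        · have : y' = i' := Sum.inr_injective h1
          subst this
          exact ⟨j', lastS_closed hε ho.2.2.2 i y' j' s hy' hs (Or.inl h3), rfl⟩
      · rcases hw with ⟨_, _, h3, _⟩ | ⟨i', j', _, h2, _⟩ | ⟨i', j', rfl, h2, h3⟩
        · exact absurd (h3.trans hs) (not_le.2 hlt)
        · cases h2
        · have : y' = j' := Sum.inr_injective h2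
          subst this
          exact ⟨i', lastS_closed hε ho.2.2.2 i y' i' s hy' hs (Or.inr h3), rfl⟩

section world

variable {κ : Type} [Fintype κ] {Φ : Space3 → ℝ} {ε T v : ℝ} {m : ℕ} {X : κ → PhasePoint}
  {P : CTree} {z : PhasePoint × Par P} {e : Idx P → κ} {g : Fin m → κ}

/-- The own past of an exit consists of the leaves under its last node. -/
theorem own_past (hΦ : AdmissiblePotential Φ) (hε : 0 < ε) (hT : 0 ≤ T)
    (hV : Valid Φ ε P T z.1.2 z.2) (hS : Sep Φ ε P T z.1 z.2) (hvT : v ≤ T)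
    (h : ShadowS Φ ε (treeStr Φ ε P T z hε hT hV) v X e g) {x : Idx P} (hx : x ≠ root P)
    (hxv : prot P T z.2 x < v) {r : ℝ} {q : κ}
    (hp : Past (Ct (pth Φ ε X) ε) (prot P T z.2 x) (e x) r q) :
    0 ≤ r → ∃ y ∈ lastS P x, e y = q ∧ r ≤ prot P T z.2 y := by
  induction hp with
  | @root r hr => exact fun _ => ⟨x, mem_lastS P x, rfl, hr⟩
  | @step r s' q q' hq hc hr ih =>
    intro h0
    have h0' : 0 ≤ s' := h0.trans hr
    obtain ⟨y, hy, rfl, hy2⟩ := ih h0'
    have hs'x : s' ≤ prot P T z.2 x := hq.le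
    have hs'v : s' < v := hs'x.trans_lt hxv
    obtain ⟨y', rfl, hy2'⟩ := h.sealed ⟨h0', hs'v⟩ (x := y) hy2 hc
    have hy2'' : s' ≤ prot P T z.2 y' := hy2'
    refine ⟨y', ?_, rfl, hr.trans hy2''⟩
    have hc' : Ct (path Φ ε P z.1 z.2) ε s' y y' := by
      unfold Ct
      have h1 : pth Φ ε X s' (e y) = path Φ ε P z.1 z.2 s' y := h.agree y s' h0' hs'v.le hy2
      have h2 : pth Φ ε X s' (e y') = path Φ ε P z.1 z.2 s' y' := h.agree y' s' h0' hs'v.le hy2'
      rw [← h1, ← h2]
      exact hc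
    rcases (ct_iff hΦ hε hV hS ⟨h0', (hs'v.le.trans hvT)⟩).1 hc' with h3 | h3
    · rw [← h3]; exact hy
    · refine lastS_closed hε.le hV.2 x y y' s' hy ?_ h3
      rw [rel_eq_prot P T z.2 x hx]
      exact hs'x

/-- The own cluster of an exit has at most `mk` members. -/
theorem own_card (hΦ : AdmissiblePotential Φ) (hε : 0 < ε) (hT : 0 ≤ T)
    (hV : Valid Φ ε P T z.1.2 z.2) (hS : Sep Φ ε P T z.1 z.2) (hvT : v ≤ T)
    (h : ShadowS Φ ε (treeStr Φ ε P T z hε hT hV) v X e g) {x : Idx P} (hx : x ≠ root P)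
    (hxv : prot P T z.2 x < v) :
    (BC (Ct (pth Φ ε X) ε) (prot P T z.2 x) (e x)).ncard ≤ mk P x := by
  have h1 : BC (Ct (pth Φ ε X) ε) (prot P T z.2 x) (e x) ⊆ e '' (lastS P x : Set (Idx P)) := by
    intro q hq
    obtain ⟨y, hy, hyq, _⟩ := own_past hΦ hε hT hV hS hvT h hx hxv hq le_rfl
    exact ⟨y, hy, hyq⟩
  refine (Set.ncard_le_ncard h1 (Set.toFinite _)).trans ?_
  rw [Set.ncard_image_of_injective _ h.e_inj, Set.ncard_coe_finset, card_lastS]

end world

end

end Crest.Agent.R122.InEq2T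
private theorem rz_0843b177ed : type_of% @_root_.Crest.Agent.R122.InEq2T.lastS.eq_def := @_root_.Crest.Agent.R122.InEq2T.lastS.eq_def -- L28
private theorem rz_99f7dcf21b : type_of% @_root_.Crest.Agent.R122.InEq2T.lastS.eq_1 := @_root_.Crest.Agent.R122.InEq2T.lastS.eq_1 -- L28
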