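import Crest.Agent.R122.OneMW_45
import Crest.Agent.R122.TreeOwn_335
import Crest.Agent.R122.NoDbl_255
import Crest.Agent.R122.E6Facts_879

-- ▼ part R122/RealL_811
section

/-!
# A closed family of a marked world is replaced by marked lines (row 122, E_FINAL (1.4)), helper811

`W` : real world, `W'` : the world on the same labels in which the particles of `D` are lines, born at
their exit times `W'.b`. Everything is up to a horizon `v` (closed).

* `RL Φ ε K W W' D v`: the data (closedness only up to `v`; lines born after `v` are arbitrary, but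
  clean).
* `RL.agree`, `RL.ct_iff`, `RL.lines`: visible particles have the same paths and contacts up to `v`.
* `RL.inf`: infected in `W` at `s ≤ v` implies infected in `W'`; `RL.inf_iff` with equal marks if no
  clean particle has two lines in its past.
* `touched_lines`, `touched_lines_iff`: the same for touches, for a pair of worlds.
-/

set_option autoImplicit false
set_option linter.unusedSectionVars false

open MeasureTheory Set Filter Topology
open scoped ENNReal
open Crest.AnalysisR.Kinetic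
open Crest.Agent.R122.Flow671 Crest.Agent.R122.Loc45 Crest.Agent.R122.Ins45
open Crest.Agent.R122.Causal291 Crest.Agent.R122.Inf879 Crest.Agent.R122.EDefs602
open Crest.Agent.R122.Lines255 Crest.Agent.R122.Repl302

namespace Crest.Agent.R122.RealL811

noncomputable section

open scoped Classical

/-! ### Truncation of contact relations -/

section trunc

variable {α : Type}

/-- Contacts at times `≤ v`. -/
def trC (v : ℝ) (C : ℝ → α → α → Prop) : ℝ → α → α → Prop := fun s j k => s ≤ v ∧ C s j k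

variable {C C₁ C₂ : ℝ → α → α → Prop} {v t s : ℝ} {i k : α}

theorem past_trC (ht : t ≤ v) : Past (trC v C) t i s k ↔ Past C t i s k := by
  constructor
  · exact fun h => h.mono_rel fun _ _ _ hc => hc.2
  · intro h
    induction h with
    | root h => exact .root h
    | step h hc hs ih => exact .step ih ⟨h.le.trans ht, hc⟩ hs

/-- An exploration which uses only contacts at times `≤ v` can be started at `v`. -/
theorem past_of_trC (h : Past (trC v C) t i s k) (hs : s ≤ v) : Past C v i s k := by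
  revert hs
  induction h with
  | root _ => exact fun hs => .root hs
  | step _ hc hs ih => exact fun _ => .step (ih hc.1) hc.2 hs

theorem msize_trC [Fintype α] {m : α → ℕ} (ht : t ≤ v) : msize (trC v C) m t i = msize C m t i := by
  unfold msize
  refine Finset.sum_congr rfl fun k _ => ?_
  have h1 : k ∈ BC (trC v C) t i ↔ k ∈ BC C t i := past_trC ht
  simp only [h1]

theorem infd_trC [Fintype α] {m : α → ℕ} {K : ℕ} (ht : t ≤ v) :
    Infd (trC v C) m K t i ↔ Infd C m K t i := by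
  unfold Infd
  rw [msize_trC ht]

variable {β γ : Type} {X : Type*} {B : ℝ → β → β → Prop} {z₁ : ℝ → α → X}
  {z₂ : ℝ → β → X} {e₁ : γ → α} {e₂ : γ → β} {x : γ}

theorem fut_trC (hs : s ≤ v) : CausalGen291.Fut (trC v C) z₁ (trC v B) z₂ e₁ e₂ s x ↔
    CausalGen291.Fut C z₁ B z₂ e₁ e₂ s x := by
  constructor
  · intro h
    clear hs
    induction h with
    | init h h0 => exact .init h h0
    | new₁ j hj hc h0 hs => exact .new₁ j hj hc.2 h0 hs
    | new₂ j hj hc h0 hs => exact .new₂ j hj hc.2 h0 hs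
    | chain₁ _ hc hs ih => exact .chain₁ ih hc.2 hs
    | chain₂ _ hc hs ih => exact .chain₂ ih hc.2 hs
  · intro h
    revert hs
    induction h with
    | init h h0 => exact fun _ => .init h h0
    | new₁ j hj hc h0 hs => exact fun hv => .new₁ j hj ⟨hs.trans hv, hc⟩ h0 hs
    | new₂ j hj hc h0 hs => exact fun hv => .new₂ j hj ⟨hs.trans hv, hc⟩ h0 hs
    | chain₁ _ hc hs ih => exact fun hv => .chain₁ (ih (hs.trans hv)) ⟨hs.trans hv, hc⟩ hs
    | chain₂ _ hc hs ih => exact fun hv => .chain₂ (ih (hs.trans hv)) ⟨hs.trans hv, hc⟩ hs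

end trunc

/-! ### One world -/

variable {α : Type} [Fintype α] {Φ : Space3 → ℝ} {ε v : ℝ} {K : ℕ} {W W' : MW α} {D : Set α}

/-- `W'` is the world `W` in which the closed family `D` has been replaced by its exit lines, up to
the horizon `v`. -/
structure RL (Φ : Space3 → ℝ) (ε : ℝ) (K : ℕ) (W W' : MW α) (D : Set α) (v : ℝ) : Prop where
  ok : W.Ok Φ ε
  ok' : W'.Ok Φ ε
  b0 : ∀ x, 0 ≤ W.b x
  le : ∀ x, W.b x ≤ W'.b x
  bD : ∀ x ∈ D, W.b x ≤ v
  off_b : ∀ x, x ∉ D → W'.b x = W.b x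
  off_z : ∀ x, x ∉ D → W'.z x = W.z x
  off_m : ∀ x, x ∉ D → W'.m x = W.m x
  /-- before its exit a member meets only members which have not exited -/
  closed : ∀ s j k, s ≤ v → j ∈ D → s ≤ W'.b j → W.C Φ ε s j k → k ∈ D ∧ s ≤ W'.b k
  /-- the lines of `W'` are the exit lines -/
  line : ∀ x ∈ D, W'.b x ≤ v → W'.z x = lineAt (W'.b x) (W.path Φ ε (W'.b x) x) 0
  mark : ∀ x ∈ D, W'.b x ≤ v → msize (W.C Φ ε) W.m (W'.b x) x ≤ W'.m x
  clean : ∀ x ∈ D, W'.m x ≤ K
  cleanD : ∀ x ∈ D, v < W'.b x → msize (W.C Φ ε) W.m v x ≤ K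

/-- The trivial replacement. -/
theorem RL.refl {Z : MW α} (hZ : Z.Ok Φ ε) (hb : ∀ x, 0 ≤ Z.b x) : RL Φ ε K Z Z ∅ v where
  ok := hZ
  ok' := hZ
  b0 := hb
  le _ := le_rfl
  bD _ h := absurd h (notMem_empty _)
  off_b _ _ := rfl
  off_z _ _ := rfl
  off_m _ _ := rfl
  closed _ _ _ _ h := absurd h (notMem_empty _)
  line _ h := absurd h (notMem_empty _)
  mark _ h := absurd h (notMem_empty _)
  clean _ h := absurd h (notMem_empty _)
  cleanD _ h := absurd h (notMem_empty _)

namespace RL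

variable (h : RL Φ ε K W W' D v) (hΦ : AdmissiblePotential Φ) (hε : 0 < ε)

/-- The exit times cut at the horizon. -/
def cutB (W W' : MW α) (D : Set α) (v : ℝ) (x : α) : ℝ := if x ∈ D then min (W'.b x) v else W.b x

theorem cutB_of_mem {x : α} (hx : x ∈ D) : cutB W W' D v x = min (W'.b x) v := if_pos hx

theorem cutB_of_not_mem {x : α} (hx : x ∉ D) : cutB W W' D v x = W.b x := if_neg hx

include h in
theorem le_cutB (x : α) : W.b x ≤ cutB W W' D v x := by
  by_cases hx : x ∈ D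
  · rw [cutB_of_mem hx]
    exact le_min (h.le x) (h.bD x hx)
  · rw [cutB_of_not_mem hx]

include h in
theorem cutB_le (x : α) : cutB W W' D v x ≤ W'.b x := by
  by_cases hx : x ∈ D
  · rw [cutB_of_mem hx]
    exact min_le_left _ _
  · rw [cutB_of_not_mem hx, h.off_b x hx]

include h in
theorem cutB_eq {x : α} (hx : x ∈ D → W'.b x ≤ v) : cutB W W' D v x = W'.b x := by
  by_cases hD : x ∈ D
  · rw [cutB_of_mem hD, min_eq_left (hx hD)]
  · rw [cutB_of_not_mem hD, h.off_b x hD]

include h in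
theorem closed_cut : Closed (W.C Φ ε) D (cutB W W' D v) := by
  intro s j k hj hs hc
  rw [cutB_of_mem hj] at hs
  have h1 : s ≤ v := hs.trans (min_le_right _ _)
  obtain ⟨h2, h3⟩ := h.closed s j k h1 hj (hs.trans (min_le_left _ _)) hc
  refine ⟨h2, ?_⟩
  rw [cutB_of_mem h2]
  exact le_min h3 h1

include h hΦ hε in
theorem bw_cut : BWorld Φ ε (cutB W W' D v) 0 (rebirthPath (cutB W W' D v) (W.path Φ ε)) :=
  bworld_of_closed hΦ hε h.ok.bw h.le_cutB (fun _ hi => cutB_of_not_mem hi) h.closed_cut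

include h in
theorem b0' (x : α) : 0 ≤ W'.b x := (h.b0 x).trans (h.le x)

include h hΦ hε in
/-- **Visible particles have the same paths up to the horizon.** -/
theorem agree {t : ℝ} (ht : 0 ≤ t) (htv : t ≤ v) {x : α} (hx : W'.b x ≤ t) :
    W'.path Φ ε t x = W.path Φ ε t x := by
  have key := BWorld.agree_own hΦ hε h.ok'.bw (h.bw_cut hΦ hε) (e := (id : α → α)) (f := id)
    Function.injective_id Function.injective_id (S := {x | x ∈ D → W'.b x ≤ v}) (A := ∅)
    (a := 0) (T := v) le_rfl le_rfl ?_ (fun _ h => absurd h (notMem_empty _)) ?_ ?_ ?_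
    x (fun _ => hx.trans htv) t ⟨ht, htv⟩
  · have h1 : W'.path Φ ε t x = rebirthPath (cutB W W' D v) (W.path Φ ε) t x := key
    rw [h1, rebirthPath_of_le ((h.cutB_le x).trans hx)]
  · intro m hm t _
    rcases hm with hm | hm
    · have hm' : m ∈ D → W'.b m ≤ v := hm
      simp only [id_eq]
      rw [h.cutB_eq hm']
    · exact absurd hm (notMem_empty _)
  · intro m hm
    have hm' : m ∈ D → W'.b m ≤ v := hm
    change W'.path Φ ε 0 m = rebirthPath (cutB W W' D v) (W.path Φ ε) 0 m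
    rw [MW.path_zero hΦ hε]
    by_cases hD : m ∈ D
    · have h1 : 0 ≤ cutB W W' D v m := (h.b0 m).trans (h.le_cutB m)
      rw [rebirthPath_of_ge h1, h.cutB_eq hm']
      exact h.line m hD (hm' hD)
    · rw [h.ok.bw.rebirth_eq hΦ hε (cutB_of_not_mem hD) le_rfl, MW.path_zero hΦ hε]
      exact h.off_z m hD
  · intro t ht m _ _ k hk hne
    exfalso
    refine hne k (Or.inl fun hkD => ?_) rfl
    have hk' : W'.b k ≤ t := hk
    exact hk'.trans ht.2.le
  · intro t ht m _ _ k hk hne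
    exfalso
    refine hne k (Or.inl fun hkD => ?_) rfl
    by_contra hlt
    push Not at hlt
    have hk' : cutB W W' D v k ≤ t := hk
    rw [cutB_of_mem hkD, min_eq_right hlt.le] at hk'
    exact absurd ht.2 (not_lt.2 hk')

include h hΦ hε in
theorem dist_eq {s : ℝ} (hs : s ≤ v) {j k : α} (hj : W'.b j ≤ s) (hk : W'.b k ≤ s) :
    dist (W'.path Φ ε s j).1 (W'.path Φ ε s k).1 = dist (W.path Φ ε s j).1 (W.path Φ ε s k).1 := by
  have h0 : 0 ≤ s := (h.b0' j).trans hj
  rw [h.agree hΦ hε h0 hs hj, h.agree hΦ hε h0 hs hk]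

include h hΦ hε in
theorem C_of_C' {s : ℝ} (hs : s ≤ v) {j k : α} (hc : W'.C Φ ε s j k) : W.C Φ ε s j k := by
  refine ⟨(h.le j).trans hc.1, (h.le k).trans hc.2.1, hc.2.2.1.imp id fun h' =>
    h'.imp (fun h' => (h.le j).trans_lt h') fun h' => (h.le k).trans_lt h', ?_⟩
  rw [← h.dist_eq hΦ hε hs hc.1 hc.2.1]
  exact hc.2.2.2

include h hΦ hε in
/-- **The contact relations are related as in `Lines255.Lines`.** -/
theorem lines : Lines (trC v (W.C Φ ε)) (trC v (W'.C Φ ε)) D W'.b where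
  of_strict s j k hc hj hk := by
    refine ⟨hc.1, ?_⟩
    have hj1 : W'.b j ≤ s := by
      by_cases hjD : j ∈ D
      · exact (hj hjD).le
      · rw [h.off_b j hjD]; exact hc.2.1
    have hk1 : W'.b k ≤ s := by
      by_cases hkD : k ∈ D
      · exact (hk hkD).le
      · rw [h.off_b k hkD]; exact hc.2.2.1
    refine ⟨hj1, hk1, ?_, ?_⟩
    · by_cases hjD : j ∈ D
      · exact Or.inr (Or.inl (hj hjD))
      by_cases hkD : k ∈ D
      · exact Or.inr (Or.inr (hk hkD))
      rw [h.off_b j hjD, h.off_b k hkD]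
      exact hc.2.2.2.1
    · rw [h.dist_eq hΦ hε hc.1 hj1 hk1]
      exact hc.2.2.2.2
  sub s j k hc := ⟨hc.1, h.C_of_C' hΦ hε hc.1 hc.2⟩
  left s j k hc _ := hc.2.1
  right s j k hc _ := hc.2.2.1

include h in
theorem closed_tr : Closed (trC v (W.C Φ ε)) D W'.b := fun s j k hj hs hc =>
  h.closed s j k hc.1 hj hs hc.2

include h in
theorem msize_exit_le (x : α) (hx : x ∈ D) :
    msize (trC v (W.C Φ ε)) W.m (W'.b x) x ≤ K := by
  rcases le_or_gt (W'.b x) v with h1 | h1
  · rw [msize_trC h1]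
    exact (h.mark x hx h1).trans (h.clean x hx)
  · refine le_trans ?_ (h.cleanD x hx h1)
    -- contacts after `v` are not counted
    refine msize_mono_of_subset fun k hk => ?_
    exact past_of_trC (t := W'.b x) hk ((h.b0 x).trans (h.bD x hx))

include h hΦ hε in
theorem repl : Repl (trC v (W.C Φ ε)) (trC v (W'.C Φ ε)) W.m D W'.b K where
  symm _ _ _ hc := ⟨hc.1, MW.C_symm _ hc.2⟩
  closed := h.closed_tr
  lines := h.lines hΦ hε
  pos j _ := h.b0' j
  clean j hj := h.msize_exit_le j hj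

include h in
/-- A line which is reached at a time `≤ s` has been born. -/
theorem born_of_mem_BC {s : ℝ} {x k : α} (hx : x ∈ D → W'.b x ≤ s)
    (hk : k ∈ BC (W'.C Φ ε) s x) (hkD : k ∈ D) : W'.b k ≤ s := by
  have hk' : Past (W'.C Φ ε) s x 0 k := hk
  rcases hk'.cases' with rfl | ⟨s', j, _, h2, _, h4⟩
  · exact hx hkD
  · exact h4.2.1.trans h2

include h hΦ hε in
theorem lmark_le {s : ℝ} (hs : s ≤ v) {k : α} (hk : k ∈ D → W'.b k ≤ s) :
    lmark (trC v (W.C Φ ε)) W.m D W'.b k ≤ W'.m k := by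
  by_cases hD : k ∈ D
  · rw [lmark_of_mem hD, msize_trC ((hk hD).trans hs)]
    exact h.mark k hD ((hk hD).trans hs)
  · rw [lmark_of_not_mem hD, h.off_m k hD]

include h hΦ hε in
/-- **Infected in the real world implies infected in the world with lines.** -/
theorem inf {s : ℝ} (hs : s ≤ v) {x : α} (hx : W.Inf Φ ε K s x) : W'.Inf Φ ε K s x := by
  have h1 : Infd (trC v (W.C Φ ε)) W.m K s x := (infd_trC hs).2 hx
  have h2 := (h.repl hΦ hε).infd_lines h1
  by_cases hv : x ∈ D → W'.b x ≤ s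
  · have h3 : msize (trC v (W'.C Φ ε)) (lmark (trC v (W.C Φ ε)) W.m D W'.b) s x ≤
        msize (W'.C Φ ε) W'.m s x := by
      rw [msize_trC hs]
      unfold msize
      refine Finset.sum_le_sum fun k _ => ?_
      by_cases hk : k ∈ BC (W'.C Φ ε) s x
      · rw [if_pos hk, if_pos hk]
        exact h.lmark_le hΦ hε hs fun hkD => h.born_of_mem_BC hv hk hkD
      · rw [if_neg hk]
        exact Nat.zero_le _
    exact lt_of_lt_of_le h2 h3
  · exfalso
    push Not at hv
    have h4 := msize_unborn (h.lines hΦ hε) hv.1 hv.2 (m' := lmark (trC v (W.C Φ ε)) W.m D W'.b)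
    rw [lmark_of_mem hv.1] at h4
    have h5 := h.msize_exit_le x hv.1
    have h6 : K < msize (trC v (W'.C Φ ε)) (lmark (trC v (W.C Φ ε)) W.m D W'.b) s x := h2
    omega

include h hΦ hε in
/-- **Infections are equal** if the marks are exact and no clean particle has two lines in its
past. -/
theorem inf_iff (hm : ∀ x ∈ D, W'.b x ≤ v → msize (W.C Φ ε) W.m (W'.b x) x = W'.m x) {s : ℝ}
    (hs : s ≤ v) {x : α} (hN : (x ∈ D → W'.b x ≤ s) → ¬ W.Inf Φ ε K s x →
      (BC (W'.C Φ ε) s x ∩ D).Subsingleton) : W.Inf Φ ε K s x ↔ W'.Inf Φ ε K s x := by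
  refine ⟨h.inf hΦ hε hs, fun hx => ?_⟩
  by_contra hno
  have hBC : BC (trC v (W'.C Φ ε)) s x = BC (W'.C Φ ε) s x := by
    ext k
    exact past_trC hs
  have h1 := (infd_iff_all (K := K) (i := x) (t := s) (m := W.m) h.closed_tr
    (h.repl hΦ hε).symm (h.lines hΦ hε) (fun j hj => h.b0' j) (fun j hj => h.msize_exit_le j hj)
    (fun hi hcl => by
      rw [hBC]
      exact hN hi fun hI => hcl ((infd_trC hs).2 hI))).not.1 (fun hI => hno ((infd_trC hs).1 hI))
  by_cases hv : x ∈ D → W'.b x ≤ s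
  · refine h1 (lt_of_lt_of_eq hx ?_)
    rw [msize_trC hs]
    unfold msize
    refine Finset.sum_congr rfl fun k _ => ?_
    by_cases hk : k ∈ BC (W'.C Φ ε) s x
    · rw [if_pos hk, if_pos hk]
      by_cases hD : k ∈ D
      · have h2 := h.born_of_mem_BC hv hk hD
        rw [lmark_of_mem hD, msize_trC (h2.trans hs), hm k hD (h2.trans hs)]
      · rw [lmark_of_not_mem hD, h.off_m k hD]
    · rw [if_neg hk, if_neg hk]
  · push Not at hv
    have h4 := msize_unborn (h.lines hΦ hε) hv.1 hv.2 (m' := W'.m)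
    rw [msize_trC hs] at h4
    have h5 := h.clean x hv.1
    have h6 : K < msize (W'.C Φ ε) W'.m s x := hx
    omega

end RL

/-! ### Touches of a pair of worlds -/

section pair

variable {α₁ α₂ κ : Type} [Fintype α₁] [Fintype α₂] {W₁ W₁' : MW α₁} {W₂ W₂' : MW α₂}
  {D₁ : Set α₁} {D₂ : Set α₂} {e₁ : κ → α₁} {e₂ : κ → α₂}

/-- **A touch of the real worlds is a touch of the worlds with lines.** -/
theorem touched_lines (hΦ : AdmissiblePotential Φ) (hε : 0 < ε) (h₁ : RL Φ ε K W₁ W₁' D₁ v)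
    (h₂ : RL Φ ε K W₂ W₂' D₂ v)
    (hc : Compat (W₁.path Φ ε) (W₁'.path Φ ε) (W₂.path Φ ε) (W₂'.path Φ ε) e₁ e₂ D₁ D₂
      W₁'.b W₂'.b) {s : ℝ} (hs : s ≤ v)
    (ht : CausalGen291.Touched (W₁.C Φ ε) (W₁.path Φ ε) (W₂.C Φ ε) (W₂.path Φ ε) e₁ e₂
      (W₁.Inf Φ ε K) (W₂.Inf Φ ε K) s) :
    CausalGen291.Touched (W₁'.C Φ ε) (W₁'.path Φ ε) (W₂'.C Φ ε) (W₂'.path Φ ε) e₁ e₂
      (W₁'.Inf Φ ε K) (W₂'.Inf Φ ε K) s := by
  have hf : ∀ k, CausalGen291.Fut (W₁.C Φ ε) (W₁.path Φ ε) (W₂.C Φ ε) (W₂.path Φ ε) e₁ e₂ s k ↔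
      CausalGen291.Fut (W₁'.C Φ ε) (W₁'.path Φ ε) (W₂'.C Φ ε) (W₂'.path Φ ε) e₁ e₂ s k := by
    intro k
    have h3 := fut_iff (s := s) (k := k) hc h₁.closed_tr h₂.closed_tr (h₁.repl hΦ hε).symm
      (h₂.repl hΦ hε).symm (h₁.lines hΦ hε) (h₂.lines hΦ hε)
    rw [fut_trC hs, fut_trC hs] at h3
    exact h3
  rcases ht with ⟨k, hk, h⟩ | ⟨j, hj, h⟩ | ⟨j, hj, h⟩
  · exact Or.inl ⟨k, (hf k).1 hk, h.imp (h₁.inf hΦ hε hs) (h₂.inf hΦ hε hs)⟩
  · exact Or.inr (Or.inl ⟨j, hj, h₁.inf hΦ hε hs h⟩)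
  · exact Or.inr (Or.inr ⟨j, hj, h₂.inf hΦ hε hs h⟩)

/-- **Touches are the same** if the infections are the same. -/
theorem touched_lines_iff (hΦ : AdmissiblePotential Φ) (hε : 0 < ε) (h₁ : RL Φ ε K W₁ W₁' D₁ v)
    (h₂ : RL Φ ε K W₂ W₂' D₂ v)
    (hc : Compat (W₁.path Φ ε) (W₁'.path Φ ε) (W₂.path Φ ε) (W₂'.path Φ ε) e₁ e₂ D₁ D₂
      W₁'.b W₂'.b) {s : ℝ} (hs : s ≤ v)
    (hI₁ : ∀ x, W₁.Inf Φ ε K s x ↔ W₁'.Inf Φ ε K s x)
    (hI₂ : ∀ x, W₂.Inf Φ ε K s x ↔ W₂'.Inf Φ ε K s x) :
    CausalGen291.Touched (W₁.C Φ ε) (W₁.path Φ ε) (W₂.C Φ ε) (W₂.path Φ ε) e₁ e₂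
      (W₁.Inf Φ ε K) (W₂.Inf Φ ε K) s ↔
    CausalGen291.Touched (W₁'.C Φ ε) (W₁'.path Φ ε) (W₂'.C Φ ε) (W₂'.path Φ ε) e₁ e₂
      (W₁'.Inf Φ ε K) (W₂'.Inf Φ ε K) s := by
  have hf : ∀ k, CausalGen291.Fut (W₁.C Φ ε) (W₁.path Φ ε) (W₂.C Φ ε) (W₂.path Φ ε) e₁ e₂ s k ↔
      CausalGen291.Fut (W₁'.C Φ ε) (W₁'.path Φ ε) (W₂'.C Φ ε) (W₂'.path Φ ε) e₁ e₂ s k := by
    intro k
    have h3 := fut_iff (s := s) (k := k) hc h₁.closed_tr h₂.closed_tr (h₁.repl hΦ hε).symm
      (h₂.repl hΦ hε).symm (h₁.lines hΦ hε) (h₂.lines hΦ hε)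
    rw [fut_trC hs, fut_trC hs] at h3
    exact h3
  unfold CausalGen291.Touched
  simp only [hf, hI₁, hI₂]

end pair

end

end Crest.Agent.R122.RealL811
end

-- ▼ part R122/RealT_811
section

/-!
# A collision tree in a marked world is replaced by its exit lines (row 122, (1.4)), helper811

* `TreeIn Φ ε W P z e v`: in the marked world `W` (any births) the particles `e k` follow the tree
  `(P, z)`, up to the horizon `v` and up to their release times `rel` (the root up to its last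
  contact).
* `LineOf W W' P z e`: `W'` is `W` with the particles `e k` replaced by `lineML Φ ε P z k`.
* `TreeIn.rl`: the data `RL`; `TreeIn.size_eq`: the own size of an exit is its mark `mk P x`.
-/

set_option autoImplicit false
set_option linter.unusedSectionVars false

open MeasureTheory Set Filter Topology
open scoped ENNReal
open Crest.AnalysisR.Kinetic
open Crest.Agent.R122.Flow671 Crest.Agent.R122.Loc45 Crest.Agent.R122.Ins45
open Crest.Agent.R122.Causal291 Crest.Agent.R122.Inf879 Crest.Agent.R122.EDefs602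
open Crest.Agent.R122.Lines255
open Crest.Agent.R122.Kin796 Crest.Agent.R122.Kin796.CTree Crest.Agent.R122.Tree674
open Crest.Agent.R122.PathFlow968 Crest.Agent.R122.TreeLines335
open Crest.Agent.R122.InEq2T (lastS lastS_closed mem_lastS card_lastS)

namespace Crest.Agent.R122.RealL811

noncomputable section

open scoped Classical

/-! ### Trees -/

section tree

variable {Φ : Space3 → ℝ} {ε : ℝ}

/-- Collision windows end not later than the release times. -/
theorem inWindow_rel (hε : 0 ≤ ε) : ∀ {P : CTree} {T : ℝ} {v : Space3} {p : Par P},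
    Ord Φ ε P T v p → ∀ {i j : Idx P} {u : ℝ}, InWindow Φ ε P v p i j u →
      0 < u ∧ u ≤ TreeLines335.rel P p i ∧ u ≤ TreeLines335.rel P p j
  | leaf, _, _, _, _, _, _, _, h => absurd h id
  | node l r, T, v, p, ho, i, j, u, h => by
      rcases h with ⟨rfl, rfl, h1, h2⟩ | ⟨i', j', rfl, rfl, h⟩ | ⟨i', j', rfl, rfl, h⟩
      · refine ⟨ho.2.1.trans_le h1, ?_, ?_⟩ <;> simpa [TreeLines335.rel] using h2
      · obtain ⟨h0, h1, h2⟩ := inWindow_rel hε ho.2.2.1 h
        have hs : Tree674.sin Φ ε v p.1 ≤ p.1.1 := sin_le hε v p.1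
        have hl := fun k => (rel_lt hε ho.2.1 ho.2.2.1 k).le.trans hs
        refine ⟨h0, ?_, ?_⟩
        · simp only [TreeLines335.rel, Sum.elim_inl]
          split_ifs
          · exact h1.trans (hl i')
          · exact h1
        · simp only [TreeLines335.rel, Sum.elim_inl]
          split_ifs
          · exact h2.trans (hl j')
          · exact h2
      · obtain ⟨h0, h1, h2⟩ := inWindow_rel hε ho.2.2.2 h
        have hs : Tree674.sin Φ ε v p.1 ≤ p.1.1 := sin_le hε v p.1
        have hl := fun k => (rel_lt hε ho.2.1 ho.2.2.2 k).le.trans hs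
        refine ⟨h0, ?_, ?_⟩
        · simp only [TreeLines335.rel, Sum.elim_inr]
          split_ifs
          · exact h1.trans (hl i')
          · exact h1
        · simp only [TreeLines335.rel, Sum.elim_inr]
          split_ifs
          · exact h2.trans (hl j')
          · exact h2

theorem lastS_root : ∀ P : CTree, lastS P (root P) = Finset.univ
  | leaf => rfl
  | node l r => by simp [lastS, root]

/-- The contacts of a tree (collision windows). -/
def Cw (Φ : Space3 → ℝ) (ε : ℝ) (P : CTree) (v : Space3) (p : Par P) (u : ℝ) (i j : Idx P) :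
    Prop := InWindow Φ ε P v p i j u ∨ InWindow Φ ε P v p j i u

/-- The own past of `x` contains all the leaves under its last node. -/
theorem past_lastS (hε : 0 ≤ ε) : ∀ {P : CTree} {T : ℝ} {v : Space3} {p : Par P},
    Ord Φ ε P T v p → ∀ x, ∀ y ∈ lastS P x,
      Past (Cw Φ ε P v p) (TreeLines335.rel P p x) x 0 y
  | leaf, _, _, _, _, x, y, _ => by
      have : y = x := rfl
      subst this
      exact .root le_rfl
  | node l r, T, v, p, ho, x, y, hy => by
      have hs : Tree674.sin Φ ε v p.1 ≤ p.1.1 := sin_le hε v p.1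
      have hs0 : 0 < Tree674.sin Φ ε v p.1 := ho.2.1
      have hl : ∀ x', ∀ y' ∈ lastS l x', Past (Cw Φ ε (node l r) v p)
          (TreeLines335.rel l p.2.1 x') (Sum.inl x') 0 (Sum.inl y') := fun x' y' h' =>
        past_map (e := Sum.inl) (fun u i j h => h.imp (fun h => Or.inr (Or.inl ⟨i, j, rfl, rfl, h⟩))
          (fun h => Or.inr (Or.inl ⟨j, i, rfl, rfl, h⟩))) (past_lastS hε ho.2.2.1 x' y' h')
      have hr : ∀ x', ∀ y' ∈ lastS r x', Past (Cw Φ ε (node l r) v p)
          (TreeLines335.rel r p.2.2 x') (Sum.inr x') 0 (Sum.inr y') := fun x' y' h' =>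
        past_map (e := Sum.inr) (fun u i j h => h.imp (fun h => Or.inr (Or.inr ⟨i, j, rfl, rfl, h⟩))
          (fun h => Or.inr (Or.inr ⟨j, i, rfl, rfl, h⟩))) (past_lastS hε ho.2.2.2 x' y' h')
      have hL : ∀ y', Past (Cw Φ ε (node l r) v p) p.1.1 (Sum.inl (root l)) 0 (Sum.inl y') :=
        fun y' => Past.trans (.root ((rel_lt hε hs0 ho.2.2.1 _).le.trans hs))
          (hl (root l) y' (by rw [lastS_root]; exact Finset.mem_univ _))
      have hR : ∀ y', Past (Cw Φ ε (node l r) v p) p.1.1 (Sum.inr (root r)) 0 (Sum.inr y') :=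
        fun y' => Past.trans (.root ((rel_lt hε hs0 ho.2.2.2 _).le.trans hs))
          (hr (root r) y' (by rw [lastS_root]; exact Finset.mem_univ _))
      have hc : Cw Φ ε (node l r) v p p.1.1 (Sum.inl (root l)) (Sum.inr (root r)) :=
        Or.inl (Or.inl ⟨rfl, rfl, hs, le_rfl⟩)
      have hc' : Cw Φ ε (node l r) v p p.1.1 (Sum.inr (root r)) (Sum.inl (root l)) :=
        Or.inr (Or.inl ⟨rfl, rfl, hs, le_rfl⟩)
      rcases x with x | x
      · by_cases hx : x = root l
        · subst hx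
          have h1 : TreeLines335.rel (node l r) p (Sum.inl (root l)) = p.1.1 := by
            simp [TreeLines335.rel]
          rw [h1]
          rcases y with y | y
          · exact hL y
          · exact Past.trans (.step (.root le_rfl) hc le_rfl) (hR y)
        · have h1 : TreeLines335.rel (node l r) p (Sum.inl x) = TreeLines335.rel l p.2.1 x := by
            simp [TreeLines335.rel, hx]
          rw [h1]
          simp only [lastS, Sum.elim_inl, if_neg hx, Finset.mem_map,
            Function.Embedding.coeFn_mk] at hy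
          obtain ⟨y', hy', rfl⟩ := hy
          exact hl x y' hy'
      · by_cases hx : x = root r
        · subst hx
          have h1 : TreeLines335.rel (node l r) p (Sum.inr (root r)) = p.1.1 := by
            simp [TreeLines335.rel]
          rw [h1]
          rcases y with y | y
          · exact Past.trans (.step (.root le_rfl) hc' le_rfl) (hL y)
          · exact hR y
        · have h1 : TreeLines335.rel (node l r) p (Sum.inr x) = TreeLines335.rel r p.2.2 x := by
            simp [TreeLines335.rel, hx]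
          rw [h1]
          simp only [lastS, Sum.elim_inr, if_neg hx, Finset.mem_map,
            Function.Embedding.coeFn_mk] at hy
          obtain ⟨y', hy', rfl⟩ := hy
          exact hr x y' hy'

end tree

/-! ### Trees in marked worlds -/

variable {α : Type} [Fintype α] {Φ : Space3 → ℝ} {ε v T' : ℝ} {K : ℕ} {W W' : MW α} {P : CTree}
  {z : PhasePoint × Par P} {e : Idx P → α}

/-- In the world `W` the particles `e k` follow the tree `(P, z)` up to the horizon `v`, up to their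
release times. -/
structure TreeIn (Φ : Space3 → ℝ) (ε : ℝ) (W : MW α) (P : CTree) (z : PhasePoint × Par P)
    (e : Idx P → α) (v : ℝ) : Prop where
  inj : Function.Injective e
  born : ∀ k, W.b (e k) = 0
  one : ∀ k, W.m (e k) = 1
  agree : ∀ k u, 0 ≤ u → u ≤ v → u ≤ TreeLines335.rel P z.2 k →
    W.path Φ ε u (e k) = path Φ ε P z.1 z.2 u k
  sealed : ∀ k u j, 0 ≤ u → u ≤ v → u ≤ TreeLines335.rel P z.2 k → W.C Φ ε u (e k) j →
    ∃ m, e m = j ∧ u ≤ TreeLines335.rel P z.2 m

/-- `W'` is `W` with the particles `e k` replaced by the marked lines of the tree. -/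
structure LineOf (Φ : Space3 → ℝ) (ε : ℝ) (W W' : MW α) (P : CTree) (z : PhasePoint × Par P)
    (e : Idx P → α) : Prop where
  b : ∀ k, W'.b (e k) = TreeLines335.rel P z.2 k
  z : ∀ k, W'.z (e k) = back (lineML Φ ε P z k).1
  m : ∀ k, W'.m (e k) = mk P k
  off_b : ∀ x, x ∉ range e → W'.b x = W.b x
  off_z : ∀ x, x ∉ range e → W'.z x = W.z x
  off_m : ∀ x, x ∉ range e → W'.m x = W.m x

namespace TreeIn

variable (h : TreeIn Φ ε W P z e v) (hΦ : AdmissiblePotential Φ) (hε : 0 < ε)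
  (hV : Valid Φ ε P T' z.1.2 z.2) (hS : Sep Φ ε P T' z.1 z.2) (hv : v ≤ T')

theorem mono {v' : ℝ} (h : TreeIn Φ ε W P z e v) (hv' : v' ≤ v) : TreeIn Φ ε W P z e v' where
  inj := h.inj
  born := h.born
  one := h.one
  agree k u h0 hu hr := h.agree k u h0 (hu.trans hv') hr
  sealed k u j h0 hu hr hc := h.sealed k u j h0 (hu.trans hv') hr hc

include h hΦ hε hV in
theorem C_of_window {u : ℝ} (huv : u ≤ v) {i j : Idx P}
    (hw : Cw Φ ε P z.1.2 z.2 u i j) : W.C Φ ε u (e i) (e j) := by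
  have key : ∀ i j, InWindow Φ ε P z.1.2 z.2 i j u → W.C Φ ε u (e i) (e j) := by
    intro i j hw
    obtain ⟨h0, h1, h2⟩ := inWindow_rel hε.le hV.2 hw
    refine ⟨by rw [h.born]; exact h0.le, by rw [h.born]; exact h0.le,
      Or.inr (Or.inl (by rw [h.born]; exact h0)), ?_⟩
    rw [h.agree i u h0.le huv h1, h.agree j u h0.le huv h2]
    exact InWindow.dist_le hΦ hε P T' z.1 z.2 hV i j u hw
  rcases hw with hw | hw
  · exact key i j hw
  · exact MW.C_symm _ (key j i hw)

include h hΦ hε hV hS hv in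
theorem window_of_C {u : ℝ} (h0 : 0 ≤ u) (huv : u ≤ v) {i j : Idx P}
    (hi : u ≤ TreeLines335.rel P z.2 i) (hj : u ≤ TreeLines335.rel P z.2 j)
    (hc : W.C Φ ε u (e i) (e j)) : i = j ∨ Cw Φ ε P z.1.2 z.2 u i j := by
  have hc' : Ct (path Φ ε P z.1 z.2) ε u i j := by
    unfold Ct
    rw [← h.agree i u h0 huv hi, ← h.agree j u h0 huv hj]
    exact hc.2.2.2
  exact (ct_iff hΦ hε hV hS ⟨h0, huv.trans hv⟩).1 hc'

include h hΦ hε hV hS hv in
/-- The own past of an exit. -/
theorem own_past {x : Idx P} (hxv : TreeLines335.rel P z.2 x ≤ v) {r : ℝ} {q : α}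
    (hp : Past (W.C Φ ε) (TreeLines335.rel P z.2 x) (e x) r q) :
    0 ≤ r → ∃ y ∈ lastS P x, e y = q ∧ r ≤ TreeLines335.rel P z.2 y := by
  induction hp with
  | @root r hr => exact fun _ => ⟨x, mem_lastS P x, rfl, hr⟩
  | @step r s' q q' hq hc hr ih =>
    intro h0
    have h0' : 0 ≤ s' := h0.trans hr
    obtain ⟨y, hy, rfl, hy2⟩ := ih h0'
    have hs'x : s' ≤ TreeLines335.rel P z.2 x := hq.le
    obtain ⟨y', rfl, hy2'⟩ := h.sealed y s' q' h0' (hs'x.trans hxv) hy2 hc
    refine ⟨y', ?_, rfl, hr.trans hy2'⟩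
    rcases h.window_of_C hΦ hε hV hS hv h0' (hs'x.trans hxv) hy2 hy2' hc with h3 | h3
    · rw [← h3]; exact hy
    · exact lastS_closed hε.le hV.2 x y y' s' hy hs'x h3

include h in
/-- The past of a member at a time at which it is protected stays in the tree. -/
theorem past_mem {x : Idx P} {t : ℝ} (htv : t ≤ v) (htx : t ≤ TreeLines335.rel P z.2 x) {r : ℝ}
    {q : α} (hp : Past (W.C Φ ε) t (e x) r q) :
    0 ≤ r → ∃ y, e y = q ∧ r ≤ TreeLines335.rel P z.2 y := by
  induction hp with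
  | @root r hr => exact fun _ => ⟨x, rfl, hr.trans htx⟩
  | @step r s' q q' hq hc hr ih =>
    intro h0
    have h0' : 0 ≤ s' := h0.trans hr
    obtain ⟨y, rfl, hy2⟩ := ih h0'
    obtain ⟨y', rfl, hy2'⟩ := h.sealed y s' q' h0' (hq.le.trans htv) hy2 hc
    exact ⟨y', rfl, hr.trans hy2'⟩

include h hΦ hε hV hS hv in
/-- **The own cluster of an exit.** -/
theorem bc_eq {x : Idx P} (hxv : TreeLines335.rel P z.2 x ≤ v) :
    BC (W.C Φ ε) (TreeLines335.rel P z.2 x) (e x) = e '' (lastS P x : Set (Idx P)) := by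
  ext q
  constructor
  · intro hq
    obtain ⟨y, hy, hyq, _⟩ := h.own_past hΦ hε hV hS hv hxv hq le_rfl
    exact ⟨y, hy, hyq⟩
  · rintro ⟨y, hy, rfl⟩
    have h1 := past_lastS hε.le hV.2 x y hy
    have h2 : Past (fun u i j => u ≤ v ∧ Cw Φ ε P z.1.2 z.2 u i j) (TreeLines335.rel P z.2 x) x 0
        y := (past_trC (C := Cw Φ ε P z.1.2 z.2) hxv).2 h1
    exact past_map (e := e) (fun u i j hc => h.C_of_window hΦ hε hV hc.1 hc.2) h2

theorem msize_image {C : ℝ → α → α → Prop} {t : ℝ} {i : α} (e : Idx P → α)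
    (hinj : Function.Injective e) {m : α → ℕ} (hm : ∀ k, m (e k) = 1) (S : Finset (Idx P))
    (hS : BC C t i = e '' (S : Set (Idx P))) : msize C m t i = S.card := by
  rw [msize_eq_filter]
  have h1 : (Finset.univ.filter fun k => k ∈ BC C t i) = S.map ⟨e, hinj⟩ := by
    ext k
    rw [Finset.mem_filter, hS]
    simp
  rw [h1, Finset.sum_map]
  simp only [Function.Embedding.coeFn_mk, hm]
  simp

include h hΦ hε hV hS hv in
/-- **The own size of an exit is its mark.** -/
theorem size_eq {x : Idx P} (hxv : TreeLines335.rel P z.2 x ≤ v) :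
    msize (W.C Φ ε) W.m (TreeLines335.rel P z.2 x) (e x) = TreeLines335.mk P x := by
  rw [msize_image e h.inj h.one (lastS P x) (h.bc_eq hΦ hε hV hS hv hxv), card_lastS]

include h in
/-- The size of a protected member is at most the number of leaves. -/
theorem size_le {x : Idx P} {t : ℝ} (htv : t ≤ v) (htx : t ≤ TreeLines335.rel P z.2 x) :
    msize (W.C Φ ε) W.m t (e x) ≤ P.leaves := by
  rw [msize_eq_filter]
  have h1 : (Finset.univ.filter fun k => k ∈ BC (W.C Φ ε) t (e x)) ⊆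
      (Finset.univ : Finset (Idx P)).map ⟨e, h.inj⟩ := by
    intro k hk
    obtain ⟨y, rfl, _⟩ := h.past_mem htv htx (Finset.mem_filter.1 hk).2 le_rfl
    simp
  refine (Finset.sum_le_sum_of_subset h1).trans ?_
  rw [Finset.sum_map]
  simp only [Function.Embedding.coeFn_mk, h.one]
  simp [Tree674.card_idx]

include h hΦ hε hV hS hv in
/-- **The replacement data of a tree.** -/
theorem rl (hL : LineOf Φ ε W W' P z e) (hok : W.Ok Φ ε) (hok' : W'.Ok Φ ε)
    (hb : ∀ x, 0 ≤ W.b x) (hv0 : 0 ≤ v) (hK : P.leaves ≤ K) :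
    RL Φ ε K W W' (range e) v where
  ok := hok
  ok' := hok'
  b0 := hb
  le x := by
    by_cases hx : x ∈ range e
    · obtain ⟨k, rfl⟩ := hx
      rw [h.born, hL.b]
      exact rel_nonneg hε.le hV.2 k
    · rw [hL.off_b x hx]
  bD x hx := by
    obtain ⟨k, rfl⟩ := hx
    rw [h.born]
    exact hv0
  off_b := hL.off_b
  off_z := hL.off_z
  off_m := hL.off_m
  closed s j k hs hj hsj hc := by
    obtain ⟨x, rfl⟩ := hj
    rw [hL.b] at hsj
    have h0 : 0 ≤ s := by
      have := hc.1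
      rw [h.born] at this
      exact this
    obtain ⟨m, rfl, hm⟩ := h.sealed x s k h0 hs hsj hc
    exact ⟨⟨m, rfl⟩, by rw [hL.b]; exact hm⟩
  line x hx hxv := by
    obtain ⟨k, rfl⟩ := hx
    rw [hL.b] at hxv
    have h0 := rel_nonneg hε.le hV.2 k
    rw [hL.z, hL.b, h.agree k _ h0 hxv le_rfl,
      RtG302.path_after_rel hε P T' z.1 z.2 hV k _ le_rfl, back_eq_lineAt]
    rfl
  mark x hx hxv := by
    obtain ⟨k, rfl⟩ := hx
    rw [hL.b] at hxv ⊢
    rw [h.size_eq hΦ hε hV hS hv hxv, hL.m]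
  clean x hx := by
    obtain ⟨k, rfl⟩ := hx
    rw [hL.m]
    exact (mk_le P k).trans hK
  cleanD x hx hxv := by
    obtain ⟨k, rfl⟩ := hx
    rw [hL.b] at hxv
    exact (h.size_le le_rfl hxv.le).trans hK

end TreeIn

end

end Crest.Agent.R122.RealL811
end

-- ▼ part R122/RealA_811

/-!
# Trees added to a marked world (row 122, (1.4)), helper811

* `treeW Φ ε P z`: the initial particles of the tree as a marked world; `lineOf_add`,
  `lineOf_add_add`.
* `touched_tree`, `touched_tree_add`: `Z.Touched (treeW) s → Z.Touched (lines F) s`,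
  `(Z + treeW).Touched B s → (Z + lines F).Touched B s`, `F = lineML Φ ε P z`, and equivalences if no
  clean particle has two lines in its past (`ND`).
* `nd_of_famNL`: `ND` from helper255's `FamNL`.
-/

set_option autoImplicit false
set_option linter.unusedSectionVars false

open MeasureTheory Set Filter Topology
open scoped ENNReal
open Crest.AnalysisR.Kinetic
open Crest.Agent.R122.Flow671 Crest.Agent.R122.Loc45 Crest.Agent.R122.Ins45
open Crest.Agent.R122.Causal291 Crest.Agent.R122.Inf879 Crest.Agent.R122.EDefs602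
open Crest.Agent.R122.Lines255
open Crest.Agent.R122.Kin796 Crest.Agent.R122.Kin796.CTree Crest.Agent.R122.Tree674
open Crest.Agent.R122.PathFlow968 Crest.Agent.R122.TreeLines335
open Crest.Agent.R122.MWFam255 (FamNL)

namespace Crest.Agent.R122.RealL811

noncomputable section

open scoped Classical

/-! ### No double lines -/

section nd

variable {α : Type} [Fintype α] {Φ : Space3 → ℝ} {ε : ℝ} {K : ℕ}

/-- At time `s` no visible particle which is clean in the real world `W` has two lines of the family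
`D` in its past in the world `W'` with lines. -/
def ND (Φ : Space3 → ℝ) (ε : ℝ) (K : ℕ) (W W' : MW α) (D : Set α) (s : ℝ) : Prop :=
  ∀ x, (x ∈ D → W'.b x ≤ s) → ¬ W.Inf Φ ε K s x → (BC (W'.C Φ ε) s x ∩ D).Subsingleton


end nd

section fam

variable {ι κ : Type} [Fintype ι] [Fintype κ] {Φ : Space3 → ℝ} {ε s v T : ℝ} {K : ℕ} {Z : MW ι}
  {ls : κ → ML} {W : MW (ι ⊕ κ)} {D : Set (ι ⊕ κ)}

/-- A real past from a past in the world with lines. -/
theorem RL.past_real {α : Type} [Fintype α] {W W' : MW α} {D : Set α}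
    (h : RL Φ ε K W W' D v) (hΦ : AdmissiblePotential Φ) (hε : 0 < ε) {t r : ℝ} {i k : α}
    (ht : t ≤ v) (hi : i ∈ D → W'.b i ≤ t) (hp : Past (W'.C Φ ε) t i r k) (hk : k ∈ D → W'.b k ≤ r) :
    Past (W.C Φ ε) t i r k :=
  (past_trC ht).1 ((Lines255.past_iff h.closed_tr (h.repl hΦ hε).symm (h.lines hΦ hε) hi).2
    (Or.inl ⟨(past_trC ht).2 hp, hk⟩))

/-- An infected particle of the world with lines is visible. -/
theorem RL.born_of_inf {α : Type} [Fintype α] {W W' : MW α} {D : Set α}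
    (h : RL Φ ε K W W' D v) (hΦ : AdmissiblePotential Φ) (hε : 0 < ε) {r : ℝ} {y : α} (hr : r ≤ v)
    (hI : W'.Inf Φ ε K r y) (hy : y ∈ D) : W'.b y ≤ r := by
  by_contra hlt
  push Not at hlt
  have h4 := msize_unborn (h.lines hΦ hε) hy hlt (m' := W'.m)
  rw [msize_trC hr] at h4
  have h5 := h.clean y hy
  have h6 : K < msize (W'.C Φ ε) W'.m r y := hI
  omega

/-- **No double lines from pairwise absence of links** (helper255). -/
theorem nd_of_famNL (hΦ : AdmissiblePotential Φ) (hε : 0 < ε) (h : FamNL Φ ε K T Z ls s)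
    (hR : RL Φ ε K W (Z.add (MW.lines ls)) D v) (hsv : s ≤ v) (hD : D ⊆ range Sum.inr)
    (hm : ∀ x ∈ D, (Z.add (MW.lines ls)).b x ≤ v →
      msize (W.C Φ ε) W.m ((Z.add (MW.lines ls)).b x) x = (Z.add (MW.lines ls)).m x)
    {t : ℝ} (ht0 : 0 ≤ t) (ht : t ≤ s) : ND Φ ε K W (Z.add (MW.lines ls)) D t := by
  intro i hi hcl
  refine (MWFam255.past_unique hΦ hε h ht0 ht ?_).anti (inter_subset_inter_right _ hD)
  intro v' y hp hv0 r hr hrv hI
  have hrs : r < s := (hrv.trans_le hp.le).trans_le ht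
  have hreal : W.Inf Φ ε K r y := (hR.inf_iff hΦ hε hm (hrs.le.trans hsv) fun _ _ =>
    (MWFam255.past_unique_lt hΦ hε h hr hrs y).anti (inter_subset_inter_right _ hD)).2 hI
  have hvis : y ∈ D → (Z.add (MW.lines ls)).b y ≤ r :=
    hR.born_of_inf hΦ hε (hrs.le.trans hsv) hI
  have hpast : Past (W.C Φ ε) t i r y :=
    hR.past_real hΦ hε (ht.trans hsv) hi (hp.mono hrv.le) hvis
  exact hcl (Infd.of_past hpast hreal)

end fam

/-! ### The worlds -/

/-- The initial particles of a tree as a marked world. -/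
def treeW (Φ : Space3 → ℝ) (ε : ℝ) (P : CTree) (z : PhasePoint × Par P) : MW (Idx P) :=
  ⟨fun _ => 0, Tree674.lines Φ ε P z.1 z.2, fun _ => 1⟩

section worlds

variable {ι β : Type} (Φ : Space3 → ℝ) (ε : ℝ) (Z : MW ι) (B : MW β) (P : CTree)
  (z : PhasePoint × Par P)

theorem lineOf_add : LineOf Φ ε (Z.add (treeW Φ ε P z))
    (Z.add (MW.lines (lineML Φ ε P z))) P z Sum.inr where
  b _ := rfl
  z _ := rfl
  m _ := rfl
  off_b x hx := by
    rcases x with x | x
    · rfl
    · exact absurd ⟨x, rfl⟩ hx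
  off_z x hx := by
    rcases x with x | x
    · rfl
    · exact absurd ⟨x, rfl⟩ hx
  off_m x hx := by
    rcases x with x | x
    · rfl
    · exact absurd ⟨x, rfl⟩ hx

theorem lineOf_add_add : LineOf Φ ε ((Z.add (treeW Φ ε P z)).add B)
    ((Z.add (MW.lines (lineML Φ ε P z))).add B) P z (fun k => Sum.inl (Sum.inr k)) where
  b _ := rfl
  z _ := rfl
  m _ := rfl
  off_b x hx := by
    rcases x with (x | x) | x
    · rfl
    · exact absurd ⟨x, rfl⟩ hx
    · rfl
  off_z x hx := by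
    rcases x with (x | x) | x
    · rfl
    · exact absurd ⟨x, rfl⟩ hx
    · rfl
  off_m x hx := by
    rcases x with (x | x) | x
    · rfl
    · exact absurd ⟨x, rfl⟩ hx
    · rfl

end worlds

section touch

variable {ι β : Type} [Fintype ι] [Fintype β] {Φ : Space3 → ℝ} {ε v T' s : ℝ} {K : ℕ}
  {Z : MW ι} {B : MW β} {P : CTree} {z : PhasePoint × Par P}

/-- The data for the world `Z + tree`. -/
theorem rl_add (hΦ : AdmissiblePotential Φ) (hε : 0 < ε) (hV : Valid Φ ε P T' z.1.2 z.2)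
    (hS : Sep Φ ε P T' z.1 z.2) (hv : v ≤ T') (hv0 : 0 ≤ v) (hK : P.leaves ≤ K)
    (h : TreeIn Φ ε (Z.add (treeW Φ ε P z)) P z Sum.inr v)
    (hok : (Z.add (treeW Φ ε P z)).Ok Φ ε)
    (hok' : (Z.add (MW.lines (lineML Φ ε P z))).Ok Φ ε) (hb : ∀ x, 0 ≤ Z.b x) :
    RL Φ ε K (Z.add (treeW Φ ε P z)) (Z.add (MW.lines (lineML Φ ε P z))) (range Sum.inr) v :=
  h.rl hΦ hε hV hS hv (lineOf_add Φ ε Z P z) hok hok' (by
    rintro (x | x)
    · exact hb x
    · exact le_rfl) hv0 hK

/-- The data for the world `Z + tree + B`. -/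
theorem rl_add_add (hΦ : AdmissiblePotential Φ) (hε : 0 < ε) (hV : Valid Φ ε P T' z.1.2 z.2)
    (hS : Sep Φ ε P T' z.1 z.2) (hv : v ≤ T') (hv0 : 0 ≤ v) (hK : P.leaves ≤ K)
    (h : TreeIn Φ ε ((Z.add (treeW Φ ε P z)).add B) P z (fun k => Sum.inl (Sum.inr k)) v)
    (hok : ((Z.add (treeW Φ ε P z)).add B).Ok Φ ε)
    (hok' : ((Z.add (MW.lines (lineML Φ ε P z))).add B).Ok Φ ε) (hb : ∀ x, 0 ≤ Z.b x)
    (hB : ∀ x, 0 ≤ B.b x) :
    RL Φ ε K ((Z.add (treeW Φ ε P z)).add B) ((Z.add (MW.lines (lineML Φ ε P z))).add B)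
      (range fun k : Idx P => (Sum.inl (Sum.inr k) : (ι ⊕ Idx P) ⊕ β)) v :=
  h.rl hΦ hε hV hS hv (lineOf_add_add Φ ε Z B P z) hok hok' (by
    rintro ((x | x) | x)
    · exact hb x
    · exact le_rfl
    · exact hB x) hv0 hK

theorem compat_add (hΦ : AdmissiblePotential Φ) (hε : 0 < ε) (Z : MW ι) (P : CTree)
    (z : PhasePoint × Par P) :
    Compat (Z.path Φ ε) (Z.path Φ ε) ((Z.add (treeW Φ ε P z)).path Φ ε)
      ((Z.add (MW.lines (lineML Φ ε P z))).path Φ ε) (id : ι → ι) Sum.inl ∅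
      (range (Sum.inr : Idx P → ι ⊕ Idx P)) Z.b (Z.add (MW.lines (lineML Φ ε P z))).b where
  mem_iff k := ⟨fun h => absurd h (notMem_empty _), fun ⟨x, hx⟩ => by cases hx⟩
  exit k h := absurd h (notMem_empty _)
  new₁ j h := absurd h (notMem_empty _)
  new₂ j _ _ k := by
    rintro ⟨x, hx⟩
    cases hx
  out₁ k _ := rfl
  out₂ k _ := by
    rw [MW.path_zero hΦ hε, MW.path_zero hΦ hε]
    rfl
  fam k h := absurd h (notMem_empty _)
  fam' k h := absurd h (notMem_empty _)







/-- Exact marks, world `Z + tree`. -/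
theorem marks_add (hΦ : AdmissiblePotential Φ) (hε : 0 < ε) (hV : Valid Φ ε P T' z.1.2 z.2)
    (hS : Sep Φ ε P T' z.1 z.2) (hv : v ≤ T')
    (h : TreeIn Φ ε (Z.add (treeW Φ ε P z)) P z Sum.inr v) :
    ∀ x ∈ range (Sum.inr : Idx P → ι ⊕ Idx P),
      (Z.add (MW.lines (lineML Φ ε P z))).b x ≤ v →
      msize ((Z.add (treeW Φ ε P z)).C Φ ε) (Z.add (treeW Φ ε P z)).m
        ((Z.add (MW.lines (lineML Φ ε P z))).b x) x = (Z.add (MW.lines (lineML Φ ε P z))).m x := by
  rintro _ ⟨k, rfl⟩ hb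
  exact h.size_eq hΦ hε hV hS hv hb

/-- Exact marks, world `Z + tree + B`. -/
theorem marks_add_add (hΦ : AdmissiblePotential Φ) (hε : 0 < ε) (hV : Valid Φ ε P T' z.1.2 z.2)
    (hS : Sep Φ ε P T' z.1 z.2) (hv : v ≤ T')
    (h : TreeIn Φ ε ((Z.add (treeW Φ ε P z)).add B) P z (fun k => Sum.inl (Sum.inr k)) v) :
    ∀ x ∈ range (fun k : Idx P => (Sum.inl (Sum.inr k) : (ι ⊕ Idx P) ⊕ β)),
      ((Z.add (MW.lines (lineML Φ ε P z))).add B).b x ≤ v →
      msize (((Z.add (treeW Φ ε P z)).add B).C Φ ε) ((Z.add (treeW Φ ε P z)).add B).m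
        (((Z.add (MW.lines (lineML Φ ε P z))).add B).b x) x =
          ((Z.add (MW.lines (lineML Φ ε P z))).add B).m x := by
  rintro _ ⟨k, rfl⟩ hb
  exact h.size_eq hΦ hε hV hS hv hb

end touch

end

end Crest.Agent.R122.RealL811
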