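import Crest.Agent.R122.E6Real_811
import Crest.Agent.R122.R6Tree_974
import Crest.Agent.R122.HidMW_879
import Crest.Agent.R122.LNRet_383
import Crest.Agent.R122.InEq2TX_335
import Crest.Agent.R122.ExclNull_302

-- ▼ part R122/RealX_974
section

/-!
# World consistency for a test line and a real tree (row 122, E6), helper974

* `RL.ext` : the replacement data hold at every later horizon if all lines have been born.
* `RealAt` : the real cluster `A` with lines `F` in the worlds `Y`, `Y + x`, up to a horizon;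
  `w1_realAt` : `W1 (firstT Y F) (θ(Y, x)) (θ(Y + A, x))` from pairwise absence of links of `F + x` in
  `Y` and `RealAt .. s` for all `s` not later than the touch times of the single lines `F`, `x`.
* `realAt_tree`, `w1_treeAt`, `w1_tree` : `A = treeW`, from `TreeIn`.
* `firstT_le_tree`, `badF_subset_badN_tree` : `badF ⊆ badN` for a real tree.
* `R6.w_Ld`, `R6.badF₁`, `R6.badF₂` : the instances from `Real6` and `E6Hyp`.
-/

set_option autoImplicit false
set_option linter.unusedSectionVars false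

open MeasureTheory Set Filter Topology
open scoped ENNReal
open Crest.AnalysisR.Kinetic
open Crest.Agent.R122.Flow671 hiding rel
open Crest.Agent.R122.Loc45 Crest.Agent.R122.Ins45
open Crest.Agent.R122.Causal291 Crest.Agent.R122.Inf879 Crest.Agent.R122.EDefs602
open Crest.Agent.R122.Lines255 Crest.Agent.R122.MWAlg255 Crest.Agent.R122.Decomp811
open Crest.Agent.R122.Kin796 Crest.Agent.R122.Kin796.CTree Crest.Agent.R122.Tree674
open Crest.Agent.R122.TreeLines335
open Crest.Agent.R122.MWFam255 (FamNL PairNL)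
open Crest.Agent.R122.E6Hyp879 (E6Hyp withD)
open Crest.Agent.R122.RealL811 (RL ND DF nd_fam compat_ins touched_lines touched_lines_iff treeW)
open Crest.Agent.R122.Boost969 (LSt)
open Crest.Agent.R122.Pair292 (Lab)
open Crest.Agent.R122.OneC285 (cfT rt cT)
open Crest.Agent.R122.PairD292

namespace Crest.Agent.R122.RealX974

noncomputable section

open scoped Classical

/-- **Later horizon**: all lines have been born at `v'`. -/
theorem RL.ext {α : Type} [Fintype α] {Φ : Space3 → ℝ} {ε v v' : ℝ} {K : ℕ} {W W' : MW α}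
    {D : Set α} (h : RL Φ ε K W W' D v') (hb : ∀ x ∈ D, W'.b x ≤ v') (hv : v' ≤ v) :
    RL Φ ε K W W' D v where
  ok := h.ok
  ok' := h.ok'
  b0 := h.b0
  le := h.le
  bD x hx := (h.bD x hx).trans hv
  off_b := h.off_b
  off_z := h.off_z
  off_m := h.off_m
  closed s j k _ hj hsj hc := h.closed s j k (hsj.trans (hb j hj)) hj hsj hc
  line x hx _ := h.line x hx (hb x hx)
  mark x hx _ := h.mark x hx (hb x hx)
  clean := h.clean
  cleanD x hx hlt := absurd ((hb x hx).trans hv) (not_le.2 hlt)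

section real

variable {ι κ : Type} [Fintype ι] [Fintype κ] {Φ : Space3 → ℝ} {ε T v : ℝ} {K : ℕ}
  {Y : MW ι} {A : MW κ} {F : κ → ML} {x : ML}

/-- Labels of `Y + F + x`. -/
theorem comap_withD (Y : MW ι) (F : κ → ML) (x : ML) :
    ((Y.add (MW.lines F)).ins x).comap (Equiv.sumAssoc ι κ Unit).symm =
      Y.add (MW.lines (withD F x)) := by
  unfold MW.ins MW.add MW.comap MW.line MW.lines withD
  congr 1 <;> · funext x; rcases x with x | x | x <;> rfl

/-- The real cluster `A` with lines `F` in the worlds `Y`, `Y + x`, up to the horizon `v`. -/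
structure RealAt (Φ : Space3 → ℝ) (ε : ℝ) (K : ℕ) (Y : MW ι) (A : MW κ) (F : κ → ML) (x : ML)
    (v : ℝ) : Prop where
  rl₁ : RL Φ ε K (Y.add A) (Y.add (MW.lines F)) (range Sum.inr) v
  rl₂ : RL Φ ε K ((Y.add A).ins x) ((Y.add (MW.lines F)).ins x) (DF ι κ) v
  m₁ : ∀ y ∈ range (Sum.inr : κ → ι ⊕ κ), (Y.add (MW.lines F)).b y ≤ v →
    msize ((Y.add A).C Φ ε) (Y.add A).m ((Y.add (MW.lines F)).b y) y = (Y.add (MW.lines F)).m y
  m₂ : ∀ y ∈ DF ι κ, ((Y.add (MW.lines F)).ins x).b y ≤ v →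
    msize (((Y.add A).ins x).C Φ ε) ((Y.add A).ins x).m (((Y.add (MW.lines F)).ins x).b y) y =
      ((Y.add (MW.lines F)).ins x).m y

theorem RealAt.compat (hΦ : AdmissiblePotential Φ) (hε : 0 < ε)
    (h : RealAt Φ ε K Y A F x v) :
    Compat ((Y.add A).path Φ ε) ((Y.add (MW.lines F)).path Φ ε) (((Y.add A).ins x).path Φ ε)
      (((Y.add (MW.lines F)).ins x).path Φ ε) (id : ι ⊕ κ → ι ⊕ κ) Sum.inl (range Sum.inr)
      (DF ι κ) (Y.add (MW.lines F)).b ((Y.add (MW.lines F)).ins x).b := by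
  have hD : (Sum.inl : ι ⊕ κ → (ι ⊕ κ) ⊕ Unit) '' range Sum.inr = DF ι κ := by
    ext y
    constructor
    · rintro ⟨_, ⟨k, rfl⟩, rfl⟩
      exact ⟨k, rfl⟩
    · rintro ⟨k, rfl⟩
      exact ⟨_, ⟨k, rfl⟩, rfl⟩
  have hC := compat_ins hΦ hε x h.rl₁.off_z
  rw [hD] at hC
  exact hC

/-- **World consistency of a test line `x` for the real cluster `A`** with lines `F`, up to the first
touch of the single lines `F`. The real cluster is real only up to the touch times. -/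
theorem w1_realAt (hΦ : AdmissiblePotential Φ) (hε : 0 < ε) (hT : 0 ≤ T)
    (okA : (Y.add A).Ok Φ ε) (okx : ((Y.add A).ins x).Ok Φ ε)
    (hok : MW.OkFam Φ ε Y (withD F x)) (hnl : PairNL Φ ε K T Y (withD F x))
    (h : ∀ s, 0 ≤ s → s ≤ T → s ≤ firstT Φ ε K T Y F → s ≤ Y.thetaL Φ ε K T x →
      RealAt Φ ε K Y A F x s) :
    W1 (firstT Φ ε K T Y F) (Y.thetaL Φ ε K T x) ((Y.add A).thetaL Φ ε K T x) := by
  have hYok : Y.Ok Φ ε := hok.base hΦ hε
  have hok' : MW.OkFam Φ ε Y F := MWFam255.okFam_comp hΦ hε hok (E6Hyp879.inlEmb κ Unit)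
  have hnl' : PairNL Φ ε K T Y F := fun j k hjk =>
    hnl (Sum.inl j) (Sum.inl k) fun h => hjk (Sum.inl_injective h)
  have hx : (Y.add (MW.line x)).Ok Φ ε := hok.line hΦ hε (Sum.inr ())
  have hfam : Y.theta Φ ε K T (MW.lines F) = firstT Φ ε K T Y F :=
    MWFam255.theta_lines_eq hΦ hε hT hok hnl (E6Hyp879.inlEmb κ Unit)
  have hW : W1 (firstT Φ ε K T Y F) (Y.thetaL Φ ε K T x)
      ((Y.add (MW.lines F)).thetaL Φ ε K T x) := by
    rw [← hfam]
    exact MWFam255.w1E_lines_line hΦ hε hT hok hnl (E6Hyp879.inlEmb κ Unit) (Sum.inr ())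
      fun _ h => by cases h
  refine W1.of_S (fun hle => ?_) (fun hle => ?_)
  · -- a touch in `Y` is a touch in `Y + A`
    rcases MW.theta_le_or (K := K) (T := T) hΦ hε hYok hx with h3 | h3
    · set s := Y.thetaL Φ ε K T x with hs
      have hs0 : 0 ≤ s := MW.theta_nonneg hT
      have hsT : s ≤ T := h3
      have hR := h s hs0 hsT hle le_rfl
      have h4 : (Y.add (MW.lines F)).thetaL Φ ε K T x ≤ s := (hW.eq hle).le
      have hf1 : FamNL Φ ε K T Y F s := MWFam255.famNL_of_pair hok' hnl' hs0 hsT fun k =>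
        hle.trans (firstT_le Φ ε K T Y F k)
      have hf2 : FamNL Φ ε K T Y (withD F x) s :=
        MWFam255.famNL_of_pair hok hnl hs0 hsT fun k => by
          rcases k with k | u
          · exact hle.trans (firstT_le Φ ε K T Y F k)
          · exact le_rfl
      have hT1 : (Y.add (MW.lines F)).Touched Φ ε K (MW.line x) s :=
        (MW.touched_iff hΦ hε hR.rl₁.ok' hR.rl₂.ok' ⟨hs0, hsT⟩).2 h4
      have hN₁ : ND Φ ε K (Y.add A) (Y.add (MW.lines F)) (range Sum.inr) s :=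
        RealL811.nd_of_famNL hΦ hε hf1 hR.rl₁ le_rfl le_rfl hR.m₁ hs0 le_rfl
      have hN₂ : ND Φ ε K ((Y.add A).ins x) ((Y.add (MW.lines F)).ins x) (DF ι κ) s :=
        nd_fam hΦ hε hf2 (comap_withD Y F x) hR.rl₂ le_rfl (by
          rintro _ ⟨k, rfl⟩
          exact ⟨Sum.inl k, rfl⟩) hR.m₂ hs0 le_rfl
      have hT2 : (Y.add A).Touched Φ ε K (MW.line x) s :=
        (touched_lines_iff hΦ hε hR.rl₁ hR.rl₂ (hR.compat hΦ hε) le_rfl
          (fun y => hR.rl₁.inf_iff hΦ hε hR.m₁ le_rfl (hN₁ y))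
          (fun y => hR.rl₂.inf_iff hΦ hε hR.m₂ le_rfl (hN₂ y))).2 hT1
      exact (MW.touched_iff hΦ hε okA okx ⟨hs0, hsT⟩).1 hT2
    · have h4 : Y.thetaL Φ ε K T x = T + 1 := h3
      rw [h4]
      exact MW.theta_le
  · -- a touch in `Y + A` is a touch in `Y`
    rcases MW.theta_le_or (K := K) (T := T) hΦ hε okA okx with h3 | h3
    · set s := (Y.add A).thetaL Φ ε K T x with hs
      have hs0 : 0 ≤ s := MW.theta_nonneg hT
      have hsT : s ≤ T := h3
      by_contra hlt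
      push Not at hlt
      have hR := h s hs0 hsT hle hlt.le
      have hT1 : (Y.add A).Touched Φ ε K (MW.line x) s :=
        (MW.touched_iff hΦ hε okA okx ⟨hs0, hsT⟩).2 le_rfl
      have hT2 : (Y.add (MW.lines F)).Touched Φ ε K (MW.line x) s :=
        touched_lines hΦ hε hR.rl₁ hR.rl₂ (hR.compat hΦ hε) le_rfl hT1
      have h4 : (Y.add (MW.lines F)).thetaL Φ ε K T x ≤ s :=
        (MW.touched_iff hΦ hε hR.rl₁.ok' hR.rl₂.ok' ⟨hs0, hsT⟩).1 hT2
      exact absurd ((hW.iff_le hle).1 h4) (not_le.2 hlt)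
    · have h4 : (Y.add A).thetaL Φ ε K T x = T + 1 := h3
      rw [h4]
      exact MW.theta_le

end real

/-! ### A real tree -/

section tree

variable {ι : Type} [Fintype ι] {Φ : Space3 → ℝ} {ε T T' v : ℝ} {K : ℕ} {Y : MW ι} {P : CTree}
  {z : PhasePoint × Par P} {x : ML}





/-- The data of a tree at the horizon `v`, from helper811's `TreeIn` at this horizon. -/
theorem realAt_tree (hΦ : AdmissiblePotential Φ) (hε : 0 < ε)
    (hV : Valid Φ ε P T' z.1.2 z.2) (hS : Sep Φ ε P T' z.1 z.2) (hT' : 0 < T') (hv : 0 ≤ v)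
    (hK : P.leaves ≤ K) (hb : ∀ y, 0 ≤ Y.b y) (hx : 0 ≤ x.1.1)
    (h₁ : RealL811.TreeIn Φ ε (Y.add (treeW Φ ε P z)) P z Sum.inr (min v T'))
    (h₂ : RealL811.TreeIn Φ ε ((Y.add (treeW Φ ε P z)).ins x) P z
      (fun k => Sum.inl (Sum.inr k)) (min v T'))
    (ok₁ : (Y.add (treeW Φ ε P z)).Ok Φ ε) (ok₂ : ((Y.add (treeW Φ ε P z)).ins x).Ok Φ ε)
    (ok₃ : (Y.add (MW.lines (lineML Φ ε P z))).Ok Φ ε)
    (ok₄ : ((Y.add (MW.lines (lineML Φ ε P z))).ins x).Ok Φ ε) :
    RealAt Φ ε K Y (treeW Φ ε P z) (lineML Φ ε P z) x v := by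
  have hm : min v T' ≤ T' := min_le_right _ _
  have hm0 : 0 ≤ min v T' := le_min hv hT'.le
  have h1 : RL Φ ε K (Y.add (treeW Φ ε P z)) (Y.add (MW.lines (lineML Φ ε P z)))
      (range Sum.inr) (min v T') := RealL811.rl_add hΦ hε hV hS hm hm0 hK h₁ ok₁ ok₃ hb
  have h2 : RL Φ ε K ((Y.add (treeW Φ ε P z)).ins x) ((Y.add (MW.lines (lineML Φ ε P z))).ins x)
      (DF ι (Idx P)) (min v T') :=
    RealL811.rl_add_add (B := MW.line x) hΦ hε hV hS hm hm0 hK h₂ ok₂ ok₄ hb fun _ => hx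
  have hr : ∀ k : Idx P, rel P z.2 k ≤ v → rel P z.2 k ≤ min v T' := fun k hk =>
    le_min hk (TreeLines335.rel_lt hε.le hT' hV.2 k).le
  have m1 := RealL811.marks_add hΦ hε hV hS hm h₁
  have m2 := RealL811.marks_add_add (B := MW.line x) hΦ hε hV hS hm h₂
  rcases le_total v T' with hvT | hvT
  · rw [min_eq_left hvT] at h1 h2 m1 m2
    exact ⟨h1, h2, m1, m2⟩
  · rw [min_eq_right hvT] at h1 h2 m1 m2 hr
    have hr' : ∀ k : Idx P, rel P z.2 k ≤ T' := fun k =>
      (TreeLines335.rel_lt hε.le hT' hV.2 k).le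
    refine ⟨RL.ext h1 ?_ hvT, RL.ext h2 ?_ hvT, ?_, ?_⟩
    · rintro _ ⟨k, rfl⟩
      exact hr' k
    · rintro _ ⟨k, rfl⟩
      exact hr' k
    · rintro _ ⟨k, rfl⟩ _
      exact m1 _ ⟨k, rfl⟩ (hr' k)
    · rintro _ ⟨k, rfl⟩ _
      exact m2 _ ⟨k, rfl⟩ (hr' k)

/-- **World consistency of a test line for a tree which is real up to the touch times.** -/
theorem w1_treeAt (hΦ : AdmissiblePotential Φ) (hε : 0 < ε) (hT : 0 ≤ T)
    (hV : Valid Φ ε P T' z.1.2 z.2) (hS : Sep Φ ε P T' z.1 z.2) (hT' : 0 < T')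
    (hK : P.leaves ≤ K) (hb : ∀ y, 0 ≤ Y.b y) (hx : 0 ≤ x.1.1)
    (h₁ : ∀ s, 0 ≤ s → s ≤ T → s ≤ firstT Φ ε K T Y (lineML Φ ε P z) →
      s ≤ Y.thetaL Φ ε K T x → RealL811.TreeIn Φ ε (Y.add (treeW Φ ε P z)) P z Sum.inr (min s T'))
    (h₂ : ∀ s, 0 ≤ s → s ≤ T → s ≤ firstT Φ ε K T Y (lineML Φ ε P z) →
      s ≤ Y.thetaL Φ ε K T x → RealL811.TreeIn Φ ε ((Y.add (treeW Φ ε P z)).ins x) P z
        (fun k => Sum.inl (Sum.inr k)) (min s T'))
    (ok₁ : (Y.add (treeW Φ ε P z)).Ok Φ ε) (ok₂ : ((Y.add (treeW Φ ε P z)).ins x).Ok Φ ε)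
    (hok : MW.OkFam Φ ε Y (withD (lineML Φ ε P z) x))
    (hnl : PairNL Φ ε K T Y (withD (lineML Φ ε P z) x)) :
    W1 (firstT Φ ε K T Y (lineML Φ ε P z)) (Y.thetaL Φ ε K T x)
      ((Y.add (treeW Φ ε P z)).thetaL Φ ε K T x) := by
  have hok' : MW.OkFam Φ ε Y (lineML Φ ε P z) :=
    MWFam255.okFam_comp hΦ hε hok (E6Hyp879.inlEmb (Idx P) Unit)
  have hokx : ((Y.add (MW.lines (lineML Φ ε P z))).ins x).Ok Φ ε :=
    MWFam255.ok_lines_add hΦ hε hok (E6Hyp879.inlEmb (Idx P) Unit)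
      (⟨fun _ : Unit => Sum.inr (), fun _ _ _ => rfl⟩ : Unit ↪ Idx P ⊕ Unit)
      fun _ _ h => by cases h
  exact w1_realAt hΦ hε hT ok₁ ok₂ hok hnl fun s hs0 hsT h3 h4 =>
    realAt_tree hΦ hε hV hS hT' hs0 hK hb hx (h₁ s hs0 hsT h3 h4) (h₂ s hs0 hsT h3 h4) ok₁ ok₂
      (hok'.lines hΦ hε) hokx

/-- **World consistency of a test line for a real tree.** -/
theorem w1_tree (hΦ : AdmissiblePotential Φ) (hε : 0 < ε) (hT : 0 ≤ T)
    (hV : Valid Φ ε P T' z.1.2 z.2) (hS : Sep Φ ε P T' z.1 z.2) (hT' : 0 < T')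
    (hK : P.leaves ≤ K) (hb : ∀ y, 0 ≤ Y.b y) (hx : 0 ≤ x.1.1)
    (h₁ : Ins45.TreeIn Φ ε (Y.add (treeW Φ ε P z)) P z Sum.inr)
    (h₂ : Ins45.TreeIn Φ ε ((Y.add (treeW Φ ε P z)).ins x) P z fun k => Sum.inl (Sum.inr k))
    (ok₁ : (Y.add (treeW Φ ε P z)).Ok Φ ε) (ok₂ : ((Y.add (treeW Φ ε P z)).ins x).Ok Φ ε)
    (hok : MW.OkFam Φ ε Y (withD (lineML Φ ε P z) x))
    (hnl : PairNL Φ ε K T Y (withD (lineML Φ ε P z) x)) :
    W1 (firstT Φ ε K T Y (lineML Φ ε P z)) (Y.thetaL Φ ε K T x)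
      ((Y.add (treeW Φ ε P z)).thetaL Φ ε K T x) :=
  w1_treeAt hΦ hε hT hV hS hT' hK hb hx (fun _ _ _ _ _ => R6Tree974.toRL h₁ _)
    (fun _ _ _ _ _ => R6Tree974.toRL h₂ _) ok₁ ok₂ hok hnl



end tree

/-! ### From `Real6` -/

section r6

variable {Φ : Space3 → ℝ} {ε te T' : ℝ} {K m : ℕ} {P : CTree} {z : PhasePoint × Par P}
  {w : Config m} {θ : Lab × LSt} {r : Idx P} {e' c' : ML}

/-- **`w_Ld`** of `E6FactsA`. -/
theorem R6.w_Ld (hΦ : AdmissiblePotential Φ) (hε : 0 < ε) (hT : 0 ≤ te) (hK : P.leaves ≤ K)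
    (h : Real6 Φ ε K te T' P z w θ)
    (hE : E6Hyp Φ ε K te (MW.cfg w) (lineML Φ ε P z) r (dL θ) e' c') :
    W1 (firstT Φ ε K te (MW.cfg w) (lineML Φ ε P z)) ((MW.cfg w).thetaL Φ ε K te (dL θ))
      (((MW.cfg w).add (treeW Φ ε P z)).thetaL Φ ε K te (dL θ)) :=
  w1_tree hΦ hε hT h.real.valid h.real.sep (R6Tree974.R6.cT_pos h) hK (fun _ => le_rfl)
    h.okL.d0.le (R6Tree974.R6.in1 hΦ hε h) (R6Tree974.R6.in2' hΦ hε h)
    (R6Tree974.R6.ok1 hΦ hε h) (R6Tree974.R6.ok2' hΦ hε h) hE.ok₁ hE.nl₀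

theorem b_nonneg_ins (h : Real6 Φ ε K te T' P z w θ) :
    ∀ y, 0 ≤ ((MW.cfg w).ins (dL θ)).b y := by
  rintro (y | y)
  · exact le_rfl
  · exact h.okL.d0.le



end r6

end

end Crest.Agent.R122.RealX974
end

-- ▼ part R122/RetIn_974
section

/-!
# A test line which does not return to the tree (row 122, X3), helper974

`Z` base world, `V = treeW Φ ε P z` real in `Z + V` up to the horizon `v` (`TreeIn`), `F = lineML` its
lines, `l` a test line, `FamNL Z (F + l) v` (no touch of a single line before `v`, no link of two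
lines up to `v`), and the clean influence of `l` in `Z + l` does not come near the tubes of the tree
(`¬ RetC`). Then the tree is real in `Z + V + l` up to `v`.

* `path_l₂` : visible particles of `Z + F + l` : coloured by `l`, or as in `Z + V`.
* `avoid` : they stay away from the hidden members.
* `treeIn_ins` : `TreeIn` in `Z + V + l`.
-/

set_option autoImplicit false
set_option linter.unusedSectionVars false

open MeasureTheory Set Filter Topology
open scoped ENNReal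
open Crest.AnalysisR.Kinetic
open Crest.Agent.R122.Flow671 hiding rel
open Crest.Agent.R122.Loc45 Crest.Agent.R122.Ins45
open Crest.Agent.R122.Causal291 Crest.Agent.R122.Inf879 Crest.Agent.R122.EDefs602
open Crest.Agent.R122.Lines255 Crest.Agent.R122.MWAlg255 Crest.Agent.R122.Decomp811
open Crest.Agent.R122.Kin796 Crest.Agent.R122.Kin796.CTree Crest.Agent.R122.Tree674
open Crest.Agent.R122.TreeLines335 Crest.Agent.R122.PathFlow968
open Crest.Agent.R122.MWFam255 (FamNL PairNL CF Col)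
open Crest.Agent.R122.E6Hyp879 (E6Hyp withD)
open Crest.Agent.R122.RealL811 (RL ND DF nd_fam compat_ins touched_lines touched_lines_iff treeW)
open Crest.Agent.R122.OneC285 (ptube)
open Crest.Agent.R122.RealX974

namespace Crest.Agent.R122.RetIn974

noncomputable section

open scoped Classical

variable {ι : Type} [Fintype ι] {Φ : Space3 → ℝ} {ε T T' v u : ℝ} {K : ℕ} {Z : MW ι} {P : CTree}
  {z : PhasePoint × Par P} {l : ML}

/-- Hypotheses for the insertion of a test line. -/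
structure RetHypX (Φ : Space3 → ℝ) (ε : ℝ) (K : ℕ) (T T' v : ℝ) (Z : MW ι) (P : CTree)
    (z : PhasePoint × Par P) (l : ML) : Prop where
  valid : Valid Φ ε P T' z.1.2 z.2
  sep : Sep Φ ε P T' z.1 z.2
  hv : v ≤ T'
  hK : P.leaves ≤ K
  pos : ∀ x, 0 ≤ Z.b x
  l0 : 0 ≤ l.1.1
  tree : RealL811.TreeIn Φ ε (Z.add (treeW Φ ε P z)) P z Sum.inr v
  ok : (Z.add (treeW Φ ε P z)).Ok Φ ε
  okl : ((Z.add (treeW Φ ε P z)).ins l).Ok Φ ε
  /-- no touch before `v`, no link up to `v` -/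
  fam : FamNL Φ ε K T Z (withD (lineML Φ ε P z) l) v
  ret : ¬ LNEv383.RetC Φ ε ε K T Z l (ptube Φ ε P z)
  /-- at time `0` the tree is away from the particles of `Z` -/
  sep0 : ∀ (k : Idx P) x, Z.b x ≤ 0 → ε < dist (Tree674.lines Φ ε P z.1 z.2 k).1 (Z.z x).1

namespace RetHypX

variable (h : RetHypX Φ ε K T T' v Z P z l)

include h in
theorem v0 : 0 ≤ v := h.fam.s0

include h in
theorem famF (hΦ : AdmissiblePotential Φ) (hε : 0 < ε) :
    FamNL Φ ε K T Z (lineML Φ ε P z) v where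
  ok := MWFam255.okFam_comp hΦ hε h.fam.ok (E6Hyp879.inlEmb (Idx P) Unit)
  s0 := h.fam.s0
  sT := h.fam.sT
  le k := h.fam.le (Sum.inl k)
  nl j k hjk := h.fam.nl (Sum.inl j) (Sum.inl k) fun h => hjk (Sum.inl_injective h)

include h in
theorem okL (hΦ : AdmissiblePotential Φ) (hε : 0 < ε) :
    (Z.add (MW.lines (lineML Φ ε P z))).Ok Φ ε := (h.famF hΦ hε).ok.lines hΦ hε

include h in
theorem okLl (hΦ : AdmissiblePotential Φ) (hε : 0 < ε) :
    ((Z.add (MW.lines (lineML Φ ε P z))).ins l).Ok Φ ε :=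
  MWFam255.ok_lines_add hΦ hε h.fam.ok (E6Hyp879.inlEmb (Idx P) Unit)
    (⟨fun _ : Unit => Sum.inr (), fun _ _ _ => rfl⟩ : Unit ↪ Idx P ⊕ Unit)
    fun _ _ h => by cases h

include h in
theorem rl (hΦ : AdmissiblePotential Φ) (hε : 0 < ε) :
    RL Φ ε K (Z.add (treeW Φ ε P z)) (Z.add (MW.lines (lineML Φ ε P z))) (range Sum.inr) v :=
  RealL811.rl_add hΦ hε h.valid h.sep h.hv h.v0 h.hK h.tree h.ok (h.okL hΦ hε) h.pos

/-- The world `Z + F + l`, relabelled. -/
theorem path_comap_withD (hΦ : AdmissiblePotential Φ) (hε : 0 < ε) (F : Idx P → ML)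
    (y : (ι ⊕ Idx P) ⊕ Unit) :
    ((Z.add (MW.lines F)).ins l).path Φ ε u y =
      (Z.add (MW.lines (withD F l))).path Φ ε u (Equiv.sumAssoc ι (Idx P) Unit y) := by
  rw [← comap_withD, EquivE416.path_comap hΦ hε, Equiv.symm_apply_apply]

include h in
/-- **Visible particles of `Z + F + l`**: coloured by `l`, or as in `Z + V`. -/
theorem path_vis (hΦ : AdmissiblePotential Φ) (hε : 0 < ε) (hu : u ∈ Icc 0 v)
    {y : (ι ⊕ Idx P) ⊕ Unit}
    (hy : ((Z.add (MW.lines (lineML Φ ε P z))).ins l).b y ≤ u) :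
    (y = Sum.inr () ∧ ((Z.add (MW.lines (lineML Φ ε P z))).ins l).path Φ ε u y =
        (Z.ins l).path Φ ε u (Sum.inr ())) ∨
    (∃ i, y = Sum.inl (Sum.inl i) ∧ CF Φ ε K Z (MW.line l) u i ∧
      ((Z.add (MW.lines (lineML Φ ε P z))).ins l).path Φ ε u y =
        (Z.ins l).path Φ ε u (Sum.inl i)) ∨
    (∃ y₀, y = Sum.inl y₀ ∧ ((Z.add (MW.lines (lineML Φ ε P z))).ins l).path Φ ε u y =
      (Z.add (treeW Φ ε P z)).path Φ ε u y₀) := by
  have hfam := h.fam
  have hfamF := h.famF hΦ hε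
  have key : ∀ y₀ : ι ⊕ Idx P, (Z.add (MW.lines (lineML Φ ε P z))).b y₀ ≤ u →
      (Z.add (MW.lines (lineML Φ ε P z))).path Φ ε u y₀ =
        (Z.add (treeW Φ ε P z)).path Φ ε u y₀ := fun y₀ hy₀ =>
    (h.rl hΦ hε).agree hΦ hε hu.1 hu.2 hy₀
  rw [path_comap_withD hΦ hε]
  by_cases hx : ∃ j, Col Φ ε K Z (withD (lineML Φ ε P z) l) j u
      (Equiv.sumAssoc ι (Idx P) Unit y)
  · obtain ⟨j, hj⟩ := hx
    have hp := hj.path hΦ hε hfam hu
    rcases j with k | w
    · -- coloured by a line of the tree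
      right; right
      have hnl : y ≠ Sum.inr () := by
        rintro rfl
        rcases hj with hj | ⟨i, hi, _⟩
        · have : (Sum.inr () : Idx P ⊕ Unit) = Sum.inl k := Sum.inr_injective hj
          cases this
        · cases hi
      rcases y with y₀ | w
      swap
      · exact absurd rfl hnl
      refine ⟨y₀, rfl, ?_⟩
      have hcol : Col Φ ε K Z (lineML Φ ε P z) k u y₀ := by
        rcases y₀ with i | k'
        · rcases hj with hj | ⟨i', hi, hi'⟩
          · cases hj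
          · rw [show i = i' from Sum.inl_injective hi]
            exact Or.inr ⟨i', rfl, hi'⟩
        · rcases hj with hj | ⟨i', hi, hi'⟩
          · left
            have : (Sum.inl k' : Idx P ⊕ Unit) = Sum.inl k := Sum.inr_injective hj
            rw [Sum.inl_injective this]
          · cases hi
      have hp' := hcol.path hΦ hε hfamF hu
      rw [hp, ← key y₀ hy, hp']
      congr 1
      rcases y₀ with i | k' <;> rfl
    · -- coloured by `l`
      rcases hj with hj | ⟨i, hi, hi'⟩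
      · left
        have hy' : y = Sum.inr () := by
          rcases y with (i | k) | w'
          · cases hj
          · have : (Sum.inl k : Idx P ⊕ Unit) = Sum.inr w := Sum.inr_injective hj
            cases this
          · rfl
        refine ⟨hy', ?_⟩
        rw [hp, hy']
        rfl
      · right; left
        have hy' : y = Sum.inl (Sum.inl i) := by
          rcases y with (i' | k) | w'
          · rw [show i' = i from Sum.inl_injective hi]
          · cases hi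
          · cases hi
        refine ⟨i, hy', hi', ?_⟩
        rw [hp, hy']
        rfl
  · -- no colour
    push Not at hx
    right; right
    obtain ⟨i, hi, hp, _⟩ := MWFam255.path_no_col hΦ hε hfam hu hx
    have hy' : y = Sum.inl (Sum.inl i) := by
      rcases y with (i' | k) | w'
      · rw [show i' = i from Sum.inl_injective hi]
      · cases hi
      · cases hi
    subst hy'
    refine ⟨Sum.inl i, rfl, ?_⟩
    have hx' : ∀ j, ¬ Col Φ ε K Z (lineML Φ ε P z) j u (Sum.inl i) := by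
      rintro j (hj | ⟨i', hi', hj'⟩)
      · cases hj
      · exact hx (Sum.inl j) (Or.inr ⟨i', by rw [← Sum.inl_injective hi']; rfl, hj'⟩)
    obtain ⟨i₂, hi₂, hp₂, _⟩ := MWFam255.path_no_col hΦ hε hfamF hu hx'
    have hii : i = i₂ := Sum.inl_injective hi₂
    rw [hp, ← key (Sum.inl i) hy, hp₂, hii]

/-- The tube of the tree is its path. -/
theorem curve_eq (hΦ : AdmissiblePotential Φ) (hε : 0 < ε) (hV : Valid Φ ε P T' z.1.2 z.2)
    (hS : Sep Φ ε P T' z.1 z.2) (hu : u ∈ Icc 0 T') (k : Idx P) :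
    (ptube Φ ε P z).c k u = (path Φ ε P z.1 z.2 u k).1 :=
  Hid424.curve_eq_path hΦ hε (X := z.1.1) (v := z.1.2) hV hS hu k

include h in
/-- **The visible particles of `Z + F + l` stay away from the hidden members.** -/
theorem avoid (hΦ : AdmissiblePotential Φ) (hε : 0 < ε) (hu : u ∈ Icc 0 v) {k : Idx P}
    (hk : u ≤ rel P z.2 k) {y : (ι ⊕ Idx P) ⊕ Unit}
    (hy : ((Z.add (MW.lines (lineML Φ ε P z))).ins l).b y ≤ u)
    (hvis : ∀ k', y = Sum.inl (Sum.inr k') → rel P z.2 k' < u) :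
    ε < dist ((Z.add (treeW Φ ε P z)).path Φ ε u (Sum.inr k)).1
      (((Z.add (MW.lines (lineML Φ ε P z))).ins l).path Φ ε u y).1 := by
  have huT' : u ∈ Icc 0 T' := ⟨hu.1, hu.2.trans h.hv⟩
  have huT : u ∈ Icc 0 T := ⟨hu.1, hu.2.trans h.fam.sT⟩
  have hul : u ≤ Z.thetaL Φ ε K T l := hu.2.trans (h.fam.le (Sum.inr ()))
  have hcur : ((Z.add (treeW Φ ε P z)).path Φ ε u (Sum.inr k)).1 = (ptube Φ ε P z).c k u := by
    rw [h.tree.agree k u hu.1 hu.2 hk, curve_eq hΦ hε h.valid h.sep huT']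
  have hnear : ∀ q, ¬ RtG302.near ε (ptube Φ ε P z) u q →
      ε < dist ((Z.add (treeW Φ ε P z)).path Φ ε u (Sum.inr k)).1 q := by
    intro q hq
    by_contra hle
    rw [hcur] at hle
    exact hq ⟨k, hk, not_lt.1 hle⟩
  rcases h.path_vis hΦ hε hu hy with ⟨rfl, hp⟩ | ⟨i, rfl, hi, hp⟩ | ⟨y₀, rfl, hp⟩
  · rw [hp]
    exact hnear _ fun hn => h.ret ⟨u, huT, hul, Or.inl ⟨hy, hn⟩⟩
  · rw [hp]
    exact hnear _ fun hn => h.ret ⟨u, huT, hul, Or.inr ⟨i, hi, hn⟩⟩
  · rw [hp]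
    by_contra hle
    push Not at hle
    have hy₀ : (Z.add (MW.lines (lineML Φ ε P z))).b y₀ ≤ u := hy
    rcases hu.1.lt_or_eq with h0 | h0
    · -- a contact
      have hb : (Z.add (treeW Φ ε P z)).b y₀ ≤ u := by
        rcases y₀ with i | k'
        · exact hy₀
        · exact hu.1
      have hc : (Z.add (treeW Φ ε P z)).C Φ ε u (Sum.inr k) y₀ :=
        ⟨hu.1, hb, Or.inr (Or.inl h0), hle⟩
      obtain ⟨k', hk', hk2⟩ := h.tree.sealed k u y₀ hu.1 hu.2 hk hc
      exact absurd (hvis k' (by rw [← hk'])) (not_lt.2 hk2)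
    · -- time `0`
      subst h0
      rcases y₀ with i | k'
      · rw [MW.path_zero hΦ hε] at hle
        exact absurd (h.sep0 k i hy₀) (not_lt.2 hle)
      · exact absurd (hvis k' rfl) (not_lt.2 (rel_nonneg hε.le h.valid.2 k'))

include h in
/-- The data of `Hid_879`. -/
theorem hidHyp (hΦ : AdmissiblePotential Φ) (hε : 0 < ε) :
    Hid879.HidHyp Φ ε v (Z.add (treeW Φ ε P z)).b ((Z.add (treeW Φ ε P z)).path Φ ε)
      ((Z.add (treeW Φ ε P z)).ins l).b (((Z.add (treeW Φ ε P z)).ins l).path Φ ε)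
      ((Z.add (MW.lines (lineML Φ ε P z))).ins l).b
      (((Z.add (MW.lines (lineML Φ ε P z))).ins l).path Φ ε) Sum.inl
      (DF ι (Idx P)) where
  hX := h.ok.bw
  hX' := h.okl.bw
  hW := (h.okLl hΦ hε).bw
  inj := Sum.inl_injective
  sub := by
    rintro _ ⟨k, rfl⟩
    exact ⟨Sum.inr k, rfl⟩
  birth _ := rfl
  off y hy := by
    rcases y with (i | k) | w
    · rfl
    · exact absurd ⟨k, rfl⟩ hy
    · rfl
  le y := by
    rcases y with (i | k) | w
    · exact le_rfl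
    · exact rel_nonneg hε.le h.valid.2 k
    · exact le_rfl
  pos := by
    rintro _ ⟨k, rfl⟩
    exact rel_nonneg hε.le h.valid.2 k
  init a := by
    rw [MW.path_zero hΦ hε, MW.path_zero hΦ hε]
    rfl
  init' y hy := by
    rw [MW.path_zero hΦ hε, MW.path_zero hΦ hε]
    rcases y with (i | k) | w
    · rfl
    · exact absurd ⟨k, rfl⟩ hy
    · rfl
  match_ a ha hat := by
    obtain ⟨k, hk⟩ := ha
    have hka : Sum.inr k = a := Sum.inl_injective hk
    subst hka
    have h0 := rel_nonneg hε.le h.valid.2 k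
    have hat' : rel P z.2 k ≤ v := hat
    have h1 : ((Z.add (MW.lines (lineML Φ ε P z))).ins l).path Φ ε (rel P z.2 k)
        (Sum.inl (Sum.inr k)) = (lineML Φ ε P z k).1.2 :=
      Hid879.path_birth hΦ hε (h.okLl hΦ hε).bw (l := (lineML Φ ε P z k).1) rfl rfl h0
    have h2 : (Z.add (treeW Φ ε P z)).path Φ ε (rel P z.2 k) (Sum.inr k) =
        (lineML Φ ε P z k).1.2 := by
      rw [h.tree.agree k _ h0 hat' le_rfl,
        RtG302.path_after_rel hε P T' z.1 z.2 h.valid k _ le_rfl]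
      rfl
    exact h1.trans h2.symm
  closed u hu a a' ha hua ha' hd := by
    obtain ⟨k, hk⟩ := ha
    have hka : Sum.inr k = a := Sum.inl_injective hk
    subst hka
    have hua' : u ≤ rel P z.2 k := hua
    rcases hu.1.lt_or_eq with h0 | h0
    · have hc : (Z.add (treeW Φ ε P z)).C Φ ε u (Sum.inr k) a' :=
        ⟨hu.1, ha', Or.inr (Or.inl h0), hd⟩
      obtain ⟨k', rfl, hk2⟩ := h.tree.sealed k u a' hu.1 hu.2 hua' hc
      exact ⟨⟨k', rfl⟩, hk2⟩
    · subst h0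
      rcases a' with i | k'
      · rw [MW.path_zero hΦ hε] at hd
        exact absurd (h.sep0 k i ha') (not_lt.2 hd)
      · exact ⟨⟨k', rfl⟩, rel_nonneg hε.le h.valid.2 k'⟩
  avoid u hu a ha hua y hy hvis := by
    obtain ⟨k, hk⟩ := ha
    have hka : Sum.inr k = a := Sum.inl_injective hk
    subst hka
    refine h.avoid hΦ hε hu hua hy fun k' hk' => ?_
    by_contra hlt
    exact hvis ⟨⟨k', hk'.symm⟩, by rw [hk']; exact not_lt.1 hlt⟩

include h in
/-- **The tree is real in `Z + V + l`.** -/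
theorem treeIn_ins (hΦ : AdmissiblePotential Φ) (hε : 0 < ε) :
    RealL811.TreeIn Φ ε ((Z.add (treeW Φ ε P z)).ins l) P z (fun k => Sum.inl (Sum.inr k)) v := by
  have hag := (h.hidHyp hΦ hε).agree hΦ hε h.v0
  refine ⟨Sum.inl_injective.comp Sum.inr_injective, fun _ => rfl, fun _ => rfl, ?_, ?_⟩
  · intro k u h0 huv hk
    rw [(hag u ⟨h0, huv⟩).1 (Sum.inr k) ⟨k, rfl⟩ hk]
    exact h.tree.agree k u h0 huv hk
  · intro k u j h0 huv hk hc
    by_contra hno
    push Not at hno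
    have hvis : ∀ k', j = Sum.inl (Sum.inr k') → rel P z.2 k' < u := fun k' hk' =>
      hno k' hk'.symm
    have hb : ((Z.add (MW.lines (lineML Φ ε P z))).ins l).b j ≤ u := by
      rcases j with (i | k') | w
      · exact hc.2.1
      · exact (hvis k' rfl).le
      · exact hc.2.1
    have h1 := h.avoid hΦ hε ⟨h0, huv⟩ hk hb hvis
    rw [← (hag u ⟨h0, huv⟩).1 (Sum.inr k) ⟨k, rfl⟩ hk,
      ← (hag u ⟨h0, huv⟩).2 j fun _ => hb] at h1
    exact absurd hc.2.2.2 (not_le.2 h1)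

end RetHypX

end

end Crest.Agent.R122.RetIn974
end

-- ▼ part R122/BadX_974

/-!
# The exceptional lines of inequality 3 (row 122, E6: X1, X2, X3), helper974

* `GoodXB Φ ε K T Y P z l` : the line `l` is good for the tree `z` in the base world `Y` (X1, X2, X3);
  `goodX_iff` : helper335's `GoodX` is the case `Y = cfg w`.
* `not_mem_badF` : a good line is not in `badF Y (treeW z) (lineML z)`, `z` real in `Y + V`.
* `lk_le` : `lk Y (treeW z) (lineML z) ≤ L * lineM {l | ¬ GoodXB}`.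
* `R6.lk₁`, `R6.lk₂` : from `Real6` and `E6Hyp`, `Y = cfg w`, `Y = (cfg w).ins d`.
-/

set_option autoImplicit false
set_option linter.unusedSectionVars false

open MeasureTheory Set Filter Topology
open scoped ENNReal
open Crest.AnalysisR.Kinetic
open Crest.Agent.R122.Flow671 hiding rel
open Crest.Agent.R122.Loc45 Crest.Agent.R122.Ins45
open Crest.Agent.R122.Causal291 Crest.Agent.R122.Inf879 Crest.Agent.R122.EDefs602
open Crest.Agent.R122.Lines255 Crest.Agent.R122.MWAlg255 Crest.Agent.R122.Decomp811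
open Crest.Agent.R122.Kin796 Crest.Agent.R122.Kin796.CTree Crest.Agent.R122.Tree674
open Crest.Agent.R122.TreeLines335 Crest.Agent.R122.PathFlow968
open Crest.Agent.R122.MWFam255 (FamNL PairNL CF Col)
open Crest.Agent.R122.E6Hyp879 (E6Hyp withD)
open Crest.Agent.R122.RealL811 (RL ND DF treeW)
open Crest.Agent.R122.OneC285 (ptube cfT rt cT)
open Crest.Agent.R122.Boost969 (LSt)
open Crest.Agent.R122.Pair292 (Lab)
open Crest.Agent.R122.PairD292
open Crest.Agent.R122.RealX974 Crest.Agent.R122.RetIn974 Crest.Agent.R122.R6Tree974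

namespace Crest.Agent.R122.BadX974

noncomputable section

open scoped Classical

variable {ι : Type} [Fintype ι] {Φ : Space3 → ℝ} {ε T T' : ℝ} {K : ℕ} {Y : MW ι} {P : CTree}
  {z : PhasePoint × Par P} {l : ML}

/-- The line `l` is good for the tree `z` in the base world `Y`. -/
structure GoodXB (Φ : Space3 → ℝ) (ε : ℝ) (K : ℕ) (T : ℝ) (Y : MW ι) (P : CTree)
    (z : PhasePoint × Par P) (l : ML) : Prop where
  /-- (X1) the lines of the tree and `l` can be inserted together in `Y` -/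
  ok : MW.OkFam Φ ε Y (withD (lineML Φ ε P z) l)
  /-- (X1) the real world with `l` -/
  okr : ((Y.add (treeW Φ ε P z)).ins l).Ok Φ ε
  /-- (X2) no link -/
  nl : ∀ i : Idx P, MW.NoLink Φ ε K T Y (MW.line (lineML Φ ε P z i)) (MW.line l)
  /-- (X3) no return -/
  ret : ¬ LNEv383.RetC Φ ε ε K T Y l (ptube Φ ε P z)

theorem goodX_iff {m : ℕ} {w : Config m} :
    InEq2T.GoodX Φ ε K T P z w l ↔ GoodXB Φ ε K T (MW.cfg w) P z l :=
  ⟨fun h => ⟨h.ok, h.okr, h.nl, h.ret⟩, fun h => ⟨h.ok, h.okr, h.nl, h.ret⟩⟩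

/-- The family of the lines of the tree and `l`. -/
theorem pairNL_withD {κ : Type} [Fintype κ] {F : κ → ML} (h : PairNL Φ ε K T Y F)
    (hl : ∀ i, MW.NoLink Φ ε K T Y (MW.line (F i)) (MW.line l)) :
    PairNL Φ ε K T Y (withD F l) := by
  rintro (j | j) (k | k) hjk
  · exact h j k fun h => hjk (congrArg _ h)
  · exact hl j
  · exact (hl k).symm
  · exact absurd rfl hjk

/-- Data of a real tree in a base world. -/
structure RealBase (Φ : Space3 → ℝ) (ε : ℝ) (K : ℕ) (T T' : ℝ) (Y : MW ι) (P : CTree)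
    (z : PhasePoint × Par P) : Prop where
  valid : Valid Φ ε P T' z.1.2 z.2
  sep : Sep Φ ε P T' z.1 z.2
  T'pos : 0 < T'
  hK : P.leaves ≤ K
  pos : ∀ x, 0 ≤ Y.b x
  /-- the tree is real up to the horizon -/
  tree : ∀ s, s ≤ T → RealL811.TreeIn Φ ε (Y.add (treeW Φ ε P z)) P z Sum.inr (min s T')
  ok : (Y.add (treeW Φ ε P z)).Ok Φ ε
  nl : PairNL Φ ε K T Y (lineML Φ ε P z)
  /-- at time `0` the tree is away from the particles of `Y` -/
  sep0 : ∀ (k : Idx P) x, Y.b x ≤ 0 → ε < dist (Tree674.lines Φ ε P z.1 z.2 k).1 (Y.z x).1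

/-- **World consistency of a good line.** -/
theorem w1_of_good (hΦ : AdmissiblePotential Φ) (hε : 0 < ε) (hT : 0 ≤ T)
    (h : RealBase Φ ε K T T' Y P z) (hl : 0 ≤ l.1.1) (hg : GoodXB Φ ε K T Y P z l) :
    W1 (firstT Φ ε K T Y (lineML Φ ε P z)) (Y.thetaL Φ ε K T l)
      ((Y.add (treeW Φ ε P z)).thetaL Φ ε K T l) := by
  have hnl := pairNL_withD h.nl hg.nl
  refine w1_treeAt hΦ hε hT h.valid h.sep h.T'pos h.hK h.pos hl
    (fun s _ hsT _ _ => h.tree s hsT) (fun s hs0 hsT hsF hsl => ?_) h.ok hg.okr hg.ok hnl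
  have hfam : FamNL Φ ε K T Y (withD (lineML Φ ε P z) l) s :=
    MWFam255.famNL_of_pair hg.ok hnl hs0 hsT fun k => by
      rcases k with k | u
      · exact hsF.trans (firstT_le Φ ε K T Y (lineML Φ ε P z) k)
      · exact hsl
  have hm0 : 0 ≤ min s T' := le_min hs0 h.T'pos.le
  have hR : RetHypX Φ ε K T T' (min s T') Y P z l :=
    ⟨h.valid, h.sep, min_le_right _ _, h.hK, h.pos, hl, h.tree s hsT, h.ok, hg.okr,
      hfam.mono hm0 (min_le_left _ _), hg.ret, h.sep0⟩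
  exact hR.treeIn_ins hΦ hε


/-- **The measure of `badF`.** -/
theorem lineM_badF_le (hΦ : AdmissiblePotential Φ) (hε : 0 < ε) (hT : 0 ≤ T) {γ : ℝ → ℝ}
    (hγ : Measurable γ) {ρ : ℝ≥0∞} (h : RealBase Φ ε K T T' Y P z) :
    lineM γ ρ K T (badF Φ ε K T Y (treeW Φ ε P z) (lineML Φ ε P z)) ≤
      lineM γ ρ K T {l | ¬ GoodXB Φ ε K T Y P z l} := by
  refine measure_mono_ae ?_
  filter_upwards [EBasic602.lineM_ae hγ] with l hl hbad hg
  exact hbad (w1_of_good hΦ hε hT h hl.1.le hg)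

/-- **The link term**. -/
theorem lk_le (hΦ : AdmissiblePotential Φ) (hε : 0 < ε) {Q : EPar} (hT : 0 ≤ Q.te)
    (hγ : Measurable Q.γ) (h : RealBase Φ ε K Q.te T' Y P z) :
    lk Φ ε K Q Y (treeW Φ ε P z) (lineML Φ ε P z) ≤
      ENNReal.ofReal Q.L * lineM Q.γ Q.ρ K Q.te {l | ¬ GoodXB Φ ε K Q.te Y P z l} := by
  unfold lk
  exact mul_le_mul_right (lineM_badF_le hΦ hε hT hγ h) _

/-! ### From `Real6` -/

section r6

variable {te : ℝ} {m : ℕ} {w : Config m} {θ : Lab × LSt} {r : Idx P} {e' c' : ML}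

theorem sep0_w (h : Real6 Φ ε K te T' P z w θ) (k : Idx P) (x : Fin m) :
    ε < dist (Tree674.lines Φ ε P z.1 z.2 k).1 (w x).1 := by
  have h1 := h.perp (Relabel674.eP P k) x
  rwa [cfT_apply] at h1

/-- Base world `w`. -/
theorem R6.base₁ (hΦ : AdmissiblePotential Φ) (hε : 0 < ε) (hK : P.leaves ≤ K)
    (h : Real6 Φ ε K te T' P z w θ)
    (hE : E6Hyp Φ ε K te (MW.cfg w) (lineML Φ ε P z) r (dL θ) e' c') :
    RealBase Φ ε K te (cT ε z (eL θ)) (MW.cfg w) P z :=
  ⟨h.real.valid, h.real.sep, R6Tree974.R6.cT_pos h, hK, fun _ => le_rfl,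
    fun _ _ => toRL (R6Tree974.R6.in1 hΦ hε h) _,
    R6Tree974.R6.ok1 hΦ hε h,
    fun j k hjk => hE.nl₀ (Sum.inl j) (Sum.inl k) fun h => hjk (Sum.inl_injective h),
    fun k x _ => sep0_w h k x⟩

/-- Base world `w + d`. -/
theorem R6.base₂ (hΦ : AdmissiblePotential Φ) (hε : 0 < ε) (hK : P.leaves ≤ K)
    (h : Real6 Φ ε K te T' P z w θ)
    (hE : E6Hyp Φ ε K te (MW.cfg w) (lineML Φ ε P z) r (dL θ) e' c') :
    RealBase Φ ε K te (cT ε z (eL θ)) ((MW.cfg w).ins (dL θ)) P z :=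
  ⟨h.real.valid, h.real.sep, R6Tree974.R6.cT_pos h, hK, b_nonneg_ins h,
    fun _ _ => toRL (R6Tree974.R6.in2 hΦ hε h) _, R6Tree974.R6.ok2 hΦ hε h, hE.nl₁, fun k x hx => by
      rcases x with x | u
      · exact sep0_w h k x
      · exact absurd hx (not_le.2 h.okL.d0)⟩

/-- **The link term in the world `w`.** -/
theorem R6.lk₁ (hΦ : AdmissiblePotential Φ) (hε : 0 < ε) {Q : EPar} (hT : 0 ≤ Q.te)
    (hγ : Measurable Q.γ) (hK : P.leaves ≤ K) (h : Real6 Φ ε K Q.te T' P z w θ)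
    (hE : E6Hyp Φ ε K Q.te (MW.cfg w) (lineML Φ ε P z) r (dL θ) e' c') :
    lk Φ ε K Q (MW.cfg w) (treeW Φ ε P z) (lineML Φ ε P z) ≤
      ENNReal.ofReal Q.L * lineM Q.γ Q.ρ K Q.te (InEq2T.lkX Φ ε K Q.te P z w) := by
  refine (lk_le hΦ hε hT hγ (R6.base₁ hΦ hε hK h hE)).trans (le_of_eq ?_)
  congr 2
  ext l
  exact not_congr goodX_iff.symm

/-- **The link term in the world `w + d`.** -/
theorem R6.lk₂ (hΦ : AdmissiblePotential Φ) (hε : 0 < ε) {Q : EPar} (hT : 0 ≤ Q.te)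
    (hγ : Measurable Q.γ) (hK : P.leaves ≤ K) (h : Real6 Φ ε K Q.te T' P z w θ)
    (hE : E6Hyp Φ ε K Q.te (MW.cfg w) (lineML Φ ε P z) r (dL θ) e' c') :
    lk Φ ε K Q ((MW.cfg w).ins (dL θ)) (treeW Φ ε P z) (lineML Φ ε P z) ≤
      ENNReal.ofReal Q.L * lineM Q.γ Q.ρ K Q.te
        {l | ¬ GoodXB Φ ε K Q.te ((MW.cfg w).ins (dL θ)) P z l} :=
  lk_le hΦ hε hT hγ (R6.base₂ hΦ hε hK h hE)

end r6

/-! ### Valid separated trees which are real in `w + V` (error term `errA`) -/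

section errA

variable {te : ℝ} {m : ℕ} {w : Config m}

theorem treeW_eq (h : Adm Φ P z.1.2 z.2) : InEq2T.treeW Φ ε P z = RealL811.treeW Φ ε P z := by
  unfold InEq2T.treeW RealL811.treeW
  rw [Tree674.linesM_of_adm ε h]






end errA

end

end Crest.Agent.R122.BadX974
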