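import Crest.Agent.R122.TreeEps_399

/-!
Row 122, block C3 (helper399): for generic valid straight-line trees the separation `Sep` holds for
all small `ε > 0`.
-/

set_option autoImplicit false

open MeasureTheory Set Filter
open scoped ENNReal Topology Classical
open Crest.AnalysisR.Kinetic Crest.Agent.R122.Kin796 Crest.Agent.R122.Disc416
  Crest.Agent.R122.Kin416 Crest.Agent.R122.Boltz814 Crest.Agent.R122.Tree674
  Crest.Agent.R122.Scat818 Crest.Agent.R122.TreeF399

noncomputable section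

namespace Crest.Agent.R122.TreeEps399

variable {Φ : Space3 → ℝ}

/-! ### Distances outside of the window -/

theorem dist_in (hΦ : AdmissiblePotential Φ) {ε u : ℝ} (hε : 0 < ε) {v : Space3} {a : NodeP}
    (hA : Adm1 Φ v a) (hu : u < Tree674.sin Φ ε v a) (Y : Space3) :
    ε < dist (onLine (inMap Φ ε (Y, v) a).1 u).1 (onLine (inMap Φ ε (Y, v) a).2 u).1 := by
  have e : (onLine (inMap Φ ε (Y, v) a).2 u).1 - (onLine (inMap Φ ε (Y, v) a).1 u).1 =
      ε • qx Φ (nb v a) (ng v a) +
        (Tree674.sin Φ ε v a - u) • exitVelocity Φ (nb v a) (ng v a) := by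
    rw [← preV_sub]
    simp only [onLine, inMap, xin]
    module
  rw [dist_comm, dist_eq_norm, e]
  exact diverge hε (by linarith) (norm_qx hA) (inner_qx hΦ hA)

theorem dist_out {ε u : ℝ} (hε : 0 < ε) {v : Space3} {a : NodeP}
    (hA : Adm1 Φ v a) (hu : a.1 < u) (Y : Space3) :
    ε < dist (onLine (Y, v) u).1 (onLine (outLine ε (Y, v) a) u).1 := by
  obtain ⟨hb, hg⟩ := adm1_disc hA
  have e : (onLine (Y, v) u).1 - (onLine (outLine ε (Y, v) a) u).1 =
      ε • (-entrancePoint (nb v a) (ng v a)) + (u - a.1) • ng v a := by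
    simp only [onLine, outLine, ng]
    module
  rw [dist_eq_norm, e]
  refine diverge hε (by linarith) (by rw [norm_neg, norm_entrance hb hg]) ?_
  rw [inner_neg_left]
  have := inner_entrance_neg hb hg
  linarith

/-! ### Windows -/

theorem inWindow_lt {P : CTree} {T : ℝ} {v : Space3} {p : Par P} {i j : Idx P} {s : ℝ}
    (hO : Tree674.Ord Φ 0 P T v p) (h : InWindow Φ 0 P v p i j s) : s < T := by
  induction P generalizing T v with
  | leaf => exact h.elim
  | node l r hl hr =>
    obtain ⟨hT, h0, hOl, hOr⟩ := hO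
    rw [sin_zero] at h0 hOl hOr
    rcases h with ⟨_, _, _, h2⟩ | ⟨i', j', _, _, h'⟩ | ⟨i', j', _, _, h'⟩
    · exact h2.trans_lt hT
    · exact (hl hOl h').trans hT
    · exact (hr hOr h').trans hT

/-- the local statement near the time of a collision -/
theorem loc (hΦ : AdmissiblePotential Φ) (P : CTree) (v : Space3) (p : Par P) (T : ℝ)
    (hA : Adm Φ P v p) (hO : Tree674.Ord Φ 0 P T v p) (X : ℝ → Space3) (i j : Idx P) (s : ℝ)
    (h : InWindow Φ 0 P v p i j s) :
    ∃ κ > 0, ∀ᶠ ε in L, ∀ u : ℝ, |u - s| < κ → ¬ InWindow Φ ε P v p i j u →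
      ε < dist (path Φ ε P (X ε, v) p u i).1 (path Φ ε P (X ε, v) p u j).1 := by
  induction P generalizing v T X s with
  | leaf => exact h.elim
  | node l r hl hr =>
    obtain ⟨hA1, hAl, hAr⟩ := hA
    obtain ⟨hT, h0, hOl, hOr⟩ := hO
    rw [sin_zero] at h0 hOl hOr
    rcases h with ⟨hi, hj, h1, h2⟩ | ⟨i', j', hi, hj, h'⟩ | ⟨i', j', hi, hj, h'⟩
    · -- the top node
      subst hi hj
      rw [sin_zero] at h1
      have hs : s = p.1.1 := le_antisymm h2 h1
      subst hs
      obtain ⟨κl, hκl, htl⟩ := exists_top (top_of_ord hOl)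
      obtain ⟨κr, hκr, htr⟩ := exists_top (top_of_ord hOr)
      refine ⟨min κl κr, lt_min hκl hκr, ?_⟩
      filter_upwards [eventually_pos] with ε hε u hu hw
      rw [abs_lt] at hu
      by_cases hu1 : u < Tree674.sin Φ ε v p.1
      · rw [path_node_le (ℓ := (X ε, v)) hu1.le]
        simp only [Sum.elim_inl, Sum.elim_inr]
        rw [path_root hε.le (htl.mono (by have := min_le_left κl κr; linarith)),
          path_root hε.le (htr.mono (by have := min_le_right κl κr; linarith))]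
        exact dist_in hΦ hε hA1 hu1 _
      · by_cases hu2 : p.1.1 < u
        · rw [path_node_gt (ℓ := (X ε, v)) ((sin_le hε.le v p.1).trans_lt hu2),
            colPath_out hu2.le]
          simp only [Sum.elim_inl, Sum.elim_inr, Function.update_self]
          exact dist_out hε hA1 hu2 _
        · exact absurd (Or.inl ⟨rfl, rfl, not_lt.mp hu1, not_lt.mp hu2⟩) hw
    · -- a node of the left branch
      subst hi hj
      obtain ⟨κ, hκ, hev⟩ := hl (preV Φ v p.1).1 p.2.1 p.1.1 hAl hOl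
        (fun ε => (inMap Φ ε (X ε, v) p.1).1.1) i' j' s h'
      have hst : s < p.1.1 := inWindow_lt hOl h'
      refine ⟨min κ ((p.1.1 - s) / 2), lt_min hκ (by linarith), ?_⟩
      have e1 : ∀ᶠ ε in L, s + (p.1.1 - s) / 2 < Tree674.sin Φ ε v p.1 :=
        (tendsto_sin v p.1).eventually (lt_mem_nhds (by linarith))
      filter_upwards [hev, e1] with ε h1 h2 u hu hw
      have hu' : |u - s| < κ := hu.trans_le (min_le_left _ _)
      have hu2 : u ≤ Tree674.sin Φ ε v p.1 := by
        have := (abs_lt.mp (hu.trans_le (min_le_right _ _))).2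
        linarith
      rw [path_node_le (ℓ := (X ε, v)) hu2]
      exact h1 u hu' (fun hc => hw (Or.inr (Or.inl ⟨i', j', rfl, rfl, hc⟩)))
    · -- a node of the right branch
      subst hi hj
      obtain ⟨κ, hκ, hev⟩ := hr (preV Φ v p.1).2 p.2.2 p.1.1 hAr hOr
        (fun ε => (inMap Φ ε (X ε, v) p.1).2.1) i' j' s h'
      have hst : s < p.1.1 := inWindow_lt hOr h'
      refine ⟨min κ ((p.1.1 - s) / 2), lt_min hκ (by linarith), ?_⟩
      have e1 : ∀ᶠ ε in L, s + (p.1.1 - s) / 2 < Tree674.sin Φ ε v p.1 :=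
        (tendsto_sin v p.1).eventually (lt_mem_nhds (by linarith))
      filter_upwards [hev, e1] with ε h1 h2 u hu hw
      have hu' : |u - s| < κ := hu.trans_le (min_le_left _ _)
      have hu2 : u ≤ Tree674.sin Φ ε v p.1 := by
        have := (abs_lt.mp (hu.trans_le (min_le_right _ _))).2
        linarith
      rw [path_node_le (ℓ := (X ε, v)) hu2]
      exact h1 u hu' (fun hc => hw (Or.inr (Or.inr ⟨i', j', rfl, rfl, hc⟩)))

/-- a statement which holds locally in time and eventually in `ε` holds on compact time intervals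
eventually in `ε` -/
theorem eventually_of_local {T : ℝ} {R : ℝ → ℝ → Prop}
    (h : ∀ s ∈ Icc 0 T, ∃ κ > 0, ∀ᶠ ε in L, ∀ u : ℝ, |u - s| < κ → 0 ≤ u → R ε u) :
    ∀ᶠ ε in L, ∀ u ∈ Icc 0 T, R ε u := by
  choose! κ hκ hev using h
  obtain ⟨t, ht, hcov⟩ := isCompact_Icc.elim_nhds_subcover (fun s => Metric.ball s (κ s))
    (fun s hs => Metric.ball_mem_nhds s (hκ s hs))
  have h1 : ∀ᶠ ε in L, ∀ s ∈ t, ∀ u : ℝ, |u - s| < κ s → 0 ≤ u → R ε u :=
    (Finset.eventually_all t).mpr fun s hs => hev s (ht s hs)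
  filter_upwards [h1] with ε hε u hu
  obtain ⟨s, hs, hus⟩ := mem_iUnion₂.mp (hcov hu)
  exact hε s hs u (by rwa [Metric.mem_ball, Real.dist_eq] at hus) hu.1

/-- **C3c** -/
theorem sep_eventually (hΦ : AdmissiblePotential Φ) (P : CTree) (ℓ : PhasePoint) (p : Par P)
    (T : ℝ) (hV : Valid Φ 0 P T ℓ.2 p) (hG : Gen Φ P ℓ p) :
    ∀ᶠ ε in L, Sep Φ ε P T ℓ p := by
  have hmain : ∀ i j : Idx P, i ≠ j → ∀ᶠ ε in L, ∀ u ∈ Icc 0 T, ¬ InWindow Φ ε P ℓ.2 p i j u →
      ¬ InWindow Φ ε P ℓ.2 p j i u →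
        ε < dist (path Φ ε P ℓ p u i).1 (path Φ ε P ℓ p u j).1 := by
    intro i j hij
    refine eventually_of_local fun s hs => ?_
    by_cases h1 : InWindow Φ 0 P ℓ.2 p i j s
    · obtain ⟨κ, hκ, hev⟩ := loc hΦ P ℓ.2 p T hV.1 hV.2 (fun _ => ℓ.1) i j s h1
      refine ⟨κ, hκ, ?_⟩
      filter_upwards [hev] with ε hε u hu _ hw1 _
      exact hε u hu hw1
    · by_cases h2 : InWindow Φ 0 P ℓ.2 p j i s
      · obtain ⟨κ, hκ, hev⟩ := loc hΦ P ℓ.2 p T hV.1 hV.2 (fun _ => ℓ.1) j i s h2
        refine ⟨κ, hκ, ?_⟩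
        filter_upwards [hev] with ε hε u hu _ _ hw2
        rw [dist_comm]
        exact hε u hu hw2
      · have hne := hG i j hij s hs.1 h1 h2
        have hd : 0 < dist (path Φ 0 P ℓ p s i).1 (path Φ 0 P ℓ p s j).1 := dist_pos.mpr hne
        set d := dist (path Φ 0 P ℓ p s i).1 (path Φ 0 P ℓ p s j).1 with hd'
        have hcont : Continuous fun u => dist (path Φ 0 P ℓ p u i).1 (path Φ 0 P ℓ p u j).1 :=
          (continuous_path0 P ℓ p T hV.2 i).dist (continuous_path0 P ℓ p T hV.2 j)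
        have hev : ∀ᶠ u in 𝓝 s, d / 2 < dist (path Φ 0 P ℓ p u i).1 (path Φ 0 P ℓ p u j).1 :=
          hcont.continuousAt.eventually (lt_mem_nhds (by linarith))
        obtain ⟨κ, hκ, hball⟩ := Metric.eventually_nhds_iff.mp hev
        refine ⟨κ, hκ, ?_⟩
        have hcl := path_close P ℓ.2 p T hV.1 hV.2 (fun _ => ℓ.1) ℓ.1 tendsto_const_nhds (d / 8)
          (by positivity)
        have he : ∀ᶠ ε in L, ε * 1 < d / 4 := eventually_mul_lt 1 (by positivity)
        filter_upwards [hcl, he] with ε h3 h4 u hu _ _ _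
        have h5 := hball (show dist u s < κ by rwa [Real.dist_eq])
        have h6 := h3 u i
        have h7 := h3 u j
        have h8 := dist_triangle4 (path Φ 0 P ℓ p u i).1 (path Φ ε P ℓ p u i).1
          (path Φ ε P ℓ p u j).1 (path Φ 0 P ℓ p u j).1
        have h9 : dist (path Φ 0 P ℓ p u i).1 (path Φ ε P ℓ p u i).1 < d / 8 := by
          rw [dist_comm]; exact h6
        have h10 : dist (path Φ ε P ℓ p u j).1 (path Φ 0 P ℓ p u j).1 < d / 8 := h7
        linarith
  have hall : ∀ᶠ ε in L, ∀ i j : Idx P, i ≠ j → ∀ u ∈ Icc 0 T, ¬ InWindow Φ ε P ℓ.2 p i j u →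
      ¬ InWindow Φ ε P ℓ.2 p j i u →
        ε < dist (path Φ ε P ℓ p u i).1 (path Φ ε P ℓ p u j).1 := by
    rw [eventually_all]
    intro i
    rw [eventually_all]
    intro j
    by_cases hij : i = j
    · exact Eventually.of_forall fun _ h => absurd hij h
    · filter_upwards [hmain i j hij] with ε hε _
      exact hε
  exact hall

/-! ### Velocities -/

/-- `u` is not the time of a node -/
def NotTime : ∀ P : CTree, Par P → ℝ → Prop
  | .leaf => fun _ _ => True
  | .node l r => fun p u => u ≠ p.1.1 ∧ NotTime l p.2.1 u ∧ NotTime r p.2.2 u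


/-- the initial configuration converges, with constant velocities -/
theorem lines_close (P : CTree) (v : Space3) (p : Par P) (X : ℝ → Space3) (X0 : Space3)
    (hX : Tendsto X L (𝓝 X0)) (i : Idx P) :
    Tendsto (fun ε => (lines Φ ε P (X ε, v) p i).1) L (𝓝 (lines Φ 0 P (X0, v) p i).1) ∧
      ∀ ε, (lines Φ ε P (X ε, v) p i).2 = (lines Φ 0 P (X0, v) p i).2 := by
  induction P generalizing v X X0 with
  | leaf => exact ⟨hX, fun _ => rfl⟩
  | node l r hl hr =>
    rcases i with i | i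
    · exact hl (preV Φ v p.1).1 p.2.1 _ _ (tendsto_in1 (Φ := Φ) hX v p.1) i
    · exact hr (preV Φ v p.1).2 p.2.2 _ _ (tendsto_in2 (Φ := Φ) hX v p.1) i

end Crest.Agent.R122.TreeEps399
end
private theorem rz_84d82d2d6b : type_of% @_root_.Crest.Agent.R122.TreeEps399.NotTime.eq_def := @_root_.Crest.Agent.R122.TreeEps399.NotTime.eq_def -- L202
private theorem rz_5fe5bdb637 : type_of% @_root_.Crest.Agent.R122.TreeEps399.NotTime.eq_1 := @_root_.Crest.Agent.R122.TreeEps399.NotTime.eq_1 -- L202
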