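import Crest.Agent.R122.TreeLim_974
import Crest.Agent.R122.GIVUse_424
import Crest.Agent.R122.HidLam2_424
import Crest.Agent.R122.ForestInt_399

/-!
# Row 122 (helper974), F7 part 1: protected tubes of a tree

* `PT Φ ε P t ℓ p` : the protected tubes of the tree (positions of `path`, end times `prot`).
* `conv_PT` : `GIV` at time `t` gives the convergence of the avoidance probability of the protected
  tubes, in `L¹_loc` of the root position, for every generic valid tree.
* `dampG_PT` : the kinetic avoidance probability is `exp (-LamP)`.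
* `tree_limit_F` : the limit of the tree integrals is the term of the collision tree series.
-/

set_option autoImplicit false

open MeasureTheory Set Filter
open scoped ENNReal Topology Classical NNReal
open Crest.AnalysisR.Kinetic Crest.Agent.R122.Kin796 Crest.Agent.R122.Disc416
  Crest.Agent.R122.Tree674 Crest.Agent.R122.TreeEps399 Crest.Agent.R122.TreeDom974
  Crest.Agent.R122.TreeLim974 Crest.Agent.R122.GIV566 Crest.Agent.R122.GIVUse424
  Crest.Agent.R122.Hid424 Crest.Agent.R122.Boltz814 Crest.Agent.R122.Kin416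
open Crest.Agent.R122.Quench815 (absd)

noncomputable section

namespace Crest.Agent.R122.Band974

open CTree

variable {Φ : Space3 → ℝ} {f₀ : PhasePoint → ℝ} {f : ℝ → PhasePoint → ℝ} {T t : ℝ}

/-- protected tubes of a tree -/
def PT (Φ : Space3 → ℝ) (ε : ℝ) (P : CTree) (t : ℝ) (ℓ : PhasePoint) (p : Par P) : Tubes (Idx P) :=
  ⟨fun i s => (path Φ ε P ℓ p s i).1, prot P t p⟩

/-- protected tubes of a tree, isolated Newton curves -/
def PTc (Φ : Space3 → ℝ) (ε : ℝ) (P : CTree) (t : ℝ) (ℓ : PhasePoint) (p : Par P) :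
    Tubes (Idx P) := ⟨curve Φ ε P ℓ p, prot P t p⟩

theorem PT_shift (ε : ℝ) (P : CTree) (t : ℝ) (x v : Space3) (p : Par P) :
    PT Φ ε P t (x, v) p = (PT Φ ε P t (0, v) p).shift x := by
  unfold PT Tubes.shift
  congr 1
  funext i s
  rw [path_shift ε P x v p s i]

theorem PTc_shift (hΦ : AdmissiblePotential Φ) {ε : ℝ} (hε : 0 < ε) (P : CTree) (t : ℝ)
    (x v : Space3) (p : Par P) : PTc Φ ε P t (x, v) p = (PTc Φ ε P t (0, v) p).shift x := by
  unfold PTc Tubes.shift
  congr 1
  funext i s
  exact curve_shift hΦ hε P x v p i s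


/-- convergence of the protected tubes -/
theorem convE_PTc (hΦ : AdmissiblePotential Φ) {P : CTree} {v : Space3} {p : Par P}
    (ht : 0 ≤ t) (hV : Valid Φ 0 P t v p) (hG : Gen Φ P (0, v) p) :
    ConvE L t (fun ε => PTc Φ ε P t (0, v) p) (PT Φ 0 P t (0, v) p) where
  lip := by
    obtain ⟨M, hM, h⟩ := curve_lip hΦ ht hV hG
    refine ⟨⟨M, hM⟩, ?_⟩
    filter_upwards [h] with ε hε i
    refine LipschitzOnWith.of_dist_le_mul fun s _ u _ => ?_
    have := hε 0 u s i
    rw [← Real.dist_eq] at this
    exact this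
  curves i := by
    rw [Metric.tendstoUniformlyOn_iff]
    intro η hη
    filter_upwards [curve_close hΦ hV hG hη] with ε hε s hs
    rw [dist_comm]
    exact hε 0 s hs i
  active i := tendsto_const_nhds
  vel := by
    refine ⟨{u | ¬ NotTime P p u}, finite_times P p, fun s hs hsB i _ => ?_⟩
    have hN : NotTime P p s := by
      by_contra h
      exact hsB h
    obtain ⟨w, δ, hδ, hsub, h0, hev⟩ := curve_local hΦ hV hG hs hN
    refine ⟨w i, Ioo (s - δ) (s + δ), Ioo_mem_nhds (by linarith) (by linarith), fun u hu => ?_, ?_⟩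
    · have h1 : HasDerivAt (fun r : ℝ => (path Φ 0 P (0, v) p s i).1 + (r - s) • w i) (w i) u := by
        have := (((hasDerivAt_id u).sub_const s).smul_const (w i)).const_add
          (path Φ 0 P (0, v) p s i).1
        simpa using this
      refine h1.congr_of_eventuallyEq ?_
      filter_upwards [Ioo_mem_nhds hu.1 hu.2] with r hr
      exact h0 0 r hr i
    · filter_upwards [hev] with ε hε u hu
      have h1 : HasDerivAt (fun r : ℝ => curve Φ ε P (0, v) p i s + (r - s) • w i) (w i) u := by
        have := (((hasDerivAt_id u).sub_const s).smul_const (w i)).const_add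
          (curve Φ ε P (0, v) p i s)
        simpa using this
      refine h1.congr_of_eventuallyEq ?_
      filter_upwards [Ioo_mem_nhds hu.1 hu.2] with r hr
      exact hε 0 r hr i
  le := Eventually.of_forall fun ε i => PathFlow968.prot_le le_rfl P t v p hV.2 i

theorem generic_PT {P : CTree} {v : Space3} {p : Par P} (hG : Gen Φ P (0, v) p) (T' : ℝ) :
    Generic T' (PT Φ 0 P t (0, v) p) := by
  intro i j hij
  refine (finite_meet hG hij).subset ?_
  rintro s ⟨hs, he⟩
  exact ⟨hs.1, he⟩


/-! ### Damping -/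

theorem hasDerivAt_path0 {P : CTree} {v : Space3} {p : Par P} {s : ℝ} (hs : NotTime P p s)
    (X : Space3) (i : Idx P) :
    HasDerivAt (fun u => (path Φ 0 P (X, v) p u i).1) (path Φ 0 P (X, v) p s i).2 s := by
  obtain ⟨w, δ, hδ, h0, -⟩ := path_local (Φ := Φ) P v p s hs
  have e : (path Φ 0 P (X, v) p s i).2 = w i := by
    have := h0 X s (by simpa using hδ) i
    rw [this]
  rw [e]
  have h1 : HasDerivAt (fun r : ℝ => (path Φ 0 P (X, v) p s i).1 + (r - s) • w i) (w i) s := by
    have := (((hasDerivAt_id s).sub_const s).smul_const (w i)).const_add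
      (path Φ 0 P (X, v) p s i).1
    simpa using this
  refine h1.congr_of_eventuallyEq ?_
  have h2 : Ioo (s - δ) (s + δ) ∈ 𝓝 s := Ioo_mem_nhds (by linarith) (by linarith)
  filter_upwards [h2] with r hr
  rw [h0 X r (abs_lt.2 ⟨by linarith [hr.1], by linarith [hr.2]⟩) i]



/-! ### Identification of the limit -/



theorem meas4_Dwin_nuF {β : ℝ} (hf : IsRegularKineticSolution Φ β T f₀ f) (tw : ℝ) :
    Meas4 (Hid424.Dwin (nuF T f) tw) := by
  rw [← Dwin_814' tw]
  exact Seg814.meas4_Dwin (meas4_damp hf) tw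


/-! ### Measurability -/

theorem measurable_pathM' (hΦ : AdmissiblePotential Φ) (ε : ℝ) (P : CTree) (i : Idx P) :
    Measurable fun w : (PhasePoint × Par P) × ℝ => pathM Φ ε P w.2 w.1.1 w.1.2 i := by
  have h := (measurable_pi_apply i).comp (measurable_pathM hΦ ε P)
  exact h.comp (measurable_snd.prodMk measurable_fst)



/-! ### The limit theorem for protected tubes -/

/-- initial density with values in `ℝ≥0∞` -/
def kF (f₀ : PhasePoint → ℝ) (z : PhasePoint) : ℝ≥0∞ := ENNReal.ofReal (f₀ z)

/-- the tree integral at `ε` -/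
def J (Φ : Space3 → ℝ) (f₀ : PhasePoint → ℝ) (ε : ℝ) (P : CTree) (t : ℝ)
    (φ : PhasePoint → ℝ≥0∞) : ℝ≥0∞ :=
  ∫⁻ z, gE Φ (kF f₀) ε P t φ (fun z => uG Φ f₀ ε (PT Φ ε P t z.1 z.2) t) z


end Crest.Agent.R122.Band974
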