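import Crest.Agent.R122.LN2Hor_473

/-!
# Row 122, LN2: more dominated structures (helper473)

* `Dom.smul_act` : a factor `activity ε = ε⁻²` lowers the number of groups by one (contact of two
  groups).
* `Dom.comap` : dominated structures are stable under measure preserving parametrisations.
* `dom_free`, `dom_anch` : one free particle with Gaussian velocity, without and with localisation.
-/

set_option autoImplicit false
set_option linter.unusedSectionVars false
open MeasureTheory Set
open scoped Classical ENNReal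
open Crest.AnalysisR.Kinetic
noncomputable section

namespace Crest.Agent.R122.LN2

open Crest.Agent.R122.GC311 Crest.Agent.R122.Kin796 Crest.Agent.R122.Kin796.CTree
open Crest.Agent.R122.VL581 Crest.Agent.R122.LinkGas473 Crest.Agent.R122.Tree674
open Crest.Agent.R122.ToTree335 Crest.Agent.R122.EDefs602 Crest.Agent.R122.VLMeas973

variable {f₀ : PhasePoint → ℝ} {γ : ℝ} {ρ : Space3 → ℝ≥0∞} {C : ℝ≥0∞}

section ops

variable {κ : Type} [Fintype κ] {ε : ℝ} {s : ℕ} {A₀ : Finset κ} {c : ℝ≥0∞} {Λ : Measure (κ → ℝ)}
  {Θ : Type} [MeasurableSpace Θ] {m : Measure Θ} {b : Θ → κ → ℝ} {z : Θ → κ → PhasePoint}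

theorem activity_mul {ε : ℝ} (hε : 0 < ε) : activity ε * ENNReal.ofReal (ε ^ 2) = 1 := by
  have := activity_pow_mul_pow hε 1
  simpa using this

/-- A factor `ε⁻²` lowers the number of groups by one. -/
theorem Dom.smul_act (h : Dom γ ρ ε (s + 1) A₀ c Λ m b z) (hε : 0 < ε)
    (hs : s + 1 ≤ Fintype.card κ) : Dom γ ρ ε s A₀ c Λ (activity ε • m) b z where
  mb := h.mb
  mz := h.mz
  le F hF := by
    have h1 : Fintype.card κ - s = (Fintype.card κ - (s + 1)) + 1 := by omega
    rw [lintegral_smul_measure, smul_eq_mul, h1, pow_succ]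
    calc ENNReal.ofReal (ε ^ 2) ^ (Fintype.card κ - (s + 1)) * ENNReal.ofReal (ε ^ 2) *
          (activity ε * ∫⁻ θ, F (b θ, z θ) ∂m)
        = (activity ε * ENNReal.ofReal (ε ^ 2)) *
          (ENNReal.ofReal (ε ^ 2) ^ (Fintype.card κ - (s + 1)) * ∫⁻ θ, F (b θ, z θ) ∂m) := by
          ring
      _ = ENNReal.ofReal (ε ^ 2) ^ (Fintype.card κ - (s + 1)) * ∫⁻ θ, F (b θ, z θ) ∂m := by
          rw [activity_mul hε, one_mul]
      _ ≤ _ := h.le F hF

/-- Restriction of the structure measure. -/
theorem Dom.restrict (h : Dom γ ρ ε s A₀ c Λ m b z) (S : Set Θ) :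
    Dom γ ρ ε s A₀ c Λ (m.restrict S) b z where
  mb := h.mb
  mz := h.mz
  le F hF := (mul_le_mul_right (lintegral_mono' Measure.restrict_le_self le_rfl) _).trans
    (h.le F hF)




end ops

/-! ## Free particles -/

/-- One free particle, born at `0`, with a Gaussian velocity and without localisation. -/
theorem dom_free {g : Space3 → ℝ≥0∞} {c : ℝ≥0∞} (hg : Measurable g) (hgc : ∀ v, g v ≤ c * wG γ v)
    (hc : c ≠ ∞) (ε : ℝ) :
    Dom γ ρ ε 1 (∅ : Finset Unit) c (Measure.dirac fun _ : Unit => (0 : ℝ))
      ((volume : Measure PhasePoint).withDensity fun y => g y.2) (fun _ _ => 0)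
      (fun y _ => y) where
  mb := measurable_const
  mz := measurable_pi_iff.2 fun _ => measurable_id
  le F hF := by
    have hc' : Measurable fun (y : PhasePoint) (_ : Unit) => y :=
      measurable_pi_iff.2 fun _ => measurable_id
    have hF0 : Measurable fun z : Unit → PhasePoint => F ((fun _ => (0 : ℝ)), z) :=
      hF.comp (measurable_const.prodMk measurable_id)
    have hFy : Measurable fun y : PhasePoint => F ((fun _ => (0 : ℝ)), fun _ : Unit => y) :=
      hF0.comp hc'
    have h2 : Measurable fun z : Unit → PhasePoint =>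
        wgtA γ ρ (∅ : Finset Unit) z * F ((fun _ => (0 : ℝ)), z) := measurable_wgtA_empty.mul hF0
    have hg2 : Measurable fun y : PhasePoint => g y.2 := hg.comp measurable_snd
    have hout : Measurable fun b : Unit → ℝ =>
        ∫⁻ z : Unit → PhasePoint, wgtA γ ρ (∅ : Finset Unit) z * F (b, z) :=
      Measurable.lintegral_prod_right' (f := fun q : (Unit → ℝ) × (Unit → PhasePoint) =>
        wgtA γ ρ (∅ : Finset Unit) q.2 * F q) ((measurable_wgtA_empty.comp measurable_snd).mul hF)
    rw [show Fintype.card Unit - 1 = 0 from rfl, pow_zero, one_mul,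
      lintegral_withDensity_eq_lintegral_mul _ hg2 hFy, lintegral_dirac' _ hout,
      lintegral_unit _ h2, ← lintegral_const_mul' _ _ hc]
    refine lintegral_mono fun y => ?_
    simp only [Pi.mul_apply]
    rw [wgtA_unit, ← mul_assoc]
    exact mul_le_mul_left (hgc y.2) _


end Crest.Agent.R122.LN2
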