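import Crest.Agent.R122.EnergyFlow_410
import Crest.Agent.R122.BirthsEvo_45
import Crest.Agent.R122.CtB_879

-- ▼ part R122/Energy2_410
section

/-!
# Energy in worlds with births, restart at any time (row 122, block EN, part 3)

`X` is a world with births (`Ins45.BWorld Φ ε b 0 X`) in which every particle is born at distance at
least `ε` from all particles alive (`SepBirths`).

* `engB Φ ε b t A Z`: energy of the family `A` at time `t`: kinetic energy plus interaction of the
  pairs already born.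
* `engB_union`, `engB_const`, `engB_lower`: additivity, conservation, stability.
* `antitone_familyB`, `engB_root_le`: energy of an isolated group and weight of its past.
* `infected_restartB`: the energy of a monotone isolated family at time `t` is at most its energy at
  time `a` plus the weights of the particles which join between `a` and `t`.
* `Jeng`: energy plus `(B + 3/2)` times the number; it controls the speeds (`speed_le_Jeng`,
  `sq_le_Jeng`), satisfies `Jeng_restart` and is bounded by the initial energy (`Jeng_le_total`).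
-/

set_option autoImplicit false
set_option linter.unusedSectionVars false

open Set Filter Topology
open scoped NNReal ENNReal
open Crest.AnalysisR.Kinetic
open Crest.Agent.R122.Flow671 Crest.Agent.R122.Loc45 Crest.Agent.R122.Causal291
open Crest.Agent.R122.Ins45

namespace Crest.Agent.R122.Energy410

/-! ## One sided energy conservation -/

theorem energy_hasDerivWithinAt_zero {ι : Type*} [Fintype ι] {Φ : Space3 → ℝ}
    (hodd : ∀ q, gradient Φ (-q) = -gradient Φ q) {ε : ℝ} {γ : ℝ → ι → PhasePoint} {t : ℝ}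
    (hγ : HasDerivWithinAt γ (nf Φ ε (γ t)) (Ici t) t)
    (hd : ∀ i j, i ≠ j → DifferentiableAt ℝ Φ ((1 / ε) • ((γ t i).1 - (γ t j).1))) :
    HasDerivWithinAt (fun s => energy Φ ε (γ s)) 0 (Ici t) t := by
  classical
  set g : ℝ → ι → PhasePoint := fun s => if t ≤ s then γ s else γ t + (s - t) • nf Φ ε (γ t) with hg
  have hgt : g t = γ t := if_pos le_rfl
  have h1 : HasDerivWithinAt g (nf Φ ε (γ t)) (Ici t) t :=
    hγ.congr (fun s hs => if_pos hs) (if_pos le_rfl)
  have h2 : HasDerivWithinAt g (nf Φ ε (γ t)) (Iic t) t := by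
    have h3 : HasDerivAt (fun s : ℝ => γ t + (s - t) • nf Φ ε (γ t)) (nf Φ ε (γ t)) t := by
      have h4 : HasDerivAt (fun s : ℝ => s - t) 1 t := (hasDerivAt_id t).sub_const t
      have h5 := (h4.smul_const (nf Φ ε (γ t))).const_add (γ t)
      rwa [one_smul] at h5
    refine h3.hasDerivWithinAt.congr (fun s hs => ?_) ?_
    · by_cases h : t ≤ s
      · have hst : s = t := le_antisymm hs h
        rw [hst, hgt, sub_self, zero_smul, add_zero]
      · exact if_neg h
    · rw [hgt, sub_self, zero_smul, add_zero]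
  have h3 : HasDerivAt g (nf Φ ε (g t)) t := by
    rw [hgt, ← hasDerivWithinAt_univ, ← Iic_union_Ici (a := t)]
    exact h2.union h1
  have h4 := energy_hasDerivAt_zero hodd h3 (by rw [hgt]; exact hd)
  refine h4.hasDerivWithinAt.congr (fun s hs => ?_) (by rw [hgt])
  rw [show g s = γ s from if_pos hs]

/-! ## Energy with births -/

section births

variable {ι : Type*}

open scoped Classical in
/-- The energy of the family `A` at time `t` in a world with births `b`: kinetic energies plus the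
interaction of the pairs of particles already born. -/
noncomputable def engB (Φ : Space3 → ℝ) (ε : ℝ) (b : ι → ℝ) (t : ℝ) (A : Finset ι)
    (Z : ι → PhasePoint) : ℝ :=
  (1 / 2) * ∑ i ∈ A, ‖(Z i).2‖ ^ 2 +
    (1 / 2) * ∑ i ∈ A, ∑ j ∈ A,
      if i ≠ j ∧ b i ≤ t ∧ b j ≤ t then Φ ((1 / ε) • ((Z i).1 - (Z j).1)) else 0

@[simp] theorem engB_empty (Φ : Space3 → ℝ) (ε : ℝ) (b : ι → ℝ) (t : ℝ) (Z : ι → PhasePoint) :
    engB Φ ε b t ∅ Z = 0 := by
  simp [engB]

open scoped Classical in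
theorem engB_eq (Φ : Space3 → ℝ) (ε : ℝ) (b : ι → ℝ) (t : ℝ) (A : Finset ι)
    (Z : ι → PhasePoint) :
    engB Φ ε b t A Z = eng Φ ε (A.filter fun i => b i ≤ t) Z +
      (1 / 2) * ∑ i ∈ A.filter (fun i => ¬ b i ≤ t), ‖(Z i).2‖ ^ 2 := by
  set g : ι → ι → ℝ := fun i j => Φ ((1 / ε) • ((Z i).1 - (Z j).1)) with hg
  have hdiag : ∀ i, g i i = Φ 0 := fun i => by simp [hg]
  have h1 : (∑ i ∈ A, ∑ j ∈ A, if i ≠ j ∧ b i ≤ t ∧ b j ≤ t then g i j else 0) =
      ∑ i ∈ A.filter (fun i => b i ≤ t), ∑ j ∈ A.filter (fun i => b i ≤ t),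
        if i ≠ j then g i j else 0 := by
    rw [Finset.sum_filter]
    refine Finset.sum_congr rfl fun i _ => ?_
    by_cases hi : b i ≤ t
    · rw [if_pos hi, Finset.sum_filter]
      refine Finset.sum_congr rfl fun j _ => ?_
      by_cases hj : b j ≤ t <;> by_cases hij : i = j <;> simp [hi, hj, hij]
    · rw [if_neg hi]
      exact Finset.sum_eq_zero fun j _ => by simp [hi]
  have h2 : ∀ i ∈ A.filter (fun i => b i ≤ t),
      (∑ j ∈ A.filter (fun i => b i ≤ t), if i ≠ j then g i j else 0) =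
      (∑ j ∈ A.filter (fun i => b i ≤ t), g i j) - Φ 0 := by
    intro i hi
    have h3 : ∀ j, (if i ≠ j then g i j else 0) = g i j - if i = j then Φ 0 else 0 := by
      intro j
      by_cases hij : i = j
      · subst hij
        simp [hdiag]
      · simp [hij]
    simp only [h3]
    rw [Finset.sum_sub_distrib, Finset.sum_ite_eq, if_pos hi]
  unfold engB eng
  rw [h1, Finset.sum_congr rfl h2, Finset.sum_sub_distrib, Finset.sum_const, nsmul_eq_mul,
    ← Finset.sum_filter_add_sum_filter_not A (fun i => b i ≤ t) fun i => ‖(Z i).2‖ ^ 2]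
  ring

theorem engB_of_born (Φ : Space3 → ℝ) (ε : ℝ) {b : ι → ℝ} {t : ℝ} {A : Finset ι}
    (hb : ∀ i ∈ A, b i ≤ t) (Z : ι → PhasePoint) : engB Φ ε b t A Z = eng Φ ε A Z := by
  classical
  rw [engB_eq, Finset.filter_true_of_mem hb, Finset.filter_false_of_mem fun i hi => by
    rw [not_not]; exact hb i hi]
  simp

/-- Weak isolation with births. -/
def IsoB (ε : ℝ) (b : ι → ℝ) (t : ℝ) (A : Finset ι) (Z : ι → PhasePoint) : Prop :=
  ∀ i ∈ A, ∀ j ∉ A, b i ≤ t → b j ≤ t → ε ≤ dist (Z i).1 (Z j).1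

theorem engB_union {Φ : Space3 → ℝ} (hΦ : AdmissiblePotential Φ) {ε : ℝ} (hε : 0 < ε)
    [DecidableEq ι] {b : ι → ℝ} {t : ℝ} {A B : Finset ι} (hAB : Disjoint A B) {Z : ι → PhasePoint}
    (h : ∀ i ∈ A, ∀ j ∈ B, b i ≤ t → b j ≤ t → ε ≤ dist (Z i).1 (Z j).1) :
    engB Φ ε b t (A ∪ B) Z = engB Φ ε b t A Z + engB Φ ε b t B Z := by
  classical
  rw [engB_eq, engB_eq, engB_eq, Finset.filter_union, Finset.filter_union,
    eng_union hΦ hε (Finset.disjoint_filter_filter hAB) fun i hi j hj => h i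
      (Finset.mem_filter.1 hi).1 j (Finset.mem_filter.1 hj).1 (Finset.mem_filter.1 hi).2
      (Finset.mem_filter.1 hj).2,
    Finset.sum_union (Finset.disjoint_filter_filter hAB)]
  ring

theorem engB_eq_kin {Φ : Space3 → ℝ} (hΦ : AdmissiblePotential Φ) {ε : ℝ} (hε : 0 < ε)
    {b : ι → ℝ} {t : ℝ} {A : Finset ι} {Z : ι → PhasePoint}
    (h : ∀ i ∈ A, ∀ j ∈ A, i ≠ j → b i ≤ t → b j ≤ t → ε ≤ dist (Z i).1 (Z j).1) :
    engB Φ ε b t A Z = (1 / 2) * ∑ i ∈ A, ‖(Z i).2‖ ^ 2 := by
  classical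
  rw [engB_eq, eng_eq_kin hΦ hε fun i hi j hj hij => h i (Finset.mem_filter.1 hi).1 j
    (Finset.mem_filter.1 hj).1 hij (Finset.mem_filter.1 hi).2 (Finset.mem_filter.1 hj).2,
    ← mul_add, Finset.sum_filter_add_sum_filter_not]

/-- Every particle is born at distance at least `ε` from all particles alive. -/
structure SepBirths (ε : ℝ) (b : ι → ℝ) (T : ℝ) (X : ℝ → ι → PhasePoint) : Prop where
  init : ∀ i j, i ≠ j → b i ≤ 0 → b j ≤ 0 → ε ≤ dist (X 0 i).1 (X 0 j).1
  birth : ∀ i j, i ≠ j → 0 < b i → b i ≤ T → b j ≤ b i → ε ≤ dist (X (b i) i).1 (X (b i) j).1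

theorem SepBirths.mono {ε : ℝ} {b : ι → ℝ} {T T' : ℝ} {X : ℝ → ι → PhasePoint}
    (h : SepBirths ε b T X) (hT : T' ≤ T) : SepBirths ε b T' X where
  init := h.init
  birth i j hij h0 h1 := h.birth i j hij h0 (h1.trans hT)

variable [Fintype ι] {Φ : Space3 → ℝ} {ε : ℝ} {b : ι → ℝ} {X : ℝ → ι → PhasePoint} {T : ℝ}

theorem eventually_births (b : ι → ℝ) (t : ℝ) : ∀ᶠ s in 𝓝[≥] t, ∀ i, (b i ≤ s ↔ b i ≤ t) := by
  rw [Filter.eventually_all]
  intro i
  by_cases h : b i ≤ t
  · filter_upwards [self_mem_nhdsWithin] with s hs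
    exact ⟨fun _ => h, fun _ => h.trans hs⟩
  · have h1 : Iio (b i) ∈ 𝓝 t := Iio_mem_nhds (not_le.1 h)
    filter_upwards [mem_nhdsWithin_of_mem_nhds h1] with s hs
    exact ⟨fun h2 => absurd h2 (not_le.2 hs), fun h2 => absurd h2 h⟩

theorem differentiableAt_pair (hΦ : AdmissiblePotential Φ) (hε : 0 < ε) (hX : BWorld Φ ε b 0 X)
    {t : ℝ} (ht : 0 ≤ t) {i j : ι} (hij : i ≠ j) (hi : b i ≤ t) (hj : b j ≤ t) :
    DifferentiableAt ℝ Φ ((1 / ε) • ((X t i).1 - (X t j).1)) := by
  rcases hX.dom t ht with h | h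
  · exact (h.differentiable (by norm_num)) _
  · have hne : (1 / ε) • ((X t i).1 - (X t j).1) ≠ 0 := by
      rw [smul_ne_zero_iff]
      exact ⟨by positivity, sub_ne_zero.2 (h i j hij hi hj)⟩
    exact (hΦ.contDiff_away_from_origin.contDiffAt (isOpen_ne.mem_nhds hne)).differentiableAt
      (by norm_num)

theorem engB_deriv (hΦ : AdmissiblePotential Φ) (hε : 0 < ε) (hX : BWorld Φ ε b 0 X) {t : ℝ}
    (ht : 0 ≤ t) {A : Finset ι} (hA : IsoB ε b t A (X t)) :
    HasDerivWithinAt (fun s => engB Φ ε b s A (X s)) 0 (Ici t) t := by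
  classical
  set A' : Finset ι := A.filter fun i => b i ≤ t with hA'
  set A'' : Finset ι := A.filter fun i => ¬ b i ≤ t with hA''
  have hev := eventually_births b t
  have heq : (fun s => engB Φ ε b s A (X s)) =ᶠ[𝓝[≥] t]
      fun s => eng Φ ε A' (X s) + (1 / 2) * ∑ i ∈ A'', ‖(X s i).2‖ ^ 2 := by
    filter_upwards [hev] with s hs
    rw [engB_eq]
    have e1 : (A.filter fun i => b i ≤ s) = A' := Finset.filter_congr fun i _ => hs i
    have e2 : (A.filter fun i => ¬ b i ≤ s) = A'' :=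
      Finset.filter_congr fun i _ => not_congr (hs i)
    rw [e1, e2]
  have hder := hX.der t ht
  have h1 : HasDerivWithinAt (fun s => eng Φ ε A' (X s)) 0 (Ici t) t := by
    have h2 : HasDerivWithinAt (fun s => (fun i : A' => X s i)) (nf Φ ε (fun i : A' => X t i))
        (Ici t) t := by
      rw [hasDerivWithinAt_pi]
      rintro ⟨i, hi⟩
      have h3 := (hasDerivWithinAt_pi.1 hder) i
      have h4 : bf Φ ε b t (X t) i = nf Φ ε (fun i : A' => X t i) ⟨i, hi⟩ := by
        have hiA : i ∈ A := (Finset.mem_filter.1 hi).1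
        have hib : b i ≤ t := (Finset.mem_filter.1 hi).2
        unfold bf nf
        rw [if_pos hib]
        congr 2
        rw [Finset.sum_coe_sort A' fun j => gradient Φ ((1 / ε) • ((X t i).1 - (X t j).1)),
          ← Finset.sum_subset (Finset.subset_univ A')]
        · exact Finset.sum_congr rfl fun j hj => if_pos (Finset.mem_filter.1 hj).2
        · intro j _ hj
          by_cases hjb : b j ≤ t
          · rw [if_pos hjb]
            refine grad_far hΦ hε (hA i hiA j (fun hjA => hj ?_) hib hjb)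
            exact Finset.mem_filter.2 ⟨hjA, hjb⟩
          · rw [if_neg hjb]
      rw [← h4]
      exact h3
    have h5 := energy_hasDerivWithinAt_zero (γ := fun s => (fun i : A' => X s i)) (grad_neg hΦ) h2
      (by
        rintro ⟨i, hi⟩ ⟨j, hj⟩ hij
        exact differentiableAt_pair hΦ hε hX ht (fun h => hij (Subtype.ext h))
          (Finset.mem_filter.1 hi).2 (Finset.mem_filter.1 hj).2)
    have h6 : (fun s => energy Φ ε (fun i : A' => X s i)) = fun s => eng Φ ε A' (X s) :=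
      funext fun s => energy_subtype Φ ε A' (X s)
    rw [← h6]
    exact h5
  have h2 : HasDerivWithinAt (fun s => (1 / 2 : ℝ) * ∑ i ∈ A'', ‖(X s i).2‖ ^ 2) 0 (Ici t) t := by
    have h3 : HasDerivWithinAt (fun s => ∑ i ∈ A'', ‖(X s i).2‖ ^ 2)
        (∑ i ∈ A'', (0 : ℝ)) (Ici t) t := by
      refine HasDerivWithinAt.fun_sum fun i hi => ?_
      have hib : t < b i := not_le.1 (Finset.mem_filter.1 hi).2
      have h4 := (hasDerivWithinAt_pi.1 hder) i
      rw [bf_of_unborn Φ ε (X t) hib] at h4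
      have h5 : HasDerivWithinAt (fun s => (X s i).2) 0 (Ici t) t := h4.snd
      have h6 := h5.norm_sq
      rwa [inner_zero_right, mul_zero] at h6
    have h4 := h3.const_mul (1 / 2 : ℝ)
    rwa [Finset.sum_const_zero, mul_zero] at h4
  have h3 := h1.add h2
  rw [add_zero] at h3
  exact h3.congr_of_eventuallyEq heq (heq.self_of_nhdsWithin self_mem_Ici)

open scoped Classical in
theorem continuousOn_pairB (hΦ : AdmissiblePotential Φ) (hε : 0 < ε) (hX : BWorld Φ ε b 0 X)
    (hS : SepBirths ε b T X) (i j : ι) : ContinuousOn (fun s => if i ≠ j ∧ b i ≤ s ∧ b j ≤ s then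
      Φ ((1 / ε) • ((X s i).1 - (X s j).1)) else 0) (Icc 0 T) := by
  classical
  by_cases hij : i = j
  · exact (continuousOn_const (c := (0 : ℝ))).congr fun s _ => if_neg fun h => h.1 hij
  set β : ℝ := max (max (b i) (b j)) 0 with hβ
  have hβ0 : 0 ≤ β := le_max_right _ _
  have hβi : b i ≤ β := (le_max_left _ _).trans (le_max_left _ _)
  have hβj : b j ≤ β := (le_max_right _ _).trans (le_max_left _ _)
  by_cases hβT : T < β
  · refine (continuousOn_const (c := (0 : ℝ))).congr fun s hs => if_neg fun h => ?_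
    have : β ≤ s := max_le (max_le h.2.1 h.2.2) hs.1
    exact absurd (this.trans hs.2) (not_le.2 hβT)
  rw [not_lt] at hβT
  have hG : ContinuousOn (fun s => Φ ((1 / ε) • ((X s i).1 - (X s j).1))) (Icc β T) := by
    intro s hs
    have hs0 : 0 ≤ s := hβ0.trans hs.1
    have h1 : ContinuousAt Φ ((1 / ε) • ((X s i).1 - (X s j).1)) :=
      (differentiableAt_pair hΦ hε hX hs0 hij (hβi.trans hs.1) (hβj.trans hs.1)).continuousAt
    have h2 : ContinuousWithinAt (fun s => (1 / ε) • ((X s i).1 - (X s j).1)) (Icc β T) s := by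
      have h4 : ContinuousOn (fun t => (1 / ε) • ((X t i).1 - (X t j).1)) (Ici 0) :=
        ((hX.cont_pos i).sub (hX.cont_pos j)).const_smul (1 / ε)
      exact (h4 s hs0).mono fun u hu => hβ0.trans hu.1
    exact ContinuousAt.comp_continuousWithinAt
      (f := fun s => (1 / ε) • ((X s i).1 - (X s j).1)) h1 h2
  have hG2 : ContinuousOn (fun s => (fun s => Φ ((1 / ε) • ((X s i).1 - (X s j).1))) (max s β))
      (Icc 0 T) := by
    refine hG.comp (continuous_id.max continuous_const).continuousOn fun s hs => ?_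
    exact ⟨le_max_right _ _, max_le hs.2 hβT⟩
  refine hG2.congr fun s hs => ?_
  by_cases hsβ : β ≤ s
  · simp only [max_eq_left hsβ]
    exact if_pos ⟨hij, hβi.trans hsβ, hβj.trans hsβ⟩
  · rw [not_le] at hsβ
    simp only [max_eq_right hsβ.le]
    have hβpos : 0 < β := hs.1.trans_lt hsβ
    have hβm : β = max (b i) (b j) := by
      rcases le_total (max (b i) (b j)) 0 with h | h
      · rw [hβ, max_eq_right h] at hβpos
        exact absurd hβpos (lt_irrefl _)
      · rw [hβ, max_eq_left h]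
    have hfar : ε ≤ dist (X β i).1 (X β j).1 := by
      rcases le_total (b i) (b j) with h | h
      · have e : β = b j := by rw [hβm, max_eq_right h]
        rw [dist_comm, e]
        exact hS.birth j i (Ne.symm hij) (e ▸ hβpos) (e ▸ hβT) h
      · have e : β = b i := by rw [hβm, max_eq_left h]
        rw [e]
        exact hS.birth i j hij (e ▸ hβpos) (e ▸ hβT) h
    rw [far_zero hΦ hε hfar]
    refine if_neg fun h => ?_
    rw [hβm] at hsβ
    exact absurd (max_le h.2.1 h.2.2) (not_le.2 hsβ)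

theorem continuousOn_engB (hΦ : AdmissiblePotential Φ) (hε : 0 < ε) (hX : BWorld Φ ε b 0 X)
    (hS : SepBirths ε b T X) (A : Finset ι) :
    ContinuousOn (fun s => engB Φ ε b s A (X s)) (Icc 0 T) := by
  classical
  unfold engB
  refine ContinuousOn.add (ContinuousOn.mul continuousOn_const ?_)
    (ContinuousOn.mul continuousOn_const ?_)
  · refine continuousOn_finsetSum _ fun i _ => ?_
    have h1 : ContinuousOn (fun t => (X t i).2) (Icc 0 T) :=
      (hX.cont_apply i).snd.mono fun u hu => hu.1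
    exact (h1.norm).pow 2
  · exact continuousOn_finsetSum _ fun i _ => continuousOn_finsetSum _ fun j _ =>
      continuousOn_pairB hΦ hε hX hS i j

/-- Energy conservation for an isolated group, through births. -/
theorem engB_const (hΦ : AdmissiblePotential Φ) (hε : 0 < ε) (hX : BWorld Φ ε b 0 X)
    (hS : SepBirths ε b T X) {s t : ℝ} (hs : 0 ≤ s) (hst : s ≤ t) (ht : t ≤ T) {A : Finset ι}
    (hA : ∀ r ∈ Icc s t, IsoB ε b r A (X r)) : engB Φ ε b t A (X t) = engB Φ ε b s A (X s) :=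
  constant_of_has_deriv_right_zero
    ((continuousOn_engB hΦ hε hX hS A).mono (Icc_subset_Icc hs ht))
    (fun r hr => engB_deriv hΦ hε hX (hs.trans hr.1) (hA r (Ico_subset_Icc_self hr))) t
    (right_mem_Icc.2 hst)

/-- Stability. -/
theorem engB_lower (hΦ : AdmissiblePotential Φ) (hε : 0 < ε) (hX : BWorld Φ ε b 0 X)
    {t : ℝ} (ht : 0 ≤ t) (A : Finset ι) :
    (1 / 2) * ∑ i ∈ A, ‖(X t i).2‖ ^ 2 - stabB Φ * A.card ≤ engB Φ ε b t A (X t) := by
  classical
  set A' : Finset ι := A.filter fun i => b i ≤ t with hA'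
  have hD : (fun i : A' => X t i) ∈ Dom Φ A' := by
    rcases hX.dom t ht with h | h
    · exact Or.inl h
    · refine Or.inr ?_
      rintro ⟨i, hi⟩ ⟨j, hj⟩ hij
      exact h i j (fun h' => hij (Subtype.ext h')) (Finset.mem_filter.1 hi).2
        (Finset.mem_filter.1 hj).2
  have h1 := kin_le hΦ hε hD
  have h2 : energy Φ ε (fun i : A' => X t i) = eng Φ ε A' (X t) := energy_subtype Φ ε A' (X t)
  have h3 : kin (fun i : A' => X t i) = (1 / 2) * ∑ i ∈ A', ‖(X t i).2‖ ^ 2 := by
    unfold kin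
    rw [← Finset.sum_coe_sort A']
  rw [h2, h3, Fintype.card_coe] at h1
  have h4 : (A'.card : ℝ) ≤ A.card := by exact_mod_cast Finset.card_filter_le _ _
  have h5 := stabB_nonneg Φ
  rw [engB_eq, ← Finset.sum_filter_add_sum_filter_not A (fun i => b i ≤ t)
    fun i => ‖(X t i).2‖ ^ 2]
  nlinarith [mul_le_mul_of_nonneg_left h4 h5]

theorem engB_neg_le (hΦ : AdmissiblePotential Φ) (hε : 0 < ε) (hX : BWorld Φ ε b 0 X)
    {t : ℝ} (ht : 0 ≤ t) (A : Finset ι) : -(stabB Φ * A.card) ≤ engB Φ ε b t A (X t) := by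
  have h1 := engB_lower hΦ hε hX ht A
  have h2 : 0 ≤ ∑ i ∈ A, ‖(X t i).2‖ ^ 2 := Finset.sum_nonneg fun i _ => by positivity
  linarith

theorem continuousOn_distB (hX : BWorld Φ ε b 0 X) (i j : ι) :
    ContinuousOn (fun s => dist (X s i).1 (X s j).1) (Ici 0) :=
  continuous_dist.comp_continuousOn (ContinuousOn.prodMk (hX.cont_pos i) (hX.cont_pos j))

theorem distB_right (hX : BWorld Φ ε b 0 X) {t δ : ℝ} (ht : 0 ≤ t) (htT : t < T) (hδ : 0 < δ)
    {i j : ι} (h : ∀ s, t < s → s < t + δ → s ≤ T → ε < dist (X s i).1 (X s j).1) :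
    ε ≤ dist (X t i).1 (X t j).1 := by
  have h0 := continuousOn_distB hX i j
  have h1 : Tendsto (fun s => dist (X s i).1 (X s j).1) (𝓝[>] t) (𝓝 (dist (X t i).1 (X t j).1)) :=
    (h0 t ht).mono_left (nhdsWithin_mono _ fun s hs => ht.trans (le_of_lt hs))
  refine ge_of_tendsto h1 ?_
  have h2 : Ioo t (min (t + δ) T) ∈ 𝓝[>] t := Ioo_mem_nhdsGT (lt_min (by linarith) htT)
  filter_upwards [h2] with s hs
  exact (h s hs.1 (hs.2.trans_le (min_le_left _ _)) (hs.2.le.trans (min_le_right _ _))).le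

theorem distB_left (hX : BWorld Φ ε b 0 X) (hS : SepBirths ε b T X) {t δ : ℝ} (ht : 0 < t)
    (htT : t ≤ T) (hδ : 0 < δ) {i j : ι} (hij : i ≠ j) (hi : b i ≤ t) (hj : b j ≤ t)
    (h : ∀ s, t - δ < s → s < t → 0 ≤ s → b i < s → b j < s → ε < dist (X s i).1 (X s j).1) :
    ε ≤ dist (X t i).1 (X t j).1 := by
  rcases hi.eq_or_lt with hi' | hi'
  · rw [← hi']
    exact hS.birth i j hij (by rw [hi']; exact ht) (by rw [hi']; exact htT) (by rw [hi']; exact hj)
  rcases hj.eq_or_lt with hj' | hj'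
  · rw [← hj', dist_comm]
    exact hS.birth j i (Ne.symm hij) (by rw [hj']; exact ht) (by rw [hj']; exact htT)
      (by rw [hj']; exact hi)
  have h0 := continuousOn_distB hX i j
  set m : ℝ := max (max (t - δ) 0) (max (b i) (b j)) with hm
  have hmt : m < t := max_lt (max_lt (by linarith) ht) (max_lt hi' hj')
  have h1 : Tendsto (fun s => dist (X s i).1 (X s j).1) (𝓝[Ioo m t] t)
      (𝓝 (dist (X t i).1 (X t j).1)) := by
    refine (h0 t ht.le).mono_left (nhdsWithin_mono _ fun s hs => ?_)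
    exact (((le_max_right _ _).trans (le_max_left _ _)).trans hs.1.le : (0 : ℝ) ≤ s)
  have : (𝓝[Ioo m t] t).NeBot := by
    rw [nhdsWithin_Ioo_eq_nhdsLT hmt]
    infer_instance
  refine ge_of_tendsto h1 ?_
  filter_upwards [self_mem_nhdsWithin] with s hs
  refine (h s ?_ hs.2 ?_ ?_ ?_).le
  · exact ((le_max_left _ _).trans (le_max_left _ _)).trans_lt hs.1
  · exact ((le_max_right _ _).trans (le_max_left _ _)).trans hs.1.le
  · exact ((le_max_left _ _).trans (le_max_right _ _)).trans_lt hs.1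
  · exact ((le_max_right _ _).trans (le_max_right _ _)).trans_lt hs.1

/-! ## Release of particles and energy of an isolated group -/

variable [DecidableEq ι]

/-- Strict isolation (no contact between particles already born) of the family `A` during `[0, T]`.
Nothing is required at the birth times. -/
def IsoFam (ε : ℝ) (b : ι → ℝ) (T : ℝ) (X : ℝ → ι → PhasePoint) (A : ℝ → Finset ι) : Prop :=
  ∀ s, 0 ≤ s → s ≤ T → ∀ i ∈ A s, ∀ j ∉ A s, b i < s → b j < s → ε < dist (X s i).1 (X s j).1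

theorem IsoFam.isoB (hS : SepBirths ε b T X) {A : ℝ → Finset ι} (hiso : IsoFam ε b T X A) {s : ℝ}
    (hs : 0 ≤ s) (hsT : s ≤ T) : IsoB ε b s (A s) (X s) := by
  intro i hi j hj hbi hbj
  have hij : i ≠ j := fun h => hj (h ▸ hi)
  rcases hs.eq_or_lt with h0 | h0
  · subst h0
    exact hS.init i j hij hbi hbj
  rcases hbi.eq_or_lt with hi' | hi'
  · rw [← hi']
    exact hS.birth i j hij (by rw [hi']; exact h0) (by rw [hi']; exact hsT) (by rw [hi']; exact hbj)
  rcases hbj.eq_or_lt with hj' | hj'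
  · rw [← hj', dist_comm]
    exact hS.birth j i (Ne.symm hij) (by rw [hj']; exact h0) (by rw [hj']; exact hsT)
      (by rw [hj']; exact hbi)
  exact (hiso s hs hsT i hi j hj hi' hj').le

theorem isoB_right (hX : BWorld Φ ε b 0 X) {A : ℝ → Finset ι} (hiso : IsoFam ε b T X A) {t δ : ℝ}
    (ht : 0 ≤ t) (htT : t < T) (hδ : 0 < δ) {A' : Finset ι}
    (hA : ∀ r, t < r → r < t + δ → r ≤ T → A r = A') : IsoB ε b t A' (X t) := by
  intro i hi j hj hbi hbj
  refine distB_right hX ht htT hδ fun r h4 h5 h6 => ?_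
  have h7 := hA r h4 h5 h6
  exact hiso r (ht.trans h4.le) h6 i (h7 ▸ hi) j (h7 ▸ hj) (hbi.trans_lt h4) (hbj.trans_lt h4)

theorem isoB_left (hX : BWorld Φ ε b 0 X) (hS : SepBirths ε b T X) {A : ℝ → Finset ι}
    (hiso : IsoFam ε b T X A) {t δ : ℝ} (ht : 0 < t) (htT : t ≤ T) (hδ : 0 < δ) {A' : Finset ι}
    (hA : ∀ r, t - δ < r → r < t → 0 ≤ r → A r = A') : IsoB ε b t A' (X t) := by
  intro i hi j hj hbi hbj
  refine distB_left hX hS ht htT hδ (fun h => hj (h ▸ hi)) hbi hbj fun r h4 h5 h6 h8 h9 => ?_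
  have h7 := hA r h4 h5 h6
  exact hiso r h6 (h5.le.trans htT) i (h7 ▸ hi) j (h7 ▸ hj) h8 h9

/-- Along an antitone isolated family the energy plus `stabB Φ` times the number does not
increase. -/
theorem antitone_familyB (hΦ : AdmissiblePotential Φ) (hε : 0 < ε) (hX : BWorld Φ ε b 0 X)
    (hS : SepBirths ε b T X) {A : ℝ → Finset ι}
    (hA : ∀ s s', 0 ≤ s → s ≤ s' → s' ≤ T → A s' ⊆ A s) (hiso : IsoFam ε b T X A) :
    ∀ t, 0 ≤ t → t ≤ T → engB Φ ε b t (A t) (X t) + stabB Φ * (A t).card ≤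
      engB Φ ε b 0 (A 0) (X 0) + stabB Φ * (A 0).card := by
  have hB := stabB_nonneg Φ
  have hmono : ∀ s s', 0 ≤ s → s ≤ s' → s' ≤ T → (A s)ᶜ ⊆ (A s')ᶜ := fun s s' h1 h2 h3 =>
    Finset.compl_subset_compl.2 (hA s s' h1 h2 h3)
  refine real_induction le_rfl ?_ ?_
  · intro t ht htT hP
    obtain ⟨δ, hδ, C, hC⟩ := ev_const_right hmono ht htT
    refine ⟨δ, hδ, fun s h1 h2 h3 => ?_⟩
    set A' := Cᶜ with hA'
    have hAs : ∀ r, t < r → r < t + δ → r ≤ T → A r = A' := fun r h4 h5 h6 => by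
      rw [hA', ← hC r h4 h5 h6, compl_compl]
    have hsub : A' ⊆ A t := by
      rw [← hAs s h1 h2 h3]; exact hA t s ht h1.le h3
    have hisot : IsoB ε b t A' (X t) := isoB_right hX hiso ht htT hδ hAs
    have hcons : engB Φ ε b s A' (X s) = engB Φ ε b t A' (X t) :=
      engB_const hΦ hε hX hS ht h1.le h3 (by
        intro r hr
        rcases hr.1.eq_or_lt with h4 | h4
        · rw [← h4]; exact hisot
        · rw [← hAs r h4 (hr.2.trans_lt h2) (hr.2.trans h3)]
          exact hiso.isoB hS (ht.trans h4.le) (hr.2.trans h3))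
    set R := A t \ A' with hR
    have hun : A' ∪ R = A t := Finset.union_sdiff_of_subset hsub
    have hdis : Disjoint A' R := Finset.disjoint_sdiff
    have hadd : engB Φ ε b t (A t) (X t) = engB Φ ε b t A' (X t) + engB Φ ε b t R (X t) := by
      rw [← hun]
      exact engB_union hΦ hε hdis fun i hi j hj => hisot i hi j (Finset.mem_sdiff.1 hj).2
    have hcard : ((A t).card : ℝ) = A'.card + R.card := by
      rw [← hun, Finset.card_union_of_disjoint hdis, Nat.cast_add]
    have hR' := engB_neg_le hΦ hε hX ht R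
    rw [hAs s h1 h2 h3, hcons]
    have : engB Φ ε b t A' (X t) + stabB Φ * A'.card ≤
        engB Φ ε b t (A t) (X t) + stabB Φ * (A t).card := by
      rw [hadd, hcard]
      nlinarith
    exact this.trans hP
  · intro t ht htT hP
    obtain ⟨δ, hδ, C, hC⟩ := ev_const_left hmono ht htT
    set A' := Cᶜ with hA'
    have hAs : ∀ r, t - δ < r → r < t → 0 ≤ r → A r = A' := fun r h4 h5 h6 => by
      rw [hA', ← hC r h4 h5 h6, compl_compl]
    set s := max 0 (t - δ / 2) with hs
    have hs0 : 0 ≤ s := le_max_left _ _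
    have hst : s < t := max_lt ht (by linarith)
    have hsδ : t - δ < s := lt_of_lt_of_le (by linarith) (le_max_right _ _)
    have hsub : A t ⊆ A' := by
      rw [← hAs s hsδ hst hs0]; exact hA s t hs0 hst.le htT
    have hisot : IsoB ε b t A' (X t) := isoB_left hX hS hiso ht htT hδ hAs
    have hcons : engB Φ ε b t A' (X t) = engB Φ ε b s A' (X s) :=
      engB_const hΦ hε hX hS hs0 hst.le htT (by
        intro r hr
        rcases hr.2.eq_or_lt with h4 | h4
        · rw [h4]; exact hisot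
        · rw [← hAs r (hsδ.trans_le hr.1) h4 (hs0.trans hr.1)]
          exact hiso.isoB hS (hs0.trans hr.1) (h4.le.trans htT))
    set R := A' \ A t with hR
    have hun : A t ∪ R = A' := Finset.union_sdiff_of_subset hsub
    have hdis : Disjoint (A t) R := Finset.disjoint_sdiff
    have hadd : engB Φ ε b t A' (X t) = engB Φ ε b t (A t) (X t) + engB Φ ε b t R (X t) := by
      rw [← hun]
      exact engB_union hΦ hε hdis fun i hi j hj =>
        hiso.isoB hS ht.le htT i hi j (Finset.mem_sdiff.1 hj).2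
    have hcard : (A'.card : ℝ) = (A t).card + R.card := by
      rw [← hun, Finset.card_union_of_disjoint hdis, Nat.cast_add]
    have hR' := engB_neg_le hΦ hε hX ht.le R
    have hPs := hP s hs0 hst
    rw [hAs s hsδ hst hs0] at hPs
    rw [← hcons, hadd, hcard] at hPs
    nlinarith

/-- The energy of an isolated group is at most the weight of its backward clusters. `C` is any
contact relation which contains the contacts of particles already born. -/
theorem engB_root_le (hΦ : AdmissiblePotential Φ) (hε : 0 < ε) (hX : BWorld Φ ε b 0 X)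
    (hS : SepBirths ε b T X) {C : ℝ → ι → ι → Prop}
    (hC : ∀ s j k, b j < s → b k < s → dist (X s j).1 (X s k).1 ≤ ε → C s j k) {s : ℝ}
    (hs : 0 ≤ s) (hsT : s ≤ T) {G : Finset ι} (hG : IsoB ε b s G (X s)) :
    engB Φ ε b s G (X s) ≤ Wt (stabB Φ) (X 0) (⋃ p ∈ G, BC C s p) := by
  classical
  have hB := stabB_nonneg Φ
  set A : ℝ → Finset ι := fun r => Finset.univ.filter fun k => ∃ p ∈ G, Past C s p r k
    with hA
  have hmem : ∀ r k, k ∈ A r ↔ ∃ p ∈ G, Past C s p r k := by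
    intro r k; simp [hA]
  have hanti : ∀ r r', 0 ≤ r → r ≤ r' → r' ≤ s → A r' ⊆ A r := by
    intro r r' _ h2 _ k hk
    rw [hmem] at hk ⊢
    obtain ⟨p, hp, hk⟩ := hk
    exact ⟨p, hp, hk.mono h2⟩
  have hiso : IsoFam ε b s X A := by
    intro r _ _ i hi j hj hbi hbj
    by_contra hle
    push Not at hle
    rw [hmem] at hi hj
    obtain ⟨p, hp, hi⟩ := hi
    exact hj ⟨p, hp, hi.contact (hC r i j hbi hbj hle)⟩
  have h1 := antitone_familyB hΦ hε hX (hS.mono hsT) hanti hiso s hs le_rfl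
  have hGA : G ⊆ A s := fun p hp => (hmem s p).2 ⟨p, hp, .root le_rfl⟩
  have h0 : engB Φ ε b 0 (A 0) (X 0) + stabB Φ * (A 0).card =
      Wt (stabB Φ) (X 0) (⋃ p ∈ G, BC C s p) := by
    have h2 : (⋃ p ∈ G, BC C s p) = ((A 0 : Finset ι) : Set ι) := by
      ext k
      simp only [mem_iUnion, mem_BC, Finset.mem_coe, hmem, exists_prop]
    rw [h2, Wt_coe, engB_eq_kin hΦ hε fun i _ j _ hij hbi hbj => hS.init i j hij hbi hbj,
      Finset.sum_add_distrib, Finset.mul_sum, Finset.sum_const, nsmul_eq_mul]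
    ring
  rw [h0] at h1
  set R := A s \ G with hR
  have hun : G ∪ R = A s := Finset.union_sdiff_of_subset hGA
  have hdis : Disjoint G R := Finset.disjoint_sdiff
  have hadd : engB Φ ε b s (A s) (X s) = engB Φ ε b s G (X s) + engB Φ ε b s R (X s) := by
    rw [← hun]
    exact engB_union hΦ hε hdis fun i hi j hj => hG i hi j (Finset.mem_sdiff.1 hj).2
  have hcard : ((A s).card : ℝ) = G.card + R.card := by
    rw [← hun, Finset.card_union_of_disjoint hdis, Nat.cast_add]
  have hR' := engB_neg_le hΦ hε hX hs R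
  have hGc : 0 ≤ stabB Φ * (G.card : ℝ) := by positivity
  rw [hadd, hcard] at h1
  nlinarith

/-! ## Energy of a monotone isolated family, restarted at time `a` -/

/-- Real induction on `[a, T]`. -/
theorem real_induction_from {a T : ℝ} {P : ℝ → Prop} (h0 : P a)
    (hr : ∀ t, a ≤ t → t < T → P t → ∃ δ > 0, ∀ s, t < s → s < t + δ → s ≤ T → P s)
    (hl : ∀ t, a < t → t ≤ T → (∀ s, a ≤ s → s < t → P s) → P t) :
    ∀ t, a ≤ t → t ≤ T → P t := by
  intro t ht htT
  have h := real_induction (T := T - a) (P := fun s => P (a + s)) (by simpa using h0)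
    (fun t h1 h2 h3 => by
      obtain ⟨δ, hδ, h⟩ := hr (a + t) (by linarith) (by linarith) h3
      exact ⟨δ, hδ, fun s h4 h5 h6 => h (a + s) (by linarith) (by linarith) (by linarith)⟩)
    (fun t h1 h2 h3 => hl (a + t) (by linarith) (by linarith) fun s h4 h5 => by
      have := h3 (s - a) (by linarith) (by linarith)
      simpa using this) (t - a) (by linarith) (by linarith)
  simpa using h

/-- **Energy of a monotone isolated family** (the infected set), restarted at time `a`: it grows at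
most by the weights of the particles which join. -/
theorem infected_restartB (hΦ : AdmissiblePotential Φ) (hε : 0 < ε) (hX : BWorld Φ ε b 0 X)
    (hS : SepBirths ε b T X) {C : ℝ → ι → ι → Prop}
    (hC : ∀ s j k, b j < s → b k < s → dist (X s j).1 (X s k).1 ≤ ε → C s j k)
    {S : ℝ → Finset ι} (hmono : ∀ s s', 0 ≤ s → s ≤ s' → s' ≤ T → S s ⊆ S s')
    (hiso : IsoFam ε b T X S) {a : ℝ} (ha : 0 ≤ a) {w : ι → ℝ}
    (hw : ∀ s, a ≤ s → s ≤ T → ∀ p ∉ S s, p ∈ S T → Wt (stabB Φ) (X 0) (BC C s p) ≤ w p) :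
    ∀ t, a ≤ t → t ≤ T → engB Φ ε b t (S t) (X t) ≤
      engB Φ ε b a (S a) (X a) + ∑ p ∈ S t \ S a, w p := by
  refine real_induction_from ?_ ?_ ?_
  · simp
  · intro t hat htT hP
    have ht : 0 ≤ t := ha.trans hat
    obtain ⟨δ, hδ, A', hAs⟩ := ev_const_right hmono ht htT
    refine ⟨δ, hδ, fun s h1 h2 h3 => ?_⟩
    have hsub : S t ⊆ A' := by
      rw [← hAs s h1 h2 h3]; exact hmono t s ht h1.le h3
    have hA'T : A' ⊆ S T := by
      rw [← hAs s h1 h2 h3]; exact hmono s T (ht.trans h1.le) h3 le_rfl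
    have hisot : IsoB ε b t A' (X t) := isoB_right hX hiso ht htT hδ hAs
    have hcons : engB Φ ε b s A' (X s) = engB Φ ε b t A' (X t) :=
      engB_const hΦ hε hX hS ht h1.le h3 (by
        intro r hr
        rcases hr.1.eq_or_lt with h4 | h4
        · rw [← h4]; exact hisot
        · rw [← hAs r h4 (hr.2.trans_lt h2) (hr.2.trans h3)]
          exact hiso.isoB hS (ht.trans h4.le) (hr.2.trans h3))
    set G := A' \ S t with hG
    have hun : S t ∪ G = A' := Finset.union_sdiff_of_subset hsub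
    have hdis : Disjoint (S t) G := Finset.disjoint_sdiff
    have hcross : ∀ i ∈ S t, ∀ j ∈ G, b i ≤ t → b j ≤ t → ε ≤ dist (X t i).1 (X t j).1 :=
      fun i hi j hj => hiso.isoB hS ht htT.le i hi j (Finset.mem_sdiff.1 hj).2
    have hadd : engB Φ ε b t A' (X t) = engB Φ ε b t (S t) (X t) + engB Φ ε b t G (X t) := by
      rw [← hun]
      exact engB_union hΦ hε hdis hcross
    have hGiso : IsoB ε b t G (X t) := by
      intro i hi j hj hbi hbj
      by_cases hjS : j ∈ S t
      · rw [dist_comm]; exact hcross j hjS i hi hbj hbi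
      · exact hisot i (Finset.mem_sdiff.1 hi).1 j (fun hjA => hj (Finset.mem_sdiff.2 ⟨hjA, hjS⟩))
          hbi hbj
    have hGle := engB_root_le hΦ hε hX hS hC ht htT.le hGiso
    have hGle' : Wt (stabB Φ) (X 0) (⋃ p ∈ G, BC C t p) ≤ ∑ p ∈ G, w p :=
      (Wt_biUnion_le (stabB_nonneg Φ) _ _ _).trans (Finset.sum_le_sum fun p hp =>
        hw t hat htT.le p (Finset.mem_sdiff.1 hp).2 (hA'T (Finset.mem_sdiff.1 hp).1))
    have hsum : ∑ p ∈ A' \ S a, w p = ∑ p ∈ S t \ S a, w p + ∑ p ∈ G, w p := by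
      have hSat : S a ⊆ S t := hmono a t ha hat htT.le
      have e1 : A' \ S a = (S t \ S a) ∪ G := by
        ext k
        simp only [hG, Finset.mem_union, Finset.mem_sdiff]
        constructor
        · rintro ⟨h5, h6⟩
          by_cases h7 : k ∈ S t
          · exact Or.inl ⟨h7, h6⟩
          · exact Or.inr ⟨h5, h7⟩
        · rintro (⟨h5, h6⟩ | ⟨h5, h6⟩)
          · exact ⟨hsub h5, h6⟩
          · exact ⟨h5, fun h7 => h6 (hSat h7)⟩
      rw [e1, Finset.sum_union (hdis.mono_left Finset.sdiff_subset)]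
    rw [hAs s h1 h2 h3, hcons, hadd, hsum]
    linarith
  · intro t hat htT hP
    have ht : 0 < t := ha.trans_lt hat
    obtain ⟨δ, hδ, A', hAs⟩ := ev_const_left hmono ht htT
    have hs0' : a ≤ max a (t - δ / 2) := le_max_left _ _
    have hst' : max a (t - δ / 2) < t := max_lt hat (by linarith)
    have hsδ' : t - δ < max a (t - δ / 2) := lt_of_lt_of_le (by linarith) (le_max_right _ _)
    have hsub : A' ⊆ S t := by
      rw [← hAs _ hsδ' hst' (ha.trans hs0')]; exact hmono _ t (ha.trans hs0') hst'.le htT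
    have hStT : S t ⊆ S T := hmono t T ht.le htT le_rfl
    have hisot : IsoB ε b t A' (X t) := isoB_left hX hS hiso ht htT hδ hAs
    -- isolation of `S t` just before `t`
    obtain ⟨η, hη, hηiso⟩ : ∃ η > 0, ∀ r, 0 ≤ r → t - η < r → r ≤ t → IsoB ε b r (S t) (X r) := by
      have hev' : ∀ᶠ r in 𝓝 t, ∀ i ∈ S t, ∀ j ∈ (S t)ᶜ, b i ≤ r → b j ≤ r →
          r < t → ε < dist (X r i).1 (X r j).1 := by
        rw [Filter.eventually_all_finset]
        intro i hi
        rw [Filter.eventually_all_finset]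
        intro j hj
        by_cases hb : b i < t ∧ b j < t
        · have hd := hiso t ht.le htT i hi j (Finset.mem_compl.1 hj) hb.1 hb.2
          have hc : ContinuousWithinAt (fun s => dist (X s i).1 (X s j).1) (Ici 0) t :=
            continuousOn_distB hX i j t ht.le
          have hc' : ContinuousAt (fun s => dist (X s i).1 (X s j).1) t :=
            hc.continuousAt (Ici_mem_nhds ht)
          filter_upwards [hc'.eventually (lt_mem_nhds hd)] with r hr _ _ _
          exact hr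
        · filter_upwards with r h1 h2 h3
          exact absurd ⟨h1.trans_lt h3, h2.trans_lt h3⟩ hb
      obtain ⟨η, hη, h⟩ := Metric.eventually_nhds_iff.1 hev'
      refine ⟨η, hη, fun r h0 h1 h2 => ?_⟩
      rcases h2.eq_or_lt with h3 | h3
      · rw [h3]; exact hiso.isoB hS ht.le htT
      · refine fun i hi j hj hbi hbj => (h ?_ i hi j (Finset.mem_compl.2 hj) hbi hbj h3).le
        rw [Real.dist_eq, abs_of_nonpos (by linarith)]
        linarith
    set s := max (max a (t - δ / 2)) (t - η / 2) with hs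
    have has : a ≤ s := hs0'.trans (le_max_left _ _)
    have hs0 : 0 ≤ s := ha.trans has
    have hst : s < t := max_lt hst' (by linarith)
    have hsδ : t - δ < s := hsδ'.trans_le (le_max_left _ _)
    have hsη : t - η < s := lt_of_lt_of_le (by linarith) (le_max_right _ _)
    have hsS : S s = A' := hAs s hsδ hst hs0
    have hcons : engB Φ ε b t A' (X t) = engB Φ ε b s A' (X s) :=
      engB_const hΦ hε hX hS hs0 hst.le htT (by
        intro r hr
        rcases hr.2.eq_or_lt with h4 | h4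
        · rw [h4]; exact hisot
        · rw [← hAs r (hsδ.trans_le hr.1) h4 (hs0.trans hr.1)]
          exact hiso.isoB hS (hs0.trans hr.1) (h4.le.trans htT))
    set G := S t \ A' with hG
    have hun : A' ∪ G = S t := Finset.union_sdiff_of_subset hsub
    have hdis : Disjoint A' G := Finset.disjoint_sdiff
    have hcross : ∀ r, s ≤ r → r ≤ t → ∀ i ∈ A', ∀ j ∈ G, b i ≤ r → b j ≤ r →
        ε ≤ dist (X r i).1 (X r j).1 := by
      intro r h1 h2 i hi j hj hbi hbj
      rcases h2.eq_or_lt with h4 | h4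
      · rw [h4]
        exact hisot i hi j (Finset.mem_sdiff.1 hj).2 (h4 ▸ hbi) (h4 ▸ hbj)
      · have h7 := hAs r (hsδ.trans_le h1) h4 (hs0.trans h1)
        exact hiso.isoB hS (hs0.trans h1) (h4.le.trans htT) i (h7 ▸ hi) j
          (h7 ▸ (Finset.mem_sdiff.1 hj).2) hbi hbj
    have hadd : engB Φ ε b t (S t) (X t) = engB Φ ε b t A' (X t) + engB Φ ε b t G (X t) := by
      rw [← hun]
      exact engB_union hΦ hε hdis (hcross t hst.le le_rfl)
    have hGiso : ∀ r ∈ Icc s t, IsoB ε b r G (X r) := by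
      intro r hr i hi j hj hbi hbj
      by_cases hjS : j ∈ A'
      · rw [dist_comm]; exact hcross r hr.1 hr.2 j hjS i hi hbj hbi
      · exact hηiso r (hs0.trans hr.1) (hsη.trans_le hr.1) hr.2 i (Finset.mem_sdiff.1 hi).1 j
          (fun hjA => hj (Finset.mem_sdiff.2 ⟨hjA, hjS⟩)) hbi hbj
    have hGcons : engB Φ ε b t G (X t) = engB Φ ε b s G (X s) :=
      engB_const hΦ hε hX hS hs0 hst.le htT hGiso
    have hGle := engB_root_le hΦ hε hX hS hC hs0 (hst.le.trans htT) (hGiso s ⟨le_rfl, hst.le⟩)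
    have hGle' : Wt (stabB Φ) (X 0) (⋃ p ∈ G, BC C s p) ≤ ∑ p ∈ G, w p :=
      (Wt_biUnion_le (stabB_nonneg Φ) _ _ _).trans (Finset.sum_le_sum fun p hp =>
        hw s has (hst.le.trans htT) p (by rw [hsS]; exact (Finset.mem_sdiff.1 hp).2)
          (hStT (Finset.mem_sdiff.1 hp).1))
    have hPs := hP s has hst
    have hsum : ∑ p ∈ S t \ S a, w p = ∑ p ∈ A' \ S a, w p + ∑ p ∈ G, w p := by
      have hSas : S a ⊆ A' := by
        rw [← hsS]; exact hmono a s ha has (hst.le.trans htT)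
      have e1 : S t \ S a = (A' \ S a) ∪ G := by
        ext k
        simp only [hG, Finset.mem_union, Finset.mem_sdiff]
        constructor
        · rintro ⟨h5, h6⟩
          by_cases h7 : k ∈ A'
          · exact Or.inl ⟨h7, h6⟩
          · exact Or.inr ⟨h5, h7⟩
        · rintro (⟨h5, h6⟩ | ⟨h5, h6⟩)
          · exact ⟨hsub h5, h6⟩
          · exact ⟨h5, fun h7 => h6 (hSas h7)⟩
      rw [e1, Finset.sum_union (hdis.mono_left Finset.sdiff_subset)]
    rw [hsS] at hPs
    rw [hadd, hcons, hGcons, hsum]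
    linarith

end births

end Crest.Agent.R122.Energy410
end

-- ▼ part R122/Energy3_410

/-!
# The energy functional `Jeng` of the infected set (row 122, block EN, part 4)

Decision 2 (c) of the captain: `J_K(t) = ε² E Jeng(I_K(w, t))` with
`Jeng A = eng A + (B + 3/2) |A|`, `B = stabB Φ`.

* `JengB` (worlds with births), `Jeng` (flow); nonnegativity, control of the speeds,
* restart inequality, bound by the initial energy,
* `lintegral_flux_le`: the time integrated flux with an antitone weight, (3.4) of `E_FINAL`.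
-/

set_option autoImplicit false
set_option linter.unusedSectionVars false

open Set Filter Topology MeasureTheory
open scoped NNReal ENNReal
open Crest.AnalysisR.Kinetic
open Crest.Agent.R122.Flow671 Crest.Agent.R122.Loc45 Crest.Agent.R122.Causal291
open Crest.Agent.R122.Ins45 Crest.Agent.R122.Inf879

namespace Crest.Agent.R122.Energy410

section births

variable {ι : Type*} {Φ : Space3 → ℝ} {ε : ℝ} {b : ι → ℝ} {X : ℝ → ι → PhasePoint} {T : ℝ}

/-- Energy of the family `A` plus `stabB Φ + 3 / 2` times its number (world with births). -/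
noncomputable def JengB (Φ : Space3 → ℝ) (ε : ℝ) (b : ι → ℝ) (t : ℝ) (A : Finset ι)
    (Z : ι → PhasePoint) : ℝ :=
  engB Φ ε b t A Z + (stabB Φ + 3 / 2) * A.card

@[simp] theorem JengB_empty (t : ℝ) (Z : ι → PhasePoint) : JengB Φ ε b t ∅ Z = 0 := by
  simp [JengB]

variable [Fintype ι]

theorem kin_le_JengB (hΦ : AdmissiblePotential Φ) (hε : 0 < ε) (hX : BWorld Φ ε b 0 X) {t : ℝ}
    (ht : 0 ≤ t) (A : Finset ι) :
    ∑ i ∈ A, ((1 / 2) * ‖(X t i).2‖ ^ 2 + 3 / 2) ≤ JengB Φ ε b t A (X t) := by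
  have h1 := engB_lower hΦ hε hX ht A
  rw [Finset.sum_add_distrib, ← Finset.mul_sum, Finset.sum_const, nsmul_eq_mul]
  unfold JengB
  linarith

theorem JengB_nonneg (hΦ : AdmissiblePotential Φ) (hε : 0 < ε) (hX : BWorld Φ ε b 0 X) {t : ℝ}
    (ht : 0 ≤ t) (A : Finset ι) : 0 ≤ JengB Φ ε b t A (X t) :=
  (Finset.sum_nonneg fun i _ => by positivity).trans (kin_le_JengB hΦ hε hX ht A)

/-- The functional controls the first moment of the speeds. -/
theorem speed_le_JengB (hΦ : AdmissiblePotential Φ) (hε : 0 < ε) (hX : BWorld Φ ε b 0 X) {t : ℝ}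
    (ht : 0 ≤ t) (A : Finset ι) : ∑ i ∈ A, (1 + ‖(X t i).2‖) ≤ JengB Φ ε b t A (X t) :=
  (Finset.sum_le_sum fun i _ => by nlinarith [sq_nonneg (‖(X t i).2‖ - 1)]).trans
    (kin_le_JengB hΦ hε hX ht A)

/-- The functional controls the second moment of the speeds. -/
theorem sq_le_JengB (hΦ : AdmissiblePotential Φ) (hε : 0 < ε) (hX : BWorld Φ ε b 0 X) {t : ℝ}
    (ht : 0 ≤ t) (A : Finset ι) : ∑ i ∈ A, (1 + ‖(X t i).2‖ ^ 2) ≤ 2 * JengB Φ ε b t A (X t) := by
  have h1 := kin_le_JengB hΦ hε hX ht A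
  have h2 : ∑ i ∈ A, (1 + ‖(X t i).2‖ ^ 2) ≤ ∑ i ∈ A, 2 * ((1 / 2) * ‖(X t i).2‖ ^ 2 + 3 / 2) :=
    Finset.sum_le_sum fun i _ => by linarith
  rw [← Finset.mul_sum] at h2
  linarith

/-- Isolated groups carry a larger functional than their isolated subgroups. -/
theorem JengB_le_of_subset (hΦ : AdmissiblePotential Φ) (hε : 0 < ε) (hX : BWorld Φ ε b 0 X)
    {t : ℝ} (ht : 0 ≤ t) {A A' : Finset ι} (hsub : A ⊆ A') (hA : IsoB ε b t A (X t)) :
    JengB Φ ε b t A (X t) ≤ JengB Φ ε b t A' (X t) := by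
  classical
  set R := A' \ A with hR
  have hun : A ∪ R = A' := Finset.union_sdiff_of_subset hsub
  have hdis : Disjoint A R := Finset.disjoint_sdiff
  have hadd : engB Φ ε b t A' (X t) = engB Φ ε b t A (X t) + engB Φ ε b t R (X t) := by
    rw [← hun]
    exact engB_union hΦ hε hdis fun i hi j hj => hA i hi j (Finset.mem_sdiff.1 hj).2
  have hcard : (A'.card : ℝ) = A.card + R.card := by
    rw [← hun, Finset.card_union_of_disjoint hdis, Nat.cast_add]
  have h1 := JengB_nonneg hΦ hε hX ht R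
  unfold JengB at h1 ⊢
  rw [hadd, hcard]
  linarith

theorem JengB_univ (hΦ : AdmissiblePotential Φ) (hε : 0 < ε) (hX : BWorld Φ ε b 0 X)
    (hS : SepBirths ε b T X) {t : ℝ} (ht : 0 ≤ t) (htT : t ≤ T) :
    JengB Φ ε b t Finset.univ (X t) = ∑ i, ((1 / 2) * ‖(X 0 i).2‖ ^ 2 + (stabB Φ + 3 / 2)) := by
  unfold JengB
  rw [engB_const hΦ hε hX hS le_rfl ht htT fun r _ i _ j hj => absurd (Finset.mem_univ j) hj,
    engB_eq_kin hΦ hε fun i _ j _ hij hbi hbj => hS.init i j hij hbi hbj, Finset.sum_add_distrib,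
    Finset.mul_sum, Finset.sum_const, nsmul_eq_mul, mul_comm (stabB Φ + 3 / 2)]

/-- The functional of an isolated group is bounded by the initial energy. -/
theorem JengB_le_total (hΦ : AdmissiblePotential Φ) (hε : 0 < ε) (hX : BWorld Φ ε b 0 X)
    (hS : SepBirths ε b T X) {t : ℝ} (ht : 0 ≤ t) (htT : t ≤ T) {A : Finset ι}
    (hA : IsoB ε b t A (X t)) :
    JengB Φ ε b t A (X t) ≤ ∑ i, ((1 / 2) * ‖(X 0 i).2‖ ^ 2 + (stabB Φ + 3 / 2)) :=
  (JengB_le_of_subset hΦ hε hX ht (Finset.subset_univ A) hA).trans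
    (JengB_univ hΦ hε hX hS ht htT).le

/-- Total first moment of the speeds in a world with births. -/
theorem total_speed_leB (hΦ : AdmissiblePotential Φ) (hε : 0 < ε) (hX : BWorld Φ ε b 0 X)
    (hS : SepBirths ε b T X) {t : ℝ} (ht : 0 ≤ t) (htT : t ≤ T) :
    ∑ i, (1 + ‖(X t i).2‖) ≤ ∑ i, ((1 / 2) * ‖(X 0 i).2‖ ^ 2 + (stabB Φ + 3 / 2)) :=
  (speed_le_JengB hΦ hε hX ht Finset.univ).trans (JengB_univ hΦ hε hX hS ht htT).le

theorem total_sq_leB (hΦ : AdmissiblePotential Φ) (hε : 0 < ε) (hX : BWorld Φ ε b 0 X)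
    (hS : SepBirths ε b T X) {t : ℝ} (ht : 0 ≤ t) (htT : t ≤ T) :
    ∑ i, (1 + ‖(X t i).2‖ ^ 2) ≤ 2 * ∑ i, ((1 / 2) * ‖(X 0 i).2‖ ^ 2 + (stabB Φ + 3 / 2)) := by
  have h1 := sq_le_JengB hΦ hε hX ht Finset.univ
  rw [JengB_univ hΦ hε hX hS ht htT] at h1
  exact h1

variable [DecidableEq ι]

/-- **Restart.** Growth of the functional of a monotone isolated family. -/
theorem JengB_restart (hΦ : AdmissiblePotential Φ) (hε : 0 < ε) (hX : BWorld Φ ε b 0 X)
    (hS : SepBirths ε b T X) {C : ℝ → ι → ι → Prop}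
    (hC : ∀ s j k, b j < s → b k < s → dist (X s j).1 (X s k).1 ≤ ε → C s j k)
    {S : ℝ → Finset ι} (hmono : ∀ s s', 0 ≤ s → s ≤ s' → s' ≤ T → S s ⊆ S s')
    (hiso : IsoFam ε b T X S) {a : ℝ} (ha : 0 ≤ a) {w : ι → ℝ}
    (hw : ∀ s, a ≤ s → s ≤ T → ∀ p ∉ S s, p ∈ S T → Wt (stabB Φ) (X 0) (BC C s p) ≤ w p)
    {t : ℝ} (hat : a ≤ t) (htT : t ≤ T) :
    JengB Φ ε b t (S t) (X t) ≤
      JengB Φ ε b a (S a) (X a) + ∑ p ∈ S t \ S a, (w p + (stabB Φ + 3 / 2)) := by
  have h1 := infected_restartB hΦ hε hX hS hC hmono hiso ha hw t hat htT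
  have hsub : S a ⊆ S t := hmono a t ha hat htT
  have hcard : ((S t).card : ℝ) = (S a).card + (S t \ S a).card := by
    rw [← Nat.cast_add, add_comm, Finset.card_sdiff_add_card_eq_card hsub]
  unfold JengB
  rw [hcard, Finset.sum_add_distrib, Finset.sum_const, nsmul_eq_mul]
  linarith


end births

/-! ## The gas without births -/

section flow

variable {ι : Type*} [Fintype ι] {Φ : Space3 → ℝ} {ε T : ℝ}

/-- The flow is a world with births at time `0`. -/
theorem bworld_flow (hΦ : AdmissiblePotential Φ) (hε : 0 < ε) {Z : ι → PhasePoint}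
    (hfar : ∀ i j, i ≠ j → ε ≤ dist (Z i).1 (Z j).1) :
    BWorld Φ ε (fun _ : ι => (0 : ℝ)) 0 (fun t => flow Φ ε t Z) :=
  World.bworld (Loc45.world_flow hΦ hε (Dom_of_far hε hfar)) fun _ => le_rfl

theorem sepBirths_flow (hΦ : AdmissiblePotential Φ) (hε : 0 < ε) {Z : ι → PhasePoint}
    (hfar : ∀ i j, i ≠ j → ε ≤ dist (Z i).1 (Z j).1) (T : ℝ) :
    SepBirths ε (fun _ : ι => (0 : ℝ)) T (fun t => flow Φ ε t Z) where
  init i j hij _ _ := by
    simp only [flow_zero hΦ hε]
    exact hfar i j hij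
  birth i j _ h0 _ _ := absurd h0 (lt_irrefl _)

/-- Energy of the family `A` plus `stabB Φ + 3 / 2` times its number. -/
noncomputable def Jeng (Φ : Space3 → ℝ) (ε : ℝ) (A : Finset ι) (Z : ι → PhasePoint) : ℝ :=
  eng Φ ε A Z + (stabB Φ + 3 / 2) * A.card

omit [Fintype ι] in
@[simp] theorem Jeng_empty (Z : ι → PhasePoint) : Jeng Φ ε ∅ Z = 0 := by simp [Jeng]

omit [Fintype ι] in
theorem Jeng_eq_JengB {t : ℝ} (ht : 0 ≤ t) (A : Finset ι) (Z : ι → PhasePoint) :
    Jeng Φ ε A Z = JengB Φ ε (fun _ : ι => (0 : ℝ)) t A Z := by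
  unfold Jeng JengB
  rw [engB_of_born Φ ε (fun _ _ => ht)]

variable {Z : ι → PhasePoint}

theorem Jeng_nonneg (hΦ : AdmissiblePotential Φ) (hε : 0 < ε)
    (hfar : ∀ i j, i ≠ j → ε ≤ dist (Z i).1 (Z j).1) {t : ℝ} (ht : 0 ≤ t) (A : Finset ι) :
    0 ≤ Jeng Φ ε A (flow Φ ε t Z) := by
  rw [Jeng_eq_JengB ht]
  exact JengB_nonneg hΦ hε (bworld_flow hΦ hε hfar) ht A

theorem speed_le_Jeng (hΦ : AdmissiblePotential Φ) (hε : 0 < ε)
    (hfar : ∀ i j, i ≠ j → ε ≤ dist (Z i).1 (Z j).1) {t : ℝ} (ht : 0 ≤ t) (A : Finset ι) :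
    ∑ i ∈ A, (1 + ‖(flow Φ ε t Z i).2‖) ≤ Jeng Φ ε A (flow Φ ε t Z) := by
  rw [Jeng_eq_JengB ht]
  exact speed_le_JengB hΦ hε (bworld_flow hΦ hε hfar) ht A


/-- The initial energy with its number, an upper bound for all the functionals of the gas. -/
noncomputable def totE (Φ : Space3 → ℝ) (Z : ι → PhasePoint) : ℝ :=
  ∑ i, ((1 / 2) * ‖(Z i).2‖ ^ 2 + (stabB Φ + 3 / 2))

theorem Jeng_le_total (hΦ : AdmissiblePotential Φ) (hε : 0 < ε)
    (hfar : ∀ i j, i ≠ j → ε ≤ dist (Z i).1 (Z j).1) {t : ℝ} (ht : 0 ≤ t) {A : Finset ι}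
    (hA : Iso ε A (flow Φ ε t Z)) : Jeng Φ ε A (flow Φ ε t Z) ≤ totE Φ Z := by
  rw [Jeng_eq_JengB ht]
  have h1 := JengB_le_total hΦ hε (bworld_flow hΦ hε hfar) (sepBirths_flow hΦ hε hfar t) ht le_rfl
    (fun i hi j hj _ _ => hA i hi j hj)
  simp only [flow_zero hΦ hε] at h1
  exact h1

/-- Total speeds of the gas at time `t`. -/
theorem total_speed_le (hΦ : AdmissiblePotential Φ) (hε : 0 < ε)
    (hfar : ∀ i j, i ≠ j → ε ≤ dist (Z i).1 (Z j).1) {t : ℝ} (ht : 0 ≤ t) :
    ∑ i, (1 + ‖(flow Φ ε t Z i).2‖) ≤ totE Φ Z := by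
  have h1 := total_speed_leB hΦ hε (bworld_flow hΦ hε hfar) (sepBirths_flow hΦ hε hfar t) ht le_rfl
  simp only [flow_zero hΦ hε] at h1
  exact h1

variable [DecidableEq ι]

omit [Fintype ι] in
theorem isoFam_of_strict {X : ℝ → ι → PhasePoint} {S : ℝ → Finset ι} {b : ι → ℝ}
    (h : ∀ s, 0 ≤ s → s ≤ T → ∀ i ∈ S s, ∀ j ∉ S s, ε < dist (X s i).1 (X s j).1) :
    IsoFam ε b T X S := fun s h0 h1 i hi j hj _ _ => h s h0 h1 i hi j hj

/-- **Restart inequality for the gas.** -/
theorem Jeng_restart (hΦ : AdmissiblePotential Φ) (hε : 0 < ε)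
    (hfar : ∀ i j, i ≠ j → ε ≤ dist (Z i).1 (Z j).1)
    {S : ℝ → Finset ι} (hmono : ∀ s s', 0 ≤ s → s ≤ s' → s' ≤ T → S s ⊆ S s')
    (hiso : ∀ s, 0 ≤ s → s ≤ T → ∀ i ∈ S s, ∀ j ∉ S s,
      ε < dist (flow Φ ε s Z i).1 (flow Φ ε s Z j).1)
    {a : ℝ} (ha : 0 ≤ a) {w : ι → ℝ}
    (hw : ∀ s, a ≤ s → s ≤ T → ∀ p ∉ S s, p ∈ S T →
      Wt (stabB Φ) Z (BC (Ct (fun t => flow Φ ε t Z) ε) s p) ≤ w p)
    {t : ℝ} (hat : a ≤ t) (htT : t ≤ T) :
    Jeng Φ ε (S t) (flow Φ ε t Z) ≤
      Jeng Φ ε (S a) (flow Φ ε a Z) + ∑ p ∈ S t \ S a, (w p + (stabB Φ + 3 / 2)) := by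
  rw [Jeng_eq_JengB (ha.trans hat), Jeng_eq_JengB ha]
  refine JengB_restart hΦ hε (bworld_flow hΦ hε hfar) (sepBirths_flow hΦ hε hfar T)
    (C := Ct (fun t => flow Φ ε t Z) ε) (fun s j k _ _ h => h) hmono (isoFam_of_strict hiso) ha ?_
    hat htT
  simp only [flow_zero hΦ hε]
  exact hw


end flow

/-! ## The contact relation of 879 -/



end Crest.Agent.R122.Energy410
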