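import Crest.Agent.R122.BaseNu_45
import Crest.Agent.R122.NuS_735

/-!
# Almost sure facts of the base structures (row 122, S^(0), helper45)

* `Good0` : the hypotheses of `conn0`, `pair0` of `BaseNu_45`.
* `ae_proper_mP`, `ae_good0` : almost every base structure of helper735 is good.
* `Good0.conn`, `Good0.pass`, `Good0.pair`.
-/

set_option autoImplicit false
set_option linter.unusedSectionVars false

open MeasureTheory Set Filter Topology
open scoped NNReal ENNReal
open Crest.AnalysisR.Kinetic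
open Crest.Agent.R122.VL581 Crest.Agent.R122.VL581.VSys Crest.Agent.R122.LN304
open Crest.Agent.R122.Kin796 Crest.Agent.R122.Kin796.CTree Crest.Agent.R122.Tree674
open Crest.Agent.R122.GC311 Crest.Agent.R122.EDefs602
open Crest.Agent.R122.Ins45 Crest.Agent.R122.StrG491
open Crest.Agent.R122.OCout796 Crest.Agent.R122.Scat818
open Crest.Agent.R122.OneC285 (cT cB cD cX oneLs exS)
open Crest.Agent.R122.Flux663
open Crest.Agent.R122.NuL735
open scoped Classical

noncomputable section

namespace Crest.Agent.R122.BasePair45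

variable {Φ : Space3 → ℝ} {ε T te T' ℓ ς c : ℝ} {K : ℕ} {P : CTree} {q : NuL735.Th P}

theorem measurable_relQ : Measurable fun q : NuL735.Th P => OneC423.relL q.1.1 (lnO q.2).1 :=
  OneC423.measurable_relL.comp (f := fun q : NuL735.Th P => (q.1.1, (lnO q.2).1))
    (measurable_fst.fst.prodMk (measurable_lnO.comp measurable_snd).fst)

theorem measurableSet_proper (ε : ℝ) :
    MeasurableSet {q : NuL735.Th P | PN564.Proper ε q.1 (lnO q.2)} := by
  have h1 : Measurable fun q : NuL735.Th P => (OneC423.relL q.1.1 (lnO q.2).1).2 :=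
    measurable_relQ.snd
  have h2 : Measurable fun q : NuL735.Th P => ‖bline (OneC423.relL q.1.1 (lnO q.2).1)‖ :=
    (measurable_bline.comp measurable_relQ).norm
  exact (h1 (measurableSet_singleton (0 : Space3)).compl).inter
    (measurableSet_lt h2 measurable_const)

theorem measurableSet_ct (hΦ : AdmissiblePotential Φ) (ε te : ℝ) :
    MeasurableSet {q : NuL735.Th P | (q.1, (lnO q.2).1) ∈ OneC423.ctSet Φ ε te P} :=
  (measurable_fst.prodMk (measurable_lnO.comp measurable_snd).fst)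
    (OneC423.measurableSet_ctSet hΦ ε te P)

/-- Grazing contacts are exceptional. -/
theorem ae_proper_ref (hΦ : AdmissiblePotential Φ) (hε : 0 < ε) (te : ℝ) (P : CTree) :
    ∀ᵐ q ∂refM P, (q.1, (lnO q.2).1) ∈ OneC423.ctSet Φ ε te P →
      PN564.Proper ε q.1 (lnO q.2) := by
  set B : Set (NuL735.Th P) := {q | (q.1, (lnO q.2).1) ∈ OneC423.ctSet Φ ε te P} ∩
    {q | PN564.Proper ε q.1 (lnO q.2)}ᶜ with hB
  have hBm : MeasurableSet B := (measurableSet_ct hΦ ε te).inter (measurableSet_proper ε).compl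
  have h0 : refM P B = 0 := by
    unfold refM
    rw [Measure.prod_apply_symm hBm]
    refine (lintegral_congr fun r => ?_).trans lintegral_zero
    have h1 := PN564.ae_proper_root hΦ hε te P (lnO r)
    rw [ae_iff] at h1
    refine measure_mono_null (fun z hz => ?_) h1
    exact fun h' => hz.2 (h' hz.1)
  rw [ae_iff]
  refine measure_mono_null (fun q hq => ?_) h0
  rw [mem_ofPred_eq, Classical.not_imp] at hq
  exact hq

theorem ae_mP_of_ref {p : NuL735.Th P → Prop} (h : ∀ᵐ q ∂refM P, p q) (N : NPar)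
    (x y : Idx P ⊕ Bool) : ∀ᵐ q ∂mP Φ ε K N P x y, p q := by
  refine ae_restrict_of_ae ?_
  unfold mS
  exact Measure.ae_smul_measure ((withDensity_absolutelyContinuous _ _).ae_le h) _

/-- The contact of a base structure is proper. -/
theorem ae_proper_mP (hΦ : AdmissiblePotential Φ) (hε : 0 < ε) (N : NPar) (x y : Idx P ⊕ Bool) :
    ∀ᵐ q ∂mP Φ ε K N P x y, PN564.Proper ε q.1 (lnO q.2) := by
  filter_upwards [ae_goodS hΦ N x y, ae_mP_of_ref (ae_proper_ref hΦ hε N.te P) N x y]
    with q h1 h2 using h2 h1.2.1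

/-- Good base structures. -/
structure Good0 (Φ : Space3 → ℝ) (ε te T' : ℝ) (P : CTree) (q : NuL735.Th P) : Prop where
  ct : (q.1, (lnO q.2).1) ∈ OneC423.ctSet Φ ε te P
  valid : Valid Φ ε P T' q.1.1.2 q.1.2
  sep : Sep Φ ε P T' q.1.1 q.1.2
  proper : PN564.Proper ε q.1 (lnO q.2)

/-- **Almost every base structure is good.** -/
theorem ae_good0 (hΦ : AdmissiblePotential Φ) (hε : 0 < ε) (N : NPar) (x y : Idx P ⊕ Bool) :
    ∀ᵐ q ∂mP Φ ε K N P x y, Good0 Φ ε N.te N.T' P q := by
  filter_upwards [ae_goodS hΦ N x y, ae_sepE hΦ hε N x y, ae_proper_mP hΦ hε N x y]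
    with q h1 h2 h3 using ⟨h1.2.1, h1.1, h2, h3⟩

namespace Good0

variable (h : Good0 Φ ε te T' P q) (hC : 1 ≤ c) (hΦ : AdmissiblePotential Φ) (hε : 0 < ε)
  (hte : te < T) (hT' : T ≤ T')
include h hC hΦ hε hte hT'

/-- **A base structure is connected.** -/
theorem conn : (sys0 Φ T ε P).Conn c Finset.univ (zE Φ ε q) :=
  conn0 hC hΦ hε h.ct hte (LNTree410.sep_anti hT' h.sep) (PN564.cdok_cD hε h.proper)

variable (hT : TL (sys0 Φ T ε P) c ℓ ς Finset.univ (zE Φ ε q)) (hℓς : 2 * ℓ ≤ ς)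
  (hlT : te + 2 * ℓ < T)
include hT hℓς hlT


/-- **The pair of the lines `x` (an exit) and `y`** of a tree-like base structure. -/
theorem pair {x y : Idx P ⊕ Bool} (hx : x ∈ exS P) (hy : y ≠ x) :
    ∃ (R : ℝ → Idx P ⊕ Unit → Idx P ⊕ Unit → Prop)
      (cl : Idx P ⊕ Unit → Finset (Idx P ⊕ Unit)) (bD : Idx P ⊕ Unit → ℝ),
      Pair (sys0 Φ T ε P) c (zE Φ ε q) R Finset.univ cl bD (lB P x) (lB P y)
        (oneE Φ ε q x).1 (oneE Φ ε q y).1 :=
  pair0 hC hΦ hε h.ct hte (LNTree410.sep_anti hT' h.sep) (PN564.cdok_cD hε h.proper) hT hℓς hlT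
    hx hy


end Good0

end Crest.Agent.R122.BasePair45

end
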