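import Crest.Agent.R122.Mark10_307
import Crest.Agent.R122.Omega_969
import Crest.Agent.R122.PairBC_307

-- ▼ part R122/Mark11_307
section

/-!
# Base pair laws (row 122, block H7b), helper307: the source at the top node

* `px_srcT` : the law (exit line, sibling on the sphere of radius `ε`) is a spread pair law.
* `domR_top` : `DomR` for the top node.
-/

set_option autoImplicit false
set_option maxHeartbeats 400000
set_option linter.unusedSectionVars false

open MeasureTheory ProbabilityTheory Set Filter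
open scoped ENNReal Topology Classical
open Crest.AnalysisR.Kinetic
open Crest.Agent.R122.Kin796 Crest.Agent.R122.Kin796.CTree Crest.Agent.R122.Tree674
open Crest.Agent.R122.Disc416 Crest.Agent.R122.EDefs602
open Crest.Agent.R122.Boost969 Crest.Agent.R122.Kin416 Crest.Agent.R122.Omega969
open Crest.Agent.R122.Pair292 hiding ML
open Crest.Agent.R122.CollLeg969 (WPack CLeg EC collM domK)
open Crest.Agent.R122.PairSrc969

noncomputable section

namespace Crest.Agent.R122.Mark307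

variable {Φ : Space3 → ℝ}

/-- time indicator -/
def iT (te s : ℝ) : ℝ≥0∞ := if 0 < s ∧ s ≤ te then 1 else 0

theorem measurable_iT (te : ℝ) : Measurable (iT te) := by
  unfold iT
  exact Measurable.ite ((measurableSet_lt measurable_const measurable_id).inter
    (measurableSet_le measurable_id measurable_const)) measurable_const measurable_const

theorem lineM_geC {γ : ℝ → ℝ} (hγm : Measurable γ) {ρ : ℝ≥0∞} (hρ1 : ρ ≤ 1) {K n : ℕ}
    (hn : 1 ≤ n) (hnK : n ≤ K) {T b' : ℝ} (hγ : ∀ τ ∈ Ioc 0 T, γ τ ≤ b')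
    {φ : ML → ℝ≥0∞} (hφ : Measurable φ) :
    ρ ^ n * ∫⁻ d : BLine, iT T d.1 * (gE b' d.2.2 * φ (d, n)) ≤
      ∫⁻ l, φ l ∂lineM γ ρ K T := by
  have hm : Measurable fun l : ML => lineD γ ρ K l * φ l := (EBasic602.measurable_lineD hγm).mul hφ
  have hm2 : Measurable fun d : BLine => iT T d.1 * (gE b' d.2.2 * φ (d, n)) :=
    ((measurable_iT T).comp measurable_fst).mul (((measurable_gE b').comp measurable_snd.snd).mul
      (hφ.comp (measurable_id.prodMk measurable_const)))
  have e1 : ∫⁻ l, φ l ∂lineM γ ρ K T = ∫⁻ x, ∑' n : ℕ, lineD γ ρ K (x, n) * φ (x, n)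
      ∂((volume.restrict (Ioc (0 : ℝ) T)).prod (volume : Measure PhasePoint)) := by
    unfold lineM
    rw [lintegral_withDensity_eq_lintegral_mul _ (EBasic602.measurable_lineD hγm) hφ]
    unfold lineV
    simp only [Pi.mul_apply]
    rw [lintegral_prod _ hm.aemeasurable]
    refine lintegral_congr fun x => ?_
    rw [lintegral_count]
  have e2 : ((volume.restrict (Ioc (0 : ℝ) T)).prod (volume : Measure PhasePoint)) =
      (volume : Measure BLine).restrict ((Ioc 0 T) ×ˢ univ) := by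
    rw [Measure.volume_eq_prod ℝ PhasePoint, ← Measure.prod_restrict, Measure.restrict_univ]
  rw [e1, e2, ← lintegral_const_mul _ hm2,
    ← lintegral_indicator (measurableSet_Ioc.prod MeasurableSet.univ)]
  refine lintegral_mono fun d => ?_
  by_cases hd : 0 < d.1 ∧ d.1 ≤ T
  · have hd' : d ∈ (Ioc (0 : ℝ) T) ×ˢ (univ : Set PhasePoint) := ⟨⟨hd.1, hd.2⟩, mem_univ _⟩
    rw [indicator_of_mem hd']
    refine le_trans ?_ (ENNReal.le_tsum n)
    have h1 : gE b' d.2.2 ≤ Kin796.wG (γ d.1) d.2.2 := by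
      rw [gE_eq_wG]
      unfold Kin796.wG
      refine ENNReal.ofReal_le_ofReal (Real.exp_le_exp.2 (neg_le_neg ?_))
      exact mul_le_mul_of_nonneg_right (hγ d.1 ⟨hd.1, hd.2⟩) (by positivity)
    have h2 : ρ ^ n = markW ρ K n := by
      unfold markW
      rw [if_pos ⟨hn, hnK⟩]
    unfold lineD
    rw [← h2]
    show ρ ^ n * (iT T d.1 * (gE b' d.2.2 * φ (d, n))) ≤ _
    unfold iT
    rw [if_pos hd, one_mul]
    calc ρ ^ n * (gE b' d.2.2 * φ (d, n)) = gE b' d.2.2 * ρ ^ n * φ (d, n) := by ring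
      _ ≤ _ := by gcongr
  · show ρ ^ n * (iT T d.1 * (gE b' d.2.2 * φ (d, n))) ≤ _
    unfold iT
    rw [if_neg hd, zero_mul, mul_zero]
    exact bot_le

/-! ### The source -/

/-- source data: exit line, direction -/
abbrev SQ : Type := BLine × Space3

/-- direction indicator -/
def iS (w : Space3) : ℝ≥0∞ := if ‖w‖ = 1 then 1 else 0

theorem measurable_iS : Measurable iS := by
  unfold iS
  exact Measurable.ite (measurableSet_eq_fun measurable_norm measurable_const) measurable_const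
    measurable_const

/-- density of the source -/
def sG (C : ℝ≥0∞) (te b' : ℝ) (p : SQ × Space3) : ℝ≥0∞ :=
  iT te p.1.1.1 * (iS p.1.2 * (C * ((gE b' p.2 * gE b' p.1.1.2.2) *
    ENNReal.ofReal (-inner ℝ (p.2 - p.1.1.2.2) p.1.2))))

/-- bound of the density -/
def sA (C : ℝ≥0∞) (te bs : ℝ) (q : SQ) : ℝ≥0∞ := iT te q.1.1 * (C * gE bs q.1.2.2)

theorem measurable_sG (C : ℝ≥0∞) (te b' : ℝ) : Measurable (sG C te b') := by
  unfold sG
  have h1 : Measurable fun p : SQ × Space3 => ENNReal.ofReal (-inner ℝ (p.2 - p.1.1.2.2) p.1.2) :=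
    ENNReal.measurable_ofReal.comp (Continuous.measurable (by fun_prop))
  exact ((measurable_iT te).comp measurable_fst.fst.fst).mul
    ((measurable_iS.comp measurable_fst.snd).mul (measurable_const.mul
      ((((measurable_gE b').comp measurable_snd).mul
        ((measurable_gE b').comp measurable_fst.fst.snd.snd)).mul h1)))

theorem measurable_sA (C : ℝ≥0∞) (te bs : ℝ) : Measurable (sA C te bs) := by
  unfold sA
  exact ((measurable_iT te).comp measurable_fst.fst).mul
    (measurable_const.mul ((measurable_gE bs).comp measurable_fst.snd.snd))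

theorem sG_le {bs b' : ℝ} (hb : bs < b') : ∃ C1 : ℝ≥0∞, C1 ≠ ∞ ∧ ∀ (C : ℝ≥0∞) (te : ℝ) (q : SQ)
    (v : Space3), sG C te b' (q, v) ≤ sA (C * C1) te bs q * gau bs v := by
  obtain ⟨C1, hC1, h1⟩ := one_add_gE hb
  refine ⟨C1 * C1, ENNReal.mul_ne_top hC1 hC1, fun C te q v => ?_⟩
  unfold sG sA iS
  simp only
  by_cases hq : ‖q.2‖ = 1
  · rw [if_pos hq, one_mul]
    have h2 : ENNReal.ofReal (-inner ℝ (v - q.1.2.2) q.2) ≤
        ENNReal.ofReal (1 + ‖v‖) * ENNReal.ofReal (1 + ‖q.1.2.2‖) := by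
      refine le_trans (ENNReal.ofReal_le_ofReal ?_) (norm_sub_le_mul v q.1.2.2)
      have h3 := abs_real_inner_le_norm (v - q.1.2.2) q.2
      rw [hq, mul_one] at h3
      exact (neg_le_abs _).trans h3
    calc iT te q.1.1 * (C * (gE b' v * gE b' q.1.2.2 *
          ENNReal.ofReal (-inner ℝ (v - q.1.2.2) q.2)))
        ≤ iT te q.1.1 * (C * (gE b' v * gE b' q.1.2.2 *
          (ENNReal.ofReal (1 + ‖v‖) * ENNReal.ofReal (1 + ‖q.1.2.2‖)))) := by gcongr
      _ = iT te q.1.1 * (C * ((ENNReal.ofReal (1 + ‖v‖) * gE b' v) *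
          (ENNReal.ofReal (1 + ‖q.1.2.2‖) * gE b' q.1.2.2))) := by ring
      _ ≤ iT te q.1.1 * (C * ((C1 * gE bs v) * (C1 * gE bs q.1.2.2))) :=
          mul_le_mul_right (mul_le_mul_right (mul_le_mul' (h1 v) (h1 q.1.2.2)) _) _
      _ = iT te q.1.1 * (C * (C1 * C1) * gE bs q.1.2.2) * gau bs v := by
          rw [← gE_eq_gau]; ring
  · rw [if_neg hq, zero_mul, mul_zero]
    exact bot_le

/-- translation of the source data -/
def sT (a : Space3) (q : SQ) : SQ := (shL a q.1, q.2)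

theorem measurePreserving_shL (a : Space3) :
    MeasurePreserving (shL a) (volume : Measure BLine) (volume : Measure BLine) := by
  have h1 := (MeasurePreserving.id (volume : Measure ℝ)).prod
    ((measurePreserving_add_right (volume : Measure Space3) a).prod
      (MeasurePreserving.id (volume : Measure Space3)))
  exact h1

theorem map_sT (a : Space3) : ((volume : Measure BLine).prod sphM).map (sT a) =
    (volume : Measure BLine).prod sphM :=
  ((measurePreserving_shL a).prod (MeasurePreserving.id sphM)).map_eq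

theorem measurable_sT (a : Space3) : Measurable (sT a) :=
  ((measurable_shL a).comp measurable_fst).prodMk measurable_snd

/-- the law of the source -/
def srcT (C : ℝ≥0∞) (ε te b' : ℝ) (N : ℕ) : Measure (Lab × LSt) :=
  srcN ((volume : Measure BLine).prod sphM) (fun q => (q.1, N)) (fun q => q.1.1) (fun _ => N)
    (fun q => q.1.2.1 - ε • q.2) (sG C te b')

theorem measurable_sD (N : ℕ) : Measurable fun q : SQ => ((q.1, N) : ML) :=
  measurable_fst.prodMk measurable_const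

theorem measurable_sY (ε : ℝ) : Measurable fun q : SQ => q.1.2.1 - ε • q.2 := by fun_prop

theorem lintegral_srcT (C : ℝ≥0∞) (ε te b' : ℝ) (N : ℕ) {F : Lab × LSt → ℝ≥0∞}
    (hF : Measurable F) : ∫⁻ p, F p ∂srcT C ε te b' N =
      ∫⁻ q, (∫⁻ v, sG C te b' (q, v) * F (((q.1, N), (q.1.1, N)),
        (q.1.1, (q.1.2.1 - ε • q.2, v)))) ∂((volume : Measure BLine).prod sphM) :=
  lintegral_srcN (measurable_sD N) measurable_fst.fst measurable_const (measurable_sY ε)
    (measurable_sG C te b') hF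

/-- **The source is in the class.** -/
theorem px_srcT {B : BPar} (hB : B.Ok) {b' : ℝ} (hb : B.bs < b') {C : ℝ≥0∞} (hC : C ≠ ∞)
    {N : ℕ} (hN : 1 ≤ N) : ∃ c : ℝ≥0∞, c ≠ ∞ ∧ ∀ (ε te : ℝ) (K : ℕ) (Pp : PPar), te ≤ B.T →
      N ≤ K → IsPP B te K Pp → ∃ Ξ, PX Pp Ξ (srcT C ε te b' N) c := by
  obtain ⟨C1, hC1, h1⟩ := sG_le hb
  have hρt : B.ρ ≠ ∞ := (hB.ρ1.trans_lt ENNReal.one_lt_top).ne
  have hp0 : B.ρ ^ N ≠ 0 := pow_ne_zero _ hB.ρ0
  have hpt : B.ρ ^ N ≠ ∞ := ENNReal.pow_ne_top hρt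
  set cm : ℝ≥0∞ := sphM univ * (B.lam₁ ^ N * (C * C1) * (B.ρ ^ N)⁻¹) with hcm
  have hcmt : cm ≠ ∞ := by
    refine ENNReal.mul_ne_top (measure_ne_top _ _) (ENNReal.mul_ne_top (ENNReal.mul_ne_top
      (ENNReal.pow_ne_top hB.lt) (ENNReal.mul_ne_top hC hC1)) (ENNReal.inv_ne_top.2 hp0))
  have hη : (∫⁻ v, gau (B.bs / 2 - B.η) v) ≠ ∞ := by
    have h2 := hB.ηs
    exact lintegral_gE_ne_top (b := B.bs / 2 - B.η) (by linarith)
  refine ⟨cm * (cB * ENNReal.ofReal (Real.exp B.bs) * (B.A * ∫⁻ v, gau (B.bs / 2 - B.η) v)),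
    ENNReal.mul_ne_top hcmt (ENNReal.mul_ne_top (ENNReal.mul_ne_top cB_ne_top
      ENNReal.ofReal_ne_top) (ENNReal.mul_ne_top hB.wp.Atop hη)),
    fun ε te K Pp hte hNK hPp => ⟨srcN ((volume : Measure BLine).prod sphM)
      (fun q => (q.1, N)) (fun q => q.1.1) (fun _ => N) (fun q => q.1.2.1 - ε • q.2)
      (prD (sA (C * C1) te B.bs) B.bs), ?_⟩⟩
  unfold srcT
  refine PX.src (b := B.bs) hB.wp hPp.w (measurable_sD N) measurable_fst.fst measurable_const
    (measurable_sY ε) (measurable_sG C te b') (measurable_sA (C * C1) te B.bs) hB.bs0.le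
    (fun q v => h1 C te q v) ?_ sT measurable_sT map_sT (fun a q => rfl) (fun a q => rfl)
    (fun a q => rfl) ?_ (fun a q v => rfl) ?_
  · intro q hq
    by_contra hc
    refine hq ?_
    unfold sA iT
    rw [if_neg (fun h => hc h.1.le), zero_mul]
  · intro a q
    show q.1.2.1 + a - ε • q.2 = q.1.2.1 - ε • q.2 + a
    abel
  · intro F hF
    have hφ : Measurable fun l : ML => F (l, l.1.1) :=
      hF.comp (measurable_id.prodMk measurable_fst.fst)
    have h2 := lineM_geC hB.γm hB.ρ1 hN hNK (T := te) (b' := B.bs)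
      (fun τ hτ => hB.γs τ ⟨hτ.1, hτ.2.trans hte⟩) hφ
    have h3 : ∫⁻ d : BLine, iT te d.1 * (gE B.bs d.2.2 * F ((d, N), d.1)) ≤
        (B.ρ ^ N)⁻¹ * ∫⁻ l, F (l, l.1.1) ∂lineM B.γ B.ρ K te := by
      rw [← ENNReal.mul_le_iff_le_inv hp0 hpt]
      exact h2
    have hm : Measurable fun d : BLine => iT te d.1 * (gE B.bs d.2.2 * F ((d, N), d.1)) :=
      ((measurable_iT te).comp measurable_fst).mul (((measurable_gE B.bs).comp
        measurable_snd.snd).mul (hF.comp ((measurable_id.prodMk measurable_const).prodMk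
          measurable_fst)))
    have hm1 : Measurable fun q : SQ => F (((q.1, N) : ML), q.1.1) *
        (Pp.lam₁ ^ N * sA (C * C1) te B.bs q) :=
      (hF.comp ((measurable_sD N).prodMk measurable_fst.fst)).mul
        (measurable_const.mul (measurable_sA _ _ _))
    calc ∫⁻ q : SQ, F (((q.1, N) : ML), q.1.1) * (Pp.lam₁ ^ N * sA (C * C1) te B.bs q)
          ∂((volume : Measure BLine).prod sphM)
        = ∫⁻ d : BLine, ∫⁻ _w : Space3, F ((d, N), d.1) *
          (Pp.lam₁ ^ N * (iT te d.1 * ((C * C1) * gE B.bs d.2.2))) ∂sphM :=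
          lintegral_prod _ hm1.aemeasurable
      _ = ∫⁻ d : BLine, (sphM univ * (B.lam₁ ^ N * (C * C1))) *
          (iT te d.1 * (gE B.bs d.2.2 * F ((d, N), d.1))) := by
          refine lintegral_congr fun d => ?_
          rw [lintegral_const, hPp.l]
          ring
      _ = (sphM univ * (B.lam₁ ^ N * (C * C1))) *
          ∫⁻ d : BLine, iT te d.1 * (gE B.bs d.2.2 * F ((d, N), d.1)) :=
          lintegral_const_mul _ hm
      _ ≤ (sphM univ * (B.lam₁ ^ N * (C * C1))) *
          ((B.ρ ^ N)⁻¹ * ∫⁻ l, F (l, l.1.1) ∂lineM B.γ B.ρ K te) := mul_le_mul_right h3 _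
      _ = cm * ∫⁻ l, F (l, l.1.1) ∂Pp.ℓ := by rw [hcm, hPp.ell]; ring
      _ ≤ cm * Pp.rhs F := mul_le_mul_right le_self_add _

/-- almost sure facts of the source -/
theorem aux_srcT {ε : ℝ} (hε : 0 < ε) (C : ℝ≥0∞) (te b' : ℝ) (N : ℕ) :
    AuxF ε (srcT C ε te b' N) := by
  have key : ∀ S : Lab × LSt → Prop, MeasurableSet {p | S p} →
      (∀ (q : SQ) (v : Space3), sG C te b' (q, v) ≠ 0 →
        S (((q.1, N), (q.1.1, N)), (q.1.1, (q.1.2.1 - ε • q.2, v)))) →
      ∀ᵐ p ∂srcT C ε te b' N, S p := by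
    intro S hS h
    have hSm : MeasurableSet {p : Lab × LSt | ¬ S p} := hS.compl
    have hF : Measurable ({p : Lab × LSt | ¬ S p}.indicator (1 : Lab × LSt → ℝ≥0∞)) :=
      measurable_one.indicator hSm
    rw [ae_iff, ← lintegral_indicator_one hSm, lintegral_srcT C ε te b' N hF]
    refine (lintegral_congr fun q => ?_).trans lintegral_zero
    refine (lintegral_congr fun v => ?_).trans lintegral_zero
    by_cases hG : sG C te b' (q, v) = 0
    · rw [hG, zero_mul]
    · have h2 : ((((q.1, N), (q.1.1, N)), (q.1.1, (q.1.2.1 - ε • q.2, v))) : Lab × LSt) ∉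
          {p : Lab × LSt | ¬ S p} := fun hc => hc (h q v hG)
      rw [indicator_of_notMem h2, mul_zero]
  have hpos : ∀ (q : SQ) (v : Space3), sG C te b' (q, v) ≠ 0 →
      0 < q.1.1 ∧ ‖q.2‖ = 1 ∧ 0 < -inner ℝ (v - q.1.2.2) q.2 := by
    intro q v h
    unfold sG iT iS at h
    simp only at h
    refine ⟨?_, ?_, ?_⟩
    · by_contra hc
      exact h (by rw [if_neg (fun h => hc h.1), zero_mul])
    · by_contra hc
      exact h (by rw [if_neg hc, zero_mul, mul_zero])
    · by_contra hc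
      exact h (by rw [ENNReal.ofReal_of_nonpos (not_lt.1 hc)]; simp)
  refine ⟨key _ ?_ fun q v h => ?_, key _ ?_ fun q v h h1 => ?_⟩
  · have h1 : MeasurableSet {θ : Lab × LSt | 0 ≤ θ.1.2.1} :=
      measurableSet_le measurable_const measurable_fst.snd.fst
    have h2 : MeasurableSet {θ : Lab × LSt | θ.1.2.1 = θ.1.1.1.1} :=
      measurableSet_eq_fun measurable_fst.snd.fst measurable_fst.fst.fst.fst
    have h3 : MeasurableSet {θ : Lab × LSt | θ.1.1.1.1 ≤ θ.2.1} :=
      measurableSet_le measurable_fst.fst.fst.fst measurable_snd.fst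
    exact h1.inter (h2.inter h3)
  · exact ⟨(hpos q v h).1.le, rfl, le_rfl⟩
  · have h1 : MeasurableSet {θ : Lab × LSt | θ.1.1.1.1 = θ.2.1} :=
      measurableSet_eq_fun measurable_fst.fst.fst.fst measurable_snd.fst
    have hd : Measurable fun θ : Lab × LSt => dist θ.1.1.1.2.1 θ.2.2.1 :=
      measurable_fst.fst.fst.snd.fst.dist measurable_snd.snd.fst
    have hi : Measurable fun θ : Lab × LSt =>
        inner ℝ (θ.1.1.1.2.1 - θ.2.2.1) (θ.1.1.1.2.2 - θ.2.2.2) :=
      (measurable_fst.fst.fst.snd.fst.sub measurable_snd.snd.fst).inner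
        (measurable_fst.fst.fst.snd.snd.sub measurable_snd.snd.snd)
    have h2 : MeasurableSet {θ : Lab × LSt | SibSepD ε θ} := by
      have h3 : MeasurableSet {θ : Lab × LSt | ε ≤ dist θ.1.1.1.2.1 θ.2.2.1} :=
        measurableSet_le measurable_const hd
      have h4 : MeasurableSet {θ : Lab × LSt | dist θ.1.1.1.2.1 θ.2.2.1 = ε} :=
        measurableSet_eq_fun hd measurable_const
      have h5 : MeasurableSet {θ : Lab × LSt |
          0 < inner ℝ (θ.1.1.1.2.1 - θ.2.2.1) (θ.1.1.1.2.2 - θ.2.2.2)} :=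
        measurableSet_lt measurable_const hi
      exact h3.inter (h4.imp h5)
    exact h1.imp h2
  · obtain ⟨-, h2, h3⟩ := hpos q v h
    have e1 : q.1.2.1 - (q.1.2.1 - ε • q.2) = ε • q.2 := by abel
    have e2 : dist q.1.2.1 (q.1.2.1 - ε • q.2) = ε := by
      rw [dist_eq_norm, e1, norm_smul, h2, mul_one, Real.norm_eq_abs, abs_of_pos hε]
    refine ⟨e2.ge, fun _ => ?_⟩
    show 0 < inner ℝ (q.1.2.1 - (q.1.2.1 - ε • q.2)) (q.1.2.2 - v)
    rw [e1, inner_smul_left, real_inner_comm, ← neg_sub v q.1.2.2, inner_neg_left]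
    exact mul_pos hε h3

end Crest.Agent.R122.Mark307

end
end

-- ▼ part R122/Mark12_307
section

/-!
# Base pair laws (row 122, block H7b), helper307: `DomR` for the top node

* `sib_disc`, `sG_int` : integration of the sibling in direction form.
* `domR_top` : `DomR` for the top node.
-/

set_option autoImplicit false
set_option maxHeartbeats 400000
set_option linter.unusedSectionVars false

open MeasureTheory ProbabilityTheory Set Filter
open scoped ENNReal Topology Classical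
open Crest.AnalysisR.Kinetic
open Crest.Agent.R122.Kin796 Crest.Agent.R122.Kin796.CTree Crest.Agent.R122.Tree674
open Crest.Agent.R122.Disc416 Crest.Agent.R122.EDefs602 Crest.Agent.R122.TreeDom974
open Crest.Agent.R122.Boost969 Crest.Agent.R122.Kin416 Crest.Agent.R122.Omega969
open Crest.Agent.R122.Pair292 hiding ML
open Crest.Agent.R122.CollLeg969 (WPack CLeg EC collM domK)
open Crest.Agent.R122.PairSrc969

noncomputable section

namespace Crest.Agent.R122.Mark307

variable {Φ : Space3 → ℝ}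

/-- unit disc indicator -/
def iD (y : Plane) : ℝ≥0∞ := if ‖y‖ < 1 then 1 else 0

theorem measurable_iD : Measurable iD := by
  unfold iD
  exact Measurable.ite (measurableSet_lt measurable_norm measurable_const) measurable_const
    measurable_const

/-- direction of the sibling -/
def eD (g : Space3) (y : Plane) : Space3 := entrancePoint (frameMap g y) g

theorem measurable_eD : Measurable fun q : Space3 × Plane => eD q.1 q.2 :=
  Scat818.measurable_entrancePoint.comp ((measurable_frameMap.comp measurable_id).prodMk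
    measurable_fst)

theorem eD_def (g : Space3) (y : Plane) : eD g y = entrancePoint (frameMap g y) g := rfl

attribute [irreducible] eD

/-- inner integral -/
theorem disc_dir {ψ : Space3 → ℝ≥0∞} (hψ : Measurable ψ) (g : Space3) (c : ℝ≥0∞) :
    ∫⁻ y : Plane, iD y * (c * (ENNReal.ofReal ‖g‖ * ψ (eD g y))) =
      c * ∫⁻ w, ENNReal.ofReal (-inner ℝ g w) * ψ w ∂sphM := by
  have hm : Measurable fun y : Plane => ψ (eD g y) :=
    hψ.comp (measurable_eD.comp (measurable_const.prodMk measurable_id))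
  have e1 : ∀ y : Plane, iD y * (c * (ENNReal.ofReal ‖g‖ * ψ (eD g y))) =
      (c * ENNReal.ofReal ‖g‖) * (Metric.ball (0 : Plane) 1).indicator (fun y => ψ (eD g y)) y := by
    intro y
    unfold iD
    by_cases hy : ‖y‖ < 1
    · rw [if_pos hy, indicator_of_mem (by rw [mem_ball_zero_iff]; exact hy)]
      ring
    · rw [if_neg hy, indicator_of_notMem (by rw [mem_ball_zero_iff]; exact hy)]
      simp
  simp only [e1]
  rw [lintegral_const_mul _ (hm.indicator measurableSet_ball),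
    lintegral_indicator measurableSet_ball]
  by_cases hv : g = 0
  · rw [hv]
    simp
  · have h2 := omega_disc hv hψ
    calc (c * ENNReal.ofReal ‖g‖) * ∫⁻ y in Metric.ball (0 : Plane) 1, ψ (eD g y)
        = c * (ENNReal.ofReal ‖g‖ * ∫⁻ y in Metric.ball (0 : Plane) 1, ψ (eD g y)) := by ring
      _ = _ := by simp only [eD_def]; rw [h2]

/-- coefficient -/
def cD (te b' : ℝ) (d : BLine) (v : Space3) : ℝ≥0∞ := iT te d.1 * (gE b' v * gE b' d.2.2)

theorem measurable_cD (te b' : ℝ) : Measurable fun q : BLine × Space3 => cD te b' q.1 q.2 := by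
  unfold cD
  exact ((measurable_iT te).comp measurable_fst.fst).mul
    (((measurable_gE b').comp measurable_snd).mul ((measurable_gE b').comp measurable_fst.snd.snd))

section

variable {Kf : BLine × (Space3 × Space3) → ℝ≥0∞}

/-- integrand of the sibling integral -/
def sibF (te b' : ℝ) (Kf : BLine × (Space3 × Space3) → ℝ≥0∞) (z : BLine × (Space3 × Plane)) :
    ℝ≥0∞ :=
  iD z.2.2 * (cD te b' z.1 z.2.1 * (ENNReal.ofReal ‖z.2.1 - z.1.2.2‖ *
    Kf (z.1, (z.2.1, eD (z.2.1 - z.1.2.2) z.2.2))))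

theorem measurable_sibF (te b' : ℝ) (hK : Measurable Kf) : Measurable (sibF te b' Kf) := by
  unfold sibF
  have h1 : Measurable fun z : BLine × (Space3 × Plane) => (z.2.1 - z.1.2.2, z.2.2) :=
    (measurable_snd.fst.sub measurable_fst.snd.snd).prodMk measurable_snd.snd
  have h2 : Measurable fun z : BLine × (Space3 × Plane) => eD (z.2.1 - z.1.2.2) z.2.2 :=
    measurable_eD.comp h1
  have h3 : Measurable fun z : BLine × (Space3 × Plane) => ENNReal.ofReal ‖z.2.1 - z.1.2.2‖ :=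
    ENNReal.measurable_ofReal.comp (measurable_norm.comp
      (measurable_snd.fst.sub measurable_fst.snd.snd))
  have h4 : Measurable fun z : BLine × (Space3 × Plane) => cD te b' z.1 z.2.1 :=
    (measurable_cD te b').comp (measurable_fst.prodMk measurable_snd.fst)
  have h5 : Measurable fun z : BLine × (Space3 × Plane) =>
      Kf (z.1, (z.2.1, eD (z.2.1 - z.1.2.2) z.2.2)) :=
    hK.comp (measurable_fst.prodMk (measurable_snd.fst.prodMk h2))
  have h6 : Measurable fun z : BLine × (Space3 × Plane) => iD z.2.2 :=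
    measurable_iD.comp measurable_snd.snd
  exact h6.mul (h4.mul (h3.mul h5))

/-- integrand in direction form -/
def dirF (te b' : ℝ) (Kf : BLine × (Space3 × Space3) → ℝ≥0∞) (q : BLine × Space3) : ℝ≥0∞ :=
  cD te b' q.1 q.2 * ∫⁻ w, ENNReal.ofReal (-inner ℝ (q.2 - q.1.2.2) w) * Kf (q.1, (q.2, w)) ∂sphM

theorem measurable_dirI (hK : Measurable Kf) : Measurable fun p : (BLine × Space3) × Space3 =>
    ENNReal.ofReal (-inner ℝ (p.1.2 - p.1.1.2.2) p.2) * Kf (p.1.1, (p.1.2, p.2)) := by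
  have h1 : Measurable fun p : (BLine × Space3) × Space3 =>
      ENNReal.ofReal (-inner ℝ (p.1.2 - p.1.1.2.2) p.2) :=
    ((measurable_fst.snd.sub measurable_fst.fst.snd.snd).inner measurable_snd).neg.ennreal_ofReal
  exact h1.mul (hK.comp (measurable_fst.fst.prodMk (measurable_fst.snd.prodMk measurable_snd)))

theorem measurable_dirF (te b' : ℝ) (hK : Measurable Kf) : Measurable (dirF te b' Kf) := by
  unfold dirF
  exact (measurable_cD te b').mul ((measurable_dirI hK).lintegral_prod_right' (ν := sphM))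

/-- **Sibling integral in direction form.** -/
theorem sib_disc (te b' : ℝ) (hK : Measurable Kf) :
    ∫⁻ z : BLine × (Space3 × Plane), sibF te b' Kf z = ∫⁻ q : BLine × Space3, dirF te b' Kf q := by
  rw [Measure.volume_eq_prod BLine (Space3 × Plane), Measure.volume_eq_prod BLine Space3,
    lintegral_prod _ (measurable_sibF te b' hK).aemeasurable,
    lintegral_prod _ (measurable_dirF te b' hK).aemeasurable]
  refine lintegral_congr fun d => ?_
  have hm0 : Measurable fun q : Space3 × Plane => sibF te b' Kf (d, q) :=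
    (measurable_sibF te b' hK).comp (measurable_const.prodMk measurable_id)
  rw [Measure.volume_eq_prod, lintegral_prod _ hm0.aemeasurable]
  refine lintegral_congr fun v => ?_
  exact disc_dir (ψ := fun w => Kf (d, (v, w)))
    (hK.comp (measurable_const.prodMk (measurable_const.prodMk measurable_id))) (v - d.2.2)
    (cD te b' d v)

/-- the source integral in direction form -/
theorem sG_int (C : ℝ≥0∞) (te b' : ℝ) (hK : Measurable Kf) :
    ∫⁻ q : SQ, (∫⁻ v, sG C te b' (q, v) * Kf (q.1, (v, q.2))) ∂((volume : Measure BLine).prod sphM) =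
      C * ∫⁻ q : BLine × Space3, dirF te b' Kf q := by
  have hRm : Measurable fun p : SQ × Space3 => sG C te b' p * Kf (p.1.1, (p.2, p.1.2)) :=
    (measurable_sG C te b').mul (hK.comp (measurable_fst.fst.prodMk
      (measurable_snd.prodMk measurable_fst.snd)))
  have hRI : Measurable fun q : SQ => ∫⁻ v, sG C te b' (q, v) * Kf (q.1, (v, q.2)) :=
    hRm.lintegral_prod_right'
  rw [lintegral_prod _ hRI.aemeasurable, ← lintegral_const_mul _ (measurable_dirF te b' hK),
    Measure.volume_eq_prod BLine Space3,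
    lintegral_prod _ ((measurable_dirF te b' hK).const_mul C).aemeasurable]
  refine lintegral_congr fun d => ?_
  have hmd : Measurable fun p : Space3 × Space3 => sG C te b' ((d, p.1), p.2) *
      Kf (d, (p.2, p.1)) :=
    hRm.comp (g := fun p : SQ × Space3 => sG C te b' p * Kf (p.1.1, (p.2, p.1.2)))
      (f := fun p : Space3 × Space3 => (((d, p.1), p.2) : SQ × Space3))
      ((measurable_const.prodMk measurable_fst).prodMk measurable_snd)
  rw [lintegral_lintegral_swap (f := fun w v => sG C te b' ((d, w), v) * Kf (d, (v, w)))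
    hmd.aemeasurable]
  refine lintegral_congr fun v => ?_
  have hmw : Measurable fun w : Space3 => ENNReal.ofReal (-inner ℝ (v - d.2.2) w) *
      Kf (d, (v, w)) :=
    (measurable_dirI hK).comp (g := fun p : (BLine × Space3) × Space3 =>
      ENNReal.ofReal (-inner ℝ (p.1.2 - p.1.1.2.2) p.2) * Kf (p.1.1, (p.1.2, p.2)))
      (f := fun w : Space3 => (((d, v), w) : (BLine × Space3) × Space3))
      (measurable_const.prodMk measurable_id)
  calc ∫⁻ w, sG C te b' ((d, w), v) * Kf (d, (v, w)) ∂sphM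
      = ∫⁻ w, (C * cD te b' d v) * (ENNReal.ofReal (-inner ℝ (v - d.2.2) w) *
          Kf (d, (v, w))) ∂sphM := by
        refine lintegral_congr_ae ?_
        filter_upwards [ae_norm_sphM] with w hw
        unfold sG iS cD
        simp only
        rw [if_pos hw]
        ring
    _ = (C * cD te b' d v) * ∫⁻ w, ENNReal.ofReal (-inner ℝ (v - d.2.2) w) *
          Kf (d, (v, w)) ∂sphM := lintegral_const_mul _ hmw
    _ = _ := by
        show _ = C * (cD te b' d v * _)
        rw [mul_assoc]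

end

/-- **`DomR` for the top node.** -/
theorem domR_top (hΦ : AdmissiblePotential Φ) {B : BPar} (hB : B.Ok) {b : ℝ} (hb : B.bs < b)
    (l r : CTree) : DomR Φ B b (node l r) (Mk.top l r) := by
  set b' : ℝ := (B.bs + b) / 2 with hb'
  have hb1 : B.bs < b' := by rw [hb']; linarith
  have hb2 : b' < b := by rw [hb']; linarith
  have hb0 : 0 < b' := hB.bs0.trans hb1
  obtain ⟨C, hC, hN⟩ := N0 hΦ hb0 hb2 B.T l r
  have hN1 : 1 ≤ (node l r).leaves := by
    exact TreeLines335.one_le_leaves _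
  obtain ⟨c, hc, hX⟩ := px_srcT hB hb1 hC hN1
  refine ⟨c, hc, fun ε T' te hε hε1 hte hteT hT K hK Pp hPp => ?_⟩
  obtain ⟨Ξ, hΞ⟩ := hX ε te K Pp (hteT.trans hT) hK hPp
  refine ⟨Ξ, _, hΞ, aux_srcT hε C te b' _, fun F hF hF0 => ?_⟩
  set N : ℕ := (node l r).leaves with hNdef
  -- the integrand at the node
  set H : PhasePoint × NodeP → ℝ≥0∞ := fun z =>
    F (((topX ε z, N), (z.2.1, N)), (z.2.1, onLine z.1 z.2.1)) with hH
  have hon : Measurable fun z : PhasePoint × NodeP => onLine z.1 z.2.1 := by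
    unfold onLine
    exact (measurable_fst.fst.add (measurable_snd.fst.smul measurable_fst.snd)).prodMk
      measurable_fst.snd
  have hHm : Measurable H := by
    refine hF.comp ?_
    exact (((measurable_topX ε).prodMk measurable_const).prodMk
      (measurable_snd.fst.prodMk measurable_const)).prodMk (measurable_snd.fst.prodMk hon)
  have hH0 : ∀ z : PhasePoint × NodeP, ¬ z.2.1 ≤ te → H z = 0 := fun z hz =>
    hF0 (((topX ε z, N), (z.2.1, N)), (z.2.1, onLine z.1 z.2.1)) hz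
  have hz1 : Measurable fun z : PhasePoint × Par (node l r) =>
      ((z.1, z.2.1) : PhasePoint × NodeP) :=
    measurable_fst.prodMk ((measurable_par1 l r).comp measurable_snd)
  have hint : Measurable fun z : PhasePoint × Par (node l r) =>
      vw Φ ε (node l r) T' z * (gw b (node l r) z * H (z.1, z.2.1)) :=
    (measurable_vw hΦ ε (node l r) T').mul ((measurable_gw b (node l r)).mul (hHm.comp hz1))
  -- the sibling integrand
  set Kf : BLine × (Space3 × Space3) → ℝ≥0∞ := fun q =>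
    F (((q.1, N), (q.1.1, N)), (q.1.1, (q.1.2.1 - ε • q.2.2, q.2.1))) with hKf
  have hKm : Measurable Kf := by
    refine hF.comp ?_
    refine ((measurable_fst.prodMk measurable_const).prodMk
      (measurable_fst.fst.prodMk measurable_const)).prodMk
      (measurable_fst.fst.prodMk (Measurable.prodMk ?_ measurable_snd.fst))
    exact measurable_fst.snd.fst.sub (measurable_snd.snd.const_smul ε)
  -- the majorant before the exchange
  set G : PhasePoint × NodeP → ℝ≥0∞ := fun z =>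
    iD z.2.2.2 * ((iT te z.2.1 * (gE b' z.1.2 * gE b' z.2.2.1)) *
      (ENNReal.ofReal ‖z.1.2 - z.2.2.1‖ * H z)) with hG
  have hGm : Measurable G := by
    have h3 : Measurable fun z : PhasePoint × NodeP => ENNReal.ofReal ‖z.1.2 - z.2.2.1‖ :=
      (measurable_fst.snd.sub measurable_snd.snd.fst).norm.ennreal_ofReal
    exact (measurable_iD.comp measurable_snd.snd.snd).mul
      ((((measurable_iT te).comp measurable_snd.fst).mul
        (((measurable_gE b').comp measurable_fst.snd).mul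
          ((measurable_gE b').comp measurable_snd.snd.fst))).mul (h3.mul hHm))
  have hle : ∀ (ℓ : PhasePoint) (a : NodeP), (vI Φ ε T' (ℓ, a) * ENNReal.ofReal ‖ℓ.2 - a.2.1‖) *
      ((gE b' ℓ.2 * gE b' a.2.1) * H (ℓ, a)) ≤ G (ℓ, a) := by
    intro ℓ a
    by_cases h1 : a.1 ≤ te
    swap
    · rw [hH0 (ℓ, a) h1, mul_zero, mul_zero]; exact bot_le
    have h2 := vI_le_box (Φ := Φ) hε.le hT ℓ a
    by_cases h3 : 0 < a.1 ∧ ‖a.2.2‖ < 1
    · have h4 : iD a.2.2 = 1 := if_pos h3.2
      have h5 : iT te a.1 = 1 := if_pos ⟨h3.1, h1⟩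
      have h6 : vI Φ ε T' (ℓ, a) ≤ 1 :=
        h2.trans (by unfold box1; exact Set.indicator_le_self' (fun _ _ => zero_le_one) _)
      rw [hG]
      simp only
      rw [h4, h5, one_mul, one_mul]
      calc (vI Φ ε T' (ℓ, a) * ENNReal.ofReal ‖ℓ.2 - a.2.1‖) *
            ((gE b' ℓ.2 * gE b' a.2.1) * H (ℓ, a))
          ≤ (1 * ENNReal.ofReal ‖ℓ.2 - a.2.1‖) * ((gE b' ℓ.2 * gE b' a.2.1) * H (ℓ, a)) :=
            mul_le_mul_left (mul_le_mul_left h6 _) _
        _ = _ := by ring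
    · have h4 : box1 B.T a = 0 := by
        unfold box1
        exact indicator_of_notMem (fun hc => h3 ⟨hc.1.1, hc.2⟩) _
      have h5 : vI Φ ε T' (ℓ, a) = 0 := le_antisymm (h2.trans h4.le) bot_le
      rw [h5, zero_mul, zero_mul]
      exact bot_le
  calc ∫⁻ z : PhasePoint × Par (node l r), vw Φ ε (node l r) T' z * (gw b (node l r) z *
        F (((exM Φ ε (Mk.top l r) z, mkN (Mk.top l r)), ((exM Φ ε (Mk.top l r) z).1,
          (node l r).leaves)), rootB (node l r) z))
      = ∫⁻ z : PhasePoint × Par (node l r), vw Φ ε (node l r) T' z * (gw b (node l r) z *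
        H (z.1, z.2.1)) := rfl
    _ = ∫⁻ ℓ : PhasePoint, ∫⁻ p : Par (node l r), vw Φ ε (node l r) T' (ℓ, p) *
        (gw b (node l r) (ℓ, p) * H (ℓ, p.1)) := by
        rw [Measure.volume_eq_prod, lintegral_prod _ hint.aemeasurable]
    _ ≤ ∫⁻ ℓ : PhasePoint, C * ∫⁻ a : NodeP, (vI Φ ε T' (ℓ, a) * ENNReal.ofReal ‖ℓ.2 - a.2.1‖) *
        ((gE b' ℓ.2 * gE b' a.2.1) * H (ℓ, a)) :=
        lintegral_mono fun ℓ => hN ε T' hε hT ℓ (fun a => H (ℓ, a))
          (hHm.comp (measurable_const.prodMk measurable_id))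
    _ ≤ ∫⁻ ℓ : PhasePoint, C * ∫⁻ a : NodeP, G (ℓ, a) :=
        lintegral_mono fun ℓ => mul_le_mul_right (lintegral_mono fun a => hle ℓ a) _
    _ = C * ∫⁻ ℓ : PhasePoint, ∫⁻ a : NodeP, G (ℓ, a) :=
        lintegral_const_mul _ hGm.lintegral_prod_right'
    _ = C * ∫⁻ z : PhasePoint × NodeP, G z := by
        rw [Measure.volume_eq_prod PhasePoint NodeP, lintegral_prod _ hGm.aemeasurable]
    _ = C * ∫⁻ z : BLine × (Space3 × Plane), sibF te b' Kf z := by
        rw [lintegral_sib ε hGm]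
        congr 1
        refine lintegral_congr fun z => ?_
        obtain ⟨d, u, y⟩ := z
        have e1 : topX ε (sibLine ε d (u, y), ((d.1, d.2.2, y) : NodeP)) = d := by
          simp only [topX, onLine, outLine, sibLine]
          refine Prod.ext rfl (Prod.ext ?_ rfl)
          simp only
          module
        have e2 : onLine (sibLine ε d (u, y)) d.1 =
            (d.2.1 - ε • eD (u - d.2.2) y, u) := by
          unfold onLine sibLine
          rw [eD_def]
          refine Prod.ext ?_ rfl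
          show _ - _ - d.1 • u + d.1 • u = _
          rw [sub_add_cancel]
          rfl
        rw [hG]
        simp only
        rw [hH]
        simp only
        rw [e1, e2]
        rfl
    _ = C * ∫⁻ q : BLine × Space3, dirF te b' Kf q := by rw [sib_disc te b' hKm]
    _ = ∫⁻ q : SQ, (∫⁻ v, sG C te b' (q, v) * Kf (q.1, (v, q.2)))
          ∂((volume : Measure BLine).prod sphM) := (sG_int C te b' hKm).symm
    _ = ∫⁻ p, F p ∂srcT C ε te b' N := (lintegral_srcT C ε te b' N hF).symm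

end Crest.Agent.R122.Mark307

end
end

-- ▼ part R122/Mark13_307
section

/-!
# Base pair laws (row 122, block H7b), helper307: `DomR`, `DomP` on the forward path

* `stepL`, `stepR` : forward step through a node.
* `domR` : `DomR` for all marks.
* `domP_fwd` : `DomP` for `fwd m m'`; `domP_inl`, `domP_inr` : reduction of `DomP` to one branch.
-/

set_option autoImplicit false
set_option maxHeartbeats 400000
set_option linter.unusedSectionVars false

open MeasureTheory ProbabilityTheory Set Filter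
open scoped ENNReal Topology Classical
open Crest.AnalysisR.Kinetic
open Crest.Agent.R122.Kin796 Crest.Agent.R122.Kin796.CTree Crest.Agent.R122.Tree674
open Crest.Agent.R122.Disc416 Crest.Agent.R122.EDefs602 Crest.Agent.R122.TreeDom974
open Crest.Agent.R122.Boost969 Crest.Agent.R122.Kin416
open Crest.Agent.R122.Pair292 hiding ML
open Crest.Agent.R122.CollLeg969 (WPack CLeg EC collM domK)
open Crest.Agent.R122.PairSrc969

noncomputable section

namespace Crest.Agent.R122.Mark307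

variable {Φ : Space3 → ℝ}

/-- Domination of the law of (exit, line `X` at the top node). -/
def DomX (Φ : Space3 → ℝ) (B : BPar) (b : ℝ) (l r : CTree) (X : ℝ → PhasePoint × NodeP → BLine)
    (m : Mk (node l r)) : Prop :=
  ∃ c : ℝ≥0∞, c ≠ ∞ ∧ ∀ ε T' te : ℝ, 0 < ε → ε ≤ 1 → 0 < te → te ≤ T' → T' ≤ B.T →
    ∀ K : ℕ, (node l r).leaves ≤ K → ∀ Pp : PPar, IsPP B te K Pp →
    ∃ Ξ ν : Measure (Lab × LSt), PX Pp Ξ ν c ∧ AuxF ε ν ∧
      ∀ F : Lab × LSt → ℝ≥0∞, Measurable F → (∀ p, ¬ p.1.1.1.1 ≤ te → F p = 0) →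
        ∫⁻ z : PhasePoint × Par (node l r), vw Φ ε (node l r) T' z * (gw b (node l r) z *
          F (((exM Φ ε m z, mkN m), ((exM Φ ε m z).1, (node l r).leaves)), X ε (z.1, z.2.1))) ≤
        ∫⁻ p, F p ∂ν

/-- the leg `L` gives the line `X` at a flipped node (first orientation) -/
structure FwdL (Φ : Space3 → ℝ) (L : ℝ → Leg EC) (X : ℝ → PhasePoint × NodeP → BLine) : Prop where
  cl : ∀ ε, 0 < ε → CLeg (L ε)
  meas : ∀ ε, Measurable (X ε)
  out : ∀ ε, 0 < ε → ∀ (T' : ℝ) (ℓ : PhasePoint) (a : NodeP), (ℓ, a) ∈ GoodL Φ ε T' →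
    ∀ s₀ : ℝ, X ε (outD Φ ε T' (ℓ, inLine ε ℓ a)) =
      (L ε).out ((s₀, onLine ℓ s₀), (a.1, eN ℓ a))

/-- the leg `L` gives the line `X` at a flipped node (second orientation) -/
structure FwdR (Φ : Space3 → ℝ) (L : ℝ → Leg EC) (X : ℝ → PhasePoint × NodeP → BLine) : Prop where
  cl : ∀ ε, 0 < ε → CLeg (L ε)
  meas : ∀ ε, Measurable (X ε)
  out : ∀ ε, 0 < ε → ∀ (T' : ℝ) (ℓ : PhasePoint) (a : NodeP), (ℓ, a) ∈ GoodR Φ ε T' →
    ∀ s₀ : ℝ, X ε (outD Φ ε T' (inLine ε ℓ a, ℓ)) =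
      (L ε).out ((s₀, onLine ℓ s₀), (a.1, eN ℓ a))

/-- root line of a node -/
def rootX (_ε : ℝ) (o : PhasePoint × NodeP) : BLine := (o.2.1, onLine o.1 o.2.1)

theorem measurable_rootX (ε : ℝ) : Measurable (rootX ε) := by
  unfold rootX onLine
  exact measurable_snd.fst.prodMk ((measurable_fst.fst.add
    (measurable_snd.fst.smul measurable_fst.snd)).prodMk measurable_fst.snd)

theorem fwdL_root (hΦ : AdmissiblePotential Φ) :
    FwdL Φ (fun ε => CollLeg969.legL' hΦ ε) rootX where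
  cl ε hε := CLeg.legL' hΦ hε.le
  meas := measurable_rootX
  out ε hε T' ℓ a h s₀ := (out_L hΦ hε h rfl s₀).1

theorem fwdL_top (hΦ : AdmissiblePotential Φ) :
    FwdL Φ (fun ε => CollLeg969.legC' hΦ ε) topX where
  cl ε hε := CLeg.legC' hΦ hε.le
  meas := measurable_topX
  out ε hε T' ℓ a h s₀ := (out_L hΦ hε h rfl s₀).2

theorem fwdR_root (hΦ : AdmissiblePotential Φ) :
    FwdR Φ (fun ε => CollLeg969.legC' hΦ ε) rootX where
  cl ε hε := CLeg.legC' hΦ hε.le
  meas := measurable_rootX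
  out ε hε T' ℓ a h s₀ := (out_R hΦ hε h rfl s₀).1

theorem fwdR_top (hΦ : AdmissiblePotential Φ) :
    FwdR Φ (fun ε => CollLeg969.legL' hΦ ε) topX where
  cl ε hε := CLeg.legL' hΦ hε.le
  meas := measurable_topX
  out ε hε T' ℓ a h s₀ := (out_R hΦ hε h rfl s₀).2

/-- the root birth is before the next entrance -/
theorem topT_lt {P : CTree} {p : Par P} {s : ℝ} (hs : 0 < s) (h : TopLt P s p) : topT P p < s := by
  cases P with
  | leaf => exact hs
  | node l r => exact h



/-- measurability of the label map -/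
theorem measurable_sgT (hΦ : AdmissiblePotential Φ) (ε : ℝ) {P : CTree} (m m' : Mk P) :
    Measurable (sgT Φ ε m m') := by
  unfold sgT
  split_ifs
  · exact (measurable_exM hΦ ε m).fst
  · exact (measurable_exM hΦ ε m').fst

theorem measurable_pairT (hΦ : AdmissiblePotential Φ) (ε : ℝ) {P : CTree} (m m' : Mk P) :
    Measurable (pairT Φ ε m m') := by
  unfold pairT
  exact (((measurable_exM hΦ ε m).prodMk measurable_const).prodMk
    ((measurable_sgT hΦ ε m m').prodMk measurable_const)).prodMk (measurable_exM hΦ ε m')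

/-- the class constant of a forward step -/
theorem px_step {B : BPar} (hB : B.Ok) {te : ℝ} {K : ℕ} {Pp : PPar} (hPp : IsPP B te K Pp)
    {Ξ ν : Measure (Lab × LSt)} {c : ℝ≥0∞} (h : PX Pp Ξ ν c) {L : Leg EC} (hL : CLeg L) (k : ℕ)
    (C : ℝ≥0∞) :
    PX Pp (C • Ξ.bind (mkK fadd (q1 k) (domK L B.b₀)))
      (C • ν.bind (mkK fadd (q1 k) (fwdK collM L CollLeg969.gE 1 B.b₀)))
      (C * (B.lam * B.lam₁ ^ k * c)) := by
  have h1 := stepK_fwd (f := fadd) (q := q1 k) hB.wp hPp.w hB.b0.le hL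
    (fun m n => le_rfl) (q1_ne_top k)
  have h2 := PairSrc969.PX.smul (h.bind h1) C
  refine h2.mono_c (le_of_eq ?_)
  rw [tsum_q1' k fun m => Pp.lam₁ ^ m, hPp.l]

/-- **Forward step through a node, first orientation.** -/
theorem stepL (hΦ : AdmissiblePotential Φ) {B : BPar} (hB : B.Ok) {b : ℝ} (hb : B.bs < b)
    {l : CTree} (m : Mk l) (r : CTree) (hR : DomR Φ B b l m) {L : ℝ → Leg EC}
    {X : ℝ → PhasePoint × NodeP → BLine} (hX : FwdL Φ L X) :
    DomX Φ B b l r X (Mk.inl m r) := by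
  obtain ⟨C, hC, hN⟩ := NL hΦ hB.b0 (hB.b0s.trans_lt hb) B.T l r
  obtain ⟨c, hc, hR⟩ := hR
  refine ⟨C * (B.lam * B.lam₁ ^ r.leaves * c), ENNReal.mul_ne_top hC (ENNReal.mul_ne_top
    (ENNReal.mul_ne_top hB.lamt (ENNReal.pow_ne_top hB.lt)) hc), ?_⟩
  intro ε T' te hε hε1 hte hteT hT K hK Pp hPp
  have hlv : (node l r).leaves = l.leaves + r.leaves := rfl
  obtain ⟨Ξ, ν, hPX, hA, hdom⟩ := hR ε T' te hε hε1 hte hteT hT K (by omega) Pp hPp
  have hL := hX.cl ε hε
  refine ⟨_, _, px_step hB hPp hPX hL r.leaves C, (hA.bind hL B.b₀ (q1_ne_top _)).smul C,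
    fun F hF hF0 => ?_⟩
  -- the function of the followed branch
  set κ : Kernel LSt LSt := fwdK collM (L ε) CollLeg969.gE 1 B.b₀ with hκ
  set G : Lab × LSt → ℝ≥0∞ := fun p => ∫⁻ p', F p' ∂mkK fadd (q1 r.leaves) κ p with hG
  have hsf : IsSFiniteKernel (mkK fadd (q1 r.leaves) κ) :=
    (stepK_fwd (f := fadd) (q := q1 r.leaves) hB.wp hPp.w hB.b0.le hL
      (fun m n => le_rfl) (q1_ne_top _)).sf
  have hGm : Measurable G := hF.lintegral_kernel
  have hGe : ∀ p : Lab × LSt, G p =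
      ∫⁻ z', F ((p.1.1, (p.1.2.1, p.1.2.2 + r.leaves)), z') ∂κ p.2 := fun p =>
    lintegral_mk1 r.leaves κ p hF
  have hG0 : ∀ p : Lab × LSt, ¬ p.1.1.1.1 ≤ te → G p = 0 := by
    intro p hp
    rw [hGe]
    refine (lintegral_congr fun z' => ?_).trans lintegral_zero
    exact hF0 ((p.1.1, (p.1.2.1, p.1.2.2 + r.leaves)), z') hp
  -- the function at the node
  set H : (PhasePoint × Par l) × (PhasePoint × NodeP) → ℝ≥0∞ := fun q =>
    F (((exM Φ ε m q.1, mkN m), ((exM Φ ε m q.1).1, (node l r).leaves)), X ε q.2) with hH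
  have hHm : Measurable H := by
    have h1 : Measurable fun q : (PhasePoint × Par l) × (PhasePoint × NodeP) =>
        exM Φ ε m q.1 := (measurable_exM hΦ ε m).comp measurable_fst
    exact hF.comp (((h1.prodMk measurable_const).prodMk (h1.fst.prodMk measurable_const)).prodMk
      ((hX.meas ε).comp measurable_snd))
  have h1 := hN ε T' hε hT H hHm
  have h2 : ∀ z1 : PhasePoint × Par l, ∫⁻ a : NodeP,
      (gL Φ ε T' (z1.1, a) * topI l (a.1, z1.2) *
        (ENNReal.ofReal ‖z1.1.2 - a.2.1‖ * gE B.b₀ a.2.1)) *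
          H (z1, outD Φ ε T' (z1.1, inLine ε z1.1 a)) ≤
      G (((exM Φ ε m z1, mkN m), ((exM Φ ε m z1).1, l.leaves)), rootB l z1) := by
    intro z1
    rw [hGe]
    simp only
    rw [hκ, ← fk (L ε) B.b₀ (rootB l z1) (F := fun z' =>
      F (((exM Φ ε m z1, mkN m), ((exM Φ ε m z1).1, l.leaves + r.leaves)), z'))
      (hF.comp (measurable_const.prodMk measurable_id))]
    refine lintegral_mono fun a => ?_
    by_cases hg : gL Φ ε T' (z1.1, a) * topI l (a.1, z1.2) = 0
    · rw [hg, zero_mul, zero_mul]; exact bot_le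
    obtain ⟨hg1, hg2⟩ := mul_ne_zero_iff.1 hg
    have hgood := mem_GoodL_of_gL hg1
    obtain ⟨g1, -, -, g4, -, -, g7, -⟩ := goodL_spec hΦ hε hgood rfl
    have ha0 : 0 < a.1 := by rw [← g4]; exact g1.2.2
    have htop : topT l z1.2 < a.1 := topT_lt ha0 (topLt_of_topI hg2)
    have hfw : fwI (rootB l z1).1 a = 1 := by
      unfold fwI
      exact if_pos ⟨htop, g7⟩
    have hout : X ε (outD Φ ε T' (z1.1, inLine ε z1.1 a)) =
        (L ε).out (rootB l z1, (a.1, ((rootB l z1).2.2 - a.2.1, -a.2.2))) :=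
      hX.out ε hε T' z1.1 a hgood (topT l z1.2)
    have hle : gL Φ ε T' (z1.1, a) * topI l (a.1, z1.2) ≤ 1 := by
      have e1 : gL Φ ε T' (z1.1, a) ≤ 1 := by
        unfold gL
        exact Set.indicator_le_self' (fun _ _ => zero_le_one) _
      calc _ ≤ (1 : ℝ≥0∞) * 1 := mul_le_mul' e1 (topI_le_one _ _)
        _ = 1 := one_mul _
    rw [hfw, one_mul]
    show (gL Φ ε T' (z1.1, a) * topI l (a.1, z1.2) *
        (ENNReal.ofReal ‖z1.1.2 - a.2.1‖ * gE B.b₀ a.2.1)) *
        F (((exM Φ ε m z1, mkN m), ((exM Φ ε m z1).1, l.leaves + r.leaves)),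
          X ε (outD Φ ε T' (z1.1, inLine ε z1.1 a))) ≤
      (ENNReal.ofReal ‖z1.1.2 - a.2.1‖ * gE B.b₀ a.2.1) *
        F (((exM Φ ε m z1, mkN m), ((exM Φ ε m z1).1, l.leaves + r.leaves)),
          (L ε).out (rootB l z1, (a.1, ((rootB l z1).2.2 - a.2.1, -a.2.2))))
    rw [hout]
    refine mul_le_mul_left ?_ _
    calc gL Φ ε T' (z1.1, a) * topI l (a.1, z1.2) *
        (ENNReal.ofReal ‖z1.1.2 - a.2.1‖ * gE B.b₀ a.2.1)
        ≤ 1 * (ENNReal.ofReal ‖z1.1.2 - a.2.1‖ * gE B.b₀ a.2.1) := mul_le_mul_left hle _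
      _ = _ := one_mul _
  calc ∫⁻ z : PhasePoint × Par (node l r), vw Φ ε (node l r) T' z * (gw b (node l r) z *
        F (((exM Φ ε (Mk.inl m r) z, mkN (Mk.inl m r)), ((exM Φ ε (Mk.inl m r) z).1,
          (node l r).leaves)), X ε (z.1, z.2.1)))
      = ∫⁻ z : PhasePoint × Par (node l r), vw Φ ε (node l r) T' z * (gw b (node l r) z *
        H (((inM Φ ε (z.1, z.2.1)).1, z.2.2.1), (z.1, z.2.1))) := rfl
    _ ≤ C * ∫⁻ z1 : PhasePoint × Par l, vw Φ ε l T' z1 * (gw b l z1 * ∫⁻ a : NodeP,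
        (gL Φ ε T' (z1.1, a) * topI l (a.1, z1.2) *
          (ENNReal.ofReal ‖z1.1.2 - a.2.1‖ * gE B.b₀ a.2.1)) *
          H (z1, outD Φ ε T' (z1.1, inLine ε z1.1 a))) := h1
    _ ≤ C * ∫⁻ z1 : PhasePoint × Par l, vw Φ ε l T' z1 * (gw b l z1 *
        G (((exM Φ ε m z1, mkN m), ((exM Φ ε m z1).1, l.leaves)), rootB l z1)) :=
        mul_le_mul_right (lintegral_mono fun z1 =>
          mul_le_mul_right (mul_le_mul_right (h2 z1) _) _) _
    _ ≤ C * ∫⁻ p, G p ∂ν := mul_le_mul_right (hdom G hGm hG0) _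
    _ = C * ∫⁻ p, F p ∂ν.bind (mkK fadd (q1 r.leaves) κ) := by
        rw [Measure.lintegral_bind (Kernel.aemeasurable _) hF.aemeasurable]
    _ = ∫⁻ p, F p ∂(C • ν.bind (mkK fadd (q1 r.leaves) κ)) := by
        rw [lintegral_smul_measure, smul_eq_mul]

/-- **Forward step through a node, second orientation.** -/
theorem stepR (hΦ : AdmissiblePotential Φ) {B : BPar} (hB : B.Ok) {b : ℝ} (hb : B.bs < b)
    (l : CTree) {r : CTree} (m : Mk r) (hR : DomR Φ B b r m) {L : ℝ → Leg EC}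
    {X : ℝ → PhasePoint × NodeP → BLine} (hX : FwdR Φ L X) :
    DomX Φ B b l r X (Mk.inr l m) := by
  obtain ⟨C, hC, hN⟩ := NR hΦ hB.b0 (hB.b0s.trans_lt hb) B.T l r
  obtain ⟨c, hc, hR⟩ := hR
  refine ⟨C * (B.lam * B.lam₁ ^ l.leaves * c), ENNReal.mul_ne_top hC (ENNReal.mul_ne_top
    (ENNReal.mul_ne_top hB.lamt (ENNReal.pow_ne_top hB.lt)) hc), ?_⟩
  intro ε T' te hε hε1 hte hteT hT K hK Pp hPp
  have hlv : (node l r).leaves = r.leaves + l.leaves := Nat.add_comm _ _
  obtain ⟨Ξ, ν, hPX, hA, hdom⟩ := hR ε T' te hε hε1 hte hteT hT K (by omega) Pp hPp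
  have hL := hX.cl ε hε
  refine ⟨_, _, px_step hB hPp hPX hL l.leaves C, (hA.bind hL B.b₀ (q1_ne_top _)).smul C,
    fun F hF hF0 => ?_⟩
  -- the function of the followed branch
  set κ : Kernel LSt LSt := fwdK collM (L ε) CollLeg969.gE 1 B.b₀ with hκ
  set G : Lab × LSt → ℝ≥0∞ := fun p => ∫⁻ p', F p' ∂mkK fadd (q1 l.leaves) κ p with hG
  have hsf : IsSFiniteKernel (mkK fadd (q1 l.leaves) κ) :=
    (stepK_fwd (f := fadd) (q := q1 l.leaves) hB.wp hPp.w hB.b0.le hL
      (fun m n => le_rfl) (q1_ne_top _)).sf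
  have hGm : Measurable G := hF.lintegral_kernel
  have hGe : ∀ p : Lab × LSt, G p =
      ∫⁻ z', F ((p.1.1, (p.1.2.1, p.1.2.2 + l.leaves)), z') ∂κ p.2 := fun p =>
    lintegral_mk1 l.leaves κ p hF
  have hG0 : ∀ p : Lab × LSt, ¬ p.1.1.1.1 ≤ te → G p = 0 := by
    intro p hp
    rw [hGe]
    refine (lintegral_congr fun z' => ?_).trans lintegral_zero
    exact hF0 ((p.1.1, (p.1.2.1, p.1.2.2 + l.leaves)), z') hp
  -- the function at the node
  set H : (PhasePoint × Par r) × (PhasePoint × NodeP) → ℝ≥0∞ := fun q =>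
    F (((exM Φ ε m q.1, mkN m), ((exM Φ ε m q.1).1, r.leaves + l.leaves)), X ε q.2) with hH
  have hHm : Measurable H := by
    have h1 : Measurable fun q : (PhasePoint × Par r) × (PhasePoint × NodeP) =>
        exM Φ ε m q.1 := (measurable_exM hΦ ε m).comp measurable_fst
    exact hF.comp (((h1.prodMk measurable_const).prodMk (h1.fst.prodMk measurable_const)).prodMk
      ((hX.meas ε).comp measurable_snd))
  have h1 := hN ε T' hε hT H hHm
  have h2 : ∀ z1 : PhasePoint × Par r, ∫⁻ a : NodeP,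
      (gR Φ ε T' (z1.1, a) * topI r (a.1, z1.2) *
        (ENNReal.ofReal ‖z1.1.2 - a.2.1‖ * gE B.b₀ a.2.1)) *
          H (z1, outD Φ ε T' (inLine ε z1.1 a, z1.1)) ≤
      G (((exM Φ ε m z1, mkN m), ((exM Φ ε m z1).1, r.leaves)), rootB r z1) := by
    intro z1
    rw [hGe]
    simp only
    rw [hκ, ← fk (L ε) B.b₀ (rootB r z1) (F := fun z' =>
      F (((exM Φ ε m z1, mkN m), ((exM Φ ε m z1).1, r.leaves + l.leaves)), z'))
      (hF.comp (measurable_const.prodMk measurable_id))]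
    refine lintegral_mono fun a => ?_
    by_cases hg : gR Φ ε T' (z1.1, a) * topI r (a.1, z1.2) = 0
    · rw [hg, zero_mul, zero_mul]; exact bot_le
    obtain ⟨hg1, hg2⟩ := mul_ne_zero_iff.1 hg
    have hgood := mem_GoodR_of_gR hg1
    obtain ⟨g1, -, -, g4, -, -, g7, -⟩ := goodR_spec hΦ hε hgood rfl
    have ha0 : 0 < a.1 := by rw [← g4]; exact g1.2.2
    have htop : topT r z1.2 < a.1 := topT_lt ha0 (topLt_of_topI hg2)
    have hfw : fwI (rootB r z1).1 a = 1 := by
      unfold fwI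
      exact if_pos ⟨htop, g7⟩
    have hout : X ε (outD Φ ε T' (inLine ε z1.1 a, z1.1)) =
        (L ε).out (rootB r z1, (a.1, ((rootB r z1).2.2 - a.2.1, -a.2.2))) :=
      hX.out ε hε T' z1.1 a hgood (topT r z1.2)
    have hle : gR Φ ε T' (z1.1, a) * topI r (a.1, z1.2) ≤ 1 := by
      have e1 : gR Φ ε T' (z1.1, a) ≤ 1 := by
        unfold gR
        exact Set.indicator_le_self' (fun _ _ => zero_le_one) _
      calc _ ≤ (1 : ℝ≥0∞) * 1 := mul_le_mul' e1 (topI_le_one _ _)
        _ = 1 := one_mul _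
    rw [hfw, one_mul]
    show (gR Φ ε T' (z1.1, a) * topI r (a.1, z1.2) *
        (ENNReal.ofReal ‖z1.1.2 - a.2.1‖ * gE B.b₀ a.2.1)) *
        F (((exM Φ ε m z1, mkN m), ((exM Φ ε m z1).1, r.leaves + l.leaves)),
          X ε (outD Φ ε T' (inLine ε z1.1 a, z1.1))) ≤
      (ENNReal.ofReal ‖z1.1.2 - a.2.1‖ * gE B.b₀ a.2.1) *
        F (((exM Φ ε m z1, mkN m), ((exM Φ ε m z1).1, r.leaves + l.leaves)),
          (L ε).out (rootB r z1, (a.1, ((rootB r z1).2.2 - a.2.1, -a.2.2))))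
    rw [hout]
    refine mul_le_mul_left ?_ _
    calc gR Φ ε T' (z1.1, a) * topI r (a.1, z1.2) *
        (ENNReal.ofReal ‖z1.1.2 - a.2.1‖ * gE B.b₀ a.2.1)
        ≤ 1 * (ENNReal.ofReal ‖z1.1.2 - a.2.1‖ * gE B.b₀ a.2.1) := mul_le_mul_left hle _
      _ = _ := one_mul _
  calc ∫⁻ z : PhasePoint × Par (node l r), vw Φ ε (node l r) T' z * (gw b (node l r) z *
        F (((exM Φ ε (Mk.inr l m) z, mkN (Mk.inr l m)), ((exM Φ ε (Mk.inr l m) z).1,
          (node l r).leaves)), X ε (z.1, z.2.1)))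
      = ∫⁻ z : PhasePoint × Par (node l r), vw Φ ε (node l r) T' z * (gw b (node l r) z *
        H (((inM Φ ε (z.1, z.2.1)).2, z.2.2.2), (z.1, z.2.1))) := by rw [hlv]; rfl
    _ ≤ C * ∫⁻ z1 : PhasePoint × Par r, vw Φ ε r T' z1 * (gw b r z1 * ∫⁻ a : NodeP,
        (gR Φ ε T' (z1.1, a) * topI r (a.1, z1.2) *
          (ENNReal.ofReal ‖z1.1.2 - a.2.1‖ * gE B.b₀ a.2.1)) *
          H (z1, outD Φ ε T' (inLine ε z1.1 a, z1.1))) := h1
    _ ≤ C * ∫⁻ z1 : PhasePoint × Par r, vw Φ ε r T' z1 * (gw b r z1 *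
        G (((exM Φ ε m z1, mkN m), ((exM Φ ε m z1).1, r.leaves)), rootB r z1)) :=
        mul_le_mul_right (lintegral_mono fun z1 =>
          mul_le_mul_right (mul_le_mul_right (h2 z1) _) _) _
    _ ≤ C * ∫⁻ p, G p ∂ν := mul_le_mul_right (hdom G hGm hG0) _
    _ = C * ∫⁻ p, F p ∂ν.bind (mkK fadd (q1 l.leaves) κ) := by
        rw [Measure.lintegral_bind (Kernel.aemeasurable _) hF.aemeasurable]
    _ = ∫⁻ p, F p ∂(C • ν.bind (mkK fadd (q1 l.leaves) κ)) := by
        rw [lintegral_smul_measure, smul_eq_mul]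

/-! ### All marks -/

/-- **`DomR`** for all marks. -/
theorem domR (hΦ : AdmissiblePotential Φ) {B : BPar} (hB : B.Ok) {b : ℝ} (hb : B.bs < b) :
    {P : CTree} → (m : Mk P) → DomR Φ B b P m
  | _, .top l r => domR_top hΦ hB hb l r
  | _, .inl m r => stepL hΦ hB hb m r (domR hΦ hB hb m) (fwdL_root hΦ)
  | _, .inr l m => stepR hΦ hB hb l m (domR hΦ hB hb m) (fwdR_root hΦ)

/-- `DomP` from `DomX` for the top exit -/
theorem domP_of_domX {B : BPar} {b : ℝ} {l r : CTree} {m : Mk (node l r)}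
    (h : DomX Φ B b l r topX m) (hf : fwd m (.top l r) = true) :
    DomP Φ B b (node l r) m (.top l r) := by
  obtain ⟨c, hc, h⟩ := h
  refine ⟨c, hc, fun ε T' te hε hε1 hte hteT hT K hK Pp hPp => ?_⟩
  obtain ⟨Ξ, ν, hPX, hA, hdom⟩ := h ε T' te hε hε1 hte hteT hT K hK Pp hPp
  refine ⟨Ξ, ν, hPX, hA.aux, fun F hF hF0 => ?_⟩
  have h1 := hdom F hF (fun p hp => hF0 p fun hc => hp hc.1)
  refine le_trans (le_of_eq ?_) h1
  refine lintegral_congr fun z => ?_
  have e : sgT Φ ε m (.top l r) z = (exM Φ ε m z).1 := by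
    unfold sgT
    rw [if_pos hf]
  unfold pairT
  rw [e]
  rfl

/-- reduction to the first branch -/
theorem domP_inl (hΦ : AdmissiblePotential Φ) {B : BPar} {b : ℝ}
    {l : CTree} {m m' : Mk l} (r : CTree) {b' : ℝ} (hb' : 0 < b') (hbb : b' < b)
    (h : DomP Φ B b' l m m') : DomP Φ B b (node l r) (.inl m r) (.inl m' r) := by
  obtain ⟨C, hC, hN⟩ := subL hΦ hb' hbb B.T l r
  obtain ⟨c, hc, h⟩ := h
  refine ⟨C * c, ENNReal.mul_ne_top hC hc, fun ε T' te hε hε1 hte hteT hT K hK Pp hPp => ?_⟩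
  have hlv : (node l r).leaves = l.leaves + r.leaves := rfl
  obtain ⟨Ξ, ν, hPX, hA, hdom⟩ := h ε T' te hε hε1 hte hteT hT K (by omega) Pp hPp
  refine ⟨_, _, PairSrc969.PX.smul hPX C, hA.smul C, fun F hF hF0 => ?_⟩
  have hm : Measurable fun z : PhasePoint × Par l => F (pairT Φ ε m m' z) :=
    hF.comp (measurable_pairT hΦ ε m m')
  calc ∫⁻ z : PhasePoint × Par (node l r), vw Φ ε (node l r) T' z * (gw b (node l r) z *
        F (pairT Φ ε (Mk.inl m r) (Mk.inl m' r) z))
      = ∫⁻ z : PhasePoint × Par (node l r), vw Φ ε (node l r) T' z * (gw b (node l r) z *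
        (fun z => F (pairT Φ ε m m' z)) ((inM Φ ε (z.1, z.2.1)).1, z.2.2.1)) := rfl
    _ ≤ C * ∫⁻ z1 : PhasePoint × Par l, vw Φ ε l T' z1 * (gw b' l z1 *
        F (pairT Φ ε m m' z1)) := hN ε T' hε hT _ hm
    _ ≤ C * ∫⁻ p, F p ∂ν := mul_le_mul_right (hdom F hF hF0) _
    _ = ∫⁻ p, F p ∂(C • ν) := by rw [lintegral_smul_measure, smul_eq_mul]

/-- reduction to the second branch -/
theorem domP_inr (hΦ : AdmissiblePotential Φ) {B : BPar} {b : ℝ}
    (l : CTree) {r : CTree} {m m' : Mk r} {b' : ℝ} (hb' : 0 < b') (hbb : b' < b)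
    (h : DomP Φ B b' r m m') : DomP Φ B b (node l r) (.inr l m) (.inr l m') := by
  obtain ⟨C, hC, hN⟩ := subR hΦ hb' hbb B.T l r
  obtain ⟨c, hc, h⟩ := h
  refine ⟨C * c, ENNReal.mul_ne_top hC hc, fun ε T' te hε hε1 hte hteT hT K hK Pp hPp => ?_⟩
  have hlv : (node l r).leaves = l.leaves + r.leaves := rfl
  obtain ⟨Ξ, ν, hPX, hA, hdom⟩ := h ε T' te hε hε1 hte hteT hT K (by omega) Pp hPp
  refine ⟨_, _, PairSrc969.PX.smul hPX C, hA.smul C, fun F hF hF0 => ?_⟩
  have hm : Measurable fun z : PhasePoint × Par r => F (pairT Φ ε m m' z) :=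
    hF.comp (measurable_pairT hΦ ε m m')
  calc ∫⁻ z : PhasePoint × Par (node l r), vw Φ ε (node l r) T' z * (gw b (node l r) z *
        F (pairT Φ ε (Mk.inr l m) (Mk.inr l m') z))
      = ∫⁻ z : PhasePoint × Par (node l r), vw Φ ε (node l r) T' z * (gw b (node l r) z *
        (fun z => F (pairT Φ ε m m' z)) ((inM Φ ε (z.1, z.2.1)).2, z.2.2.2)) := rfl
    _ ≤ C * ∫⁻ z1 : PhasePoint × Par r, vw Φ ε r T' z1 * (gw b' r z1 *
        F (pairT Φ ε m m' z1)) := hN ε T' hε hT _ hm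
    _ ≤ C * ∫⁻ p, F p ∂ν := mul_le_mul_right (hdom F hF hF0) _
    _ = ∫⁻ p, F p ∂(C • ν) := by rw [lintegral_smul_measure, smul_eq_mul]

/-- **`DomP` on the forward path.** -/
theorem domP_fwd (hΦ : AdmissiblePotential Φ) {B : BPar} (hB : B.Ok) :
    {P : CTree} → (m m' : Mk P) → fwd m m' = true → ∀ {b : ℝ}, B.bs < b → DomP Φ B b P m m'
  | _, .top _ _, _, h, _, _ => by
      simp [fwd] at h
  | _, .inl m r, .top _ _, h, _, hb =>
      domP_of_domX (stepL hΦ hB hb m r (domR hΦ hB hb m) (fwdL_top hΦ)) h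
  | _, .inl m r, .inl m' _, h, b, hb =>
      domP_inl hΦ r (b' := (B.bs + b) / 2) (by have := hB.bs0; linarith) (by linarith)
        (domP_fwd hΦ hB m m' h (by linarith))
  | _, .inl _ _, .inr _ _, h, _, _ => by
      simp [fwd] at h
  | _, .inr l m, .top _ _, h, _, hb =>
      domP_of_domX (stepR hΦ hB hb l m (domR hΦ hB hb m) (fwdR_top hΦ)) h
  | _, .inr _ _, .inl _ _, h, _, _ => by
      simp [fwd] at h
  | _, .inr l m, .inr _ m', h, b, hb =>
      domP_inr hΦ l (b' := (B.bs + b) / 2) (by have := hB.bs0; linarith) (by linarith)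
        (domP_fwd hΦ hB m m' h (by linarith))

end Crest.Agent.R122.Mark307

end
end

-- ▼ part R122/BaseDom_307

/-!
# Base pair laws (row 122, block H7b), helper307: domination of the structure law

* `sigB`, `thL` : turning time flag, label map of a structure.
* `pf_le` : the density of the tree is bounded by the Gaussian weight.
* `flux_exit` : flux of the test line for functions of the exits.
* `base_dom_ex`, `base_dom_ct` : pairs (exit, exit), (exit, line of the last contact).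
-/

set_option autoImplicit false
set_option maxHeartbeats 400000
set_option linter.unusedSectionVars false

open MeasureTheory ProbabilityTheory Set Filter
open scoped ENNReal Topology Classical
open Crest.AnalysisR.Kinetic
open Crest.Agent.R122.Kin796 Crest.Agent.R122.Kin796.CTree Crest.Agent.R122.Tree674
open Crest.Agent.R122.Disc416 Crest.Agent.R122.EDefs602 Crest.Agent.R122.TreeDom974
open Crest.Agent.R122.Boost969 Crest.Agent.R122.Kin416
open Crest.Agent.R122.Pair292 hiding ML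
open Crest.Agent.R122.Nu0566 (fluxI oneD oneLsM)
open Crest.Agent.R122.OneC285 (oneLs exS smI)
open Crest.Agent.R122.TreeLines335

noncomputable section

namespace Crest.Agent.R122.Mark307

variable {Φ : Space3 → ℝ}

/-! ### Label map -/

/-- turning time at the birth of the first line (`true`) or of the second line (`false`) -/
def sigB (P : CTree) (x y : Idx P ⊕ Bool) : Bool :=
  decide (∀ m m' : Mk P, x = Sum.inl (exIdx m) → y = Sum.inl (exIdx m') → fwd m m' = true)

theorem sigB_ex {P : CTree} (m m' : Mk P) :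
    sigB P (Sum.inl (exIdx m)) (Sum.inl (exIdx m')) = fwd m m' := by
  unfold sigB
  by_cases h : fwd m m' = true
  · rw [h]
    refine decide_eq_true fun m1 m2 h1 h2 => ?_
    rw [← exIdx_injective (Sum.inl_injective h1), ← exIdx_injective (Sum.inl_injective h2)]
    exact h
  · rw [Bool.not_eq_true] at h
    rw [h]
    refine decide_eq_false fun hc => ?_
    have := hc m m' rfl rfl
    rw [h] at this
    exact absurd this (by decide)

theorem sigB_root {P : CTree} (x : Idx P ⊕ Bool) : sigB P x (Sum.inl (root P)) = true := by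
  unfold sigB
  refine decide_eq_true fun m1 m2 _ h2 => ?_
  exact absurd (Sum.inl_injective h2).symm (exIdx_ne_root m2)

theorem sigB_inr {P : CTree} (x : Idx P ⊕ Bool) (b : Bool) : sigB P x (Sum.inr b) = true := by
  unfold sigB
  refine decide_eq_true fun m1 m2 _ h2 => ?_
  exact absurd h2 (by simp)

/-- label and second line of the pair `(x, y)` of lines of a structure -/
def thL (P : CTree) (x y : Idx P ⊕ Bool) (L : Idx P ⊕ Bool → ML) : Lab × LSt :=
  ((L x, ((if sigB P x y then (L x).1.1 else (L y).1.1), (L y).2)), (L y).1)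

theorem thL_ct {P : CTree} (m : Mk P) {y : Idx P ⊕ Bool} (hy : sigB P (Sum.inl (exIdx m)) y = true)
    (L : Idx P ⊕ Bool → ML) : thL P (Sum.inl (exIdx m)) y L = pairC m y L := by
  unfold thL pairC
  rw [if_pos hy]

theorem oneD_ex {ε : ℝ} {P : CTree} {z : PhasePoint × Par P} (hz : Adm Φ P z.1.2 z.2) (s : ℝ)
    (c : OCout796.CD) (n : ℕ) (m : Mk P) :
    oneD Φ ε P z s c n (Sum.inl (exIdx m)) = (exM Φ ε m z, mkN m) := by
  show (if exIdx m = root P then _ else lineML Φ ε P z (exIdx m)) = _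
  rw [if_neg (exIdx_ne_root m), lineML_exIdx, exM_eq m hz]

theorem thL_ex {ε : ℝ} {P : CTree} {z : PhasePoint × Par P} (hz : Adm Φ P z.1.2 z.2) (s : ℝ)
    (c : OCout796.CD) (n : ℕ) (m m' : Mk P) :
    thL P (Sum.inl (exIdx m)) (Sum.inl (exIdx m')) (oneD Φ ε P z s c n) = pairT Φ ε m m' z := by
  unfold thL
  rw [oneD_ex hz, oneD_ex hz, sigB_ex]
  rfl

/-! ### The density of the tree -/

theorem pf_le (hΦ : AdmissiblePotential Φ) {f₀ : PhasePoint → ℝ} {Cf b : ℝ}
    (hf : ∀ z, f₀ z ≤ Cf * Real.exp (-(b * ‖z.2‖ ^ 2))) {ε : ℝ} {P : CTree}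
    {z : PhasePoint × Par P} (hz : Adm Φ P z.1.2 z.2) :
    ToTree335.pf Φ f₀ ε P z ≤ ENNReal.ofReal Cf ^ Fintype.card (Idx P) * gw b P z := by
  unfold ToTree335.pf
  calc ∏ i, ENNReal.ofReal (f₀ (lines Φ ε P z.1 z.2 i))
      ≤ ∏ i, (ENNReal.ofReal Cf *
        ENNReal.ofReal (Real.exp (-(b * ‖(lines Φ ε P z.1 z.2 i).2‖ ^ 2)))) := by
        refine Finset.prod_le_prod' fun i _ => ?_
        rw [← ENNReal.ofReal_mul' (Real.exp_pos _).le]
        exact ENNReal.ofReal_le_ofReal (hf _)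
    _ = ENNReal.ofReal Cf ^ Fintype.card (Idx P) *
        ENNReal.ofReal (Real.exp (∑ i, -(b * ‖(lines Φ ε P z.1 z.2 i).2‖ ^ 2))) := by
        rw [Finset.prod_mul_distrib, Finset.prod_const, Finset.card_univ, Real.exp_sum,
          ENNReal.ofReal_prod_of_nonneg (fun i _ => (Real.exp_pos _).le)]
    _ = _ := by
        have e : ∑ i, -(b * ‖(lines Φ ε P z.1 z.2 i).2‖ ^ 2) =
            -b * (‖z.1.2‖ ^ 2 + nodeE P z.2) := by
          rw [← sum_vels_sq hΦ hz]
          simp only [Hid424.lines_vel]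
          rw [Finset.sum_neg_distrib, ← Finset.mul_sum, neg_mul]
        unfold gw
        rw [e]

/-! ### Flux of the test line -/

theorem vel_flux {b : ℝ} (hb : 0 < b) : ∃ C : ℝ≥0∞, C ≠ ∞ ∧ ∀ u : Space3,
    ∫⁻ v : Space3, ENNReal.ofReal ‖v - u‖ * gE b v ≤ C * ENNReal.ofReal (1 + ‖u‖) := by
  obtain ⟨C, hC, h⟩ := one_add_gE (b := b) (b' := b / 2) (by linarith)
  refine ⟨C * ∫⁻ v, gE (b / 2) v, ENNReal.mul_ne_top hC (lintegral_gE_ne_top (by linarith)),
    fun u => ?_⟩
  calc ∫⁻ v : Space3, ENNReal.ofReal ‖v - u‖ * gE b v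
      ≤ ∫⁻ v : Space3, (C * ENNReal.ofReal (1 + ‖u‖)) * gE (b / 2) v := by
        refine lintegral_mono fun v => ?_
        calc ENNReal.ofReal ‖v - u‖ * gE b v
            ≤ (ENNReal.ofReal (1 + ‖v‖) * ENNReal.ofReal (1 + ‖u‖)) * gE b v :=
              mul_le_mul_left (norm_sub_le_mul v u) _
          _ = ENNReal.ofReal (1 + ‖u‖) * (ENNReal.ofReal (1 + ‖v‖) * gE b v) := by ring
          _ ≤ ENNReal.ofReal (1 + ‖u‖) * (C * gE (b / 2) v) := mul_le_mul_right (h v) _
          _ = _ := by ring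
    _ = _ := by rw [lintegral_const_mul _ (measurable_gE _)]; ring

/-- area of the impact disc -/
theorem disc_le (g : Space3) (c : ℝ≥0∞) : ENNReal.ofReal ‖g‖ * ∫⁻ _b in impactDisc g, c ∂μHE[2] ≤
    ENNReal.ofReal ‖g‖ * (volume (Metric.ball (0 : Plane) 1) * c) := by
  by_cases hg : g = 0
  · rw [hg]
    simp
  · refine mul_le_mul_right (le_of_eq ?_) _
    rw [Disc416.lintegral_impactDisc hg (fun _ => c), lintegral_const, Measure.restrict_apply_univ,
      mul_comm]

theorem fluxI_le {b₀ : ℝ} (hb : 0 < b₀) {ρ : ℝ≥0∞} (hρ : ρ < 1) : ∃ C : ℝ≥0∞, C ≠ ∞ ∧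
    ∀ (ε : ℝ) (K : ℕ) (g : ℝ), b₀ ≤ g → ∀ (P : CTree) (z : PhasePoint × Par P) (s : ℝ)
      (F : (Idx P ⊕ Bool → ML) → ℝ≥0∞) (c : ℝ≥0∞),
      (∀ (d : OCout796.CD) (n : ℕ), F (oneD Φ ε P z s d n) ≤ c) →
      fluxI Φ ε K g ρ P z s F ≤ C * (ENNReal.ofReal (1 + ‖z.1.2‖) * c) := by
  obtain ⟨C, hC, h⟩ := vel_flux hb
  have hV : volume (Metric.ball (0 : Plane) 1) ≠ ∞ := measure_ball_lt_top.ne
  refine ⟨(1 - ρ)⁻¹ * (volume (Metric.ball (0 : Plane) 1) * C), ENNReal.mul_ne_top
    (ENNReal.inv_ne_top.2 (tsub_pos_of_lt hρ).ne') (ENNReal.mul_ne_top hV hC), ?_⟩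
  intro ε K g hg P z s F c hc
  unfold Nu0566.fluxI
  have h1 : ∀ v : Space3, ENNReal.ofReal ‖v - z.1.2‖ * (wG g v *
      ∫⁻ b in impactDisc (v - z.1.2), c ∂μHE[2]) ≤
      (volume (Metric.ball (0 : Plane) 1) * c) * (ENNReal.ofReal ‖v - z.1.2‖ * gE b₀ v) := by
    intro v
    have h2 : wG g v ≤ gE b₀ v := by
      rw [← gE_eq_wG]; exact gE_mono hg v
    calc ENNReal.ofReal ‖v - z.1.2‖ * (wG g v * ∫⁻ b in impactDisc (v - z.1.2), c ∂μHE[2])
        = wG g v * (ENNReal.ofReal ‖v - z.1.2‖ * ∫⁻ b in impactDisc (v - z.1.2), c ∂μHE[2]) := by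
          ring
      _ ≤ gE b₀ v * (ENNReal.ofReal ‖v - z.1.2‖ * (volume (Metric.ball (0 : Plane) 1) * c)) :=
          mul_le_mul' h2 (disc_le _ _)
      _ = _ := by ring
  calc ∑' n : ℕ, markW ρ K n * (if n + P.leaves ≤ K then 1 else 0) *
        ∫⁻ v : Space3, ENNReal.ofReal ‖v - z.1.2‖ * (wG g v *
          ∫⁻ b in impactDisc (v - z.1.2), F (oneD Φ ε P z s (v, z.1.2, b) n) ∂μHE[2])
      ≤ ∑' n : ℕ, markW ρ K n * ((volume (Metric.ball (0 : Plane) 1) * c) *
          (C * ENNReal.ofReal (1 + ‖z.1.2‖))) := by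
        refine ENNReal.tsum_le_tsum fun n => ?_
        have h3 : markW ρ K n * (if n + P.leaves ≤ K then (1 : ℝ≥0∞) else 0) ≤ markW ρ K n := by
          refine mul_le_of_le_one_right' ?_
          split_ifs
          · exact le_rfl
          · exact zero_le_one
        refine mul_le_mul' h3 ?_
        calc ∫⁻ v : Space3, ENNReal.ofReal ‖v - z.1.2‖ * (wG g v *
              ∫⁻ b in impactDisc (v - z.1.2), F (oneD Φ ε P z s (v, z.1.2, b) n) ∂μHE[2])
            ≤ ∫⁻ v : Space3, (volume (Metric.ball (0 : Plane) 1) * c) *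
                (ENNReal.ofReal ‖v - z.1.2‖ * gE b₀ v) := by
              refine lintegral_mono fun v => le_trans ?_ (h1 v)
              exact mul_le_mul_right (mul_le_mul_right (lintegral_mono fun b => hc _ _) _) _
          _ = (volume (Metric.ball (0 : Plane) 1) * c) *
                ∫⁻ v : Space3, ENNReal.ofReal ‖v - z.1.2‖ * gE b₀ v := by
              refine lintegral_const_mul _ ?_
              have h5 : Measurable fun v : Space3 => ENNReal.ofReal ‖v - z.1.2‖ := by fun_prop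
              exact h5.mul (measurable_gE b₀)
          _ ≤ _ := mul_le_mul_right (h _) _
    _ = (∑' n : ℕ, markW ρ K n) * ((volume (Metric.ball (0 : Plane) 1) * c) *
          (C * ENNReal.ofReal (1 + ‖z.1.2‖))) := ENNReal.tsum_mul_right
    _ ≤ (1 - ρ)⁻¹ * ((volume (Metric.ball (0 : Plane) 1) * c) *
          (C * ENNReal.ofReal (1 + ‖z.1.2‖))) :=
        mul_le_mul_left (EBasic602.tsum_markW_le K) _
    _ = _ := by ring

/-! ### Reduction of the structure integral -/

/-- structure integral of a function of the lines (test line born at `0`, rate `g`) -/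
def strI (Φ : Space3 → ℝ) (f₀ : PhasePoint → ℝ) (ε : ℝ) (K : ℕ) (g : ℝ) (ρ : ℝ≥0∞) (te T' : ℝ)
    (P : CTree) (G : (Idx P ⊕ Bool → ML) → ℝ≥0∞) : ℝ≥0∞ :=
  activity ε * ∫⁻ z : PhasePoint × Par P,
    {z : PhasePoint × Par P | Valid Φ ε P T' z.1.2 z.2}.indicator
      (fun z => wt Φ P z.1.2 z.2 * (ToTree335.pf Φ f₀ ε P z *
        ∫⁻ l, {l : ML | (z, l.1) ∈ OneC423.ctSet Φ ε te P}.indicator
          (fun l => lineD (fun _ => g) ρ K l * (smI K P l * G (oneLs Φ ε P z l))) l
            ∂(OneC423.baseM (Measure.dirac 0)))) z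

/-- flux integral over the contact time -/
def fluxT (Φ : Space3 → ℝ) (ε : ℝ) (K : ℕ) (g : ℝ) (ρ : ℝ≥0∞) (te : ℝ) (P : CTree)
    (z : PhasePoint × Par P) (G : (Idx P ⊕ Bool → ML) → ℝ≥0∞) : ℝ≥0∞ :=
  ∫⁻ s in Ioc 0 te, {s | s ≤ te ∧ Valid Φ ε P s z.1.2 z.2}.indicator
    (fun s => fluxI Φ ε K g ρ P z s G) s

theorem activity_mul {ε : ℝ} (hε : 0 < ε) : activity ε * ENNReal.ofReal (ε ^ 2) = 1 := by
  unfold activity
  rw [← ENNReal.ofReal_mul (by positivity), inv_mul_cancel₀ (by positivity), ENNReal.ofReal_one]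

theorem measurable_thL {P : CTree} {α : Type*} [MeasurableSpace α] (x y : Idx P ⊕ Bool)
    {L : α → Idx P ⊕ Bool → ML} (hx : Measurable fun a => L a x) (hy : Measurable fun a => L a y) :
    Measurable fun a => thL P x y (L a) := by
  unfold thL
  refine (hx.prodMk (Measurable.prodMk ?_ hy.snd)).prodMk hy.fst
  split_ifs
  · exact hx.fst.fst
  · exact hy.fst.fst

theorem measurable_oneLsM_l (hΦ : AdmissiblePotential Φ) (ε : ℝ) {P : CTree}
    (z : PhasePoint × Par P) (x : Idx P ⊕ Bool) : Measurable fun l : ML => oneLsM Φ ε P z l x := by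
  have h1 := Nu0566.measurable_oneLsM hΦ ε P x
  have h2 : Measurable fun l : ML => ((z, l) : (PhasePoint × Par P) × ML) :=
    measurable_const.prodMk measurable_id
  exact Measurable.comp (g := fun q : (PhasePoint × Par P) × ML => oneLsM Φ ε P q.1 q.2 x)
    (f := fun l : ML => ((z, l) : (PhasePoint × Par P) × ML)) h1 h2

theorem measurable_lineF (hΦ : AdmissiblePotential Φ) {ε : ℝ} {P : CTree}
    {z : PhasePoint × Par P} (hz : Adm Φ P z.1.2 z.2) (x y : Idx P ⊕ Bool)
    {F : Lab × LSt → ℝ≥0∞} (hF : Measurable F) :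
    Measurable fun l : ML => F (thL P x y (oneLs Φ ε P z l)) := by
  have e : (fun l : ML => F (thL P x y (oneLs Φ ε P z l))) =
      fun l => F (thL P x y (oneLsM Φ ε P z l)) := by
    funext l
    congr 1
    unfold thL
    rw [Nu0566.oneLsM_of_adm hz, Nu0566.oneLsM_of_adm hz]
  rw [e]
  exact hF.comp (measurable_thL x y (measurable_oneLsM_l hΦ ε z x) (measurable_oneLsM_l hΦ ε z y))

theorem strI_le (hΦ : AdmissiblePotential Φ) {ε : ℝ} (hε : 0 < ε) {f₀ : PhasePoint → ℝ} {Cf b : ℝ}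
    (hf : ∀ z, f₀ z ≤ Cf * Real.exp (-(b * ‖z.2‖ ^ 2))) (K : ℕ) (g : ℝ) (ρ : ℝ≥0∞) (te T' : ℝ)
    (P : CTree) (x y : Idx P ⊕ Bool) {F : Lab × LSt → ℝ≥0∞} (hF : Measurable F) :
    strI Φ f₀ ε K g ρ te T' P (fun L => F (thL P x y L)) ≤
      ENNReal.ofReal Cf ^ Fintype.card (Idx P) * ∫⁻ z : PhasePoint × Par P, vw Φ ε P T' z *
        (gw b P z * fluxT Φ ε K g ρ te P z fun L => F (thL P x y L)) := by
  unfold strI
  have hC : ENNReal.ofReal Cf ^ Fintype.card (Idx P) ≠ ∞ := ENNReal.pow_ne_top ENNReal.ofReal_ne_top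
  have h1 : ∀ z : PhasePoint × Par P, {z : PhasePoint × Par P | Valid Φ ε P T' z.1.2 z.2}.indicator
      (fun z => wt Φ P z.1.2 z.2 * (ToTree335.pf Φ f₀ ε P z *
        ∫⁻ l, {l : ML | (z, l.1) ∈ OneC423.ctSet Φ ε te P}.indicator
          (fun l => lineD (fun _ => g) ρ K l * (smI K P l * F (thL P x y (oneLs Φ ε P z l)))) l
            ∂(OneC423.baseM (Measure.dirac 0)))) z ≤
      (ENNReal.ofReal (ε ^ 2) * ENNReal.ofReal Cf ^ Fintype.card (Idx P)) * (vw Φ ε P T' z *
        (gw b P z * fluxT Φ ε K g ρ te P z fun L => F (thL P x y L))) := by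
    intro z
    by_cases hz : Valid Φ ε P T' z.1.2 z.2
    · rw [indicator_of_mem (show z ∈ {z : PhasePoint × Par P | Valid Φ ε P T' z.1.2 z.2} from hz),
        vw_of_valid hz]
      have hm : Measurable fun l : ML => F (thL P x y (oneLs Φ ε P z l)) :=
        measurable_lineF hΦ hz.1 x y hF
      rw [Nu0566.lintegral_line_flux (P := P) (K := K) hΦ hε g ρ te 0 z
        (F := fun L => F (thL P x y L)) hm]
      calc wt Φ P z.1.2 z.2 * (ToTree335.pf Φ f₀ ε P z * (ENNReal.ofReal (ε ^ 2) *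
            fluxT Φ ε K g ρ te P z fun L => F (thL P x y L)))
          ≤ wt Φ P z.1.2 z.2 * ((ENNReal.ofReal Cf ^ Fintype.card (Idx P) * gw b P z) *
            (ENNReal.ofReal (ε ^ 2) * fluxT Φ ε K g ρ te P z fun L => F (thL P x y L))) :=
            mul_le_mul_right (mul_le_mul_left (pf_le hΦ hf hz.1) _) _
        _ = _ := by ring
    · rw [indicator_of_notMem (show z ∉ {z : PhasePoint × Par P | Valid Φ ε P T' z.1.2 z.2}
        from hz)]
      exact bot_le
  calc _ ≤ activity ε * ∫⁻ z : PhasePoint × Par P,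
        (ENNReal.ofReal (ε ^ 2) * ENNReal.ofReal Cf ^ Fintype.card (Idx P)) * (vw Φ ε P T' z *
        (gw b P z * fluxT Φ ε K g ρ te P z fun L => F (thL P x y L))) :=
        mul_le_mul_right (lintegral_mono h1) _
    _ = (activity ε * ENNReal.ofReal (ε ^ 2)) * (ENNReal.ofReal Cf ^ Fintype.card (Idx P) *
        ∫⁻ z : PhasePoint × Par P, vw Φ ε P T' z *
          (gw b P z * fluxT Φ ε K g ρ te P z fun L => F (thL P x y L))) := by
        rw [lintegral_const_mul' _ _ (ENNReal.mul_ne_top ENNReal.ofReal_ne_top hC)]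
        ring
    _ = _ := by rw [activity_mul hε, one_mul]

/-! ### The domination -/

/-- Domination of the labelled law of the lines `(x, y)` of a structure. -/
def DomS (Φ : Space3 → ℝ) (B : BPar) (b Cf : ℝ) (P : CTree) (x y : Idx P ⊕ Bool) : Prop :=
  ∃ c : ℝ≥0∞, c ≠ ∞ ∧ ∀ ε T' te : ℝ, 0 < ε → ε ≤ 1 → 0 < te → te ≤ T' → T' ≤ B.T →
    ∀ K : ℕ, P.leaves ≤ K → ∀ Pp : PPar, IsPP B te K Pp → ∀ g : ℝ, B.b₀ ≤ g →
    ∀ f₀ : PhasePoint → ℝ, (∀ z, f₀ z ≤ Cf * Real.exp (-(b * ‖z.2‖ ^ 2))) →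
    ∃ Ξ ν : Measure (Lab × LSt), PX Pp Ξ ν c ∧ Aux ε ν ∧
      ∀ F : Lab × LSt → ℝ≥0∞, Measurable F →
        (∀ p, ¬ (p.1.1.1.1 ≤ te ∧ p.2.1 ≤ te) → F p = 0) →
        strI Φ f₀ ε K g B.ρ te T' P (fun L => F (thL P x y L)) ≤ ∫⁻ p, F p ∂ν

/-- pairs of exits -/
theorem domS_ex (hΦ : AdmissiblePotential Φ) {B : BPar} (hB : B.Ok) (hρ : B.ρ < 1) {b b' Cf : ℝ}
    (hbb : b' < b) {P : CTree} {m m' : Mk P} (h : DomP Φ B b' P m m') :
    DomS Φ B b Cf P (Sum.inl (exIdx m)) (Sum.inl (exIdx m')) := by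
  obtain ⟨c, hc, h⟩ := h
  obtain ⟨C1, hC1, h1⟩ := fluxI_le hB.b0 hρ
  obtain ⟨C2, hC2, h2⟩ := one_add_gw hbb
  set k : ℝ≥0∞ := ENNReal.ofReal Cf ^ Fintype.card (Idx P) * (ENNReal.ofReal B.T * (C1 * C2))
    with hk
  have hCf : ENNReal.ofReal Cf ^ Fintype.card (Idx P) ≠ ∞ :=
    ENNReal.pow_ne_top ENNReal.ofReal_ne_top
  have hk' : ENNReal.ofReal B.T * (C1 * C2) ≠ ∞ :=
    ENNReal.mul_ne_top ENNReal.ofReal_ne_top (ENNReal.mul_ne_top hC1 hC2)
  have hkt : k ≠ ∞ := ENNReal.mul_ne_top hCf hk'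
  refine ⟨k * c, ENNReal.mul_ne_top hkt hc, ?_⟩
  intro ε T' te hε hε1 hte hteT hT K hK Pp hPp g hg f₀ hf
  obtain ⟨Ξ, ν, hPX, hA, hdom⟩ := h ε T' te hε hε1 hte hteT hT K hK Pp hPp
  refine ⟨_, _, PairSrc969.PX.smul hPX k, hA.smul k, fun F hF hF0 => ?_⟩
  refine (strI_le hΦ hε hf K g B.ρ te T' P _ _ hF).trans ?_
  have h3 : ∀ z : PhasePoint × Par P, vw Φ ε P T' z * (gw b P z *
      fluxT Φ ε K g B.ρ te P z fun L => F (thL P (Sum.inl (exIdx m)) (Sum.inl (exIdx m')) L)) ≤
      (ENNReal.ofReal B.T * (C1 * C2)) * (vw Φ ε P T' z * (gw b' P z *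
        F (pairT Φ ε m m' z))) := by
    intro z
    by_cases hz : vw Φ ε P T' z = 0
    · rw [hz, zero_mul]; exact bot_le
    have hA := (valid_of_vw hz).1
    have h4 : fluxT Φ ε K g B.ρ te P z
        (fun L => F (thL P (Sum.inl (exIdx m)) (Sum.inl (exIdx m')) L)) ≤
        ENNReal.ofReal B.T * (C1 * (ENNReal.ofReal (1 + ‖z.1.2‖) * F (pairT Φ ε m m' z))) := by
      unfold fluxT
      calc _ ≤ ∫⁻ _s in Ioc 0 te, C1 * (ENNReal.ofReal (1 + ‖z.1.2‖) * F (pairT Φ ε m m' z)) := by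
            refine lintegral_mono fun s => ?_
            refine (Set.indicator_le_self _ _ s).trans ?_
            exact h1 ε K g hg P z s _ _ fun d n => by rw [thL_ex hA]
        _ = C1 * (ENNReal.ofReal (1 + ‖z.1.2‖) * F (pairT Φ ε m m' z)) *
            ENNReal.ofReal te := by
            rw [setLIntegral_const, Real.volume_Ioc, sub_zero]
        _ ≤ C1 * (ENNReal.ofReal (1 + ‖z.1.2‖) * F (pairT Φ ε m m' z)) *
            ENNReal.ofReal B.T := mul_le_mul_right (ENNReal.ofReal_le_ofReal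
              (hteT.trans hT)) _
        _ = _ := by ring
    calc vw Φ ε P T' z * (gw b P z * fluxT Φ ε K g B.ρ te P z
          fun L => F (thL P (Sum.inl (exIdx m)) (Sum.inl (exIdx m')) L))
        ≤ vw Φ ε P T' z * (gw b P z * (ENNReal.ofReal B.T * (C1 *
          (ENNReal.ofReal (1 + ‖z.1.2‖) * F (pairT Φ ε m m' z))))) :=
          mul_le_mul_right (mul_le_mul_right h4 _) _
      _ = vw Φ ε P T' z * (ENNReal.ofReal B.T * C1 *
          ((ENNReal.ofReal (1 + ‖z.1.2‖) * gw b P z) * F (pairT Φ ε m m' z))) := by ring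
      _ ≤ vw Φ ε P T' z * (ENNReal.ofReal B.T * C1 *
          ((C2 * gw b' P z) * F (pairT Φ ε m m' z))) :=
          mul_le_mul_right (mul_le_mul_right (mul_le_mul_left (h2 P z) _) _) _
      _ = _ := by ring
  calc ENNReal.ofReal Cf ^ Fintype.card (Idx P) * ∫⁻ z : PhasePoint × Par P, vw Φ ε P T' z *
        (gw b P z * fluxT Φ ε K g B.ρ te P z
          fun L => F (thL P (Sum.inl (exIdx m)) (Sum.inl (exIdx m')) L))
      ≤ ENNReal.ofReal Cf ^ Fintype.card (Idx P) * ∫⁻ z : PhasePoint × Par P,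
        (ENNReal.ofReal B.T * (C1 * C2)) * (vw Φ ε P T' z * (gw b' P z *
        F (pairT Φ ε m m' z))) := mul_le_mul_right (lintegral_mono h3) _
    _ = k * ∫⁻ z : PhasePoint × Par P, vw Φ ε P T' z * (gw b' P z *
        F (pairT Φ ε m m' z)) := by
        rw [lintegral_const_mul' _ _ hk', hk]
        ring
    _ ≤ k * ∫⁻ p, F p ∂ν := mul_le_mul_right (hdom F hF hF0) _
    _ = ∫⁻ p, F p ∂(k • ν) := by rw [lintegral_smul_measure, smul_eq_mul]

/-- pairs (exit, line of the last contact) -/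
theorem domS_ct (hΦ : AdmissiblePotential Φ) {B : BPar} {b Cf : ℝ} {P : CTree} {m : Mk P}
    {y : Idx P ⊕ Bool} (hy : sigB P (Sum.inl (exIdx m)) y = true) (h : DomC Φ B b P m y) :
    DomS Φ B b Cf P (Sum.inl (exIdx m)) y := by
  obtain ⟨c, hc, h⟩ := h
  set k : ℝ≥0∞ := ENNReal.ofReal Cf ^ Fintype.card (Idx P) with hk
  have hkt : k ≠ ∞ := ENNReal.pow_ne_top ENNReal.ofReal_ne_top
  refine ⟨k * c, ENNReal.mul_ne_top hkt hc, ?_⟩
  intro ε T' te hε hε1 hte hteT hT K hK Pp hPp g hg f₀ hf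
  obtain ⟨Ξ, ν, hPX, hA, hdom⟩ := h ε T' te hε hε1 hte hteT hT K hK Pp hPp g hg
  refine ⟨_, _, PairSrc969.PX.smul hPX k, hA.aux.smul k, fun F hF hF0 => ?_⟩
  refine (strI_le hΦ hε hf K g B.ρ te T' P _ _ hF).trans ?_
  calc ENNReal.ofReal Cf ^ Fintype.card (Idx P) * ∫⁻ z : PhasePoint × Par P, vw Φ ε P T' z *
        (gw b P z * fluxT Φ ε K g B.ρ te P z fun L => F (thL P (Sum.inl (exIdx m)) y L))
      = k * ∫⁻ z : PhasePoint × Par P, vw Φ ε P T' z * (gw b P z *
          ∫⁻ s in Ioc 0 te, {s | s ≤ te ∧ Valid Φ ε P s z.1.2 z.2}.indicator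
            (fun s => fluxI Φ ε K g B.ρ P z s fun L => F (pairC m y L)) s) := by
        simp only [thL_ct m hy]
        rfl
    _ ≤ k * ∫⁻ p, F p ∂ν := mul_le_mul_right (hdom F hF hF0) _
    _ = ∫⁻ p, F p ∂(k • ν) := by rw [lintegral_smul_measure, smul_eq_mul]

/-- **Domination of all pairs** from `DomP` and `DomC`. -/
theorem base_dom_of (hΦ : AdmissiblePotential Φ) {B : BPar} (hB : B.Ok)
    (hρ : B.ρ < 1) {b : ℝ} (hb : B.bs < b) (Cf : ℝ) {P : CTree}
    (hP : ∀ m m' : Mk P, m ≠ m' → fwd m m' = false → ∀ b' : ℝ, B.bs < b' → DomP Φ B b' P m m')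
    (hC : ∀ (m : Mk P) (y : Idx P ⊕ Bool), (y = Sum.inl (root P) ∨ ∃ β : Bool, y = Sum.inr β) →
      DomC Φ B b P m y)
    {x y : Idx P ⊕ Bool} (hx : x ∈ exS P) (hy : y ≠ x) : DomS Φ B b Cf P x y := by
  obtain ⟨i, hi, rfl⟩ := Finset.mem_map.1 hx
  have hi' : i ≠ root P := (Finset.mem_filter.1 hi).2
  obtain ⟨m, rfl⟩ := exIdx_surj P i hi'
  rcases y with j | β
  · by_cases hj : j = root P
    · rw [hj]
      exact domS_ct hΦ (sigB_root _) (hC m _ (Or.inl rfl))
    · obtain ⟨m', rfl⟩ := exIdx_surj P j hj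
      have hmm : m ≠ m' := fun h => hy (by rw [h]; rfl)
      have hb1 : B.bs < (B.bs + b) / 2 := by linarith
      have hb2 : (B.bs + b) / 2 < b := by linarith
      refine domS_ex hΦ hB hρ hb2 ?_
      by_cases hf : fwd m m' = true
      · exact domP_fwd hΦ hB m m' hf hb1
      · exact hP m m' hmm (by simpa using hf) _ hb1
  · exact domS_ct hΦ (sigB_inr _ β) (hC m _ (Or.inr ⟨β, rfl⟩))

end Crest.Agent.R122.Mark307

end
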