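import Crest.Agent.R122.NuLA_735

/-!
# Row 122 (helper735), the base pair law `nuL` : definitions

Structures `(z, (y, n))` : a tree `(P, z)` and a free test line `((0, y), n)` born at time `0`.

* `linesE`, `zE` : time-`0` states of the structure, measurable and translation equivariant, equal to
  `lines` on the admissible trees.
* `thE` : the labelled pair of the lines `x`, `y`; `mS` : structure measure with Gaussian weights;
  `mP`, `nuP` : restricted to the structures with a separated tree whose lines `x`, `y` are born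
  before `te`; `nuL` : sum.
* `nuL_tr` : translation invariance.
-/

set_option autoImplicit false
set_option maxHeartbeats 400000
set_option linter.unusedSectionVars false

open MeasureTheory Set Filter
open scoped ENNReal Classical Topology
open Crest.AnalysisR.Kinetic
open Crest.Agent.R122.Kin796 Crest.Agent.R122.Kin796.CTree Crest.Agent.R122.Tree674
open Crest.Agent.R122.GC311 Crest.Agent.R122.EDefs602 Crest.Agent.R122.TreeLines335
open Crest.Agent.R122.OneC285 Crest.Agent.R122.Disc416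
open Crest.Agent.R122.Boost969 (LSt)
open Crest.Agent.R122.Pair292 (Lab shL shM shP)
open Crest.Agent.R122.Nu0566 (oneLsM oneLsM_of_adm measurable_oneLsM strD measurable_strD strM)

noncomputable section

namespace Crest.Agent.R122.NuL735

variable {Φ : Space3 → ℝ} {f₀ : PhasePoint → ℝ} {ε : ℝ} {K : ℕ} {P : CTree}

theorem measurable_oneLsM2 (hΦ : AdmissiblePotential Φ) (ε : ℝ) (x : Idx P ⊕ Bool) {δ : Type*}
    [MeasurableSpace δ] {f : δ → PhasePoint × Par P} {g : δ → ML} (hf : Measurable f)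
    (hg : Measurable g) : Measurable fun q : δ => oneLsM Φ ε P (f q) (g q) x := by
  have h := (measurable_oneLsM hΦ ε P x).comp (hf.prodMk hg)
  exact h

theorem measurable_oneE (hΦ : AdmissiblePotential Φ) (ε : ℝ) (x : Idx P ⊕ Bool) :
    Measurable fun q : Th P => oneE Φ ε q x := by
  have h1 : Measurable fun q : Th P => (TrS (-q.1.1.1) q).1 := measurable_TrS_neg.fst
  have h2 : Measurable fun q : Th P => lnO (TrS (-q.1.1.1) q).2 :=
    measurable_lnO.comp measurable_TrS_neg.snd
  have h3 := measurable_oneLsM2 hΦ ε x h1 h2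
  have h4 : Measurable fun q : Th P => q.1.1.1 := measurable_fst.fst.fst
  have h5 := measurable_shM_joint.comp (h4.prodMk h3)
  exact h5

/-- Time-`0` states of the tree, equivariant version. -/
def linesE (Φ : Space3 → ℝ) (ε : ℝ) (z : PhasePoint × Par P) (i : Idx P) : PhasePoint :=
  ((linesM Φ ε P (trZ (-z.1.1) z).1 z.2 i).1 + z.1.1, (linesM Φ ε P (trZ (-z.1.1) z).1 z.2 i).2)

theorem linesE_tr (ε : ℝ) (a : Space3) (z : PhasePoint × Par P) (i : Idx P) :
    linesE Φ ε (trZ a z) i = ((linesE Φ ε z i).1 + a, (linesE Φ ε z i).2) := by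
  have h1 : (trZ (-(trZ a z).1.1) (trZ a z)).1 = (trZ (-z.1.1) z).1 := by
    unfold trZ
    refine Prod.ext ?_ rfl
    simp
  unfold linesE
  rw [h1]
  refine Prod.ext ?_ rfl
  show _ + (z.1.1 + a) = _
  simp only [add_assoc]
  rfl

theorem linesE_of_adm {z : PhasePoint × Par P} (h : Adm Φ P z.1.2 z.2) (i : Idx P) :
    linesE Φ ε z i = lines Φ ε P z.1 z.2 i := by
  have h0 : Adm Φ P (trZ (-z.1.1) z).1.2 z.2 := h
  unfold linesE
  rw [linesM_of_adm ε h0]
  have h1 := lines_tr (Φ := Φ) ε P (trZ (-z.1.1) z).1 z.2 i z.1.1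
  rw [← h1]
  congr 1
  unfold trZ
  simp

theorem measurable_linesE (hΦ : AdmissiblePotential Φ) (ε : ℝ) :
    Measurable fun z : PhasePoint × Par P => linesE Φ ε z := by
  refine measurable_pi_iff.2 fun i => ?_
  have h0 : Measurable fun z : PhasePoint × Par P =>
      (((trZ (-z.1.1) z).1, z.2) : PhasePoint × Par P) := by
    unfold trZ
    fun_prop
  have h1 : Measurable fun z : PhasePoint × Par P => linesM Φ ε P (trZ (-z.1.1) z).1 z.2 i :=
    (measurable_pi_apply i).comp ((measurable_linesM hΦ ε P).comp h0)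
  unfold linesE
  exact (h1.fst.add (by fun_prop)).prodMk h1.snd

/-- Time-`0` states of the structure. -/
def zE (Φ : Space3 → ℝ) (ε : ℝ) (q : Th P) : Idx P ⊕ Unit → PhasePoint :=
  Sum.elim (linesE Φ ε q.1) fun _ => q.2.1

theorem zE_tr (ε : ℝ) (a : Space3) (q : Th P) : zE Φ ε (TrS a q) = LN2.shX a (zE Φ ε q) := by
  funext x
  rw [LN2.shX_apply]
  rcases x with i | u
  · exact linesE_tr ε a q.1 i
  · rfl

theorem measurable_zE (hΦ : AdmissiblePotential Φ) (ε : ℝ) :
    Measurable fun q : Th P => zE Φ ε q := by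
  refine measurable_pi_iff.2 fun x => ?_
  rcases x with i | u
  · exact (measurable_pi_apply i).comp ((measurable_linesE hΦ ε).comp measurable_fst)
  · exact (measurable_fst.comp measurable_snd)

/-- **The labelled pair** of the lines `x`, `y` : the turning time is the birth of `x` (`σ = true`, the
line `y` is on the forward path of `x`) or the birth of `y`. -/
def thE (Φ : Space3 → ℝ) (ε : ℝ) (σ : Bool) (x y : Idx P ⊕ Bool) (q : Th P) : Lab × LSt :=
  ((oneE Φ ε q x, (if σ then (oneE Φ ε q x).1.1 else (oneE Φ ε q y).1.1, (oneE Φ ε q y).2)),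
    (oneE Φ ε q y).1)

theorem thE_tr (ε : ℝ) (σ : Bool) (x y : Idx P ⊕ Bool) (a : Space3) (q : Th P) :
    thE Φ ε σ x y (TrS a q) = shP a (thE Φ ε σ x y q) := by
  unfold thE
  rw [oneE_tr, oneE_tr]
  rfl

theorem measurable_thE (hΦ : AdmissiblePotential Φ) (ε : ℝ) (σ : Bool) (x y : Idx P ⊕ Bool) :
    Measurable (thE Φ ε σ x y : Th P → Lab × LSt) := by
  have hx := measurable_oneE hΦ ε x
  have hy := measurable_oneE hΦ ε y
  unfold thE
  refine (hx.prodMk (Measurable.prodMk ?_ hy.snd)).prodMk hy.fst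
  cases σ
  · exact hy.fst.fst
  · exact hx.fst.fst

/-! ### The structure measure -/

/-- Gaussian profile. -/
def gP (Cf b : ℝ) (z : PhasePoint) : ℝ := Cf * Real.exp (-(b * ‖z.2‖ ^ 2))

theorem measurable_gP (Cf b : ℝ) : Measurable (gP Cf b) := by unfold gP; fun_prop

/-- Parameters of the base law. -/
structure NPar where
  /-- constant of the Gaussian profile -/
  Cf : ℝ
  /-- rate of the Gaussian profile -/
  b : ℝ
  /-- rate of the test line -/
  γe : ℝ
  /-- geometric factor of the marks -/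
  ρ : ℝ≥0∞
  /-- end of the window -/
  te : ℝ
  /-- horizon -/
  T' : ℝ
  /-- number of leaves -/
  m₀ : ℕ
  /-- labels: turning time = birth of the first line -/
  σ : ∀ P : CTree, Idx P ⊕ Bool → Idx P ⊕ Bool → Bool

/-- Reference measure. -/
def refM (P : CTree) : Measure (Th P) :=
  (volume : Measure (PhasePoint × Par P)).prod ((volume : Measure PhasePoint).prod Measure.count)

instance instSFiniteRefM (P : CTree) : SFinite (refM P) := by unfold refM; infer_instance

/-- Density of the structures. -/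
def dS (Φ : Space3 → ℝ) (ε : ℝ) (K : ℕ) (N : NPar) (P : CTree) (q : Th P) : ℝ≥0∞ :=
  strD Φ (gP N.Cf N.b) ε K (fun _ => N.γe) N.ρ N.te N.T' P (q.1, lnO q.2)

theorem measurable_dS (hΦ : AdmissiblePotential Φ) (ε : ℝ) (K : ℕ) (N : NPar) (P : CTree) :
    Measurable (dS Φ ε K N P) :=
  (measurable_strD hΦ (measurable_gP _ _) ε K measurable_const N.ρ N.te N.T' P).comp
    (measurable_fst.prodMk (measurable_lnO.comp measurable_snd))

/-- Structure measure. -/
def mS (Φ : Space3 → ℝ) (ε : ℝ) (K : ℕ) (N : NPar) (P : CTree) : Measure (Th P) :=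
  activity ε • (refM P).withDensity (dS Φ ε K N P)

instance instSFiniteMS (N : NPar) : SFinite (mS Φ ε K N P) := by unfold mS; infer_instance

/-- Structures whose lines `x`, `y` are born before `te`. -/
def bdE (Φ : Space3 → ℝ) (ε te : ℝ) (x y : Idx P ⊕ Bool) : Set (Th P) :=
  {q | (oneE Φ ε q x).1.1 ≤ te ∧ (oneE Φ ε q y).1.1 ≤ te}

theorem measurableSet_bdE (hΦ : AdmissiblePotential Φ) (ε te : ℝ) (x y : Idx P ⊕ Bool) :
    MeasurableSet (bdE Φ ε te x y : Set (Th P)) :=
  (measurableSet_le (measurable_oneE hΦ ε x).fst.fst measurable_const).inter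
    (measurableSet_le (measurable_oneE hΦ ε y).fst.fst measurable_const)

/-- Structures with a separated tree. -/
def sepE (Φ : Space3 → ℝ) (ε T' : ℝ) (P : CTree) : Set (Th P) :=
  {q | 0 < ε → q.1 ∈ TreeLim974.goodS Φ ε P T'}

theorem measurableSet_sepE (hΦ : AdmissiblePotential Φ) (ε T' : ℝ) (P : CTree) :
    MeasurableSet (sepE Φ ε T' P) := by
  by_cases hε : 0 < ε
  · have h : sepE Φ ε T' P = Prod.fst ⁻¹' TreeLim974.goodS Φ ε P T' := by
      ext q
      exact ⟨fun h => h hε, fun h _ => h⟩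
    rw [h]
    exact measurable_fst (TreeLim974.measurableSet_goodS hΦ hε P T')
  · have h : sepE Φ ε T' P = univ := by
      ext q
      exact ⟨fun _ => trivial, fun _ h => absurd h hε⟩
    rw [h]
    exact MeasurableSet.univ

theorem sep_tr (ε T : ℝ) (a : Space3) (z : PhasePoint × Par P) :
    Sep Φ ε P T (trZ a z).1 (trZ a z).2 ↔ Sep Φ ε P T z.1 z.2 := by
  have h := Generic491.sep_boost (Φ := Φ) (ε := ε) P T a 0 z.1 z.2
  rw [Generic491.boostP_zero] at h
  have e : Generic491.shL a 0 z.1 = (trZ a z).1 := by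
    unfold Generic491.shL trZ
    rw [add_zero]
  rw [e] at h
  exact h

theorem mem_sepE_tr (ε T' : ℝ) (a : Space3) (q : Th P) :
    TrS a q ∈ sepE Φ ε T' P ↔ q ∈ sepE Φ ε T' P := by
  have h : (TrS a q).1 ∈ TreeLim974.goodS Φ ε P T' ↔ q.1 ∈ TreeLim974.goodS Φ ε P T' :=
    and_congr Iff.rfl (sep_tr ε T' a q.1)
  exact imp_congr Iff.rfl h

/-- Structure measure of the pair `x`, `y`. -/
def mP (Φ : Space3 → ℝ) (ε : ℝ) (K : ℕ) (N : NPar) (P : CTree) (x y : Idx P ⊕ Bool) :
    Measure (Th P) := (mS Φ ε K N P).restrict (bdE Φ ε N.te x y ∩ sepE Φ ε N.T' P)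


instance instSFiniteMP (N : NPar) (x y : Idx P ⊕ Bool) : SFinite (mP Φ ε K N P x y) := by
  unfold mP; infer_instance

/-- Law of the labelled pair `x`, `y`. -/
def nuP (Φ : Space3 → ℝ) (ε : ℝ) (K : ℕ) (N : NPar) (P : CTree) (x y : Idx P ⊕ Bool) :
    Measure (Lab × LSt) := (mP Φ ε K N P x y).map (thE Φ ε (N.σ P x y) x y)

instance instSFiniteNuP (N : NPar) (x y : Idx P ⊕ Bool) : SFinite (nuP Φ ε K N P x y) := by
  unfold nuP; infer_instance

/-- **The base pair law.** -/
def nuL (Φ : Space3 → ℝ) (ε : ℝ) (K : ℕ) (N : NPar) : Measure (Lab × LSt) :=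
  Measure.sum fun P : CTree => if P.leaves ≤ N.m₀ then
    ∑ x ∈ exS P, ∑ y ∈ Finset.univ.erase x, nuP Φ ε K N P x y else 0

instance instSFiniteNuL (N : NPar) : SFinite (nuL Φ ε K N) := by
  unfold nuL
  have : ∀ P : CTree, SFinite (if P.leaves ≤ N.m₀ then ∑ x ∈ exS P, ∑ y ∈ Finset.univ.erase x,
      nuP Φ ε K N P x y else 0) := by
    intro P
    split_ifs
    · exact Nu0566.sfinite_finset_sum _ fun x => Nu0566.sfinite_finset_sum _ fun y => inferInstance
    · infer_instance
  infer_instance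

theorem lintegral_mS (hΦ : AdmissiblePotential Φ) (N : NPar) {F : Th P → ℝ≥0∞}
    (hF : Measurable F) : ∫⁻ q, F q ∂(mS Φ ε K N P) =
      activity ε * ∫⁻ q, dS Φ ε K N P q * F q ∂(refM P) := by
  unfold mS
  rw [lintegral_smul_measure, smul_eq_mul,
    lintegral_withDensity_eq_lintegral_mul _ (measurable_dS hΦ ε K N P) hF]
  rfl

theorem lintegral_nuP (hΦ : AdmissiblePotential Φ) (N : NPar) (x y : Idx P ⊕ Bool)
    {F : Lab × LSt → ℝ≥0∞} (hF : Measurable F) :
    ∫⁻ p, F p ∂(nuP Φ ε K N P x y) = ∫⁻ q, F (thE Φ ε (N.σ P x y) x y q) ∂(mP Φ ε K N P x y) := by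
  unfold nuP
  rw [lintegral_map hF (measurable_thE hΦ ε _ x y)]

theorem lintegral_nuL (N : NPar) (F : Lab × LSt → ℝ≥0∞) :
    ∫⁻ p, F p ∂(nuL Φ ε K N) = ∑' P : CTree, if P.leaves ≤ N.m₀ then
      ∑ x ∈ exS P, ∑ y ∈ Finset.univ.erase x, ∫⁻ p, F p ∂(nuP Φ ε K N P x y) else 0 := by
  unfold nuL
  rw [lintegral_sum_measure]
  refine tsum_congr fun P => ?_
  split_ifs
  · rw [lintegral_finsetSum_measure]
    refine Finset.sum_congr rfl fun x _ => ?_
    rw [lintegral_finsetSum_measure]
  · exact lintegral_zero_measure _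

/-! ### Translation invariance -/

theorem pfM_gP_tr (Cf b : ℝ) (a : Space3) {z : PhasePoint × Par P} (h : Adm Φ P z.1.2 z.2) :
    ToTree335.pfM Φ (gP Cf b) ε P (trZ a z) = ToTree335.pfM Φ (gP Cf b) ε P z := by
  have h0 : Adm Φ P (trZ a z).1.2 (trZ a z).2 := h
  rw [ToTree335.pfM_of_adm h0, ToTree335.pfM_of_adm h]
  unfold ToTree335.pf
  refine Finset.prod_congr rfl fun i _ => ?_
  have h1 := lines_tr (Φ := Φ) ε P z.1 z.2 i a
  show ENNReal.ofReal (gP Cf b (lines Φ ε P (z.1.1 + a, z.1.2) z.2 i)) = _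
  rw [h1]
  rfl

theorem goodS_tr (te T' : ℝ) (a : Space3) (q : Th P) :
    ((TrS a q).1, lnO (TrS a q).2) ∈ Nu0566.goodS Φ ε te T' K P ↔
      (q.1, lnO q.2) ∈ Nu0566.goodS Φ ε te T' K P := by
  have h1 : OneC423.relL (trZ a q.1).1 (shM a (lnO q.2)).1 = OneC423.relL q.1.1 (lnO q.2).1 := by
    unfold OneC423.relL trZ shM shL back
    refine Prod.ext ?_ rfl
    simp only
    abel
  have h2 : ((trZ a q.1), (shM a (lnO q.2)).1) ∈ OneC423.ctSet Φ ε te P ↔
      (q.1, (lnO q.2).1) ∈ OneC423.ctSet Φ ε te P := by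
    unfold OneC423.ctSet
    show (_ ∧ _ ∧ _ ∧ _ ∧ _) ↔ (_ ∧ _ ∧ _ ∧ _ ∧ _)
    rw [h1]
    rfl
  exact and_congr Iff.rfl (and_congr h2 Iff.rfl)

theorem dS_tr (N : NPar) (a : Space3) (q : Th P) : dS Φ ε K N P (TrS a q) = dS Φ ε K N P q := by
  unfold dS strD
  by_cases h : (q.1, lnO q.2) ∈ Nu0566.goodS Φ ε N.te N.T' K P
  · rw [indicator_of_mem h, indicator_of_mem ((goodS_tr N.te N.T' a q).2 h)]
    have h1 := pfM_gP_tr (ε := ε) N.Cf N.b a (z := q.1) h.1.1
    show wtM Φ P q.1.1.2 q.1.2 * (ToTree335.pfM Φ (gP N.Cf N.b) ε P (trZ a q.1) *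
      lineD (fun _ => N.γe) N.ρ K (shM a (lnO q.2))) = _
    rw [h1]
    rfl
  · rw [indicator_of_notMem h, indicator_of_notMem fun h' => h ((goodS_tr N.te N.T' a q).1 h')]

theorem measurePreserving_TrS (a : Space3) :
    MeasurePreserving (TrS a : Th P → Th P) (refM P) (refM P) := by
  have h1 : MeasurePreserving (fun z : PhasePoint => ((z.1 + a, z.2) : PhasePoint)) volume volume := by
    have h := measurePreserving_add_right (volume : Measure PhasePoint) ((a, 0) : PhasePoint)
    have e : (fun z : PhasePoint => ((z.1 + a, z.2) : PhasePoint)) = fun z => z + (a, 0) := by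
      funext z
      refine Prod.ext rfl ?_
      show z.2 = z.2 + 0
      rw [add_zero]
    rwa [e]
  have h2 : MeasurePreserving (trZ a : PhasePoint × Par P → PhasePoint × Par P) volume volume :=
    h1.prod (MeasurePreserving.id _)
  exact h2.prod (h1.prod (MeasurePreserving.id _))

theorem lintegral_refM_tr (a : Space3) {F : Th P → ℝ≥0∞} (hF : Measurable F) :
    ∫⁻ q, F (TrS a q) ∂(refM P) = ∫⁻ q, F q ∂(refM P) :=
  (measurePreserving_TrS a).lintegral_comp hF

theorem mS_tr (hΦ : AdmissiblePotential Φ) (N : NPar) (a : Space3) :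
    (mS Φ ε K N P).map (TrS a) = mS Φ ε K N P := by
  have hT : Measurable (TrS a : Th P → Th P) := measurable_TrS.comp measurable_prodMk_left
  refine Measure.ext_of_lintegral _ fun F hF => ?_
  rw [lintegral_map hF hT, lintegral_mS hΦ N (F := fun q => F (TrS a q)) (hF.comp hT),
    lintegral_mS hΦ N hF]
  congr 1
  have h1 := lintegral_refM_tr a ((measurable_dS hΦ ε K N P).mul hF)
  simp only [Pi.mul_apply, dS_tr] at h1
  exact h1

theorem mem_bdE_tr (te : ℝ) (x y : Idx P ⊕ Bool) (a : Space3) (q : Th P) :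
    TrS a q ∈ bdE Φ ε te x y ↔ q ∈ bdE Φ ε te x y := by
  unfold bdE
  show (_ ∧ _) ↔ (_ ∧ _)
  rw [oneE_tr, oneE_tr]
  rfl

theorem mP_tr (hΦ : AdmissiblePotential Φ) (N : NPar) (x y : Idx P ⊕ Bool) (a : Space3) :
    (mP Φ ε K N P x y).map (TrS a) = mP Φ ε K N P x y := by
  have hT : Measurable (TrS a : Th P → Th P) := measurable_TrS.comp measurable_prodMk_left
  unfold mP
  have h1 : bdE Φ ε N.te x y ∩ sepE Φ ε N.T' P =
      (TrS a : Th P → Th P) ⁻¹' (bdE Φ ε N.te x y ∩ sepE Φ ε N.T' P) := by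
    ext q
    exact (and_congr (mem_bdE_tr N.te x y a q) (mem_sepE_tr ε N.T' a q)).symm
  conv_lhs => rw [h1]
  rw [← Measure.restrict_map hT ((measurableSet_bdE hΦ ε N.te x y).inter
    (measurableSet_sepE hΦ ε N.T' P)), mS_tr hΦ]

theorem nuP_tr (hΦ : AdmissiblePotential Φ) (N : NPar) (x y : Idx P ⊕ Bool) (a : Space3) :
    (nuP Φ ε K N P x y).map (shP a) = nuP Φ ε K N P x y := by
  have hT : Measurable (TrS a : Th P → Th P) := measurable_TrS.comp measurable_prodMk_left
  have hth := measurable_thE (P := P) hΦ ε (N.σ P x y) x y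
  unfold nuP
  rw [Measure.map_map (Pair292.measurable_shP a) hth]
  conv_rhs => rw [← mP_tr hΦ N x y a, Measure.map_map hth hT]
  congr 1
  funext q
  exact (thE_tr ε _ x y a q).symm

/-- **The base law is translation invariant.** -/
theorem nuL_tr (hΦ : AdmissiblePotential Φ) (N : NPar) (a : Space3) :
    (nuL Φ ε K N).map (shP a) = nuL Φ ε K N := by
  refine Measure.ext_of_lintegral _ fun F hF => ?_
  rw [lintegral_map hF (Pair292.measurable_shP a), lintegral_nuL, lintegral_nuL]
  refine tsum_congr fun P => ?_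
  split_ifs
  · refine Finset.sum_congr rfl fun x _ => Finset.sum_congr rfl fun y _ => ?_
    rw [← lintegral_map hF (Pair292.measurable_shP a), nuP_tr hΦ]
  · rfl


end Crest.Agent.R122.NuL735

end
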