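import Crest.Agent.R122.Weight_984

/-!
# Touched mass with real times: Stieltjes inequalities and comparison of worlds (row 122, H8)

`ν` = measure on the marked lines, `θ ω` = touch time of the line `ω` in a world `Z`.

* `XR ν θ s = ν {θ ≤ s}`, `XRm ν θ s = ν {θ < s}`.
* `stieltjes_lt`, `stieltjes_le` : inclusive weight at the touch time, **no hypothesis on atoms**.
* `Cons` : the touch times of two worlds `Z`, `Z + A` agree before `θ₀ = θ(Z, A)` for the lines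
  outside the link set `N`, with the one-sided closed end-point (3.1').
* `Cons.W_Xm_le`, `Cons.W_X_le` ... : additive comparison of the weights, error `L * ν N`.
* `stieltjes_second` : the form consumed by SP-A and SP-B.
-/

set_option autoImplicit false
set_option linter.unusedSectionVars false

open MeasureTheory Set Filter
open scoped ENNReal Topology

namespace Crest.Agent.R122.Weight984

/-! ## Additive comparison of weights -/

/-- If `x ≤ y + n` then `W L y ≤ W L x + L * n`. -/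
theorem W_le_add {L : ℝ} (hL : 0 < L) {x y n : ℝ≥0∞} (h : x ≤ y + n) :
    W L y ≤ W L x + ENNReal.ofReal L * n := by
  rcases eq_or_ne y ∞ with rfl | hy
  · simp [W_top]
  rcases eq_or_ne n ∞ with rfl | hn
  · rw [ENNReal.mul_top (by simpa using hL)]; simp
  have hyn : y + n ≠ ∞ := ENNReal.add_ne_top.2 ⟨hy, hn⟩
  have hx : x ≠ ∞ := ne_top_of_le_ne_top hyn h
  have hx0 : 0 ≤ x.toReal := ENNReal.toReal_nonneg
  have hy0 : 0 ≤ y.toReal := ENNReal.toReal_nonneg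
  have hn0 : 0 ≤ n.toReal := ENNReal.toReal_nonneg
  have h1 := ENNReal.toReal_mono hyn h
  rw [ENNReal.toReal_add hy hn] at h1
  have e1 : ENNReal.ofReal L * n = ENNReal.ofReal (L * n.toReal) := by
    rw [ENNReal.ofReal_mul hL.le, ENNReal.ofReal_toReal hn]
  rw [W_of_ne hx, W_of_ne hy, e1, ← ENNReal.ofReal_add (Real.exp_pos _).le (by positivity)]
  refine ENNReal.ofReal_le_ofReal ?_
  generalize x.toReal = X at *
  generalize y.toReal = Y at *
  generalize n.toReal = N at *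
  have hLN : 0 ≤ L * N := mul_nonneg hL.le hn0
  have h2 : Real.exp (-(L * Y)) * Real.exp (-(L * N)) ≤ Real.exp (-(L * X)) := by
    rw [← Real.exp_add]
    exact Real.exp_le_exp.2 (by nlinarith)
  have h3 : 1 - L * N ≤ Real.exp (-(L * N)) := by
    have := Real.add_one_le_exp (-(L * N)); linarith
  have h4 : Real.exp (-(L * Y)) ≤ 1 := by
    rw [← Real.exp_zero]; exact Real.exp_le_exp.2 (by nlinarith)
  have h5 := Real.exp_pos (-(L * Y))
  have h6 : Real.exp (-(L * Y)) * (1 - L * N) ≤ Real.exp (-(L * Y)) * Real.exp (-(L * N)) :=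
    mul_le_mul_of_nonneg_left h3 h5.le
  nlinarith [mul_nonneg hLN (sub_nonneg.2 h4)]


/-! ## Touched mass with real times -/

section real

variable {Ω : Type*} [MeasurableSpace Ω]

/-- Touched mass at time `s`. -/
noncomputable def XR (ν : Measure Ω) (θ : Ω → ℝ) (s : ℝ) : ℝ≥0∞ := ν {ω | θ ω ≤ s}

/-- Touched mass before time `s`. -/
noncomputable def XRm (ν : Measure Ω) (θ : Ω → ℝ) (s : ℝ) : ℝ≥0∞ := ν {ω | θ ω < s}

variable {ν : Measure Ω} {θ θ' : Ω → ℝ}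

theorem XR_mono : Monotone (XR ν θ) := fun _ _ h => measure_mono fun _ hω => le_trans hω h

theorem XRm_mono : Monotone (XRm ν θ) :=
  fun _ _ h => measure_mono fun _ hω => lt_of_lt_of_le hω h

theorem XRm_le_XR (s : ℝ) : XRm ν θ s ≤ XR ν θ s := by
  unfold XRm XR
  exact measure_mono fun ω hω => le_of_lt (show θ ω < s from hω)

theorem XR_le_XRm {s s' : ℝ} (h : s < s') : XR ν θ s ≤ XRm ν θ s' :=
  measure_mono fun _ hω => lt_of_le_of_lt hω h

theorem XR_eq_X (s : ℝ) : XR ν θ s = X ν (fun ω => (θ ω : EReal)) (s : EReal) := by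
  unfold XR X
  simp only [EReal.coe_le_coe_iff]




/-- **Stieltjes inequality**, strict lower end, inclusive weight, no hypothesis on atoms. -/
theorem stieltjes_lt {L : ℝ} (hL : 0 < L) (ν : Measure Ω) [SFinite ν] {θ : Ω → ℝ}
    (hθ : Measurable θ) (s₁ : ℝ) :
    ∫⁻ ω in {ω | s₁ < θ ω}, W L (XR ν θ (θ ω)) ∂ν ≤ ENNReal.ofReal (1 / L) * W L (XR ν θ s₁) := by
  have h := lintegral_W_X_le hL ν (θ := fun ω => (θ ω : EReal)) (measurable_coe_real_ereal.comp hθ)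
    (s₁ : EReal)
  simpa only [XR_eq_X, EReal.coe_lt_coe_iff] using h




/-! ## Consistency between two worlds -/

/-- The touch times `θ` (world `Z`) and `θ'` (world `Z + A`) agree before `θ₀ = θ(Z, A)` for the
lines outside the link set `N`; at the closed end-point `θ₀` a line which has touched in `Z` has
touched in `Z + A`. -/
structure Cons (θ θ' : Ω → ℝ) (θ₀ : ℝ) (N : Set Ω) : Prop where
  iff_lt : ∀ ω, ω ∉ N → ∀ s, s < θ₀ → (θ ω ≤ s ↔ θ' ω ≤ s)
  closed : ∀ ω, ω ∉ N → θ ω ≤ θ₀ → θ' ω ≤ θ₀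

namespace Cons

variable {θ₀ : ℝ} {N : Set Ω}

theorem lt_iff (h : Cons θ θ' θ₀ N) {ω : Ω} (hω : ω ∉ N) {s : ℝ} (hs : s ≤ θ₀) :
    θ ω < s ↔ θ' ω < s := by
  constructor
  · intro h1
    obtain ⟨r, hr1, hr2⟩ := exists_between h1
    exact lt_of_le_of_lt ((h.iff_lt ω hω r (lt_of_lt_of_le hr2 hs)).1 hr1.le) hr2
  · intro h1
    obtain ⟨r, hr1, hr2⟩ := exists_between h1
    exact lt_of_le_of_lt ((h.iff_lt ω hω r (lt_of_lt_of_le hr2 hs)).2 hr1.le) hr2

theorem mono_time (h : Cons θ θ' θ₀ N) {θ₁ : ℝ} (h1 : θ₁ ≤ θ₀) : Cons θ θ' θ₁ N where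
  iff_lt ω hω s hs := h.iff_lt ω hω s (lt_of_lt_of_le hs h1)
  closed ω hω hle := by
    rcases lt_or_eq_of_le h1 with h2 | h2
    · exact (h.iff_lt ω hω θ₁ h2).1 hle
    · subst h2; exact h.closed ω hω hle

theorem mono_set (h : Cons θ θ' θ₀ N) {N' : Set Ω} (hN : N ⊆ N') : Cons θ θ' θ₀ N' where
  iff_lt ω hω := h.iff_lt ω fun h' => hω (hN h')
  closed ω hω := h.closed ω fun h' => hω (hN h')

theorem refl (θ : Ω → ℝ) (θ₀ : ℝ) (N : Set Ω) : Cons θ θ θ₀ N :=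
  ⟨fun _ _ _ _ => Iff.rfl, fun _ _ h => h⟩

theorem trans {θ'' : Ω → ℝ} {N' : Set Ω} (h : Cons θ θ' θ₀ N) (h' : Cons θ' θ'' θ₀ N') :
    Cons θ θ'' θ₀ (N ∪ N') where
  iff_lt ω hω s hs := (h.iff_lt ω (fun h1 => hω (Or.inl h1)) s hs).trans
    (h'.iff_lt ω (fun h1 => hω (Or.inr h1)) s hs)
  closed ω hω hle := h'.closed ω (fun h1 => hω (Or.inr h1))
    (h.closed ω (fun h1 => hω (Or.inl h1)) hle)

private theorem measure_le {A B N : Set Ω} (h : ∀ ω, ω ∉ N → ω ∈ A → ω ∈ B) :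
    ν A ≤ ν B + ν N := by
  refine le_trans (measure_mono fun ω hω => ?_) (measure_union_le B N)
  by_cases hN : ω ∈ N
  · exact Or.inr hN
  · exact Or.inl (h ω hN hω)

theorem XRm_le (h : Cons θ θ' θ₀ N) {s : ℝ} (hs : s ≤ θ₀) :
    XRm ν θ s ≤ XRm ν θ' s + ν N := measure_le fun _ hω h1 => (h.lt_iff hω hs).1 h1


theorem XR_le (h : Cons θ θ' θ₀ N) {s : ℝ} (hs : s ≤ θ₀) :
    XR ν θ s ≤ XR ν θ' s + ν N := measure_le fun _ hω h1 => (h.mono_time hs).closed _ hω h1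


/-- Left limits: the weight in `Z + A` is at most the weight in `Z`, up to the links. -/
theorem W_XRm_le (h : Cons θ θ' θ₀ N) {L : ℝ} (hL : 0 < L) {s : ℝ} (hs : s ≤ θ₀) :
    W L (XRm ν θ' s) ≤ W L (XRm ν θ s) + ENNReal.ofReal L * ν N :=
  W_le_add hL (h.XRm_le hs)


/-- Inclusive weights, **closed** end-point. -/
theorem W_XR_le (h : Cons θ θ' θ₀ N) {L : ℝ} (hL : 0 < L) {s : ℝ} (hs : s ≤ θ₀) :
    W L (XR ν θ' s) ≤ W L (XR ν θ s) + ENNReal.ofReal L * ν N :=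
  W_le_add hL (h.XR_le hs)



end Cons

/-- The one-sided closed-end consistency (S2): a line outside the link set which touches `Z` not
later than `θ₀ = θ(Z, A)` touches `Z + A` not later than it touches `Z`. This is all that the
inequalities of section E use. -/
structure Cons1 (θ θ' : Ω → ℝ) (θ₀ : ℝ) (N : Set Ω) : Prop where
  le : ∀ ω, ω ∉ N → θ ω ≤ θ₀ → θ' ω ≤ θ ω

namespace Cons1

variable {θ₀ : ℝ} {N : Set Ω}


theorem mono_set (h : Cons1 θ θ' θ₀ N) {N' : Set Ω} (hN : N ⊆ N') : Cons1 θ θ' θ₀ N' :=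
  ⟨fun ω hω => h.le ω fun h' => hω (hN h')⟩

theorem refl (θ : Ω → ℝ) (θ₀ : ℝ) (N : Set Ω) : Cons1 θ θ θ₀ N := ⟨fun _ _ _ => le_rfl⟩

theorem trans {θ'' : Ω → ℝ} {N' : Set Ω} (h : Cons1 θ θ' θ₀ N) (h' : Cons1 θ' θ'' θ₀ N') :
    Cons1 θ θ'' θ₀ (N ∪ N') :=
  ⟨fun ω hω hle => by
    have h1 := h.le ω (fun h1 => hω (Or.inl h1)) hle
    exact (h'.le ω (fun h1 => hω (Or.inr h1)) (h1.trans hle)).trans h1⟩

private theorem measure_le {A B N : Set Ω} (h : ∀ ω, ω ∉ N → ω ∈ A → ω ∈ B) :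
    ν A ≤ ν B + ν N := by
  refine le_trans (measure_mono fun ω hω => ?_) (measure_union_le B N)
  by_cases hN : ω ∈ N
  · exact Or.inr hN
  · exact Or.inl (h ω hN hω)

theorem XR_le (h : Cons1 θ θ' θ₀ N) {s : ℝ} (hs : s ≤ θ₀) :
    XR ν θ s ≤ XR ν θ' s + ν N :=
  measure_le fun ω hω h1 => (h.le ω hω (le_trans h1 hs)).trans h1

theorem XRm_le (h : Cons1 θ θ' θ₀ N) {s : ℝ} (hs : s ≤ θ₀) :
    XRm ν θ s ≤ XRm ν θ' s + ν N :=
  measure_le fun ω hω h1 => (h.le ω hω (le_trans (le_of_lt h1) hs)).trans_lt h1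

/-- Inclusive weights: `W_{Z+A}(s) ≤ W_Z(s) + L * link`, `s ≤ θ(Z, A)` (equality allowed). -/
theorem W_XR_le (h : Cons1 θ θ' θ₀ N) {L : ℝ} (hL : 0 < L) {s : ℝ} (hs : s ≤ θ₀) :
    W L (XR ν θ' s) ≤ W L (XR ν θ s) + ENNReal.ofReal L * ν N :=
  W_le_add hL (h.XR_le hs)

theorem W_XRm_le (h : Cons1 θ θ' θ₀ N) {L : ℝ} (hL : 0 < L) {s : ℝ} (hs : s ≤ θ₀) :
    W L (XRm ν θ' s) ≤ W L (XRm ν θ s) + ENNReal.ofReal L * ν N :=
  W_le_add hL (h.XRm_le hs)


end Cons1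


end real

end Crest.Agent.R122.Weight984
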