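import Mathlib
import Crest.Agent.R122.Weight2_984
import Crest.Agent.R122.MWAlg_255
import Crest.Agent.R122.EquivE_416

-- ▼ part R122/Decomp1_285
section

/-!
# Row 122, section E: order-theoretic core of INEQUALITY 1 (and of INEQUALITY 3)

`θ A b` is the touch time of the line `b` in the world `Z + A`, where `Z` is a fixed base world and
`A` a finite set of lines. `Unl θ F` collects the three superposition facts (S1), (S2), (S3) of two
unlinked lines of the family `F` in the worlds `Z + G`, `G ⊆ F`.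

* `Unl.le_touch`, `Unl.touch_le`, `Unl.touch_le_iff`: iterated versions for finite families.
* `decomp1`: case list of INEQUALITY 1 (E_FINAL E4).
* `decomp3`: case list of INEQUALITY 3 (E_FINAL E6), for the pair `(d, e)` once `e` has contacted
  the fresh cluster `D2`.
-/

set_option autoImplicit false

namespace Crest.Agent.R122.Decomp285

variable {Ob : Type*} [DecidableEq Ob] {T : Type*} [LinearOrder T]

/-- The superposition facts for two unlinked lines `a ≠ b` in the world `Z + G`, for all `s` up to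
and including the touch time of `a`. -/
structure Unl2 (θ : Finset Ob → Ob → T) (G : Finset Ob) (a b : Ob) : Prop where
  s1 : ∀ s, s ≤ θ G a → s ≤ θ G b → s ≤ θ (insert a G) b
  s2 : ∀ s, s ≤ θ G a → θ G b ≤ s → θ (insert a G) b ≤ θ G b
  s3 : ∀ s, s ≤ θ G a → θ (insert a G) b ≤ s → θ G b ≤ s

/-- All pairs of lines of the family `F` are unlinked in all worlds `Z + G`, `G ⊆ F`. -/
def Unl (θ : Finset Ob → Ob → T) (F : Finset Ob) : Prop :=
  ∀ G ⊆ F, ∀ a ∈ F, ∀ b ∈ F, a ∉ G → b ∉ G → a ≠ b → Unl2 θ G a b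

/-- The family `F` and the additional line `b` (not in `F`) are unlinked in all worlds `Z + G`. -/
def UnlTest (θ : Finset Ob → Ob → T) (F : Finset Ob) (b : Ob) : Prop :=
  ∀ G ⊆ F, ∀ a ∈ F, a ∉ G → Unl2 θ G a b

theorem Unl.mono {θ : Finset Ob → Ob → T} {F F' : Finset Ob} (h : Unl θ F) (hF : F' ⊆ F) :
    Unl θ F' := fun G hG a ha b hb haG hbG hab =>
  h G (hG.trans hF) a (hF ha) b (hF hb) haG hbG hab

theorem UnlTest.mono {θ : Finset Ob → Ob → T} {F F' : Finset Ob} {b : Ob} (h : UnlTest θ F b)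
    (hF : F' ⊆ F) : UnlTest θ F' b := fun G hG a ha haG => h G (hG.trans hF) a (hF ha) haG

/-- Iterated (S1): if no line of `F` touches `Z + A₀` before `s`, then no line of `F` touches
`Z + A₀ + G` before `s`, `G ⊆ F`. -/
theorem Unl.le_touch {θ : Finset Ob → Ob → T} {F A₀ : Finset Ob} (h : Unl θ F) (hA : A₀ ⊆ F)
    {s : T} (hs : ∀ a ∈ F, a ∉ A₀ → s ≤ θ A₀ a) :
    ∀ G : Finset Ob, G ⊆ F → ∀ b ∈ F, b ∉ A₀ → b ∉ G → s ≤ θ (G ∪ A₀) b := by
  intro G
  induction G using Finset.induction_on with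
  | empty =>
    intro _ b hb hbA _
    rw [Finset.empty_union]
    exact hs b hb hbA
  | insert a G haG ih =>
    intro hG b hb hbA hbG
    have hGF : G ⊆ F := (Finset.subset_insert a G).trans hG
    have haF : a ∈ F := hG (Finset.mem_insert_self a G)
    rw [Finset.mem_insert, not_or] at hbG
    by_cases haA : a ∈ A₀
    · rw [Finset.insert_union, Finset.insert_eq_of_mem (Finset.mem_union_right _ haA)]
      exact ih hGF b hb hbA hbG.2
    · rw [Finset.insert_union]
      refine (h (G ∪ A₀) (Finset.union_subset hGF hA) a haF b hb ?_ ?_ (Ne.symm hbG.1)).s1 s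
        (ih hGF a haF haA haG) (ih hGF b hb hbA hbG.2)
      · rw [Finset.mem_union, not_or]; exact ⟨haG, haA⟩
      · rw [Finset.mem_union, not_or]; exact ⟨hbG.2, hbA⟩

/-- Iterated (S3): up to (and including) the first touch `s` of `F`, a line of `F` which touches
`Z + A₀ + G` by `s` touches `Z + A₀` by `s`. -/
theorem Unl.touch_of_touch {θ : Finset Ob → Ob → T} {F A₀ : Finset Ob} (h : Unl θ F) (hA : A₀ ⊆ F)
    {s : T} (hs : ∀ a ∈ F, a ∉ A₀ → s ≤ θ A₀ a) :
    ∀ G : Finset Ob, G ⊆ F → ∀ b ∈ F, b ∉ A₀ → b ∉ G → θ (G ∪ A₀) b ≤ s → θ A₀ b ≤ s := by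
  intro G
  induction G using Finset.induction_on with
  | empty =>
    intro _ b _ _ _ hb'
    rwa [Finset.empty_union] at hb'
  | insert a G haG ih =>
    intro hG b hb hbA hbG hle
    have hGF : G ⊆ F := (Finset.subset_insert a G).trans hG
    have haF : a ∈ F := hG (Finset.mem_insert_self a G)
    rw [Finset.mem_insert, not_or] at hbG
    by_cases haA : a ∈ A₀
    · rw [Finset.insert_union, Finset.insert_eq_of_mem (Finset.mem_union_right _ haA)] at hle
      exact ih hGF b hb hbA hbG.2 hle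
    · rw [Finset.insert_union] at hle
      refine ih hGF b hb hbA hbG.2 ?_
      refine (h (G ∪ A₀) (Finset.union_subset hGF hA) a haF b hb ?_ ?_ (Ne.symm hbG.1)).s3 s
        (h.le_touch hA hs G hGF a haF haA haG) hle
      · rw [Finset.mem_union, not_or]; exact ⟨haG, haA⟩
      · rw [Finset.mem_union, not_or]; exact ⟨hbG.2, hbA⟩



omit [DecidableEq Ob] in
/-- The first line of a nonempty family to touch. -/
theorem exists_first (θ : Ob → T) (F : Finset Ob) (hF : F.Nonempty) :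
    ∃ k ∈ F, ∀ a ∈ F, θ k ≤ θ a := F.exists_min_image θ hF



end Crest.Agent.R122.Decomp285
end

-- ▼ part R122/Line1_285
section

/-!
# INEQUALITY 1 (row 122, board H2): pointwise inequality with the weights

`pointwise1`: for one configuration (fresh cluster opened, base world `Z = w₁`), the weighted touch
functional of the line `l` in the world `w = Z + E + c` is bounded by the weighted touch functionals
of its successors in the world `Z`, of the exits of the cluster in `Z`, resp. of pairs of lines,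
up to touches before `t*` and the mass of linked test lines.
-/

set_option autoImplicit false

open MeasureTheory Set
open scoped ENNReal
open Crest.Agent.R122.Decomp285 Crest.Agent.R122.Weight984

namespace Crest.Agent.R122.Line285

variable {Ob : Type*} [DecidableEq Ob]

/-- (S2) for a test line with touch times `τ G` in the worlds `Z + G`, `G ⊆ F`. -/
def UnlT (θ : Finset Ob → Ob → ℝ) (τ : Finset Ob → ℝ) (F : Finset Ob) : Prop :=
  ∀ G ⊆ F, ∀ a ∈ F, a ∉ G → τ G ≤ θ G a → τ (insert a G) ≤ τ G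

theorem UnlT.mono {θ : Finset Ob → Ob → ℝ} {τ : Finset Ob → ℝ} {F F' : Finset Ob}
    (h : UnlT θ τ F) (hF : F' ⊆ F) : UnlT θ τ F' :=
  fun G hG a ha haG => h G (hG.trans hF) a (hF ha) haG

/-- A test line which touches `Z + A₀` not later than the first touch of the family touches
`Z + A₀ + G` not later. -/
theorem UnlT.touch {θ : Finset Ob → Ob → ℝ} {τ : Finset Ob → ℝ} {F A₀ : Finset Ob}
    (hU : Unl θ F) (h : UnlT θ τ F) (hA : A₀ ⊆ F) {s : ℝ} (hs : ∀ a ∈ F, a ∉ A₀ → s ≤ θ A₀ a)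
    (hτ : τ A₀ ≤ s) : ∀ G : Finset Ob, G ⊆ F → τ (G ∪ A₀) ≤ τ A₀ := by
  intro G
  induction G using Finset.induction_on with
  | empty => intro _; rw [Finset.empty_union]
  | insert a G haG ih =>
    intro hG
    have hGF : G ⊆ F := (Finset.subset_insert a G).trans hG
    have haF : a ∈ F := hG (Finset.mem_insert_self a G)
    by_cases haA : a ∈ A₀
    · rw [Finset.insert_union, Finset.insert_eq_of_mem (Finset.mem_union_right _ haA)]
      exact ih hGF
    · rw [Finset.insert_union]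
      have h1 := ih hGF
      refine le_trans (h (G ∪ A₀) (Finset.union_subset hGF hA) a haF ?_ ?_) h1
      · rw [Finset.mem_union, not_or]; exact ⟨haG, haA⟩
      · exact (h1.trans hτ).trans (hU.le_touch hA hs G hGF a haF haA haG)

variable {Λ : Type*} [MeasurableSpace Λ]

/-- Weighted touch at time `θ` in the window `(tw, te]`, left-limit weight. -/
noncomputable def tW (L tw te : ℝ) (ν : Measure Λ) (τ : Λ → ℝ) (θ : ℝ) : ℝ≥0∞ :=
  open scoped Classical in if tw < θ ∧ θ ≤ te then W L (XRm ν τ θ) else 0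

/-- Weighted touch of a pair (times `θ₁ ≤ θ₂`, worlds `Z` and `Z + d`). -/
noncomputable def tP (L tw te : ℝ) (ν : Measure Λ) (τ τ' : Λ → ℝ) (θ₁ θ₂ : ℝ) : ℝ≥0∞ :=
  open scoped Classical in
  if tw < θ₁ ∧ θ₁ ≤ θ₂ ∧ θ₂ ≤ te then min (W L (XR ν τ θ₁)) (W L (XRm ν τ' θ₂)) else 0

/-- Indicator of a touch before `tw`. -/
noncomputable def tB (tw θ : ℝ) : ℝ≥0∞ := open scoped Classical in if θ ≤ tw then 1 else 0

theorem tW_le_one {L tw te : ℝ} (hL : 0 ≤ L) (ν : Measure Λ) (τ : Λ → ℝ) (θ : ℝ) :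
    tW L tw te ν τ θ ≤ 1 := by
  unfold tW
  split_ifs
  · exact W_le_one hL _
  · exact zero_le_one



end Crest.Agent.R122.Line285
end

-- ▼ part R122/Line2_285
section

/-!
# INEQUALITY 1 (row 122, board H2): pointwise inequality for the worlds of `EDefs_602`

* `thX Z ls x A` : touch time of the line `x` in the world `Z + {ls a : a ∈ A}`;
  `thF Z ls A b` : the same for the line `ls b` of the family.
* `Nbad` : test lines linked to the structure.
* `pointwise_MW` : the weighted touch functional of `l` in the real world `VW` is bounded by the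
  successors in the base world `Z`.
-/

set_option autoImplicit false
set_option linter.unusedSectionVars false

open MeasureTheory Set
open scoped ENNReal
open Crest.AnalysisR.Kinetic
open Crest.Agent.R122.Decomp285 Crest.Agent.R122.Weight984 Crest.Agent.R122.EDefs602

namespace Crest.Agent.R122.Line285

noncomputable section

open scoped Classical

variable {ι ι' κ : Type} [Fintype ι] [Fintype ι'] [Fintype κ]

/-- Touch time of the line `x` in the world `Z + {ls a : a ∈ A}`. -/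
def thX (Φ : Space3 → ℝ) (ε : ℝ) (K : ℕ) (T : ℝ) (Z : MW ι) (ls : κ → ML) (x : ML)
    (A : Finset κ) : ℝ := (Z.add (MWAlg255.sub ls A)).thetaL Φ ε K T x

/-- Touch time of the line `ls b` in the world `Z + {ls a : a ∈ A}`. -/
def thF (Φ : Space3 → ℝ) (ε : ℝ) (K : ℕ) (T : ℝ) (Z : MW ι) (ls : κ → ML) (A : Finset κ)
    (b : κ) : ℝ := thX Φ ε K T Z ls (ls b) A

theorem thX_empty {Φ : Space3 → ℝ} {ε : ℝ} (hΦ : AdmissiblePotential Φ) (hε : 0 < ε) (K : ℕ)
    (T : ℝ) (Z : MW ι) (ls : κ → ML) (x : ML) :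
    thX Φ ε K T Z ls x ∅ = Z.thetaL Φ ε K T x := by
  unfold thX
  rw [MWAlg255.add_empty_comap Z (MWAlg255.sub ls ∅)]
  exact EquivE416.thetaL_comap hΦ hε K T Z x (Equiv.sumEmpty ι (∅ : Finset κ))

theorem thX_singleton {Φ : Space3 → ℝ} {ε : ℝ} (hΦ : AdmissiblePotential Φ) (hε : 0 < ε) (K : ℕ)
    (T : ℝ) (Z : MW ι) (ls : κ → ML) (x : ML) (d : κ) :
    thX Φ ε K T Z ls x {d} = (Z.ins (ls d)).thetaL Φ ε K T x := by
  have h1 : Z.ins (ls d) = (Z.add (MWAlg255.sub ls {d})).comap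
      (Equiv.sumCongr (Equiv.refl ι)
        ((Equiv.ofUnique Unit ({d} : Finset κ) : Unit ≃ ({d} : Finset κ)))) := by
    rw [← EquivE416.add_comap]
    rfl
  rw [h1]
  exact (EquivE416.thetaL_comap hΦ hε K T _ x _).symm


theorem touchW_eq_tW (Φ : Space3 → ℝ) (ε : ℝ) (K : ℕ) (P : EPar) (Z : MW ι) (l : ML) :
    Z.touchW Φ ε K P l = tW P.L P.tw P.te (lineM P.γ P.ρ K P.te) (Z.thetaL Φ ε K P.te)
      (Z.thetaL Φ ε K P.te l) := by
  unfold MW.touchW tW
  by_cases h : P.tw < Z.thetaL Φ ε K P.te l ∧ Z.thetaL Φ ε K P.te l ≤ P.te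
  · rw [if_pos h, if_pos h]; rfl
  · rw [if_neg h, if_neg h]

theorem touchP_eq_tP (Φ : Space3 → ℝ) (ε : ℝ) (K : ℕ) (P : EPar) (Z : MW ι) (d e : ML) :
    Z.touchP Φ ε K P d e = tP P.L P.tw P.te (lineM P.γ P.ρ K P.te) (Z.thetaL Φ ε K P.te)
      ((Z.ins d).thetaL Φ ε K P.te) (Z.thetaL Φ ε K P.te d) ((Z.ins d).thetaL Φ ε K P.te e) := by
  unfold MW.touchP tP
  by_cases h : P.tw < Z.thetaL Φ ε K P.te d ∧ Z.thetaL Φ ε K P.te d ≤
      (Z.ins d).thetaL Φ ε K P.te e ∧ (Z.ins d).thetaL Φ ε K P.te e ≤ P.te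
  · rw [if_pos h, if_pos h]; rfl
  · rw [if_neg h, if_neg h]


end

end Crest.Agent.R122.Line285
end

-- ▼ part R122/Line2B_879

/-!
# INEQUALITY 1, pointwise, with base-only link hypotheses (row 122, H1)

helper285's `decomp1`, `pointwise1`, `pointwise_MW` with weaker hypotheses: only the base worlds `Z`
and `Z + d` (`d` an exit) occur, and only times up to the first touch of the family.

* `UnlB θ E F` : the superposition facts for `F`, from the base worlds `Z`, `Z + d`, `d ∈ E`.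
* `TestB θ τ E S τV` : the test line is seen by the real world.
* `NbadB` : test lines for which this fails.
* `decomp1B`, `pointwise1B`, `pointwise_MWB`.
-/

set_option autoImplicit false
set_option linter.unusedSectionVars false

open MeasureTheory Set
open scoped ENNReal
open Crest.AnalysisR.Kinetic

namespace Crest.Agent.R122.Decomp285

variable {Ob : Type*} [DecidableEq Ob] {T : Type*} [LinearOrder T]

/-- Superposition facts of the family `F` in the base world `Z + A₀`, up to the first touch of the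
family. -/
structure UnlAt (θ : Finset Ob → Ob → T) (A₀ F : Finset Ob) : Prop where
  ge : ∀ s, (∀ a ∈ F, a ∉ A₀ → s ≤ θ A₀ a) → ∀ G ⊆ F, ∀ b ∈ F, b ∉ A₀ → b ∉ G →
    s ≤ θ (G ∪ A₀) b
  of_le : ∀ s, (∀ a ∈ F, a ∉ A₀ → s ≤ θ A₀ a) → ∀ G ⊆ F, ∀ b ∈ F, b ∉ A₀ → b ∉ G →
    θ (G ∪ A₀) b ≤ s → θ A₀ b ≤ s

/-- The same for the base worlds `Z` and `Z + d`, `d ∈ E`. -/
def UnlB (θ : Finset Ob → Ob → T) (E F : Finset Ob) : Prop :=
  ∀ A₀ : Finset Ob, (A₀ = ∅ ∨ ∃ d ∈ E, A₀ = {d}) → UnlAt θ A₀ F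

/-- `Unl` is stronger. -/
theorem Unl.unlAt {θ : Finset Ob → Ob → T} {A₀ F : Finset Ob} (h : Unl θ F) (hA : A₀ ⊆ F) :
    UnlAt θ A₀ F where
  ge _ hs G hG b hb hbA hbG := h.le_touch hA hs G hG b hb hbA hbG
  of_le _ hs G hG b hb hbA hbG := h.touch_of_touch hA hs G hG b hb hbA hbG

theorem Unl.unlB {θ : Finset Ob → Ob → T} {E F : Finset Ob} (h : Unl θ F) (hE : E ⊆ F) :
    UnlB θ E F := by
  rintro A₀ (rfl | ⟨d, hd, rfl⟩)
  · exact h.unlAt (Finset.empty_subset _)
  · exact h.unlAt (Finset.singleton_subset_iff.2 (hE hd))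

/-- **Case list of INEQUALITY 1** (helper285), base-only hypotheses. -/
theorem decomp1B {θ : Finset Ob → Ob → T} {E : Finset Ob} {c l' c' : Ob}
    (hc : c ∉ E) (hl' : l' ∉ E) (hc' : c' ∉ E) (hlc : l' ≠ c')
    {F : Finset Ob} (hF : F = insert c (insert l' (insert c' E))) (hU1 : UnlB θ E (insert c E))
    (hU2 : UnlB θ E (insert l' (insert c' E)))
    {θl : T} (hOne : min (θ E c) (min (θ E l') (θ (insert l' E) c')) ≤ θl) :
    (∃ k, (k = c ∨ k = l' ∨ k = c') ∧ (∀ a ∈ F, θ ∅ k ≤ θ ∅ a) ∧ θ ∅ k ≤ θl) ∨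
    (∃ d ∈ E, (∀ a ∈ F, θ ∅ d ≤ θ ∅ a) ∧ θ ∅ d < θl ∧
      ∃ e ∈ F, e ≠ d ∧ (∀ a ∈ F, a ≠ d → θ {d} e ≤ θ {d} a) ∧
        θ ∅ d ≤ θ {d} e ∧ θ {d} e ≤ θl) := by
  have hcF : c ∈ F := by rw [hF]; simp
  have hl'F : l' ∈ F := by rw [hF]; simp
  have hc'F : c' ∈ F := by rw [hF]; simp
  have hEF : E ⊆ F := by
    rw [hF]
    exact fun x hx => Finset.mem_insert_of_mem (Finset.mem_insert_of_mem
      (Finset.mem_insert_of_mem hx))
  -- the two sub-families
  have hcF1 : c ∈ insert c E := Finset.mem_insert_self _ _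
  have hl'F2 : l' ∈ insert l' (insert c' E) := Finset.mem_insert_self _ _
  have hc'F2 : c' ∈ insert l' (insert c' E) :=
    Finset.mem_insert_of_mem (Finset.mem_insert_self _ _)
  have hEF1 : E ⊆ insert c E := Finset.subset_insert _ _
  have hEF2 : E ⊆ insert l' (insert c' E) := fun x hx =>
    Finset.mem_insert_of_mem (Finset.mem_insert_of_mem hx)
  have hF1F : insert c E ⊆ F := Finset.insert_subset hcF hEF
  have hF2F : insert l' (insert c' E) ⊆ F :=
    Finset.insert_subset hl'F (Finset.insert_subset hc'F hEF)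
  obtain ⟨k, hkF, hk⟩ := exists_first (θ ∅) F ⟨c, hcF⟩
  -- the first touch is not later than `θl`
  have key : ∀ (A₀ : Finset Ob), (A₀ = ∅ ∨ ∃ d ∈ E, A₀ = {d}) → ∀ s, (∀ a ∈ F, a ∉ A₀ → s ≤ θ A₀ a) → s ≤ θl ∧
      (θl ≤ s → ∃ k, (k = c ∨ k = l' ∨ k = c') ∧ θ A₀ k ≤ s) := by
    intro A₀ hAd s hs
    have hA₀ : A₀ ⊆ E := by
      rcases hAd with rfl | ⟨d, hd, rfl⟩
      · exact Finset.empty_subset _
      · exact Finset.singleton_subset_iff.2 hd
    have hs1 : ∀ a ∈ insert c E, a ∉ A₀ → s ≤ θ A₀ a := fun a ha => hs a (hF1F ha)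
    have hs2 : ∀ a ∈ insert l' (insert c' E), a ∉ A₀ → s ≤ θ A₀ a := fun a ha => hs a (hF2F ha)
    have e1 : E ∪ A₀ = E := Finset.union_eq_left.2 hA₀
    have e2 : (insert l' E) ∪ A₀ = insert l' E := by
      rw [Finset.insert_union, e1]
    have g1 := (hU1 A₀ hAd).ge s hs1 E hEF1 c hcF1 (fun h => hc (hA₀ h)) hc
    have g2 := (hU2 A₀ hAd).ge s hs2 E hEF2 l' hl'F2 (fun h => hl' (hA₀ h)) hl'
    have hsub : insert l' E ⊆ insert l' (insert c' E) := Finset.insert_subset hl'F2 hEF2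
    have hc'n : c' ∉ insert l' E := by
      rw [Finset.mem_insert, not_or]; exact ⟨Ne.symm hlc, hc'⟩
    have g3 := (hU2 A₀ hAd).ge s hs2 (insert l' E) hsub c' hc'F2 (fun h => hc' (hA₀ h)) hc'n
    rw [e1] at g1 g2
    rw [e2] at g3
    refine ⟨(le_min g1 (le_min g2 g3)).trans hOne, fun hle => ?_⟩
    have h4 := hOne.trans hle
    rcases min_le_iff.1 h4 with h5 | h5
    · refine ⟨c, Or.inl rfl, ?_⟩
      refine (hU1 A₀ hAd).of_le s hs1 E hEF1 c hcF1 (fun h => hc (hA₀ h)) hc ?_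
      rwa [e1]
    · rcases min_le_iff.1 h5 with h6 | h6
      · refine ⟨l', Or.inr (Or.inl rfl), ?_⟩
        refine (hU2 A₀ hAd).of_le s hs2 E hEF2 l' hl'F2 (fun h => hl' (hA₀ h)) hl' ?_
        rwa [e1]
      · refine ⟨c', Or.inr (Or.inr rfl), ?_⟩
        refine (hU2 A₀ hAd).of_le s hs2 (insert l' E) hsub c' hc'F2
          (fun h => hc' (hA₀ h)) hc'n ?_
        rwa [e2]
  have hk1 := key ∅ (Or.inl rfl) (θ ∅ k) (fun a ha _ => hk a ha)
  by_cases hsucc : ∃ k', (k' = c ∨ k' = l' ∨ k' = c') ∧ θ ∅ k' ≤ θ ∅ k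
  · obtain ⟨k', hk', hle⟩ := hsucc
    exact Or.inl ⟨k', hk', fun a ha => hle.trans (hk a ha), hle.trans hk1.1⟩
  · right
    have hkE : k ∈ E := by
      have h := hkF
      rw [hF, Finset.mem_insert, Finset.mem_insert, Finset.mem_insert] at h
      rcases h with h | h | h | h
      · exact absurd ⟨c, Or.inl rfl, (congrArg (θ ∅) h).ge⟩ hsucc
      · exact absurd ⟨l', Or.inr (Or.inl rfl), (congrArg (θ ∅) h).ge⟩ hsucc
      · exact absurd ⟨c', Or.inr (Or.inr rfl), (congrArg (θ ∅) h).ge⟩ hsucc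
      · exact h
    have hlt : θ ∅ k < θl := by
      by_contra hcon
      exact hsucc (hk1.2 (not_lt.1 hcon))
    refine ⟨k, hkE, hk, hlt, ?_⟩
    -- the first line touching `Z + k`
    have hck : c ≠ k := fun h => hc (h ▸ hkE)
    obtain ⟨e, heF, he⟩ := exists_first (θ {k}) (F.erase k)
      ⟨c, Finset.mem_erase.2 ⟨hck, hcF⟩⟩
    rw [Finset.mem_erase] at heF
    have he' : ∀ a ∈ F, a ≠ k → θ {k} e ≤ θ {k} a := fun a ha hak =>
      he a (Finset.mem_erase.2 ⟨hak, ha⟩)
    refine ⟨e, heF.2, heF.1, he', ?_, ?_⟩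
    · by_cases heF1 : e ∈ insert c E
      · have h1 := (hU1 ∅ (Or.inl rfl)).ge (θ ∅ k) (fun a ha _ => hk a (hF1F ha)) {k}
          (Finset.singleton_subset_iff.2 (hEF1 hkE)) e heF1 (Finset.notMem_empty _)
          (fun h => heF.1 (Finset.mem_singleton.1 h))
        simpa using h1
      · have heF2 : e ∈ insert l' (insert c' E) := by
          have h := heF.2
          rw [hF, Finset.mem_insert] at h
          rcases h with h | h
          · exact absurd (h ▸ hcF1) heF1
          · exact h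
        have h1 := (hU2 ∅ (Or.inl rfl)).ge (θ ∅ k) (fun a ha _ => hk a (hF2F ha)) {k}
          (Finset.singleton_subset_iff.2 (hEF2 hkE)) e heF2 (Finset.notMem_empty _)
          (fun h => heF.1 (Finset.mem_singleton.1 h))
        simpa using h1
    · refine (key {k} (Or.inr ⟨k, hkE, rfl⟩) (θ {k} e) fun a ha hak => ?_).1
      exact he' a ha (fun h => hak (Finset.mem_singleton.2 h))

end Crest.Agent.R122.Decomp285

open Crest.Agent.R122.Decomp285 Crest.Agent.R122.Weight984 Crest.Agent.R122.EDefs602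

namespace Crest.Agent.R122.Line285

section abs

variable {Ob : Type*} [DecidableEq Ob]

/-- A test line with touch times `τ G` in the worlds `Z + G` and `τV` in the real world: if it touches
`Z` not later than the lines of `S`, then it touches the real world not later; the same for `Z + d`,
`d ∈ E`, if it touches strictly before the lines of `S`. -/
structure TestB (θ : Finset Ob → Ob → ℝ) (τ : Finset Ob → ℝ) (E S : Finset Ob) (τV : ℝ) :
    Prop where
  base : (∀ a ∈ S, τ ∅ ≤ θ ∅ a) → τV ≤ τ ∅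
  ins : ∀ d ∈ E, (∀ a ∈ S, a ≠ d → τ {d} < θ {d} a) → τV ≤ τ {d}

theorem W_XRm_le_of_lt {Λ : Type*} [MeasurableSpace Λ] {ν : Measure Λ} {τ τV : Λ → ℝ}
    {N : Set Λ} {L s : ℝ} (hL : 0 < L) (h : ∀ x, x ∉ N → τ x < s → τV x ≤ τ x) :
    W L (XRm ν τV s) ≤ W L (XRm ν τ s) + ENNReal.ofReal L * ν N := by
  refine W_le_add hL ((measure_mono fun x hx => ?_).trans (measure_union_le {x | τV x < s} N))
  by_cases hN : x ∈ N
  · exact Or.inr hN
  · exact Or.inl ((h x hN hx).trans_lt hx)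

variable {Λ : Type*} [MeasurableSpace Λ]

/-- **INEQUALITY 1, pointwise** (helper285), base-only hypotheses. -/
theorem pointwise1B {θ : Finset Ob → Ob → ℝ} {E : Finset Ob} {c l' c' : Ob}
    (hc : c ∉ E) (hl' : l' ∉ E) (hc' : c' ∉ E) (hlc : l' ≠ c')
    {F : Finset Ob} (hF : F = insert c (insert l' (insert c' E))) (hU1 : UnlB θ E (insert c E))
    (hU2 : UnlB θ E (insert l' (insert c' E)))
    {θl : ℝ} (hOne : min (θ E c) (min (θ E l') (θ (insert l' E) c')) ≤ θl)
    {L tw te : ℝ} (hL : 0 < L) (ν : Measure Λ) (τ : Λ → Finset Ob → ℝ) (τV : Λ → ℝ) (N : Set Λ)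
    (hN : ∀ x, x ∉ N → TestB θ (τ x) E (insert c E) (τV x)) (big : Prop) [Decidable big] :
    tW L tw te ν τV θl ≤
      (∑ k ∈ {c, l', c'}, (tW L tw te ν (fun x => τ x ∅) (θ ∅ k) + tB tw (θ ∅ k))) +
      (if big then ∑ d ∈ E, tW L tw te ν (fun x => τ x ∅) (θ ∅ d) else
        ∑ d ∈ E, ∑ e ∈ F.erase d,
          tP L tw te ν (fun x => τ x ∅) (fun x => τ x {d}) (θ ∅ d) (θ {d} e)) +
      ∑ d ∈ E, tB tw (θ ∅ d) + ENNReal.ofReal L * ν N := by
  classical
  by_cases hcase : tw < θl ∧ θl ≤ te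
  swap
  · have h0 : tW L tw te ν τV θl = 0 := by
      unfold tW; rw [if_neg hcase]
    rw [h0]; exact zero_le
  have h0 : tW L tw te ν τV θl =
      W L (XRm ν τV θl) := by unfold tW; rw [if_pos hcase]
  rw [h0]
  have hcF : c ∈ F := by rw [hF]; simp
  have hEF : E ⊆ F := by
    rw [hF]
    exact fun x hx => Finset.mem_insert_of_mem (Finset.mem_insert_of_mem
      (Finset.mem_insert_of_mem hx))
  have hcE : insert c E ⊆ F := Finset.insert_subset hcF hEF
  rcases decomp1B hc hl' hc' hlc hF hU1 hU2 hOne with ⟨k, hk, hkmin, hkl⟩ | ⟨d, hdE, hdmin, hdl, e, heF,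
    hed, hemin, hde, hel⟩
  · -- NS
    have hcons : Cons1 (fun x => τ x ∅) τV (θ ∅ k) N := by
      refine ⟨fun x hx hle => ?_⟩
      exact (hN x hx).base fun a ha => hle.trans (hkmin a (hcE ha))
    have h1 : W L (XRm ν τV θl) ≤
        W L (XRm ν (fun x => τ x ∅) (θ ∅ k)) + ENNReal.ofReal L * ν N :=
      (W_anti hL.le (XRm_mono hkl)).trans (hcons.W_XRm_le hL le_rfl)
    have hkmem : k ∈ ({c, l', c'} : Finset Ob) := by
      simp only [Finset.mem_insert, Finset.mem_singleton]; exact hk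
    have h2 : W L (XRm ν (fun x => τ x ∅) (θ ∅ k)) ≤
        tW L tw te ν (fun x => τ x ∅) (θ ∅ k) + tB tw (θ ∅ k) := by
      by_cases htw : tw < θ ∅ k
      · have : tW L tw te ν (fun x => τ x ∅) (θ ∅ k) = W L (XRm ν (fun x => τ x ∅) (θ ∅ k)) := by
          unfold tW; rw [if_pos ⟨htw, hkl.trans hcase.2⟩]
        rw [this]; exact le_self_add
      · have : tB tw (θ ∅ k) = 1 := by unfold tB; rw [if_pos (not_lt.1 htw)]
        rw [this]
        exact (W_le_one hL.le _).trans le_add_self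
    have h3 := h2.trans (Finset.single_le_sum
      (f := fun k => tW L tw te ν (fun x => τ x ∅) (θ ∅ k) + tB tw (θ ∅ k))
      (fun _ _ => zero_le) hkmem)
    refine h1.trans (add_le_add ?_ le_rfl)
    exact h3.trans ((le_self_add.trans le_self_add))
  · -- SP
    by_cases htw : tw < θ ∅ d
    swap
    · have h1 : (1 : ℝ≥0∞) ≤ ∑ d ∈ E, tB tw (θ ∅ d) := by
        have h2 : tB tw (θ ∅ d) = 1 := by unfold tB; rw [if_pos (not_lt.1 htw)]
        rw [← h2]
        exact Finset.single_le_sum (f := fun d => tB tw (θ ∅ d)) (fun _ _ => zero_le) hdE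
      refine ((W_le_one hL.le _).trans h1).trans ?_
      exact le_add_self.trans le_self_add
    have hcons1 : Cons1 (fun x => τ x ∅) τV (θ ∅ d) N := by
      refine ⟨fun x hx hle => ?_⟩
      exact (hN x hx).base fun a ha => hle.trans (hdmin a (hcE ha))
    by_cases hbig : big
    · have h1 : W L (XRm ν τV θl) ≤
          W L (XRm ν (fun x => τ x ∅) (θ ∅ d)) + ENNReal.ofReal L * ν N :=
        (W_anti hL.le (XRm_mono hdl.le)).trans (hcons1.W_XRm_le hL le_rfl)
      have h2 : W L (XRm ν (fun x => τ x ∅) (θ ∅ d)) =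
          tW L tw te ν (fun x => τ x ∅) (θ ∅ d) := by
        unfold tW; rw [if_pos ⟨htw, hdl.le.trans hcase.2⟩]
      have h3 : tW L tw te ν (fun x => τ x ∅) (θ ∅ d) ≤
          ∑ d ∈ E, tW L tw te ν (fun x => τ x ∅) (θ ∅ d) :=
        Finset.single_le_sum (f := fun d => tW L tw te ν (fun x => τ x ∅) (θ ∅ d))
          (fun _ _ => zero_le) hdE
      rw [if_pos hbig]
      refine h1.trans (add_le_add ?_ le_rfl)
      rw [h2]
      exact h3.trans (le_add_self.trans le_self_add)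
    · rw [if_neg hbig]
      have hdF : d ∈ F := hEF hdE
      have hcons2 : ∀ x, x ∉ N → τ x {d} < θ {d} e → τV x ≤ τ x {d} := fun x hx hlt =>
        (hN x hx).ins d hdE fun a ha had => hlt.trans_le (hemin a (hcE ha) had)
      have h1 : W L (XRm ν τV θl) ≤
          W L (XR ν (fun x => τ x ∅) (θ ∅ d)) + ENNReal.ofReal L * ν N :=
        (W_anti hL.le (XR_le_XRm hdl)).trans (hcons1.W_XR_le hL le_rfl)
      have h2 : W L (XRm ν τV θl) ≤
          W L (XRm ν (fun x => τ x {d}) (θ {d} e)) + ENNReal.ofReal L * ν N :=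
        (W_anti hL.le (XRm_mono hel)).trans (W_XRm_le_of_lt hL hcons2)
      have h3 : W L (XRm ν τV θl) ≤
          tP L tw te ν (fun x => τ x ∅) (fun x => τ x {d}) (θ ∅ d) (θ {d} e) +
            ENNReal.ofReal L * ν N := by
        have h4 : tP L tw te ν (fun x => τ x ∅) (fun x => τ x {d}) (θ ∅ d) (θ {d} e) =
            min (W L (XR ν (fun x => τ x ∅) (θ ∅ d)))
              (W L (XRm ν (fun x => τ x {d}) (θ {d} e))) := by
          unfold tP; rw [if_pos ⟨htw, hde, hel.trans hcase.2⟩]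
        rw [h4]
        rcases le_total (W L (XR ν (fun x => τ x ∅) (θ ∅ d)))
          (W L (XRm ν (fun x => τ x {d}) (θ {d} e))) with h5 | h5
        · rw [min_eq_left h5]; exact h1
        · rw [min_eq_right h5]; exact h2
      have h5 : tP L tw te ν (fun x => τ x ∅) (fun x => τ x {d}) (θ ∅ d) (θ {d} e) ≤
          ∑ d ∈ E, ∑ e ∈ F.erase d,
            tP L tw te ν (fun x => τ x ∅) (fun x => τ x {d}) (θ ∅ d) (θ {d} e) := by
        refine le_trans ?_ (Finset.single_le_sum (f := fun d => ∑ e ∈ F.erase d,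
            tP L tw te ν (fun x => τ x ∅) (fun x => τ x {d}) (θ ∅ d) (θ {d} e))
          (fun _ _ => zero_le) hdE)
        exact Finset.single_le_sum (f := fun e =>
            tP L tw te ν (fun x => τ x ∅) (fun x => τ x {d}) (θ ∅ d) (θ {d} e))
          (fun _ _ => zero_le) (Finset.mem_erase.2 ⟨hed, heF⟩)
      refine h3.trans (add_le_add ?_ le_rfl)
      exact h5.trans (le_add_self.trans le_self_add)

end abs

noncomputable section

open scoped Classical

variable {ι ι' κ : Type} [Fintype ι] [Fintype ι'] [Fintype κ]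

/-- Test lines linked to the structure. -/
def NbadB (Φ : Space3 → ℝ) (ε : ℝ) (K : ℕ) (T : ℝ) (Z : MW ι) (VW : MW ι') (ls : κ → ML)
    (E S : Finset κ) : Set ML :=
  {x | ¬ TestB (thF Φ ε K T Z ls) (thX Φ ε K T Z ls x) E S (VW.thetaL Φ ε K T x)}

/-- **INEQUALITY 1, pointwise, for marked worlds** (helper285), base-only hypotheses. -/
theorem pointwise_MWB {Φ : Space3 → ℝ} {ε : ℝ} (hΦ : AdmissiblePotential Φ) (hε : 0 < ε) {K : ℕ}
    {P : EPar} (hL : 0 < P.L) (Z : MW ι) (VW : MW ι') (ls : κ → ML) {E : Finset κ}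
    {c l' c' : κ} (hc : c ∉ E) (hl' : l' ∉ E) (hc' : c' ∉ E) (hlc : l' ≠ c')
    {F : Finset κ} (hF : F = insert c (insert l' (insert c' E)))
    (hU1 : UnlB (thF Φ ε K P.te Z ls) E (insert c E))
    (hU2 : UnlB (thF Φ ε K P.te Z ls) E (insert l' (insert c' E))) {l : ML}
    (hOne : min (thF Φ ε K P.te Z ls E c) (min (thF Φ ε K P.te Z ls E l')
      (thF Φ ε K P.te Z ls (insert l' E) c')) ≤ VW.thetaL Φ ε K P.te l)
    (big : Prop) [Decidable big] :
    VW.touchW Φ ε K P l ≤
      (∑ k ∈ {c, l', c'}, (Z.touchW Φ ε K P (ls k) + tB P.tw (Z.thetaL Φ ε K P.te (ls k)))) +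
      (if big then ∑ d ∈ E, Z.touchW Φ ε K P (ls d) else
        ∑ d ∈ E, ∑ e ∈ F.erase d, Z.touchP Φ ε K P (ls d) (ls e)) +
      ∑ d ∈ E, tB P.tw (Z.thetaL Φ ε K P.te (ls d)) +
      ENNReal.ofReal P.L * lineM P.γ P.ρ K P.te (NbadB Φ ε K P.te Z VW ls E (insert c E)) := by
  have hτ0 : (fun x => thX Φ ε K P.te Z ls x ∅) = Z.thetaL Φ ε K P.te := by
    funext x
    rw [thX_empty hΦ hε]
  have hτ1 : ∀ d, (fun x => thX Φ ε K P.te Z ls x {d}) = (Z.ins (ls d)).thetaL Φ ε K P.te := by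
    intro d
    funext x
    rw [thX_singleton hΦ hε]
  have hmain := pointwise1B (θ := thF Φ ε K P.te Z ls) hc hl' hc' hlc hF hU1 hU2 hOne hL
    (tw := P.tw) (te := P.te) (lineM P.γ P.ρ K P.te) (fun x => thX Φ ε K P.te Z ls x)
    (VW.thetaL Φ ε K P.te) (NbadB Φ ε K P.te Z VW ls E (insert c E)) (fun x hx => not_not.1 hx) big
  rw [hτ0, ← touchW_eq_tW] at hmain
  refine hmain.trans (le_of_eq ?_)
  have hk : ∀ k, thF Φ ε K P.te Z ls ∅ k = Z.thetaL Φ ε K P.te (ls k) := fun k =>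
    thX_empty hΦ hε K P.te Z ls (ls k)
  congr 1
  congr 1
  · congr 1
    · refine Finset.sum_congr rfl fun k _ => ?_
      rw [hk, ← touchW_eq_tW]
    · by_cases hb : big
      · rw [if_pos hb, if_pos hb]
        refine Finset.sum_congr rfl fun d _ => ?_
        rw [hk, ← touchW_eq_tW]
      · rw [if_neg hb, if_neg hb]
        refine Finset.sum_congr rfl fun d hd => Finset.sum_congr rfl fun e _ => ?_
        rw [hτ1 d, hk, touchP_eq_tP]
        unfold thF
        rw [thX_singleton hΦ hε]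
  · refine Finset.sum_congr rfl fun d _ => ?_
    rw [hk]

end

end Crest.Agent.R122.Line285
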