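import Crest.Agent.R122.TreeLines_335
import Crest.Agent.R122.TreeMeas2_674

/-!
# Measurability of the marked lines of a collision tree (row 122, helper994)

* `finM` : measurable version of `fin` (equal to it on admissible parameters);
* `lineMM` : measurable version of `lineML`;
* `valid_at` : validity at an earlier time.
-/

set_option autoImplicit false

open MeasureTheory
open Crest.AnalysisR.Kinetic
open Crest.Agent.R122.Kin796 Crest.Agent.R122.Kin796.CTree Crest.Agent.R122.Tree674
open Crest.Agent.R122.PathFlow968 Crest.Agent.R122.EDefs602 Crest.Agent.R122.TreeLines335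

namespace Crest.Agent.R122.LineMeas994

noncomputable section

open scoped Classical

/-- measurable version of `fin` -/
def finM (Φ : Space3 → ℝ) (ε : ℝ) : ∀ P : CTree, PhasePoint → Par P → (Idx P → PhasePoint)
  | leaf => fun ℓ _ _ => ℓ
  | node l r => fun ℓ p => Sum.elim
        (Function.update (finM Φ ε l (inM Φ ε (ℓ, p.1)).1 p.2.1) (root l) ℓ)
        (Function.update (finM Φ ε r (inM Φ ε (ℓ, p.1)).2 p.2.2) (root r) (outLine ε ℓ p.1))

theorem finM_of_adm {Φ : Space3 → ℝ} (ε : ℝ) : ∀ {P : CTree} {ℓ : PhasePoint} {p : Par P},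
    Adm Φ P ℓ.2 p → finM Φ ε P ℓ p = fin Φ ε P ℓ p
  | leaf, _, _, _ => rfl
  | node l r, ℓ, p, h => by
      have h1 : Adm1 Φ ℓ.2 p.1 := h.1
      have e : inM Φ ε (ℓ, p.1) = inMap Φ ε ℓ p.1 := inM_of_adm (z := (ℓ, p.1)) h1
      show Sum.elim
        (Function.update (finM Φ ε l (inM Φ ε (ℓ, p.1)).1 p.2.1) (root l) ℓ)
        (Function.update (finM Φ ε r (inM Φ ε (ℓ, p.1)).2 p.2.2) (root r) (outLine ε ℓ p.1)) =
        Sum.elim
        (Function.update (fin Φ ε l (inMap Φ ε ℓ p.1).1 p.2.1) (root l) ℓ)
        (Function.update (fin Φ ε r (inMap Φ ε ℓ p.1).2 p.2.2) (root r) (outLine ε ℓ p.1))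
      rw [e, finM_of_adm ε (P := l) (ℓ := (inMap Φ ε ℓ p.1).1) h.2.1,
        finM_of_adm ε (P := r) (ℓ := (inMap Φ ε ℓ p.1).2) h.2.2]

section node

variable {Φ : Space3 → ℝ} (ε : ℝ) {l r : CTree} (ℓ : PhasePoint) (p : Par (node l r))

theorem finM_inl_root : finM Φ ε (node l r) ℓ p (Sum.inl (root l)) = ℓ := by
  show Function.update (finM Φ ε l (inM Φ ε (ℓ, p.1)).1 p.2.1) (root l) ℓ (root l) = ℓ
  rw [Function.update_self]

theorem finM_inl_ne {i : Idx l} (hi : i ≠ root l) :
    finM Φ ε (node l r) ℓ p (Sum.inl i) = finM Φ ε l (inM Φ ε (ℓ, p.1)).1 p.2.1 i := by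
  show Function.update (finM Φ ε l (inM Φ ε (ℓ, p.1)).1 p.2.1) (root l) ℓ i = _
  rw [Function.update_of_ne hi]

theorem finM_inr_root :
    finM Φ ε (node l r) ℓ p (Sum.inr (root r)) = outLine ε ℓ p.1 := by
  show Function.update (finM Φ ε r (inM Φ ε (ℓ, p.1)).2 p.2.2) (root r) (outLine ε ℓ p.1)
    (root r) = _
  rw [Function.update_self]

theorem finM_inr_ne {i : Idx r} (hi : i ≠ root r) :
    finM Φ ε (node l r) ℓ p (Sum.inr i) = finM Φ ε r (inM Φ ε (ℓ, p.1)).2 p.2.2 i := by
  show Function.update (finM Φ ε r (inM Φ ε (ℓ, p.1)).2 p.2.2) (root r) (outLine ε ℓ p.1) i = _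
  rw [Function.update_of_ne hi]

end node

theorem measurable_finM_apply {Φ : Space3 → ℝ} (hΦ : AdmissiblePotential Φ) (ε : ℝ)
    (P : CTree) : ∀ i : Idx P,
    Measurable fun z : PhasePoint × Par P => finM Φ ε P z.1 z.2 i := by
  induction P with
  | leaf => exact fun _ => measurable_fst
  | node l r ihl ihr =>
    have hp : Measurable fun z : PhasePoint × Par (node l r) => z.2 := measurable_snd
    have hz : Measurable fun z : PhasePoint × Par (node l r) => (z.1, z.2.1) :=
      measurable_fst.prodMk ((measurable_par1 l r).comp hp)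
    have hi := (measurable_inM hΦ ε).comp hz
    intro i
    cases i with
    | inl i =>
      by_cases h : i = root l
      · subst h
        simp_rw [finM_inl_root]
        exact measurable_fst
      · simp_rw [finM_inl_ne ε _ _ h]
        exact (ihl i).comp (hi.fst.prodMk ((measurable_parL l r).comp hp))
    | inr i =>
      by_cases h : i = root r
      · subst h
        have ho : Measurable ((fun z : PhasePoint × NodeP => outLine ε z.1 z.2) ∘
            fun z : PhasePoint × Par (node l r) => (z.1, z.2.1)) :=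
          (measurable_outLine2 ε).comp hz
        have he : (fun z : PhasePoint × Par (node l r) =>
            finM Φ ε (node l r) z.1 z.2 (Sum.inr (root r))) =
            ((fun z : PhasePoint × NodeP => outLine ε z.1 z.2) ∘
            fun z : PhasePoint × Par (node l r) => (z.1, z.2.1)) := by
          funext z
          exact finM_inr_root ε z.1 z.2
        rw [he]
        exact ho
      · simp_rw [finM_inr_ne ε _ _ h]
        exact (ihr i).comp (hi.snd.prodMk ((measurable_parR l r).comp hp))

theorem measurable_finM {Φ : Space3 → ℝ} (hΦ : AdmissiblePotential Φ) (ε : ℝ) (P : CTree) :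
    Measurable fun z : PhasePoint × Par P => finM Φ ε P z.1 z.2 :=
  measurable_pi_iff.2 fun i => measurable_finM_apply hΦ ε P i

theorem measurable_rel : ∀ (P : CTree) (i : Idx P), Measurable fun p : Par P => rel P p i
  | leaf, _ => measurable_const
  | node l r, Sum.inl i => by
      by_cases hi : i = root l
      · simp only [rel, Sum.elim_inl, if_pos hi]
        exact measurable_fst.comp (measurable_par1 l r)
      · simp only [rel, Sum.elim_inl, if_neg hi]
        exact (measurable_rel l i).comp (measurable_parL l r)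
  | node l r, Sum.inr i => by
      by_cases hi : i = root r
      · simp only [rel, Sum.elim_inr, if_pos hi]
        exact measurable_fst.comp (measurable_par1 l r)
      · simp only [rel, Sum.elim_inr, if_neg hi]
        exact (measurable_rel r i).comp (measurable_parR l r)

/-- measurable version of the marked line of a particle of a tree -/
def lineMM (Φ : Space3 → ℝ) (ε : ℝ) (P : CTree) (z : PhasePoint × Par P) (i : Idx P) : ML :=
  ((rel P z.2 i, onLine (finM Φ ε P z.1 z.2 i) (rel P z.2 i)), mk P i)

theorem lineMM_of_adm {Φ : Space3 → ℝ} (ε : ℝ) {P : CTree} {z : PhasePoint × Par P}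
    (h : Adm Φ P z.1.2 z.2) (i : Idx P) : lineMM Φ ε P z i = lineML Φ ε P z i := by
  unfold lineMM lineML
  rw [finM_of_adm ε h]

theorem measurable_lineMM {Φ : Space3 → ℝ} (hΦ : AdmissiblePotential Φ) (ε : ℝ) (P : CTree)
    (i : Idx P) : Measurable fun z : PhasePoint × Par P => lineMM Φ ε P z i := by
  unfold lineMM
  have hr : Measurable fun z : PhasePoint × Par P => rel P z.2 i :=
    (measurable_rel P i).comp measurable_snd
  refine Measurable.prodMk (hr.prodMk ?_) measurable_const
  exact measurable_onLine2.comp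
    (((measurable_pi_apply i).comp (measurable_finM hΦ ε P)).prodMk hr)


/-- **Validity at an earlier time**: all exit times are before `u` iff the top one is. -/
theorem valid_at {Φ : Space3 → ℝ} {ε : ℝ} : ∀ {P : CTree} {T u : ℝ} {v : Space3} {p : Par P},
    0 < u → u ≤ T → (Valid Φ ε P u v p ↔ Valid Φ ε P T v p ∧ rel P p (root P) < u)
  | leaf, T, u, v, p, h0, hT =>
      ⟨fun _ => ⟨⟨trivial, trivial⟩, h0⟩, fun _ => ⟨trivial, trivial⟩⟩
  | node l r, T, u, v, p, h0, hT => by
      rw [rel_root_node]
      constructor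
      · intro h
        exact ⟨⟨h.1, h.2.1.trans_le hT, h.2.2⟩, h.2.1⟩
      · intro h
        exact ⟨h.1.1, h.2, h.1.2.2⟩

end

end Crest.Agent.R122.LineMeas994
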