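import Crest.Agent.R122.KinB_796

/-!
Backward Volterra closing with Gaussian weights of decreasing rate (row 122, section E, helper796).
-/

set_option autoImplicit false
set_option linter.unusedSectionVars false
set_option linter.unusedVariables false
open MeasureTheory ProbabilityTheory Set
open scoped ENNReal

noncomputable section

namespace Crest.Agent.R122.Volt796

open Crest.Agent.R122.Kin796

theorem mul_exp_neg_sq_le {z : ℝ} (hz : 0 ≤ z) : z * Real.exp (-z ^ 2) ≤ 1 := by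
  have h1 : z ≤ Real.exp (z ^ 2) := by
    have := Real.add_one_le_exp (z ^ 2)
    nlinarith [sq_nonneg (z - 1)]
  calc z * Real.exp (-z ^ 2) ≤ Real.exp (z ^ 2) * Real.exp (-z ^ 2) :=
        mul_le_mul_of_nonneg_right h1 (Real.exp_pos _).le
    _ = 1 := by rw [← Real.exp_add]; simp

/-- the singular kernel -/
def sk (κ u : ℝ) : ℝ := 1 + 1 / Real.sqrt (κ * u)

theorem one_add_mul_exp_le {κ u r : ℝ} (hκ : 0 < κ) (hu : 0 < u) (hr : 0 ≤ r) :
    (1 + r) * Real.exp (-(κ * u * r ^ 2)) ≤ sk κ u := by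
  have hs : 0 < Real.sqrt (κ * u) := Real.sqrt_pos.2 (by positivity)
  have h1 : Real.exp (-(κ * u * r ^ 2)) ≤ 1 := Real.exp_le_one_iff.2 (by
    have : 0 ≤ κ * u * r ^ 2 := by positivity
    linarith)
  have h2 : r * Real.exp (-(κ * u * r ^ 2)) ≤ 1 / Real.sqrt (κ * u) := by
    have h3 := mul_exp_neg_sq_le (z := Real.sqrt (κ * u) * r) (by positivity)
    have h4 : (Real.sqrt (κ * u) * r) ^ 2 = κ * u * r ^ 2 := by
      rw [mul_pow, Real.sq_sqrt (by positivity)]
    rw [h4] at h3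
    rw [le_div_iff₀ hs]
    nlinarith
  unfold sk
  nlinarith

/-- the kernel integral -/
def skI (κ μ : ℝ) : ℝ := 1 / μ + (Real.sqrt κ)⁻¹ * ((1 / μ) ^ (1 / 2 : ℝ) * Real.Gamma (1 / 2))


theorem lintegral_sk {κ μ : ℝ} (hκ : 0 < κ) (hμ : 0 < μ) :
    ∫⁻ u in Ioi (0 : ℝ), ENNReal.ofReal (sk κ u * Real.exp (-(μ * u))) =
      ENNReal.ofReal (skI κ μ) := by
  have hG := Real.Gamma_pos_of_pos (show (0:ℝ) < 1 / 2 by norm_num)
  have hI1 : IntegrableOn (fun u : ℝ => Real.exp (-(μ * u))) (Ioi 0) := by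
    have := integrableOn_exp_mul_Ioi (a := -μ) (by linarith) 0
    simpa [neg_mul] using this
  have hI2 : IntegrableOn (fun u : ℝ => u ^ ((1 / 2 : ℝ) - 1) * Real.exp (-(μ * u))) (Ioi 0) := by
    have := integrableOn_rpow_mul_exp_neg_mul_rpow (s := (1 / 2 : ℝ) - 1) (p := 1) (b := μ)
      (by norm_num) one_pos hμ
    simpa [neg_mul] using this
  have hE1 : ∫ u in Ioi (0 : ℝ), Real.exp (-(μ * u)) = 1 / μ := by
    have := integral_exp_mul_Ioi (a := -μ) (by linarith) 0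
    simp only [neg_mul, mul_zero, Real.exp_zero] at this
    rw [this]; field_simp
  have hE2 := Real.integral_rpow_mul_exp_neg_mul_Ioi (a := 1 / 2) (r := μ) (by norm_num) hμ
  have heq : ∀ u ∈ Ioi (0 : ℝ), sk κ u * Real.exp (-(μ * u)) = Real.exp (-(μ * u)) +
      (Real.sqrt κ)⁻¹ * (u ^ ((1 / 2 : ℝ) - 1) * Real.exp (-(μ * u))) := by
    intro u hu
    have hu' : (0 : ℝ) < u := hu
    unfold sk
    rw [Real.sqrt_mul hκ.le, show ((1 / 2 : ℝ) - 1) = -(1 / 2) by norm_num,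
      Real.rpow_neg hu'.le, ← Real.sqrt_eq_rpow]
    rw [one_div, mul_inv]
    ring
  have hI : IntegrableOn (fun u : ℝ => sk κ u * Real.exp (-(μ * u))) (Ioi 0) := by
    refine IntegrableOn.congr_fun (hI1.add (hI2.const_mul (Real.sqrt κ)⁻¹)) ?_ measurableSet_Ioi
    intro u hu
    exact (heq u hu).symm
  rw [← ofReal_integral_eq_lintegral_ofReal hI]
  · congr 1
    rw [setIntegral_congr_fun measurableSet_Ioi heq, integral_add hI1 (hI2.const_mul _),
      integral_const_mul, hE1, hE2]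
    rfl
  · refine (ae_restrict_iff' measurableSet_Ioi).2 (Filter.Eventually.of_forall fun u hu => ?_)
    have hu' : (0 : ℝ) < u := hu
    show (0 : ℝ) ≤ sk κ u * Real.exp (-(μ * u))
    unfold sk; positivity

theorem tendsto_skI {κ : ℝ} (hκ : 0 < κ) :
    Filter.Tendsto (skI κ) Filter.atTop (nhds 0) := by
  have h1 : Filter.Tendsto (fun μ : ℝ => 1 / μ) Filter.atTop (nhds 0) := by
    simpa using tendsto_inv_atTop_zero (𝕜 := ℝ)
  have h2 : Filter.Tendsto (fun μ : ℝ => (1 / μ) ^ (1 / 2 : ℝ)) Filter.atTop (nhds 0) := by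
    have := (Real.continuousAt_rpow_const 0 (1 / 2 : ℝ) (Or.inr (by norm_num))).tendsto.comp h1
    rw [Real.zero_rpow (by norm_num)] at this
    exact this
  have h3 := h1.add ((h2.mul_const (Real.Gamma (1 / 2))).const_mul (Real.sqrt κ)⁻¹)
  have h4 : skI κ = fun μ : ℝ => 1 / μ + (Real.sqrt κ)⁻¹ *
      ((1 / μ) ^ (1 / 2 : ℝ) * Real.Gamma (1 / 2)) := rfl
  rw [h4]
  rw [zero_mul, mul_zero, add_zero] at h3
  exact h3

theorem exists_mu {κ C : ℝ} (hκ : 0 < κ) (hC : 0 ≤ C) :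
    ∃ μ : ℝ, 0 < μ ∧ C * skI κ μ ≤ 1 / 2 := by
  have h1 : Filter.Tendsto (fun μ => C * skI κ μ) Filter.atTop (nhds (C * 0)) :=
    (tendsto_skI hκ).const_mul C
  rw [mul_zero] at h1
  obtain ⟨μ, h2, h3⟩ := ((h1.eventually_le_const (by norm_num : (0:ℝ) < 1 / 2)).and
    (Filter.eventually_gt_atTop 0)).exists
  exact ⟨μ, h3, h2⟩

variable {E : Type*} [NormedAddCommGroup E] [MeasurableSpace E]


end Crest.Agent.R122.Volt796
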