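import Crest.Agent.R122.FluxQ_663
import Crest.Agent.R122.Scat5_818
import Crest.Agent.R122.KinInst_796
import Crest.Agent.R122.Volt_796

-- ▼ part R122/FluxPost_796
section

/-!
Outgoing variables with Gaussian weights, and the one-contact (NS) flux bound (row 122, section E,
helper796).
-/

set_option autoImplicit false
open MeasureTheory ProbabilityTheory Set
open Crest.AnalysisR.Kinetic
open Crest.Agent.R122.Boltz814 Crest.Agent.R122.Kin416 Crest.Agent.R122.Disc416
open scoped ENNReal

noncomputable section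

namespace Crest.Agent.R122.Volt796

open Crest.Agent.R122.Kin796 Crest.Agent.R122.Flux663 Crest.Agent.R122.Scat818

variable {Φ : Space3 → ℝ}

/-- The total scattering map of 663 is the one of 818, hence measurable. -/
theorem measurable_scatE (hΦ : AdmissiblePotential Φ) : Measurable (scatE Φ) := by
  have h : scatE Φ = Scat818.scat Φ := by
    funext p
    by_cases hp : p ∈ FS
    · rw [scatE_of_mem hp, scat_of_gincid hΦ ⟨hp.2, hp.1⟩]
    · rw [scatE_of_not_mem hp, scat_of_not (fun h => hp ⟨h.1.2, h.1.1⟩)]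
  rw [h]
  exact measurable_scat hΦ

theorem gau_anti {γ b : ℝ} (h : γ ≤ b) (v : Space3) : gau b v ≤ gau γ v := by
  unfold gau
  refine ENNReal.ofReal_le_ofReal (Real.exp_le_exp.2 ?_)
  nlinarith [sq_nonneg ‖v‖]

theorem gau_post (S : ScatFacts Φ) (γ : ℝ) {v w b : Space3} (hvw : v ≠ w)
    (hb : b ∈ impactDisc (v - w)) :
    gau γ (postVelocities Φ b v w).1 * gau γ (postVelocities Φ b v w).2 = gau γ v * gau γ w := by
  unfold gau
  rw [← ENNReal.ofReal_mul (Real.exp_pos _).le, ← ENNReal.ofReal_mul (Real.exp_pos _).le,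
    ← Real.exp_add, ← Real.exp_add]
  have he := energy_post S hvw hb
  have he' : -γ * ‖(postVelocities Φ b v w).1‖ ^ 2 + -γ * ‖(postVelocities Φ b v w).2‖ ^ 2 =
      -γ * ‖v‖ ^ 2 + -γ * ‖w‖ ^ 2 := by
    rw [← mul_add, he, mul_add]
  rw [he']

/-- **Outgoing variables with Gaussian weights**: the law of the outgoing pair of a collision of a
line of weight `gau γ` with a partner of weight `gau b`, `γ ≤ b`, is at most that of an incoming pair
of weight `gau γ`. -/
theorem lintegral_post_le (hΦ : AdmissiblePotential Φ) {γ b : ℝ} (hγb : γ ≤ b)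
    {F : Space3 × Space3 → ℝ≥0∞} (hF : Measurable F) :
    ∫⁻ v, ∫⁻ w, ENNReal.ofReal ‖v - w‖ * ∫⁻ β in impactDisc (v - w),
        gau γ v * gau b w * F (postVelocities Φ β v w) ∂μHE[2] ≤
      ∫⁻ v, ∫⁻ w, ENNReal.ofReal ‖v - w‖ * (ENNReal.ofReal Real.pi *
        (gau γ v * gau γ w * F (v, w))) := by
  have S := scatFacts hΦ
  have hm := measurable_scatE hΦ
  have hG : Measurable (fun q : (Space3 × Space3) × (Space3 × Space3) =>
      gau γ q.1.1 * gau b q.1.2 * F q.2) :=
    (((measurable_gau γ).comp (measurable_fst.comp measurable_fst)).mul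
      ((measurable_gau b).comp (measurable_snd.comp measurable_fst))).mul (hF.comp measurable_snd)
  have h1 := lintegral_exchange_vw hΦ hm hG
  simp only at h1
  rw [h1]
  refine lintegral_mono fun v => lintegral_mono fun w => ?_
  by_cases hvw : v = w
  · simp [hvw]
  refine mul_le_mul' le_rfl ?_
  calc ∫⁻ β in impactDisc (v - w), gau γ (postVelocities Φ β v w).1 *
        gau b (postVelocities Φ β v w).2 * F (v, w) ∂μHE[2]
      ≤ ∫⁻ β in impactDisc (v - w), gau γ v * gau γ w * F (v, w) ∂μHE[2] := by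
        refine setLIntegral_mono' (measurableSet_impactDisc _) fun β hβ => ?_
        rw [← gau_post S γ hvw hβ]
        exact mul_le_mul' (mul_le_mul' le_rfl (gau_anti hγb _)) le_rfl
    _ = _ := by
        rw [setLIntegral_const, measure_impactDisc (sub_ne_zero.mpr hvw), mul_comm]

theorem lintegral_in_left (γ : ℝ) {φ : Space3 → ℝ≥0∞} (_hφ : Measurable φ) :
    ∫⁻ v, ∫⁻ w, ENNReal.ofReal ‖v - w‖ * (ENNReal.ofReal Real.pi *
        (gau γ v * gau γ w * φ v)) = ∫⁻ v : Space3, φ v * (gau γ v * nuE (gau γ) v) := by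
  refine lintegral_congr fun v => ?_
  have hI : Measurable (fun w : Space3 => ENNReal.ofReal ‖v - w‖ * gau γ w) :=
    (by fun_prop : Measurable (fun w : Space3 => ENNReal.ofReal ‖v - w‖)).mul (measurable_gau γ)
  unfold nuE
  rw [← lintegral_const_mul _ hI, ← lintegral_const_mul _ (hI.const_mul _),
    ← lintegral_const_mul _ ((hI.const_mul _).const_mul _)]
  refine lintegral_congr fun w => ?_
  ring

theorem lintegral_in_right (γ : ℝ) {φ : Space3 → ℝ≥0∞} (hφ : Measurable φ) :
    ∫⁻ v : Space3, ∫⁻ w, ENNReal.ofReal ‖v - w‖ * (ENNReal.ofReal Real.pi *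
        (gau γ v * gau γ w * φ w)) = ∫⁻ v : Space3, φ v * (gau γ v * nuE (gau γ) v) := by
  rw [lintegral_lintegral_swap, ← lintegral_in_left γ hφ]
  · refine lintegral_congr fun v => lintegral_congr fun w => ?_
    rw [norm_sub_rev, mul_comm (gau γ w) (gau γ v)]
  · refine Measurable.aemeasurable ?_
    have h1 : Measurable (fun p : Space3 × Space3 => ENNReal.ofReal ‖p.1 - p.2‖) := by fun_prop
    exact h1.mul (measurable_const.mul ((((measurable_gau γ).comp measurable_fst).mul
      ((measurable_gau γ).comp measurable_snd)).mul (hφ.comp measurable_snd)))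

theorem lintegral_nuE_le {γ₀ γ : ℝ} (hγ₀ : 0 < γ₀) (h : γ₀ ≤ γ) (φ : Space3 → ℝ≥0∞) :
    ∫⁻ v : Space3, φ v * (gau γ v * nuE (gau γ) v) ≤
      CG γ₀ * ∫⁻ v : Space3, ENNReal.ofReal (1 + ‖v‖) * (gau γ v * φ v) := by
  have h1 : ∀ v : Space3, φ v * (gau γ v * nuE (gau γ) v) ≤
      CG γ₀ * (ENNReal.ofReal (1 + ‖v‖) * (gau γ v * φ v)) := by
    intro v
    calc φ v * (gau γ v * nuE (gau γ) v) ≤ φ v * (gau γ v * (CG γ₀ * ENNReal.ofReal (1 + ‖v‖))) :=
          mul_le_mul' le_rfl (mul_le_mul' le_rfl ((nuE_gau_le γ v).trans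
            (mul_le_mul' (CG_antitone h) le_rfl)))
      _ = _ := by ring
  refine (lintegral_mono h1).trans ?_
  rw [lintegral_const_mul' _ _ (CG_lt_top hγ₀).ne]

/-- The integral of a function of the incoming and outgoing velocities of a contact of a line of
weight `gau γ` with a partner of weight `gau b`. -/
def contact (Φ : Space3 → ℝ) (γ b : ℝ) (F : (Space3 × Space3) × (Space3 × Space3) → ℝ≥0∞) : ℝ≥0∞ :=
  ∫⁻ v, ∫⁻ w, ENNReal.ofReal ‖v - w‖ * ∫⁻ β in impactDisc (v - w),
        gau γ v * gau b w * F ((v, w), postVelocities Φ β v w) ∂μHE[2]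

theorem contact_in_le (_hΦ : AdmissiblePotential Φ) {γ b : ℝ} (hγb : γ ≤ b)
    (F : Space3 × Space3 → ℝ≥0∞) :
    contact Φ γ b (fun p => F p.1) ≤ ∫⁻ v, ∫⁻ w, ENNReal.ofReal ‖v - w‖ * (ENNReal.ofReal Real.pi *
        (gau γ v * gau γ w * F (v, w))) := by
  unfold contact
  refine lintegral_mono fun v => lintegral_mono fun w => ?_
  by_cases hvw : v = w
  · simp [hvw]
  refine mul_le_mul' le_rfl ?_
  simp only
  rw [setLIntegral_const, measure_impactDisc (sub_ne_zero.mpr hvw), mul_comm]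
  exact mul_le_mul' le_rfl (mul_le_mul' (mul_le_mul' le_rfl (gau_anti hγb _)) le_rfl)

theorem contact_out_le (hΦ : AdmissiblePotential Φ) {γ b : ℝ} (hγb : γ ≤ b)
    {F : Space3 × Space3 → ℝ≥0∞} (hF : Measurable F) :
    contact Φ γ b (fun p => F p.2) ≤ ∫⁻ v, ∫⁻ w, ENNReal.ofReal ‖v - w‖ * (ENNReal.ofReal Real.pi *
        (gau γ v * gau γ w * F (v, w))) :=
  lintegral_post_le hΦ hγb hF

/-- moment of a velocity function with weight `(1 + ‖v‖) gau γ v`. -/
def fluxM (γ : ℝ) (φ : Space3 → ℝ≥0∞) : ℝ≥0∞ :=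
  ∫⁻ v : Space3, ENNReal.ofReal (1 + ‖v‖) * (gau γ v * φ v)

section
variable {γ₀ γ b : ℝ} {φ : Space3 → ℝ≥0∞}


theorem contact_w (hΦ : AdmissiblePotential Φ) (hγ₀ : 0 < γ₀) (h : γ₀ ≤ γ) (hγb : γ ≤ b)
    (hφ : Measurable φ) : contact Φ γ b (fun p => φ p.1.2) ≤ CG γ₀ * fluxM γ φ :=
  ((contact_in_le hΦ hγb (fun q => φ q.2)).trans (lintegral_in_right γ hφ).le).trans
    (lintegral_nuE_le hγ₀ h φ)

theorem contact_v' (hΦ : AdmissiblePotential Φ) (hγ₀ : 0 < γ₀) (h : γ₀ ≤ γ) (hγb : γ ≤ b)
    (hφ : Measurable φ) : contact Φ γ b (fun p => φ p.2.1) ≤ CG γ₀ * fluxM γ φ :=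
  ((contact_out_le hΦ hγb (F := fun q => φ q.1) (hφ.comp measurable_fst)).trans
    (lintegral_in_left γ hφ).le).trans (lintegral_nuE_le hγ₀ h φ)

theorem contact_w' (hΦ : AdmissiblePotential Φ) (hγ₀ : 0 < γ₀) (h : γ₀ ≤ γ) (hγb : γ ≤ b)
    (hφ : Measurable φ) : contact Φ γ b (fun p => φ p.2.2) ≤ CG γ₀ * fluxM γ φ :=
  ((contact_out_le hΦ hγb (F := fun q => φ q.2) (hφ.comp measurable_snd)).trans
    (lintegral_in_right γ hφ).le).trans (lintegral_nuE_le hγ₀ h φ)

end

end Crest.Agent.R122.Volt796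
end
end

-- ▼ part R122/OCout_796

/-!
Measure-level one-contact step, outgoing lines (row 122, section E, block (OC3)(b), helper796).

A contact at range `ε` of a line `l` (velocity `v`) with a root `c` (position `y` at the entrance time
`s`, velocity `u`) and impact parameter `b ∈ impactDisc (v - u)` (position of `l` at time `s`:
`y + ε • entrancePoint b (v - u)`) creates the lines `l'`, `c'` (outgoing), `c`, `l` (undeflected), all
of them born at the exit time `s + ε T`.
-/

set_option autoImplicit false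
set_option linter.unusedVariables false
open MeasureTheory ProbabilityTheory Set
open Crest.AnalysisR.Kinetic
open Crest.Agent.R122.Boltz814 Crest.Agent.R122.Kin416 Crest.Agent.R122.Disc416
open scoped ENNReal

noncomputable section

namespace Crest.Agent.R122.OCout796

open Crest.Agent.R122.Kin796 Crest.Agent.R122.Flux663 Crest.Agent.R122.Scat818
open Crest.Agent.R122.Volt796

/-- Contact data `(v, u, b)`. -/
abbrev CD : Type := Space3 × Space3 × Space3

/-- A line: birth time, position, velocity. -/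
abbrev Ln : Type := ℝ × Space3 × Space3

/-- Gaussian-free mass of a function on lines with velocity `v` and birth after `τ`. -/
def lineM (τ : ℝ) (F : Ln → ℝ≥0∞) (v : Space3) : ℝ≥0∞ :=
  ∫⁻ s in Ioi τ, ∫⁻ y : Space3, F (s, y, v)

theorem measurable_lineM (τ : ℝ) {F : Ln → ℝ≥0∞} (hF : Measurable F) : Measurable (lineM τ F) := by
  unfold lineM
  refine Measurable.lintegral_prod_right'
    (f := fun p : Space3 × ℝ => ∫⁻ y : Space3, F (p.2, y, p.1)) ?_
  refine Measurable.lintegral_prod_right'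
    (f := fun p : (Space3 × ℝ) × Space3 => F (p.1.2, p.2, p.1.1)) ?_
  exact hF.comp ((measurable_snd.comp measurable_fst).prodMk
    (measurable_snd.prodMk (measurable_fst.comp measurable_fst)))

/-- abstract translation lemma -/
theorem lintegral_translate_le {Q : Type*} [MeasurableSpace Q] (μ : Measure Q) [SFinite μ]
    {T : Q → ℝ} {A V : Q → Space3} (hT : Measurable T) (hT0 : ∀ q, 0 ≤ T q) (hA : Measurable A)
    (hV : Measurable V) {W : Q → ℝ≥0∞} (hW : Measurable W) {F : Ln → ℝ≥0∞} (hF : Measurable F)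
    (τ t' : ℝ) :
    ∫⁻ s in Ioc τ t', ∫⁻ y : Space3, ∫⁻ q, W q * F (s + T q, y + A q, V q) ∂μ ≤
      ∫⁻ q, W q * lineM τ F (V q) ∂μ := by
  have hm : Measurable (fun p : (ℝ × Space3) × Q =>
      W p.2 * F (p.1.1 + T p.2, p.1.2 + A p.2, V p.2)) := by
    refine (hW.comp measurable_snd).mul (hF.comp ?_)
    exact ((measurable_fst.comp measurable_fst).add (hT.comp measurable_snd)).prodMk
      (((measurable_snd.comp measurable_fst).add (hA.comp measurable_snd)).prodMk
        (hV.comp measurable_snd))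
  have h1 : ∀ s : ℝ, ∫⁻ y : Space3, ∫⁻ q, W q * F (s + T q, y + A q, V q) ∂μ =
      ∫⁻ q, (∫⁻ y : Space3, W q * F (s + T q, y + A q, V q)) ∂μ := by
    intro s
    refine lintegral_lintegral_swap (f := fun y q => W q * F (s + T q, y + A q, V q)) ?_
    exact (hm.comp ((measurable_const.prodMk measurable_fst).prodMk measurable_snd)).aemeasurable
  simp only [h1]
  have hm2 : Measurable (fun p : ℝ × Q =>
      ∫⁻ y : Space3, W p.2 * F (p.1 + T p.2, y + A p.2, V p.2)) :=
    Measurable.lintegral_prod_right' (f := fun p : (ℝ × Q) × Space3 =>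
      W p.1.2 * F (p.1.1 + T p.1.2, p.2 + A p.1.2, V p.1.2))
      (hm.comp (((measurable_fst.comp measurable_fst).prodMk measurable_snd).prodMk
        (measurable_snd.comp measurable_fst)))
  rw [lintegral_lintegral_swap hm2.aemeasurable]
  refine lintegral_mono fun q => ?_
  have h2 : ∀ s : ℝ, ∫⁻ y : Space3, W q * F (s + T q, y + A q, V q) =
      W q * ∫⁻ y : Space3, F (s + T q, y, V q) := by
    intro s
    have hFq : Measurable (fun y : Space3 => F (s + T q, y, V q)) :=
      hF.comp (measurable_const.prodMk (measurable_id.prodMk measurable_const))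
    rw [lintegral_const_mul (W q) (f := fun y => F (s + T q, y + A q, V q))
      (hFq.comp (measurable_id.add_const (A q)))]
    congr 1
    exact lintegral_add_right_eq_self (fun y => F (s + T q, y, V q)) (A q)
  simp only [h2]
  have hFs : Measurable (fun s : ℝ => ∫⁻ y : Space3, F (s, y, V q)) :=
    Measurable.lintegral_prod_right' (f := fun p : ℝ × Space3 => F (p.1, p.2, V q))
      (hF.comp (measurable_fst.prodMk (measurable_snd.prodMk measurable_const)))
  rw [lintegral_const_mul (W q) (f := fun s => ∫⁻ y : Space3, F (s + T q, y, V q))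
    (hFs.comp (measurable_id.add_const (T q)))]
  refine mul_le_mul' le_rfl ?_
  unfold lineM
  rw [← lintegral_indicator measurableSet_Ioc, ← lintegral_indicator measurableSet_Ioi,
    ← lintegral_add_right_eq_self (fun s => (Ioi τ).indicator
      (fun s => ∫⁻ y : Space3, F (s, y, V q)) s) (T q)]
  refine lintegral_mono fun s => ?_
  by_cases hs : s ∈ Ioc τ t'
  · rw [indicator_of_mem hs, indicator_of_mem (show s + T q ∈ Ioi τ by
      have := hs.1; have := hT0 q; simp only [mem_Ioi]; linarith)]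
  · rw [indicator_of_notMem hs]; exact zero_le

/-- Reference measure on planar contact data. -/
def muQ : Measure (Space3 × (Space3 × Plane)) :=
  (volume : Measure Space3).prod ((volume : Measure Space3).prod
    (volume.restrict (Metric.ball (0 : Plane) 1)))

instance : SFinite muQ := by unfold muQ; infer_instance

/-- planar contact data to contact data, `(u, (v, p)) ↦ (v, u, b)` -/
def toCD (q : Space3 × (Space3 × Plane)) : CD := (q.2.1, q.1, frameMap (q.2.1 - q.1) q.2.2)

theorem measurable_toCD : Measurable toCD := by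
  unfold toCD
  refine (measurable_fst.comp measurable_snd).prodMk (measurable_fst.prodMk ?_)
  exact measurable_frameMap.comp (((measurable_fst.comp measurable_snd).sub measurable_fst).prodMk
    (measurable_snd.comp measurable_snd))

theorem measurable_rateQ : Measurable (fun q : Space3 × (Space3 × Plane) =>
    ENNReal.ofReal ‖q.2.1 - q.1‖) :=
  ((measurable_fst.comp measurable_snd).sub measurable_fst).norm.ennreal_ofReal

theorem lintegral_muQ' {G : Space3 × (Space3 × Plane) → ℝ≥0∞} (hG : Measurable G) :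
    ∫⁻ q, G q ∂muQ = ∫⁻ u : Space3, ∫⁻ v : Space3, ∫⁻ p in Metric.ball (0 : Plane) 1,
      G (u, (v, p)) := by
  unfold muQ
  rw [lintegral_prod _ hG.aemeasurable]
  refine lintegral_congr fun u => ?_
  have hm' : Measurable (fun q : Space3 × Plane => G (u, q)) :=
    hG.comp (measurable_const.prodMk measurable_id)
  exact lintegral_prod _ hm'.aemeasurable

theorem lintegral_muQ {H : CD → ℝ≥0∞} (hH : Measurable H) :
    ∫⁻ u : Space3, ∫⁻ v : Space3, ENNReal.ofReal ‖v - u‖ * ∫⁻ b in impactDisc (v - u),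
      H (v, u, b) ∂μHE[2] =
    ∫⁻ q, ENNReal.ofReal ‖q.2.1 - q.1‖ * H (toCD q) ∂muQ := by
  have hm : Measurable (fun q : Space3 × (Space3 × Plane) =>
      ENNReal.ofReal ‖q.2.1 - q.1‖ * H (toCD q)) :=
    measurable_rateQ.mul (hH.comp measurable_toCD)
  rw [lintegral_muQ' hm]
  refine lintegral_congr fun u => lintegral_congr fun v => ?_
  have hm'' : Measurable (fun p : Plane => H (toCD (u, (v, p)))) :=
    hH.comp (measurable_toCD.comp (measurable_const.prodMk
      (measurable_const.prodMk measurable_id)))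
  have h1 := norm_mul_lintegral_impactDisc (v - u) (fun b => H (v, u, b))
  have h2 : ∫⁻ p in Metric.ball (0 : Plane) 1, ENNReal.ofReal ‖v - u‖ * H (toCD (u, (v, p))) =
      ENNReal.ofReal ‖v - u‖ * ∫⁻ p in Metric.ball (0 : Plane) 1, H (toCD (u, (v, p))) :=
    lintegral_const_mul _ hm''
  exact h1.trans h2.symm

/-- **Translation in the contact time and contact point.** -/
theorem lintegral_shift_le {T : CD → ℝ} {A V : CD → Space3} (hT : Measurable T)
    (hT0 : ∀ q, 0 ≤ T q) (hA : Measurable A) (hV : Measurable V) {W : CD → ℝ≥0∞}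
    (hW : Measurable W) {F : Ln → ℝ≥0∞} (hF : Measurable F) (τ t' : ℝ) :
    ∫⁻ s in Ioc τ t', ∫⁻ y : Space3, ∫⁻ u : Space3, ∫⁻ v : Space3,
        ENNReal.ofReal ‖v - u‖ * ∫⁻ b in impactDisc (v - u),
          W (v, u, b) * F (s + T (v, u, b), y + A (v, u, b), V (v, u, b)) ∂μHE[2] ≤
      ∫⁻ u : Space3, ∫⁻ v : Space3, ENNReal.ofReal ‖v - u‖ * ∫⁻ b in impactDisc (v - u),
          W (v, u, b) * lineM τ F (V (v, u, b)) ∂μHE[2] := by
  have hL := measurable_lineM τ hF
  have h1 : ∀ (s : ℝ) (y : Space3), ∫⁻ u : Space3, ∫⁻ v : Space3,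
        ENNReal.ofReal ‖v - u‖ * ∫⁻ b in impactDisc (v - u),
          W (v, u, b) * F (s + T (v, u, b), y + A (v, u, b), V (v, u, b)) ∂μHE[2] =
      ∫⁻ q, (ENNReal.ofReal ‖q.2.1 - q.1‖ * W (toCD q)) *
        F (s + T (toCD q), y + A (toCD q), V (toCD q)) ∂muQ := by
    intro s y
    have hm : Measurable (fun q : CD => W q * F (s + T q, y + A q, V q)) :=
      hW.mul (hF.comp ((hT.const_add s).prodMk ((hA.const_add y).prodMk hV)))
    rw [lintegral_muQ hm]
    exact lintegral_congr fun q => (mul_assoc _ _ _).symm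
  simp only [h1]
  rw [lintegral_muQ (H := fun q => W q * lineM τ F (V q)) (hW.mul (hL.comp hV))]
  have hn := measurable_rateQ
  refine (lintegral_translate_le muQ (hT.comp measurable_toCD) (fun q => hT0 _)
    (hA.comp measurable_toCD) (hV.comp measurable_toCD)
    (W := fun q => ENNReal.ofReal ‖q.2.1 - q.1‖ * W (toCD q))
    (hn.mul (hW.comp measurable_toCD)) hF τ t').trans (le_of_eq ?_)
  exact lintegral_congr fun q => mul_assoc _ _ _

/-! ### The four lines of a contact -/

/-- `(b, g)` of contact data. -/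
def relB (q : CD) : Space3 × Space3 := (q.2.2, q.1 - q.2.1)

/-- duration of the collision at range `ε` -/
def outT (Φ : Space3 → ℝ) (ε : ℝ) (q : CD) : ℝ := ε * tauM Φ (relB q)

/-- velocity of the centre of mass -/
def cmvel (q : CD) : Space3 := (1 / 2 : ℝ) • (q.1 + q.2.1)

/-- position of the centre of mass at the exit time, relative to the position of `c` at entrance -/
def outCM (Φ : Space3 → ℝ) (ε : ℝ) (q : CD) : Space3 :=
  (ε / 2) • entrancePoint (relB q).1 (relB q).2 + outT Φ ε q • cmvel q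

/-- outgoing line of the tagged particle -/
def lineL' (Φ : Space3 → ℝ) (ε s : ℝ) (y : Space3) (q : CD) : Ln :=
  (s + outT Φ ε q, y + (outCM Φ ε q + (ε / 2) • (Scat818.exitM Φ (relB q)).1),
    cmvel q + (1 / 2 : ℝ) • (Scat818.exitM Φ (relB q)).2)

/-- outgoing line of the partner -/
def lineC' (Φ : Space3 → ℝ) (ε s : ℝ) (y : Space3) (q : CD) : Ln :=
  (s + outT Φ ε q, y + (outCM Φ ε q - (ε / 2) • (Scat818.exitM Φ (relB q)).1),
    cmvel q - (1 / 2 : ℝ) • (Scat818.exitM Φ (relB q)).2)

/-- undeflected partner, born at the exit time -/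
def lineC (Φ : Space3 → ℝ) (ε s : ℝ) (y : Space3) (q : CD) : Ln :=
  (s + outT Φ ε q, y + outT Φ ε q • q.2.1, q.2.1)


variable {Φ : Space3 → ℝ}

theorem measurable_relB : Measurable relB := by unfold relB; fun_prop

theorem measurable_outT (hΦ : AdmissiblePotential Φ) (ε : ℝ) : Measurable (outT Φ ε) :=
  ((measurable_tauM hΦ).comp measurable_relB).const_mul ε

theorem outT_nonneg {ε : ℝ} (hε : 0 ≤ ε) (q : CD) : 0 ≤ outT Φ ε q :=
  mul_nonneg hε (tauM_nonneg _)

theorem measurable_cmvel : Measurable cmvel := by unfold cmvel; fun_prop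

theorem measurable_ent : Measurable (fun q : CD => entrancePoint (relB q).1 (relB q).2) :=
  measurable_entrancePoint.comp measurable_relB

theorem measurable_outCM (hΦ : AdmissiblePotential Φ) (ε : ℝ) : Measurable (outCM Φ ε) :=
  (measurable_ent.const_smul (ε / 2)).add ((measurable_outT hΦ ε).smul measurable_cmvel)

theorem measurable_exB (hΦ : AdmissiblePotential Φ) : Measurable (fun q : CD => Scat818.exitM Φ (relB q)) :=
  (Scat818.measurable_exitM hΦ).comp measurable_relB

theorem exitM_snd (hΦ : AdmissiblePotential Φ) {b g : Space3} (hb : b ∈ impactDisc g)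
    (hg : g ≠ 0) : (Scat818.exitM Φ (b, g)).2 = exitVelocity Φ b g := by
  by_cases h : (b, g) ∈ passSet Φ
  · rw [exitM_of_mem hΦ h]
  · rw [exitM_of_not hΦ h]
    have h2 : ¬ ∃ τ, HasExit Φ (Scat818.inc b g) τ := fun h' => h ⟨⟨hb, hg⟩, h'⟩
    rw [exitVelocity_of_not hΦ (reg_entrance Φ hb hg) h2]
    rfl

/-- contact integral of a velocity functional, with the partner velocity outside -/
theorem swap_contact (V : CD → Space3) (hV : Measurable V) {φ : Space3 → ℝ≥0∞} (hφ : Measurable φ)
    (γ b₀ : ℝ) :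
    ∫⁻ u : Space3, ∫⁻ v : Space3, ENNReal.ofReal ‖v - u‖ * ∫⁻ b in impactDisc (v - u),
        (gau γ v * gau b₀ u) * φ (V (v, u, b)) ∂μHE[2] =
      ∫⁻ v : Space3, ∫⁻ u : Space3, ENNReal.ofReal ‖v - u‖ * ∫⁻ b in impactDisc (v - u),
        (gau γ v * gau b₀ u) * φ (V (v, u, b)) ∂μHE[2] := by
  refine lintegral_lintegral_swap ?_
  have h := measurable_lintegral_disc (α := Space3 × Space3) (G := fun p => p.2 - p.1)
    (by fun_prop) (F := fun p b => (gau γ p.2 * gau b₀ p.1) * φ (V (p.2, p.1, b))) (by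
      refine Measurable.mul ?_ (hφ.comp (hV.comp ?_))
      · exact ((measurable_gau γ).comp (measurable_snd.comp measurable_fst)).mul
          ((measurable_gau b₀).comp (measurable_fst.comp measurable_fst))
      · exact (measurable_snd.comp measurable_fst).prodMk
          ((measurable_fst.comp measurable_fst).prodMk measurable_snd))
  exact h.aemeasurable

/-- The integral over contacts (contact time in `(τ, t']`) of a function of one of the lines. -/
def ocInt (γ b₀ τ t' : ℝ) (F : ℝ → Space3 → CD → ℝ≥0∞) : ℝ≥0∞ :=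
  ∫⁻ s in Ioc τ t', ∫⁻ y : Space3, ∫⁻ u : Space3, ∫⁻ v : Space3,
    ENNReal.ofReal ‖v - u‖ * ∫⁻ b in impactDisc (v - u),
      (gau γ v * gau b₀ u) * F s y (v, u, b) ∂μHE[2]


/-- general form: the line has birth time shift `T ≥ 0`, position shift `A`, velocity `V`. -/
theorem ocInt_le {T : CD → ℝ} {A V : CD → Space3} (hT : Measurable T)
    (hT0 : ∀ q, 0 ≤ T q) (hA : Measurable A) (hV : Measurable V) {F : Ln → ℝ≥0∞}
    (hF : Measurable F) (γ b₀ τ t' : ℝ) :
    ocInt γ b₀ τ t' (fun s y q => F (s + T q, y + A q, V q)) ≤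
      ∫⁻ v : Space3, ∫⁻ u : Space3, ENNReal.ofReal ‖v - u‖ * ∫⁻ b in impactDisc (v - u),
        (gau γ v * gau b₀ u) * lineM τ F (V (v, u, b)) ∂μHE[2] := by
  have hW : Measurable (fun q : CD => gau γ q.1 * gau b₀ q.2.1) :=
    ((measurable_gau γ).comp measurable_fst).mul
      ((measurable_gau b₀).comp (measurable_fst.comp measurable_snd))
  have h := lintegral_shift_le hT hT0 hA hV (W := fun q : CD => gau γ q.1 * gau b₀ q.2.1) hW hF τ t'
  rw [swap_contact V hV (measurable_lineM τ hF)] at h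
  exact h

section
variable {γ₀ γ b₀ ε τ t' : ℝ} {F : Ln → ℝ≥0∞}

/-- identification of the velocity of the outgoing lines -/
theorem disc_congr {V : CD → Space3} {P : Space3 × Space3 → Space3} {φ : Space3 → ℝ≥0∞}
    (h : ∀ v u b : Space3, v ≠ u → b ∈ impactDisc (v - u) →
      V (v, u, b) = P (postVelocities Φ b v u)) :
    ∫⁻ v : Space3, ∫⁻ u : Space3, ENNReal.ofReal ‖v - u‖ * ∫⁻ b in impactDisc (v - u),
        (gau γ v * gau b₀ u) * φ (V (v, u, b)) ∂μHE[2] =
      contact Φ γ b₀ (fun p => φ (P p.2)) := by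
  unfold contact
  refine lintegral_congr fun v => lintegral_congr fun u => ?_
  by_cases hvu : v = u
  · simp [hvu]
  congr 1
  refine setLIntegral_congr_fun (measurableSet_impactDisc _) fun b hb => ?_
  simp only
  rw [h v u b hvu hb]

/-- **(OC3)(b), outgoing tagged line.** -/
theorem oc_lineL' (hΦ : AdmissiblePotential Φ) (hγ₀ : 0 < γ₀) (h : γ₀ ≤ γ) (hγb : γ ≤ b₀)
    (hε : 0 ≤ ε) (hF : Measurable F) :
    ocInt γ b₀ τ t' (fun s y q => F (lineL' Φ ε s y q)) ≤ CG γ₀ * fluxM γ (lineM τ F) := by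
  have hV : Measurable (fun q : CD => cmvel q + (1 / 2 : ℝ) • (Scat818.exitM Φ (relB q)).2) :=
    measurable_cmvel.add ((measurable_snd.comp (measurable_exB hΦ)).const_smul (1 / 2 : ℝ))
  refine (ocInt_le (measurable_outT hΦ ε) (outT_nonneg hε)
    (A := fun q => outCM Φ ε q + (ε / 2) • (Scat818.exitM Φ (relB q)).1)
    ((measurable_outCM hΦ ε).add ((measurable_fst.comp (measurable_exB hΦ)).const_smul (ε / 2)))
    (V := fun q => cmvel q + (1 / 2 : ℝ) • (Scat818.exitM Φ (relB q)).2) hV hF γ b₀ τ t').trans ?_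
  refine (disc_congr (Φ := Φ) (V := fun q => cmvel q + (1 / 2 : ℝ) • (Scat818.exitM Φ (relB q)).2)
    (P := Prod.fst) (φ := lineM τ F) ?_).le.trans ?_
  swap
  · exact contact_v' hΦ hγ₀ h hγb (measurable_lineM τ hF)
  · intro v u b hvu hb
    unfold postVelocities cmvel relB
    simp only
    rw [exitM_snd hΦ hb (sub_ne_zero.mpr hvu)]

/-- **(OC3)(b), outgoing partner.** -/
theorem oc_lineC' (hΦ : AdmissiblePotential Φ) (hγ₀ : 0 < γ₀) (h : γ₀ ≤ γ) (hγb : γ ≤ b₀)
    (hε : 0 ≤ ε) (hF : Measurable F) :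
    ocInt γ b₀ τ t' (fun s y q => F (lineC' Φ ε s y q)) ≤ CG γ₀ * fluxM γ (lineM τ F) := by
  have hV : Measurable (fun q : CD => cmvel q - (1 / 2 : ℝ) • (Scat818.exitM Φ (relB q)).2) :=
    measurable_cmvel.sub ((measurable_snd.comp (measurable_exB hΦ)).const_smul (1 / 2 : ℝ))
  refine (ocInt_le (measurable_outT hΦ ε) (outT_nonneg hε)
    (A := fun q => outCM Φ ε q - (ε / 2) • (Scat818.exitM Φ (relB q)).1)
    ((measurable_outCM hΦ ε).sub ((measurable_fst.comp (measurable_exB hΦ)).const_smul (ε / 2)))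
    (V := fun q => cmvel q - (1 / 2 : ℝ) • (Scat818.exitM Φ (relB q)).2) hV hF γ b₀ τ t').trans ?_
  refine (disc_congr (Φ := Φ) (V := fun q => cmvel q - (1 / 2 : ℝ) • (Scat818.exitM Φ (relB q)).2)
    (P := Prod.snd) (φ := lineM τ F) ?_).le.trans ?_
  swap
  · exact contact_w' hΦ hγ₀ h hγb (measurable_lineM τ hF)
  · intro v u b hvu hb
    unfold postVelocities cmvel relB
    simp only
    rw [exitM_snd hΦ hb (sub_ne_zero.mpr hvu)]

/-- **(OC3)(b), undeflected partner.** -/
theorem oc_lineC (hΦ : AdmissiblePotential Φ) (hγ₀ : 0 < γ₀) (h : γ₀ ≤ γ) (hγb : γ ≤ b₀)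
    (hε : 0 ≤ ε) (hF : Measurable F) :
    ocInt γ b₀ τ t' (fun s y q => F (lineC Φ ε s y q)) ≤ CG γ₀ * fluxM γ (lineM τ F) := by
  refine (ocInt_le (measurable_outT hΦ ε) (outT_nonneg hε)
    (A := fun q => outT Φ ε q • q.2.1)
    ((measurable_outT hΦ ε).smul (measurable_fst.comp measurable_snd))
    (V := fun q => q.2.1) (measurable_fst.comp measurable_snd) hF γ b₀ τ t').trans ?_
  exact contact_w hΦ hγ₀ h hγb (measurable_lineM τ hF)


end

end Crest.Agent.R122.OCout796
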