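import Crest.Agent.R122.OCflux_663
import Crest.Agent.R122.EDefs_602
import Crest.Agent.R122.TreeMeas2_674

/-!
# One-contact step (row 122, board H1), part A: flux of free lines through the root line of a tree

For a root line `ℓ : PhasePoint` (time-`0` extension) and a free line `e = (τ, (y, v))`:

* `Enters ε ℓ e s` : `e` enters the `ε`-ball around `ℓ` at time `s` (grazing allowed).
* `ctSet Φ ε te P` : pairs (tree `z`, free line `e`) such that `e` enters the ball around the root line
  of `z` at a time `s` with `birth < s ≤ te` at which `z` is valid.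
* `lintegral_ct_root` : flux in the root position of the tree, fixed `e`.
* `lintegral_ct` : flux in the position of the line, fixed tree.
-/

set_option autoImplicit false

open MeasureTheory Set
open scoped ENNReal
open Crest.AnalysisR.Kinetic
open Crest.Agent.R122.Kin796 Crest.Agent.R122.Kin796.CTree Crest.Agent.R122.Tree674
open Crest.Agent.R122.Disc416 Crest.Agent.R122.Flux663 Crest.Agent.R122.OC663 Crest.Agent.R122.EDefs602

noncomputable section

namespace Crest.Agent.R122.OneC423

/-- Relative line (position at time `0`) of a free line and a root line. -/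
def relL (ℓ : PhasePoint) (e : ℝ × PhasePoint) : Space3 × Space3 :=
  ((back e).1 - ℓ.1, e.2.2 - ℓ.2)

theorem measurable_relL : Measurable fun q : PhasePoint × (ℝ × PhasePoint) => relL q.1 q.2 := by
  unfold relL back
  fun_prop

/-- The free line `e` enters the closed `ε`-ball around the line `ℓ` at time `s`. -/
def Enters (ε : ℝ) (ℓ : PhasePoint) (e : ℝ × PhasePoint) (s : ℝ) : Prop :=
  (relL ℓ e).2 ≠ 0 ∧ ‖bline (relL ℓ e)‖ ≤ ε ∧ s = entT ε (relL ℓ e)

variable {Φ : Space3 → ℝ} {ε te : ℝ}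

/-- Contact set of trees and free lines. -/
def ctSet (Φ : Space3 → ℝ) (ε te : ℝ) (P : CTree) :
    Set ((PhasePoint × Par P) × (ℝ × PhasePoint)) :=
  {q | (relL q.1.1 q.2).2 ≠ 0 ∧ ‖bline (relL q.1.1 q.2)‖ ≤ ε ∧
    q.2.1 < entT ε (relL q.1.1 q.2) ∧ entT ε (relL q.1.1 q.2) ≤ te ∧
    Valid Φ ε P (entT ε (relL q.1.1 q.2)) q.1.1.2 q.1.2}

theorem mem_ctSet {P : CTree} {z : PhasePoint × Par P} {e : ℝ × PhasePoint} {s : ℝ}
    (h : Enters ε z.1 e s) (hs : e.1 < s) (hs' : s ≤ te) (hv : Valid Φ ε P s z.1.2 z.2) :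
    (z, e) ∈ ctSet Φ ε te P := by
  obtain ⟨h1, h2, rfl⟩ := h
  exact ⟨h1, h2, hs, hs', hv⟩

theorem valid_of_mem_ctSet {P : CTree} {z : PhasePoint × Par P} {e : ℝ × PhasePoint}
    (h : (z, e) ∈ ctSet Φ ε te P) : Valid Φ ε P te z.1.2 z.2 :=
  ((valid_iff_top h.2.2.2.1).1 h.2.2.2.2).1

/-- Validity at times before `te`, jointly measurable. -/
theorem measurableSet_validJ (hΦ : AdmissiblePotential Φ) (ε te : ℝ) (P : CTree) :
    MeasurableSet {q : ℝ × (PhasePoint × Par P) | q.1 ≤ te ∧ Valid Φ ε P q.1 q.2.1.2 q.2.2} := by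
  have h1 : MeasurableSet {q : ℝ × (PhasePoint × Par P) | Valid Φ ε P te q.2.1.2 q.2.2} :=
    measurable_snd (measurableSet_valid hΦ ε P te)
  have hT : Measurable fun q : ℝ × (PhasePoint × Par P) => ((q.1, q.2.2) : ℝ × Par P) :=
    measurable_fst.prodMk (measurable_snd.comp measurable_snd)
  have h2 : MeasurableSet {q : ℝ × (PhasePoint × Par P) | TopLt P q.1 q.2.2} :=
    hT (measurableSet_topLt P)
  have h3 : MeasurableSet {q : ℝ × (PhasePoint × Par P) | q.1 ≤ te} :=
    measurableSet_le measurable_fst measurable_const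
  have e : {q : ℝ × (PhasePoint × Par P) | q.1 ≤ te ∧ Valid Φ ε P q.1 q.2.1.2 q.2.2} =
      {q : ℝ × (PhasePoint × Par P) | q.1 ≤ te} ∩
        ({q : ℝ × (PhasePoint × Par P) | Valid Φ ε P te q.2.1.2 q.2.2} ∩
          {q : ℝ × (PhasePoint × Par P) | TopLt P q.1 q.2.2}) := by
    ext q
    constructor
    · rintro ⟨h, hv⟩
      exact ⟨h, (valid_iff_top h).1 hv⟩
    · rintro ⟨h, hv⟩
      exact ⟨h, (valid_iff_top h).2 hv⟩
  rw [e]
  exact h3.inter (h1.inter h2)

theorem measurableSet_ctSet (hΦ : AdmissiblePotential Φ) (ε te : ℝ) (P : CTree) :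
    MeasurableSet (ctSet Φ ε te P) := by
  have hr : Measurable fun q : (PhasePoint × Par P) × (ℝ × PhasePoint) => relL q.1.1 q.2 :=
    measurable_relL.comp (f := fun q : (PhasePoint × Par P) × (ℝ × PhasePoint) => (q.1.1, q.2))
      ((measurable_fst.comp measurable_fst).prodMk measurable_snd)
  have hT : Measurable fun q : (PhasePoint × Par P) × (ℝ × PhasePoint) => entT ε (relL q.1.1 q.2) :=
    (measurable_entT ε).comp hr
  have h1 : MeasurableSet {q : (PhasePoint × Par P) × (ℝ × PhasePoint) |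
      (relL q.1.1 q.2).2 ≠ 0} :=
    (measurable_snd.comp hr) (measurableSet_singleton (0 : Space3)).compl
  have h2 : MeasurableSet {q : (PhasePoint × Par P) × (ℝ × PhasePoint) |
      ‖bline (relL q.1.1 q.2)‖ ≤ ε} :=
    measurableSet_le (measurable_bline.comp hr).norm measurable_const
  have h3 : MeasurableSet {q : (PhasePoint × Par P) × (ℝ × PhasePoint) |
      q.2.1 < entT ε (relL q.1.1 q.2)} :=
    measurableSet_lt (measurable_fst.comp measurable_snd) hT
  have hq : Measurable fun q : (PhasePoint × Par P) × (ℝ × PhasePoint) =>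
      ((entT ε (relL q.1.1 q.2), q.1) : ℝ × (PhasePoint × Par P)) := hT.prodMk measurable_fst
  have h4 : MeasurableSet {q : (PhasePoint × Par P) × (ℝ × PhasePoint) |
      entT ε (relL q.1.1 q.2) ≤ te ∧ Valid Φ ε P (entT ε (relL q.1.1 q.2)) q.1.1.2 q.1.2} :=
    hq (measurableSet_validJ hΦ ε te P)
  exact h1.inter (h2.inter (h3.inter h4))

/-! ### Flux in the root position -/

/-- The root line (time-`0` extension) of velocity `u` which is entered by the free line `e` at time
`s` with impact parameter `b`. -/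
def rootAt (ε s : ℝ) (e : ℝ × PhasePoint) (u b : Space3) : PhasePoint :=
  (e.2.1 + (s - e.1) • e.2.2 - ε • entrancePoint b (e.2.2 - u) - s • u, u)

theorem measurable_rootAt (ε : ℝ) :
    Measurable fun q : (ℝ × (ℝ × PhasePoint)) × (Space3 × Space3) =>
      rootAt ε q.1.1 q.1.2 q.2.1 q.2.2 := by
  have hent : Measurable fun q : (ℝ × (ℝ × PhasePoint)) × (Space3 × Space3) =>
      ε • entrancePoint q.2.2 (q.1.2.2.2 - q.2.1) :=
    (measurable_ent_pos ε).comp (f := fun q : (ℝ × (ℝ × PhasePoint)) × (Space3 × Space3) =>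
      (q.2.2, q.1.2.2.2 - q.2.1)) (by fun_prop)
  unfold rootAt
  have h1 : Measurable fun q : (ℝ × (ℝ × PhasePoint)) × (Space3 × Space3) =>
      q.1.2.2.1 + (q.1.1 - q.1.2.1) • q.1.2.2.2 := by fun_prop
  have h2 : Measurable fun q : (ℝ × (ℝ × PhasePoint)) × (Space3 × Space3) =>
      q.1.1 • q.2.1 := by fun_prop
  have h3 : Measurable fun q : (ℝ × (ℝ × PhasePoint)) × (Space3 × Space3) => q.2.1 := by fun_prop
  exact ((h1.sub hent).sub h2).prodMk h3

theorem measurableSet_valid_u (hΦ : AdmissiblePotential Φ) (ε te : ℝ) (P : CTree) :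
    MeasurableSet {q : ℝ × (Space3 × Par P) | q.1 ≤ te ∧ Valid Φ ε P q.1 q.2.1 q.2.2} := by
  have hm : Measurable fun q : ℝ × (Space3 × Par P) =>
      ((q.1, (((0 : Space3), q.2.1), q.2.2)) : ℝ × (PhasePoint × Par P)) :=
    measurable_fst.prodMk ((measurable_const.prodMk (measurable_fst.comp measurable_snd)).prodMk
      (measurable_snd.comp measurable_snd))
  exact hm (measurableSet_validJ hΦ ε te P)

/-- Flux in the root position, fixed root velocity and tree parameters. -/
theorem lintegral_ct_x (hΦ : AdmissiblePotential Φ) (hε : 0 < ε) {P : CTree}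
    (e : ℝ × PhasePoint) (u : Space3) (p : Par P) {F : Space3 → ℝ≥0∞} (hF : Measurable F) :
    ∫⁻ X : Space3, {X | (((X, u), p), e) ∈ ctSet Φ ε te P}.indicator F X =
      ENNReal.ofReal (ε ^ 2) * (ENNReal.ofReal ‖e.2.2 - u‖ *
        ∫⁻ s in {s | e.1 < s ∧ s ≤ te ∧ Valid Φ ε P s u p},
          ∫⁻ b in impactDisc (e.2.2 - u), F (rootAt ε s e u b).1 ∂μHE[2]) := by
  have hJ : MeasurableSet {s | e.1 < s ∧ s ≤ te ∧ Valid Φ ε P s u p} := by
    have h1 : MeasurableSet {s : ℝ | e.1 < s} := measurableSet_lt measurable_const measurable_id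
    have hm : Measurable fun s : ℝ => ((s, (u, p)) : ℝ × (Space3 × Par P)) :=
      measurable_id.prodMk measurable_const
    exact h1.inter (hm (measurableSet_valid_u hΦ ε te P))
  set x₀ : Space3 := (back e).1 with hx₀
  -- `q = x₀ - X`
  have e0 : ∫⁻ X : Space3, {X | (((X, u), p), e) ∈ ctSet Φ ε te P}.indicator F X =
      ∫⁻ q : Space3, {X | (((X, u), p), e) ∈ ctSet Φ ε te P}.indicator F (x₀ - q) :=
    (lintegral_sub_left_eq_self
      (fun X => {X | (((X, u), p), e) ∈ ctSet Φ ε te P}.indicator F X) x₀).symm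
  rw [e0]
  have hrel : ∀ q : Space3, relL (x₀ - q, u) e = (q, e.2.2 - u) := by
    intro q
    simp only [relL, ← hx₀]
    rw [sub_sub_cancel]
  by_cases hg : e.2.2 - u = 0
  · have h0 : ∀ q : Space3, {X | (((X, u), p), e) ∈ ctSet Φ ε te P}.indicator F (x₀ - q) = 0 := by
      intro q
      refine indicator_of_notMem ?_ _
      intro h
      have h1 := h.1
      simp only [hrel q] at h1
      exact h1 hg
    simp only [h0, lintegral_zero, hg, norm_zero, ENNReal.ofReal_zero, zero_mul, mul_zero]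
  have hFq : Measurable fun q : Space3 => F (x₀ - q) := hF.comp (measurable_const.sub measurable_id)
  have h := lintegral_ent_line' (v := e.2.2) (u := u) hε (0 : Space3) hg hJ hFq
  have hnull : ∀ᵐ q : Space3, ‖bline (q - 0, e.2.2 - u)‖ ≠ ε := by
    rw [ae_iff]
    simpa using volume_grazing hg (0 : Space3) hε
  have e1 : ∫⁻ q : Space3, {X | (((X, u), p), e) ∈ ctSet Φ ε te P}.indicator F (x₀ - q) =
      ∫⁻ q : Space3, (if ‖bline (q - 0, e.2.2 - u)‖ < ε then
        {s | e.1 < s ∧ s ≤ te ∧ Valid Φ ε P s u p}.indicator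
          (fun _ => F (x₀ - q)) (entT ε (q - 0, e.2.2 - u)) else 0) := by
    refine lintegral_congr_ae ?_
    filter_upwards [hnull] with q hq
    simp only [sub_zero] at hq ⊢
    by_cases hm : ((((x₀ - q, u), p), e) : (PhasePoint × Par P) × (ℝ × PhasePoint)) ∈
        ctSet Φ ε te P
    · have hm' := hm
      obtain ⟨-, h2, h3, h4, h5⟩ := hm'
      simp only [hrel q] at h2 h3 h4 h5
      rw [indicator_of_mem (show (x₀ - q) ∈ {X | (((X, u), p), e) ∈ ctSet Φ ε te P} from hm),
        if_pos (lt_of_le_of_ne h2 hq), indicator_of_mem (show entT ε (q, e.2.2 - u) ∈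
          {s | e.1 < s ∧ s ≤ te ∧ Valid Φ ε P s u p} from ⟨h3, h4, h5⟩)]
    · rw [indicator_of_notMem (show (x₀ - q) ∉ {X | (((X, u), p), e) ∈ ctSet Φ ε te P} from hm)]
      split_ifs with hb
      · rw [indicator_of_notMem]
        intro hs
        apply hm
        refine ⟨?_, ?_, ?_, ?_, ?_⟩ <;> simp only [hrel q]
        · exact hg
        · exact hb.le
        · exact hs.1
        · exact hs.2.1
        · exact hs.2.2
      · rfl
  rw [e1, h]
  have e2 : ∀ s : ℝ, ∀ b : Space3,
      x₀ - ((0 : Space3) + s • u + ε • entrancePoint b (e.2.2 - u) - s • e.2.2) =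
        (rootAt ε s e u b).1 := by
    intro s b
    simp only [hx₀, back, rootAt, sub_smul, zero_add]
    abel
  simp only [e2]

/-- **Flux in the root position of the tree**, fixed free line. -/
theorem lintegral_ct_root (hΦ : AdmissiblePotential Φ) (hε : 0 < ε) {P : CTree}
    (e : ℝ × PhasePoint) {F : PhasePoint × Par P → ℝ≥0∞} (hF : Measurable F) :
    ∫⁻ z : PhasePoint × Par P, {z | (z, e) ∈ ctSet Φ ε te P}.indicator F z =
      ENNReal.ofReal (ε ^ 2) * ∫⁻ s in Ioc e.1 te, ∫⁻ u : Space3, ENNReal.ofReal ‖e.2.2 - u‖ *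
        ∫⁻ b in impactDisc (e.2.2 - u), (∫⁻ p : Par P,
          {p | Valid Φ ε P s u p}.indicator (fun p => F (rootAt ε s e u b, p)) p) ∂μHE[2] := by
  have hms : MeasurableSet {z | (z, e) ∈ ctSet Φ ε te P} :=
    (measurable_id.prodMk (measurable_const (a := e))) (measurableSet_ctSet hΦ ε te P)
  have hm0 : Measurable ({z | (z, e) ∈ ctSet Φ ε te P}.indicator F) := hF.indicator hms
  rw [Measure.volume_eq_prod, lintegral_prod_symm _ hm0.aemeasurable]
  -- the kernel in planar coordinates
  set μs : Measure ℝ := volume.restrict (Ioc e.1 te) with hμs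
  set μy : Measure Plane := volume.restrict (Metric.ball (0 : Plane) 1) with hμy
  set VS : Set (ℝ × (Space3 × Par P)) := {q | q.1 ≤ te ∧ Valid Φ ε P q.1 q.2.1 q.2.2} with hVS
  have hVSm : MeasurableSet VS := measurableSet_valid_u hΦ ε te P
  set K : Par P → Space3 → ℝ → Plane → ℝ≥0∞ := fun p u s y =>
    VS.indicator (fun _ => ENNReal.ofReal ‖e.2.2 - u‖ *
      F (rootAt ε s e u (frameMap (e.2.2 - u) y), p)) (s, (u, p)) with hK
  have hKm : Measurable fun q : (Par P × Space3) × (ℝ × Plane) =>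
      K q.1.1 q.1.2 q.2.1 q.2.2 := by
    have h1 : Measurable fun q : (Par P × Space3) × (ℝ × Plane) =>
        rootAt ε q.2.1 e q.1.2 (frameMap (e.2.2 - q.1.2) q.2.2) := by
      have h2 : Measurable fun q : (Par P × Space3) × (ℝ × Plane) =>
          frameMap (e.2.2 - q.1.2) q.2.2 :=
        measurable_frameMap.comp (f := fun q : (Par P × Space3) × (ℝ × Plane) =>
          (e.2.2 - q.1.2, q.2.2)) (by fun_prop)
      exact (measurable_rootAt ε).comp (f := fun q : (Par P × Space3) × (ℝ × Plane) =>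
        ((q.2.1, e), (q.1.2, frameMap (e.2.2 - q.1.2) q.2.2)))
        (((measurable_fst.comp measurable_snd).prodMk measurable_const).prodMk
          ((measurable_snd.comp measurable_fst).prodMk h2))
    have h3 : Measurable fun q : (Par P × Space3) × (ℝ × Plane) =>
        ENNReal.ofReal ‖e.2.2 - q.1.2‖ *
          F (rootAt ε q.2.1 e q.1.2 (frameMap (e.2.2 - q.1.2) q.2.2), q.1.1) :=
      (measurable_const.sub (measurable_snd.comp measurable_fst)).norm.ennreal_ofReal.mul
        (hF.comp (h1.prodMk (measurable_fst.comp measurable_fst)))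
    have h4 : Measurable fun q : (Par P × Space3) × (ℝ × Plane) =>
        ((q.2.1, (q.1.2, q.1.1)) : ℝ × (Space3 × Par P)) := by fun_prop
    exact h3.indicator (h4 hVSm)
  -- left-hand side
  have hL : ∀ p : Par P, ∫⁻ ℓ : PhasePoint, {z | (z, e) ∈ ctSet Φ ε te P}.indicator F (ℓ, p) =
      ENNReal.ofReal (ε ^ 2) * ∫⁻ u : Space3, ∫⁻ s, ∫⁻ y, K p u s y ∂μy ∂μs := by
    intro p
    have hmp : Measurable fun ℓ : PhasePoint =>
        {z | (z, e) ∈ ctSet Φ ε te P}.indicator F (ℓ, p) :=
      hm0.comp (measurable_id.prodMk measurable_const)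
    rw [Measure.volume_eq_prod, lintegral_prod_symm _ hmp.aemeasurable,
      ← lintegral_const_mul' _ _ ENNReal.ofReal_ne_top]
    refine lintegral_congr fun u => ?_
    have h1 := lintegral_ct_x (te := te) hΦ hε e u p (F := fun X => F ((X, u), p))
      (hF.comp ((measurable_id.prodMk measurable_const).prodMk measurable_const))
    have h2 : ∀ X : Space3, {z | (z, e) ∈ ctSet Φ ε te P}.indicator F ((X, u), p) =
        {X | (((X, u), p), e) ∈ ctSet Φ ε te P}.indicator (fun X => F ((X, u), p)) X := by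
      intro X
      rfl
    simp only [h2]
    rw [h1]
    congr 1
    -- planar form
    have h3 : ∀ s : ℝ, ENNReal.ofReal ‖e.2.2 - u‖ * ∫⁻ b in impactDisc (e.2.2 - u),
        F (((rootAt ε s e u b).1, u), p) ∂μHE[2] =
        ∫⁻ y, ENNReal.ofReal ‖e.2.2 - u‖ *
          F (rootAt ε s e u (frameMap (e.2.2 - u) y), p) ∂μy := by
      intro s
      rw [norm_mul_lintegral_impactDisc (e.2.2 - u) (fun b => F (((rootAt ε s e u b).1, u), p)),
        lintegral_const_mul' _ _ ENNReal.ofReal_ne_top]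
      rfl
    rw [← lintegral_const_mul' _ _ ENNReal.ofReal_ne_top]
    simp only [h3]
    have hJ : {s | e.1 < s ∧ s ≤ te ∧ Valid Φ ε P s u p} =
        {s | (s, (u, p)) ∈ VS} ∩ Ioc e.1 te := by
      ext s
      simp only [hVS, Set.mem_ofPred_eq, mem_inter_iff, mem_Ioc]
      tauto
    have hJm : MeasurableSet {s | (s, (u, p)) ∈ VS} :=
      (measurable_id.prodMk (measurable_const (a := (u, p)))) hVSm
    rw [hJ, hμs, ← setLIntegral_indicator hJm]
    refine lintegral_congr fun s => ?_
    by_cases hs : (s, (u, p)) ∈ VS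
    · rw [indicator_of_mem (show s ∈ {s | (s, (u, p)) ∈ VS} from hs)]
      refine lintegral_congr fun y => ?_
      simp only [hK]
      rw [indicator_of_mem hs]
    · rw [indicator_of_notMem (show s ∉ {s | (s, (u, p)) ∈ VS} from hs)]
      simp only [hK, indicator_of_notMem hs, lintegral_zero]
  simp only [hL]
  rw [lintegral_const_mul' _ _ ENNReal.ofReal_ne_top]
  congr 1
  -- the swaps
  have m1 : Measurable fun q : Par P × Space3 => ∫⁻ s, ∫⁻ y, K q.1 q.2 s y ∂μy ∂μs := by
    refine Measurable.lintegral_prod_right' (f := fun q : (Par P × Space3) × ℝ =>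
      ∫⁻ y, K q.1.1 q.1.2 q.2 y ∂μy) ?_
    refine Measurable.lintegral_prod_right' (f := fun q : ((Par P × Space3) × ℝ) × Plane =>
      K q.1.1.1 q.1.1.2 q.1.2 q.2) ?_
    exact hKm.comp (f := fun q : ((Par P × Space3) × ℝ) × Plane => (q.1.1, (q.1.2, q.2)))
      (by fun_prop)
  rw [lintegral_lintegral_swap m1.aemeasurable]
  have m2 : ∀ u : Space3, Measurable fun q : Par P × ℝ => ∫⁻ y, K q.1 u q.2 y ∂μy := by
    intro u
    refine Measurable.lintegral_prod_right' (f := fun q : (Par P × ℝ) × Plane =>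
      K q.1.1 u q.1.2 q.2) ?_
    exact hKm.comp (f := fun q : (Par P × ℝ) × Plane => ((q.1.1, u), (q.1.2, q.2)))
      (by fun_prop)
  have m3 : ∀ (u : Space3) (s : ℝ), Measurable fun q : Par P × Plane => K q.1 u s q.2 := by
    intro u s
    exact hKm.comp (f := fun q : Par P × Plane => ((q.1, u), (s, q.2))) (by fun_prop)
  have h5 : ∀ u : Space3, ∫⁻ p : Par P, ∫⁻ s, ∫⁻ y, K p u s y ∂μy ∂μs =
      ∫⁻ s, ∫⁻ y, ∫⁻ p : Par P, K p u s y ∂volume ∂μy ∂μs := by
    intro u
    rw [lintegral_lintegral_swap (m2 u).aemeasurable]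
    refine lintegral_congr fun s => ?_
    exact lintegral_lintegral_swap (m3 u s).aemeasurable
  simp only [h5]
  have m4 : Measurable fun q : Space3 × ℝ => ∫⁻ y, ∫⁻ p : Par P, K p q.1 q.2 y ∂volume ∂μy := by
    refine Measurable.lintegral_prod_right' (f := fun q : (Space3 × ℝ) × Plane =>
      ∫⁻ p : Par P, K p q.1.1 q.1.2 q.2) ?_
    refine Measurable.lintegral_prod_right' (f := fun q : ((Space3 × ℝ) × Plane) × Par P =>
      K q.2 q.1.1.1 q.1.1.2 q.1.2) ?_
    exact hKm.comp (f := fun q : ((Space3 × ℝ) × Plane) × Par P =>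
      ((q.2, q.1.1.1), (q.1.1.2, q.1.2))) (by fun_prop)
  rw [lintegral_lintegral_swap m4.aemeasurable]
  refine setLIntegral_congr_fun measurableSet_Ioc fun s hs => ?_
  refine lintegral_congr fun u => ?_
  rw [norm_mul_lintegral_impactDisc (e.2.2 - u) (fun b => ∫⁻ p : Par P,
    {p | Valid Φ ε P s u p}.indicator (fun p => F (rootAt ε s e u b, p)) p),
    ← lintegral_const_mul' _ _ ENNReal.ofReal_ne_top]
  refine lintegral_congr fun y => ?_
  rw [← lintegral_const_mul' _ _ ENNReal.ofReal_ne_top]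
  refine lintegral_congr fun p => ?_
  simp only [hK]
  by_cases hv : Valid Φ ε P s u p
  · rw [indicator_of_mem (show (s, (u, p)) ∈ VS from ⟨hs.2, hv⟩),
      indicator_of_mem (show p ∈ {p | Valid Φ ε P s u p} from hv)]
  · rw [indicator_of_notMem (show (s, (u, p)) ∉ VS from fun h => hv h.2),
      indicator_of_notMem (show p ∉ {p | Valid Φ ε P s u p} from hv), mul_zero]

/-! ### Flux in the line position -/

/-- The marked line born at `τ` with velocity `v` and mark `n` which enters the `ε`-ball around the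
line `ℓ` at time `s` with impact parameter `b`. -/
def lineAt (ε s : ℝ) (ℓ : PhasePoint) (τ : ℝ) (v b : Space3) (n : ℕ) : ML :=
  ((τ, (ℓ.1 + s • ℓ.2 + ε • entrancePoint b (v - ℓ.2) - (s - τ) • v, v)), n)

theorem measurable_lineAt (ε : ℝ) (n : ℕ) :
    Measurable fun q : (ℝ × PhasePoint × ℝ) × (Space3 × Space3) =>
      lineAt ε q.1.1 q.1.2.1 q.1.2.2 q.2.1 q.2.2 n := by
  have hent : Measurable fun q : (ℝ × PhasePoint × ℝ) × (Space3 × Space3) =>
      ε • entrancePoint q.2.2 (q.2.1 - q.1.2.1.2) :=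
    (measurable_ent_pos ε).comp (f := fun q : (ℝ × PhasePoint × ℝ) × (Space3 × Space3) =>
      (q.2.2, q.2.1 - q.1.2.1.2)) (by fun_prop)
  unfold lineAt
  have h1 : Measurable fun q : (ℝ × PhasePoint × ℝ) × (Space3 × Space3) =>
      q.1.2.1.1 + q.1.1 • q.1.2.1.2 := by fun_prop
  have h2 : Measurable fun q : (ℝ × PhasePoint × ℝ) × (Space3 × Space3) =>
      (q.1.1 - q.1.2.2) • q.2.1 := by fun_prop
  have h3 : Measurable fun q : (ℝ × PhasePoint × ℝ) × (Space3 × Space3) => q.1.2.2 := by fun_prop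
  have h4 : Measurable fun q : (ℝ × PhasePoint × ℝ) × (Space3 × Space3) => q.2.1 := by fun_prop
  exact (h3.prodMk (((h1.add hent).sub h2).prodMk h4)).prodMk measurable_const


/-- Flux of the lines of fixed birth, velocity and mark. -/
theorem lintegral_ct_y (hΦ : AdmissiblePotential Φ) (hε : 0 < ε) {P : CTree}
    (z : PhasePoint × Par P) (τ : ℝ) (v : Space3) (n : ℕ) {H : ML → ℝ≥0∞} (hH : Measurable H) :
    ∫⁻ y : Space3, {l : ML | (z, l.1) ∈ ctSet Φ ε te P}.indicator H ((τ, (y, v)), n) =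
      ENNReal.ofReal (ε ^ 2) * (ENNReal.ofReal ‖v - z.1.2‖ *
        ∫⁻ s in {s | τ < s ∧ s ≤ te ∧ Valid Φ ε P s z.1.2 z.2},
          ∫⁻ b in impactDisc (v - z.1.2), H (lineAt ε s z.1 τ v b n) ∂μHE[2]) := by
  have hJ : MeasurableSet {s | τ < s ∧ s ≤ te ∧ Valid Φ ε P s z.1.2 z.2} := by
    have h1 : MeasurableSet {s : ℝ | τ < s} := measurableSet_lt measurable_const measurable_id
    have hm : Measurable fun s : ℝ => ((s, z) : ℝ × (PhasePoint × Par P)) :=
      measurable_id.prodMk measurable_const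
    exact h1.inter (hm (measurableSet_validJ hΦ ε te P))
  rw [← lintegral_add_right_eq_self (fun y : Space3 =>
    {l : ML | (z, l.1) ∈ ctSet Φ ε te P}.indicator H ((τ, (y, v)), n)) (τ • v)]
  have hrel : ∀ x : Space3, relL z.1 ((τ, (x + τ • v, v)) : ℝ × PhasePoint) =
      (x - z.1.1, v - z.1.2) := by
    intro x
    simp [relL, back]
  by_cases hg : v - z.1.2 = 0
  · have h0 : ∀ x : Space3, {l : ML | (z, l.1) ∈ ctSet Φ ε te P}.indicator H
        ((τ, (x + τ • v, v)), n) = 0 := by
      intro x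
      refine indicator_of_notMem ?_ _
      intro h
      have h1 := h.1
      simp only [hrel x] at h1
      exact h1 hg
    simp only [h0, lintegral_zero, hg, norm_zero, ENNReal.ofReal_zero, zero_mul, mul_zero]
  have hH' : Measurable fun x : Space3 => H ((τ, (x + τ • v, v)), n) := by
    refine hH.comp ?_
    exact (measurable_const.prodMk ((measurable_id.add_const _).prodMk measurable_const)).prodMk
      measurable_const
  have h := lintegral_ent_line' hε z.1.1 hg hJ hH'
  have hnull : ∀ᵐ x : Space3, ‖bline (x - z.1.1, v - z.1.2)‖ ≠ ε := by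
    rw [ae_iff]
    simpa using volume_grazing hg z.1.1 hε
  have e1 : ∫⁻ x : Space3, {l : ML | (z, l.1) ∈ ctSet Φ ε te P}.indicator H
        ((τ, (x + τ • v, v)), n) =
      ∫⁻ x : Space3, (if ‖bline (x - z.1.1, v - z.1.2)‖ < ε then
        {s | τ < s ∧ s ≤ te ∧ Valid Φ ε P s z.1.2 z.2}.indicator
          (fun _ => H ((τ, (x + τ • v, v)), n)) (entT ε (x - z.1.1, v - z.1.2)) else 0) := by
    refine lintegral_congr_ae ?_
    filter_upwards [hnull] with x hx
    by_cases hm : ((z, (τ, (x + τ • v, v))) : (PhasePoint × Par P) × (ℝ × PhasePoint)) ∈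
        ctSet Φ ε te P
    · have hm' := hm
      obtain ⟨-, h2, h3, h4, h5⟩ := hm'
      simp only [hrel x] at h2 h3 h4 h5
      rw [indicator_of_mem (show (((τ, (x + τ • v, v)), n) : ML) ∈
          {l : ML | (z, l.1) ∈ ctSet Φ ε te P} from hm),
        if_pos (lt_of_le_of_ne h2 hx), indicator_of_mem (show entT ε (x - z.1.1, v - z.1.2) ∈
          {s | τ < s ∧ s ≤ te ∧ Valid Φ ε P s z.1.2 z.2} from ⟨h3, h4, h5⟩)]
    · rw [indicator_of_notMem (show (((τ, (x + τ • v, v)), n) : ML) ∉
        {l : ML | (z, l.1) ∈ ctSet Φ ε te P} from hm)]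
      split_ifs with hb
      · rw [indicator_of_notMem]
        intro hs
        apply hm
        refine ⟨?_, ?_, ?_, ?_, ?_⟩ <;> simp only [hrel x]
        · exact hg
        · exact hb.le
        · exact hs.1
        · exact hs.2.1
        · exact hs.2.2
      · rfl
  rw [e1, h]
  have e2 : ∀ (s : ℝ) (b : Space3), ((τ, (z.1.1 + s • z.1.2 + ε • entrancePoint b (v - z.1.2) -
      s • v + τ • v, v)), n) = lineAt ε s z.1 τ v b n := by
    intro s b
    unfold lineAt
    refine Prod.ext (Prod.ext rfl (Prod.ext ?_ rfl)) rfl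
    simp only [sub_smul]
    abel
  simp only [e2]

/-- Base measure on marked lines: `κ(dτ) dy dv`, counting measure on the marks. -/
def baseM (κ : Measure ℝ) : Measure ML := (κ.prod (volume : Measure PhasePoint)).prod Measure.count

instance (κ : Measure ℝ) [SFinite κ] : SFinite (baseM κ) := by unfold baseM; infer_instance

theorem lintegral_baseM (κ : Measure ℝ) [SFinite κ] {F : ML → ℝ≥0∞} (hF : Measurable F) :
    ∫⁻ l, F l ∂(baseM κ) =
      ∫⁻ τ, (∑' n : ℕ, ∫⁻ v : Space3, ∫⁻ y : Space3, F ((τ, (y, v)), n)) ∂κ := by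
  unfold baseM
  rw [lintegral_prod _ hF.aemeasurable]
  simp only [lintegral_count]
  have h1 : Measurable fun q : ℝ × PhasePoint => ∑' n : ℕ, F (q, n) :=
    Measurable.tsum fun n => hF.comp (measurable_id.prodMk measurable_const)
  rw [lintegral_prod _ h1.aemeasurable]
  refine lintegral_congr fun τ => ?_
  have h2 : ∀ n : ℕ, Measurable fun q : PhasePoint => F ((τ, q), n) := fun n =>
    hF.comp ((measurable_const.prodMk measurable_id).prodMk measurable_const)
  rw [lintegral_tsum fun n => (h2 n).aemeasurable]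
  refine tsum_congr fun n => ?_
  rw [Measure.volume_eq_prod, lintegral_prod_symm _ (h2 n).aemeasurable]

/-- The contact kernel: integral over the velocity, the impact parameter and the mark of the lines
entering the ball around the root line at time `s`. -/
def ctInt (ε s : ℝ) (ℓ : PhasePoint) (τ : ℝ) (H : ML → ℝ≥0∞) : ℝ≥0∞ :=
  ∑' n : ℕ, ∫⁻ v : Space3, ENNReal.ofReal ‖v - ℓ.2‖ *
    ∫⁻ b in impactDisc (v - ℓ.2), H (lineAt ε s ℓ τ v b n) ∂μHE[2]




/-- **Flux of marked lines through the root line of a tree.** -/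
theorem lintegral_ct (hΦ : AdmissiblePotential Φ) (hε : 0 < ε) {P : CTree}
    (z : PhasePoint × Par P) (κ : Measure ℝ) [SFinite κ] {H : ML → ℝ≥0∞} (hH : Measurable H) :
    ∫⁻ l, {l : ML | (z, l.1) ∈ ctSet Φ ε te P}.indicator H l ∂(baseM κ) =
      ENNReal.ofReal (ε ^ 2) * ∫⁻ τ, (∫⁻ s in Ioc τ te,
        {s | s ≤ te ∧ Valid Φ ε P s z.1.2 z.2}.indicator
          (fun s => ctInt ε s z.1 τ H) s) ∂κ := by
  have hms : MeasurableSet {l : ML | (z, l.1) ∈ ctSet Φ ε te P} := by
    have hm : Measurable fun l : ML => ((z, l.1) : (PhasePoint × Par P) × (ℝ × PhasePoint)) :=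
      measurable_const.prodMk measurable_fst
    exact hm (measurableSet_ctSet hΦ ε te P)
  have hJ' : MeasurableSet {s | s ≤ te ∧ Valid Φ ε P s z.1.2 z.2} := by
    have hm : Measurable fun s : ℝ => ((s, z) : ℝ × (PhasePoint × Par P)) :=
      measurable_id.prodMk measurable_const
    exact hm (measurableSet_validJ hΦ ε te P)
  rw [lintegral_baseM κ (hH.indicator hms), ← lintegral_const_mul' _ _ ENNReal.ofReal_ne_top]
  refine lintegral_congr fun τ => ?_
  simp only [lintegral_ct_y hΦ hε z τ _ _ hH]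
  have hJ : {s | τ < s ∧ s ≤ te ∧ Valid Φ ε P s z.1.2 z.2} =
      {s | s ≤ te ∧ Valid Φ ε P s z.1.2 z.2} ∩ Ioc τ te := by
    ext s
    simp only [Set.mem_ofPred_eq, mem_inter_iff, mem_Ioc]
    tauto
  rw [setLIntegral_indicator hJ', ← hJ]
  have hm : ∀ n : ℕ, Measurable fun q : Space3 × ℝ =>
      ENNReal.ofReal ‖q.1 - z.1.2‖ * ∫⁻ b in impactDisc (q.1 - z.1.2),
        H (lineAt ε q.2 z.1 τ q.1 b n) ∂μHE[2] := by
    intro n
    refine measurable_flux_disc (α := Space3 × ℝ) (γ := fun q => q.1 - z.1.2)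
      (measurable_fst.sub measurable_const) (f := fun q b => H (lineAt ε q.2 z.1 τ q.1 b n)) ?_
    have h1 : Measurable fun q : (Space3 × ℝ) × Space3 =>
        lineAt ε q.1.2 z.1 τ q.1.1 q.2 n :=
      (measurable_lineAt ε n).comp (f := fun q : (Space3 × ℝ) × Space3 =>
        ((q.1.2, z.1, τ), (q.1.1, q.2)))
        (((measurable_snd.comp measurable_fst).prodMk (measurable_const.prodMk
          measurable_const)).prodMk ((measurable_fst.comp measurable_fst).prodMk measurable_snd))
    exact hH.comp h1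
  unfold ctInt
  rw [lintegral_tsum, ← ENNReal.tsum_mul_left]
  · refine tsum_congr fun n => ?_
    have hsw := lintegral_lintegral_swap
      (μ := volume.restrict {s | τ < s ∧ s ≤ te ∧ Valid Φ ε P s z.1.2 z.2})
      (ν := (volume : Measure Space3))
      (f := fun (s : ℝ) (v : Space3) => ENNReal.ofReal ‖v - z.1.2‖ *
        ∫⁻ b in impactDisc (v - z.1.2), H (lineAt ε s z.1 τ v b n) ∂μHE[2])
      ((hm n).comp measurable_swap).aemeasurable
    rw [hsw, ← lintegral_const_mul' _ _ ENNReal.ofReal_ne_top]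
    refine lintegral_congr fun v => ?_
    rw [lintegral_const_mul' _ _ ENNReal.ofReal_ne_top]
  · intro n
    exact (Measurable.lintegral_prod_left' (hm n)).aemeasurable

end Crest.Agent.R122.OneC423
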