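import Crest.Agent.R122.BoltzSeg3_814

-- ▼ part R122/BoltzEn_814
section

/-!
Row 122 (helper814): energy-weighted exponential moments of the tree series.

* `exp_moment_pert` : abstract exponential moment, stable under small perturbations of the datum.
* `exists_energy_moments` : for the solution: `lam ^ size * exp (kap * energy of the leaves)` is
  summable against the tree densities (full damping, window damping, undamped straight line),
  with Gaussian bounds.
* `dens_weight`, `densS_weight` : a multiplicative weight on the leaves.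
-/

set_option autoImplicit false
set_option linter.unusedSectionVars false
open MeasureTheory ProbabilityTheory Set
open Crest.AnalysisR.Kinetic
open Crest.Agent.R122.Boltz814 Crest.Agent.R122.Kin416 Crest.Agent.R122.Kin796
  Crest.Agent.R122.Disc416 Crest.Agent.R122.Tree674 Crest.Agent.R122.Scat818
  Crest.Agent.R122.TreeF399
open scoped Classical ENNReal

noncomputable section

namespace Crest.Agent.R122.Seg814

/-! ### Abstract perturbed exponential moment -/

section main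

variable {E : Type*} [NormedAddCommGroup E] [NormedSpace ℝ E] [MeasurableSpace E] [BorelSpace E]
  [SecondCountableTopology E]

variable {κ : Kernel E (E × E)} [IsSFiniteKernel κ] {β T C0 C1 : ℝ} {D : ℝ → ℝ → E → E → ℝ≥0∞}
  {f : ℝ → E → E → ℝ≥0∞}

theorem exp_moment_pert (hβ : 0 < β) (hT : 0 < T) (hC0 : 0 ≤ C0) (hC1 : 0 ≤ C1)
    (hκ : KernelBound κ β C1) (hD1 : ∀ s t x v, D s t x v ≤ 1) (hD : Meas4 D) (hf : Meas3 f)
    (hfb : ∀ t ∈ Icc 0 T, ∀ x v, f t x v ≤ ENNReal.ofReal C0 * wG (2 * β) v)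
    (hmild : IsMild κ D T f) :
    ∃ lam δ' : ℝ, 1 < lam ∧ 0 < δ' ∧ ∀ f0' : E → E → ℝ≥0∞,
      (Measurable fun p : E × E => f0' p.1 p.2) →
      (∀ x v, f0' x v ≤ f 0 x v + ENNReal.ofReal δ' * wG (2 * β) v) → ∀ t ∈ Icc 0 T, ∀ x v,
      ∑' τ : CTree, ENNReal.ofReal lam ^ τ.size * F κ D f0' τ t x v ≤
        ENNReal.ofReal (C0 + 1) * wG β v := by
  have hf0 : Measurable fun p : E × E => f 0 p.1 p.2 :=
    hf.comp (f := fun p : E × E => ((0 : ℝ), p.1, p.2)) (by fun_prop)
  have hfb' : ∀ s ∈ Icc 0 T, ∀ x v, f s x v ≤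
      ENNReal.ofReal C0 * wG (2 * β - β / T * s) v := by
    intro s hs x v
    exact (hfb s hs x v).trans (mul_le_mul' le_rfl (wG_anti (rate_mem hβ hT hs).2 v))
  obtain ⟨μ, hμ, hpsi⟩ := exists_psi_le (β := β) (T := T)
    (ε := 1 / (8 * (2 * C0 + 1) * C1 + 1)) hβ hT (by positivity)
  have hpsi0 : 0 ≤ psi β T μ := psi_nonneg hμ
  have hpsi' : 2 * (2 * C0 + 1) * C1 * psi β T μ ≤ 1 / 4 := by
    have h2 : 2 * (2 * C0 + 1) * C1 * psi β T μ ≤
        2 * (2 * C0 + 1) * C1 * (1 / (8 * (2 * C0 + 1) * C1 + 1)) :=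
      mul_le_mul_of_nonneg_left hpsi (by positivity)
    refine h2.trans ?_
    rw [mul_one_div, div_le_div_iff₀ (by positivity) (by norm_num)]
    nlinarith [mul_nonneg hC0 hC1]
  set η : ℝ := Real.exp (-(μ * T)) with hη
  have hη0 : 0 < η := Real.exp_pos _
  have hη1 : η ≤ 1 := Real.exp_le_one_iff.2 (by have := mul_nonneg hμ.le hT.le; linarith)
  set δ : ℝ := min 1 (η / (4 * C0 ^ 2 * C1 * psi β T μ + 1)) with hδ
  have hδ0 : 0 < δ := lt_min one_pos (by positivity)
  have hδ1 : δ ≤ 1 := min_le_left _ _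
  have hδ2 : δ * (C0 ^ 2 * C1 * psi β T μ) ≤ η / 4 := by
    have h3 : δ ≤ η / (4 * C0 ^ 2 * C1 * psi β T μ + 1) := min_le_right _ _
    rw [le_div_iff₀ (by positivity)] at h3
    nlinarith
  refine ⟨1 + δ, η / 2, by linarith, by positivity, fun f0' hf0'm hf0' t ht x v => ?_⟩
  rw [tsum_eq_iSup κ hD hf0'm]
  set H : ℝ → E → E → ℝ≥0∞ := fun t x v => f t x v + ENNReal.ofReal η * wT β T μ t v with hH
  have hHb : ∀ t ∈ Icc 0 T, ∀ x v, H t x v ≤ ENNReal.ofReal (C0 + 1) * wG β v := by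
    intro t ht x v
    have h1 : ENNReal.ofReal η * wT β T μ t v ≤ ENNReal.ofReal 1 * wG β v := by
      calc ENNReal.ofReal η * wT β T μ t v
          ≤ ENNReal.ofReal η * (ENNReal.ofReal (Real.exp (μ * T)) * wG β v) :=
            mul_le_mul' le_rfl (wT_le hβ hT hμ ht v)
        _ = ENNReal.ofReal 1 * wG β v := by
            rw [← mul_assoc, ← ENNReal.ofReal_mul hη0.le, hη, ← Real.exp_add]
            simp
    calc H t x v ≤ ENNReal.ofReal C0 * wG β v + ENNReal.ofReal 1 * wG β v :=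
          add_le_add ((hfb t ht x v).trans (mul_le_mul' le_rfl (wG_anti (by linarith) v))) h1
      _ = _ := by rw [← add_mul, ← ENNReal.ofReal_add hC0 zero_le_one]
  refine (iSup_le fun n => ?_).trans (hHb t ht x v)
  refine P_le_super κ (T := T) (fun t ht x v => ?_) n ht x v
  -- supersolution inequality
  set q1 : ℝ → E → E → ℝ≥0∞ := fun s y u => Q κ (f s y) (f s y) u with hq1
  have hq1m : Meas3 q1 := meas_Q κ hf hf
  set A : ℝ := δ * (C0 ^ 2 * C1) + 2 * ((2 * C0 + 1) * η * C1) with hA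
  have hA0 : 0 ≤ A := by positivity
  -- pointwise bound of the source
  have hsrc : ∀ s ∈ Icc 0 T, ∀ y u, ENNReal.ofReal (1 + δ) * Q κ (H s y) (H s y) u ≤
      q1 s y u + ENNReal.ofReal A * gB β T μ s u := by
    intro s hs y u
    have mf := meas_slice hD hf0 hf s y
    have hRm : Meas3 fun s (y : E) (u : E) => ENNReal.ofReal η * wT β T μ s u :=
      meas_mul3 measurable_const (meas_wT β T μ)
    have mR := meas_slice hD hf0 hRm s y
    set R : E → ℝ≥0∞ := fun w => ENNReal.ofReal η * wT β T μ s w with hRdef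
    have hRb : ∀ w, R w ≤ ENNReal.ofReal (η * Real.exp (μ * s)) * wG (2 * β - β / T * s) w := by
      intro w
      rw [hRdef]
      simp only
      rw [wT_eq, ENNReal.ofReal_mul hη0.le, mul_assoc]
    have hRb1 : ∀ w, R w ≤ ENNReal.ofReal 1 * wG (2 * β - β / T * s) w := by
      intro w
      refine (hRb w).trans (mul_le_mul' (ENNReal.ofReal_le_ofReal ?_) le_rfl)
      rw [hη, ← Real.exp_add]
      refine Real.exp_le_one_iff.2 ?_
      have := mul_le_mul_of_nonneg_left hs.2 hμ.le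
      linarith
    have hexp : Q κ (H s y) (H s y) u = Q κ (f s y) (f s y) u +
        (Q κ (f s y) R u + (Q κ R (f s y) u + Q κ R R u)) := by
      have e1 : Q κ (H s y) (H s y) u = Q κ (f s y) (H s y) u + Q κ R (H s y) u :=
        Q_add_left κ mf (mf.add mR) u
      have e2 : Q κ (f s y) (H s y) u = Q κ (f s y) (f s y) u + Q κ (f s y) R u :=
        Q_add_right κ mf mf u
      have e3 : Q κ R (H s y) u = Q κ R (f s y) u + Q κ R R u := Q_add_right κ mR mf u
      rw [e1, e2, e3, add_assoc]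
    have b0 := (Q_bound hβ hT hC1 hκ μ hC0 hC0 hs 0 (mul_nonneg hμ.le hs.1) (hfb' s hs y)
      (k := f s y) (by simpa using hfb' s hs y) u).1
    have b1 := Q_bound hβ hT hC1 hκ μ hC0 hη0.le hs (μ * s) le_rfl (hfb' s hs y) hRb u
    have b2 := (Q_bound hβ hT hC1 hκ μ zero_le_one hη0.le hs (μ * s) le_rfl hRb1 hRb u).1
    have hsum : Q κ (f s y) R u + (Q κ R (f s y) u + Q κ R R u) ≤
        ENNReal.ofReal ((2 * C0 + 1) * η * C1) * gB β T μ s u := by
      calc Q κ (f s y) R u + (Q κ R (f s y) u + Q κ R R u)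
          ≤ ENNReal.ofReal (C0 * η * C1) * gB β T μ s u +
            (ENNReal.ofReal (C0 * η * C1) * gB β T μ s u +
              ENNReal.ofReal (1 * η * C1) * gB β T μ s u) :=
            add_le_add b1.1 (add_le_add b1.2 b2)
        _ = _ := by
            rw [← add_mul, ← add_mul, ← ENNReal.ofReal_add (by positivity) (by positivity),
              ← ENNReal.ofReal_add (by positivity) (by positivity)]
            congr 2; ring
    calc ENNReal.ofReal (1 + δ) * Q κ (H s y) (H s y) u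
        = q1 s y u + (ENNReal.ofReal δ * Q κ (f s y) (f s y) u + ENNReal.ofReal (1 + δ) *
          (Q κ (f s y) R u + (Q κ R (f s y) u + Q κ R R u))) := by
          rw [hexp, mul_add, ENNReal.ofReal_add zero_le_one hδ0.le, ENNReal.ofReal_one]
          rw [add_mul 1, one_mul, hq1]
          ring
      _ ≤ q1 s y u + (ENNReal.ofReal δ * (ENNReal.ofReal (C0 * C0 * C1) * gB β T μ s u) +
          ENNReal.ofReal 2 * (ENNReal.ofReal ((2 * C0 + 1) * η * C1) * gB β T μ s u)) := by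
          refine add_le_add le_rfl (add_le_add (mul_le_mul' le_rfl b0)
            (mul_le_mul' (ENNReal.ofReal_le_ofReal (by linarith)) hsum))
      _ = q1 s y u + ENNReal.ofReal A * gB β T μ s u := by
          rw [← mul_assoc, ← mul_assoc, ← ENNReal.ofReal_mul hδ0.le,
            ← ENNReal.ofReal_mul (by norm_num : (0:ℝ) ≤ 2), ← add_mul,
            ← ENNReal.ofReal_add (by positivity) (by positivity)]
          congr 3
          rw [hA]; ring
  have hfin : A * psi β T μ ≤ η / 2 := by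
    have e1 : A * psi β T μ = δ * (C0 ^ 2 * C1 * psi β T μ) +
        η * (2 * (2 * C0 + 1) * C1 * psi β T μ) := by rw [hA]; ring
    rw [e1]
    have e2 := mul_le_mul_of_nonneg_left hpsi' hη0.le
    linarith
  have hdat : D 0 t x v * f0' (x - t • v) v ≤ D 0 t x v * f 0 (x - t • v) v +
      ENNReal.ofReal (η / 2) * wT β T μ t v := by
    calc D 0 t x v * f0' (x - t • v) v
        ≤ D 0 t x v * (f 0 (x - t • v) v + ENNReal.ofReal (η / 2) * wG (2 * β) v) :=
          mul_le_mul' le_rfl (hf0' _ _)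
      _ = D 0 t x v * f 0 (x - t • v) v + D 0 t x v * (ENNReal.ofReal (η / 2) * wG (2 * β) v) :=
          mul_add _ _ _
      _ ≤ D 0 t x v * f 0 (x - t • v) v + 1 * (ENNReal.ofReal (η / 2) * wT β T μ t v) := by
          refine add_le_add le_rfl (mul_le_mul' (hD1 _ _ _ _) (mul_le_mul' le_rfl ?_))
          exact (wG_anti (rate_mem hβ hT ht).2 v).trans (wG_le_wT hβ hT hμ ht v)
      _ = _ := by rw [one_mul]
  calc D 0 t x v * f0' (x - t • v) v + ∫⁻ s in Ioc 0 t, D s t x v *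
        (ENNReal.ofReal (1 + δ) * Q κ (H s (x - (t - s) • v)) (H s (x - (t - s) • v)) v)
      ≤ (D 0 t x v * f 0 (x - t • v) v + ENNReal.ofReal (η / 2) * wT β T μ t v) +
          ∫⁻ s in Ioc 0 t, (D s t x v * q1 s (x - (t - s) • v) v +
          D s t x v * (ENNReal.ofReal A * gB β T μ s v)) := by
        refine add_le_add hdat (setLIntegral_mono' measurableSet_Ioc fun s hs => ?_)
        rw [← mul_add]
        exact mul_le_mul' le_rfl (hsrc s ⟨hs.1.le, hs.2.trans ht.2⟩ _ _)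
    _ = (D 0 t x v * f 0 (x - t • v) v + ENNReal.ofReal (η / 2) * wT β T μ t v) +
          ((∫⁻ s in Ioc 0 t, D s t x v * q1 s (x - (t - s) • v) v) +
          ∫⁻ s in Ioc 0 t, D s t x v * (ENNReal.ofReal A * gB β T μ s v)) := by
        rw [lintegral_add_left (meas_integrand hD hf0 hq1m t x v)]
    _ = f t x v + (ENNReal.ofReal (η / 2) * wT β T μ t v +
          ∫⁻ s in Ioc 0 t, D s t x v * (ENNReal.ofReal A * gB β T μ s v)) := by
        rw [hmild t ht x v]; ring
    _ ≤ f t x v + (ENNReal.ofReal (η / 2) * wT β T μ t v +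
          ENNReal.ofReal (A * psi β T μ) * wT β T μ t v) :=
        add_le_add le_rfl (add_le_add le_rfl (duh_bound hβ hT hμ hA0 hD1 (q := fun s y u =>
          ENNReal.ofReal A * gB β T μ s u) (fun s hs y u => le_rfl) ht x v))
    _ ≤ f t x v + (ENNReal.ofReal (η / 2) * wT β T μ t v +
          ENNReal.ofReal (η / 2) * wT β T μ t v) :=
        add_le_add le_rfl (add_le_add le_rfl (mul_le_mul' (ENNReal.ofReal_le_ofReal hfin) le_rfl))
    _ = H t x v := by
        rw [← add_mul, ← ENNReal.ofReal_add (by positivity) (by positivity), add_halves]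

end main

/-! ### The solution -/

variable {Φ : Space3 → ℝ} {β T : ℝ} {f₀ : PhasePoint → ℝ} {f : ℝ → PhasePoint → ℝ}

/-- initial datum with an energy weight -/
def fEn (T : ℝ) (f : ℝ → PhasePoint → ℝ) (kap : ℝ) (x v : Space3) : ℝ≥0∞ :=
  ENNReal.ofReal (Real.exp (kap * ‖v‖ ^ 2)) * fE T f 0 x v

theorem measurable_fEn (hf : IsRegularKineticSolution Φ β T f₀ f) (kap : ℝ) :
    Measurable fun p : Space3 × Space3 => fEn T f kap p.1 p.2 := by
  have h1 : Measurable fun p : Space3 × Space3 => ENNReal.ofReal (Real.exp (kap * ‖p.2‖ ^ 2)) := by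
    fun_prop
  exact Measurable.mul h1 (meas_fE_zero hf)

theorem sq_mul_exp_le {a : ℝ} (ha : 0 < a) (r : ℝ) : r ^ 2 * Real.exp (-(a * r ^ 2)) ≤ 1 / a := by
  have h1 : a * r ^ 2 + 1 ≤ Real.exp (a * r ^ 2) := Real.add_one_le_exp _
  rw [Real.exp_neg, ← div_eq_mul_inv, div_le_div_iff₀ (Real.exp_pos _) ha]
  nlinarith

/-- the energy weight is a small perturbation -/
theorem fEn_le {C0 δ : ℝ} (hβ : 0 < β) (hC0 : 0 ≤ C0)
    (hb : ∀ x v, fE T f 0 x v ≤ ENNReal.ofReal C0 * wG (2 * β) v) {kap : ℝ}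
    (h0 : 0 < kap) (h1 : kap ≤ β / 4) (h2 : kap * (4 * (C0 + 1)) ≤ δ * β) (x v : Space3) :
    fEn T f kap x v ≤ fE T f 0 x v + ENNReal.ofReal δ * wG (2 * (3 * β / 4)) v := by
  set r := ‖v‖ with hr
  have he1 : 1 ≤ Real.exp (kap * r ^ 2) := Real.one_le_exp (by positivity)
  have hsplit : ENNReal.ofReal (Real.exp (kap * r ^ 2)) =
      1 + ENNReal.ofReal (Real.exp (kap * r ^ 2) - 1) := by
    rw [← ENNReal.ofReal_one, ← ENNReal.ofReal_add zero_le_one (by linarith)]
    congr 1; ring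
  unfold fEn
  rw [hsplit, add_mul, one_mul]
  refine add_le_add le_rfl ((mul_le_mul' le_rfl (hb x v)).trans ?_)
  unfold wG
  have hδ : 0 ≤ δ := by
    by_contra hneg
    push Not at hneg
    have : δ * β < 0 := mul_neg_of_neg_of_pos hneg hβ
    nlinarith [mul_pos h0 (by positivity : (0:ℝ) < 4 * (C0 + 1))]
  rw [← ENNReal.ofReal_mul hC0, ← ENNReal.ofReal_mul (by linarith), ← ENNReal.ofReal_mul hδ]
  refine ENNReal.ofReal_le_ofReal ?_
  rw [← hr]
  -- real inequality
  have e1 : Real.exp (kap * r ^ 2) - 1 ≤ kap * r ^ 2 * Real.exp (kap * r ^ 2) := by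
    have h3 := Real.add_one_le_exp (-(kap * r ^ 2))
    have h4 : Real.exp (kap * r ^ 2) * Real.exp (-(kap * r ^ 2)) = 1 := by
      rw [← Real.exp_add]; simp
    have h5 := mul_le_mul_of_nonneg_left h3 (Real.exp_pos (kap * r ^ 2)).le
    rw [h4] at h5
    linarith
  have e2 : Real.exp (kap * r ^ 2) ≤ Real.exp (β / 4 * r ^ 2) :=
    Real.exp_le_exp.2 (mul_le_mul_of_nonneg_right h1 (sq_nonneg r))
  have e3 : (Real.exp (kap * r ^ 2) - 1) * Real.exp (-(β / 2 * r ^ 2)) ≤ kap * (4 / β) := by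
    have h6 : (Real.exp (kap * r ^ 2) - 1) ≤ kap * r ^ 2 * Real.exp (β / 4 * r ^ 2) :=
      e1.trans (mul_le_mul_of_nonneg_left e2 (by positivity))
    have h7 := mul_le_mul_of_nonneg_right h6 (Real.exp_pos (-(β / 2 * r ^ 2))).le
    have h8 : kap * r ^ 2 * Real.exp (β / 4 * r ^ 2) * Real.exp (-(β / 2 * r ^ 2)) =
        kap * (r ^ 2 * Real.exp (-(β / 4 * r ^ 2))) := by
      rw [mul_assoc, ← Real.exp_add, show β / 4 * r ^ 2 + -(β / 2 * r ^ 2) =
        -(β / 4 * r ^ 2) by ring]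
      ring
    rw [h8] at h7
    have h9 := mul_le_mul_of_nonneg_left (sq_mul_exp_le (by positivity : 0 < β / 4) r) h0.le
    have h10 : (1 : ℝ) / (β / 4) = 4 / β := by field_simp
    rw [h10] at h9
    exact h7.trans h9
  have e4 : (Real.exp (kap * r ^ 2) - 1) * (C0 * Real.exp (-(2 * β * r ^ 2))) =
      C0 * ((Real.exp (kap * r ^ 2) - 1) * Real.exp (-(β / 2 * r ^ 2))) *
        Real.exp (-(2 * (3 * β / 4) * r ^ 2)) := by
    have h11 : Real.exp (-(2 * β * r ^ 2)) = Real.exp (-(β / 2 * r ^ 2)) *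
        Real.exp (-(2 * (3 * β / 4) * r ^ 2)) := by
      rw [← Real.exp_add]; congr 1; ring
    rw [h11]; ring
  rw [e4]
  refine mul_le_mul_of_nonneg_right ?_ (Real.exp_pos _).le
  calc C0 * ((Real.exp (kap * r ^ 2) - 1) * Real.exp (-(β / 2 * r ^ 2)))
      ≤ C0 * (kap * (4 / β)) := mul_le_mul_of_nonneg_left e3 hC0
    _ ≤ δ := by
        have h12 : C0 * (kap * (4 / β)) = kap * (4 * C0) / β := by ring
        rw [h12, div_le_iff₀ hβ]
        nlinarith

/-- **Energy-weighted exponential moment**, full damping on `[0, T]`. -/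
theorem energy_moment_full (hβ : 0 < β) (hT : 0 < T) (hΦ : AdmissiblePotential Φ)
    (hf : IsRegularKineticSolution Φ β T f₀ f) :
    ∃ kap lam C : ℝ, 0 < kap ∧ kap ≤ β / 4 ∧ 1 < lam ∧ 0 ≤ C ∧ ∀ t ∈ Icc 0 T, ∀ x v,
      ∑' τ : CTree, ENNReal.ofReal lam ^ τ.size *
        F (kapQ Φ) (damp T f) (fEn T f kap) τ t x v ≤ ENNReal.ofReal C * wG (3 * β / 4) v := by
  have S := Scat818.scatFacts hΦ
  obtain ⟨C0, hC0, hb⟩ := exists_bound hT hf
  have hβ' : 0 < 3 * β / 4 := by positivity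
  obtain ⟨lam, δ, hlam, hδ, H⟩ := exp_moment_pert (κ := kapQ Φ) (D := damp T f) hβ' hT hC0
    (C1G_nonneg (3 * β / 4)) (kernelBound_kapQ S hβ') damp_le_one (meas4_damp hf) (meas3_fE hf)
    (fun t _ x v => (hb t x v).trans (mul_le_mul' le_rfl (wG_anti (by linarith) v)))
    (isMild hβ hT hΦ hf)
  set kap : ℝ := min (β / 4) (δ * β / (4 * (C0 + 1))) with hkap
  have hkap0 : 0 < kap := lt_min (by positivity) (by positivity)
  have hk2 : kap * (4 * (C0 + 1)) ≤ δ * β := by
    have h1 : kap ≤ δ * β / (4 * (C0 + 1)) := min_le_right _ _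
    rwa [le_div_iff₀ (by positivity)] at h1
  refine ⟨kap, lam, C0 + 1, hkap0, min_le_left _ _, hlam, by linarith, fun t ht x v => ?_⟩
  exact H (fEn T f kap) (measurable_fEn hf kap)
    (fun x v => fEn_le hβ hC0 (hb 0) hkap0 (min_le_left _ _) hk2 x v) t ht x v

/-- bound of the weighted datum -/
theorem fEn_le_wG {C0 : ℝ} (hC0 : 0 ≤ C0)
    (hb : ∀ x v, fE T f 0 x v ≤ ENNReal.ofReal C0 * wG (2 * β) v) {kap γ : ℝ}
    (hγ : kap + γ ≤ 2 * β) (x v : Space3) :
    fEn T f kap x v ≤ ENNReal.ofReal C0 * wG γ v := by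
  unfold fEn
  refine (mul_le_mul' le_rfl (hb x v)).trans ?_
  unfold wG
  rw [← ENNReal.ofReal_mul hC0, ← ENNReal.ofReal_mul (Real.exp_pos _).le,
    ← ENNReal.ofReal_mul hC0]
  refine ENNReal.ofReal_le_ofReal ?_
  rw [mul_left_comm, ← Real.exp_add]
  refine mul_le_mul_of_nonneg_left (Real.exp_le_exp.2 ?_) hC0
  nlinarith [sq_nonneg ‖v‖]

/-- **Energy-weighted exponential moments**: one choice of constants for the window damping and
for the undamped straight line. -/
theorem exists_energy_moments (hβ : 0 < β) (hT : 0 < T) (hΦ : AdmissiblePotential Φ)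
    (hf : IsRegularKineticSolution Φ β T f₀ f) :
    ∃ h₀ kap lam C b : ℝ, 0 < h₀ ∧ 0 < kap ∧ 1 < lam ∧ 0 ≤ C ∧ 0 < b ∧
      ∀ tw ∈ Icc 0 T, ∀ t ∈ Icc 0 (tw + h₀), ∀ x v,
        ∑' τ : CTree, ENNReal.ofReal lam ^ τ.size *
          F (kapQ Φ) (Dwin (damp T f) tw) (fEn T f kap) τ t x v ≤ ENNReal.ofReal C * wG b v ∧
        ∑' τ : CTree, ENNReal.ofReal lam ^ τ.size *
          FS (kapQ Φ) (Dwin (damp T f) tw) (fEn T f kap) τ t x v ≤ ENNReal.ofReal C * wG b v := by
  have S := Scat818.scatFacts hΦ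
  obtain ⟨kap, lam, C, hkap, hkap1, hlam, hC, H⟩ := energy_moment_full hβ hT hΦ hf
  obtain ⟨C0, hC0, hb⟩ := exists_bound hT hf
  set γ : ℝ := 3 * β / 8 with hγ
  have hγ0 : 0 < γ := by positivity
  have hlam0 : 0 ≤ lam := by linarith
  obtain ⟨h₀, hh₀, H2⟩ := exists_window_moment (κ := kapQ Φ) (β := γ) (C0 := C)
    (C1 := C1G γ) hγ0 hC (C1G_nonneg _) (kernelBound_kapQ S hγ0) (lam := lam) hlam0
  have H3 : ∀ tw ∈ Icc 0 T, ∀ t ∈ Icc 0 (tw + h₀), ∀ x v,
      ∑' τ : CTree, ENNReal.ofReal lam ^ τ.size *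
        F (kapQ Φ) (Dwin (damp T f) tw) (fEn T f kap) τ t x v ≤
          ENNReal.ofReal (6 * C) * wG γ v := by
    intro tw htw t ht x v
    refine H2 damp_le_one (meas4_damp hf) (measurable_fEn hf kap) (fun t ht x v => ?_) tw htw t ht
      x v
    rw [show 2 * γ = 3 * β / 4 by rw [hγ]; ring]
    exact H t ht x v
  set C2 : ℝ := (CG γ).toReal with hC2
  have hC20 : 0 ≤ C2 := ENNReal.toReal_nonneg
  have hCG : CG γ = ENNReal.ofReal C2 := (ENNReal.ofReal_toReal (CG_lt_top hγ0).ne).symm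
  set T' : ℝ := T + h₀ with hT'
  have hT'0 : 0 ≤ T' := by positivity
  set M : ℝ := T' * (lam * ((6 * C) ^ 2 * C1G γ)) with hM
  have hM0 : 0 ≤ M := by have := C1G_nonneg γ; positivity
  set a : ℝ := 2 * lam * (6 * C) * C2 * T' with ha
  have ha0 : 0 ≤ a := by positivity
  set C3 : ℝ := (C0 + M) * Real.exp (a + (1 + a) ^ 2 / (2 * γ)) with hC3
  have hC30 : 0 ≤ C3 := by positivity
  have H4 : ∀ tw ∈ Icc 0 T, ∀ t ∈ Icc 0 (tw + h₀), ∀ x v,
      ∑' τ : CTree, ENNReal.ofReal lam ^ τ.size *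
        FS (kapQ Φ) (Dwin (damp T f) tw) (fEn T f kap) τ t x v ≤
          ENNReal.ofReal C3 * wG (γ / 2) v := by
    intro tw htw t ht x v
    have hsum : ∀ n : ℕ, ∑ τ ∈ CTree.lt n, ENNReal.ofReal lam ^ τ.size *
        FS (kapQ Φ) (Dwin (damp T f) tw) (fEn T f kap) τ t x v ≤
        ENNReal.ofReal (sA γ (6 * C) C0 (C1G γ) lam (tw + h₀) v *
          Real.exp (sa (6 * C) C2 lam v * t)) := by
      intro n
      refine FS_sum_le (κ := kapQ Φ) (T := tw + h₀) (by positivity) hC0 (C1G_nonneg _) hC20 hlam0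
        (by linarith [htw.1]) ?_ ?_ ?_ (kapQ_diag S) (fun t ht x v => H3 tw htw t ht x v) ?_ n t ht
        x v
      · exact fun v => kernelBound_kapQ S hγ0 γ ⟨le_rfl, by linarith⟩ v
      · intro v
        refine (kapQ_fst_le S γ v).trans (le_of_eq ?_)
        rw [hCG, ENNReal.ofReal_mul hC20]
      · intro v
        refine (kapQ_snd_le S γ v).trans (le_of_eq ?_)
        rw [hCG, ENNReal.ofReal_mul hC20]
      · intro x v
        exact fEn_le_wG hC0 (hb 0) (by rw [hγ]; linarith) x v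
    rw [ENNReal.tsum_eq_iSup_sum' CTree.lt CTree.exists_subset_lt]
    refine iSup_le fun n => (hsum n).trans ?_
    unfold wG
    rw [← ENNReal.ofReal_mul hC30]
    refine ENNReal.ofReal_le_ofReal ?_
    have hv := norm_nonneg v
    have h1 : sA γ (6 * C) C0 (C1G γ) lam (tw + h₀) v ≤
        C0 * Real.exp (-(γ * ‖v‖ ^ 2)) + M * ((1 + ‖v‖) * Real.exp (-(γ * ‖v‖ ^ 2))) := by
      unfold sA
      have h2 : (tw + h₀) * (lam * ((6 * C) ^ 2 * (C1G γ * ((1 + ‖v‖) *
          Real.exp (-(γ * ‖v‖ ^ 2)))))) ≤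
          T' * (lam * ((6 * C) ^ 2 * (C1G γ * ((1 + ‖v‖) * Real.exp (-(γ * ‖v‖ ^ 2)))))) := by
        refine mul_le_mul_of_nonneg_right (by linarith [htw.2]) ?_
        have := C1G_nonneg γ
        positivity
      have h3 : T' * (lam * ((6 * C) ^ 2 * (C1G γ * ((1 + ‖v‖) * Real.exp (-(γ * ‖v‖ ^ 2)))))) =
          M * ((1 + ‖v‖) * Real.exp (-(γ * ‖v‖ ^ 2))) := by rw [hM]; ring
      linarith
    have h4 : Real.exp (sa (6 * C) C2 lam v * t) ≤ Real.exp (a * (1 + ‖v‖)) := by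
      refine Real.exp_le_exp.2 ?_
      have h5 : t ≤ T' := ht.2.trans (by linarith [htw.2])
      have h6 : sa (6 * C) C2 lam v * t ≤ sa (6 * C) C2 lam v * T' :=
        mul_le_mul_of_nonneg_left h5 (sa_nonneg (by positivity) hC20 hlam0 v)
      refine h6.trans (le_of_eq ?_)
      unfold sa
      rw [ha]; ring
    refine (mul_le_mul h1 h4 (Real.exp_pos _).le (by positivity)).trans ?_
    exact absorb hγ0 hC0 hM0 ha0 hv
  refine ⟨h₀, kap, lam, max (6 * C) C3, γ / 2, hh₀, hkap, hlam, le_max_of_le_right hC30,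
    by positivity, fun tw htw t ht x v => ⟨?_, ?_⟩⟩
  · exact (H3 tw htw t ht x v).trans (mul_le_mul' (ENNReal.ofReal_le_ofReal (le_max_left _ _))
      (wG_anti (by linarith) v))
  · exact (H4 tw htw t ht x v).trans (mul_le_mul' (ENNReal.ofReal_le_ofReal (le_max_right _ _))
      le_rfl)

/-! ### Multiplicative weights on the leaves -/

section weight

variable {D : ℝ → ℝ → Space3 → Space3 → ℝ≥0∞} {f0 : Space3 → Space3 → ℝ≥0∞}

theorem dens_weight (g : Space3 → ℝ≥0∞) (P : CTree) (t : ℝ) (ℓ : PhasePoint) (p : Par P) :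
    dens Φ D (fun x v => g v * f0 x v) P t ℓ p =
      (∏ i : Idx P, g (vels Φ P ℓ.2 p i)) * dens Φ D f0 P t ℓ p := by
  induction P generalizing t ℓ with
  | leaf =>
    have h1 : (∏ i : Idx CTree.leaf, g (vels Φ .leaf ℓ.2 p i)) = g ℓ.2 := by
      change (∏ _i : Unit, g ℓ.2) = g ℓ.2
      simp
    rw [h1]
    simp only [dens]
    ring
  | node l r hl hr =>
    have h1 : (∏ i : Idx (CTree.node l r), g (vels Φ (.node l r) ℓ.2 p i)) =
        (∏ i : Idx l, g (vels Φ l (preV Φ ℓ.2 p.1).1 p.2.1 i)) *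
        (∏ i : Idx r, g (vels Φ r (preV Φ ℓ.2 p.1).2 p.2.2 i)) := by
      change (∏ i : Idx l ⊕ Idx r, g (vels Φ (.node l r) ℓ.2 p i)) = _
      rw [Fintype.prod_sum_type]
      rfl
    rw [h1]
    simp only [dens]
    rw [hl, hr]
    simp only [inMap]
    ring

theorem densS_weight (g : Space3 → ℝ≥0∞) (P : CTree) (t : ℝ) (ℓ : PhasePoint) (p : Par P) :
    densS Φ D (fun x v => g v * f0 x v) P t ℓ p =
      (∏ i : Idx P, g (vels Φ P ℓ.2 p i)) * densS Φ D f0 P t ℓ p := by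
  induction P generalizing t ℓ with
  | leaf =>
    have h1 : (∏ i : Idx CTree.leaf, g (vels Φ .leaf ℓ.2 p i)) = g ℓ.2 := by
      change (∏ _i : Unit, g ℓ.2) = g ℓ.2
      simp
    rw [h1]
    rfl
  | node l r hl hr =>
    have h1 : (∏ i : Idx (CTree.node l r), g (vels Φ (.node l r) ℓ.2 p i)) =
        (∏ i : Idx l, g (vels Φ l (preV Φ ℓ.2 p.1).1 p.2.1 i)) *
        (∏ i : Idx r, g (vels Φ r (preV Φ ℓ.2 p.1).2 p.2.2 i)) := by
      change (∏ i : Idx l ⊕ Idx r, g (vels Φ (.node l r) ℓ.2 p i)) = _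
      rw [Fintype.prod_sum_type]
      rfl
    rw [h1]
    simp only [densS]
    rw [hl, hr, dens_weight, dens_weight]
    simp only [inMap]
    split_ifs <;> ring

theorem prod_exp_weight (kap : ℝ) (P : CTree) (v : Space3) (p : Par P) :
    (∏ i : Idx P, ENNReal.ofReal (Real.exp (kap * ‖vels Φ P v p i‖ ^ 2))) =
      ENNReal.ofReal (Real.exp (kap * ∑ i : Idx P, ‖vels Φ P v p i‖ ^ 2)) := by
  rw [← ENNReal.ofReal_prod_of_nonneg (fun i _ => (Real.exp_pos _).le), ← Real.exp_sum,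
    Finset.mul_sum]

end weight

end Crest.Agent.R122.Seg814
end
end

-- ▼ part R122/BoltzEn2_814

/-!
Row 122 (helper814): weights on collision trees, parameter form of the kinetic bounds.

* `eng Φ P v p` : the energy `∑ ‖v_i‖²` of the leaves.
* `KinC` : the constants of `exists_energy_moments` as a predicate, `exists_kinC`.
* `KinC.param`, `KinC.paramS` : bounds of `∑ lam^size ∫ wt * exp (kap * eng) * dens(S)`.
* `KinC.weightS`, `KinC.tailS` : the same for an arbitrary weight `phi` with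
  `phi ≤ M * lam₁ ^ size * exp (kap * eng)`; `sum_weight_le` : the additive weight
  `∑ (1 + ‖v_i‖²)` is such a weight.
-/

set_option autoImplicit false
set_option linter.unusedSectionVars false
open MeasureTheory ProbabilityTheory Set
open Crest.AnalysisR.Kinetic
open Crest.Agent.R122.Boltz814 Crest.Agent.R122.Kin416 Crest.Agent.R122.Kin796
  Crest.Agent.R122.Disc416 Crest.Agent.R122.Tree674 Crest.Agent.R122.Scat818
  Crest.Agent.R122.TreeF399
open scoped Classical ENNReal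

noncomputable section

namespace Crest.Agent.R122.Seg814

variable {Φ : Space3 → ℝ} {β T : ℝ} {f₀ : PhasePoint → ℝ} {f : ℝ → PhasePoint → ℝ}

/-- Energy of the leaves. -/
def eng (Φ : Space3 → ℝ) (P : CTree) (v : Space3) (p : Par P) : ℝ :=
  ∑ i : Idx P, ‖vels Φ P v p i‖ ^ 2

theorem eng_nonneg (P : CTree) (v : Space3) (p : Par P) : 0 ≤ eng Φ P v p :=
  Finset.sum_nonneg fun _ _ => sq_nonneg _

theorem sq_le_eng (P : CTree) (v : Space3) (p : Par P) (i : Idx P) :
    ‖vels Φ P v p i‖ ^ 2 ≤ eng Φ P v p :=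
  Finset.single_le_sum (f := fun i => ‖vels Φ P v p i‖ ^ 2) (fun _ _ => sq_nonneg _)
    (Finset.mem_univ i)



/-- The constants of the kinetic bounds: window length `h₀`, energy weight `kap`, size marker
`lam`, bound `C * exp (-b‖v‖²)`. -/
def KinC (Φ : Space3 → ℝ) (T : ℝ) (f : ℝ → PhasePoint → ℝ) (h₀ kap lam C b : ℝ) : Prop :=
  0 < h₀ ∧ 0 < kap ∧ 1 < lam ∧ 0 ≤ C ∧ 0 < b ∧
    ∀ tw ∈ Icc 0 T, ∀ t ∈ Icc 0 (tw + h₀), ∀ x v,
      ∑' τ : CTree, ENNReal.ofReal lam ^ τ.size *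
        F (kapQ Φ) (Dwin (damp T f) tw) (fEn T f kap) τ t x v ≤ ENNReal.ofReal C * wG b v ∧
      ∑' τ : CTree, ENNReal.ofReal lam ^ τ.size *
        FS (kapQ Φ) (Dwin (damp T f) tw) (fEn T f kap) τ t x v ≤ ENNReal.ofReal C * wG b v

theorem exists_kinC (hβ : 0 < β) (hT : 0 < T) (hΦ : AdmissiblePotential Φ)
    (hf : IsRegularKineticSolution Φ β T f₀ f) :
    ∃ h₀ kap lam C b : ℝ, KinC Φ T f h₀ kap lam C b := exists_energy_moments hβ hT hΦ hf

/-- the weighted integrand over the tree parameters (root damped) -/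
def wD (Φ : Space3 → ℝ) (T : ℝ) (f : ℝ → PhasePoint → ℝ) (tw : ℝ) (P : CTree) (t : ℝ)
    (x v : Space3) (p : Par P) : ℝ≥0∞ :=
  {p | Valid Φ 0 P t v p}.indicator (fun p => wt Φ P v p *
    dens Φ (Dwin (damp T f) tw) (fE T f 0) P t (x - t • v, v) p) p

/-- the weighted integrand over the tree parameters (straight line of the root undamped) -/
def wS (Φ : Space3 → ℝ) (T : ℝ) (f : ℝ → PhasePoint → ℝ) (tw : ℝ) (P : CTree) (t : ℝ)
    (x v : Space3) (p : Par P) : ℝ≥0∞ :=
  {p | Valid Φ 0 P t v p}.indicator (fun p => wt Φ P v p *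
    densS Φ (Dwin (damp T f) tw) (fE T f 0) P t (x - t • v, v) p) p


theorem wS_eq_WtS (tw : ℝ) (P : CTree) (t : ℝ)
    (x v : Space3) (p : Par P) :
    wS Φ T f tw P t x v p = WtS Φ (Dwin (damp T f) tw) (fE T f 0) P t x v p :=
  weightS_eq P t x v p

theorem F_energy (hΦ : AdmissiblePotential Φ) (hf : IsRegularKineticSolution Φ β T f₀ f)
    (kap tw : ℝ) (P : CTree) (t : ℝ) (x v : Space3) :
    F (kapQ Φ) (Dwin (damp T f) tw) (fEn T f kap) P t x v =
      ∫⁻ p : Par P, ENNReal.ofReal (Real.exp (kap * eng Φ P v p)) * wD Φ T f tw P t x v p := by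
  rw [← lintegral_Wt hΦ (meas4_Dwin (meas4_damp hf) tw) (measurable_fEn hf kap) P t x v]
  refine lintegral_congr fun p => ?_
  rw [← weight_eq (Φ := Φ)]
  unfold wD
  by_cases h : p ∈ {p | Valid Φ 0 P t v p}
  · rw [indicator_of_mem h, indicator_of_mem h]
    have h1 := dens_weight (Φ := Φ) (D := Dwin (damp T f) tw) (f0 := fE T f 0)
      (fun v => ENNReal.ofReal (Real.exp (kap * ‖v‖ ^ 2))) P t (x - t • v, v) p
    have h2 : dens Φ (Dwin (damp T f) tw) (fEn T f kap) P t (x - t • v, v) p = _ := h1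
    rw [h2, prod_exp_weight]
    unfold eng
    ring
  · rw [indicator_of_notMem h, indicator_of_notMem h, mul_zero]

theorem FS_energy (hΦ : AdmissiblePotential Φ) (hf : IsRegularKineticSolution Φ β T f₀ f)
    (kap tw : ℝ) (P : CTree) (t : ℝ) (x v : Space3) :
    FS (kapQ Φ) (Dwin (damp T f) tw) (fEn T f kap) P t x v =
      ∫⁻ p : Par P, ENNReal.ofReal (Real.exp (kap * eng Φ P v p)) * wS Φ T f tw P t x v p := by
  rw [FS_eq hΦ (meas4_Dwin (meas4_damp hf) tw) (measurable_fEn hf kap) P t x v]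
  refine lintegral_congr fun p => ?_
  unfold wS
  by_cases h : p ∈ {p | Valid Φ 0 P t v p}
  · rw [indicator_of_mem h, indicator_of_mem h]
    have h1 := densS_weight (Φ := Φ) (D := Dwin (damp T f) tw) (f0 := fE T f 0)
      (fun v => ENNReal.ofReal (Real.exp (kap * ‖v‖ ^ 2))) P t (x - t • v, v) p
    have h2 : densS Φ (Dwin (damp T f) tw) (fEn T f kap) P t (x - t • v, v) p = _ := h1
    rw [h2, prod_exp_weight]
    unfold eng
    ring
  · rw [indicator_of_notMem h, indicator_of_notMem h, mul_zero]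

section bounds

variable {h₀ kap lam C b : ℝ}

/-- General weights, root damped. -/
theorem KinC.weight (hΦ : AdmissiblePotential Φ) (hf : IsRegularKineticSolution Φ β T f₀ f)
    (hK : KinC Φ T f h₀ kap lam C b) {phi : ∀ P : CTree, Space3 → Par P → ℝ≥0∞} {M : ℝ≥0∞}
    (hM : M ≠ ∞)
    (hphi : ∀ P v p, phi P v p ≤ M * ENNReal.ofReal lam ^ P.size *
      ENNReal.ofReal (Real.exp (kap * eng Φ P v p)))
    {tw : ℝ} (htw : tw ∈ Icc 0 T) {t : ℝ} (ht : t ∈ Icc 0 (tw + h₀)) (x v : Space3) :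
    ∑' P : CTree, ∫⁻ p : Par P, phi P v p * wD Φ T f tw P t x v p ≤
      M * (ENNReal.ofReal C * wG b v) := by
  refine le_trans ?_ (mul_le_mul' le_rfl (hK.2.2.2.2.2 tw htw t ht x v).1)
  rw [← ENNReal.tsum_mul_left]
  refine ENNReal.tsum_le_tsum fun P => ?_
  have hfin : M * ENNReal.ofReal lam ^ P.size ≠ ∞ :=
    ENNReal.mul_ne_top hM (ENNReal.pow_ne_top ENNReal.ofReal_ne_top)
  rw [F_energy hΦ hf, ← mul_assoc, ← lintegral_const_mul' _ _ hfin]
  refine lintegral_mono fun p => ?_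
  rw [← mul_assoc]
  exact mul_le_mul' (hphi P v p) le_rfl

/-- General weights, straight line of the root undamped. -/
theorem KinC.weightS (hΦ : AdmissiblePotential Φ) (hf : IsRegularKineticSolution Φ β T f₀ f)
    (hK : KinC Φ T f h₀ kap lam C b) {phi : ∀ P : CTree, Space3 → Par P → ℝ≥0∞} {M : ℝ≥0∞}
    (hM : M ≠ ∞)
    (hphi : ∀ P v p, phi P v p ≤ M * ENNReal.ofReal lam ^ P.size *
      ENNReal.ofReal (Real.exp (kap * eng Φ P v p)))
    {tw : ℝ} (htw : tw ∈ Icc 0 T) {t : ℝ} (ht : t ∈ Icc 0 (tw + h₀)) (x v : Space3) :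
    ∑' P : CTree, ∫⁻ p : Par P, phi P v p * wS Φ T f tw P t x v p ≤
      M * (ENNReal.ofReal C * wG b v) := by
  refine le_trans ?_ (mul_le_mul' le_rfl (hK.2.2.2.2.2 tw htw t ht x v).2)
  rw [← ENNReal.tsum_mul_left]
  refine ENNReal.tsum_le_tsum fun P => ?_
  have hfin : M * ENNReal.ofReal lam ^ P.size ≠ ∞ :=
    ENNReal.mul_ne_top hM (ENNReal.pow_ne_top ENNReal.ofReal_ne_top)
  rw [FS_energy hΦ hf, ← mul_assoc, ← lintegral_const_mul' _ _ hfin]
  refine lintegral_mono fun p => ?_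
  rw [← mul_assoc]
  exact mul_le_mul' (hphi P v p) le_rfl

/-- size tails: a weight growing like `lam₁ ^ size`, `lam₁ < lam`, restricted to the trees with at
least `m` collisions -/
theorem tail_weight {lam lam₁ : ℝ} (h1 : 0 < lam₁) (h2 : lam₁ ≤ lam) {M e : ℝ≥0∞} {n m : ℕ}
    (hn : m ≤ n) : M * ENNReal.ofReal lam₁ ^ n * e ≤
      (M * ENNReal.ofReal (lam₁ / lam) ^ m) * ENNReal.ofReal lam ^ n * e := by
  have hlam : 0 < lam := lt_of_lt_of_le h1 h2
  refine mul_le_mul' ?_ le_rfl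
  rw [mul_assoc]
  refine mul_le_mul' le_rfl ?_
  rw [← ENNReal.ofReal_pow h1.le, ← ENNReal.ofReal_pow hlam.le,
    ← ENNReal.ofReal_pow (by positivity), ← ENNReal.ofReal_mul (by positivity)]
  refine ENNReal.ofReal_le_ofReal ?_
  obtain ⟨k, rfl⟩ := Nat.exists_eq_add_of_le hn
  rw [pow_add, pow_add, div_pow, ← mul_assoc, div_mul_cancel₀ _ (by positivity)]
  exact mul_le_mul_of_nonneg_left (pow_le_pow_left₀ h1.le h2 k) (by positivity)


end bounds

/-! ### The additive weight -/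

theorem exists_nat_le_pow {lam : ℝ} (h : 1 < lam) : ∃ M : ℝ, 0 < M ∧ ∀ n : ℕ,
    ((n : ℝ) + 1) ≤ M * lam ^ n := by
  refine ⟨1 + 1 / (lam - 1), by have : 0 < lam - 1 := by linarith
                                positivity, fun n => ?_⟩
  have h0 : 0 < lam - 1 := by linarith
  have h1 : 1 + (n : ℝ) * (lam - 1) ≤ lam ^ n := by
    have := one_add_mul_le_pow (a := lam - 1) (by linarith) n
    simpa using this
  have h2 : (n : ℝ) ≤ 1 / (lam - 1) * lam ^ n := by
    rw [one_div, inv_mul_eq_div, le_div_iff₀ h0]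
    linarith
  have h3 : (1 : ℝ) ≤ lam ^ n := one_le_pow₀ h.le
  nlinarith

/-- The additive weight `∑ (1 + ‖v_i‖²)` is dominated by `lam ^ size * exp (kap * eng)`. -/
theorem exists_additive_le {lam kap : ℝ} (hlam : 1 < lam) (hkap : 0 < kap) :
    ∃ M : ℝ, 0 < M ∧ ∀ (P : CTree) (v : Space3) (p : Par P),
      ∑ i : Idx P, ENNReal.ofReal (1 + ‖vels Φ P v p i‖ ^ 2) ≤
        ENNReal.ofReal M * ENNReal.ofReal lam ^ P.size *
          ENNReal.ofReal (Real.exp (kap * eng Φ P v p)) := by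
  obtain ⟨M, hM, h⟩ := exists_nat_le_pow hlam
  refine ⟨M * (1 + 1 / kap), by positivity, fun P v p => ?_⟩
  have hlam0 : 0 < lam := by linarith
  have h1 : ∀ i : Idx P, 1 + ‖vels Φ P v p i‖ ^ 2 ≤
      (1 + 1 / kap) * Real.exp (kap * eng Φ P v p) := by
    intro i
    have h2 := sq_le_eng (Φ := Φ) P v p i
    have h3 : kap * eng Φ P v p + 1 ≤ Real.exp (kap * eng Φ P v p) := Real.add_one_le_exp _
    have h4 : 1 ≤ Real.exp (kap * eng Φ P v p) :=
      Real.one_le_exp (mul_nonneg hkap.le (eng_nonneg P v p))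
    have h5 : eng Φ P v p ≤ 1 / kap * Real.exp (kap * eng Φ P v p) := by
      rw [one_div, inv_mul_eq_div, le_div_iff₀ hkap]
      linarith
    linarith
  rw [← ENNReal.ofReal_sum_of_nonneg (fun i _ => by positivity), ← ENNReal.ofReal_pow hlam0.le,
    ← ENNReal.ofReal_mul (by positivity), ← ENNReal.ofReal_mul (by positivity)]
  refine ENNReal.ofReal_le_ofReal ?_
  calc ∑ i : Idx P, (1 + ‖vels Φ P v p i‖ ^ 2)
      ≤ ∑ _i : Idx P, (1 + 1 / kap) * Real.exp (kap * eng Φ P v p) :=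
        Finset.sum_le_sum fun i _ => h1 i
    _ = ((P.size : ℝ) + 1) * ((1 + 1 / kap) * Real.exp (kap * eng Φ P v p)) := by
        rw [Finset.sum_const, Finset.card_univ, card_idx, CTree.leaves_eq, nsmul_eq_mul]
        push_cast
        ring
    _ ≤ (M * lam ^ P.size) * ((1 + 1 / kap) * Real.exp (kap * eng Φ P v p)) :=
        mul_le_mul_of_nonneg_right (h P.size) (by positivity)
    _ = M * (1 + 1 / kap) * lam ^ P.size * Real.exp (kap * eng Φ P v p) := by ring


end Crest.Agent.R122.Seg814
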