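import Crest.Agent.R122.ClusterBC_311
import Crest.Agent.R122.Line2B_879
import Crest.Agent.R122.RealTree_674
import Crest.Agent.R122.OCout_796
import Crest.Agent.R122.OneCA_423
import Crest.Agent.R122.ToTree_335
import Crest.Agent.R122.TreeLines_335
import Crest.Agent.R122.LineMeas_994
import Crest.Agent.R122.Q1Cor_815
import Crest.Agent.R122.SmallNull_566

-- ▼ part R122/OCMecke_285
section

/-!
# Measure-level one-contact step (row 122, board H1), part 1: Mecke formula with a parameter

`param_mecke`: a marked particle `i` of the gas and a parameter `a` (for instance an inserted line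
`l`, or a pair of lines `(d, e)`), a cluster map `cl n Z i a` depending on the parameter.
The parameter is integrated with respect to a measure `ν`, the cluster is opened by Mecke.
-/

set_option autoImplicit false
open MeasureTheory
open scoped Classical ENNReal
open Crest.AnalysisR.Kinetic
open Crest.Agent.R122.GC311
noncomputable section

namespace Crest.Agent.R122.OC285

variable {α : Type*} [MeasurableSpace α]

/-- A cluster map with one marked particle and a parameter. -/
structure PClusterMap (ε : ℝ)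
    (cl : (n : ℕ) → Config n → Fin n → α → Finset (Fin n)) : Prop where
  /-- the marked particle belongs to its cluster whenever the cluster is nonempty -/
  self_mem : ∀ n Z i a, Z ∈ PairExcluded ε n → (cl n Z i a).Nonempty → i ∈ cl n Z i a
  equiv : ∀ (n : ℕ) (σ : Equiv.Perm (Fin n)) (Z : Config n) (i : Fin n) (a : α),
    Z ∈ PairExcluded ε n →
    cl n Z (σ i) a = (cl n (fun i => Z (σ i)) i a).map σ.toEmbedding
  meas : ∀ n i B, MeasurableSet {p : Config n × α | cl n p.1 i p.2 = B}

/-- **Mecke formula for clusters with a parameter** (functionals of the marked particle, its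
cluster, the configuration and the parameter; the parameter is integrated). Empty clusters are
ignored: take `cl = ∅` to encode that the event does not happen. -/
theorem param_mecke {f₀ : PhasePoint → ℝ} (hf : Measurable f₀) {ε : ℝ} (ν : Measure α)
    [SFinite ν] {cl : (n : ℕ) → Config n → Fin n → α → Finset (Fin n)}
    (hcl : PClusterMap ε cl)
    {F : (n : ℕ) → Fin n → Finset (Fin n) → Config n → α → ℝ≥0∞}
    (hF : ∀ (n : ℕ) (σ : Equiv.Perm (Fin n)) (i : Fin n) (B : Finset (Fin n)) (Z : Config n)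
      (a : α), Z ∈ PairExcluded ε n →
      F n (σ i) (B.map σ.toEmbedding) Z a = F n i B (fun i => Z (σ i)) a)
    (hFm : ∀ n i B, Measurable fun p : Config n × α => F n i B p.1 p.2) :
    gcE f₀ ε (fun n Z => ∑ i : Fin n, ∫⁻ a,
        (if (cl n Z i a).Nonempty then F n i (cl n Z i a) Z a else 0) ∂ν) =
      ∑' k : ℕ, activity ε ^ (k + 1) / ((k + 1).factorial : ℝ≥0∞) *
        ∫⁻ V : Config (k + 1), gcWeight f₀ ε (k + 1) V *
        gcE f₀ ε (fun m w => perpInd ε V w * ∑ j : Fin (k + 1), ∫⁻ a,
          (if cl (k + 1 + m) (Fin.append V w) (Fin.castAdd m j) a = block (k + 1) m then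
            F (k + 1 + m) (Fin.castAdd m j) (block (k + 1) m) (Fin.append V w) a else 0) ∂ν) := by
  set G : (n : ℕ) → Finset (Fin n) → Config n → ℝ≥0∞ := fun n B Z =>
    ∑ i : Fin n, ∫⁻ a, (if cl n Z i a = B then F n i B Z a else 0) ∂ν with hG
  have hGm : ∀ n B, Measurable (G n B) := by
    intro n B
    refine Finset.measurable_sum _ fun i _ => ?_
    have h : Measurable fun p : Config n × α => if cl n p.1 i p.2 = B then F n i B p.1 p.2 else 0 :=
      Measurable.ite (hcl.meas n i B) (hFm n i B) measurable_const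
    exact h.lintegral_prod_right'
  have hGe : ∀ (n : ℕ) (σ : Equiv.Perm (Fin n)) (B : Finset (Fin n)) (Z : Config n),
      Z ∈ PairExcluded ε n → G n (B.map σ.toEmbedding) Z = G n B (fun i => Z (σ i)) := by
    intro n σ B Z hZ
    simp only [hG]
    rw [← Equiv.sum_comp σ (fun i : Fin n => ∫⁻ a, (if cl n Z i a = B.map σ.toEmbedding then
        F n i (B.map σ.toEmbedding) Z a else 0) ∂ν)]
    refine Finset.sum_congr rfl fun i _ => lintegral_congr fun a => ?_
    rw [hcl.equiv n σ Z i a hZ, hF n σ i B Z a hZ]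
    by_cases h : cl n (fun i => Z (σ i)) i a = B
    · rw [if_pos h, if_pos (by rw [h])]
    · rw [if_neg h, if_neg]
      intro hc
      exact h (Finset.map_injective _ hc)
  -- decomposition according to the cluster
  have hdec : ∀ (n : ℕ) (Z : Config n), (∑ i : Fin n, ∫⁻ a,
        (if (cl n Z i a).Nonempty then F n i (cl n Z i a) Z a else 0) ∂ν) =
      ∑' k : ℕ, ∑ B ∈ (Finset.univ : Finset (Fin n)).powersetCard (k + 1), G n B Z := by
    intro n Z
    have h0 : ∀ k ∉ Finset.range n,
        ∑ B ∈ (Finset.univ : Finset (Fin n)).powersetCard (k + 1), G n B Z = 0 := by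
      intro k hk
      rw [Finset.powersetCard_eq_empty.2, Finset.sum_empty]
      simp only [Finset.mem_range, not_lt] at hk
      simpa using Nat.lt_succ_of_le hk
    rw [tsum_eq_sum h0]
    have h1 : ∑ k ∈ Finset.range (n + 1),
        ∑ B ∈ (Finset.univ : Finset (Fin n)).powersetCard k, G n B Z =
        ∑ B ∈ (Finset.univ : Finset (Fin n)).powerset, G n B Z := by
      rw [Finset.sum_powerset]
      simp
    rw [Finset.sum_range_succ'] at h1
    have h2 : ∑ B ∈ (Finset.univ : Finset (Fin n)).powerset, G n B Z =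
        (∑ i : Fin n, ∫⁻ a,
          (if (cl n Z i a).Nonempty then F n i (cl n Z i a) Z a else 0) ∂ν) + G n ∅ Z := by
      have h3 : ∑ B ∈ (Finset.univ : Finset (Fin n)).powerset, G n B Z =
          (∑ B ∈ ((Finset.univ : Finset (Fin n)).powerset).erase ∅, G n B Z) + G n ∅ Z := by
        rw [Finset.sum_erase_add _ _ (Finset.empty_mem_powerset _)]
      rw [h3]
      congr 1
      simp only [hG]
      rw [Finset.sum_comm]
      refine Finset.sum_congr rfl fun i _ => ?_
      rw [← lintegral_finsetSum']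
      · refine lintegral_congr fun a => ?_
        rw [Finset.sum_ite_eq]
        by_cases hne : (cl n Z i a).Nonempty
        · rw [if_pos hne, if_pos]
          rw [Finset.mem_erase]
          exact ⟨hne.ne_empty, Finset.mem_powerset.2 (Finset.subset_univ _)⟩
        · rw [if_neg hne, if_neg]
          rw [Finset.mem_erase]
          intro hc
          exact hne (Finset.nonempty_iff_ne_empty.2 hc.1)
      · intro B _
        have h : Measurable fun p : Config n × α =>
            if cl n p.1 i p.2 = B then F n i B p.1 p.2 else 0 :=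
          Measurable.ite (hcl.meas n i B) (hFm n i B) measurable_const
        exact (h.comp measurable_prodMk_left).aemeasurable
    rw [h2] at h1
    rw [Finset.powersetCard_zero, Finset.sum_singleton] at h1
    -- cancel `G n ∅ Z`; it may be infinite, so argue directly
    have h4 : ∑ k ∈ Finset.range n,
        ∑ B ∈ (Finset.univ : Finset (Fin n)).powersetCard (k + 1), G n B Z =
        ∑ B ∈ ((Finset.univ : Finset (Fin n)).powerset).erase ∅, G n B Z := by
      have h5 : ((Finset.univ : Finset (Fin n)).powerset).erase ∅ =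
          (Finset.range n).biUnion
            fun k => (Finset.univ : Finset (Fin n)).powersetCard (k + 1) := by
        ext B
        simp only [Finset.mem_erase, Finset.mem_powerset, Finset.mem_biUnion, Finset.mem_range,
          Finset.mem_powersetCard]
        constructor
        · rintro ⟨hne, hsub⟩
          have hc : 0 < B.card := Finset.card_pos.2 (Finset.nonempty_iff_ne_empty.2 hne)
          have hle : B.card ≤ n := by simpa using Finset.card_le_card hsub
          exact ⟨B.card - 1, by omega, hsub, by omega⟩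
        · rintro ⟨k, hk, hsub, hcard⟩
          refine ⟨?_, hsub⟩
          rintro rfl
          simp at hcard
      rw [h5, Finset.sum_biUnion]
      intro k _ k' _ hkk'
      rw [Function.onFun, Finset.disjoint_left]
      intro B hB hB'
      rw [Finset.mem_powersetCard] at hB hB'
      apply hkk'
      omega
    rw [h4]
    simp only [hG]
    rw [Finset.sum_comm]
    refine Finset.sum_congr rfl fun i _ => ?_
    rw [← lintegral_finsetSum']
    · refine lintegral_congr fun a => ?_
      rw [Finset.sum_ite_eq]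
      by_cases hne : (cl n Z i a).Nonempty
      · rw [if_pos hne, if_pos]
        rw [Finset.mem_erase]
        exact ⟨hne.ne_empty, Finset.mem_powerset.2 (Finset.subset_univ _)⟩
      · rw [if_neg hne, if_neg]
        rw [Finset.mem_erase]
        intro hc
        exact hne (Finset.nonempty_iff_ne_empty.2 hc.1)
    · intro B _
      have h : Measurable fun p : Config n × α =>
          if cl n p.1 i p.2 = B then F n i B p.1 p.2 else 0 :=
        Measurable.ite (hcl.meas n i B) (hFm n i B) measurable_const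
      exact (h.comp measurable_prodMk_left).aemeasurable
  have hcong : gcE f₀ ε (fun n Z => ∑ i : Fin n, ∫⁻ a,
        (if (cl n Z i a).Nonempty then F n i (cl n Z i a) Z a else 0) ∂ν) =
      gcE f₀ ε (fun n Z => ∑' k : ℕ,
        ∑ B ∈ (Finset.univ : Finset (Fin n)).powersetCard (k + 1), G n B Z) :=
    gcE_congr f₀ ε fun n Z _ => hdec n Z
  rw [hcong, gcE_tsum hf ε (fun k n => Finset.measurable_sum _ fun B _ => hGm n B)]
  refine tsum_congr fun k => ?_
  rw [mecke_finset hf (k + 1) hGe hGm]
  congr 1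
  refine lintegral_congr fun V => ?_
  by_cases hV : V ∈ PairExcluded ε (k + 1)
  swap
  · have : gcWeight f₀ ε (k + 1) V = 0 := by simp [gcWeight, Set.indicator_of_notMem hV]
    rw [this, zero_mul, zero_mul]
  congr 1
  refine gcE_congr f₀ ε fun m w hw => ?_
  unfold perpInd
  by_cases hp : Perp ε V w
  swap
  · rw [if_neg hp, zero_mul, zero_mul]
  rw [if_pos hp, one_mul, one_mul]
  have hVw : (Fin.append V w : Config (k + 1 + m)) ∈ PairExcluded ε (k + 1 + m) :=
    (append_mem_pairExcluded_iff V w).2 ⟨hV, hw, hp⟩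
  simp only [hG]
  change (∑ i : Fin (k + 1 + m), ∫⁻ a, (if cl (k + 1 + m) (Fin.append V w) i a = block (k + 1) m
    then F (k + 1 + m) i (block (k + 1) m) (Fin.append V w) a else 0) ∂ν) = _
  -- only marks in the block contribute
  rw [Fin.sum_univ_add]
  have hzero : ∑ i : Fin m, ∫⁻ a, (if cl (k + 1 + m) (Fin.append V w) (Fin.natAdd (k + 1) i) a =
      block (k + 1) m then F (k + 1 + m) (Fin.natAdd (k + 1) i) (block (k + 1) m)
        (Fin.append V w) a else 0) ∂ν = 0 := by
    refine Finset.sum_eq_zero fun i _ => ?_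
    refine (lintegral_congr fun a => ?_).trans (lintegral_zero (μ := ν))
    rw [if_neg]
    intro hc
    have hne : (cl (k + 1 + m) (Fin.append V w) (Fin.natAdd (k + 1) i) a).Nonempty := by
      rw [hc]
      exact ⟨Fin.castAdd m 0, castAdd_mem_block _⟩
    have hmem := hcl.self_mem (k + 1 + m) (Fin.append V w) (Fin.natAdd (k + 1) i) a hVw hne
    rw [hc] at hmem
    obtain ⟨j, hj⟩ := mem_block.1 hmem
    have := congrArg Fin.val hj
    simp at this
    omega
  rw [hzero, add_zero]

end Crest.Agent.R122.OC285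
end
end

-- ▼ part R122/OneCDefs_285

/-!
# One-contact structures of section E (row 122, boards H1, H2): literal definitions (v3)

A test line `l` (birth `τ`, velocity `v`, mark `n`) meets the gas for the first time at time `mT`, the
particle met is clean with past cluster `V` (strictly before the contact); `w` = rest of the gas.

Tree coordinates: `V` is the collision tree `(P, z)`, `z = (ℓ, p)`, valid at the horizon `T' > te`;
root line `ℓ = z.1` (state at time `0`). The test line `l : ML` stays a free parameter: contact time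
`cT z l`, impact parameter `cB z l` (helper663's `entT`, `entB`), contact set `OneC423.ctSet`.

* `lpos`, `mSet`, `mT`, `Meet`, `CMeet`, `DMeet`, `clM` : first contact with the gas, cluster map.
* `cT`, `cB`, `cD`, `cX`, `oneLs` : contact data, lines `c` (root reborn after the encounter), exits,
  `l'`, `c'`.
* `Real4` : the contact structure `(P, z; w; l)` is real in the world `V ++ w`.
* `Good4`, `Nbad4` : off LINK; linked independent test lines.
* `OS` : structure integral (birth times integrated with respect to `κ`).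
* `rfl4` : real flux form. `StmtRed`, `StmtLink` : the null facts consumed by INEQUALITY 1.
* `StmtNS`, `StmtXC`, `StmtPb`, `StmtEB` : the terms after the reduction.
-/

set_option autoImplicit false
set_option linter.unusedSectionVars false

open MeasureTheory Set Filter
open scoped ENNReal Classical Topology
open Crest.AnalysisR.Kinetic
open Crest.Agent.R122.Kin796 Crest.Agent.R122.Kin796.CTree Crest.Agent.R122.Tree674
open Crest.Agent.R122.Relabel674 Crest.Agent.R122.GC311 Crest.Agent.R122.Flow671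
open Crest.Agent.R122.EDefs602 Crest.Agent.R122.TreeLines335 Crest.Agent.R122.Line285
open Crest.Agent.R122.Decomp285 Crest.Agent.R122.Disc416

noncomputable section

namespace Crest.Agent.R122.OneC285

/-! ## First contact of a free line with the gas -/

/-- Position at time `s` of the free line `l`. -/
def lpos (l : ML) (s : ℝ) : Space3 := (back l.1).1 + s • (back l.1).2

/-- Times (after its birth) at which the free line is within `ε` of a gas particle. -/
def mSet (Φ : Space3 → ℝ) (ε : ℝ) {n : ℕ} (w : Config n) (l : ML) : Set ℝ :=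
  {s | l.1.1 ≤ s ∧ ∃ i, dist (lpos l s) (flow Φ ε s w i).1 ≤ ε}

/-- First contact time of the free line with the gas. -/
def mT (Φ : Space3 → ℝ) (ε : ℝ) {n : ℕ} (w : Config n) (l : ML) : ℝ := sInf (mSet Φ ε w l)

/-- The free line meets first the particle `i`, after its birth and before `T`. -/
structure Meet (Φ : Space3 → ℝ) (ε T : ℝ) {n : ℕ} (w : Config n) (l : ML) (i : Fin n) : Prop where
  ne : (mSet Φ ε w l).Nonempty
  lt : l.1.1 < mT Φ ε w l
  le : mT Φ ε w l ≤ T
  dist : dist (lpos l (mT Φ ε w l)) (flow Φ ε (mT Φ ε w l) w i).1 ≤ ε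

/-- The particle met first is clean. -/
def CMeet (Φ : Space3 → ℝ) (ε : ℝ) (K : ℕ) (T : ℝ) {n : ℕ} (w : Config n) (l : ML) (i : Fin n) :
    Prop := Meet Φ ε T w l i ∧ ¬ (MW.cfg w).Inf Φ ε K (mT Φ ε w l) i

/-- The particle met first is infected. -/
def DMeet (Φ : Space3 → ℝ) (ε : ℝ) (K : ℕ) (T : ℝ) {n : ℕ} (w : Config n) (l : ML) (i : Fin n) :
    Prop := Meet Φ ε T w l i ∧ (MW.cfg w).Inf Φ ε K (mT Φ ε w l) i

/-- The cluster map of the one-contact step: past cluster (strictly before the contact) of the clean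
particle met first. -/
def clM (Φ : Space3 → ℝ) (ε : ℝ) (K : ℕ) (T : ℝ) (n : ℕ) (w : Config n) (i : Fin n) (l : ML) :
    Finset (Fin n) :=
  if CMeet Φ ε K T w l i then preC Φ ε w (mT Φ ε w l) i else ∅

/-! ## Tree coordinates -/

/-- Labelled configuration of the tree `(P, z)`. -/
def cfT (Φ : Space3 → ℝ) (ε : ℝ) (P : CTree) (z : PhasePoint × Par P) : Config P.leaves :=
  confOf P (lines Φ ε P z.1 z.2)

/-- Index of the root in `cfT`. -/
def rt (P : CTree) : Fin P.leaves := eP P (root P)

variable {P : CTree}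

/-- Contact time of the line `l` with the root line of `z`. -/
def cT (ε : ℝ) (z : PhasePoint × Par P) (l : ML) : ℝ := OC663.entT ε (OneC423.relL z.1 l.1)

/-- Impact parameter of the contact. -/
def cB (ε : ℝ) (z : PhasePoint × Par P) (l : ML) : Space3 := OC663.entB ε (OneC423.relL z.1 l.1)

/-- Contact data `(v, u, b)`. -/
def cD (ε : ℝ) (z : PhasePoint × Par P) (l : ML) : OCout796.CD := (l.1.2.2, z.1.2, cB ε z l)

/-- Position of the root at the contact time. -/
def cX (ε : ℝ) (z : PhasePoint × Par P) (l : ML) : Space3 := z.1.1 + cT ε z l • z.1.2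

/-- The lines of the structure: `inl root` = the root `c`, undeflected, reborn at the exit time of the
encounter; `inl i` = exits; `inr false = l'`, `inr true = c'`. -/
def oneLs (Φ : Space3 → ℝ) (ε : ℝ) (P : CTree) (z : PhasePoint × Par P) (l : ML) :
    Idx P ⊕ Bool → ML
  | Sum.inl i => if i = root P then
      (OCout796.lineC Φ ε (cT ε z l) (cX ε z l) (cD ε z l), P.leaves) else lineML Φ ε P z i
  | Sum.inr false => (OCout796.lineL' Φ ε (cT ε z l) (cX ε z l) (cD ε z l), l.2 + P.leaves)
  | Sum.inr true => (OCout796.lineC' Φ ε (cT ε z l) (cX ε z l) (cD ε z l), l.2 + P.leaves)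

/-- The exits of the structure. -/
def exS (P : CTree) : Finset (Idx P ⊕ Bool) :=
  (Finset.univ.filter fun i : Idx P => i ≠ root P).map Function.Embedding.inl

/-- The contact structure `(P, z; w; l)` is real: in the world `V ++ w`, `V = cfT z`, the test line
meets first the root of `V`, at the time `cT z l`, this particle is clean, its past cluster is
`V` and its real history is the tree `(P, z)`. `T'` = horizon (`te < T'`). -/
structure Real4 (Φ : Space3 → ℝ) (ε : ℝ) (K : ℕ) (te T' : ℝ) (P : CTree)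
    (z : PhasePoint × Par P) {m : ℕ} (w : Config m) (l : ML) : Prop where
  exV : cfT Φ ε P z ∈ PairExcluded ε P.leaves
  exw : w ∈ PairExcluded ε m
  perp : Perp ε (cfT Φ ε P z) w
  valid : Valid Φ ε P T' z.1.2 z.2
  sep : Sep Φ ε P T' z.1 z.2
  ct : (z, l.1) ∈ OneC423.ctSet Φ ε te P
  time : mT Φ ε (Fin.append (cfT Φ ε P z) w) l = cT ε z l
  mark : 1 ≤ l.2 ∧ l.2 ≤ K
  birth : 0 < l.1.1
  cluster : clM Φ ε K te (P.leaves + m) (Fin.append (cfT Φ ε P z) w) (Fin.castAdd m (rt P)) l =
    block P.leaves m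
  real : RealTree674.RealTree Φ ε (cT ε z l) (Fin.append (cfT Φ ε P z) w) (Fin.castAdd m (rt P))
    P z.1 z.2 (fun x => Fin.castAdd m (eP P x))

/-- Off LINK: superposition facts for the coexisting lines `c + exits` and `l' + c' + exits` in the
base worlds `w`, `w + d`, `d` an exit (helper879's `UnlB`), and the one-contact lemma (1.6). -/
structure Good4 (Φ : Space3 → ℝ) (ε : ℝ) (K : ℕ) (te : ℝ) (P : CTree) (z : PhasePoint × Par P)
    {m : ℕ} (w : Config m) (l : ML) : Prop where
  unl1 : UnlB (thF Φ ε K te (MW.cfg w) (oneLs Φ ε P z l)) (exS P)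
    (insert (Sum.inl (root P)) (exS P))
  unl2 : UnlB (thF Φ ε K te (MW.cfg w) (oneLs Φ ε P z l)) (exS P)
    (insert (Sum.inr false) (insert (Sum.inr true) (exS P)))
  one : min (thF Φ ε K te (MW.cfg w) (oneLs Φ ε P z l) (exS P) (Sum.inl (root P)))
    (min (thF Φ ε K te (MW.cfg w) (oneLs Φ ε P z l) (exS P) (Sum.inr false))
      (thF Φ ε K te (MW.cfg w) (oneLs Φ ε P z l) (insert (Sum.inr false) (exS P))
        (Sum.inr true))) ≤
    (MW.cfg (Fin.append (cfT Φ ε P z) w)).thetaL Φ ε K te l

/-- Test lines `x` linked to the structure: touches in the base worlds not seen in `V ++ w`. -/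
def Nbad4 (Φ : Space3 → ℝ) (ε : ℝ) (K : ℕ) (te : ℝ) (P : CTree) (z : PhasePoint × Par P)
    {m : ℕ} (w : Config m) (l : ML) : Set ML :=
  NbadB Φ ε K te (MW.cfg w) (MW.cfg (Fin.append (cfT Φ ε P z) w)) (oneLs Φ ε P z l)
    (exS P) (insert (Sum.inl (root P)) (exS P))

/-- Protected tubes of a tree (end time = exit time of the last node, also for the root). -/
def ptube (Φ : Space3 → ℝ) (ε : ℝ) (P : CTree) (z : PhasePoint × Par P) : GIV566.Tubes (Idx P) :=
  ⟨Hid424.curve Φ ε P z.1 z.2, rel P z.2⟩

/-- Functionals of a contact structure `(P, z; w; l)`. -/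
abbrev SF : Type := (P : CTree) → PhasePoint × Par P → (m : ℕ) → Config m → ML → ℝ≥0∞

/-- Joint measurability of a functional of contact structures. -/
def MeasSF (F : SF) : Prop := ∀ (P : CTree) (m : ℕ), Measurable
  fun q : (PhasePoint × Par P) × (Config m × ML) => F P q.1 m q.2.1 q.2.2

/-- Structure integral; birth times of the test line integrated with respect to `κ`. -/
def OS (Φ : Space3 → ℝ) (f₀ : PhasePoint → ℝ) (ε : ℝ) (K : ℕ) (Q : EPar) (T' : ℝ)
    (κ : Measure ℝ) (H : SF) : ℝ≥0∞ :=
  activity ε * ∑' P : CTree, ∫⁻ z : PhasePoint × Par P,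
    {z : PhasePoint × Par P | Valid Φ ε P T' z.1.2 z.2}.indicator
      (fun z => wt Φ P z.1.2 z.2 * (ToTree335.pf Φ f₀ ε P z *
        gcE f₀ ε (fun m w => ∫⁻ l, {l : ML | (z, l.1) ∈ OneC423.ctSet Φ ε Q.te P}.indicator
          (fun l => lineD Q.γ Q.ρ K l * H P z m w l) l ∂(OneC423.baseM κ)))) z

/-- Ghost indicator: the protected tubes of `(P, z)` are not hit by `w` alone before `tw`. -/
def uI (Φ : Space3 → ℝ) (ε tw : ℝ) (P : CTree) (z : PhasePoint × Par P) {m : ℕ} (w : Config m) :
    ℝ≥0∞ := GIV566.unhitInd Φ ε (ptube Φ ε P z) tw w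

/-! ## Real flux form -/

/-- Functionals of a real cluster: `V : Config k`, rest `w : Config m`, root `j`, time `s`. -/
abbrev RF : Type := (k m : ℕ) → Config k → Config m → Fin k → ℝ → ℝ≥0∞

/-- Joint measurability. -/
def MeasRF (B : RF) : Prop := ∀ (k m : ℕ) (j : Fin k), Measurable
  fun q : Config k × (Config m × ℝ) => B k m q.1 q.2.1 j q.2.2

/-- Real flux form: `∫_{(0,T]} ds E ε² ∑_i (1+|v_i(s)|) 1[preC = V, |V| ≤ K] B`, Mecke'd. -/
def rfl4 (Φ : Space3 → ℝ) (f₀ : PhasePoint → ℝ) (ε : ℝ) (K : ℕ) (T : ℝ) (B : RF) : ℝ≥0∞ :=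
  ∑' k : ℕ, activity ε ^ k / (k.factorial : ℝ≥0∞) * ∫⁻ V : Config k, gcWeight f₀ ε k V *
    gcE f₀ ε (fun m w => perpInd ε V w * ∑ j : Fin k, ∫⁻ s in Ioc 0 T,
      ENNReal.ofReal (ε ^ 2 * (1 + ‖(flow Φ ε s (Fin.append V w) (Fin.castAdd m j)).2‖)) *
        (if k ≤ K ∧ preC Φ ε (Fin.append V w) s (Fin.castAdd m j) = block k m then
          B k m V w j s else 0))

/-! ## The null facts consumed by INEQUALITY 1 -/

/-- Reduction to good trees (D5 + H12 + mid-encounter contacts): a measurable majorant `B`, null in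
real flux form, such that a real clean cluster (seen at time `s`, strictly-past cluster `V`) is
either bad (`B ≥ 1`) or its real history is a tree (`RealTree` at time `s`; this contains `Valid` at
`s`, hence the root has left its last encounter), valid and separated at the horizon `T'`, whose
protected tubes are not hit by `w` alone before `tw`. -/
def StmtRed (Φ : Space3 → ℝ) (f₀ : PhasePoint → ℝ) (tw te T' : ℝ) : Prop :=
  ∃ B : ℕ → ℝ → RF, (∀ K ε, MeasRF (B K ε)) ∧
    (∀ (K : ℕ) (ε : ℝ), 0 < ε → ∀ (k m : ℕ) (V : Config k) (w : Config m) (j : Fin k) (s : ℝ),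
      V ∈ PairExcluded ε k → w ∈ PairExcluded ε m → Perp ε V w → k ≤ K → 0 < s → s ≤ te →
      preC Φ ε (Fin.append V w) s (Fin.castAdd m j) = block k m →
      1 ≤ B K ε k m V w j s ∨
        ∃ (P : CTree) (e : Idx P ≃ Fin k) (z : PhasePoint × Par P), e (root P) = j ∧
          (∀ x, V (e x) = lines Φ ε P z.1 z.2 x) ∧
          Valid Φ ε P T' z.1.2 z.2 ∧ Sep Φ ε P T' z.1 z.2 ∧
          RealTree674.RealTree Φ ε s (Fin.append V w) (Fin.castAdd m j) P z.1 z.2
            (fun x => Fin.castAdd m (e x)) ∧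
          GIV566.unhit Φ ε (ptube Φ ε P z) tw w) ∧
    Null fun K ε => rfl4 Φ f₀ ε K te (B K ε)


/-! ## The terms after the reduction -/

/-- Functionals of the gas and of a line. -/
abbrev LF : Type := (m : ℕ) → Config m → ML → ℝ≥0∞

/-- Joint measurability. -/
def MeasLF (G : LF) : Prop := ∀ m : ℕ, Measurable fun q : Config m × ML => G m q.1 q.2

/-- Density of `G` over the lines born at time `s` with velocity `v` (`xE` is the case
`G = touchW`). -/
def XG (f₀ : PhasePoint → ℝ) (ε : ℝ) (K : ℕ) (ρ : ℝ≥0∞) (G : LF) (s : ℝ) (v : Space3) : ℝ≥0∞ :=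
  gcE f₀ ε fun m w => ∫⁻ y : Space3, ∑' n : ℕ, markW ρ K n * G m w ((s, (y, v)), n)

/-- Small structures (marks `≤ K` after the contact). -/
def smI (K : ℕ) (P : CTree) (l : ML) : ℝ≥0∞ := if l.2 + P.leaves ≤ K then 1 else 0

/-- (NS) the successors `c`, `l'`, `c'`: Volterra term. -/
def StmtNS (Φ : Space3 → ℝ) (f₀ : PhasePoint → ℝ) (Q : EPar) (T' : ℝ) (C : ℝ≥0∞) : Prop :=
  ∃ δ : ℕ → ℝ → ℝ≥0∞, Null δ ∧ ∀ (K : ℕ) (ε : ℝ), 0 < ε → ∀ G : LF, MeasLF G →
    (∀ m w l, G m w l ≤ 1) → ∀ τ ∈ Ioc 0 Q.te, ∀ k : ∀ P : CTree, Idx P ⊕ Bool,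
    ((∀ P, k P = Sum.inl (root P)) ∨ (∀ P, k P = Sum.inr false) ∨ (∀ P, k P = Sum.inr true)) →
    OS Φ f₀ ε K Q T' (Measure.dirac τ)
      (fun P z m w l => smI K P l * (uI Φ ε Q.tw P z w * G m w (oneLs Φ ε P z l (k P)))) ≤
    C * (∫⁻ s in Ioi τ, ∫⁻ v : Space3, ENNReal.ofReal (1 + ‖v‖) *
      (wG (Q.γ τ) v * XG f₀ ε K Q.ρ G s v)) + δ K ε

/-- (XC) size crossings. -/
def StmtXC (Φ : Space3 → ℝ) (f₀ : PhasePoint → ℝ) (Q : EPar) (T' : ℝ) : Prop :=
  ∃ S : ℕ → ℝ → ℝ≥0∞, Small S ∧ ∀ (K : ℕ) (ε : ℝ), 0 < ε → ∀ τ ∈ Ioc 0 Q.te,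
    OS Φ f₀ ε K Q T' (Measure.dirac τ)
      (fun P z m w l => (if P.leaves ≤ K ∧ K < l.2 + P.leaves then 1 else 0) *
        uI Φ ε Q.tw P z w) ≤ S K ε

/-- (EX) the exits of the separated trees, test functional `G`, sizes `> m₀`; `m₀ = 0`: all
sizes. -/
def StmtEX (Φ : Space3 → ℝ) (f₀ : PhasePoint → ℝ) (Q : EPar) (T' : ℝ) (m₀ : ℕ) (C : ℝ≥0∞) :
    Prop :=
  ∃ δ : ℕ → ℝ → ℝ≥0∞, Null δ ∧ ∀ (K : ℕ) (ε : ℝ), 0 < ε → ∀ G : LF, MeasLF G →
    (∀ m w l, G m w l ≤ 1) → ∀ τ ∈ Ioc 0 Q.te,
    OS Φ f₀ ε K Q T' (Measure.dirac τ)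
      (fun P z m w l => (if m₀ < P.leaves ∧ Sep Φ ε P T' z.1 z.2 then smI K P l else 0) *
        (uI Φ ε Q.tw P z w *
        ∑ i ∈ Finset.univ.filter (fun i : Idx P => i ≠ root P), G m w (lineML Φ ε P z i))) ≤
    C * gcE f₀ ε (fun m w => ∫⁻ l, G m w l ∂(lineM Q.γ Q.ρ K Q.te)) + δ K ε

/-- (SP) small clusters `|P| ≤ m₀`: the pair functional (to be identified with
`PE Φ f₀ ε K Q nu0`). -/
def OSP (Φ : Space3 → ℝ) (f₀ : PhasePoint → ℝ) (ε : ℝ) (K : ℕ) (Q : EPar) (T' : ℝ) (m₀ : ℕ)
    (κ : Measure ℝ) : ℝ≥0∞ :=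
  OS Φ f₀ ε K Q T' κ (fun P z m w l => (if P.leaves ≤ m₀ then smI K P l else 0) *
    ∑ d ∈ exS P, ∑ e ∈ Finset.univ.erase d,
      (MW.cfg w).touchP Φ ε K Q (oneLs Φ ε P z l d) (oneLs Φ ε P z l e))

end Crest.Agent.R122.OneC285

end
private theorem rz_04b0f89f93 : type_of% @_root_.Crest.Agent.R122.OneC285.oneLs.eq_1 := @_root_.Crest.Agent.R122.OneC285.oneLs.eq_1 -- L105
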