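import Mathlib
import Crest.Prelude.Def_KineticLimit
import Crest.Agent.R122.PWInst3_442
import Crest.Agent.R122.LNGraft_410
import Crest.Agent.R122.OneCDefs_285
import Crest.Agent.R122.Good4One_45

/-!
# Row 122, LN1 (helper442): classes with exit data are families of admissible labels; the encounter

* `exit0_of_cls`, `last_of_cls`, `lab_of_cls` : the members of a class of helper410's `Cls` are
  admissible labels (`Exit0`, `Last`, `Lab`).
* `GraftH.lab_a`, `lab_c`, `lab₁`, `lab₂` : labels after the graft.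
* `LineIn`, `graftH_tree` : test line `l` on the contact set with the root of the tree `(P, z)`.
* `oLab`, `lab_one` : the labels of the one-contact family `oneLs` (exits, `l'`, `c'`), and
  `Base` for both classes over `J = Fin n ⊕ (Idx P ⊕ Unit)`.
-/

set_option autoImplicit false
set_option linter.unusedSectionVars false

open MeasureTheory Set Filter Topology
open scoped NNReal ENNReal
open Crest.AnalysisR.Kinetic
open Crest.Agent.R122.Flow671 Crest.Agent.R122.Loc45 Crest.Agent.R122.Ins45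
open Crest.Agent.R122.VL581 Crest.Agent.R122.VL581.VSys Crest.Agent.R122.VLInst442
open Crest.Agent.R122.LNInst491 Crest.Agent.R122.LN304 Crest.Agent.R122.LNg410
open Crest.Agent.R122.Kin796 Crest.Agent.R122.Kin796.CTree Crest.Agent.R122.Tree674
open Crest.Agent.R122.PathFlow968 Crest.Agent.R122.TreeLines335 Crest.Agent.R122.EDefs602
open Crest.Agent.R122.LNTree410 Crest.Agent.R122.PWGlue491 Crest.Agent.R122.Inf879
open Crest.Agent.R122.LNGraft410 Crest.Agent.R122.OneC285 Crest.Agent.R122.OCout796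
open scoped Classical

noncomputable section

namespace Crest.Agent.R122.PWInst442

theorem onLine_back (l : ℝ × PhasePoint) (t : ℝ) : onLine (back l) t = lineAt l.1 l.2 t := by
  unfold onLine back lineAt
  ext1
  · simp only [sub_smul]
    abel
  · rfl

theorem onLine_back_self (l : ℝ × PhasePoint) : onLine (back l) l.1 = l.2 := by
  rw [onLine_back, lineAt_self]

variable {J κ : Type} [Fintype J] {M : VSys J κ} {Z : J → PhasePoint}

/-! ### Classes -/

section cls

variable {S : Finset J} {bE : J → ℝ} {cl : J → Finset J} {i : J} {b : ℝ} {z : PhasePoint}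






end cls

/-! ### Labels of the graft -/

section graft

variable {S₁ S₂ : Finset J} {bE : J → ℝ} {a c : J} {s : ℝ} {y : Space3} {q : CD} {C ℓ ς : ℝ}
  {cl : J → Finset J}

variable (h : GraftH M Z S₁ S₂ bE a c s y q) (hε : 0 < M.ε) [Nonempty κ] (hC : 1 ≤ C)
  (hT : TL M C ℓ ς (S₁ ∪ S₂) Z) (hℓς : 2 * ℓ ≤ ς) (hΦ : AdmissiblePotential M.Φ)
  (hp : CDpass M.Φ q) (hle : s + outT M.Φ M.ε q ≤ M.T)
include h hε hC hT hℓς hΦ hp hle





end graft

/-! ### Test line and tree -/

/-- The label `a` carries the test line `l` (born with its line, interacting). -/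
structure LineIn (M : VSys J κ) (Z : J → PhasePoint) (a : J) (l : ℝ × PhasePoint) : Prop where
  o : M.o ≠ some a
  b : M.bb a = l.1
  Z : Z a = back l

theorem LineIn.st {a : J} {l : ℝ × PhasePoint} (h : LineIn M Z a l)
    (hΦ : AdmissiblePotential M.Φ) (hε : 0 < M.ε) {t : ℝ} (ht : l.1 ≤ t) (htT : t ≤ M.T) :
    M.st {a} t Z a = lineAt l.1 l.2 t := by
  have h1 := (Cls.single (M := M) (Z := Z) h.o (bD := M.bb) rfl).line hΦ hε
    (Finset.mem_singleton_self a) (u := l.1) (t := t) h.b.le ht htT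
  rw [h1, st_unborn M h.b.ge, h.Z, show fl l.1 (back l) = l.2 from onLine_back_self l]

section tree

variable {P : CTree} {z : PhasePoint × Par P} {e : Idx P ↪ J} {a : J} {l : ML} {te : ℝ}
  {bE : J → ℝ}

/-- **The graft of the test line on the tree.** -/
theorem graftH_tree (hΦ : AdmissiblePotential M.Φ) (hε : 0 < M.ε)
    (ht : TreeIn M Z M.T P z.1 z.2 e) (ha : ∀ x, e x ≠ a) (hl : LineIn M Z a l.1)
    (hct : (z, l.1) ∈ OneC423.ctSet M.Φ M.ε te P) (hte : te < M.T) (hcd : CDok (cD M.ε z l))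
    (hbe : ∀ x, bE (e x) = rel P z.2 x) (hba : bE a = l.1.1) :
    GraftH M Z {a} (part e) bE a (e (root P)) (cT M.ε z l) (cX M.ε z l) (cD M.ε z l) := by
  have hl0 : 0 ≤ l.1.1 := by
    rw [← hl.b]
    exact bb_nonneg M a
  have hlt : l.1.1 < cT M.ε z l := hct.2.2.1
  have hs0 : 0 < cT M.ε z l := hl0.trans_lt hlt
  have hsT : cT M.ε z l < M.T := hct.2.2.2.1.trans_lt hte
  have hrel : rel P z.2 (root P) < cT M.ε z l := rel_lt hε.le hs0 hct.2.2.2.2.2 (root P)
  refine ⟨Cls.single hl.o (hba.trans hl.b.symm), Cls.of_tree hΦ hε (hs0.trans hsT) ht hbe, ?_,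
    Finset.mem_singleton_self a, mem_part_self _, ?_, ?_, hcd, ?_, ?_, hsT⟩
  · rw [Finset.disjoint_singleton_left]
    intro h'
    obtain ⟨x, hx⟩ := mem_part.1 h'
    exact ha x hx
  · rw [hba]
    exact hlt
  · rw [hbe]
    exact hrel
  · rw [hl.st hΦ hε hlt.le hsT.le]
    have h1 := OC663.ent_pos hε (OneC423.relL z.1 l.1)
    refine Prod.ext ?_ rfl
    rw [← lpos_eq]
    have h2 : (OneC423.relL z.1 l.1).1 = (back l.1).1 - z.1.1 := rfl
    have h3 : (OneC423.relL z.1 l.1).2 = l.1.2.2 - z.1.2 := rfl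
    rw [h2, h3] at h1
    change (back l.1).1 + cT M.ε z l • l.1.2.2 = z.1.1 + cT M.ε z l • z.1.2 +
      M.ε • entrancePoint (cB M.ε z l) (l.1.2.2 - z.1.2)
    rw [show entrancePoint (cB M.ε z l) (l.1.2.2 - z.1.2) =
      entrancePoint (OC663.entB M.ε (OneC423.relL z.1 l.1)) (l.1.2.2 - z.1.2) from rfl, ← h1]
    change (back l.1).1 + cT M.ε z l • l.1.2.2 = z.1.1 + cT M.ε z l • z.1.2 +
      ((back l.1).1 - z.1.1 + cT M.ε z l • (l.1.2.2 - z.1.2))
    rw [smul_sub]
    abel
  · rw [ht.line_tree hΦ hε (root P) hrel.le hsT.le, fin_root]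
    rfl

/-- Labels of the family `oneLs` (without the undeflected root). -/
def oLab {J : Type} {P : CTree} (e : Idx P ↪ J) (a : J) : Idx P ⊕ Bool → J
  | Sum.inl i => e i
  | Sum.inr false => a
  | Sum.inr true => e (root P)

@[simp] theorem oLab_inl (e : Idx P ↪ J) (a : J) (i : Idx P) : oLab e a (Sum.inl i) = e i := rfl
@[simp] theorem oLab_false (e : Idx P ↪ J) (a : J) : oLab e a (Sum.inr false) = a := rfl
@[simp] theorem oLab_true (e : Idx P ↪ J) (a : J) : oLab e a (Sum.inr true) = e (root P) := rfl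


variable [Nonempty κ] {C ℓ ς : ℝ} {cl : J → Finset J}

theorem exists_bE (ha : ∀ x, e x ≠ a) (r : Idx P → ℝ) (b : ℝ) :
    ∃ bE : J → ℝ, (∀ x, bE (e x) = r x) ∧ bE a = b := by
  refine ⟨fun j => if j = a then b else if h : ∃ x, e x = j then r h.choose else 0,
    fun x => ?_, if_pos rfl⟩
  have h1 : ∃ y, e y = e x := ⟨x, rfl⟩
  simp only [if_neg (ha x), dif_pos h1]
  rw [e.injective h1.choose_spec]



/-- The structure "tree and test line" is connected. -/
theorem conn_one (hΦ : AdmissiblePotential M.Φ) (hε : 0 < M.ε)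
    (ht : TreeIn M Z M.T P z.1 z.2 e) (ha : ∀ x, e x ≠ a) (hl : LineIn M Z a l.1)
    (hct : (z, l.1) ∈ OneC423.ctSet M.Φ M.ε te P) (hte : te < M.T) (hC : 1 ≤ C)
    (hcd : CDok (cD M.ε z l)) : M.Conn C ({a} ∪ part e) Z := by
  obtain ⟨bE, hbe, hba⟩ := exists_bE ha (rel P z.2) l.1.1
  exact (graftH_tree hΦ hε ht ha hl hct hte hcd hbe hba).Conn hε hC

end tree

/-! ### The instance `J = Fin n ⊕ (Idx P ⊕ Unit)` -/

section os

variable {n : ℕ} {P : CTree} {z : PhasePoint × Par P} {l : ML} {te : ℝ}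
  {M : VSys (Fin n ⊕ (Idx P ⊕ Unit)) κ} {w : Config n}

/-- Labels of the tree. -/
def osE (n : ℕ) (P : CTree) : Idx P ↪ Fin n ⊕ (Idx P ⊕ Unit) :=
  ⟨fun x => Sum.inr (Sum.inl x), fun _ _ h => Sum.inl_injective (Sum.inr_injective h)⟩

@[simp] theorem osE_apply (x : Idx P) : osE n P x = Sum.inr (Sum.inl x) := rfl

/-- Label of the test line. -/
def osA (n : ℕ) (P : CTree) : Fin n ⊕ (Idx P ⊕ Unit) := Sum.inr (Sum.inr ())

theorem osE_ne (x : Idx P) : osE n P x ≠ osA n P := fun h => by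
  have h1 := Sum.inr_injective h
  exact absurd h1 Sum.inl_ne_inr

/-- Structure: lines of the tree, test line. -/
def osV (Φ : Space3 → ℝ) (ε : ℝ) (P : CTree) (z : PhasePoint × Par P) (l : ML) :
    Idx P ⊕ Unit → PhasePoint := Sum.elim (lines Φ ε P z.1 z.2) fun _ => back l.1



theorem union_os (n : ℕ) (P : CTree) (inst : DecidableEq (Fin n ⊕ (Idx P ⊕ Unit))) :
    ({osA n P} ∪ part (osE n P) : Finset (Fin n ⊕ (Idx P ⊕ Unit))) =
      Finset.univ.map (strE n (Idx P ⊕ Unit)) := by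
  ext j
  rw [Finset.mem_union, Finset.mem_singleton, mem_part, Finset.mem_map]
  constructor
  · rintro (rfl | ⟨x, rfl⟩)
    · exact ⟨Sum.inr (), Finset.mem_univ _, rfl⟩
    · exact ⟨Sum.inl x, Finset.mem_univ _, rfl⟩
  · rintro ⟨x | x, _, rfl⟩
    · exact Or.inr ⟨x, rfl⟩
    · exact Or.inl rfl

/-- The hypotheses on the system. -/
structure OSys (M : VSys (Fin n ⊕ (Idx P ⊕ Unit)) κ) (z : PhasePoint × Par P) (l : ML) (te : ℝ) :
    Prop where
  gas_b : ∀ i, M.b (Sum.inl i) ≤ 0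
  tree_b : ∀ x, M.b (Sum.inr (Sum.inl x)) ≤ 0
  line_b : M.b (Sum.inr (Sum.inr ())) = l.1.1
  o : ∀ i, M.o ≠ some i
  birth : 0 ≤ l.1.1
  valid : Valid M.Φ M.ε P M.T z.1.2 z.2
  sep : Sep M.Φ M.ε P M.T z.1 z.2
  ct : (z, l.1) ∈ OneC423.ctSet M.Φ M.ε te P
  te_lt : te < M.T

namespace OSys

variable (H : OSys M z l te)
include H

theorem treeIn : TreeIn M (Sum.elim w (osV M.Φ M.ε P z l)) M.T P z.1 z.2 (osE n P) where
  b := H.tree_b
  Z _ := rfl
  o _ := H.o _
  valid := H.valid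
  sep := H.sep

theorem lineIn : LineIn M (Sum.elim w (osV M.Φ M.ε P z l)) (osA n P) l.1 where
  o := H.o _
  b := by
    unfold VSys.bb osA
    rw [H.line_b]
    exact max_eq_left H.birth
  Z := rfl


variable (hΦ : AdmissiblePotential M.Φ) (hε : 0 < M.ε)
include hΦ hε



variable [Nonempty κ] {C ℓ ς : ℝ} (hC : 1 ≤ C)
  (hT : TL M C ℓ ς (Finset.univ.map (strE n (Idx P ⊕ Unit))) (Sum.elim w (osV M.Φ M.ε P z l)))

include hC in
theorem conn (hcd : CDok (cD M.ε z l)) :
    M.Conn C (Finset.univ.map (strE n (Idx P ⊕ Unit))) (Sum.elim w (osV M.Φ M.ε P z l)) := by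
  rw [← union_os n P fun a b => Classical.propDecidable (a = b)]
  exact conn_one hΦ hε H.treeIn osE_ne H.lineIn H.ct H.te_lt hC hcd




end OSys

end os

end Crest.Agent.R122.PWInst442

end
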