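import Crest.Agent.R122.Q1Cor_815
import Crest.Agent.R122.QL2_424
import Crest.Agent.R122.EBasic_602
import Crest.Agent.R122.GIVChild_383

-- ▼ part R122/Q1Inst_815
section

/-!
helper815, row 122, block Q (quenched densities), part 5: everything from `GIV`.

* `QInput.of_giv` : 424's one- and two-point limits give the input of (Q1);
* `Ctx.of_giv` : the standing hypotheses from `GIV Φ f₀ f T tw`.
-/

set_option autoImplicit false

open MeasureTheory Set Filter
open scoped ENNReal Topology Classical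
open Crest.AnalysisR.Kinetic Crest.Agent.R122.Kin796 Crest.Agent.R122.Disc416
  Crest.Agent.R122.Kin416 Crest.Agent.R122.Tree674
  Crest.Agent.R122.GC311

noncomputable section

namespace Crest.Agent.R122.Q1815

open CTree

variable {Φ : Space3 → ℝ} {f₀ : PhasePoint → ℝ} {f : ℝ → PhasePoint → ℝ} {β T : ℝ}

/-- 424's limits -/
theorem QInput.of_giv (hΦ : AdmissiblePotential Φ) (hβ : 0 < β) (hT : 0 < T)
    (hf : IsRegularKineticSolution Φ β T f₀ f) {tw : ℝ} (htw : 0 ≤ tw)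
    (hG : GIV566.GIV Φ f₀ f T tw) (P : CTree) {T₀ : ℝ} (hT₀ : 0 < T₀) :
    QInput Φ f₀ f T P T₀ tw where
  one := Hid424.hid_one hΦ hG P hT₀
  two := Hid424.hid_two hΦ hβ hT hf hG P P hT₀
  meas := Hid424.measurable_damp_hid0 hΦ hβ hT hf htw P T₀

/-- the standing hypotheses from `GIV` -/
theorem Ctx.of_giv (hΦ : AdmissiblePotential Φ) (hβ : 0 < β) (hT : 0 < T)
    (hc : Continuous f₀) (hm : ∫⁻ z, ENNReal.ofReal (f₀ z) ≤ 1)
    (hg : HasSummableGaussianBound (2 * β) (fun x v => f₀ (x, v)))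
    (hf : IsRegularKineticSolution Φ β T f₀ f) {tw : ℝ} (htw : tw ∈ Icc 0 T)
    (hG : GIV566.GIV Φ f₀ f T tw) {T₀ : ℝ} (hT₀ : 0 < T₀) : Ctx Φ β T f₀ f T₀ tw where
  hΦ := hΦ
  hβ := hβ
  hT := hT
  cont := hc
  mass := hm
  gauss := hg
  sol := hf
  htw := htw
  input := fun P => QInput.of_giv hΦ hβ hT hf htw.1 hG P hT₀

end Crest.Agent.R122.Q1815

end
end

-- ▼ part R122/Q1Use_815
section

/-!
helper815, row 122, block Q (quenched densities), part 6: consumer forms.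

* `D0_size_le` : kinetic bound for the trees with `m` leaves: geometric in `m`;
* `main_le` : `∑_{P} ∫ D0 P * Θ (line born at s on the root line, mark = leaves)` is at most
  `c * ∫ Θ d(lineM γ ρ K te)`;
* `gcE_adversary_sum` : adversary form with a test function depending on the tree;
* `root_marked` : **the quenched root bound** of section E with marked lines: for all test functions
  `Θ ≤ 1`: `gcE ∑_{|P| ≤ K} ∫ Dw P * Θ ≤ c * gcE ∫ Θ dlineM + δ`, `δ` null;
* `excess_time`, `adversary_time` : fixed time;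
* `Dw_mul_left`, `D0_mul_left`, `err_mul_left` : factors depending on time and root line only;
* `lintegral_Dw_mul` : expansion over the tree parameters.
-/

set_option autoImplicit false

open MeasureTheory Set Filter
open scoped ENNReal Topology Classical
open Crest.AnalysisR.Kinetic Crest.Agent.R122.Kin796 Crest.Agent.R122.Disc416
  Crest.Agent.R122.Kin416 Crest.Agent.R122.Tree674
  Crest.Agent.R122.Scat818 Crest.Agent.R122.TreeF399 Crest.Agent.R122.TreeEps399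
  Crest.Agent.R122.Hid424 Crest.Agent.R122.Quench815 Crest.Agent.R122.QDens815
  Crest.Agent.R122.GC311 Crest.Agent.R122.EDefs602

noncomputable section

namespace Crest.Agent.R122.Q1815

open CTree

variable {Φ : Space3 → ℝ} {f₀ : PhasePoint → ℝ} {f : ℝ → PhasePoint → ℝ} {β T : ℝ}

/-! ### Factors depending on time and root line only -/

theorem gw_mul_left {P : CTree} {φ : ℝ × PhasePoint × Par P → ℝ≥0∞} {c : ℝ → PhasePoint → ℝ≥0∞}
    {ε s : ℝ} {ℓ : PhasePoint} {p : Par P} :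
    gw Φ f₀ P (fun q => c q.1 q.2.1 * φ q) ε s ℓ p = c s ℓ * gw Φ f₀ P φ ε s ℓ p := by
  by_cases hV : Valid Φ ε P s ℓ.2 p
  · rw [gw_of_valid hV, gw_of_valid hV]
    ring
  · rw [gw_of_not_valid hV, gw_of_not_valid hV, mul_zero]

theorem Dw_mul_left {P : CTree} {φ : ℝ × PhasePoint × Par P → ℝ≥0∞} {c : ℝ → PhasePoint → ℝ≥0∞}
    {ε tw s : ℝ} {ℓ : PhasePoint} {n : ℕ} {w : Config n} (hc : c s ℓ ≠ ∞) :
    Dw Φ f₀ P (fun q => c q.1 q.2.1 * φ q) ε tw s ℓ w = c s ℓ * Dw Φ f₀ P φ ε tw s ℓ w := by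
  unfold Dw
  rw [← lintegral_const_mul' _ _ hc]
  refine lintegral_congr fun p => ?_
  rw [gw_mul_left, mul_assoc]

theorem D0_mul_left {P : CTree} {φ : ℝ × PhasePoint × Par P → ℝ≥0∞} {c : ℝ → PhasePoint → ℝ≥0∞}
    {tw s : ℝ} {ℓ : PhasePoint} (hc : c s ℓ ≠ ∞) :
    D0 Φ f₀ f T P (fun q => c q.1 q.2.1 * φ q) tw s ℓ = c s ℓ * D0 Φ f₀ f T P φ tw s ℓ := by
  unfold D0
  rw [← lintegral_const_mul' _ _ hc]
  refine lintegral_congr fun p => ?_
  rw [gw_mul_left, mul_assoc]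

theorem absd_mul_left {c a b : ℝ≥0∞} (hc : c ≠ ∞) : absd (c * a) (c * b) = c * absd a b := by
  unfold absd
  rw [mul_add, ENNReal.mul_sub (fun _ _ => hc), ENNReal.mul_sub (fun _ _ => hc)]

/-- the error with a factor `c (s, ℓ)` -/
theorem err_mul_left {P : CTree} {φ : ℝ × PhasePoint × Par P → ℝ≥0∞} {c : ℝ → PhasePoint → ℝ≥0∞}
    {κ : Measure ℝ} {tw ε : ℝ} (hc : ∀ s ℓ, c s ℓ ≠ ∞) :
    err Φ f₀ f T P (fun q => c q.1 q.2.1 * φ q) κ tw ε =
      gcE f₀ ε fun _ w => ∫⁻ y : ℝ × PhasePoint, c y.1 y.2 *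
        absd (Dw Φ f₀ P φ ε tw y.1 y.2 w) (D0 Φ f₀ f T P φ tw y.1 y.2) ∂(κ.prod volume) := by
  unfold err
  congr 1
  funext n w
  refine lintegral_congr fun y => ?_
  rw [Dw_mul_left (hc _ _), D0_mul_left (hc _ _), absd_mul_left (hc _ _)]

/-! ### Geometric bound in the number of leaves -/

/-- kinetic bound of the limit densities with `m` leaves -/
theorem D0_size_le (hΦ : AdmissiblePotential Φ) (hβ : 0 < β) (hT : 0 < T)
    (hf : IsRegularKineticSolution Φ β T f₀ f) {h₀ kap lam C b : ℝ}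
    (hK : Seg814.KinC Φ T f h₀ kap lam C b) {φ : ∀ P : CTree, ℝ × PhasePoint × Par P → ℝ≥0∞}
    {M : ℝ≥0∞} (hM : M ≠ ∞) {lam₁ : ℝ} (h1 : 0 < lam₁) (h2 : lam₁ ≤ lam)
    {tw s : ℝ} (htw : tw ∈ Icc 0 T) (hs : s ∈ Icc 0 (tw + h₀)) (ℓ : PhasePoint)
    (hφ : ∀ P p, Adm Φ P ℓ.2 p → φ P (s, ℓ, p) ≤ M * ENNReal.ofReal lam₁ ^ P.size *
      ENNReal.ofReal (Real.exp (kap * Seg814.eng Φ P ℓ.2 p))) (m : ℕ) :
    ∑' P : CTree, (if P.leaves = m then D0 Φ f₀ f T P (φ P) tw s ℓ else 0) ≤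
      M * ENNReal.ofReal (lam₁ / lam) ^ (m - 1) * (ENNReal.ofReal C * wG b ℓ.2) := by
  refine le_trans (le_of_eq (tsum_congr fun P => ?_)) (D0_tsum_le hΦ hβ hT hf hK
    (φ := fun P q => if P.leaves = m then φ P q else 0)
    (M := M * ENNReal.ofReal (lam₁ / lam) ^ (m - 1))
    (ENNReal.mul_ne_top hM (ENNReal.pow_ne_top ENNReal.ofReal_ne_top)) htw hs ℓ fun P p ha => ?_)
  · by_cases hP : P.leaves = m
    · simp only [if_pos hP]
    · simp only [if_neg hP]
      exact (D0_zero fun p => rfl).symm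
  · by_cases hP : P.leaves = m
    · simp only [if_pos hP]
      have hs' : m - 1 ≤ P.size := by
        have := CTree.leaves_eq P
        omega
      exact (hφ P p ha).trans (Seg814.tail_weight h1 h2 hs')
    · simp only [if_neg hP]
      exact bot_le

theorem wG_anti {a b : ℝ} (h : a ≤ b) (v : Space3) : wG b v ≤ wG a v := by
  unfold wG
  refine ENNReal.ofReal_le_ofReal (Real.exp_le_exp.2 ?_)
  have := mul_le_mul_of_nonneg_right h (sq_nonneg ‖v‖)
  linarith

theorem one_le_leaves' (P : CTree) : 1 ≤ P.leaves := by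
  have := CTree.leaves_eq P
  omega

/-- sum over the trees with a test depending on the number of leaves -/
theorem sum_trees_le {K : ℕ} (D : CTree → ℝ≥0∞) (θ : ℕ → ℝ≥0∞) (u : ℕ → ℝ≥0∞)
    (h : ∀ m, 1 ≤ m → m ≤ K → ∑' P : CTree, (if P.leaves = m then D P else 0) ≤ u m) :
    ∑ P ∈ GIVStep383.trees K, D P * θ P.leaves ≤
      ∑' m : ℕ, if 1 ≤ m ∧ m ≤ K then u m * θ m else 0 := by
  have e1 : ∑ P ∈ GIVStep383.trees K, D P * θ P.leaves ≤
      ∑' P : CTree, if P.leaves ≤ K then D P * θ P.leaves else 0 := by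
    refine le_trans (le_of_eq (Finset.sum_congr rfl fun P hP => ?_)) (ENNReal.sum_le_tsum _)
    rw [if_pos (GIVStep383.mem_trees.1 hP)]
  refine e1.trans ?_
  have e2 : ∀ P : CTree, (if P.leaves ≤ K then D P * θ P.leaves else 0) =
      ∑' m : ℕ, if 1 ≤ m ∧ m ≤ K then (if P.leaves = m then D P else 0) * θ m else 0 := by
    intro P
    rw [tsum_eq_single P.leaves fun m hm => ?_]
    · by_cases hP : P.leaves ≤ K
      · rw [if_pos hP, if_pos ⟨one_le_leaves' P, hP⟩, if_pos rfl]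
      · rw [if_neg hP, if_neg fun hh => hP hh.2]
    · rw [if_neg (Ne.symm hm), zero_mul, ite_self]
  simp only [e2]
  rw [ENNReal.tsum_comm]
  refine ENNReal.tsum_le_tsum fun m => ?_
  by_cases hm : 1 ≤ m ∧ m ≤ K
  · simp only [if_pos hm]
    rw [ENNReal.tsum_mul_right]
    exact mul_le_mul_left (h m hm.1 hm.2) _
  · simp only [if_neg hm, tsum_zero, le_refl]

/-- `r ^ (m - 1) ≤ r⁻¹ ρ ^ m` -/
theorem pow_pred_le {lam lam₁ : ℝ} (h1 : 0 < lam₁) (h : 0 < lam) {ρ : ℝ≥0∞}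
    (hρ : ENNReal.ofReal (lam₁ / lam) ≤ ρ) {m : ℕ} (hm : 1 ≤ m) :
    ENNReal.ofReal (lam₁ / lam) ^ (m - 1) ≤ ENNReal.ofReal (lam / lam₁) * ρ ^ m := by
  obtain ⟨k, rfl⟩ := Nat.exists_eq_add_of_le hm
  have e : ENNReal.ofReal (lam / lam₁) * ENNReal.ofReal (lam₁ / lam) = 1 := by
    rw [← ENNReal.ofReal_mul (by positivity), div_mul_div_cancel₀ h1.ne' , div_self h.ne',
      ENNReal.ofReal_one]
  have e2 : 1 + k - 1 = k := by omega
  rw [e2]
  calc ENNReal.ofReal (lam₁ / lam) ^ k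
      = ENNReal.ofReal (lam / lam₁) * (ENNReal.ofReal (lam₁ / lam) *
          ENNReal.ofReal (lam₁ / lam) ^ k) := by rw [← mul_assoc, e, one_mul]
    _ ≤ ENNReal.ofReal (lam / lam₁) * (ρ * ρ ^ k) := by gcongr
    _ = _ := by rw [add_comm 1 k, pow_succ, mul_comm ρ]

/-- the shear `(x, v) ↦ (x + s v, v)` preserves the integral -/
theorem lintegral_onLine (s : ℝ) {G : PhasePoint → ℝ≥0∞} (hG : Measurable G) :
    ∫⁻ ℓ : PhasePoint, G (onLine ℓ s) = ∫⁻ v : Space3, ∫⁻ x : Space3, G (x, v) := by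
  have hm : Measurable fun ℓ : PhasePoint => G (onLine ℓ s) := by
    refine hG.comp ?_
    unfold onLine
    fun_prop
  rw [show (volume : Measure PhasePoint) = (volume : Measure Space3).prod volume from rfl,
    lintegral_prod_symm' _ hm]
  refine lintegral_congr fun v => ?_
  exact lintegral_add_right_eq_self (fun x => G (x, v)) (s • v)

variable {T₀ tw : ℝ}

/-- **main term** : the limit densities against a marked test function -/
theorem main_le (X : Ctx Φ β T f₀ f T₀ tw) {h₀ kap lam C b : ℝ}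
    (hK : Seg814.KinC Φ T f h₀ kap lam C b) {te : ℝ} (hte : te ≤ tw + h₀)
    {γ : ℝ → ℝ} (hγ : Measurable γ) (hγb : ∀ u ∈ Ioc (0 : ℝ) te, γ u ≤ b)
    {φ : ∀ P : CTree, ℝ × PhasePoint × Par P → ℝ≥0∞} (hφm : ∀ P, Measurable (φ P))
    {M : ℝ≥0∞} (hM : M ≠ ∞) {lam₁ : ℝ} (h1 : 0 < lam₁) (h2 : lam₁ ≤ lam)
    (hφM : ∀ P s ℓ p, Adm Φ P ℓ.2 p → φ P (s, ℓ, p) ≤ M * ENNReal.ofReal lam₁ ^ P.size *
      ENNReal.ofReal (Real.exp (kap * Seg814.eng Φ P ℓ.2 p)))
    {ρ : ℝ≥0∞} (hρ : ENNReal.ofReal (lam₁ / lam) ≤ ρ) (K : ℕ) {Θ : ML → ℝ≥0∞}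
    (hΘ : Measurable Θ) :
    ∑ P ∈ GIVStep383.trees K, ∫⁻ y : ℝ × PhasePoint,
        D0 Φ f₀ f T P (φ P) tw y.1 y.2 * Θ ((y.1, onLine y.2 y.1), P.leaves)
          ∂((volume.restrict (Ioc 0 te)).prod volume) ≤
      M * ENNReal.ofReal (lam / lam₁) * ENNReal.ofReal C * ∫⁻ l, Θ l ∂lineM γ ρ K te := by
  have hlam : 0 < lam := h1.trans_le h2
  set c : ℝ≥0∞ := M * ENNReal.ofReal (lam / lam₁) * ENNReal.ofReal C with hc
  have hct : c ≠ ∞ := ENNReal.mul_ne_top (ENNReal.mul_ne_top hM ENNReal.ofReal_ne_top)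
    ENNReal.ofReal_ne_top
  set κ : Measure ℝ := volume.restrict (Ioc 0 te) with hκ
  -- the integrand of the right-hand side
  set G : ℝ → PhasePoint → ℝ≥0∞ := fun s z =>
    wG (γ s) z.2 * ∑' n : ℕ, markW ρ K n * Θ ((s, z), n) with hG
  have hGm : Measurable fun q : ℝ × PhasePoint => G q.1 q.2 := by
    refine Measurable.mul ((EBasic602.measurable_wG2 hγ).comp
      (measurable_fst.prodMk (measurable_snd.comp measurable_snd))) ?_
    exact Measurable.tsum fun n =>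
      (hΘ.comp ((measurable_fst.prodMk measurable_snd).prodMk measurable_const)).const_mul _
  have hmark : Measurable fun q : ℝ × PhasePoint => ((q.1, onLine q.2 q.1) : ℝ × PhasePoint) := by
    unfold onLine; fun_prop
  have hpt : ∀ᵐ y : ℝ × PhasePoint ∂(κ.prod volume),
      ∑ P ∈ GIVStep383.trees K, D0 Φ f₀ f T P (φ P) tw y.1 y.2 *
        Θ ((y.1, onLine y.2 y.1), P.leaves) ≤ c * G y.1 (onLine y.2 y.1) := by
    have hk : ∀ᵐ y : ℝ × PhasePoint ∂(κ.prod volume), y.1 ∈ Ioc 0 te :=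
      Measure.quasiMeasurePreserving_fst.ae (ae_restrict_mem measurableSet_Ioc)
    filter_upwards [hk] with y hy
    have hs : y.1 ∈ Icc 0 (tw + h₀) := ⟨hy.1.le, hy.2.trans hte⟩
    refine (sum_trees_le (fun P => D0 Φ f₀ f T P (φ P) tw y.1 y.2)
      (fun m => Θ ((y.1, onLine y.2 y.1), m))
      (fun m => M * ENNReal.ofReal (lam₁ / lam) ^ (m - 1) * (ENNReal.ofReal C * wG b y.2.2))
      fun m _ _ => D0_size_le X.hΦ X.hβ X.hT X.sol hK hM h1 h2 X.htw hs y.2
        (fun P p => hφM P y.1 y.2 p) m).trans ?_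
    have hGy : G y.1 (onLine y.2 y.1) = (∑' n : ℕ, markW ρ K n *
        Θ ((y.1, onLine y.2 y.1), n)) * wG (γ y.1) y.2.2 := mul_comm _ _
    rw [hGy, ← ENNReal.tsum_mul_right, ← ENNReal.tsum_mul_left]
    refine ENNReal.tsum_le_tsum fun m => ?_
    by_cases hm : 1 ≤ m ∧ m ≤ K
    · rw [if_pos hm]
      unfold markW
      rw [if_pos hm]
      have a1 := pow_pred_le h1 hlam hρ hm.1
      have a2 := wG_anti (hγb y.1 hy) y.2.2
      calc M * ENNReal.ofReal (lam₁ / lam) ^ (m - 1) * (ENNReal.ofReal C * wG b y.2.2) *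
            Θ ((y.1, onLine y.2 y.1), m)
          ≤ M * (ENNReal.ofReal (lam / lam₁) * ρ ^ m) * (ENNReal.ofReal C * wG (γ y.1) y.2.2) *
            Θ ((y.1, onLine y.2 y.1), m) := by gcongr
        _ = _ := by
            rw [hc]
            show _ = M * ENNReal.ofReal (lam / lam₁) * ENNReal.ofReal C *
              (ρ ^ m * Θ ((y.1, onLine y.2 y.1), m) * wG (γ y.1) y.2.2)
            ring
    · rw [if_neg hm]; exact bot_le
  have hm1 : ∀ P ∈ GIVStep383.trees K, AEMeasurable (fun y : ℝ × PhasePoint =>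
      D0 Φ f₀ f T P (φ P) tw y.1 y.2 * Θ ((y.1, onLine y.2 y.1), P.leaves)) (κ.prod volume) :=
    fun P _ => ((measurable_D0 X.hΦ X.hβ X.hT X.sol X.htw.1 (hφm P)).mul
      (hΘ.comp (hmark.prodMk measurable_const))).aemeasurable
  rw [← lintegral_finsetSum' _ hm1]
  refine (lintegral_mono_ae hpt).trans ?_
  have hGm2 : Measurable fun y : ℝ × PhasePoint => G y.1 (onLine y.2 y.1) := by
    have := hGm.comp hmark
    exact this
  rw [lintegral_const_mul _ hGm2, EBasic602.lintegral_lineM hγ hΘ, lintegral_prod _ hGm2.aemeasurable]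
  refine mul_le_mul_right (le_of_eq ?_) _
  refine lintegral_congr fun s => ?_
  rw [lintegral_onLine s (G := G s) (hGm.comp measurable_prodMk_left)]
  refine lintegral_congr fun v => ?_
  have hmv : Measurable fun x : Space3 => ∑' n : ℕ, markW ρ K n * Θ ((s, (x, v)), n) :=
    Measurable.tsum fun n => (hΘ.comp (by fun_prop : Measurable fun x : Space3 =>
      (((s, (x, v)), n) : ML))).const_mul _
  show ∫⁻ x : Space3, wG (γ s) v * ∑' n : ℕ, markW ρ K n * Θ ((s, (x, v)), n) = _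
  rw [lintegral_const_mul _ hmv]

/-! ### Adversary form with a test function depending on the tree -/

section abs

variable {Y : Type*} [MeasurableSpace Y]

theorem gcE_adversary_sum (hf : Measurable f₀) (ε : ℝ) (μ : Measure Y) [SFinite μ] {α : Type*}
    (S : Finset α)
    {D : α → (n : ℕ) → Config n → Y → ℝ≥0∞}
    (hD : ∀ a ∈ S, ∀ n, Measurable fun q : Config n × Y => D a n q.1 q.2)
    {E : α → Y → ℝ≥0∞} (hE : ∀ a ∈ S, Measurable (E a))
    {Θ : α → (n : ℕ) → Config n → Y → ℝ≥0∞} (hΘ : ∀ a ∈ S, ∀ n w y, Θ a n w y ≤ 1) :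
    gcE f₀ ε (fun n w => ∑ a ∈ S, ∫⁻ y, D a n w y * Θ a n w y ∂μ) ≤
      gcE f₀ ε (fun n w => ∑ a ∈ S, ∫⁻ y, E a y * Θ a n w y ∂μ) +
        ∑ a ∈ S, gcE f₀ ε (fun n w => ∫⁻ y, absd (D a n w y) (E a y) ∂μ) := by
  have hm : ∀ a ∈ S, ∀ n, Measurable fun q : Config n × Y => absd (D a n q.1 q.2) (E a q.2) :=
    fun a ha n => measurable_absd (hD a ha n) ((hE a ha).comp measurable_snd)
  have hm2 : ∀ a ∈ S, ∀ n, Measurable fun w : Config n => ∫⁻ y, absd (D a n w y) (E a y) ∂μ :=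
    fun a ha n => (hm a ha n).lintegral_prod_right'
  have hsum := gcE_finset_sum hf ε S (F := fun a n w => ∫⁻ y, absd (D a n w y) (E a y) ∂μ) hm2
  have hadd := gcE_add hf ε (F := fun n w => ∑ a ∈ S, ∫⁻ y, absd (D a n w y) (E a y) ∂μ)
    (G := fun n w => ∑ a ∈ S, ∫⁻ y, E a y * Θ a n w y ∂μ)
    (fun n => Finset.measurable_sum _ fun a ha => hm2 a ha n)
  rw [add_comm, ← hsum, ← hadd]
  refine gcE_mono f₀ ε fun n w _ => ?_
  rw [← Finset.sum_add_distrib]
  refine Finset.sum_le_sum fun a ha => ?_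
  have hmy : Measurable fun y => absd (D a n w y) (E a y) :=
    (hm a ha n).comp measurable_prodMk_left
  rw [← lintegral_add_left hmy]
  refine lintegral_mono fun y => ?_
  calc D a n w y * Θ a n w y ≤ (E a y + absd (D a n w y) (E a y)) * Θ a n w y := by
        gcongr; exact le_add_absd _ _
    _ = absd (D a n w y) (E a y) * Θ a n w y + E a y * Θ a n w y := by ring
    _ ≤ absd (D a n w y) (E a y) * 1 + E a y * Θ a n w y := by gcongr; exact hΘ a ha n w y
    _ = _ := by rw [mul_one]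

end abs

/-- expansion over the tree parameters -/
theorem lintegral_Dw_mul (hΦ : AdmissiblePotential Φ) (hf : Measurable f₀) {P : CTree}
    {φ : ℝ × PhasePoint × Par P → ℝ≥0∞} (hφ : Measurable φ) {ε : ℝ} (hε : 0 < ε) (tw : ℝ)
    (κ : Measure ℝ) [SFinite κ] {n : ℕ} (w : Config n) {θ : ℝ × PhasePoint → ℝ≥0∞}
    (hθ : Measurable θ) :
    ∫⁻ y : ℝ × PhasePoint, Dw Φ f₀ P φ ε tw y.1 y.2 w * θ y ∂(κ.prod volume) =
      ∫⁻ s, (∫⁻ z : PhasePoint × Par P, gw Φ f₀ P φ ε s z.1 z.2 *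
        GIV566.unhitInd Φ ε (hid Φ ε P z.1 z.2) tw w * θ (s, z.1)) ∂κ := by
  have hM : Measurable fun q : (ℝ × PhasePoint) × Par P => gw Φ f₀ P φ ε q.1.1 q.1.2 q.2 *
      GIV566.unhitInd Φ ε (hidM Φ ε P q.1.2 q.2) tw w * θ q.1 := by
    refine (((measurable_gw hΦ hf hφ ε).comp (f := fun q : (ℝ × PhasePoint) × Par P => q)
      measurable_id).mul ?_).mul (hθ.comp measurable_fst)
    have h := measurable_unhit_hidM hΦ hε P (tw := tw) (W := PhasePoint × Par P)
      (ℓ := fun z => z.1) measurable_fst (p := fun z => z.2) measurable_snd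
    exact h.comp (f := fun q : (ℝ × PhasePoint) × Par P =>
        (((⟨n, w⟩ : Σ n : ℕ, Config n)), (q.1.2, q.2)))
        (measurable_const.prodMk (measurable_fst.snd.prodMk measurable_snd))
  have hpt : ∀ (s : ℝ) (ℓ : PhasePoint) (p : Par P), gw Φ f₀ P φ ε s ℓ p *
      GIV566.unhitInd Φ ε (hid Φ ε P ℓ p) tw w = gw Φ f₀ P φ ε s ℓ p *
      GIV566.unhitInd Φ ε (hidM Φ ε P ℓ p) tw w := by
    intro s ℓ p
    by_cases hV : Valid Φ ε P s ℓ.2 p
    · rw [hidM_of_adm (ℓ := ℓ) hV.1]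
    · rw [gw_of_not_valid hV, zero_mul, zero_mul]
  simp only [hpt, Dw_eq_M]
  have hin : ∀ y : ℝ × PhasePoint, (∫⁻ p : Par P, gw Φ f₀ P φ ε y.1 y.2 p *
      GIV566.unhitInd Φ ε (hidM Φ ε P y.2 p) tw w) * θ y = ∫⁻ p : Par P, gw Φ f₀ P φ ε y.1 y.2 p *
      GIV566.unhitInd Φ ε (hidM Φ ε P y.2 p) tw w * θ y := by
    intro y
    have hmp : Measurable fun p : Par P => gw Φ f₀ P φ ε y.1 y.2 p *
        GIV566.unhitInd Φ ε (hidM Φ ε P y.2 p) tw w := by
      refine ((measurable_gw hΦ hf hφ ε).comp (f := fun p : Par P => ((y.1, y.2), p))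
        measurable_prodMk_left).mul ?_
      have h := measurable_unhit_hidM hΦ hε P (tw := tw) (W := PhasePoint × Par P)
        (ℓ := fun z => z.1) measurable_fst (p := fun z => z.2) measurable_snd
      exact h.comp (f := fun p : Par P => (((⟨n, w⟩ : Σ n : ℕ, Config n)), (y.2, p)))
        (measurable_const.prodMk (measurable_const.prodMk measurable_id))
    rw [lintegral_mul_const _ hmp]
  simp only [hin]
  have hM2 : Measurable fun y : ℝ × PhasePoint => ∫⁻ p : Par P, gw Φ f₀ P φ ε y.1 y.2 p *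
      GIV566.unhitInd Φ ε (hidM Φ ε P y.2 p) tw w * θ y := hM.lintegral_prod_right'
  rw [lintegral_prod _ hM2.aemeasurable]
  refine lintegral_congr fun s => ?_
  have hM3 : Measurable fun z : PhasePoint × Par P => gw Φ f₀ P φ ε s z.1 z.2 *
      GIV566.unhitInd Φ ε (hidM Φ ε P z.1 z.2) tw w * θ (s, z.1) :=
    hM.comp (f := fun z : PhasePoint × Par P => ((s, z.1), z.2)) (by fun_prop)
  rw [show (volume : Measure (PhasePoint × Par P)) = (volume : Measure PhasePoint).prod volume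
    from rfl, lintegral_prod _ hM3.aemeasurable]

/-- **Quenched root bound with marked lines.** For weights `φ P ≤ M lam₁^size exp (kap eng)`,
marks ratio `ρ ≥ lam₁ / lam` and Gaussian rates `γ ≤ b` there is one null error `δ` such that for all
test functions `Θ ≤ 1` the quenched root density of the trees with at most `K` particles against `Θ`
is at most `c` times the mass of `Θ` for the measure on marked lines, plus `δ`. -/
theorem root_marked (X : Ctx Φ β T f₀ f T₀ tw) {h₀ kap lam C b : ℝ}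
    (hK : Seg814.KinC Φ T f h₀ kap lam C b) {te : ℝ} (hte : te ≤ tw + h₀) (hteT : te ≤ T₀)
    {γ : ℝ → ℝ} (hγ : Measurable γ) (hγb : ∀ u ∈ Ioc (0 : ℝ) te, γ u ≤ b)
    {φ : ∀ P : CTree, ℝ × PhasePoint × Par P → ℝ≥0∞} (hφ : ∀ P, Wgt Φ β P (φ P) T₀)
    {M : ℝ≥0∞} (hM : M ≠ ∞) {lam₁ : ℝ} (h1 : 0 < lam₁) (h2 : lam₁ ≤ lam)
    (hφM : ∀ P s ℓ p, Adm Φ P ℓ.2 p → φ P (s, ℓ, p) ≤ M * ENNReal.ofReal lam₁ ^ P.size *
      ENNReal.ofReal (Real.exp (kap * Seg814.eng Φ P ℓ.2 p)))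
    {ρ : ℝ≥0∞} (hρ : ENNReal.ofReal (lam₁ / lam) ≤ ρ) :
    ∃ δ : ℕ → ℝ → ℝ≥0∞, Null δ ∧ ∀ K ε, 0 < ε →
      ∀ Θ : (n : ℕ) → Config n → ML → ℝ≥0∞, (∀ n w, Measurable (Θ n w)) →
        (∀ n w l, Θ n w l ≤ 1) →
        gcE f₀ ε (fun n w => ∑ P ∈ GIVStep383.trees K, ∫⁻ y : ℝ × PhasePoint,
          Dw Φ f₀ P (φ P) ε tw y.1 y.2 w * Θ n w ((y.1, onLine y.2 y.1), P.leaves)
            ∂((volume.restrict (Ioc 0 te)).prod volume)) ≤
        M * ENNReal.ofReal (lam / lam₁) * ENNReal.ofReal C *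
          gcE f₀ ε (fun n w => ∫⁻ l, Θ n w l ∂lineM γ ρ K te) + δ K ε := by
  have hκ : ∀ᵐ s ∂(volume.restrict (Ioc 0 te) : Measure ℝ), s ≤ T₀ :=
    (ae_restrict_mem measurableSet_Ioc).mono fun s hs => hs.2.trans hteT
  refine ⟨fun K ε => ∑ P ∈ GIVStep383.trees K,
      err Φ f₀ f T P (φ P) (volume.restrict (Ioc 0 te)) tw ε, ?_, ?_⟩
  · exact Null.finset_sum_K _ fun P => Null.of_tendsto (tendsto_err X hκ (hφ P))
  · intro K ε hε Θ hΘm hΘ
    have hct : M * ENNReal.ofReal (lam / lam₁) * ENNReal.ofReal C ≠ ∞ :=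
      ENNReal.mul_ne_top (ENNReal.mul_ne_top hM ENNReal.ofReal_ne_top) ENNReal.ofReal_ne_top
    refine (gcE_adversary_sum X.cont.measurable ε ((volume.restrict (Ioc 0 te)).prod volume)
      (GIVStep383.trees K)
      (D := fun P n w y => Dw Φ f₀ P (φ P) ε tw y.1 y.2 w)
      (fun P _ n => measurable_Dw_n X.hΦ X.cont.measurable (hφ P).meas hε tw n)
      (E := fun P y => D0 Φ f₀ f T P (φ P) tw y.1 y.2)
      (fun P _ => measurable_D0 X.hΦ X.hβ X.hT X.sol X.htw.1 (hφ P).meas)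
      (Θ := fun P n w y => Θ n w ((y.1, onLine y.2 y.1), P.leaves))
      (fun P _ n w y => hΘ n w _)).trans ?_
    refine add_le_add ?_ le_rfl
    rw [← gcE_const_mul f₀ ε hct]
    refine gcE_mono f₀ ε fun n w _ => ?_
    exact main_le X hK hte hγ hγb (fun P => (hφ P).meas) hM h1 h2 hφM hρ K (hΘm n w)

/-! ### Fixed time -/

theorem lintegral_dirac_prod {F : ℝ × PhasePoint → ℝ≥0∞} (t : ℝ) :
    ∫⁻ y, F y ∂((Measure.dirac t).prod (volume : Measure PhasePoint)) = ∫⁻ ℓ, F (t, ℓ) := by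
  rw [Measure.dirac_prod]
  exact (measurableEmbedding_prodMk_left t).lintegral_map F

/-- error at a fixed time -/
theorem err_dirac {P : CTree} {φ : ℝ × PhasePoint × Par P → ℝ≥0∞} {t tw ε : ℝ} :
    err Φ f₀ f T P φ (Measure.dirac t) tw ε = gcE f₀ ε fun _ w => ∫⁻ ℓ : PhasePoint,
      absd (Dw Φ f₀ P φ ε tw t ℓ w) (D0 Φ f₀ f T P φ tw t ℓ) := by
  unfold err
  congr 1
  funext n w
  exact lintegral_dirac_prod t

/-- **excess form at a fixed time** (the input `hQ` of `InEq2V263.ineq2_untouched`) -/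
theorem excess_time (X : Ctx Φ β T f₀ f T₀ tw) {h₀ kap lam C b : ℝ}
    (hK : Seg814.KinC Φ T f h₀ kap lam C b) {t : ℝ} (ht : t ∈ Icc 0 (tw + h₀)) (htT : t ≤ T₀)
    {φ : ℕ → ∀ P : CTree, ℝ × PhasePoint × Par P → ℝ≥0∞}
    (hφ : ∀ K P, Wgt Φ β P (φ K P) T₀)
    (hφ0 : ∀ K P, K < P.leaves → ∀ q, φ K P q = 0) {M : ℝ≥0∞} (hM : M ≠ ∞)
    (hφM : ∀ K P s ℓ p, Adm Φ P ℓ.2 p → φ K P (s, ℓ, p) ≤ M * ENNReal.ofReal lam ^ P.size *
      ENNReal.ofReal (Real.exp (kap * Seg814.eng Φ P ℓ.2 p))) :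
    Null fun K ε => gcE f₀ ε fun _ w => ∫⁻ ℓ : PhasePoint,
      ((∑' P, ∫⁻ p : Par P, gw Φ f₀ P (φ K P) ε t ℓ p *
        GIV566.unhitInd Φ ε (hid Φ ε P ℓ p) tw w) - (M * ENNReal.ofReal C) * wG b ℓ.2) := by
  rw [null_iff_tendsto]
  intro K
  have h := tendsto_excess X (κ := Measure.dirac t) ((ae_dirac_iff measurableSet_Iic).2 htT) hK
      ((ae_dirac_iff (p := fun s => s ∈ Icc 0 (tw + h₀)) measurableSet_Icc).2 ht) (GIVStep383.trees K) (φ := φ K)
      (fun P _ => hφ K P) (fun P hP q => hφ0 K P (by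
        by_contra hh
        exact hP (GIVStep383.mem_trees.2 (not_lt.1 hh))) q) hM (hφM K)
  refine h.congr fun ε => ?_
  congr 1
  funext n w
  rw [lintegral_dirac_prod]
  refine lintegral_congr fun ℓ => ?_
  simp only [mul_assoc]
  rfl

end Crest.Agent.R122.Q1815

end
end

-- ▼ part R122/Q1Wgt_815

/-!
helper815, row 122, block Q (quenched densities), part 7: concrete weights.

* `KinC.mono_kap`, `exists_kinC_le` : the energy rate may be taken `≤ β` (in fact as small as wanted);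
* `Wgt.of_le` : a measurable weight `≤ M lam^size exp (kap eng)`, `kap < 2β`, is admissible;
* `wtA` : additive energy weight `∑ (1 + |v_i|²)` (all leaves), `wtA_le`;
* `rootA` : `1 + |v|` of the root line, `rootA_le`;
* `cutW` : cut-off to trees with at most `K` leaves.
-/

set_option autoImplicit false

open MeasureTheory Set Filter
open scoped ENNReal Topology Classical
open Crest.AnalysisR.Kinetic Crest.Agent.R122.Kin796 Crest.Agent.R122.Disc416
  Crest.Agent.R122.Kin416 Crest.Agent.R122.Tree674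
  Crest.Agent.R122.Scat818 Crest.Agent.R122.TreeF399 Crest.Agent.R122.TreeEps399
  Crest.Agent.R122.Hid424 Crest.Agent.R122.Quench815 Crest.Agent.R122.QDens815
  Crest.Agent.R122.GC311 Crest.Agent.R122.EDefs602

noncomputable section

namespace Crest.Agent.R122.Q1815

open CTree

variable {Φ : Space3 → ℝ} {f₀ : PhasePoint → ℝ} {f : ℝ → PhasePoint → ℝ} {β T : ℝ}

/-! ### The energy rate -/

theorem KinC.mono_kap (hΦ : AdmissiblePotential Φ) (hf : IsRegularKineticSolution Φ β T f₀ f)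
    {h₀ kap lam C b : ℝ} (hK : Seg814.KinC Φ T f h₀ kap lam C b) {kap' : ℝ} (h0 : 0 < kap')
    (h : kap' ≤ kap) : Seg814.KinC Φ T f h₀ kap' lam C b := by
  obtain ⟨a1, a2, a3, a4, a5, a6⟩ := hK
  refine ⟨a1, h0, a3, a4, a5, fun tw htw t ht x v => ?_⟩
  have hexp : ∀ (P : CTree) (p : Par P), ENNReal.ofReal (Real.exp (kap' * Seg814.eng Φ P v p)) ≤
      ENNReal.ofReal (Real.exp (kap * Seg814.eng Φ P v p)) := fun P p =>
    ENNReal.ofReal_le_ofReal (Real.exp_le_exp.2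
      (mul_le_mul_of_nonneg_right h (Seg814.eng_nonneg P v p)))
  refine ⟨le_trans (ENNReal.tsum_le_tsum fun P => ?_) (a6 tw htw t ht x v).1,
    le_trans (ENNReal.tsum_le_tsum fun P => ?_) (a6 tw htw t ht x v).2⟩
  · rw [Seg814.F_energy hΦ hf, Seg814.F_energy hΦ hf]
    exact mul_le_mul_right (lintegral_mono fun p => mul_le_mul_left (hexp P p) _) _
  · rw [Seg814.FS_energy hΦ hf, Seg814.FS_energy hΦ hf]
    exact mul_le_mul_right (lintegral_mono fun p => mul_le_mul_left (hexp P p) _) _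

theorem exists_kinC_le (hΦ : AdmissiblePotential Φ) (hβ : 0 < β) (hT : 0 < T)
    (hf : IsRegularKineticSolution Φ β T f₀ f) :
    ∃ h₀ kap lam C b : ℝ, Seg814.KinC Φ T f h₀ kap lam C b ∧ kap ≤ β := by
  obtain ⟨h₀, kap, lam, C, b, hK⟩ := Seg814.exists_kinC hβ hT hΦ hf
  exact ⟨h₀, min kap β, lam, C, b, KinC.mono_kap hΦ hf hK (lt_min hK.2.1 hβ) (min_le_left _ _),
    min_le_right _ _⟩

/-- admissible weights from the bound -/
theorem Wgt.of_le {P : CTree} {φ : ℝ × PhasePoint × Par P → ℝ≥0∞} (hφ : Measurable φ) {T₀ : ℝ}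
    {kap lam : ℝ} (hkap : kap < 2 * β) {M : ℝ≥0∞} (hM : M ≠ ∞)
    (hφM : ∀ s ℓ p, Adm Φ P ℓ.2 p → φ (s, ℓ, p) ≤ M * ENNReal.ofReal lam ^ P.size *
      ENNReal.ofReal (Real.exp (kap * Seg814.eng Φ P ℓ.2 p))) : Wgt Φ β P φ T₀ where
  meas := hφ
  bound := by
    refine ⟨kap, (M * ENNReal.ofReal lam ^ P.size).toReal, hkap, fun s ℓ p _ hV => ?_⟩
    rw [ENNReal.ofReal_toReal (ENNReal.mul_ne_top hM (ENNReal.pow_ne_top ENNReal.ofReal_ne_top))]
    exact hφM s ℓ p hV.1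

/-! ### Concrete weights -/

/-- additive energy weight of the leaves -/
def wtA (Φ : Space3 → ℝ) (P : CTree) : ℝ × PhasePoint × Par P → ℝ≥0∞ := fun q =>
  ∑ i : Idx P, ENNReal.ofReal (1 + ‖vels Φ P q.2.1.2 q.2.2 i‖ ^ 2)

/-- speed weight of the root line -/
def rootA (P : CTree) : ℝ × PhasePoint × Par P → ℝ≥0∞ := fun q => ENNReal.ofReal (1 + ‖q.2.1.2‖)

/-- cut-off in the number of leaves -/
def cutW (K : ℕ) (P : CTree) (φ : ℝ × PhasePoint × Par P → ℝ≥0∞) :
    ℝ × PhasePoint × Par P → ℝ≥0∞ := fun q => if P.leaves ≤ K then φ q else 0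

theorem cutW_le {K : ℕ} {P : CTree} {φ : ℝ × PhasePoint × Par P → ℝ≥0∞}
    (q : ℝ × PhasePoint × Par P) : cutW K P φ q ≤ φ q := by
  unfold cutW
  split_ifs
  · exact le_rfl
  · exact bot_le

theorem cutW_of_lt {K : ℕ} {P : CTree} {φ : ℝ × PhasePoint × Par P → ℝ≥0∞}
    (h : K < P.leaves) (q : ℝ × PhasePoint × Par P) : cutW K P φ q = 0 :=
  if_neg (not_le.2 h)

theorem cutW_of_le {K : ℕ} {P : CTree} {φ : ℝ × PhasePoint × Par P → ℝ≥0∞}
    (h : P.leaves ≤ K) (q : ℝ × PhasePoint × Par P) : cutW K P φ q = φ q := if_pos h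

theorem measurable_cutW {K : ℕ} {P : CTree} {φ : ℝ × PhasePoint × Par P → ℝ≥0∞}
    (hφ : Measurable φ) : Measurable (cutW K P φ) := by
  unfold cutW
  by_cases h : P.leaves ≤ K
  · simp only [if_pos h]; exact hφ
  · simp only [if_neg h]; exact measurable_const

theorem measurable_rootA (P : CTree) : Measurable (rootA P) := by
  unfold rootA
  fun_prop

theorem exists_wtA_le (Φ : Space3 → ℝ) {lam kap : ℝ} (hlam : 1 < lam) (hkap : 0 < kap) :
    ∃ M : ℝ, 0 < M ∧ ∀ (P : CTree) (s : ℝ) (ℓ : PhasePoint) (p : Par P),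
      wtA Φ P (s, ℓ, p) ≤ ENNReal.ofReal M * ENNReal.ofReal lam ^ P.size *
        ENNReal.ofReal (Real.exp (kap * Seg814.eng Φ P ℓ.2 p)) := by
  obtain ⟨M, hM, h⟩ := Seg814.exists_additive_le (Φ := Φ) hlam hkap
  exact ⟨M, hM, fun P s ℓ p => h P ℓ.2 p⟩

/-- the additive weight on the lines -/
theorem wtA_eq_lines {P : CTree} {s ε : ℝ} {ℓ : PhasePoint}
    {p : Par P} : wtA Φ P (s, ℓ, p) =
      ∑ i : Idx P, ENNReal.ofReal (1 + ‖(lines Φ ε P ℓ p i).2‖ ^ 2) := by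
  unfold wtA
  refine Finset.sum_congr rfl fun i _ => ?_
  rw [lines_vel]

/-- the set of admissible parameters is measurable -/
theorem measurableSet_adm (hΦ : AdmissiblePotential Φ) : ∀ P : CTree,
    MeasurableSet {q : Space3 × Par P | Adm Φ P q.1 q.2}
  | leaf => by
      have : {q : Space3 × Par leaf | Adm Φ leaf q.1 q.2} = univ := by
        ext q; simp [Adm]
      rw [this]; exact MeasurableSet.univ
  | node l r => by
      have hv : Measurable fun q : Space3 × Par (node l r) => q.1 := measurable_fst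
      have hp : Measurable fun q : Space3 × Par (node l r) => q.2 := measurable_snd
      have ha : Measurable fun q : Space3 × Par (node l r) => q.2.1 :=
        (measurable_par1 l r).comp hp
      have hz : Measurable fun q : Space3 × Par (node l r) => (q.1, q.2.1) := hv.prodMk ha
      have hpre := (measurable_preM hΦ).comp hz
      have hl := (measurable_parL l r).comp hp
      have hr := (measurable_parR l r).comp hp
      have e : {q : Space3 × Par (node l r) | Adm Φ (node l r) q.1 q.2} =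
          {q | (q.1, q.2.1) ∈ NS Φ} ∩
          ((fun q => ((preM Φ (q.1, q.2.1)).1, q.2.2.1)) ⁻¹'
              {q : Space3 × Par l | Adm Φ l q.1 q.2} ∩
           (fun q => ((preM Φ (q.1, q.2.1)).2, q.2.2.2)) ⁻¹'
              {q : Space3 × Par r | Adm Φ r q.1 q.2}) := by
        ext q
        simp only [mem_ofPred_eq, mem_inter_iff, mem_preimage]
        constructor
        · rintro ⟨h2, h5, h6⟩
          have e2 : preM Φ (q.1, q.2.1) = _ := preM_of_adm (z := (q.1, q.2.1)) h2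
          rw [e2]
          exact ⟨h2, h5, h6⟩
        · rintro ⟨h2, h5, h6⟩
          have h2' : Adm1 Φ q.1 q.2.1 := h2
          have e2 : preM Φ (q.1, q.2.1) = _ := preM_of_adm (z := (q.1, q.2.1)) h2'
          rw [e2] at h5 h6
          exact ⟨h2', h5, h6⟩
      rw [e]
      refine (hz (measurableSet_NS hΦ)).inter (MeasurableSet.inter ?_ ?_)
      · exact (hpre.fst.prodMk hl) (measurableSet_adm hΦ l)
      · exact (hpre.snd.prodMk hr) (measurableSet_adm hΦ r)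

theorem measurable_nodeEn : ∀ P : CTree, Measurable (nodeEn P)
  | leaf => measurable_const
  | node l r => by
      have h1 := measurable_par1 l r
      have h2 := (measurable_nodeEn l).comp (measurable_parL l r)
      have h3 := (measurable_nodeEn r).comp (measurable_parR l r)
      exact (h1.snd.fst.norm.pow_const 2).add (h2.add h3)

/-- measurable form of the additive weight (`0` outside the admissible parameters) -/
def wtE (Φ : Space3 → ℝ) (P : CTree) : ℝ × PhasePoint × Par P → ℝ≥0∞ := fun q =>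
  {z : Space3 × Par P | Adm Φ P z.1 z.2}.indicator
    (fun z => ENNReal.ofReal (P.leaves + (‖z.1‖ ^ 2 + nodeEn P z.2))) (q.2.1.2, q.2.2)

theorem wtE_eq (hΦ : AdmissiblePotential Φ) {P : CTree} {s : ℝ} {ℓ : PhasePoint} {p : Par P}
    (h : Adm Φ P ℓ.2 p) : wtE Φ P (s, ℓ, p) = wtA Φ P (s, ℓ, p) := by
  unfold wtE wtA
  rw [indicator_of_mem (show (ℓ.2, p) ∈ {z : Space3 × Par P | Adm Φ P z.1 z.2} from h),
    ← ENNReal.ofReal_sum_of_nonneg (fun i _ => by positivity), Finset.sum_add_distrib,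
    Finset.sum_const, Finset.card_univ, card_idx, nsmul_eq_mul, mul_one]
  have := sum_vels hΦ P ℓ.2 p h
  simp only
  rw [this]

theorem wtE_le (hΦ : AdmissiblePotential Φ) {P : CTree} (q : ℝ × PhasePoint × Par P) :
    wtE Φ P q ≤ wtA Φ P q := by
  obtain ⟨s, ℓ, p⟩ := q
  by_cases h : Adm Φ P ℓ.2 p
  · exact (wtE_eq hΦ h).le
  · unfold wtE
    rw [indicator_of_notMem (show (ℓ.2, p) ∉ {z : Space3 × Par P | Adm Φ P z.1 z.2} from h)]
    exact bot_le

theorem measurable_wtE (hΦ : AdmissiblePotential Φ) (P : CTree) : Measurable (wtE Φ P) := by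
  have h1 : Measurable fun z : Space3 × Par P =>
      {z : Space3 × Par P | Adm Φ P z.1 z.2}.indicator
        (fun z => ENNReal.ofReal (P.leaves + (‖z.1‖ ^ 2 + nodeEn P z.2))) z := by
    refine Measurable.indicator ?_ (measurableSet_adm hΦ P)
    refine ENNReal.measurable_ofReal.comp (measurable_const.add
      ((measurable_fst.norm.pow_const 2).add ((measurable_nodeEn P).comp measurable_snd)))
  exact h1.comp (f := fun q : ℝ × PhasePoint × Par P => (q.2.1.2, q.2.2))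
    (measurable_snd.fst.snd.prodMk measurable_snd.snd)



theorem wtA_adm (hΦ : AdmissiblePotential Φ) {P : CTree} {s : ℝ} {ℓ : PhasePoint} {p : Par P}
    (h : Adm Φ P ℓ.2 p) :
    wtA Φ P (s, ℓ, p) = ENNReal.ofReal (P.leaves + (‖ℓ.2‖ ^ 2 + nodeEn P p)) := by
  rw [← wtE_eq hΦ h]
  exact indicator_of_mem (show (ℓ.2, p) ∈ {z : Space3 × Par P | Adm Φ P z.1 z.2} from h) _

/-- `1 + |v|²` of the root is at most the additive weight -/
theorem one_add_sq_le_wtA (hΦ : AdmissiblePotential Φ) {P : CTree} {s : ℝ} {ℓ : PhasePoint}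
    {p : Par P} (h : Adm Φ P ℓ.2 p) :
    ENNReal.ofReal (1 + ‖ℓ.2‖ ^ 2) ≤ wtA Φ P (s, ℓ, p) := by
  rw [wtA_adm hΦ h]
  refine ENNReal.ofReal_le_ofReal ?_
  have h1 : (1 : ℝ) ≤ P.leaves := by exact_mod_cast one_le_leaves' P
  have h2 := nodeEn_nonneg P p
  linarith

/-- `1 + |v|` of the root -/
theorem rootA_le_wtA (hΦ : AdmissiblePotential Φ) {P : CTree} {s : ℝ} {ℓ : PhasePoint}
    {p : Par P} (h : Adm Φ P ℓ.2 p) : rootA P (s, ℓ, p) ≤ 2 * wtA Φ P (s, ℓ, p) := by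
  refine le_trans ?_ (mul_le_mul_right (one_add_sq_le_wtA hΦ h) 2)
  unfold rootA
  have e2 : (2 : ℝ≥0∞) * ENNReal.ofReal (1 + ‖ℓ.2‖ ^ 2) =
      ENNReal.ofReal (2 * (1 + ‖ℓ.2‖ ^ 2)) := by
    rw [ENNReal.ofReal_mul (by norm_num), ENNReal.ofReal_ofNat]
  rw [e2]
  refine ENNReal.ofReal_le_ofReal ?_
  show 1 + ‖ℓ.2‖ ≤ _
  nlinarith [sq_nonneg (‖ℓ.2‖ - 1)]

/-- measurable integrand of the quenched densities (input `hA` of `InEq2V263.ineq2_untouched`) -/
theorem measurable_gw_unhit (hΦ : AdmissiblePotential Φ) (hf : Measurable f₀) {P : CTree}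
    {φ : ℝ × PhasePoint × Par P → ℝ≥0∞} (hφ : Measurable φ) {ε : ℝ} (hε : 0 < ε) (tw t : ℝ)
    (n : ℕ) : Measurable fun q : Config n × (PhasePoint × Par P) =>
      gw Φ f₀ P φ ε t q.2.1 q.2.2 * GIV566.unhitInd Φ ε (hid Φ ε P q.2.1 q.2.2) tw q.1 := by
  have hpt : ∀ q : Config n × (PhasePoint × Par P), gw Φ f₀ P φ ε t q.2.1 q.2.2 *
      GIV566.unhitInd Φ ε (hid Φ ε P q.2.1 q.2.2) tw q.1 = gw Φ f₀ P φ ε t q.2.1 q.2.2 *
      GIV566.unhitInd Φ ε (hidM Φ ε P q.2.1 q.2.2) tw q.1 := by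
    intro q
    by_cases hV : Valid Φ ε P t q.2.1.2 q.2.2
    · rw [hidM_of_adm hV.1]
    · rw [gw_of_not_valid hV, zero_mul, zero_mul]
  simp only [hpt]
  refine ((measurable_gw hΦ hf hφ ε).comp (f := fun q : Config n × (PhasePoint × Par P) =>
    ((t, q.2.1), q.2.2)) (by fun_prop)).mul ?_
  have h := measurable_unhit_hidM hΦ hε P (tw := tw) (W := PhasePoint × Par P)
      (ℓ := fun z => z.1) measurable_fst (p := fun z => z.2) measurable_snd
  exact h.comp (f := fun q : Config n × (PhasePoint × Par P) =>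
    ((⟨n, q.1⟩ : Σ n : ℕ, Config n), q.2))
    (((measurable_sigmaMk' n).comp measurable_fst).prodMk measurable_snd)

variable {T₀ tw : ℝ}

/-- **the input `hQ` of inequality 2'** : fixed time `t`, trees with at most `K` leaves, energy
weight `∑ (1 + |v_i(0)|²)`; `c = M C` does not depend on the window. -/
theorem energy_excess_time (X : Ctx Φ β T f₀ f T₀ tw) {h₀ kap lam C b : ℝ}
    (hK : Seg814.KinC Φ T f h₀ kap lam C b) (hkap : kap ≤ β) {t : ℝ}
    (ht : t ∈ Icc 0 (tw + h₀)) (htT : t ≤ T₀) {M : ℝ}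
    (hM : ∀ (P : CTree) (s : ℝ) (ℓ : PhasePoint) (p : Par P),
      wtA Φ P (s, ℓ, p) ≤ ENNReal.ofReal M * ENNReal.ofReal lam ^ P.size *
        ENNReal.ofReal (Real.exp (kap * Seg814.eng Φ P ℓ.2 p))) :
    Null fun K ε => gcE f₀ ε fun _ w => ∫⁻ ℓ : PhasePoint,
      ((∑' P, ∫⁻ p : Par P, gw Φ f₀ P (cutW K P (wtE Φ P)) ε t ℓ p *
        GIV566.unhitInd Φ ε (hid Φ ε P ℓ p) tw w) -
          (ENNReal.ofReal M * ENNReal.ofReal C) * wG b ℓ.2) := by
  have hb := X.hβ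
  refine excess_time X hK ht htT (φ := fun K P => cutW K P (wtE Φ P)) (fun K P => ?_)
    (fun K P h q => cutW_of_lt h q) ENNReal.ofReal_ne_top
    (fun K P s ℓ p _ => (cutW_le _).trans ((wtE_le X.hΦ _).trans (hM P s ℓ p)))
  exact Wgt.of_le (measurable_cutW (measurable_wtE X.hΦ P)) (by linarith) ENNReal.ofReal_ne_top
    (fun s ℓ p _ => (cutW_le _).trans ((wtE_le X.hΦ _).trans (hM P s ℓ p)))

end Crest.Agent.R122.Q1815

end
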