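import Crest.Agent.R122.Volt_796

/-!
`L¹` in the birth time version of the backward Volterra closing, and the estimate for young lines
(row 122, section E, helper796).
-/

set_option autoImplicit false
set_option linter.unusedVariables false
open MeasureTheory ProbabilityTheory Set
open scoped ENNReal

noncomputable section

namespace Crest.Agent.R122.Volt796

open Crest.Agent.R122.Kin796

variable {E : Type*} [NormedAddCommGroup E] [MeasurableSpace E]

/-- Absorption of the factor `1 + ‖v‖` by the decreasing rate. -/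
theorem weight_absorb (m : Measure E) (x : E → ℝ≥0∞) {γ₀ κ C τ s : ℝ} (hκ : 0 < κ) (hC : 0 ≤ C)
    (hs : τ < s) :
    ∫⁻ v, ENNReal.ofReal (C * (1 + ‖v‖)) * (wG (γ₀ - κ * τ) v * x v) ∂m ≤
      ENNReal.ofReal (C * sk κ (s - τ)) * ∫⁻ v, wG (γ₀ - κ * s) v * x v ∂m := by
  have hsτ : 0 < s - τ := sub_pos.2 hs
  calc ∫⁻ v, ENNReal.ofReal (C * (1 + ‖v‖)) * (wG (γ₀ - κ * τ) v * x v) ∂m
      ≤ ∫⁻ v, ENNReal.ofReal (C * sk κ (s - τ)) * (wG (γ₀ - κ * s) v * x v) ∂m := by
        refine lintegral_mono fun v => ?_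
        rw [← mul_assoc, ← mul_assoc]
        refine mul_le_mul' ?_ le_rfl
        unfold wG
        rw [← ENNReal.ofReal_mul (by positivity), ← ENNReal.ofReal_mul (by
          unfold sk; positivity)]
        refine ENNReal.ofReal_le_ofReal ?_
        have h1 := one_add_mul_exp_le hκ hsτ (norm_nonneg v)
        have h2 : Real.exp (-((γ₀ - κ * τ) * ‖v‖ ^ 2)) =
            Real.exp (-(κ * (s - τ) * ‖v‖ ^ 2)) * Real.exp (-((γ₀ - κ * s) * ‖v‖ ^ 2)) := by
          rw [← Real.exp_add]; congr 1; ring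
        rw [h2]
        calc C * (1 + ‖v‖) * (Real.exp (-(κ * (s - τ) * ‖v‖ ^ 2)) *
              Real.exp (-((γ₀ - κ * s) * ‖v‖ ^ 2)))
            = C * ((1 + ‖v‖) * Real.exp (-(κ * (s - τ) * ‖v‖ ^ 2))) *
              Real.exp (-((γ₀ - κ * s) * ‖v‖ ^ 2)) := by ring
          _ ≤ C * sk κ (s - τ) * Real.exp (-((γ₀ - κ * s) * ‖v‖ ^ 2)) := by
              gcongr
    _ ≤ _ := by
        rw [lintegral_const_mul' _ _ ENNReal.ofReal_ne_top]

/-- From the weighted recursion to a scalar Volterra inequality. -/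
theorem scalar_rec (m : Measure E) {x : ℝ → E → ℝ≥0∞} {γ₀ κ C t' τ : ℝ} (hκ : 0 < κ) (hC : 0 ≤ C)
    {S : ℝ≥0∞}
    (hrec : ∫⁻ v, wG (γ₀ - κ * τ) v * x τ v ∂m ≤ S +
      ∫⁻ s in Ioc τ t', ∫⁻ v, ENNReal.ofReal (C * (1 + ‖v‖)) * (wG (γ₀ - κ * τ) v * x s v) ∂m) :
    ∫⁻ v, wG (γ₀ - κ * τ) v * x τ v ∂m ≤ S +
      ∫⁻ s in Ioc τ t', ENNReal.ofReal (C * sk κ (s - τ)) *
        ∫⁻ v, wG (γ₀ - κ * s) v * x s v ∂m := by
  refine hrec.trans (add_le_add le_rfl ?_)
  exact setLIntegral_mono' measurableSet_Ioc fun s hs => weight_absorb m (x s) hκ hC hs.1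

theorem measurable_sk (κ : ℝ) : Measurable (sk κ) := by
  unfold sk; fun_prop

theorem sk_nonneg (κ u : ℝ) : 0 ≤ sk κ u := by
  unfold sk; positivity

/-- Exchange of the two time integrations for the backward Volterra kernel. -/
theorem volterra_swap {X : ℝ → ℝ≥0∞} (hX : Measurable X) {w : ℝ → ℝ≥0∞} (hw : Measurable w)
    {κ C t' : ℝ} {J : Set ℝ} (hJ : MeasurableSet J) :
    ∫⁻ τ in J, w τ * ∫⁻ s in Ioc τ t', ENNReal.ofReal (C * sk κ (s - τ)) * X s =
      ∫⁻ s, (∫⁻ τ in J, (Iio s).indicator (fun τ => w τ * ENNReal.ofReal (C * sk κ (s - τ))) τ) *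
        (Iic t').indicator X s := by
  have h1 : ∀ τ : ℝ, w τ * ∫⁻ s in Ioc τ t', ENNReal.ofReal (C * sk κ (s - τ)) * X s =
      ∫⁻ s, (Iio s).indicator (fun τ => w τ * ENNReal.ofReal (C * sk κ (s - τ))) τ *
        (Iic t').indicator X s := by
    intro τ
    rw [← lintegral_indicator measurableSet_Ioc, ← lintegral_const_mul]
    · refine lintegral_congr fun s => ?_
      by_cases h2 : τ < s
      · by_cases h3 : s ≤ t'
        · rw [indicator_of_mem (show s ∈ Ioc τ t' from ⟨h2, h3⟩),
            indicator_of_mem (show τ ∈ Iio s from h2), indicator_of_mem (show s ∈ Iic t' from h3)]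
          ring
        · rw [indicator_of_notMem (show s ∉ Ioc τ t' from fun h => h3 h.2),
            indicator_of_notMem (show s ∉ Iic t' from h3)]
          simp
      · rw [indicator_of_notMem (show s ∉ Ioc τ t' from fun h => h2 h.1),
          indicator_of_notMem (show τ ∉ Iio s from h2)]
        simp
    · refine Measurable.indicator ?_ measurableSet_Ioc
      exact (((measurable_sk κ).comp (measurable_id.sub_const τ)).const_mul C).ennreal_ofReal.mul hX
  simp only [h1]
  have hm : Measurable (fun p : ℝ × ℝ => (Iio p.2).indicator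
      (fun τ => w τ * ENNReal.ofReal (C * sk κ (p.2 - τ))) p.1) := by
    have h2 : (fun p : ℝ × ℝ => (Iio p.2).indicator
        (fun τ => w τ * ENNReal.ofReal (C * sk κ (p.2 - τ))) p.1) =
        {p : ℝ × ℝ | p.1 < p.2}.indicator
          (fun p => w p.1 * ENNReal.ofReal (C * sk κ (p.2 - p.1))) := by
      funext p
      by_cases h : p.1 < p.2
      · rw [indicator_of_mem (show p.1 ∈ Iio p.2 from h),
          indicator_of_mem (show p ∈ {p : ℝ × ℝ | p.1 < p.2} from h)]
      · rw [indicator_of_notMem (show p.1 ∉ Iio p.2 from h),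
          indicator_of_notMem (show p ∉ {p : ℝ × ℝ | p.1 < p.2} from h)]
    rw [h2]
    refine Measurable.indicator ?_ (measurableSet_lt measurable_fst measurable_snd)
    exact (hw.comp measurable_fst).mul
      (((measurable_sk κ).comp (measurable_snd.sub measurable_fst)).const_mul C).ennreal_ofReal
  rw [lintegral_lintegral_swap]
  · refine lintegral_congr fun s => ?_
    rw [lintegral_mul_const]
    exact hm.comp (measurable_id.prodMk measurable_const)
  · exact (hm.mul ((hX.indicator measurableSet_Iic).comp measurable_snd)).aemeasurable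

theorem absorb_half {Y A : ℝ≥0∞} (hY : Y ≠ ∞) (h : Y ≤ A + ENNReal.ofReal (1 / 2) * Y) :
    Y ≤ 2 * A := by
  by_cases hA : A = ∞
  · rw [hA, ENNReal.mul_top (by norm_num)]; exact le_top
  have h0 : (ENNReal.ofReal (1 / 2) * Y).toReal = 1 / 2 * Y.toReal := by
    rw [ENNReal.toReal_mul, ENNReal.toReal_ofReal (by norm_num)]
  have h1 : Y.toReal ≤ A.toReal + 1 / 2 * Y.toReal := by
    have h2 := (ENNReal.toReal_le_toReal hY (ENNReal.add_ne_top.2
      ⟨hA, ENNReal.mul_ne_top ENNReal.ofReal_ne_top hY⟩)).2 h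
    rw [ENNReal.toReal_add hA (ENNReal.mul_ne_top ENNReal.ofReal_ne_top hY), h0] at h2
    exact h2
  have h3 : Y.toReal ≤ 2 * A.toReal := by linarith
  rw [← ENNReal.toReal_le_toReal hY (ENNReal.mul_ne_top (by norm_num) hA), ENNReal.toReal_mul]
  simpa using h3

/-- **`L¹` backward Volterra inequality**: the source term is only integrated over the birth time. -/
theorem backward_volterra_L1 {X S : ℝ → ℝ≥0∞} (hX : Measurable X) (hS : Measurable S)
    {κ C t' μ : ℝ} (hκ : 0 < κ) (hC : 0 ≤ C) (hμ : 0 < μ) (hsmall : C * skI κ μ ≤ 1 / 2)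
    (hfin : ∫⁻ τ in Icc 0 t', X τ ≠ ∞)
    (hrec : ∀ᵐ τ ∂(volume.restrict (Icc (0:ℝ) t')), X τ ≤ S τ +
      ∫⁻ s in Ioc τ t', ENNReal.ofReal (C * sk κ (s - τ)) * X s) :
    ∫⁻ τ in Icc 0 t', X τ ≤ 2 * (ENNReal.ofReal (Real.exp (μ * t')) * ∫⁻ τ in Icc 0 t', S τ) := by
  set w : ℝ → ℝ≥0∞ := fun τ => ENNReal.ofReal (Real.exp (μ * τ)) with hw
  have hwm : Measurable w := by rw [hw]; fun_prop
  set Y : ℝ≥0∞ := ∫⁻ τ in Icc 0 t', w τ * X τ with hY
  have hwle : ∀ τ ∈ Icc 0 t', w τ ≤ ENNReal.ofReal (Real.exp (μ * t')) := fun τ hτ =>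
    ENNReal.ofReal_le_ofReal (Real.exp_le_exp.2 (mul_le_mul_of_nonneg_left hτ.2 hμ.le))
  have hYfin : Y ≠ ∞ := by
    refine ne_top_of_le_ne_top (ENNReal.mul_ne_top (ENNReal.ofReal_ne_top
      (r := Real.exp (μ * t'))) hfin) ?_
    rw [← lintegral_const_mul' _ _ ENNReal.ofReal_ne_top]
    exact setLIntegral_mono' measurableSet_Icc fun τ hτ => mul_le_mul' (hwle τ hτ) le_rfl
  have hXY : ∫⁻ τ in Icc 0 t', X τ ≤ Y := by
    refine setLIntegral_mono' measurableSet_Icc fun τ hτ => ?_
    calc X τ = 1 * X τ := (one_mul _).symm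
      _ ≤ w τ * X τ := by
          refine mul_le_mul' ?_ le_rfl
          rw [hw, ← ENNReal.ofReal_one]
          exact ENNReal.ofReal_le_ofReal (Real.one_le_exp (mul_nonneg hμ.le hτ.1))
  have hker : ∀ s ∈ Icc 0 t', ∫⁻ τ in Icc 0 t',
      (Iio s).indicator (fun τ => w τ * ENNReal.ofReal (C * sk κ (s - τ))) τ ≤
        ENNReal.ofReal (1 / 2) * w s := by
    intro s hs
    calc ∫⁻ τ in Icc 0 t', (Iio s).indicator
          (fun τ => w τ * ENNReal.ofReal (C * sk κ (s - τ))) τ
        ≤ ∫⁻ τ, (Iio s).indicator (fun τ => w τ * ENNReal.ofReal (C * sk κ (s - τ))) τ :=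
          lintegral_mono' Measure.restrict_le_self le_rfl
      _ = ∫⁻ u, (Ioi (0:ℝ)).indicator (fun u => ENNReal.ofReal (sk κ u * Real.exp (-(μ * u)))) u *
            (ENNReal.ofReal C * w s) := by
          rw [← lintegral_sub_left_eq_self (fun u => (Ioi (0:ℝ)).indicator
            (fun u => ENNReal.ofReal (sk κ u * Real.exp (-(μ * u)))) u * (ENNReal.ofReal C * w s)) s]
          refine lintegral_congr fun τ => ?_
          by_cases h : τ < s
          · rw [indicator_of_mem (show τ ∈ Iio s from h),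
              indicator_of_mem (show s - τ ∈ Ioi (0:ℝ) from sub_pos.2 h), hw]
            simp only
            have e1 : Real.exp (μ * τ) = Real.exp (-(μ * (s - τ))) * Real.exp (μ * s) := by
              rw [← Real.exp_add]; congr 1; ring
            rw [e1, ENNReal.ofReal_mul hC, ENNReal.ofReal_mul (sk_nonneg _ _),
              ENNReal.ofReal_mul (Real.exp_pos _).le]
            ring
          · rw [indicator_of_notMem (show τ ∉ Iio s from h),
              indicator_of_notMem (show s - τ ∉ Ioi (0:ℝ) from fun h' => h (sub_pos.1 h')),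
              zero_mul]
      _ = ENNReal.ofReal (skI κ μ) * (ENNReal.ofReal C * w s) := by
          rw [lintegral_mul_const' _ _ (ENNReal.mul_ne_top ENNReal.ofReal_ne_top
            ENNReal.ofReal_ne_top), lintegral_indicator measurableSet_Ioi, lintegral_sk hκ hμ]
      _ = ENNReal.ofReal (C * skI κ μ) * w s := by rw [ENNReal.ofReal_mul hC]; ring
      _ ≤ _ := mul_le_mul' (ENNReal.ofReal_le_ofReal hsmall) le_rfl
  have hmain : Y ≤ (ENNReal.ofReal (Real.exp (μ * t')) * ∫⁻ τ in Icc 0 t', S τ) +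
      ENNReal.ofReal (1 / 2) * Y := by
    calc Y ≤ ∫⁻ τ in Icc 0 t', (w τ * S τ + w τ *
          ∫⁻ s in Ioc τ t', ENNReal.ofReal (C * sk κ (s - τ)) * X s) := by
          refine lintegral_mono_ae ?_
          filter_upwards [hrec] with τ hτ
          rw [← mul_add]
          exact mul_le_mul' le_rfl hτ
      _ = (∫⁻ τ in Icc 0 t', w τ * S τ) + ∫⁻ τ in Icc 0 t', w τ *
          ∫⁻ s in Ioc τ t', ENNReal.ofReal (C * sk κ (s - τ)) * X s :=
          lintegral_add_left (hwm.mul hS) _
      _ ≤ _ := by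
          refine add_le_add ?_ ?_
          · rw [← lintegral_const_mul' _ _ ENNReal.ofReal_ne_top]
            exact setLIntegral_mono' measurableSet_Icc fun τ hτ => mul_le_mul' (hwle τ hτ) le_rfl
          · rw [volterra_swap hX hwm measurableSet_Icc, hY,
              ← lintegral_const_mul' _ _ ENNReal.ofReal_ne_top,
              ← lintegral_indicator measurableSet_Icc]
            refine lintegral_mono fun s => ?_
            by_cases h1 : s ≤ t'
            · rw [indicator_of_mem (show s ∈ Iic t' from h1)]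
              by_cases h0 : 0 ≤ s
              · rw [indicator_of_mem (show s ∈ Icc 0 t' from ⟨h0, h1⟩), ← mul_assoc]
                exact mul_le_mul' (hker s ⟨h0, h1⟩) le_rfl
              · have h2 : ∫⁻ τ in Icc 0 t', (Iio s).indicator
                    (fun τ => w τ * ENNReal.ofReal (C * sk κ (s - τ))) τ = 0 := by
                  rw [← lintegral_indicator measurableSet_Icc, ← lintegral_zero (μ := (volume : Measure ℝ))]
                  refine lintegral_congr fun τ => ?_
                  by_cases h3 : τ ∈ Icc 0 t'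
                  · rw [indicator_of_mem h3, indicator_of_notMem
                      (fun h4 : τ ∈ Iio s => h0 (h3.1.trans h4.le))]
                  · rw [indicator_of_notMem h3]
                rw [h2, zero_mul]; exact zero_le
            · rw [indicator_of_notMem (show s ∉ Iic t' from h1), mul_zero]; exact zero_le
  exact hXY.trans (absorb_half hYfin hmain)

theorem lintegral_rpow_short {l : ℝ} (hl : 0 ≤ l) :
    ∫⁻ u in Ioc 0 l, ENNReal.ofReal (1 / Real.sqrt u) = ENNReal.ofReal (2 * Real.sqrt l) := by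
  have h0 : ∀ u ∈ Ioc 0 l, 1 / Real.sqrt u = u ^ (-(1 / 2) : ℝ) := by
    intro u hu
    rw [Real.rpow_neg hu.1.le, ← Real.sqrt_eq_rpow, one_div]
  have hI : IntegrableOn (fun u : ℝ => u ^ (-(1 / 2) : ℝ)) (Ioc 0 l) := by
    have := intervalIntegral.intervalIntegrable_rpow' (a := 0) (b := l)
      (r := (-(1 / 2) : ℝ)) (by norm_num)
    exact (intervalIntegrable_iff_integrableOn_Ioc_of_le hl).1 this
  have h1 : ∫ u in Ioc 0 l, u ^ (-(1 / 2) : ℝ) = 2 * Real.sqrt l := by
    rw [← intervalIntegral.integral_of_le hl, integral_rpow (Or.inl (by norm_num))]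
    rw [show (-(1 / 2) : ℝ) + 1 = 1 / 2 by norm_num, Real.zero_rpow (by norm_num),
      ← Real.sqrt_eq_rpow]
    ring
  rw [← h1, ofReal_integral_eq_lintegral_ofReal hI]
  · exact setLIntegral_congr_fun measurableSet_Ioc fun u hu => by rw [h0 u hu]
  · refine (ae_restrict_iff' measurableSet_Ioc).2 (Filter.Eventually.of_forall fun u hu => ?_)
    exact Real.rpow_nonneg hu.1.le _

/-- kernel mass over a short interval of birth times -/
theorem sk_short {κ a b s : ℝ} (hκ : 0 < κ) (hab : a < b) :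
    ∫⁻ τ in Icc a b, (Iio s).indicator (fun τ => ENNReal.ofReal (sk κ (s - τ))) τ ≤
      ENNReal.ofReal ((b - a) + 3 * (Real.sqrt κ)⁻¹ * Real.sqrt (b - a)) := by
  set l := b - a with hl
  have hl0 : 0 < l := by rw [hl]; linarith
  have hsl : 0 < Real.sqrt l := Real.sqrt_pos.2 hl0
  have hsκ : 0 < Real.sqrt κ := Real.sqrt_pos.2 hκ
  have hpt : ∀ τ : ℝ, (Iio s).indicator (fun τ => ENNReal.ofReal (sk κ (s - τ))) τ ≤
      ENNReal.ofReal (1 + (Real.sqrt κ)⁻¹ * (Real.sqrt l)⁻¹) +
        ENNReal.ofReal (Real.sqrt κ)⁻¹ *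
          (Ioc 0 l).indicator (fun u => ENNReal.ofReal (1 / Real.sqrt u)) (s - τ) := by
    intro τ
    by_cases h : τ < s
    · rw [indicator_of_mem (show τ ∈ Iio s from h)]
      have hu : 0 < s - τ := sub_pos.2 h
      have e : sk κ (s - τ) = 1 + (Real.sqrt κ)⁻¹ * (Real.sqrt (s - τ))⁻¹ := by
        unfold sk; rw [Real.sqrt_mul hκ.le, one_div, mul_inv]
      by_cases h2 : s - τ ≤ l
      · rw [indicator_of_mem (show s - τ ∈ Ioc 0 l from ⟨hu, h2⟩),
          ← ENNReal.ofReal_mul (by positivity), ← ENNReal.ofReal_add (by positivity)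
            (by positivity)]
        refine ENNReal.ofReal_le_ofReal ?_
        rw [e, one_div]
        have : 0 ≤ (Real.sqrt κ)⁻¹ * (Real.sqrt l)⁻¹ := by positivity
        linarith
      · refine le_add_right (ENNReal.ofReal_le_ofReal ?_)
        rw [e]
        have h3 : Real.sqrt l ≤ Real.sqrt (s - τ) := Real.sqrt_le_sqrt (not_le.1 h2).le
        have h4 : (Real.sqrt (s - τ))⁻¹ ≤ (Real.sqrt l)⁻¹ := inv_anti₀ hsl h3
        have h5 : (Real.sqrt κ)⁻¹ * (Real.sqrt (s - τ))⁻¹ ≤ (Real.sqrt κ)⁻¹ * (Real.sqrt l)⁻¹ :=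
          mul_le_mul_of_nonneg_left h4 (by positivity)
        linarith
    · rw [indicator_of_notMem (show τ ∉ Iio s from h)]; exact zero_le
  calc ∫⁻ τ in Icc a b, (Iio s).indicator (fun τ => ENNReal.ofReal (sk κ (s - τ))) τ
      ≤ ∫⁻ τ in Icc a b, (ENNReal.ofReal (1 + (Real.sqrt κ)⁻¹ * (Real.sqrt l)⁻¹) +
        ENNReal.ofReal (Real.sqrt κ)⁻¹ *
          (Ioc 0 l).indicator (fun u => ENNReal.ofReal (1 / Real.sqrt u)) (s - τ)) :=
        lintegral_mono hpt
    _ = ENNReal.ofReal (1 + (Real.sqrt κ)⁻¹ * (Real.sqrt l)⁻¹) * volume (Icc a b) +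
        ENNReal.ofReal (Real.sqrt κ)⁻¹ * ∫⁻ τ in Icc a b,
          (Ioc 0 l).indicator (fun u => ENNReal.ofReal (1 / Real.sqrt u)) (s - τ) := by
        rw [lintegral_add_left measurable_const, setLIntegral_const,
          lintegral_const_mul' _ _ ENNReal.ofReal_ne_top]
    _ ≤ ENNReal.ofReal (1 + (Real.sqrt κ)⁻¹ * (Real.sqrt l)⁻¹) * ENNReal.ofReal l +
        ENNReal.ofReal (Real.sqrt κ)⁻¹ * ENNReal.ofReal (2 * Real.sqrt l) := by
        rw [Real.volume_Icc]
        refine add_le_add le_rfl (mul_le_mul' le_rfl ?_)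
        refine (lintegral_mono' Measure.restrict_le_self le_rfl).trans ?_
        rw [lintegral_sub_left_eq_self
          (fun u => (Ioc 0 l).indicator (fun u => ENNReal.ofReal (1 / Real.sqrt u)) u) s,
          lintegral_indicator measurableSet_Ioc, lintegral_rpow_short hl0.le]
    _ = _ := by
        rw [← ENNReal.ofReal_mul (by positivity), ← ENNReal.ofReal_mul (by positivity),
          ← ENNReal.ofReal_add (by positivity) (by positivity)]
        congr 1
        have h6 : (Real.sqrt l)⁻¹ * l = Real.sqrt l := by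
          nth_rewrite 2 [← Real.mul_self_sqrt hl0.le]
          field_simp
        have : (1 + (Real.sqrt κ)⁻¹ * (Real.sqrt l)⁻¹) * l + (Real.sqrt κ)⁻¹ * (2 * Real.sqrt l) =
            l + (Real.sqrt κ)⁻¹ * ((Real.sqrt l)⁻¹ * l) + 2 * (Real.sqrt κ)⁻¹ * Real.sqrt l := by
          ring
        rw [this, h6]; ring

/-- **Young lines**: touched mass of lines born in a short interval of times. -/
theorem young {X S : ℝ → ℝ≥0∞} (hX : Measurable X) (hS : Measurable S)
    {κ C t' a b : ℝ} (hκ : 0 < κ) (hC : 0 ≤ C) (ha : 0 ≤ a) (hab : a < b) (hb : b ≤ t')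
    (hrec : ∀ᵐ τ ∂(volume.restrict (Icc a b)), X τ ≤ S τ +
      ∫⁻ s in Ioc τ t', ENNReal.ofReal (C * sk κ (s - τ)) * X s) :
    ∫⁻ τ in Icc a b, X τ ≤ (∫⁻ τ in Icc a b, S τ) +
      ENNReal.ofReal (C * ((b - a) + 3 * (Real.sqrt κ)⁻¹ * Real.sqrt (b - a))) *
        ∫⁻ s in Icc 0 t', X s := by
  calc ∫⁻ τ in Icc a b, X τ ≤ ∫⁻ τ in Icc a b, (S τ + 1 *
        ∫⁻ s in Ioc τ t', ENNReal.ofReal (C * sk κ (s - τ)) * X s) := by
        refine lintegral_mono_ae ?_
        filter_upwards [hrec] with τ hτ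
        rwa [one_mul]
    _ = (∫⁻ τ in Icc a b, S τ) + ∫⁻ τ in Icc a b, 1 *
        ∫⁻ s in Ioc τ t', ENNReal.ofReal (C * sk κ (s - τ)) * X s := lintegral_add_left hS _
    _ ≤ _ := by
        refine add_le_add le_rfl ?_
        rw [volterra_swap hX (w := fun _ => 1) measurable_const measurableSet_Icc,
          ← lintegral_const_mul' _ _ ENNReal.ofReal_ne_top,
          ← lintegral_indicator measurableSet_Icc]
        refine lintegral_mono fun s => ?_
        by_cases h1 : s ≤ t'
        · rw [indicator_of_mem (show s ∈ Iic t' from h1)]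
          by_cases h0 : 0 ≤ s
          · rw [indicator_of_mem (show s ∈ Icc 0 t' from ⟨h0, h1⟩)]
            refine mul_le_mul' ?_ le_rfl
            have h2 : ∀ τ : ℝ, (Iio s).indicator
                (fun τ => 1 * ENNReal.ofReal (C * sk κ (s - τ))) τ =
                ENNReal.ofReal C * (Iio s).indicator (fun τ => ENNReal.ofReal (sk κ (s - τ))) τ := by
              intro τ
              by_cases h3 : τ < s
              · rw [indicator_of_mem (show τ ∈ Iio s from h3),
                  indicator_of_mem (show τ ∈ Iio s from h3), one_mul, ENNReal.ofReal_mul hC]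
              · rw [indicator_of_notMem (show τ ∉ Iio s from h3),
                  indicator_of_notMem (show τ ∉ Iio s from h3), mul_zero]
            simp only [h2]
            rw [lintegral_const_mul' _ _ ENNReal.ofReal_ne_top, ENNReal.ofReal_mul hC]
            exact mul_le_mul' le_rfl (sk_short hκ hab)
          · have h2 : ∫⁻ τ in Icc a b, (Iio s).indicator
                (fun τ => 1 * ENNReal.ofReal (C * sk κ (s - τ))) τ = 0 := by
              rw [← lintegral_indicator measurableSet_Icc, ← lintegral_zero (μ := (volume : Measure ℝ))]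
              refine lintegral_congr fun τ => ?_
              by_cases h3 : τ ∈ Icc a b
              · rw [indicator_of_mem h3, indicator_of_notMem
                  (fun h4 : τ ∈ Iio s => h0 ((ha.trans h3.1).trans h4.le))]
              · rw [indicator_of_notMem h3]
            rw [h2, zero_mul]; exact zero_le
        · rw [indicator_of_notMem (show s ∉ Iic t' from h1), mul_zero]; exact zero_le

/-- Closure of the geometric weights of the marks under one contact. -/
theorem marks_conv {ρ ρ₀ : ℝ≥0∞} (hρ : ρ ≠ 0) (hρ' : ρ ≠ ∞) (y : ℕ → ℝ≥0∞) :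
    ∑' m : ℕ, ρ ^ m * ∑' k : ℕ, ρ₀ ^ k * y (m + k) ≤
      (1 - ρ₀ / ρ)⁻¹ * ∑' M : ℕ, ρ ^ M * y M := by
  have h1 : ∑' m : ℕ, ρ ^ m * ∑' k : ℕ, ρ₀ ^ k * y (m + k) =
      ∑' k : ℕ, (ρ₀ / ρ) ^ k * ∑' m : ℕ, ρ ^ (m + k) * y (m + k) := by
    simp only [← ENNReal.tsum_mul_left]
    rw [ENNReal.tsum_comm]
    refine tsum_congr fun k => tsum_congr fun m => ?_
    have h2 : (ρ₀ / ρ) ^ k * ρ ^ k = ρ₀ ^ k := by
      rw [← mul_pow, ENNReal.div_mul_cancel hρ hρ']
    rw [pow_add, ← h2]
    ring
  rw [h1, ← ENNReal.tsum_geometric, ← ENNReal.tsum_mul_right]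
  refine ENNReal.tsum_le_tsum fun k => mul_le_mul' le_rfl ?_
  exact ENNReal.tsum_comp_le_tsum_of_injective (f := fun m : ℕ => m + k)
    (fun a b h => by simpa using h) (fun M => ρ ^ M * y M)


end Crest.Agent.R122.Volt796
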