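import Crest.Agent.R122.OCout_796
import Crest.Agent.R122.Volt2_796
import Crest.Agent.R122.EDefs_602
import Crest.Agent.R122.OneCDefs_285
import Crest.Agent.R122.Q1Wgt_815

-- ▼ part R122/NS_423
section

/-!
# The NS term of Inequality 1 (row 122, section E4): sum over the marks of the one-contact flux bound

For an abstract functional `G` of marked lines and the lines `lineL'`, `lineC'`, `lineC` of a contact
(helper796), with marks `n + k`, `n + k`, `k`.
-/

set_option autoImplicit false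

open MeasureTheory Set Filter Topology
open Crest.AnalysisR.Kinetic
open Crest.Agent.R122.Boltz814 Crest.Agent.R122.Kin416 Crest.Agent.R122.Disc416
open Crest.Agent.R122.Kin796 Crest.Agent.R122.Flux663 Crest.Agent.R122.Scat818
open Crest.Agent.R122.Volt796 Crest.Agent.R122.OCout796 Crest.Agent.R122.EDefs602
open scoped ENNReal

noncomputable section

namespace Crest.Agent.R122.NS423

/-! ### Marks -/

theorem marks_add {ρ ρ₀ : ℝ≥0∞} (hρ : ρ ≠ 0) (hρ' : ρ ≠ ∞) (K : ℕ) (I : ℕ → ℝ≥0∞) :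
    ∑' n : ℕ, markW ρ K n * ∑' k : ℕ, (if 1 ≤ k ∧ n + k ≤ K then ρ₀ ^ k * I (n + k) else 0) ≤
      (1 - ρ₀ / ρ)⁻¹ * ∑' N : ℕ, markW ρ K N * I N := by
  have h := marks_conv (ρ := ρ) (ρ₀ := ρ₀) hρ hρ' (fun N => if 1 ≤ N ∧ N ≤ K then I N else 0)
  refine le_trans (ENNReal.tsum_le_tsum fun n => ?_) (h.trans (le_of_eq ?_))
  · refine mul_le_mul' ?_ (ENNReal.tsum_le_tsum fun k => ?_)
    · unfold markW
      split_ifs
      · exact le_rfl
      · exact zero_le
    · by_cases hk : 1 ≤ k ∧ n + k ≤ K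
      · rw [if_pos hk, if_pos ⟨by omega, hk.2⟩]
      · rw [if_neg hk]
        exact zero_le
  · congr 1
    refine tsum_congr fun N => ?_
    unfold markW
    split_ifs <;> simp

theorem marks_right {ρ ρ₀ : ℝ≥0∞} (h : ρ₀ ≤ ρ) (K : ℕ) (I : ℕ → ℝ≥0∞) :
    ∑' n : ℕ, markW ρ K n * ∑' k : ℕ, (if 1 ≤ k ∧ n + k ≤ K then ρ₀ ^ k * I k else 0) ≤
      (1 - ρ)⁻¹ * ∑' N : ℕ, markW ρ K N * I N := by
  have h1 : ∀ n : ℕ, ∑' k : ℕ, (if 1 ≤ k ∧ n + k ≤ K then ρ₀ ^ k * I k else 0) ≤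
      ∑' N : ℕ, markW ρ K N * I N := by
    intro n
    refine ENNReal.tsum_le_tsum fun k => ?_
    by_cases hk : 1 ≤ k ∧ n + k ≤ K
    · rw [if_pos hk]
      unfold markW
      rw [if_pos ⟨hk.1, by omega⟩]
      exact mul_le_mul' (pow_le_pow_left' h k) le_rfl
    · rw [if_neg hk]
      exact zero_le
  calc ∑' n : ℕ, markW ρ K n * ∑' k : ℕ, (if 1 ≤ k ∧ n + k ≤ K then ρ₀ ^ k * I k else 0)
      ≤ ∑' n : ℕ, ρ ^ n * ∑' N : ℕ, markW ρ K N * I N := by
        refine ENNReal.tsum_le_tsum fun n => mul_le_mul' ?_ (h1 n)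
        unfold markW
        split_ifs
        · exact le_rfl
        · exact zero_le
    _ = _ := by rw [ENNReal.tsum_mul_right, ENNReal.tsum_geometric]



/-! ### Flux -/

theorem wG_eq_gau (γ : ℝ) (v : Space3) : wG γ v = gau γ v := by
  unfold wG gau
  congr 2
  ring

variable {Φ : Space3 → ℝ} {γ₀ γ b₀ ε τ te : ℝ}

/-- Right-hand side of the NS bound. -/
def nsR (γ : ℝ) (ρ : ℝ≥0∞) (K : ℕ) (J : Set ℝ) (G : ML → ℝ≥0∞) : ℝ≥0∞ :=
  ∫⁻ s in J, ∫⁻ v : Space3, ENNReal.ofReal (1 + ‖v‖) * (wG γ v *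
    ∫⁻ y : Space3, ∑' n : ℕ, markW ρ K n * G ((s, (y, v)), n))

theorem tsum_mul_lintegral {H : ℕ → ℝ × Space3 → ℝ≥0∞} (hH : ∀ N, Measurable (H N))
    (c : ℕ → ℝ≥0∞) (J : Set ℝ) :
    ∑' N : ℕ, c N * ∫⁻ s in J, ∫⁻ v : Space3, H N (s, v) =
      ∫⁻ s in J, ∫⁻ v : Space3, ∑' N : ℕ, c N * H N (s, v) := by
  have h1 : ∀ N : ℕ, Measurable fun s : ℝ => ∫⁻ v : Space3, H N (s, v) := fun N =>
    (hH N).lintegral_prod_right'
  have h2 : ∀ (N : ℕ) (s : ℝ), Measurable fun v : Space3 => H N (s, v) := fun N s =>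
    (hH N).comp (measurable_const.prodMk measurable_id)
  calc ∑' N : ℕ, c N * ∫⁻ s in J, ∫⁻ v : Space3, H N (s, v)
      = ∑' N : ℕ, ∫⁻ s in J, c N * ∫⁻ v : Space3, H N (s, v) :=
        tsum_congr fun N => (lintegral_const_mul _ (h1 N)).symm
    _ = ∫⁻ s in J, ∑' N : ℕ, c N * ∫⁻ v : Space3, H N (s, v) :=
        (lintegral_tsum fun N => ((h1 N).const_mul _).aemeasurable).symm
    _ = _ := by
        refine lintegral_congr fun s => ?_
        rw [lintegral_tsum fun N => ((h2 N s).const_mul _).aemeasurable]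
        exact tsum_congr fun N => (lintegral_const_mul _ (h2 N s)).symm

/-- Integrand of the flux. -/
def fI (γ : ℝ) (G : ML → ℝ≥0∞) (N : ℕ) (q : ℝ × Space3) : ℝ≥0∞ :=
  ENNReal.ofReal (1 + ‖q.2‖) * (wG γ q.2 * ∫⁻ y : Space3, G ((q.1, (y, q.2)), N))

theorem measurable_wG' (γ : ℝ) : Measurable fun v : Space3 => wG γ v := by
  simp only [wG_eq_gau]
  exact measurable_gau γ

theorem measurable_inner {G : ML → ℝ≥0∞} (hG : Measurable G) (N : ℕ) :
    Measurable fun q : ℝ × Space3 => ∫⁻ y : Space3, G ((q.1, (y, q.2)), N) := by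
  refine Measurable.lintegral_prod_right' (f := fun q : (ℝ × Space3) × Space3 =>
    G ((q.1.1, (q.2, q.1.2)), N)) ?_
  exact hG.comp (f := fun q : (ℝ × Space3) × Space3 =>
    (((q.1.1, (q.2, q.1.2)), N) : ML)) (by fun_prop)

theorem measurable_fI (γ : ℝ) {G : ML → ℝ≥0∞} (hG : Measurable G) (N : ℕ) :
    Measurable (fI γ G N) := by
  unfold fI
  have h4 : Measurable fun q : ℝ × Space3 => ENNReal.ofReal (1 + ‖q.2‖) := by fun_prop
  exact h4.mul (((measurable_wG' γ).comp measurable_snd).mul (measurable_inner hG N))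

theorem fluxM_eq {G : ML → ℝ≥0∞} (hG : Measurable G) (N : ℕ) :
    fluxM γ (OCout796.lineM τ fun e => G (e, N)) =
      ∫⁻ s in Ioi τ, ∫⁻ v : Space3, fI γ G N (s, v) := by
  have hm := measurable_inner hG N
  have hs : ∀ v : Space3, Measurable fun s : ℝ => ∫⁻ y : Space3, G ((s, (y, v)), N) := fun v =>
    hm.comp (measurable_id.prodMk measurable_const)
  have h1 : Measurable (fI γ G N) := measurable_fI γ hG N
  have h2 : ∫⁻ s in Ioi τ, ∫⁻ v : Space3, fI γ G N (s, v) =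
      ∫⁻ v : Space3, ∫⁻ s in Ioi τ, fI γ G N (s, v) :=
    lintegral_lintegral_swap (f := fun (s : ℝ) (v : Space3) => fI γ G N (s, v)) h1.aemeasurable
  rw [h2]
  unfold fluxM OCout796.lineM fI
  refine lintegral_congr fun v => ?_
  simp only
  rw [lintegral_const_mul _ ((hs v).const_mul _), lintegral_const_mul _ (hs v), wG_eq_gau]

theorem sum_flux {G : ML → ℝ≥0∞} (hG : Measurable G) (ρ : ℝ≥0∞) (K : ℕ) (c : ℝ≥0∞) :
    ∑' N : ℕ, markW ρ K N * (c * fluxM γ (OCout796.lineM τ fun e => G (e, N))) =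
      c * nsR γ ρ K (Ioi τ) G := by
  have h5 : ∀ N : ℕ, markW ρ K N * (c * fluxM γ (OCout796.lineM τ fun e => G (e, N))) =
      c * (markW ρ K N * ∫⁻ s in Ioi τ, ∫⁻ v : Space3, fI γ G N (s, v)) := by
    intro N
    rw [fluxM_eq hG N]
    ring
  simp only [h5]
  rw [ENNReal.tsum_mul_left, tsum_mul_lintegral (measurable_fI γ hG)]
  congr 1
  unfold nsR fI
  refine lintegral_congr fun s => lintegral_congr fun v => ?_
  have hy : ∀ N : ℕ, Measurable fun y : Space3 => G ((s, (y, v)), N) := fun N =>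
    hG.comp (f := fun y : Space3 => (((s, (y, v)), N) : ML)) (by fun_prop)
  rw [lintegral_tsum fun N => ((hy N).const_mul _).aemeasurable, ← ENNReal.tsum_mul_left,
    ← ENNReal.tsum_mul_left]
  refine tsum_congr fun N => ?_
  rw [lintegral_const_mul _ (hy N)]
  ring

/-- Abstract form: `E` is a line of a contact with the flux bound of helper796. -/
theorem ns_add {E : ℝ → Space3 → CD → Ln}
    (hE : ∀ {F : Ln → ℝ≥0∞}, Measurable F →
      ocInt γ b₀ τ te (fun s y q => F (E s y q)) ≤ CG γ₀ * fluxM γ (OCout796.lineM τ F))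
    {ρ ρ₀ : ℝ≥0∞} (hρ : ρ ≠ 0) (hρ' : ρ ≠ ∞) (K : ℕ) {G : ML → ℝ≥0∞} (hG : Measurable G) :
    ∑' n : ℕ, markW ρ K n * ∑' k : ℕ, (if 1 ≤ k ∧ n + k ≤ K then
        ρ₀ ^ k * ocInt γ b₀ τ te (fun s y q => G (E s y q, n + k)) else 0) ≤
      (1 - ρ₀ / ρ)⁻¹ * CG γ₀ * nsR γ ρ K (Ioi τ) G := by
  refine (marks_add hρ hρ' K (fun N => ocInt γ b₀ τ te (fun s y q => G (E s y q, N)))).trans ?_
  rw [mul_assoc, ← sum_flux hG ρ K (CG γ₀)]
  refine mul_le_mul' le_rfl (ENNReal.tsum_le_tsum fun N => mul_le_mul' le_rfl ?_)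
  exact hE (F := fun e => G (e, N)) (hG.comp (measurable_id.prodMk measurable_const))

theorem ns_right {E : ℝ → Space3 → CD → Ln}
    (hE : ∀ {F : Ln → ℝ≥0∞}, Measurable F →
      ocInt γ b₀ τ te (fun s y q => F (E s y q)) ≤ CG γ₀ * fluxM γ (OCout796.lineM τ F))
    {ρ ρ₀ : ℝ≥0∞} (h : ρ₀ ≤ ρ) (K : ℕ) {G : ML → ℝ≥0∞} (hG : Measurable G) :
    ∑' n : ℕ, markW ρ K n * ∑' k : ℕ, (if 1 ≤ k ∧ n + k ≤ K then
        ρ₀ ^ k * ocInt γ b₀ τ te (fun s y q => G (E s y q, k)) else 0) ≤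
      (1 - ρ)⁻¹ * CG γ₀ * nsR γ ρ K (Ioi τ) G := by
  refine (marks_right h K (fun N => ocInt γ b₀ τ te (fun s y q => G (E s y q, N)))).trans ?_
  rw [mul_assoc, ← sum_flux hG ρ K (CG γ₀)]
  refine mul_le_mul' le_rfl (ENNReal.tsum_le_tsum fun N => mul_le_mul' le_rfl ?_)
  exact hE (F := fun e => G (e, N)) (hG.comp (measurable_id.prodMk measurable_const))

/-- Constant of the NS bound. -/
def C1 (γ₀ : ℝ) (ρ ρ₀ : ℝ≥0∞) : ℝ≥0∞ := ((1 - ρ₀ / ρ)⁻¹ + (1 - ρ)⁻¹) * CG γ₀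

theorem C1_ne_top (hγ₀ : 0 < γ₀) {ρ ρ₀ : ℝ≥0∞} (h : ρ₀ < ρ) (h1 : ρ < 1) :
    C1 γ₀ ρ ρ₀ ≠ ∞ := by
  have hρt : ρ ≠ ∞ := (h1.trans ENNReal.one_lt_top).ne
  have hρ0 : ρ ≠ 0 := (zero_le.trans_lt h).ne'
  unfold C1
  refine ENNReal.mul_ne_top (ENNReal.add_ne_top.2 ⟨?_, ?_⟩) (CG_lt_top hγ₀).ne
  · refine ENNReal.inv_ne_top.2 (tsub_pos_of_lt ?_).ne'
    rw [ENNReal.div_lt_iff (Or.inl hρ0) (Or.inl hρt), one_mul]
    exact h
  · exact ENNReal.inv_ne_top.2 (tsub_pos_of_lt h1).ne'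

section main

variable {ρ ρ₀ : ℝ≥0∞} {G : ML → ℝ≥0∞}


/-- **NS term, outgoing tagged line** (mark `n + k`). -/
theorem ns_lineL' (hΦ : AdmissiblePotential Φ) (hγ₀ : 0 < γ₀) (h : γ₀ ≤ γ) (hγb : γ ≤ b₀)
    (hε : 0 ≤ ε) (hρ : ρ₀ < ρ) (hρ1 : ρ < 1) (K : ℕ) (hG : Measurable G) :
    ∑' n : ℕ, markW ρ K n * ∑' k : ℕ, (if 1 ≤ k ∧ n + k ≤ K then
        ρ₀ ^ k * ocInt γ b₀ τ te (fun s y q => G (lineL' Φ ε s y q, n + k)) else 0) ≤
      C1 γ₀ ρ ρ₀ * nsR γ ρ K (Ioi τ) G := by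
  refine (ns_add (E := fun s y q => lineL' Φ ε s y q)
    (fun hF => oc_lineL' hΦ hγ₀ h hγb hε hF) (zero_le.trans_lt hρ).ne'
    (hρ1.trans ENNReal.one_lt_top).ne K hG).trans ?_
  refine mul_le_mul' ?_ le_rfl
  exact mul_le_mul' le_self_add le_rfl

/-- **NS term, outgoing partner** (mark `n + k`). -/
theorem ns_lineC' (hΦ : AdmissiblePotential Φ) (hγ₀ : 0 < γ₀) (h : γ₀ ≤ γ) (hγb : γ ≤ b₀)
    (hε : 0 ≤ ε) (hρ : ρ₀ < ρ) (hρ1 : ρ < 1) (K : ℕ) (hG : Measurable G) :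
    ∑' n : ℕ, markW ρ K n * ∑' k : ℕ, (if 1 ≤ k ∧ n + k ≤ K then
        ρ₀ ^ k * ocInt γ b₀ τ te (fun s y q => G (lineC' Φ ε s y q, n + k)) else 0) ≤
      C1 γ₀ ρ ρ₀ * nsR γ ρ K (Ioi τ) G := by
  refine (ns_add (E := fun s y q => lineC' Φ ε s y q)
    (fun hF => oc_lineC' hΦ hγ₀ h hγb hε hF) (zero_le.trans_lt hρ).ne'
    (hρ1.trans ENNReal.one_lt_top).ne K hG).trans ?_
  refine mul_le_mul' ?_ le_rfl
  exact mul_le_mul' le_self_add le_rfl

/-- **NS term, undeflected partner** (mark `k`). -/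
theorem ns_lineC (hΦ : AdmissiblePotential Φ) (hγ₀ : 0 < γ₀) (h : γ₀ ≤ γ) (hγb : γ ≤ b₀)
    (hε : 0 ≤ ε) (hρ : ρ₀ < ρ) (K : ℕ) (hG : Measurable G) :
    ∑' n : ℕ, markW ρ K n * ∑' k : ℕ, (if 1 ≤ k ∧ n + k ≤ K then
        ρ₀ ^ k * ocInt γ b₀ τ te (fun s y q => G (lineC Φ ε s y q, k)) else 0) ≤
      C1 γ₀ ρ ρ₀ * nsR γ ρ K (Ioi τ) G := by
  refine (ns_right (E := fun s y q => lineC Φ ε s y q)
    (fun hF => oc_lineC hΦ hγ₀ h hγb hε hF) hρ.le K hG).trans ?_
  refine mul_le_mul' ?_ le_rfl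
  exact mul_le_mul' le_add_self le_rfl

end main

end Crest.Agent.R122.NS423
end
end

-- ▼ part R122/OneC_423

/-!
# The successors of a one-contact structure (row 122, board H1): statement `OneC285.StmtNS`

* `ent_inv`, `oneLs_lineAt` : the contact data of the line `lineAt`.
* `hS_le_rel`, `unhitInd_ptube_le` : the hidden tubes are protected.
* `KN`, `th` : kernels of the successors; `th_le` : bound.
* `OS_eq`, `OS_le` : the structure integral as a quenched root integral.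
* `stmtNS` : the statement.
-/

set_option autoImplicit false
set_option linter.unusedSectionVars false

open MeasureTheory Set Filter Topology
open scoped ENNReal Classical
open Crest.AnalysisR.Kinetic
open Crest.Agent.R122.Kin796 Crest.Agent.R122.Kin796.CTree Crest.Agent.R122.Tree674
open Crest.Agent.R122.Disc416 Crest.Agent.R122.Flux663 Crest.Agent.R122.OC663
open Crest.Agent.R122.EDefs602 Crest.Agent.R122.TreeLines335 Crest.Agent.R122.OneC423
open Crest.Agent.R122.OneC285 Crest.Agent.R122.GC311 Crest.Agent.R122.QDens815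
open Crest.Agent.R122.Q1815 Crest.Agent.R122.Hid424

noncomputable section

namespace Crest.Agent.R122.OneNS423

/-! ### Contact data at `lineAt` -/

theorem ent_inv {ε : ℝ} (hε : 0 < ε) {b g : Space3} (hg : g ≠ 0) (hb : b ∈ impactDisc g) (s : ℝ) :
    entT ε (ε • entrancePoint b g - s • g, g) = s ∧
      entB ε (ε • entrancePoint b g - s • g, g) = b := by
  have hin : inner ℝ b g = 0 := hb.1
  have hg2 : ‖g‖ ^ 2 ≠ 0 := by positivity
  set c : ℝ := Real.sqrt (1 - ‖b‖ ^ 2) / ‖g‖ with hc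
  have e1 : ε • entrancePoint b g - s • g = ε • b - (ε * c + s) • g := by
    unfold entrancePoint
    rw [smul_sub, smul_smul, add_smul, ← hc]
    abel
  have e2 : tline (ε • b - (ε * c + s) • g, g) = -(ε * c + s) := by
    unfold tline
    simp only [inner_sub_left, inner_smul_left, hin, real_inner_self_eq_norm_sq, conj_trivial,
      mul_zero, zero_sub]
    field_simp
  have e3 : bline (ε • b - (ε * c + s) • g, g) = ε • b := by
    unfold bline
    rw [e2]
    simp only [neg_smul]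
    abel
  rw [e1]
  constructor
  · unfold entT
    rw [e2, e3, norm_smul, Real.norm_eq_abs, mul_pow, sq_abs]
    have e4 : ε ^ 2 - ε ^ 2 * ‖b‖ ^ 2 = ε ^ 2 * (1 - ‖b‖ ^ 2) := by ring
    rw [e4, Real.sqrt_mul (by positivity), Real.sqrt_sq hε.le]
    simp only [hc]
    ring
  · unfold entB
    rw [e3, smul_smul, inv_mul_cancel₀ hε.ne', one_smul]

theorem relL_lineAt (ε s : ℝ) (ℓ : PhasePoint) (τ : ℝ) (v b : Space3) (n : ℕ) :
    relL ℓ (lineAt ε s ℓ τ v b n).1 =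
      (ε • entrancePoint b (v - ℓ.2) - s • (v - ℓ.2), v - ℓ.2) := by
  unfold relL lineAt back
  refine Prod.ext ?_ rfl
  simp only [sub_smul, smul_sub]
  abel

variable {Φ : Space3 → ℝ} {f₀ : PhasePoint → ℝ} {f : ℝ → PhasePoint → ℝ} {β T : ℝ}

section lineAt

variable {ε : ℝ} {P : CTree} {z : PhasePoint × Par P} {s τ : ℝ} {v b : Space3} {n : ℕ}

theorem cT_lineAt (hε : 0 < ε) (hg : v - z.1.2 ≠ 0) (hb : b ∈ impactDisc (v - z.1.2)) :
    cT ε z (lineAt ε s z.1 τ v b n) = s := by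
  unfold cT
  rw [relL_lineAt]
  exact (ent_inv hε hg hb s).1

theorem cB_lineAt (hε : 0 < ε) (hg : v - z.1.2 ≠ 0) (hb : b ∈ impactDisc (v - z.1.2)) :
    cB ε z (lineAt ε s z.1 τ v b n) = b := by
  unfold cB
  rw [relL_lineAt]
  exact (ent_inv hε hg hb s).2

theorem cD_lineAt (hε : 0 < ε) (hg : v - z.1.2 ≠ 0) (hb : b ∈ impactDisc (v - z.1.2)) :
    cD ε z (lineAt ε s z.1 τ v b n) = (v, z.1.2, b) := by
  unfold cD
  rw [cB_lineAt hε hg hb]
  rfl

theorem cX_lineAt (hε : 0 < ε) (hg : v - z.1.2 ≠ 0) (hb : b ∈ impactDisc (v - z.1.2)) :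
    cX ε z (lineAt ε s z.1 τ v b n) = (onLine z.1 s).1 := by
  unfold cX
  rw [cT_lineAt hε hg hb]
  rfl

end lineAt

/-! ### Measurability of the contact data -/

section meas

variable {ε : ℝ} {P : CTree}

theorem measurable_relLz : Measurable fun q : (PhasePoint × Par P) × ML => relL q.1.1 q.2.1 :=
  measurable_relL.comp (f := fun q : (PhasePoint × Par P) × ML => (q.1.1, q.2.1))
    ((measurable_fst.comp measurable_fst).prodMk (measurable_fst.comp measurable_snd))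

theorem measurable_cT : Measurable fun q : (PhasePoint × Par P) × ML => cT ε q.1 q.2 :=
  (measurable_entT ε).comp measurable_relLz

theorem measurable_cB : Measurable fun q : (PhasePoint × Par P) × ML => cB ε q.1 q.2 :=
  (measurable_entB ε).comp measurable_relLz

theorem measurable_cD : Measurable fun q : (PhasePoint × Par P) × ML => cD ε q.1 q.2 := by
  unfold cD
  have h1 : Measurable fun q : (PhasePoint × Par P) × ML => q.2.1.2.2 := by fun_prop
  have h2 : Measurable fun q : (PhasePoint × Par P) × ML => q.1.1.2 := by fun_prop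
  exact h1.prodMk (h2.prodMk measurable_cB)

theorem measurable_cX : Measurable fun q : (PhasePoint × Par P) × ML => cX ε q.1 q.2 := by
  unfold cX
  have h1 : Measurable fun q : (PhasePoint × Par P) × ML => q.1.1.1 := by fun_prop
  have h2 : Measurable fun q : (PhasePoint × Par P) × ML => q.1.1.2 := by fun_prop
  exact h1.add (measurable_cT.smul h2)

end meas

/-! ### Hidden tubes are protected -/

theorem prot_root : ∀ (P : CTree) (T : ℝ) (p : Par P), prot P T p (root P) = T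
  | leaf, _, _ => rfl
  | node l r, T, p => by
      show prot l T p.2.1 (root l) = T
      exact prot_root l T p.2.1

theorem prot_le_rel : ∀ (P : CTree) (T : ℝ) (p : Par P) (i : Idx P), i ≠ root P →
    prot P T p i ≤ rel P p i
  | leaf, _, _, i, h => absurd (Subsingleton.elim (α := Unit) i (root leaf)) h
  | node l r, T, p, i, h => by
      rcases i with i | i
      · have hi : i ≠ root l := fun hh => h (by rw [hh]; rfl)
        show prot l T p.2.1 i ≤ if i = root l then p.1.1 else rel l p.2.1 i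
        rw [if_neg hi]
        exact prot_le_rel l T p.2.1 i hi
      · show prot r p.1.1 p.2.2 i ≤ if i = root r then p.1.1 else rel r p.2.2 i
        by_cases hi : i = root r
        · rw [if_pos hi, hi, prot_root]
        · rw [if_neg hi]
          exact prot_le_rel r p.1.1 p.2.2 i hi

theorem rel_root_lt {ε : ℝ} : ∀ {P : CTree} {T : ℝ} {v : Space3} {p : Par P}, 0 < T →
    Valid Φ ε P T v p → rel P p (root P) < T
  | leaf, _, _, _, hT, _ => hT
  | node l r, T, v, p, _, hV => by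
      show (if root l = root l then p.1.1 else rel l p.2.1 (root l)) < T
      rw [if_pos rfl]
      exact hV.2.1

theorem hS_le_rel {ε : ℝ} (hε : 0 ≤ ε) : ∀ (P : CTree) {T : ℝ} (v : Space3) (p : Par P)
    (_ : Valid Φ ε P T v p) (i : Idx P), hS Φ P v p i ≤ rel P p i
  | leaf, T, v, p, _, i => by
      show (-1 : ℝ) ≤ 0
      norm_num
  | node l r, T, v, p, hV, i => by
      have hl := hV.2.2.2.1
      have hr := hV.2.2.2.2
      have h0 : 0 < Tree674.sin Φ ε v p.1 := hV.2.2.1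
      have hs : Tree674.sin Φ ε v p.1 ≤ p.1.1 := PathFlow968.sin_le hε v p.1
      rcases i with i | i
      · show (if (preV Φ v p.1).1 = v then hS Φ l v p.2.1 else prot l p.1.1 p.2.1) i ≤
          if i = root l then p.1.1 else rel l p.2.1 i
        by_cases hi : i = root l
        · rw [if_pos hi, hi]
          split_ifs with h
          · have hl' : Valid Φ ε l (Tree674.sin Φ ε v p.1) v p.2.1 := by
              have := hV.1.2.1
              rw [h] at this hl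
              exact ⟨this, hl⟩
            exact (hS_le_rel hε l v p.2.1 hl' _).trans ((rel_root_lt h0 hl').le.trans hs)
          · rw [prot_root]
        · rw [if_neg hi]
          split_ifs with h
          · have hl' : Valid Φ ε l (Tree674.sin Φ ε v p.1) v p.2.1 := by
              have := hV.1.2.1
              rw [h] at this hl
              exact ⟨this, hl⟩
            exact hS_le_rel hε l v p.2.1 hl' i
          · exact prot_le_rel l p.1.1 p.2.1 i hi
      · show (if (preV Φ v p.1).2 = v then hS Φ r v p.2.2 else prot r p.1.1 p.2.2) i ≤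
          if i = root r then p.1.1 else rel r p.2.2 i
        by_cases hi : i = root r
        · rw [if_pos hi, hi]
          split_ifs with h
          · have hr' : Valid Φ ε r (Tree674.sin Φ ε v p.1) v p.2.2 := by
              have := hV.1.2.2
              rw [h] at this hr
              exact ⟨this, hr⟩
            exact (hS_le_rel hε r v p.2.2 hr' _).trans ((rel_root_lt h0 hr').le.trans hs)
          · rw [prot_root]
        · rw [if_neg hi]
          split_ifs with h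
          · have hr' : Valid Φ ε r (Tree674.sin Φ ε v p.1) v p.2.2 := by
              have := hV.1.2.2
              rw [h] at this hr
              exact ⟨this, hr⟩
            exact hS_le_rel hε r v p.2.2 hr' i
          · exact prot_le_rel r p.1.1 p.2.2 i hi

theorem unhitInd_ptube_le {ε : ℝ} (hε : 0 ≤ ε) {P : CTree} {T' tw : ℝ} {z : PhasePoint × Par P}
    (hV : Valid Φ ε P T' z.1.2 z.2) {m : ℕ} (w : Config m) :
    uI Φ ε tw P z w ≤ GIV566.unhitInd Φ ε (hid Φ ε P z.1 z.2) tw w := by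
  unfold uI GIV566.unhitInd
  by_cases h : GIV566.unhit Φ ε (ptube Φ ε P z) tw w
  · rw [if_pos h, if_pos]
    intro i j s hs
    exact h i j s ⟨hs.1, hs.2.trans (min_le_min_right _ (hS_le_rel hε P z.1.2 z.2 hV i))⟩
  · rw [if_neg h]
    exact zero_le

/-! ### Kernels -/

/-- Successor lines of a contact: functions of the contact time, of the position of the root and of
the contact data. -/
abbrev EL : Type := ℝ → Space3 → OCout796.CD → OCout796.Ln

/-- Kernel of a successor line at the contact time `q.1`, root `q.2`. -/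
def KN (γ' : ℝ) (E : EL) (F : OCout796.Ln → ℝ≥0∞) (q : ℝ × PhasePoint) : ℝ≥0∞ :=
  ∫⁻ v : Space3, ENNReal.ofReal ‖v - q.2.2‖ * ∫⁻ b in impactDisc (v - q.2.2),
    wG γ' v * F (E q.1 q.2.1 (v, q.2.2, b)) ∂μHE[2]

/-- Kernel with marks; `l` = root line at the contact time, with the mark of the cluster. -/
def th (γ' : ℝ) (ρ : ℝ≥0∞) (K : ℕ) (E : EL) (mk : ℕ → ℕ → ℕ) (G : ML → ℝ≥0∞) (l : ML) : ℝ≥0∞ :=
  ∑' n : ℕ, markW ρ K n * (if n + l.2 ≤ K then KN γ' E (fun e => G (e, mk n l.2)) l.1 else 0)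

section kernel

variable {γ₀ γ' : ℝ} {ρ : ℝ≥0∞} {K : ℕ} {E : EL} {mk : ℕ → ℕ → ℕ}

theorem measurable_KN {Ω : Type*} [MeasurableSpace Ω]
    (hE : Measurable fun q : ℝ × (Space3 × OCout796.CD) => E q.1 q.2.1 q.2.2)
    {F : Ω → OCout796.Ln → ℝ≥0∞} (hF : Measurable (Function.uncurry F))
    {q : Ω → ℝ × PhasePoint} (hq : Measurable q) :
    Measurable fun ω => KN γ' E (F ω) (q ω) := by
  unfold KN
  refine Measurable.lintegral_prod_right' (f := fun x : Ω × Space3 =>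
    ENNReal.ofReal ‖x.2 - (q x.1).2.2‖ * ∫⁻ b in impactDisc (x.2 - (q x.1).2.2),
      wG γ' x.2 * F x.1 (E (q x.1).1 (q x.1).2.1 (x.2, (q x.1).2.2, b)) ∂μHE[2]) ?_
  have hq1 : Measurable fun x : Ω × Space3 => (q x.1).2.2 :=
    measurable_snd.comp (measurable_snd.comp (hq.comp measurable_fst))
  refine measurable_flux_disc (α := Ω × Space3) (γ := fun x => x.2 - (q x.1).2.2)
    (measurable_snd.sub hq1)
    (f := fun x b => wG γ' x.2 * F x.1 (E (q x.1).1 (q x.1).2.1 (x.2, (q x.1).2.2, b))) ?_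
  have hqq : Measurable fun x : (Ω × Space3) × Space3 => q x.1.1 :=
    hq.comp (measurable_fst.comp measurable_fst)
  have h1 : Measurable fun x : (Ω × Space3) × Space3 => wG γ' x.1.2 :=
    (NS423.measurable_wG' γ').comp (measurable_snd.comp measurable_fst)
  have h2 : Measurable fun x : (Ω × Space3) × Space3 =>
      E (q x.1.1).1 (q x.1.1).2.1 (x.1.2, (q x.1.1).2.2, x.2) :=
    hE.comp (f := fun x : (Ω × Space3) × Space3 =>
      ((q x.1.1).1, ((q x.1.1).2.1, (x.1.2, (q x.1.1).2.2, x.2))))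
      ((measurable_fst.comp hqq).prodMk ((measurable_fst.comp (measurable_snd.comp hqq)).prodMk
        ((measurable_snd.comp measurable_fst).prodMk
          ((measurable_snd.comp (measurable_snd.comp hqq)).prodMk measurable_snd))))
  exact h1.mul (hF.comp ((measurable_fst.comp measurable_fst).prodMk h2))

theorem measurable_th {Ω : Type*} [MeasurableSpace Ω]
    (hE : Measurable fun q : ℝ × (Space3 × OCout796.CD) => E q.1 q.2.1 q.2.2)
    {G : Ω → ML → ℝ≥0∞} (hG : Measurable (Function.uncurry G))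
    {l : Ω → ML} (hl : Measurable l) :
    Measurable fun ω => th γ' ρ K E mk (G ω) (l ω) := by
  unfold th
  refine Measurable.tsum fun n => Measurable.const_mul ?_ _
  have hk : Measurable fun ω => (l ω).2 := measurable_snd.comp hl
  refine Measurable.ite (hk (MeasurableSet.of_discrete (s := {k : ℕ | n + k ≤ K}))) ?_
    measurable_const
  refine measurable_KN hE (F := fun ω e => G ω (e, mk n (l ω).2)) ?_ (measurable_fst.comp hl)
  have hmk : Measurable fun x : Ω × OCout796.Ln => mk n (l x.1).2 :=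
    (Measurable.of_discrete (f := mk n)).comp (hk.comp measurable_fst)
  exact hG.comp (measurable_fst.prodMk (measurable_snd.prodMk hmk))

/-- Constant of the crude bound of the kernels. -/
def Cs (γ₀ : ℝ) (ρ : ℝ≥0∞) : ℝ≥0∞ :=
  1 + (1 - ρ)⁻¹ * (volume (Metric.ball (0 : Plane) 1) *
    ∫⁻ v : Space3, ENNReal.ofReal (1 + ‖v‖) * wG γ₀ v)

theorem Cs_ne_zero : Cs γ₀ ρ ≠ 0 := by
  unfold Cs
  exact (lt_of_lt_of_le one_pos le_self_add).ne'

theorem Cs_ne_top (hγ₀ : 0 < γ₀) (hρ : ρ < 1) : Cs γ₀ ρ ≠ ∞ := by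
  unfold Cs
  have h1 : ∫⁻ v : Space3, ENNReal.ofReal (1 + ‖v‖) * wG γ₀ v ≠ ∞ := by
    have h := Kin416.lintegral_moment_gau_lt_top hγ₀ 1
    simp only [pow_one] at h
    simp only [NS423.wG_eq_gau]
    exact h.ne
  have h2 : volume (Metric.ball (0 : Plane) 1) ≠ ∞ := measure_ball_lt_top.ne
  exact ENNReal.add_ne_top.2 ⟨ENNReal.one_ne_top, ENNReal.mul_ne_top
    (ENNReal.inv_ne_top.2 (tsub_pos_of_lt hρ).ne') (ENNReal.mul_ne_top h2 h1)⟩

theorem KN_le (hγ : γ₀ ≤ γ') {F : OCout796.Ln → ℝ≥0∞} (hF : ∀ e, F e ≤ 1) (q : ℝ × PhasePoint) :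
    KN γ' E F q ≤ ENNReal.ofReal (1 + ‖q.2.2‖) * (volume (Metric.ball (0 : Plane) 1) *
      ∫⁻ v : Space3, ENNReal.ofReal (1 + ‖v‖) * wG γ₀ v) := by
  unfold KN
  have h1 : ∀ v : Space3, ENNReal.ofReal ‖v - q.2.2‖ * ∫⁻ b in impactDisc (v - q.2.2),
      wG γ' v * F (E q.1 q.2.1 (v, q.2.2, b)) ∂μHE[2] ≤
      (ENNReal.ofReal (1 + ‖q.2.2‖) * volume (Metric.ball (0 : Plane) 1)) *
        (ENNReal.ofReal (1 + ‖v‖) * wG γ₀ v) := by
    intro v
    rw [norm_mul_lintegral_impactDisc]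
    have h2 : ∫⁻ y in Metric.ball (0 : Plane) 1,
        wG γ' v * F (E q.1 q.2.1 (v, q.2.2, frameMap (v - q.2.2) y)) ≤
        wG γ₀ v * volume (Metric.ball (0 : Plane) 1) := by
      calc _ ≤ ∫⁻ _ in Metric.ball (0 : Plane) 1, wG γ₀ v := by
            refine lintegral_mono fun y => ?_
            calc _ ≤ wG γ₀ v * 1 := mul_le_mul' (Q1815.wG_anti hγ v) (hF _)
              _ = _ := mul_one _
        _ = _ := by rw [setLIntegral_const]
    have h3 : ENNReal.ofReal ‖v - q.2.2‖ ≤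
        ENNReal.ofReal (1 + ‖q.2.2‖) * ENNReal.ofReal (1 + ‖v‖) := by
      rw [← ENNReal.ofReal_mul (by positivity)]
      refine ENNReal.ofReal_le_ofReal ?_
      have := norm_sub_le v q.2.2
      nlinarith [norm_nonneg v, norm_nonneg q.2.2, mul_nonneg (norm_nonneg v) (norm_nonneg q.2.2)]
    calc _ ≤ (ENNReal.ofReal (1 + ‖q.2.2‖) * ENNReal.ofReal (1 + ‖v‖)) *
          (wG γ₀ v * volume (Metric.ball (0 : Plane) 1)) := mul_le_mul' h3 h2
      _ = _ := by ring
  refine (lintegral_mono h1).trans (le_of_eq ?_)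
  rw [lintegral_const_mul' _ _ (ENNReal.mul_ne_top ENNReal.ofReal_ne_top
    measure_ball_lt_top.ne), mul_assoc]

theorem th_le (hγ : γ₀ ≤ γ') {G : ML → ℝ≥0∞} (hG : ∀ l, G l ≤ 1) (l : ML) :
    th γ' ρ K E mk G l ≤ Cs γ₀ ρ * ENNReal.ofReal (1 + ‖l.1.2.2‖) := by
  unfold th
  set A : ℝ≥0∞ := volume (Metric.ball (0 : Plane) 1) *
    ∫⁻ v : Space3, ENNReal.ofReal (1 + ‖v‖) * wG γ₀ v with hA
  have h1 : ∀ n : ℕ, markW ρ K n * (if n + l.2 ≤ K then KN γ' E (fun e => G (e, mk n l.2)) l.1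
      else 0) ≤ ρ ^ n * (ENNReal.ofReal (1 + ‖l.1.2.2‖) * A) := by
    intro n
    refine mul_le_mul' ?_ ?_
    · unfold markW
      split_ifs
      · exact le_rfl
      · exact zero_le
    · split_ifs
      · exact KN_le hγ (fun e => hG _) l.1
      · exact zero_le
  refine (ENNReal.tsum_le_tsum h1).trans ?_
  rw [ENNReal.tsum_mul_right, ENNReal.tsum_geometric]
  calc (1 - ρ)⁻¹ * (ENNReal.ofReal (1 + ‖l.1.2.2‖) * A)
      = ((1 - ρ)⁻¹ * A) * ENNReal.ofReal (1 + ‖l.1.2.2‖) := by ring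
    _ ≤ _ := by
        unfold Cs
        exact mul_le_mul' le_add_self le_rfl

theorem th_eq_zero {G : ML → ℝ≥0∞} {l : ML} (h : K < l.2) : th γ' ρ K E mk G l = 0 := by
  unfold th
  rw [ENNReal.tsum_eq_zero]
  intro n
  rw [if_neg (by omega), mul_zero]

end kernel

/-! ### The inner integral -/

/-- Time integral of the kernel over the contact times allowed by the tree. -/
def R2 (Φ : Space3 → ℝ) (ε te τ γ' : ℝ) (ρ : ℝ≥0∞) (K : ℕ) (E : EL) (mk : ℕ → ℕ → ℕ) {P : CTree}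
    (z : PhasePoint × Par P) (g : ML → ℝ≥0∞) : ℝ≥0∞ :=
  ∫⁻ s in Ioc τ te, {s | s ≤ te ∧ Valid Φ ε P s z.1.2 z.2}.indicator
    (fun s => th γ' ρ K E mk g ((s, onLine z.1 s), P.leaves)) s

section inner

variable {ε te τ : ℝ} {ρ : ℝ≥0∞} {K : ℕ} {E : EL} {mk : ℕ → ℕ → ℕ} {γ : ℝ → ℝ} {P : CTree}

theorem inner_eq (hΦ : AdmissiblePotential Φ) (hε : 0 < ε) (hγ : Measurable γ) (hρ : ρ ≠ ∞)
    (hE : Measurable fun q : ℝ × (Space3 × OCout796.CD) => E q.1 q.2.1 q.2.2)
    (z : PhasePoint × Par P) {g : ML → ℝ≥0∞} (hg : Measurable g) {c : ℝ≥0∞} (hc : c ≠ ∞)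
    {L : ML → ML} (hL : ∀ l, L l = (E (cT ε z l) (cX ε z l) (cD ε z l), mk l.2 P.leaves)) :
    ∫⁻ l, {l : ML | (z, l.1) ∈ ctSet Φ ε te P}.indicator (fun l => lineD γ ρ K l *
      (smI K P l * (c * g (L l)))) l ∂(baseM (Measure.dirac τ)) =
    ENNReal.ofReal (ε ^ 2) * (c * R2 Φ ε te τ (γ τ) ρ K E mk z g) := by
  simp only [hL]
  have hzl : Measurable fun l : ML => ((z, l) : (PhasePoint × Par P) × ML) :=
    measurable_const.prodMk measurable_id
  have hH : Measurable fun l : ML => lineD γ ρ K l * (smI K P l *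
      (c * g (E (cT ε z l) (cX ε z l) (cD ε z l), mk l.2 P.leaves))) := by
    refine (EBasic602.measurable_lineD hγ).mul (Measurable.mul ?_ (Measurable.const_mul ?_ _))
    · unfold smI
      exact Measurable.ite (measurable_snd (MeasurableSet.of_discrete
        (s := {k : ℕ | k + P.leaves ≤ K}))) measurable_const measurable_const
    · refine hg.comp (Measurable.prodMk ?_ ?_)
      · exact hE.comp (f := fun l : ML => (cT ε z l, (cX ε z l, cD ε z l)))
          ((measurable_cT.comp hzl).prodMk ((measurable_cX.comp hzl).prodMk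
            (measurable_cD.comp hzl)))
      · exact (Measurable.of_discrete (f := fun n : ℕ => mk n P.leaves)).comp measurable_snd
  rw [lintegral_ct hΦ hε z (Measure.dirac τ) hH, lintegral_dirac]
  congr 1
  unfold R2
  rw [← lintegral_const_mul' _ _ hc]
  refine lintegral_congr fun s => ?_
  by_cases hs : s ∈ {s | s ≤ te ∧ Valid Φ ε P s z.1.2 z.2}
  swap
  · rw [indicator_of_notMem hs, indicator_of_notMem hs, mul_zero]
  rw [indicator_of_mem hs, indicator_of_mem hs]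
  unfold ctInt th
  rw [← ENNReal.tsum_mul_left]
  refine tsum_congr fun n => ?_
  set a : ℝ≥0∞ := c * (markW ρ K n * (if n + P.leaves ≤ K then 1 else 0)) with ha
  have hmt : markW ρ K n ≠ ∞ := by
    unfold markW
    split_ifs
    · exact ENNReal.pow_ne_top hρ
    · exact ENNReal.zero_ne_top
  have hat : a ≠ ∞ := by
    rw [ha]
    refine ENNReal.mul_ne_top hc (ENNReal.mul_ne_top hmt ?_)
    split_ifs
    · exact ENNReal.one_ne_top
    · exact ENNReal.zero_ne_top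
  have h1 : ∀ v : Space3, ENNReal.ofReal ‖v - z.1.2‖ * ∫⁻ b in impactDisc (v - z.1.2),
      lineD γ ρ K (lineAt ε s z.1 τ v b n) * (smI K P (lineAt ε s z.1 τ v b n) *
        (c * g (E (cT ε z (lineAt ε s z.1 τ v b n)) (cX ε z (lineAt ε s z.1 τ v b n))
          (cD ε z (lineAt ε s z.1 τ v b n)), mk (lineAt ε s z.1 τ v b n).2 P.leaves))) ∂μHE[2] =
      a * (ENNReal.ofReal ‖v - z.1.2‖ * ∫⁻ b in impactDisc (v - z.1.2),
        wG (γ τ) v * g (E s (onLine z.1 s).1 (v, z.1.2, b), mk n P.leaves) ∂μHE[2]) := by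
    intro v
    by_cases hv : v - z.1.2 = 0
    · simp only [hv, norm_zero, ENNReal.ofReal_zero, zero_mul, mul_zero]
    · have h2 : ∫⁻ b in impactDisc (v - z.1.2),
          lineD γ ρ K (lineAt ε s z.1 τ v b n) * (smI K P (lineAt ε s z.1 τ v b n) *
          (c * g (E (cT ε z (lineAt ε s z.1 τ v b n)) (cX ε z (lineAt ε s z.1 τ v b n))
            (cD ε z (lineAt ε s z.1 τ v b n)), mk (lineAt ε s z.1 τ v b n).2 P.leaves))) ∂μHE[2] =
          ∫⁻ b in impactDisc (v - z.1.2),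
            a * (wG (γ τ) v * g (E s (onLine z.1 s).1 (v, z.1.2, b), mk n P.leaves)) ∂μHE[2] := by
        refine setLIntegral_congr_fun (measurableSet_impactDisc _) fun b hb => ?_
        rw [cT_lineAt hε hv hb, cX_lineAt hε hv hb, cD_lineAt hε hv hb]
        show wG (γ τ) v * markW ρ K n * ((if n + P.leaves ≤ K then 1 else 0) *
          (c * g (E s (onLine z.1 s).1 (v, z.1.2, b), mk n P.leaves))) = _
        rw [ha]
        ring
      rw [h2, lintegral_const_mul' _ _ hat]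
      ring
  simp only [h1]
  rw [lintegral_const_mul' _ _ hat, ha, mul_assoc]
  congr 1
  rw [mul_assoc]
  congr 1
  split_ifs
  · rw [one_mul]
    rfl
  · rw [zero_mul]

theorem measurable_R2 (hΦ : AdmissiblePotential Φ)
    (hE : Measurable fun q : ℝ × (Space3 × OCout796.CD) => E q.1 q.2.1 q.2.2)
    {Ω : Type*} [MeasurableSpace Ω] {G : Ω → ML → ℝ≥0∞} (hG : Measurable (Function.uncurry G))
    {z : Ω → PhasePoint × Par P} (hz : Measurable z) (γ' : ℝ) :
    Measurable fun ω => R2 Φ ε te τ γ' ρ K E mk (z ω) (G ω) := by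
  unfold R2
  refine Measurable.lintegral_prod_right' (f := fun x : Ω × ℝ =>
    {s | s ≤ te ∧ Valid Φ ε P s (z x.1).1.2 (z x.1).2}.indicator
      (fun s => th γ' ρ K E mk (G x.1) ((s, onLine (z x.1).1 s), P.leaves)) x.2) ?_
  have hq : Measurable fun x : Ω × ℝ => ((x.2, z x.1) : ℝ × (PhasePoint × Par P)) :=
    measurable_snd.prodMk (hz.comp measurable_fst)
  have hl : Measurable fun x : Ω × ℝ => (((x.2, onLine (z x.1).1 x.2), P.leaves) : ML) := by
    have h1 : Measurable fun q : ℝ × (PhasePoint × Par P) =>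
        (((q.1, onLine q.2.1 q.1), P.leaves) : ML) := by
      unfold onLine
      fun_prop
    exact h1.comp hq
  have hGx : Measurable (Function.uncurry fun (x : Ω × ℝ) => G x.1) :=
    hG.comp (f := fun y : (Ω × ℝ) × ML => (y.1.1, y.2)) (by fun_prop)
  have hth := measurable_th (γ' := γ') (ρ := ρ) (K := K) (mk := mk) hE hGx hl
  exact hth.indicator (hq (measurableSet_validJ hΦ ε te P))

end inner

/-! ### The structure integral as a quenched root integral -/

/-- Normalised kernel (test function of the quenched root bound). -/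
def Th (γ₀ τ γ' : ℝ) (ρ : ℝ≥0∞) (K : ℕ) (E : EL) (mk : ℕ → ℕ → ℕ) (g : ML → ℝ≥0∞) (l : ML) :
    ℝ≥0∞ :=
  if τ < l.1.1 then (Cs γ₀ ρ * ENNReal.ofReal (1 + ‖l.1.2.2‖))⁻¹ * th γ' ρ K E mk g l else 0

theorem wt_ne_top' : ∀ (P : CTree) (v : Space3) (p : Par P), wt Φ P v p ≠ ∞
  | leaf, _, _ => ENNReal.one_ne_top
  | node l r, _, _ => ENNReal.mul_ne_top ENNReal.ofReal_ne_top
      (ENNReal.mul_ne_top (wt_ne_top' l _ _) (wt_ne_top' r _ _))

theorem gw_one_ne_top {P : CTree} {ε s : ℝ} {ℓ : PhasePoint} {p : Par P} :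
    gw Φ f₀ P (fun _ => 1) ε s ℓ p ≠ ∞ := by
  by_cases hV : Valid Φ ε P s ℓ.2 p
  · rw [gw_of_valid hV, mul_one]
    exact ENNReal.mul_ne_top (wt_ne_top' _ _ _) (fp_ne_top _ _ _ _)
  · rw [gw_of_not_valid hV]
    exact ENNReal.zero_ne_top

section os

variable {ε te T' τ tw γ₀ γ' : ℝ} {ρ : ℝ≥0∞} {K : ℕ} {E : EL} {mk : ℕ → ℕ → ℕ} {Q : EPar}

theorem measurable_Th (hE : Measurable fun q : ℝ × (Space3 × OCout796.CD) => E q.1 q.2.1 q.2.2)
    {Ω : Type*} [MeasurableSpace Ω] {G : Ω → ML → ℝ≥0∞} (hG : Measurable (Function.uncurry G))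
    {l : Ω → ML} (hl : Measurable l) :
    Measurable fun ω => Th γ₀ τ γ' ρ K E mk (G ω) (l ω) := by
  unfold Th
  refine Measurable.ite ?_ (Measurable.mul ?_ (measurable_th hE hG hl)) measurable_const
  · exact measurableSet_lt measurable_const (measurable_fst.comp (measurable_fst.comp hl))
  · refine Measurable.inv (Measurable.const_mul ?_ _)
    exact ((measurable_const.add (measurable_snd.comp (measurable_snd.comp
      (measurable_fst.comp hl))).norm)).ennreal_ofReal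

theorem Th_le (hγ₀ : 0 < γ₀) (hρ : ρ < 1) (hγ : γ₀ ≤ γ') {g : ML → ℝ≥0∞} (hg : ∀ l, g l ≤ 1)
    (l : ML) : Th γ₀ τ γ' ρ K E mk g l ≤ 1 := by
  unfold Th
  split_ifs
  · refine (mul_le_mul' le_rfl (th_le hγ hg l)).trans ?_
    rw [ENNReal.inv_mul_cancel]
    · refine mul_ne_zero Cs_ne_zero ?_
      exact (ENNReal.ofReal_pos.2 (by positivity)).ne'
    · exact ENNReal.mul_ne_top (Cs_ne_top hγ₀ hρ) ENNReal.ofReal_ne_top
  · exact zero_le

theorem OS_eq (hΦ : AdmissiblePotential Φ) (hε : 0 < ε) (hγ : Measurable Q.γ) (hρ : Q.ρ ≠ ∞)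
    (hE : Measurable fun q : ℝ × (Space3 × OCout796.CD) => E q.1 q.2.1 q.2.2)
    {G : LF} (hG : MeasLF G) {k : ∀ P : CTree, Idx P ⊕ Bool}
    (hL : ∀ (P : CTree) (z : PhasePoint × Par P) (l : ML), oneLs Φ ε P z l (k P) =
      (E (cT ε z l) (cX ε z l) (cD ε z l), mk l.2 P.leaves)) :
    OS Φ f₀ ε K Q T' (Measure.dirac τ)
      (fun P z m w l => smI K P l * (uI Φ ε Q.tw P z w * G m w (oneLs Φ ε P z l (k P)))) =
    ∑' P : CTree, ∫⁻ z : PhasePoint × Par P,
      {z : PhasePoint × Par P | Valid Φ ε P T' z.1.2 z.2}.indicator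
        (fun z => wt Φ P z.1.2 z.2 * (ToTree335.pf Φ f₀ ε P z *
          gcE f₀ ε (fun m w => uI Φ ε Q.tw P z w *
            R2 Φ ε Q.te τ (Q.γ τ) Q.ρ K E mk z (G m w)))) z := by
  unfold OS
  have hu : ∀ (P : CTree) (z : PhasePoint × Par P) (m : ℕ) (w : Config m),
      uI Φ ε Q.tw P z w ≠ ∞ := fun P z m w =>
    (lt_of_le_of_lt GIV566.unhitInd_le_one ENNReal.one_lt_top).ne
  have h1 : ∀ (P : CTree) (z : PhasePoint × Par P),
      gcE f₀ ε (fun m w => ∫⁻ l, {l : ML | (z, l.1) ∈ OneC423.ctSet Φ ε Q.te P}.indicator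
          (fun l => lineD Q.γ Q.ρ K l * (smI K P l * (uI Φ ε Q.tw P z w *
            G m w (oneLs Φ ε P z l (k P))))) l ∂(OneC423.baseM (Measure.dirac τ))) =
      ENNReal.ofReal (ε ^ 2) * gcE f₀ ε (fun m w => uI Φ ε Q.tw P z w *
            R2 Φ ε Q.te τ (Q.γ τ) Q.ρ K E mk z (G m w)) := by
    intro P z
    rw [← gcE_const_mul f₀ ε ENNReal.ofReal_ne_top]
    congr 1
    funext m w
    exact inner_eq hΦ hε hγ hρ hE z ((hG m).comp (measurable_const.prodMk measurable_id))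
      (hu P z m w) (L := fun l => oneLs Φ ε P z l (k P)) (hL P z)
  simp only [h1]
  have h2 : ∀ P : CTree, ∫⁻ z : PhasePoint × Par P,
      {z : PhasePoint × Par P | Valid Φ ε P T' z.1.2 z.2}.indicator
        (fun z => wt Φ P z.1.2 z.2 * (ToTree335.pf Φ f₀ ε P z *
          (ENNReal.ofReal (ε ^ 2) * gcE f₀ ε (fun m w => uI Φ ε Q.tw P z w *
            R2 Φ ε Q.te τ (Q.γ τ) Q.ρ K E mk z (G m w))))) z =
      ENNReal.ofReal (ε ^ 2) * ∫⁻ z : PhasePoint × Par P,
      {z : PhasePoint × Par P | Valid Φ ε P T' z.1.2 z.2}.indicator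
        (fun z => wt Φ P z.1.2 z.2 * (ToTree335.pf Φ f₀ ε P z *
          gcE f₀ ε (fun m w => uI Φ ε Q.tw P z w *
            R2 Φ ε Q.te τ (Q.γ τ) Q.ρ K E mk z (G m w)))) z := by
    intro P
    rw [← lintegral_const_mul' _ _ ENNReal.ofReal_ne_top]
    refine lintegral_congr fun z => ?_
    by_cases hz : z ∈ {z : PhasePoint × Par P | Valid Φ ε P T' z.1.2 z.2}
    · rw [indicator_of_mem hz, indicator_of_mem hz]
      ring
    · rw [indicator_of_notMem hz, indicator_of_notMem hz, mul_zero]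
  simp only [h2]
  rw [ENNReal.tsum_mul_left, ← mul_assoc, Relabel674.activity_mul hε, one_mul]

/-- the kernel in the quenched form, fixed gas and tree shape -/
theorem quench_le (hΦ : AdmissiblePotential Φ) (hf : Measurable f₀) (hε : 0 < ε)
    (hγ₀ : 0 < γ₀) (hρ : ρ < 1)
    (hE : Measurable fun q : ℝ × (Space3 × OCout796.CD) => E q.1 q.2.1 q.2.2)
    {P : CTree} {m : ℕ} (w : Config m) {g : ML → ℝ≥0∞} (hg : Measurable g) (hτ : 0 ≤ τ) :
    ∫⁻ z : PhasePoint × Par P, (gw Φ f₀ P (fun _ => 1) ε T' z.1 z.2 *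
        GIV566.unhitInd Φ ε (hid Φ ε P z.1 z.2) tw w) * R2 Φ ε te τ γ' ρ K E mk z g ≤
      Cs γ₀ ρ * ∫⁻ y : ℝ × PhasePoint, Dw Φ f₀ P (rootA P) ε tw y.1 y.2 w *
        Th γ₀ τ γ' ρ K E mk g ((y.1, onLine y.2 y.1), P.leaves)
          ∂((volume.restrict (Ioc 0 te)).prod volume) := by
  have hmark : Measurable fun y : ℝ × PhasePoint => (((y.1, onLine y.2 y.1), P.leaves) : ML) := by
    unfold onLine; fun_prop
  have hθ : Measurable fun y : ℝ × PhasePoint =>
      Th γ₀ τ γ' ρ K E mk g ((y.1, onLine y.2 y.1), P.leaves) :=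
    measurable_Th hE (G := fun _ => g) (hg.comp measurable_snd) hmark
  rw [lintegral_Dw_mul hΦ hf (measurable_rootA P) hε tw (volume.restrict (Ioc 0 te)) w hθ,
    ← lintegral_const_mul' _ _ (Cs_ne_top hγ₀ hρ)]
  -- left-hand side
  have hgu : Measurable fun z : PhasePoint × Par P => gw Φ f₀ P (fun _ => 1) ε T' z.1 z.2 *
      GIV566.unhitInd Φ ε (hid Φ ε P z.1 z.2) tw w :=
    (measurable_gw_unhit hΦ hf (φ := fun _ => 1) measurable_const hε tw T' m).comp
      (f := fun z : PhasePoint × Par P => (w, z)) measurable_prodMk_left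
  have hgt : ∀ z : PhasePoint × Par P, gw Φ f₀ P (fun _ => 1) ε T' z.1 z.2 *
      GIV566.unhitInd Φ ε (hid Φ ε P z.1 z.2) tw w ≠ ∞ := fun z =>
    ENNReal.mul_ne_top gw_one_ne_top
      (lt_of_le_of_lt GIV566.unhitInd_le_one ENNReal.one_lt_top).ne
  have hI : Measurable fun x : (PhasePoint × Par P) × ℝ =>
      {s | s ≤ te ∧ Valid Φ ε P s x.1.1.2 x.1.2}.indicator
        (fun s => th γ' ρ K E mk g ((s, onLine x.1.1 s), P.leaves)) x.2 := by
    have hq : Measurable fun x : (PhasePoint × Par P) × ℝ =>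
      ((x.2, x.1) : ℝ × (PhasePoint × Par P)) := measurable_snd.prodMk measurable_fst
    have hl : Measurable fun x : (PhasePoint × Par P) × ℝ =>
        (((x.2, onLine x.1.1 x.2), P.leaves) : ML) := by
      unfold onLine; fun_prop
    have hth := measurable_th (γ' := γ') (ρ := ρ) (K := K) (mk := mk) hE (G := fun _ => g)
      (hg.comp measurable_snd) hl
    exact hth.indicator (hq (measurableSet_validJ hΦ ε te P))
  have e1 : ∀ z : PhasePoint × Par P, (gw Φ f₀ P (fun _ => 1) ε T' z.1 z.2 *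
        GIV566.unhitInd Φ ε (hid Φ ε P z.1 z.2) tw w) * R2 Φ ε te τ γ' ρ K E mk z g =
      ∫⁻ s in Ioc τ te, (gw Φ f₀ P (fun _ => 1) ε T' z.1 z.2 *
        GIV566.unhitInd Φ ε (hid Φ ε P z.1 z.2) tw w) *
        {s | s ≤ te ∧ Valid Φ ε P s z.1.2 z.2}.indicator
          (fun s => th γ' ρ K E mk g ((s, onLine z.1 s), P.leaves)) s := by
    intro z
    unfold R2
    rw [lintegral_const_mul' _ _ (hgt z)]
  simp only [e1]
  have hswap := lintegral_lintegral_swap (μ := (volume : Measure (PhasePoint × Par P)))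
    (ν := volume.restrict (Ioc τ te))
    (f := fun (z : PhasePoint × Par P) (s : ℝ) => (gw Φ f₀ P (fun _ => 1) ε T' z.1 z.2 *
        GIV566.unhitInd Φ ε (hid Φ ε P z.1 z.2) tw w) *
        {s | s ≤ te ∧ Valid Φ ε P s z.1.2 z.2}.indicator
          (fun s => th γ' ρ K E mk g ((s, onLine z.1 s), P.leaves)) s)
    ((hgu.comp measurable_fst).mul hI).aemeasurable
  rw [hswap]
  refine (setLIntegral_mono' measurableSet_Ioc fun s hs => ?_).trans
    (lintegral_mono_set (Ioc_subset_Ioc_left hτ))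
  rw [← lintegral_const_mul' _ _ (Cs_ne_top hγ₀ hρ)]
  refine lintegral_mono fun z => ?_
  by_cases hv : s ∈ {s | s ≤ te ∧ Valid Φ ε P s z.1.2 z.2}
  swap
  · rw [indicator_of_notMem hv, mul_zero]
    exact zero_le
  rw [indicator_of_mem hv]
  have hg1 : gw Φ f₀ P (fun _ => 1) ε T' z.1 z.2 ≤ wt Φ P z.1.2 z.2 * fp Φ f₀ ε P z.1 z.2 := by
    by_cases hV : Valid Φ ε P T' z.1.2 z.2
    · rw [gw_of_valid hV, mul_one]
    · rw [gw_of_not_valid hV]
      exact zero_le
  rw [gw_of_valid (ℓ := z.1) (p := z.2) hv.2]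
  have hr0 : ENNReal.ofReal (1 + ‖z.1.2‖) ≠ 0 := (ENNReal.ofReal_pos.2 (by positivity)).ne'
  have hc0 : Cs γ₀ ρ * ENNReal.ofReal (1 + ‖z.1.2‖) ≠ 0 := mul_ne_zero Cs_ne_zero hr0
  have hct : Cs γ₀ ρ * ENNReal.ofReal (1 + ‖z.1.2‖) ≠ ∞ :=
    ENNReal.mul_ne_top (Cs_ne_top hγ₀ hρ) ENNReal.ofReal_ne_top
  have hTh : Th γ₀ τ γ' ρ K E mk g ((s, onLine z.1 s), P.leaves) =
      (Cs γ₀ ρ * ENNReal.ofReal (1 + ‖z.1.2‖))⁻¹ *
        th γ' ρ K E mk g ((s, onLine z.1 s), P.leaves) := by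
    unfold Th
    exact if_pos hs.1
  rw [hTh]
  set x := th γ' ρ K E mk g ((s, onLine z.1 s), P.leaves)
  set y := GIV566.unhitInd Φ ε (hid Φ ε P z.1 z.2) tw w
  calc gw Φ f₀ P (fun _ => 1) ε T' z.1 z.2 * y * x
      ≤ wt Φ P z.1.2 z.2 * fp Φ f₀ ε P z.1 z.2 * y * x :=
        mul_le_mul' (mul_le_mul' hg1 le_rfl) le_rfl
    _ = (wt Φ P z.1.2 z.2 * fp Φ f₀ ε P z.1 z.2 * y * x) *
          ((Cs γ₀ ρ * ENNReal.ofReal (1 + ‖z.1.2‖)) *
            (Cs γ₀ ρ * ENNReal.ofReal (1 + ‖z.1.2‖))⁻¹) := by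
        rw [ENNReal.mul_inv_cancel hc0 hct, mul_one]
    _ = Cs γ₀ ρ * (wt Φ P z.1.2 z.2 * fp Φ f₀ ε P z.1 z.2 *
          ENNReal.ofReal (1 + ‖z.1.2‖) * y *
            ((Cs γ₀ ρ * ENNReal.ofReal (1 + ‖z.1.2‖))⁻¹ * x)) := by ring
    _ = _ := rfl

/-- One tree shape: from the gas average for each tree to the quenched form. -/
theorem one_shape_le (hΦ : AdmissiblePotential Φ) (hf : Measurable f₀) (hε : 0 < ε)
    (hE : Measurable fun q : ℝ × (Space3 × OCout796.CD) => E q.1 q.2.1 q.2.2)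
    {P : CTree} {G : LF} (hG : MeasLF G) :
    ∫⁻ z : PhasePoint × Par P, {z : PhasePoint × Par P | Valid Φ ε P T' z.1.2 z.2}.indicator
        (fun z => wt Φ P z.1.2 z.2 * (ToTree335.pf Φ f₀ ε P z *
          gcE f₀ ε (fun m w => uI Φ ε tw P z w *
            R2 Φ ε te τ γ' ρ K E mk z (G m w)))) z ≤
      gcE f₀ ε (fun m w => ∫⁻ z : PhasePoint × Par P, (gw Φ f₀ P (fun _ => 1) ε T' z.1 z.2 *
        GIV566.unhitInd Φ ε (hid Φ ε P z.1 z.2) tw w) *
          R2 Φ ε te τ γ' ρ K E mk z (G m w)) := by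
  have hm : ∀ m : ℕ, Measurable (Function.uncurry fun (z : PhasePoint × Par P) (w : Config m) =>
      (gw Φ f₀ P (fun _ => 1) ε T' z.1 z.2 *
        GIV566.unhitInd Φ ε (hid Φ ε P z.1 z.2) tw w) *
          R2 Φ ε te τ γ' ρ K E mk z (G m w)) := by
    intro m
    refine Measurable.mul ?_ ?_
    · exact (measurable_gw_unhit hΦ hf (φ := fun _ => 1) measurable_const hε tw T' m).comp
        (f := fun x : (PhasePoint × Par P) × Config m => (x.2, x.1)) measurable_swap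
    · exact measurable_R2 hΦ hE (G := fun x : (PhasePoint × Par P) × Config m => G m x.2)
        ((hG m).comp (f := fun y : ((PhasePoint × Par P) × Config m) × ML => (y.1.2, y.2))
          (by fun_prop)) measurable_fst γ'
  rw [← BadHit370.lintegral_gcE hf ε volume hm]
  refine lintegral_mono fun z => ?_
  by_cases hz : z ∈ {z : PhasePoint × Par P | Valid Φ ε P T' z.1.2 z.2}
  swap
  · rw [indicator_of_notMem hz]
    exact zero_le
  rw [indicator_of_mem hz]
  have hV : Valid Φ ε P T' z.1.2 z.2 := hz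
  have h1 : gcE f₀ ε (fun m w => (gw Φ f₀ P (fun _ => 1) ε T' z.1 z.2 *
        GIV566.unhitInd Φ ε (hid Φ ε P z.1 z.2) tw w) *
          R2 Φ ε te τ γ' ρ K E mk z (G m w)) =
      gw Φ f₀ P (fun _ => 1) ε T' z.1 z.2 * gcE f₀ ε (fun m w =>
        GIV566.unhitInd Φ ε (hid Φ ε P z.1 z.2) tw w *
          R2 Φ ε te τ γ' ρ K E mk z (G m w)) := by
    rw [← gcE_const_mul f₀ ε gw_one_ne_top]
    congr 1
    funext m w
    ring
  rw [h1, gw_of_valid hV, mul_one, ← mul_assoc]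
  refine mul_le_mul' le_rfl (gcE_mono f₀ ε fun m w _ => mul_le_mul' ?_ le_rfl)
  exact unhitInd_ptube_le hε.le hV w

/-- **The structure integral of a successor is a quenched root integral.** -/
theorem OS_le (hΦ : AdmissiblePotential Φ) (hf : Measurable f₀) (hε : 0 < ε)
    (hγ₀ : 0 < γ₀) (hγ : Measurable Q.γ) (hρ : Q.ρ < 1)
    (hE : Measurable fun q : ℝ × (Space3 × OCout796.CD) => E q.1 q.2.1 q.2.2)
    {G : LF} (hG : MeasLF G) {k : ∀ P : CTree, Idx P ⊕ Bool}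
    (hL : ∀ (P : CTree) (z : PhasePoint × Par P) (l : ML), oneLs Φ ε P z l (k P) =
      (E (cT ε z l) (cX ε z l) (cD ε z l), mk l.2 P.leaves)) (hτ : 0 ≤ τ) :
    OS Φ f₀ ε K Q T' (Measure.dirac τ)
      (fun P z m w l => smI K P l * (uI Φ ε Q.tw P z w * G m w (oneLs Φ ε P z l (k P)))) ≤
    Cs γ₀ Q.ρ * gcE f₀ ε (fun m w => ∑ P ∈ GIVStep383.trees K, ∫⁻ y : ℝ × PhasePoint,
      Dw Φ f₀ P (rootA P) ε Q.tw y.1 y.2 w *
        Th γ₀ τ (Q.γ τ) Q.ρ K E mk (G m w) ((y.1, onLine y.2 y.1), P.leaves)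
          ∂((volume.restrict (Ioc 0 Q.te)).prod volume)) := by
  have hρt : Q.ρ ≠ ∞ := (hρ.trans ENNReal.one_lt_top).ne
  rw [OS_eq hΦ hε hγ hρt hE hG hL]
  have hR0 : ∀ (P : CTree), P ∉ GIVStep383.trees K → ∀ (z : PhasePoint × Par P) (m : ℕ)
      (w : Config m), R2 Φ ε Q.te τ (Q.γ τ) Q.ρ K E mk z (G m w) = 0 := by
    intro P hP z m w
    have hK : K < P.leaves := not_le.1 fun h => hP (GIVStep383.mem_trees.2 h)
    unfold R2
    refine (lintegral_congr fun s => ?_).trans lintegral_zero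
    by_cases hs : s ∈ {s | s ≤ Q.te ∧ Valid Φ ε P s z.1.2 z.2}
    · rw [indicator_of_mem hs, th_eq_zero (l := ((s, onLine z.1 s), P.leaves)) hK]
    · rw [indicator_of_notMem hs]
  rw [tsum_eq_sum (s := GIVStep383.trees K)]
  swap
  · intro P hP
    refine (lintegral_congr fun z => ?_).trans lintegral_zero
    by_cases hz : z ∈ {z : PhasePoint × Par P | Valid Φ ε P T' z.1.2 z.2}
    · rw [indicator_of_mem hz]
      simp only [hR0 P hP, mul_zero]
      rw [gcE_zero, mul_zero, mul_zero]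
    · rw [indicator_of_notMem hz]
  refine (Finset.sum_le_sum fun P _ => one_shape_le hΦ hf hε hE hG).trans ?_
  have hm : ∀ P ∈ GIVStep383.trees K, ∀ m : ℕ, Measurable fun w : Config m =>
      ∫⁻ z : PhasePoint × Par P, (gw Φ f₀ P (fun _ => 1) ε T' z.1 z.2 *
        GIV566.unhitInd Φ ε (hid Φ ε P z.1 z.2) Q.tw w) *
          R2 Φ ε Q.te τ (Q.γ τ) Q.ρ K E mk z (G m w) := by
    intro P _ m
    refine Measurable.lintegral_prod_right' (f := fun x : Config m × (PhasePoint × Par P) =>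
      (gw Φ f₀ P (fun _ => 1) ε T' x.2.1 x.2.2 *
        GIV566.unhitInd Φ ε (hid Φ ε P x.2.1 x.2.2) Q.tw x.1) *
          R2 Φ ε Q.te τ (Q.γ τ) Q.ρ K E mk x.2 (G m x.1)) (Measurable.mul ?_ ?_)
    · exact measurable_gw_unhit hΦ hf (φ := fun _ => 1) measurable_const hε Q.tw T' m
    · exact measurable_R2 hΦ hE (G := fun x : Config m × (PhasePoint × Par P) => G m x.1)
        ((hG m).comp (f := fun y : (Config m × (PhasePoint × Par P)) × ML => (y.1.1, y.2))
          (by fun_prop)) measurable_snd (Q.γ τ)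
  rw [← gcE_finset_sum hf ε _ hm, ← gcE_const_mul f₀ ε (Cs_ne_top hγ₀ hρ)]
  refine gcE_mono f₀ ε fun m w _ => ?_
  rw [Finset.mul_sum]
  refine Finset.sum_le_sum fun P _ => ?_
  exact quench_le hΦ hf hε hγ₀ hρ hE w ((hG m).comp (measurable_const.prodMk measurable_id)) hτ

end os

/-! ### The test function against the measure on lines -/

section lines

variable {ε te τ γ₀ γ' b : ℝ} {ρ ρ₀ : ℝ≥0∞} {K : ℕ} {E : EL} {mk : ℕ → ℕ → ℕ}

theorem ocInt_eq (hE : Measurable fun q : ℝ × (Space3 × OCout796.CD) => E q.1 q.2.1 q.2.2)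
    {F : OCout796.Ln → ℝ≥0∞} (hF : Measurable F) :
    OCout796.ocInt γ' b τ te (fun s y q => F (E s y q)) =
      ∫⁻ s in Ioc τ te, ∫⁻ p : PhasePoint, Kin416.gau b p.2 * KN γ' E F (s, p) := by
  unfold OCout796.ocInt
  refine lintegral_congr fun s => ?_
  have hm : Measurable fun p : PhasePoint => Kin416.gau b p.2 * KN γ' E F (s, p) :=
    ((Kin416.measurable_gau b).comp measurable_snd).mul
      (measurable_KN hE (F := fun _ => F) (hF.comp measurable_snd)
        (measurable_const.prodMk measurable_id))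
  rw [show (volume : Measure PhasePoint) = (volume : Measure Space3).prod volume from rfl,
    lintegral_prod _ hm.aemeasurable]
  refine lintegral_congr fun y => lintegral_congr fun u => ?_
  unfold KN
  rw [← lintegral_const_mul' _ _ (Kin416.gau_ne_top b u)]
  refine lintegral_congr fun v => ?_
  have h1 : ∫⁻ b' in impactDisc (v - u), (Kin416.gau γ' v * Kin416.gau b u) *
      F (E s y (v, u, b')) ∂μHE[2] = Kin416.gau b u * ∫⁻ b' in impactDisc (v - u),
        wG γ' v * F (E s y (v, u, b')) ∂μHE[2] := by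
    rw [← lintegral_const_mul' _ _ (Kin416.gau_ne_top b u)]
    refine lintegral_congr fun b' => ?_
    rw [NS423.wG_eq_gau]
    ring
  rw [h1]
  ring

theorem lintegral_double {J : Set ℝ} {h : ℕ → ℕ → ℝ × PhasePoint → ℝ≥0∞}
    (hh : ∀ n k, Measurable (h n k)) (c : ℕ → ℕ → ℝ≥0∞) :
    ∫⁻ s in J, ∫⁻ p : PhasePoint, ∑' n : ℕ, ∑' k : ℕ, c n k * h n k (s, p) =
      ∑' n : ℕ, ∑' k : ℕ, c n k * ∫⁻ s in J, ∫⁻ p : PhasePoint, h n k (s, p) := by
  have h1 : ∀ n k (s : ℝ), Measurable fun p : PhasePoint => h n k (s, p) := fun n k s =>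
    (hh n k).comp measurable_prodMk_left
  have h2 : ∀ n k, Measurable fun s : ℝ => ∫⁻ p : PhasePoint, h n k (s, p) := fun n k =>
    (hh n k).lintegral_prod_right'
  have e1 : ∀ s : ℝ, ∫⁻ p : PhasePoint, ∑' n : ℕ, ∑' k : ℕ, c n k * h n k (s, p) =
      ∑' n : ℕ, ∑' k : ℕ, c n k * ∫⁻ p : PhasePoint, h n k (s, p) := by
    intro s
    rw [lintegral_tsum fun n => (Measurable.tsum fun k =>
      (h1 n k s).const_mul (c n k)).aemeasurable]
    refine tsum_congr fun n => ?_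
    rw [lintegral_tsum fun k => ((h1 n k s).const_mul (c n k)).aemeasurable]
    exact tsum_congr fun k => lintegral_const_mul _ (h1 n k s)
  simp only [e1]
  rw [lintegral_tsum fun n => (Measurable.tsum fun k =>
    (h2 n k).const_mul (c n k)).aemeasurable]
  refine tsum_congr fun n => ?_
  rw [lintegral_tsum fun k => ((h2 n k).const_mul (c n k)).aemeasurable]
  exact tsum_congr fun k => lintegral_const_mul _ (h2 n k)

/-- Sum over the marks of the kernel, as contact integrals. -/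
theorem sum_th (hE : Measurable fun q : ℝ × (Space3 × OCout796.CD) => E q.1 q.2.1 q.2.2)
    {g : ML → ℝ≥0∞} (hg : Measurable g) :
    ∫⁻ s in Ioc τ te, ∫⁻ p : PhasePoint, wG b p.2 *
        ∑' k : ℕ, markW ρ₀ K k * th γ' ρ K E mk g ((s, p), k) =
      ∑' n : ℕ, markW ρ K n * ∑' k : ℕ, (if 1 ≤ k ∧ n + k ≤ K then ρ₀ ^ k *
        OCout796.ocInt γ' b τ te (fun s y q => g (E s y q, mk n k)) else 0) := by
  have hgk : ∀ n k : ℕ, Measurable fun e : OCout796.Ln => g (e, mk n k) := fun n k =>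
    hg.comp (measurable_id.prodMk measurable_const)
  set h : ℕ → ℕ → ℝ × PhasePoint → ℝ≥0∞ := fun n k q =>
    Kin416.gau b q.2.2 * KN γ' E (fun e => g (e, mk n k)) q with hh
  have hhm : ∀ n k, Measurable (h n k) := fun n k =>
    ((Kin416.measurable_gau b).comp (measurable_snd.comp measurable_snd)).mul
      (measurable_KN hE (F := fun _ e => g (e, mk n k)) ((hgk n k).comp measurable_snd)
        measurable_id)
  set c : ℕ → ℕ → ℝ≥0∞ := fun n k =>
    markW ρ K n * (if 1 ≤ k ∧ n + k ≤ K then ρ₀ ^ k else 0) with hc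
  have e1 : ∀ (s : ℝ) (p : PhasePoint), wG b p.2 *
        ∑' k : ℕ, markW ρ₀ K k * th γ' ρ K E mk g ((s, p), k) =
      ∑' n : ℕ, ∑' k : ℕ, c n k * h n k (s, p) := by
    intro s p
    have e2 : ∀ k : ℕ, markW ρ₀ K k * th γ' ρ K E mk g ((s, p), k) =
        ∑' n : ℕ, markW ρ₀ K k * (markW ρ K n * (if n + k ≤ K then
          KN γ' E (fun e => g (e, mk n k)) (s, p) else 0)) := by
      intro k
      unfold th
      rw [ENNReal.tsum_mul_left]
    simp only [e2]
    rw [ENNReal.tsum_comm, ← ENNReal.tsum_mul_left]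
    refine tsum_congr fun n => ?_
    rw [← ENNReal.tsum_mul_left]
    refine tsum_congr fun k => ?_
    simp only [hc, hh, NS423.wG_eq_gau]
    by_cases h1 : 1 ≤ k ∧ n + k ≤ K
    · rw [if_pos h1, if_pos h1.2]
      have : markW ρ₀ K k = ρ₀ ^ k := by
        unfold markW
        rw [if_pos ⟨h1.1, by omega⟩]
      rw [this]
      ring
    · rw [if_neg h1, mul_zero, zero_mul]
      by_cases h2 : n + k ≤ K
      · have : markW ρ₀ K k = 0 := by
          unfold markW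
          rw [if_neg fun hh => h1 ⟨hh.1, h2⟩]
        rw [this, zero_mul, mul_zero]
      · rw [if_neg h2, mul_zero, mul_zero, mul_zero]
  simp only [e1]
  rw [lintegral_double hhm c]
  refine tsum_congr fun n => ?_
  rw [← ENNReal.tsum_mul_left]
  refine tsum_congr fun k => ?_
  have e3 : ∫⁻ s in Ioc τ te, ∫⁻ p : PhasePoint, h n k (s, p) =
      OCout796.ocInt γ' b τ te (fun s y q => g (E s y q, mk n k)) :=
    (ocInt_eq hE (F := fun e => g (e, mk n k)) (hgk n k)).symm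
  rw [e3]
  simp only [hc]
  split_ifs
  · ring
  · rw [mul_zero, zero_mul]

/-- The test function against the measure on lines. -/
theorem lintegral_Th_le (hE : Measurable fun q : ℝ × (Space3 × OCout796.CD) => E q.1 q.2.1 q.2.2)
    {g : ML → ℝ≥0∞} (hg : Measurable g) :
    ∫⁻ l, Th γ₀ τ γ' ρ K E mk g l ∂(EDefs602.lineM (fun _ => b) ρ₀ K te) ≤
      (Cs γ₀ ρ)⁻¹ * ∑' n : ℕ, markW ρ K n * ∑' k : ℕ, (if 1 ≤ k ∧ n + k ≤ K then ρ₀ ^ k *
        OCout796.ocInt γ' b τ te (fun s y q => g (E s y q, mk n k)) else 0) := by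
  have hTm : Measurable fun l : ML => Th γ₀ τ γ' ρ K E mk g l :=
    measurable_Th hE (G := fun _ => g) (hg.comp measurable_snd) measurable_id
  have hct : (Cs γ₀ ρ)⁻¹ ≠ ∞ := ENNReal.inv_ne_top.2 Cs_ne_zero
  rw [EBasic602.lintegral_lineM measurable_const hTm, ← sum_th hE hg,
    ← lintegral_const_mul' _ _ hct]
  have hA : ∀ s : ℝ, ∫⁻ v : Space3, wG b v * ∫⁻ y : Space3,
      ∑' n : ℕ, markW ρ₀ K n * Th γ₀ τ γ' ρ K E mk g ((s, (y, v)), n) ≤
      (Ioi τ).indicator (fun s => (Cs γ₀ ρ)⁻¹ * ∫⁻ p : PhasePoint, wG b p.2 *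
        ∑' k : ℕ, markW ρ₀ K k * th γ' ρ K E mk g ((s, p), k)) s := by
    intro s
    by_cases hs : s ∈ Ioi τ
    · rw [indicator_of_mem hs]
      have hth : ∀ k : ℕ, Measurable fun p : PhasePoint => th γ' ρ K E mk g ((s, p), k) :=
        fun k => measurable_th hE (G := fun _ => g) (hg.comp measurable_snd)
          ((measurable_const.prodMk measurable_id).prodMk measurable_const)
      have hm : Measurable fun p : PhasePoint => wG b p.2 *
          ∑' k : ℕ, markW ρ₀ K k * th γ' ρ K E mk g ((s, p), k) :=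
        ((NS423.measurable_wG' b).comp measurable_snd).mul
          (Measurable.tsum fun k => (hth k).const_mul _)
      rw [show (volume : Measure PhasePoint) = (volume : Measure Space3).prod volume from rfl,
        lintegral_prod_symm _ hm.aemeasurable, ← lintegral_const_mul' _ _ hct]
      refine lintegral_mono fun v => ?_
      have hmy : Measurable fun y : Space3 =>
          ∑' k : ℕ, markW ρ₀ K k * th γ' ρ K E mk g ((s, (y, v)), k) :=
        Measurable.tsum fun k => ((hth k).comp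
          (measurable_id.prodMk measurable_const)).const_mul _
      simp only
      rw [lintegral_const_mul _ hmy, mul_left_comm]
      refine mul_le_mul' le_rfl ?_
      rw [← lintegral_const_mul' _ _ hct]
      refine lintegral_mono fun y => ?_
      simp only
      rw [← ENNReal.tsum_mul_left]
      refine ENNReal.tsum_le_tsum fun k => ?_
      have h1 : Th γ₀ τ γ' ρ K E mk g ((s, (y, v)), k) ≤
          (Cs γ₀ ρ)⁻¹ * th γ' ρ K E mk g ((s, (y, v)), k) := by
        unfold Th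
        rw [if_pos (show τ < s from hs)]
        refine mul_le_mul' (ENNReal.inv_le_inv.2 ?_) le_rfl
        have h2 : (1 : ℝ≥0∞) ≤ ENNReal.ofReal (1 + ‖v‖) := by
          rw [← ENNReal.ofReal_one]
          exact ENNReal.ofReal_le_ofReal (by linarith [norm_nonneg v])
        calc Cs γ₀ ρ = Cs γ₀ ρ * 1 := (mul_one _).symm
          _ ≤ Cs γ₀ ρ * ENNReal.ofReal (1 + ‖v‖) := mul_le_mul' le_rfl h2
      calc markW ρ₀ K k * Th γ₀ τ γ' ρ K E mk g ((s, (y, v)), k)
          ≤ markW ρ₀ K k * ((Cs γ₀ ρ)⁻¹ * th γ' ρ K E mk g ((s, (y, v)), k)) :=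
            mul_le_mul' le_rfl h1
        _ = _ := by ring
    · rw [indicator_of_notMem hs]
      have h0 : ∀ (v y : Space3) (n : ℕ), Th γ₀ τ γ' ρ K E mk g ((s, (y, v)), n) = 0 := by
        intro v y n
        unfold Th
        exact if_neg (show ¬ τ < s from hs)
      simp [h0]
  refine (lintegral_mono hA).trans ?_
  rw [setLIntegral_indicator measurableSet_Ioi]
  refine lintegral_mono_set ?_
  intro s hs
  exact ⟨hs.1, hs.2.2⟩

end lines

/-! ### The gas average of the Volterra term -/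

theorem gcE_nsR (hf : Measurable f₀) (ε : ℝ) (K : ℕ) (γ' : ℝ) (ρ : ℝ≥0∞) (J : Set ℝ) {G : LF}
    (hG : MeasLF G) :
    gcE f₀ ε (fun m w => NS423.nsR γ' ρ K J (G m w)) =
      ∫⁻ s in J, ∫⁻ v : Space3, ENNReal.ofReal (1 + ‖v‖) * (wG γ' v * XG f₀ ε K ρ G s v) := by
  unfold NS423.nsR XG
  have hy : ∀ m : ℕ, Measurable fun x : (ℝ × Config m) × Space3 => ∫⁻ y : Space3,
      ∑' n : ℕ, markW ρ K n * G m x.1.2 ((x.1.1, (y, x.2)), n) := by
    intro m
    refine Measurable.lintegral_prod_right' (f := fun x : ((ℝ × Config m) × Space3) × Space3 =>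
      ∑' n : ℕ, markW ρ K n * G m x.1.1.2 ((x.1.1.1, (x.2, x.1.2)), n)) ?_
    refine Measurable.tsum fun n => Measurable.const_mul ?_ _
    exact (hG m).comp (f := fun x : ((ℝ × Config m) × Space3) × Space3 =>
      (x.1.1.2, (((x.1.1.1, (x.2, x.1.2)), n) : ML))) (by fun_prop)
  have hc : Measurable fun v : Space3 => ENNReal.ofReal (1 + ‖v‖) := by fun_prop
  have hw := NS423.measurable_wG' γ'
  have h1 : ∀ m : ℕ, Measurable fun x : (ℝ × Config m) × Space3 =>
      ENNReal.ofReal (1 + ‖x.2‖) * (wG γ' x.2 * ∫⁻ y : Space3,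
        ∑' n : ℕ, markW ρ K n * G m x.1.2 ((x.1.1, (y, x.2)), n)) := fun m =>
    (hc.comp measurable_snd).mul ((hw.comp measurable_snd).mul (hy m))
  have h2 : ∀ m : ℕ, Measurable (Function.uncurry fun (s : ℝ) (w : Config m) =>
      ∫⁻ v : Space3, ENNReal.ofReal (1 + ‖v‖) * (wG γ' v * ∫⁻ y : Space3,
        ∑' n : ℕ, markW ρ K n * G m w ((s, (y, v)), n))) := fun m =>
    (h1 m).lintegral_prod_right'
  rw [← BadHit370.lintegral_gcE hf ε (volume.restrict J) h2]
  refine lintegral_congr fun s => ?_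
  have h3 : ∀ m : ℕ, Measurable (Function.uncurry fun (v : Space3) (w : Config m) =>
      ENNReal.ofReal (1 + ‖v‖) * (wG γ' v * ∫⁻ y : Space3,
        ∑' n : ℕ, markW ρ K n * G m w ((s, (y, v)), n))) := fun m =>
    (h1 m).comp (f := fun x : Space3 × Config m => ((s, x.2), x.1)) (by fun_prop)
  rw [← BadHit370.lintegral_gcE hf ε volume h3]
  refine lintegral_congr fun v => ?_
  rw [gcE_const_mul f₀ ε ENNReal.ofReal_ne_top, gcE_const_mul f₀ ε (by
    rw [NS423.wG_eq_gau]; exact Kin416.gau_ne_top _ _)]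

/-! ### The statement -/

section main

variable {te τ γ₀ b : ℝ} {K : ℕ} {E : EL} {mk : ℕ → ℕ → ℕ}

/-- Abstract form: one successor line `E` with marks `mk`. -/
theorem successor_le {ε T' T₀ : ℝ} (hε : 0 < ε) {Q : EPar} (X : Ctx Φ β T f₀ f T₀ Q.tw)
    (hγ₀ : 0 < γ₀) (hγ : Measurable Q.γ) (hρ : Q.ρ < 1)
    (hE : Measurable fun q : ℝ × (Space3 × OCout796.CD) => E q.1 q.2.1 q.2.2)
    {ρ₀ : ℝ≥0∞} (hτ : τ ∈ Ioc 0 Q.te) (hγτ : γ₀ ≤ Q.γ τ)
    (hNS : ∀ g : ML → ℝ≥0∞, Measurable g →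
      ∑' n : ℕ, markW Q.ρ K n * ∑' k : ℕ, (if 1 ≤ k ∧ n + k ≤ K then ρ₀ ^ k *
        OCout796.ocInt (Q.γ τ) b τ Q.te (fun s y q => g (E s y q, mk n k)) else 0) ≤
      NS423.C1 γ₀ Q.ρ ρ₀ * NS423.nsR (Q.γ τ) Q.ρ K (Ioi τ) g)
    {A d : ℝ≥0∞}
    (hroot : ∀ Θ : (n : ℕ) → Config n → ML → ℝ≥0∞, (∀ n w, Measurable (Θ n w)) →
        (∀ n w l, Θ n w l ≤ 1) →
        gcE f₀ ε (fun n w => ∑ P ∈ GIVStep383.trees K, ∫⁻ y : ℝ × PhasePoint,
          Dw Φ f₀ P (rootA P) ε Q.tw y.1 y.2 w * Θ n w ((y.1, onLine y.2 y.1), P.leaves)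
            ∂((volume.restrict (Ioc 0 Q.te)).prod volume)) ≤
        A * gcE f₀ ε (fun n w => ∫⁻ l, Θ n w l ∂EDefs602.lineM (fun _ => b) ρ₀ K Q.te) + d)
    (hC1 : NS423.C1 γ₀ Q.ρ ρ₀ ≠ ∞)
    {G : LF} (hG : MeasLF G) (hG1 : ∀ m w l, G m w l ≤ 1) {k : ∀ P : CTree, Idx P ⊕ Bool}
    (hL : ∀ (P : CTree) (z : PhasePoint × Par P) (l : ML), oneLs Φ ε P z l (k P) =
      (E (cT ε z l) (cX ε z l) (cD ε z l), mk l.2 P.leaves)) :
    OS Φ f₀ ε K Q T' (Measure.dirac τ)
      (fun P z m w l => smI K P l * (uI Φ ε Q.tw P z w * G m w (oneLs Φ ε P z l (k P)))) ≤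
    A * NS423.C1 γ₀ Q.ρ ρ₀ * (∫⁻ s in Ioi τ, ∫⁻ v : Space3, ENNReal.ofReal (1 + ‖v‖) *
      (wG (Q.γ τ) v * XG f₀ ε K Q.ρ G s v)) + Cs γ₀ Q.ρ * d := by
  have hf := X.cont.measurable
  have hCt := Cs_ne_top hγ₀ hρ (ρ := Q.ρ)
  have hCi : (Cs γ₀ Q.ρ)⁻¹ ≠ ∞ := ENNReal.inv_ne_top.2 Cs_ne_zero
  refine (OS_le X.hΦ hf hε hγ₀ hγ hρ hE hG hL hτ.1.le).trans ?_
  have h1 := hroot (fun m w => Th γ₀ τ (Q.γ τ) Q.ρ K E mk (G m w))
    (fun m w => measurable_Th hE (G := fun _ => G m w)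
      (((hG m).comp (measurable_const.prodMk measurable_id)).comp measurable_snd) measurable_id)
    (fun m w l => Th_le hγ₀ hρ hγτ (hG1 m w) l)
  refine (mul_le_mul' le_rfl h1).trans ?_
  rw [mul_add]
  refine add_le_add ?_ le_rfl
  have h2 : gcE f₀ ε (fun m w => ∫⁻ l, Th γ₀ τ (Q.γ τ) Q.ρ K E mk (G m w) l
      ∂EDefs602.lineM (fun _ => b) ρ₀ K Q.te) ≤
      ((Cs γ₀ Q.ρ)⁻¹ * NS423.C1 γ₀ Q.ρ ρ₀) *
        gcE f₀ ε (fun m w => NS423.nsR (Q.γ τ) Q.ρ K (Ioi τ) (G m w)) := by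
    rw [← gcE_const_mul f₀ ε (ENNReal.mul_ne_top hCi hC1)]
    refine gcE_mono f₀ ε fun m w _ => ?_
    have hgm : Measurable (G m w) := (hG m).comp (measurable_const.prodMk measurable_id)
    refine (lintegral_Th_le hE hgm).trans ?_
    rw [mul_assoc]
    exact mul_le_mul' le_rfl (hNS _ hgm)
  refine (mul_le_mul' le_rfl (mul_le_mul' le_rfl h2)).trans (le_of_eq ?_)
  rw [gcE_nsR hf ε K (Q.γ τ) Q.ρ (Ioi τ) hG]
  set Y := ∫⁻ s in Ioi τ, ∫⁻ v : Space3, ENNReal.ofReal (1 + ‖v‖) *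
      (wG (Q.γ τ) v * XG f₀ ε K Q.ρ G s v)
  calc Cs γ₀ Q.ρ * (A * ((Cs γ₀ Q.ρ)⁻¹ * NS423.C1 γ₀ Q.ρ ρ₀ * Y))
      = (Cs γ₀ Q.ρ * (Cs γ₀ Q.ρ)⁻¹) * (A * NS423.C1 γ₀ Q.ρ ρ₀ * Y) := by ring
    _ = _ := by rw [ENNReal.mul_inv_cancel Cs_ne_zero hCt, one_mul]

end main

/-! ### The three successors -/

theorem measurable_lineL'J (hΦ : AdmissiblePotential Φ) (ε : ℝ) :
    Measurable fun q : ℝ × (Space3 × OCout796.CD) => OCout796.lineL' Φ ε q.1 q.2.1 q.2.2 := by
  have h2 : Measurable fun q : ℝ × (Space3 × OCout796.CD) => q.2.2 :=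
    measurable_snd.comp measurable_snd
  have h1 : Measurable fun q : ℝ × (Space3 × OCout796.CD) => q.2.1 :=
    measurable_fst.comp measurable_snd
  unfold OCout796.lineL'
  refine (measurable_fst.add ((OCout796.measurable_outT hΦ ε).comp h2)).prodMk
    ((h1.add (((OCout796.measurable_outCM hΦ ε).comp h2).add ?_)).prodMk
      ((OCout796.measurable_cmvel.comp h2).add ?_))
  · exact (measurable_fst.comp ((OCout796.measurable_exB hΦ).comp h2)).const_smul (ε / 2)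
  · exact (measurable_snd.comp ((OCout796.measurable_exB hΦ).comp h2)).const_smul (1 / 2 : ℝ)

theorem measurable_lineC'J (hΦ : AdmissiblePotential Φ) (ε : ℝ) :
    Measurable fun q : ℝ × (Space3 × OCout796.CD) => OCout796.lineC' Φ ε q.1 q.2.1 q.2.2 := by
  have h2 : Measurable fun q : ℝ × (Space3 × OCout796.CD) => q.2.2 :=
    measurable_snd.comp measurable_snd
  have h1 : Measurable fun q : ℝ × (Space3 × OCout796.CD) => q.2.1 :=
    measurable_fst.comp measurable_snd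
  unfold OCout796.lineC'
  refine (measurable_fst.add ((OCout796.measurable_outT hΦ ε).comp h2)).prodMk
    ((h1.add (((OCout796.measurable_outCM hΦ ε).comp h2).sub ?_)).prodMk
      ((OCout796.measurable_cmvel.comp h2).sub ?_))
  · exact (measurable_fst.comp ((OCout796.measurable_exB hΦ).comp h2)).const_smul (ε / 2)
  · exact (measurable_snd.comp ((OCout796.measurable_exB hΦ).comp h2)).const_smul (1 / 2 : ℝ)

theorem measurable_lineCJ (hΦ : AdmissiblePotential Φ) (ε : ℝ) :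
    Measurable fun q : ℝ × (Space3 × OCout796.CD) => OCout796.lineC Φ ε q.1 q.2.1 q.2.2 := by
  have h2 : Measurable fun q : ℝ × (Space3 × OCout796.CD) => q.2.2 :=
    measurable_snd.comp measurable_snd
  have h1 : Measurable fun q : ℝ × (Space3 × OCout796.CD) => q.2.1 :=
    measurable_fst.comp measurable_snd
  have hT : Measurable fun q : ℝ × (Space3 × OCout796.CD) => OCout796.outT Φ ε q.2.2 :=
    (OCout796.measurable_outT hΦ ε).comp h2
  have hu : Measurable fun q : ℝ × (Space3 × OCout796.CD) => q.2.2.2.1 :=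
    measurable_fst.comp (measurable_snd.comp h2)
  unfold OCout796.lineC
  exact (measurable_fst.add hT).prodMk ((h1.add (hT.smul hu)).prodMk hu)

theorem oneLs_root {ε : ℝ} {P : CTree} {z : PhasePoint × Par P} {l : ML} :
    oneLs Φ ε P z l (Sum.inl (root P)) =
      (OCout796.lineC Φ ε (cT ε z l) (cX ε z l) (cD ε z l), P.leaves) := by
  unfold oneLs
  exact if_pos rfl

/-! ### Measurability of the lines of a structure -/



/-! ### The statement -/

section final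

variable {T' T₀ γ₀ : ℝ} {Q : EPar}

/-- Constant of the statement `StmtNS`. -/
def CN (lam lam₁ C γ₀ M : ℝ) (ρ : ℝ≥0∞) : ℝ≥0∞ :=
  (2 * ENNReal.ofReal M) * ENNReal.ofReal (lam / lam₁) * ENNReal.ofReal C *
    NS423.C1 γ₀ ρ (ENNReal.ofReal (lam₁ / lam))

theorem CN_ne_top {lam lam₁ C M : ℝ} {ρ : ℝ≥0∞} (hγ₀ : 0 < γ₀)
    (hρ : ENNReal.ofReal (lam₁ / lam) < ρ) (hρ1 : ρ < 1) : CN lam lam₁ C γ₀ M ρ ≠ ∞ := by
  unfold CN
  refine ENNReal.mul_ne_top (ENNReal.mul_ne_top (ENNReal.mul_ne_top ?_ ENNReal.ofReal_ne_top)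
    ENNReal.ofReal_ne_top) (NS423.C1_ne_top hγ₀ hρ hρ1)
  exact ENNReal.mul_ne_top (by norm_num) ENNReal.ofReal_ne_top

/-- (NS): abbreviation of `OneC285.StmtNS`. -/
abbrev StmtNS' (Φ : Space3 → ℝ) (f₀ : PhasePoint → ℝ) (Q : EPar) (T' : ℝ) (C : ℝ≥0∞) : Prop :=
  StmtNS Φ f₀ Q T' C

/-- **Statement (NS) of the one-contact step.** -/
theorem stmtNS (X : Ctx Φ β T f₀ f T₀ Q.tw) {h₀ kap lam C b : ℝ}
    (hK : Seg814.KinC Φ T f h₀ kap lam C b) (hkap : kap < 2 * β) {lam₁ : ℝ} (h1 : 0 < lam₁)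
    (h2 : lam₁ ≤ lam) {M : ℝ} (hM : ∀ (P : CTree) (s : ℝ) (ℓ : PhasePoint) (p : Par P),
      wtA Φ P (s, ℓ, p) ≤ ENNReal.ofReal M * ENNReal.ofReal lam₁ ^ P.size *
        ENNReal.ofReal (Real.exp (kap * Seg814.eng Φ P ℓ.2 p)))
    (hte : Q.te ≤ Q.tw + h₀) (hteT : Q.te ≤ T₀) (hγ : Measurable Q.γ) (hγ₀ : 0 < γ₀)
    (hγl : ∀ τ ∈ Ioc 0 Q.te, γ₀ ≤ Q.γ τ) (hγb : ∀ τ ∈ Ioc 0 Q.te, Q.γ τ ≤ b)
    (hρ : ENNReal.ofReal (lam₁ / lam) < Q.ρ) (hρ1 : Q.ρ < 1) (T' : ℝ) :
    StmtNS' Φ f₀ Q T' (CN lam lam₁ C γ₀ M Q.ρ) := by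
  set ρ₀ : ℝ≥0∞ := ENNReal.ofReal (lam₁ / lam) with hρ₀
  have hM2 : (2 * ENNReal.ofReal M) ≠ ∞ := ENNReal.mul_ne_top (by norm_num) ENNReal.ofReal_ne_top
  have hφM : ∀ (P : CTree) (s : ℝ) (ℓ : PhasePoint) (p : Par P), Adm Φ P ℓ.2 p →
      rootA P (s, ℓ, p) ≤ (2 * ENNReal.ofReal M) * ENNReal.ofReal lam₁ ^ P.size *
        ENNReal.ofReal (Real.exp (kap * Seg814.eng Φ P ℓ.2 p)) := by
    intro P s ℓ p ha
    refine (rootA_le_wtA X.hΦ ha).trans ?_
    calc 2 * wtA Φ P (s, ℓ, p) ≤ 2 * (ENNReal.ofReal M * ENNReal.ofReal lam₁ ^ P.size *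
          ENNReal.ofReal (Real.exp (kap * Seg814.eng Φ P ℓ.2 p))) := mul_le_mul' le_rfl (hM P s ℓ p)
      _ = _ := by ring
  obtain ⟨δ, hδ, hroot⟩ := root_marked X hK hte hteT (γ := fun _ => b) measurable_const
    (fun _ _ => le_rfl) (φ := fun P => rootA P)
    (fun P => Wgt.of_le (measurable_rootA P) hkap hM2 fun s ℓ p ha => hφM P s ℓ p ha)
    hM2 h1 h2 hφM (ρ := ρ₀) le_rfl
  have hC1 := NS423.C1_ne_top (γ₀ := γ₀) hγ₀ hρ hρ1
  refine ⟨fun K ε => Cs γ₀ Q.ρ * δ K ε, hδ.const_mul (Cs_ne_top hγ₀ hρ1), ?_⟩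
  intro K ε hε G hG hG1 τ hτ k hk
  have hroot' := hroot K ε hε
  have hb := hγb τ hτ
  have hl := hγl τ hτ
  rcases hk with hk | hk | hk
  · exact successor_le hε X hγ₀ hγ hρ1 (measurable_lineCJ X.hΦ ε)
      (mk := fun _ k => k) (T' := T') hτ hl
      (fun g hg => NS423.ns_lineC X.hΦ hγ₀ hl hb hε.le hρ K hg) hroot' hC1 hG hG1 (k := k)
      (fun P z l => by rw [hk P, oneLs_root])
  · exact successor_le hε X hγ₀ hγ hρ1 (measurable_lineL'J X.hΦ ε)
      (mk := fun n k => n + k) (T' := T') hτ hl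
      (fun g hg => NS423.ns_lineL' X.hΦ hγ₀ hl hb hε.le hρ hρ1 K hg) hroot' hC1 hG hG1 (k := k)
      (fun P z l => by rw [hk P]; rfl)
  · exact successor_le hε X hγ₀ hγ hρ1 (measurable_lineC'J X.hΦ ε)
      (mk := fun n k => n + k) (T' := T') hτ hl
      (fun g hg => NS423.ns_lineC' X.hΦ hγ₀ hl hb hε.le hρ hρ1 K hg) hroot' hC1 hG hG1 (k := k)
      (fun P z l => by rw [hk P]; rfl)

end final

end Crest.Agent.R122.OneNS423

end
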