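import Crest.Agent.R122.LNGraft_410
import Crest.Agent.R122.PWInst3_442
import Crest.Agent.R122.VLPlace_399
import Crest.Agent.R122.OneC_423
import Crest.Agent.R122.OneCDefs_285

-- ▼ part R122/PartsNet_564
section

/-!
# Row 122, LN1 (helper564): nets of classes

`Net M C Z π cl bD` : the labels `π` of a structure are connected and partitioned into classes
`cl i` (`LNGraft_410.Cls`) with exit times `bD`.  `Exl M Z cl bD i L` : the label `i` follows the
line `L` after its exit (`L` is born at or after the exit time `bD i`).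

* `Net.of_cls` : one class; `Net.add` : a fresh class, connected with the net by a contact;
  `Net.merge` : the graft of two classes of the net.
* `Exl.add`, `Exl.merge`, `Exl.merge_a`, `Exl.merge_c`, `Exl.reborn` : lines of the new nets.
* `Net.cover`, `Net.exit0`, `Net.lab` : the data needed by the glued worlds (`PWInst2_442`).
-/

set_option autoImplicit false
set_option linter.unusedSectionVars false

open MeasureTheory Set Filter Topology
open Crest.AnalysisR.Kinetic
open Crest.Agent.R122.VL581 Crest.Agent.R122.VL581.VSys Crest.Agent.R122.VLInst442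
open Crest.Agent.R122.LNg410 Crest.Agent.R122.LN304 Crest.Agent.R122.Ins45
open Crest.Agent.R122.Kin796 Crest.Agent.R122.Kin796.CTree Crest.Agent.R122.Tree674
open Crest.Agent.R122.LNTree410 Crest.Agent.R122.TreeLines335
open Crest.Agent.R122.OCout796 Crest.Agent.R122.Scat818 Crest.Agent.R122.EDefs602
open Crest.Agent.R122.LNGraft410 Crest.Agent.R122.PWInst442
open scoped Classical

noncomputable section

namespace Crest.Agent.R122.PN564

variable {J κ : Type} [Fintype J] {M : VSys J κ} {Z : J → PhasePoint} {C ℓ ς : ℝ}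
  {π : Finset J} {cl : J → Finset J} {bD : J → ℝ}

/-- A connected structure with classes and exit times. -/
structure Net (M : VSys J κ) (C : ℝ) (Z : J → PhasePoint) (π : Finset J) (cl : J → Finset J)
    (bD : J → ℝ) : Prop where
  conn : M.Conn C π Z
  cls : ∀ i ∈ π, Cls M Z (cl i) bD
  mem : ∀ i ∈ π, i ∈ cl i
  sub : ∀ i ∈ π, cl i ⊆ π
  eq : ∀ i ∈ π, ∀ k ∈ cl i, cl k = cl i
  out : ∀ i, i ∉ π → cl i = ∅

/-- The label `i` follows the line `L`, which is born at or after the exit of `i`. -/
structure Exl (M : VSys J κ) (Z : J → PhasePoint) (cl : J → Finset J) (bD : J → ℝ) (i : J)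
    (L : Ln) : Prop where
  le : bD i ≤ L.1
  st : L.1 ≤ M.T → M.st (cl i) L.1 Z i = L.2

/-- Entrance data of the encounter of `a` (with class `S₁`) and `c` (with class `S₂`). -/
structure Enc (M : VSys J κ) (Z : J → PhasePoint) (S₁ S₂ : Finset J) (bD : J → ℝ) (a c : J)
    (s : ℝ) (y : Space3) (q : CD) : Prop where
  lta : bD a < s
  ltc : bD c < s
  cd : CDok q
  state_a : M.st S₁ s Z a = (y + M.ε • entrancePoint (relB q).1 (relB q).2, q.1)
  state_c : M.st S₂ s Z c = (y, q.2.1)
  lt_T : s < M.T

theorem disj_of (N : Net M C Z π cl bD) {a c : J} (ha : a ∈ π) (hc : c ∈ π) (h : cl a ≠ cl c) :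
    Disjoint (cl a) (cl c) := by
  rw [Finset.disjoint_left]
  intro k hk hk'
  exact h ((N.eq a ha k hk).symm.trans (N.eq c hc k hk'))

namespace Net

/-- One class. -/
theorem of_cls {S : Finset J} (h : Cls M Z S bD) (hC : M.Conn C S Z) :
    Net M C Z S (fun i => if i ∈ S then S else ∅) bD where
  conn := hC
  cls i hi := by rw [if_pos hi]; exact h
  mem i hi := by rw [if_pos hi]; exact hi
  sub i hi := by rw [if_pos hi]
  eq i hi k hk := by
    rw [if_pos hi] at hk ⊢
    rw [if_pos hk]
  out i hi := if_neg hi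

/-- Classes of the net with the fresh class `S`. -/
def addCl (cl : J → Finset J) (S : Finset J) (i : J) : Finset J := if i ∈ S then S else cl i

theorem addCl_old {S : Finset J} (h : Disjoint π S) {i : J} (hi : i ∈ π) :
    addCl cl S i = cl i := if_neg (Finset.disjoint_left.1 h hi)

theorem addCl_new {S : Finset J} {i : J} (hi : i ∈ S) : addCl cl S i = S := if_pos hi

/-- A fresh class, connected with the net by a contact. -/
theorem add (N : Net M C Z π cl bD) {S : Finset J} (hS : Cls M Z S bD) (hd : Disjoint π S)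
    (hSc : M.Conn C S Z) {a c : J} (ha : a ∈ π) (hc : c ∈ S) {t : ℝ} (ht : t ∈ Icc 0 M.T)
    (hv : M.VCt C (π ∪ S) a c t Z) : Net M C Z (π ∪ S) (addCl cl S) bD where
  conn := conn_union_of_vct N.conn hSc ha hc ht hv
  cls i hi := by
    by_cases h : i ∈ S
    · rw [addCl_new h]; exact hS
    · have hi' := (Finset.mem_union.1 hi).resolve_right h
      rw [addCl_old hd hi']; exact N.cls i hi'
  mem i hi := by
    by_cases h : i ∈ S
    · rw [addCl_new h]; exact h
    · have hi' := (Finset.mem_union.1 hi).resolve_right h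
      rw [addCl_old hd hi']; exact N.mem i hi'
  sub i hi := by
    by_cases h : i ∈ S
    · rw [addCl_new h]; exact Finset.subset_union_right
    · have hi' := (Finset.mem_union.1 hi).resolve_right h
      rw [addCl_old hd hi']; exact (N.sub i hi').trans Finset.subset_union_left
  eq i hi k hk := by
    by_cases h : i ∈ S
    · rw [addCl_new h] at hk ⊢
      rw [addCl_new hk]
    · have hi' := (Finset.mem_union.1 hi).resolve_right h
      rw [addCl_old hd hi'] at hk ⊢
      rw [addCl_old hd (N.sub i hi' hk)]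
      exact N.eq i hi' k hk
  out i hi := by
    rw [Finset.mem_union, not_or] at hi
    unfold addCl
    rw [if_neg hi.2]
    exact N.out i hi.1

/-- Classes after the graft of the classes of `a` and `c`. -/
def mergeCl (cl : J → Finset J) (a c : J) (i : J) : Finset J :=
  if i ∈ cl a ∪ cl c then cl a ∪ cl c else cl i

theorem mergeCl_in {a c i : J} (h : i ∈ cl a ∪ cl c) : mergeCl cl a c i = cl a ∪ cl c := if_pos h

theorem mergeCl_out {a c i : J} (h : i ∉ cl a ∪ cl c) : mergeCl cl a c i = cl i := if_neg h

theorem graftH (N : Net M C Z π cl bD) {a c : J} (ha : a ∈ π) (hc : c ∈ π) (hne : cl a ≠ cl c)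
    {s : ℝ} {y : Space3} {q : CD} (E : Enc M Z (cl a) (cl c) bD a c s y q) :
    GraftH M Z (cl a) (cl c) bD a c s y q where
  cls₁ := N.cls a ha
  cls₂ := N.cls c hc
  disj := disj_of N ha hc hne
  ha := N.mem a ha
  hc := N.mem c hc
  lta := E.lta
  ltc := E.ltc
  cd := E.cd
  state_a := E.state_a
  state_c := E.state_c
  lt_T := E.lt_T


section cover

/-- The classes of the net in the sense of the glued worlds. -/
theorem cover (N : Net M C Z π cl bD) : Cover M Z cl where
  mem j h := by
    by_cases hj : j ∈ π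
    · exact N.mem j hj
    · rw [N.out j hj] at h
      exact absurd h Finset.not_nonempty_empty
  eq j k h := by
    by_cases hj : j ∈ π
    · exact N.eq j hj k h
    · rw [N.out j hj] at h
      exact absurd h (Finset.notMem_empty k)
  obs j k h := by
    by_cases hj : j ∈ π
    · exact (N.cls j hj).obs k h
    · rw [N.out j hj] at h
      exact absurd h (Finset.notMem_empty k)
  ok j := by
    by_cases hj : j ∈ π
    · exact (N.cls j hj).ok
    · rw [N.out j hj]
      intro k hk
      exact absurd hk (Finset.notMem_empty k)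




end cover

end Net

namespace Exl

variable {i : J} {L : Ln}

theorem congr {cl' : J → Finset J} {bD' : J → ℝ} (h : Exl M Z cl bD i L) (h1 : cl' i = cl i)
    (h2 : bD' i = bD i) : Exl M Z cl' bD' i L where
  le := by rw [h2]; exact h.le
  st := by rw [h1]; exact h.st

/-- A line of the old net in the net with a fresh class. -/
theorem add (h : Exl M Z cl bD i L) {S : Finset J} (hd : Disjoint π S) (hi : i ∈ π) :
    Exl M Z (Net.addCl cl S) bD i L := h.congr (Net.addCl_old hd hi) rfl

/-- The line of a label of a tree. -/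
theorem tree (hΦ : AdmissiblePotential M.Φ) (hε : 0 < M.ε) {P : CTree} {z : PhasePoint × Par P}
    {e : Idx P ↪ J} (h : TreeIn M Z M.T P z.1 z.2 e) {x : Idx P} (hcl : cl (e x) = part e)
    (hb : bD (e x) = rel P z.2 x) : Exl M Z cl bD (e x) (lineML M.Φ M.ε P z x).1 where
  le := hb.le
  st hT := by
    rw [hcl]
    exact h.line_tree hΦ hε x le_rfl hT

/-- The line of a single free label. -/
theorem single (hΦ : AdmissiblePotential M.Φ) (hε : 0 < M.ε) {c : J} (hcl : cl c = {c}) {b : ℝ}
    (hb : bD c ≤ b) : Exl M Z cl bD c (b, fl b (Z c)) where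
  le := hb
  st _ := by
    rw [hcl]
    exact VLInv399.st_sub hΦ hε (fun p hp q hq => by
      rw [Finset.mem_singleton.1 hp, Finset.mem_singleton.1 hq]) b Z c

end Exl

/-! ### The graft inside a net -/

section merge

variable [Nonempty κ] (hΦ : AdmissiblePotential M.Φ) (hε : 0 < M.ε) (hC : 1 ≤ C)
  (hℓς : 2 * ℓ ≤ ς) {a c : J} {s : ℝ} {y : Space3} {q : CD}



theorem Enc.add {S : Finset J} (E : Enc M Z (cl a) S bD a c s y q) (hd : Disjoint π S)
    (ha : a ∈ π) (hc : c ∈ S) :
    Enc M Z (Net.addCl cl S a) (Net.addCl cl S c) bD a c s y q := by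
  rw [Net.addCl_old hd ha, Net.addCl_new hc]
  exact E

/-- The hypothesis on a structure: its connected subsets are tree-like. -/
def AllTL (M : VSys J κ) (C ℓ ς : ℝ) (Z : J → PhasePoint) (π : Finset J) : Prop :=
  ∀ P ⊆ π, M.Conn C P Z → TL M C ℓ ς P Z

theorem AllTL.mono {π' : Finset J} (h : AllTL M C ℓ ς Z π) (hs : π' ⊆ π) : AllTL M C ℓ ς Z π' :=
  fun P hP hc => h P (hP.trans hs) hc

include hΦ hε hC hℓς

section

variable (N : Net M C Z π cl bD) (ha : a ∈ π) (hc : c ∈ π) (hne : cl a ≠ cl c)
  (E : Enc M Z (cl a) (cl c) bD a c s y q) (hTL : AllTL M C ℓ ς Z π)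
include N ha hc hne E hTL

theorem Net.tl_merge : TL M C ℓ ς (cl a ∪ cl c) Z :=
  hTL _ (Finset.union_subset (N.sub a ha) (N.sub c hc)) ((N.graftH ha hc hne E).Conn hε hC)

/-- **The encounter ends** within `2 ℓ`. -/
theorem Net.pass (hT : s + 2 * ℓ < M.T) :
    CDpass M.Φ q ∧ outT M.Φ M.ε q ≤ 2 * ℓ :=
  (N.graftH ha hc hne E).pass_of hε hC (N.tl_merge hΦ hε hC hℓς ha hc hne E hTL) hℓς hΦ hT

variable (hp : CDpass M.Φ q) (hle : s + outT M.Φ M.ε q ≤ M.T)
include hp hle

/-- **The graft of two classes of a net.** -/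
theorem Net.merge : Net M C Z π (Net.mergeCl cl a c) (grafted M.Φ M.ε bD a c s q) := by
  have hG := N.graftH ha hc hne E
  have hcls := hG.cls hε hC (N.tl_merge hΦ hε hC hℓς ha hc hne E hTL) hℓς hΦ hp hle
  have hsub : cl a ∪ cl c ⊆ π := Finset.union_subset (N.sub a ha) (N.sub c hc)
  refine ⟨N.conn, fun i hi => ?_, fun i hi => ?_, fun i hi => ?_, fun i hi k hk => ?_,
    fun i hi => ?_⟩
  · by_cases h : i ∈ cl a ∪ cl c
    · rw [Net.mergeCl_in h]
      exact hcls
    · rw [Net.mergeCl_out h]
      refine (N.cls i hi).congr fun k hk => ?_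
      unfold grafted
      rw [if_neg]
      rintro (rfl | rfl)
      · exact h (Finset.mem_union_left _ (by rw [N.eq i hi k hk]; exact N.mem i hi))
      · exact h (Finset.mem_union_right _ (by rw [N.eq i hi k hk]; exact N.mem i hi))
  · by_cases h : i ∈ cl a ∪ cl c
    · rw [Net.mergeCl_in h]
      exact h
    · rw [Net.mergeCl_out h]
      exact N.mem i hi
  · by_cases h : i ∈ cl a ∪ cl c
    · rw [Net.mergeCl_in h]
      exact hsub
    · rw [Net.mergeCl_out h]
      exact N.sub i hi
  · by_cases h : i ∈ cl a ∪ cl c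
    · rw [Net.mergeCl_in h] at hk ⊢
      exact Net.mergeCl_in hk
    · rw [Net.mergeCl_out h] at hk ⊢
      have h' : k ∉ cl a ∪ cl c := by
        intro h'
        have h1 := N.eq i hi k hk
        rcases Finset.mem_union.1 h' with h2 | h2
        · refine h (Finset.mem_union_left _ ?_)
          rw [← N.eq a ha k h2, h1]
          exact N.mem i hi
        · refine h (Finset.mem_union_right _ ?_)
          rw [← N.eq c hc k h2, h1]
          exact N.mem i hi
      rw [Net.mergeCl_out h']
      exact N.eq i hi k hk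
  · rw [Net.mergeCl_out fun h => hi (hsub h)]
    exact N.out i hi

/-- The other lines are unchanged by the graft. -/
theorem Exl.merge {i : J} {L : Ln} (h : Exl M Z cl bD i L) (hia : i ≠ a)
    (hic : i ≠ c) : Exl M Z (Net.mergeCl cl a c) (grafted M.Φ M.ε bD a c s q) i L := by
  have hG := N.graftH ha hc hne E
  have hTL' := N.tl_merge hΦ hε hC hℓς ha hc hne E hTL
  refine ⟨?_, fun hT => ?_⟩
  · unfold grafted
    rw [if_neg (not_or.2 ⟨hia, hic⟩)]
    exact h.le
  · by_cases h' : i ∈ cl a ∪ cl c
    · rw [Net.mergeCl_in h']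
      rcases Finset.mem_union.1 h' with h2 | h2
      · rw [hG.st₁ hε hC hTL' hℓς hΦ h2 hia hT, ← h.st hT, N.eq a ha i h2]
      · rw [hG.st₂ hε hC hTL' hℓς hΦ h2 hic hT, ← h.st hT, N.eq c hc i h2]
    · rw [Net.mergeCl_out h']
      exact h.st hT



end

end merge

section reborn

variable {a c : J} {s : ℝ} {y : Space3} {q : CD}

/-- **The undeflected partner**, reborn at the end of the encounter. -/
theorem Exl.reborn (hΦ : AdmissiblePotential M.Φ) (hε : 0 < M.ε) (N : Net M C Z π cl bD)
    (hc : c ∈ π) {S₁ : Finset J} (E : Enc M Z S₁ (cl c) bD a c s y q) :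
    Exl M Z cl bD c (lineC M.Φ M.ε s y q) := by
  have h1 : s ≤ s + outT M.Φ M.ε q := le_add_of_nonneg_right (outT_nonneg hε.le q)
  refine ⟨E.ltc.le.trans h1, fun hT => ?_⟩
  have h2 := (N.cls c hc).line hΦ hε (N.mem c hc) E.ltc.le h1 hT
  rw [E.state_c] at h2
  have h3 : (lineC M.Φ M.ε s y q).1 = s + outT M.Φ M.ε q := rfl
  rw [h3, h2]
  unfold lineAt lineC
  simp only
  rw [add_sub_cancel_left]



end reborn

end Crest.Agent.R122.PN564

end
end

-- ▼ part R122/PartsCt_564

/-!
# Row 122, LN1 (helper564): contact data of the contact set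

* `Proper ε z l` : the contact is not grazing; `cdok_cD` : then the contact data are proper.
* `state_l`, `state_r` : states of the line and of the root line at the contact time.
* `ae_proper_root` : the contact of a given line with a tree is proper for a.e. tree.
* `enc_ct` : the encounter data of `PartsNet_564` from the contact set.
-/

set_option autoImplicit false
set_option linter.unusedSectionVars false

open MeasureTheory Set Filter Topology
open scoped ENNReal
open Crest.AnalysisR.Kinetic
open Crest.Agent.R122.VL581 Crest.Agent.R122.VL581.VSys Crest.Agent.R122.VLInst442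
open Crest.Agent.R122.LNg410 Crest.Agent.R122.LN304 Crest.Agent.R122.Ins45
open Crest.Agent.R122.Kin796 Crest.Agent.R122.Kin796.CTree Crest.Agent.R122.Tree674
open Crest.Agent.R122.Disc416 Crest.Agent.R122.Flux663
open Crest.Agent.R122.LNTree410 Crest.Agent.R122.TreeLines335
open Crest.Agent.R122.OCout796 Crest.Agent.R122.Scat818 Crest.Agent.R122.EDefs602
open Crest.Agent.R122.LNGraft410 Crest.Agent.R122.PWInst442
open Crest.Agent.R122.OneC285 (cT cB cD cX)
open scoped Classical

noncomputable section

namespace Crest.Agent.R122.PN564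

section contact

variable {Φ : Space3 → ℝ} {ε te : ℝ} {P : CTree} {z : PhasePoint × Par P} {l : ML}

/-- The contact of the line `l` with the root line of `z` is proper: positive relative velocity, not
grazing. -/
def Proper (ε : ℝ) (z : PhasePoint × Par P) (l : ML) : Prop :=
  (OneC423.relL z.1 l.1).2 ≠ 0 ∧ ‖bline (OneC423.relL z.1 l.1)‖ < ε

theorem cdok_cD (hε : 0 < ε) (h : Proper ε z l) : CDok (cD ε z l) := by
  have h1 : (relB (cD ε z l)).2 = (OneC423.relL z.1 l.1).2 := rfl
  have h2 : (relB (cD ε z l)).1 = ε⁻¹ • bline (OneC423.relL z.1 l.1) := rfl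
  refine ⟨⟨?_, ?_⟩, h.1⟩
  · rw [h1, h2, inner_smul_left, inner_bline h.1, mul_zero]
  · rw [h2, norm_smul, norm_inv, Real.norm_eq_abs, abs_of_pos hε, inv_mul_lt_iff₀ hε, mul_one]
    exact h.2

/-- State of the line at the contact. -/
theorem state_l (hε : 0 < ε) (z : PhasePoint × Par P) (l : ML) :
    lineAt l.1.1 l.1.2 (cT ε z l) =
    (cX ε z l + ε • entrancePoint (relB (cD ε z l)).1 (relB (cD ε z l)).2, (cD ε z l).1) := by
  have h1 := OC663.ent_pos hε (OneC423.relL z.1 l.1)
  have h0 : ((OneC423.relL z.1 l.1).1 : Space3) = l.1.2.1 - l.1.1 • l.1.2.2 - z.1.1 := rfl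
  have h0' : ((OneC423.relL z.1 l.1).2 : Space3) = l.1.2.2 - z.1.2 := rfl
  have h2 : OC663.entT ε (OneC423.relL z.1 l.1) = cT ε z l := rfl
  have h3 : OC663.entB ε (OneC423.relL z.1 l.1) = cB ε z l := rfl
  rw [h0, h0', h2, h3] at h1
  refine Prod.ext ?_ rfl
  change l.1.2.1 + (cT ε z l - l.1.1) • l.1.2.2 = z.1.1 + cT ε z l • z.1.2 +
    ε • entrancePoint (cB ε z l) (l.1.2.2 - z.1.2)
  rw [← h1]
  module

/-- State of the root line at the contact. -/
theorem state_r (z : PhasePoint × Par P) (l : ML) :
    onLine z.1 (cT ε z l) = (cX ε z l, (cD ε z l).2.1) := rfl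

theorem relL_rootAt (ε s : ℝ) (e : ℝ × PhasePoint) (u b : Space3) :
    OneC423.relL (OneC423.rootAt ε s e u b) e =
      (ε • entrancePoint b (e.2.2 - u) - s • (e.2.2 - u), e.2.2 - u) := by
  unfold OneC423.relL OneC423.rootAt back
  refine Prod.ext ?_ rfl
  simp only
  module

/-- Grazing contacts are exceptional (line fixed). -/
theorem ae_proper_root (hΦ : AdmissiblePotential Φ) (hε : 0 < ε) (te : ℝ) (P : CTree) (l : ML) :
    ∀ᵐ z : PhasePoint × Par P, (z, l.1) ∈ OneC423.ctSet Φ ε te P → Proper ε z l := by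
  set B : Set (PhasePoint × Par P) := {z | ¬ ‖bline (OneC423.relL z.1 l.1)‖ < ε} with hB
  have hr : Measurable fun z : PhasePoint × Par P => OneC423.relL z.1 l.1 :=
    OneC423.measurable_relL.comp (f := fun z : PhasePoint × Par P => (z.1, l.1))
      (measurable_fst.prodMk measurable_const)
  have hBm : MeasurableSet B :=
    (measurableSet_lt (measurable_bline.comp hr).norm measurable_const).compl
  have hms : MeasurableSet {z : PhasePoint × Par P | (z, l.1) ∈ OneC423.ctSet Φ ε te P} :=
    (measurable_id.prodMk (measurable_const (a := l.1))) (OneC423.measurableSet_ctSet hΦ ε te P)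
  have h0 : ∫⁻ z : PhasePoint × Par P, {z | (z, l.1) ∈ OneC423.ctSet Φ ε te P}.indicator
      (B.indicator fun _ => (1 : ℝ≥0∞)) z = 0 := by
    rw [OneC423.lintegral_ct_root hΦ hε l.1 (measurable_const.indicator hBm)]
    refine mul_eq_zero.2 (Or.inr ?_)
    refine (lintegral_congr fun s => ?_).trans lintegral_zero
    refine (lintegral_congr fun u => ?_).trans lintegral_zero
    by_cases hg : l.1.2.2 - u = 0
    · rw [hg, norm_zero, ENNReal.ofReal_zero, zero_mul]
    refine mul_eq_zero.2 (Or.inr ?_)
    refine (setLIntegral_congr_fun (measurableSet_impactDisc _) fun b hb => ?_).trans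
      lintegral_zero
    refine (lintegral_congr fun p => ?_).trans lintegral_zero
    have hnb : ((OneC423.rootAt ε s l.1 u b, p) : PhasePoint × Par P) ∉ B := by
      rw [hB]
      refine fun h => h ?_
      rw [relL_rootAt]
      have h1 := (OneNS423.ent_inv hε hg hb s).2
      have h2 := OC663.norm_entB hε (ε • entrancePoint b (l.1.2.2 - u) - s • (l.1.2.2 - u),
        l.1.2.2 - u)
      rw [h1, eq_div_iff hε.ne'] at h2
      rw [← h2]
      have := hb.2
      nlinarith
    by_cases hv : p ∈ {p | Valid Φ ε P s u p}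
    · rw [indicator_of_mem hv]
      exact indicator_of_notMem hnb _
    · exact indicator_of_notMem hv _
  have h1 := (lintegral_eq_zero_iff ((measurable_const.indicator hBm).indicator hms)).1 h0
  filter_upwards [h1] with z hz hct
  refine ⟨hct.1, ?_⟩
  by_contra hcon
  rw [indicator_of_mem (show z ∈ {z : PhasePoint × Par P | (z, l.1) ∈ OneC423.ctSet Φ ε te P}
    from hct), indicator_of_mem (show z ∈ B from hcon)] at hz
  exact one_ne_zero hz

end contact

/-! ### Encounter data -/

section enc

variable {J κ : Type} [Fintype J] {M : VSys J κ} {Z : J → PhasePoint} {C ℓ ς : ℝ}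
  {π : Finset J} {cl : J → Finset J} {bD : J → ℝ}


end enc

end Crest.Agent.R122.PN564

end
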