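import Crest.Agent.R122.VLSub_973
import Crest.Agent.R122.PartProd_973

-- ▼ part R122/VLClass_973
section

/-!
# Row 122, H11 (helper973): LN2 in class form

* `VSys.BadPart` : existential partition into connected parts meeting the anchors, with fewer than
  `s` parts, or exactly `s` parts one of which is not tree-like.
* `badQ` : measurable majorant (jointly in births and states: `measurableSet_badQ`).
* `lintegral_badQ_le` : union bound over partitions.
-/

set_option autoImplicit false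
set_option linter.unusedSectionVars false

open MeasureTheory Set Filter Topology
open Crest.AnalysisR.Kinetic
open Crest.Agent.R122.Ins45 Crest.Agent.R122.GIV566 Crest.Agent.R122.VL581
open scoped Classical ENNReal NNReal

noncomputable section

/-- **Bad partition**: all parts are connected and meet the anchors `A`; there are fewer than `s`
parts, or `s` parts and one of them is not tree-like. -/
def Crest.Agent.R122.VL581.VSys.BadPart {J κ : Type} [Fintype J] (M : VSys J κ) (C ℓ ς : ℝ) (s : ℕ)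
    (A : Finset J) (Z : J → PhasePoint) : Prop :=
  ∃ π : Finpartition (Finset.univ : Finset J),
    (∀ P ∈ π.parts, M.Conn C P Z ∧ ∃ x ∈ P, x ∈ A) ∧
    (π.parts.card < s ∨
      (π.parts.card = s ∧ ∃ P ∈ π.parts, ¬ Crest.Agent.R122.VLMeas973.TLP M C ℓ ς P Z))

namespace Crest.Agent.R122.VLMeas973

variable {J κ : Type} [Fintype J]

/-- The embedding of a part. -/
def sub (P : Finset J) : P ↪ J := Function.Embedding.subtype _

theorem map_sub (P : Finset J) : (Finset.univ : Finset P).map (sub P) = P := by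
  ext x
  simp [sub]

theorem conn_sub {M : VSys J κ} (hM : Good M) (C : ℝ) (P : Finset J) (Z : J → PhasePoint) :
    (pull M (sub P)).Conn C Finset.univ (fun j => Z (sub P j)) ↔ M.Conn C P Z := by
  rw [conn_pull M (sub P) hM.adm hM.eps, map_sub]

/-- Measurable majorant of `BadPart`. -/
def badQ (M : VSys J κ) (C ℓ ς : ℝ) (s : ℕ) (A : Finset J) : Set (J → PhasePoint) :=
  {Z | ∃ π : Finpartition (Finset.univ : Finset J),
    (∀ P ∈ π.parts, M.Conn C P Z ∧ ∃ x ∈ P, x ∈ A) ∧
    (π.parts.card < s ∨ (π.parts.card = s ∧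
      ∃ P ∈ π.parts, ¬ TLQ (pull M (sub P)) C ℓ ς Finset.univ (fun j => Z (sub P j))))}

theorem badPart_subset {M : VSys J κ} (hM : Good M) {C ℓ ς : ℝ} {s : ℕ} {A : Finset J}
    {Z : J → PhasePoint} (h : M.BadPart C ℓ ς s A Z) : Z ∈ badQ M C ℓ ς s A := by
  obtain ⟨π, h1, h2⟩ := h
  refine ⟨π, h1, h2.imp_right ?_⟩
  rintro ⟨h3, P, hP, h4⟩
  refine ⟨h3, P, hP, fun h5 => h4 ?_⟩
  have h6 := tlp_of_pull M (sub P) hM.adm hM.eps h5.treeLike
  rwa [map_sub] at h6

theorem Good.pull {J' : Type} [Fintype J'] {M : VSys J κ} (hM : Good M) (e : J' ↪ J) :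
    Good (pull M e) := ⟨hM.adm, hM.eps, hM.T0, hM.tubes⟩

theorem pull_wb {J' : Type} [Fintype J'] (M : VSys J κ) (e : J' ↪ J) (b : J → ℝ) :
    VLMeas973.pull (wb M b) e = wb (VLMeas973.pull M e) (fun j => b (e j)) := rfl

/-- The majorant is jointly measurable in the births and the states. -/
theorem measurableSet_badQ [Finite κ] {Ω : Type*} [MeasurableSpace Ω] {M : VSys J κ} (hM : Good M)
    {b : Ω → J → ℝ} {Z : Ω → J → PhasePoint} (hb : Measurable b) (hZ : Measurable Z)
    (C ℓ ς : ℝ) (s : ℕ) (A : Finset J) :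
    MeasurableSet {ω | Z ω ∈ badQ (wb M (b ω)) C ℓ ς s A} := by
  have hb' : ∀ P : Finset J, Measurable fun ω (j : P) => b ω (sub P j) := fun P =>
    measurable_pi_lambda _ fun j => (measurable_pi_apply _).comp hb
  have hZ' : ∀ P : Finset J, Measurable fun ω (j : P) => Z ω (sub P j) := fun P =>
    measurable_pi_lambda _ fun j => (measurable_pi_apply _).comp hZ
  have h : {ω | Z ω ∈ badQ (wb M (b ω)) C ℓ ς s A} =
      ⋃ π : Finpartition (Finset.univ : Finset J),
        (⋂ P ∈ π.parts, ({ω | (wb M (b ω)).Conn C P (Z ω)} ∩ {_ω | ∃ x ∈ P, x ∈ A})) ∩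
        ({_ω | π.parts.card < s} ∪ ({_ω | π.parts.card = s} ∩ ⋃ P ∈ π.parts,
          {ω | TLQ (wb (VLMeas973.pull M (sub P)) (fun j => b ω (sub P j))) C ℓ ς Finset.univ
            (fun j => Z ω (sub P j))}ᶜ)) := by
    ext ω
    simp only [badQ, pull_wb, mem_ofPred_eq, mem_iUnion, mem_inter_iff, mem_iInter, mem_union,
      mem_compl_iff, exists_prop]
  rw [h]
  refine MeasurableSet.iUnion fun π => ?_
  refine (Finset.measurableSet_biInter _ fun P _ =>
    (measurableSet_conn hM hb hZ C P).inter (MeasurableSet.const _)).inter ?_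
  refine (MeasurableSet.const _).union ((MeasurableSet.const _).inter ?_)
  refine Finset.measurableSet_biUnion _ fun P _ => MeasurableSet.compl ?_
  exact measurableSet_tlq (hM.pull (sub P)) (hb' P) (hZ' P) C ℓ ς Finset.univ

theorem measurableSet_badQ' [Finite κ] {M : VSys J κ} (hM : Good M) (C ℓ ς : ℝ) (s : ℕ)
    (A : Finset J) : MeasurableSet (badQ M C ℓ ς s A) :=
  measurableSet_badQ (Ω := J → PhasePoint) (b := fun _ => M.b) (Z := fun Z => Z) hM
    measurable_const measurable_id C ℓ ς s A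

/-! ### Weights -/

/-- Gaussian weight of a velocity. -/
def gv (β : ℝ) (z : PhasePoint) : ℝ≥0∞ := ENNReal.ofReal (Real.exp (-β * ‖z.2‖ ^ 2))

/-- Weight with densities at the anchors. -/
def wA (β : ℝ) (ρ : Space3 → ℝ≥0∞) (A : Finset J) (Z : J → PhasePoint) : ℝ≥0∞ :=
  (∏ j ∈ A, ρ (Z j).1) * ∏ j, gv β (Z j)

theorem measurable_gv (β : ℝ) : Measurable (gv β) := by
  unfold gv
  fun_prop

/-- Root of a part: the obstacle if it is in the part. -/
def rt (o : Option J) (A P : Finset J) (h : ∃ x : P, x.1 ∈ A) : P :=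
  if h' : ∃ x : P, o = some x.1 then h'.choose else h.choose

theorem rt_mem {o : Option J} {A P : Finset J} (ho : ∀ j, o = some j → j ∈ A)
    (h : ∃ x : P, x.1 ∈ A) : (rt o A P h).1 ∈ A := by
  unfold rt
  by_cases h' : ∃ x : P, o = some x.1
  · rw [dif_pos h']
    exact ho _ h'.choose_spec
  · rw [dif_neg h']
    exact h.choose_spec

theorem rt_obs {o : Option J} {A P : Finset J} (h : ∃ x : P, x.1 ∈ A) (j : P)
    (hj : o = some j.1) : rt o A P h = j := by
  unfold rt
  have h' : ∃ x : P, o = some x.1 := ⟨j, hj⟩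
  rw [dif_pos h']
  have h1 : some j.1 = some h'.choose.1 := hj.symm.trans h'.choose_spec
  rw [Option.some.injEq] at h1
  exact Subtype.ext h1.symm

/-- Weight of a part. -/
def wP (β : ℝ) (ρ : Space3 → ℝ≥0∞) (o : Option J) (A P : Finset J) (z : P → PhasePoint) : ℝ≥0∞ :=
  if h : ∃ x : P, x.1 ∈ A then wgt β ρ (rt o A P h) z else 0

theorem measurable_wgt {J' : Type} [Fintype J'] {β : ℝ} {ρ : Space3 → ℝ≥0∞} (hρ : Measurable ρ)
    (i : J') : Measurable (wgt β ρ i) := by
  unfold wgt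
  refine (hρ.comp (measurable_pi_apply i).fst).mul (Finset.measurable_prod _ fun j _ => ?_)
  exact (measurable_gv β).comp (measurable_pi_apply j)

theorem measurable_wP {β : ℝ} {ρ : Space3 → ℝ≥0∞} (hρ : Measurable ρ) (o : Option J)
    (A P : Finset J) : Measurable (wP β ρ o A P) := by
  unfold wP
  by_cases h : ∃ x : P, x.1 ∈ A
  · simp only [dif_pos h]
    exact measurable_wgt hρ _
  · simp only [dif_neg h]
    exact measurable_const

theorem prod_parts (π : Finpartition (Finset.univ : Finset J)) (f : J → ℝ≥0∞) :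
    ∏ j, f j = ∏ P ∈ π.parts, ∏ j ∈ P, f j := by
  conv_lhs => rw [← π.biUnion_parts]
  rw [Finset.prod_biUnion π.supIndep.pairwiseDisjoint]
  rfl

/-- The weight is bounded by the product of the weights of the parts. -/
theorem wA_le {β : ℝ} {ρ : Space3 → ℝ≥0∞} (h1 : ∀ x, ρ x ≤ 1) {o : Option J} {A : Finset J}
    (ho : ∀ j, o = some j → j ∈ A) (π : Finpartition (Finset.univ : Finset J))
    (hπ : ∀ P ∈ π.parts, ∃ x ∈ P, x ∈ A) (Z : J → PhasePoint) :
    wA β ρ A Z ≤ ∏ P ∈ π.parts, wP β ρ o A P (fun j => Z (sub P j)) := by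
  have h2 : wA β ρ A Z = ∏ j, ((if j ∈ A then ρ (Z j).1 else 1) * gv β (Z j)) := by
    unfold wA
    rw [Finset.prod_mul_distrib]
    congr 1
    rw [Finset.prod_ite_mem, Finset.univ_inter]
  rw [h2, prod_parts π]
  refine Finset.prod_le_prod' fun P hP => ?_
  obtain ⟨x, hx, hxA⟩ := hπ P hP
  have hex : ∃ x : P, x.1 ∈ A := ⟨⟨x, hx⟩, hxA⟩
  unfold wP
  rw [dif_pos hex]
  unfold wgt
  rw [Finset.prod_mul_distrib]
  refine mul_le_mul' ?_ ?_
  · have h3 := (rt o A P hex).2
    rw [← Finset.mul_prod_erase P _ h3, if_pos (rt_mem ho hex)]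
    refine (mul_le_mul_right (Finset.prod_le_one' fun j _ => ?_) _).trans (mul_one _).le
    split_ifs
    · exact h1 _
    · exact le_rfl
  · refine le_of_eq ?_
    rw [← Finset.prod_coe_sort]
    rfl

/-! ### The union bound -/

/-- Mass of the connected configurations of a part. -/
def aP (M : VSys J κ) (C β : ℝ) (ρ : Space3 → ℝ≥0∞) (A P : Finset J) : ℝ≥0∞ :=
  ∫⁻ z : P → PhasePoint, {z | (pull M (sub P)).Conn C Finset.univ z}.indicator
    (wP β ρ M.o A P) z

/-- Mass of the connected configurations of a part which are not tree-like. -/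
def dP (M : VSys J κ) (C ℓ ς β : ℝ) (ρ : Space3 → ℝ≥0∞) (A P : Finset J) : ℝ≥0∞ :=
  ∫⁻ z : P → PhasePoint, {z | (pull M (sub P)).Conn C Finset.univ z ∧
    ¬ TLQ (pull M (sub P)) C ℓ ς Finset.univ z}.indicator (wP β ρ M.o A P) z

theorem measurableSet_conn' [Finite κ] {J' : Type} [Fintype J'] {M : VSys J' κ} (hM : Good M)
    (C : ℝ) (P : Finset J') : MeasurableSet {z | M.Conn C P z} :=
  measurableSet_conn (Ω := J' → PhasePoint) (b := fun _ => M.b) (Z := fun Z => Z) hM
    measurable_const measurable_id C P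

theorem measurableSet_tlq' [Finite κ] {J' : Type} [Fintype J'] {M : VSys J' κ} (hM : Good M)
    (C ℓ ς : ℝ) (P : Finset J') : MeasurableSet {z | TLQ M C ℓ ς P z} :=
  measurableSet_tlq (Ω := J' → PhasePoint) (b := fun _ => M.b) (Z := fun Z => Z) hM
    measurable_const measurable_id C ℓ ς P

/-- **Union bound over the partitions.** -/
theorem lintegral_badQ_le [Finite κ] {M : VSys J κ} (hM : Good M) (C ℓ ς : ℝ) (s : ℕ)
    {A : Finset J} {β : ℝ} {ρ : Space3 → ℝ≥0∞} (hρ : Measurable ρ) (h1 : ∀ x, ρ x ≤ 1)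
    (ho : ∀ j, M.o = some j → j ∈ A) :
    ∫⁻ Z, (badQ M C ℓ ς s A).indicator (wA β ρ A) Z ≤
      ∑ π : Finpartition (Finset.univ : Finset J),
        ((if π.parts.card < s then ∏ P ∈ π.parts, aP M C β ρ A P else 0) +
        if π.parts.card = s then ∑ P₀ ∈ π.parts,
          dP M C ℓ ς β ρ A P₀ * ∏ P ∈ π.parts.erase P₀, aP M C β ρ A P else 0) := by
  -- measurable functions of the parts
  let F : (P : Finset J) → (P → PhasePoint) → ℝ≥0∞ := fun P =>
    {z | (pull M (sub P)).Conn C Finset.univ z}.indicator (wP β ρ M.o A P)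
  let D : (P : Finset J) → (P → PhasePoint) → ℝ≥0∞ := fun P =>
    {z | (pull M (sub P)).Conn C Finset.univ z ∧
      ¬ TLQ (pull M (sub P)) C ℓ ς Finset.univ z}.indicator (wP β ρ M.o A P)
  have hF : ∀ P, Measurable (F P) := fun P =>
    (measurable_wP hρ M.o A P).indicator (measurableSet_conn' (hM.pull (sub P)) C Finset.univ)
  have hD : ∀ P, Measurable (D P) := fun P =>
    (measurable_wP hρ M.o A P).indicator
      ((measurableSet_conn' (hM.pull (sub P)) C Finset.univ).inter
        (measurableSet_tlq' (hM.pull (sub P)) C ℓ ς Finset.univ).compl)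
  -- the pointwise bound
  have hpt : ∀ Z, (badQ M C ℓ ς s A).indicator (wA β ρ A) Z ≤
      ∑ π : Finpartition (Finset.univ : Finset J),
        ((if π.parts.card < s then ∏ P ∈ π.parts, F P (fun j => Z (sub P j)) else 0) +
        if π.parts.card = s then ∑ P₀ ∈ π.parts, ∏ P ∈ π.parts,
          (if P = P₀ then D P else F P) (fun j => Z (sub P j)) else 0) := by
    intro Z
    by_cases hZ : Z ∈ badQ M C ℓ ς s A
    · rw [indicator_of_mem hZ]
      obtain ⟨π, hπ, hcase⟩ := hZ
      refine le_trans ?_ (Finset.single_le_sum (f := fun π : Finpartition _ =>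
        ((if π.parts.card < s then ∏ P ∈ π.parts, F P (fun j => Z (sub P j)) else 0) +
        if π.parts.card = s then ∑ P₀ ∈ π.parts, ∏ P ∈ π.parts,
          (if P = P₀ then D P else F P) (fun j => Z (sub P j)) else 0))
        (fun _ _ => bot_le) (Finset.mem_univ π))
      have hw := wA_le (β := β) h1 ho π (fun P hP => (hπ P hP).2) Z
      rcases hcase with hlt | ⟨heq, P₀, hP₀, hbad⟩
      · rw [if_pos hlt]
        refine hw.trans (le_trans (Finset.prod_le_prod' fun P hP => ?_) le_self_add)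
        show _ ≤ indicator _ _ _
        rw [indicator_of_mem]
        exact (conn_sub hM C P Z).2 (hπ P hP).1
      · rw [if_pos heq]
        refine hw.trans (le_trans ?_ le_add_self)
        refine le_trans (Finset.prod_le_prod' fun P hP => ?_)
          (Finset.single_le_sum (f := fun P₀ => ∏ P ∈ π.parts,
            (if P = P₀ then D P else F P) (fun j => Z (sub P j))) (fun _ _ => bot_le) hP₀)
        by_cases hPP : P = P₀
        · subst hPP
          rw [if_pos rfl]
          show _ ≤ indicator _ _ _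
          rw [indicator_of_mem]
          exact ⟨(conn_sub hM C P Z).2 (hπ P hP).1, hbad⟩
        · rw [if_neg hPP]
          show _ ≤ indicator _ _ _
          rw [indicator_of_mem]
          exact (conn_sub hM C P Z).2 (hπ P hP).1
    · rw [indicator_of_notMem hZ]
      exact bot_le
  refine (lintegral_mono hpt).trans ?_
  have hsub : ∀ P : Finset J, Measurable fun (Z : J → PhasePoint) (j : P) => Z (sub P j) := fun P =>
    measurable_pi_lambda _ fun j => measurable_pi_apply _
  have hm1 : ∀ π : Finpartition (Finset.univ : Finset J), Measurable fun Z : J → PhasePoint =>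
      (if π.parts.card < s then ∏ P ∈ π.parts, F P (fun j => Z (sub P j)) else 0) := by
    intro π
    by_cases h : π.parts.card < s
    · simp only [if_pos h]
      exact Finset.measurable_prod _ fun P _ => (hF P).comp (hsub P)
    · simp only [if_neg h]
      exact measurable_const
  have hDF : ∀ P P₀ : Finset J, Measurable (if P = P₀ then D P else F P) := by
    intro P P₀
    by_cases h : P = P₀
    · simp only [if_pos h]; exact hD P
    · simp only [if_neg h]; exact hF P
  have hm2 : ∀ π : Finpartition (Finset.univ : Finset J), Measurable fun Z : J → PhasePoint =>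
      (if π.parts.card = s then ∑ P₀ ∈ π.parts, ∏ P ∈ π.parts,
          (if P = P₀ then D P else F P) (fun j => Z (sub P j)) else 0) := by
    intro π
    by_cases h : π.parts.card = s
    · simp only [if_pos h]
      exact Finset.measurable_sum _ fun P₀ _ => Finset.measurable_prod _ fun P _ =>
        (hDF P P₀).comp (hsub P)
    · simp only [if_neg h]
      exact measurable_const
  refine (lintegral_finsetSum _ fun π _ => (hm1 π).add (hm2 π)).trans_le ?_
  refine Finset.sum_le_sum fun π _ => ?_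
  simp only [Pi.add_apply]
  rw [lintegral_add_left (hm1 π)]
  refine add_le_add ?_ ?_
  · by_cases h : π.parts.card < s
    · simp only [if_pos h]
      rw [show (∫⁻ Z : J → PhasePoint, ∏ P ∈ π.parts, F P (fun j => Z (sub P j))) =
        ∏ P ∈ π.parts, ∫⁻ z : P → PhasePoint, F P z from
        PartProd973.lintegral_prod_parts π F hF]
      exact le_rfl
    · simp only [if_neg h, lintegral_zero, le_refl]
  · by_cases h : π.parts.card = s
    · simp only [if_pos h]
      refine (lintegral_finsetSum _ fun P₀ _ => Finset.measurable_prod _ fun P _ =>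
        (hDF P P₀).comp (hsub P)).trans_le ?_
      refine Finset.sum_le_sum fun P₀ hP₀ => ?_
      simp only [Function.comp_apply]
      rw [show (∫⁻ Z : J → PhasePoint, ∏ P ∈ π.parts,
          (if P = P₀ then D P else F P) (fun j => Z (sub P j))) =
        ∏ P ∈ π.parts, ∫⁻ z : P → PhasePoint, (if P = P₀ then D P else F P) z from
        PartProd973.lintegral_prod_parts π (fun P => if P = P₀ then D P else F P)
          fun P => hDF P P₀]
      rw [← Finset.mul_prod_erase _ _ hP₀]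
      refine le_of_eq ?_
      congr 1
      · rw [if_pos rfl]; rfl
      · refine Finset.prod_congr rfl fun P hP => ?_
        rw [if_neg (Finset.ne_of_mem_erase hP)]; rfl
    · simp only [if_neg h, lintegral_zero, le_refl]

end Crest.Agent.R122.VLMeas973
end
end

-- ▼ part R122/VLClass2_973

/-!
# Row 122, H11 (helper973): `ClassNull` from `VC` and `VLu`

* `ClassNull Φ T` (interface to helper473's gas level).
* `class_null : AdmissiblePotential Φ → 0 < T → VC Φ → VLu Φ → ClassNull Φ T`.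
* `class_null_seq` : sequence form with an obstacle, from `VC` and `VL`.
-/

set_option autoImplicit false
set_option linter.unusedSectionVars false

open MeasureTheory Set Filter Topology
open Crest.AnalysisR.Kinetic
open Crest.Agent.R122.Ins45 Crest.Agent.R122.GIV566 Crest.Agent.R122.VL581
open scoped Classical ENNReal NNReal

noncomputable section

namespace Crest.Agent.R122.VLMeas973

variable {J κ : Type} [Fintype J]

/-- System without obstacle. -/
def vsys (Φ : Space3 → ℝ) (T ε : ℝ) (b : J → ℝ) : VSys J Unit :=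
  ⟨Φ, T, ε, b, none, ⟨fun _ _ => 0, fun _ => 0⟩⟩

/-- **LN2 in class form**: jointly measurable majorant of the bad partitions, bound uniform in all
births. -/
def ClassNull (Φ : Space3 → ℝ) (T : ℝ) : Prop :=
  ∀ (J : Type) [Fintype J] (β C : ℝ) (s : ℕ) (A : Finset J) (ρ : Space3 → ℝ≥0∞), 0 < β →
    s ≤ Fintype.card J → Measurable ρ → (∀ x, ρ x ≤ 1) → ∫⁻ x, ρ x < ∞ → ∀ δ : ℝ≥0∞, 0 < δ →
    ∃ R > 0, ∃ ς > 0, ∃ ε₀ > 0, ∀ ε : ℝ, 0 < ε → ε < ε₀ →
      ∃ E : Set ((J → ℝ) × (J → PhasePoint)), MeasurableSet E ∧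
        (∀ b Z, (vsys Φ T ε b).BadPart C (R * ε) ς s A Z → (b, Z) ∈ E) ∧
        ∀ b, ∫⁻ Z, {Z | (b, Z) ∈ E}.indicator (fun Z => (∏ j ∈ A, ρ (Z j).1) *
          ∏ j, ENNReal.ofReal (Real.exp (-β * ‖(Z j).2‖ ^ 2))) Z ≤
          δ * ENNReal.ofReal (ε ^ 2) ^ (Fintype.card J - s)

/-! ### Numbers -/

theorem sum_card_sub (π : Finpartition (Finset.univ : Finset J)) :
    ∑ P ∈ π.parts, (P.card - 1) = Fintype.card J - π.parts.card := by
  rw [Finset.sum_tsub_distrib _ fun P hP => Finset.card_pos.2 (π.nonempty_of_mem_parts hP),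
    π.sum_card_parts, Finset.card_univ]
  simp

theorem card_parts_le (π : Finpartition (Finset.univ : Finset J)) :
    π.parts.card ≤ Fintype.card J := by
  have h := π.sum_card_parts
  rw [Finset.card_univ] at h
  calc π.parts.card = ∑ P ∈ π.parts, 1 := by simp
    _ ≤ ∑ P ∈ π.parts, P.card := Finset.sum_le_sum fun P hP =>
        Finset.card_pos.2 (π.nonempty_of_mem_parts hP)
    _ = Fintype.card J := h

/-- The numerical form of the union bound. -/
theorem lintegral_badQ_le' [Finite κ] {M : VSys J κ} (hM : Good M) {C ℓ ς : ℝ} {s : ℕ}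
    (hs : s ≤ Fintype.card J) {A : Finset J} {β : ℝ} {ρ : Space3 → ℝ≥0∞} (hρ : Measurable ρ)
    (h1 : ∀ x, ρ x ≤ 1) (ho : ∀ j, M.o = some j → j ∈ A) {x B η : ℝ≥0∞} (hx : x ≤ 1)
    (ha : ∀ P : Finset J, aP M C β ρ A P ≤ B * x ^ (P.card - 1))
    (hd : ∀ P : Finset J, dP M C ℓ ς β ρ A P ≤ η * x ^ (P.card - 1)) :
    ∫⁻ Z, (badQ M C ℓ ς s A).indicator (wA β ρ A) Z ≤
      ((Fintype.card (Finpartition (Finset.univ : Finset J)) : ℝ≥0∞) *
        (B + 1) ^ Fintype.card J * (x + Fintype.card J * η)) * x ^ (Fintype.card J - s) := by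
  refine (lintegral_badQ_le hM C ℓ ς s hρ h1 ho).trans ?_
  set m := Fintype.card J with hm
  have hB1 : (1 : ℝ≥0∞) ≤ B + 1 := le_add_self
  have key : ∀ π : Finpartition (Finset.univ : Finset J),
      ((if π.parts.card < s then ∏ P ∈ π.parts, aP M C β ρ A P else 0) +
        if π.parts.card = s then ∑ P₀ ∈ π.parts,
          dP M C ℓ ς β ρ A P₀ * ∏ P ∈ π.parts.erase P₀, aP M C β ρ A P else 0) ≤
      (B + 1) ^ m * (x + m * η) * x ^ (m - s) := by
    intro π
    have hpm := card_parts_le π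
    have hpow : ∏ P ∈ π.parts, x ^ (P.card - 1) = x ^ (m - π.parts.card) := by
      rw [Finset.prod_pow_eq_pow_sum, sum_card_sub]
    have hBp : ∀ n ≤ m, B ^ n ≤ (B + 1) ^ m := fun n hn =>
      (pow_le_pow_left' le_self_add n).trans (pow_le_pow_right' hB1 hn)
    by_cases hlt : π.parts.card < s
    · rw [if_pos hlt, if_neg hlt.ne, add_zero]
      calc ∏ P ∈ π.parts, aP M C β ρ A P
          ≤ ∏ P ∈ π.parts, (B * x ^ (P.card - 1)) := Finset.prod_le_prod' fun P _ => ha P
        _ = B ^ π.parts.card * x ^ (m - π.parts.card) := by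
            rw [Finset.prod_mul_distrib, Finset.prod_const, hpow]
        _ ≤ (B + 1) ^ m * (x * x ^ (m - s)) := by
            refine mul_le_mul' (hBp _ hpm) ?_
            rw [← pow_succ']
            exact pow_le_pow_right_of_le_one' hx (by omega)
        _ ≤ (B + 1) ^ m * ((x + m * η) * x ^ (m - s)) := by gcongr; exact le_self_add
        _ = _ := by ring
    · rw [if_neg hlt, zero_add]
      by_cases heq : π.parts.card = s
      · rw [if_pos heq]
        have h2 : ∀ P₀ ∈ π.parts, dP M C ℓ ς β ρ A P₀ *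
            ∏ P ∈ π.parts.erase P₀, aP M C β ρ A P ≤ (B + 1) ^ m * η * x ^ (m - s) := by
          intro P₀ hP₀
          calc dP M C ℓ ς β ρ A P₀ * ∏ P ∈ π.parts.erase P₀, aP M C β ρ A P
              ≤ (η * x ^ (P₀.card - 1)) *
                ∏ P ∈ π.parts.erase P₀, (B * x ^ (P.card - 1)) :=
                mul_le_mul' (hd P₀) (Finset.prod_le_prod' fun P _ => ha P)
            _ = B ^ (π.parts.erase P₀).card * η * (x ^ (P₀.card - 1) *
                ∏ P ∈ π.parts.erase P₀, x ^ (P.card - 1)) := by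
                rw [Finset.prod_mul_distrib, Finset.prod_const]; ring
            _ = B ^ (π.parts.erase P₀).card * η * x ^ (m - s) := by
                rw [Finset.mul_prod_erase _ (fun P => x ^ (P.card - 1)) hP₀, hpow, heq]
            _ ≤ (B + 1) ^ m * η * x ^ (m - s) := by
                exact mul_le_mul' (mul_le_mul' (hBp _ ((Finset.card_erase_le).trans hpm)) le_rfl)
                  le_rfl
        calc ∑ P₀ ∈ π.parts, dP M C ℓ ς β ρ A P₀ * ∏ P ∈ π.parts.erase P₀, aP M C β ρ A P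
            ≤ ∑ _P₀ ∈ π.parts, (B + 1) ^ m * η * x ^ (m - s) := Finset.sum_le_sum h2
          _ = (π.parts.card : ℝ≥0∞) * ((B + 1) ^ m * η * x ^ (m - s)) := by
              rw [Finset.sum_const, nsmul_eq_mul]
          _ ≤ (m : ℝ≥0∞) * ((B + 1) ^ m * η * x ^ (m - s)) := by
              gcongr
          _ = (B + 1) ^ m * (m * η) * x ^ (m - s) := by ring
          _ ≤ _ := by gcongr; exact le_add_self
      · rw [if_neg heq]
        exact bot_le
  calc _ ≤ ∑ _π : Finpartition (Finset.univ : Finset J),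
        (B + 1) ^ m * (x + m * η) * x ^ (m - s) := Finset.sum_le_sum fun π _ => key π
    _ = _ := by
      rw [Finset.sum_const, nsmul_eq_mul, Finset.card_univ]
      ring

theorem exists_eta {B : ℝ≥0∞} (hB : B ≠ ∞) {δ : ℝ≥0∞} (hδ : 0 < δ) :
    ∃ η : ℝ≥0∞, 0 < η ∧ B * (η + B * η) ≤ δ := by
  have h0 : (B + 1) ^ 2 ≠ 0 := pow_ne_zero _ (by simp)
  have h1 : (B + 1) ^ 2 ≠ ∞ := ENNReal.pow_ne_top (ENNReal.add_ne_top.2 ⟨hB, ENNReal.one_ne_top⟩)
  refine ⟨δ / (B + 1) ^ 2, ENNReal.div_pos hδ.ne' h1, ?_⟩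
  calc B * (δ / (B + 1) ^ 2 + B * (δ / (B + 1) ^ 2))
      ≤ (B + 1) ^ 2 * (δ / (B + 1) ^ 2) := by
        have : B * (δ / (B + 1) ^ 2 + B * (δ / (B + 1) ^ 2)) =
          (B * (1 + B)) * (δ / (B + 1) ^ 2) := by ring
        rw [this]
        gcongr
        calc B * (1 + B) ≤ (B + 1) * (1 + B) := by gcongr; exact le_self_add
          _ = (B + 1) ^ 2 := by ring
    _ = δ := ENNReal.mul_div_cancel h0 h1

theorem treeLike_mono {M : VSys J κ} {C ℓ ℓ' ς ς' : ℝ} {P : Finset J} {Z : J → PhasePoint}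
    (hℓ : ℓ ≤ ℓ') (hς : ς' ≤ ς) (h : M.TreeLike C ℓ ς P Z) : M.TreeLike C ℓ' ς' P Z := by
  obtain ⟨h1, E, σ, h2, h3, h4, h5, h6, h7⟩ := h
  refine ⟨h1, E, σ, h2, h3, fun e he => ?_, fun e he i => ?_, fun e he e' he' hne => ?_,
    fun i hi j hj hij t ht hc => ?_⟩
  · have := h4 e he
    exact ⟨by linarith [this.1], by linarith [this.2]⟩
  · exact lt_of_le_of_lt hς (h5 e he i)
  · exact lt_of_le_of_lt hς (h6 e he e' he' hne)
  · obtain ⟨e, he, heq, hle⟩ := h7 i hi j hj hij t ht hc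
    exact ⟨e, he, heq, hle.trans hℓ⟩

theorem ofReal_pow_two_mul (ε : ℝ) (n : ℕ) :
    ENNReal.ofReal (ε ^ (2 * n)) = ENNReal.ofReal (ε ^ 2) ^ n := by
  rw [pow_mul, ENNReal.ofReal_pow (by positivity)]

/-- Masses of the connected parts from `VC`. -/
theorem exists_aP_bound {Φ : Space3 → ℝ} (hVC : VC Φ) [Fintype κ] {β T C : ℝ} (hβ : 0 < β)
    (L : ℝ≥0) : ∃ K : ℝ≥0, ∀ M : VSys J κ, M.Φ = Φ → M.T = T → 0 < M.ε → M.ε ≤ 1 →
      (∀ k, LipschitzOnWith L (M.S.c k) (Icc 0 T)) → ∀ (A : Finset J) (ρ : Space3 → ℝ≥0∞),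
      Measurable ρ → ∀ P : Finset J,
      aP M C β ρ A P ≤ (K * ∫⁻ x, ρ x) * ENNReal.ofReal (M.ε ^ 2) ^ (P.card - 1) := by
  choose K hK using fun P : Finset J => hVC P κ β T C L hβ
  refine ⟨∑ P, K P, fun M hΦ hT hε hε1 hL A ρ hρ P => ?_⟩
  unfold aP
  by_cases h : ∃ x : P, x.1 ∈ A
  · have h1 : wP β ρ M.o A P = wgt β ρ (rt M.o A P h) := by
      funext z
      unfold wP
      rw [dif_pos h]
    rw [h1]
    refine (hK P (pull M (sub P)) hΦ hT hε hε1 hL (rt M.o A P h) (fun j hj => ?_) ρ hρ).trans ?_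
    · exact rt_obs h j ((pull_o M (sub P) j).1 hj)
    · rw [Fintype.card_coe, pull_ε, ofReal_pow_two_mul, mul_right_comm]
      gcongr
      exact Finset.single_le_sum (f := fun P => K P) (fun _ _ => bot_le) (Finset.mem_univ P)
  · have h1 : wP β ρ M.o A P = fun _ => 0 := by
      funext z
      unfold wP
      rw [dif_neg h]
    rw [h1]
    simp

theorem exists_pos_le {ι : Type} [Finite ι] [Nonempty ι] (f : ι → ℝ) (hf : ∀ i, 0 < f i) :
    ∃ c > 0, ∀ i, c ≤ f i := by
  obtain ⟨i₀, hi₀⟩ := Finite.exists_min f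
  exact ⟨f i₀, hf i₀, hi₀⟩

theorem good_vsys {Φ : Space3 → ℝ} (hΦ : AdmissiblePotential Φ) {T ε : ℝ} (hT : 0 ≤ T) (hε : 0 < ε)
    (b : J → ℝ) : Good (vsys Φ T ε b) := ⟨hΦ, hε, hT, fun _ => continuousOn_const⟩

/-- Masses of the parts which are not tree-like from `VLu`. -/
theorem exists_dP_bound {Φ : Space3 → ℝ} (hVL : VLu Φ) {β T C : ℝ}
    (hβ : 0 < β) (hT : 0 < T) (A : Finset J) {ρ : Space3 → ℝ≥0∞} (hρ : Measurable ρ)
    (hρf : ∫⁻ x, ρ x < ∞) {η : ℝ≥0∞} (hη : 0 < η) :
    ∃ R > 0, ∃ ς > 0, ∃ ε₀ > 0, ∀ ε : ℝ, 0 < ε → ε < ε₀ → ∀ (b : J → ℝ) (P : Finset J),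
      dP (vsys Φ T ε b) C (R * ε) ς β ρ A P ≤ η * ENNReal.ofReal (ε ^ 2) ^ (P.card - 1) := by
  have h1 : ∀ P : Finset J, ∃ R > 0, ∃ ς > 0, ∃ ε₀ > 0, ∀ (h : ∃ x : P, x.1 ∈ A) (ε : ℝ), 0 < ε →
      ε < ε₀ → ∀ b : J → ℝ, ∫⁻ z, {z | (pull (vsys Φ T ε b) (sub P)).Conn C Finset.univ z ∧
        ¬ (pull (vsys Φ T ε b) (sub P)).TreeLike C (R * ε) ς Finset.univ z}.indicator
          (wgt β ρ (rt none A P h)) z ≤ η * ENNReal.ofReal (ε ^ (2 * (P.card - 1))) := by
    intro P
    by_cases h : ∃ x : P, x.1 ∈ A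
    · obtain ⟨R, hR, ς, hς, ε₀, hε₀, hb⟩ := hVL P β T C hβ hT (rt none A P h) ρ hρ hρf η hη
      refine ⟨R, hR, ς, hς, ε₀, hε₀, fun h' ε hε hlt b => ?_⟩
      have h2 := hb (pull (vsys Φ T ε b) (sub P)) rfl rfl (by
        unfold pull vsys
        simp) hε hlt
      rw [Fintype.card_coe] at h2
      exact h2
    · exact ⟨1, one_pos, 1, one_pos, 1, one_pos, fun h' => absurd h' h⟩
  choose R hR ς hς ε₀ hε₀ hb using h1
  obtain ⟨ς', hς', hς'le⟩ := exists_pos_le ς hς
  obtain ⟨ε', hε', hε'le⟩ := exists_pos_le ε₀ hε₀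
  refine ⟨1 + ∑ P, R P, by
    have : 0 ≤ ∑ P, R P := Finset.sum_nonneg fun P _ => (hR P).le
    linarith, ς', hς', ε', hε', fun ε hε hlt b P => ?_⟩
  have hRle : R P < 1 + ∑ P, R P := by
    have : R P ≤ ∑ P, R P := Finset.single_le_sum (fun P _ => (hR P).le) (Finset.mem_univ P)
    linarith
  unfold dP
  by_cases h : ∃ x : P, x.1 ∈ A
  · have h1 : wP β ρ (vsys Φ T ε b).o A P = wgt β ρ (rt none A P h) := by
      funext z
      unfold wP
      rw [dif_pos h]
      rfl
    rw [h1, ← ofReal_pow_two_mul]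
    refine le_trans (lintegral_mono fun z => ?_) (hb P h ε hε (hlt.trans_le (hε'le P)) b)
    refine indicator_le_indicator_of_subset (fun z hz => ?_) (fun _ => bot_le) z
    refine ⟨hz.1, fun h2 => hz.2 ?_⟩
    exact tlq_of_treeLike (mul_lt_mul_of_pos_right hRle hε) (treeLike_mono le_rfl (hς'le P) h2)
  · have h1 : wP β ρ (vsys Φ T ε b).o A P = fun _ => 0 := by
      funext z
      unfold wP
      rw [dif_neg h]
    rw [h1]
    simp

/-- **LN2 in class form from `VC` and `VLu`.** -/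
theorem class_null {Φ : Space3 → ℝ} (hΦ : AdmissiblePotential Φ) {T : ℝ} (hT : 0 < T)
    (hVC : VC Φ) (hVL : VLu Φ) : ClassNull Φ T := by
  intro J _ β C s A ρ hβ hs hρ hρ1 hρf δ hδ
  obtain ⟨K, hK⟩ := exists_aP_bound (J := J) (κ := Unit) (C := C) (T := T) hVC hβ 0
  set B : ℝ≥0∞ := K * ∫⁻ x, ρ x with hB
  have hBf : B ≠ ∞ := ENNReal.mul_ne_top ENNReal.coe_ne_top hρf.ne
  set N : ℝ≥0∞ := (Fintype.card (Finpartition (Finset.univ : Finset J)) : ℝ≥0∞) with hN
  set D : ℝ≥0∞ := N * (B + 1) ^ Fintype.card J + Fintype.card J with hD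
  have hDf : D ≠ ∞ := by
    refine ENNReal.add_ne_top.2 ⟨ENNReal.mul_ne_top (ENNReal.natCast_ne_top _)
      (ENNReal.pow_ne_top (ENNReal.add_ne_top.2 ⟨hBf, ENNReal.one_ne_top⟩)),
      ENNReal.natCast_ne_top _⟩
  obtain ⟨η, hη, hηle⟩ := exists_eta hDf hδ
  obtain ⟨R, hR, ς, hς, ε₀, hε₀, hd⟩ := exists_dP_bound (J := J) (C := C) hVL hβ hT A hρ hρf hη
  -- `ε ^ 2 ≤ η`
  have htend : Tendsto (fun ε : ℝ => ENNReal.ofReal (ε ^ 2)) (𝓝 0) (𝓝 0) := by
    have h : Continuous fun ε : ℝ => ENNReal.ofReal (ε ^ 2) :=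
      ENNReal.continuous_ofReal.comp (continuous_pow 2)
    have h2 := h.tendsto 0
    simpa using h2
  obtain ⟨ε₁, hε₁, hε₁η⟩ := Metric.eventually_nhds_iff.1 (htend.eventually_lt_const hη)
  refine ⟨R, hR, ς, hς, min ε₀ (min ε₁ 1), by positivity, fun ε hε hlt => ?_⟩
  have hlt0 : ε < ε₀ := hlt.trans_le (min_le_left _ _)
  have hlt1 : ε < ε₁ := hlt.trans_le ((min_le_right _ _).trans (min_le_left _ _))
  have hlt2 : ε < 1 := hlt.trans_le ((min_le_right _ _).trans (min_le_right _ _))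
  have hx : ENNReal.ofReal (ε ^ 2) < η := hε₁η (by
    rw [Real.dist_eq, sub_zero, abs_of_pos hε]
    exact hlt1)
  have hx1 : ENNReal.ofReal (ε ^ 2) ≤ 1 := by
    rw [← ENNReal.ofReal_one]
    exact ENNReal.ofReal_le_ofReal (pow_le_one₀ hε.le hlt2.le)
  refine ⟨{p | p.2 ∈ badQ (vsys Φ T ε p.1) C (R * ε) ς s A}, ?_, ?_, ?_⟩
  · exact measurableSet_badQ (M := vsys Φ T ε fun _ => 0) (b := fun p : (J → ℝ) × _ => p.1)
      (Z := fun p => p.2) (good_vsys hΦ hT.le hε _) measurable_fst measurable_snd C (R * ε) ς s A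
  · exact fun b Z h => badPart_subset (good_vsys hΦ hT.le hε b) h
  · intro b
    have h3 := lintegral_badQ_le' (M := vsys Φ T ε b) (good_vsys hΦ hT.le hε b)
      (C := C) (ℓ := R * ε) (ς := ς) hs (A := A) (β := β) hρ hρ1 (fun j hj => by
        unfold vsys at hj; simp at hj) (x := ENNReal.ofReal (ε ^ 2)) (B := B) (η := η) hx1
      (fun P => hK (vsys Φ T ε b) rfl rfl hε hlt2.le (fun _ => (LipschitzWith.const _).lipschitzOnWith) A ρ hρ P)
      (fun P => hd ε hε hlt0 b P)
    refine le_trans (le_of_eq rfl) (h3.trans ?_)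
    gcongr
    refine le_trans ?_ hηle
    calc N * (B + 1) ^ Fintype.card J * (ENNReal.ofReal (ε ^ 2) + Fintype.card J * η)
        ≤ D * (η + D * η) := by
          refine mul_le_mul' le_self_add (add_le_add hx.le ?_)
          gcongr
          exact le_add_self
      _ = _ := rfl

end Crest.Agent.R122.VLMeas973
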