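import Crest.Agent.R122.E6Str_491
import Crest.Agent.R122.PWInst4_442
import Crest.Agent.R122.PartsCt_564
import Crest.Agent.R122.NuL_735
import Crest.Agent.R122.VLClass2_973

-- ▼ part R122/BasePair_45
section

/-!
# The pairs of lines of a one-contact structure (row 122, S^(0), helper45)

* `Base1 M Z te P z eP a l` : the labels `eP` carry the tree `(P, z)`, the label `a` carries the line
  `l`; the line `l` meets the root line of the tree (contact set of helper423).
* `Base1.enc` : the encounter of helper491's structures `{a}` and `part eP`.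
* `Base1.pair_ee`, `pair_er`, `pair_el`, `pair_ec` : the pairs (exit, exit), (exit, root reborn),
  (exit, `l'`), (exit, `c'`).
* `Base1.pair` : the pairs `x`, `y` of lines of the family `oneLs`, `x` an exit.
-/

set_option autoImplicit false
set_option linter.unusedSectionVars false

open MeasureTheory Set Filter Topology
open scoped NNReal ENNReal
open Crest.AnalysisR.Kinetic
open Crest.Agent.R122.Flow671 hiding rel
open Crest.Agent.R122.Loc45 Crest.Agent.R122.Ins45
open Crest.Agent.R122.VL581 Crest.Agent.R122.VL581.VSys Crest.Agent.R122.VLInst442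
open Crest.Agent.R122.LNInst491 Crest.Agent.R122.LN304 Crest.Agent.R122.LNg410
open Crest.Agent.R122.Kin796 Crest.Agent.R122.Kin796.CTree Crest.Agent.R122.Tree674
open Crest.Agent.R122.PathFlow968 Crest.Agent.R122.TreeLines335 Crest.Agent.R122.EDefs602
open Crest.Agent.R122.LNTree410 Crest.Agent.R122.PWGlue491 Crest.Agent.R122.Inf879
open Crest.Agent.R122.LNGraft410 Crest.Agent.R122.LNEv968
open Crest.Agent.R122.PWInst442 (LineIn oLab exists_bE)
open Crest.Agent.R122.StrG491
open Crest.Agent.R122.OCout796 Crest.Agent.R122.Scat818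
open Crest.Agent.R122.OneC285 (cT cB cD cX oneLs)
open scoped Classical

noncomputable section

namespace Crest.Agent.R122.BasePair45

variable {J κ : Type} [Fintype J] {M : VSys J κ} {Z : J → PhasePoint}
variable {c : ℝ} {bD : J → ℝ} {ℓ ς te : ℝ} {P : CTree} {z : PhasePoint × Par P} {eP : Idx P ↪ J}
  {a : J} {l : ML}

/-- The line `l` (label `a`) meets the root line of the tree `(P, z)` (labels `eP`). -/
structure Base1 (M : VSys J κ) (Z : J → PhasePoint) (te : ℝ) (P : CTree)
    (z : PhasePoint × Par P) (eP : Idx P ↪ J) (a : J) (l : ML) : Prop where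
  tree : TreeIn M Z M.T P z.1 z.2 eP
  line : LineIn M Z a l.1
  ha : ∀ x, eP x ≠ a
  ct : (z, l.1) ∈ OneC423.ctSet M.Φ M.ε te P
  te_lt : te < M.T
  cd : CDok (cD M.ε z l)

namespace Base1

variable (h : Base1 M Z te P z eP a l)
include h

theorem birth : 0 ≤ l.1.1 := by
  rw [← h.line.b]
  exact bb_nonneg M a

theorem lt_cT : l.1.1 < cT M.ε z l := h.ct.2.2.1

theorem cT_pos : 0 < cT M.ε z l := h.birth.trans_lt h.lt_cT

theorem cT_lt : cT M.ε z l < M.T := h.ct.2.2.2.1.trans_lt h.te_lt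

theorem T_pos : 0 < M.T := h.cT_pos.trans h.cT_lt

theorem rel_lt (hε : 0 < M.ε) (i : Idx P) : rel P z.2 i < cT M.ε z l :=
  TreeLines335.rel_lt hε.le h.cT_pos h.ct.2.2.2.2.2 i

theorem dj : Disjoint ({a} : Finset J) (part eP) := by
  rw [Finset.disjoint_singleton_left]
  intro h'
  obtain ⟨x, hx⟩ := mem_part.1 h'
  exact h.ha x hx

/-- Exit times of the structure. -/
structure BD (z : PhasePoint × Par P) (eP : Idx P ↪ J) (a : J) (l : ML) (bD : J → ℝ) : Prop where
  tr : ∀ i, bD (eP i) = rel P z.2 i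
  ln : bD a = l.1.1

theorem exists_bd : ∃ bD : J → ℝ, BD z eP a l bD := by
  obtain ⟨bD, h1, h2⟩ := exists_bE h.ha (rel P z.2) l.1.1
  exact ⟨bD, h1, h2⟩

variable [Nonempty κ] (hC : 1 ≤ c) (hΦ : AdmissiblePotential M.Φ) (hε : 0 < M.ε)
  (hb : BD z eP a l bD)
include hC hΦ hε hb

/-- **The encounter.** -/
theorem enc : Enc M c Z (RC M Z {a}) (RC M Z (part eP)) {a} (part eP) (clOf {a})
    (clOf (part eP)) bD {a} (part eP) a (eP (root P)) (cT M.ε z l) (cX M.ε z l)
    (cD M.ε z l) where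
  s₁ := Str.single hC hε h.line.o (hb.ln.trans h.line.b.symm)
  s₂ := Str.tree hC hε hΦ h.T_pos h.tree hb.tr
  dj := h.dj
  hy := Finset.mem_singleton_self a
  ha := mem_part_self _
  lty := by
    rw [hb.ln]
    exact h.lt_cT
  lta := by
    rw [hb.tr]
    exact h.rel_lt hε _
  cd := h.cd
  sy := by
    rw [clOf_mem (Finset.mem_singleton_self a), h.line.st hΦ hε h.lt_cT.le h.cT_lt.le]
    exact One796.state_l hε z l
  sa := by
    rw [clOf_mem (mem_part_self (root P)), h.tree.line_tree hΦ hε (root P) (h.rel_lt hε _).le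
      h.cT_lt.le, fin_root]
    rfl
  lt_T := h.cT_lt

omit hC hb in
/-- State of a particle of the tree at its release time. -/
theorem st_rel (i : Idx P) :
    M.st (part eP) (lineML M.Φ M.ε P z i).1.1 Z (eP i) = (lineML M.Φ M.ε P z i).1.2 :=
  h.tree.line_tree hΦ hε i le_rfl ((h.rel_lt hε i).trans h.cT_lt).le

/-- **The pair (exit, exit)**; `j` may be the root, born at its release. -/
theorem pair_ee {i j : Idx P} (hij : i ≠ j) :
    Pair M c Z (joinR (RC M Z {a}) (RC M Z (part eP)) a (eP (root P)) (cT M.ε z l))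
      ({a} ∪ part eP) (clSep (clOf {a}) (clOf (part eP))) bD (eP i) (eP j)
      (lineML M.Φ M.ε P z i).1 (lineML M.Φ M.ε P z j).1 := by
  have hm := (h.enc hC hΦ hε hb).meet hε
  have hst : ∀ k : Idx P, M.st (clSep (clOf {a}) (clOf (part eP)) (eP k))
      (lineML M.Φ M.ε P z k).1.1 Z (eP k) = (lineML M.Φ M.ε P z k).1.2 := by
    intro k
    rw [hm.cl₂_of (mem_part_self k), clOf_mem (mem_part_self k)]
    exact h.st_rel hΦ hε k
  refine ⟨hm.join hC hε (fun k hk => ?_) fun h' => ?_, fun h' => hij (eP.injective h'),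
    (hb.tr i).symm, (hb.tr j).le, fun _ => hst i, fun _ => hst j⟩
  · rcases Finset.mem_insert.1 hk with rfl | hk
    · exact Finset.mem_union_right _ (mem_part_self i)
    · rw [Finset.mem_singleton.1 hk]
      exact Finset.mem_union_right _ (mem_part_self j)
  · rcases Finset.mem_insert.1 h'.1 with h1 | h1
    · exact h.ha i h1.symm
    · exact h.ha j (Finset.mem_singleton.1 h1).symm

/-- **The pair (exit, root reborn)**. -/
theorem pair_er {i : Idx P} (hi : i ≠ root P) (hp : CDpass M.Φ (cD M.ε z l)) :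
    Pair M c Z (joinR (RC M Z {a}) (RC M Z (part eP)) a (eP (root P)) (cT M.ε z l))
      ({a} ∪ part eP) (clSep (clOf {a}) (clOf (part eP))) bD (eP i) (eP (root P))
      (lineML M.Φ M.ε P z i).1 (lineC M.Φ M.ε (cT M.ε z l) (cX M.ε z l) (cD M.ε z l)) := by
  have h0 := h.pair_ee hC hΦ hε hb hi
  have hm := (h.enc hC hΦ hε hb).meet hε
  have hpos := hp.outT_pos hε
  refine ⟨h0.str, h0.ne, h0.bx, ?_, h0.lx, fun hT => ?_⟩
  · rw [hb.tr]
    exact ((h.rel_lt hε _).trans (lt_add_of_pos_right _ hpos)).le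
  · have h1 : cT M.ε z l ≤ cT M.ε z l + outT M.Φ M.ε (cD M.ε z l) :=
      (lt_add_of_pos_right _ hpos).le
    rw [hm.cl₂_of (mem_part_self (root P)), clOf_mem (mem_part_self (root P))]
    change M.st (part eP) (cT M.ε z l + outT M.Φ M.ε (cD M.ε z l)) Z (eP (root P)) =
      (cX M.ε z l + outT M.Φ M.ε (cD M.ε z l) • (cD M.ε z l).2.1, (cD M.ε z l).2.1)
    have hle : rel P z.2 (root P) ≤ cT M.ε z l + outT M.Φ M.ε (cD M.ε z l) :=
      (h.rel_lt hε _).le.trans h1
    rw [h.tree.line_tree hΦ hε (root P) hle hT, fin_root]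
    refine Prod.ext ?_ rfl
    change z.1.1 + (cT M.ε z l + outT M.Φ M.ε (cD M.ε z l)) • z.1.2 =
      z.1.1 + cT M.ε z l • z.1.2 + outT M.Φ M.ε (cD M.ε z l) • z.1.2
    rw [add_smul, add_assoc]

variable (hT : TL M c ℓ ς ({a} ∪ part eP) Z) (hℓς : 2 * ℓ ≤ ς) (hp : CDpass M.Φ (cD M.ε z l))
  (hle : cT M.ε z l + outT M.Φ M.ε (cD M.ε z l) ≤ M.T)
include hT hℓς hp hle

/-- The structure after the encounter. -/
theorem graft : Str M c Z (joinR (RC M Z {a}) (RC M Z (part eP)) a (eP (root P)) (cT M.ε z l))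
    ({a} ∪ part eP) (clMrg (clOf {a}) (clOf (part eP)) a (eP (root P)))
    (grafted M.Φ M.ε bD a (eP (root P)) (cT M.ε z l) (cD M.ε z l)) ({a} ∪ part eP) :=
  (h.enc hC hΦ hε hb).graft hC hΦ hε hT hℓς hp hle

/-- The exit in the structure after the encounter. -/
theorem st_exit {i : Idx P} (hi : i ≠ root P) (ht : (lineML M.Φ M.ε P z i).1.1 ≤ M.T) :
    M.st (clMrg (clOf {a}) (clOf (part eP)) a (eP (root P)) (eP i))
      (lineML M.Φ M.ε P z i).1.1 Z (eP i) = (lineML M.Φ M.ε P z i).1.2 := by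
  have hn : eP i ≠ eP (root P) := fun h' => hi (eP.injective h')
  rw [(h.enc hC hΦ hε hb).st₂ hC hΦ hε hT hℓς (mem_part_self i) hn ht, clOf_mem (mem_part_self i)]
  exact h.st_rel hΦ hε i

/-- The exit time of an exit after the encounter. -/
theorem bd_exit {i : Idx P} (hi : i ≠ root P) :
    grafted M.Φ M.ε bD a (eP (root P)) (cT M.ε z l) (cD M.ε z l) (eP i) = rel P z.2 i := by
  rw [Enc.grafted_of_ne (h.ha i) fun h' => hi (eP.injective h'), hb.tr]

/-- **The pair (exit, `l'`).** -/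
theorem pair_el {i : Idx P} (hi : i ≠ root P) :
    Pair M c Z (joinR (RC M Z {a}) (RC M Z (part eP)) a (eP (root P)) (cT M.ε z l))
      ({a} ∪ part eP) (clMrg (clOf {a}) (clOf (part eP)) a (eP (root P)))
      (grafted M.Φ M.ε bD a (eP (root P)) (cT M.ε z l) (cD M.ε z l)) (eP i) a
      (lineML M.Φ M.ε P z i).1 (lineL' M.Φ M.ε (cT M.ε z l) (cX M.ε z l) (cD M.ε z l)) where
  str := (h.graft hC hΦ hε hb hT hℓς hp hle).mono fun k hk => by
    rcases Finset.mem_insert.1 hk with rfl | hk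
    · exact Finset.mem_union_right _ (mem_part_self i)
    · rw [Finset.mem_singleton.1 hk]
      exact Finset.mem_union_left _ (Finset.mem_singleton_self a)
  ne := h.ha i
  bx := (h.bd_exit hC hΦ hε hb hT hℓς hp hle hi).symm
  bY := (if_pos (Or.inl rfl)).le
  lx ht := h.st_exit hC hΦ hε hb hT hℓς hp hle hi ht
  ly ht := by
    change M.st (clMrg (clOf {a}) (clOf (part eP)) a (eP (root P)) a)
      (cT M.ε z l + outT M.Φ M.ε (cD M.ε z l)) Z a = _
    rw [(h.enc hC hΦ hε hb).line_y hC hΦ hε hT hℓς hp hle le_rfl hle, lineAt_self]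

/-- **The pair (exit, `c'`).** -/
theorem pair_ec {i : Idx P} (hi : i ≠ root P) :
    Pair M c Z (joinR (RC M Z {a}) (RC M Z (part eP)) a (eP (root P)) (cT M.ε z l))
      ({a} ∪ part eP) (clMrg (clOf {a}) (clOf (part eP)) a (eP (root P)))
      (grafted M.Φ M.ε bD a (eP (root P)) (cT M.ε z l) (cD M.ε z l)) (eP i) (eP (root P))
      (lineML M.Φ M.ε P z i).1 (lineC' M.Φ M.ε (cT M.ε z l) (cX M.ε z l) (cD M.ε z l)) where
  str := (h.graft hC hΦ hε hb hT hℓς hp hle).mono fun k hk => by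
    rcases Finset.mem_insert.1 hk with rfl | hk
    · exact Finset.mem_union_right _ (mem_part_self i)
    · rw [Finset.mem_singleton.1 hk]
      exact Finset.mem_union_right _ (mem_part_self _)
  ne h' := hi (eP.injective h')
  bx := (h.bd_exit hC hΦ hε hb hT hℓς hp hle hi).symm
  bY := (if_pos (Or.inr rfl)).le
  lx ht := h.st_exit hC hΦ hε hb hT hℓς hp hle hi ht
  ly ht := by
    change M.st (clMrg (clOf {a}) (clOf (part eP)) a (eP (root P)) (eP (root P)))
      (cT M.ε z l + outT M.Φ M.ε (cD M.ε z l)) Z (eP (root P)) = _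
    rw [(h.enc hC hΦ hε hb).line_a hC hΦ hε hT hℓς hp hle le_rfl hle, lineAt_self]

omit hb in
/-- **The pairs of lines of a one-contact structure**: `x` an exit, `y` another line (exit, root
reborn, `l'`, `c'`). -/
theorem pair {i : Idx P} (hi : i ≠ root P) {y : Idx P ⊕ Bool} (hy : y ≠ Sum.inl i) :
    ∃ (R : ℝ → J → J → Prop) (cl : J → Finset J) (bD : J → ℝ),
      Pair M c Z R ({a} ∪ part eP) cl bD (eP i) (oLab eP a y)
        (oneLs M.Φ M.ε P z l (Sum.inl i)).1 (oneLs M.Φ M.ε P z l y).1 := by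
  obtain ⟨bD, hb⟩ := h.exists_bd
  rw [oneLs_exit hi]
  rcases y with j | (_ | _)
  · have hij : i ≠ j := fun h' => hy (by rw [h'])
    by_cases hj : j = root P
    · subst hj
      rw [oneLs_root]
      exact ⟨_, _, _, h.pair_er hC hΦ hε hb hi hp⟩
    · rw [oneLs_exit hj]
      exact ⟨_, _, _, h.pair_ee hC hΦ hε hb hij⟩
  · exact ⟨_, _, _, h.pair_el hC hΦ hε hb hT hℓς hp hle hi⟩
  · exact ⟨_, _, _, h.pair_ec hC hΦ hε hb hT hℓς hp hle hi⟩

end Base1

end Crest.Agent.R122.BasePair45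

end
end

-- ▼ part R122/BaseNu_45

/-!
# The pairs of lines of the base structures (row 122, S^(0), helper45)

Structures `q : Th P` of helper735 (`NuL_735`): a tree `q.1` and a test line `lnO q.2` born at time
`0`; labels `Idx P ⊕ Unit`, all births `0`, states `zE Φ ε q`.

* `base1` : `Base1` for the isolated system `vsys Φ T ε (fun _ => 0)` of the labels.
* `conn0` : the structure is connected.
* `pass0` : in a tree-like structure the encounter ends.
* `pair0` : the pair `x`, `y` (`x` an exit) of lines of the structure, in a tree-like structure.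
-/

set_option autoImplicit false
set_option linter.unusedSectionVars false

open MeasureTheory Set Filter Topology
open scoped NNReal ENNReal
open Crest.AnalysisR.Kinetic
open Crest.Agent.R122.Flow671 hiding rel
open Crest.Agent.R122.Loc45 Crest.Agent.R122.Ins45
open Crest.Agent.R122.VL581 Crest.Agent.R122.VL581.VSys Crest.Agent.R122.VLInst442
open Crest.Agent.R122.LNInst491 Crest.Agent.R122.LN304 Crest.Agent.R122.LNg410
open Crest.Agent.R122.Kin796 Crest.Agent.R122.Kin796.CTree Crest.Agent.R122.Tree674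
open Crest.Agent.R122.PathFlow968 Crest.Agent.R122.TreeLines335 Crest.Agent.R122.EDefs602
open Crest.Agent.R122.LNTree410 Crest.Agent.R122.PWGlue491 Crest.Agent.R122.Inf879
open Crest.Agent.R122.LNGraft410 Crest.Agent.R122.LNEv968
open Crest.Agent.R122.PWInst442 (LineIn oLab exists_bE)
open Crest.Agent.R122.StrG491
open Crest.Agent.R122.OCout796 Crest.Agent.R122.Scat818
open Crest.Agent.R122.OneC285 (cT cB cD cX oneLs exS)
open Crest.Agent.R122.VLMeas973 (vsys)
open Crest.Agent.R122.NuL735 (lnO zE oneE oneE_of_adm linesE_of_adm)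
open scoped Classical

noncomputable section

namespace Crest.Agent.R122.BasePair45

/-- Labels of the tree. -/
def eB (P : CTree) : Idx P ↪ Idx P ⊕ Unit := ⟨Sum.inl, Sum.inl_injective⟩

@[simp] theorem eB_apply (P : CTree) (i : Idx P) : eB P i = Sum.inl i := rfl

/-- Label of the test line. -/
def aB (P : CTree) : Idx P ⊕ Unit := Sum.inr ()

/-- Label of the line `y` of the structure. -/
abbrev lB (P : CTree) (y : Idx P ⊕ Bool) : Idx P ⊕ Unit := oLab (eB P) (aB P) y

theorem union_eB (P : CTree) (inst : DecidableEq (Idx P ⊕ Unit)) :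
    ({aB P} ∪ part (eB P) : Finset (Idx P ⊕ Unit)) = Finset.univ := by
  ext j
  rw [Finset.mem_union, Finset.mem_singleton, mem_part]
  refine iff_of_true ?_ (Finset.mem_univ j)
  rcases j with j | j
  · exact Or.inr ⟨j, rfl⟩
  · exact Or.inl rfl

variable {Φ : Space3 → ℝ} {ε T te ℓ ς c : ℝ} {P : CTree} {q : NuL735.Th P}

/-- The isolated system of the structure. -/
abbrev sys0 (Φ : Space3 → ℝ) (T ε : ℝ) (P : CTree) : VSys (Idx P ⊕ Unit) Unit :=
  vsys Φ T ε fun _ => 0

/-- **The base structure**: the line `lnO q.2` meets the root line of the tree `q.1`. -/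
theorem base1 (hct : (q.1, (lnO q.2).1) ∈ OneC423.ctSet Φ ε te P) (hte : te < T)
    (hsep : Sep Φ ε P T q.1.1 q.1.2) (hcd : CDok (cD ε q.1 (lnO q.2))) :
    Base1 (sys0 Φ T ε P) (zE Φ ε q) te P q.1 (eB P) (aB P) (lnO q.2) := by
  have hadm : Adm Φ P q.1.1.2 q.1.2 := hct.2.2.2.2.1
  have hord : Ord Φ ε P (cT ε q.1 (lnO q.2)) q.1.1.2 q.1.2 := hct.2.2.2.2.2
  have hle : cT ε q.1 (lnO q.2) ≤ T := hct.2.2.2.1.trans hte.le
  refine ⟨⟨fun _ => le_rfl, fun i => ?_, fun i h => ?_, ?_, hsep⟩, ⟨fun h => ?_, ?_, ?_⟩,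
    fun x h => ?_, hct, hte, hcd⟩
  · exact linesE_of_adm hadm i
  · cases h
  · exact LNTree410.valid_mono hle ⟨hadm, hord⟩
  · cases h
  · exact max_self (0 : ℝ)
  · refine Prod.ext ?_ rfl
    change q.2.1.1 = q.2.1.1 - (0 : ℝ) • q.2.1.2
    rw [zero_smul, sub_zero]
  · cases h

section
variable (hC : 1 ≤ c) (hΦ : AdmissiblePotential Φ) (hε : 0 < ε)
  (hct : (q.1, (lnO q.2).1) ∈ OneC423.ctSet Φ ε te P) (hte : te < T)
  (hsep : Sep Φ ε P T q.1.1 q.1.2) (hcd : CDok (cD ε q.1 (lnO q.2)))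
include hC hΦ hε hct hte hsep hcd

/-- **The base structure is connected.** -/
theorem conn0 : (sys0 Φ T ε P).Conn c Finset.univ (zE Φ ε q) := by
  have h := base1 hct hte hsep hcd
  obtain ⟨bD, hb⟩ := h.exists_bd
  have h1 := (h.enc hC hΦ hε hb).conn hC hε
  rwa [union_eB] at h1

variable (hT : TL (sys0 Φ T ε P) c ℓ ς Finset.univ (zE Φ ε q)) (hℓς : 2 * ℓ ≤ ς)
  (hlT : te + 2 * ℓ < T)
include hT hℓς hlT

/-- In a tree-like structure the encounter ends. -/
theorem pass0 : CDpass Φ (cD ε q.1 (lnO q.2)) ∧ outT Φ ε (cD ε q.1 (lnO q.2)) ≤ 2 * ℓ := by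
  have h := base1 hct hte hsep hcd
  obtain ⟨bD, hb⟩ := h.exists_bd
  have hle : cT ε q.1 (lnO q.2) ≤ te := hct.2.2.2.1
  have hlt : cT ε q.1 (lnO q.2) + 2 * ℓ < T := by linarith
  have h1 := (h.enc hC hΦ hε hb).pass_of (ℓ := ℓ) (ς := ς) hC hΦ hε
    (by rw [union_eB]; exact hT) hℓς hlt
  exact h1

/-- **The pair of the lines `x` (an exit) and `y`** of a tree-like base structure. -/
theorem pair0 {x y : Idx P ⊕ Bool} (hx : x ∈ exS P) (hy : y ≠ x) :
    ∃ (R : ℝ → Idx P ⊕ Unit → Idx P ⊕ Unit → Prop)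
      (cl : Idx P ⊕ Unit → Finset (Idx P ⊕ Unit)) (bD : Idx P ⊕ Unit → ℝ),
      Pair (sys0 Φ T ε P) c (zE Φ ε q) R Finset.univ cl bD (lB P x) (lB P y)
        (oneE Φ ε q x).1 (oneE Φ ε q y).1 := by
  have h := base1 hct hte hsep hcd
  have hadm : Adm Φ P q.1.1.2 q.1.2 := hct.2.2.2.2.1
  obtain ⟨hp, hout⟩ := pass0 hC hΦ hε hct hte hsep hcd hT hℓς hlT
  have hle : cT ε q.1 (lnO q.2) + outT Φ ε (cD ε q.1 (lnO q.2)) ≤ T := by
    have h1 : cT ε q.1 (lnO q.2) ≤ te := hct.2.2.2.1
    linarith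
  rcases x with i | b
  · have hi : i ≠ root P := mem_exS.1 hx
    obtain ⟨R, cl, bD, h1⟩ := h.pair hC hΦ hε (ℓ := ℓ) (ς := ς) (by rw [union_eB]; exact hT)
      hℓς hp hle hi hy
    rw [union_eB] at h1
    refine ⟨R, cl, bD, ?_⟩
    rw [oneE_of_adm hadm, oneE_of_adm hadm]
    exact h1
  · exact absurd hx inr_not_mem_exS

end

end Crest.Agent.R122.BasePair45

end
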