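import Crest.Agent.R122.ForestInt_399
import Crest.Agent.R122.TwoBody_674
import Crest.Agent.R122.TreeMeas_674

-- ▼ part R122/SepMeas_399
section

/-!
Row 122, block C (helper399): measurability of validity + separation.
-/

set_option autoImplicit false

open MeasureTheory Set Filter Topology Crest.AnalysisR.Kinetic
open scoped Classical ENNReal

noncomputable section

namespace Crest.Agent.R122.Forest399

open Kin796 Kin796.CTree Disc416 Tree674 TreeEps399

/-! ### An abstract lemma -/

/-- outside of two closed intervals, with a margin -/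
def Out (a b a' b' δ u : ℝ) : Prop := (u < a - δ ∨ b + δ < u) ∧ (u < a' - δ ∨ b' + δ < u)

theorem measurableSet_outside {Ω : Type*} [MeasurableSpace Ω] {V : Set Ω} (hV : MeasurableSet V)
    {d : Ω → ℝ → ℝ} (hm : ∀ u, Measurable (V.indicator fun z => d z u))
    (hc : ∀ z ∈ V, Continuous (d z)) {a b a' b' : Ω → ℝ} (ha : Measurable a) (hb : Measurable b)
    (ha' : Measurable a') (hb' : Measurable b') (ε T : ℝ) :
    MeasurableSet {z | z ∈ V ∧ ∀ u ∈ Icc 0 T, ¬ (a z ≤ u ∧ u ≤ b z) → ¬ (a' z ≤ u ∧ u ≤ b' z) →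
      ε < d z u} := by
  obtain ⟨D, hDc, hDd⟩ := TopologicalSpace.exists_countable_dense (Icc (0 : ℝ) T)
  have hset : {z | z ∈ V ∧ ∀ u ∈ Icc 0 T, ¬ (a z ≤ u ∧ u ≤ b z) → ¬ (a' z ≤ u ∧ u ≤ b' z) →
      ε < d z u} = V ∩ ⋂ m : ℕ, ⋃ n : ℕ, ⋂ u ∈ D,
        ({z | Out (a z) (b z) (a' z) (b' z) (1 / (m + 1)) (u : ℝ)}ᶜ ∪
          {z | ε + 1 / (n + 1) ≤ V.indicator (fun z => d z u) z}) := by
    ext z
    simp only [mem_ofPred_eq, mem_inter_iff, mem_iInter, mem_iUnion, mem_union, mem_compl_iff]
    constructor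
    · rintro ⟨hz, h⟩
      refine ⟨hz, fun m => ?_⟩
      have hδ : (0 : ℝ) < 1 / (m + 1) := by positivity
      set δ : ℝ := 1 / (m + 1) with hδd
      set K : Set ℝ := Icc 0 T ∩ {u | (u ≤ a z - δ ∨ b z + δ ≤ u) ∧ (u ≤ a' z - δ ∨ b' z + δ ≤ u)}
        with hK
      have hKc : IsCompact K := by
        refine isCompact_Icc.inter_right ?_
        refine IsClosed.inter (IsClosed.union ?_ ?_) (IsClosed.union ?_ ?_)
        · exact isClosed_le continuous_id continuous_const
        · exact isClosed_le continuous_const continuous_id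
        · exact isClosed_le continuous_id continuous_const
        · exact isClosed_le continuous_const continuous_id
      have hout : ∀ u ∈ K, ε < d z u := by
        rintro u ⟨hu1, hu2, hu3⟩
        refine h u hu1 ?_ ?_
        · rintro ⟨h1, h2⟩
          rcases hu2 with h3 | h3 <;> linarith
        · rintro ⟨h1, h2⟩
          rcases hu3 with h3 | h3 <;> linarith
      rcases K.eq_empty_or_nonempty with hKe | hKn
      · refine ⟨0, fun u hu => Or.inl fun ho => ?_⟩
        have : (u : ℝ) ∈ K := ⟨u.2, ho.1.imp le_of_lt le_of_lt, ho.2.imp le_of_lt le_of_lt⟩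
        rw [hKe] at this
        exact this
      · obtain ⟨u0, hu0, hmin⟩ := hKc.exists_isMinOn hKn (hc z hz).continuousOn
        obtain ⟨n, hn⟩ := exists_nat_one_div_lt (sub_pos.2 (hout u0 hu0))
        refine ⟨n, fun u hu => ?_⟩
        by_cases ho : Out (a z) (b z) (a' z) (b' z) δ (u : ℝ)
        · right
          have hu' : (u : ℝ) ∈ K := ⟨u.2, ho.1.imp le_of_lt le_of_lt, ho.2.imp le_of_lt le_of_lt⟩
          have h1 : d z u0 ≤ d z u := hmin hu'
          rw [indicator_of_mem hz]
          linarith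
        · exact Or.inl ho
    · rintro ⟨hz, h⟩
      refine ⟨hz, fun u hu hn hn' => ?_⟩
      have key : ∀ {x y : ℝ}, ¬ (x ≤ u ∧ u ≤ y) → ∃ η > 0, ∀ δ : ℝ, δ ≤ η → u < x - δ ∨ y + δ < u := by
        intro x y hxy
        rcases lt_or_ge u x with h1 | h1
        · refine ⟨(x - u) / 2, by linarith, fun δ hδ => Or.inl (by linarith)⟩
        · have h2 : y < u := by
            by_contra h3
            exact hxy ⟨h1, not_lt.1 h3⟩
          exact ⟨(u - y) / 2, by linarith, fun δ hδ => Or.inr (by linarith)⟩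
      obtain ⟨η1, hη1, h1⟩ := key hn
      obtain ⟨η2, hη2, h2⟩ := key hn'
      obtain ⟨m, hm'⟩ := exists_nat_one_div_lt (lt_min hη1 hη2)
      obtain ⟨n, hn2⟩ := h m
      have hδ : (1 : ℝ) / (m + 1) ≤ η1 := (hm'.trans_le (min_le_left _ _)).le
      have hδ' : (1 : ℝ) / (m + 1) ≤ η2 := (hm'.trans_le (min_le_right _ _)).le
      set δ : ℝ := 1 / (m + 1) with hδd
      by_contra hcon
      rw [not_lt] at hcon
      have hnpos : (0 : ℝ) < 1 / (n + 1) := by positivity
      -- open set in the subtype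
      let U : Set (Icc (0 : ℝ) T) := {x | Out (a z) (b z) (a' z) (b' z) δ (x : ℝ) ∧
        d z x < ε + 1 / (n + 1)}
      have hUo : IsOpen U := by
        have c0 : Continuous fun x : Icc (0 : ℝ) T => (x : ℝ) := continuous_subtype_val
        refine IsOpen.inter (IsOpen.inter (IsOpen.union ?_ ?_) (IsOpen.union ?_ ?_)) ?_
        · exact isOpen_lt c0 continuous_const
        · exact isOpen_lt continuous_const c0
        · exact isOpen_lt c0 continuous_const
        · exact isOpen_lt continuous_const c0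
        · exact isOpen_lt ((hc z hz).comp c0) continuous_const
      have hUn : U.Nonempty := ⟨⟨u, hu⟩, ⟨h1 δ hδ, h2 δ hδ'⟩, by
        show d z u < ε + 1 / (n + 1)
        linarith⟩
      obtain ⟨x, hxU, hxD⟩ := hDd.inter_open_nonempty U hUo hUn
      rcases hn2 x hxD with h3 | h3
      · exact h3 hxU.1
      · rw [indicator_of_mem hz] at h3
        exact absurd hxU.2 (not_lt.2 h3)
  rw [hset]
  refine hV.inter (MeasurableSet.iInter fun m => MeasurableSet.iUnion fun n =>
    MeasurableSet.biInter hDc fun u _ => MeasurableSet.union (MeasurableSet.compl ?_) ?_)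
  · refine MeasurableSet.inter (MeasurableSet.union ?_ ?_) (MeasurableSet.union ?_ ?_)
    · exact measurableSet_lt measurable_const (ha.sub_const _)
    · exact measurableSet_lt (hb.add_const _) measurable_const
    · exact measurableSet_lt measurable_const (ha'.sub_const _)
    · exact measurableSet_lt (hb'.add_const _) measurable_const
  · exact measurableSet_le measurable_const (hm u)

variable {Φ : Space3 → ℝ} {s : ℕ} {ε : ℝ}

/-! ### Measurable windows -/


/-! ### Continuity of the trajectories -/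

theorem continuous_path (hΦ : AdmissiblePotential Φ) (hε : 0 < ε) : ∀ (P : CTree) (T : ℝ)
    (ℓ : PhasePoint) (p : Par P), Valid Φ ε P T ℓ.2 p → ∀ i,
      Continuous fun u => path Φ ε P ℓ p u i
  | leaf, _, ℓ, _, _, _ => by
      show Continuous fun u => onLine ℓ u
      unfold onLine
      fun_prop
  | node l r, T, ℓ, p, hv, i => by
      have hL := continuous_path hΦ hε l _ (inMap Φ ε ℓ p.1).1 p.2.1
        (PathFlow968.Valid.left hv)
      have hR := continuous_path hΦ hε r _ (inMap Φ ε ℓ p.1).2 p.2.2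
        (PathFlow968.Valid.right hv)
      have hP := PathFlow968.continuous_pairPath (Φ := Φ) hε hv.1.1
      have hgl : ∀ {f g : ℝ → PhasePoint}, Continuous f → Continuous g →
          (∀ u, u = Tree674.sin Φ ε ℓ.2 p.1 → f u = g u) →
          Continuous fun u => if u ≤ Tree674.sin Φ ε ℓ.2 p.1 then f u else g u := by
        intro f g hf hg h
        exact Continuous.if_le hf hg continuous_id continuous_const h
      have hbef : ∀ u, u ≤ Tree674.sin Φ ε ℓ.2 p.1 → path Φ ε (node l r) ℓ p u i =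
          Sum.elim (path Φ ε l (inMap Φ ε ℓ p.1).1 p.2.1 u)
            (path Φ ε r (inMap Φ ε ℓ p.1).2 p.2.2 u) i := fun u hu => by
        rw [PathFlow968.path_node_before ℓ p hu]
      have haft : ∀ u, Tree674.sin Φ ε ℓ.2 p.1 ≤ u → path Φ ε (node l r) ℓ p u i =
          Sum.elim
            (Function.update (path Φ ε l (inMap Φ ε ℓ p.1).1 p.2.1 u) (root l)
              (pairPath Φ ε ℓ p.1 u).1)
            (Function.update (path Φ ε r (inMap Φ ε ℓ p.1).2 p.2.2 u) (root r)
              (pairPath Φ ε ℓ p.1 u).2) i := fun u hu => by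
        rw [PathFlow968.path_node_after hΦ hε hv hu]
      have hcb : Continuous fun u => Sum.elim (path Φ ε l (inMap Φ ε ℓ p.1).1 p.2.1 u)
            (path Φ ε r (inMap Φ ε ℓ p.1).2 p.2.2 u) i := by
        rcases i with i | i
        · exact hL i
        · exact hR i
      have hca : Continuous fun u => Sum.elim
            (Function.update (path Φ ε l (inMap Φ ε ℓ p.1).1 p.2.1 u) (root l)
              (pairPath Φ ε ℓ p.1 u).1)
            (Function.update (path Φ ε r (inMap Φ ε ℓ p.1).2 p.2.2 u) (root r)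
              (pairPath Φ ε ℓ p.1 u).2) i := by
        rcases i with i | i
        · simp only [Sum.elim_inl]
          by_cases hi : i = root l
          · subst hi
            simp only [Function.update_self]
            exact continuous_fst.comp hP
          · simp only [Function.update_of_ne hi]
            exact hL i
        · simp only [Sum.elim_inr]
          by_cases hi : i = root r
          · subst hi
            simp only [Function.update_self]
            exact continuous_snd.comp hP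
          · simp only [Function.update_of_ne hi]
            exact hR i
      have h := hgl hcb hca (fun u hu => by rw [← hbef u hu.le, ← haft u hu.ge])
      convert h using 1
      funext u
      split_ifs with hu
      · exact hbef u hu
      · exact haft u (not_le.1 hu).le

end Crest.Agent.R122.Forest399

end
end

-- ▼ part R122/ForestMeas_399
section

/-!
Row 122, block C (helper399): the change of variables for forests.
-/

set_option autoImplicit false

open MeasureTheory Set Filter Topology Crest.AnalysisR.Kinetic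
open scoped Classical ENNReal

noncomputable section

namespace Crest.Agent.R122.Forest399

open Kin796 Kin796.CTree Disc416 Tree674 TreeEps399 PiTrans399

/-! ### Currying of configurations indexed by a sigma type -/

section curry

variable {s : ℕ} {κ : Fin s → Type} [∀ i, Fintype (κ i)]

/-- uncurried configuration -/
def unc {β : Type*} (W : (i : Fin s) → κ i → β) : (Σ i, κ i) → β := fun k => W k.1 k.2


theorem measurable_unc {β : Type*} [MeasurableSpace β] :
    Measurable (unc : ((i : Fin s) → κ i → β) → (Σ i, κ i) → β) :=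
  measurable_pi_lambda _ fun k => (measurable_pi_apply k.2).comp (measurable_pi_apply k.1)


theorem measurePreserving_unc {β : Type*} [MeasureSpace β] [SigmaFinite (volume : Measure β)] :
    MeasurePreserving (unc : ((i : Fin s) → κ i → β) → (Σ i, κ i) → β) volume volume := by
  refine ⟨measurable_unc, ?_⟩
  refine (Measure.pi_eq fun A hA => ?_).symm
  rw [Measure.map_apply measurable_unc (MeasurableSet.univ_pi hA)]
  have h : (unc ⁻¹' univ.pi A : Set ((i : Fin s) → κ i → β)) =
      univ.pi fun i => univ.pi fun j => A ⟨i, j⟩ := by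
    ext W
    simp only [mem_preimage, Set.mem_pi, mem_univ, true_implies, unc]
    constructor
    · exact fun h i j => h ⟨i, j⟩
    · exact fun h k => h k.1 k.2
  rw [h, volume_pi, Measure.pi_pi]
  simp_rw [volume_pi, Measure.pi_pi]
  rw [Fintype.prod_sigma]

theorem lintegral_cur {β : Type*} [MeasureSpace β] [SigmaFinite (volume : Measure β)]
    {G : ((Σ i, κ i) → β) → ℝ≥0∞} (hG : Measurable G) :
    ∫⁻ V, G V = ∫⁻ W : (i : Fin s) → κ i → β, G (unc W) :=
  (measurePreserving_unc.lintegral_comp hG).symm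

end curry

variable {Φ : Space3 → ℝ} {s : ℕ} {ε : ℝ}

/-- weight of a forest (zero on invalid parameters) -/
def fvw (Φ : Space3 → ℝ) (ε : ℝ) (Ps : Fin s → CTree) (T : ℝ) (q : FPar Ps) : ℝ≥0∞ :=
  ∏ i, vw Φ ε (Ps i) T (q i)

/-- measurable version of `flines` -/
def flinesM (Φ : Space3 → ℝ) (ε : ℝ) (Ps : Fin s → CTree) (q : FPar Ps) : FIdx Ps → PhasePoint :=
  fun k => linesM Φ ε (Ps k.1) (q k.1).1 (q k.1).2 k.2

/-- inverse of `flines` -/
def finv (Φ : Space3 → ℝ) (ε : ℝ) (Ps : Fin s → CTree) (T : ℝ) (V : FIdx Ps → PhasePoint) :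
    FPar Ps := fun i => inv Φ ε (Ps i) T fun j => V ⟨i, j⟩

/-- configurations of valid forests -/
def FSkel (Φ : Space3 → ℝ) (ε : ℝ) (Ps : Fin s → CTree) (T : ℝ) : Set (FIdx Ps → PhasePoint) :=
  {V | ∃ q : FPar Ps, FValid Φ ε Ps T q ∧ flines Φ ε Ps q = V}

/-- total size -/
def fsize (Ps : Fin s → CTree) : ℕ := ∑ i, (Ps i).size

theorem mem_fskel_iff {Ps : Fin s → CTree} {T : ℝ} {V : FIdx Ps → PhasePoint} :
    V ∈ FSkel Φ ε Ps T ↔ ∀ i, (fun j => V ⟨i, j⟩ : Idx (Ps i) → PhasePoint) ∈ Skel Φ ε (Ps i) T := by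
  constructor
  · rintro ⟨q, hq, rfl⟩ i
    exact ⟨(q i).1, (q i).2, hq i, rfl⟩
  · intro h
    choose ℓ p hv hl using h
    refine ⟨fun i => (ℓ i, p i), hv, ?_⟩
    funext k
    exact congrFun (hl k.1) k.2

theorem measurableSet_fskel (hΦ : AdmissiblePotential Φ) (hε : 0 < ε) (Ps : Fin s → CTree) (T : ℝ) :
    MeasurableSet (FSkel Φ ε Ps T) := by
  have h : FSkel Φ ε Ps T = ⋂ i, (fun V : FIdx Ps → PhasePoint =>
      (fun j => V ⟨i, j⟩ : Idx (Ps i) → PhasePoint)) ⁻¹' Skel Φ ε (Ps i) T := by
    ext V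
    rw [mem_fskel_iff]
    simp only [mem_iInter, mem_preimage]
  rw [h]
  exact MeasurableSet.iInter fun i =>
    (measurable_pi_lambda _ fun j => measurable_pi_apply _) (measurableSet_skel hΦ hε (Ps i) T)

theorem measurable_finv (hΦ : AdmissiblePotential Φ) (hε : 0 < ε) (Ps : Fin s → CTree) (T : ℝ) :
    Measurable (finv Φ ε Ps T) :=
  measurable_pi_lambda _ fun i => (measurable_inv hΦ hε (Ps i) T).comp
    (measurable_pi_lambda _ fun j => measurable_pi_apply _)

theorem finv_flines (hΦ : AdmissiblePotential Φ) (hε : 0 < ε) {Ps : Fin s → CTree} {T T' : ℝ}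
    {q : FPar Ps} (hq : FValid Φ ε Ps T' q) (hT : T' ≤ T) :
    finv Φ ε Ps T (flines Φ ε Ps q) = q := by
  funext i
  exact inv_lines hΦ hε (hq i) hT

theorem flines_finv (hΦ : AdmissiblePotential Φ) (hε : 0 < ε) {Ps : Fin s → CTree} {T : ℝ}
    {V : FIdx Ps → PhasePoint} (hV : V ∈ FSkel Φ ε Ps T) :
    FValid Φ ε Ps T (finv Φ ε Ps T V) ∧ flines Φ ε Ps (finv Φ ε Ps T V) = V := by
  obtain ⟨q, hq, rfl⟩ := hV
  rw [finv_flines hΦ hε hq le_rfl]
  exact ⟨hq, rfl⟩

theorem measurableSet_fvalid (hΦ : AdmissiblePotential Φ) (ε : ℝ) (Ps : Fin s → CTree) (T : ℝ) :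
    MeasurableSet {q : FPar Ps | FValid Φ ε Ps T q} := by
  have h : {q : FPar Ps | FValid Φ ε Ps T q} = ⋂ i, (fun q : FPar Ps => q i) ⁻¹'
      {z : PhasePoint × Par (Ps i) | Valid Φ ε (Ps i) T z.1.2 z.2} := by
    ext q
    simp only [mem_ofPred_eq, mem_iInter, mem_preimage, FValid]
  rw [h]
  exact MeasurableSet.iInter fun i => (measurable_pi_apply i) (measurableSet_valid hΦ ε (Ps i) T)

theorem measurable_fvw (hΦ : AdmissiblePotential Φ) (ε : ℝ) (Ps : Fin s → CTree) (T : ℝ) :
    Measurable (fvw Φ ε Ps T) :=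
  Finset.measurable_prod _ fun i _ => (measurable_vw hΦ ε (Ps i) T).comp (measurable_pi_apply i)

theorem measurable_flinesM (hΦ : AdmissiblePotential Φ) (ε : ℝ) (Ps : Fin s → CTree) :
    Measurable (flinesM Φ ε Ps) :=
  measurable_pi_lambda _ fun k => (measurable_pi_apply k.2).comp
    ((measurable_linesM hΦ ε (Ps k.1)).comp (measurable_pi_apply k.1))

theorem flinesM_of_valid {Ps : Fin s → CTree} {T : ℝ} {q : FPar Ps} (hq : FValid Φ ε Ps T q) :
    flinesM Φ ε Ps q = flines Φ ε Ps q := by
  funext k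
  exact congrFun (linesM_of_adm ε (hq k.1).1) k.2

theorem fvw_of_valid {Ps : Fin s → CTree} {T : ℝ} {q : FPar Ps} (hq : FValid Φ ε Ps T q) :
    fvw Φ ε Ps T q = ∏ i, wt Φ (Ps i) (q i).1.2 (q i).2 :=
  Finset.prod_congr rfl fun i _ => vw_of_valid (hq i)

theorem fvw_of_not_valid {Ps : Fin s → CTree} {T : ℝ} {q : FPar Ps} (hq : ¬ FValid Φ ε Ps T q) :
    fvw Φ ε Ps T q = 0 := by
  unfold FValid at hq
  push Not at hq
  obtain ⟨i, hi⟩ := hq
  exact Finset.prod_eq_zero (Finset.mem_univ i) (vw_of_not_valid hi)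

/-- **Theorem A for forests.** -/
theorem forestMeasure (hΦ : AdmissiblePotential Φ) (hε : 0 < ε) (Ps : Fin s → CTree) (T : ℝ)
    {H : FPar Ps × (FIdx Ps → PhasePoint) → ℝ≥0∞} (hH : Measurable H) :
    ENNReal.ofReal (ε ^ 2) ^ fsize Ps * ∫⁻ q : FPar Ps, fvw Φ ε Ps T q * H (q, flinesM Φ ε Ps q) =
      ∫⁻ V : FIdx Ps → PhasePoint,
        (FSkel Φ ε Ps T).indicator (fun V => H (finv Φ ε Ps T V, V)) V := by
  -- the transfer identity
  have hH' : Measurable fun z : ((i : Fin s) → (PhasePoint × Par (Ps i)) ×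
      (Idx (Ps i) → PhasePoint)) => H (fun i => (z i).1, unc fun i => (z i).2) := by
    refine hH.comp (Measurable.prodMk ?_ (measurable_unc.comp ?_))
    · exact measurable_pi_lambda _ fun i => measurable_fst.comp (measurable_pi_apply i)
    · exact measurable_pi_lambda _ fun i => measurable_snd.comp (measurable_pi_apply i)
  have key := pi_transfer (X := fun i : Fin s => PhasePoint × Par (Ps i))
    (Y := fun i : Fin s => Idx (Ps i) → PhasePoint)
    (Z := fun i : Fin s => (PhasePoint × Par (Ps i)) × (Idx (Ps i) → PhasePoint))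
    (fun _ => volume) (fun _ => volume)
    (w := fun i z => ENNReal.ofReal (ε ^ 2) ^ (Ps i).size * vw Φ ε (Ps i) T z)
    (ρ := fun i V => (Skel Φ ε (Ps i) T).indicator 1 V)
    (fun i => measurable_const.mul (measurable_vw hΦ ε (Ps i) T))
    (fun i => measurable_one.indicator (measurableSet_skel hΦ hε (Ps i) T))
    (f := fun i z => (z, linesM Φ ε (Ps i) z.1 z.2)) (g := fun i V => (inv Φ ε (Ps i) T V, V))
    (fun i => measurable_id.prodMk (measurable_linesM hΦ ε (Ps i)))
    (fun i => (measurable_inv hΦ hε (Ps i) T).prodMk measurable_id)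
    (fun i G hG => by
      have h := treeMeasure_aux hΦ hε T (Ps i) hG
      rw [← h, ← lintegral_const_mul]
      · refine lintegral_congr fun z => ?_
        rw [mul_assoc]
      · exact (measurable_vw hΦ ε (Ps i) T).mul
          (hG.comp (measurable_id.prodMk (measurable_linesM hΦ ε (Ps i))))) hH'
  -- left side
  have hL : ∫⁻ q : FPar Ps, (∏ i, ENNReal.ofReal (ε ^ 2) ^ (Ps i).size * vw Φ ε (Ps i) T (q i)) *
      H (fun i => q i, unc fun i => linesM Φ ε (Ps i) (q i).1 (q i).2) =
      ENNReal.ofReal (ε ^ 2) ^ fsize Ps *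
        ∫⁻ q : FPar Ps, fvw Φ ε Ps T q * H (q, flinesM Φ ε Ps q) := by
    rw [← lintegral_const_mul]
    · refine lintegral_congr fun q => ?_
      rw [Finset.prod_mul_distrib, Finset.prod_pow_eq_pow_sum, mul_assoc]
      rfl
    · exact (measurable_fvw hΦ ε Ps T).mul
        (hH.comp (measurable_id.prodMk (measurable_flinesM hΦ ε Ps)))
  rw [← hL]
  -- right side
  have hR : Measurable fun V : FIdx Ps → PhasePoint =>
      (FSkel Φ ε Ps T).indicator (fun V => H (finv Φ ε Ps T V, V)) V :=
    (hH.comp ((measurable_finv hΦ hε Ps T).prodMk measurable_id)).indicator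
      (measurableSet_fskel hΦ hε Ps T)
  rw [lintegral_cur hR]
  refine key.trans (lintegral_congr fun W => ?_)
  by_cases hW : unc W ∈ FSkel Φ ε Ps T
  · rw [indicator_of_mem hW]
    have h1 : ∀ i, W i ∈ Skel Φ ε (Ps i) T := mem_fskel_iff.1 hW
    have h2 : (∏ i, (Skel Φ ε (Ps i) T).indicator (1 : (Idx (Ps i) → PhasePoint) → ℝ≥0∞) (W i)) = 1 :=
      Finset.prod_eq_one fun i _ => by rw [indicator_of_mem (h1 i)]; rfl
    rw [h2, one_mul]
    rfl
  · rw [indicator_of_notMem hW]
    have h1 : ∃ i, W i ∉ Skel Φ ε (Ps i) T := by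
      by_contra h
      push Not at h
      exact hW (mem_fskel_iff.2 h)
    obtain ⟨i, hi⟩ := h1
    have h2 : (∏ i, (Skel Φ ε (Ps i) T).indicator (1 : (Idx (Ps i) → PhasePoint) → ℝ≥0∞) (W i)) = 0 :=
      Finset.prod_eq_zero (Finset.mem_univ i) (by rw [indicator_of_notMem hi])
    rw [h2, zero_mul]

end Crest.Agent.R122.Forest399

end
end

-- ▼ part R122/ForestFatou_399

/-!
Row 122, block C (helper399): Theorem E (Fatou and one-sided Scheffé) for forests, along any
countably generated filter on which `ε → 0+` and the final time tends to `t₀`.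
-/

set_option autoImplicit false

open MeasureTheory Set Filter Topology Crest.AnalysisR.Kinetic
open scoped Classical ENNReal

noncomputable section

namespace Crest.Agent.R122.Forest399

open Kin796 Kin796.CTree Disc416 Tree674 TreeEps399 PiTrans399 TreeFatou399

variable {Φ : Space3 → ℝ} {s : ℕ} {ε : ℝ}

theorem wt_ne_top : ∀ (P : CTree) (v : Space3) (p : Par P), wt Φ P v p ≠ ∞
  | leaf, _, _ => ENNReal.one_ne_top
  | node l r, v, p => ENNReal.mul_ne_top ENNReal.ofReal_ne_top
      (ENNReal.mul_ne_top (wt_ne_top l _ _) (wt_ne_top r _ _))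

theorem fvw_ne_top (ε : ℝ) (Ps : Fin s → CTree) (T : ℝ) (q : FPar Ps) : fvw Φ ε Ps T q ≠ ∞ := by
  by_cases hq : FValid Φ ε Ps T q
  · rw [fvw_of_valid hq]
    exact ENNReal.prod_ne_top fun i _ => wt_ne_top _ _ _
  · rw [fvw_of_not_valid hq]
    exact ENNReal.zero_ne_top

/-! ### Monotonicity in the final time -/

theorem valid_mono {ε : ℝ} {P : CTree} {T T' : ℝ} {v : Space3} {p : Par P} (hT : T' ≤ T)
    (h : Valid Φ ε P T' v p) : Valid Φ ε P T v p := ((valid_iff_top hT).1 h).1

theorem fvalid_mono {Ps : Fin s → CTree} {T T' : ℝ} {q : FPar Ps} (hT : T' ≤ T)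
    (h : FValid Φ ε Ps T' q) : FValid Φ ε Ps T q := fun i => valid_mono hT (h i)

theorem sep_mono {ε : ℝ} {P : CTree} {T T' : ℝ} {ℓ : PhasePoint} {p : Par P} (hT : T' ≤ T)
    (h : Tree674.Sep Φ ε P T ℓ p) : Tree674.Sep Φ ε P T' ℓ p :=
  fun i j hij u hu => h i j hij u ⟨hu.1, hu.2.trans hT⟩

theorem fsep_mono {Ps : Fin s → CTree} {T T' : ℝ} {q : FPar Ps} (hT : T' ≤ T)
    (h : FSep Φ ε Ps T q) : FSep Φ ε Ps T' q :=
  ⟨fun i => sep_mono hT (h.1 i), fun i i' hii j j' u hu => h.2 i i' hii j j' u ⟨hu.1, hu.2.trans hT⟩⟩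

/-- validity before a slightly smaller final time -/
theorem valid_open {ε : ℝ} (P : CTree) (T : ℝ) (v : Space3) (p : Par P)
    (h : Valid Φ ε P T v p) : ∃ κ > 0, Valid Φ ε P (T - κ) v p := by
  have h2 : TopLt P T p := ((valid_iff_top le_rfl).1 h).2
  have h3 : ∃ κ > 0, TopLt P (T - κ) p := by
    cases P with
    | leaf => exact ⟨1, one_pos, trivial⟩
    | node l r =>
      have h4 : p.1.1 < T := h2
      exact ⟨(T - p.1.1) / 2, by linarith, by show p.1.1 < T - (T - p.1.1) / 2; linarith⟩
  obtain ⟨κ, hκ, h4⟩ := h3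
  exact ⟨κ, hκ, (valid_iff_top (by linarith : T - κ ≤ T)).2 ⟨h, h4⟩⟩

/-! ### Along a filter -/

section filt

variable {β : Type*} {F : Filter β} {e τ : β → ℝ} {t₀ : ℝ}

theorem valid_filter (he : Tendsto e F L) (hτ : Tendsto τ F (𝓝 t₀)) (P : CTree) (v : Space3)
    (p : Par P) (h : Valid Φ 0 P t₀ v p) : ∀ᶠ b in F, Valid Φ (e b) P (τ b) v p := by
  obtain ⟨κ, hκ, h1⟩ := valid_open P t₀ v p h
  have h2 := he.eventually (valid_eventually P v p (t₀ - κ) h1)
  have h3 : ∀ᶠ b in F, t₀ - κ < τ b := hτ.eventually (lt_mem_nhds (by linarith))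
  filter_upwards [h2, h3] with b a1 a2
  exact valid_mono a2.le a1

theorem fvalid_filter (he : Tendsto e F L) (hτ : Tendsto τ F (𝓝 t₀)) (Ps : Fin s → CTree)
    {q : FPar Ps} (hV : FValid Φ 0 Ps t₀ q) : ∀ᶠ b in F, FValid Φ (e b) Ps (τ b) q :=
  eventually_all.2 fun i => valid_filter he hτ (Ps i) (q i).1.2 (q i).2 (hV i)

/-- **validity and separation along the filter** -/
theorem fsep_filter (hΦ : AdmissiblePotential Φ) (he : Tendsto e F L) (hτ : Tendsto τ F (𝓝 t₀))
    (Ps : Fin s → CTree) {q : FPar Ps} (hV : FValid Φ 0 Ps t₀ q) (hG : FGen Φ Ps q) :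
    ∀ᶠ b in F, FValid Φ (e b) Ps (τ b) q ∧ FSep Φ (e b) Ps (τ b) q := by
  have h1 := he.eventually (fsep_eventually hΦ Ps (t₀ + 1) (fvalid_mono (by linarith) hV) hG)
  have h2 : ∀ᶠ b in F, τ b < t₀ + 1 := hτ.eventually (gt_mem_nhds (by linarith))
  filter_upwards [h1, h2, fvalid_filter he hτ Ps hV] with b a1 a2 a3
  exact ⟨a3, fsep_mono a2.le a1.2⟩







end filt

end Crest.Agent.R122.Forest399

end
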