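import Mathlib
import Crest.Agent.R122.Mark6_307
import Crest.Agent.R122.QDensC_815
import Crest.Agent.R122.LineMeas_994
import Crest.Agent.R122.MeasEDefs_416
import Crest.Agent.R122.EBasic_602
import Crest.Agent.R122.GCBounds_311
import Crest.Agent.R122.ForestFatou_399
import Crest.Agent.R122.BadHit_370

-- ▼ part R122/RetPi_424
section

/-!
# Row 122 (helper424): integration of products over finite products of spaces

* `lmarginal_prod_mul` : integrating out a product of one-coordinate functions.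
* `lintegral_pi_one` : one marked coordinate, `lintegral_pi_two` : two marked coordinates.
-/

set_option autoImplicit false
set_option linter.unusedSectionVars false

open MeasureTheory Set
open scoped ENNReal

namespace Crest.Agent.R122.Ret424

variable {δ : Type*} [Fintype δ] [DecidableEq δ] {X : δ → Type*} [∀ i, MeasurableSpace (X i)]
variable (μ : ∀ i, Measure (X i)) [∀ i, SigmaFinite (μ i)]

/-- Integrating out a product of one-coordinate functions. -/
theorem lmarginal_prod_mul (A : Finset δ) {g : ∀ i, X i → ℝ≥0∞} (hg : ∀ i, Measurable (g i))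
    (G : (∀ i, X i) → ℝ≥0∞) (hGm : Measurable G)
    (hG : ∀ x i (y : X i), i ∈ A → G (Function.update x i y) = G x) (x : ∀ i, X i) :
    (∫⋯∫⁻_A, (fun q => (∏ i ∈ A, g i (q i)) * G q) ∂μ) x =
      (∏ i ∈ A, ∫⁻ y, g i y ∂μ i) * G x := by
  induction A using Finset.induction_on generalizing G x with
  | empty => simp
  | @insert a A ha ih =>
    have hm : Measurable fun q : ∀ i, X i => (∏ i ∈ insert a A, g i (q i)) * G q :=
      (Finset.measurable_prod _ fun i _ => (hg i).comp (measurable_pi_apply i)).mul hGm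
    rw [lmarginal_insert' _ hm ha]
    have e1 : (fun x : ∀ i, X i => ∫⁻ xᵢ, (∏ i ∈ insert a A, g i (Function.update x a xᵢ i)) *
        G (Function.update x a xᵢ) ∂μ a) =
        fun q => (∏ i ∈ A, g i (q i)) * ((∫⁻ y, g a y ∂μ a) * G q) := by
      funext q
      have e2 : ∀ y : X a, (∏ i ∈ insert a A, g i (Function.update q a y i)) *
          G (Function.update q a y) = g a y * ((∏ i ∈ A, g i (q i)) * G q) := by
        intro y
        rw [Finset.prod_insert ha, Function.update_self, hG q a y (Finset.mem_insert_self a A)]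
        have e3 : ∏ i ∈ A, g i (Function.update q a y i) = ∏ i ∈ A, g i (q i) := by
          refine Finset.prod_congr rfl fun i hi => ?_
          rw [Function.update_of_ne]
          rintro rfl
          exact ha hi
        rw [e3, mul_assoc]
      simp_rw [e2]
      rw [lintegral_mul_const _ (hg a)]
      ring
    rw [e1, ih (fun q => (∫⁻ y, g a y ∂μ a) * G q) (hGm.const_mul _) (fun q i y hi => by
      rw [hG q i y (Finset.mem_insert_of_mem hi)]) x, Finset.prod_insert ha]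
    ring

/-- One marked coordinate. -/
theorem lintegral_pi_one {g : ∀ i, X i → ℝ≥0∞} (hg : ∀ i, Measurable (g i)) (i : δ)
    {F : X i → ℝ≥0∞} (hF : Measurable F) (x₀ : ∀ i, X i) :
    ∫⁻ q, (∏ k, g k (q k)) * F (q i) ∂Measure.pi μ =
      (∏ k ∈ Finset.univ.erase i, ∫⁻ y, g k y ∂μ k) * ∫⁻ a, g i a * F a ∂μ i := by
  have hm : Measurable fun q : ∀ i, X i => (∏ k, g k (q k)) * F (q i) :=
    (Finset.measurable_prod _ fun k _ => (hg k).comp (measurable_pi_apply k)).mul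
      (hF.comp (measurable_pi_apply i))
  have e0 : (fun q : ∀ i, X i => (∏ k, g k (q k)) * F (q i)) =
      fun q => (∏ k ∈ Finset.univ.erase i, g k (q k)) * (g i (q i) * F (q i)) := by
    funext q
    rw [← Finset.mul_prod_erase Finset.univ (fun k => g k (q k)) (Finset.mem_univ i)]
    ring
  rw [lintegral_eq_lmarginal_univ x₀]
  rw [lmarginal_erase _ hm (Finset.mem_univ i)]
  have hm1 : Measurable fun q : ∀ i, X i => g i (q i) * F (q i) :=
    ((hg i).comp (measurable_pi_apply i)).mul (hF.comp (measurable_pi_apply i))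
  have e1 : ∀ x : ∀ i, X i, (∫⋯∫⁻_Finset.univ.erase i,
      (fun q => (∏ k, g k (q k)) * F (q i)) ∂μ) x =
      (∏ k ∈ Finset.univ.erase i, ∫⁻ y, g k y ∂μ k) * (g i (x i) * F (x i)) := by
    intro x
    rw [e0]
    refine lmarginal_prod_mul μ _ hg (fun q => g i (q i) * F (q i)) hm1 (fun q k y hk => ?_) x
    have hki : i ≠ k := (Finset.ne_of_mem_erase hk).symm
    rw [Function.update_of_ne hki]
  simp_rw [e1, Function.update_self]
  rw [lintegral_const_mul]
  exact (hg i).mul hF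


end Crest.Agent.R122.Ret424
end

-- ▼ part R122/RetMass_424

/-!
# Row 122 (helper424): masses of trees and of touched exit lines

* `pf Φ f₀ ε P t z` : weight `1[Valid] wt ∏ f₀(lines)` of a tree; `measurable_pf`.
* `exists_mass` : total mass bounded uniformly in `ε ≥ 0`, `t ≤ T`.
* `exists_exit` : (MT2) of helper307 for `pf`.
* `tauch Φ f₀ ε K t l` : probability that the line `l` has touched before `t`.
* `exists_touch_mass` : mass of the trees with a touched exit line `≤ C * tnMass`.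
-/

set_option autoImplicit false

open MeasureTheory Set Filter Topology
open scoped ENNReal
open Crest.AnalysisR.Kinetic Crest.Agent.R122.Kin796 Crest.Agent.R122.Disc416
  Crest.Agent.R122.Kin416 Crest.Agent.R122.Tree674 Crest.Agent.R122.GC311
  Crest.Agent.R122.EDefs602 Crest.Agent.R122.QDens815 Crest.Agent.R122.TreeLines335
  Crest.Agent.R122.LineMeas994

noncomputable section

open scoped Classical

namespace Crest.Agent.R122.Ret424

open CTree

variable {Φ : Space3 → ℝ} {f₀ : PhasePoint → ℝ} {P : CTree} {ε t T : ℝ}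

/-- Weight of a tree. -/
def pf (Φ : Space3 → ℝ) (f₀ : PhasePoint → ℝ) (ε : ℝ) (P : CTree) (t : ℝ)
    (z : PhasePoint × Par P) : ℝ≥0∞ := gw Φ f₀ P (fun _ => 1) ε t z.1 z.2

theorem pf_of_valid {z : PhasePoint × Par P} (h : Valid Φ ε P t z.1.2 z.2) :
    pf Φ f₀ ε P t z =
      wt Φ P z.1.2 z.2 * ∏ i, ENNReal.ofReal (f₀ (Tree674.lines Φ ε P z.1 z.2 i)) := by
  unfold pf
  rw [gw_of_valid h, mul_one]
  rfl

theorem pf_of_not_valid {z : PhasePoint × Par P} (h : ¬ Valid Φ ε P t z.1.2 z.2) :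
    pf Φ f₀ ε P t z = 0 := gw_of_not_valid h

theorem measurable_pf (hΦ : AdmissiblePotential Φ) (hf : Measurable f₀) (ε : ℝ) (P : CTree)
    (t : ℝ) : Measurable (pf Φ f₀ ε P t) := by
  have h := measurable_gw (P := P) (φ := fun _ => 1) hΦ hf measurable_const ε
  have h2 : Measurable fun z : PhasePoint × Par P => (((t, z.1), z.2) : (ℝ × PhasePoint) × Par P) :=
    (measurable_const.prodMk measurable_fst).prodMk measurable_snd
  exact h.comp h2


/-- **Total mass of a tree**, uniform in `ε ≥ 0` and `t ≤ T`. -/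
theorem exists_mass (hΦ : AdmissiblePotential Φ) (hf : Measurable f₀) {γ : ℝ} (hγ : 0 < γ)
    (H : HasSummableGaussianBound γ (fun x v => f₀ (x, v))) (P : CTree) (T : ℝ) :
    ∃ M : ℝ≥0∞, M ≠ ∞ ∧ ∀ ε t : ℝ, 0 ≤ ε → t ≤ T → ∫⁻ z, pf Φ f₀ ε P t z ≤ M := by
  obtain ⟨env, A, hE⟩ := exists_env H
  set K : ℝ≥0∞ := ENNReal.ofReal 1 * ENNReal.ofReal (Real.exp ((P.size : ℝ) ^ 2 /
      (2 * ((γ - 0) / 4)))) * ((∫⁻ x, env x) * A ^ P.size) with hK
  have hKt : K ≠ ∞ := ENNReal.mul_ne_top (ENNReal.mul_ne_top ENNReal.ofReal_ne_top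
    ENNReal.ofReal_ne_top) (ENNReal.mul_ne_top hE.int_ne (ENNReal.pow_ne_top hE.A_ne))
  have hδ : 0 < (γ - 0) / 2 := by linarith
  have hκ : ∀ t : ℝ, IsFiniteMeasure (Measure.dirac t) := fun t => inferInstance
  refine ⟨∫⁻ y : Space3 × Par P, K * (gau ((γ - 0) / 2) y.1 * bx T ((γ - 0) / 2) P y.2), ?_, ?_⟩
  · have h1 := lintegral_dom_lt_top (κ := Measure.dirac (0 : ℝ)) T hδ P hKt
    have h2 : Measurable fun q : ℝ × (Space3 × Par P) =>
        K * (gau ((γ - 0) / 2) q.2.1 * bx T ((γ - 0) / 2) P q.2.2) :=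
      (((measurable_gau _).comp measurable_snd.fst).mul
        ((measurable_bx T _ P).comp measurable_snd.snd)).const_mul _
    rw [lintegral_prod _ h2.aemeasurable] at h1
    rw [lintegral_dirac' _ h2.lintegral_prod_right'] at h1
    exact h1.ne
  · intro ε t hε ht
    have hφ : Measurable fun _ : ℝ × PhasePoint × Par P => (1 : ℝ≥0∞) := measurable_const
    have hg := measurable_gw (P := P) hΦ hf hφ ε
    have h1 := tonelli (P := P) (κ := Measure.dirac t)
      (F := fun q : (ℝ × PhasePoint) × Par P => gw Φ f₀ P (fun _ => 1) ε q.1.1 q.1.2 q.2) hg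
    have hg1 : Measurable fun y : ℝ × PhasePoint =>
        ∫⁻ p, gw Φ f₀ P (fun _ => 1) ε y.1 y.2 p := hg.lintegral_prod_right'
    have hX : Measurable fun z : (ℝ × (Space3 × Par P)) × Space3 =>
        gw Φ f₀ P (fun _ => 1) ε z.1.1 (z.2, z.1.2.1) z.1.2.2 :=
      hg.comp (f := fun z : (ℝ × (Space3 × Par P)) × Space3 =>
        (((z.1.1, (z.2, z.1.2.1)), z.1.2.2) : (ℝ × PhasePoint) × Par P))
        ((measurable_fst.fst.prodMk (measurable_snd.prodMk measurable_fst.snd.fst)).prodMk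
        measurable_fst.snd.snd)
    have hg2 : Measurable fun q : ℝ × (Space3 × Par P) =>
        ∫⁻ X : Space3, gw Φ f₀ P (fun _ => 1) ε q.1 (X, q.2.1) q.2.2 := hX.lintegral_prod_right'
    simp only at h1
    rw [lintegral_prod _ hg1.aemeasurable, lintegral_dirac' _ hg1.lintegral_prod_right',
      lintegral_prod _ hg2.aemeasurable, lintegral_dirac' _ hg2.lintegral_prod_right'] at h1
    have h2 : ∫⁻ z : PhasePoint × Par P, pf Φ f₀ ε P t z =
        ∫⁻ ℓ : PhasePoint, ∫⁻ p, gw Φ f₀ P (fun _ => 1) ε t ℓ p := by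
      rw [Measure.volume_eq_prod, lintegral_prod _ (measurable_pf hΦ hf ε P t).aemeasurable]
      rfl
    rw [h2, h1]
    refine lintegral_mono fun y => ?_
    exact lintegral_gw_le (φ := fun _ => 1) hΦ hE (a := 0) (Cφ := 1) hγ hf
      (fun s ℓ p _ _ => by simp) hε ht y.1 y.2

/-- **(MT2)** of helper307. -/
theorem exists_exit (hΦ : AdmissiblePotential Φ) (hf : Measurable f₀) {b : ℝ}
    (H : HasSummableGaussianBound b (fun x v => f₀ (x, v))) {b' : ℝ} (hb' : 0 < b')
    (hbb : b' < b) (P : CTree) (T : ℝ) :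
    ∃ C : ℝ≥0∞, C ≠ ∞ ∧ ∀ ε t : ℝ, 0 < ε → t ≤ T → ∀ x : Idx P, x ≠ root P →
      ∀ F : ML → ℝ≥0∞, Measurable F →
      ∫⁻ z : PhasePoint × Par P, pf Φ f₀ ε P t z * F (lineML Φ ε P z x) ≤
        C * ∫⁻ τ in Ioc 0 t, ∫⁻ z : PhasePoint,
          ENNReal.ofReal (Real.exp (-b' * ‖z.2‖ ^ 2)) * F ((τ, z), TreeLines335.mk P x) := by
  obtain ⟨C, hC, hb⟩ := exists_gaussian_bound H
  obtain ⟨C', hC', h⟩ := Mark307.exit_mass hΦ hf hC (b := b)
    (fun z => (le_abs_self _).trans (by rw [neg_mul]; exact hb z.1 z.2)) hb' hbb P T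
  refine ⟨C', hC', fun ε t hε ht x hx F hF => ?_⟩
  refine le_trans (le_of_eq ?_) ((h ε t hε ht x hx F hF).trans ?_)
  · refine lintegral_congr fun z => ?_
    by_cases hz : Valid Φ ε P t z.1.2 z.2
    · rw [pf_of_valid hz]
      rw [indicator_of_mem (s := {z : PhasePoint × Par P | Valid Φ ε P t z.1.2 z.2}) hz]
    · rw [pf_of_not_valid hz, zero_mul,
        indicator_of_notMem (s := {z : PhasePoint × Par P | Valid Φ ε P t z.1.2 z.2}) hz]
  · refine mul_le_mul_right ?_ _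
    exact lintegral_mono_set Ioo_subset_Ioc_self

/-- Probability that the line `l` has touched before `t`. -/
def touchP1 (Φ : Space3 → ℝ) (f₀ : PhasePoint → ℝ) (ε : ℝ) (K : ℕ) (t : ℝ) (l : ML) : ℝ≥0∞ :=
  gcE f₀ ε fun _ w => if (MW.cfg w).thetaL Φ ε K t l ≤ t then 1 else 0

theorem measurable_touchI (hΦ : AdmissiblePotential Φ) (hε : 0 < ε) (K : ℕ) (t : ℝ) (n : ℕ) :
    Measurable fun p : ML × Config n =>
      (if (MW.cfg p.2).thetaL Φ ε K t p.1 ≤ t then 1 else 0 : ℝ≥0∞) :=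
by
  have h : Measurable fun p : ML × Config n => (MW.cfg p.2).thetaL Φ ε K t p.1 :=
    (MeasE416.MeasW.cfg measurable_snd).thetaL hΦ hε measurable_fst K measurable_const
  exact Measurable.ite (measurableSet_le h measurable_const) measurable_const measurable_const

theorem measurable_touchP1 (hf : Measurable f₀) (hΦ : AdmissiblePotential Φ) (hε : 0 < ε) (K : ℕ)
    (t : ℝ) : Measurable (touchP1 Φ f₀ ε K t) :=
  MeasE416.measurable_gcE_of hf ε (F := fun _ l w =>
    if (MW.cfg w).thetaL Φ ε K t l ≤ t then 1 else 0) fun n => measurable_touchI hΦ hε K t n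

/-- The touched mass is the integral of the touch probability. -/
theorem tnMass_eq (hf : Measurable f₀) (hΦ : AdmissiblePotential Φ) (hε : 0 < ε) (γ : ℝ → ℝ)
    (ρ : ℝ≥0∞) (K : ℕ) (t : ℝ) : tnMass Φ f₀ γ ρ ε K t =
      ∫⁻ l, touchP1 Φ f₀ ε K t l ∂lineM γ ρ K t := by
  unfold touchP1
  rw [BadHit370.lintegral_gcE hf ε (lineM γ ρ K t)
    (F := fun _ l w => if (MW.cfg w).thetaL Φ ε K t l ≤ t then 1 else 0)
    (fun n => measurable_touchI hΦ hε K t n)]
  unfold tnMass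
  refine gcE_congr f₀ ε fun n w _ => ?_
  have h2 : Measurable fun l : ML => (MW.cfg w).thetaL Φ ε K t l :=
    (MeasE416.MeasW.const (MW.cfg w)).thetaL hΦ hε measurable_id K measurable_const
  have hm : MeasurableSet {l : ML | (MW.cfg w).thetaL Φ ε K t l ≤ t} :=
    measurableSet_le h2 measurable_const
  rw [← lintegral_indicator_one hm]
  refine lintegral_congr fun l => ?_
  simp only [indicator_apply, mem_ofPred_eq, Pi.one_apply]

/-- Comparison of the line measure with one mark. -/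
theorem line_le {γ' : ℝ → ℝ} (hγm : Measurable γ') {ρ : ℝ≥0∞} (hρ0 : ρ ≠ 0) (hρt : ρ ≠ ∞) {b' : ℝ}
    (hγ : ∀ τ ∈ Ioc 0 t, γ' τ ≤ b') {K n : ℕ} (hn : 1 ≤ n) (hnK : n ≤ K) {F : ML → ℝ≥0∞}
    (hF : Measurable F) :
    ∫⁻ τ in Ioc 0 t, ∫⁻ z : PhasePoint,
      ENNReal.ofReal (Real.exp (-b' * ‖z.2‖ ^ 2)) * F ((τ, z), n) ≤
      (ρ ^ n)⁻¹ * ∫⁻ l, F l ∂lineM γ' ρ K t := by
  have hρn0 : ρ ^ n ≠ 0 := pow_ne_zero _ hρ0
  have hρnt : ρ ^ n ≠ ∞ := ENNReal.pow_ne_top hρt
  rw [EBasic602.lintegral_lineM hγm hF, ← lintegral_const_mul' _ _ (ENNReal.inv_ne_top.2 hρn0)]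
  refine setLIntegral_mono_ae' measurableSet_Ioc (Eventually.of_forall fun τ hτ => ?_)
  have hFn : Measurable fun z : PhasePoint => F ((τ, z), n) :=
    hF.comp ((measurable_const.prodMk measurable_id).prodMk measurable_const)
  have hm : Measurable fun z : PhasePoint =>
      ENNReal.ofReal (Real.exp (-b' * ‖z.2‖ ^ 2)) * F ((τ, z), n) := by
    refine Measurable.mul ?_ hFn
    fun_prop
  rw [Measure.volume_eq_prod, lintegral_prod_symm _ hm.aemeasurable,
    ← lintegral_const_mul' _ _ (ENNReal.inv_ne_top.2 hρn0)]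
  refine lintegral_mono fun v => ?_
  have hFy : Measurable fun y : Space3 => F ((τ, (y, v)), n) :=
    hFn.comp (measurable_id.prodMk measurable_const)
  have e1 : ∫⁻ y : Space3, ENNReal.ofReal (Real.exp (-b' * ‖v‖ ^ 2)) * F ((τ, (y, v)), n) =
      ENNReal.ofReal (Real.exp (-b' * ‖v‖ ^ 2)) * ∫⁻ y : Space3, F ((τ, (y, v)), n) :=
    lintegral_const_mul _ hFy
  change ∫⁻ y : Space3, ENNReal.ofReal (Real.exp (-b' * ‖v‖ ^ 2)) * F ((τ, (y, v)), n) ≤ _
  rw [e1]
  have e2 : ∫⁻ y : Space3, F ((τ, (y, v)), n) ≤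
      (ρ ^ n)⁻¹ * ∫⁻ y : Space3, ∑' m : ℕ, markW ρ K m * F ((τ, (y, v)), m) := by
    rw [← lintegral_const_mul' _ _ (ENNReal.inv_ne_top.2 hρn0)]
    refine lintegral_mono fun y => ?_
    have h1 : markW ρ K n * F ((τ, (y, v)), n) ≤ ∑' m : ℕ, markW ρ K m * F ((τ, (y, v)), m) :=
      ENNReal.le_tsum n
    have h2 : markW ρ K n = ρ ^ n := by
      unfold markW
      rw [if_pos ⟨hn, hnK⟩]
    rw [h2] at h1
    calc F ((τ, (y, v)), n) = (ρ ^ n)⁻¹ * (ρ ^ n * F ((τ, (y, v)), n)) := by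
          rw [← mul_assoc, ENNReal.inv_mul_cancel hρn0 hρnt, one_mul]
      _ ≤ _ := mul_le_mul_right h1 _
  have e3 : ENNReal.ofReal (Real.exp (-b' * ‖v‖ ^ 2)) ≤ Kin796.wG (γ' τ) v := by
    unfold Kin796.wG
    refine ENNReal.ofReal_le_ofReal (Real.exp_le_exp.2 ?_)
    have := hγ τ hτ
    nlinarith [sq_nonneg ‖v‖]
  calc ENNReal.ofReal (Real.exp (-b' * ‖v‖ ^ 2)) * ∫⁻ y : Space3, F ((τ, (y, v)), n)
      ≤ Kin796.wG (γ' τ) v * ((ρ ^ n)⁻¹ *
          ∫⁻ y : Space3, ∑' m : ℕ, markW ρ K m * F ((τ, (y, v)), m)) := by gcongr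
    _ = _ := by ring

/-- **Mass of the trees with a touched exit line.** -/
theorem exists_touch_mass (hΦ : AdmissiblePotential Φ) (hf : Measurable f₀) {b : ℝ}
    (H : HasSummableGaussianBound b (fun x v => f₀ (x, v))) {b' : ℝ} (hb' : 0 < b')
    (hbb : b' < b) {γ' : ℝ → ℝ} (hγm : Measurable γ') (hγ : ∀ τ ∈ Ioc 0 T, γ' τ ≤ b')
    {ρ : ℝ≥0∞} (hρ0 : ρ ≠ 0) (hρt : ρ ≠ ∞) (P : CTree) :
    ∃ C : ℝ≥0∞, C ≠ ∞ ∧ ∀ (ε t : ℝ) (K : ℕ), 0 < ε → t ≤ T → P.leaves ≤ K →
      ∀ x : Idx P, x ≠ root P →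
      ∫⁻ z : PhasePoint × Par P, pf Φ f₀ ε P t z * touchP1 Φ f₀ ε K t (lineML Φ ε P z x) ≤
        C * tnMass Φ f₀ γ' ρ ε K t := by
  obtain ⟨C, hC, h⟩ := exists_exit hΦ hf H hb' hbb P T
  refine ⟨C * ∑ x : Idx P, (ρ ^ TreeLines335.mk P x)⁻¹, ENNReal.mul_ne_top hC
    (ENNReal.sum_ne_top.2 fun x _ => ENNReal.inv_ne_top.2 (pow_ne_zero _ hρ0)),
    fun ε t K hε ht hK x hx => ?_⟩
  have hF := measurable_touchP1 (f₀ := f₀) hf hΦ hε K t
  refine (h ε t hε ht x hx _ hF).trans ?_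
  rw [tnMass_eq hf hΦ hε, mul_assoc]
  refine mul_le_mul_right ?_ _
  refine (line_le hγm hρ0 hρt (fun τ hτ => hγ τ ⟨hτ.1, hτ.2.trans ht⟩) (one_le_mk P x)
    ((mk_le P x).trans hK) hF).trans ?_
  refine mul_le_mul_left ?_ _
  exact Finset.single_le_sum (f := fun x : Idx P => (ρ ^ TreeLines335.mk P x)⁻¹)
    (fun _ _ => bot_le) (Finset.mem_univ x)

end Crest.Agent.R122.Ret424

end
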