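import Mathlib

/-!
# Smooth stopping weight (row 122, section E, (W2)-(W4) of E_984)

`ν` is a measure on the inserted lines, `θ` their first touch time; `X ν θ s = ν {θ ≤ s}` is the
touched mass at time `s`.  The weight `W L x = exp (-L x)` (zero at `x = ∞`) evaluated just before
the touch time makes the second touch cost `1 / L` and keeps the weight for the first touch.
-/

set_option autoImplicit false

open MeasureTheory Set Filter
open scoped ENNReal Topology

namespace Crest.Agent.R122.Weight984

/-! ## The weight -/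

/-- `exp (-L x)`, zero at infinity. -/
noncomputable def W (L : ℝ) (x : ℝ≥0∞) : ℝ≥0∞ :=
  if x = ∞ then 0 else ENNReal.ofReal (Real.exp (-(L * x.toReal)))

theorem W_top (L : ℝ) : W L ∞ = 0 := by simp [W]

theorem W_of_ne {L : ℝ} {x : ℝ≥0∞} (hx : x ≠ ∞) :
    W L x = ENNReal.ofReal (Real.exp (-(L * x.toReal))) := by simp [W, hx]

theorem W_ofReal {L y : ℝ} (hy : 0 ≤ y) : W L (ENNReal.ofReal y) = ENNReal.ofReal (Real.exp (-(L * y))) := by
  rw [W_of_ne ENNReal.ofReal_ne_top, ENNReal.toReal_ofReal hy]

theorem W_zero (L : ℝ) : W L 0 = 1 := by simp [W]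

theorem W_anti {L : ℝ} (hL : 0 ≤ L) : Antitone (W L) := by
  intro x y hxy
  rcases eq_or_ne y ∞ with rfl | hy
  · simp [W_top]
  · have hx : x ≠ ∞ := ne_top_of_le_ne_top hy hxy
    rw [W_of_ne hx, W_of_ne hy]
    apply ENNReal.ofReal_le_ofReal
    apply Real.exp_le_exp.2
    have := ENNReal.toReal_mono hy hxy
    nlinarith

theorem W_le_one {L : ℝ} (hL : 0 ≤ L) (x : ℝ≥0∞) : W L x ≤ 1 := by
  rw [← W_zero L]; exact W_anti hL bot_le


theorem measurable_W (L : ℝ) : Measurable (W L) := by
  unfold W
  refine Measurable.ite (measurableSet_singleton _) measurable_const ?_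
  exact (Real.measurable_exp.comp ((ENNReal.measurable_toReal.const_mul L).neg)).ennreal_ofReal

/-- Layer cake for the weight. -/
theorem W_eq_lintegral {L : ℝ} (hL : 0 < L) (x : ℝ≥0∞) :
    W L x = ∫⁻ y in Ioi (0 : ℝ),
      {y : ℝ | x < ENNReal.ofReal y}.indicator (fun y => ENNReal.ofReal (L * Real.exp (-(L * y)))) y := by
  rcases eq_or_ne x ∞ with rfl | hx
  · simp [W_top]
  · have hset : {y : ℝ | x < ENNReal.ofReal y} = Ioi x.toReal := by
      ext y
      simp only [mem_ofPred_eq, mem_Ioi]
      rw [← ENNReal.lt_ofReal_iff_toReal_lt hx]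
    rw [hset, lintegral_indicator measurableSet_Ioi, Measure.restrict_restrict measurableSet_Ioi]
    have h2 : Ioi x.toReal ∩ Ioi (0 : ℝ) = Ioi x.toReal := by
      ext y; simp only [mem_inter_iff, mem_Ioi, and_iff_left_iff_imp]
      exact fun h => lt_of_le_of_lt ENNReal.toReal_nonneg h
    rw [h2, W_of_ne hx]
    have hint : IntegrableOn (fun y : ℝ => L * Real.exp (-(L * y))) (Ioi x.toReal) := by
      have := (integrableOn_exp_mul_Ioi (a := -L) (by linarith) x.toReal).const_mul L
      refine IntegrableOn.congr_fun this (fun y _ => ?_) measurableSet_Ioi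
      simp only [neg_mul]
    rw [← ofReal_integral_eq_lintegral_ofReal hint
      (ae_of_all _ fun y => mul_nonneg hL.le (Real.exp_pos _).le)]
    congr 1
    have h3 : ∫ y in Ioi x.toReal, L * Real.exp (-(L * y))
        = L * ∫ y in Ioi x.toReal, Real.exp (-L * y) := by
      rw [← integral_const_mul]
      simp only [neg_mul]
    rw [h3, integral_exp_mul_Ioi (by linarith : -L < 0)]
    field_simp

/-! ## Touched mass -/

section touched

variable {Ω α : Type*} [MeasurableSpace Ω] [CompleteLinearOrder α]

/-- Touched mass at time `s` (right-continuous version). -/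
noncomputable def X (ν : Measure Ω) (θ : Ω → α) (s : α) : ℝ≥0∞ := ν {ω | θ ω ≤ s}

/-- Touched mass before time `s`. -/
noncomputable def Xm (ν : Measure Ω) (θ : Ω → α) (s : α) : ℝ≥0∞ := ν {ω | θ ω < s}

theorem X_mono (ν : Measure Ω) (θ : Ω → α) : Monotone (X ν θ) :=
  fun _ _ h => measure_mono fun _ hω => le_trans hω h





variable [TopologicalSpace α] [OrderTopology α] [FirstCountableTopology α]

/-- Mass of the points touched after `s₁` while the touched mass is `< y`. -/
theorem measure_band_le (ν : Measure Ω) (θ : Ω → α) (s₁ : α)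
    (hθ : ∀ s, MeasurableSet {ω | θ ω ≤ s}) (y : ℝ≥0∞) :
    X ν θ s₁ + ν {ω | s₁ < θ ω ∧ X ν θ (θ ω) < y} ≤ max y (X ν θ s₁) := by
  classical
  set S : Set α := {s | s₁ < s ∧ X ν θ s < y} with hS
  have key : ∀ s ∈ S, X ν θ s₁ + ν {ω | s₁ < θ ω ∧ θ ω ≤ s} ≤ y := by
    intro s hs
    have hdisj : Disjoint {ω | θ ω ≤ s₁} {ω | s₁ < θ ω ∧ θ ω ≤ s} := by
      rw [Set.disjoint_left]
      intro ω h1 h2
      exact absurd h1 (not_le.2 h2.1)
    have hun : {ω | θ ω ≤ s₁} ∪ {ω | s₁ < θ ω ∧ θ ω ≤ s} = {ω | θ ω ≤ s} := by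
      ext ω
      simp only [mem_union, mem_ofPred_eq]
      constructor
      · rintro (h | h)
        · exact h.trans hs.1.le
        · exact h.2
      · intro h
        rcases le_or_gt (θ ω) s₁ with h' | h'
        · exact Or.inl h'
        · exact Or.inr ⟨h', h⟩
    have : X ν θ s₁ + ν {ω | s₁ < θ ω ∧ θ ω ≤ s} = X ν θ s := by
      unfold X
      rw [← hun, measure_union' hdisj (hθ s₁)]
    rw [this]
    exact hs.2.le
  rcases S.eq_empty_or_nonempty with hSe | hSn
  · have : {ω | s₁ < θ ω ∧ X ν θ (θ ω) < y} = ∅ := by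
      ext ω
      simp only [mem_ofPred_eq, mem_empty_iff_false, iff_false]
      intro h
      have : θ ω ∈ S := h
      rw [hSe] at this
      exact this
    rw [this, measure_empty, add_zero]
    exact le_max_right _ _
  · refine le_trans ?_ (le_max_left _ _)
    by_cases hmax : sSup S ∈ S
    · refine le_trans (add_le_add_right (measure_mono ?_) _) (key _ hmax)
      intro ω h
      exact ⟨h.1, le_sSup (show θ ω ∈ S from h)⟩
    · obtain ⟨u, hum, _, hut, huS⟩ :=
        (isLUB_sSup S).exists_seq_monotone_tendsto hSn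
      have hsub : {ω | s₁ < θ ω ∧ X ν θ (θ ω) < y} ⊆ ⋃ n, {ω | s₁ < θ ω ∧ θ ω ≤ u n} := by
        intro ω h
        have h1 : θ ω ∈ S := h
        have h2 : θ ω < sSup S := lt_of_le_of_ne (le_sSup h1) fun he => hmax (he ▸ h1)
        obtain ⟨n, hn⟩ := (hut.eventually (lt_mem_nhds h2)).exists
        exact mem_iUnion.2 ⟨n, h.1, hn.le⟩
      have hmono : Monotone fun n => {ω | s₁ < θ ω ∧ θ ω ≤ u n} :=
        fun m n hmn ω h => ⟨h.1, h.2.trans (hum hmn)⟩
      calc X ν θ s₁ + ν {ω | s₁ < θ ω ∧ X ν θ (θ ω) < y}
          ≤ X ν θ s₁ + ν (⋃ n, {ω | s₁ < θ ω ∧ θ ω ≤ u n}) := by gcongr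
        _ = ⨆ n, (X ν θ s₁ + ν {ω | s₁ < θ ω ∧ θ ω ≤ u n}) := by
            rw [hmono.measure_iUnion, ENNReal.add_iSup]
        _ ≤ y := iSup_le fun n => key _ (huS n)

variable [MeasurableSpace α] [BorelSpace α]

/-- **(W2)**, right-continuous version: the weighted mass touched after `s₁`. -/
theorem lintegral_W_X_le {L : ℝ} (hL : 0 < L) (ν : Measure Ω) [SFinite ν] {θ : Ω → α}
    (hθ : Measurable θ) (s₁ : α) :
    ∫⁻ ω in {ω | s₁ < θ ω}, W L (X ν θ (θ ω)) ∂ν ≤ ENNReal.ofReal (1 / L) * W L (X ν θ s₁) := by
  classical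
  have hms : ∀ s, MeasurableSet {ω | θ ω ≤ s} := fun s => hθ measurableSet_Iic
  have hms1 : MeasurableSet {ω | s₁ < θ ω} := hθ measurableSet_Ioi
  have hX : Measurable fun ω => X ν θ (θ ω) := (X_mono ν θ).measurable.comp hθ
  rcases eq_or_ne (X ν θ s₁) ∞ with htop | hfin
  · -- everything vanishes
    rw [setLIntegral_congr_fun hms1 (g := fun _ => 0)]
    · simp
    · intro ω hω
      have : X ν θ (θ ω) = ∞ := top_le_iff.1 (htop ▸ X_mono ν θ (le_of_lt hω))
      simp [this, W_top]
  have e1 : ∀ ω, W L (X ν θ (θ ω)) = ∫⁻ y in Ioi (0 : ℝ),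
      {y : ℝ | X ν θ (θ ω) < ENNReal.ofReal y}.indicator
        (fun y => ENNReal.ofReal (L * Real.exp (-(L * y)))) y := fun ω => W_eq_lintegral hL _
  have hjm : Measurable fun p : Ω × ℝ => {y : ℝ | X ν θ (θ p.1) < ENNReal.ofReal y}.indicator
        (fun y => ENNReal.ofReal (L * Real.exp (-(L * y)))) p.2 := by
    have : (fun p : Ω × ℝ => {y : ℝ | X ν θ (θ p.1) < ENNReal.ofReal y}.indicator
        (fun y => ENNReal.ofReal (L * Real.exp (-(L * y)))) p.2)
        = {p : Ω × ℝ | X ν θ (θ p.1) < ENNReal.ofReal p.2}.indicator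
          (fun p => ENNReal.ofReal (L * Real.exp (-(L * p.2)))) := by
      ext p
      simp only [indicator, mem_ofPred_eq]
    rw [this]
    refine Measurable.indicator ?_ ?_
    · exact (measurable_const.mul (Real.measurable_exp.comp
        ((measurable_snd.const_mul L).neg))).ennreal_ofReal
    · exact measurableSet_lt (hX.comp measurable_fst) measurable_snd.ennreal_ofReal
  calc ∫⁻ ω in {ω | s₁ < θ ω}, W L (X ν θ (θ ω)) ∂ν
      = ∫⁻ ω in {ω | s₁ < θ ω}, (∫⁻ y in Ioi (0 : ℝ),
          {y : ℝ | X ν θ (θ ω) < ENNReal.ofReal y}.indicator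
            (fun y => ENNReal.ofReal (L * Real.exp (-(L * y)))) y) ∂ν := by
        simp_rw [e1]
    _ = ∫⁻ y in Ioi (0 : ℝ), (∫⁻ ω in {ω | s₁ < θ ω},
          {y : ℝ | X ν θ (θ ω) < ENNReal.ofReal y}.indicator
            (fun y => ENNReal.ofReal (L * Real.exp (-(L * y)))) y ∂ν) :=
        lintegral_lintegral_swap hjm.aemeasurable
    _ = ∫⁻ y in Ioi (0 : ℝ), ENNReal.ofReal (L * Real.exp (-(L * y))) *
          ν {ω | s₁ < θ ω ∧ X ν θ (θ ω) < ENNReal.ofReal y} := by
        refine lintegral_congr fun y => ?_
        have : ∀ ω, {y : ℝ | X ν θ (θ ω) < ENNReal.ofReal y}.indicator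
            (fun y => ENNReal.ofReal (L * Real.exp (-(L * y)))) y
            = {ω | X ν θ (θ ω) < ENNReal.ofReal y}.indicator
              (fun _ => ENNReal.ofReal (L * Real.exp (-(L * y)))) ω := by
          intro ω; simp only [indicator, mem_ofPred_eq]
        simp_rw [this]
        rw [lintegral_indicator (measurableSet_lt hX measurable_const), lintegral_const,
          Measure.restrict_apply MeasurableSet.univ, univ_inter,
          Measure.restrict_apply (measurableSet_lt hX measurable_const)]
        congr 2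
        ext ω
        simp only [mem_inter_iff, mem_ofPred_eq]
        tauto
    _ ≤ ∫⁻ y in Ioi (0 : ℝ), ENNReal.ofReal (L * Real.exp (-(L * y))) *
          (ENNReal.ofReal y - X ν θ s₁) := by
        refine lintegral_mono fun y => ?_
        refine mul_le_mul_right ?_ _
        have hb := measure_band_le ν θ s₁ hms (ENNReal.ofReal y)
        rcases le_total (X ν θ s₁) (ENNReal.ofReal y) with h | h
        · rw [max_eq_left h] at hb
          exact ENNReal.le_sub_of_add_le_left hfin hb
        · rw [max_eq_right h] at hb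
          have h0 : ν {ω | s₁ < θ ω ∧ X ν θ (θ ω) < ENNReal.ofReal y} ≤ 0 := by
            have := ENNReal.le_sub_of_add_le_left hfin hb
            simpa using this
          exact h0.trans bot_le
    _ = ENNReal.ofReal (1 / L) * W L (X ν θ s₁) := by
        set a := (X ν θ s₁).toReal with ha
        have ha0 : 0 ≤ a := ENNReal.toReal_nonneg
        have haX : X ν θ s₁ = ENNReal.ofReal a := (ENNReal.ofReal_toReal hfin).symm
        rw [haX, W_ofReal ha0]
        have e2 : ∀ y ∈ Ioi (0 : ℝ), ENNReal.ofReal (L * Real.exp (-(L * y))) *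
            (ENNReal.ofReal y - ENNReal.ofReal a)
            = (Ioi a).indicator (fun y => ENNReal.ofReal (L * Real.exp (-(L * y)) * (y - a))) y := by
          intro y _
          by_cases hy : a < y
          · rw [indicator_of_mem (mem_Ioi.2 hy), ← ENNReal.ofReal_sub _ ha0,
              ENNReal.ofReal_mul (mul_nonneg hL.le (Real.exp_pos _).le)]
          · rw [indicator_of_notMem (by simpa using hy),
              tsub_eq_zero_of_le (ENNReal.ofReal_le_ofReal (not_lt.1 hy)), mul_zero]
        rw [setLIntegral_congr_fun measurableSet_Ioi e2, lintegral_indicator measurableSet_Ioi,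
          Measure.restrict_restrict measurableSet_Ioi]
        have h2 : Ioi a ∩ Ioi (0 : ℝ) = Ioi a := by
          ext y; simp only [mem_inter_iff, mem_Ioi, and_iff_left_iff_imp]
          exact fun h => lt_of_le_of_lt ha0 h
        rw [h2]
        -- antiderivative  G y = - (y - a + 1/L) exp (-L y)
        have hderiv : ∀ y ∈ Ici a, HasDerivAt (fun y => -((y - a + 1 / L) * Real.exp (-(L * y))))
            (L * Real.exp (-(L * y)) * (y - a)) y := by
          intro y _
          have h1 : HasDerivAt (fun y : ℝ => y - a + 1 / L) 1 y := by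
            simpa using ((hasDerivAt_id y).sub_const a).add_const (1 / L)
          have h3 : HasDerivAt (fun y : ℝ => Real.exp (-(L * y))) (Real.exp (-(L * y)) * (-L)) y := by
            have : HasDerivAt (fun y : ℝ => -(L * y)) (-L) y := by
              have h := ((hasDerivAt_id y).const_mul L).neg
              simp only [mul_one] at h
              exact h
            exact this.exp
          have hL1 : 1 / L * L = 1 := by field_simp
          have h4 := (h1.mul h3).neg
          have e : -(1 * Real.exp (-(L * y)) + (y - a + 1 / L) * (Real.exp (-(L * y)) * -L))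
              = L * Real.exp (-(L * y)) * (y - a) := by
            linear_combination (Real.exp (-(L * y))) * hL1
          rw [e] at h4
          exact h4
        have hlim : Tendsto (fun y : ℝ => -((y - a + 1 / L) * Real.exp (-(L * y)))) atTop (𝓝 0) := by
          have h1 : Tendsto (fun y : ℝ => y * Real.exp (-(L * y))) atTop (𝓝 0) := by
            have := Real.tendsto_pow_mul_exp_neg_atTop_nhds_zero 1
            have h4 : Tendsto (fun y : ℝ => L * y) atTop atTop := tendsto_id.const_mul_atTop hL
            have h5 := (this.comp h4).const_mul (1 / L)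
            simp only [mul_zero] at h5
            refine h5.congr fun y => ?_
            simp only [Function.comp, pow_one]
            field_simp
          have h2 : Tendsto (fun y : ℝ => Real.exp (-(L * y))) atTop (𝓝 0) := by
            refine Real.tendsto_exp_atBot.comp ?_
            exact tendsto_neg_atTop_atBot.comp (tendsto_id.const_mul_atTop hL)
          have h3 := (h1.add (h2.const_mul (-a + 1 / L))).neg
          simp only [mul_zero, add_zero, neg_zero] at h3
          refine h3.congr fun y => ?_
          ring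
        have hnn : ∀ y ∈ Ioi a, 0 ≤ L * Real.exp (-(L * y)) * (y - a) := fun y hy =>
          mul_nonneg (mul_nonneg hL.le (Real.exp_pos _).le) (sub_nonneg.2 (le_of_lt hy))
        have hint : IntegrableOn (fun y => L * Real.exp (-(L * y)) * (y - a)) (Ioi a) :=
          integrableOn_Ioi_deriv_of_nonneg' hderiv hnn hlim
        rw [← ofReal_integral_eq_lintegral_ofReal hint
          ((ae_restrict_iff' measurableSet_Ioi).2 (ae_of_all _ hnn)),
          integral_Ioi_of_hasDerivAt_of_nonneg' hderiv hnn hlim,
          ← ENNReal.ofReal_mul (by positivity)]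
        congr 1
        ring


end touched

/-! ## Closing of the linear system -/



/-! ## Removing the weight -/



end Crest.Agent.R122.Weight984
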