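import Crest.Agent.R122.GCBounds_311
import Crest.Agent.R122.LocFlow_45
import Crest.Agent.R122.Sweep_815
import Crest.Agent.R122.Weight_984
import Crest.Agent.R122.BoltzGauss_814

/-!
Row 122 (helper974): moments of the gas, uniform integrability, flux of Gaussian lines through the
whole gas (inputs of the unweighting step).

* `kin_flow_le` : kinetic energy at any time from the data at time `0`.
* `gcE_sq_le` : second moment of `activity⁻¹ ∑ φ(z_j)`.
* `gcE_sum_event_le` : uniform integrability.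
* `lines_meet_le`, `lines_meet_int_le`, `gcE_lines_meet_le` : lines which come close to some particle.
-/

set_option autoImplicit false

open MeasureTheory Set
open scoped Classical ENNReal
open Crest.AnalysisR.Kinetic
open Crest.Agent.R122.GC311 Crest.Agent.R122.Flow671 Crest.Agent.R122.Loc45

noncomputable section

namespace Crest.Agent.R122.Mom974

/-! ### Energy at any time -/

/-- kinetic part: `∑ |v_i(t)|² ≤ ∑ |v_i(0)|² + 2 B n`. -/
theorem kin_flow_le {Φ : Space3 → ℝ} (hΦ : AdmissiblePotential Φ) {ε : ℝ} (hε : 0 < ε) {n : ℕ}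
    {Z : Config n} (hZ : Z ∈ PairExcluded ε n) (t : ℝ) :
    ∑ i, ‖(flow Φ ε t Z i).2‖ ^ 2 ≤ ∑ i, ‖(Z i).2‖ ^ 2 + 2 * stabB Φ * n := by
  have hD : Z ∈ Dom Φ (Fin n) := pairExcluded_subset_Dom hε n hZ
  have h1 := kin_le hΦ hε (flow_mem hΦ hε hD t)
  rw [energy_flow hΦ hε, energy_pairExcluded hΦ hε hZ, Fintype.card_fin] at h1
  unfold kin at h1
  linarith

/-- `∑ (1 + |v_i(t)|²) ≤ (1 + 2B) ∑ (1 + |v_i(0)|²)`. -/
theorem weight_flow_le {Φ : Space3 → ℝ} (hΦ : AdmissiblePotential Φ) {ε : ℝ} (hε : 0 < ε) {n : ℕ}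
    {Z : Config n} (hZ : Z ∈ PairExcluded ε n) (t : ℝ) :
    ∑ i, (1 + ‖(flow Φ ε t Z i).2‖ ^ 2) ≤ (1 + 2 * stabB Φ) * ∑ i, (1 + ‖(Z i).2‖ ^ 2) := by
  have h1 := kin_flow_le hΦ hε hZ t
  have hB := stabB_nonneg Φ
  have h2 : 0 ≤ ∑ i, ‖(Z i).2‖ ^ 2 := Finset.sum_nonneg fun i _ => sq_nonneg _
  rw [Finset.sum_add_distrib, Finset.sum_add_distrib]
  simp only [Finset.sum_const, Finset.card_univ, Fintype.card_fin, nsmul_eq_mul, mul_one]
  have h3 : (0 : ℝ) ≤ n := Nat.cast_nonneg n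
  nlinarith

/-- `ENNReal` form. -/
theorem weight_flow_le' {Φ : Space3 → ℝ} (hΦ : AdmissiblePotential Φ) {ε : ℝ} (hε : 0 < ε) {n : ℕ}
    {Z : Config n} (hZ : Z ∈ PairExcluded ε n) (t : ℝ) :
    ∑ i, ENNReal.ofReal (1 + ‖(flow Φ ε t Z i).2‖ ^ 2) ≤
      ENNReal.ofReal (1 + 2 * stabB Φ) * ∑ i, ENNReal.ofReal (1 + ‖(Z i).2‖ ^ 2) := by
  have hB := stabB_nonneg Φ
  rw [← ENNReal.ofReal_sum_of_nonneg fun i _ => by positivity,
    ← ENNReal.ofReal_sum_of_nonneg fun i _ => by positivity,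
    ← ENNReal.ofReal_mul (by positivity)]
  exact ENNReal.ofReal_le_ofReal (weight_flow_le hΦ hε hZ t)

/-- speeds: `∑ (1 + |v_i(t)|) ≤ 2 (1 + 2B) ∑ (1 + |v_i(0)|²)`. -/
theorem speed_flow_le {Φ : Space3 → ℝ} (hΦ : AdmissiblePotential Φ) {ε : ℝ} (hε : 0 < ε) {n : ℕ}
    {Z : Config n} (hZ : Z ∈ PairExcluded ε n) (t : ℝ) :
    ∑ i, ENNReal.ofReal (1 + ‖(flow Φ ε t Z i).2‖) ≤
      2 * ENNReal.ofReal (1 + 2 * stabB Φ) * ∑ i, ENNReal.ofReal (1 + ‖(Z i).2‖ ^ 2) := by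
  have h1 : ∑ i, ENNReal.ofReal (1 + ‖(flow Φ ε t Z i).2‖) ≤
      2 * ∑ i, ENNReal.ofReal (1 + ‖(flow Φ ε t Z i).2‖ ^ 2) := by
    rw [Finset.mul_sum]
    refine Finset.sum_le_sum fun i _ => ?_
    have h2 : ENNReal.ofReal (2 * (1 + ‖(flow Φ ε t Z i).2‖ ^ 2)) =
        2 * ENNReal.ofReal (1 + ‖(flow Φ ε t Z i).2‖ ^ 2) := by
      rw [ENNReal.ofReal_mul (by norm_num), ENNReal.ofReal_ofNat]
    rw [← h2]
    refine ENNReal.ofReal_le_ofReal ?_
    nlinarith [sq_nonneg (‖(flow Φ ε t Z i).2‖ - 1), norm_nonneg (flow Φ ε t Z i).2]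
  refine h1.trans ?_
  rw [mul_assoc]
  exact mul_le_mul_right (weight_flow_le' hΦ hε hZ t) _

/-! ### Velocity moments of the initial density -/

/-- Integration of a velocity weight against the initial density. -/
theorem exists_lintegral_f0_mul_le {γ : ℝ} {f₀ : PhasePoint → ℝ}
    (hb : HasSummableGaussianBound γ (fun x v => f₀ (x, v))) :
    ∃ S : ℝ≥0∞, S ≠ ∞ ∧ ∀ φ : Space3 → ℝ≥0∞, Measurable φ →
      ∫⁻ z, ENNReal.ofReal (f₀ z) * φ z.2 ≤
        S * ∫⁻ v : Space3, ENNReal.ofReal (Real.exp (-γ * ‖v‖ ^ 2)) * φ v := by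
  obtain ⟨M, hM, hb⟩ := hb
  have hnn : ∀ k, 0 ≤ M k := by
    intro k
    refine le_trans ?_ (hb k (latticePoint k) 0 (by simp))
    positivity
  refine ⟨∑' k, ENNReal.ofReal (M k) * volume (Metric.closedBall (latticePoint k) 1), ?_,
    fun φ hφ => ?_⟩
  · have hv : ∀ k : Fin 3 → ℤ, volume (Metric.closedBall (latticePoint k) 1) = Sweep815.c3 := by
      intro k
      rw [Sweep815.vol_closedBall]
      simp
    simp_rw [hv]
    rw [ENNReal.tsum_mul_right]
    refine ENNReal.mul_ne_top ?_ ENNReal.ofReal_ne_top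
    rw [← ENNReal.ofReal_tsum_of_nonneg hnn hM]
    exact ENNReal.ofReal_ne_top
  · have hmk : ∀ k : Fin 3 → ℤ, Measurable fun z : PhasePoint =>
        (Metric.closedBall (latticePoint k) 1).indicator (fun _ => ENNReal.ofReal (M k)) z.1 *
          (ENNReal.ofReal (Real.exp (-γ * ‖z.2‖ ^ 2)) * φ z.2) := by
      intro k
      refine Measurable.mul ?_ ?_
      · exact (measurable_const.indicator Metric.isClosed_closedBall.measurableSet).comp
          measurable_fst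
      · exact (Measurable.ennreal_ofReal (by fun_prop)).mul (hφ.comp measurable_snd)
    calc ∫⁻ z, ENNReal.ofReal (f₀ z) * φ z.2
        ≤ ∫⁻ z : PhasePoint, ∑' k : Fin 3 → ℤ,
          (Metric.closedBall (latticePoint k) 1).indicator (fun _ => ENNReal.ofReal (M k)) z.1 *
            (ENNReal.ofReal (Real.exp (-γ * ‖z.2‖ ^ 2)) * φ z.2) := by
          refine lintegral_mono fun z => ?_
          obtain ⟨k, hk⟩ := exists_lattice_near z.1
          refine le_trans ?_ (ENNReal.le_tsum k)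
          have hmem : z.1 ∈ Metric.closedBall (latticePoint k) 1 := Metric.mem_closedBall.2 hk
          simp only [indicator_of_mem hmem]
          rw [← mul_assoc, ← ENNReal.ofReal_mul (hnn k)]
          refine mul_le_mul_left (ENNReal.ofReal_le_ofReal ?_) _
          have h1 := hb k z.1 z.2 hk
          have h2 : Real.exp (-γ * ‖z.2‖ ^ 2) = (Real.exp (γ * ‖z.2‖ ^ 2))⁻¹ := by
            rw [← Real.exp_neg]; congr 1; ring
          rw [h2, ← div_eq_mul_inv, le_div_iff₀ (Real.exp_pos _), mul_comm]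
          exact (mul_le_mul_of_nonneg_left (le_abs_self _) (Real.exp_pos _).le).trans h1
      _ = ∑' k : Fin 3 → ℤ, ∫⁻ z : PhasePoint,
          (Metric.closedBall (latticePoint k) 1).indicator (fun _ => ENNReal.ofReal (M k)) z.1 *
            (ENNReal.ofReal (Real.exp (-γ * ‖z.2‖ ^ 2)) * φ z.2) :=
          lintegral_tsum fun k => (hmk k).aemeasurable
      _ = ∑' k : Fin 3 → ℤ, (ENNReal.ofReal (M k) * volume (Metric.closedBall (latticePoint k) 1)) *
            ∫⁻ v : Space3, ENNReal.ofReal (Real.exp (-γ * ‖v‖ ^ 2)) * φ v := by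
          refine tsum_congr fun k => ?_
          change ∫⁻ z, _ ∂((volume : Measure Space3).prod (volume : Measure Space3)) = _
          rw [lintegral_prod _ (hmk k).aemeasurable]
          have h3 : ∀ x : Space3, ∫⁻ v : Space3,
              (Metric.closedBall (latticePoint k) 1).indicator (fun _ => ENNReal.ofReal (M k)) x *
              (ENNReal.ofReal (Real.exp (-γ * ‖v‖ ^ 2)) * φ v) =
              (Metric.closedBall (latticePoint k) 1).indicator (fun _ => ENNReal.ofReal (M k)) x *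
              ∫⁻ v : Space3, ENNReal.ofReal (Real.exp (-γ * ‖v‖ ^ 2)) * φ v := by
            intro x
            exact lintegral_const_mul _ ((Measurable.ennreal_ofReal (by fun_prop)).mul hφ)
          simp only [h3]
          rw [lintegral_mul_const _
            (measurable_const.indicator Metric.isClosed_closedBall.measurableSet),
            lintegral_indicator Metric.isClosed_closedBall.measurableSet, lintegral_const,
            Measure.restrict_apply_univ]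
      _ = _ := ENNReal.tsum_mul_right

/-- All velocity moments of `f₀` are finite. -/
theorem lintegral_f0_pow_ne_top {γ : ℝ} (hγ : 0 < γ) {f₀ : PhasePoint → ℝ}
    (hb : HasSummableGaussianBound γ (fun x v => f₀ (x, v))) (k : ℕ) :
    ∫⁻ z, ENNReal.ofReal (f₀ z) * ENNReal.ofReal ((1 + ‖z.2‖) ^ k) ≠ ∞ := by
  obtain ⟨S, hS, h⟩ := exists_lintegral_f0_mul_le hb
  refine ne_top_of_le_ne_top (ENNReal.mul_ne_top hS ?_)
    (h (fun v => ENNReal.ofReal ((1 + ‖v‖) ^ k)) (by fun_prop))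
  have h1 := (Boltz814.integrable_one_add_pow_mul_gauss hγ k).lintegral_lt_top
  refine ne_of_lt (lt_of_eq_of_lt (lintegral_congr fun v => ?_) h1)
  rw [← ENNReal.ofReal_mul (Real.exp_pos _).le, mul_comm]

/-- The weight `1 + |v|²` has finite first and second moment. -/
theorem lintegral_f0_weight_ne_top {γ : ℝ} (hγ : 0 < γ) {f₀ : PhasePoint → ℝ}
    (hb : HasSummableGaussianBound γ (fun x v => f₀ (x, v))) :
    (∫⁻ z, ENNReal.ofReal (f₀ z) * ENNReal.ofReal (1 + ‖z.2‖ ^ 2) ≠ ∞) ∧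
      ∫⁻ z, ENNReal.ofReal (f₀ z) * ENNReal.ofReal (1 + ‖z.2‖ ^ 2) ^ 2 ≠ ∞ := by
  constructor
  · refine ne_top_of_le_ne_top (lintegral_f0_pow_ne_top hγ hb 2) (lintegral_mono fun z => ?_)
    refine mul_le_mul_right (ENNReal.ofReal_le_ofReal ?_) _
    nlinarith [norm_nonneg z.2]
  · refine ne_top_of_le_ne_top (lintegral_f0_pow_ne_top hγ hb 4) (lintegral_mono fun z => ?_)
    refine mul_le_mul_right ?_ _
    rw [← ENNReal.ofReal_pow (by positivity)]
    refine ENNReal.ofReal_le_ofReal ?_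
    have h1 : 1 + ‖z.2‖ ^ 2 ≤ (1 + ‖z.2‖) ^ 2 := by nlinarith [norm_nonneg z.2]
    calc (1 + ‖z.2‖ ^ 2) ^ 2 ≤ ((1 + ‖z.2‖) ^ 2) ^ 2 := by gcongr
      _ = _ := by ring

/-! ### Second moment -/

/-- Second moment of a rescaled additive functional. -/
theorem gcE_sq_le {f₀ : PhasePoint → ℝ} (hf : Measurable f₀)
    (h1 : ∫⁻ z, ENNReal.ofReal (f₀ z) ≤ 1) {ε : ℝ} (hε : 0 < ε)
    (φ : PhasePoint → ℝ≥0∞) (hφ : Measurable φ) :
    gcE f₀ ε (fun _ Z => ((activity ε)⁻¹ * ∑ j, φ (Z j)) ^ 2) ≤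
      (∫⁻ z, ENNReal.ofReal (f₀ z) * φ z) ^ 2 +
        (activity ε)⁻¹ * ∫⁻ z, ENNReal.ofReal (f₀ z) * φ z ^ 2 := by
  have ha0 := activity_ne_zero hε
  have hat := activity_ne_top ε
  -- pair part
  have hpair : ∀ (n : ℕ) (Z : Config n), (∑ j, φ (Z j)) ^ 2 =
      (∑ ι : Fin 2 ↪ Fin n, φ (Z (ι 0)) * φ (Z (ι 1))) + ∑ j, φ (Z j) ^ 2 := by
    intro n Z
    have e1 : (∑ j, φ (Z j)) ^ 2 = ∑ p : Fin n × Fin n, φ (Z p.1) * φ (Z p.2) := by
      rw [sq, Finset.sum_mul_sum, ← Finset.sum_product']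
      rfl
    have e2 : ∑ p : Fin n × Fin n, φ (Z p.1) * φ (Z p.2) =
        (∑ p ∈ (Finset.univ : Finset (Fin n × Fin n)).filter (fun p => p.1 ≠ p.2),
          φ (Z p.1) * φ (Z p.2)) +
        ∑ p ∈ (Finset.univ : Finset (Fin n × Fin n)).filter (fun p => ¬ p.1 ≠ p.2),
          φ (Z p.1) * φ (Z p.2) := (Finset.sum_filter_add_sum_filter_not _ _ _).symm
    rw [e1, e2]
    congr 1
    · symm
      refine Finset.sum_bij (fun (ι : Fin 2 ↪ Fin n) _ => (ι 0, ι 1)) ?_ ?_ ?_ ?_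
      · intro ι _
        rw [Finset.mem_filter]
        exact ⟨Finset.mem_univ _, fun h => absurd (ι.injective h) (by decide)⟩
      · intro ι _ ι' _ h
        ext i
        rw [Prod.mk.injEq] at h
        fin_cases i
        · exact congrArg Fin.val h.1
        · exact congrArg Fin.val h.2
      · intro p hp
        rw [Finset.mem_filter] at hp
        have hinj : Function.Injective ![p.1, p.2] := by
          intro a b hab
          fin_cases a <;> fin_cases b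
          · rfl
          · exact absurd hab hp.2
          · exact absurd hab.symm hp.2
          · rfl
        exact ⟨⟨![p.1, p.2], hinj⟩, Finset.mem_univ _, rfl⟩
      · intro ι _
        rfl
    · refine Finset.sum_bij' (fun p _ => p.1) (fun j _ => (j, j)) ?_ ?_ ?_ ?_ ?_
      · intro p _; exact Finset.mem_univ _
      · intro j _
        rw [Finset.mem_filter]
        exact ⟨Finset.mem_univ _, fun h => h rfl⟩
      · intro p hp
        rw [Finset.mem_filter] at hp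
        have h : p.1 = p.2 := not_not.1 hp.2
        exact Prod.ext rfl h
      · intro j _; rfl
      · intro p hp
        rw [Finset.mem_filter] at hp
        have h : p.1 = p.2 := not_not.1 hp.2
        rw [← h, sq]
  have hm1 : ∀ n, Measurable fun Z : Config n => ∑ ι : Fin 2 ↪ Fin n, φ (Z (ι 0)) * φ (Z (ι 1)) :=
    fun n => Finset.measurable_fun_sum _ fun ι _ =>
      (hφ.comp (measurable_pi_apply _)).mul (hφ.comp (measurable_pi_apply _))
  have hm2 : ∀ n, Measurable fun Z : Config n => ∑ j, φ (Z j) ^ 2 :=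
    fun n => Finset.measurable_fun_sum _ fun j _ => (hφ.comp (measurable_pi_apply _)).pow_const 2
  have e3 : gcE f₀ ε (fun _ Z => ((activity ε)⁻¹ * ∑ j, φ (Z j)) ^ 2) =
      (activity ε)⁻¹ ^ 2 * (gcE f₀ ε (fun n Z => ∑ ι : Fin 2 ↪ Fin n, φ (Z (ι 0)) * φ (Z (ι 1))) +
        gcE f₀ ε (fun n Z => ∑ j, φ (Z j) ^ 2)) := by
    rw [← gcE_add hf ε hm1, ← gcE_const_mul f₀ ε
      (ENNReal.pow_ne_top (ENNReal.inv_ne_top.2 ha0))]
    refine gcE_congr f₀ ε fun n Z _ => ?_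
    rw [mul_pow, hpair]
  rw [e3]
  have h2 := gcE_sum_emb_le hf h1 ε (k := 2) (fun V => φ (V 0) * φ (V 1))
    ((hφ.comp (measurable_pi_apply _)).mul (hφ.comp (measurable_pi_apply _)))
  have h3 := gcE_sum_le hf h1 ε (fun z => φ z ^ 2) (hφ.pow_const 2)
  have h4 : ∫⁻ V : Config 2, gcWeight f₀ ε 2 V * (φ (V 0) * φ (V 1)) ≤
      (∫⁻ z, ENNReal.ofReal (f₀ z) * φ z) ^ 2 := by
    have h5 := lintegral_prod_config (n := 2) (fun z => ENNReal.ofReal (f₀ z) * φ z)
      (hf.ennreal_ofReal.mul hφ)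
    calc ∫⁻ V : Config 2, gcWeight f₀ ε 2 V * (φ (V 0) * φ (V 1))
        ≤ ∫⁻ V : Config 2, ∏ i, (ENNReal.ofReal (f₀ (V i)) * φ (V i)) := by
          refine lintegral_mono fun V => ?_
          have h6 : gcWeight f₀ ε 2 V ≤ ∏ i, ENNReal.ofReal (f₀ (V i)) := by
            unfold gcWeight
            exact indicator_le_self' (fun _ _ => bot_le) V
          rw [Finset.prod_mul_distrib, Fin.prod_univ_two (fun i => φ (V i))]
          exact mul_le_mul_left h6 _
      _ = _ := h5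
  calc (activity ε)⁻¹ ^ 2 * (gcE f₀ ε (fun n Z => ∑ ι : Fin 2 ↪ Fin n, φ (Z (ι 0)) * φ (Z (ι 1))) +
        gcE f₀ ε (fun n Z => ∑ j, φ (Z j) ^ 2))
      ≤ (activity ε)⁻¹ ^ 2 * (activity ε ^ 2 * (∫⁻ z, ENNReal.ofReal (f₀ z) * φ z) ^ 2 +
          activity ε * ∫⁻ z, ENNReal.ofReal (f₀ z) * φ z ^ 2) := by
        refine mul_le_mul_right (add_le_add (h2.trans (mul_le_mul_right h4 _)) h3) _
    _ = ((activity ε)⁻¹ * activity ε) ^ 2 * (∫⁻ z, ENNReal.ofReal (f₀ z) * φ z) ^ 2 +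
          (activity ε)⁻¹ * (((activity ε)⁻¹ * activity ε) *
            ∫⁻ z, ENNReal.ofReal (f₀ z) * φ z ^ 2) := by ring
    _ = _ := by rw [ENNReal.inv_mul_cancel ha0 hat, one_pow, one_mul, one_mul]

/-! ### Uniform integrability -/

/-- the bound of `gcE_sq_le` -/
def sqC (f₀ : PhasePoint → ℝ) (ε : ℝ) (φ : PhasePoint → ℝ≥0∞) : ℝ≥0∞ :=
  (∫⁻ z, ENNReal.ofReal (f₀ z) * φ z) ^ 2 +
    (activity ε)⁻¹ * ∫⁻ z, ENNReal.ofReal (f₀ z) * φ z ^ 2

theorem inv_activity_le_one {ε : ℝ} (hε : 0 < ε) (h1 : ε ≤ 1) : (activity ε)⁻¹ ≤ 1 := by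
  rw [ENNReal.inv_le_one]
  unfold activity
  rw [show (1 : ℝ≥0∞) = ENNReal.ofReal 1 by simp]
  refine ENNReal.ofReal_le_ofReal ?_
  rw [one_le_inv₀ (by positivity)]
  nlinarith

/-- uniform bound of the second moment constant -/
theorem sqC_le {f₀ : PhasePoint → ℝ} {ε : ℝ} (hε : 0 < ε) (h1 : ε ≤ 1) (φ : PhasePoint → ℝ≥0∞) :
    sqC f₀ ε φ ≤ (∫⁻ z, ENNReal.ofReal (f₀ z) * φ z) ^ 2 +
      ∫⁻ z, ENNReal.ofReal (f₀ z) * φ z ^ 2 := by
  unfold sqC
  refine add_le_add le_rfl ?_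
  calc _ ≤ 1 * ∫⁻ z, ENNReal.ofReal (f₀ z) * φ z ^ 2 := mul_le_mul_left (inv_activity_le_one hε h1) _
    _ = _ := one_mul _

/-- The constant for the weight `1 + |v|²` is bounded uniformly in `ε ≤ 1`. -/
theorem exists_sqC_weight_le {γ : ℝ} (hγ : 0 < γ) {f₀ : PhasePoint → ℝ}
    (hb : HasSummableGaussianBound γ (fun x v => f₀ (x, v))) :
    ∃ C : ℝ≥0∞, C ≠ ∞ ∧ ∀ ε : ℝ, 0 < ε → ε ≤ 1 →
      sqC f₀ ε (fun z => ENNReal.ofReal (1 + ‖z.2‖ ^ 2)) ≤ C := by
  obtain ⟨h1, h2⟩ := lintegral_f0_weight_ne_top hγ hb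
  exact ⟨_, ENNReal.add_ne_top.2 ⟨ENNReal.pow_ne_top h1, h2⟩, fun ε hε hε1 => sqC_le hε hε1 _⟩



/-! ### Lines which meet the gas -/


/-- `activity * ε² = 1`. -/
theorem activity_mul_sq {ε : ℝ} (hε : 0 < ε) : activity ε * ENNReal.ofReal ε ^ 2 = 1 := by
  unfold activity
  rw [← ENNReal.ofReal_pow hε.le, ← ENNReal.ofReal_mul (by positivity),
    inv_mul_cancel₀ (by positivity), ENNReal.ofReal_one]


/-! ### Atoms -/


end Crest.Agent.R122.Mom974
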