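import Crest.Agent.R122.LinkM7_547
import Crest.Agent.R122.UnwX_410
import Crest.Agent.R122.RetMass_424
import Crest.Agent.R122.UnwF_410
import Crest.Agent.R122.ToTree_335
import Crest.Agent.R122.GateF_973
import Crest.Agent.R122.LinkGate2_424

-- ▼ part R122/LinkG1_547
section

/-!
# Row 122, H11 (LINK mass): gateway (helper547), joint measurability of the runs

* `measurable_RM_param` : `(x, w) ↦ RM Φ ε T K L (Z x) q w` for a measurable family of groups.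
* `RSet` : the measurable set `{1 ≤ RM}`, which contains the runs.
-/

set_option autoImplicit false
set_option maxHeartbeats 400000

open MeasureTheory Set Filter Topology
open Crest.AnalysisR.Kinetic
open Crest.Agent.R122.Flow671 Crest.Agent.R122.Vol365 Crest.Agent.R122.EDefs602
open Crest.Agent.R122.Loc45 Crest.Agent.R122.Ins45
open Crest.Agent.R122.GC311
open scoped ENNReal Classical

noncomputable section

namespace Crest.Agent.R122.LinkM547

variable {Φ : Space3 → ℝ} {ε : ℝ}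

/-- A measurable family of marked worlds. -/
structure MeasMW {δ : Type*} [MeasurableSpace δ] {G : Type} (Z : δ → MW G) : Prop where
  b : ∀ i, Measurable fun x => (Z x).b i
  z : Measurable fun x => (Z x).z

theorem MeasMW.comp {δ δ' : Type*} [MeasurableSpace δ] [MeasurableSpace δ'] {G : Type}
    {Z : δ → MW G} (h : MeasMW Z) {f : δ' → δ} (hf : Measurable f) : MeasMW fun x => Z (f x) :=
  ⟨fun i => (h.b i).comp hf, h.z.comp hf⟩





theorem MeasMW.path (hΦ : AdmissiblePotential Φ) (hε : 0 < ε) {δ : Type*} [MeasurableSpace δ]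
    {G : Type} [Fintype G] {Z : δ → MW G} (h : MeasMW Z) (r : ℝ) (q : G) :
    Measurable fun x => ((Z x).path Φ ε r q).1 := by
  have h1 := measurable_evo (ι := G) hΦ hε (δ := δ) (b := fun x => (Z x).b) (s := fun _ => (0 : ℝ))
    (t := fun _ => r) (Z := fun x => (Z x).z) h.b measurable_const measurable_const h.z
  exact (((measurable_pi_apply q).comp h1)).fst









end Crest.Agent.R122.LinkM547

end
end

-- ▼ part R122/LinkG2_547
section

/-!
# Row 122, H11 (LINK mass): gateway (helper547), calculus of majorants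

* `Maj f₀ ε m E δ` : the event `E` (gas configuration, structure) has a measurable majorant of mass at
  most `δ` for the structure measure `m`; `Maj.or`, `Maj.mono`, `maj_run`.
* `tree_run` : long runs from an exit line of a tree, integrated over the tree.
* `ui` : uniform integrability, weight `Y1`.
-/

set_option autoImplicit false
set_option maxHeartbeats 400000

open MeasureTheory Set Filter Topology
open Crest.AnalysisR.Kinetic
open Crest.Agent.R122.Flow671 Crest.Agent.R122.Vol365 Crest.Agent.R122.EDefs602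
open Crest.Agent.R122.Loc45 Crest.Agent.R122.Ins45
open Crest.Agent.R122.GC311 Crest.Agent.R122.Kin796 Crest.Agent.R122.Kin796.CTree
open Crest.Agent.R122.Tree674 Crest.Agent.R122.TreeLines335
open scoped ENNReal Classical

noncomputable section

namespace Crest.Agent.R122.LinkM547

variable {Φ : Space3 → ℝ} {ε : ℝ} {f₀ : PhasePoint → ℝ}

/-! ## Majorants of events -/

/-- `E` has a measurable majorant of mass at most `δ`. -/
def Maj (f₀ : PhasePoint → ℝ) (ε : ℝ) {Θ : Type} [MeasurableSpace Θ] (m : Measure Θ)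
    (E : (n : ℕ) → Config n → Θ → Prop) (δ : ℝ≥0∞) : Prop :=
  ∃ G : (n : ℕ) → Θ × Config n → ℝ≥0∞, (∀ n, Measurable (G n)) ∧
    (∀ (n : ℕ) (w : Config n) (θ : Θ), w ∈ PairExcluded ε n → E n w θ → 1 ≤ G n (θ, w)) ∧
    ∫⁻ θ, gcE f₀ ε (fun n w => G n (θ, w)) ∂m ≤ δ

section maj

variable {Θ : Type} [MeasurableSpace Θ] {m : Measure Θ} {E E' : (n : ℕ) → Config n → Θ → Prop}
  {δ δ' : ℝ≥0∞}

theorem Maj.mono (h : Maj f₀ ε m E δ)
    (hE : ∀ (n : ℕ) (w : Config n) (θ : Θ), w ∈ PairExcluded ε n → E' n w θ → E n w θ)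
    (hδ : δ ≤ δ') : Maj f₀ ε m E' δ' := by
  obtain ⟨G, h1, h2, h3⟩ := h
  exact ⟨G, h1, fun n w θ hw h => h2 n w θ hw (hE n w θ hw h), h3.trans hδ⟩

theorem Maj.or (hf : Measurable f₀) (h : Maj f₀ ε m E δ) (h' : Maj f₀ ε m E' δ') :
    Maj f₀ ε m (fun n w θ => E n w θ ∨ E' n w θ) (δ + δ') := by
  obtain ⟨G, h1, h2, h3⟩ := h
  obtain ⟨G', h1', h2', h3'⟩ := h'
  refine ⟨fun n p => G n p + G' n p, fun n => (h1 n).add (h1' n), ?_, ?_⟩
  · rintro n w θ hw (h | h)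
    · exact (h2 n w θ hw h).trans le_self_add
    · exact (h2' n w θ hw h).trans le_add_self
  · have e1 : ∀ θ, gcE f₀ ε (fun n w => G n (θ, w) + G' n (θ, w)) =
        gcE f₀ ε (fun n w => G n (θ, w)) + gcE f₀ ε (fun n w => G' n (θ, w)) := fun θ =>
      gcE_add hf ε fun n => (h1 n).comp (measurable_const.prodMk measurable_id)
    simp only [e1]
    rw [lintegral_add_left]
    · exact add_le_add h3 h3'
    · exact ToTree335.measurable_gcE_par hf (F := fun θ n w => G n (θ, w)) h1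

theorem Maj.false : Maj f₀ ε m (fun _ _ _ => False) 0 := by
  refine ⟨fun _ _ => 0, fun _ => measurable_const, fun _ _ _ _ h => h.elim, ?_⟩
  simp [gcE_zero]






end maj

/-! ## Envelopes -/

theorem exists_envB {b β : ℝ} (hβ : 2 * β ≤ b)
    (H : HasSummableGaussianBound b (fun x v => f₀ (x, v))) :
    ∃ (env : Space3 → ℝ≥0∞) (A : ℝ), 0 ≤ A ∧ EnvB β f₀ env A := by
  obtain ⟨env, A, hE⟩ := QDens815.exists_env H
  refine ⟨env, A.toReal, ENNReal.toReal_nonneg, hE.meas, hE.int_ne, fun x => ?_, fun z => ?_⟩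
  · rw [ENNReal.ofReal_toReal hE.A_ne]
    exact hE.le_A x
  · refine (hE.bound z.1 z.1 z.2 (by simp)).trans (mul_le_mul_right ?_ _)
    unfold Kin416.gau
    refine ENNReal.ofReal_le_ofReal (Real.exp_le_exp.2 ?_)
    have := mul_le_mul_of_nonneg_right hβ (sq_nonneg ‖z.2‖)
    linarith




end Crest.Agent.R122.LinkM547

end
end

-- ▼ part R122/GateCap_973

/-!
# Row 122, H11 (helper973): the gateway for capped measures of independent lines

Structure `θ ~ m ε i`, independent variable `x ~ ν ε i` (`lineM`, not localised), gas `w`. An event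
`E θ x w` is split in three: `S θ w` (structure only), `X x w` (line only), `J θ x w` (joint).

* `fLe_cap` : `∫ gcE min 1 (ν {x | E}) dm ≤ m(S) + |m| ν(X) + (m ⊗ ν)(J)`.
* `BadF` : families of bad events indexed by `(R, ς)`; `badF_badGas` : helper473's `BadGas`.
* `fNull_cap_of_det` : **the gateway** for capped measures; `gNull_of_fam` : the plain gateway with
  families.
* `gLe_runX`, `badF_badX` : runs and bad clusters from the independent line alone.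
-/

set_option autoImplicit false
set_option linter.unusedSectionVars false

open MeasureTheory Set Filter Topology
open scoped Classical ENNReal
open Crest.AnalysisR.Kinetic
open Crest.Agent.R122.GC311 Crest.Agent.R122.EDefs602 Crest.Agent.R122.LinkM547
open Crest.Agent.R122.LN2 Crest.Agent.R122.Gate424

noncomputable section

namespace Crest.Agent.R122.Gate973

variable {f₀ : PhasePoint → ℝ} {I Θ X : Type} [MeasurableSpace Θ] [MeasurableSpace X]
  {m : ℝ → I → Measure Θ} {ν : ℝ → I → Measure X}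

/-! ### The capped measure -/

/-- **Capped measure of the bad lines.** -/
theorem fLe_cap {S : ℝ → I → (n : ℕ) → Θ → Config n → Prop}
    {Xe : ℝ → I → (n : ℕ) → X → Config n → Prop}
    {J : ℝ → I → (n : ℕ) → Θ × X → Config n → Prop}
    {E : ℝ → I → (n : ℕ) → Θ → X → Config n → Prop} {a b c M : ℝ≥0∞}
    (hf : Measurable f₀) (hm : ∀ ε i, SFinite (m ε i)) (hν : ∀ ε i, SFinite (ν ε i))
    (hM : ∀ ε i, 0 < ε → m ε i univ ≤ M) (hS : GLe f₀ m S a) (hX : GLe f₀ ν Xe b)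
    (hJ : GLe f₀ (fun ε i => (m ε i).prod (ν ε i)) J c)
    (h : ∃ ε₁ : ℝ, 0 < ε₁ ∧ ∀ ε : ℝ, 0 < ε → ε < ε₁ → ∀ i n θ x (w : Config n),
      w ∈ PairExcluded ε n → E ε i n θ x w → S ε i n θ w ∨ Xe ε i n x w ∨ J ε i n (θ, x) w) :
    FLe f₀ m (fun ε i n θ w => min 1 ((ν ε i) {x | E ε i n θ x w})) (a + (M * b + c)) := by
  obtain ⟨e1, h1, hS⟩ := hS
  obtain ⟨e2, h2, hX⟩ := hX
  obtain ⟨e3, h3, hJ⟩ := hJ
  obtain ⟨e4, h4, h⟩ := h
  refine ⟨min (min e1 e2) (min e3 e4), lt_min (lt_min h1 h2) (lt_min h3 h4),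
    fun ε hε hlt i => ?_⟩
  have l1 := hlt.trans_le ((min_le_left _ _).trans (min_le_left e1 e2))
  have l2 := hlt.trans_le ((min_le_left _ _).trans (min_le_right e1 e2))
  have l3 := hlt.trans_le ((min_le_right _ _).trans (min_le_left e3 e4))
  have l4 := hlt.trans_le ((min_le_right _ _).trans (min_le_right e3 e4))
  obtain ⟨GS, hSm, hS1, hS2⟩ := hS ε hε l1 i
  obtain ⟨GX, hXm, hX1, hX2⟩ := hX ε hε l2 i
  obtain ⟨GJ, hJm, hJ1, hJ2⟩ := hJ ε hε l3 i
  have := hm ε i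
  have := hν ε i
  -- measurability of the partial integrals
  have hX3 : ∀ n, Measurable fun w : Config n => ∫⁻ x, GX n (x, w) ∂(ν ε i) := fun n =>
    Measurable.lintegral_prod_left' (f := fun q : X × Config n => GX n q) (hXm n)
  have hJ3 : ∀ n, Measurable fun q : Θ × Config n => ∫⁻ x, GJ n ((q.1, x), q.2) ∂(ν ε i) := by
    intro n
    have h5 : Measurable fun q : (Θ × Config n) × X => GJ n ((q.1.1, q.2), q.1.2) :=
      (hJm n).comp ((measurable_fst.fst.prodMk measurable_snd).prodMk measurable_fst.snd)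
    exact h5.lintegral_prod_right'
  refine ⟨fun n p => GS n p + (∫⁻ x, GX n (x, p.2) ∂(ν ε i) +
    ∫⁻ x, GJ n ((p.1, x), p.2) ∂(ν ε i)),
    fun n => (hSm n).add (((hX3 n).comp measurable_snd).add (hJ3 n)), fun n θ w hw => ?_, ?_⟩
  · -- pointwise
    show min 1 ((ν ε i) {x | E ε i n θ x w}) ≤ GS n (θ, w) + (∫⁻ x, GX n (x, w) ∂(ν ε i) +
      ∫⁻ x, GJ n ((θ, x), w) ∂(ν ε i))
    by_cases hs : S ε i n θ w
    · exact (min_le_left _ _).trans ((hS1 n θ w hw hs).trans le_self_add)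
    · refine (min_le_right _ _).trans (le_trans ?_ le_add_self)
      have hmx : Measurable fun x => GX n (x, w) := (hXm n).comp measurable_prodMk_right
      have hmj : Measurable fun x => GJ n ((θ, x), w) :=
        (hJm n).comp ((measurable_const.prodMk measurable_id).prodMk measurable_const)
      have hsub : {x | E ε i n θ x w} ⊆ {x | 1 ≤ GX n (x, w) + GJ n ((θ, x), w)} := by
        intro x hx
        rcases h ε hε l4 i n θ x w hw hx with h5 | h5 | h5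
        · exact absurd h5 hs
        · exact (hX1 n x w hw h5).trans le_self_add
        · exact (hJ1 n (θ, x) w hw h5).trans le_add_self
      rw [← lintegral_add_left hmx]
      calc (ν ε i) {x | E ε i n θ x w} ≤ (ν ε i) {x | 1 ≤ GX n (x, w) + GJ n ((θ, x), w)} :=
            measure_mono hsub
        _ = 1 * (ν ε i) {x | 1 ≤ GX n (x, w) + GJ n ((θ, x), w)} := (one_mul _).symm
        _ ≤ _ := mul_meas_ge_le_lintegral (hmx.add hmj) 1
  · -- the mass
    have e5 : ∀ θ, gcE f₀ ε (fun n w => GS n (θ, w) + (∫⁻ x, GX n (x, w) ∂(ν ε i) +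
        ∫⁻ x, GJ n ((θ, x), w) ∂(ν ε i))) = gcE f₀ ε (fun n w => GS n (θ, w)) +
        (gcE f₀ ε (fun n w => ∫⁻ x, GX n (x, w) ∂(ν ε i)) +
          gcE f₀ ε (fun n w => ∫⁻ x, GJ n ((θ, x), w) ∂(ν ε i))) := by
      intro θ
      rw [gcE_add hf ε (F := fun n w => GS n (θ, w)) fun n => (hSm n).comp measurable_prodMk_left,
        gcE_add hf ε (F := fun n w => ∫⁻ x, GX n (x, w) ∂(ν ε i)) hX3]
    simp only [e5]
    have m1 : Measurable fun θ : Θ => gcE f₀ ε (fun n w => GS n (θ, w)) :=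
      MeasE416.measurable_gcE_of hf ε (F := fun n θ w => GS n (θ, w)) fun n => hSm n
    rw [lintegral_add_left m1, lintegral_add_left measurable_const, lintegral_const]
    refine add_le_add hS2 (add_le_add ?_ ?_)
    · -- line only
      have e6 : gcE f₀ ε (fun n w => ∫⁻ x, GX n (x, w) ∂(ν ε i)) =
          ∫⁻ x, gcE f₀ ε (fun n w => GX n (x, w)) ∂(ν ε i) :=
        (LN2.lintegral_gcE_swap hf ε (ν ε i) (F := fun n x w => GX n (x, w))
          fun n => hXm n).symm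
      rw [e6, mul_comm]
      exact mul_le_mul' (hM ε i hε) hX2
    · -- joint
      have hgm : Measurable fun p : Θ × X => gcE f₀ ε (fun n w => GJ n (p, w)) :=
        MeasE416.measurable_gcE_of hf ε (F := fun n p w => GJ n (p, w)) fun n => hJm n
      refine le_trans (le_of_eq ?_) hJ2
      rw [lintegral_prod _ hgm.aemeasurable]
      refine lintegral_congr fun θ => ?_
      exact (LN2.lintegral_gcE_swap hf ε (ν ε i) (F := fun n x w => GJ n ((θ, x), w))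
        fun n => (hJm n).comp ((measurable_const.prodMk measurable_fst).prodMk
          measurable_snd)).symm

/-! ### Families of bad events -/

/-- Family of bad events indexed by the radius `R` and the separation `ς`: small mass for `R` large
and `ς` small. -/
def BadF (f₀ : PhasePoint → ℝ) (m : ℝ → I → Measure Θ)
    (B : ℝ → ℝ → ℝ → I → (n : ℕ) → Θ → Config n → Prop) : Prop :=
  ∀ δ : ℝ≥0∞, 0 < δ → ∃ R > 0, ∃ ς > 0, ∀ R' ς' : ℝ, R ≤ R' → 0 < ς' → ς' ≤ ς →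
    GLe f₀ m (B R' ς') δ

theorem BadF.mono {B B' : ℝ → ℝ → ℝ → I → (n : ℕ) → Θ → Config n → Prop} (h : BadF f₀ m B)
    (hB : ∀ R ς ε i n θ (w : Config n), 0 < ε → w ∈ PairExcluded ε n →
      B' R ς ε i n θ w → B R ς ε i n θ w) : BadF f₀ m B' := by
  intro δ hδ
  obtain ⟨R, hR, ς, hς, h⟩ := h δ hδ
  exact ⟨R, hR, ς, hς, fun R' ς' h1 h2 h3 => (h R' ς' h1 h2 h3).mono le_rfl
    ⟨1, one_pos, fun ε hε _ i n θ w hw => hB R' ς' ε i n θ w hε hw⟩⟩

theorem BadF.or (hf : Measurable f₀)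
    {B B' : ℝ → ℝ → ℝ → I → (n : ℕ) → Θ → Config n → Prop} (h : BadF f₀ m B)
    (h' : BadF f₀ m B') :
    BadF f₀ m (fun R ς ε i n θ w => B R ς ε i n θ w ∨ B' R ς ε i n θ w) := by
  intro δ hδ
  -- reduce to a finite `δ`
  set δ' : ℝ≥0∞ := min δ 1 / 2 with hδ'
  have hδ1 : 0 < min δ 1 := lt_min hδ one_pos
  have hδ'0 : 0 < δ' := ENNReal.half_pos hδ1.ne'
  obtain ⟨R, hR, ς, hς, h⟩ := h δ' hδ'0
  obtain ⟨R₂, hR₂, ς₂, hς₂, h'⟩ := h' δ' hδ'0
  refine ⟨max R R₂, lt_max_of_lt_left hR, min ς ς₂, lt_min hς hς₂, fun R' ς' h1 h2 h3 => ?_⟩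
  have h4 := (h R' ς' ((le_max_left _ _).trans h1) h2 (h3.trans (min_le_left _ _))).or hf
    (h' R' ς' ((le_max_right _ _).trans h1) h2 (h3.trans (min_le_right _ _)))
  rw [ENNReal.add_halves] at h4
  exact h4.mono (min_le_left _ _) ⟨1, one_pos, fun _ _ _ _ _ _ _ _ h => h⟩

theorem BadF.false (f₀ : PhasePoint → ℝ) (m : ℝ → I → Measure Θ) :
    BadF f₀ m (fun _ _ _ _ _ _ _ => False) := fun δ _ =>
  ⟨1, one_pos, 1, one_pos, fun _ _ _ _ _ => (GLe.zero f₀ m).mono bot_le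
    ⟨1, one_pos, fun _ _ _ _ _ _ _ _ h => h⟩⟩

/-- A null event which does not depend on `(R, ς)` is a family of bad events. -/
theorem BadF.of_gNull {E : ℝ → I → (n : ℕ) → Θ → Config n → Prop} (h : GNull f₀ m E) :
    BadF f₀ m (fun _ _ => E) := fun δ hδ =>
  ⟨1, one_pos, 1, one_pos, fun _ _ _ _ _ => h δ hδ⟩

theorem BadF.exists_fin (hf : Measurable f₀) {α : Type*} (S : Finset α)
    {B : α → ℝ → ℝ → ℝ → I → (n : ℕ) → Θ → Config n → Prop} (h : ∀ a ∈ S, BadF f₀ m (B a)) :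
    BadF f₀ m (fun R ς ε i n θ w => ∃ a ∈ S, B a R ς ε i n θ w) := by
  induction S using Finset.induction_on with
  | empty =>
    refine (BadF.false f₀ m).mono fun R ς ε i n θ w _ _ h => ?_
    obtain ⟨a, ha, _⟩ := h
    simp at ha
  | insert a S ha ih =>
    refine ((h a (Finset.mem_insert_self a S)).or hf
      (ih fun b hb => h b (Finset.mem_insert_of_mem hb))).mono fun R ς ε i n θ w _ _ hE => ?_
    obtain ⟨b, hb, hE⟩ := hE
    rcases Finset.mem_insert.1 hb with rfl | hb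
    · exact Or.inl hE
    · exact Or.inr ⟨b, hb, hE⟩

/-- **The bad partitions of a dominated structure.** -/
theorem badF_badGas {Φ : Space3 → ℝ} {T γ : ℝ} {ρ : Space3 → ℝ≥0∞} {C₀ : ℝ≥0∞} {κ : Type}
    [Fintype κ] (hCN : VLMeas973.ClassNull Φ T) (hf : Measurable f₀)
    (h1 : ∫⁻ z, ENNReal.ofReal (f₀ z) ≤ 1) (he : Env f₀ γ ρ C₀) (hγ : 0 < γ) (C : ℝ) (N : ℕ)
    {s : ℕ} (hs : s ≤ Fintype.card κ) (A₀ : Finset κ) {c : ℝ≥0∞} (hc : c ≠ ∞)
    (Λ : Measure (κ → ℝ)) [IsFiniteMeasure Λ] {b : ℝ → I → Θ → κ → ℝ}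
    {z : ℝ → I → Θ → κ → PhasePoint} (hm : ∀ ε i, SFinite (m ε i))
    (hdom : ∀ ε i, 0 < ε → Dom γ ρ ε s A₀ c Λ (m ε i) (b ε i) (z ε i)) :
    BadF f₀ m (fun R ς ε i _ θ w => BadGas Φ T C R ς ε N s A₀ (b ε i θ) (z ε i θ) w) := by
  intro δ hδ
  obtain ⟨R, hR, ς, hς, h⟩ := gLe_badGas hCN hf h1 he hγ C N hs A₀ hc Λ hm hdom hδ
  refine ⟨R, hR, ς, hς, fun R' ς' h1 _ h3 => h.mono le_rfl ⟨1, one_pos, ?_⟩⟩
  exact fun ε hε _ i n θ w _ hB => badGas_mono hε.le h1 h3 hB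

/-! ### The gateways -/

/-- Three quarters of the work: division of a mass. -/
theorem exists_div3 (M : ℝ≥0∞) (hM : M ≠ ∞) {δ : ℝ≥0∞} (hδ : 0 < δ) :
    ∃ δ' : ℝ≥0∞, 0 < δ' ∧ 3 * δ' + (M * (3 * δ') + 2 * δ') ≤ δ := by
  have hc : (3 + (M * 3 + 2) : ℝ≥0∞) ≠ ∞ := by
    refine ENNReal.add_ne_top.2 ⟨by norm_num, ENNReal.add_ne_top.2
      ⟨ENNReal.mul_ne_top hM (by norm_num), by norm_num⟩⟩
  have hc0 : (3 + (M * 3 + 2) : ℝ≥0∞) ≠ 0 := by simp
  refine ⟨δ / (3 + (M * 3 + 2)), ENNReal.div_pos hδ.ne' hc, le_of_eq ?_⟩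
  calc 3 * (δ / (3 + (M * 3 + 2))) + (M * (3 * (δ / (3 + (M * 3 + 2)))) +
        2 * (δ / (3 + (M * 3 + 2)))) = (3 + (M * 3 + 2)) * (δ / (3 + (M * 3 + 2))) := by ring
    _ = δ := ENNReal.mul_div_cancel hc0 hc

/-- **The gateway for the capped measure of an independent line.** Structure-only events on `m`,
line-only events on `ν`, joint events on `m.prod ν`. -/
theorem fNull_cap_of_det (hf : Measurable f₀) (hm : ∀ ε i, SFinite (m ε i))
    (hν : ∀ ε i, SFinite (ν ε i)) {M : ℝ≥0∞} (hMt : M ≠ ∞) (hM : ∀ ε i, 0 < ε → m ε i univ ≤ M)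
    {E : ℝ → I → (n : ℕ) → Θ → X → Config n → Prop}
    {RS HS : ℕ → ℝ → I → (n : ℕ) → Θ → Config n → Prop}
    {RX HX : ℕ → ℝ → I → (n : ℕ) → X → Config n → Prop}
    {HJ : ℕ → ℝ → I → (n : ℕ) → Θ × X → Config n → Prop}
    (hdet : ∀ L : ℕ, ∃ (BS : ℝ → ℝ → ℝ → I → (n : ℕ) → Θ → Config n → Prop)
      (BX : ℝ → ℝ → ℝ → I → (n : ℕ) → X → Config n → Prop)
      (BJ : ℝ → ℝ → ℝ → I → (n : ℕ) → Θ × X → Config n → Prop),
      BadF f₀ m BS ∧ BadF f₀ ν BX ∧ BadF f₀ (fun ε i => (m ε i).prod (ν ε i)) BJ ∧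
      ∀ R > 0, ∀ ς > 0, ∃ ε₁ : ℝ, 0 < ε₁ ∧ ∀ ε : ℝ, 0 < ε → ε < ε₁ →
        ∀ i n θ x (w : Config n), w ∈ PairExcluded ε n → E ε i n θ x w →
        (RS L ε i n θ w ∨ BS R ς ε i n θ w ∨ HS L ε i n θ w) ∨
        (RX L ε i n x w ∨ BX R ς ε i n x w ∨ HX L ε i n x w) ∨
        (BJ R ς ε i n (θ, x) w ∨ HJ L ε i n (θ, x) w))
    (hRS : ∀ δ : ℝ≥0∞, 0 < δ → ∃ L₀ : ℕ, ∀ L, L₀ ≤ L → GLe f₀ m (RS L) δ)
    (hRX : ∀ δ : ℝ≥0∞, 0 < δ → ∃ L₀ : ℕ, ∀ L, L₀ ≤ L → GLe f₀ ν (RX L) δ)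
    (hHS : ∀ L, GNull f₀ m (HS L)) (hHX : ∀ L, GNull f₀ ν (HX L))
    (hHJ : ∀ L, GNull f₀ (fun ε i => (m ε i).prod (ν ε i)) (HJ L)) :
    FNull f₀ m (fun ε i n θ w => min 1 ((ν ε i) {x | E ε i n θ x w})) := by
  intro δ hδ
  obtain ⟨δ', hδ', hle⟩ := exists_div3 M hMt hδ
  obtain ⟨L₁, hL₁⟩ := hRS δ' hδ'
  obtain ⟨L₂, hL₂⟩ := hRX δ' hδ'
  set L := max L₁ L₂ with hL
  obtain ⟨BS, BX, BJ, hBS, hBX, hBJ, hdet⟩ := hdet L
  obtain ⟨R₁, hR₁, ς₁, hς₁, hBS⟩ := hBS δ' hδ'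
  obtain ⟨R₂, hR₂, ς₂, hς₂, hBX⟩ := hBX δ' hδ'
  obtain ⟨R₃, hR₃, ς₃, hς₃, hBJ⟩ := hBJ δ' hδ'
  set R := max R₁ (max R₂ R₃) with hR
  set ς := min ς₁ (min ς₂ ς₃) with hς
  have hR0 : 0 < R := lt_max_of_lt_left hR₁
  have hς0 : 0 < ς := lt_min hς₁ (lt_min hς₂ hς₃)
  obtain ⟨ε₁, h0, h⟩ := hdet R hR0 ς hς0
  have gS := (hL₁ L (le_max_left _ _)).or hf
    ((hBS R ς (le_max_left _ _) hς0 (min_le_left _ _)).or hf (hHS L δ' hδ'))
  have gX := (hL₂ L (le_max_right _ _)).or hf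
    ((hBX R ς ((le_max_left _ _).trans (le_max_right _ _)) hς0
      ((min_le_right _ _).trans (min_le_left _ _))).or hf (hHX L δ' hδ'))
  have gJ := (hBJ R ς ((le_max_right _ _).trans (le_max_right _ _)) hς0
      ((min_le_right _ _).trans (min_le_right _ _))).or hf (hHJ L δ' hδ')
  refine (fLe_cap hf hm hν hM gS gX gJ (E := E) ⟨ε₁, h0, h⟩).mono (le_trans (le_of_eq ?_) hle)
    ⟨1, one_pos, fun _ _ _ _ _ _ _ _ => le_rfl⟩
  ring

/-- **The plain gateway with families of bad events.** -/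
theorem gNull_of_fam (hf : Measurable f₀) {E : ℝ → I → (n : ℕ) → Θ → Config n → Prop}
    {Rn Ht : ℕ → ℝ → I → (n : ℕ) → Θ → Config n → Prop}
    (hdet : ∀ L : ℕ, ∃ B : ℝ → ℝ → ℝ → I → (n : ℕ) → Θ → Config n → Prop, BadF f₀ m B ∧
      ∀ R > 0, ∀ ς > 0, ∃ ε₁ : ℝ, 0 < ε₁ ∧ ∀ ε : ℝ, 0 < ε → ε < ε₁ → ∀ i n θ (w : Config n),
        w ∈ PairExcluded ε n → E ε i n θ w → Rn L ε i n θ w ∨ B R ς ε i n θ w ∨ Ht L ε i n θ w)
    (hrun : ∀ δ : ℝ≥0∞, 0 < δ → ∃ L₀ : ℕ, ∀ L, L₀ ≤ L → GLe f₀ m (Rn L) δ)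
    (hhit : ∀ L, GNull f₀ m (Ht L)) : GNull f₀ m E := by
  intro δ hδ
  obtain ⟨δ', hδ', hle⟩ := exists_div3 0 (by simp) hδ
  obtain ⟨L, hL⟩ := hrun δ' hδ'
  obtain ⟨B, hB, hdet⟩ := hdet L
  obtain ⟨R, hR, ς, hς, hB⟩ := hB δ' hδ'
  obtain ⟨ε₁, h0, h⟩ := hdet R hR ς hς
  refine ((hL L le_rfl).or hf ((hB R ς le_rfl hς le_rfl).or hf (hhit L δ' hδ'))).mono
    (le_trans ?_ hle) ⟨ε₁, h0, h⟩
  calc δ' + (δ' + δ') = 3 * δ' := by ring
    _ ≤ _ := le_self_add

/-! ### The independent line alone -/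

/-- Change of the time horizon of the lines. -/
theorem lineM_le_of_hor {γ : ℝ → ℝ} (hγ : Measurable γ) (γ₀ : ℝ) (ρm : ℝ≥0∞) (K : ℕ) {te T : ℝ}
    (hte : te ≤ T) {F : ML → ℝ≥0∞} (hF : Measurable F) :
    ∫⁻ l, F l ∂(lineM γ ρm K te) ≤
      ∫⁻ l, F l ∂(lineM (fun τ => if τ ≤ te then γ τ else γ₀) ρm K T) := by
  have hγ' : Measurable fun τ : ℝ => if τ ≤ te then γ τ else γ₀ :=
    Measurable.ite measurableSet_Iic hγ measurable_const
  unfold lineM
  rw [lintegral_withDensity_eq_lintegral_mul _ (LN2.measurable_lineD hγ ρm K) hF,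
    lintegral_withDensity_eq_lintegral_mul _ (LN2.measurable_lineD hγ' ρm K) hF]
  have hrestr : lineV te = (lineV T).restrict {l : ML | l.1.1 ≤ te} := by
    unfold lineV
    have e1 : volume.restrict (Ioc (0 : ℝ) te) =
        (volume.restrict (Ioc (0 : ℝ) T)).restrict (Iic te) := by
      rw [Measure.restrict_restrict measurableSet_Iic]
      congr 1
      ext τ
      simp only [mem_Ioc, mem_inter_iff, mem_Iic]
      constructor
      · exact fun h => ⟨h.2, h.1, h.2.trans hte⟩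
      · exact fun h => ⟨h.2.1, h.1⟩
    rw [e1]
    have e2 : {l : ML | l.1.1 ≤ te} = ((Iic te) ×ˢ (univ : Set PhasePoint)) ×ˢ
        (univ : Set ℕ) := by
      ext l
      simp
    rw [e2, ← Measure.prod_restrict, ← Measure.prod_restrict, Measure.restrict_univ,
      Measure.restrict_univ]
  have hms : MeasurableSet {l : ML | l.1.1 ≤ te} :=
    measurableSet_le measurable_fst.fst measurable_const
  rw [hrestr]
  calc ∫⁻ l in {l : ML | l.1.1 ≤ te}, (lineD γ ρm K * F) l ∂(lineV T)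
      = ∫⁻ l in {l : ML | l.1.1 ≤ te},
          (lineD (fun τ => if τ ≤ te then γ τ else γ₀) ρm K * F) l ∂(lineV T) := by
        refine setLIntegral_congr_fun hms fun l hl => ?_
        have hl' : l.1.1 ≤ te := hl
        simp only [Pi.mul_apply, lineD, if_pos hl']
    _ ≤ _ := setLIntegral_le_lintegral _ _

/-- **Runs from the independent line.** -/
theorem gLe_runX {Φ : Space3 → ℝ} (hΦ : AdmissiblePotential Φ) {β γ₀ : ℝ} (hβ : 0 < β)
    (hβγ : β < γ₀) {te T A : ℝ} (hte : te ≤ T) (hT : 0 ≤ T) (hA : 0 ≤ A) (K : ℕ)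
    (hf : Measurable f₀) (h1 : ∫⁻ z, ENNReal.ofReal (f₀ z) ≤ 1) {env : Space3 → ℝ≥0∞}
    (hE : EnvB β f₀ env A) {γ : ℝ → ℝ} (hγ : Measurable γ)
    (hγ₀ : ∀ τ ∈ Ioc (0 : ℝ) te, γ₀ ≤ γ τ) {ρm : ℝ≥0∞} (hρm : ρm ≠ ∞) (Km : ℕ) {t : I → ℝ}
    (ht : ∀ i, t i ≤ T) {δ : ℝ≥0∞} (hδ : 0 < δ) : ∃ L₀ : ℕ, ∀ L, L₀ ≤ L →
      GLe (I := I) f₀ (fun _ _ => lineM γ ρm Km te)
        (fun ε i _ l w => Run Φ ε (t i) K L (MW.line l) () w) δ := by
  set γ' : ℝ → ℝ := fun τ => if τ ≤ te then γ τ else γ₀ with hγ'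
  have hγ'm : Measurable γ' := Measurable.ite measurableSet_Iic hγ measurable_const
  have hγ'0 : ∀ τ ∈ Ioc (0 : ℝ) T, γ₀ ≤ γ' τ := by
    intro τ hτ
    simp only [hγ']
    split_ifs with h
    · exact hγ₀ τ ⟨hτ.1, h⟩
    · exact le_rfl
  obtain ⟨η, hη, -, h⟩ := runM_tail_line hΦ hβ hβγ T A hT hA K hf h1 hE hγ'm hγ'0 hρm Km
  obtain ⟨L₀, hL₀⟩ := eventually_atTop.1 (hη.eventually_lt_const hδ)
  refine ⟨max L₀ 1, fun L hL => ?_⟩
  obtain ⟨ε₀, h0, h⟩ := h L ((le_max_right _ _).trans hL)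
  refine ⟨ε₀, h0, fun ε hε hlt i => ⟨fun n p => runM Φ ε T K L Unit (MW.line p.1) () n p.2,
    fun n => measurable_runM_line hΦ hε T K L measurable_fst measurable_snd,
    fun n l w hw hR => one_le_runM_of_le hΦ hε (ht i) hw hR, ?_⟩⟩
  have hmeas : Measurable fun l : ML =>
      gcE f₀ ε (fun n w => runM Φ ε T K L Unit (MW.line l) () n w) :=
    MeasE416.measurable_gcE_of hf ε (F := fun n l w => runM Φ ε T K L Unit (MW.line l) () n w)
      fun n => measurable_runM_line hΦ hε T K L measurable_fst measurable_snd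
  calc ∫⁻ l, gcE f₀ ε (fun n w => runM Φ ε T K L Unit (MW.line l) () n w) ∂(lineM γ ρm Km te)
      ≤ ∫⁻ l, gcE f₀ ε (fun n w => runM Φ ε T K L Unit (MW.line l) () n w)
          ∂(lineM γ' ρm Km T) := lineM_le_of_hor hγ γ₀ ρm Km hte hmeas
    _ ≤ η L := h ε hε hlt
    _ ≤ δ := (hL₀ L ((le_max_left _ _).trans hL)).le

/-- **Bad clusters of the independent line**: `{x} ∪ Y` connected, not tree-like (or a bad
partition). -/
theorem badF_badX {Φ : Space3 → ℝ} {T g : ℝ} {ρ : Space3 → ℝ≥0∞} {C₀ : ℝ≥0∞}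
    (hCN : VLMeas973.ClassNull Φ T) (hf : Measurable f₀)
    (h1 : ∫⁻ z, ENNReal.ofReal (f₀ z) ≤ 1) (he : Env f₀ g ρ C₀) (hg : 0 < g) (C : ℝ) (N : ℕ)
    {te : ℝ} {γ : ℝ → ℝ} (hγ : Measurable γ) (hγg : ∀ τ ∈ Ioc (0 : ℝ) te, g ≤ γ τ) {ρm : ℝ≥0∞}
    (hρm : ρm ≠ ∞) (Km : ℕ) :
    BadF (I := I) f₀ (fun _ _ => lineM γ ρm Km te)
      (fun R ς ε _ _ l w => BadGas Φ T C R ς ε N 1 (∅ : Finset Unit) (fun _ => l.1.1)
        (fun _ => back l.1) w) :=
  badF_badGas (m := fun _ _ => lineM γ ρm Km te) hCN hf h1 he hg C N (s := 1) (by simp) ∅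
    (c := ∑' n : ℕ, markW ρm Km n) (sum_markW_ne_top hρm Km) (lineΛ te)
    (b := fun _ _ l _ => l.1.1) (z := fun _ _ l _ => back l.1)
    (fun _ _ => inferInstance) fun ε _ _ => dom_line hγg hγ ρm Km ε

end Crest.Agent.R122.Gate973

end
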