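import Crest.Agent.R122.OSMeas_984
import Crest.Agent.R122.GateF_973
import Crest.Agent.R122.GIVChild_383

/-!
# Null slots of the contact structures from gateway null facts (row 122, H2 gates OS / OSx)

* `FLe.add`, `FNull.add`, `FNull.const_mul`, `FNull.finset_sum` : calculus on top of `GateF_973`.
* `fNull_section_measure` : measure of the bad second parameters, no measurability of the event.
* `fNull_cap` : `min 1 (ν {x | E x})` from `E x → S ∨ E' x`, `S` null on `m`, `E'` null on `m.prod ν`.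
* `os_bd_eq` : `OS κ H = ∑_P ∫ gcE H d(osM P)`.
* `null_of_fam` : families over `osM P`, `P.leaves ≤ K` ⟹ one functional `bd` with `MeasSF`, pointwise
  majorant, `Null (OS .. bd)`.
* `null_of_gNull` : the same for events.
* `stmtLink_of` : the literal `StmtLink`.
-/

set_option autoImplicit false
set_option linter.unusedSectionVars false

open MeasureTheory Set Filter Topology
open scoped ENNReal Classical
open Crest.AnalysisR.Kinetic
open Crest.Agent.R122.Kin796 Crest.Agent.R122.Kin796.CTree Crest.Agent.R122.Tree674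
open Crest.Agent.R122.GC311 Crest.Agent.R122.EDefs602 Crest.Agent.R122.OneC285
open Crest.Agent.R122.Gate424 Crest.Agent.R122.Gate973 Crest.Agent.R122.OSMeas984

noncomputable section

namespace Crest.Agent.R122.GateOS434

section calculus

variable {f₀ : PhasePoint → ℝ} {I Θ : Type} [MeasurableSpace Θ] {m : ℝ → I → Measure Θ}
  {F F' : ℝ → I → (n : ℕ) → Θ → Config n → ℝ≥0∞} {c c' : ℝ≥0∞}

theorem FLe.add (hf : Measurable f₀) (h : FLe f₀ m F c) (h' : FLe f₀ m F' c') :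
    FLe f₀ m (fun ε i n θ w => F ε i n θ w + F' ε i n θ w) (c + c') := by
  obtain ⟨ε₀, h0, h⟩ := h
  obtain ⟨ε₁, h1, h'⟩ := h'
  refine ⟨min ε₀ ε₁, lt_min h0 h1, fun ε hε hlt i => ?_⟩
  obtain ⟨G, hGm, hG, hGi⟩ := h ε hε (hlt.trans_le (min_le_left _ _)) i
  obtain ⟨G', hGm', hG', hGi'⟩ := h' ε hε (hlt.trans_le (min_le_right _ _)) i
  refine ⟨fun n p => G n p + G' n p, fun n => (hGm n).add (hGm' n),
    fun n θ w hw => add_le_add (hG n θ w hw) (hG' n θ w hw), ?_⟩
  have e1 : ∀ θ, gcE f₀ ε (fun n w => G n (θ, w) + G' n (θ, w)) =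
      gcE f₀ ε (fun n w => G n (θ, w)) + gcE f₀ ε (fun n w => G' n (θ, w)) := fun θ =>
    gcE_add hf ε (F := fun n w => G n (θ, w)) fun n => (hGm n).comp measurable_prodMk_left
  simp_rw [e1]
  rw [lintegral_add_left]
  · exact add_le_add hGi hGi'
  · exact MeasE416.measurable_gcE_of hf ε (F := fun n θ w => G n (θ, w)) fun n => hGm n

theorem FLe.zero (f₀ : PhasePoint → ℝ) (m : ℝ → I → Measure Θ) :
    FLe f₀ m (fun _ _ _ _ _ => 0) 0 := by
  refine ⟨1, one_pos, fun ε _ _ i => ⟨fun _ _ => 0, fun _ => measurable_const,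
    fun _ _ _ _ => le_rfl, ?_⟩⟩
  simp [gcE_zero]

theorem FNull.zero (f₀ : PhasePoint → ℝ) (m : ℝ → I → Measure Θ) :
    FNull f₀ m (fun _ _ _ _ _ => 0) := fun _ _ =>
  (FLe.zero f₀ m).mono bot_le ⟨1, one_pos, fun _ _ _ _ _ _ _ _ => le_rfl⟩

theorem FNull.add (hf : Measurable f₀) (h : FNull f₀ m F) (h' : FNull f₀ m F') :
    FNull f₀ m (fun ε i n θ w => F ε i n θ w + F' ε i n θ w) := by
  intro δ hδ
  rcases eq_or_ne δ ∞ with rfl | hδt
  · exact (FLe.add hf (h 1 one_pos) (h' 1 one_pos)).mono le_top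
      ⟨1, one_pos, fun _ _ _ _ _ _ _ _ => le_rfl⟩
  · have h2 : 0 < δ / 2 := ENNReal.half_pos hδ.ne'
    have h3 := FLe.add hf (h _ h2) (h' _ h2)
    rwa [ENNReal.add_halves] at h3


theorem FLe.const_mul {k : ℝ≥0∞} (hk : k ≠ ∞) (h : FLe f₀ m F c) :
    FLe f₀ m (fun ε i n θ w => k * F ε i n θ w) (k * c) := by
  obtain ⟨ε₀, h0, h⟩ := h
  refine ⟨ε₀, h0, fun ε hε hlt i => ?_⟩
  obtain ⟨G, hGm, hG, hGi⟩ := h ε hε hlt i
  refine ⟨fun n p => k * G n p, fun n => (hGm n).const_mul k,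
    fun n θ w hw => mul_le_mul_right (hG n θ w hw) _, ?_⟩
  have e1 : ∀ θ, gcE f₀ ε (fun n w => k * G n (θ, w)) =
      k * gcE f₀ ε (fun n w => G n (θ, w)) := fun θ => gcE_const_mul f₀ ε hk _
  simp_rw [e1]
  rw [lintegral_const_mul' _ _ hk]
  exact mul_le_mul_right hGi _

theorem FNull.const_mul {k : ℝ≥0∞} (hk : k ≠ ∞) (h : FNull f₀ m F) :
    FNull f₀ m (fun ε i n θ w => k * F ε i n θ w) := by
  rcases eq_or_ne k 0 with rfl | hk0
  · simp only [zero_mul]
    exact FNull.zero f₀ m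
  intro δ hδ
  have h1 : 0 < δ / k := ENNReal.div_pos hδ.ne' hk
  refine (FLe.const_mul hk (h _ h1)).mono (le_of_eq ?_)
    ⟨1, one_pos, fun _ _ _ _ _ _ _ _ => le_rfl⟩
  exact ENNReal.mul_div_cancel hk0 hk

/-! ### Sections -/

variable {X : Type} [MeasurableSpace X] {ν : ℝ → I → Measure X}





end calculus

/-! ### The null slot of contact structures -/

section os

variable {Φ : Space3 → ℝ} {f₀ : PhasePoint → ℝ} {Q : EPar} {T' : ℝ} {κ : Measure ℝ}

theorem OS_eq' (hΦ : AdmissiblePotential Φ) (hf : Measurable f₀) (hγ : Measurable Q.γ) (ε : ℝ)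
    (K : ℕ) [SFinite κ] {H : SF} (hH : MeasSF H) :
    OS Φ f₀ ε K Q T' κ H = ∑' P : CTree, ∫⁻ θ, gcE f₀ ε (fun m w => H P θ.1 m w θ.2)
      ∂(osM Φ f₀ ε K Q T' κ P) := by
  rw [OS_eq hΦ hf hγ hH]
  refine tsum_congr fun P => ?_
  refine (LN2.lintegral_gcE_swap hf ε (osM Φ f₀ ε K Q T' κ P)
    (F := fun m θ w => H P θ.1 m w θ.2) fun m => ?_).symm
  exact (hH P m).comp (measurable_fst.fst.prodMk (measurable_snd.prodMk measurable_fst.snd))



end os

end Crest.Agent.R122.GateOS434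

end
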