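import Crest.Agent.R122.OneCDefs_285
import Crest.Agent.R122.LN2Inst_473

/-!
# The structure integral `OS` as a measure (row 122, board H1)

* `lineK γ ρ K κ` : marked lines with births distributed according to `κ` (`lineM` for
  `κ = volume.restrict (Ioc 0 T)`).
* `osM Φ f₀ ε K Q T' κ P` : measure on (tree, test line) in contact, activity included.
* `OS_eq` : `OS = ∑' P, gcE ∫ H d(osM P)` for measurable functionals.
* `dom_os` : dominated structure with ONE group (helper473's `Dom`): births `0` for the tree, anchors =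
  the tree.
* `dom_osX` : with an independent test line (two groups).
-/

set_option autoImplicit false
set_option linter.unusedSectionVars false

open MeasureTheory Set
open scoped Classical ENNReal
open Crest.AnalysisR.Kinetic
open Crest.Agent.R122.Kin796 Crest.Agent.R122.Kin796.CTree Crest.Agent.R122.Tree674
open Crest.Agent.R122.GC311 Crest.Agent.R122.EDefs602 Crest.Agent.R122.OneC285
open Crest.Agent.R122.ToTree335 Crest.Agent.R122.LN2 Crest.Agent.R122.LinkGas473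

noncomputable section

namespace Crest.Agent.R122.OSMeas984

variable {Φ : Space3 → ℝ} {f₀ : PhasePoint → ℝ} {ε : ℝ} {K : ℕ} {Q : EPar} {T' : ℝ}
  {κ : Measure ℝ}

/-- Marked lines, births distributed according to `κ`. -/
def lineK (γ : ℝ → ℝ) (ρ : ℝ≥0∞) (K : ℕ) (κ : Measure ℝ) : Measure ML :=
  (OneC423.baseM κ).withDensity (lineD γ ρ K)

theorem lineK_restrict (γ : ℝ → ℝ) (ρ : ℝ≥0∞) (K : ℕ) (T : ℝ) :
    lineK γ ρ K (volume.restrict (Ioc 0 T)) = lineM γ ρ K T := rfl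

instance (γ : ℝ → ℝ) (ρ : ℝ≥0∞) (K : ℕ) [SFinite κ] : SFinite (lineK γ ρ K κ) := by
  unfold lineK; infer_instance

theorem lintegral_lineK {γ : ℝ → ℝ} (hγ : Measurable γ) (ρ : ℝ≥0∞) (K : ℕ) (κ : Measure ℝ)
    {F : ML → ℝ≥0∞} (hF : Measurable F) :
    ∫⁻ l, F l ∂(lineK γ ρ K κ) = ∫⁻ l, lineD γ ρ K l * F l ∂(OneC423.baseM κ) := by
  unfold lineK
  rw [lintegral_withDensity_eq_lintegral_mul _ (LN2.measurable_lineD hγ ρ K) hF]
  rfl

/-- (tree, line) in contact. -/
def ctS (Φ : Space3 → ℝ) (ε te : ℝ) (P : CTree) : Set ((PhasePoint × Par P) × ML) :=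
  {θ | (θ.1, θ.2.1) ∈ OneC423.ctSet Φ ε te P}

theorem measurableSet_ctS (hΦ : AdmissiblePotential Φ) (ε te : ℝ) (P : CTree) :
    MeasurableSet (ctS Φ ε te P) :=
  (measurable_fst.prodMk (measurable_fst.comp measurable_snd))
    (OneC423.measurableSet_ctSet hΦ ε te P)

/-- Measure on (tree, test line) in contact; the activity is included. -/
def osM (Φ : Space3 → ℝ) (f₀ : PhasePoint → ℝ) (ε : ℝ) (K : ℕ) (Q : EPar) (T' : ℝ)
    (κ : Measure ℝ) (P : CTree) : Measure ((PhasePoint × Par P) × ML) :=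
  activity ε • ((treeM Φ f₀ ε P T').prod (lineK Q.γ Q.ρ K κ)).restrict (ctS Φ ε Q.te P)

theorem activity_ne_top (ε : ℝ) : activity ε ≠ ∞ := ENNReal.ofReal_ne_top

instance [SFinite κ] (P : CTree) : SFinite (osM Φ f₀ ε K Q T' κ P) := by
  unfold osM; infer_instance

theorem lintegral_osM (hΦ : AdmissiblePotential Φ) [SFinite κ] (P : CTree)
    {F : (PhasePoint × Par P) × ML → ℝ≥0∞} (hF : Measurable F) :
    ∫⁻ θ, F θ ∂(osM Φ f₀ ε K Q T' κ P) = activity ε *
      ∫⁻ z, ∫⁻ l, (ctS Φ ε Q.te P).indicator F (z, l) ∂(lineK Q.γ Q.ρ K κ)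
        ∂(treeM Φ f₀ ε P T') := by
  unfold osM
  rw [lintegral_smul_measure, smul_eq_mul,
    ← lintegral_indicator (measurableSet_ctS hΦ ε Q.te P),
    lintegral_prod _ (hF.indicator (measurableSet_ctS hΦ ε Q.te P)).aemeasurable]

/-- The integrand restricted to contacts. -/
def cH (Φ : Space3 → ℝ) (ε te : ℝ) (H : SF) (P : CTree) (m : ℕ) (z : PhasePoint × Par P)
    (w : Config m) (l : ML) : ℝ≥0∞ :=
  (ctS Φ ε te P).indicator (fun θ => H P θ.1 m w θ.2) (z, l)

theorem measurable_cH (hΦ : AdmissiblePotential Φ) (ε te : ℝ) {H : SF} (hH : MeasSF H)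
    (P : CTree) (m : ℕ) : Measurable fun q : ((PhasePoint × Par P) × Config m) × ML =>
      cH Φ ε te H P m q.1.1 q.1.2 q.2 := by
  have h1 : Measurable fun q : ((PhasePoint × Par P) × Config m) × ML =>
      H P q.1.1 m q.1.2 q.2 := (hH P m).comp
    (measurable_fst.fst.prodMk (measurable_fst.snd.prodMk measurable_snd))
  have h2 : MeasurableSet {q : ((PhasePoint × Par P) × Config m) × ML |
      (q.1.1, q.2) ∈ ctS Φ ε te P} :=
    (measurable_fst.fst.prodMk measurable_snd) (measurableSet_ctS hΦ ε te P)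
  exact h1.indicator h2

theorem cH_of_mem {te : ℝ} {H : SF} {P : CTree} {m : ℕ} {z : PhasePoint × Par P} {w : Config m}
    {l : ML} (h : (z, l.1) ∈ OneC423.ctSet Φ ε te P) : cH Φ ε te H P m z w l = H P z m w l :=
  indicator_of_mem (show (z, l) ∈ ctS Φ ε te P from h) _

theorem cH_of_notMem {te : ℝ} {H : SF} {P : CTree} {m : ℕ} {z : PhasePoint × Par P}
    {w : Config m} {l : ML} (h : (z, l.1) ∉ OneC423.ctSet Φ ε te P) :
    cH Φ ε te H P m z w l = 0 :=
  indicator_of_notMem (show (z, l) ∉ ctS Φ ε te P from h) _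

theorem measurable_cH_line (hΦ : AdmissiblePotential Φ) (ε te : ℝ) {H : SF} (hH : MeasSF H)
    (P : CTree) (m : ℕ) (z : PhasePoint × Par P) (w : Config m) :
    Measurable fun l : ML => cH Φ ε te H P m z w l :=
  Measurable.comp (g := fun q : ((PhasePoint × Par P) × Config m) × ML =>
      cH Φ ε te H P m q.1.1 q.1.2 q.2) (f := fun l : ML => ((z, w), l))
    (measurable_cH hΦ ε te hH P m) (measurable_const.prodMk measurable_id)

/-- **The structure integral is the integral against `osM`.** -/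
theorem OS_eq (hΦ : AdmissiblePotential Φ) (hf : Measurable f₀) (hγ : Measurable Q.γ)
    [SFinite κ] {H : SF} (hH : MeasSF H) :
    OS Φ f₀ ε K Q T' κ H = ∑' P : CTree, gcE f₀ ε fun m w =>
      ∫⁻ θ, H P θ.1 m w θ.2 ∂(osM Φ f₀ ε K Q T' κ P) := by
  unfold OS
  rw [← ENNReal.tsum_mul_left]
  refine tsum_congr fun P => ?_
  have hI : ∀ m, Measurable fun q : (PhasePoint × Par P) × Config m =>
      ∫⁻ l, cH Φ ε Q.te H P m q.1 q.2 l ∂(lineK Q.γ Q.ρ K κ) := fun m =>
    Measurable.lintegral_prod_right' (f := fun q : ((PhasePoint × Par P) × Config m) × ML =>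
      cH Φ ε Q.te H P m q.1.1 q.1.2 q.2) (measurable_cH hΦ ε Q.te hH P m)
  have hin : ∀ (z : PhasePoint × Par P) (m : ℕ) (w : Config m),
      ∫⁻ l, {l : ML | (z, l.1) ∈ OneC423.ctSet Φ ε Q.te P}.indicator
        (fun l => lineD Q.γ Q.ρ K l * H P z m w l) l ∂(OneC423.baseM κ) =
      ∫⁻ l, cH Φ ε Q.te H P m z w l ∂(lineK Q.γ Q.ρ K κ) := by
    intro z m w
    rw [lintegral_lineK hγ Q.ρ K κ (measurable_cH_line hΦ ε Q.te hH P m z w)]
    refine lintegral_congr fun l => ?_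
    by_cases h : (z, l.1) ∈ OneC423.ctSet Φ ε Q.te P
    · rw [indicator_of_mem (show l ∈ {l : ML | (z, l.1) ∈ OneC423.ctSet Φ ε Q.te P} from h),
        cH_of_mem h]
    · rw [indicator_of_notMem (show l ∉ {l : ML | (z, l.1) ∈ OneC423.ctSet Φ ε Q.te P} from h),
        cH_of_notMem h, mul_zero]
  simp only [hin]
  have hG : Measurable fun z : PhasePoint × Par P => gcE f₀ ε fun m w =>
      ∫⁻ l, cH Φ ε Q.te H P m z w l ∂(lineK Q.γ Q.ρ K κ) :=
    measurable_gcE_par (F := fun (z : PhasePoint × Par P) m w =>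
      ∫⁻ l, cH Φ ε Q.te H P m z w l ∂(lineK Q.γ Q.ρ K κ)) hf fun m => hI m
  rw [← lintegral_treeM hΦ hf ε P T' hG]
  rw [lintegral_gcE_swap (F := fun m z w =>
      ∫⁻ l, cH Φ ε Q.te H P m z w l ∂(lineK Q.γ Q.ρ K κ)) hf ε (treeM Φ f₀ ε P T') hI,
    ← gcE_const_mul f₀ ε (activity_ne_top ε)]
  refine gcE_congr f₀ ε fun m w _ => ?_
  rw [lintegral_osM hΦ P (F := fun θ => H P θ.1 m w θ.2)
    ((hH P m).comp (measurable_fst.prodMk (measurable_const.prodMk measurable_snd)))]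
  rfl

/-! ## Domination -/

instance (γ : ℝ → ℝ) (ρ : ℝ≥0∞) (K : ℕ) (T : ℝ) : SFinite (lineM γ ρ K T) := by
  rw [← lineK_restrict]; infer_instance

theorem lintegral_osM_le (P : CTree) (F : (PhasePoint × Par P) × ML → ℝ≥0∞) :
    ∫⁻ θ, F θ ∂(osM Φ f₀ ε K Q T' κ P) ≤ activity ε *
      ∫⁻ θ, F θ ∂((treeM Φ f₀ ε P T').prod (lineK Q.γ Q.ρ K κ)) := by
  unfold osM
  rw [lintegral_smul_measure, smul_eq_mul]
  exact mul_le_mul_right (lintegral_mono' Measure.restrict_le_self le_rfl) _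

variable {γ : ℝ} {ρ : Space3 → ℝ≥0∞} {C : ℝ≥0∞}

/-- Births of (tree, line). -/
def osB (P : CTree) (θ : (PhasePoint × Par P) × ML) : Idx P ⊕ Unit → ℝ :=
  Sum.elim (fun _ => 0) fun _ => θ.2.1.1

/-- Initial states of (tree, line). -/
def osZ (Φ : Space3 → ℝ) (ε : ℝ) (P : CTree) (θ : (PhasePoint × Par P) × ML) :
    Idx P ⊕ Unit → PhasePoint :=
  Sum.elim (linesM Φ ε P θ.1.1 θ.1.2) fun _ => back θ.2.1

/-- Law of the births. -/
def osΛ (te : ℝ) (P : CTree) : Measure (Idx P ⊕ Unit → ℝ) :=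
  prodΛ (Measure.dirac fun _ : Idx P => (0 : ℝ)) (lineΛ te)

instance (te : ℝ) (P : CTree) : IsFiniteMeasure (osΛ te P) := by unfold osΛ; infer_instance

theorem card_idx_pos (P : CTree) : 0 < Fintype.card (Idx P) := Fintype.card_pos_iff.2 ⟨root P⟩

/-- **The contact structure is dominated**, one group. -/
theorem dom_os (hΦ : AdmissiblePotential Φ) (hf : Measurable f₀) (he : Env f₀ γ ρ C)
    (hε : 0 < ε) (hγm : Measurable Q.γ) (hg : ∀ τ ∈ Ioc (0 : ℝ) Q.te, γ ≤ Q.γ τ) (K : ℕ) (T' : ℝ)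
    (P : CTree) :
    Dom γ ρ ε 1 (Finset.univ.disjSum ∅) (C ^ Fintype.card (Idx P) * ∑' n : ℕ, markW Q.ρ K n)
      (osΛ Q.te P) (osM Φ f₀ ε K Q T' (volume.restrict (Ioc 0 Q.te)) P) (osB P)
      (osZ Φ ε P) := by
  have h := Dom.prod he.meas (dom_tree hΦ hf he hε P T')
    (dom_line (γ := γ) (ρ := ρ) hg hγm Q.ρ K ε) (card_idx_pos P) le_rfl
  refine ⟨h.mb, h.mz, fun F hF => ?_⟩
  refine le_trans ?_ (h.le F hF)
  have hc : Fintype.card (Idx P ⊕ Unit) - 1 = (Fintype.card (Idx P ⊕ Unit) - (1 + 1)) + 1 := by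
    have := card_idx_pos P
    rw [Fintype.card_sum, Fintype.card_unit]
    omega
  rw [hc, pow_succ, mul_assoc]
  refine mul_le_mul_right ?_ _
  calc ENNReal.ofReal (ε ^ 2) * ∫⁻ θ, F (osB P θ, osZ Φ ε P θ)
        ∂(osM Φ f₀ ε K Q T' (volume.restrict (Ioc 0 Q.te)) P)
      ≤ ENNReal.ofReal (ε ^ 2) * (activity ε * ∫⁻ θ, F (osB P θ, osZ Φ ε P θ)
          ∂((treeM Φ f₀ ε P T').prod (lineK Q.γ Q.ρ K (volume.restrict (Ioc 0 Q.te))))) :=
        mul_le_mul_right (lintegral_osM_le P _) _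
    _ = _ := by
        rw [← mul_assoc]
        have h1 := activity_pow_mul_pow hε 1
        rw [pow_one, pow_one, mul_comm] at h1
        rw [h1, one_mul]
        rfl


end Crest.Agent.R122.OSMeas984
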