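import Crest.Agent.R122.LN2Touch_473
import Crest.Agent.R122.OSMeas_984
import Crest.Agent.R122.TreeDom_974

/-!
# Row 122, LN2: a structure in contact with a tree (helper473)

* `exists_treeG` : the law of a tree with velocity weights is at most `ρ(root particle) * G(u, p)`,
  `G` integrable, uniformly in `ε ≥ 0` and the horizon.
* `vol_ct_le` : volume of the positions of the root line such that it meets a given line.
* `ct_pin` : mass of the trees in contact with a given line (pointwise in the line);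
  `ct_avg` : the same integrated over the translations.
-/

set_option autoImplicit false
set_option linter.unusedSectionVars false

open MeasureTheory Set Filter Topology
open scoped Classical ENNReal
open Crest.AnalysisR.Kinetic

noncomputable section

namespace Crest.Agent.R122.LN2

open Crest.Agent.R122.GC311 Crest.Agent.R122.Kin796 Crest.Agent.R122.Kin796.CTree
open Crest.Agent.R122.EDefs602 Crest.Agent.R122.Tree674 Crest.Agent.R122.Disc416
open Crest.Agent.R122.ToTree335 Crest.Agent.R122.OneC423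
open Crest.Agent.R122.Boost969 (LSt posAt)
open Crest.Agent.R122.Pair292 (shL)
open Crest.Agent.R122.Gate424

variable {Φ : Space3 → ℝ} {f₀ : PhasePoint → ℝ} {ε γ a : ℝ} {ρ : Space3 → ℝ≥0∞} {C₀ : ℝ≥0∞}

/-! ## Kinetic bound -/

theorem ofReal_one_add_le {δ : ℝ} (hδ : 0 < δ) : ∃ c : ℝ, 0 ≤ c ∧ ∀ x E : ℝ, 0 ≤ x → x ^ 2 ≤ E →
    1 + x ≤ c * Real.exp (δ * E) := by
  refine ⟨2 * (Nat.factorial 1 / δ ^ 1 * Real.exp δ), by positivity, fun x E hx hE => ?_⟩
  have h1 := TreeDom974.one_add_pow_le hδ (sq_nonneg x) 1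
  rw [pow_one] at h1
  have h2 : 1 + x ≤ 2 * (1 + x ^ 2) := by nlinarith [sq_nonneg (x - 1)]
  have h3 : Real.exp (δ * x ^ 2) ≤ Real.exp (δ * E) :=
    Real.exp_le_exp.2 (mul_le_mul_of_nonneg_left hE hδ.le)
  have h4 : (0 : ℝ) ≤ Nat.factorial 1 / δ ^ 1 * Real.exp δ := by positivity
  calc 1 + x ≤ 2 * (1 + x ^ 2) := h2
    _ ≤ 2 * ((Nat.factorial 1 / δ ^ 1 * Real.exp δ) * Real.exp (δ * x ^ 2)) := by linarith
    _ ≤ 2 * ((Nat.factorial 1 / δ ^ 1 * Real.exp δ) * Real.exp (δ * E)) := by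
        have := mul_le_mul_of_nonneg_left h3 h4
        linarith
    _ = _ := by ring

/-- **Kinetic bound for the law of a tree.** -/
theorem exists_treeG (hΦ : AdmissiblePotential Φ) (he : Env f₀ γ ρ C₀) (ha : a < γ) (P : CTree)
    (T : ℝ) : ∃ G : Space3 × Par P → ℝ≥0∞, Measurable G ∧
      ∫⁻ q, G q * ENNReal.ofReal (1 + ‖q.1‖) ≠ ∞ ∧
      ∀ (ε T' : ℝ) (z : PhasePoint × Par P), 0 ≤ ε → T' ≤ T →
        treeD Φ f₀ ε P T' z * expW a (linesM Φ ε P z.1 z.2) ≤
          ρ (lines Φ ε P z.1 z.2 (root P)).1 * G (z.1.2, z.2) := by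
  set k : PhasePoint → ℝ≥0∞ := fun z => C₀ * wG γ z.2 * ENNReal.ofReal (Real.exp (a * ‖z.2‖ ^ 2))
    with hk
  have hk' : ∀ z, k z ≤ ENNReal.ofReal (C₀.toReal * Real.exp (-(γ - a) * ‖z.2‖ ^ 2)) := by
    intro z
    rw [hk]
    simp only
    unfold wG
    rw [mul_assoc, ← ENNReal.ofReal_mul (Real.exp_pos _).le, ← Real.exp_add,
      ENNReal.ofReal_mul ENNReal.toReal_nonneg, ENNReal.ofReal_toReal he.fin]
    refine le_of_eq ?_
    congr 3
    ring
  have hb : (γ - a) / 2 < γ - a := half_lt_self (sub_pos.2 ha)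
  have hb0 : 0 < (γ - a) / 2 := half_pos (sub_pos.2 ha)
  obtain ⟨C', hC', hdom⟩ := TreeDom974.le_domG hΦ ENNReal.toReal_nonneg hb hk' P
  have hG := TreeDom974.measurable_domG hC' ((γ - a) / 2) T P
  refine ⟨fun q => TreeDom974.domG C' ((γ - a) / 2) T P q.1 q.2, hG, ?_, ?_⟩
  · obtain ⟨c, hc, h1⟩ := ofReal_one_add_le (half_pos hb0)
    have h2 := TreeDom974.lintegral_domG_ne_top (C := C' * c) (mul_nonneg hC' hc) (half_pos hb0) T P
    refine ne_top_of_le_ne_top h2 (lintegral_mono fun q => ?_)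
    unfold TreeDom974.domG
    rw [mul_assoc, ← ENNReal.ofReal_mul (by positivity)]
    refine mul_le_mul_right (ENNReal.ofReal_le_ofReal ?_) _
    have hE : ‖q.1‖ ^ 2 ≤ ‖q.1‖ ^ 2 + TreeDom974.nodeE P q.2 := by
      have := TreeDom974.nodeE_nonneg P q.2
      linarith
    set E := ‖q.1‖ ^ 2 + TreeDom974.nodeE P q.2 with hEdef
    have h3 := h1 ‖q.1‖ E (norm_nonneg _) hE
    calc C' * Real.exp (-((γ - a) / 2) * E) * (1 + ‖q.1‖)
        ≤ C' * Real.exp (-((γ - a) / 2) * E) * (c * Real.exp ((γ - a) / 2 / 2 * E)) :=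
          mul_le_mul_of_nonneg_left h3 (by positivity)
      _ = C' * c * (Real.exp (-((γ - a) / 2) * E) * Real.exp ((γ - a) / 2 / 2 * E)) := by ring
      _ = C' * c * Real.exp (-((γ - a) / 2 / 2) * E) := by
          rw [← Real.exp_add]
          congr 2
          ring
  · intro ε T' z hε hT
    unfold treeD
    by_cases hz : Valid Φ ε P T' z.1.2 z.2
    · rw [indicator_of_mem (show z ∈ {z : PhasePoint × Par P | Valid Φ ε P T' z.1.2 z.2} from hz),
        linesM_of_adm ε hz.1]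
      have h1 := hdom ε T T' z.1 z.2 hε hT hz
      have h2 : pf Φ f₀ ε P z * expW a (lines Φ ε P z.1 z.2) ≤
          ρ (lines Φ ε P z.1 z.2 (root P)).1 * ∏ i, k (lines Φ ε P z.1 z.2 i) := by
        unfold pf expW
        rw [← Finset.prod_mul_distrib]
        calc ∏ i, ENNReal.ofReal (f₀ (lines Φ ε P z.1 z.2 i)) *
              ENNReal.ofReal (Real.exp (a * ‖(lines Φ ε P z.1 z.2 i).2‖ ^ 2))
            ≤ ∏ i, ρ (lines Φ ε P z.1 z.2 i).1 * k (lines Φ ε P z.1 z.2 i) := by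
              refine Finset.prod_le_prod' fun i _ => ?_
              rw [hk]
              simp only
              rw [← mul_assoc]
              refine mul_le_mul_left ((he.le _).trans (le_of_eq ?_)) _
              ring
          _ = (∏ i, ρ (lines Φ ε P z.1 z.2 i).1) * ∏ i, k (lines Φ ε P z.1 z.2 i) :=
              Finset.prod_mul_distrib
          _ ≤ _ := by
              refine mul_le_mul_left ?_ _
              rw [← Finset.mul_prod_erase Finset.univ _ (Finset.mem_univ (root P))]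
              exact mul_le_of_le_one_right bot_le (Finset.prod_le_one' fun i _ => he.le_one _)
      calc wt Φ P z.1.2 z.2 * pf Φ f₀ ε P z * expW a (lines Φ ε P z.1 z.2)
          ≤ wt Φ P z.1.2 z.2 * (ρ (lines Φ ε P z.1 z.2 (root P)).1 *
            ∏ i, k (lines Φ ε P z.1 z.2 i)) := by
            rw [mul_assoc]
            exact mul_le_mul_right h2 _
        _ = ρ (lines Φ ε P z.1 z.2 (root P)).1 * (wt Φ P z.1.2 z.2 *
            ∏ i, k (lines Φ ε P z.1 z.2 i)) := by ring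
        _ ≤ _ := mul_le_mul_right h1 _
    · rw [indicator_of_notMem
        (show z ∉ {z : PhasePoint × Par P | Valid Φ ε P T' z.1.2 z.2} from hz), zero_mul]
      exact bot_le

/-! ## Volume of contacts -/

/-- Area of the unit disc. -/
def cP : ℝ≥0∞ := volume (Metric.ball (0 : Plane) 1)

theorem cP_ne_top : cP ≠ ∞ := measure_ball_lt_top.ne

/-- Indicator of the contact of a line with a tree. -/
def ctI (Φ : Space3 → ℝ) (ε te : ℝ) (P : CTree) (l : LSt) (z : PhasePoint × Par P) : ℝ≥0∞ :=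
  (ctSet Φ ε te P).indicator 1 (z, l)

theorem measurable_ctI (hΦ : AdmissiblePotential Φ) (ε te : ℝ) (P : CTree) :
    Measurable fun q : LSt × (PhasePoint × Par P) => ctI Φ ε te P q.1 q.2 := by
  unfold ctI
  have h1 : Measurable fun q : (PhasePoint × Par P) × (ℝ × PhasePoint) =>
      (ctSet Φ ε te P).indicator (1 : (PhasePoint × Par P) × (ℝ × PhasePoint) → ℝ≥0∞) q :=
    measurable_one.indicator (measurableSet_ctSet hΦ ε te P)
  exact h1.comp measurable_swap

/-- Composition. -/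
theorem measurable_ctI_comp (hΦ : AdmissiblePotential Φ) (ε te : ℝ) (P : CTree) {X : Type*}
    [MeasurableSpace X] {g : X → LSt} {h : X → PhasePoint × Par P} (hg : Measurable g)
    (hh : Measurable h) : Measurable fun x => ctI Φ ε te P (g x) (h x) := by
  have h2 := Measurable.comp
    (g := fun q : LSt × (PhasePoint × Par P) => ctI Φ ε te P q.1 q.2)
    (f := fun x : X => ((g x, h x) : LSt × (PhasePoint × Par P)))
    (measurable_ctI hΦ ε te P) (hg.prodMk hh)
  exact h2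


theorem ctI_of_mem {l : LSt} {te : ℝ} {P : CTree} {z : PhasePoint × Par P}
    (h : (z, l) ∈ ctSet Φ ε te P) : ctI Φ ε te P l z = 1 := indicator_of_mem h _

theorem ctI_of_notMem {l : LSt} {te : ℝ} {P : CTree} {z : PhasePoint × Par P}
    (h : (z, l) ∉ ctSet Φ ε te P) : ctI Φ ε te P l z = 0 := indicator_of_notMem h _

/-- Volume of the positions of the root line for which the tree is in contact with `e`. -/
theorem vol_ct_le (hΦ : AdmissiblePotential Φ) (hε : 0 < ε) {P : CTree} {te : ℝ} {e : LSt}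
    (he : 0 ≤ e.1) (u : Space3) (p : Par P) :
    ∫⁻ X : Space3, ctI Φ ε te P e ((X, u), p) ≤
      ENNReal.ofReal (ε ^ 2) * (ENNReal.ofReal te * cP * (ENNReal.ofReal (1 + ‖e.2.2‖) *
        ENNReal.ofReal (1 + ‖u‖))) := by
  have h1 := lintegral_ct_x (te := te) hΦ hε e u p (F := fun _ => 1) measurable_const
  have h2 : (fun X : Space3 => ctI Φ ε te P e ((X, u), p)) =
      fun X => {X | (((X, u), p), e) ∈ ctSet Φ ε te P}.indicator (fun _ => (1 : ℝ≥0∞)) X := rfl
  rw [h2, h1]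
  have h3 : ENNReal.ofReal ‖e.2.2 - u‖ * ∫⁻ _b in impactDisc (e.2.2 - u), 1 ∂μHE[2] =
      ENNReal.ofReal ‖e.2.2 - u‖ * cP := by
    rw [norm_mul_lintegral_impactDisc (e.2.2 - u) (fun _ => 1)]
    simp only [lintegral_one, Measure.restrict_apply MeasurableSet.univ, univ_inter]
    rfl
  rw [setLIntegral_const, ← mul_assoc (ENNReal.ofReal ‖e.2.2 - u‖), h3]
  have h4 : volume {s | e.1 < s ∧ s ≤ te ∧ Valid Φ ε P s u p} ≤ ENNReal.ofReal te := by
    have h5 : {s | e.1 < s ∧ s ≤ te ∧ Valid Φ ε P s u p} ⊆ Ioc (0 : ℝ) te :=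
      fun s hs => ⟨he.trans_lt hs.1, hs.2.1⟩
    refine (measure_mono h5).trans ?_
    rw [Real.volume_Ioc, sub_zero]
  have h6 : ENNReal.ofReal ‖e.2.2 - u‖ ≤
      ENNReal.ofReal (1 + ‖e.2.2‖) * ENNReal.ofReal (1 + ‖u‖) := by
    rw [← ENNReal.ofReal_mul (by positivity)]
    refine ENNReal.ofReal_le_ofReal ((norm_sub_le _ u).trans ?_)
    nlinarith [norm_nonneg e.2.2, norm_nonneg u, mul_nonneg (norm_nonneg e.2.2) (norm_nonneg u)]
  calc ENNReal.ofReal (ε ^ 2) * (ENNReal.ofReal ‖e.2.2 - u‖ * cP *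
        volume {s | e.1 < s ∧ s ≤ te ∧ Valid Φ ε P s u p})
      ≤ ENNReal.ofReal (ε ^ 2) * ((ENNReal.ofReal (1 + ‖e.2.2‖) * ENNReal.ofReal (1 + ‖u‖)) * cP *
          ENNReal.ofReal te) :=
        mul_le_mul_right (mul_le_mul' (mul_le_mul_left h6 _) h4) _
    _ = _ := by ring

theorem ctI_shL {P : CTree} {te : ℝ} (l : LSt) (z : PhasePoint × Par P) (a' : Space3) :
    ctI Φ ε te P (shL a' l) z = ctI Φ ε te P l ((z.1.1 - a', z.1.2), z.2) := by
  have h : relL z.1 (shL a' l) = relL (z.1.1 - a', z.1.2) l := by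
    unfold relL shL back
    ext1
    · simp only
      abel
    · rfl
  have h2 : ((z, shL a' l) : (PhasePoint × Par P) × (ℝ × PhasePoint)) ∈ ctSet Φ ε te P ↔
      ((((z.1.1 - a', z.1.2), z.2), l) : (PhasePoint × Par P) × (ℝ × PhasePoint)) ∈
        ctSet Φ ε te P := by
    unfold ctSet
    simp only [Set.mem_ofPred_eq]
    rw [h]
    rfl
  by_cases h3 : ((z, shL a' l) : (PhasePoint × Par P) × (ℝ × PhasePoint)) ∈ ctSet Φ ε te P
  · rw [ctI_of_mem h3, ctI_of_mem (h2.1 h3)]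
  · rw [ctI_of_notMem h3, ctI_of_notMem fun h4 => h3 (h2.2 h4)]

/-- Volume of the translations of a line for which it is in contact with the tree. -/
theorem avg_ct_le (hΦ : AdmissiblePotential Φ) (hε : 0 < ε) {P : CTree} {te : ℝ} {l : LSt}
    (hl : 0 ≤ l.1) (z : PhasePoint × Par P) :
    ∫⁻ a' : Space3, ctI Φ ε te P (shL a' l) z ≤
      ENNReal.ofReal (ε ^ 2) * (ENNReal.ofReal te * cP * (ENNReal.ofReal (1 + ‖l.2.2‖) *
        ENNReal.ofReal (1 + ‖z.1.2‖))) := by
  simp only [ctI_shL]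
  rw [lintegral_sub_left_eq_self (fun X : Space3 => ctI Φ ε te P l ((X, z.1.2), z.2)) z.1.1]
  exact vol_ct_le hΦ hε hl z.1.2 z.2

/-! ## Coordinates -/

theorem lintegral_tree_coord {P : CTree} {F : PhasePoint × Par P → ℝ≥0∞} (hF : Measurable F) :
    ∫⁻ z, F z = ∫⁻ q : Space3 × Par P, ∫⁻ X : Space3, F ((X, q.1), q.2) := by
  have hG : Measurable fun q : Space3 × Par P => ∫⁻ X : Space3, F ((X, q.1), q.2) := by
    have h1 : Measurable fun q : (Space3 × Par P) × Space3 => F ((q.2, q.1.1), q.1.2) :=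
      hF.comp ((measurable_snd.prodMk measurable_fst.fst).prodMk measurable_fst.snd)
    exact h1.lintegral_prod_right'
  calc ∫⁻ z : PhasePoint × Par P, F z
      = ∫⁻ p : Par P, ∫⁻ ℓ : PhasePoint, F (ℓ, p) := by
        rw [Measure.volume_eq_prod, lintegral_prod_symm _ hF.aemeasurable]
    _ = ∫⁻ p : Par P, ∫⁻ u : Space3, ∫⁻ X : Space3, F ((X, u), p) := by
        refine lintegral_congr fun p => ?_
        have h2 : Measurable fun ℓ : PhasePoint => F (ℓ, p) :=
          hF.comp (measurable_id.prodMk measurable_const)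
        rw [Measure.volume_eq_prod, lintegral_prod_symm _ h2.aemeasurable]
    _ = _ := by
        rw [Measure.volume_eq_prod (Space3) (Par P), lintegral_prod_symm _ hG.aemeasurable]

/-- Kinetic integral of the trees in contact with a line. -/
theorem lintegral_ctG_le (hΦ : AdmissiblePotential Φ) (hε : 0 < ε) {P : CTree} {te : ℝ} {e : LSt}
    (he : 0 ≤ e.1) {G : Space3 × Par P → ℝ≥0∞} (hG : Measurable G) :
    ∫⁻ z : PhasePoint × Par P, ctI Φ ε te P e z * G (z.1.2, z.2) ≤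
      ENNReal.ofReal (ε ^ 2) * (ENNReal.ofReal te * cP * ((∫⁻ q, G q * ENNReal.ofReal (1 + ‖q.1‖)) *
        ENNReal.ofReal (1 + ‖e.2.2‖))) := by
  have hct : Measurable fun z : PhasePoint × Par P => ctI Φ ε te P e z :=
    measurable_ctI_comp hΦ ε te P measurable_const measurable_id
  have hG1 : Measurable fun z : PhasePoint × Par P => G (z.1.2, z.2) :=
    hG.comp (measurable_fst.snd.prodMk measurable_snd)
  rw [lintegral_tree_coord (F := fun z : PhasePoint × Par P =>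
    ctI Φ ε te P e z * G (z.1.2, z.2)) (hct.mul hG1)]
  have h1 : ∀ q : Space3 × Par P, ∫⁻ X : Space3, ctI Φ ε te P e ((X, q.1), q.2) * G (q.1, q.2) ≤
      (ENNReal.ofReal (ε ^ 2) * (ENNReal.ofReal te * cP * ENNReal.ofReal (1 + ‖e.2.2‖))) *
        (G q * ENNReal.ofReal (1 + ‖q.1‖)) := by
    intro q
    have h2 : Measurable fun X : Space3 => ctI Φ ε te P e ((X, q.1), q.2) :=
      measurable_ctI_comp hΦ ε te P measurable_const
        ((measurable_id.prodMk measurable_const).prodMk measurable_const)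
    rw [lintegral_mul_const _ h2]
    calc (∫⁻ X : Space3, ctI Φ ε te P e ((X, q.1), q.2)) * G (q.1, q.2)
        ≤ (ENNReal.ofReal (ε ^ 2) * (ENNReal.ofReal te * cP * (ENNReal.ofReal (1 + ‖e.2.2‖) *
            ENNReal.ofReal (1 + ‖q.1‖)))) * G (q.1, q.2) :=
          mul_le_mul_left (vol_ct_le hΦ hε he q.1 q.2) _
      _ = _ := by
          rw [Prod.mk.eta]
          ring
  calc ∫⁻ q : Space3 × Par P, ∫⁻ X : Space3, ctI Φ ε te P e ((X, q.1), q.2) * G (q.1, q.2)
      ≤ ∫⁻ q : Space3 × Par P, (ENNReal.ofReal (ε ^ 2) * (ENNReal.ofReal te * cP *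
          ENNReal.ofReal (1 + ‖e.2.2‖))) * (G q * ENNReal.ofReal (1 + ‖q.1‖)) :=
        lintegral_mono h1
    _ = (ENNReal.ofReal (ε ^ 2) * (ENNReal.ofReal te * cP * ENNReal.ofReal (1 + ‖e.2.2‖))) *
          ∫⁻ q : Space3 × Par P, G q * ENNReal.ofReal (1 + ‖q.1‖) :=
        lintegral_const_mul' _ _ (ENNReal.mul_ne_top ENNReal.ofReal_ne_top
          (ENNReal.mul_ne_top (ENNReal.mul_ne_top ENNReal.ofReal_ne_top cP_ne_top)
            ENNReal.ofReal_ne_top))
    _ = _ := by ring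

/-- Mass of a tree with a velocity weight, localised at the root particle. -/
theorem lintegral_rhoG_le (he : Env f₀ γ ρ C₀) {P : CTree} {G : Space3 × Par P → ℝ≥0∞}
    {D : PhasePoint × Par P → ℝ≥0∞} (hD : Measurable D)
    (hle : ∀ z, D z ≤ ρ (lines Φ ε P z.1 z.2 (root P)).1 * G (z.1.2, z.2)) :
    ∫⁻ z, D z * ENNReal.ofReal (1 + ‖z.1.2‖) ≤
      (∫⁻ x, ρ x) * ∫⁻ q, G q * ENNReal.ofReal (1 + ‖q.1‖) := by
  rw [lintegral_tree_coord (F := fun z : PhasePoint × Par P => D z * ENNReal.ofReal (1 + ‖z.1.2‖))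
    (hD.mul ((measurable_fst.snd.norm.const_add 1).ennreal_ofReal))]
  have h1 : ∀ q : Space3 × Par P, ∫⁻ X : Space3, D ((X, q.1), q.2) *
      ENNReal.ofReal (1 + ‖q.1‖) ≤
      (∫⁻ x, ρ x) * (G q * ENNReal.ofReal (1 + ‖q.1‖)) := by
    intro q
    set y : Space3 := (lines Φ ε P (0, q.1) q.2 (root P)).1 with hy
    have h2 : ∀ X : Space3, (lines Φ ε P (X, q.1) q.2 (root P)).1 = y + X := fun X => by
      rw [Hid424.lines_shift]
    calc ∫⁻ X : Space3, D ((X, q.1), q.2) * ENNReal.ofReal (1 + ‖q.1‖)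
        ≤ ∫⁻ X : Space3, ρ (y + X) * (G q * ENNReal.ofReal (1 + ‖q.1‖)) := by
          refine lintegral_mono fun X => ?_
          have h3 := hle ((X, q.1), q.2)
          simp only at h3
          rw [h2 X] at h3
          simp only
          rw [← mul_assoc]
          exact mul_le_mul_left h3 _
      _ = (∫⁻ X : Space3, ρ (y + X)) * (G q * ENNReal.ofReal (1 + ‖q.1‖)) := by
          have h4 : Measurable fun X : Space3 => ρ (y + X) :=
            he.meas.comp (measurable_const.add measurable_id)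
          exact lintegral_mul_const _ h4
      _ = _ := by rw [lintegral_add_left_eq_self (fun x => ρ x) y]
  calc ∫⁻ q : Space3 × Par P, ∫⁻ X : Space3, D ((X, q.1), q.2) * ENNReal.ofReal (1 + ‖q.1‖)
      ≤ ∫⁻ q : Space3 × Par P, (∫⁻ x, ρ x) * (G q * ENNReal.ofReal (1 + ‖q.1‖)) :=
        lintegral_mono h1
    _ = _ := lintegral_const_mul' _ _ he.int.ne

/-! ## Trees in contact with a line -/

/-- Mass of the trees in contact with the line `l`, with velocity weight; the activity is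
included. -/
def ctG (Φ : Space3 → ℝ) (f₀ : PhasePoint → ℝ) (a ε te T' : ℝ) (P : CTree) (l : LSt) : ℝ≥0∞ :=
  activity ε * ∫⁻ z, ctI Φ ε te P l z * expW a (linesM Φ ε P z.1 z.2) ∂(treeM Φ f₀ ε P T')

theorem measurable_ctE (hΦ : AdmissiblePotential Φ) (a ε te : ℝ) (P : CTree) :
    Measurable fun q : LSt × (PhasePoint × Par P) =>
      ctI Φ ε te P q.1 q.2 * expW a (linesM Φ ε P q.2.1 q.2.2) :=
  (measurable_ctI hΦ ε te P).mul ((measurable_expW a).comp
    ((measurable_linesM hΦ ε P).comp measurable_snd))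

theorem measurable_ctE_comp (hΦ : AdmissiblePotential Φ) (a ε te : ℝ) (P : CTree) {X : Type*}
    [MeasurableSpace X] {g : X → LSt} {h : X → PhasePoint × Par P} (hg : Measurable g)
    (hh : Measurable h) : Measurable fun x =>
      ctI Φ ε te P (g x) (h x) * expW a (linesM Φ ε P (h x).1 (h x).2) := by
  have h2 := Measurable.comp
    (g := fun q : LSt × (PhasePoint × Par P) =>
      ctI Φ ε te P q.1 q.2 * expW a (linesM Φ ε P q.2.1 q.2.2))
    (f := fun x : X => ((g x, h x) : LSt × (PhasePoint × Par P)))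
    (measurable_ctE hΦ a ε te P) (hg.prodMk hh)
  exact h2

theorem measurable_ctG (hΦ : AdmissiblePotential Φ) (a ε te T' : ℝ) (P : CTree) :
    Measurable (ctG Φ f₀ a ε te T' P) := by
  unfold ctG
  exact ((measurable_ctE hΦ a ε te P).lintegral_prod_right').const_mul _

theorem measurable_shL_a (l : LSt) : Measurable fun a' : Space3 => shL a' l := by
  unfold Pair292.shL
  fun_prop

/-- Pointwise bound. -/
theorem ctG_le (hΦ : AdmissiblePotential Φ) (hf : Measurable f₀) (he : Env f₀ γ ρ C₀)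
    {P : CTree} {te T' : ℝ} (hε : 0 < ε) {G : Space3 × Par P → ℝ≥0∞} (hG : Measurable G)
    (hle : ∀ z : PhasePoint × Par P, treeD Φ f₀ ε P T' z * expW a (linesM Φ ε P z.1 z.2) ≤
      ρ (lines Φ ε P z.1 z.2 (root P)).1 * G (z.1.2, z.2)) {l : LSt} (hl : 0 ≤ l.1) :
    ctG Φ f₀ a ε te T' P l ≤ ENNReal.ofReal te * cP *
      ((∫⁻ q, G q * ENNReal.ofReal (1 + ‖q.1‖)) * ENNReal.ofReal (1 + ‖l.2.2‖)) := by
  have hD := measurable_treeD hΦ hf ε P T'
  have hind : Measurable fun z : PhasePoint × Par P =>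
      ctI Φ ε te P l z * expW a (linesM Φ ε P z.1 z.2) :=
    measurable_ctE_comp hΦ a ε te P measurable_const measurable_id
  unfold ctG treeM
  rw [lintegral_withDensity_eq_lintegral_mul _ hD hind]
  calc activity ε * ∫⁻ z, (treeD Φ f₀ ε P T' * fun z : PhasePoint × Par P =>
        ctI Φ ε te P l z * expW a (linesM Φ ε P z.1 z.2)) z
      ≤ activity ε * ∫⁻ z : PhasePoint × Par P, ctI Φ ε te P l z * G (z.1.2, z.2) := by
        refine mul_le_mul_right (lintegral_mono fun z => ?_) _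
        simp only [Pi.mul_apply]
        calc treeD Φ f₀ ε P T' z * (ctI Φ ε te P l z * expW a (linesM Φ ε P z.1 z.2))
            = ctI Φ ε te P l z * (treeD Φ f₀ ε P T' z * expW a (linesM Φ ε P z.1 z.2)) := by ring
          _ ≤ ctI Φ ε te P l z * (ρ (lines Φ ε P z.1 z.2 (root P)).1 * G (z.1.2, z.2)) :=
              mul_le_mul_right (hle z) _
          _ ≤ _ := mul_le_mul_right (mul_le_of_le_one_left bot_le (he.le_one _)) _
    _ ≤ activity ε * (ENNReal.ofReal (ε ^ 2) * (ENNReal.ofReal te * cP *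
          ((∫⁻ q, G q * ENNReal.ofReal (1 + ‖q.1‖)) * ENNReal.ofReal (1 + ‖l.2.2‖)))) :=
        mul_le_mul_right (lintegral_ctG_le hΦ hε hl hG) _
    _ = _ := by rw [← mul_assoc, activity_mul hε, one_mul]

/-- Averaged bound. -/
theorem ctG_avg_le (hΦ : AdmissiblePotential Φ) (hf : Measurable f₀) (he : Env f₀ γ ρ C₀)
    {P : CTree} {te T' : ℝ} (hε : 0 < ε) {G : Space3 × Par P → ℝ≥0∞}
    (hle : ∀ z : PhasePoint × Par P, treeD Φ f₀ ε P T' z * expW a (linesM Φ ε P z.1 z.2) ≤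
      ρ (lines Φ ε P z.1 z.2 (root P)).1 * G (z.1.2, z.2)) {l : LSt} (hl : 0 ≤ l.1) :
    ∫⁻ a' : Space3, ctG Φ f₀ a ε te T' P (shL a' l) ≤ ENNReal.ofReal te * cP *
      (((∫⁻ x, ρ x) * ∫⁻ q, G q * ENNReal.ofReal (1 + ‖q.1‖)) * ENNReal.ofReal (1 + ‖l.2.2‖)) := by
  have hD := measurable_treeD hΦ hf ε P T'
  have hexp : Measurable fun z : PhasePoint × Par P => expW a (linesM Φ ε P z.1 z.2) :=
    (measurable_expW a).comp (measurable_linesM hΦ ε P)
  have hF : Measurable fun q : Space3 × (PhasePoint × Par P) =>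
      ctI Φ ε te P (shL q.1 l) q.2 * expW a (linesM Φ ε P q.2.1 q.2.2) :=
    measurable_ctE_comp hΦ a ε te P ((measurable_shL_a l).comp measurable_fst) measurable_snd
  have hin : Measurable fun a' : Space3 => ∫⁻ z, ctI Φ ε te P (shL a' l) z *
      expW a (linesM Φ ε P z.1 z.2) ∂(treeM Φ f₀ ε P T') := hF.lintegral_prod_right'
  unfold ctG
  rw [lintegral_const_mul _ hin,
    lintegral_lintegral_swap (f := fun (a' : Space3) (z : PhasePoint × Par P) =>
      ctI Φ ε te P (shL a' l) z * expW a (linesM Φ ε P z.1 z.2)) hF.aemeasurable]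
  have h1 : ∀ z : PhasePoint × Par P, ∫⁻ a' : Space3,
      ctI Φ ε te P (shL a' l) z * expW a (linesM Φ ε P z.1 z.2) ≤
      (ENNReal.ofReal (ε ^ 2) * (ENNReal.ofReal te * cP * ENNReal.ofReal (1 + ‖l.2.2‖))) *
        (expW a (linesM Φ ε P z.1 z.2) * ENNReal.ofReal (1 + ‖z.1.2‖)) := by
    intro z
    have hmz : Measurable fun a' : Space3 => ctI Φ ε te P (shL a' l) z :=
      measurable_ctI_comp hΦ ε te P (measurable_shL_a l) measurable_const
    rw [lintegral_mul_const _ hmz]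
    calc (∫⁻ a' : Space3, ctI Φ ε te P (shL a' l) z) * expW a (linesM Φ ε P z.1 z.2)
        ≤ (ENNReal.ofReal (ε ^ 2) * (ENNReal.ofReal te * cP * (ENNReal.ofReal (1 + ‖l.2.2‖) *
            ENNReal.ofReal (1 + ‖z.1.2‖)))) * expW a (linesM Φ ε P z.1 z.2) :=
          mul_le_mul_left (avg_ct_le hΦ hε hl z) _
      _ = _ := by ring
  have hne : ENNReal.ofReal (ε ^ 2) * (ENNReal.ofReal te * cP * ENNReal.ofReal (1 + ‖l.2.2‖)) ≠
      ∞ := ENNReal.mul_ne_top ENNReal.ofReal_ne_top (ENNReal.mul_ne_top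
        (ENNReal.mul_ne_top ENNReal.ofReal_ne_top cP_ne_top) ENNReal.ofReal_ne_top)
  have hmom : ∫⁻ z, expW a (linesM Φ ε P z.1 z.2) * ENNReal.ofReal (1 + ‖z.1.2‖)
      ∂(treeM Φ f₀ ε P T') ≤ (∫⁻ x, ρ x) * ∫⁻ q, G q * ENNReal.ofReal (1 + ‖q.1‖) := by
    have h3 : Measurable fun z : PhasePoint × Par P =>
        expW a (linesM Φ ε P z.1 z.2) * ENNReal.ofReal (1 + ‖z.1.2‖) :=
      hexp.mul ((measurable_fst.snd.norm.const_add 1).ennreal_ofReal)
    unfold treeM
    rw [lintegral_withDensity_eq_lintegral_mul _ hD h3]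
    refine le_trans (le_of_eq (lintegral_congr fun z => ?_))
      (lintegral_rhoG_le (Φ := Φ) (ε := ε) he (D := fun z => treeD Φ f₀ ε P T' z *
        expW a (linesM Φ ε P z.1 z.2)) (hD.mul hexp) hle)
    simp only [Pi.mul_apply]
    ring
  calc activity ε * ∫⁻ z, (∫⁻ a' : Space3, ctI Φ ε te P (shL a' l) z *
        expW a (linesM Φ ε P z.1 z.2)) ∂(treeM Φ f₀ ε P T')
      ≤ activity ε * ∫⁻ z, (ENNReal.ofReal (ε ^ 2) * (ENNReal.ofReal te * cP *
          ENNReal.ofReal (1 + ‖l.2.2‖))) * (expW a (linesM Φ ε P z.1 z.2) *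
            ENNReal.ofReal (1 + ‖z.1.2‖)) ∂(treeM Φ f₀ ε P T') :=
        mul_le_mul_right (lintegral_mono h1) _
    _ = activity ε * ((ENNReal.ofReal (ε ^ 2) * (ENNReal.ofReal te * cP *
          ENNReal.ofReal (1 + ‖l.2.2‖))) * ∫⁻ z, expW a (linesM Φ ε P z.1 z.2) *
            ENNReal.ofReal (1 + ‖z.1.2‖) ∂(treeM Φ f₀ ε P T')) := by
        rw [lintegral_const_mul' _ _ hne]
    _ = (ENNReal.ofReal te * cP * ENNReal.ofReal (1 + ‖l.2.2‖)) *
          ∫⁻ z, expW a (linesM Φ ε P z.1 z.2) *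
            ENNReal.ofReal (1 + ‖z.1.2‖) ∂(treeM Φ f₀ ε P T') := by
        rw [← mul_assoc (activity ε), ← mul_assoc (activity ε), activity_mul hε, one_mul]
    _ ≤ (ENNReal.ofReal te * cP * ENNReal.ofReal (1 + ‖l.2.2‖)) *
          ((∫⁻ x, ρ x) * ∫⁻ q, G q * ENNReal.ofReal (1 + ‖q.1‖)) := mul_le_mul_right hmom _
    _ = _ := by ring

/-- **Pointwise and averaged mass of the trees in contact with a line**, uniform in `ε`. -/
theorem exists_ctG (hΦ : AdmissiblePotential Φ) (hf : Measurable f₀) (he : Env f₀ γ ρ C₀)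
    (ha : a < γ) (P : CTree) (T : ℝ) : ∃ C : ℝ≥0∞, C ≠ ∞ ∧
      ∀ ε te T' : ℝ, 0 < ε → te ≤ T → T' ≤ T → ∀ l : LSt, 0 ≤ l.1 →
        ctG Φ f₀ a ε te T' P l ≤ C * ENNReal.ofReal (1 + ‖l.2.2‖) ∧
        ∫⁻ a' : Space3, ctG Φ f₀ a ε te T' P (shL a' l) ≤ C * ENNReal.ofReal (1 + ‖l.2.2‖) := by
  obtain ⟨G, hG, hGi, hGle⟩ := exists_treeG hΦ he ha P T
  set M : ℝ≥0∞ := ∫⁻ q, G q * ENNReal.ofReal (1 + ‖q.1‖) with hM
  have hmax : max 1 (∫⁻ x, ρ x) ≠ ∞ := by
    rcases max_choice 1 (∫⁻ x, ρ x) with h | h <;> rw [h]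
    · exact ENNReal.one_ne_top
    · exact he.int.ne
  refine ⟨ENNReal.ofReal T * cP * (max 1 (∫⁻ x, ρ x) * M), ENNReal.mul_ne_top
    (ENNReal.mul_ne_top ENNReal.ofReal_ne_top cP_ne_top) (ENNReal.mul_ne_top hmax hGi),
    fun ε te T' hε hte hT' l hl => ?_⟩
  have hTe : ENNReal.ofReal te ≤ ENNReal.ofReal T := ENNReal.ofReal_le_ofReal hte
  have hle := fun z => hGle ε T' z hε.le hT'
  refine ⟨(ctG_le hΦ hf he hε hG hle hl).trans ?_, (ctG_avg_le hΦ hf he hε hle hl).trans ?_⟩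
  · calc ENNReal.ofReal te * cP * (M * ENNReal.ofReal (1 + ‖l.2.2‖))
        ≤ ENNReal.ofReal T * cP * ((max 1 (∫⁻ x, ρ x) * M) * ENNReal.ofReal (1 + ‖l.2.2‖)) :=
          mul_le_mul' (mul_le_mul_left hTe _) (mul_le_mul_left
            (le_mul_of_one_le_left bot_le (le_max_left _ _)) _)
      _ = _ := by ring
  · calc ENNReal.ofReal te * cP * (((∫⁻ x, ρ x) * M) * ENNReal.ofReal (1 + ‖l.2.2‖))
        ≤ ENNReal.ofReal T * cP * ((max 1 (∫⁻ x, ρ x) * M) * ENNReal.ofReal (1 + ‖l.2.2‖)) :=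
          mul_le_mul' (mul_le_mul_left hTe _) (mul_le_mul_left
            (mul_le_mul_left (le_max_right _ _) _) _)
      _ = _ := by ring

end Crest.Agent.R122.LN2

end
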