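import Crest.Agent.R122.LNvs2_410

/-!
# Row 122, LN1, graph part on `VSys` (helper410): the same statements from `TLg` only

`TLg P (vc M C P Z) ℓ ς` is the second half of 304's `TL` (and follows from `TreeLike`, `TLP`,
`TLW`): no separation from births, from `0`, from `T`.  For `hT : LN304.TL M c ℓ ς P Z` use `hT.2`.

* `tl_eq_of_link`, `tl_link`, `tl_outer`, `tl_mem_of_family`, `tl_extra`, `tl_two_times`,
  `tl_between`, `tl_pair_eq_of_near`, `tl_two_exits`, `tl_ret_member`.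
* `tl_sub` : restriction to a connected subset (contacts through sub-worlds of the subset).
-/

set_option autoImplicit false
set_option linter.unusedSectionVars false

open MeasureTheory Set Filter Topology
open scoped ENNReal NNReal
open Crest.AnalysisR.Kinetic
open Crest.Agent.R122.GIV566 Crest.Agent.R122.VL581

namespace Crest.Agent.R122.LNg410

variable {J κ : Type} [Fintype J] [DecidableEq J] {M : VSys J κ} {C ℓ ς : ℝ} {P Q : Finset J}
  {Z : J → PhasePoint}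


/-- Restriction to a connected subset. -/
theorem tl_sub (hT : TLg P (vc M C P Z) ℓ ς) (hc : M.Conn C P Z) (hQP : Q ⊆ P)
    (hQ : M.Conn C Q Z) : TLg Q (vc M C Q Z) ℓ ς :=
  (hT.sub (conn_iff.1 hc) hQP (cutConn_mono hQP hQ)).mono fun _ _ _ _ _ _ h => vc_mono hQP h




/-- If a family `F` of contacts connects `P`, every contact pair is in `F`. -/
theorem tl_mem_of_family (hT : TLg P (vc M C P Z) ℓ ς) {F : J → J → Prop} (hF : CutConn P F)
    (hFc : ∀ i ∈ P, ∀ j ∈ P, i ≠ j → F i j → ∃ t ∈ Icc 0 M.T, M.VCt C P i j t Z)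
    {j k : J} (hj : j ∈ P) (hk : k ∈ P) (hjk : j ≠ k) {t : ℝ} (ht : t ∈ Icc 0 M.T)
    (h : M.VCt C P j k t Z) : F j k ∨ F k j :=
  hT.mem_of_cutConn hF (fun i hi j hj hij h => by
    obtain ⟨t, ht, h⟩ := hFc i hi j hj hij h
    exact ⟨t, Or.inl ⟨ht, h⟩⟩) hj hk hjk ⟨ht, h⟩


theorem tl_two_times (hT : TLg P (vc M C P Z) ℓ ς) (hc : M.Conn C P Z) {i j : J} (hi : i ∈ P)
    (hj : j ∈ P) (hij : i ≠ j)
    {t t' : ℝ} (ht : t ∈ Icc 0 M.T) (h : M.VCt C P i j t Z) (ht' : t' ∈ Icc 0 M.T)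
    (h' : M.VCt C P i j t' Z) : |t - t'| ≤ 2 * ℓ :=
  hT.two_times hi hj hij (conn_iff.1 hc) ⟨ht, h⟩ ⟨ht', h'⟩

/-- A contact of another pair between two contacts of one pair. -/
theorem tl_between (hT : TLg P (vc M C P Z) ℓ ς) (hc : M.Conn C P Z) (hℓς : 2 * ℓ ≤ ς)
    {i j k l : J}
    (hi : i ∈ P) (hj : j ∈ P) (hij : i ≠ j) (hk : k ∈ P) (hl : l ∈ P) (hkl : k ≠ l)
    {t t' t'' : ℝ} (ht : t ∈ Icc 0 M.T) (h : M.VCt C P i j t Z) (ht' : t' ∈ Icc 0 M.T)
    (h' : M.VCt C P i j t' Z) (ht'' : t'' ∈ Icc 0 M.T) (h'' : M.VCt C P k l t'' Z)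
    (htt : t ≤ t'') (htt' : t'' ≤ t') : (i = k ∧ j = l) ∨ (i = l ∧ j = k) :=
  hT.sep (conn_iff.1 hc) hℓς hi hj hij hk hl hkl ⟨ht, h⟩ ⟨ht', h'⟩ ⟨ht'', h''⟩
    htt htt'




end Crest.Agent.R122.LNg410
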