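import Crest.Agent.R122.LNReach_968
import Crest.Agent.R122.LN1Real_304
import Crest.Agent.R122.LNvs3_410
import Crest.Agent.R122.PWGlue_491

/-!
# Row 122, LN1, events (helper968), part 2: exits of one part do not meet

Worlds are glued worlds `XG`, `CG` of a `GD` (helper491), several exits of one part allowed.

* `Ctx` : `Φ`, `ε`, `c`, `ℓ`, `ς`, `Parts`, `NoBad`, `NoTwo`; `Wd` : `RW`, `WCore`, no `BadHit`.
* `Fam M c Z π R` : a family of virtual contacts connecting the part `π`.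
* `window` : a contact of two members `a, k` of `π` in a tree-like set: the pair is in `R` at some
  time `r`, and `a` has no third contact between `r` and this contact.
* `GD.free` : an exit without contact after its handover stays on its isolated path.
* `free_exit` : the same off `NoBad`, if `a` and `k` are in contact at time `s`.
* `exit_near` : an exit near a member of its part (radius `c ε`) had no contact since its handover.
* `exit_pair` : two exits `a`, `b` of one part, followed in two worlds, do not meet after their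
  handovers; `exit_one` : the same in one world; `exit_self` : an exit does not meet the other
  members of its part.
-/

set_option autoImplicit false
set_option linter.unusedSectionVars false

open MeasureTheory Set Filter Topology
open Crest.AnalysisR.Kinetic
open Crest.Agent.R122.Flow671 Crest.Agent.R122.Loc45 Crest.Agent.R122.Ins45
open Crest.Agent.R122.GIV566 Crest.Agent.R122.VL581 Crest.Agent.R122.LNg410
open Crest.Agent.R122.VL581.VSys Crest.Agent.R122.VLInst442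
open Crest.Agent.R122.Causal291 Crest.Agent.R122.LN304 Crest.Agent.R122.PWGlue491
open scoped Classical

noncomputable section

namespace Crest.Agent.R122.LNEv968

variable {J κ : Type} [Fintype J] {M : VSys J κ} {c ℓ ς : ℝ} {Z : J → PhasePoint}
  {Λ : Finset (Finset J)} {π π' P Y : Finset J} {a b i j k x y : J} {N N' : ℕ} {s u v : ℝ}

/-! ### Standing hypotheses -/

/-- Standing hypotheses on the master system. -/
structure Ctx (M : VSys J κ) (c ℓ ς : ℝ) (Z : J → PhasePoint) (Λ : Finset (Finset J)) (N : ℕ) :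
    Prop where
  hΦ : AdmissiblePotential M.Φ
  hε : 0 < M.ε
  hc : 1 ≤ c
  hℓς : 2 * ℓ ≤ ς
  parts : Parts M c Z Λ
  nb : NoBad M c ℓ ς Z Λ N
  nt : NoTwo M c Z Λ N

/-- Standing hypotheses on a real world. -/
structure Wd (M : VSys J κ) (c ℓ ς : ℝ) (Z : J → PhasePoint) (X : ℝ → J → PhasePoint)
    (C : ℝ → J → J → Prop) (Λ : Finset (Finset J)) (N : ℕ) : Prop where
  rw : RW M Z X C
  wc : WCore M c ℓ ς Z X C
  bh : ¬ BadHit M c Z X C Λ N

/-- A family of virtual contacts connecting the part `π`. -/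
structure Fam (M : VSys J κ) (c : ℝ) (Z : J → PhasePoint) (π : Finset J)
    (R : ℝ → J → J → Prop) : Prop where
  conn : CutConn π fun j k => ∃ r ∈ Icc 0 M.T, R r j k
  symm : ∀ r j k, R r j k → R r k j
  vct : ∀ r ∈ Icc 0 M.T, ∀ j ∈ π, ∀ k ∈ π, j ≠ k → R r j k → M.VCt c π j k r Z

theorem Ctx.mono (h : Ctx M c ℓ ς Z Λ N') (hN : N ≤ N') : Ctx M c ℓ ς Z Λ N :=
  ⟨h.hΦ, h.hε, h.hc, h.hℓς, h.parts, fun P h1 h2 h3 => h.nb P h1 h2 (h3.trans hN),
    fun P h1 h2 => h.nt P h1 (h2.trans hN)⟩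

/-! ### Windows -/

/-- A connected set, with the contacts inside the connected part `π` replaced by a family. -/
theorem cutConn_merge {R₀ R₁ : J → J → Prop} (hc : CutConn P R₀) (hR : CutConn π R₁)
    (hπ : π ⊆ P) : CutConn P fun i j => (i ∈ π ∧ j ∈ π ∧ R₁ i j) ∨
      ((i ∉ π ∨ j ∉ π) ∧ (R₀ i j ∨ R₀ j i)) := by
  refine ⟨hc.1, fun Q hQ hne hneP => ?_⟩
  by_cases hcut : (Q ∩ π).Nonempty ∧ Q ∩ π ≠ π
  · obtain ⟨i, hi, j, hj, hjQ, h⟩ := hR.2 (Q ∩ π) Finset.inter_subset_right hcut.1 hcut.2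
    rw [Finset.mem_inter] at hi
    refine ⟨i, hi.1, j, hπ hj, fun h' => hjQ (Finset.mem_inter.2 ⟨h', hj⟩), ?_⟩
    rcases h with h | h
    · exact Or.inl (Or.inl ⟨hi.2, hj, h⟩)
    · exact Or.inr (Or.inl ⟨hj, hi.2, h⟩)
  · obtain ⟨i, hi, j, hj, hjQ, h⟩ := hc.2 Q hQ hne hneP
    refine ⟨i, hi, j, hj, hjQ, Or.inl (Or.inr ⟨?_, h⟩)⟩
    by_contra hcon
    push Not at hcon
    refine hcut ⟨⟨i, Finset.mem_inter.2 ⟨hi, hcon.1⟩⟩, fun h' => ?_⟩
    have : j ∈ Q ∩ π := by rw [h']; exact hcon.2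
    exact hjQ (Finset.mem_inter.1 this).1

/-- **Window**: a contact at time `v` of two members `a`, `k` of the part in a tree-like set. -/
theorem window {R : ℝ → J → J → Prop} (hF : Fam M c Z π R) (hT : TL M c ℓ ς P Z)
    (hcn : M.Conn c P Z) (hπP : π ⊆ P) (hℓς : 2 * ℓ ≤ ς) (ha : a ∈ π) (hk : k ∈ π) (hka : k ≠ a)
    (hv : v ∈ Icc 0 M.T) (hvc : M.VCt c P a k v Z) :
    ∃ r ∈ Icc 0 M.T, R r a k ∧ ∀ s ∈ Icc 0 M.T, r ≤ s → s ≤ v → ∀ g ∈ P, g ≠ a →
      M.VCt c P a g s Z → g = k := by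
  have haP : a ∈ P := hπP ha
  have hkP : k ∈ P := hπP hk
  have h3 := hT.2.mem_of_cutConn (cutConn_merge (conn_iff.1 hcn) hF.conn hπP)
    (fun i _ j _ hij h => by
      rcases h with ⟨hi, hj, r, hr, h⟩ | ⟨_, ⟨t, ht⟩ | ⟨t, ht⟩⟩
      · exact ⟨r, Or.inl ⟨hr, vct_mono hπP (hF.vct r hr i hi j hj hij h)⟩⟩
      · exact ⟨t, Or.inl ht⟩
      · exact ⟨t, Or.inr ht⟩) haP hkP hka.symm (t := v) ⟨hv, hvc⟩
  have h4 : ∃ r ∈ Icc 0 M.T, R r a k := by
    rcases h3 with (⟨_, _, h⟩ | h) | (⟨_, _, r, hr, h⟩ | h)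
    · exact h
    · exact absurd h.1 (by push Not; exact ⟨ha, hk⟩)
    · exact ⟨r, hr, hF.symm r k a h⟩
    · exact absurd h.1 (by push Not; exact ⟨hk, ha⟩)
  obtain ⟨r, hr, hRr⟩ := h4
  refine ⟨r, hr, hRr, fun s hs hrs hsv g hg hga hvg => ?_⟩
  have h5 := hT.2.sep (conn_iff.1 hcn) hℓς haP hkP hka.symm haP hg (Ne.symm hga)
    (t := r) (t' := v) (t'' := s)
    ⟨hr, vct_mono hπP (hF.vct r hr a ha k hk hka.symm hRr)⟩ ⟨hv, hvc⟩ ⟨hs, hvg⟩ hrs hsv
  rcases h5 with ⟨_, h5⟩ | ⟨h5, _⟩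
  · exact h5.symm
  · exact absurd h5.symm hga

/-! ### Pasts -/

theorem preF_mono {C : ℝ → J → J → Prop} {s t : ℝ} (h : s ≤ t) (x : J) :
    preF C x s ⊆ preF C x t := by
  intro k hk
  obtain ⟨s', hs', hp⟩ := mem_preF.1 hk
  exact mem_preF.2 ⟨s', ⟨hs'.1, hs'.2.trans_le h⟩, hp⟩

/-- The strict past of an explored particle. -/
theorem preF_sub_of_past {C : ℝ → J → J → Prop} {s t : ℝ} {x j : J}
    (h : j ∈ Inf879.pre C x t s) : preF C j s ⊆ preF C x t := by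
  intro k hk
  obtain ⟨s', hs', hp⟩ := mem_preF.1 hk
  obtain ⟨t', ht', hp'⟩ := h
  refine mem_preF.2 ⟨t', ⟨(hs'.1.trans hs'.2.le).trans ht'.1, ht'.2⟩, ?_⟩
  exact Past.trans hp' (LinkD331.past_mono_time hs'.2.le hp)

/-- The strict past of a contact partner before time `t`. -/
theorem preF_sub_of_contact {C : ℝ → J → J → Prop} {s t : ℝ} {x j : J} (hst : s < t)
    (hc : C s x j) : preF C j s ⊆ preF C x t :=
  preF_sub_of_past ⟨s, ⟨le_rfl, hst⟩, Past.contact (.root le_rfl) hc⟩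

/-! ### Glued worlds -/

variable {Sp : J → Finset J} {bD bD' : J → ℝ} {A A' : Finset J} {XD XD' : ℝ → J → PhasePoint}

/-- **An exit without contact stays on its isolated path.** -/
theorem free (H : GD M Z Sp bD A XD) (hΦ : AdmissiblePotential M.Φ) (hε : 0 < M.ε) {p : J}
    (hp : p ∈ A) (hne : (Sp p).Nonempty) {u : ℝ} (hu : u ≤ M.T) (hbu : bD p ≤ u)
    (hfar : ∀ t ∈ Ico (bD p) u, ∀ j ∈ A, j ≠ p → bD j ≤ t →
      M.ε ≤ dist (XD t p).1 (XD t j).1) :
    ∀ t ∈ Icc (bD p) u, XD t p = M.st (Sp p) t Z p := by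
  have h0 : 0 ≤ bD p := (bb_nonneg M p).trans (H.bb_le p hp)
  have hpp : p ∈ Sp p := H.mem p hne
  let e : Unit ↪ A := ⟨fun _ => ⟨p, hp⟩, fun _ _ _ => rfl⟩
  let e' : Unit ↪ J := ⟨fun _ => p, fun _ _ _ => rfl⟩
  have h1 : LWorld M.Φ M.ε (fun _ : Unit => bD p) (bD p) u (fun t (_ : Unit) => XD t p) := by
    refine (H.world.mono h0 hu).restrict hΦ hε e ?_
    rintro t ht ⟨⟩ _ j hj hbj
    exact hfar t ht j j.2 (fun h => hj () (Subtype.ext h.symm)) hbj
  have h2 : LWorld M.Φ M.ε (fun _ : Unit => bD p) (bD p) u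
      (fun t (_ : Unit) => M.st (Sp p) t Z p) := by
    have h3 := ((st_lworld hΦ hε (H.ok p) (bD p)).mono le_rfl hu).restrict hΦ hε e' (by
      rintro t ht ⟨⟩ _ j hj hbj
      have h4 := (ba_le_iff M (ht.2.trans_le hu)).1 hbj
      exact H.exit_le hΦ hε hp ht.1 (ht.2.trans_le hu) (h0.trans ht.1) h4.1.1
        (fun h => hj () h.symm) h4.2)
    refine h3.congr_births ?_
    rintro ⟨⟩ t ht
    change ba M (Sp p) M.T p ≤ t ↔ bD p ≤ t
    rw [ba_le_iff M (ht.2.trans_le hu)]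
    exact ⟨fun _ => ht.1, fun _ => ⟨⟨hpp, H.obsA p hp⟩, (H.bb_le p hp).trans ht.1⟩⟩
  intro t ht
  have h5 := h1.unique hΦ hε h2 (by
    funext _
    exact H.hand p hp hne (hbu.trans hu)) ht
  exact congrFun h5 ()

/-- Contacts of the derived world are contacts of the glued world. -/
theorem cg_of (H : GD M Z Sp bD A XD) {t : ℝ} (hi : i ∈ A) (hj : j ∈ A)
    (hbi : bD i ≤ t) (hbj : bD j ≤ t) (hlt : M.bb i < t ∨ M.bb j < t)
    (hd : dist (XD t i).1 (XD t j).1 ≤ M.ε) : CG M Z Sp bD A XD t i j := by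
  have hIi : InG Sp bD A t i := H.inG_of_alive hi hbi
  have hIj : InG Sp bD A t j := H.inG_of_alive hj hbj
  refine ⟨H.obsA i hi, H.obsA j hj, Or.inl ⟨hIi, hIj⟩, (H.bb_le i hi).trans hbi,
    (H.bb_le j hj).trans hbj, hlt, ?_⟩
  rwa [XG_of_inG hIi, XG_of_inG hIj]

/-- **Third contacts are excluded**: `a` is an exit, the window property for the partner `k`. -/
theorem no_third' [Nonempty κ] (hX : Ctx M c ℓ ς Z Λ N) (H : GD M Z Sp bD A XD)
    (hW : Wd M c ℓ ς Z (XG M Z Sp bD A XD) (CG M Z Sp bD A XD) Λ N) (hπ : π ∈ Λ) (ha : a ∈ π)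
    (haA : a ∈ A) {s : ℝ} (hs : s ≤ M.T) {t : ℝ} (ht : t ∈ Icc (bD a) s) (hj : j ∈ A)
    (hja : j ≠ a) (hjk : j ≠ k) (hbj : bD j ≤ t) (hlt : M.bb a < t ∨ M.bb j < t)
    (hπP : π ⊆ P) (hsa : preF (CG M Z Sp bD A XD) a t ⊆ P)
    (hsj : preF (CG M Z Sp bD A XD) j t ⊆ P) (hcard : (P ∪ uni Λ).card ≤ N)
    (hwin : ∀ g ∈ P, g ≠ a → M.VCt c P a g t Z → g = k) :
    M.ε < dist (XD t a).1 (XD t j).1 := by
  by_contra hcon
  rw [not_lt] at hcon
  have ht0 : 0 < t :=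
    hlt.elim (fun h => (bb_nonneg M a).trans_lt h) fun h => (bb_nonneg M j).trans_lt h
  have htT : t ∈ Ioc 0 M.T := ⟨ht0, ht.2.trans hs⟩
  have hct : CG M Z Sp bD A XD t a j := cg_of H haA hj ht.1 hbj hlt hcon
  set C := CG M Z Sp bD A XD with hC
  have hcd : (π ∪ preF C a t ∪ preF C j t ∪ uni Λ).card ≤ N := by
    refine (Finset.card_le_card (Finset.union_subset_union_left ?_)).trans hcard
    exact Finset.union_subset (Finset.union_subset hπP hsa) hsj
  have hcd1 : (π ∪ preF C a t ∪ uni Λ).card ≤ N :=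
    (Finset.card_le_card (Finset.union_subset_union_left Finset.subset_union_left)).trans hcd
  have hG : M.Conn c π Z := hX.parts.conn π hπ
  have hcr := real hX.hΦ hX.hε hX.hc hW.rw hW.wc hX.parts hX.nb hW.bh htT hG
    ⟨π, hπ, Finset.Subset.refl _⟩ ⟨a, ha, self_mem_preF ht0⟩ hcd1
  have hst := step hX.hΦ hX.hε hX.hc hW.rw hW.wc hX.parts hX.nb hW.bh htT hG
    ⟨π, hπ, Finset.Subset.refl _⟩ ⟨a, ha, self_mem_preF ht0⟩ hct hcd
  have hgeo := hct.2.2.2.2.2.2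
  have hv : M.VCt c P a j t Z := by
    refine vct_of hX.hε hX.hc hsa hsj (self_mem_preF ht0)
      (self_mem_preF ht0) hcr.2.2.2.1 hst.2.2.2.1 (H.obsA a haA) (H.obsA j hj) ?_
    rw [← hcr.2.2.2.2, ← hst.2.2.2.2]
    exact hgeo
  exact hjk (hwin j (hsj (self_mem_preF ht0)) hja hv)

theorem no_third [Nonempty κ] (hX : Ctx M c ℓ ς Z Λ N) (H : GD M Z Sp bD A XD)
    (hW : Wd M c ℓ ς Z (XG M Z Sp bD A XD) (CG M Z Sp bD A XD) Λ N) (hπ : π ∈ Λ) (ha : a ∈ π)
    (haA : a ∈ A) {s : ℝ} (hs : s ≤ M.T) (hsub : π ∪ preF (CG M Z Sp bD A XD) a s ⊆ P)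
    (hcard : (P ∪ uni Λ).card ≤ N)
    (hwin : ∀ t ∈ Ico (bD a) s, ∀ g ∈ P, g ≠ a → M.VCt c P a g t Z → g = k) {t : ℝ}
    (ht : t ∈ Ico (bD a) s) (hj : j ∈ A) (hja : j ≠ a) (hjk : j ≠ k) (hbj : bD j ≤ t)
    (hlt : M.bb a < t ∨ M.bb j < t) : M.ε < dist (XD t a).1 (XD t j).1 := by
  by_contra hcon
  have hct : CG M Z Sp bD A XD t a j := cg_of H haA hj ht.1 hbj hlt (not_lt.1 hcon)
  have hsub' : preF (CG M Z Sp bD A XD) a s ⊆ P := Finset.subset_union_right.trans hsub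
  exact hcon (no_third' hX H hW hπ ha haA hs ⟨ht.1, ht.2.le⟩ hj hja hjk hbj hlt
    (Finset.subset_union_left.trans hsub) ((preF_mono ht.2.le a).trans hsub')
    ((preF_sub_of_contact ht.2 hct).trans hsub') hcard (hwin t ht))

/-- **An exit in contact with a member `k` of its part** stays on its isolated path. -/
theorem free_exit [Nonempty κ] (hX : Ctx M c ℓ ς Z Λ N) (H : GD M Z Sp bD A XD)
    (hW : Wd M c ℓ ς Z (XG M Z Sp bD A XD) (CG M Z Sp bD A XD) Λ N) (hπ : π ∈ Λ) (ha : a ∈ π)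
    (haA : a ∈ A) (hne : (Sp a).Nonempty) {s : ℝ} (hs : s ≤ M.T) (hbs : bD a ≤ s)
    (hsub : π ∪ preF (CG M Z Sp bD A XD) a s ⊆ P) (hcard : (P ∪ uni Λ).card ≤ N)
    (hwin : ∀ t ∈ Ico (bD a) s, ∀ g ∈ P, g ≠ a → M.VCt c P a g t Z → g = k)
    (hk : k ∈ A → k ≠ a → ∀ t ∈ Ioo (bD a) s, bD k ≤ t → M.ε < dist (XD t a).1 (XD t k).1) :
    XD s a = M.st (Sp a) s Z a := by
  have h0 : 0 ≤ bD a := (bb_nonneg M a).trans (H.bb_le a haA)
  have hfar : ∀ t ∈ Ioo (bD a) s, ∀ j ∈ A, j ≠ a → bD j ≤ t →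
      M.ε < dist (XD t a).1 (XD t j).1 := by
    intro t ht j hj hja hbj
    by_cases hjk : j = k
    · subst hjk
      exact hk hj hja t ht hbj
    · exact no_third hX H hW hπ ha haA hs hsub hcard hwin ⟨ht.1.le, ht.2⟩ hj hja hjk hbj
        (Or.inl ((H.bb_le a haA).trans_lt ht.1))
  refine free H hX.hΦ hX.hε haA hne hs hbs ?_ s ⟨hbs, le_rfl⟩
  intro t ht j hj hja hbj
  rcases ht.1.lt_or_eq with h1 | h1
  · exact (hfar t ⟨h1, ht.2⟩ j hj hja hbj).le
  · subst h1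
    have hIcc : Icc (bD a) M.T ⊆ Icc 0 M.T := Icc_subset_Icc h0 le_rfl
    have hm : bD a ∈ Icc 0 M.T := ⟨h0, hbs.trans hs⟩
    refine LNInst491.le_dist_of_frequently (ht.2.trans_le hs) (x := fun t => (XD t a).1)
      (y := fun t => (XD t j).1)
      (((H.cont_XD hX.hΦ hX.hε haA) _ hm).mono hIcc).fst
      (((H.cont_XD hX.hΦ hX.hε hj) _ hm).mono hIcc).fst ?_
    refine Filter.Eventually.frequently ?_
    filter_upwards [Ioo_mem_nhdsGT ht.2] with t ht'
    exact (hfar t ht' j hj hja (hbj.trans ht'.1.le)).le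

/-- Old contacts: the pair `(a, b)` of members of one part is in the connecting family only as a
contact of one class before the handover of `a`. -/
def Old (Sp : J → Finset J) (bD : J → ℝ) (R : ℝ → J → J → Prop) (a b : J) : Prop :=
  ∀ r, R r a b → b ∈ Sp a ∧ r ≤ bD a



/-- **Two exits of one part, followed in two worlds, do not meet.** -/
theorem exit_pair [Nonempty κ] (hX : Ctx M c ℓ ς Z Λ N) (H : GD M Z Sp bD A XD)
    (hW : Wd M c ℓ ς Z (XG M Z Sp bD A XD) (CG M Z Sp bD A XD) Λ N) (H' : GD M Z Sp bD' A' XD')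
    (hW' : Wd M c ℓ ς Z (XG M Z Sp bD' A' XD') (CG M Z Sp bD' A' XD') Λ N) (hπ : π ∈ Λ)
    (ha : a ∈ π) (hb : b ∈ π) (hab : a ≠ b) (haA : a ∈ A) (hbA' : b ∈ A') (hbA : b ∉ A)
    (haA' : a ∉ A') {R : ℝ → J → J → Prop} (hF : Fam M c Z π R) (hold : Old Sp bD R a b)
    (hold' : Old Sp bD' R b a) {s : ℝ} (hs : s ≤ M.T) (hbs : bD a ≤ s) (hbs' : bD' b ≤ s)
    (hlt : bD a < s ∨ bD' b < s)
    (hcard : (preF (CG M Z Sp bD A XD) a s ∪ preF (CG M Z Sp bD' A' XD') b s ∪ uni Λ).card ≤ N)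
    (hd : dist (XD s a).1 (XD' s b).1 ≤ M.ε) : False := by
  set C := CG M Z Sp bD A XD with hC
  set C' := CG M Z Sp bD' A' XD' with hC'
  have h0 : 0 ≤ bD a := (bb_nonneg M a).trans (H.bb_le a haA)
  have h0' : 0 ≤ bD' b := (bb_nonneg M b).trans (H'.bb_le b hbA')
  have hs0 : 0 < s := hlt.elim (fun h => h0.trans_lt h) fun h => h0'.trans_lt h
  have hsT : s ∈ Ioc 0 M.T := ⟨hs0, hs⟩
  have hπu : π ⊆ uni Λ := sub_uni hπ
  set P : Finset J := π ∪ preF C a s ∪ preF C' b s with hP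
  have hcd : (P ∪ uni Λ).card ≤ N := by
    refine (Finset.card_le_card ?_).trans hcard
    intro z hz
    simp only [hP, Finset.mem_union] at hz ⊢
    rcases hz with ((hz | hz) | hz) | hz
    · exact Or.inr (hπu hz)
    · exact Or.inl (Or.inl hz)
    · exact Or.inl (Or.inr hz)
    · exact Or.inr hz
  have hcd1 : (π ∪ preF C a s ∪ uni Λ).card ≤ N :=
    (Finset.card_le_card (Finset.union_subset_union_left Finset.subset_union_left)).trans hcd
  have hG : M.Conn c π Z := hX.parts.conn π hπ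
  obtain ⟨h1, _, _, h4, h5⟩ := real hX.hΦ hX.hε hX.hc hW.rw hW.wc hX.parts hX.nb hW.bh hsT hG
    ⟨π, hπ, Finset.Subset.refl _⟩ ⟨a, ha, self_mem_preF hs0⟩ hcd1
  obtain ⟨g1, g2, _, g4, g5⟩ := real hX.hΦ hX.hε hX.hc hW'.rw hW'.wc hX.parts hX.nb hW'.bh hsT h1
    ⟨π, hπ, Finset.subset_union_left⟩ ⟨b, Finset.mem_union_left _ hb, self_mem_preF hs0⟩ hcd
  have hIa : InG Sp bD A s a := H.inG_of_alive haA hbs
  have hIb : InG Sp bD' A' s b := H'.inG_of_alive hbA' hbs'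
  have hπP : π ⊆ P := Finset.subset_union_left.trans Finset.subset_union_left
  have haP : preF C a s ⊆ P := Finset.subset_union_right.trans Finset.subset_union_left
  have hbP : preF C' b s ⊆ P := Finset.subset_union_right
  have hv : M.VCt c P a b s Z := by
    refine vct_of hX.hε hX.hc haP hbP
      (self_mem_preF hs0) (self_mem_preF hs0) h4 g4 (H.obsA a haA) (H'.obsA b hbA') ?_
    rw [← h5, ← g5, XG_of_inG hIa, XG_of_inG hIb]
    exact hd
  have hsIcc : s ∈ Icc 0 M.T := ⟨hs0.le, hs⟩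
  obtain ⟨r, hr, hRr, hwin⟩ := window hF g2 g1 hπP hX.hℓς ha hb (Ne.symm hab) hsIcc hv
  obtain ⟨r', hr', hRr', hwin'⟩ := window hF g2 g1 hπP hX.hℓς hb ha hab hsIcc (vct_symm hv)
  obtain ⟨hbSa, hrb⟩ := hold r hRr
  obtain ⟨haSb, hrb'⟩ := hold' r' hRr'
  have h6 : XD s a = M.st (Sp a) s Z a := by
    refine free_exit (k := b) (P := P) hX H hW hπ ha haA ⟨b, hbSa⟩ hs hbs
      (Finset.union_subset hπP haP) hcd
      (fun t ht g hg hga hvg => hwin t ⟨h0.trans ht.1, ht.2.le.trans hs⟩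
        (hrb.trans ht.1) ht.2.le g hg hga hvg) ?_
    exact fun h' => absurd h' hbA
  have h6' : XD' s b = M.st (Sp b) s Z b := by
    refine free_exit (k := a) (P := P) hX H' hW' hπ hb hbA' ⟨a, haSb⟩ hs hbs'
      (Finset.union_subset hπP hbP) hcd
      (fun t ht g hg hga hvg => hwin' t ⟨h0'.trans ht.1, ht.2.le.trans hs⟩
        (hrb'.trans ht.1) ht.2.le g hg hga hvg) ?_
    exact fun h' => absurd h' haA'
  rw [h6, h6'] at hd
  rcases hlt with h | h
  · have h7 := H.exit a haA s h hs b hbSa (Ne.symm hab) ((H'.bb_le b hbA').trans hbs')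
    rw [H.eq a b hbSa] at hd
    exact absurd hd (not_le.2 h7)
  · have h7 := H'.exit b hbA' s h hs a haSb hab ((H.bb_le a haA).trans hbs)
    rw [H.eq b a haSb, dist_comm] at hd
    exact absurd hd (not_le.2 h7)


end Crest.Agent.R122.LNEv968

end
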