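import Crest.Agent.R122.LNvs_410

/-!
# Row 122, LN1, graph part on `VSys` (helper410): "not tree-like" forms for the events

`S` is a structure (a part), `Y` a group; all contacts are virtual contacts through sub-worlds of
`S ∪ Y` (resp. of a larger `P`).

* `conn_of_cut` : `M.Conn` from a connecting family of contacts.
* `outR M C P Z S` : contacts of different labels, at least one of them outside `S`.
* `union_conn`, `not_tl_link` : `M.Conn S`, `Y` connected by contacts not inside `S`, and two
  different common members `p ≠ q` of `S` and `Y` : `S ∪ Y` is connected and not tree-like (LINK of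
  two exits of one part; the return of a line to another member of its part).
* `not_tl_outer` : the same with `Y` disjoint from `S`, connected, in contact with `p ≠ q ∈ S`.
* `not_tl_time`, `not_tl_between`, `not_tl_birth` : two contacts of one pair at distance more than
  `2 ℓ`, a contact of another pair between, a birth between.
-/

set_option autoImplicit false
set_option linter.unusedSectionVars false

open MeasureTheory Set Filter Topology
open scoped ENNReal NNReal
open Crest.AnalysisR.Kinetic
open Crest.Agent.R122.GIV566 Crest.Agent.R122.VL581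

namespace Crest.Agent.R122.LNg410

variable {J κ : Type} [Fintype J] {M : VSys J κ} {C ℓ ς : ℝ} {P Q : Finset J}
  {Z : J → PhasePoint}

/-- `M.Conn` from a connecting family of contacts. -/
theorem conn_of_cut {F : J → J → Prop} (hF : CutConn P F)
    (hFc : ∀ i ∈ P, ∀ j ∈ P, i ≠ j → F i j → ∃ t ∈ Icc 0 M.T, M.VCt C P i j t Z) :
    M.Conn C P Z :=
  conn_iff.2 (hF.mono fun i hi j hj hij h => Or.inl (by
    obtain ⟨t, ht, h⟩ := hFc i hi j hj hij h
    exact ⟨t, ht, h⟩))

/-- Contacts of different labels, at least one of them outside `S`. -/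
def outR (M : VSys J κ) (C : ℝ) (P : Finset J) (Z : J → PhasePoint) (S : Finset J) (i j : J) :
    Prop :=
  (i ∉ S ∨ j ∉ S) ∧ ∃ t, vc M C P Z i j t

theorem outR_mono {S : Finset J} (hPQ : P ⊆ Q) {i j : J} (h : outR M C P Z S i j) :
    outR M C Q Z S i j :=
  ⟨h.1, by
    obtain ⟨t, ht⟩ := h.2
    exact ⟨t, vc_mono hPQ ht⟩⟩


section

variable [DecidableEq J]

/-- A connected part `S` and a group `Y` connected by contacts, with a common member. -/
theorem union_conn {S Y : Finset J} (hS : M.Conn C S Z) (hY : CutConn Y (outR M C (S ∪ Y) Z S))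
    {p : J} (hpS : p ∈ S) (hpY : p ∈ Y) : M.Conn C (S ∪ Y) Z :=
  conn_iff.2 ((cutConn_mono Finset.subset_union_left hS).union
    (hY.mono fun _ _ _ _ _ h => Or.inl h.2) ⟨p, Finset.mem_inter.2 ⟨hpS, hpY⟩⟩)









theorem two_times (hT : M.TreeLike C ℓ ς P Z) (hc : M.Conn C P Z) {i j : J} (hi : i ∈ P)
    (hj : j ∈ P) (hij : i ≠ j)
    {t t' : ℝ} (ht : t ∈ Icc 0 M.T) (h : M.VCt C P i j t Z) (ht' : t' ∈ Icc 0 M.T)
    (h' : M.VCt C P i j t' Z) : |t - t'| ≤ 2 * ℓ :=
  (tlg_of_treeLike hT).two_times hi hj hij (conn_iff.1 hc) ⟨ht, h⟩ ⟨ht', h'⟩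









end

end Crest.Agent.R122.LNg410
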