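import Crest.Agent.R122.LN1Defs_304
import Crest.Agent.R122.LNvs2_410

/-!
# Row 122, LN1, events (helper968), part 1: groups of exit lines in the master system

Everything is on the virtual system `M : VSys J κ` with the parts `Λ` of `LN1Defs_304`; `π` is the
part of the exit `a`, gas particles are the labels outside `uni Λ`.

* `Grp M c Z Λ π a N Y` : group `Y` of the exit `a` (`a` and gas particles, connected by contacts
  which are not inside `π`, bounded size).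
* `Reach M c Z Λ π a N i v q` : `i` belongs to a group of `a` and `q` is its position at time `v` in
  a sub-world of `π ∪ Y`.
* `Grp.link`, `Grp.link_contact`, `Reach.contact` : LINK of two exits of one part violates `NoBad`.
* `Grp.two`, `Grp.two_contact`, `Reach.two_contact` : LINK of exits of two parts violates `NoTwo`.
* `Grp.ret`, `Reach.ret`, `Grp.ret_other`, `Reach.ret_other` : return to a member of the part (the
  obstacle included) resp. of another part.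
* `Grp.window` : a contact of the exit with another member of its part: no third particle between
  the corresponding real contact and this contact.
-/

set_option autoImplicit false
set_option linter.unusedSectionVars false

open MeasureTheory Set Filter Topology
open Crest.AnalysisR.Kinetic
open Crest.Agent.R122.GIV566 Crest.Agent.R122.VL581 Crest.Agent.R122.LNg410
open Crest.Agent.R122.Causal291 Crest.Agent.R122.LN304
open scoped Classical

noncomputable section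

namespace Crest.Agent.R122.LNEv968

variable {J κ : Type} [Fintype J] {M : VSys J κ} {c ℓ ς : ℝ} {Z : J → PhasePoint}
  {Λ : Finset (Finset J)} {π π' A B P Y Y' : Finset J} {a b i j k x y : J} {N N' : ℕ} {u v : ℝ}
  {q q' : Space3}

theorem mem_uni : i ∈ uni Λ ↔ ∃ π ∈ Λ, i ∈ π := by
  unfold uni
  rw [Finset.mem_filter]
  exact ⟨fun h => h.2, fun h => ⟨Finset.mem_univ _, h⟩⟩

theorem sub_uni (h : π ∈ Λ) : π ⊆ uni Λ := fun _ hi => mem_uni.2 ⟨π, h, hi⟩

/-! ### Virtual contacts -/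

/-- A virtual contact from positions in two sub-worlds. -/
theorem vct_of_st [Nonempty κ] (hA : A ⊆ P) (hB : B ⊆ P) (hx : x ∈ A) (hy : y ∈ B)
    (hokA : M.ok A u Z) (hokB : M.ok B u Z) (hox : M.o ≠ some x) (hoy : M.o ≠ some y)
    (hd : dist (M.st A u Z x).1 (M.st B u Z y).1 ≤ c * M.ε) : M.VCt c P x y u Z := by
  obtain ⟨k⟩ : Nonempty κ := inferInstance
  refine ⟨A, hA, B, hB, k, k, hx, hy, hokA, hokB, fun h => absurd h hox, fun h => absurd h hoy, ?_⟩
  unfold VSys.pos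
  rwa [if_neg hox, if_neg hoy]


/-! ### Groups -/

/-- Group of the exit `a` of the part `π`. -/
structure Grp (M : VSys J κ) (c : ℝ) (Z : J → PhasePoint) (Λ : Finset (Finset J)) (π : Finset J)
    (a : J) (N : ℕ) (Y : Finset J) : Prop where
  root : a ∈ Y
  gas : ∀ k ∈ Y, k = a ∨ k ∉ uni Λ
  obs : ∀ k ∈ Y, M.o ≠ some k
  card : (Y ∪ uni Λ).card ≤ N
  conn : CutConn Y (outR M c (π ∪ Y) Z π)

/-- `i` belongs to a group of the exit `a`, and `q` is its position at time `v` in a sub-world. -/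
def Reach (M : VSys J κ) (c : ℝ) (Z : J → PhasePoint) (Λ : Finset (Finset J)) (π : Finset J)
    (a : J) (N : ℕ) (i : J) (v : ℝ) (q : Space3) : Prop :=
  ∃ Y, Grp M c Z Λ π a N Y ∧ i ∈ Y ∧ ∃ A ⊆ π ∪ Y, i ∈ A ∧ M.ok A v Z ∧ (M.st A v Z i).1 = q

namespace Grp

theorem mono (h : Grp M c Z Λ π a N Y) (hN : N ≤ N') : Grp M c Z Λ π a N' Y :=
  ⟨h.root, h.gas, h.obs, h.card.trans hN, h.conn⟩

theorem not_mem (h : Grp M c Z Λ π a N Y) (hπ : π ∈ Λ) (hk : k ∈ Y) (hka : k ≠ a) : k ∉ π :=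
  fun h' => ((h.gas k hk).resolve_left hka) (sub_uni hπ h')

theorem conn_union (h : Grp M c Z Λ π a N Y) (hπ : M.Conn c π Z) (ha : a ∈ π) :
    M.Conn c (π ∪ Y) Z := LNg410.union_conn hπ h.conn ha h.root

theorem conn_mono (h : Grp M c Z Λ π a N Y) (hP : π ∪ Y ⊆ P) : CutConn Y (outR M c P Z π) :=
  h.conn.mono fun _ _ _ _ _ h' => Or.inl (outR_mono hP h')

/-- The trivial group. -/
theorem single (ho : M.o ≠ some a) (hN : (insert a (uni Λ)).card ≤ N) :
    Grp M c Z Λ π a N {a} where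
  root := Finset.mem_singleton_self a
  gas k hk := Or.inl (Finset.mem_singleton.1 hk)
  obs k hk := by rwa [Finset.mem_singleton.1 hk]
  card := by
    have : ({a} : Finset J) ∪ uni Λ = insert a (uni Λ) := by
      ext z
      simp
    rwa [this]
  conn := cutConn_singleton a _

end Grp

/-- `eq_of_link` of helper410 for `TL`. -/
theorem eq_of_link_tl (hT : TL M c ℓ ς P Z) (hc : M.Conn c P Z) (hSP : π ⊆ P)
    (hYP : Y ⊆ P) (hS : M.Conn c π Z) (hY : CutConn Y (outR M c P Z π)) {p q : J} (hpS : p ∈ π)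
    (hpY : p ∈ Y) (hqS : q ∈ π) (hqY : q ∈ Y) : p = q := by
  have h1 := hT.2.cut (conn_iff.1 hc)
  have h2 : CutConn π fun i j => (i ∈ π ∧ j ∈ π) ∧ ∃ t, vc M c P Z i j t :=
    (cutConn_mono hSP hS).mono fun i hi j hj _ h => Or.inl ⟨⟨hi, hj⟩, h⟩
  refine h1.inter_subsingleton hSP hYP h2 hY (fun i _ j _ _ h => Or.inl h.2)
    (fun i _ j _ _ h => Or.inl h.2) (fun i hi _ j hj _ _ _ h => ?_) hpS hpY hqS hqY
  rcases h with h | h
  · exact h.1.elim (fun h' => h' hi) (fun h' => h' hj)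
  · exact h.1.elim (fun h' => h' hj) (fun h' => h' hi)

theorem card_le₂ (hπ : π ⊆ uni Λ) :
    ((π ∪ (Y ∪ Y')) ∪ uni Λ).card ≤ (Y ∪ uni Λ).card + (Y' ∪ uni Λ).card := by
  refine (Finset.card_le_card ?_).trans (Finset.card_union_le _ _)
  intro z hz
  simp only [Finset.mem_union] at hz ⊢
  rcases hz with (hz | hz | hz) | hz
  · exact Or.inl (Or.inr (hπ hz))
  · exact Or.inl (Or.inl hz)
  · exact Or.inr (Or.inl hz)
  · exact Or.inl (Or.inr hz)

/-- Two different members of the part in a group connected outside the part. -/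
theorem not_noBad (hπ : π ∈ Λ) (hc : M.Conn c π Z) (ha : a ∈ π) (hb : b ∈ π) (hab : a ≠ b)
    (haY : a ∈ Y) (hbY : b ∈ Y) (hY : CutConn Y (outR M c (π ∪ Y) Z π))
    (hN : (Y ∪ uni Λ).card ≤ N) : ¬ NoBad M c ℓ ς Z Λ N := by
  intro hNB
  have h1 : M.Conn c (π ∪ Y) Z := LNg410.union_conn hc hY ha haY
  have h2 : (π ∪ Y ∪ uni Λ).card ≤ N := by
    refine (Finset.card_le_card ?_).trans hN
    intro z hz
    simp only [Finset.mem_union] at hz ⊢
    rcases hz with (hz | hz) | hz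
    · exact Or.inr (sub_uni hπ hz)
    · exact Or.inl hz
    · exact Or.inr hz
  have h3 := hNB _ h1 ⟨π, hπ, Finset.subset_union_left⟩ h2
  exact hab (eq_of_link_tl h3 h1 Finset.subset_union_left Finset.subset_union_right hc hY ha haY
    hb hbY)

namespace Grp

/-- **LINK, common particle**, exits of one part. -/
theorem link (h : Grp M c Z Λ π a N Y) (h' : Grp M c Z Λ π b N' Y') (hπ : π ∈ Λ)
    (hc : M.Conn c π Z) (ha : a ∈ π) (hb : b ∈ π) (hab : a ≠ b) (hi : i ∈ Y) (hi' : i ∈ Y') :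
    ¬ NoBad M c ℓ ς Z Λ (N + N') := by
  have h1 : CutConn (Y ∪ Y') (outR M c (π ∪ (Y ∪ Y')) Z π) :=
    (h.conn_mono (by intro z hz; simp only [Finset.mem_union] at hz ⊢; tauto)).union
      (h'.conn_mono (by intro z hz; simp only [Finset.mem_union] at hz ⊢; tauto))
      ⟨i, Finset.mem_inter.2 ⟨hi, hi'⟩⟩
  refine not_noBad hπ hc ha hb hab (Finset.mem_union_left _ h.root)
    (Finset.mem_union_right _ h'.root) h1 ?_
  refine le_trans (Finset.card_le_card ?_)
    ((card_le₂ (Y := Y) (Y' := Y') (sub_uni hπ)).trans (Nat.add_le_add h.card h'.card))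
  intro z hz
  simp only [Finset.mem_union] at hz ⊢
  tauto

/-- **LINK, contact**, exits of one part; the pair in contact is not the pair of the exits. -/
theorem link_contact (h : Grp M c Z Λ π a N Y) (h' : Grp M c Z Λ π b N' Y') (hπ : π ∈ Λ)
    (hc : M.Conn c π Z) (ha : a ∈ π) (hb : b ∈ π) (hab : a ≠ b) (hx : x ∈ Y) (hy : y ∈ Y')
    (hne : ¬ (x = a ∧ y = b)) (hu : u ∈ Icc 0 M.T) (hv : M.VCt c (π ∪ (Y ∪ Y')) x y u Z) :
    ¬ NoBad M c ℓ ς Z Λ (N + N') := by
  have hout : x ∉ π ∨ y ∉ π := by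
    by_contra hcon
    push Not at hcon
    refine hne ⟨?_, ?_⟩
    · by_contra hxa
      exact h.not_mem hπ hx hxa hcon.1
    · by_contra hyb
      exact h'.not_mem hπ hy hyb hcon.2
  have h1 : CutConn (Y ∪ Y') (outR M c (π ∪ (Y ∪ Y')) Z π) :=
    (h.conn_mono (by intro z hz; simp only [Finset.mem_union] at hz ⊢; tauto)).union_of_edge
      (h'.conn_mono (by intro z hz; simp only [Finset.mem_union] at hz ⊢; tauto))
      hx hy (Or.inl ⟨hout, u, hu, hv⟩)
  refine not_noBad hπ hc ha hb hab (Finset.mem_union_left _ h.root)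
    (Finset.mem_union_right _ h'.root) h1 ?_
  refine le_trans (Finset.card_le_card ?_)
    ((card_le₂ (Y := Y) (Y' := Y') (sub_uni hπ)).trans (Nat.add_le_add h.card h'.card))
  intro z hz
  simp only [Finset.mem_union] at hz ⊢
  tauto

theorem card_two (h : Grp M c Z Λ π a N Y) (h' : Grp M c Z Λ π' b N' Y') (hπ : π ∈ Λ)
    (hπ' : π' ∈ Λ) : ((π ∪ Y) ∪ (π' ∪ Y') ∪ uni Λ).card ≤ N + N' := by
  refine le_trans ((Finset.card_le_card ?_).trans (Finset.card_union_le (Y ∪ uni Λ) (Y' ∪ uni Λ)))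
    (Nat.add_le_add h.card h'.card)
  intro z hz
  simp only [Finset.mem_union] at hz ⊢
  rcases hz with ((hz | hz) | hz | hz) | hz
  · exact Or.inl (Or.inr (sub_uni hπ hz))
  · exact Or.inl (Or.inl hz)
  · exact Or.inl (Or.inr (sub_uni hπ' hz))
  · exact Or.inr (Or.inl hz)
  · exact Or.inl (Or.inr hz)

/-- **LINK, common particle**, exits of two parts. -/
theorem two (h : Grp M c Z Λ π a N Y) (h' : Grp M c Z Λ π' b N' Y') (hπ : π ∈ Λ) (hπ' : π' ∈ Λ)
    (hc : M.Conn c π Z) (hc' : M.Conn c π' Z) (ha : a ∈ π) (hb : b ∈ π') (hne : π ≠ π')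
    (hi : i ∈ Y) (hi' : i ∈ Y') : ¬ NoTwo M c Z Λ (N + N') := by
  intro hNT
  have h1 := LNg410.conn_union (h.conn_union hc ha) (h'.conn_union hc' hb)
    ⟨i, Finset.mem_inter.2 ⟨Finset.mem_union_right _ hi, Finset.mem_union_right _ hi'⟩⟩
  exact hne (hNT _ h1 (h.card_two h' hπ hπ') π hπ π' hπ'
    (Finset.subset_union_left.trans Finset.subset_union_left)
    ⟨b, hb, Finset.mem_union_right _ (Finset.mem_union_left _ hb)⟩)

/-- **LINK, contact**, exits of two parts. -/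
theorem two_contact (h : Grp M c Z Λ π a N Y) (h' : Grp M c Z Λ π' b N' Y') (hπ : π ∈ Λ)
    (hπ' : π' ∈ Λ) (hc : M.Conn c π Z) (hc' : M.Conn c π' Z) (ha : a ∈ π) (hb : b ∈ π')
    (hne : π ≠ π') (hx : x ∈ Y) (hy : y ∈ Y') (hu : u ∈ Icc 0 M.T)
    (hv : M.VCt c ((π ∪ Y) ∪ (π' ∪ Y')) x y u Z) : ¬ NoTwo M c Z Λ (N + N') := by
  intro hNT
  have h1 := LNg410.conn_union_of_vct (h.conn_union hc ha) (h'.conn_union hc' hb)
    (Finset.mem_union_right _ hx) (Finset.mem_union_right _ hy) hu hv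
  exact hne (hNT _ h1 (h.card_two h' hπ hπ') π hπ π' hπ'
    (Finset.subset_union_left.trans Finset.subset_union_left)
    ⟨b, hb, Finset.mem_union_right _ (Finset.mem_union_left _ hb)⟩)

/-- **Return** to another member `k` of the part (possibly the obstacle). -/
theorem ret (h : Grp M c Z Λ π a N Y) (hπ : π ∈ Λ) (hc : M.Conn c π Z) (ha : a ∈ π) (hk : k ∈ π)
    (hka : k ≠ a) (hi : i ∈ Y) (hia : i ≠ a) (hv : v ∈ Icc 0 M.T)
    (hvc : M.VCt c (π ∪ Y) i k v Z) : ¬ NoBad M c ℓ ς Z Λ N := by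
  have hsub : π ∪ Y ⊆ π ∪ (Y ∪ {k}) := by
    intro z hz
    simp only [Finset.mem_union] at hz ⊢
    tauto
  have h1 : CutConn (Y ∪ {k}) (outR M c (π ∪ (Y ∪ {k})) Z π) :=
    (h.conn_mono hsub).union_of_edge (cutConn_singleton k _) hi (Finset.mem_singleton_self k)
      (Or.inl ⟨Or.inl (h.not_mem hπ hi hia), v, hv, vct_mono hsub hvc⟩)
  refine not_noBad hπ hc ha hk hka.symm (Finset.mem_union_left _ h.root)
    (Finset.mem_union_right _ (Finset.mem_singleton_self k)) h1 (le_trans ?_ h.card)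
  refine Finset.card_le_card ?_
  intro z hz
  simp only [Finset.mem_union, Finset.mem_singleton] at hz ⊢
  rcases hz with (hz | hz) | hz
  · exact Or.inl hz
  · exact Or.inr (hz ▸ sub_uni hπ hk)
  · exact Or.inr hz

/-- **Return** to a member of another part. -/
theorem ret_other (h : Grp M c Z Λ π a N Y) (hπ : π ∈ Λ) (hπ' : π' ∈ Λ) (hc : M.Conn c π Z)
    (hc' : M.Conn c π' Z) (ha : a ∈ π) (hk : k ∈ π') (hne : π ≠ π') (hi : i ∈ Y)
    (hv : v ∈ Icc 0 M.T) (hvc : M.VCt c ((π ∪ Y) ∪ π') i k v Z) : ¬ NoTwo M c Z Λ N := by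
  intro hNT
  have h1 := LNg410.conn_union_of_vct (h.conn_union hc ha) hc'
    (Finset.mem_union_right _ hi) hk hv hvc
  refine hne (hNT _ h1 (le_trans (Finset.card_le_card ?_) h.card) π hπ π' hπ'
    (Finset.subset_union_left.trans Finset.subset_union_left)
    ⟨k, hk, Finset.mem_union_right _ hk⟩)
  intro z hz
  simp only [Finset.mem_union] at hz ⊢
  rcases hz with ((hz | hz) | hz) | hz
  · exact Or.inr (sub_uni hπ hz)
  · exact Or.inl hz
  · exact Or.inr (sub_uni hπ' hz)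
  · exact Or.inr hz

/-- **Window**: a contact (time `v`) of the exit `a` with another member `k` of its part. If `R`
is a family of contacts connecting the part, the pair `(a, k)` is in `R` at some time `r`, and `a`
has no contact with a third particle between `r` and `v`. -/
theorem window (h : Grp M c Z Λ π a N Y) (hπ : π ∈ Λ) (ha : a ∈ π)
    (hNB : NoBad M c ℓ ς Z Λ N) (hℓς : 2 * ℓ ≤ ς) {R : ℝ → J → J → Prop}
    (hR : CutConn π fun j k => ∃ r ∈ Icc 0 M.T, R r j k)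
    (hRs : ∀ r j k, R r j k → R r k j)
    (hRv : ∀ r ∈ Icc 0 M.T, ∀ j ∈ π, ∀ k ∈ π, j ≠ k → R r j k → M.VCt c π j k r Z)
    (hk : k ∈ π) (hka : k ≠ a) (hv : v ∈ Icc 0 M.T) (hvc : M.VCt c (π ∪ Y) a k v Z) :
    ∃ r ∈ Icc 0 M.T, R r a k ∧ ∀ s ∈ Icc 0 M.T, r ≤ s → s ≤ v → ∀ g ∈ π ∪ Y, g ≠ a →
      M.VCt c (π ∪ Y) a g s Z → g = k := by
  have hc : M.Conn c π Z := conn_of_cut hR fun i hi j hj hij ⟨r, hr, h⟩ =>
    ⟨r, hr, hRv r hr i hi j hj hij h⟩
  have h1 : M.Conn c (π ∪ Y) Z := h.conn_union hc ha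
  have h2 : (π ∪ Y ∪ uni Λ).card ≤ N := by
    refine (Finset.card_le_card ?_).trans h.card
    intro z hz
    simp only [Finset.mem_union] at hz ⊢
    rcases hz with (hz | hz) | hz
    · exact Or.inr (sub_uni hπ hz)
    · exact Or.inl hz
    · exact Or.inr hz
  have hT := hNB _ h1 ⟨π, hπ, Finset.subset_union_left⟩ h2
  have haP : a ∈ π ∪ Y := Finset.mem_union_left _ ha
  have hkP : k ∈ π ∪ Y := Finset.mem_union_left _ hk
  have hF : CutConn (π ∪ Y) fun i j =>
      (i ∈ π ∧ j ∈ π ∧ ∃ r ∈ Icc 0 M.T, R r i j) ∨ outR M c (π ∪ Y) Z π i j :=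
    (hR.mono fun i hi j hj _ h => Or.inl (Or.inl ⟨hi, hj, h⟩)).union
      (h.conn.mono fun _ _ _ _ _ h => Or.inl (Or.inr h)) ⟨a, Finset.mem_inter.2 ⟨ha, h.root⟩⟩
  have h3 := hT.2.mem_of_cutConn hF (fun i _ j _ hij h => by
    rcases h with ⟨hi, hj, r, hr, h⟩ | h
    · exact ⟨r, Or.inl ⟨hr, vct_mono Finset.subset_union_left (hRv r hr i hi j hj hij h)⟩⟩
    · obtain ⟨_, t, ht⟩ := h
      exact ⟨t, Or.inl ht⟩) haP hkP hka.symm (t := v) ⟨hv, hvc⟩
  have h4 : ∃ r ∈ Icc 0 M.T, R r a k := by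
    rcases h3 with (⟨_, _, h⟩ | h) | (⟨_, _, r, hr, h⟩ | h)
    · exact h
    · exact absurd h.1 (by push Not; exact ⟨ha, hk⟩)
    · exact ⟨r, hr, hRs r k a h⟩
    · exact absurd h.1 (by push Not; exact ⟨hk, ha⟩)
  obtain ⟨r, hr, hRr⟩ := h4
  refine ⟨r, hr, hRr, fun s hs hrs hsv g hg hga hvg => ?_⟩
  have h5 := hT.2.sep (conn_iff.1 h1) hℓς haP hkP hka.symm haP hg (Ne.symm hga)
    (t := r) (t' := v) (t'' := s)
    ⟨hr, vct_mono Finset.subset_union_left (hRv r hr a ha k hk hka.symm hRr)⟩ ⟨hv, hvc⟩ ⟨hs, hvg⟩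
    hrs hsv
  rcases h5 with ⟨_, h5⟩ | ⟨h5, _⟩
  · exact h5.symm
  · exact absurd h5.symm hga

end Grp

/-! ### The same in terms of positions -/

namespace Reach

theorem mono (h : Reach M c Z Λ π a N i v q) (hN : N ≤ N') : Reach M c Z Λ π a N' i v q := by
  obtain ⟨Y, hY, hi, h⟩ := h
  exact ⟨Y, hY.mono hN, hi, h⟩

/-- **LINK**, exits of one part. -/
theorem contact [Nonempty κ] (h : Reach M c Z Λ π a N x u q) (h' : Reach M c Z Λ π b N' y u q')
    (hπ : π ∈ Λ) (hc : M.Conn c π Z) (ha : a ∈ π) (hb : b ∈ π) (hab : a ≠ b)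
    (hne : ¬ (x = a ∧ y = b)) (hu : u ∈ Icc 0 M.T) (hd : dist q q' ≤ c * M.ε) :
    ¬ NoBad M c ℓ ς Z Λ (N + N') := by
  obtain ⟨Y, hY, hx, A, hA, hxA, hokA, hq⟩ := h
  obtain ⟨Y', hY', hy, B, hB, hyB, hokB, hq'⟩ := h'
  refine hY.link_contact hY' hπ hc ha hb hab hx hy hne hu ?_
  refine vct_of_st (hA.trans ?_) (hB.trans ?_) hxA hyB hokA hokB (hY.obs x hx) (hY'.obs y hy)
    (by rwa [hq, hq'])
  · intro z hz; simp only [Finset.mem_union] at hz ⊢; tauto
  · intro z hz; simp only [Finset.mem_union] at hz ⊢; tauto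

theorem common (h : Reach M c Z Λ π a N i u q) (h' : Reach M c Z Λ π b N' i v q')
    (hπ : π ∈ Λ) (hc : M.Conn c π Z) (ha : a ∈ π) (hb : b ∈ π) (hab : a ≠ b) :
    ¬ NoBad M c ℓ ς Z Λ (N + N') := by
  obtain ⟨Y, hY, hx, _⟩ := h
  obtain ⟨Y', hY', hy, _⟩ := h'
  exact hY.link hY' hπ hc ha hb hab hx hy

/-- **LINK**, exits of two parts. -/
theorem two_contact [Nonempty κ] (h : Reach M c Z Λ π a N x u q)
    (h' : Reach M c Z Λ π' b N' y u q') (hπ : π ∈ Λ) (hπ' : π' ∈ Λ) (hc : M.Conn c π Z)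
    (hc' : M.Conn c π' Z) (ha : a ∈ π) (hb : b ∈ π') (hne : π ≠ π') (hu : u ∈ Icc 0 M.T)
    (hd : dist q q' ≤ c * M.ε) : ¬ NoTwo M c Z Λ (N + N') := by
  obtain ⟨Y, hY, hx, A, hA, hxA, hokA, hq⟩ := h
  obtain ⟨Y', hY', hy, B, hB, hyB, hokB, hq'⟩ := h'
  refine hY.two_contact hY' hπ hπ' hc hc' ha hb hne hx hy hu ?_
  exact vct_of_st (hA.trans Finset.subset_union_left) (hB.trans Finset.subset_union_right) hxA hyB
    hokA hokB (hY.obs x hx) (hY'.obs y hy) (by rwa [hq, hq'])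

theorem two_common (h : Reach M c Z Λ π a N i u q) (h' : Reach M c Z Λ π' b N' i v q')
    (hπ : π ∈ Λ) (hπ' : π' ∈ Λ) (hc : M.Conn c π Z)
    (hc' : M.Conn c π' Z) (ha : a ∈ π) (hb : b ∈ π') (hne : π ≠ π') :
    ¬ NoTwo M c Z Λ (N + N') := by
  obtain ⟨Y, hY, hx, _⟩ := h
  obtain ⟨Y', hY', hy, _⟩ := h'
  exact hY.two hY' hπ hπ' hc hc' ha hb hne hx hy

/-- **Return** of an influenced particle to the member `k ≠ a` of the part, followed in the
isolated sub-world `B` of the part. -/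
theorem ret [Nonempty κ] (h : Reach M c Z Λ π a N i v q) (hπ : π ∈ Λ) (hc : M.Conn c π Z)
    (ha : a ∈ π) (hk : k ∈ B) (hB : B ⊆ π) (hka : k ≠ a) (hia : i ≠ a) (hv : v ∈ Icc 0 M.T)
    (hok : M.ok B v Z) (hok' : M.o ≠ some k) (hd : dist q (M.st B v Z k).1 ≤ c * M.ε) :
    ¬ NoBad M c ℓ ς Z Λ N := by
  obtain ⟨Y, hY, hi, A, hA, hiA, hokA, hq⟩ := h
  refine hY.ret hπ hc ha (hB hk) hka hi hia hv ?_
  exact vct_of_st hA (hB.trans Finset.subset_union_left) hiA hk hokA hok (hY.obs i hi) hok'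
    (by rwa [hq])


/-- **Return** to a member of another part. -/
theorem ret_other [Nonempty κ] (h : Reach M c Z Λ π a N i v q) (hπ : π ∈ Λ) (hπ' : π' ∈ Λ)
    (hc : M.Conn c π Z) (hc' : M.Conn c π' Z) (ha : a ∈ π) (hk : k ∈ B) (hB : B ⊆ π')
    (hne : π ≠ π') (hv : v ∈ Icc 0 M.T) (hok : M.ok B v Z) (hok' : M.o ≠ some k)
    (hd : dist q (M.st B v Z k).1 ≤ c * M.ε) : ¬ NoTwo M c Z Λ N := by
  obtain ⟨Y, hY, hi, A, hA, hiA, hokA, hq⟩ := h
  refine hY.ret_other hπ hπ' hc hc' ha (hB hk) hne hi hv ?_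
  exact vct_of_st (hA.trans Finset.subset_union_left) (hB.trans Finset.subset_union_right) hiA hk
    hokA hok (hY.obs i hi) hok' (by rwa [hq])


end Reach

end Crest.Agent.R122.LNEv968

end
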