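import Crest.Agent.R122.PWInst3_442
import Crest.Agent.R122.LNPart_424
import Crest.Agent.R122.LNReach_968
import Crest.Agent.R122.LNFam_255
import Crest.Agent.R122.Good4One_45

/-!
# Row 122, LN1: the instance (OS) (helper515): a tree and a free line which meets its root

Labels `J = Fin n ⊕ (Idx P ⊕ Unit)` : the gas, the tree `(P, z)`, the free line `l`; one part.

* `Mo`, `Zo`, `pS`, `Lo` : the master system, its configuration, the part, the set of parts.
* `OSIn Φ ε T P z l` : the tree is valid and separated on `[0, T]`, the line is born at a positive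
  time and meets the root line before `T`.
* `OSIn.treeIn`, `OSIn.forest` : the tree in the master system; `state_a`, `state_c` : states at
  the contact; `graft` : helper410's `GraftH`.
* `conn`, `parts`, `sparts`, `noTwo`, `badGasW`, `tl` : the graph data.
* `pass`, `clsS`, `st_line'`, `st_root'`, `st_exit'` : the part is one class, its exits are the lines
  `l'`, `c'` and the exits of the tree.
-/

set_option autoImplicit false
set_option linter.unusedSectionVars false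

open MeasureTheory Set Filter
open scoped ENNReal Topology
open Crest.AnalysisR.Kinetic
open Crest.Agent.R122.GIV566 Crest.Agent.R122.VL581 Crest.Agent.R122.LN304
open Crest.Agent.R122.LNTree410 Crest.Agent.R122.PWInst442 Crest.Agent.R122.PWGlue491
open Crest.Agent.R122.LNPart424 Crest.Agent.R122.EDefs602 Crest.Agent.R122.TreeLines335
open Crest.Agent.R122.Kin796 Crest.Agent.R122.Kin796.CTree Crest.Agent.R122.Tree674
open Crest.Agent.R122.Loc45 Crest.Agent.R122.Ins45 Crest.Agent.R122.LNg410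
open Crest.Agent.R122.Scat818 Crest.Agent.R122.OCout796
open Crest.Agent.R122.LNGraft410
open Crest.Agent.R122.OneC285 (lpos cT cB cD cX oneLs exS)

noncomputable section

namespace Crest.Agent.R122.LNOS515

open scoped Classical

variable {Φ : Space3 → ℝ} {ε T c ℓ ς : ℝ} {n : ℕ} {P : CTree} {z : PhasePoint × Par P}
  {w : Config n} {l : ML}

/-! ### Definitions -/

/-- Births of the structure. -/
def bO (P : CTree) (l : ML) : Idx P ⊕ Unit → ℝ := Sum.elim (fun _ => 0) fun _ => l.1.1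

/-- The structure at time `0`. -/
def zO (Φ : Space3 → ℝ) (ε : ℝ) (z : PhasePoint × Par P) (l : ML) : Idx P ⊕ Unit → PhasePoint :=
  Sum.elim (Tree674.lines Φ ε P z.1 z.2) fun _ => back l.1

/-- The master system of the gas, the tree and the line. -/
abbrev Mo (Φ : Space3 → ℝ) (T ε : ℝ) (n : ℕ) (P : CTree) (l : ML) :
    VSys (Fin n ⊕ (Idx P ⊕ Unit)) Unit := LNPart424.gsys Φ T ε n (bO P l)

/-- The configuration at time `0`. -/
abbrev Zo (Φ : Space3 → ℝ) (ε : ℝ) (w : Config n) (z : PhasePoint × Par P) (l : ML) :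
    Fin n ⊕ (Idx P ⊕ Unit) → PhasePoint := Sum.elim w (zO Φ ε z l)


/-- Labels of the tree. -/
def eT (n : ℕ) (P : CTree) : Idx P ↪ Fin n ⊕ (Idx P ⊕ Unit) :=
  ⟨fun i => Sum.inr (Sum.inl i), fun _ _ h => Sum.inl_injective (Sum.inr_injective h)⟩

/-- Label of the line. -/
def aL (n : ℕ) (P : CTree) : Fin n ⊕ (Idx P ⊕ Unit) := Sum.inr (Sum.inr ())

/-- The labels of the tree. -/
abbrev pT (n : ℕ) (P : CTree) : Finset (Fin n ⊕ (Idx P ⊕ Unit)) := LNTree410.part (eT n P)

/-- Union of finite sets (the instance of the general theorems). -/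
abbrev cup {J : Type} (A B : Finset J) : Finset J := A ∪ B

theorem mem_cup {J : Type} {A B : Finset J} {j : J} : j ∈ cup A B ↔ j ∈ A ∨ j ∈ B :=
  Finset.mem_union

/-- The part: the tree and the line. -/
def pS (n : ℕ) (P : CTree) : Finset (Fin n ⊕ (Idx P ⊕ Unit)) := cup {aL n P} (pT n P)

/-- The set of parts. -/
def Lo (n : ℕ) (P : CTree) : Finset (Finset (Fin n ⊕ (Idx P ⊕ Unit))) := {pS n P}

theorem mem_pT {j : Fin n ⊕ (Idx P ⊕ Unit)} : j ∈ pT n P ↔ ∃ x, j = Sum.inr (Sum.inl x) := by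
  rw [LNTree410.mem_part]
  exact ⟨fun ⟨i, hi⟩ => ⟨i, hi.symm⟩, fun ⟨i, hi⟩ => ⟨i, hi.symm⟩⟩

theorem mem_pS {j : Fin n ⊕ (Idx P ⊕ Unit)} : j ∈ pS n P ↔ ∃ x, j = Sum.inr x := by
  unfold pS
  rw [mem_cup, mem_pT, Finset.mem_singleton]
  constructor
  · rintro (rfl | ⟨x, rfl⟩)
    · exact ⟨_, rfl⟩
    · exact ⟨_, rfl⟩
  · rintro ⟨x | x, rfl⟩
    · exact Or.inr ⟨x, rfl⟩
    · exact Or.inl rfl


theorem inr_mem_pS (x : Idx P ⊕ Unit) : (Sum.inr x : Fin n ⊕ (Idx P ⊕ Unit)) ∈ pS n P :=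
  mem_pS.2 ⟨x, rfl⟩


theorem aL_notMem_pT : aL n P ∉ pT n P := by
  rw [mem_pT]
  rintro ⟨x, hx⟩
  exact absurd (Sum.inr_injective hx) (by simp)

theorem eT_mem_pT (i : Idx P) : eT n P i ∈ pT n P := mem_pT.2 ⟨i, rfl⟩

theorem pT_sub : pT n P ⊆ pS n P := fun _ h => mem_cup.2 (Or.inr h)



theorem eT_mem (i : Idx P) : eT n P i ∈ pS n P := inr_mem_pS _

theorem mem_Lo {π : Finset (Fin n ⊕ (Idx P ⊕ Unit))} : π ∈ Lo n P ↔ π = pS n P :=
  Finset.mem_singleton

theorem uni_Lo : uni (Lo n P) = pS n P := by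
  ext j
  rw [LNPart424.mem_uni]
  constructor
  · rintro ⟨π, hπ, hj⟩
    rwa [mem_Lo.1 hπ] at hj
  · intro hj
    exact ⟨_, mem_Lo.2 rfl, hj⟩

/-- The structure: a tree valid and separated up to the horizon and a free line which meets its
root before the horizon (not grazing). -/
structure OSIn (Φ : Space3 → ℝ) (ε T : ℝ) (P : CTree) (z : PhasePoint × Par P) (l : ML) : Prop where
  valid : Valid Φ ε P T z.1.2 z.2
  sep : Sep Φ ε P T z.1 z.2
  ct : (z, l.1) ∈ OneC423.ctSet Φ ε T P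
  birth : 0 < l.1.1
  cd : CDok (cD ε z l)
  lt_T : cT ε z l < T


theorem o_ne (j : Fin n ⊕ (Idx P ⊕ Unit)) : (Mo Φ T ε n P l).o ≠ some j := by
  intro h
  have h1 : (none : Option (Fin n ⊕ (Idx P ⊕ Unit))) = some j := h
  simp at h1

namespace OSIn

variable (h : OSIn Φ ε T P z l)
include h

theorem lt : l.1.1 < cT ε z l := h.ct.2.2.1

theorem pos : 0 < cT ε z l := h.birth.trans h.lt

theorem le : cT ε z l ≤ T := h.ct.2.2.2.1

theorem validT : Valid Φ ε P (cT ε z l) z.1.2 z.2 := h.ct.2.2.2.2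

theorem T_pos : 0 < T := h.pos.trans_le h.le

/-- The root has left the tree before the contact. -/
theorem rel_lt (hε : 0 < ε) (i : Idx P) : TreeLines335.rel P z.2 i < cT ε z l :=
  TreeLines335.rel_lt hε.le h.pos h.validT.2 i

theorem treeIn : TreeIn (Mo Φ T ε n P l) (Zo Φ ε w z l) T P z.1 z.2 (eT n P) where
  b _ := le_rfl
  Z _ := rfl
  o _ := o_ne _
  valid := h.valid
  sep := h.sep


end OSIn

/-! ### States at the contact -/

section single

variable {J κ : Type} [Fintype J] {M : VSys J κ}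

/-- One particle: free flight is a world with births. -/
theorem bworld_unit (hΦ : AdmissiblePotential Φ) (β : Unit → ℝ) (z : PhasePoint) :
    BWorld Φ ε β 0 (fun t (_ : Unit) => onLine z t) where
  cont := by
    refine (continuous_pi fun k => ?_).continuousOn
    unfold onLine
    fun_prop
  der t _ := by
    rw [hasDerivWithinAt_pi]
    intro k
    have h2 : bf Φ ε β t (fun _ : Unit => onLine z t) k = (z.2, 0) := by
      unfold bf
      have hsum : ∑ j : Unit, (if β j ≤ t then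
          gradient Φ ((1 / ε) • ((onLine z t).1 - (onLine z t).1)) else 0) = 0 := by
        refine Finset.sum_eq_zero fun j _ => ?_
        rw [sub_self, smul_zero, Flow671.grad_origin hΦ, ite_self]
      rw [hsum, smul_zero, ite_self]
      rfl
    rw [h2]
    unfold onLine
    refine HasDerivAt.hasDerivWithinAt (HasDerivAt.prodMk ?_ (hasDerivAt_const _ _))
    have h3 := ((hasDerivAt_id t).smul_const z.2).const_add z.1
    simpa using h3
  dom t _ := Or.inr fun i j hij => absurd (Subsingleton.elim i j) hij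

/-- A single label moves freely. -/
theorem st_single (hΦ : AdmissiblePotential M.Φ) (hε : 0 < M.ε) (a : J) (Z : J → PhasePoint)
    {t : ℝ} (ht : 0 ≤ t) : M.st {a} t Z a = onLine (Z a) t := by
  by_cases ho : M.o = some a
  · exact VLInst442.st_obstacle M ho Z
  have h1 := VLInst442.st_eq_of_lworld (M := M) hΦ hε (t := t) (A := {a}) (Z := Z)
    (VLInst442.LWorld.of_bworld (T := t) (bworld_unit (ε := M.ε) hΦ
      (fun _ : Unit => M.bb a) (Z a))) (f := fun _ => ())
    (fun i hi _ j hj _ _ => (Finset.mem_singleton.1 hi).trans (Finset.mem_singleton.1 hj).symm)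
    (fun i hi _ s _ => by rw [Finset.mem_singleton.1 hi])
    (fun i hi _ => by
      rw [Finset.mem_singleton.1 hi]
      unfold onLine
      simp)
    (fun s _ i hi _ _ k hk => absurd rfl (hk a (Finset.mem_singleton_self a) ho))
    t ⟨ht, le_rfl⟩ a (Finset.mem_singleton_self a) ho
  rw [h1]

end single

/-- A marked line extended backwards. -/
theorem onLine_back (e : ℝ × PhasePoint) (t : ℝ) : onLine (back e) t = lineAt e.1 e.2 t := by
  unfold onLine back lineAt
  refine Prod.ext ?_ rfl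
  simp only
  rw [sub_smul]
  abel

namespace OSIn

variable (h : OSIn Φ ε T P z l)
include h



theorem bb_aL : (Mo Φ T ε n P l).bb (aL n P) = l.1.1 := max_eq_left h.birth.le


variable (hΦ : AdmissiblePotential Φ) (hε : 0 < ε)
include hΦ hε

/-- The free line. -/
theorem st_aL {t : ℝ} (ht : 0 ≤ t) : (Mo Φ T ε n P l).st {aL n P} t (Zo Φ ε w z l) (aL n P) =
    lineAt l.1.1 l.1.2 t := by
  rw [st_single (M := Mo Φ T ε n P l) hΦ hε _ _ ht]
  exact onLine_back l.1 t

/-- The line at the contact. -/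
theorem state_a : (Mo Φ T ε n P l).st {aL n P} (cT ε z l) (Zo Φ ε w z l) (aL n P) =
    (cX ε z l + ε • entrancePoint (relB (cD ε z l)).1 (relB (cD ε z l)).2, (cD ε z l).1) := by
  rw [h.st_aL hΦ hε h.pos.le]
  have h1 := OC663.ent_pos hε (OneC423.relL z.1 l.1)
  refine Prod.ext ?_ rfl
  rw [← lpos_eq]
  have h2 : (OneC423.relL z.1 l.1).1 = (back l.1).1 - z.1.1 := rfl
  have h3 : (OneC423.relL z.1 l.1).2 = l.1.2.2 - z.1.2 := rfl
  rw [h2, h3] at h1
  change (back l.1).1 + cT ε z l • l.1.2.2 = z.1.1 + cT ε z l • z.1.2 +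
    ε • entrancePoint (cB ε z l) (l.1.2.2 - z.1.2)
  rw [show entrancePoint (cB ε z l) (l.1.2.2 - z.1.2) =
    entrancePoint (OC663.entB ε (OneC423.relL z.1 l.1)) (l.1.2.2 - z.1.2) from rfl, ← h1]
  change (back l.1).1 + cT ε z l • l.1.2.2 = z.1.1 + cT ε z l • z.1.2 +
    ((back l.1).1 - z.1.1 + cT ε z l • (l.1.2.2 - z.1.2))
  rw [smul_sub]
  abel

/-- The root in its class. -/
theorem st_root {t : ℝ} (ht : TreeLines335.rel P z.2 (root P) ≤ t) (htT : t ≤ T) :
    (Mo Φ T ε n P l).st (pT n P) t (Zo Φ ε w z l) (eT n P (root P)) = onLine z.1 t := by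
  rw [h.treeIn.line_tree (M := Mo Φ T ε n P l) hΦ hε (root P) ht htT, PathFlow968.fin_root]

/-- The root at the contact. -/
theorem state_c : (Mo Φ T ε n P l).st (pT n P) (cT ε z l) (Zo Φ ε w z l) (eT n P (root P)) =
    (cX ε z l, (cD ε z l).2.1) := h.st_root hΦ hε (h.rel_lt hε _).le h.le

end OSIn

/-! ### Classes -/

/-- Exit times: the tree and the line apart. -/
def bd0 (n : ℕ) (P : CTree) (z : PhasePoint × Par P) (l : ML) : Fin n ⊕ (Idx P ⊕ Unit) → ℝ :=
  Sum.elim (fun _ => 0) (Sum.elim (fun i => TreeLines335.rel P z.2 i) fun _ => l.1.1)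

/-- Exit times after the encounter of the root and the line. -/
def bd2 (Φ : Space3 → ℝ) (ε : ℝ) (n : ℕ) (P : CTree) (z : PhasePoint × Par P) (l : ML) :
    Fin n ⊕ (Idx P ⊕ Unit) → ℝ :=
  grafted Φ ε (bd0 n P z l) (aL n P) (eT n P (root P)) (cT ε z l) (cD ε z l)

theorem bd2_aL : bd2 Φ ε n P z l (aL n P) = cT ε z l + outT Φ ε (cD ε z l) := if_pos (Or.inl rfl)

theorem bd2_root : bd2 Φ ε n P z l (eT n P (root P)) = cT ε z l + outT Φ ε (cD ε z l) :=
  if_pos (Or.inr rfl)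

theorem bd2_exit {i : Idx P} (hi : i ≠ root P) :
    bd2 Φ ε n P z l (eT n P i) = TreeLines335.rel P z.2 i := by
  refine if_neg ?_
  rintro (h | h)
  · exact absurd (Sum.inr_injective h) (by simp)
  · exact hi ((eT n P).injective h)

namespace OSIn

variable (h : OSIn Φ ε T P z l)
include h

/-- The class of the free line. -/
theorem clsL : Cls (Mo Φ T ε n P l) (Zo Φ ε w z l) {aL n P} (bd0 n P z l) :=
  Cls.single (o_ne _) h.bb_aL.symm

variable (hΦ : AdmissiblePotential Φ) (hε : 0 < ε)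
include hΦ hε

/-- The class of the tree. -/
theorem clsT : Cls (Mo Φ T ε n P l) (Zo Φ ε w z l) (pT n P) (bd0 n P z l) :=
  Cls.of_tree (M := Mo Φ T ε n P l) hΦ hε h.T_pos h.treeIn fun _ => rfl

/-- **The graft of the line and the tree.** -/
theorem graft : GraftH (Mo Φ T ε n P l) (Zo Φ ε w z l) {aL n P} (pT n P) (bd0 n P z l) (aL n P)
    (eT n P (root P)) (cT ε z l) (cX ε z l) (cD ε z l) where
  cls₁ := h.clsL
  cls₂ := h.clsT hΦ hε
  disj := Finset.disjoint_singleton_left.2 aL_notMem_pT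
  ha := Finset.mem_singleton_self _
  hc := eT_mem_pT _
  lta := h.lt
  ltc := h.rel_lt hε _
  cd := h.cd
  state_a := h.state_a hΦ hε
  state_c := h.state_c hΦ hε
  lt_T := h.lt_T

/-- The part is connected. -/
theorem conn (hc : 1 ≤ c) : (Mo Φ T ε n P l).Conn c (pS n P) (Zo Φ ε w z l) :=
  (h.graft hΦ hε).Conn (M := Mo Φ T ε n P l) hε hc



omit h hΦ hε in
theorem noTwo (N : ℕ) : NoTwo (Mo Φ T ε n P l) c (Zo Φ ε w z l) (Lo n P) N :=
  fun _ _ _ _ hπ _ hπ' _ _ => (mem_Lo.1 hπ).trans (mem_Lo.1 hπ').symm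


/-- The structure is tree-like. -/
theorem tl (hc : 1 ≤ c) {N : ℕ} (hN : P.leaves + 1 ≤ N)
    (hNB : NoBad (Mo Φ T ε n P l) c ℓ ς (Zo Φ ε w z l) (Lo n P) N) :
    TL (Mo Φ T ε n P l) c ℓ ς (pS n P) (Zo Φ ε w z l) := by
  refine hNB _ (h.conn hΦ hε hc) ⟨_, mem_Lo.2 rfl, subset_rfl⟩ ?_
  have h0 : cup (pS n P) (uni (Lo n P)) = pS n P := by
    ext j
    rw [mem_cup, uni_Lo, or_self]
  refine le_trans (le_of_eq ((congrArg Finset.card h0).trans ?_)) hN
  have h1 : pS n P = (Finset.univ : Finset (Idx P ⊕ Unit)).map (strE n (Idx P ⊕ Unit)) := by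
    ext j
    rw [mem_pS, Finset.mem_map]
    exact ⟨fun ⟨x, hx⟩ => ⟨x, Finset.mem_univ _, hx.symm⟩, fun ⟨x, _, hx⟩ => ⟨x, hx.symm⟩⟩
  rw [h1, Finset.card_map, Finset.card_univ, Fintype.card_sum, Fintype.card_unit, card_idx]

variable (hTL : TL (Mo Φ T ε n P l) c ℓ ς (pS n P) (Zo Φ ε w z l)) (hc : 1 ≤ c)
  (hℓς : 2 * ℓ ≤ ς) (hlT : cT ε z l + 2 * ℓ < T)
include hTL hc hℓς hlT

/-- The encounter is a passage. -/
theorem pass : CDpass Φ (cD ε z l) ∧ outT Φ ε (cD ε z l) ≤ 2 * ℓ :=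
  (h.graft hΦ hε).pass_of (M := Mo Φ T ε n P l) hε hc hTL hℓς hΦ hlT

/-- **The part is a class**, with the exit times after the encounter. -/
theorem clsS : Cls (Mo Φ T ε n P l) (Zo Φ ε w z l) (pS n P) (bd2 Φ ε n P z l) :=
  (h.graft hΦ hε).cls (M := Mo Φ T ε n P l) hε hc hTL hℓς hΦ
    (h.pass hΦ hε hTL hc hℓς hlT).1 (by
      have h1 := (h.pass hΦ hε hTL hc hℓς hlT).2
      have h2 : cT ε z l + outT Φ ε (cD ε z l) ≤ T := by linarith
      exact h2)

/-- The line `l'`. -/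
theorem st_line' {t : ℝ} (ht : bd2 Φ ε n P z l (aL n P) ≤ t) (htT : t ≤ T) :
    (Mo Φ T ε n P l).st (pS n P) t (Zo Φ ε w z l) (aL n P) =
      lineAt (oneLs Φ ε P z l (Sum.inr false)).1.1 (oneLs Φ ε P z l (Sum.inr false)).1.2 t := by
  rw [bd2_aL] at ht
  have h1 := (h.pass hΦ hε hTL hc hℓς hlT).2
  exact (h.graft hΦ hε).line_a (M := Mo Φ T ε n P l) hε hc hTL hℓς hΦ
    (h.pass hΦ hε hTL hc hℓς hlT).1 (by
      have h2 : cT ε z l + outT Φ ε (cD ε z l) ≤ T := by linarith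
      exact h2) ht htT

/-- The line `c'`. -/
theorem st_root' {t : ℝ} (ht : bd2 Φ ε n P z l (eT n P (root P)) ≤ t) (htT : t ≤ T) :
    (Mo Φ T ε n P l).st (pS n P) t (Zo Φ ε w z l) (eT n P (root P)) =
      lineAt (oneLs Φ ε P z l (Sum.inr true)).1.1 (oneLs Φ ε P z l (Sum.inr true)).1.2 t := by
  rw [bd2_root] at ht
  have h1 := (h.pass hΦ hε hTL hc hℓς hlT).2
  exact (h.graft hΦ hε).line_c (M := Mo Φ T ε n P l) hε hc hTL hℓς hΦ
    (h.pass hΦ hε hTL hc hℓς hlT).1 (by
      have h2 : cT ε z l + outT Φ ε (cD ε z l) ≤ T := by linarith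
      exact h2) ht htT

/-- The exits. -/
theorem st_exit' {i : Idx P} (hi : i ≠ root P) {t : ℝ} (ht : bd2 Φ ε n P z l (eT n P i) ≤ t)
    (htT : t ≤ T) : (Mo Φ T ε n P l).st (pS n P) t (Zo Φ ε w z l) (eT n P i) =
      lineAt (oneLs Φ ε P z l (Sum.inl i)).1.1 (oneLs Φ ε P z l (Sum.inl i)).1.2 t := by
  rw [bd2_exit hi] at ht
  have e1 : (Mo Φ T ε n P l).st (pS n P) t (Zo Φ ε w z l) (eT n P i) =
      (Mo Φ T ε n P l).st (pT n P) t (Zo Φ ε w z l) (eT n P i) :=
    (h.graft hΦ hε).st₂ (M := Mo Φ T ε n P l) hε hc hTL hℓς hΦ (eT_mem_pT i)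
      (fun h' => hi ((eT n P).injective h')) htT
  rw [e1, h.treeIn.line_tree (M := Mo Φ T ε n P l) hΦ hε i ht htT, oneLs_exit hi, ← onLine_back,
    back_lineML]
  rfl

end OSIn

/-! ### Labels of the lines -/

/-- Labels of the lines of the structure after the encounter: exits, the root (`c'`), the line
(`l'`). -/
def gO (P : CTree) : Idx P ⊕ Bool → Idx P ⊕ Unit
  | Sum.inl i => Sum.inl i
  | Sum.inr false => Sum.inr ()
  | Sum.inr true => Sum.inl (root P)

/-- The family after the encounter. -/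
def F2 (P : CTree) : Finset (Idx P ⊕ Bool) :=
  insert (Sum.inr false) (insert (Sum.inr true) (exS P))

theorem mem_F2 {x : Idx P ⊕ Bool} : x ∈ F2 P ↔
    x = Sum.inr false ∨ x = Sum.inr true ∨ ∃ i, i ≠ root P ∧ x = Sum.inl i := by
  unfold F2
  rw [Finset.mem_insert, Finset.mem_insert]
  refine or_congr_right (or_congr_right ?_)
  rcases x with i | b
  · rw [mem_exS]
    exact ⟨fun h => ⟨i, h, rfl⟩, fun ⟨j, h, hj⟩ => by rw [Sum.inl_injective hj]; exact h⟩
  · exact ⟨fun h => absurd h inr_not_mem_exS, fun ⟨j, _, hj⟩ => by cases hj⟩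

theorem gO_inj {x y : Idx P ⊕ Bool} (hx : x ∈ F2 P) (hy : y ∈ F2 P) (h : gO P x = gO P y) :
    x = y := by
  rcases mem_F2.1 hx with rfl | rfl | ⟨i, hi, rfl⟩ <;>
    rcases mem_F2.1 hy with rfl | rfl | ⟨j, hj, rfl⟩
  · rfl
  · exact absurd h (by simp [gO])
  · exact absurd h (by simp [gO])
  · exact absurd h (by simp [gO])
  · rfl
  · exact absurd (Sum.inl_injective h).symm hj
  · exact absurd h (by simp [gO])
  · exact absurd (Sum.inl_injective h) hi
  · exact congrArg Sum.inl (Sum.inl_injective h)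

theorem bd2_gO {x : Idx P ⊕ Bool} (hx : x ∈ F2 P) :
    (oneLs Φ ε P z l x).1.1 = bd2 Φ ε n P z l (Sum.inr (gO P x)) := by
  rcases mem_F2.1 hx with rfl | rfl | ⟨i, hi, rfl⟩
  · exact bd2_aL.symm
  · exact bd2_root.symm
  · rw [oneLs_exit hi]
    exact (bd2_exit hi).symm

namespace OSIn

variable (h : OSIn Φ ε T P z l) (hΦ : AdmissiblePotential Φ) (hε : 0 < ε)
include h hΦ hε

variable (hTL : TL (Mo Φ T ε n P l) c ℓ ς (pS n P) (Zo Φ ε w z l)) (hc : 1 ≤ c)
  (hℓς : 2 * ℓ ≤ ς) (hlT : cT ε z l + 2 * ℓ < T)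
include hTL hc hℓς hlT

/-- **The lines of the structure are the isolated paths after the exit times.** -/
theorem st_gO {x : Idx P ⊕ Bool} (hx : x ∈ F2 P) {t : ℝ}
    (ht : bd2 Φ ε n P z l (Sum.inr (gO P x)) ≤ t) (htT : t ≤ T) :
    (Mo Φ T ε n P l).st (pS n P) t (Zo Φ ε w z l) (Sum.inr (gO P x)) =
      lineAt (oneLs Φ ε P z l x).1.1 (oneLs Φ ε P z l x).1.2 t := by
  rcases mem_F2.1 hx with rfl | rfl | ⟨i, hi, rfl⟩
  · exact h.st_line' hΦ hε hTL hc hℓς hlT ht htT
  · exact h.st_root' hΦ hε hTL hc hℓς hlT ht htT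
  · exact h.st_exit' hΦ hε hTL hc hℓς hlT hi ht htT

end OSIn

end Crest.Agent.R122.LNOS515

end
private theorem rz_fea6743096 : type_of% @_root_.Crest.Agent.R122.LNOS515.gO.eq_1 := @_root_.Crest.Agent.R122.LNOS515.gO.eq_1 -- L483
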