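import Crest.Agent.R122.LNOSb_515
import Crest.Agent.R122.LNCls_515
import Crest.Agent.R122.LNNear_383
import Crest.Agent.R122.E4Hyp_879
import Crest.Agent.R122.EncFar_45

/-!
# Row 122, LN1: the instance (OS), events (helper515)

* `RAO` : output of the deterministic theory for a tree and a line which meets its root: no bad
  structure, all lines (tree lines in `w`, `w + d`; `l'`, `c'`, exits in `w`, `w + d`) reach only their
  groups.
* `RAO.o1`, `RAO.o2` : the lines of the tree are pairwise unlinked in `w`, `w + d`.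
* `RAO.e4Hyp` : the lines `l'`, `c'`, exits: helper879's `E4Hyp` ((o3), (o4)).
* `RAO.e4Hyp1` : the same interface for the lines of the tree.
* `RAO.cf`, `RAO.line` : near-line events of the exits (fields `cf`, `line` of helper45's `EncParts`).
-/

set_option autoImplicit false
set_option linter.unusedSectionVars false

open MeasureTheory Set Filter
open scoped ENNReal Topology
open Crest.AnalysisR.Kinetic
open Crest.Agent.R122.GIV566 Crest.Agent.R122.VL581 Crest.Agent.R122.LN304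
open Crest.Agent.R122.LNTree410 Crest.Agent.R122.PWInst442 Crest.Agent.R122.PWGlue491
open Crest.Agent.R122.LNPart424 Crest.Agent.R122.EDefs602 Crest.Agent.R122.TreeLines335
open Crest.Agent.R122.Kin796 Crest.Agent.R122.Kin796.CTree Crest.Agent.R122.Tree674
open Crest.Agent.R122.Loc45 Crest.Agent.R122.Ins45 Crest.Agent.R122.LNg410
open Crest.Agent.R122.Scat818 Crest.Agent.R122.OCout796 Crest.Agent.R122.Inf879
open Crest.Agent.R122.LNGraft410 Crest.Agent.R122.MWFam255 Crest.Agent.R122.LNEv968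
open Crest.Agent.R122.LNEv818 Crest.Agent.R122.LNEv383 Crest.Agent.R122.LNCls515
open Crest.Agent.R122.OneC285 (lpos cT cB cD cX oneLs exS)

noncomputable section

namespace Crest.Agent.R122.LNOS515

open scoped Classical

variable {Φ : Space3 → ℝ} {ε T te c ℓ ς : ℝ} {K N n : ℕ} {P : CTree} {z : PhasePoint × Par P}
  {w : Config n} {l : ML}

/-- Everything which is influenced by the line `x` (label `p`) is reached, base world `Z`. -/
abbrev RaO (Φ : Space3 → ℝ) (T te c ε : ℝ) (K N : ℕ) {n : ℕ} {P : CTree}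
    (z : PhasePoint × Par P) (w : Config n) (l : ML) {ι : Type} [Fintype ι] (Z : MW ι)
    (lab : ι → Fin n ⊕ (Idx P ⊕ Unit)) (x : ML) (p : Idx P ⊕ Unit) : Prop :=
  ReachAll (Reach (Mo Φ T ε n P l) c (Zo Φ ε w z l) (Lo n P) (pS n P) (Sum.inr p) N) Φ ε K te Z
    lab x (Sum.inr p)

/-- Labels of `w + d`. -/
abbrev labD (n : ℕ) {P : CTree} (d : Idx P) : Fin n ⊕ Unit → Fin n ⊕ (Idx P ⊕ Unit) :=
  fun i => lab1 n (Sum.inl d : Idx P ⊕ Unit) i

/-- **Output of the deterministic theory** for the structure (OS). -/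
structure RAO (Φ : Space3 → ℝ) (T te c ℓ ς ε : ℝ) (K N : ℕ) {n : ℕ} {P : CTree}
    (z : PhasePoint × Par P) (w : Config n) (l : ML) : Prop where
  noBad : NoBad (Mo Φ T ε n P l) c ℓ ς (Zo Φ ε w z l) (Lo n P) (N + N + (N + N))
  size : P.leaves + 1 ≤ N
  /-- tree lines, root included, in `w` -/
  a : ∀ i : Idx P, RaO Φ T te c ε K N z w l (MW.cfg w) Sum.inl (lineML Φ ε P z i) (Sum.inl i)
  /-- tree lines in `w + d` -/
  ad : ∀ d : Idx P, d ≠ root P → ∀ i : Idx P, i ≠ d →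
    RaO Φ T te c ε K N z w l ((MW.cfg w).ins (lineML Φ ε P z d)) (labD n d) (lineML Φ ε P z i)
      (Sum.inl i)
  /-- `l'`, `c'` in `w` -/
  b : ∀ x : Bool, RaO Φ T te c ε K N z w l (MW.cfg w) Sum.inl (oneLs Φ ε P z l (Sum.inr x))
    (gO P (Sum.inr x))
  /-- `l'`, `c'` in `w + d` -/
  bd : ∀ d : Idx P, d ≠ root P → ∀ x : Bool,
    RaO Φ T te c ε K N z w l ((MW.cfg w).ins (lineML Φ ε P z d)) (labD n d)
      (oneLs Φ ε P z l (Sum.inr x)) (gO P (Sum.inr x))

/-- Members of `F \ d` (the instance of the general theorems). -/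
theorem mem_er {κ : Type} {F : Finset κ} {d : κ} (x : (F.erase d : Finset κ)) :
    (x : κ) ∈ F ∧ (x : κ) ≠ d := ⟨Finset.mem_of_mem_erase x.2, (Finset.mem_erase.1 x.2).1⟩

theorem labD_inj (d : Idx P) : Function.Injective (labD n d) := (lab1 n _).injective

theorem labD_ne {d : Idx P} {p : Idx P ⊕ Unit} (h : p ≠ Sum.inl d) (i : Fin n ⊕ Unit) :
    labD n d i ≠ Sum.inr p := lab1_ne h.symm i

theorem gO_ne {d : Idx P} (hd : d ≠ root P) {x : Idx P ⊕ Bool} (hx : x ∈ F2 P)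
    (hxd : x ≠ Sum.inl d) : gO P x ≠ Sum.inl d := by
  rcases mem_F2.1 hx with rfl | rfl | ⟨i, hi, rfl⟩
  · exact fun h => by cases h
  · exact fun h => hd (Sum.inl_injective h).symm
  · exact fun h => hxd (congrArg Sum.inl (Sum.inl_injective h))

namespace RAO

variable (h : RAO Φ T te c ℓ ς ε K N z w l)
include h

theorem nb {N' : ℕ} (hN : N' ≤ N + N + (N + N)) :
    NoBad (Mo Φ T ε n P l) c ℓ ς (Zo Φ ε w z l) (Lo n P) N' := Bind302.noBad_mono h.noBad hN

/-- All lines of the second family. -/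
theorem b' {x : Idx P ⊕ Bool} (hx : x ∈ F2 P) :
    RaO Φ T te c ε K N z w l (MW.cfg w) Sum.inl (oneLs Φ ε P z l x) (gO P x) := by
  rcases mem_F2.1 hx with rfl | rfl | ⟨i, hi, rfl⟩
  · exact h.b false
  · exact h.b true
  · rw [oneLs_exit hi]
    exact h.a i

theorem bd' {d : Idx P} (hd : d ≠ root P) {x : Idx P ⊕ Bool} (hx : x ∈ F2 P)
    (hxd : x ≠ Sum.inl d) :
    RaO Φ T te c ε K N z w l ((MW.cfg w).ins (lineML Φ ε P z d)) (labD n d) (oneLs Φ ε P z l x)
      (gO P x) := by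
  rcases mem_F2.1 hx with rfl | rfl | ⟨i, hi, rfl⟩
  · exact h.bd d hd false
  · exact h.bd d hd true
  · rw [oneLs_exit hi]
    exact h.ad d hd i fun hid => hxd (congrArg Sum.inl hid)

variable (hi : OSIn Φ ε T P z l) (hΦ : AdmissiblePotential Φ) (hε : 0 < ε) (hc : 1 ≤ c)
  (hℓς : 2 * ℓ ≤ ς)
include hi hΦ hε hc hℓς

theorem tl : TL (Mo Φ T ε n P l) c ℓ ς (pS n P) (Zo Φ ε w z l) :=
  hi.tl hΦ hε hc h.size (h.nb (by omega))

variable (hte : te ≤ T)
include hte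

/-- Tree lines over a base world. -/
theorem pairR {ι μ : Type} [Fintype ι] [Fintype μ] {Z : MW ι} {lab : ι → Fin n ⊕ (Idx P ⊕ Unit)}
    (hlab : Function.Injective lab) {g : μ → Idx P} (hg : Function.Injective g)
    (hlg : ∀ x i, lab i ≠ Sum.inr (Sum.inl (g x))) (hZ : Z.Ok Φ ε)
    (hOk : ∀ x, (Z.ins (lineML Φ ε P z (g x))).Ok Φ ε)
    (hRA : ∀ x, RaO Φ T te c ε K N z w l Z lab (lineML Φ ε P z (g x)) (Sum.inl (g x))) :
    PairNL Φ ε K te Z fun x => lineML Φ ε P z (g x) := by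
  refine pairNL_cls (M := Mo Φ T ε n P l) (c := c) (ℓ := ℓ) (ς := ς) (Zc := Zo Φ ε w z l)
    (Λ := Lo n P) (π := pS n P) (S := pT n P) (bD := bd0 n P z l) (N := N)
    (g := fun x => (Sum.inr (Sum.inl (g x)) : Fin n ⊕ (Idx P ⊕ Unit))) hΦ hε rfl hte hc hℓς
    (partR_of_fam (hi.famR hΦ hε hc)) (mem_Lo.2 rfl) (fun π hπ => ?_) (hi.clsT hΦ hε) pT_sub
    (fun j hj k hk hjk r _ hr => hi.oldR hΦ hε hj hk hjk hr) ⟨?_, ?_, ?_, ?_⟩ hlab hlg hZ hOk
    h.noBad (OSIn.noTwo _) hRA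
  · rw [mem_Lo.1 hπ]
    exact hi.conn hΦ hε hc
  · exact fun x y hxy => hg (Sum.inl_injective (Sum.inr_injective hxy))
  · exact fun x => eT_mem_pT (g x)
  · exact fun x => rfl
  · intro x t ht htT
    have h1 := hi.treeIn.line_tree (M := Mo Φ T ε n P l) (Z := Zo Φ ε w z l) hΦ hε (g x) ht htT
    have h2 := onLine_back (lineML Φ ε P z (g x)).1 t
    rw [back_lineML] at h2
    exact h1.trans h2

/-- **(o1)** : the lines of the tree are pairwise unlinked in `w`. -/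
theorem o1 (hOk : MW.OkFam Φ ε (MW.cfg w) (lineML Φ ε P z)) :
    PairNL Φ ε K te (MW.cfg w) (fun i : Idx P => lineML Φ ε P z i) :=
  h.pairR hi hΦ hε hc hℓς hte (g := fun i : Idx P => i) Sum.inl_injective
    Function.injective_id (fun _ _ h' => by cases h') (hOk.base hΦ hε)
    (fun x => hOk.line hΦ hε x) h.a

/-- **(o2)** : the lines of the tree are pairwise unlinked in `w + d`. -/
theorem o2 (hOk : MW.OkFam Φ ε (MW.cfg w) (lineML Φ ε P z)) {d : Idx P} (hd : d ≠ root P) :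
    PairNL Φ ε K te ((MW.cfg w).ins (lineML Φ ε P z d))
      (fun i : {i : Idx P // i ≠ d} => lineML Φ ε P z i.1) :=
  h.pairR hi hΦ hε hc hℓς hte (g := fun i : {i : Idx P // i ≠ d} => i.1) (labD_inj d)
    Subtype.val_injective (fun x i => labD_ne (fun h' => x.2 (Sum.inl_injective h')) i)
    (hOk.line hΦ hε d)
    (fun x => ok_lines_add hΦ hε hOk ⟨fun _ : Unit => d, fun _ _ _ => rfl⟩
      ⟨fun _ : Unit => x.1, fun _ _ _ => rfl⟩ fun _ _ => x.2.symm)
    fun x => h.ad d hd x.1 x.2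


/-! ### The lines after the encounter -/

variable (hlT : cT ε z l + 2 * ℓ < T)
include hlT

/-- The lines `l'`, `c'`, exits over a base world. -/
theorem pairP {ι μ : Type} [Fintype ι] [Fintype μ] {Z : MW ι} {lab : ι → Fin n ⊕ (Idx P ⊕ Unit)}
    (hlab : Function.Injective lab) {g : μ → Idx P ⊕ Bool} (hg : Function.Injective g)
    (hgF : ∀ x, g x ∈ F2 P) (hlg : ∀ x i, lab i ≠ Sum.inr (gO P (g x))) (hZ : Z.Ok Φ ε)
    (hOk : ∀ x, (Z.ins (oneLs Φ ε P z l (g x))).Ok Φ ε)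
    (hRA : ∀ x, RaO Φ T te c ε K N z w l Z lab (oneLs Φ ε P z l (g x)) (gO P (g x))) :
    PairNL Φ ε K te Z fun x => oneLs Φ ε P z l (g x) := by
  have hTL := h.tl hi hΦ hε hc hℓς
  refine pairNL_cls (M := Mo Φ T ε n P l) (c := c) (ℓ := ℓ) (ς := ς) (Zc := Zo Φ ε w z l)
    (Λ := Lo n P) (π := pS n P) (S := pS n P) (bD := bd2 Φ ε n P z l) (N := N)
    (g := fun x => (Sum.inr (gO P (g x)) : Fin n ⊕ (Idx P ⊕ Unit))) hΦ hε rfl hte hc hℓς
    (partR_of_fam (hi.famP hΦ hε hTL hc hℓς hlT)) (mem_Lo.2 rfl) (fun π hπ => ?_)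
    (hi.clsS hΦ hε hTL hc hℓς hlT) subset_rfl
    (fun j _ k _ hjk r _ hr => hi.oldP hΦ hε hTL hc hℓς hlT hjk hr) ⟨?_, ?_, ?_, ?_⟩ hlab hlg hZ
    hOk h.noBad (OSIn.noTwo _) hRA
  · rw [mem_Lo.1 hπ]
    exact hi.conn hΦ hε hc
  · exact fun x y hxy => hg (gO_inj (hgF x) (hgF y) (Sum.inr_injective hxy))
  · exact fun x => inr_mem_pS _
  · exact fun x => bd2_gO (hgF x)
  · exact fun x t ht htT => hi.st_gO hΦ hε hTL hc hℓς hlT (hgF x) ht htT

/-- **(o3), (o4)** : the interface of helper879 for the lines `l'`, `c'`, exits. -/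
theorem e4Hyp (hOk : MW.OkFam Φ ε (MW.cfg w) (fun x : F2 P => oneLs Φ ε P z l x)) :
    E4Hyp879.E4Hyp Φ ε K te (MW.cfg w) (oneLs Φ ε P z l) (exS P) (F2 P) where
  ok := hOk
  nl := h.pairP hi hΦ hε hc hℓς hte hlT (g := fun x : F2 P => (x : Idx P ⊕ Bool))
    Sum.inl_injective Subtype.val_injective (fun x => x.2) (fun _ _ h' => by cases h')
    (hOk.base hΦ hε) (fun x => hOk.line hΦ hε x) fun x => h.b' x.2
  nld d hd := by
    obtain ⟨i, rfl⟩ : ∃ i, d = Sum.inl i := by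
      rcases d with i | b
      · exact ⟨i, rfl⟩
      · exact absurd hd inr_not_mem_exS
    have hir : i ≠ root P := mem_exS.1 hd
    have hdF : (Sum.inl i : Idx P ⊕ Bool) ∈ F2 P := mem_F2.2 (Or.inr (Or.inr ⟨i, hir, rfl⟩))
    have hOk' := E4Hyp879.okFam_ins hΦ hε hOk hdF
    rw [oneLs_exit hir] at hOk' ⊢
    refine h.pairP hi hΦ hε hc hℓς hte hlT (labD_inj i) Subtype.val_injective
      (fun x => (mem_er x).1) (fun x k => labD_ne (gO_ne hir (mem_er x).1 (mem_er x).2) k)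
      (hOk'.base hΦ hε) (fun x => hOk'.line hΦ hε x) fun x => h.bd' hir (mem_er x).1 (mem_er x).2

omit hlT

/-! ### Near-line events -/

/-- helper383's hypotheses. -/
theorem near (hOk : MW.OkFam Φ ε (MW.cfg w) (lineML Φ ε P z)) {i : Idx P} (hir : i ≠ root P)
    {r : ℝ} (hr : r ≤ c * ε) :
    NearHyp (Mo Φ T ε n P l) c ℓ ς (Zo Φ ε w z l) (Lo n P) (pS n P) (pT n P) (eT n P i)
      (eT n P (root P)) N
      (LNFam255.RG (Mo Φ T ε n P l) (Zo Φ ε w z l) {aL n P} (pT n P) (aL n P) (eT n P (root P))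
        (cT ε z l)) Φ ε te K (MW.cfg w) Sum.inl (lineML Φ ε P z i) r where
  hΦ := hΦ
  hε := hε
  okZ := hOk.base hΦ hε
  okZl := hOk.line hΦ hε i
  hMε := rfl
  hTM := hte
  hc := hc
  hr := hr
  hℓς := hℓς
  conn := hi.conn hΦ hε hc
  noBad := h.nb (by omega)
  part := mem_Lo.2 rfl
  mem := eT_mem i
  m₀B := eT_mem_pT _
  Bπ := pT_sub
  m₀a := fun h' => hir ((eT n P).injective h').symm
  obs := o_ne _
  okB v hv := VLInst442.ok_anti (hv.2.trans hte) (hi.clsT hΦ hε).ok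
  labNe _ h' := by cases h'
  fam := hi.famR hΦ hε hc
  old s hs := (hi.oldR hΦ hε (eT_mem_pT i) (eT_mem_pT _)
    (fun h' => hir ((eT n P).injective h')) hs).1
  b0 := rel_nonneg hε.le hi.valid.2 i
  reach := h.a i

/-- **(o5)(a)** : field `cf` of helper45's `EncParts`. -/
theorem cf (hOk : MW.OkFam Φ ε (MW.cfg w) (lineML Φ ε P z)) {R : ℝ} (hR : R + 2 ≤ c)
    (hor : cT ε z l + ε * R ≤ te)
    (hunt : ∀ j, j ≠ root P →
      cT ε z l + ε * R < (MW.cfg w).thetaL Φ ε K te (lineML Φ ε P z j)) :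
    ∀ t, cT ε z l ≤ t → t ≤ cT ε z l + ε * R → ∀ j, j ≠ root P → ∀ k,
      CF Φ ε K (MW.cfg w) (MW.line (lineML Φ ε P z j)) t k →
      (R + 2) * ε < dist (((MW.cfg w).ins (lineML Φ ε P z j)).path Φ ε t (Sum.inl k)).1
        (z.1.1 + t • z.1.2) := by
  intro t ht ht' j hj k hk
  have h1 := h.near hi hΦ hε hc hℓς hte hOk hj (r := (R + 2) * ε) (by nlinarith)
  have h2 := (h1.influenced ⟨hi.pos.le.trans ht, ht'.trans hor⟩
    (ht'.trans (hunt j hj).le) hk).1
  rwa [hi.st_root hΦ hε ((hi.rel_lt hε _).le.trans ht) (ht'.trans (hor.trans hte))] at h2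

/-- **(o5)(b)** : field `line` of helper45's `EncParts`. -/
theorem line (hOk : MW.OkFam Φ ε (MW.cfg w) (lineML Φ ε P z)) {R : ℝ} (hR : R + 2 ≤ c)
    (hor : cT ε z l + ε * R ≤ te)
    (hunt : ∀ j, j ≠ root P →
      cT ε z l + ε * R < (MW.cfg w).thetaL Φ ε K te (lineML Φ ε P z j)) :
    ∀ t, cT ε z l ≤ t → t ≤ cT ε z l + ε * R → ∀ j, j ≠ root P →
      (∃ r k, r < t ∧ ((MW.cfg w).ins (lineML Φ ε P z j)).C Φ ε r (Sum.inr ()) (Sum.inl k)) →
      (R + 2) * ε < dist (((MW.cfg w).ins (lineML Φ ε P z j)).path Φ ε t (Sum.inr ())).1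
        (z.1.1 + t • z.1.2) := by
  rintro t ht ht' j hj ⟨r, k, hrt, hk⟩
  have h1 := h.near hi hΦ hε hc hℓς hte hOk hj (r := (R + 2) * ε) (by nlinarith)
  have h3 := hunt j hj
  have h2 := h1.altered ⟨hi.pos.le.trans ht, ht'.trans hor⟩
    (ht'.trans h3.le) (s := r) (hrt.trans_le ht' |>.trans h3) hrt.le hk
  rwa [hi.st_root hΦ hε ((hi.rel_lt hε _).le.trans ht) (ht'.trans (hor.trans hte))] at h2

end RAO


end Crest.Agent.R122.LNOS515

end
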