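import Crest.Agent.R122.LNWRW_291

/-!
# Corollaries of the W-core of LN1 (row 122)

Let `(X, C)` be a real world over `M` (`RW`), `P` connected and tree-like.

* `hist_bcF`: contacts explored from `(x, v)`, `bcF C x v ⊆ P`, are virtual contacts through
  `bcF C x v`; `conn_bcF`: `bcF C x v` is connected.
* strict versions for `preF C x v ⊆ P`, `0 < v ≤ T`: `agr_of_TL`, `state_preF`, `preF_act`,
  `hist_preF`, `conn_preF`.
* `vct_of_contact`: a contact of `x` and `y` at time `v` is a virtual contact of their strict pasts.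
-/

set_option autoImplicit false
set_option linter.unusedSectionVars false

open MeasureTheory Set Filter Topology
open scoped NNReal ENNReal
open Crest.AnalysisR.Kinetic
open Crest.Agent.R122.Flow671 Crest.Agent.R122.Ins45 Crest.Agent.R122.VLInst442
open Crest.Agent.R122.GIV566 Crest.Agent.R122.VL581 Crest.Agent.R122.VL581.VSys
open Crest.Agent.R122.LNg410 Crest.Agent.R122.LN304
open Crest.Agent.R122.Causal291 Crest.Agent.R122.LinkD331
open scoped Classical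

noncomputable section

namespace Crest.Agent.R122.LNW291

variable {J κ : Type} [Fintype J] {M : VSys J κ} {c ℓ ς : ℝ} {P : Finset J} {Z : J → PhasePoint}
  {X : ℝ → J → PhasePoint} {C : ℝ → J → J → Prop}

/-- A path of the exploration leaves every set containing the root but not the end. -/
theorem exists_cross {x k : J} {v s : ℝ} (h : Past C v x s k) (hs : 0 ≤ s) {Q : Finset J}
    (hx : x ∈ Q) (hk : k ∉ Q) :
    ∃ u ∈ Icc 0 v, ∃ p q, Past C v x u p ∧ C u p q ∧ p ∈ Q ∧ q ∉ Q := by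
  induction h with
  | root _ => exact absurd hx hk
  | @step s s' i j h' hc hss ih =>
    by_cases hi : i ∈ Q
    · exact ⟨s', ⟨hs.trans hss, h'.le⟩, i, j, h', hc, hi, hk⟩
    · exact ih (hs.trans hss) hi

theorem self_mem_bcF {x : J} {v : ℝ} (hv : 0 ≤ v) : x ∈ bcF C x v := mem_bcF.2 (.root hv)

theorem self_mem_preF {x : J} {v : ℝ} (hv : 0 < v) : x ∈ preF C x v :=
  mem_preF.2 ⟨0, hv, .root le_rfl⟩

theorem preF_subset_bcF {x : J} {v : ℝ} : preF C x v ⊆ bcF C x v := fun k hk => by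
  obtain ⟨s, hs, h⟩ := mem_preF.1 hk
  exact mem_bcF.2 (past_mono_time hs.le h)

theorem bcF_subset_preF {x : J} {s v : ℝ} (h : s < v) : bcF C x s ⊆ preF C x v := fun _ hk =>
  mem_preF.2 ⟨s, h, mem_bcF.1 hk⟩

variable (hΦ : AdmissiblePotential M.Φ) (hε : 0 < M.ε) [Nonempty κ] (hW : RW M Z X C)
  (hc : 1 ≤ c) (hℓ : 2 * ℓ ≤ ς) (hConn : M.Conn c P Z) (hTL : TL M c ℓ ς P Z)

include hΦ hε hW hc hℓ hConn hTL

/-- The explored contacts are virtual contacts through the past. -/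
theorem hist_bcF {x : J} {v : ℝ} (hv : v ∈ Icc 0 M.T) (hP : bcF C x v ⊆ P) {u : ℝ}
    (hu : u ∈ Icc 0 v) {p q : J} (hpq : p ≠ q) (hp : Past C v x u p) (h : C u p q) :
    vc M c (bcF C x v) Z p q u := by
  have hw := (wcore hΦ hε hW hc hℓ P hConn hTL x v hv hP).1
  have hq : Past C v x u q := hp.contact h
  obtain ⟨h1, h2, h3⟩ := hW.geo u p q hpq h
  have h4 := h3.2.2.2
  rw [hw u hu p hp, hw u hu q hq] at h4
  have huT : u ≤ M.T := hu.2.trans hv.2
  have hok : M.ok (bcF C x v) u Z := ok_anti huT (hTL.1 _ hP)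
  exact ⟨⟨hu.1, huT⟩, vct_of_dist hε hc (Finset.Subset.refl _) (Finset.Subset.refl _)
    (mem_bcF.2 (hp.mono hu.1)) (mem_bcF.2 (hq.mono hu.1)) h1 h2 hok hok h4⟩

/-- The past is connected. -/
theorem conn_bcF {x : J} {v : ℝ} (hv : v ∈ Icc 0 M.T) (hP : bcF C x v ⊆ P) :
    M.Conn c (bcF C x v) Z := by
  refine ⟨⟨x, self_mem_bcF hv.1⟩, fun Q hQ hne hneP => ?_⟩
  obtain ⟨y, hy, hyQ⟩ := Finset.exists_of_ssubset (Finset.ssubset_iff_subset_ne.2 ⟨hQ, hneP⟩)
  by_cases hx : x ∈ Q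
  · obtain ⟨u, hu, p, q, hp, hpq, hpQ, hqQ⟩ := exists_cross (mem_bcF.1 hy) le_rfl hx hyQ
    have hq : Past C v x u q := hp.contact hpq
    have h1 := hist_bcF hΦ hε hW hc hℓ hConn hTL hv hP hu (fun h : p = q => hqQ (h ▸ hpQ)) hp hpq
    exact ⟨p, hpQ, q, Finset.mem_sdiff.2 ⟨mem_bcF.2 (hq.mono hu.1), hqQ⟩, u, h1.1, h1.2⟩
  · obtain ⟨w, hw⟩ := hne
    obtain ⟨u, hu, p, q, hp, hpq, hpQ, hqQ⟩ := exists_cross (Q := (bcF C x v) \ Q)
      (mem_bcF.1 (hQ hw)) le_rfl (Finset.mem_sdiff.2 ⟨self_mem_bcF hv.1, hx⟩)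
      (fun h => (Finset.mem_sdiff.1 h).2 hw)
    have hq : Past C v x u q := hp.contact hpq
    have hqV : q ∈ bcF C x v := mem_bcF.2 (hq.mono hu.1)
    have hqQ' : q ∈ Q := by
      by_contra hn
      exact hqQ (Finset.mem_sdiff.2 ⟨hqV, hn⟩)
    have h1 := hist_bcF hΦ hε hW hc hℓ hConn hTL hv hP hu
      (fun h : p = q => hqQ (h ▸ hpQ)) hp hpq
    exact ⟨q, hqQ', p, hpQ, u, h1.1, vct_symm h1.2⟩

/-! ### Strict pasts -/

/-- Just before `v` the past is `preF C x v`. -/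
theorem exists_left' {x : J} {v : ℝ} (hv0 : 0 < v) (hvT : v ≤ M.T) (hP : preF C x v ⊆ P) :
    ∃ s₀, 0 ≤ s₀ ∧ s₀ < v ∧ ∀ s ∈ Ico s₀ v, bcF C x s = preF C x v ∧
      (gw M c P Z X C).Real s x := by
  obtain ⟨s₀, h0, h1, h2⟩ := GW.real_pre (gw_ok hΦ hε hW hc hTL.1) (gw_tl hConn hTL hℓ) hv0 hvT
    (k := x) (fun k hk => hP (mem_preF.2 hk))
  refine ⟨s₀, h0, h1, fun s hs => ⟨?_, (h2 s hs).2⟩⟩
  ext k
  rw [mem_bcF, mem_preF]
  have h3 := (h2 s hs).1
  exact ⟨fun h => (h3 ▸ h : k ∈ pre C v x), fun h => (h3.symm ▸ (h : k ∈ pre C v x) : k ∈ BC C s x)⟩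

/-- Agreement of the strict past with its isolated world. -/
theorem agr_of_TL {x : J} {v : ℝ} (hv0 : 0 < v) (hvT : v ≤ M.T) (hP : preF C x v ⊆ P) :
    Agr M Z X C x v := by
  intro s hs k hk
  obtain ⟨s', hs', hk⟩ := hk
  have h := (GW.real_pre' (gw_ok hΦ hε hW hc hTL.1) (gw_tl hConn hTL hℓ) hv0 hvT
    (k := x) (fun k hk => hP (mem_preF.2 hk)) hs.1 (j := k)).1 ⟨s', hs'.2, hk⟩
  change X s k = M.st (pre C v x).toFinset s Z k at h
  rwa [toFinset_pre] at h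


/-- The state of the root at the end of its strict past. -/
theorem state_preF {x : J} {v : ℝ} (hv0 : 0 < v) (hvT : v ≤ M.T) (hP : preF C x v ⊆ P) :
    X v x = M.st (preF C x v) v Z x := by
  have h := GW.state_pre (gw_ok hΦ hε hW hc hTL.1) (gw_tl hConn hTL hℓ) hv0 hvT
    (k := x) (fun k hk => hP (mem_preF.2 hk))
  change X v x = M.st (pre C v x).toFinset v Z x at h
  rwa [toFinset_pre] at h


/-- Contacts explored strictly before `v` are virtual contacts through the strict past. -/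
theorem hist_preF {x : J} {v : ℝ} (hv0 : 0 < v) (hvT : v ≤ M.T) (hP : preF C x v ⊆ P) {u : ℝ}
    (hu : 0 ≤ u) {p q : J} (hpq : p ≠ q) (hp : p ∈ Inf879.pre C x v u) (h : C u p q) :
    vc M c (preF C x v) Z p q u := by
  obtain ⟨s₀, h0, h1, h2⟩ := exists_left' hΦ hε hW hc hℓ hConn hTL hv0 hvT hP
  obtain ⟨s', hs', hp⟩ := hp
  have hm : max s' s₀ ∈ Ico s₀ v := ⟨le_max_right _ _, max_lt hs'.2 h1⟩
  have hp' : Past C (max s' s₀) x u p := past_mono_time (le_max_left _ _) hp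
  have h3 := (h2 _ hm).1
  have h4 := hist_bcF hΦ hε hW hc hℓ hConn hTL (x := x) (v := max s' s₀)
    ⟨h0.trans hm.1, hm.2.le.trans hvT⟩ (by rw [h3]; exact hP) ⟨hu, hp'.le⟩ hpq hp' h
  rwa [h3] at h4

/-- A contact at time `v` is a virtual contact of the strict pasts. -/
theorem vct_of_contact {x y : J} {v : ℝ} (hv0 : 0 < v) (hvT : v ≤ M.T) (hPx : preF C x v ⊆ P)
    (hPy : preF C y v ⊆ P) (hxy : x ≠ y) (h : C v x y) :
    vc M c (preF C x v ∪ preF C y v) Z x y v := by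
  obtain ⟨h1, h2, h3⟩ := hW.geo v x y hxy h
  have h4 := h3.2.2.2
  rw [state_preF hΦ hε hW hc hℓ hConn hTL hv0 hvT hPx,
    state_preF hΦ hε hW hc hℓ hConn hTL hv0 hvT hPy] at h4
  exact ⟨⟨hv0.le, hvT⟩, vct_of_dist hε hc Finset.subset_union_left Finset.subset_union_right
    (self_mem_preF hv0) (self_mem_preF hv0) h1 h2 (ok_anti hvT (hTL.1 _ hPx))
    (ok_anti hvT (hTL.1 _ hPy)) h4⟩

end Crest.Agent.R122.LNW291

end
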