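import Crest.Agent.R122.LinkC_331_Mg
import Crest.Agent.R122.LinkE_331
import Crest.Agent.R122.LinkR_331
import Crest.Agent.R122.LN1Real_304
import Crest.Agent.R122.LNWRW2_291

-- ▼ part R122/LinkW_331
section

/-!
# Row 122, LN3-D (helper331): long chains give runs, in the frame of `LN1Defs_304`

Two real pseudo-worlds `(X b, C b)` (`b : Bool`) over `(M, Z)`; the part `π ∈ Λ` with the exit `a`,
which has no contacts with the outside in the world `false`.

* `tree_of_TL` : a connected tree-like set gives a `Tree`.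
* `okV_of` : one step of a trace.
* `exists_group` : the group of an entry chain.
* `run_of_group`, `run_of_chain` : an entry chain with `m + 2` members gives a `Run` with `m` steps.
-/

set_option autoImplicit false
set_option linter.unusedSectionVars false

open MeasureTheory Set Filter Topology
open scoped ENNReal NNReal Classical
open Crest.AnalysisR.Kinetic
open Crest.Agent.R122.Flow671 Crest.Agent.R122.Loc45 Crest.Agent.R122.Ins45
open Crest.Agent.R122.EDefs602 Crest.Agent.R122.LinkM547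
open Crest.Agent.R122.VL581 Crest.Agent.R122.VL581.VSys Crest.Agent.R122.VLInst442
open Crest.Agent.R122.LNg410 Crest.Agent.R122.LN304
open Crest.Agent.R122.Causal291

noncomputable section

namespace Crest.Agent.R122.LinkD331

variable {J κ : Type} [Fintype J] {M : VSys J κ} {c ℓ ς : ℝ} {Z : J → PhasePoint}
  {X : Bool → ℝ → J → PhasePoint} {C : Bool → ℝ → J → J → Prop} {Λ : Finset (Finset J)} {N : ℕ}
  {P π : Finset J} {a : J}

/-- Virtual contact of members of `P` at time `s`. -/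
def EV (M : VSys J κ) (c : ℝ) (P : Finset J) (Z : J → PhasePoint) (s : ℝ) (i j : J) : Prop :=
  i ∈ P ∧ j ∈ P ∧ vc M c P Z i j s

theorem acyclic_of_TL (hConn : M.Conn c P Z) (hTL : TL M c ℓ ς P Z) :
    (grA (EV M c P Z)).IsAcyclic := by
  classical
  have h1 := (hTL.2.cut (conn_iff.1 hConn)).isAcyclic
  refine h1.anti ?_
  rintro i j ⟨hij, s, h | h⟩
  · exact ⟨hij, h.1, h.2.1, Or.inl ⟨s, h.2.2⟩⟩
  · exact ⟨hij, h.2.1, h.1, Or.inr ⟨s, h.2.2⟩⟩

theorem sep_of_TL (hConn : M.Conn c P Z) (hTL : TL M c ℓ ς P Z) (hℓ : 2 * ℓ ≤ ς) {i j k l : J}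
    {s s' s'' : ℝ} (hij : i ≠ j) (hkl : k ≠ l) (h1 : s ≤ s'') (h2 : s'' ≤ s')
    (hv : EV M c P Z s i j) (hv' : EV M c P Z s' i j) (hv'' : EV M c P Z s'' k l) :
    s(i, j) = s(k, l) := by
  classical
  rcases TLg.sep hTL.2 (conn_iff.1 hConn) hℓ hv.1 hv.2.1 hij hv''.1 hv''.2.1 hkl hv.2.2 hv'.2.2
    hv''.2.2 h1 h2 with ⟨rfl, rfl⟩ | ⟨rfl, rfl⟩
  · rfl
  · exact Sym2.eq_swap

theorem pos_of_rw {X : ℝ → J → PhasePoint} {C : ℝ → J → J → Prop} (hRW : RW M Z X C) {s : ℝ}
    {j k : J} (h : C s j k) (hjk : j ≠ k) : 0 < s := by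
  obtain ⟨_, _, _, _, h1, _⟩ := hRW.geo s j k hjk h
  rcases h1 with h1 | h1
  · exact (bb_nonneg M j).trans_lt h1
  · exact (bb_nonneg M k).trans_lt h1

/-- A connected tree-like set gives a `Tree`. -/
theorem tree_of_TL (hRW : ∀ b, RW M Z (X b) (C b)) (hℓ : 2 * ℓ ≤ ς) (hConn : M.Conn c P Z)
    (hTL : TL M c ℓ ς P Z) {T' : ℝ} (hT' : T' ≤ M.T) : Tree T' C (EV M c P Z) where
  symmC b := (hRW b).symm
  closed b j k hjk := by
    have h1 : {s | s ∈ Icc 0 T' ∧ C b s j k} = {s | s ∈ Icc 0 M.T ∧ C b s j k} ∩ Iic T' := by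
      ext s
      simp only [mem_ofPred_eq, mem_inter_iff, mem_Icc, mem_Iic]
      constructor
      · rintro ⟨⟨h1, h2⟩, h3⟩
        exact ⟨⟨⟨h1, h2.trans hT'⟩, h3⟩, h2⟩
      · rintro ⟨⟨⟨h1, _⟩, h3⟩, h2⟩
        exact ⟨⟨h1, h2⟩, h3⟩
    rw [h1]
    exact ((hRW b).closed j k hjk).inter isClosed_Iic
  pos b s j k h hjk := pos_of_rw (hRW b) h hjk
  symmE s i j h := ⟨h.2.1, h.1, vc_symm h.2.2⟩
  sep i j k l s s' s'' hij hkl _ _ h1 h2 hv hv' hv'' :=
    sep_of_TL hConn hTL hℓ hij hkl h1 h2 hv hv' hv''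
  acyc := acyclic_of_TL hConn hTL

/-- The history of a member of `P` with virtual contacts stays in `P`. -/
theorem mem_of_hist {C : ℝ → J → J → Prop} {t : ℝ} {q : J} (hq : q ∈ P)
    (h : HistE C (EV M c P Z) t q) {s : ℝ} {k : J} (hk : Past C t q s k) : k ∈ P := by
  induction hk with
  | root _ => exact hq
  | @step s s' j k hp hc hs ih =>
    by_cases hjk : j = k
    · rw [← hjk]; exact ih
    · exact (h s' j k hp hc hjk).2.1

theorem fs_pre {C : ℝ → J → J → Prop} {r : ℝ} {e : J} : fs (pre C r e) = preF C e r := by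
  ext k
  rw [mem_fs, LNW291.mem_preF]
  exact Iff.rfl

section adm

variable (hΦ : AdmissiblePotential M.Φ) (hε : 0 < M.ε)
include hΦ hε

/-- One step of a trace. -/
theorem okV_of [Nonempty κ] {X : ℝ → J → PhasePoint} {C : ℝ → J → J → Prop} (hRW : RW M Z X C)
    (hc : 1 ≤ c) (hℓ : 2 * ℓ ≤ ς) (hConn : M.Conn c P Z) (hTL : TL M c ℓ ς P Z) {q e : J} {r : ℝ}
    (hrT : r ≤ M.T) (hne : q ≠ e) (hqe : C r q e) (hbc : bcF C q r ⊆ P) {K : ℕ} {gas : Set J}
    (hcard : (pre C r e).ncard ≤ K) (hgas : pre C r e ⊆ gas) :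
    OkV M Z gas K (pre C r e) e (pre C r q) q r := by
  have hr0 : 0 < r := pos_of_rw hRW hqe hne
  have hqP : preF C q r ⊆ P := LNW291.preF_subset_bcF.trans hbc
  have heP : preF C e r ⊆ P := by
    intro k hk
    rw [LNW291.mem_preF] at hk
    obtain ⟨s, hs, hk⟩ := hk
    exact hbc (LNW291.mem_bcF.2 (bc_contact hqe (past_mono_time hs.le hk)))
  have hagr := LNW291.agr_of_TL hΦ hε hRW hc hℓ hConn hTL hr0 hrT heP
  have hgeo := (hRW.geo r q e hne hqe).2.2.2.2.2
  have hse := LNW291.state_preF hΦ hε hRW hc hℓ hConn hTL hr0 hrT heP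
  have hsq := LNW291.state_preF hΦ hε hRW hc hℓ hConn hTL hr0 hrT hqP
  refine
    { time := ⟨hr0.le, hrT⟩
      mem := self_mem_pre hr0 e
      sub := hgas
      card := hcard
      ok := hTL.1 _ ?_
      ok' := hTL.1 _ (by rw [fs_pre]; exact heP)
      conn := ?_
      hit := ?_ }
  · intro x hx
    rw [mem_fs] at hx
    rcases hx with hx | hx
    · exact hqP (LNW291.mem_preF.2 hx)
    · exact heP (LNW291.mem_preF.2 hx)
  · have key : ∀ s < r, ∀ (s' : ℝ) (k : J), Past C s e s' k → 0 ≤ s' →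
        Relation.ReflTransGen (fun i j => j ∈ pre C r e ∧ ∃ t ∈ Icc 0 M.T,
          dist (M.st (fs (pre C r e)) t Z i).1 (M.st (fs (pre C r e)) t Z j).1 ≤ M.ε) e k := by
      intro s hs s' k hk
      induction hk with
      | root _ => exact fun _ => .refl
      | @step s' s'' j k hp hcc hss ih =>
        intro hs'
        have h0 : 0 ≤ s'' := hs'.trans hss
        have h1 := ih h0
        by_cases hjk : j = k
        · rw [← hjk]; exact h1
        have hk'' : Past C s e s'' k := Past.contact hp hcc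
        have hsr : s'' < r := hp.le.trans_lt hs
        refine h1.tail ⟨⟨s, hs, hk''.mono h0⟩, s'', ⟨h0, hsr.le.trans hrT⟩, ?_⟩
        have hj1 := hagr s'' ⟨h0, hsr⟩ j ⟨s, ⟨hp.le, hs⟩, hp⟩
        have hk1 := hagr s'' ⟨h0, hsr⟩ k ⟨s, ⟨hp.le, hs⟩, hk''⟩
        have hd := (hRW.geo s'' j k hjk hcc).2.2.2.2.2
        rw [hj1, hk1] at hd
        rw [fs_pre]
        exact hd
    rintro x ⟨s, hs, hx⟩
    exact key s hs 0 x hx le_rfl
  · rw [fs_pre, fs_pre, ← hse, ← hsq, dist_comm]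
    exact hgeo

/-- **The group of an entry chain.** -/
theorem exists_group [Nonempty κ] (hc : 1 ≤ c) (hℓ : 2 * ℓ ≤ ς)
    (hRW : ∀ b, RW M Z (X b) (C b)) (hP : Parts M c Z Λ) (hNB : NoBad M c ℓ ς Z Λ N)
    (hBH : ∀ b, ¬ BadHit M c Z (X b) (C b) Λ N) (hπ : π ∈ Λ) (ha : a ∈ π) {F : ℝ → J → Prop}
    {K : ℕ} {s₁ : ℝ} (hs₁ : s₁ ∈ Icc 0 M.T) {L : List J} {s : ℝ} (h : EC C F a L s) (hs : s ≤ s₁)
    (hK : ∀ x ∈ L, x ≠ a → ∀ b, (bcF (C b) x s₁ \ uni Λ).card ≤ K)
    (hN : (uni Λ).card + 2 * K * L.length ≤ N) :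
    ∃ P : Finset J, M.Conn c P Z ∧ π ⊆ P ∧ (P \ uni Λ).card ≤ 2 * K * L.length ∧
      (∀ x ∈ L, x ∈ P) ∧ ∀ x ∈ L, x ≠ a → ∀ b, bcF (C b) x s₁ ⊆ P := by
  classical
  induction h with
  | root =>
    refine ⟨π, hP.conn π hπ, Finset.Subset.refl _, ?_, ?_, ?_⟩
    · have : π \ uni Λ = ∅ := by
        rw [Finset.sdiff_eq_empty_iff_subset]
        exact fun i hi => mem_uni.2 ⟨π, hπ, hi⟩
      rw [this]
      simp
    · intro x hx
      rw [List.mem_singleton] at hx
      rw [hx]; exact ha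
    · intro x hx hxa
      rw [List.mem_singleton] at hx
      exact absurd hx hxa
  | @cons l k ps s s' b h hss hk hcc hn ih =>
    obtain ⟨P₀, h1, h2, h3, h4, h5⟩ := ih (hss.trans hs)
      (fun x hx => hK x (List.mem_cons_of_mem _ hx)) (by
        simp only [List.length_cons] at hN ⊢
        nlinarith)
    have hka : k ≠ a := fun h' => hk (h' ▸ h.mem)
    have hs'0 : 0 ≤ s' := h.nonneg.trans hss
    have hlP : l ∈ P₀ := h4 l List.mem_cons_self
    have hlk : l ∈ bcF (C b) k s₁ := by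
      refine mem_bcF.2 ?_
      have h6 : Past (C b) s₁ k s' k := .root hs
      exact (Past.contact h6 ((hRW b).symm _ _ _ hcc)).mono hs'0
    have hkk : ∀ b, k ∈ bcF (C b) k s₁ := fun b => mem_bcF.2 (.root hs₁.1)
    have hKk : ∀ b, (bcF (C b) k s₁ \ uni Λ).card ≤ K := hK k List.mem_cons_self hka
    have hcardU : ∀ A B : Finset J, ((A ∪ B) \ uni Λ).card ≤ (A \ uni Λ).card + (B \ uni Λ).card := by
      intro A B
      rw [Finset.union_sdiff_distrib]
      exact Finset.card_union_le _ _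
    have hcardN : ∀ A : Finset J, (A \ uni Λ).card + (uni Λ).card ≤ N → (A ∪ uni Λ).card ≤ N := by
      intro A hA
      rw [← Finset.card_sdiff_add_card]
      exact hA
    have hlen : 2 * K * (k :: l :: ps).length = 2 * K * (l :: ps).length + K + K := by
      simp only [List.length_cons]
      ring
    rw [hlen] at hN ⊢
    have hP₁ : ((P₀ ∪ bcF (C b) k s₁) \ uni Λ).card ≤ 2 * K * (l :: ps).length + K :=
      (hcardU _ _).trans (add_le_add h3 (hKk b))
    have hP₂ : ((P₀ ∪ bcF (C b) k s₁ ∪ bcF (C (!b)) k s₁) \ uni Λ).card ≤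
        2 * K * (l :: ps).length + K + K := (hcardU _ _).trans (add_le_add hP₁ (hKk _))
    have hc₁ : M.Conn c (P₀ ∪ bcF (C b) k s₁) Z :=
      LN304.conn_bcF hΦ hε hc (hRW b) (LNW291.wcore hΦ hε (hRW b) hc hℓ) hP hNB (hBH b) s₁ hs₁ k P₀
        h1 ⟨π, hπ, h2⟩ ⟨l, hlP, hlk⟩ (hcardN _ (by omega))
    have hc₂ : M.Conn c (P₀ ∪ bcF (C b) k s₁ ∪ bcF (C (!b)) k s₁) Z :=
      LN304.conn_bcF hΦ hε hc (hRW (!b)) (LNW291.wcore hΦ hε (hRW (!b)) hc hℓ) hP hNB (hBH (!b))
        s₁ hs₁ k _ hc₁ ⟨π, hπ, h2.trans Finset.subset_union_left⟩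
        ⟨k, Finset.mem_union_right _ (hkk b), hkk (!b)⟩ (hcardN _ (by omega))
    refine ⟨_, hc₂, (h2.trans Finset.subset_union_left).trans Finset.subset_union_left, hP₂, ?_, ?_⟩
    · intro x hx
      rcases List.mem_cons.1 hx with rfl | hx
      · exact Finset.mem_union_left _ (Finset.mem_union_right _ (hkk b))
      · exact Finset.mem_union_left _ (Finset.mem_union_left _ (h4 x hx))
    · intro x hx hxa b'
      rcases List.mem_cons.1 hx with rfl | hx
      · by_cases hb : b' = b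
        · subst hb
          exact Finset.subset_union_right.trans Finset.subset_union_left
        · have hb' : b' = !b := by
            cases b <;> cases b' <;> simp_all
          subst hb'
          exact Finset.subset_union_right
      · exact ((h5 x hx hxa b').trans Finset.subset_union_left).trans Finset.subset_union_left

omit hΦ hε in
/-- After a contact with the outside a member of the part has no contact in the part. -/
theorem ps_of_TL {C : ℝ → J → J → Prop} (hℓ : 2 * ℓ ≤ ς)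
    (hConn : M.Conn c P Z) (hTL : TL M c ℓ ς P Z) (hπP : π ⊆ P) (hπc : M.Conn c π Z)
    (hPS : ∀ p d g s s', p ∈ π → d ∈ π → p ≠ d → g ∉ π → 0 ≤ s' → s' ≤ s → s ≤ M.T → C s p d →
      C s' d g → s' = s ∨ ∃ F : J → J → Prop, (CutConn π F ∧ ∀ i ∈ π, ∀ j ∈ π, i ≠ j → F i j →
        ∃ t ∈ Icc 0 M.T, M.VCt c π i j t Z) ∧
        (F p d ∨ F d p → ∃ s0 ∈ Icc 0 s', M.VCt c π p d s0 Z))
    {p d g : J} {s s' : ℝ} (hp : p ∈ π) (hd : d ∈ π) (hpd : p ≠ d) (hg : g ∉ π) (hs' : 0 ≤ s')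
    (hss : s' ≤ s) (hs : s ≤ M.T) (hpdc : C s p d) (hdg : C s' d g)
    (hE : EV M c P Z s p d) (hE' : EV M c P Z s' d g) : False := by
  have hdg' : d ≠ g := fun h => hg (h ▸ hd)
  rcases hPS p d g s s' hp hd hpd hg hs' hss hs hpdc hdg with h | ⟨F, ⟨hF1, hF2⟩, hF3⟩
  · subst h
    have h1 := sep_of_TL hConn hTL hℓ hpd hdg' le_rfl le_rfl hE hE hE'
    rcases Sym2.eq_iff.1 h1 with ⟨h2, _⟩ | ⟨h2, _⟩
    · exact hpd h2
    · exact hg (h2 ▸ hp)
  · have hcP : CutConn P fun i j => ∃ t, vc M c P Z i j t := conn_iff.1 hConn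
    have hcπ : CutConn π fun i j => ∃ t, vc M c P Z i j t := by
      refine (conn_iff.1 hπc).mono fun i hi j hj hij h => ?_
      obtain ⟨t, ht⟩ := h
      exact Or.inl ⟨t, vc_mono hπP ht⟩
    have hsub := hTL.2.sub hcP hπP hcπ
    have h1 := hsub.mem_of_cutConn hF1 (fun i hi j hj hij h => by
      obtain ⟨t, ht, h⟩ := hF2 i hi j hj hij h
      exact ⟨t, Or.inl ⟨ht, vct_mono hπP h⟩⟩) hp hd hpd hE.2.2
    obtain ⟨s0, hs0, h2⟩ := hF3 h1
    have hE0 : EV M c P Z s0 p d :=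
      ⟨hπP hp, hπP hd, ⟨hs0.1, hs0.2.trans (hss.trans hs)⟩, vct_mono hπP h2⟩
    have h3 := sep_of_TL hConn hTL hℓ hpd hdg' hs0.2 hss hE0 hE hE'
    rcases Sym2.eq_iff.1 h3 with ⟨h4, _⟩ | ⟨h4, _⟩
    · exact hpd h4
    · exact hg (h4 ▸ hp)

omit hΦ hε in
theorem bc_eq_coe {C : ℝ → J → J → Prop} {x : J} {v : ℝ} : BC C v x = (bcF C x v : Set J) := by
  ext k
  rw [Finset.mem_coe, LNW291.mem_bcF]
  exact Iff.rfl

/-- **Run from the group of a chain** (closed sizes at the time `s₁`). -/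
theorem run_of_group [Nonempty κ] (hc : 1 ≤ c) (hℓ : 2 * ℓ ≤ ς) (hT : 0 < M.T)
    (hRW : ∀ b, RW M Z (X b) (C b)) (hP : Parts M c Z Λ) (hNB : NoBad M c ℓ ς Z Λ N)
    (hN2 : NoTwo M c Z Λ N) (hBH : ∀ b, ¬ BadHit M c Z (X b) (C b) Λ N) (hπ : π ∈ Λ) (ha : a ∈ π)
    (hPS : ∀ p d g s s', p ∈ π → d ∈ π → p ≠ d → g ∉ π → 0 ≤ s' → s' ≤ s → s ≤ M.T →
      C true s p d → C true s' d g → s' = s ∨ ∃ F : J → J → Prop, (CutConn π F ∧ ∀ i ∈ π,
        ∀ j ∈ π, i ≠ j → F i j → ∃ t ∈ Icc 0 M.T, M.VCt c π i j t Z) ∧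
        (F p d ∨ F d p → ∃ s0 ∈ Icc 0 s', M.VCt c π p d s0 Z))
    (hfalse : ∀ s k, C false s a k → k ∈ uni Λ) {F : ℝ → J → Prop}
    (hmono : ∀ r r' k, F r k → r ≤ r' → F r' k) (h0 : F 0 a)
    (hcon : ∀ b r j k, C b r j k → F r j → (j = a ∨ j ∉ uni Λ) → k ∉ uni Λ → F r k)
    {s₁ : ℝ} (hs₁ : s₁ ∈ Icc 0 M.T)
    (hun : ∀ b r k, 0 ≤ r → r ≤ s₁ → k ∉ uni Λ → ¬ F r k → (∀ x ∈ BC (C b) r k, x ∉ uni Λ) →
      BC (C (!b)) r k = BC (C b) r k)
    {n : ℕ} {g : Fin n ↪ J} {w : Config n} (hw : ∀ i, w i = Z (g i)) (hgb : ∀ i, M.b (g i) = 0)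
    (hgo : ∀ i, M.o ≠ some (g i)) (hgas : ∀ i, i ∉ uni Λ → i ∈ range g)
    {K : ℕ} {L : List J} {s : ℝ} (h : EC C F a L s) (hs : s ≤ s₁)
    (hL : ∀ x ∈ L, x ≠ a → x ∉ uni Λ)
    (hK : ∀ x ∈ L, x ≠ a → ∀ b, (bcF (C b) x s₁ \ uni Λ).card ≤ K)
    (hN : (uni Λ).card + 2 * K * L.length ≤ N) {m : ℕ} (hm : L.length = m + 1) :
    ∃ D : Finset J, D ⊆ π ∧ a ∈ D ∧ ∀ (G : Type) [Fintype G] (W : MW G) (f : G ↪ J) (x : G),
      Grp M Z W f D → f x = a → Run M.Φ M.ε M.T K m W x w := by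
  obtain ⟨P, h1, h2, h3, h4, h5⟩ := exists_group hΦ hε hc hℓ hRW hP hNB hBH hπ ha hs₁ h hs hK hN
  have hPN : (P ∪ uni Λ).card ≤ N := by
    rw [← Finset.card_sdiff_add_card]
    omega
  have hTL : TL M c ℓ ς P Z := hNB P h1 ⟨π, hπ, h2⟩ hPN
  have hTr : Tree s₁ C (EV M c P Z) := tree_of_TL hRW hℓ h1 hTL hs₁.2
  have hgasS : ∀ x, x ∈ P → x ∉ π → x ∉ uni Λ := by
    intro x hxP hxπ hxu
    obtain ⟨π', hπ', hx⟩ := mem_uni.1 hxu
    have := hN2 P h1 hPN π hπ π' hπ' h2 ⟨x, hx, hxP⟩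
    exact hxπ (this ▸ hx)
  have hH : ∀ x ∈ L, x ≠ a → ∀ b, HistE (C b) (EV M c P Z) s₁ x := by
    intro x hx hxa b u p q hp hpq hne
    have hu0 : 0 < u := pos_of_rw (hRW b) hpq hne
    have h6 := LNW291.hist_bcF hΦ hε (hRW b) hc hℓ h1 hTL hs₁ (h5 x hx hxa b) ⟨hu0.le, hp.le⟩ hne
      hp hpq
    have hpP : p ∈ P := h5 x hx hxa b (LNW291.mem_bcF.2 (hp.mono hu0.le))
    have hqP : q ∈ P := h5 x hx hxa b (LNW291.mem_bcF.2 ((Past.contact hp hpq).mono hu0.le))
    exact ⟨hpP, hqP, vc_mono (h5 x hx hxa b) h6⟩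
  have hKs : ∀ x ∈ L, x ≠ a → ∀ b, (BC (C b) s₁ x ∩ {k | k ∉ uni Λ}).ncard ≤ K := by
    intro x hx hxa b
    have h6 : BC (C b) s₁ x ∩ {k | k ∉ uni Λ} = ((bcF (C b) x s₁ \ uni Λ : Finset J) : Set J) := by
      rw [bc_eq_coe, Finset.coe_sdiff]
      ext k
      simp
    rw [h6, Set.ncard_coe_finset]
    exact hK x hx hxa b
  obtain ⟨D, t₀, haD, hDS, htr⟩ := trace_of_ec2 (gas := {k | k ∉ uni Λ}) (S := (π : Set J))
    (Ok := OkV M Z (range g) K) (K := K) hTr
    (by
      intro b q e r hrs hne hqe hHq hKq hdis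
      have hEqe : EV M c P Z r q e := hHq r q e (.root le_rfl) hqe hne
      have hr0 : 0 < r := pos_of_rw (hRW b) hqe hne
      have hbc : bcF (C b) q r ⊆ P := by
        intro k hk
        exact mem_of_hist hEqe.1 hHq (LNW291.mem_bcF.1 hk)
      have hsub : pre (C b) r e ⊆ BC (C b) r q := (pre_subset r e).trans (bc_contact hqe)
      have hg : pre (C b) r e ⊆ {k | k ∉ uni Λ} := by
        intro k hk
        refine hgasS k (hbc (LNW291.mem_bcF.2 (hsub hk))) fun hkπ => ?_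
        exact Set.disjoint_left.1 hdis hk hkπ
      refine ⟨okV_of hΦ hε (hRW b) hc hℓ h1 hTL (hrs.trans hs₁.2) hne hqe hbc
        ((ncard_le_ncard (subset_inter hsub hg) (toFinite _)).trans hKq)
        (fun k hk => hgas k (hg hk)), hg⟩)
    hmono h0 (fun b r j k h6 h7 h8 h9 => hcon b r j k h6 h7 h8 h9)
    (fun b r k h6 h7 h8 h9 h10 => hun b r k h6 h7 h8 h9 h10)
    (fun s k _ h6 h7 => h7 (hfalse s k h6))
    (fun k hk hkπ => hk (mem_uni.2 ⟨π, hπ, hkπ⟩)) ha
    (by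
      intro x hx
      have h6 := reachable_of_cutConn (conn_iff.1 (hP.conn π hπ)) ha hx
      refine h6.mono ?_
      rintro i j ⟨hij, hi, hj, h7 | h7⟩
      · obtain ⟨t, ht⟩ := h7
        exact ⟨hij, hi, hj, t, Or.inl ⟨h2 hi, h2 hj, vc_mono h2 ht⟩⟩
      · obtain ⟨t, ht⟩ := h7
        exact ⟨hij, hi, hj, t, Or.inr ⟨h2 hj, h2 hi, vc_mono h2 ht⟩⟩)
    (fun p d g' r r' hp hd hpd hg' hr' hrr hr hpdc hdg hE hE' =>
      ps_of_TL hℓ h1 hTL h2 (hP.conn π hπ) hPS hp hd hpd hg' hr' hrr (hr.trans hs₁.2) hpdc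
        hdg hE hE')
    h hL hs hH hKs hm
  refine ⟨fs D, fun x hx => hDS (mem_fs.1 hx), mem_fs.2 haD, fun G _ W f x hG hx => ?_⟩
  exact run_of_trace hΦ hε hT hw hgb hgo htr hG hx hDS

/-- **Run from an entry chain** (strict sizes at the time `v`, `v` allowed as entry time of the last
member): a chain with `m + 2` members gives a run with `m` steps. -/
theorem run_of_chain [Nonempty κ] (hc : 1 ≤ c) (hℓ : 2 * ℓ ≤ ς)
    (hRW : ∀ b, RW M Z (X b) (C b)) (hP : Parts M c Z Λ) (hNB : NoBad M c ℓ ς Z Λ N)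
    (hN2 : NoTwo M c Z Λ N) (hBH : ∀ b, ¬ BadHit M c Z (X b) (C b) Λ N) (hπ : π ∈ Λ) (ha : a ∈ π)
    (hPS : ∀ p d g s s', p ∈ π → d ∈ π → p ≠ d → g ∉ π → 0 ≤ s' → s' ≤ s → s ≤ M.T →
      C true s p d → C true s' d g → s' = s ∨ ∃ F : J → J → Prop, (CutConn π F ∧ ∀ i ∈ π,
        ∀ j ∈ π, i ≠ j → F i j → ∃ t ∈ Icc 0 M.T, M.VCt c π i j t Z) ∧
        (F p d ∨ F d p → ∃ s0 ∈ Icc 0 s', M.VCt c π p d s0 Z))
    (hfalse : ∀ s k, C false s a k → k ∈ uni Λ) {F : ℝ → J → Prop}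
    (hmono : ∀ r r' k, F r k → r ≤ r' → F r' k) (h0 : F 0 a)
    (hcon : ∀ b r j k, C b r j k → F r j → (j = a ∨ j ∉ uni Λ) → k ∉ uni Λ → F r k)
    {v : ℝ} (hv : v ∈ Ioc 0 M.T)
    (hun : ∀ b r k, 0 ≤ r → r < v → k ∉ uni Λ → ¬ F r k → (∀ x ∈ BC (C b) r k, x ∉ uni Λ) →
      BC (C (!b)) r k = BC (C b) r k)
    {n : ℕ} {g : Fin n ↪ J} {w : Config n} (hw : ∀ i, w i = Z (g i)) (hgb : ∀ i, M.b (g i) = 0)
    (hgo : ∀ i, M.o ≠ some (g i)) (hgas : ∀ i, i ∉ uni Λ → i ∈ range g)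
    {K : ℕ} {L : List J} {s : ℝ} (h : EC C F a L s) (hs : s ≤ v)
    (hL : ∀ x ∈ L, x ≠ a → x ∉ uni Λ)
    (hK : ∀ x ∈ L, ∀ b, (x = a → b = true) → (preF (C b) x v \ uni Λ).card ≤ K)
    (hN : (uni Λ).card + 2 * K * (L.length + 2) ≤ N) {m : ℕ} (hm : L.length = m + 2) :
    ∃ D : Finset J, D ⊆ π ∧ a ∈ D ∧ ∀ (G : Type) [Fintype G] (W : MW G) (f : G ↪ J) (x : G),
      Grp M Z W f D → f x = a → Run M.Φ M.ε M.T K m W x w := by
  have hT : 0 < M.T := hv.1.trans_le hv.2
  -- closed pasts before `v`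
  have hclosed : ∀ s₁ < v, ∀ x b, (preF (C b) x v \ uni Λ).card ≤ K →
      (bcF (C b) x s₁ \ uni Λ).card ≤ K := fun s₁ hs₁ x b h =>
    (Finset.card_le_card (Finset.sdiff_subset_sdiff (LNW291.bcF_subset_preF hs₁)
      (Finset.Subset.refl _))).trans h
  -- the last two entries are not at the same time
  have key : ∀ (L : List J) (s : ℝ), EC C F a L s → s = v → (∀ x ∈ L, x ≠ a → x ∉ uni Λ) →
      (∀ x ∈ L, ∀ b, (x = a → b = true) → (preF (C b) x v \ uni Λ).card ≤ K) →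
      (uni Λ).card + 2 * K * (L.length + 2) ≤ N → ∀ k l ps, L = k :: l :: ps →
      ∃ s₀ < v, EC C F a (l :: ps) s₀ := by
    intro L s h
    induction h with
    | root =>
      intro _ _ _ _ k l ps hL
      simp at hL
    | @cons l k ps s s' b h hss hk hcc hn ih =>
      intro hsv hg hK hN k' l' ps' hLe
      rw [List.cons.injEq, List.cons.injEq] at hLe
      obtain ⟨rfl, rfl, rfl⟩ := hLe
      rcases (hss.trans hsv.le).lt_or_eq with h1 | h1
      · exact ⟨s, h1, h⟩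
      exfalso
      have hN' : (uni Λ).card + 2 * K * ((l :: ps).length + 2) ≤ N := by
        simp only [List.length_cons] at hN ⊢
        nlinarith
      cases ps with
      | nil =>
        cases h with
        | root => exact absurd h1.symm hv.1.ne'
      | cons l' ps' =>
        obtain ⟨s₀, hs₀, h2⟩ := ih h1 (fun x hx => hg x (List.mem_cons_of_mem _ hx))
          (fun x hx => hK x (List.mem_cons_of_mem _ hx)) hN' l l' ps' rfl
        -- the contact of `l'` and `l` is at the time `v`, too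
        cases h with
        | @cons _ _ _ s₂ _ b₂ h3 hs₂ hl hcl hnl =>
          subst h1
          have hvT : s ∈ Icc 0 M.T := ⟨hv.1.le, hv.2⟩
          have hs₀T : s₀ ∈ Icc 0 M.T := ⟨h2.nonneg, hs₀.le.trans hv.2⟩
          have hs' : s' = s := hsv
          subst hs'
          obtain ⟨P, g1, g2, g3, g4, g5⟩ := exists_group hΦ hε hc hℓ hRW hP hNB hBH hπ ha hs₀T h2
            le_rfl (K := K) (fun x hx hxa b => hclosed s₀ hs₀ x b
              (hK x (List.mem_cons_of_mem _ (List.mem_cons_of_mem _ hx)) b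
                fun h' => absurd h' hxa)) (by
              simp only [List.length_cons] at hN ⊢
              nlinarith)
          have hl'P : l' ∈ P := g4 l' List.mem_cons_self
          have hla : l ≠ a := fun h' => hl (h' ▸ h2.mem)
          have hka : k ≠ a := fun h' => hk (h' ▸ List.mem_cons_of_mem _ h2.mem)
          have hb₂ : l' = a → b₂ = true := by
            intro h'
            cases b₂ with
            | true => rfl
            | false =>
              exact absurd (hfalse s' l (h' ▸ hcl))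
                (hg l (List.mem_cons_of_mem _ List.mem_cons_self) hla)
          have hK1 := hK l' (List.mem_cons_of_mem _ (List.mem_cons_of_mem _ List.mem_cons_self)) b₂
            hb₂
          have hK2 := fun b => hK l (List.mem_cons_of_mem _ List.mem_cons_self) b
            fun h' => absurd h' hla
          have hK3 := hK k List.mem_cons_self b fun h' => absurd h' hka
          have hcardU : ∀ A B : Finset J,
              ((A ∪ B) \ uni Λ).card ≤ (A \ uni Λ).card + (B \ uni Λ).card := by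
            intro A B
            rw [Finset.union_sdiff_distrib]
            exact Finset.card_union_le _ _
          have hcardN : ∀ A : Finset J, (A \ uni Λ).card + (uni Λ).card ≤ N →
              (A ∪ uni Λ).card ≤ N := by
            intro A hA
            rw [← Finset.card_sdiff_add_card]
            exact hA
          have hlen : 2 * K * ((k :: l :: l' :: ps').length + 2) =
              2 * K * (l' :: ps').length + 4 * K + 4 * K := by
            simp only [List.length_cons]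
            ring
          rw [hlen] at hN
          have hA1 := (hcardU P (preF (C b₂) l' s')).trans (add_le_add g3 hK1)
          have hA2 := (hcardU (P ∪ preF (C b₂) l' s') (preF (C b₂) l s')).trans
            (add_le_add hA1 (hK2 b₂))
          obtain ⟨_, _, _, r4, r5⟩ := LN304.real hΦ hε hc (hRW b₂)
            (LNW291.wcore hΦ hε (hRW b₂) hc hℓ) hP hNB (hBH b₂) hv g1 ⟨π, hπ, g2⟩
            ⟨l', hl'P, self_mem_preF hv.1⟩ (hcardN _ (by omega))
          obtain ⟨q1, _, _, q4, q5⟩ := LN304.step hΦ hε hc (hRW b₂)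
            (LNW291.wcore hΦ hε (hRW b₂) hc hℓ) hP hNB (hBH b₂) hv g1 ⟨π, hπ, g2⟩
            ⟨l', hl'P, self_mem_preF hv.1⟩ hcl (hcardN _ (by omega))
          set P₁ : Finset J := P ∪ preF (C b₂) l' s' ∪ preF (C b₂) l s' with hP₁
          have hπ₁ : π ⊆ P₁ := (g2.trans Finset.subset_union_left).trans Finset.subset_union_left
          have hlP₁ : l ∈ P₁ := Finset.mem_union_right _ (self_mem_preF hv.1)
          have hA3 := (hcardU P₁ (preF (C b) l s')).trans (add_le_add hA2 (hK2 b))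
          have hA4 := (hcardU (P₁ ∪ preF (C b) l s') (preF (C b) k s')).trans
            (add_le_add hA3 hK3)
          obtain ⟨_, _, _, t4, t5⟩ := LN304.real hΦ hε hc (hRW b)
            (LNW291.wcore hΦ hε (hRW b) hc hℓ) hP hNB (hBH b) hv q1 ⟨π, hπ, hπ₁⟩
            ⟨l, hlP₁, self_mem_preF hv.1⟩ (hcardN _ (by omega))
          obtain ⟨u1, u2, _, u4, u5⟩ := LN304.step hΦ hε hc (hRW b)
            (LNW291.wcore hΦ hε (hRW b) hc hℓ) hP hNB (hBH b) hv q1 ⟨π, hπ, hπ₁⟩
            ⟨l, hlP₁, self_mem_preF hv.1⟩ hcc (hcardN _ (by omega))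
          set P₂ : Finset J := P₁ ∪ preF (C b) l s' ∪ preF (C b) k s' with hP₂
          have hP₁₂ : P₁ ⊆ P₂ := Finset.subset_union_left.trans Finset.subset_union_left
          have hl'l : l' ≠ l := fun h' => hl (h' ▸ List.mem_cons_self)
          have hlk : l ≠ k := fun h' => hk (h' ▸ List.mem_cons_self)
          have hl'k : l' ≠ k := fun h' => hk (h' ▸ List.mem_cons_of_mem _ List.mem_cons_self)
          obtain ⟨e1, e2, e3⟩ := (hRW b₂).geo s' l' l hl'l hcl
          obtain ⟨f1, f2, f3⟩ := (hRW b).geo s' l k hlk hcc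
          have hd1 := e3.2.2.2
          rw [r5, q5] at hd1
          have hd2 := f3.2.2.2
          rw [t5, u5] at hd2
          have hV1 : M.VCt c P₂ l' l s' Z := vct_of hε hc (A := preF (C b₂) l' s')
            (B := preF (C b₂) l s')
            ((Finset.subset_union_right.trans Finset.subset_union_left).trans hP₁₂)
            (Finset.subset_union_right.trans hP₁₂) (self_mem_preF hv.1) (self_mem_preF hv.1)
            r4 q4 e1 e2 hd1
          have hV2 : M.VCt c P₂ l k s' Z := vct_of hε hc (A := preF (C b) l s')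
            (B := preF (C b) k s') (Finset.subset_union_right.trans Finset.subset_union_left)
            Finset.subset_union_right (self_mem_preF hv.1) (self_mem_preF hv.1) t4 u4 f1 f2 hd2
          have hl'P₂ : l' ∈ P₂ :=
            hP₁₂ (Finset.mem_union_left _ (Finset.mem_union_left _ hl'P))
          have hkP₂ : k ∈ P₂ := Finset.mem_union_right _ (self_mem_preF hv.1)
          have hE1 : EV M c P₂ Z s' l' l := ⟨hl'P₂, hP₁₂ hlP₁, hvT, hV1⟩
          have hE2 : EV M c P₂ Z s' l k := ⟨hP₁₂ hlP₁, hkP₂, hvT, hV2⟩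
          have hsep := sep_of_TL u1 u2 hℓ hl'l hlk le_rfl le_rfl hE1 hE1 hE2
          rcases Sym2.eq_iff.1 hsep with ⟨h6, _⟩ | ⟨h6, _⟩
          · exact hl'l h6
          · exact hl'k h6
  -- an initial piece which ends before `v`
  have hpiece : ∃ L' s', EC C F a L' s' ∧ s' < v ∧ L'.length = m + 1 ∧ ∀ x ∈ L', x ∈ L := by
    cases L with
    | nil => simp at hm
    | cons k tl =>
      cases tl with
      | nil => simp at hm
      | cons l ps =>
        have hlen : (l :: ps).length = m + 1 := by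
          simp only [List.length_cons] at hm ⊢
          omega
        rcases hs.lt_or_eq with h1 | h1
        · obtain ⟨L', s', h2, h3, h4, h5⟩ := h.drop (m := m) (by
            simp only [List.length_cons] at hm ⊢
            omega)
          exact ⟨L', s', h2, h3.trans_lt h1, h4, h5⟩
        · obtain ⟨s₀, h2, h3⟩ := key _ s h h1 hL hK hN k l ps rfl
          exact ⟨_, s₀, h3, h2, hlen, fun x hx => List.mem_cons_of_mem _ hx⟩
  obtain ⟨L', s', h1, h2, h3, h4⟩ := hpiece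
  have hs'T : s' ∈ Icc 0 M.T := ⟨h1.nonneg, h2.le.trans hv.2⟩
  exact run_of_group hΦ hε hc hℓ hT hRW hP hNB hN2 hBH hπ ha hPS hfalse hmono h0 hcon hs'T
    (fun b r k h5 h6 => hun b r k h5 (h6.trans_lt h2)) hw hgb hgo hgas h1 le_rfl
    (fun x hx => hL x (h4 x hx))
    (fun x hx hxa b => hclosed s' h2 x b (hK x (h4 x hx) b fun h' => absurd h' hxa))
    (by rw [h3]; rw [hm] at hN; nlinarith) h3

end adm

end Crest.Agent.R122.LinkD331

end
end

-- ▼ part R122/LinkX_331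

/-!
# Row 122, LN3-D (helper331): interface for the marked worlds

`C b` : contacts of the glued worlds, `CM b` : contacts of the marked worlds on the labels.

* `EC.mono_C`.
* `bc_eq_of_marked` : the pasts of a not influenced gas particle in the two glued worlds.
* `chain_or_long` : an influenced label is the end of a short entry chain, or there is a long one.
* `run_of_ecm` : a chain with `m + 2` members over the marked worlds gives a run with `m` steps.
-/

set_option autoImplicit false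
set_option linter.unusedSectionVars false

open MeasureTheory Set Filter Topology
open scoped ENNReal NNReal Classical
open Crest.AnalysisR.Kinetic
open Crest.Agent.R122.Flow671 Crest.Agent.R122.Loc45 Crest.Agent.R122.Ins45
open Crest.Agent.R122.EDefs602 Crest.Agent.R122.LinkM547
open Crest.Agent.R122.VL581 Crest.Agent.R122.VL581.VSys Crest.Agent.R122.VLInst442
open Crest.Agent.R122.LNg410 Crest.Agent.R122.LN304
open Crest.Agent.R122.Causal291

noncomputable section

namespace Crest.Agent.R122.LinkD331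

section abstract

variable {J : Type} {C CM : Bool → ℝ → J → J → Prop} {T : ℝ}

theorem EC.mono_C {F : ℝ → J → Prop} {a : J} {L : List J} {s : ℝ} (h : EC CM F a L s)
    (hC : ∀ b s j k, j ≠ k → CM b s j k → C b s j k) : EC C F a L s := by
  induction h with
  | root => exact .root
  | @cons l k ps s s' b h hs hk hc hn ih =>
    exact .cons ih hs hk (hC b s' l k (fun h' => hk (h' ▸ List.mem_cons_self)) hc) hn

theorem past_mono_C {C C' : ℝ → J → J → Prop} {t : ℝ} {i : J}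
    (hC : ∀ s j k, j ≠ k → C s j k → C' s j k) {s : ℝ} {k : J} (h : Past C t i s k) :
    Past C' t i s k := by
  induction h with
  | root hs => exact .root hs
  | @step s s' j k hp hc hs ih =>
    by_cases hjk : j = k
    · subst hjk
      exact ih.mono hs
    · exact .step ih (hC s' j k hjk hc) hs

/-- **Pasts of a not influenced gas particle** in the two glued worlds. -/
theorem bc_eq_of_marked {U : Set J} (hCM : ∀ b s j k, j ≠ k → CM b s j k → C b s j k)
    (hgg : ∀ b s j k, j ≠ k → j ∉ U → C b s j k → CM b s j k) {b : Bool} {r : ℝ} {k : J}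
    (hM : BC (CM (!b)) r k = BC (CM b) r k) (hU : ∀ x ∈ BC (C b) r k, x ∉ U) :
    BC (C (!b)) r k = BC (C b) r k := by
  have h1 : ∀ b, BC (CM b) r k ⊆ BC (C b) r k := fun b x hx => past_mono_C (hCM b) hx
  have h2 : ∀ b, (∀ x ∈ BC (CM b) r k, x ∉ U) → BC (C b) r k ⊆ BC (CM b) r k := by
    intro b hb x hx
    have key : ∀ (s : ℝ) (y : J), Past (C b) r k s y → 0 ≤ s → Past (CM b) r k s y := by
      intro s y hy
      induction hy with
      | root hs => exact fun _ => .root hs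
      | @step s s' j l hp hc hs ih =>
        intro h0
        have h3 := ih (h0.trans hs)
        by_cases hjl : j = l
        · subst hjl
          exact h3.mono hs
        · exact .step h3 (hgg b s' j l hjl (hb j (h3.mono (h0.trans hs))) hc) hs
    exact key 0 x hx le_rfl
  have h3 : BC (C b) r k = BC (CM b) r k :=
    Subset.antisymm (h2 b fun x hx => hU x (h1 b hx)) (h1 b)
  have h4 : BC (C (!b)) r k = BC (CM (!b)) r k :=
    Subset.antisymm (h2 (!b) fun x hx => hU x (h1 b (hM ▸ hx))) (h1 (!b))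
  rw [h4, hM, h3]


end abstract

variable {J κ : Type} [Fintype J] {M : VSys J κ} {c ℓ ς : ℝ} {Z : J → PhasePoint}
  {X : Bool → ℝ → J → PhasePoint} {C CM : Bool → ℝ → J → J → Prop} {Λ : Finset (Finset J)} {N : ℕ}
  {π : Finset J} {a : J}

/-- **Run from an entry chain over the marked worlds.** -/
theorem run_of_ecm [Nonempty κ] (hΦ : AdmissiblePotential M.Φ) (hε : 0 < M.ε) (hc : 1 ≤ c)
    (hℓ : 2 * ℓ ≤ ς) (hRW : ∀ b, RW M Z (X b) (C b)) (hP : Parts M c Z Λ)
    (hNB : NoBad M c ℓ ς Z Λ N) (hN2 : NoTwo M c Z Λ N)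
    (hBH : ∀ b, ¬ BadHit M c Z (X b) (C b) Λ N) (hπ : π ∈ Λ) (ha : a ∈ π)
    (hPS : ∀ p d g s s', p ∈ π → d ∈ π → p ≠ d → g ∉ π → 0 ≤ s' → s' ≤ s → s ≤ M.T →
      C true s p d → C true s' d g → s' = s ∨ ∃ F : J → J → Prop, (CutConn π F ∧ ∀ i ∈ π,
        ∀ j ∈ π, i ≠ j → F i j → ∃ t ∈ Icc 0 M.T, M.VCt c π i j t Z) ∧
        (F p d ∨ F d p → ∃ s0 ∈ Icc 0 s', M.VCt c π p d s0 Z))
    (hCM : ∀ b s j k, j ≠ k → CM b s j k → C b s j k)
    (hgg : ∀ b s j k, j ≠ k → j ∉ uni Λ → C b s j k → CM b s j k)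
    (hsM : ∀ b s j k, CM b s j k → CM b s k j)
    (haM : ∀ s k, k ≠ a → ¬ CM false s a k)
    {v : ℝ} (hv : v ∈ Ioc 0 M.T)
    (hunM : ∀ b r k, 0 ≤ r → r < v → k ∉ uni Λ → ¬ FJ CM {a} r k →
      BC (CM (!b)) r k = BC (CM b) r k)
    {n : ℕ} {g : Fin n ↪ J} {w : Config n} (hw : ∀ i, w i = Z (g i)) (hgb : ∀ i, M.b (g i) = 0)
    (hgo : ∀ i, M.o ≠ some (g i)) (hgas : ∀ i, i ∉ uni Λ → i ∈ range g)
    {K : ℕ} {L : List J} {s : ℝ} (h : EC CM (FJ CM {a}) a L s) (hs : s ≤ v)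
    (hL : ∀ x ∈ L, x ≠ a → x ∉ uni Λ)
    (hK : ∀ x ∈ L, ∀ b, (x = a → b = true) → (preF (C b) x v \ uni Λ).card ≤ K)
    (hN : (uni Λ).card + 2 * K * (L.length + 2) ≤ N) {m : ℕ} (hm : L.length = m + 2) :
    ∃ D : Finset J, D ⊆ π ∧ a ∈ D ∧ ∀ (G : Type) [Fintype G] (W : MW G) (f : G ↪ J) (x : G),
      Grp M Z W f D → f x = a → Run M.Φ M.ε M.T K m W x w := by
  have haU : a ∈ uni Λ := mem_uni.2 ⟨π, hπ, ha⟩
  refine run_of_chain (F := FJ CM {a}) hΦ hε hc hℓ hRW hP hNB hN2 hBH hπ ha hPS ?_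
    (fun r r' k h1 h2 => h1.mono h2) (.base (mem_singleton a)) ?_ hv ?_ hw hgb hgo hgas
    (h.mono_C hCM) hs hL hK hN hm
  · intro s k hc'
    by_contra hk
    have hka : k ≠ a := fun h' => hk (h' ▸ haU)
    exact haM s k hka (hsM _ _ _ _ (hgg false s k a hka hk ((hRW false).symm _ _ _ hc')))
  · intro b r j k hc' hF hj hk
    by_cases hjk : j = k
    · rw [← hjk]; exact hF
    · exact hF.con (hsM _ _ _ _ (hgg b r k j (Ne.symm hjk) hk ((hRW b).symm _ _ _ hc')))
  · intro b r k h1 h2 h3 h4 h5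
    exact bc_eq_of_marked (U := {x | x ∈ uni Λ}) hCM
      (fun b s j k hjk hj hc' => hgg b s j k hjk hj hc') (hunM b r k h1 h2 h3 h4) h5

end Crest.Agent.R122.LinkD331

end
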