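import Crest.Agent.R122.LinkC_331_Mg
import Crest.Agent.R122.LinkX_331
import Crest.Agent.R122.PWPast_365
import Crest.Agent.R122.PWInst2_442
import Crest.Agent.R122.LNPartS_291

/-!
# Everything cleanly influenced is reached: glued worlds (row 122, EVENTS, helper818)

Base world `W : MW ι`, line `l` with the exit label `a`, labels `f : ι ↪ J`; `GD2` : the data of the
glued worlds of `W` and of `W + l` over one master system (helper491, helper442).

* `bindW`, `twoW` : the hypotheses of `reachAll_core`.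
* `unM` : pasts of the labels which are not influenced.
* `reachAll_or_run` : **(RA)** : a run of length `m` starts in a part of the class, or everything
  which is cleanly influenced up to the touch time is reached.
-/

set_option autoImplicit false
set_option linter.unusedSectionVars false

open MeasureTheory Set Filter Topology
open Crest.AnalysisR.Kinetic
open Crest.Agent.R122.GIV566 Crest.Agent.R122.VL581 Crest.Agent.R122.LNg410
open Crest.Agent.R122.Causal291 Crest.Agent.R122.VLInst442 Crest.Agent.R122.LNEv968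
open Crest.Agent.R122.LN304 Crest.Agent.R122.LinkD331
open Crest.Agent.R122.Ins45 Crest.Agent.R122.EDefs602
open Crest.Agent.R122.MWFam255 Crest.Agent.R122.Inf879
open Crest.Agent.R122.PWGlue491 Crest.Agent.R122.PWInst442 Crest.Agent.R122.PW365
open scoped Classical

noncomputable section

namespace Crest.Agent.R122.LNEv818

variable {J κ ι : Type} [Fintype J] [Fintype ι] {M : VSys J κ} {c ℓ ς : ℝ} {Z : J → PhasePoint}
  {cl : J → Finset J} {W : MW ι} {l : ML} {f : ι ↪ J} {a : J} {ha : ∀ i, f i ≠ a}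
  {Λ : Finset (Finset J)} {π : Finset J} {N K m : ℕ} {T : ℝ}

/-- Paths of the glued worlds of `W` and of `W + l`. -/
def Xb (M : VSys J κ) (Z : J → PhasePoint) (cl : J → Finset J) (W : MW ι) (l : ML) (f : ι ↪ J)
    (a : J) (ha : ∀ i, f i ≠ a) : Bool → ℝ → J → PhasePoint
  | false => XG M Z cl (bD W f) (labs f) (XD W f M.Φ M.ε)
  | true => XG M Z cl (bD (W.add (MW.line l)) (insF f a ha)) (labs (insF f a ha))
      (XD (W.add (MW.line l)) (insF f a ha) M.Φ M.ε)

/-- Contacts of the glued worlds of `W` and of `W + l`. -/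
def Cb (M : VSys J κ) (Z : J → PhasePoint) (cl : J → Finset J) (W : MW ι) (l : ML) (f : ι ↪ J)
    (a : J) (ha : ∀ i, f i ≠ a) : Bool → ℝ → J → J → Prop
  | false => CG M Z cl (bD W f) (labs f) (XD W f M.Φ M.ε)
  | true => CG M Z cl (bD (W.add (MW.line l)) (insF f a ha)) (labs (insF f a ha))
      (XD (W.add (MW.line l)) (insF f a ha) M.Φ M.ε)

/-- The data of the glued worlds of `W` and of `W + l`. -/
structure GD2 (M : VSys J κ) (Z : J → PhasePoint) (cl : J → Finset J) (W : MW ι) (l : ML)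
    (f : ι ↪ J) (a : J) (ha : ∀ i, f i ≠ a) : Prop where
  g0 : GD M Z cl (bD W f) (labs f) (XD W f M.Φ M.ε)
  g1 : GD M Z cl (bD (W.add (MW.line l)) (insF f a ha)) (labs (insF f a ha))
    (XD (W.add (MW.line l)) (insF f a ha) M.Φ M.ε)
  ok : W.Ok M.Φ M.ε
  okA : (W.add (MW.line l)).Ok M.Φ M.ε

/-- Clean births (helper365) of the two worlds, up to time `T`. -/
def CB2 (M : VSys J κ) (Z : J → PhasePoint) (cl : J → Finset J) (W : MW ι) (l : ML)
    (f : ι ↪ J) (a : J) (ha : ∀ i, f i ≠ a) (T : ℝ) : Prop :=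
  CleanB M Z cl (bD W f) (labs f) (XD W f M.Φ M.ε) T ∧
    CleanB M Z cl (bD (W.add (MW.line l)) (insF f a ha)) (labs (insF f a ha))
      (XD (W.add (MW.line l)) (insF f a ha) M.Φ M.ε) T

theorem elim_inj (f : ι ↪ J) (a : J) (ha : ∀ i, f i ≠ a) :
    Function.Injective (Sum.elim f fun _ : Unit => a) := (insF f a ha).injective

/-- Contacts of a glued world with a gas label are contacts of the derived world. -/
theorem cl_of_cg_gas {μ : Type} [Fintype μ] {V : MW μ} {g : μ ↪ J} {x : μ} {s : ℝ} {k : J}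
    (H : GD M Z cl (bD V g) (labs g) (XD V g M.Φ M.ε)) (hcx : cl (g x) = ∅)
    (hb : M.b (g x) ≤ 0) (hxk : g x ≠ k)
    (hc : CG M Z cl (bD V g) (labs g) (XD V g M.Φ M.ε) s (g x) k) :
    CL M.Φ M.ε V g s (g x) k := by
  have hk : k ∈ labs g := by
    by_contra hk
    have h1 := (GDMW.part_of_cg H hk hc).1
    rw [hcx] at h1
    exact absurd h1 (Finset.notMem_empty _)
  obtain ⟨y, rfl⟩ := (mem_labs g).1 hk
  have hxy : x ≠ y := fun h => hxk (by rw [h])
  have h1 := GDMW.born_of_cg H (i := y) (j := x) hcx (H.cG_symm hc)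
  refine ⟨x, y, hxy, rfl, rfl, GDMW.C_of_cg H hc h1.2 h1.1 (Or.inr (Or.inl ?_))⟩
  have hgeo : Geo M (XG M Z cl (bD V g) (labs g) (XD V g M.Φ M.ε)) s (g x) (g y) := hc.2.2.2
  have hs : 0 < s := by
    rcases hgeo.2.2.1 with h2 | h2
    · exact (bb_nonneg M _).trans_lt h2
    · exact (bb_nonneg M _).trans_lt h2
  have hb0 : M.bb (g x) = 0 := max_eq_right hb
  rw [← GDMW.gas_b H hcx, hb0]
  exact hs

namespace GD2

variable (G : GD2 M Z cl W l f a ha)
include G

theorem nonneg (x : ι ⊕ Unit) : 0 ≤ (W.add (MW.line l)).b x :=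
  (bb_nonneg M _).trans (GDMW.bb_le G.g1 x)

/-- Contacts of the derived worlds are contacts of the glued worlds. -/
theorem sub (b : Bool) (s : ℝ) (j k : J) (_ : j ≠ k) (h : cmL M W l f a b s j k) :
    Cb M Z cl W l f a ha b s j k := by
  cases b
  · obtain ⟨x, y, h1, rfl, rfl, h4⟩ := h
    exact GDMW.cg_of_C G.g0 h1 h4
  · obtain ⟨x, y, h1, rfl, rfl, h4⟩ := h
    exact GDMW.cg_of_C G.g1 h1 h4

omit G in
theorem out (ha : ∀ i, f i ≠ a) (s : ℝ) (k : J) : ¬ cmL M W l f a false s a k := by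
  rintro ⟨x, y, -, h2, -⟩
  exact ha x h2

theorem obs : M.o ≠ some a := G.g1.obsA a (mem_labs_self (insF f a ha) (Sum.inr ()))

/-- Contacts of the glued worlds with a gas label are contacts of the derived worlds. -/
theorem gas (hP : Parts M c Z Λ) (hcl : ∀ j, j ∉ uni Λ → cl j = ∅)
    (hgas : ∀ j, j ∉ uni Λ → ∃ i, f i = j) (b : Bool)
    (s : ℝ) (j k : J) (hjk : j ≠ k) (hj : j ∉ uni Λ)
    (h : Cb M Z cl W l f a ha b s j k) : cmL M W l f a b s j k := by
  obtain ⟨i, rfl⟩ := hgas j hj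
  have hb : M.b (f i) ≤ 0 := hP.gas_b _ fun π hπ h' => hj (LN304.mem_uni.2 ⟨π, hπ, h'⟩)
  cases b
  · exact cl_of_cg_gas G.g0 (hcl _ hj) hb hjk h
  · exact cl_of_cg_gas (x := Sum.inl i) G.g1 (hcl _ hj) hb hjk h

/-- **Binding** of the marked worlds. -/
theorem bindW (hT : T ≤ M.T) (hN : CB2 M Z cl W l f a ha T) (hΛ : ∀ j, cl j ⊆ uni Λ)
    (haΛ : a ∈ uni Λ) (hm : ∀ k, f k ∉ uni Λ → 1 ≤ W.m k) :
    BindW M (Xb M Z cl W l f a ha) (Cb M Z cl W l f a ha) Λ W l f a K T where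
  inj := elim_inj f a ha
  nonneg := G.nonneg
  ok := G.ok
  okA := G.okA
  le := hT
  path0 s _ k hb := GDMW.xg_eq G.g0 fun _ => hb
  path1 s _ x hb := GDMW.xg_eq G.g1 (i := x) fun _ => hb
  size0 v hv k hk := card_preF_le G.g0 hN.1 hv.2 hΛ hm hk
  size1 v hv x hx := card_preF_le (i := x) G.g1 hN.2 hv.2 hΛ (fun y hy => by
    rcases y with y | y
    · exact hm y hy
    · exact absurd haΛ hy) hx

/-- **The two worlds.** -/
theorem twoW (hΦ : AdmissiblePotential M.Φ) (hε : 0 < M.ε) (hT : 0 ≤ M.T) (hc : 1 ≤ c)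
    (hℓς : 2 * ℓ ≤ ς) (hP : Parts M c Z Λ) (hNB : NoBad M c ℓ ς Z Λ N) (hNT : NoTwo M c Z Λ N)
    (hBH : ∀ b, ¬ BadHit M c Z (Xb M Z cl W l f a ha b) (Cb M Z cl W l f a ha b) Λ N)
    (hπ : π ∈ Λ) (haπ : a ∈ π) (hPS : ∀ b, PartS M c Z (Cb M Z cl W l f a ha b) π)
    (hPD : PartD M c Z (Cb M Z cl W l f a ha true) (cmL M W l f a true) π a) :
    TwoW M c ℓ ς Z (Xb M Z cl W l f a ha) (Cb M Z cl W l f a ha) (cmL M W l f a) (fjL M W l f a)
      Λ π a N where
  hΦ := hΦ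
  hε := hε
  hc := hc
  hℓς := hℓς
  rw b := by
    cases b
    · exact G.g0.rw hΦ hε hT
    · exact G.g1.rw hΦ hε hT
  parts := hP
  noBad := hNB
  noTwo := hNT
  noHit := hBH
  hπ := hπ
  ha := haπ
  partS := hPS
  sub := G.sub
  exit b d v hd hda hv _ hcon := by
    cases b
    · exact absurd hcon (out ha v d)
    · exact hPD d v hd hda hv hcon
  obs := G.obs
  out := out ha

/-- **Labels which are not influenced** have the same pasts in both derived worlds. -/
theorem unM (hΦ : AdmissiblePotential M.Φ) (hε : 0 < M.ε) {r : ℝ} (hr : 0 ≤ r) (i : ι)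
    (h : ¬ fjL M W l f a r (f i)) (b : Bool) :
    BC (cmL M W l f a (!b)) r (f i) = BC (cmL M W l f a b) r (f i) := by
  have h1 : ¬ W.Fut M.Φ M.ε (MW.line l) r i := fun h2 =>
    h (fj_of_fut (C := cmL M W l f a) (S := {a}) (f := f) (g := fun _ : Unit => a) hΦ hε
      (fun _ i j hij hc => ⟨i, j, hij, rfl, rfl, hc⟩)
      (fun _ x y hxy hc => ⟨x, y, hxy, rfl, rfl, hc⟩) (fun _ => Set.mem_singleton a) h2)
  have h2 := MW.histEq_of_not_fut hΦ hε G.ok G.okA hr h1
  have h3 : BC ((W.add (MW.line l)).C M.Φ M.ε) r (Sum.inl i) =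
      Sum.inl '' BC (W.C M.Φ M.ε) r i := (h2.act le_rfl).2
  have h4 : BC (cmL M W l f a true) r (f i) = BC (cmL M W l f a false) r (f i) := by
    have e1 : BC (cmL M W l f a true) r (f i) =
        Sum.elim f (fun _ => a) '' BC ((W.add (MW.line l)).C M.Φ M.ε) r (Sum.inl i) :=
      bc_cl (f := Sum.elim f fun _ => a) (elim_inj f a ha) r (Sum.inl i)
    have e2 : BC (cmL M W l f a false) r (f i) = f '' BC (W.C M.Φ M.ε) r i :=
      bc_cl f.injective r i
    rw [e1, e2, h3, Set.image_image]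
    rfl
  cases b
  · exact h4
  · exact h4.symm

end GD2

/-- Contacts of the glued worlds with a gas label, and the pasts of not influenced gas labels: what
is used by the extraction of a run. -/
structure GasW (M : VSys J κ) (C : Bool → ℝ → J → J → Prop) (Λ : Finset (Finset J)) (W : MW ι)
    (l : ML) (f : ι → J) (a : J) : Prop where
  gas : ∀ (b : Bool) (s : ℝ) (j k : J), j ≠ k → j ∉ uni Λ → C b s j k → cmL M W l f a b s j k
  un : ∀ (b : Bool) (r : ℝ) (k : J), 0 ≤ r → k ∉ uni Λ → ¬ fjL M W l f a r k →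
    BC (cmL M W l f a (!b)) r k = BC (cmL M W l f a b) r k

/-- A run of length `m` starts in a sub-part `D ∋ a` of the part `π` (for every marked world which
realises `D`). -/
def RunD (M : VSys J κ) (Z : J → PhasePoint) (π : Finset J) (a : J) (K m : ℕ) {n : ℕ}
    (w : Config n) : Prop :=
  ∃ D : Finset J, D ⊆ π ∧ a ∈ D ∧ ∀ (G : Type) [Fintype G] (V : MW G) (g : G ↪ J) (x : G),
    LinkD331.Grp M Z V g D → g x = a → LinkM547.Run M.Φ M.ε M.T K m V x w

section run

variable {X : Bool → ℝ → J → PhasePoint} {C : Bool → ℝ → J → J → Prop} {f : ι → J} {u : ℝ}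

/-- **Long entry chains give runs.** -/
theorem run_of_long [Nonempty κ] (B : BindW M X C Λ W l f a K T)
    (H : TwoW M c ℓ ς Z X C (cmL M W l f a) (fjL M W l f a) Λ π a N)
    (hG : GasW M C Λ W l f a) {n : ℕ} {w : Config n} {g : Fin n ↪ J} (hw : ∀ i, w i = Z (g i))
    (hgb : ∀ i, M.b (g i) = 0) (hgo : ∀ i, M.o ≠ some (g i))
    (hgas : ∀ i, i ∉ uni Λ → i ∈ range g) (hθ : u ≤ W.thetaL M.Φ M.ε K T l) (huT : u ≤ T)
    {L : List J} {s : ℝ} (hL : EC (cmL M W l f a) (fjL M W l f a) a L s) (hs : s < u)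
    (hm : L.length = m + 1) (hN : (uni Λ).card + 2 * K * (m + 1) ≤ N) : RunD M Z π a K m w := by
  have hlen : L.length - 1 ≤ m + 1 := by omega
  have h2 : 2 * K * (L.length - 1) ≤ 2 * K * (m + 1) := Nat.mul_le_mul_left _ hlen
  have hsz : ∀ x ∈ L, ∀ t ∈ Icc 0 u, ∀ b, (x = a → b = true) →
      (preF (C b) x t \ uni Λ).card ≤ K := by
    intro x hx t ht b hb
    have h10 : fjL M W l f a s x := hL.fj (Set.mem_singleton a) hx
    obtain ⟨x', rfl⟩ := B.exists_of_fj h10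
    exact B.size_of_fj hθ huT hs h10 ht b hb
  have h0s : 0 ≤ s := hL.nonneg
  have hsM : s ≤ M.T := (hs.le.trans huT).trans B.le
  obtain ⟨Y, hY, hmem⟩ := H.grp_of_ec (K := K) hL hsM
    (fun x hx b hb => hsz x hx s ⟨h0s, hs.le⟩ b hb) (by omega)
  have hgasL : ∀ x ∈ L, x ≠ a → x ∉ uni Λ := fun x hx hxa =>
    (hY.gas x (hmem x hx)).resolve_left hxa
  have haU : a ∈ uni Λ := LN304.mem_uni.2 ⟨π, H.hπ, H.ha⟩
  have hT : 0 < M.T := (h0s.trans_lt hs).trans_le (huT.trans B.le)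
  refine run_of_group (C := C) (F := fjL M W l f a) (s₁ := s) H.hΦ H.hε H.hc H.hℓς hT H.rw
    H.parts H.noBad H.noTwo H.noHit H.hπ H.ha (H.partS true) ?_ (fun r r' k h1 h2 => h1.mono h2)
    (.base (mem_singleton a)) ?_ ⟨h0s, hsM⟩ ?_ hw hgb hgo hgas (hL.mono_C H.sub) le_rfl hgasL ?_ ?_
    hm
  · intro r k hc
    by_contra hk
    have hka : k ≠ a := fun h' => hk (h' ▸ haU)
    exact H.out r k (cm_symm (hG.gas false r k a hka hk ((H.rw false).symm _ _ _ hc)))
  · intro b r j k hc hF hj hk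
    by_cases hjk : j = k
    · rw [← hjk]; exact hF
    · exact hF.con (cm_symm (hG.gas b r k j (Ne.symm hjk) hk ((H.rw b).symm _ _ _ hc)))
  · intro b r k h0 _ hk hF hU
    exact bc_eq_of_marked (U := {x | x ∈ uni Λ}) H.sub
      (fun b s j k hjk hj hc' => hG.gas b s j k hjk hj hc') (hG.un b r k h0 hk hF) hU
  · intro x hx hxa b
    refine le_trans (Finset.card_le_card (Finset.sdiff_subset_sdiff
      (bcF_subset_preF' h0s hs) (Finset.Subset.refl _))) (hsz x hx u ⟨h0s.trans hs.le, le_rfl⟩ b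
      fun h' => absurd h' hxa)
  · rw [hm]
    exact hN

/-- **(RA)**: a run of length `m` starts in a sub-part, or everything which is cleanly influenced
up to the touch time is reached. -/
theorem reachAll_or_run [Nonempty κ] (B : BindW M X C Λ W l f a K T)
    (H : TwoW M c ℓ ς Z X C (cmL M W l f a) (fjL M W l f a) Λ π a N)
    (hG : GasW M C Λ W l f a) {n : ℕ} {w : Config n} {g : Fin n ↪ J} (hw : ∀ i, w i = Z (g i))
    (hgb : ∀ i, M.b (g i) = 0) (hgo : ∀ i, M.o ≠ some (g i))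
    (hgas : ∀ i, i ∉ uni Λ → i ∈ range g) (m : ℕ)
    (hN : (uni Λ).card + 2 * K * (m + 2) ≤ N) :
    RunD M Z π a K m w ∨
      ReachAll (Reach M c Z Λ π a ((uni Λ).card + 2 * K * (m + 2))) M.Φ M.ε K T W f l a := by
  by_cases hr : RunD M Z π a K m w
  · exact Or.inl hr
  refine Or.inr (reachAll_core B H (fun L s hL h1 h2 => ?_) hN)
  by_contra hlen
  push Not at hlen
  obtain ⟨L', s', h3, h4, h5, _⟩ := hL.drop (m := m) (by omega)
  have h6 : s' < min (W.thetaL M.Φ M.ε K T l) T := lt_min (h4.trans_lt h1) (h4.trans_lt h2)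
  have h7 : 2 * K * (m + 1) ≤ 2 * K * (m + 2) := Nat.mul_le_mul_left _ (by omega)
  exact hr (run_of_long B H hG hw hgb hgo hgas (min_le_left _ _) (min_le_right _ _) h3 h6 h5
    (by omega))

end run

namespace GD2

variable (G : GD2 M Z cl W l f a ha)
include G

theorem gasW (hΦ : AdmissiblePotential M.Φ) (hε : 0 < M.ε) (hP : Parts M c Z Λ)
    (hΛ : ∀ j, cl j ⊆ uni Λ) (hgas : ∀ j, j ∉ uni Λ → ∃ i, f i = j) :
    GasW M (Cb M Z cl W l f a ha) Λ W l f a where
  gas := G.gas hP (fun j hj => by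
    by_contra hne
    exact hj (hΛ j (G.g0.mem j (Finset.nonempty_iff_ne_empty.2 hne)))) hgas
  un b r k h0 hk hF := by
    obtain ⟨i, rfl⟩ := hgas k hk
    exact G.unM hΦ hε h0 i hF b

/-- **(RA) for the glued worlds** of `W` and of `W + l`. -/
theorem reachAll_of_glue [Nonempty κ] (hΦ : AdmissiblePotential M.Φ) (hε : 0 < M.ε)
    (hT0 : 0 ≤ M.T) (hTM : T ≤ M.T) (hc : 1 ≤ c) (hℓς : 2 * ℓ ≤ ς)
    (hCB : CB2 M Z cl W l f a ha T) (hΛ : ∀ j, cl j ⊆ uni Λ)
    (hm : ∀ k, f k ∉ uni Λ → 1 ≤ W.m k) (hP : Parts M c Z Λ) (hNB : NoBad M c ℓ ς Z Λ N)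
    (hNT : NoTwo M c Z Λ N)
    (hBH : ∀ b, ¬ BadHit M c Z (Xb M Z cl W l f a ha b) (Cb M Z cl W l f a ha b) Λ N)
    (hπ : π ∈ Λ) (haπ : a ∈ π) (hPS : ∀ b, PartS M c Z (Cb M Z cl W l f a ha b) π)
    (hPD : PartD M c Z (Cb M Z cl W l f a ha true) (cmL M W l f a true) π a) {n : ℕ}
    {w : Config n} {g : Fin n ↪ J} (hw : ∀ i, w i = Z (g i)) (hgb : ∀ i, M.b (g i) = 0)
    (hgo : ∀ i, M.o ≠ some (g i)) (hgas : ∀ i, i ∉ uni Λ → i ∈ range g)
    (hgf : ∀ i, ∃ k, f k = g i) (m : ℕ) (hN : (uni Λ).card + 2 * K * (m + 2) ≤ N) :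
    RunD M Z π a K m w ∨
      ReachAll (Reach M c Z Λ π a ((uni Λ).card + 2 * K * (m + 2))) M.Φ M.ε K T W f l a :=
  reachAll_or_run
    (G.bindW hTM hCB hΛ (LN304.mem_uni.2 ⟨π, hπ, haπ⟩) hm)
    (G.twoW hΦ hε hT0 hc hℓς hP hNB hNT hBH hπ haπ hPS hPD)
    (G.gasW hΦ hε hP hΛ fun j hj => by
      obtain ⟨i, rfl⟩ := hgas j hj
      exact hgf i) hw hgb hgo hgas m hN

end GD2

end Crest.Agent.R122.LNEv818

end
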