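import Crest.Agent.R122.LNLinkEx_818
import Crest.Agent.R122.LinkE_331
import Crest.Agent.R122.InEq2Hist_311

/-!
# Influence and sizes before the touch time (row 122, EVENTS, helper818)

Base world `Z`, inserted world `A`; `u ≤ θ(Z, A)`.
* `not_inf_of_cf`, `not_inf_of_new`: cleanly influenced particles and the particles of `A` are not
  infected before `u` (in `Z` and in `Z + A`).
* `msizePre_le_of_cf`, `msizePre_le_of_new`: sizes of their strict pasts at `u`.
* `fj_of_fut`, `fj_of_cf`: influence in the labels of a master system (helper331's `FJ`).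
-/

set_option autoImplicit false
set_option linter.unusedSectionVars false

open MeasureTheory Set Filter Topology
open Crest.AnalysisR.Kinetic
open Crest.Agent.R122.Ins45 Crest.Agent.R122.EDefs602 Crest.Agent.R122.CausalGen291
open Crest.Agent.R122.MWFam255 Crest.Agent.R122.Inf879 Crest.Agent.R122.Causal291
open Crest.Agent.R122.LinkD331
open scoped Classical

noncomputable section

namespace Crest.Agent.R122.LNEv818

variable {ι κ : Type} [Fintype ι] [Fintype κ]
variable {Φ : Space3 → ℝ} {ε T : ℝ} {K : ℕ} {Z : MW ι} {A : MW κ} {u v : ℝ}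

/-- Before the touch time nothing influenced is infected. -/
theorem not_inf_of_fut (hu : u ≤ Z.theta Φ ε K T A) (huT : u ≤ T) {k : ι}
    (h : Z.Fut Φ ε A v k) (hv0 : 0 ≤ v) (hv : v < u) :
    ¬ Z.Inf Φ ε K v k ∧ ¬ (Z.add A).Inf Φ ε K v (Sum.inl k) := by
  have h1 : ¬ Z.Touched Φ ε K A v := fun ht =>
    absurd (hu.trans (MW.theta_le_of_touched ⟨hv0, hv.le.trans huT⟩ ht)) (not_le.2 hv)
  exact ⟨fun h2 => h1 (Or.inl ⟨k, h, Or.inl h2⟩), fun h2 => h1 (Or.inl ⟨k, h, Or.inr h2⟩)⟩

/-- Before the touch time the inserted particles are not infected. -/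
theorem not_inf_of_new (hu : u ≤ Z.theta Φ ε K T A) (huT : u ≤ T) (x : κ) (hv0 : 0 ≤ v)
    (hv : v < u) : ¬ (Z.add A).Inf Φ ε K v (Sum.inr x) := by
  have h1 : ¬ Z.Touched Φ ε K A v := fun ht =>
    absurd (hu.trans (MW.theta_le_of_touched ⟨hv0, hv.le.trans huT⟩ ht)) (not_le.2 hv)
  refine fun h2 => h1 (Or.inr (Or.inr ⟨Sum.inr x, ?_, h2⟩))
  rintro ⟨k, hk⟩
  cases hk

/-- Cleanly influenced particles are not infected before. -/
theorem not_inf_of_cf (hu : u ≤ Z.theta Φ ε K T A) (huT : u ≤ T) {k : ι}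
    (h : CF Φ ε K Z A u k) (hv0 : 0 ≤ v) (hv : v < u) :
    ¬ Z.Inf Φ ε K v k ∧ ¬ (Z.add A).Inf Φ ε K v (Sum.inl k) := by
  cases h with
  | init h hs => exact not_inf_of_fut hu huT (.init h hv0) hv0 hv
  | @new₁ s s' k j hj hc h0 hs hcl => exact absurd ⟨j, rfl⟩ hj
  | @new₂ s s' k j hj hc h0 hs hcl =>
    by_cases hvs : v < s'
    · exact hcl v hv0 hvs
    · exact not_inf_of_fut hu huT (.new₂ j hj hc h0 (not_lt.1 hvs)) hv0 hv
  | @chain₁ s s' k l h hc hs hcl =>
    by_cases hvs : v < s'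
    · exact hcl v hv0 hvs
    · exact not_inf_of_fut hu huT (.chain₁ h.fut hc (not_lt.1 hvs)) hv0 hv
  | @chain₂ s s' k l h hc hs hcl =>
    by_cases hvs : v < s'
    · exact hcl v hv0 hvs
    · exact not_inf_of_fut hu huT (.chain₂ h.fut hc (not_lt.1 hvs)) hv0 hv




/-! ### Influence on the labels -/

section labels

variable {J : Type} {C : Bool → ℝ → J → J → Prop} {S : Set J} {f : ι → J} {g : κ → J}

/-- **Influence on the labels.** -/
theorem fj_of_fut (hΦ : AdmissiblePotential Φ) (hε : 0 < ε)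
    (h0 : ∀ s i j, i ≠ j → Z.C Φ ε s i j → C false s (f i) (f j))
    (h1 : ∀ s x y, x ≠ y → (Z.add A).C Φ ε s x y →
      C true s (Sum.elim f g x) (Sum.elim f g y))
    (hS : ∀ x, g x ∈ S) {s : ℝ} {k : ι} (h : Z.Fut Φ ε A s k) : FJ C S s (f k) := by
  have key : ∀ {s : ℝ} {k : ι}, Z.Fut Φ ε A s k → FJ C S s (f k) := by
    intro s k h
    induction h with
    | @init s k h hs =>
      exfalso
      apply h
      change Z.path Φ ε 0 k = (Z.add A).path Φ ε 0 (Sum.inl k)
      rw [MW.path_zero hΦ hε, MW.path_zero hΦ hε]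
      rfl
    | @new₁ s s' k j hj hc h0 hs => exact absurd ⟨j, rfl⟩ hj
    | @new₂ s s' k j hj hc h0' hs =>
      rcases j with j | x
      · exact absurd ⟨j, rfl⟩ hj
      · refine .step (.base (hS x)) (b := true) (s' := s') ?_ hs
        exact h1 s' (Sum.inr x) (Sum.inl k) (by simp) hc
    | @chain₁ s s' k l h hc hs ih =>
      by_cases hlk : l = k
      · subst hlk
        exact ih.mono hs
      · exact .step ih (b := false) (h0 s' l k hlk hc) hs
    | @chain₂ s s' k l h hc hs ih =>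
      by_cases hlk : l = k
      · subst hlk
        exact ih.mono hs
      · exact .step ih (b := true) (h1 s' (Sum.inl l) (Sum.inl k)
          (fun h => hlk (Sum.inl_injective h)) hc) hs
  exact key h

theorem fj_of_ci (hΦ : AdmissiblePotential Φ) (hε : 0 < ε)
    (h0 : ∀ s i j, i ≠ j → Z.C Φ ε s i j → C false s (f i) (f j))
    (h1 : ∀ s x y, x ≠ y → (Z.add A).C Φ ε s x y →
      C true s (Sum.elim f g x) (Sum.elim f g y))
    (hS : ∀ x, g x ∈ S) {s : ℝ} {x : ι ⊕ κ} (h : CI Φ ε K Z A s x) :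
    FJ C S s (Sum.elim f g x) := by
  rcases x with k | x
  · exact fj_of_fut hΦ hε h0 h1 hS h.inl.fut
  · exact .base (hS x)

end labels

end Crest.Agent.R122.LNEv818

end
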