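import Crest.Agent.R122.LinkD1_331

/-!
# Row 122, LN3-D (helper331), part 2: clean chains from entry chains (choice of the worlds)

`EC C F a L s`: entry chain from the root `a` (most recent particle first), `s` last entry time,
`F r k`: the particle `k` is influenced at time `r`.
* `cc_of_ec`: an entry chain gives a clean chain with the same number of links.
-/

set_option autoImplicit false

open Set

namespace Crest.Agent.R122.LinkD331

open Crest.Agent.R122.Causal291

variable {J : Type} {T : ℝ} {C : Bool → ℝ → J → J → Prop} {E : ℝ → J → J → Prop}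

/-- Entry chains (most recent particle first, the root `a` at the end). -/
inductive EC (C : Bool → ℝ → J → J → Prop) (F : ℝ → J → Prop) (a : J) : List J → ℝ → Prop
  | root : EC C F a [a] 0
  | cons {l k : J} {ps : List J} {s s' : ℝ} {b : Bool} (h : EC C F a (l :: ps) s) (hs : s ≤ s')
      (hk : k ∉ l :: ps) (hc : C b s' l k) (hn : ∀ r < s', ¬ F r k) : EC C F a (k :: l :: ps) s'

variable {F : ℝ → J → Prop} {a : J}

theorem EC.mem {L : List J} {s : ℝ} (h : EC C F a L s) : a ∈ L := by
  induction h with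
  | root => exact List.mem_singleton.2 rfl
  | cons _ _ _ _ _ ih => exact List.mem_cons_of_mem _ ih

theorem EC.nonneg {L : List J} {s : ℝ} (h : EC C F a L s) : 0 ≤ s := by
  induction h with
  | root => exact le_rfl
  | cons _ hs _ _ _ ih => exact ih.trans hs

theorem EC.nodup {L : List J} {s : ℝ} (h : EC C F a L s) : L.Nodup := by
  induction h with
  | root => exact List.nodup_singleton a
  | cons _ _ hk _ _ ih => exact List.nodup_cons.2 ⟨hk, ih⟩

/-- The head of an entry chain is influenced. -/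
theorem EC.fut (hmono : ∀ r r' k, F r k → r ≤ r' → F r' k) (h0 : F 0 a)
    (hcon : ∀ b r j k, C b r j k → F r j → F r k) {L : List J} {s : ℝ} (h : EC C F a L s)
    {k : J} {tl : List J} (hL : L = k :: tl) : F s k := by
  induction h generalizing k tl with
  | root =>
    rw [List.cons.injEq] at hL
    rw [← hL.1]; exact h0
  | @cons l k' ps s s' b h hs hk hc hn ih =>
    rw [List.cons.injEq] at hL
    rw [← hL.1]
    exact hcon b s' l k' hc (hmono _ _ _ (ih rfl) hs)

/-- First contact time of a pair. -/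
theorem Tree.exists_first (hT : Tree T C E) {b : Bool} {j k : J} (hne : j ≠ k) {r : ℝ}
    (hr : r ≤ T) (hc : C b r j k) :
    ∃ r₁ ≤ r, C b r₁ j k ∧ ∀ r' < r₁, ¬ C b r' j k := by
  have hr0 : 0 < r := hT.pos b r j k hc hne
  have hcomp : IsCompact {s | s ∈ Icc 0 T ∧ C b s j k} :=
    isCompact_Icc.of_isClosed_subset (hT.closed b j k hne) fun s hs => hs.1
  obtain ⟨r₁, h1, h2⟩ := hcomp.exists_isLeast ⟨r, ⟨hr0.le, hr⟩, hc⟩
  refine ⟨r₁, h2 ⟨⟨hr0.le, hr⟩, hc⟩, h1.2, fun r' hr' hc' => ?_⟩
  have h3 : 0 < r' := hT.pos b r' j k hc' hne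
  exact absurd (h2 ⟨⟨h3.le, hr'.le.trans h1.1.2⟩, hc'⟩) (not_le.2 hr')




/-- The virtual contact graph of a part. -/
def grOn (E : ℝ → J → J → Prop) (S : Set J) : SimpleGraph J where
  Adj i j := i ≠ j ∧ i ∈ S ∧ j ∈ S ∧ ∃ s, E s i j ∨ E s j i
  symm := ⟨fun _ _ ⟨h, hi, hj, s, h'⟩ => ⟨h.symm, hj, hi, s, h'.symm⟩⟩
  loopless := ⟨fun _ h => h.1 rfl⟩

theorem grOn_le (E : ℝ → J → J → Prop) (S : Set J) : grOn E S ≤ grA E :=
  fun _ _ ⟨h, _, _, s, h'⟩ => ⟨h, s, h'⟩



end Crest.Agent.R122.LinkD331
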