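import Crest.Agent.R122.LNPartS_291
import Crest.Agent.R122.LNExit_968
import Crest.Agent.R122.LNReachC_818_Mg
import Crest.Agent.R122.PWInst2_442

-- ▼ part R122/LNPartS2_291
section

/-!
# Exit data of the glued world, from the connecting family of helper968

`famG_of_old` : `LNEv968.Fam` + `LNEv968.Old` for the pairs of exits of the derived world.
-/

set_option autoImplicit false
set_option linter.unusedSectionVars false

open MeasureTheory Set Filter Topology
open Crest.AnalysisR.Kinetic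
open Crest.Agent.R122.Flow671 Crest.Agent.R122.Loc45 Crest.Agent.R122.Ins45
open Crest.Agent.R122.VL581 Crest.Agent.R122.VL581.VSys Crest.Agent.R122.VLInst442
open Crest.Agent.R122.LNInst491 Crest.Agent.R122.LN304 Crest.Agent.R122.LNg410
open Crest.Agent.R122.PWGlue491 Crest.Agent.R122.LNW291

noncomputable section

namespace Crest.Agent.R122.LNPartS291

variable {J κ : Type} [Fintype J] {M : VSys J κ} {Z : J → PhasePoint}
  {Sp : J → Finset J} {bD : J → ℝ} {A : Finset J} {XD : ℝ → J → PhasePoint}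
  {c : ℝ} {π : Finset J} {R : ℝ → J → J → Prop}

/-- helper968's timed family as an untimed one. -/
theorem fam_of (hF : LNEv968.Fam M c Z π R) :
    Fam M c Z π fun j k => ∃ r ∈ Icc 0 M.T, R r j k :=
  ⟨hF.conn, fun i hi j hj hij ⟨r, hr, h⟩ => ⟨r, hr, hF.vct r hr i hi j hj hij h⟩⟩

/-- helper968's `Fam` and `Old` give `FamG`. -/
theorem famG_of_old (hF : LNEv968.Fam M c Z π R)
    (hold : ∀ a ∈ π, a ∈ A → ∀ b ∈ π, b ∈ A → a ≠ b → LNEv968.Old Sp bD R a b) :
    FamG M c Z Sp bD A π fun j k => ∃ r ∈ Icc 0 M.T, R r j k := by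
  refine ⟨fam_of hF, fun i hi j hj hij ⟨r, hr, h⟩ hiA hjA => ?_⟩
  obtain ⟨h1, h2⟩ := hold i hi hiA j hj hjA hij r h
  obtain ⟨_, h3⟩ := hold j hj hjA i hi hiA hij.symm r (hF.symm r i j h)
  exact ⟨h1, r, hr.1, h2, h3, hF.vct r hr i hi j hj hij h⟩

/-- **PartS**, helper968's form. -/
theorem partS_of_old (H : GD M Z Sp bD A XD) (hsub : ∀ i ∈ π, Sp i ⊆ π)
    (hnon : ∀ i ∈ π, i ∈ A → (Sp i).Nonempty) (hF : LNEv968.Fam M c Z π R)
    (hold : ∀ a ∈ π, a ∈ A → ∀ b ∈ π, b ∈ A → a ≠ b → LNEv968.Old Sp bD R a b) :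
    PartS M c Z (CG M Z Sp bD A XD) π :=
  partS_of_gd H hsub hnon (famG_of_old hF hold)

/-- **PartD**, helper968's form. -/
theorem partD_of_old (hΦ : AdmissiblePotential M.Φ) (hε : 0 < M.ε) (H : GD M Z Sp bD A XD)
    (hT : 0 ≤ M.T) (hF : LNEv968.Fam M c Z π R)
    (hold : ∀ a ∈ π, a ∈ A → ∀ b ∈ π, b ∈ A → a ≠ b → LNEv968.Old Sp bD R a b)
    {C' : ℝ → J → J → Prop} {a : J} (ha : a ∈ π)
    (hC' : ∀ v d, C' v a d → CD M.ε bD A XD v a d) :
    PartD M c Z (CG M Z Sp bD A XD) C' π a :=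
  partD_of_gd hΦ hε H hT (famG_of_old hF hold) ha hC'

end Crest.Agent.R122.LNPartS291

end
end

-- ▼ part R122/LNPartS3_291

/-!
# Exit data for helper304's chain theorem (row 122, LN1)

The hypotheses `hS`, `hCC`, `hD` of `LN304.reach_of_ec`, with `C` the contacts of the glued world of
a marked world `W` on the labels `f`, and `C'` the contacts `LNEv818.CL` of `W` on the labels.
-/

set_option autoImplicit false
set_option linter.unusedSectionVars false

open MeasureTheory Set Filter Topology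
open Crest.AnalysisR.Kinetic
open Crest.Agent.R122.Flow671 Crest.Agent.R122.Loc45 Crest.Agent.R122.Ins45
open Crest.Agent.R122.EDefs602
open Crest.Agent.R122.VL581 Crest.Agent.R122.VL581.VSys Crest.Agent.R122.VLInst442
open Crest.Agent.R122.LNInst491 Crest.Agent.R122.LN304 Crest.Agent.R122.LNg410
open Crest.Agent.R122.PWGlue491 Crest.Agent.R122.LNW291 Crest.Agent.R122.PWInst442
open Crest.Agent.R122.LNEv818

noncomputable section

namespace Crest.Agent.R122.LNPartS291

variable {J κ ι : Type} [Fintype J] [Fintype ι] {M : VSys J κ} {Z : J → PhasePoint}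
  {cl : J → Finset J} {W : MW ι} {f : ι ↪ J} {c : ℝ} {π : Finset J} {R : ℝ → J → J → Prop}



/-- Contacts of the marked world on the labels are contacts of the derived world. -/
theorem cd_of_cl {s : ℝ} {j k : J} (h : CL M.Φ M.ε W f s j k) :
    CD M.ε (bD W f) (labs f) (XD W f M.Φ M.ε) s j k := by
  obtain ⟨x, y, hxy, rfl, rfl, h1, h2, h3, h4⟩ := h
  refine ⟨mem_labs_self f x, mem_labs_self f y, ?_, ?_, ?_, ?_⟩
  · rw [bD_apply]; exact h1
  · rw [bD_apply]; exact h2
  · rw [bD_apply, bD_apply]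
    rcases h3 with h3 | h3
    · exact absurd h3 hxy
    · exact h3
  · rw [XD_apply, XD_apply]; exact h4

variable (H : GD M Z cl (bD W f) (labs f) (XD W f M.Φ M.ε))
include H

/-- Contacts of the marked world on the labels are contacts of the glued world (`hCC`). -/
theorem cg_of_cl {s : ℝ} {j k : J} (h : CL M.Φ M.ε W f s j k) :
    CG M Z cl (bD W f) (labs f) (XD W f M.Φ M.ε) s j k := by
  obtain ⟨h1, h2, h3, h4, h5, h6⟩ := cd_of_cl h
  refine LNEv968.cg_of H h1 h2 h3 h4 ?_ h6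
  exact h5.imp (fun h => (H.bb_le j h1).trans_lt h) fun h => (H.bb_le k h2).trans_lt h

/-- **`hS`** of `LN304.reach_of_ec`. -/
theorem partS_lab (hsub : ∀ i ∈ π, cl i ⊆ π) (hnon : ∀ i, f i ∈ π → (cl (f i)).Nonempty)
    (hF : LNEv968.Fam M c Z π R)
    (hold : ∀ i i', f i ∈ π → f i' ∈ π → i ≠ i' → ∀ r, R r (f i) (f i') →
      f i' ∈ cl (f i) ∧ r ≤ W.b i) :
    LN304.PartS M c Z (CG M Z cl (bD W f) (labs f) (XD W f M.Φ M.ε)) π := by
  refine partS_of_old H hsub (fun j hj hA => ?_) hF fun a ha haA b hb hbA hab r hr => ?_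
  · obtain ⟨i, rfl⟩ := (mem_labs f).1 hA
    exact hnon i hj
  · obtain ⟨i, rfl⟩ := (mem_labs f).1 haA
    obtain ⟨i', rfl⟩ := (mem_labs f).1 hbA
    rw [bD_apply]
    exact hold i i' ha hb (fun h => hab (h ▸ rfl)) r hr

/-- **`hD`** of `LN304.reach_of_ec`. -/
theorem partD_lab (hΦ : AdmissiblePotential M.Φ) (hε : 0 < M.ε) (hT : 0 ≤ M.T)
    (hF : LNEv968.Fam M c Z π R)
    (hold : ∀ i i', f i ∈ π → f i' ∈ π → i ≠ i' → ∀ r, R r (f i) (f i') →
      f i' ∈ cl (f i) ∧ r ≤ W.b i) {a : J} (ha : a ∈ π) :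
    LN304.PartD M c Z (CG M Z cl (bD W f) (labs f) (XD W f M.Φ M.ε)) (CL M.Φ M.ε W f) π a := by
  refine partD_of_old hΦ hε H hT hF (fun a ha haA b hb hbA hab r hr => ?_) ha
    fun v d h => cd_of_cl h
  obtain ⟨i, rfl⟩ := (mem_labs f).1 haA
  obtain ⟨i', rfl⟩ := (mem_labs f).1 hbA
  rw [bD_apply]
  exact hold i i' ha hb (fun h => hab (h ▸ rfl)) r hr

end Crest.Agent.R122.LNPartS291

end
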