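import Crest.Agent.R122.LNReachC_818_Mg
import Crest.Agent.R122.LinkD2_331

-- ▼ part R122/LNReachAll_818
section

/-!
# Everything cleanly influenced is reached (row 122, EVENTS, helper818)

* `TwoW` : two real (pseudo-)worlds `(X b, C b)` over one master system; `C' b` the contacts of the
  derived worlds, `a` the exit, present in the world `true` only.
* `TwoW.grp_of_ec` : group of an entry chain (helper304).
* `reachAll_core` : if the entry chains which end before the touch time have at most `m + 1`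
  members, then everything which is cleanly influenced by the exit line up to the touch time
  (included) is reached.
-/

set_option autoImplicit false
set_option linter.unusedSectionVars false

open MeasureTheory Set Filter Topology
open Crest.AnalysisR.Kinetic
open Crest.Agent.R122.GIV566 Crest.Agent.R122.VL581 Crest.Agent.R122.LNg410
open Crest.Agent.R122.Causal291 Crest.Agent.R122.VLInst442 Crest.Agent.R122.LNEv968
open Crest.Agent.R122.LN304 Crest.Agent.R122.LinkD331
open Crest.Agent.R122.Ins45 Crest.Agent.R122.EDefs602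
open Crest.Agent.R122.MWFam255 Crest.Agent.R122.Inf879
open scoped Classical

noncomputable section

namespace Crest.Agent.R122.LNEv818

variable {J κ : Type} [Fintype J] {M : VSys J κ} {c ℓ ς : ℝ} {Z : J → PhasePoint}
  {X : Bool → ℝ → J → PhasePoint} {C C' : Bool → ℝ → J → J → Prop} {F : ℝ → J → Prop}
  {Λ : Finset (Finset J)} {N n K : ℕ} {π Y : Finset J} {a x y : J} {v : ℝ}

/-- Two real (pseudo-)worlds over one master system, and the exit `a`, which is present in the
world `true` only.  `C' b` : contacts of the derived worlds, `F` : influence. -/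
structure TwoW (M : VSys J κ) (c ℓ ς : ℝ) (Z : J → PhasePoint) (X : Bool → ℝ → J → PhasePoint)
    (C C' : Bool → ℝ → J → J → Prop) (F : ℝ → J → Prop) (Λ : Finset (Finset J)) (π : Finset J)
    (a : J) (N : ℕ) : Prop where
  hΦ : AdmissiblePotential M.Φ
  hε : 0 < M.ε
  hc : 1 ≤ c
  hℓς : 2 * ℓ ≤ ς
  rw : ∀ b, RW M Z (X b) (C b)
  parts : Parts M c Z Λ
  noBad : NoBad M c ℓ ς Z Λ N
  noTwo : NoTwo M c Z Λ N
  noHit : ∀ b, ¬ BadHit M c Z (X b) (C b) Λ N
  hπ : π ∈ Λ
  ha : a ∈ π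
  partS : ∀ b, PartS M c Z (C b) π
  sub : ∀ b s j k, j ≠ k → C' b s j k → C b s j k
  exit : ∀ (b : Bool) (d : J) (v : ℝ), d ∈ π → d ≠ a → v ≤ M.T → (∀ r < v, ¬ F r d) →
    C' b v a d → ∃ G, Fam M c Z π G ∧ (G a d ∨ G d a → ∃ s₀, 0 ≤ s₀ ∧ M.VCt c π a d s₀ Z ∧
      ∃ r, s₀ ≤ r ∧ r < v ∧ ∃ m, m ≠ a ∧ m ≠ d ∧ (C b r a m ∨ C b r d m))
  obs : M.o ≠ some a
  out : ∀ s k, ¬ C' false s a k

namespace TwoW

variable (H : TwoW M c ℓ ς Z X C C' F Λ π a N) [Nonempty κ]
include H

/-- `grow1` of helper304. -/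
theorem grow1 (b : Bool) (hY : Grp M c Z Λ π a n Y) (hx : x ∈ Y) (hv : v ∈ Ioc 0 M.T)
    (hcard : (Y ∪ preF (C b) x v ∪ uni Λ).card ≤ N) :
    Grp M c Z Λ π a N (Y ∪ (preF (C b) x v \ π)) ∧ Agr M Z (X b) (C b) x v ∧
      M.ok (preF (C b) x v) v Z ∧ X b v x = M.st (preF (C b) x v) v Z x :=
  LN304.grow1 H.hΦ H.hε H.hc H.hℓς (H.rw b) H.parts H.noBad H.noTwo (H.noHit b) H.hπ H.ha
    (H.partS b) hY hx hv hcard

/-- `grow2` of helper304. -/
theorem grow2 (b : Bool) (hY : Grp M c Z Λ π a n Y) (hx : x ∈ Y) (hv : v ∈ Ioc 0 M.T)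
    (hyx : y ≠ x) (hya : y ≠ a) (hxy : C' b v x y) (hF : ∀ r < v, ¬ F r y)
    (hcard : (Y ∪ preF (C b) x v ∪ preF (C b) y v ∪ uni Λ).card ≤ N) :
    y ∉ uni Λ ∧ Grp M c Z Λ π a N (Y ∪ (preF (C b) x v \ π) ∪ (preF (C b) y v \ π)) ∧
      Agr M Z (X b) (C b) y v ∧ M.ok (preF (C b) y v) v Z ∧
      X b v y = M.st (preF (C b) y v) v Z y :=
  LN304.grow2 H.hΦ H.hε H.hc H.hℓς (H.rw b) H.parts H.noBad H.noTwo (H.noHit b) H.hπ H.ha
    (H.partS b) hY hx hv hyx hya (H.sub b v x y (Ne.symm hyx) hxy)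
    (fun hxa hyπ => by
      subst hxa
      exact H.exit b y v hyπ hya hv.2 hF hxy) hcard

omit [Nonempty κ] in
theorem pos {b : Bool} {s : ℝ} {j k : J} (hjk : j ≠ k) (h : C' b s j k) : 0 < s := by
  rcases ((H.rw b).geo s j k hjk (H.sub b s j k hjk h)).2.2.2.2.1 with h' | h'
  · exact (bb_nonneg M j).trans_lt h'
  · exact (bb_nonneg M k).trans_lt h'

omit [Nonempty κ] in
theorem close {b : Bool} {s : ℝ} {j k : J} (hjk : j ≠ k) (h : C' b s j k) :
    dist (X b s j).1 (X b s k).1 ≤ M.ε :=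
  ((H.rw b).geo s j k hjk (H.sub b s j k hjk h)).2.2.2.2.2

/-- **The group of an entry chain** (helper304's `grp_of_ec`). -/
theorem grp_of_ec {L : List J} {s : ℝ} (hL : EC C' F a L s) :
    s ≤ M.T → (∀ x ∈ L, ∀ b, (x = a → b = true) → (preF (C b) x s \ uni Λ).card ≤ K) →
    (uni Λ).card + 2 * K * (L.length - 1) ≤ N →
    ∃ Y, Grp M c Z Λ π a ((uni Λ).card + 2 * K * (L.length - 1)) Y ∧ ∀ x ∈ L, x ∈ Y := by
  induction hL with
  | root =>
    intro _ _ _
    refine ⟨{a}, Grp.single H.obs ?_, fun x hx => ?_⟩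
    · rw [Finset.insert_eq_of_mem (sub_uni H.hπ H.ha)]
      omega
    · rw [List.mem_singleton] at hx
      rw [hx]
      exact Finset.mem_singleton_self a
  | @cons l k ps s s' b h hs hk hcon hn ih =>
    intro hsT hK hN
    have hlen : (k :: l :: ps).length - 1 = ((l :: ps).length - 1) + 1 := by
      simp only [List.length_cons]
      omega
    rw [hlen] at hN ⊢
    have hN' : (uni Λ).card + 2 * K * ((l :: ps).length - 1) + 2 * K ≤ N := by
      have : 2 * K * ((l :: ps).length - 1 + 1) = 2 * K * ((l :: ps).length - 1) + 2 * K := by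
        ring
      omega
    obtain ⟨Y₀, hY₀, hmem⟩ := ih (hs.trans hsT) (fun x hx b hb =>
      (Finset.card_le_card (Finset.sdiff_subset_sdiff (preF_mono hs) (Finset.Subset.refl _))).trans
        (hK x (List.mem_cons_of_mem _ hx) b hb)) (by omega)
    have hlY : l ∈ Y₀ := hmem l List.mem_cons_self
    have hkl : k ≠ l := fun h' => hk (h' ▸ List.mem_cons_self)
    have hka : k ≠ a := fun h' => hk (h' ▸ h.mem)
    have hs'0 : 0 < s' := H.pos (Ne.symm hkl) hcon
    have e1 := hK l (List.mem_cons_of_mem _ List.mem_cons_self) b (fun hla => by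
      cases b with
      | true => rfl
      | false => exact absurd (hla ▸ hcon) (H.out s' k))
    have e2 := hK k List.mem_cons_self b (fun h' => absurd h' hka)
    have hcard : (Y₀ ∪ preF (C b) l s' ∪ preF (C b) k s' ∪ uni Λ).card ≤
        (uni Λ).card + 2 * K * ((l :: ps).length - 1) + 2 * K := by
      have h1 := card_union_uni (Y₀ ∪ preF (C b) l s') (preF (C b) k s') (uni Λ)
      have h2 := card_union_uni Y₀ (preF (C b) l s') (uni Λ)
      have h3 := hY₀.card
      omega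
    obtain ⟨hku, h2, _⟩ := H.grow2 b hY₀ hlY ⟨hs'0, hsT⟩ hkl hka hcon hn (hcard.trans hN')
    refine ⟨_, Grp.of_card h2 ?_, fun x hx => ?_⟩
    · have : (uni Λ).card + 2 * K * ((l :: ps).length - 1 + 1) =
          (uni Λ).card + 2 * K * ((l :: ps).length - 1) + 2 * K := by ring
      rw [this]
      refine le_trans (Finset.card_le_card ?_) hcard
      intro z hz
      simp only [Finset.mem_union, Finset.mem_sdiff] at hz ⊢
      tauto
    · rcases List.mem_cons.1 hx with rfl | hx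
      · refine Finset.mem_union_right _ (Finset.mem_sdiff.2 ⟨self_mem_preF hs'0, ?_⟩)
        exact fun hkπ => hku (sub_uni H.hπ hkπ)
      · exact Finset.mem_union_left _ (Finset.mem_union_left _ (hmem x hx))

/-- Position of a member of a group. -/
theorem reach_of_mem (b : Bool) (hY : Grp M c Z Λ π a n Y) (hx : x ∈ Y) (hv : v ∈ Ioc 0 M.T)
    (hK : (preF (C b) x v \ uni Λ).card ≤ K) {n' : ℕ} (hn' : (Y ∪ uni Λ).card + K ≤ n')
    (hN : n' ≤ N) : Reach M c Z Λ π a n' x v (X b v x).1 := by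
  have hcard : (Y ∪ preF (C b) x v ∪ uni Λ).card ≤ n' := by
    have h1 := card_union_uni Y (preF (C b) x v) (uni Λ)
    omega
  obtain ⟨h1, _, h3, h4⟩ := H.grow1 b hY hx hv (hcard.trans hN)
  refine ⟨_, Grp.of_card h1 ?_, Finset.mem_union_left _ hx, preF (C b) x v, ?_,
    self_mem_preF hv.1, h3, ?_⟩
  · refine le_trans (Finset.card_le_card ?_) hcard
    intro z hz
    simp only [Finset.mem_union, Finset.mem_sdiff] at hz ⊢
    tauto
  · intro z hz
    simp only [Finset.mem_union, Finset.mem_sdiff]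
    tauto
  · rw [h4]

/-- **Two contacts at the same time.** If `x ∈ Y` touches `y` and `y` touches `k` at the same time,
then `k = x`. -/
theorem same_time {b b' : Bool} {k : J} (hY : Grp M c Z Λ π a n Y) (hx : x ∈ Y)
    (hv : v ∈ Ioc 0 M.T) (hyx : y ≠ x) (hya : y ≠ a) (hka : k ≠ a) (hky : k ≠ y)
    (hxy : C' b v x y) (hyk : C' b' v y k) (hFy : ∀ r < v, ¬ F r y) (hFk : ∀ r < v, ¬ F r k)
    (e1 : (preF (C b) x v \ uni Λ).card ≤ K) (e2 : (preF (C b) y v \ uni Λ).card ≤ K)
    (e3 : (preF (C b') y v \ uni Λ).card ≤ K) (e4 : (preF (C b') k v \ uni Λ).card ≤ K)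
    (hN : (Y ∪ uni Λ).card + 4 * K ≤ N) : k = x := by
  by_contra hkx
  have hcard1 : (Y ∪ preF (C b) x v ∪ preF (C b) y v ∪ uni Λ).card ≤ (Y ∪ uni Λ).card + 2 * K := by
    have h1 := card_union_uni (Y ∪ preF (C b) x v) (preF (C b) y v) (uni Λ)
    have h2 := card_union_uni Y (preF (C b) x v) (uni Λ)
    omega
  obtain ⟨hyu, g1, _, ok1, p1⟩ := H.grow2 b hY hx hv hyx hya hxy hFy (by omega)
  obtain ⟨_, _, ok0, p0⟩ := H.grow1 b hY hx hv (by
    refine le_trans (Finset.card_le_card ?_) (hcard1.trans (by omega))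
    intro z hz
    simp only [Finset.mem_union] at hz ⊢
    tauto)
  set Y₁ : Finset J := Y ∪ (preF (C b) x v \ π) ∪ (preF (C b) y v \ π) with hY₁
  have hyπ : y ∉ π := fun h => hyu (sub_uni H.hπ h)
  have hyY₁ : y ∈ Y₁ := Finset.mem_union_right _ (Finset.mem_sdiff.2 ⟨self_mem_preF hv.1, hyπ⟩)
  have hY₁c : (Y₁ ∪ uni Λ).card ≤ (Y ∪ uni Λ).card + 2 * K := by
    refine le_trans (Finset.card_le_card ?_) hcard1
    intro z hz
    simp only [hY₁, Finset.mem_union, Finset.mem_sdiff] at hz ⊢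
    tauto
  have hcard2 : (Y₁ ∪ preF (C b') y v ∪ preF (C b') k v ∪ uni Λ).card ≤
      (Y ∪ uni Λ).card + 4 * K := by
    have h1 := card_union_uni (Y₁ ∪ preF (C b') y v) (preF (C b') k v) (uni Λ)
    have h2 := card_union_uni Y₁ (preF (C b') y v) (uni Λ)
    omega
  obtain ⟨hku, g2, _, ok2, p2⟩ := H.grow2 b' g1 hyY₁ hv hky hka hyk hFk (hcard2.trans hN)
  obtain ⟨_, _, ok3, p3⟩ := H.grow1 b' g1 hyY₁ hv (by
    refine le_trans (Finset.card_le_card ?_) (hcard2.trans hN)
    intro z hz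
    simp only [Finset.mem_union] at hz ⊢
    tauto)
  set Y₂ : Finset J := Y₁ ∪ (preF (C b') y v \ π) ∪ (preF (C b') k v \ π) with hY₂
  have hkπ : k ∉ π := fun h => hku (sub_uni H.hπ h)
  have hkY₂ : k ∈ Y₂ := Finset.mem_union_right _ (Finset.mem_sdiff.2 ⟨self_mem_preF hv.1, hkπ⟩)
  have hconn : M.Conn c (π ∪ Y₂) Z := g2.conn_union (H.parts.conn π H.hπ) H.ha
  have hTL : TL M c ℓ ς (π ∪ Y₂) Z := by
    refine H.noBad _ hconn ⟨π, H.hπ, Finset.subset_union_left⟩ ?_
    refine le_trans (Finset.card_le_card ?_) g2.card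
    intro z hz
    simp only [Finset.mem_union] at hz ⊢
    rcases hz with (hz | hz) | hz
    · exact Or.inr (sub_uni H.hπ hz)
    · exact Or.inl hz
    · exact Or.inr hz
  have s0 : preF (C b) x v ⊆ π ∪ Y₂ := by
    intro z hz
    simp only [hY₂, hY₁, Finset.mem_union, Finset.mem_sdiff]
    tauto
  have s1 : preF (C b) y v ⊆ π ∪ Y₂ := by
    intro z hz
    simp only [hY₂, hY₁, Finset.mem_union, Finset.mem_sdiff]
    tauto
  have s3 : preF (C b') y v ⊆ π ∪ Y₂ := by
    intro z hz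
    simp only [hY₂, hY₁, Finset.mem_union, Finset.mem_sdiff]
    tauto
  have s2 : preF (C b') k v ⊆ π ∪ Y₂ := by
    intro z hz
    simp only [hY₂, hY₁, Finset.mem_union, Finset.mem_sdiff]
    tauto
  have hT' : v ∈ Icc 0 M.T := ⟨hv.1.le, hv.2⟩
  have hdc : ∀ {r : ℝ}, r ≤ M.ε → r ≤ c * M.ε := fun hr =>
    hr.trans (le_mul_of_one_le_left H.hε.le H.hc)
  have hoy : M.o ≠ some y := g1.obs y hyY₁
  have hox : M.o ≠ some x := hY.obs x hx
  have hok : M.o ≠ some k := g2.obs k hkY₂
  have v1 : M.VCt c (π ∪ Y₂) x y v Z := vct_of_st s0 s1 (self_mem_preF hv.1) (self_mem_preF hv.1)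
    ok0 ok1 hox hoy (by rw [← p0, ← p1]; exact hdc (H.close (Ne.symm hyx) hxy))
  have v2 : M.VCt c (π ∪ Y₂) y k v Z := vct_of_st s3 s2 (self_mem_preF hv.1) (self_mem_preF hv.1)
    ok3 ok2 hoy hok (by rw [← p3, ← p2]; exact hdc (H.close (Ne.symm hky) hyk))
  exact between_false hTL hconn H.hℓς (s0 (self_mem_preF hv.1)) (s1 (self_mem_preF hv.1))
    (s2 (self_mem_preF hv.1)) (Ne.symm hyx) hkx hky hv.1.le le_rfl le_rfl v1 ⟨hT', v1⟩ ⟨hT', v2⟩

end TwoW

/-! ### Marked worlds -/

section core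

variable {ι : Type} [Fintype ι] {W : MW ι} {l : ML} {f : ι → J} {T u : ℝ} {m : ℕ}

/-- Contacts of `W` and of `W + l`, on labels; the line has the label `a`. -/
abbrev cmL (M : VSys J κ) (W : MW ι) (l : ML) (f : ι → J) (a : J) : Bool → ℝ → J → J → Prop :=
  CM M.Φ M.ε W (MW.line l) f (fun _ : Unit => a)

/-- Influence of the line, on labels. -/
abbrev fjL (M : VSys J κ) (W : MW ι) (l : ML) (f : ι → J) (a : J) : ℝ → J → Prop :=
  FJ (cmL M W l f a) {a}

/-- The marked worlds `W`, `W + l` in the real (pseudo-)worlds `X`, `C`. -/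
structure BindW (M : VSys J κ) (X : Bool → ℝ → J → PhasePoint) (C : Bool → ℝ → J → J → Prop)
    (Λ : Finset (Finset J)) (W : MW ι) (l : ML) (f : ι → J) (a : J) (K : ℕ) (T : ℝ) : Prop where
  inj : Function.Injective (Sum.elim f fun _ : Unit => a)
  nonneg : ∀ x, 0 ≤ (W.add (MW.line l)).b x
  ok : W.Ok M.Φ M.ε
  okA : (W.add (MW.line l)).Ok M.Φ M.ε
  le : T ≤ M.T
  path0 : ∀ s ∈ Icc 0 T, ∀ k, W.b k ≤ s → X false s (f k) = W.path M.Φ M.ε s k
  path1 : ∀ s ∈ Icc 0 T, ∀ x, (W.add (MW.line l)).b x ≤ s →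
    X true s (Sum.elim f (fun _ => a) x) = (W.add (MW.line l)).path M.Φ M.ε s x
  size0 : ∀ v ∈ Icc 0 T, ∀ k, (∀ s, 0 ≤ s → s < v → ¬ W.Inf M.Φ M.ε K s k) →
    (preF (C false) (f k) v \ uni Λ).card ≤ K
  size1 : ∀ v ∈ Icc 0 T, ∀ x, (∀ s, 0 ≤ s → s < v → ¬ (W.add (MW.line l)).Inf M.Φ M.ε K s x) →
    (preF (C true) (Sum.elim f (fun _ => a) x) v \ uni Λ).card ≤ K

/-- Influenced strictly before `u`. -/
def T1 (M : VSys J κ) (W : MW ι) (l : ML) (f : ι → J) (a : J) (u : ℝ) (j : J) : Prop :=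
  ∃ v, 0 ≤ v ∧ v < u ∧ fjL M W l f a v j

/-- In contact at time `u` with something influenced strictly before `u`. -/
def T2 (M : VSys J κ) (W : MW ι) (l : ML) (f : ι → J) (a : J) (u : ℝ) (j : J) : Prop :=
  ∃ b i, T1 M W l f a u i ∧ cmL M W l f a b u i j

namespace BindW

variable (B : BindW M X C Λ W l f a K T)
include B

theorem range_eq : range (fun _ : Unit => a) = {a} := Set.range_const

theorem fj_range {v : ℝ} {j : J} (h : fjL M W l f a v j) :
    FJ (CM M.Φ M.ε W (MW.line l) f fun _ : Unit => a) (range fun _ : Unit => a) v j := by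
  rw [B.range_eq]
  exact h

theorem fj_pos {r : ℝ} {j : J} (hja : j ≠ a) (h : fjL M W l f a r j) : 0 < r :=
  FJ.pos (fun _ _ _ _ hc _ => cm_pos B.nonneg hc) h hja

theorem not_fj {j : J} (hja : j ≠ a) (h : ¬ T1 M W l f a u j) : ∀ r < u, ¬ fjL M W l f a r j :=
  fun r hr hF => h ⟨r, (B.fj_pos hja hF).le, hr, hF⟩

/-- Sizes on labels from the absence of infection. -/
theorem size (hu : u ∈ Icc 0 T) {x : ι ⊕ Unit}
    (h : ∀ s, 0 ≤ s → s < u → ¬ (W.add (MW.line l)).Inf M.Φ M.ε K s x ∧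
      ∀ k, x = Sum.inl k → ¬ W.Inf M.Φ M.ε K s k) (b : Bool)
    (hb : Sum.elim f (fun _ => a) x = a → b = true) :
    (preF (C b) (Sum.elim f (fun _ => a) x) u \ uni Λ).card ≤ K := by
  cases b with
  | true => exact B.size1 u hu x fun s h0 h1 => (h s h0 h1).1
  | false =>
    rcases x with k | x
    · exact B.size0 u hu k fun s h0 h1 => (h s h0 h1).2 k rfl
    · exact absurd (hb rfl) (by decide)

/-- A label of the two worlds. -/
theorem exists_of_fj {v : ℝ} {j : J} (h : fjL M W l f a v j) :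
    ∃ x : ι ⊕ Unit, Sum.elim f (fun _ => a) x = j := by
  rcases fut_of_fj B.inj B.nonneg (B.fj_range h) with ⟨c, hc⟩ | ⟨k, hk, _⟩
  · exact ⟨Sum.inr c, hc.symm⟩
  · exact ⟨Sum.inl k, hk.symm⟩

variable (hθ : u ≤ W.thetaL M.Φ M.ε K T l) (huT : u ≤ T)
include hθ huT

/-- Sizes of the strict pasts of everything influenced before `u`. -/
theorem size_of_fj {v t : ℝ} (hv : v < u) {x : ι ⊕ Unit}
    (h : fjL M W l f a v (Sum.elim f (fun _ => a) x)) (ht : t ∈ Icc 0 u) (b : Bool)
    (hb : Sum.elim f (fun _ => a) x = a → b = true) :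
    (preF (C b) (Sum.elim f (fun _ => a) x) t \ uni Λ).card ≤ K := by
  refine B.size ⟨ht.1, ht.2.trans huT⟩ (fun s h0 h1 => ?_) b hb
  have h2 : 0 ≤ max s v ∧ max s v < u := ⟨h0.trans (le_max_left _ _),
    max_lt (h1.trans_le ht.2) hv⟩
  have h3 := not_inf_of_fj B.inj B.nonneg hθ huT h2.1 h2.2 (x := x)
    (B.fj_range (h.mono (le_max_right s v)))
  exact ⟨fun h4 => h3.1 (Infd.mono h4 (le_max_left _ _)),
    fun k hk h4 => h3.2 k hk (Infd.mono h4 (le_max_left _ _))⟩

theorem size_of_T1 {j : J} (h : T1 M W l f a u j) (b : Bool) (hb : j = a → b = true) :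
    (preF (C b) j u \ uni Λ).card ≤ K := by
  obtain ⟨v, h0, h1, h2⟩ := h
  obtain ⟨x, rfl⟩ := B.exists_of_fj h2
  exact B.size_of_fj hθ huT h1 h2 ⟨h0.trans h1.le, le_rfl⟩ b hb

/-- Sizes of the strict pasts of everything cleanly influenced at time `u`. -/
theorem size_of_cf (hu0 : 0 ≤ u) {k : ι} (h : CF M.Φ M.ε K W (MW.line l) u k) (b : Bool) :
    (preF (C b) (f k) u \ uni Λ).card ≤ K := by
  refine B.size (x := Sum.inl k) ⟨hu0, huT⟩ (fun s h0 h1 => ?_) b fun h' => ?_
  · have h2 := not_inf_of_cf hθ huT h h0 h1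
    refine ⟨h2.2, fun k' hk' => ?_⟩
    rw [← Sum.inl_injective hk']
    exact h2.1
  · exact absurd h' (range_disj (f := f) (g := fun _ : Unit => a) (y := ()) B.inj)

variable (H : TwoW M c ℓ ς Z X C (cmL M W l f a) (fjL M W l f a) Λ π a N) [Nonempty κ]
  (hlen : ∀ (L' : List J) (s : ℝ), EC (cmL M W l f a) (fjL M W l f a) a L' s → s < u →
    L'.length ≤ m + 1)
  (hN : (uni Λ).card + 2 * K * (m + 2) ≤ N)
include H hlen hN

/-- The group of everything influenced before `u`. -/
theorem exists_grp {j : J} (h : T1 M W l f a u j) :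
    ∃ Y, Grp M c Z Λ π a ((uni Λ).card + 2 * K * m) Y ∧ j ∈ Y := by
  obtain ⟨v, h0, h1, h2⟩ := h
  by_cases hja : j = a
  · subst hja
    refine ⟨{j}, Grp.single H.obs ?_, Finset.mem_singleton_self j⟩
    rw [Finset.insert_eq_of_mem (sub_uni H.hπ H.ha)]
    omega
  · obtain ⟨tl, s', h3, h4⟩ := exists_ec (T := T) (fun b j k _ => cm_closed B.inj B.ok B.okA T b j k)
      (fun b s j k hc _ => cm_pos B.nonneg hc) (fun b s x k _ hx _ => hx) (Set.mem_singleton a) h2
      hja (h1.le.trans huT)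
    have h5 : s' < u := h4.trans_lt h1
    have h6 := hlen _ _ h3 h5
    have h7 : (j :: tl).length - 1 ≤ m := by omega
    have h8 : 2 * K * ((j :: tl).length - 1) ≤ 2 * K * m := Nat.mul_le_mul_left _ h7
    have h9 : 2 * K * m ≤ 2 * K * (m + 2) := Nat.mul_le_mul_left _ (by omega)
    obtain ⟨Y, hY, hmem⟩ := H.grp_of_ec (K := K) h3 ((h5.le.trans huT).trans B.le)
      (fun x hx b hb => by
        have h10 : fjL M W l f a s' x := h3.fj (Set.mem_singleton a) hx
        obtain ⟨x', rfl⟩ := B.exists_of_fj h10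
        exact B.size_of_fj hθ huT h5 h10 ⟨h3.nonneg, h5.le⟩ b hb) (by omega)
    exact ⟨Y, hY.mono (by omega), hmem j List.mem_cons_self⟩

/-- **Alternatives at time `u`** for everything cleanly influenced. -/
theorem cf_cases {s : ℝ} {k : ι} (h : CF M.Φ M.ε K W (MW.line l) s k) (hs : s ≤ u) :
    T1 M W l f a u (f k) ∨ T2 M W l f a u (f k) := by
  have hm : 2 * K * (m + 2) = 2 * K * m + 4 * K := by ring
  have hja : ∀ k, f k ≠ a := fun k => range_disj (f := f) (g := fun _ : Unit => a) (y := ()) B.inj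
  have step : ∀ (b : Bool) (s' : ℝ) (i k : ι), CF M.Φ M.ε K W (MW.line l) s' i →
      CF M.Φ M.ε K W (MW.line l) u k → i ≠ k →
      cmL M W l f a b s' (f i) (f k) → s' ≤ u →
      (T1 M W l f a u (f i) ∨ T2 M W l f a u (f i)) →
      T1 M W l f a u (f k) ∨ T2 M W l f a u (f k) := by
    intro b s' i k hi hk hik hc hs' ih
    have h0 : 0 < s' := cm_pos B.nonneg hc
    rcases hs'.lt_or_eq with hlt | heq
    · refine Or.inl ⟨s', h0.le, hlt, ?_⟩
      have h1 : fjL M W l f a s' (f i) := by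
        have h2 := fj_of_ci_cm (f := f) (g := fun _ : Unit => a) H.hΦ H.hε (ci_inl hi)
        rwa [B.range_eq] at h2
      exact .step h1 hc le_rfl
    · subst heq
      by_cases hk1 : T1 M W l f a s' (f k)
      · exact Or.inl hk1
      by_cases hi1 : T1 M W l f a s' (f i)
      · exact Or.inr ⟨b, _, hi1, hc⟩
      rcases ih with ih | ⟨b', j, hj, hjc⟩
      · exact absurd ih hi1
      left
      obtain ⟨Y, hY, hjY⟩ := B.exists_grp hθ huT H hlen hN hj
      have h1 : f k = j := H.same_time (K := K) hY hjY ⟨h0, huT.trans B.le⟩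
        (Ne.symm (cm_ne B.inj hjc)) (hja i) (hja k) (Ne.symm (cm_ne B.inj hc)) hjc hc
        (B.not_fj (hja i) hi1) (B.not_fj (hja k) hk1)
        (B.size_of_T1 hθ huT hj b' fun hja' => by
          cases b' with
          | true => rfl
          | false => exact absurd (hja' ▸ hjc) (H.out s' _))
        (B.size_of_cf hθ huT h0.le hi b') (B.size_of_cf hθ huT h0.le hi b)
        (B.size_of_cf hθ huT h0.le hk b) (by
          have := hY.card
          omega)
      rw [h1]
      exact hj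
  have key : ∀ {s : ℝ} {k : ι}, CF M.Φ M.ε K W (MW.line l) s k → s ≤ u →
      T1 M W l f a u (f k) ∨ T2 M W l f a u (f k) := by
    intro s k h
    have hcopy : ∀ {s : ℝ} {k : ι}, CF M.Φ M.ε K W (MW.line l) s k → s ≤ u →
      CF M.Φ M.ε K W (MW.line l) u k := fun h hs => CausalGen291.CFut.mono h hs
    induction h with
    | @init s k h hs =>
      exfalso
      apply h
      change W.path M.Φ M.ε 0 k = (W.add (MW.line l)).path M.Φ M.ε 0 (Sum.inl k)
      rw [MW.path_zero H.hΦ H.hε, MW.path_zero H.hΦ H.hε]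
      rfl
    | @new₁ s s' k j hj hc h0 hs hcl => exact absurd ⟨j, rfl⟩ hj
    | @new₂ s s' k j hj hc h0 hs hcl =>
      intro hsu
      rcases j with j | j
      · exact absurd ⟨j, rfl⟩ hj
      · have hc' : cmL M W l f a true s' a (f k) := ⟨Sum.inr j, Sum.inl k, by simp, rfl, rfl, hc⟩
        have h1 : 0 < s' := cm_pos B.nonneg hc'
        rcases (hs.trans hsu).lt_or_eq with hlt | heq
        · exact Or.inl ⟨s', h1.le, hlt, .step (.base (Set.mem_singleton a)) hc' le_rfl⟩
        · subst heq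
          exact Or.inr ⟨true, a, ⟨0, le_rfl, h1, .base (Set.mem_singleton a)⟩, hc'⟩
    | @chain₁ s s' k i h hc hs hcl ih =>
      intro hsu
      by_cases hik : i = k
      · subst hik
        exact ih (hs.trans hsu)
      · exact step false s' i k h (hcopy (.chain₁ h hc hs hcl) hsu) hik
          ⟨i, k, hik, rfl, rfl, hc⟩ (hs.trans hsu) (ih (hs.trans hsu))
    | @chain₂ s s' k i h hc hs hcl ih =>
      intro hsu
      by_cases hik : i = k
      · subst hik
        exact ih (hs.trans hsu)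
      · exact step true s' i k h (hcopy (.chain₂ h hc hs hcl) hsu) hik
          ⟨Sum.inl i, Sum.inl k, fun h => hik (Sum.inl_injective h), rfl, rfl, hc⟩
          (hs.trans hsu) (ih (hs.trans hsu))
  exact key h hs

/-- Cleanly influenced particles are reached at time `u`, in both worlds. -/
theorem reach_of_cf (hu0 : 0 < u) {k : ι} (h : CF M.Φ M.ε K W (MW.line l) u k) (b : Bool) :
    Reach M c Z Λ π a ((uni Λ).card + 2 * K * (m + 2)) (f k) u (X b u (f k)).1 := by
  have hm : 2 * K * (m + 2) = 2 * K * m + 4 * K := by ring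
  have hja : f k ≠ a := range_disj (f := f) (g := fun _ : Unit => a) (y := ()) B.inj
  have huM : u ∈ Ioc 0 M.T := ⟨hu0, huT.trans B.le⟩
  have T1case : T1 M W l f a u (f k) →
      Reach M c Z Λ π a ((uni Λ).card + 2 * K * (m + 2)) (f k) u (X b u (f k)).1 := by
    intro h1
    obtain ⟨Y, hY, hkY⟩ := B.exists_grp hθ huT H hlen hN h1
    have hYc := hY.card
    exact H.reach_of_mem b hY hkY huM (B.size_of_cf hθ huT hu0.le h b) (by omega) hN
  by_cases h1 : T1 M W l f a u (f k)
  · exact T1case h1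
  rcases B.cf_cases hθ huT H hlen hN h le_rfl with h2 | ⟨b', j, hj, hc⟩
  · exact T1case h2
  · obtain ⟨Y, hY, hjY⟩ := B.exists_grp hθ huT H hlen hN hj
    have hYc := hY.card
    have e1 := B.size_of_T1 hθ huT hj b' fun hja' => by
      cases b' with
      | true => rfl
      | false => exact absurd (hja' ▸ hc) (H.out u _)
    have e2 := B.size_of_cf hθ huT hu0.le h b'
    have hcard : (Y ∪ preF (C b') j u ∪ preF (C b') (f k) u ∪ uni Λ).card ≤
        (uni Λ).card + 2 * K * m + 2 * K := by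
      have h3 := card_union_uni (Y ∪ preF (C b') j u) (preF (C b') (f k) u) (uni Λ)
      have h4 := card_union_uni Y (preF (C b') j u) (uni Λ)
      omega
    obtain ⟨hku, g1, _⟩ := H.grow2 b' hY hjY huM (Ne.symm (cm_ne B.inj hc)) hja hc
      (B.not_fj hja h1) (by omega)
    set Y' : Finset J := Y ∪ (preF (C b') j u \ π) ∪ (preF (C b') (f k) u \ π) with hY'
    have hkY' : f k ∈ Y' := Finset.mem_union_right _ (Finset.mem_sdiff.2
      ⟨self_mem_preF hu0, fun h' => hku (sub_uni H.hπ h')⟩)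
    have hY'c : (Y' ∪ uni Λ).card ≤ (uni Λ).card + 2 * K * m + 2 * K := by
      refine le_trans (Finset.card_le_card ?_) hcard
      intro z hz
      simp only [hY', Finset.mem_union, Finset.mem_sdiff] at hz ⊢
      tauto
    exact H.reach_of_mem b g1 hkY' huM (B.size_of_cf hθ huT hu0.le h b) (by omega) hN

/-- The exit itself is reached. -/
theorem reach_exit (hu0 : 0 ≤ u) :
    Reach M c Z Λ π a ((uni Λ).card + 2 * K * (m + 2)) a u (X true u a).1 := by
  have hm : 2 * K * (m + 2) = 2 * K * m + 4 * K := by ring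
  have h1 : Grp M c Z Λ π a ((uni Λ).card) {a} := by
    refine Grp.single H.obs ?_
    rw [Finset.insert_eq_of_mem (sub_uni H.hπ H.ha)]
  have h1c := h1.card
  rcases hu0.lt_or_eq with hu | hu
  · exact H.reach_of_mem true h1 (Finset.mem_singleton_self a) ⟨hu, huT.trans B.le⟩
      (B.size (x := Sum.inr ()) ⟨hu0, huT⟩ (fun s h0 h2 =>
        ⟨not_inf_of_new hθ huT () h0 h2, fun k hk => by cases hk⟩) true fun _ => rfl)
      (by omega) hN
  · subst hu
    refine ⟨{a}, h1.mono (by omega), Finset.mem_singleton_self a, {a}, ?_,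
      Finset.mem_singleton_self a, ?_, ?_⟩
    · exact Finset.subset_union_right
    · intro i hi ho b j hj hj' hji hbj
      rw [Finset.mem_singleton] at hi hj
      exact absurd (hj.trans hi.symm) hji
    · rw [(H.rw true).init, st_nonpos M le_rfl, fl_zero]

end BindW

/-- **Everything cleanly influenced up to the touch time is reached.** -/
theorem reachAll_core [Nonempty κ] (B : BindW M X C Λ W l f a K T)
    (H : TwoW M c ℓ ς Z X C (cmL M W l f a) (fjL M W l f a) Λ π a N)
    (hlen : ∀ (L' : List J) (s : ℝ), EC (cmL M W l f a) (fjL M W l f a) a L' s →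
      s < W.thetaL M.Φ M.ε K T l → s < T → L'.length ≤ m + 1)
    (hN : (uni Λ).card + 2 * K * (m + 2) ≤ N) :
    ReachAll (Reach M c Z Λ π a ((uni Λ).card + 2 * K * (m + 2))) M.Φ M.ε K T W f l a := by
  intro u hu hθ x hx hb
  have hlen' : ∀ (L' : List J) (s : ℝ), EC (cmL M W l f a) (fjL M W l f a) a L' s → s < u →
      L'.length ≤ m + 1 := fun L' s h hs => hlen L' s h (hs.trans_le hθ) (hs.trans_le hu.2)
  rcases x with k | x
  · rcases hu.1.lt_or_eq with hu0 | hu0
    · refine ⟨?_, fun k' hk' => ?_⟩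
      · have h1 := B.reach_of_cf hθ hu.2 H hlen' hN hu0 hx.inl true
        have h2 := B.path1 u hu (Sum.inl k) hb
        change X true u (f k) = _ at h2
        rw [h2] at h1
        exact h1
      · have hk : k = k' := Sum.inl_injective hk'
        subst hk
        have h1 := B.reach_of_cf hθ hu.2 H hlen' hN hu0 hx.inl false
        rw [B.path0 u hu k hb] at h1
        exact h1
    · exfalso
      subst hu0
      rcases B.cf_cases hθ hu.2 H hlen' hN hx.inl le_rfl with ⟨v, h0, h1, _⟩ | ⟨b, i, ⟨v, h0, h1, _⟩, _⟩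
      · linarith
      · linarith
  · refine ⟨?_, fun k hk => by cases hk⟩
    have h1 := B.reach_exit hθ hu.2 H hlen' hN hu.1
    have h2 := B.path1 u hu (Sum.inr x) hb
    change X true u a = _ at h2
    rw [h2] at h1
    exact h1

end core

end Crest.Agent.R122.LNEv818

end
end

-- ▼ part R122/LinkC_331

/-!
# Row 122, LN3-D (helper331), part 3: extraction of traces, several exits

Second version of `CC`, `Inv`, `trace_of_cc`, `cc_of_ec`, `trace_of_ec`: the contacts inside the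
part `S` of the root `a` are allowed at all times at which they are possible (`hPS`: after a contact
with the outside a member of `S` has no contact inside `S`), the labels outside `g` (the gas) are
never followed, and the pasts of a not influenced gas particle in the two worlds are compared only if
they consist of gas particles.
-/

set_option autoImplicit false

open Set

namespace Crest.Agent.R122.LinkD331

open Crest.Agent.R122.Causal291

variable {J : Type} {T : ℝ} {C : Bool → ℝ → J → J → Prop} {E : ℝ → J → J → Prop}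

/-! ### Clean chains -/

/-- Clean chains: from the state "particle `q` followed in the world `b` after the time `t`",
`g` = set of forbidden contact partners (the ghost partner), `m` links. -/
inductive CC2 (T : ℝ) (C : Bool → ℝ → J → J → Prop) (E : ℝ → J → J → Prop) (K : ℕ)
    (gas : Set J) : Bool → J → ℝ → Set J → ℕ → Prop
  | nil {b : Bool} {q : J} {t : ℝ} {g : Set J} : CC2 T C E K gas b q t g 0
  | sw {b : Bool} {q q' : J} {t t' : ℝ} {g : Set J} {m : ℕ} (ht : t < t') (htT : t' ≤ T)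
      (hne : q ≠ q') (hc : C b t' q q') (hf : ∀ s < t', ¬ C b s q q') (hP : HistE (C b) E t' q)
      (hK : (BC (C b) t' q ∩ gas).ncard ≤ K) (hg : ∀ x ∈ g, ∀ s ≤ t', ¬ C b s q x)
      (h : CC2 T C E K gas b q' t' ∅ m) : CC2 T C E K gas b q t g (m + 1)
  | gh {b : Bool} {q q' : J} {t t' : ℝ} {g : Set J} {m : ℕ} (ht : t < t') (htT : t' ≤ T)
      (hne : q ≠ q') (hc : C b t' q q') (hf : ∀ s < t', ¬ C b s q q') (hP : HistE (C b) E t' q)
      (hK : (BC (C b) t' q ∩ gas).ncard ≤ K) (hg : ∀ x ∈ g, ∀ s ≤ t', ¬ C b s q x)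
      (hun : ∀ s < t', BC (C b) s q' ⊆ gas → BC (C (!b)) s q' = BC (C b) s q')
      (hP' : HistE (C (!b)) E t' q')
      (hno : ¬ C (!b) t' q' q)
      (h : CC2 T C E K gas (!b) q' t' {q} m) : CC2 T C E K gas b q t g (m + 1)

/-- Invariant of the extraction. -/
structure Inv2 (T : ℝ) (C : Bool → ℝ → J → J → Prop) (E : ℝ → J → J → Prop)
    (b : Bool) (q : J) (t : ℝ) (g D U : Set J) (H : SimpleGraph J) : Prop where
  t0 : 0 ≤ t
  bc : BC (C b) t q = D
  sub : D ⊆ U
  le : H ≤ grA E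
  supp : ∀ x y, H.Adj x y → x ∈ U
  conn : ∀ x ∈ U, H.Reachable q x
  adj : ∀ x, H.Adj q x → x ∈ D ∨ x ∈ g ∨ ∀ s, t < s → s ≤ T → HistE (C b) E s q → ¬ C b s q x

theorem Inv2.mem {b : Bool} {q : J} {t : ℝ} {g D U : Set J} {H : SimpleGraph J}
    (h : Inv2 T C E b q t g D U H) : q ∈ D := by
  rw [← h.bc]; exact root_mem_BC h.t0

/-- **Extraction of a trace from a clean chain.** -/
theorem trace_of_cc2 [Finite J] (hT : Tree T C E) {K : ℕ} {Ok : Set J → J → Set J → J → ℝ → Prop}
    {U₀ gas : Set J}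
    (hOk : ∀ b q e r, r ≤ T → q ≠ e → C b r q e → HistE (C b) E r q → (BC (C b) r q ∩ gas).ncard ≤ K →
      Disjoint (pre (C b) r e) U₀ →
      Ok (pre (C b) r e) e (pre (C b) r q) q r ∧ pre (C b) r e ⊆ gas) :
    ∀ (m' m : ℕ) (b : Bool) (q : J) (t : ℝ) (g D U : Set J) (H : SimpleGraph J),
      CC2 T C E K gas b q t g m → m' ≤ m → Inv2 T C E b q t g D U H → U₀ ⊆ U →
      Trace Ok D q t U m' := by
  intro m'
  induction m' with
  | zero => intro m b q t g D U H _ _ _ _; exact .nil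
  | succ m' ih =>
    intro m b q t g D U H hcc hm hI hU₀
    -- the next target
    have htar : ∃ (q' : J) (t' : ℝ), t < t' ∧ t' ≤ T ∧ q ≠ q' ∧ C b t' q q' ∧
        (∀ s < t', ¬ C b s q q') ∧ HistE (C b) E t' q ∧ (BC (C b) t' q ∩ gas).ncard ≤ K ∧
        (∀ x ∈ g, ∀ s ≤ t', ¬ C b s q x) ∧ (∀ r, r < t' → CC2 T C E K gas b q r g m) ∧
        ((∃ m₁, m = m₁ + 1 ∧ CC2 T C E K gas b q' t' ∅ m₁) ∨
          (∃ m₁, m = m₁ + 1 ∧
            (∀ s < t', BC (C b) s q' ⊆ gas → BC (C (!b)) s q' = BC (C b) s q') ∧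
            HistE (C (!b)) E t' q' ∧ ¬ C (!b) t' q' q ∧ CC2 T C E K gas (!b) q' t' {q} m₁)) := by
      cases hcc with
      | nil => omega
      | @sw _ _ q' _ t' _ m₁ ht htT hne hc hf hP hK hg h =>
        exact ⟨q', t', ht, htT, hne, hc, hf, hP, hK, hg,
          fun r hr => .sw hr htT hne hc hf hP hK hg h, Or.inl ⟨m₁, rfl, h⟩⟩
      | @gh _ _ q' _ t' _ m₁ ht htT hne hc hf hP hK hg hun hP' hno h =>
        exact ⟨q', t', ht, htT, hne, hc, hf, hP, hK, hg,
          fun r hr => .gh hr htT hne hc hf hP hK hg hun hP' hno h,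
          Or.inr ⟨m₁, rfl, hun, hP', hno, h⟩⟩
    obtain ⟨q', t', ht, htT, hne, hc, hf, hP, hK, hg, hmono, hnext⟩ := htar
    have hqU : q ∈ U := hI.sub hI.mem
    by_cases hj : ∃ s, t < s ∧ s < t' ∧ BC (C b) s q ≠ BC (C b) t q
    · -- a jump before the target: stay
      obtain ⟨r, h1, h2, h3, h4⟩ := exists_jump (hT.closed b) hI.t0 htT hj
      have hpre : pre (C b) r q = D := (pre_eq_of_const h1 h4).trans hI.bc
      have hrT : r ≤ T := h2.le.trans htT
      have hPr : HistE (C b) E r q := hP.mono h2.le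
      have hr0 : 0 < r := hI.t0.trans_lt h1
      obtain ⟨e, he1, he2, he3⟩ := hT.exists_new hr0 hrT hPr
        (by rw [hpre, ← hI.bc]; exact h3)
      have hadj : ¬ H.Adj q e := by
        intro h
        rcases hI.adj e h with h5 | h5 | h5
        · exact he3 (by rw [hpre]; exact h5)
        · exact hg e h5 r h2.le he2
        · exact h5 r h1 hrT hPr he2
      obtain ⟨hdis, H', g1, g2, g3, g4, g5, g6⟩ :=
        hT.step_facts hrT hPr (Ne.symm he1) he2 he3 hI.le hI.supp hI.conn hadj hqU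
      have hKr : (BC (C b) r q ∩ gas).ncard ≤ K :=
        (ncard_le_ncard (inter_subset_inter_left _ (bc_mono_time q h2.le)) (toFinite _)).trans hK
      have hok := (hOk b q e r hrT (Ne.symm he1) he2 hPr hKr (hdis.mono_right hU₀)).1
      rw [hpre] at hok
      refine .stay h1.le hok hdis (ih m b q r g _ _ H' (hmono r h2) (by omega) ?_
        (hU₀.trans subset_union_left))
      refine ⟨hr0.le, ?_, union_subset_union_left _ hI.sub, g1, g2, g3, ?_⟩
      · rw [hT.bc_eq_union hrT hPr (Ne.symm he1) he2, hpre]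
      · intro x hx
        rcases g5 x hx with h5 | h5
        · rcases hI.adj x h5 with h6 | h6 | h6
          · exact Or.inl (Or.inl h6)
          · exact Or.inr (Or.inl h6)
          · exact Or.inr (Or.inr fun s hs hs' => h6 s (h1.trans hs) hs')
        · rw [h5]; exact Or.inl (Or.inr (self_mem_pre hr0 e))
    · -- no jump: the target
      push Not at hj
      have h4 : ∀ s, t ≤ s → s < t' → BC (C b) s q = BC (C b) t q := by
        intro s hs1 hs2
        rcases hs1.lt_or_eq with h5 | h5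
        · exact hj s h5 hs2
        · rw [h5]
      have hpre : pre (C b) t' q = D := (pre_eq_of_const ht h4).trans hI.bc
      have hr0 : 0 < t' := hI.t0.trans_lt ht
      have he3 : q' ∉ pre (C b) t' q := by
        rintro ⟨s, hs, hs'⟩
        obtain ⟨s', hs1, hs2⟩ := hT.contact_before htT hP hne hc hs hs'
        exact hf s' (hs1.trans_lt hs) hs2
      have hadj : ¬ H.Adj q q' := by
        intro h
        rcases hI.adj q' h with h5 | h5 | h5
        · exact he3 (by rw [hpre]; exact h5)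
        · exact hg q' h5 t' le_rfl hc
        · exact h5 t' ht htT hP hc
      obtain ⟨hdis, H', g1, g2, g3, g4, g5, g6⟩ :=
        hT.step_facts htT hP hne hc he3 hI.le hI.supp hI.conn hadj hqU
      obtain ⟨hok, hgas⟩ := hOk b q q' t' htT hne hc hP hK (hdis.mono_right hU₀)
      rw [hpre] at hok
      have hconn' : ∀ x ∈ U ∪ pre (C b) t' q', H'.Reachable q' x := fun x hx =>
        (SimpleGraph.Adj.reachable g4).symm.trans (g3 x hx)
      rcases hnext with ⟨m₁, rfl, h⟩ | ⟨m₁, rfl, hun, hP', hno, h⟩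
      · refine .switch ht.le hok hdis (ih m₁ b q' t' ∅ _ _ H' h (by omega) ?_
          (hU₀.trans subset_union_left))
        refine ⟨hr0.le, ?_, union_subset_union_left _ hI.sub, g1, g2, hconn', ?_⟩
        · rw [← hpre, ← hT.bc_eq_union htT hP hne hc]
          exact Subset.antisymm (bc_contact hc) (bc_contact (hT.symmC _ _ _ _ hc))
        · intro x hx
          rcases g6 x hx with h5 | h5
          · exact Or.inl (Or.inr h5)
          · rw [h5]; exact Or.inl (Or.inl hI.mem)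
      · refine .ghost ht.le hok hdis (ih m₁ (!b) q' t' {q} _ _ H' h (by omega) ?_
          (hU₀.trans subset_union_left))
        refine ⟨hr0.le, ?_, subset_union_right, g1, g2, hconn', ?_⟩
        · rw [hT.bc_eq_pre htT hP hne hc hP' hno]
          apply Subset.antisymm
          · rintro k ⟨s, hs, hk⟩
            have : k ∈ BC (C (!b)) s q' := hk
            rw [hun s hs ((bc_subset_pre hs q').trans hgas)] at this
            exact ⟨s, hs, this⟩
          · rintro k ⟨s, hs, hk⟩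
            have : k ∈ BC (C b) s q' := hk
            rw [← hun s hs ((bc_subset_pre hs q').trans hgas)] at this
            exact ⟨s, hs, this⟩
        · intro x hx
          rcases g6 x hx with h5 | h5
          · exact Or.inl h5
          · exact Or.inr (Or.inl h5)

/-- Continuation of a chain from the particle `k` followed in the world `b`; the next contact takes
place not before `t''`; `N` contains `k` and the later particles of the chain. -/
def Cont2 (T : ℝ) (C : Bool → ℝ → J → J → Prop) (E : ℝ → J → J → Prop) (K : ℕ) (gas : Set J)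
    (b : Bool) (k : J) (m : ℕ) (t'' : ℝ) (N : Set J) : Prop :=
  ∀ (t : ℝ) (g : Set J), t < t'' → (∀ x ∈ g, x ∉ N ∧ ∀ s < t'', s ≤ T → ¬ C b s k x) →
    CC2 T C E K gas b k t g m

variable {F : ℝ → J → Prop} {a : J} {gas : Set J}

/-- The head of an entry chain of gas particles is influenced. -/
theorem EC.fut2 (hmono : ∀ r r' k, F r k → r ≤ r' → F r' k) (h0 : F 0 a)
    (hcon : ∀ b r j k, C b r j k → F r j → (j = a ∨ j ∈ gas) → k ∈ gas → F r k) {L : List J}
    {s : ℝ} (h : EC C F a L s) (hg : ∀ x ∈ L, x ≠ a → x ∈ gas)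
    {k : J} {tl : List J} (hL : L = k :: tl) : F s k := by
  induction h generalizing k tl with
  | root =>
    rw [List.cons.injEq] at hL
    rw [← hL.1]; exact h0
  | @cons l k' ps s s' b h hs hk hc hn ih =>
    rw [List.cons.injEq] at hL
    rw [← hL.1]
    have hka : k' ≠ a := fun h' => hk (h' ▸ h.mem)
    refine hcon b s' l k' hc (hmono _ _ _ (ih (fun x hx => hg x (List.mem_cons_of_mem _ hx)) rfl) hs)
      ?_ (hg k' List.mem_cons_self hka)
    by_cases hl : l = a
    · exact Or.inl hl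
    · exact Or.inr (hg l (List.mem_cons_of_mem _ List.mem_cons_self) hl)

/-- **Clean chains from entry chains.** -/
theorem cc_of_ec2 (hT : Tree T C E) [Finite J] {K : ℕ} {t₀ : ℝ}
    (hmono : ∀ r r' k, F r k → r ≤ r' → F r' k) (h0 : F 0 a)
    (hcon : ∀ b r j k, C b r j k → F r j → (j = a ∨ j ∈ gas) → k ∈ gas → F r k)
    (hun : ∀ b r k, 0 ≤ r → r ≤ T → k ∈ gas → ¬ F r k → BC (C b) r k ⊆ gas →
      BC (C (!b)) r k = BC (C b) r k)
    (ha : ∀ b s k, s ≤ T → C b s a k → k ∈ gas → b = true ∧ t₀ < s) {L : List J} {s : ℝ}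
    (h : EC C F a L s) (hg : ∀ x ∈ L, x ≠ a → x ∈ gas) (hsT : s ≤ T)
    (hH : ∀ x ∈ L, x ≠ a → ∀ b, HistE (C b) E T x)
    (hK : ∀ x ∈ L, x ≠ a → ∀ b, (BC (C b) T x ∩ gas).ncard ≤ K) :
    ∀ (k : J) (tl : List J), L = k :: tl → ∀ (b : Bool) (m : ℕ) (t'' : ℝ) (N : Set J),
      s < t'' → (k = a → b = true ∧ t₀ < t'') → k ∈ N → (∀ x ∈ tl, x ∉ N) →
      Cont2 T C E K gas b k m t'' N → CC2 T C E K gas true a t₀ ∅ (m + tl.length) := by
  induction h with
  | root =>
    intro k tl hL b m t'' N hst hb _ _ hcont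
    rw [List.cons.injEq] at hL
    obtain ⟨rfl, rfl⟩ := hL
    obtain ⟨rfl, ht₀⟩ := hb rfl
    have h1 := hcont t₀ ∅ ht₀ (fun x hx => absurd hx (notMem_empty x))
    rwa [List.length_nil, add_zero]
  | @cons l k₀ ps s s' b₀ h hs hk hc hn ih =>
    intro k tl hL b m t'' N hst _ hkN htl hcont
    rw [List.cons.injEq] at hL
    obtain ⟨rfl, rfl⟩ := hL
    have hlk : l ≠ k₀ := fun h => hk (h ▸ List.mem_cons_self)
    have hka : k₀ ≠ a := fun h' => hk (h' ▸ h.mem)
    have hgk : k₀ ∈ gas := hg k₀ List.mem_cons_self hka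
    have hgL : ∀ x ∈ l :: ps, x ≠ a → x ∈ gas := fun x hx => hg x (List.mem_cons_of_mem _ hx)
    have hgl : l = a ∨ l ∈ gas := by
      by_cases hl : l = a
      · exact Or.inl hl
      · exact Or.inr (hgL l List.mem_cons_self hl)
    have hlN : l ∉ N := htl l List.mem_cons_self
    have hHk : ∀ b, HistE (C b) E T k₀ := hH k₀ List.mem_cons_self hka
    -- contacts of `l` and `k₀` are virtual contacts
    have hE : ∀ b r, r ≤ T → C b r l k₀ → E r l k₀ := fun b r hr hc =>
      hT.symmE _ _ _ (hHk b r k₀ l (.root hr) (hT.symmC _ _ _ _ hc) (Ne.symm hlk))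
    have hHl : ∀ b r, r ≤ T → C b r l k₀ → HistE (C b) E r l := fun b r hr hc =>
      ((hHk b).mono hr).contact (hT.symmC _ _ _ _ hc)
    have hKl : ∀ b r, r ≤ T → C b r l k₀ → (BC (C b) r l ∩ gas).ncard ≤ K := fun b r hr hc =>
      (ncard_le_ncard (inter_subset_inter_left _
        ((bc_contact (hT.symmC _ _ _ _ hc)).trans (bc_mono_time k₀ hr)))
        (toFinite _)).trans (hK k₀ List.mem_cons_self hka b)
    have hEs' : E s' l k₀ := hE b₀ s' hsT hc
    -- windows
    have hwin : ∀ b r, r ≤ T → C b r l k₀ → s < r := by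
      intro b r hr hcr
      by_contra hle
      push Not at hle
      have hr0 : 0 < r := hT.pos b r l k₀ hcr hlk
      cases h with
      | root => exact absurd hle (not_le.2 hr0)
      | @cons l' _ ps' s₁ _ b₁ h' hs₁ hk' hc' hn' =>
        have hl'l : l' ≠ l := fun h => hk' (h ▸ List.mem_cons_self)
        have hla : l ≠ a := fun h'' => hk' (h'' ▸ h'.mem)
        have hHl' := hH l (List.mem_cons_of_mem _ List.mem_cons_self) hla b₁
        have hE' : E s l' l := hT.symmE _ _ _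
          (hHl' s l l' (.root (hs.trans hsT)) (hT.symmC _ _ _ _ hc') (Ne.symm hl'l))
        have h4 := hT.sep l k₀ l' l r s' s hlk hl'l hr0.le hsT hle hs (hE b r hr hcr) hEs' hE'
        rcases Sym2.eq_iff.1 h4 with ⟨_, h5⟩ | ⟨_, h5⟩
        · exact hlk h5.symm
        · exact hk (h5 ▸ List.mem_cons_of_mem _ List.mem_cons_self)
    have hFl : F s l := h.fut2 hmono h0 hcon hgL rfl
    have hbefore : ∀ b, ∀ r < s', ¬ C b r l k₀ := by
      intro b r hr hcr
      have h1 := hwin b r (hr.le.trans hsT) hcr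
      exact hn r hr (hcon b r l k₀ hcr (hmono _ _ _ hFl h1.le) hgl hgk)
    have hss' : s < s' := hwin b₀ s' hsT hc
    have hla : ∀ b r, r ≤ T → C b r l k₀ → l = a → b = true ∧ t₀ < r := fun b r hr hc' hl =>
      ha b r k₀ hr (hl ▸ hc') hgk
    have hnd := (List.nodup_cons.1 (List.nodup_cons.1 (EC.nodup (.cons h hs hk hc hn))).2).1
    have hlen : m + (l :: ps).length = (m + 1) + ps.length := by
      rw [List.length_cons]; omega
    rw [hlen]
    have hN' : ∀ x ∈ ps, x ∉ insert l N := by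
      intro x hx hxN
      rcases hxN with rfl | hxN
      · exact hnd hx
      · exact htl x (List.mem_cons_of_mem _ hx) hxN
    have hHL : ∀ x ∈ l :: ps, x ≠ a → ∀ b, HistE (C b) E T x := fun x hx =>
      hH x (List.mem_cons_of_mem _ hx)
    have hKL : ∀ x ∈ l :: ps, x ≠ a → ∀ b, (BC (C b) T x ∩ gas).ncard ≤ K := fun x hx =>
      hK x (List.mem_cons_of_mem _ hx)
    -- no contact with forbidden particles up to the contact with `k₀`
    have hforb : ∀ (b : Bool) (r₁ : ℝ) (g : Set J), r₁ ≤ T → C b r₁ l k₀ →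
        (∀ x ∈ g, x ∉ insert l N ∧ ∀ s < r₁, s ≤ T → ¬ C b s l x) →
        ∀ x ∈ g, ∀ s ≤ r₁, ¬ C b s l x := by
      intro b r₁ g hr₁ hc₁ hg x hx s₁ hs₁ hcx
      obtain ⟨hxN, hx'⟩ := hg x hx
      rcases hs₁.lt_or_eq with h1 | h1
      · exact hx' s₁ h1 (h1.le.trans hr₁) hcx
      · rw [h1] at hcx
        have hlx : l ≠ x := fun h => hxN (h ▸ mem_insert l N)
        have hr0 : 0 < r₁ := hT.pos b r₁ l k₀ hc₁ hlk
        have h2 : E r₁ l x := hHl b r₁ hr₁ hc₁ r₁ l x (.root le_rfl) hcx hlx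
        have h3 := hT.same hr0.le hr₁ hlx hlk h2 (hE b r₁ hr₁ hc₁)
        rcases Sym2.eq_iff.1 h3 with ⟨_, h5⟩ | ⟨h5, _⟩
        · exact hxN (mem_insert_of_mem l (h5 ▸ hkN))
        · exact hlk h5
    by_cases hA : ∃ r < t'', r ≤ T ∧ C b r l k₀
    · -- the next particle is followed in the same world
      obtain ⟨r, hr1, hr2, hr3⟩ := hA
      obtain ⟨r₁, h1, h2, h3⟩ := hT.exists_first hlk hr2 hr3
      have hr₁T : r₁ ≤ T := h1.trans hr2
      refine ih hgL (hs.trans hsT) hHL hKL l ps rfl b (m + 1) r₁ (insert l N) (hwin b r₁ hr₁T h2)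
        (hla b r₁ hr₁T h2) (mem_insert l N) hN' fun t g ht hg => ?_
      exact .sw ht hr₁T hlk h2 h3 (hHl b r₁ hr₁T h2) (hKl b r₁ hr₁T h2)
        (hforb b r₁ g hr₁T h2 hg)
        (hcont r₁ ∅ (h1.trans_lt hr1) fun x hx => absurd hx (notMem_empty x))
    · push Not at hA
      have hb : b = !b₀ := by
        cases b <;> cases b₀ <;> first | rfl | exact absurd hc (hA s' hst hsT)
      refine ih hgL (hs.trans hsT) hHL hKL l ps rfl b₀ (m + 1) s' (insert l N) hss'
        (hla b₀ s' hsT hc) (mem_insert l N) hN' fun t g ht hg => ?_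
      refine .gh ht hsT hlk hc (hbefore b₀) (hHl b₀ s' hsT hc) (hKl b₀ s' hsT hc)
        (hforb b₀ s' g hsT hc hg) ?_ ((hHk _).mono hsT) ?_ ?_
      · intro r hr hsub
        rcases lt_or_ge r 0 with h1 | h1
        · have h2 : ∀ b, BC (C b) r k₀ = ∅ := by
            intro b
            ext x
            simp only [mem_BC, mem_empty_iff_false, iff_false]
            exact fun hx => absurd hx.le (not_le.2 h1)
          rw [h2, h2]
        · exact hun b₀ r k₀ h1 (hr.le.trans hsT) hgk (hn r hr) hsub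
      · intro hc'
        exact hA s' hst hsT (hb ▸ hT.symmC _ _ _ _ hc')
      · have h5 := hcont s' {l} hst (by
          intro x hx
          rw [mem_singleton_iff] at hx
          subst hx
          exact ⟨hlN, fun r hr hrT hcr => hA r hr hrT (hT.symmC _ _ _ _ hcr)⟩)
        rw [hb] at h5
        exact h5

/-- An entry chain with `m` links gives a clean chain with `m` links. -/
theorem cc_of_ec2' (hT : Tree T C E) [Finite J] {K : ℕ} {t₀ : ℝ}
    (hmono : ∀ r r' k, F r k → r ≤ r' → F r' k) (h0 : F 0 a)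
    (hcon : ∀ b r j k, C b r j k → F r j → (j = a ∨ j ∈ gas) → k ∈ gas → F r k)
    (hun : ∀ b r k, 0 ≤ r → r ≤ T → k ∈ gas → ¬ F r k → BC (C b) r k ⊆ gas →
      BC (C (!b)) r k = BC (C b) r k)
    (ha : ∀ b s k, s ≤ T → C b s a k → k ∈ gas → b = true ∧ t₀ < s) {L : List J} {s : ℝ}
    (h : EC C F a L s) (hg : ∀ x ∈ L, x ≠ a → x ∈ gas) (hsT : s ≤ T)
    (hH : ∀ x ∈ L, x ≠ a → ∀ b, HistE (C b) E T x)
    (hK : ∀ x ∈ L, x ≠ a → ∀ b, (BC (C b) T x ∩ gas).ncard ≤ K) {m : ℕ} (hm : L.length = m + 1) :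
    CC2 T C E K gas true a t₀ ∅ m := by
  cases L with
  | nil => simp at hm
  | cons k tl =>
    have hnd := h.nodup
    have h1 := cc_of_ec2 hT hmono h0 hcon hun ha h hg hsT hH hK k tl rfl true 0 (max s t₀ + 1) {k}
      (by linarith [le_max_left s t₀]) (fun _ => ⟨rfl, by linarith [le_max_right s t₀]⟩)
      (mem_singleton k)
      (fun x hx hxk => (List.nodup_cons.1 hnd).1 (by rw [mem_singleton_iff] at hxk; rwa [← hxk]))
      (fun t g _ _ => .nil)
    have h2 : 0 + tl.length = m := by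
      rw [List.length_cons] at hm; omega
    rwa [h2] at h1

/-- The first link of an entry chain. -/
theorem EC.first_link {L : List J} {s : ℝ} (h : EC C F a L s) {m : ℕ} (hm : L.length = m + 2) :
    ∃ k ∈ L, k ≠ a ∧ ∃ b, ∃ r ≤ s, C b r a k := by
  induction h generalizing m with
  | root => simp at hm
  | @cons l k' ps s s' b h hs hk hc hn ih =>
    have hka : k' ≠ a := fun h' => hk (h' ▸ h.mem)
    cases ps with
    | nil =>
      have hla : l = a := by
        have := h.mem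
        rw [List.mem_singleton] at this
        exact this.symm
      exact ⟨k', List.mem_cons_self, hka, b, s', le_rfl, hla ▸ hc⟩
    | cons l' ps' =>
      obtain ⟨k₁, h1, h2, b₁, r, hr, h3⟩ := ih (m := m - 1) (by
        simp only [List.length_cons] at hm ⊢
        omega)
      exact ⟨k₁, List.mem_cons_of_mem _ h1, h2, b₁, r, hr.trans hs, h3⟩

/-- **Traces from entry chains, several exits** (abstract form): `S` is the part of the root `a`. -/
theorem trace_of_ec2 (hT : Tree T C E) [Finite J] {K : ℕ} {S : Set J}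
    {Ok : Set J → J → Set J → J → ℝ → Prop}
    (hOk : ∀ b q e r, r ≤ T → q ≠ e → C b r q e → HistE (C b) E r q → (BC (C b) r q ∩ gas).ncard ≤ K →
      Disjoint (pre (C b) r e) S →
      Ok (pre (C b) r e) e (pre (C b) r q) q r ∧ pre (C b) r e ⊆ gas)
    (hmono : ∀ r r' k, F r k → r ≤ r' → F r' k) (h0 : F 0 a)
    (hcon : ∀ b r j k, C b r j k → F r j → (j = a ∨ j ∈ gas) → k ∈ gas → F r k)
    (hun : ∀ b r k, 0 ≤ r → r ≤ T → k ∈ gas → ¬ F r k → BC (C b) r k ⊆ gas →
      BC (C (!b)) r k = BC (C b) r k)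
    (hfalse : ∀ s k, s ≤ T → C false s a k → k ∉ gas)
    (hgS : ∀ k ∈ gas, k ∉ S)
    (haS : a ∈ S) (hconn : ∀ x ∈ S, (grOn E S).Reachable a x)
    (hPS : ∀ p d g s s', p ∈ S → d ∈ S → p ≠ d → g ∉ S → 0 ≤ s' → s' ≤ s → s ≤ T →
      C true s p d → C true s' d g → E s p d → E s' d g → False)
    {L : List J} {s : ℝ} (h : EC C F a L s) (hg : ∀ x ∈ L, x ≠ a → x ∈ gas) (hsT : s ≤ T)
    (hH : ∀ x ∈ L, x ≠ a → ∀ b, HistE (C b) E T x)
    (hK : ∀ x ∈ L, x ≠ a → ∀ b, (BC (C b) T x ∩ gas).ncard ≤ K) {m : ℕ} (hm : L.length = m + 1) :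
    ∃ D t₀, a ∈ D ∧ D ⊆ S ∧ Trace Ok D a t₀ S m := by
  classical
  have := Fintype.ofFinite J
  rcases Nat.eq_zero_or_pos m with hm0 | hm0
  · subst hm0
    exact ⟨{a}, 0, mem_singleton a, singleton_subset_iff.2 haS, .nil⟩
  -- the first contact with the outside
  obtain ⟨k₁, hk₁L, hk₁a, b₁, r₁, hr₁, hc₁⟩ := h.first_link (m := m - 1) (by omega)
  have hk₁g : k₁ ∈ gas := hg k₁ hk₁L hk₁a
  have hr₁T : r₁ ≤ T := hr₁.trans hsT
  have hb₁ : b₁ = true := by
    cases b₁ with
    | true => rfl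
    | false => exact absurd hk₁g (hfalse r₁ k₁ hr₁T hc₁)
  subst hb₁
  have hHa : HistE (C true) E r₁ a :=
    ((hH k₁ hk₁L hk₁a true).mono hr₁T).contact (hT.symmC _ _ _ _ hc₁)
  set B : Set ℝ := ⋃ k ∈ {k : J | k ∉ S}, {r | r ∈ Icc 0 T ∧ C true r a k} with hB
  have hBcl : IsClosed B := by
    refine Set.Finite.isClosed_biUnion (Set.toFinite _) fun k hk => ?_
    exact hT.closed true a k fun h' => hk (h' ▸ haS)
  have hBsub : B ⊆ Icc 0 T := by
    intro r hr
    simp only [hB, mem_iUnion] at hr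
    obtain ⟨_, _, h', _⟩ := hr
    exact h'
  have hr₁0 : 0 < r₁ := hT.pos true r₁ a k₁ hc₁ (Ne.symm hk₁a)
  have hBne : B.Nonempty := by
    refine ⟨r₁, ?_⟩
    simp only [hB, mem_iUnion]
    exact ⟨k₁, hgS k₁ hk₁g, ⟨hr₁0.le, hr₁T⟩, hc₁⟩
  obtain ⟨t₁, ht₁, hmin⟩ := (isCompact_Icc.of_isClosed_subset hBcl hBsub).exists_isLeast hBne
  have ht₁' := ht₁
  simp only [hB, mem_iUnion] at ht₁'
  obtain ⟨g₁, hg₁S, ht₁T, hcg₁⟩ := ht₁'
  have hag₁ : a ≠ g₁ := fun h' => hg₁S (h' ▸ haS)
  have ht₁0 : 0 < t₁ := hT.pos true t₁ a g₁ hcg₁ hag₁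
  have ht₁r : t₁ ≤ r₁ := by
    refine hmin ?_
    simp only [hB, mem_iUnion]
    exact ⟨k₁, hgS k₁ hk₁g, ⟨hr₁0.le, hr₁T⟩, hc₁⟩
  have hmin' : ∀ r k, r ≤ T → C true r a k → k ∉ S → t₁ ≤ r := by
    intro r k hr hc hk
    have hak : a ≠ k := fun h' => hk (h' ▸ haS)
    have h0r : 0 < r := hT.pos true r a k hc hak
    refine hmin ?_
    simp only [hB, mem_iUnion]
    exact ⟨k, hk, ⟨h0r.le, hr⟩, hc⟩
  have hHt : HistE (C true) E t₁ a := hHa.mono ht₁r
  obtain ⟨t₀, ht₀0, ht₀1, ht₀⟩ := exists_left (C := C true) ht₁0 a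
  -- the past of `a` before `t₁` is in the part
  have hD : pre (C true) t₁ a ⊆ S := by
    have key : ∀ t' < t₁, ∀ (s : ℝ) (j : J), Past (C true) t' a s j → 0 ≤ s →
        j ∈ S ∧ (j = a ∨ ∃ p ∈ S, p ≠ j ∧ ∃ s'', s ≤ s'' ∧ s'' ≤ t' ∧ C true s'' p j ∧
          E s'' p j) := by
      intro t' ht' s j hj
      induction hj with
      | root _ => exact fun _ => ⟨haS, Or.inl rfl⟩
      | @step s s' j k hp hc hss ih =>
        intro hs0
        obtain ⟨h1, h2⟩ := ih (hs0.trans hss)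
        by_cases hjk : j = k
        · subst hjk
          refine ⟨h1, h2.imp id ?_⟩
          rintro ⟨p, hp1, hp2, s'', hs1, hs2, hs3⟩
          exact ⟨p, hp1, hp2, s'', hss.trans hs1, hs2, hs3⟩
        have hE' : E s' j k := (hHt.mono ht'.le) s' j k hp hc hjk
        have hs'T : s' ≤ T := (hp.le.trans ht'.le).trans ht₁T.2
        by_cases hk : k ∈ S
        · exact ⟨hk, Or.inr ⟨j, h1, hjk, s', hss, hp.le, hc, hE'⟩⟩
        · exfalso
          rcases h2 with h2 | ⟨p, hp1, hp2, s'', hs1, hs2, hs3, hs4⟩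
          · subst h2
            exact absurd (hmin' s' k hs'T hc hk) (not_le.2 (hp.le.trans_lt ht'))
          · exact hPS p j k s'' s' hp1 h1 hp2 hk (hs0.trans hss) hs1
              ((hs2.trans ht'.le).trans ht₁T.2) hs3 hc hs4 hE'
    rintro k ⟨t', ht', hk⟩
    exact (key t' ht' 0 k hk le_rfl).1
  have hEg₁ : E t₁ a g₁ := hHt t₁ a g₁ (.root le_rfl) hcg₁ hag₁
  have ha : ∀ b s k, s ≤ T → C b s a k → k ∈ gas → b = true ∧ t₀ < s := by
    intro b s k hs hc hk
    cases b with
    | false => exact absurd hk (hfalse s k hs hc)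
    | true => exact ⟨rfl, ht₀1.trans_le (hmin' s k hs hc (hgS k hk))⟩
  have h1 := cc_of_ec2' (t₀ := t₀) hT hmono h0 hcon hun ha h hg hsT hH hK hm
  refine ⟨pre (C true) t₁ a, t₀, self_mem_pre ht₁0 a, hD, ?_⟩
  refine trace_of_cc2 hT hOk m m true a t₀ ∅ (pre (C true) t₁ a) S (grOn E S) h1 le_rfl ?_
    subset_rfl
  refine ⟨ht₀0, ht₀ t₀ le_rfl ht₀1, hD, grOn_le E S, fun x y hxy => hxy.2.1, hconn, fun x hx => ?_⟩
  by_cases hxD : x ∈ pre (C true) t₁ a
  · exact Or.inl hxD
  refine Or.inr (Or.inr fun s hs hsT hHs hc => ?_)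
  rcases lt_or_ge s t₁ with h2 | h2
  · exact hxD (bc_subset_pre h2 a (Past.contact (.root le_rfl) hc |>.mono (ht₀0.trans hs.le)))
  · have hxa : x ≠ a := Ne.symm hx.1
    refine hPS x a g₁ s t₁ hx.2.2.1 haS hxa hg₁S ht₁0.le h2 hsT (hT.symmC _ _ _ _ hc) hcg₁ ?_ hEg₁
    exact hT.symmE _ _ _ (hHs s a x (.root le_rfl) hc hx.1)

end Crest.Agent.R122.LinkD331
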