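import Crest.Agent.R122.OneContact_45
import Crest.Agent.R122.BPair_45
import Crest.Agent.R122.HitPair_45

-- ▼ part R122/FreeW_796
section

/-!
# Two groups which keep distance before a time, birth convention (row 122, helper796)

`BWorld.agree_sumW`: `BWorld.agree_sum` of `OneContact_45` when the distance is larger than `ε` only
for pairs which are not both born at the current instant (two lines born at the same instant at
distance `ε` separate: `BirthSep`).
-/

set_option autoImplicit false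
set_option linter.unusedSectionVars false

open MeasureTheory Set Filter Topology
open scoped NNReal
open Crest.AnalysisR.Kinetic
open Crest.Agent.R122.Flow671 Crest.Agent.R122.Loc45
open Crest.Agent.R122.Causal291 Crest.Agent.R122.Inf879

namespace Crest.Agent.R122.Ins45

noncomputable section

variable {Φ : Space3 → ℝ} {ε : ℝ} {ι κ μ : Type*} [Fintype ι] [Fintype κ] [Fintype μ]

/-- Pairs of two groups keep distance at least `ε` shortly after `t`. -/
theorem BWorld.eventually_le {b : μ → ℝ} {t₀ t : ℝ} {W : ℝ → μ → PhasePoint}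
    (hW : BWorld Φ ε b t₀ W) (hsep : BirthSep b W ε) (ht : t₀ ≤ t) {x y : μ} (hxy : x ≠ y)
    (h : b x ≤ t → b y ≤ t → (b x < t ∨ b y < t) → ε < dist (W t x).1 (W t y).1) :
    ∀ᶠ u in 𝓝[≥] t, b x ≤ u → b y ≤ u → ε ≤ dist (W u x).1 (W u y).1 := by
  rcases lt_or_ge t (b x) with hx | hx
  · filter_upwards [Ico_mem_nhdsGE hx] with s hs h4 _
    exact absurd hs.2 (not_lt.2 h4)
  rcases lt_or_ge t (b y) with hy | hy
  · filter_upwards [Ico_mem_nhdsGE hy] with s hs _ h4
    exact absurd hs.2 (not_lt.2 h4)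
  by_cases hlt : b x < t ∨ b y < t
  · have h3 : ContinuousWithinAt (fun s => dist (W s x).1 (W s y).1) (Ici t) t :=
      ((hW.cont_pos x t ht).mono (Ici_subset_Ici.2 ht)).dist
        ((hW.cont_pos y t ht).mono (Ici_subset_Ici.2 ht))
    exact (h3.eventually (lt_mem_nhds (h hx hy hlt))).mono fun s hs _ _ => le_of_lt hs
  · push Not at hlt
    have ex : b x = t := le_antisymm hx hlt.1
    have ey : b y = t := le_antisymm hy hlt.2
    obtain ⟨δ, hδ, h1⟩ := hsep x y hxy (ex.trans ey.symm)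
    rw [ex] at h1
    filter_upwards [Ico_mem_nhdsGE (show t < t + δ by linarith)] with s hs _ _
    refine hW.le_dist_of_not_ctB (ht.trans hs.1) hs.2 (hx.trans hs.1) (hy.trans hs.1)
      fun r hr hc => ?_
    exact absurd hc.2.2.2 (not_le.2 (h1 r (hs.1.trans_lt hr.1) hr.2))

/-- **Two groups which do not come within `ε` of each other before `s` are independent up to `s`**;
pairs which are born at the same instant may be at distance `ε` at their birth. -/
theorem BWorld.agree_sumW (hΦ : AdmissiblePotential Φ) (hε : 0 < ε) {b : μ → ℝ} {t₀ : ℝ}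
    {X : ℝ → ι → PhasePoint} {Y : ℝ → κ → PhasePoint} {W : ℝ → μ → PhasePoint}
    {e : ι → μ} {f : κ → μ} (he : Function.Injective e) (hf : Function.Injective f)
    (hcov : ∀ x, x ∈ range e ∨ x ∈ range f) (hdis : ∀ i j, e i ≠ f j)
    (hW : BWorld Φ ε b t₀ W) (hsep : BirthSep b W ε)
    (hX : BWorld Φ ε (fun i => b (e i)) t₀ X)
    (hY : BWorld Φ ε (fun j => b (f j)) t₀ Y)
    (h0X : ∀ i, W t₀ (e i) = X t₀ i) (h0Y : ∀ j, W t₀ (f j) = Y t₀ j) {s : ℝ}
    (hfar : ∀ t ∈ Ico t₀ s, ∀ i j, b (e i) ≤ t → b (f j) ≤ t → (b (e i) < t ∨ b (f j) < t) →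
      ε < dist (X t i).1 (Y t j).1) :
    ∀ t ∈ Icc t₀ s, (∀ i, W t (e i) = X t i) ∧ (∀ j, W t (f j) = Y t j) := by
  set E : Set ℝ := {t | (∀ i, W t (e i) = X t i) ∧ (∀ j, W t (f j) = Y t j)} with hE
  have hmain : Icc t₀ s ⊆ E := by
    refine IsClosed.Icc_subset_of_forall_exists_gt ?_ ⟨h0X, h0Y⟩ ?_
    · have h1 : E ∩ Icc t₀ s = (⋂ i, {t | t ∈ Icc t₀ s ∧ W t (e i) = X t i}) ∩
          (⋂ j, {t | t ∈ Icc t₀ s ∧ W t (f j) = Y t j}) ∩ Icc t₀ s := by
        ext t
        simp only [hE, mem_inter_iff, mem_iInter, mem_ofPred_eq]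
        constructor
        · rintro ⟨⟨h1, h2⟩, h3⟩
          exact ⟨⟨fun i => ⟨h3, h1 i⟩, fun j => ⟨h3, h2 j⟩⟩, h3⟩
        · rintro ⟨⟨h1, h2⟩, h3⟩
          exact ⟨⟨fun i => (h1 i).2, fun j => (h2 j).2⟩, h3⟩
      rw [h1]
      refine ((isClosed_iInter fun i => ?_).inter (isClosed_iInter fun j => ?_)).inter isClosed_Icc
      · have h2 : {t | t ∈ Icc t₀ s ∧ W t (e i) = X t i} = Icc t₀ s ∩
            (fun t => (W t (e i), X t i)) ⁻¹' {p : PhasePoint × PhasePoint | p.1 = p.2} := rfl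
        rw [h2]
        refine ContinuousOn.preimage_isClosed_of_isClosed ?_ isClosed_Icc
          (isClosed_eq continuous_fst continuous_snd)
        exact ((hW.cont_apply (e i)).mono Icc_subset_Ici_self).prodMk
          ((hX.cont_apply i).mono Icc_subset_Ici_self)
      · have h2 : {t | t ∈ Icc t₀ s ∧ W t (f j) = Y t j} = Icc t₀ s ∩
            (fun t => (W t (f j), Y t j)) ⁻¹' {p : PhasePoint × PhasePoint | p.1 = p.2} := rfl
        rw [h2]
        refine ContinuousOn.preimage_isClosed_of_isClosed ?_ isClosed_Icc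
          (isClosed_eq continuous_fst continuous_snd)
        exact ((hW.cont_apply (f j)).mono Icc_subset_Ici_self).prodMk
          ((hY.cont_apply j).mono Icc_subset_Ici_self)
    · rintro t ⟨⟨hX1, hY1⟩, ht⟩ y hy
      have hWW : ∀ᶠ u in 𝓝[≥] t, ∀ i j, b (e i) ≤ u → b (f j) ≤ u →
          ε ≤ dist (W u (e i)).1 (W u (f j)).1 := by
        rw [eventually_all]
        intro i
        rw [eventually_all]
        intro j
        refine hW.eventually_le hsep ht.1 (hdis i j) fun h1 h2 h3 => ?_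
        rw [hX1 i, hY1 j]
        exact hfar t ht i j h1 h2 h3
      obtain ⟨u, hu, hu'⟩ := mem_nhdsGE_iff_exists_Ico_subset.1 hWW
      set T := min u y with hT
      have htT : t < T := lt_min hu hy
      have hsub : ∀ v ∈ Ico t T, ∀ i j, b (e i) ≤ v → b (f j) ≤ v →
          ε ≤ dist (W v (e i)).1 (W v (f j)).1 :=
        fun v hv => hu' ⟨hv.1, hv.2.trans_le (min_le_left _ _)⟩
      have k1 := BWorld.agree_own hΦ hε hX hW (μ := ι) (e := id) (f := e) Function.injective_id he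
        (S := univ) (A := ∅) (a := t) (T := T) ht.1 ht.1 (fun _ _ _ _ => Iff.rfl)
        (fun _ h => absurd h (notMem_empty _)) (fun m _ => (hX1 m).symm)
        (fun _ _ _ _ _ k _ h => absurd rfl (h k (Or.inl (mem_univ k))))
        (fun v hv m _ hm k hk hne => by
          rcases hcov k with ⟨m', rfl⟩ | ⟨j, rfl⟩
          · exact absurd rfl (hne m' (Or.inl (mem_univ m')))
          · exact hsub v hv m j hm hk)
      have k2 := BWorld.agree_own hΦ hε hY hW (μ := κ) (e := id) (f := f) Function.injective_id hf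
        (S := univ) (A := ∅) (a := t) (T := T) ht.1 ht.1 (fun _ _ _ _ => Iff.rfl)
        (fun _ h => absurd h (notMem_empty _)) (fun m _ => (hY1 m).symm)
        (fun _ _ _ _ _ k _ h => absurd rfl (h k (Or.inl (mem_univ k))))
        (fun v hv m _ hm k hk hne => by
          rcases hcov k with ⟨i, rfl⟩ | ⟨m', rfl⟩
          · rw [dist_comm]
            exact hsub v hv i m hk hm
          · exact absurd rfl (hne m' (Or.inl (mem_univ m'))))
      exact ⟨T, ⟨fun i => (k1 i (mem_univ i) T ⟨htT.le, le_rfl⟩).symm,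
        fun j => (k2 j (mem_univ j) T ⟨htT.le, le_rfl⟩).symm⟩, htT, min_le_right _ _⟩
  exact fun t ht => hmain ht

end

end Crest.Agent.R122.Ins45
end

-- ▼ part R122/FreeW2_796
section

/-!
# Before the first contact of a free line, birth convention (row 122, helper796)

`FreeFarW Φ ε Z l s`: the free line `l` is at distance larger than `ε` from the paths of `Z` during
`[τ, s)`; at its birth only the older particles count.
-/

set_option autoImplicit false
set_option linter.unusedSectionVars false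

open MeasureTheory Set Filter Topology
open scoped ENNReal
open Crest.AnalysisR.Kinetic
open Crest.Agent.R122.Flow671 Crest.Agent.R122.Loc45 Crest.Agent.R122.Causal291
open Crest.Agent.R122.Inf879 Crest.Agent.R122.EDefs602 Crest.Agent.R122.Tree674
open Crest.Agent.R122.Scat818 Crest.Agent.R122.OCout796

namespace Crest.Agent.R122.Ins45

noncomputable section

open scoped Classical

variable {ι : Type} [Fintype ι] {Φ : Space3 → ℝ} {ε : ℝ} {Z : MW ι} {l : ML} {s : ℝ}

/-- The free line `l` does not come within `ε` of the paths of `Z` during `[τ, s)` (birth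
convention: at its birth only the older particles count). -/
def FreeFarW (Φ : Space3 → ℝ) (ε : ℝ) (Z : MW ι) (l : ML) (s : ℝ) : Prop :=
  ∀ t k, l.1.1 ≤ t → t < s → Z.b k ≤ t → (Z.b k < t ∨ l.1.1 < t) →
    ε < dist (lineAt l.1.1 l.1.2 t).1 (Z.path Φ ε t k).1

theorem FreeFarW.mono {s t : ℝ} (h : FreeFarW Φ ε Z l t) (hst : s ≤ t) : FreeFarW Φ ε Z l s :=
  fun r k h1 h2 h3 => h r k h1 (h2.trans_le hst) h3

/-- **Before the first contact of the free line** the world `Z + l` is `Z` and the free line. -/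
theorem FreeFarW.path_ins (h : FreeFarW Φ ε Z l s) (hΦ : AdmissiblePotential Φ) (hε : 0 < ε)
    (hZ : Z.Ok Φ ε) (hZl : (Z.ins l).Ok Φ ε) {t : ℝ} (ht : t ∈ Icc 0 s) :
    (Z.ins l).path Φ ε t (Sum.inr ()) = lineAt l.1.1 l.1.2 t ∧
      ∀ k, (Z.ins l).path Φ ε t (Sum.inl k) = Z.path Φ ε t k := by
  have key := BWorld.agree_sumW hΦ hε (b := (Z.ins l).b) (t₀ := 0)
    (X := fun t (_ : Unit) => lineAt l.1.1 l.1.2 t) (Y := Z.path Φ ε)
    (W := (Z.ins l).path Φ ε) (e := Sum.inr) (f := Sum.inl) Sum.inr_injective Sum.inl_injective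
    (fun x => by
      rcases x with k | u
      · exact Or.inr ⟨k, rfl⟩
      · exact Or.inl ⟨u, rfl⟩)
    (fun _ _ h => by cases h)
    hZl.bw hZl.sep (bworld_line hΦ l.1.1 l.1.2 0) hZ.bw
    (fun _ => by
      rw [MW.path_zero hΦ hε]
      exact back_eq_lineAt l.1.1 l.1.2)
    (fun k => by
      rw [MW.path_zero hΦ hε, MW.path_zero hΦ hε]
      rfl)
    (s := s) (fun t ht _ k hl hk hlt => h t k hl ht.2 hk hlt.symm) t ht
  exact ⟨key.1 (), key.2⟩

/-- No contact of `l` before the first contact of the free line. -/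
theorem FreeFarW.not_C (h : FreeFarW Φ ε Z l s) (hΦ : AdmissiblePotential Φ) (hε : 0 < ε)
    (hZ : Z.Ok Φ ε) (hZl : (Z.ins l).Ok Φ ε) (hl : 0 ≤ l.1.1) {t : ℝ} (ht : t < s) (k : ι) :
    ¬ (Z.ins l).C Φ ε t (Sum.inr ()) (Sum.inl k) := by
  intro hc
  have h1 : l.1.1 ≤ t := MW.C_born hc
  have h2 : (Z.ins l).b (Sum.inl k) ≤ t := MW.C_born' hc
  have h3 := h.path_ins hΦ hε hZ hZl ⟨hl.trans h1, ht.le⟩
  have h4 : dist ((Z.ins l).path Φ ε t (Sum.inr ())).1 ((Z.ins l).path Φ ε t (Sum.inl k)).1 ≤ ε :=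
    hc.2.2.2
  rw [h3.1, h3.2 k] at h4
  have h5 : Z.b k < t ∨ l.1.1 < t := by
    rcases hc.2.2.1 with h5 | h5 | h5
    · cases h5
    · exact Or.inr h5
    · exact Or.inl h5
  exact absurd (h t k h1 ht h2 h5) (not_lt.2 h4)

end

end Crest.Agent.R122.Ins45
end

-- ▼ part R122/HitOf_45

/-!
# One contact (row 122, block A7, helper45): geometric criterion for `Hit`

`GoodEnc Φ ε Z l c s y q`: the first contact of the FREE line `l` with the paths of `Z` is with the
line `c`, at time `s`, entrance coordinates `q = (v, u, b)`, `y` = position of `c`, and the two-body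
encounter (`HitPair_45`) is isolated from `Z₀ = rest Z c` up to its exit `s' = s + outT`.

* `GoodEnc.hit` : `Hit Φ ε Z l c s s'`.
* `GoodEnc.outL_eq`, `GoodEnc.outC_eq` : `outL`, `outC` are `lineL'`, `lineC'` of `OCout_796` with the
  mark `m_l + m_c`.
* `GoodEnc.path_before`, `GoodEnc.path_after`: the paths of `Z + l` up to the exit.
* `noContact_of_far`: no contact of the free line with the paths of `Z` in `[0, T]` gives
  `θ (Z, l) = T + 1`.
-/

set_option autoImplicit false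
set_option linter.unusedSectionVars false

open MeasureTheory Set Filter Topology
open scoped ENNReal
open Crest.AnalysisR.Kinetic
open Crest.Agent.R122.Flow671 Crest.Agent.R122.Loc45 Crest.Agent.R122.Causal291
open Crest.Agent.R122.Inf879 Crest.Agent.R122.EDefs602 Crest.Agent.R122.Tree674
open Crest.Agent.R122.Scat818 Crest.Agent.R122.OCout796

namespace Crest.Agent.R122.Ins45

noncomputable section

open scoped Classical

variable {ι : Type} [Fintype ι] {Φ : Space3 → ℝ} {ε : ℝ} {Z : MW ι} {l : ML} {c : ι}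
  {s : ℝ} {y : Space3} {q : CD} {K : ℕ}

/-! ### Before the first contact -/

/-- The free line `l` does not come within `ε` of the paths of `Z` during `[τ, s)`. -/
def FreeFar (Φ : Space3 → ℝ) (ε : ℝ) (Z : MW ι) (l : ML) (s : ℝ) : Prop :=
  ∀ t k, l.1.1 ≤ t → t < s → Z.b k ≤ t →
    ε < dist (lineAt l.1.1 l.1.2 t).1 (Z.path Φ ε t k).1

theorem FreeFar.mono {s t : ℝ} (h : FreeFar Φ ε Z l t) (hst : s ≤ t) : FreeFar Φ ε Z l s :=
  fun r k h1 h2 h3 => h r k h1 (h2.trans_le hst) h3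

/-- The form with the birth convention. -/
theorem FreeFar.weak {s : ℝ} (h : FreeFar Φ ε Z l s) : FreeFarW Φ ε Z l s :=
  fun r k h1 h2 h3 _ => h r k h1 h2 h3

/-- **Before the first contact of the free line** the world `Z + l` is `Z` and the free line. -/
theorem FreeFar.path_ins (h : FreeFar Φ ε Z l s) (hΦ : AdmissiblePotential Φ) (hε : 0 < ε)
    (hZ : Z.Ok Φ ε) (hZl : (Z.ins l).Ok Φ ε) {t : ℝ} (ht : t ∈ Icc 0 s) :
    (Z.ins l).path Φ ε t (Sum.inr ()) = lineAt l.1.1 l.1.2 t ∧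
      ∀ k, (Z.ins l).path Φ ε t (Sum.inl k) = Z.path Φ ε t k := by
  have key := BWorld.agree_sum hΦ hε (b := (Z.ins l).b) (t₀ := 0)
    (X := fun t (_ : Unit) => lineAt l.1.1 l.1.2 t) (Y := Z.path Φ ε)
    (W := (Z.ins l).path Φ ε) (e := Sum.inr) (f := Sum.inl) Sum.inr_injective Sum.inl_injective
    (fun x => by
      rcases x with k | u
      · exact Or.inr ⟨k, rfl⟩
      · exact Or.inl ⟨u, rfl⟩)
    hZl.bw (bworld_line hΦ l.1.1 l.1.2 0) hZ.bw
    (fun _ => by
      rw [MW.path_zero hΦ hε]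
      exact back_eq_lineAt l.1.1 l.1.2)
    (fun k => by
      rw [MW.path_zero hΦ hε, MW.path_zero hΦ hε]
      rfl)
    (s := s) (fun t ht _ k hl hk => h t k hl ht.2 hk) t ht
  exact ⟨key.1 (), key.2⟩

/-- No contact of `l` before the first contact of the free line. -/
theorem FreeFar.not_C (h : FreeFar Φ ε Z l s) (hΦ : AdmissiblePotential Φ) (hε : 0 < ε)
    (hZ : Z.Ok Φ ε) (hZl : (Z.ins l).Ok Φ ε) (hl : 0 ≤ l.1.1) {t : ℝ} (ht : t < s) (k : ι) :
    ¬ (Z.ins l).C Φ ε t (Sum.inr ()) (Sum.inl k) := by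
  intro hc
  have h1 : l.1.1 ≤ t := MW.C_born hc
  have h2 : (Z.ins l).b (Sum.inl k) ≤ t := MW.C_born' hc
  have h3 := h.path_ins hΦ hε hZ hZl ⟨hl.trans h1, ht.le⟩
  have h4 : dist ((Z.ins l).path Φ ε t (Sum.inr ())).1 ((Z.ins l).path Φ ε t (Sum.inl k)).1 ≤ ε :=
    hc.2.2.2
  rw [h3.1, h3.2 k] at h4
  exact absurd (h t k h1 ht h2) (not_lt.2 h4)

/-- The particles of the common part: `Z` and `rest Z c` while `c` has no contact. -/
theorem rest_path (hΦ : AdmissiblePotential Φ) (hε : 0 < ε) (hZ : Z.Ok Φ ε)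
    (hR : (rest Z c).Ok Φ ε) (hfree : ∀ t k, t < s → Z.C Φ ε t c k → k = c) {t : ℝ}
    (ht : t ∈ Icc 0 s) (k : Oth c) : (rest Z c).path Φ ε t k = Z.path Φ ε t k := by
  refine BWorld.agree_own hΦ hε hR.bw hZ.bw (e := (id : Oth c → Oth c)) (f := Subtype.val)
    Function.injective_id Subtype.val_injective (S := univ) (A := ∅) (a := 0) (T := s) le_rfl
    le_rfl (fun _ _ _ _ => Iff.rfl) (fun _ h => absurd h (notMem_empty _)) ?_ ?_ ?_ k
    (mem_univ k) t ht
  · intro m _
    rw [MW.path_zero hΦ hε, MW.path_zero hΦ hε]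
    rfl
  · intro _ _ _ _ _ j _ hj
    exact absurd rfl (hj j (Or.inl (mem_univ j)))
  · intro r hr m _ hm x hx hne
    by_cases hxc : x = c
    · subst hxc
      refine hZ.bw.le_dist_of_not_ctB hr.1 hr.2 hm hx fun r' hr' hc => ?_
      exact m.2 (hfree r' m hr'.2 (MW.C_symm _ hc))
    · exact absurd rfl (hne ⟨x, hxc⟩ (Or.inl (mem_univ _)))

/-! ### Good encounters -/

/-- The first contact of the free line `l` with the paths of `Z` is with the line `c` at time `s`, in
entrance coordinates, and the two-body encounter is isolated. -/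
structure GoodEnc (Φ : Space3 → ℝ) (ε : ℝ) (Z : MW ι) (l : ML) (c : ι) (s : ℝ) (y : Space3)
    (q : CD) : Prop where
  nonneg : 0 ≤ l.1.1
  born : ∀ k, 0 ≤ Z.b k
  lt : l.1.1 < s
  bc : Z.b c ≤ s
  pass : CDpass Φ q
  state_l : lineAt l.1.1 l.1.2 s = (y + ε • entrancePoint (relB q).1 (relB q).2, q.1)
  state_c : Z.path Φ ε s c = (y, q.2.1)
  first : FreeFarW Φ ε Z l s
  /-- `c` has no contact in `Z` up to `s` -/
  free : ∀ t k, t ≤ s → Z.C Φ ε t c k → k = c
  iso_l : ∀ t (k : Oth c), s ≤ t → t ≤ s + outT Φ ε q → Z.b k ≤ t →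
    ε < dist (encPL Φ ε s y q t).1 ((rest Z c).path Φ ε t k).1
  iso_c : ∀ t (k : Oth c), s ≤ t → t ≤ s + outT Φ ε q → Z.b k ≤ t →
    ε < dist (encPC Φ ε s y q t).1 ((rest Z c).path Φ ε t k).1
  /-- nobody is born at the exit time -/
  noborn : ∀ k, k ≠ c → Z.b k ≠ s + outT Φ ε q

namespace GoodEnc

variable (h : GoodEnc Φ ε Z l c s y q) (hΦ : AdmissiblePotential Φ) (hε : 0 < ε)
  (hZ : Z.Ok Φ ε) (hZl : (Z.ins l).Ok Φ ε) (hR : (rest Z c).Ok Φ ε)

include h in
theorem nonneg_s : 0 ≤ s := h.nonneg.trans h.lt.le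

include h hΦ hε hZ hZl in
/-- Paths up to the contact. -/
theorem path_before {t : ℝ} (ht : t ∈ Icc 0 s) :
    (Z.ins l).path Φ ε t (Sum.inr ()) = lineAt l.1.1 l.1.2 t ∧
      ∀ k, (Z.ins l).path Φ ε t (Sum.inl k) = Z.path Φ ε t k :=
  h.first.path_ins hΦ hε hZ hZl ht

include h hΦ hε hZ hZl hR in
/-- **Paths during the encounter** (and shortly after it). -/
theorem path_after : ∃ δ > 0, ∀ t ∈ Icc s (s + outT Φ ε q + δ),
    (Z.ins l).path Φ ε t (Sum.inr ()) = encPL Φ ε s y q t ∧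
    (Z.ins l).path Φ ε t (Sum.inl c) = encPC Φ ε s y q t ∧
    ∀ k : Oth c, (Z.ins l).path Φ ε t (Sum.inl k) = (rest Z c).path Φ ε t k := by
  have hs0 := h.nonneg_s
  have hs' : s ≤ s + outT Φ ε q := by
    have := h.pass.outT_pos hε
    linarith
  have hWp := world_encP (s := s) (y := y) hΦ hε h.pass.ok
  -- isolation persists shortly after the exit
  have hev : ∀ᶠ t in 𝓝[≥] (s + outT Φ ε q), ∀ k : Oth c, (Z.b k ≤ t →
      ε < dist (encPL Φ ε s y q t).1 ((rest Z c).path Φ ε t k).1) ∧ (Z.b k ≤ t →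
      ε < dist (encPC Φ ε s y q t).1 ((rest Z c).path Φ ε t k).1) := by
    rw [eventually_all]
    intro k
    have c1 : ContinuousOn (fun t => (encPL Φ ε s y q t).1) (Ici s) :=
      (hWp.continuous_pos 0).continuousOn
    have c2 : ContinuousOn (fun t => (encPC Φ ε s y q t).1) (Ici s) :=
      (hWp.continuous_pos 1).continuousOn
    have c3 : ContinuousOn (fun t => ((rest Z c).path Φ ε t k).1) (Ici s) :=
      (hR.bw.cont_pos k).mono (Ici_subset_Ici.2 hs0)
    have e1 := eventually_far (b₁ := s) (b₂ := Z.b k) hs' c1 c3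
      (fun _ hb => h.iso_l _ k hs' le_rfl hb)
    have e2 := eventually_far (b₁ := s) (b₂ := Z.b k) hs' c2 c3
      (fun _ hb => h.iso_c _ k hs' le_rfl hb)
    filter_upwards [e1, e2, self_mem_nhdsWithin] with t h1 h2 ht
    exact ⟨fun hb => h1 (hs'.trans ht) hb, fun hb => h2 (hs'.trans ht) hb⟩
  obtain ⟨u, hu, hu'⟩ := mem_nhdsGE_iff_exists_Ico_subset.1 hev
  have hu0 : s + outT Φ ε q < u := hu
  refine ⟨(u - (s + outT Φ ε q)) / 2, by linarith, fun t ht => ?_⟩
  set e : Fin 2 → ι ⊕ Unit := ![Sum.inr (), Sum.inl c] with he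
  have he_inj : Function.Injective e := by
    intro i j hij
    fin_cases i <;> fin_cases j <;> simp [he] at hij ⊢
  have hb2 : ∀ i : Fin 2, (Z.ins l).b (e i) ≤ s := by
    intro i
    fin_cases i
    · exact h.lt.le
    · exact h.bc
  have key := BWorld.agree_sum hΦ hε (b := (Z.ins l).b) (t₀ := s)
    (X := fun t => pr2 (encPL Φ ε s y q t, encPC Φ ε s y q t)) (Y := (rest Z c).path Φ ε)
    (W := (Z.ins l).path Φ ε) (e := e) (f := fun k : Oth c => Sum.inl k.1)
    he_inj (fun a b hab => Subtype.ext (Sum.inl_injective hab))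
    (fun x => by
      rcases x with k | v
      · by_cases hk : k = c
        · subst hk
          exact Or.inl ⟨1, rfl⟩
        · exact Or.inr ⟨⟨k, hk⟩, rfl⟩
      · exact Or.inl ⟨0, rfl⟩)
    (hZl.bw.mono hs0) (World.bworld hWp hb2) (hR.bw.mono hs0)
    (fun i => by
      have hp := h.path_before hΦ hε hZ hZl ⟨hs0, le_rfl⟩
      fin_cases i
      · change (Z.ins l).path Φ ε s (Sum.inr ()) = encPL Φ ε s y q s
        rw [hp.1, h.state_l, encPL_self hΦ hε h.pass.ok]
      · change (Z.ins l).path Φ ε s (Sum.inl c) = encPC Φ ε s y q s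
        rw [hp.2 c, h.state_c, encPC_self hΦ hε h.pass.ok])
    (fun k => by
      rw [(h.path_before hΦ hε hZ hZl ⟨hs0, le_rfl⟩).2 k.1]
      exact (rest_path hΦ hε hZ hR (fun r k hr hc => h.free r k hr.le hc) ⟨hs0, le_rfl⟩ k).symm)
    (s := s + outT Φ ε q + (u - (s + outT Φ ε q)) / 2)
    (fun r hr i k hi hk => by
      rcases le_or_gt r (s + outT Φ ε q) with hr' | hr'
      · fin_cases i
        · exact h.iso_l r k hr.1 hr' hk
        · exact h.iso_c r k hr.1 hr' hk
      · have hru : r < u := by linarith [hr.2]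
        have h3 := hu' ⟨hr'.le, hru⟩ k
        fin_cases i
        · exact h3.1 hk
        · exact h3.2 hk) t ht
  exact ⟨key.1 0, key.1 1, key.2⟩

include h hΦ hε hZ hZl hR in
/-- **A good encounter is a `Hit`.** -/
theorem hit : Hit Φ ε Z l c s (s + outT Φ ε q) := by
  have hs0 := h.nonneg_s
  have hT := h.pass.outT_pos hε
  obtain ⟨δ, hδ, hp⟩ := h.path_after hΦ hε hZ hZl hR
  refine ⟨hs0, by linarith, h.born, h.nonneg, h.free,
    fun t k ht => h.first.not_C hΦ hε hZ hZl h.nonneg ht k, ?_, ?_, ?_, ?_, ?_, h.noborn⟩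
  · refine ⟨h.lt.le, h.bc, Or.inr (Or.inl h.lt), ?_⟩
    have h1 := hp s ⟨le_rfl, by linarith⟩
    rw [h1.1, h1.2.1, dist_entrance hΦ hε h.pass.ok]
  · have hlt : l.1.1 < s + outT Φ ε q := h.lt.trans (by linarith)
    refine ⟨hlt.le, h.bc.trans (by linarith), Or.inr (Or.inl hlt), ?_⟩
    have h1 := hp (s + outT Φ ε q) ⟨by linarith, by linarith⟩
    rw [h1.1, h1.2.1, h.pass.dist_exit hε]
  · intro t k ht ht' hc
    by_contra hk
    have h1 := hp t ⟨ht, by linarith⟩
    have h2 : dist ((Z.ins l).path Φ ε t (Sum.inr ())).1 ((Z.ins l).path Φ ε t (Sum.inl k)).1 ≤ ε :=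
      hc.2.2.2
    rw [h1.1, h1.2.2 ⟨k, hk⟩] at h2
    have h3 : (Z.ins l).b (Sum.inl k) ≤ t := MW.C_born' hc
    exact absurd (h.iso_l t ⟨k, hk⟩ ht ht' h3) (not_lt.2 h2)
  · intro t k ht ht' hc
    by_contra hk
    have h1 := hp t ⟨ht, by linarith⟩
    have h2 : dist ((Z.ins l).path Φ ε t (Sum.inl c)).1 ((Z.ins l).path Φ ε t (Sum.inl k)).1 ≤ ε :=
      hc.2.2.2
    rw [h1.2.1, h1.2.2 ⟨k, hk⟩] at h2
    have h3 : (Z.ins l).b (Sum.inl k) ≤ t := MW.C_born' hc
    exact absurd (h.iso_c t ⟨k, hk⟩ ht ht' h3) (not_lt.2 h2)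
  · refine ⟨δ, hδ, fun t ht ht' => ?_⟩
    have h1 := hp t ⟨by linarith, ht'.le⟩
    rw [h1.1, h1.2.1]
    exact h.pass.lt_dist hΦ hε ht

include h hΦ hε hZ hZl hR in
/-- The outgoing line of `l`. -/
theorem outL_eq : outL Φ ε Z l c (s + outT Φ ε q) = (lineL' Φ ε s y q, l.2 + Z.m c) := by
  have hT := h.pass.outT_pos hε
  obtain ⟨δ, hδ, hp⟩ := h.path_after hΦ hε hZ hZl hR
  have h1 := hp (s + outT Φ ε q) ⟨by linarith, by linarith⟩
  unfold outL
  rw [h1.1, encPL_exit hε.ne']
  rfl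

include h hΦ hε hZ hZl hR in
/-- The outgoing line of `c`. -/
theorem outC_eq : outC Φ ε Z l c (s + outT Φ ε q) = (lineC' Φ ε s y q, l.2 + Z.m c) := by
  have hT := h.pass.outT_pos hε
  obtain ⟨δ, hδ, hp⟩ := h.path_after hΦ hε hZ hZl hR
  have h1 := hp (s + outT Φ ε q) ⟨by linarith, by linarith⟩
  unfold outC
  rw [h1.2.1, encPC_exit hε.ne']
  rfl

end GoodEnc

end

end Crest.Agent.R122.Ins45
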