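import Crest.Agent.R122.LN2Touch_473
import Mathlib
import Crest.Prelude.Def_KineticLimit
import Crest.Agent.R122.PWPast_365
import Crest.Agent.R122.PWInst2_442
import Crest.Agent.R122.HitOf_45
import Crest.Agent.R122.UnwE_410

-- ▼ part R122/LN2Birth_473
section

/-!
# Row 122: no particle of the gas near a given point of the structure (helper473)

* `Birth Φ ε R w s y` : at time `s` a particle of the gas `w` is within `R ε` of `y`.
* `BInv` : translation invariant structure, with a point `y` (and a time `s`) of it.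
* `lintegral_birthN_le` : mass `≤ (pinned mass) · c₃ R³ ε`.
* `gNull_birth` : null event. The structure measure only has to be dominated by a translation
  invariant one of finite pinned mass.
-/

set_option autoImplicit false
set_option linter.unusedSectionVars false

open MeasureTheory Set Filter Topology
open scoped Classical ENNReal
open Crest.AnalysisR.Kinetic

noncomputable section

namespace Crest.Agent.R122.LN2

open Crest.Agent.R122.GC311 Crest.Agent.R122.EDefs602 Crest.Agent.R122.Flow671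
open Crest.Agent.R122.EBasic602 Crest.Agent.R122.Causal291
open Crest.Agent.R122.Boost969 (LSt posAt)
open Crest.Agent.R122.Pair292 (shL)
open Crest.Agent.R122.Gate424

variable {Φ : Space3 → ℝ} {f₀ : PhasePoint → ℝ} {ε R : ℝ}

/-- At time `s` a particle of the gas is within `R ε` of `y`. -/
def Birth (Φ : Space3 → ℝ) (ε R : ℝ) {n : ℕ} (w : Config n) (s : ℝ) (y : Space3) : Prop :=
  ∃ i : Fin n, dist ((MW.cfg w).path Φ ε s i).1 y ≤ R * ε

/-- The number of particles of the gas within `R ε` of `y` at time `s`. -/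
def birthN (Φ : Space3 → ℝ) (ε R : ℝ) (n : ℕ) (p : Config n × (ℝ × Space3)) : ℝ≥0∞ :=
  ∑ i : Fin n, (Metric.closedBall (0 : Space3) (R * ε)).indicator 1
    (p.2.2 - (flow Φ ε p.2.1 p.1 i).1)

theorem measurable_birthN (hΦ : AdmissiblePotential Φ) (hε : 0 < ε) (R : ℝ) (n : ℕ) :
    Measurable (birthN Φ ε R n) := by
  unfold birthN
  refine Finset.measurable_sum _ fun i _ => ?_
  refine (measurable_one.indicator Metric.isClosed_closedBall.measurableSet).comp ?_
  have h1 : Measurable fun p : Config n × (ℝ × Space3) => flow Φ ε p.2.1 p.1 :=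
    (measurable_flow_joint hΦ hε).comp (measurable_snd.fst.prodMk measurable_fst)
  exact measurable_snd.snd.sub ((measurable_pi_apply i).comp h1).fst

theorem one_le_birthN (hΦ : AdmissiblePotential Φ) (hε : 0 < ε) {n : ℕ} {w : Config n} {s : ℝ}
    {y : Space3} (h : Birth Φ ε R w s y) : 1 ≤ birthN Φ ε R n (w, (s, y)) := by
  obtain ⟨i, hi⟩ := h
  rw [cfg_path hΦ hε] at hi
  unfold birthN
  refine le_trans (le_of_eq ?_) (Finset.single_le_sum
    (f := fun i : Fin n => (Metric.closedBall (0 : Space3) (R * ε)).indicator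
      (1 : Space3 → ℝ≥0∞) (y - (flow Φ ε s w i).1)) (fun _ _ => bot_le) (Finset.mem_univ i))
  rw [indicator_of_mem]
  · rfl
  · rw [mem_closedBall_zero_iff, ← dist_eq_norm, dist_comm]
    exact hi

/-- Integral over the point. -/
theorem lintegral_birthN {n : ℕ} (w : Config n) (s : ℝ) (y : Space3) :
    ∫⁻ a : Space3, birthN Φ ε R n (w, (s, y + a)) =
      (ENNReal.ofReal (R * ε) ^ 3 * Sweep815.c3) * n := by
  unfold birthN
  rw [lintegral_finsetSum]
  · have h1 : ∀ i : Fin n, ∫⁻ a : Space3, (Metric.closedBall (0 : Space3) (R * ε)).indicator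
        (1 : Space3 → ℝ≥0∞) (y + a - (flow Φ ε s w i).1) =
        ENNReal.ofReal (R * ε) ^ 3 * Sweep815.c3 := by
      intro i
      have h2 : ∀ a : Space3, y + a - (flow Φ ε s w i).1 = (y - (flow Φ ε s w i).1) + a := by
        intro a
        abel
      simp only [h2]
      rw [lintegral_add_left_eq_self (fun a : Space3 =>
        (Metric.closedBall (0 : Space3) (R * ε)).indicator (1 : Space3 → ℝ≥0∞) a),
        lintegral_indicator_one Metric.isClosed_closedBall.measurableSet,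
        Sweep815.vol_closedBall]
    simp only [h1]
    rw [Finset.sum_const, Finset.card_univ, Fintype.card_fin, nsmul_eq_mul, mul_comm]
  · intro i _
    have h2 : Measurable fun a : Space3 => y + a - (flow Φ ε s w i).1 :=
      (measurable_const.add measurable_id).sub measurable_const
    exact (measurable_one.indicator Metric.isClosed_closedBall.measurableSet).comp h2

/-- The mean number of particles. -/
theorem gcE_card_le' (hf : Measurable f₀) (h1 : ∫⁻ z, ENNReal.ofReal (f₀ z) ≤ 1) (ε : ℝ) :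
    gcE f₀ ε (fun n (_ : Config n) => (n : ℝ≥0∞)) ≤ activity ε := by
  have h := gcE_sum_le hf h1 ε (fun _ => 1) measurable_const
  have e : (fun (n : ℕ) (Z : Config n) => ∑ j : Fin n, (1 : ℝ≥0∞)) =
      fun (n : ℕ) (_ : Config n) => (n : ℝ≥0∞) := by
    funext n Z
    simp
  rw [e] at h
  refine h.trans ?_
  simp only [mul_one]
  exact mul_le_of_le_one_right bot_le h1

/-- Translation invariant structure with a point `y`, a time `s` and a reference point `pos`. -/
structure BInv {Θ : Type} [MeasurableSpace Θ] (m : Measure Θ) (Tr : Space3 → Θ → Θ) (s : Θ → ℝ)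
    (y pos : Θ → Space3) : Prop where
  sf : SFinite m
  mT : Measurable fun q : Space3 × Θ => Tr q.1 q.2
  inv : ∀ a, m.map (Tr a) = m
  ms : Measurable s
  my : Measurable y
  mpos : Measurable pos
  s_tr : ∀ a θ, s (Tr a θ) = s θ
  y_tr : ∀ a θ, y (Tr a θ) = y θ + a
  pos_tr : ∀ a θ, pos (Tr a θ) = pos θ + a

section

variable {Θ : Type} [MeasurableSpace Θ] {m m' : Measure Θ} {Tr : Space3 → Θ → Θ} {s : Θ → ℝ}
  {y pos : Θ → Space3}

theorem BInv.invFam (h : BInv m Tr s y pos) :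
    Pair292.InvFam Tr (fun θ => ((s θ, (y θ, 0)) : LSt)) pos m where
  sf := h.sf
  mT := h.mT
  me := h.ms.prodMk (h.my.prodMk measurable_const)
  mpos := h.mpos
  eT a θ := by
    rw [h.s_tr, h.y_tr]
    unfold Pair292.shL
    rfl
  posT := h.pos_tr
  inv := h.inv

/-- **Mass bound.** -/
theorem lintegral_birthN_le (hΦ : AdmissiblePotential Φ) (hf : Measurable f₀)
    (h1 : ∫⁻ z, ENNReal.ofReal (f₀ z) ≤ 1) (hε : 0 < ε) (hR : 0 ≤ R)
    (H : BInv m Tr s y pos) {χ : Space3 → ℝ≥0∞} (hχ : Measurable χ) (hχ1 : ∫⁻ x, χ x = 1) :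
    ∫⁻ θ, gcE f₀ ε (fun n w => birthN Φ ε R n (w, (s θ, y θ))) ∂m ≤
      (∫⁻ θ, χ (pos θ) ∂m) * (ENNReal.ofReal R ^ 3 * Sweep815.c3 * ENNReal.ofReal ε) := by
  have := H.sf
  have hG : Measurable fun q : ℝ × Space3 => gcE f₀ ε fun n w => birthN Φ ε R n (w, q) :=
    MeasE416.measurable_gcE_of hf ε (F := fun n q w => birthN Φ ε R n (w, q)) fun n =>
      (measurable_birthN hΦ hε R n).comp measurable_swap
  have hGθ : Measurable fun θ => gcE f₀ ε (fun n w => birthN Φ ε R n (w, (s θ, y θ))) :=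
    hG.comp (H.ms.prodMk H.my)
  rw [H.invFam.disint hχ hχ1 hGθ]
  set K : ℝ≥0∞ := ENNReal.ofReal R ^ 3 * Sweep815.c3 * ENNReal.ofReal ε with hK
  have hc3 : Sweep815.c3 ≠ ∞ := by
    unfold Sweep815.c3
    exact ENNReal.ofReal_ne_top
  have hact : activity ε * ENNReal.ofReal ε ^ 2 = 1 := by
    have h2 := activity_pow_mul_pow hε 1
    rwa [pow_one, pow_one, ENNReal.ofReal_pow hε.le] at h2
  have hK2 : ∀ θ, ∫⁻ a : Space3, gcE f₀ ε (fun n w => birthN Φ ε R n (w, (s (Tr a θ),
      y (Tr a θ)))) ≤ K := by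
    intro θ
    simp only [H.s_tr, H.y_tr]
    have hF : ∀ n, Measurable (Function.uncurry fun (a : Space3) (w : Config n) =>
        birthN Φ ε R n (w, (s θ, y θ + a))) := fun n => by
      have h2 : Measurable fun q : Space3 × Config n => (q.2, (s θ, y θ + q.1)) :=
        measurable_snd.prodMk (measurable_const.prodMk (measurable_const.add measurable_fst))
      exact (measurable_birthN hΦ hε R n).comp h2
    rw [BadHit370.lintegral_gcE (F := fun n (a : Space3) w => birthN Φ ε R n (w, (s θ, y θ + a)))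
      hf ε volume hF]
    simp only [lintegral_birthN]
    rw [gcE_const_mul f₀ ε (ENNReal.mul_ne_top (ENNReal.pow_ne_top ENNReal.ofReal_ne_top) hc3)]
    calc ENNReal.ofReal (R * ε) ^ 3 * Sweep815.c3 * gcE f₀ ε (fun n (_ : Config n) => (n : ℝ≥0∞))
        ≤ ENNReal.ofReal (R * ε) ^ 3 * Sweep815.c3 * activity ε :=
          mul_le_mul_right (gcE_card_le' hf h1 ε) _
      _ = K * (activity ε * ENNReal.ofReal ε ^ 2) := by
          rw [ENNReal.ofReal_mul hR, hK]
          ring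
      _ = K := by rw [hact, mul_one]
  calc ∫⁻ θ, χ (pos θ) * (∫⁻ a : Space3, gcE f₀ ε (fun n w => birthN Φ ε R n (w, (s (Tr a θ),
        y (Tr a θ))))) ∂m
      ≤ ∫⁻ θ, χ (pos θ) * K ∂m := lintegral_mono fun θ => mul_le_mul_right (hK2 θ) _
    _ = _ := lintegral_mul_const _ (hχ.comp H.mpos)

end

section null

variable {Θ : Type} [MeasurableSpace Θ] {I : Type} {m m' : ℝ → I → Measure Θ}
  {Tr : ℝ → I → Space3 → Θ → Θ} {s : ℝ → I → Θ → ℝ} {y pos : ℝ → I → Θ → Space3}

/-- **No particle of the gas near the point `y` of the structure**: null event. -/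
theorem gNull_birth (hΦ : AdmissiblePotential Φ) (hf : Measurable f₀)
    (h1 : ∫⁻ z, ENNReal.ofReal (f₀ z) ≤ 1) (R : ℝ) {c M : ℝ≥0∞} (hc : c ≠ ∞) (hM : M ≠ ∞)
    {χ : Space3 → ℝ≥0∞} (hχ : Measurable χ) (hχ1 : ∫⁻ x, χ x = 1)
    (hm : ∀ ε i, 0 < ε → ∀ F : Θ → ℝ≥0∞, Measurable F → ∫⁻ θ, F θ ∂(m ε i) ≤
      c * ∫⁻ θ, F θ ∂(m' ε i))
    (H : ∀ ε i, 0 < ε → BInv (m' ε i) (Tr ε i) (s ε i) (y ε i) (pos ε i))
    (hmass : ∀ ε i, 0 < ε → ∫⁻ θ, χ (pos ε i θ) ∂(m' ε i) ≤ M) :
    GNull f₀ m (fun ε i _ θ w => Birth Φ ε R w (s ε i θ) (y ε i θ)) := by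
  intro δ hδ
  set R' : ℝ := max R 0 with hR'
  have hc3 : Sweep815.c3 ≠ ∞ := by
    unfold Sweep815.c3
    exact ENNReal.ofReal_ne_top
  set K : ℝ≥0∞ := c * (M * (ENNReal.ofReal R' ^ 3 * Sweep815.c3)) with hK
  have hKt : K ≠ ∞ := ENNReal.mul_ne_top hc (ENNReal.mul_ne_top hM
    (ENNReal.mul_ne_top (ENNReal.pow_ne_top ENNReal.ofReal_ne_top) hc3))
  have htend : Tendsto (fun ε : ℝ => K * ENNReal.ofReal ε) (𝓝[>] 0) (𝓝 0) := by
    have h2 : Tendsto (fun ε : ℝ => ENNReal.ofReal ε) (𝓝[>] 0) (𝓝 0) := by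
      have h3 : Tendsto (fun ε : ℝ => ENNReal.ofReal ε) (𝓝 0) (𝓝 (ENNReal.ofReal 0)) :=
        (ENNReal.continuous_ofReal.tendsto 0)
      rw [ENNReal.ofReal_zero] at h3
      exact h3.mono_left nhdsWithin_le_nhds
    have h4 := ENNReal.Tendsto.const_mul (a := K) h2 (Or.inr hKt)
    rwa [mul_zero] at h4
  have hev : ∀ᶠ ε : ℝ in 𝓝[>] 0, K * ENNReal.ofReal ε < δ := htend.eventually (gt_mem_nhds hδ)
  obtain ⟨ε₀, hε₀, hsub⟩ := (mem_nhdsGT_iff_exists_Ioo_subset).1 hev
  refine ⟨ε₀, hε₀, fun ε hε hlt i => ?_⟩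
  have hB := H ε i hε
  have hG : Measurable fun q : ℝ × Space3 => gcE f₀ ε fun n w => birthN Φ ε R' n (w, q) :=
    MeasE416.measurable_gcE_of hf ε (F := fun n q w => birthN Φ ε R' n (w, q)) fun n =>
      (measurable_birthN hΦ hε R' n).comp measurable_swap
  refine ⟨fun n p => birthN Φ ε R' n (p.2, (s ε i p.1, y ε i p.1)), fun n => ?_, ?_, ?_⟩
  · exact (measurable_birthN hΦ hε R' n).comp (measurable_snd.prodMk
      ((hB.ms.comp measurable_fst).prodMk (hB.my.comp measurable_fst)))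
  · rintro n θ w - ⟨j, hj⟩
    exact one_le_birthN hΦ hε ⟨j, hj.trans (mul_le_mul_of_nonneg_right (le_max_left _ _) hε.le)⟩
  · calc ∫⁻ θ, gcE f₀ ε (fun n w => birthN Φ ε R' n (w, (s ε i θ, y ε i θ))) ∂(m ε i)
        ≤ c * ∫⁻ θ, gcE f₀ ε (fun n w => birthN Φ ε R' n (w, (s ε i θ, y ε i θ))) ∂(m' ε i) :=
          hm ε i hε _ (hG.comp (hB.ms.prodMk hB.my))
      _ ≤ c * ((∫⁻ θ, χ (pos ε i θ) ∂(m' ε i)) *
            (ENNReal.ofReal R' ^ 3 * Sweep815.c3 * ENNReal.ofReal ε)) :=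
          mul_le_mul_right (lintegral_birthN_le hΦ hf h1 hε (le_max_right _ _) hB hχ hχ1) _
      _ ≤ c * (M * (ENNReal.ofReal R' ^ 3 * Sweep815.c3 * ENNReal.ofReal ε)) :=
          mul_le_mul_right (mul_le_mul_left (hmass ε i hε) _) _
      _ = K * ENNReal.ofReal ε := by rw [hK]; ring
      _ ≤ δ := le_of_lt (hsub ⟨hε, hlt⟩)


end null

end Crest.Agent.R122.LN2

end
end

-- ▼ part R122/PWBirth_365

/-!
# Row 122, LN1 (helper365): clean births (`CleanB` of `PWPast_365`)

* `cleanB_gas` : a derived world without exits.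
* `cleanB_ins` : one exit (world `Z.ins a`, `Z` gas).
* `cleanB_ins2` : two exits (world `(Z.ins d).ins a`, `Z` gas), from `NoB` : no gas particle of `Z`
  within `ε` of the birth point of the first born exit at its birth.
* `noB_cfg`, `noB_of_flow` : `NoB` from the birth events of helper473 and helper664.
-/

set_option autoImplicit false
set_option linter.unusedSectionVars false

open MeasureTheory Set Filter Topology
open scoped NNReal ENNReal
open Crest.AnalysisR.Kinetic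
open Crest.Agent.R122.Flow671 Crest.Agent.R122.Loc45 Crest.Agent.R122.Ins45
open Crest.Agent.R122.VL581 Crest.Agent.R122.VL581.VSys Crest.Agent.R122.VLInst442
open Crest.Agent.R122.LNInst491 Crest.Agent.R122.LN304 Crest.Agent.R122.LNg410
open Crest.Agent.R122.Causal291 Crest.Agent.R122.EDefs602
open Crest.Agent.R122.PWGlue491 Crest.Agent.R122.Inf879 Crest.Agent.R122.PWInst442
open scoped Classical

noncomputable section

namespace Crest.Agent.R122.PW365

variable {J κ ι : Type} [Fintype J] [Fintype ι] {M : VSys J κ} {Zc : J → PhasePoint}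
  {Sp : J → Finset J}

/-- Nobody of the world `Z` is within `ε` of the birth point of the line `l` at its birth. -/
def NoB (Φ : Space3 → ℝ) (ε : ℝ) (Z : MW ι) (l : ML) : Prop :=
  ∀ i, ε < dist (Z.path Φ ε l.1.1 i).1 l.1.2.1

/-- **Clean births** without exits. -/
theorem cleanB_gas {W : MW ι} {f : ι ↪ J}
    (H : GD M Zc Sp (bD W f) (labs f) (XD W f M.Φ M.ε)) (hg : ∀ i, Sp (f i) = ∅) (u : ℝ) :
    CleanB M Zc Sp (bD W f) (labs f) (XD W f M.Φ M.ε) u := by
  refine cleanB_of H ?_ ?_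
  · intro y hy _ e _ hey
    obtain ⟨i, rfl⟩ := (mem_labs f).1 hy
    rw [hg i] at hey
    exact absurd hey (Finset.notMem_empty e)
  · intro i hi hne
    obtain ⟨i, rfl⟩ := (mem_labs f).1 hi
    rw [hg i] at hne
    exact absurd hne Finset.not_nonempty_empty

/-- **Clean births** with one exit. -/
theorem cleanB_ins {Z : MW ι} {a : ML} {f : ι ⊕ Unit ↪ J}
    (H : GD M Zc Sp (bD (Z.ins a) f) (labs f) (XD (Z.ins a) f M.Φ M.ε))
    (hg : ∀ i, Sp (f (Sum.inl i)) = ∅) (hb : ∀ i, Z.b i ≤ 0) (u : ℝ) :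
    CleanB M Zc Sp (bD (Z.ins a) f) (labs f) (XD (Z.ins a) f M.Φ M.ε) u := by
  have huniq : ∀ j ∈ labs f, (Sp j).Nonempty → j = f (Sum.inr ()) := by
    intro j hj hne
    obtain ⟨i | i, rfl⟩ := (mem_labs f).1 hj
    · rw [hg i] at hne
      exact absurd hne Finset.not_nonempty_empty
    · rfl
  refine cleanB_of H ?_ ?_
  · intro y hy _ e he hey hne
    have h1 := huniq y hy ⟨e, hey⟩
    have h2 := huniq e he (H.nonempty hey)
    exact absurd (h2.trans h1.symm) hne
  · intro i hi hne _ hpos j hj hij hbb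
    exfalso
    have h1 := huniq i hi hne
    obtain ⟨j | j, rfl⟩ := (mem_labs f).1 hj
    · rw [bD_apply] at hbb
      have h3 : (Z.ins a).b (Sum.inl j) = Z.b j := rfl
      rw [h3] at hbb
      exact absurd (hbb ▸ hpos) (not_lt.2 (hb j))
    · exact hij (by rw [h1])

section two

variable {Z : MW ι} {d a : ML} {f : (ι ⊕ Unit) ⊕ Unit ↪ J}

/-- Before its birth a line has no influence. -/
theorem path_before {Φ : Space3 → ℝ} {ε : ℝ} (hΦ : AdmissiblePotential Φ) (hε : 0 < ε)
    {Z : MW ι} {l : ML} (hZ : Z.Ok Φ ε) (hZl : (Z.ins l).Ok Φ ε) {t : ℝ} (h0 : 0 ≤ t)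
    (ht : t ≤ l.1.1) (k : ι) : (Z.ins l).path Φ ε t (Sum.inl k) = Z.path Φ ε t k :=
  (Ins45.FreeFar.path_ins (Z := Z) (l := l) (s := l.1.1)
    (fun _ _ h1 h2 _ => absurd h1 (not_le.2 h2)) hΦ hε hZ hZl ⟨h0, ht⟩).2 k

/-- A line is born at its birth point. -/
theorem path_self_birth {Φ : Space3 → ℝ} {ε : ℝ} (hΦ : AdmissiblePotential Φ) (hε : 0 < ε)
    {Z : MW ι} {l : ML} (h0 : 0 ≤ l.1.1) :
    ((Z.ins l).path Φ ε l.1.1 (Sum.inr ())).1 = l.1.2.1 := by
  have h1 : (Z.ins l).b (Sum.inr ()) = l.1.1 := rfl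
  rw [path_birth hΦ hε (Z.ins l) h0 h1.ge]
  change l.1.2.1 - l.1.1 • l.1.2.2 + l.1.1 • l.1.2.2 = l.1.2.1
  abel

/-- **Clean births** with two exits. -/
theorem cleanB_ins2
    (H : GD M Zc Sp (bD ((Z.ins d).ins a) f) (labs f) (XD ((Z.ins d).ins a) f M.Φ M.ε))
    (hΦ : AdmissiblePotential M.Φ) (hε : 0 < M.ε) (hZ : Z.Ok M.Φ M.ε)
    (hd : (Z.ins d).Ok M.Φ M.ε) (hda : ((Z.ins d).ins a).Ok M.Φ M.ε)
    (hg : ∀ i, Sp (f (Sum.inl (Sum.inl i))) = ∅) (hb : ∀ i, Z.b i ≤ 0) {u : ℝ}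
    (hBd : f (Sum.inr ()) ∈ Sp (f (Sum.inl (Sum.inr ()))) → d.1.1 ≤ a.1.1 → d.1.1 ≤ u →
      NoB M.Φ M.ε Z d)
    (hBa : f (Sum.inr ()) ∈ Sp (f (Sum.inl (Sum.inr ()))) → a.1.1 ≤ d.1.1 → a.1.1 ≤ u →
      NoB M.Φ M.ε Z a)
    (hne : d.1.1 = a.1.1 → d.1.1 ≤ u → f (Sum.inr ()) ∈ Sp (f (Sum.inl (Sum.inr ()))) ∨
      M.ε < dist d.1.2.1 a.1.2.1) :
    CleanB M Zc Sp (bD ((Z.ins d).ins a) f) (labs f) (XD ((Z.ins d).ins a) f M.Φ M.ε) u := by
  set W : MW ((ι ⊕ Unit) ⊕ Unit) := (Z.ins d).ins a with hW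
  set D : J := f (Sum.inl (Sum.inr ())) with hD
  set A : J := f (Sum.inr ()) with hA
  have hWd : W.b (Sum.inl (Sum.inr ())) = d.1.1 := rfl
  have hWa : W.b (Sum.inr ()) = a.1.1 := rfl
  have hbD : bD W f D = d.1.1 := by rw [hD, bD_apply, hWd]
  have hbA : bD W f A = a.1.1 := by rw [hA, bD_apply, hWa]
  have hd0 : 0 ≤ d.1.1 := by
    rw [← hbD]
    exact (bb_nonneg M D).trans (H.bb_le D (mem_labs_self f _))
  have ha0 : 0 ≤ a.1.1 := by
    rw [← hbA]
    exact (bb_nonneg M A).trans (H.bb_le A (mem_labs_self f _))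
  have huniq : ∀ j ∈ labs f, (Sp j).Nonempty → j = D ∨ j = A := by
    intro j hj hne
    obtain ⟨(i | i) | i, rfl⟩ := (mem_labs f).1 hj
    · rw [hg i] at hne
      exact absurd hne Finset.not_nonempty_empty
    · exact Or.inl rfl
    · exact Or.inr rfl
  -- the states at the first birth
  have hpd : (W.path M.Φ M.ε d.1.1 (Sum.inl (Sum.inr ()))).1 = d.1.2.1 ∨ ¬ d.1.1 ≤ a.1.1 := by
    by_cases hle : d.1.1 ≤ a.1.1
    · left
      rw [hW, path_before hΦ hε hd hda hd0 hle, path_self_birth hΦ hε hd0]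
    · exact Or.inr hle
  have hpa : (W.path M.Φ M.ε a.1.1 (Sum.inr ())).1 = a.1.2.1 := path_self_birth hΦ hε ha0
  have hgd : ∀ i, d.1.1 ≤ a.1.1 →
      W.path M.Φ M.ε d.1.1 (Sum.inl (Sum.inl i)) = Z.path M.Φ M.ε d.1.1 i := by
    intro i hle
    rw [hW, path_before hΦ hε hd hda hd0 hle, path_before hΦ hε hZ hd hd0 le_rfl]
  have hga : ∀ i, a.1.1 ≤ d.1.1 →
      W.path M.Φ M.ε a.1.1 (Sum.inl (Sum.inl i)) = Z.path M.Φ M.ε a.1.1 i := by
    intro i hle
    rw [hW, path_before hΦ hε hd hda ha0 le_rfl, path_before hΦ hε hZ hd ha0 hle]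
  refine cleanB_of H ?_ ?_
  · intro y hy hyu e he hey hne' hle j hj hC
    obtain ⟨-, hjA, h1, h2, h3, h4⟩ := hC
    have h3' : bD W f j < bD W f y := by
      rcases h3 with h3 | h3 | h3
      · exact absurd h3.symm hj
      · exact absurd h3 (lt_irrefl _)
      · exact h3
    have hey' := H.symm_mem hey
    rcases huniq y hy ⟨e, hey⟩ with rfl | rfl
    · -- `y = D`, `e = A`
      have heA : e = A := (huniq e he (H.nonempty hey)).resolve_left hne'
      rw [heA] at hey hle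
      rw [hbD] at h3' h4 hle hyu
      rw [hbA] at hle
      obtain ⟨(i | i) | i, rfl⟩ := (mem_labs f).1 hjA
      · rw [hD, XD_apply, XD_apply, hgd i hle] at h4
        rw [hpd.resolve_right (not_not.2 hle)] at h4
        have h5 := hBd hey hle hyu i
        rw [dist_comm] at h5
        exact absurd h4 (not_le.2 h5)
      · exact hj rfl
      · rw [bD_apply, hWa] at h3'
        exact absurd h3' (not_lt.2 hle)
    · -- `y = A`, `e = D`
      have heD : e = D := (huniq e he (H.nonempty hey)).resolve_right hne'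
      rw [heD] at hey hle
      have hAD : A ∈ Sp D := H.symm_mem hey
      rw [hbA] at h3' h4 hle hyu
      rw [hbD] at hle
      obtain ⟨(i | i) | i, rfl⟩ := (mem_labs f).1 hjA
      · rw [hA, XD_apply, XD_apply, hga i hle] at h4
        rw [hpa] at h4
        have h5 := hBa hAD hle hyu i
        rw [dist_comm] at h5
        exact absurd h4 (not_le.2 h5)
      · rw [bD_apply, hWd] at h3'
        exact absurd h3' (not_lt.2 hle)
      · exact hj rfl
  · intro i hi hnei hiu hpos j hj hij hbb hS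
    have key : ∀ k : ι, f (Sum.inl (Sum.inl k)) = j → False := by
      rintro k rfl
      rw [bD_apply] at hbb
      have h3 : W.b (Sum.inl (Sum.inl k)) = Z.b k := rfl
      rw [h3] at hbb
      exact absurd (hbb ▸ hpos) (not_lt.2 (hb k))
    rcases huniq i hi hnei with rfl | rfl
    · obtain ⟨(k | k) | k, rfl⟩ := (mem_labs f).1 hj
      · exact absurd rfl (key k)
      · exact absurd rfl hij
      · have h1 : d.1.1 = a.1.1 := by
          rw [← hbD, ← hbA]
          exact hbb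
        rw [hbD] at hiu ⊢
        have h2 := (hne h1 hiu).resolve_left hS
        rw [hD, XD_apply, XD_apply, hpd.resolve_right (not_not.2 h1.le)]
        have h3 : (W.path M.Φ M.ε d.1.1 (Sum.inr k)).1 = a.1.2.1 := by
          rw [h1]
          exact hpa
        rw [h3]
        exact h2
    · obtain ⟨(k | k) | k, rfl⟩ := (mem_labs f).1 hj
      · exact absurd rfl (key k)
      · have h1 : a.1.1 = d.1.1 := by
          rw [← hbD, ← hbA]
          exact hbb
        rw [hbA, h1] at hiu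
        rw [hbA]
        have h2 := (hne h1.symm hiu).resolve_left fun h => hS (H.symm_mem h)
        rw [hA, XD_apply, XD_apply, hpa]
        have h3 : (W.path M.Φ M.ε a.1.1 (Sum.inl (Sum.inr k))).1 = d.1.2.1 := by
          rw [h1]
          exact hpd.resolve_right (not_not.2 h1.ge)
        rw [h3, dist_comm]
        exact h2
      · exact absurd rfl hij

end two

/-! ### `NoB` from the birth events -/

section cfg

variable {Φ : Space3 → ℝ} {ε : ℝ} {n : ℕ} {w : Config n} {l : ML}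

/-- helper473's event. -/
theorem noB_cfg (h : ¬ LN2.Birth Φ ε 1 w l.1.1 l.1.2.1) : NoB Φ ε (MW.cfg w) l := by
  intro i
  by_contra hcon
  refine h ⟨i, ?_⟩
  rw [one_mul]
  exact not_lt.1 hcon

/-- The event in terms of the flow (helper664's `Birth0`). -/
theorem noB_of_flow (hΦ : AdmissiblePotential Φ) (hε : 0 < ε) (hw : w ∈ PairExcluded ε n)
    (h0 : 0 ≤ l.1.1) (h : ¬ ∃ i, dist l.1.2.1 (flow Φ ε l.1.1 w i).1 ≤ ε) :
    NoB Φ ε (MW.cfg w) l := by
  intro i
  by_contra hcon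
  refine h ⟨i, ?_⟩
  rw [← Unw410.path_cfg hΦ hε hw h0, dist_comm]
  exact not_lt.1 hcon

end cfg

end Crest.Agent.R122.PW365

end
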