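import Crest.Agent.R122.LNS1_674
import Crest.Agent.R122.LNGraft_410
import Crest.Agent.R122.PWBirth_365
import Crest.Agent.R122.EFam_879
import Crest.Agent.R122.MWFam2_255
import Crest.Agent.R122.LNS2_674
import Crest.Agent.R122.LNReachGD_818
import Crest.Agent.R122.XShape_692

-- ▼ part R122/LNOneCls_515
section

/-!
# Row 122, LN1 (helper515): exits of ONE class as a family of helper674's frame

* `OneCls` : the lines `ls x` (labels `p x`) are exits of the class `S` of the structure.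
* `OneCls.exits0` : `Exits` over the base world `cfg w`.
* `OneCls.exits1` : `Exits` over the base world `(cfg w).ins (ls d)`, off the birth events (`NoB`).
-/

set_option autoImplicit false
set_option linter.unusedSectionVars false

open MeasureTheory Set Filter Topology
open scoped NNReal ENNReal
open Crest.AnalysisR.Kinetic
open Crest.Agent.R122.Loc45 Crest.Agent.R122.Ins45 Crest.Agent.R122.EDefs602
open Crest.Agent.R122.VL581 Crest.Agent.R122.VL581.VSys
open Crest.Agent.R122.LN304 Crest.Agent.R122.LNg410 Crest.Agent.R122.LNEv968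
open Crest.Agent.R122.PWGlue491 Crest.Agent.R122.PWInst442 Crest.Agent.R122.LNPart424
open Crest.Agent.R122.MWFam255 Crest.Agent.R122.LNEv818 Crest.Agent.R122.LNS674
open Crest.Agent.R122.LNGraft410 Crest.Agent.R122.PathFlow968 Crest.Agent.R122.Tree674
open scoped Classical

noncomputable section

namespace Crest.Agent.R122.LNCls515

variable {σ μ : Type} [Fintype σ] [Fintype μ] {n : ℕ}
variable {Φ : Space3 → ℝ} {T te ε c : ℝ} {b : σ → ℝ} {V : σ → PhasePoint} {w : Config n}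
  {cl : Fin n ⊕ σ → Finset (Fin n ⊕ σ)} {R : ℝ → Fin n ⊕ σ → Fin n ⊕ σ → Prop}
  {S : Finset (Fin n ⊕ σ)} {bE : Fin n ⊕ σ → ℝ} {ls : μ → ML} {p : μ → σ}

/-- The lines `ls x` are exits (labels `p x`) of the class `S` of the structure. -/
structure OneCls (Φ : Space3 → ℝ) (T ε c : ℝ) (b : σ → ℝ) (V : σ → PhasePoint) (w : Config n)
    (cl : Fin n ⊕ σ → Finset (Fin n ⊕ σ)) (R : ℝ → Fin n ⊕ σ → Fin n ⊕ σ → Prop)
    (S : Finset (Fin n ⊕ σ)) (bE : Fin n ⊕ σ → ℝ) (ls : μ → ML) (p : μ → σ) : Prop where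
  one : One Φ T ε c b V w cl R
  cls : Cls (gsys Φ T ε n b) (Sum.elim w V) S bE
  cl_eq : ∀ x, cl (Sum.inr (p x)) = S
  mem : ∀ x, Sum.inr (p x) ∈ S
  inj : Function.Injective p
  birth : ∀ x, (ls x).1.1 = bE (Sum.inr (p x))
  st : ∀ x, (ls x).1.1 ≤ T →
    (gsys Φ T ε n b).st S (ls x).1.1 (Sum.elim w V) (Sum.inr (p x)) = (ls x).1.2
  old : ∀ j ∈ S, ∀ k ∈ S, j ≠ k → ∀ r, R r j k → r ≤ bE j ∧ r ≤ bE k

theorem onLine_back_self (l : ML) : onLine (back l.1) l.1.1 = l.1.2 := by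
  unfold onLine back
  refine Prod.ext ?_ rfl
  simp

namespace OneCls

variable (h : OneCls Φ T ε c b V w cl R S bE ls p)
include h

theorem lab (x : μ) : Lab (gsys Φ T ε n b) (Sum.elim w V) cl (Sum.inr (p x)) (ls x).1.1
    (back (ls x).1) := by
  refine Or.inr ⟨⟨?_, ?_, ?_, ?_⟩, ?_⟩
  · rw [h.cl_eq]
    exact h.mem x
  · rw [h.birth]
    exact h.cls.bb_le _ (h.mem x)
  · intro hT
    rw [h.cl_eq, onLine_back_self]
    exact (h.st x hT).symm
  · rw [h.cl_eq, h.birth]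
    exact h.cls.exit _ (h.mem x)
  · intro hT
    rw [h.birth] at hT ⊢
    rw [h.cl_eq]
    exact h.cls.last _ (h.mem x) hT

theorem old_of {x y : μ} (hxy : x ≠ y) {r : ℝ} (hr : R r (Sum.inr (p x)) (Sum.inr (p y))) :
    Sum.inr (p y) ∈ cl (Sum.inr (p x)) ∧ r ≤ (ls x).1.1 ∧ r ≤ (ls y).1.1 := by
  have h1 := h.old _ (h.mem x) _ (h.mem y) (fun h' => hxy (h.inj (Sum.inr_injective h'))) r hr
  rw [h.cl_eq, h.birth, h.birth]
  exact ⟨h.mem y, h1⟩

/-- Sub-families. -/
theorem comp {ν : Type} [Fintype ν] (g : ν ↪ μ) :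
    OneCls Φ T ε c b V w cl R S bE (fun x => ls (g x)) (fun x => p (g x)) where
  one := h.one
  cls := h.cls
  cl_eq x := h.cl_eq _
  mem x := h.mem _
  inj x y hxy := g.injective (h.inj hxy)
  birth x := h.birth _
  st x := h.st _
  old := h.old

variable (hΦ : AdmissiblePotential Φ) (hε : 0 < ε)
  (hOk : MW.OkFam Φ ε (MW.cfg w) ls)
include hΦ hε hOk

/-- **The family over the gas.** -/
theorem exits0 : Exits Φ T te ε b V w cl R (MW.cfg w) (gasE n σ) ls p where
  inj := h.inj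
  out _ _ h' := by cases h'
  mark _ _ := le_rfl
  memC x := by
    rw [h.cl_eq]
    exact h.mem x
  memB i hi := absurd hi (inl_not_mem_pS i)
  ok0 := hOk.base hΦ hε
  ok1 x := hOk.line hΦ hε x
  gd0 := h.one.base.gd0 hΦ hε (hOk.base hΦ hε)
  gd1 x := h.one.base.gd1 hΦ hε (h.lab x) (hOk.line hΦ hε x)
  cb0 := PW365.cleanB_gas (M := gsys Φ T ε n b) (h.one.base.gd0 hΦ hε (hOk.base hΦ hε))
    (fun i => h.one.base.gas_cl i) te
  cb1 x := PW365.cleanB_ins (M := gsys Φ T ε n b)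
    (h.one.base.gd1 hΦ hε (h.lab x) (hOk.line hΦ hε x)) (fun i => h.one.base.gas_cl i)
    (fun _ => le_rfl) te
  old x y hxy r hr := ⟨(h.old_of hxy hr).1, (h.old_of hxy hr).2.1⟩
  oldB i _ _ _ hi := by cases hi
  oldX _ i _ hi := by cases hi

/-- **The family over the gas and one of its lines.** -/
theorem exits1 (d : μ) (hBd : (ls d).1.1 ≤ te → PW365.NoB Φ ε (MW.cfg w) (ls d))
    (hBa : ∀ x, x ≠ d → (ls x).1.1 ≤ (ls d).1.1 → (ls x).1.1 ≤ te →
      PW365.NoB Φ ε (MW.cfg w) (ls x)) :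
    Exits Φ T te ε b V w cl R ((MW.cfg w).ins (ls d)) (lab1 n (p d))
      (fun x : {x : μ // x ≠ d} => ls x.1) (fun x : {x : μ // x ≠ d} => p x.1) := by
  have hda : ∀ x : {x : μ // x ≠ d}, p d ≠ p x.1 := fun x h' => x.2 (h.inj h').symm
  have hok2 : ∀ x : {x : μ // x ≠ d}, (((MW.cfg w).ins (ls d)).ins (ls x.1)).Ok Φ ε := fun x =>
    ok_lines_add hΦ hε hOk ⟨fun _ : Unit => d, fun _ _ _ => rfl⟩
      ⟨fun _ : Unit => x.1, fun _ _ _ => rfl⟩ fun _ _ => x.2.symm
  have hgd1 := h.one.base.gd1 hΦ hε (h.lab d) (hOk.line hΦ hε d)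
  have hgd2 : ∀ x : {x : μ // x ≠ d}, _ := fun x =>
    h.one.base.gd2 hΦ hε (hda x) (h.lab d) (h.lab x.1) (hok2 x)
  refine ⟨?_, fun x i => lab1_ne (hda x) i, ?_, ?_, ?_, hOk.line hΦ hε d, hok2, hgd1, hgd2, ?_,
    ?_, ?_, ?_, ?_⟩
  · exact fun x y hxy => Subtype.ext (h.inj hxy)
  · rintro (i | i) hi
    · exact le_rfl
    · exact absurd (inr_mem_pS (p d)) hi
  · intro x
    rw [h.cl_eq]
    exact h.mem x.1
  · rintro (i | i) hi
    · exact absurd hi (inl_not_mem_pS i)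
    · have h1 : lab1 n (p d) (Sum.inr i) = Sum.inr (p d) := rfl
      rw [h1, h.cl_eq]
      exact h.mem d
  · exact PW365.cleanB_ins (M := gsys Φ T ε n b) hgd1 (fun i => h.one.base.gas_cl i)
      (fun _ => le_rfl) te
  · intro x
    refine PW365.cleanB_ins2 (M := gsys Φ T ε n b) (hgd2 x) hΦ hε (hOk.base hΦ hε)
      (hOk.line hΦ hε d) (hok2 x) (fun i => h.one.base.gas_cl i) (fun _ => le_rfl)
      (fun _ _ h2 => hBd h2) (fun _ h1 h2 => hBa x.1 x.2 h1 h2) fun _ _ => Or.inl ?_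
    change Sum.inr (p x.1) ∈ cl (Sum.inr (p d))
    rw [h.cl_eq]
    exact h.mem x.1
  · intro x y hxy r hr
    have h1 := h.old_of (fun h' => hxy (Subtype.ext h')) hr
    exact ⟨h1.1, h1.2.1⟩
  · rintro (i | i) (j | j) x y hi hj hij r hr
    · cases hi
    · cases hi
    · cases hj
    · exact absurd rfl hij
  · rintro x (i | i) y hi r hr
    · cases hi
    · have h2 : y = p d := (Sum.inr_injective hi).symm
      subst h2
      exact h.old_of x.2 hr

end OneCls

end Crest.Agent.R122.LNCls515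

end
end

-- ▼ part R122/LNSra_515
section

/-!
# Row 122, LN1 (helper515): (RA) for the exits of one structure

* `Exits.gd2`, `Exits.cb2` : helper818's data of the two glued worlds.
* `Exits.reachAll_or_run` : **(RA)** for one exit.
* `One.ra` : the same from helper692's events `BadGas`, `BadHitGas`.
-/

set_option autoImplicit false
set_option linter.unusedSectionVars false

open MeasureTheory Set Filter Topology
open scoped NNReal ENNReal
open Crest.AnalysisR.Kinetic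
open Crest.Agent.R122.Loc45 Crest.Agent.R122.Ins45 Crest.Agent.R122.EDefs602
open Crest.Agent.R122.VL581 Crest.Agent.R122.VL581.VSys Crest.Agent.R122.VLInst442
open Crest.Agent.R122.LN304 Crest.Agent.R122.LNg410 Crest.Agent.R122.LNEv968
open Crest.Agent.R122.PWGlue491 Crest.Agent.R122.PWInst442 Crest.Agent.R122.LNPart424
open Crest.Agent.R122.MWFam255 Crest.Agent.R122.LNEv818 Crest.Agent.R122.LinkD331
open Crest.Agent.R122.LNS674
open scoped Classical

noncomputable section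

namespace Crest.Agent.R122.LNCls515

variable {σ : Type} [Fintype σ] {n : ℕ} {ι μ : Type} [Fintype ι] {Φ : Space3 → ℝ}
  {T te ε c ℓ ς : ℝ} {b : σ → ℝ} {V : σ → PhasePoint} {w : Config n}
  {cl : Fin n ⊕ σ → Finset (Fin n ⊕ σ)} {R : ℝ → Fin n ⊕ σ → Fin n ⊕ σ → Prop} {W : MW ι}
  {f : ι ↪ Fin n ⊕ σ} {ls : μ → ML} {p : μ → σ} {K N m : ℕ}

/-- The data of the glued worlds of `W` and of `W` with an exit. -/
theorem gd2_of_exits (E : Exits Φ T te ε b V w cl R W f ls p) (x : μ) :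
    GD2 (gsys Φ T ε n b) (Sum.elim w V) cl W (ls x) f (Sum.inr (p x)) (E.out x) :=
  ⟨E.gd0, E.gd1 x, E.ok0, E.ok1 x⟩


/-- **(RA)** for an exit: a run starts in a part of the structure, or everything which is
influenced up to the touch time is reached. -/
theorem reachAll_or_run (h : One Φ T ε c b V w cl R) (E : Exits Φ T te ε b V w cl R W f ls p)
    (hT0 : 0 ≤ T) (hte : te ≤ T)
    (hX : Ctx (gsys Φ T ε n b) c ℓ ς (Sum.elim w V) (LS n σ) N) (x : μ)
    (hH : ∀ β, ¬ BadHit (gsys Φ T ε n b) c (Sum.elim w V) (E.X x β) (E.C x β) (LS n σ) N)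
    (hgf : ∀ i : Fin n, ∃ k, f k = Sum.inl i) (m : ℕ)
    (hN : Fintype.card σ + 2 * K * (m + 2) ≤ N) :
    RunD (gsys Φ T ε n b) (Sum.elim w V) (pS n σ) (Sum.inr (p x)) K m w ∨
      ReachAll (Reach (gsys Φ T ε n b) c (Sum.elim w V) (LS n σ) (pS n σ) (Sum.inr (p x)) N)
        Φ ε K te W f (ls x) (Sum.inr (p x)) := by
  have hcard : (uni (LS n σ)).card = Fintype.card σ := by
    rw [uni_LS, Finset.card_map, Finset.card_univ]
  have hTW := E.twoW h hT0 hX x hH
  have hgu : ∀ j : Fin n ⊕ σ, j ∉ uni (LS n σ) → ∃ i : Fin n, Sum.inl i = j := by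
    intro j hj
    rcases j with j | j
    · exact ⟨j, rfl⟩
    · rw [uni_LS] at hj
      exact absurd (inr_mem_pS j) hj
  have hBW := E.bindW (K := K) h hX.hΦ hX.hε hte x
  have hGW := (gd2_of_exits E x).gasW (Λ := LS n σ) (c := c) hX.hΦ hX.hε h.parts h.sub_uni
    (fun j hj => by
      obtain ⟨i, rfl⟩ := hgu j hj
      exact hgf i)
  have hE1 : E.X x = Xb (gsys Φ T ε n b) (Sum.elim w V) cl W (ls x) f (Sum.inr (p x)) (E.out x) := by
    funext β
    cases β <;> rfl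
  have hE2 : E.C x = Cb (gsys Φ T ε n b) (Sum.elim w V) cl W (ls x) f (Sum.inr (p x)) (E.out x) := by
    funext β
    cases β <;> rfl
  rw [← hE2] at hGW
  refine (LNEv818.reachAll_or_run hBW hTW hGW (w := w) (g := gasE n σ) (fun i => rfl)
    (fun i => rfl) (fun i h' => by cases h') (fun j hj => ?_) m (by rw [hcard]; exact hN)).imp
    id ?_
  · obtain ⟨i, rfl⟩ := hgu j hj
    exact ⟨i, rfl⟩
  · intro hR u hu hθ y hy hb
    have h1 := hR u hu hθ y hy hb
    have mono : ∀ {i : Fin n ⊕ σ} {v : ℝ} {q : Space3},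
        Reach (gsys Φ T ε n b) c (Sum.elim w V) (LS n σ) (pS n σ) (Sum.inr (p x))
          ((uni (LS n σ)).card + 2 * K * (m + 2)) i v q →
        Reach (gsys Φ T ε n b) c (Sum.elim w V) (LS n σ) (pS n σ) (Sum.inr (p x)) N i v q := by
      rintro i v q ⟨Y, hY, hi, h⟩
      exact ⟨Y, hY.mono (by rw [hcard]; exact hN), hi, h⟩
    exact ⟨mono h1.1, fun k hk => mono (h1.2 k hk)⟩

end Crest.Agent.R122.LNCls515

end
end

-- ▼ part R122/LNSrun_515

/-!
# Row 122, LN1 (helper515): runs and (RA) for one structure, from helper692's alternatives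

* `runS_of_runD` : `RunD` (helper818) of a one-part structure gives `RunS` (helper424).
* `badHit_mono` : monotonicity of `BadHit` in the size.
* `reachAll_of_salt` : off `SAlt` (helper692) everything which is influenced by an exit is reached.
-/

set_option autoImplicit false
set_option linter.unusedSectionVars false

open MeasureTheory Set Filter Topology
open scoped NNReal ENNReal
open Crest.AnalysisR.Kinetic
open Crest.Agent.R122.Loc45 Crest.Agent.R122.Ins45 Crest.Agent.R122.EDefs602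
open Crest.Agent.R122.VL581 Crest.Agent.R122.VL581.VSys Crest.Agent.R122.VLInst442
open Crest.Agent.R122.LN304 Crest.Agent.R122.LNg410 Crest.Agent.R122.LNEv968
open Crest.Agent.R122.PWGlue491 Crest.Agent.R122.PWInst442 Crest.Agent.R122.LNPart424
open Crest.Agent.R122.MWFam255 Crest.Agent.R122.LNEv818 Crest.Agent.R122.LinkD331
open Crest.Agent.R122.LNS674
open scoped Classical

noncomputable section

namespace Crest.Agent.R122.LNCls515

section hit

variable {J κ : Type} [Fintype J] {M : VSys J κ} {c : ℝ} {Z : J → PhasePoint}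
  {X : ℝ → J → PhasePoint} {C : ℝ → J → J → Prop} {Λ : Finset (Finset J)} {N N' : ℕ}

theorem badHit_mono (h : BadHit M c Z X C Λ N) (hN : N ≤ N') : BadHit M c Z X C Λ N' := by
  obtain ⟨G, A, j, k, v, h1, h2, h3, h4, h5, h6, h7, h8, h9⟩ := h
  exact ⟨G, A, j, k, v, h1, h2, h3.trans hN, h4, h5, h6, h7, h8.trans hN, h9⟩

end hit

variable {σ : Type} [Fintype σ] {n : ℕ} {ι μ : Type} [Fintype ι] {Φ : Space3 → ℝ}
  {T te ε c ℓ ς : ℝ} {b : σ → ℝ} {V : σ → PhasePoint} {w : Config n}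
  {cl : Fin n ⊕ σ → Finset (Fin n ⊕ σ)} {R : ℝ → Fin n ⊕ σ → Fin n ⊕ σ → Prop} {W : MW ι}
  {f : ι ↪ Fin n ⊕ σ} {ls : μ → ML} {p : μ → σ} {K N m : ℕ}

/-- Sub-structures are admissible. -/
theorem ok_sub (h : One Φ T ε c b V w cl R)
    (hX : Ctx (gsys Φ T ε n b) c ℓ ς (Sum.elim w V) (LS n σ) N) (hN : Fintype.card σ ≤ N)
    {D : Finset (Fin n ⊕ σ)} (hD : D ⊆ pS n σ) : (gsys Φ T ε n b).ok D T (Sum.elim w V) := by
  refine (hX.nb _ h.conn ⟨_, mem_LS.2 rfl, subset_rfl⟩ ?_).1 D hD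
  refine (Finset.card_le_card (t := pS n σ) fun j hj => ?_).trans ?_
  · rcases (@Finset.mem_union _ (fun a b => Classical.propDecidable _) _ _ _).1 hj with h1 | h1
    · exact h1
    · rwa [uni_LS] at h1
  · rw [Finset.card_map, Finset.card_univ]
    exact hN

/-- A run which starts in a part of the structure. -/
theorem runS_of_runD (h : One Φ T ε c b V w cl R)
    (hX : Ctx (gsys Φ T ε n b) c ℓ ς (Sum.elim w V) (LS n σ) N) (hN : Fintype.card σ ≤ N) {x : σ}
    (hR : RunD (gsys Φ T ε n b) (Sum.elim w V) (pS n σ) (Sum.inr x) K m w) :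
    Gate424.RunS Φ ε T K m b V w := by
  obtain ⟨D, hD, ha, hR⟩ := hR
  set D' : Finset σ := Finset.univ.filter fun y => (Sum.inr y : Fin n ⊕ σ) ∈ D with hD'
  have hx : x ∈ D' := Finset.mem_filter.2 ⟨Finset.mem_univ _, ha⟩
  refine ⟨D', ⟨x, hx⟩, hR D' (Gate424.sMW b V D')
    ⟨fun y => Sum.inr y.1, fun y y' hy => Subtype.ext (Sum.inr_injective hy)⟩ ⟨x, hx⟩ ?_ rfl⟩
  refine ⟨fun y => rfl, fun y => rfl, (fun y h' => by cases h'), fun j => ⟨fun hj => ?_, ?_⟩,
    ok_sub h hX hN hD⟩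
  · obtain ⟨y, rfl⟩ := mem_pS.1 (hD hj)
    exact ⟨⟨y, Finset.mem_filter.2 ⟨Finset.mem_univ _, hj⟩⟩, rfl⟩
  · rintro ⟨y, rfl⟩
    exact (Finset.mem_filter.1 y.2).2

/-- **(RA) off helper692's alternatives** of the structure. -/
theorem reachAll_of_salt (h : One Φ T ε c b V w cl R) (E : Exits Φ T te ε b V w cl R W f ls p)
    (hΦ : AdmissiblePotential Φ) (hε : 0 < ε) (hT0 : 0 ≤ T) (hte : te ≤ T) (hc : 1 ≤ c)
    {T₁ ρ : ℝ} (hρ : 2 * (ρ * ε) ≤ ς) (hT₁ : T < T₁) {A₀ : Finset σ} (hA : A₀.Nonempty)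
    {N' : ℕ} (hNN : N ≤ N')
    (hS : ¬ X692.SAlt Φ T T₁ T c ρ ς ε K m N' A₀ b V w)
    (hgf : ∀ i : Fin n, ∃ k, f k = Sum.inl i)
    (hN : Fintype.card σ + 2 * K * (m + 2) ≤ N) (x : μ) :
    ReachAll (Reach (gsys Φ T ε n b) c (Sum.elim w V) (LS n σ) (pS n σ) (Sum.inr (p x)) N)
      Φ ε K te W f (ls x) (Sum.inr (p x)) := by
  unfold X692.SAlt at hS
  push Not at hS
  obtain ⟨hS1, hS2, hS3⟩ := hS
  have hX : Ctx (gsys Φ T ε n b) c (ρ * ε) ς (Sum.elim w V) (LS n σ) N :=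
    (h.ctx hΦ hε hc hρ le_rfl hA hS2).mono hNN
  refine (reachAll_or_run h E hT0 hte hX x (fun β => ?_) hgf m hN).resolve_left fun hR =>
    hS1 (runS_of_runD h hX (by omega) hR)
  intro hbh
  cases β
  · exact (h.wd hΦ hε hT0 hc hρ le_rfl le_rfl hT₁ hA hS3 E.gd0).bh (badHit_mono hbh hNN)
  · exact (h.wd hΦ hε hT0 hc hρ le_rfl le_rfl hT₁ hA hS3 (E.gd1 x)).bh (badHit_mono hbh hNN)

end Crest.Agent.R122.LNCls515

end
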