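import Crest.Agent.R122.LinkM3_547
import Crest.Agent.R122.EBasic_602

-- ▼ part R122/LinkM4_547
section

/-!
# Row 122, H11 (LINK mass), part 4 (helper547): counting the grid runs
-/

set_option autoImplicit false
set_option maxHeartbeats 400000

open MeasureTheory Set
open Crest.AnalysisR.Kinetic
open Crest.Agent.R122.Flow671 Crest.Agent.R122.Loc45 Crest.Agent.R122.Causal291
open Crest.Agent.R122.Vol365 Crest.Agent.R122.GC311 Crest.Agent.R122.EDefs602
open Crest.Agent.R122.Ins45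
open scoped ENNReal Classical Nat

noncomputable section

namespace Crest.Agent.R122.LinkM547

variable {Φ : Space3 → ℝ} {ε : ℝ}

instance : Fintype Kind := ⟨{.stay, .switch, .ghost}, fun x => by cases x <;> simp⟩

/-- steps with clusters of size in `[1, K]` -/
abbrev StepK (K : ℕ) := Kind × (Σ k : Fin K, Fin (k.1 + 1))

/-- the underlying step -/
def toStep {K : ℕ} (s : StepK K) : Step := ⟨s.1, s.2.1.1 + 1, s.2.2⟩

theorem exists_toStep {K : ℕ} (s : Step) (h1 : 1 ≤ s.k) (h2 : s.k ≤ K) :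
    ∃ s' : StepK K, toStep s' = s := by
  obtain ⟨kd, k, e⟩ := s
  obtain ⟨m, rfl⟩ := Nat.exists_eq_add_of_le' h1
  exact ⟨(kd, ⟨⟨m, by simpa using h2⟩, e⟩), rfl⟩

/-- grid runs -/
def gl {K L m : ℕ} (δ : ℝ) (σ : Sym (Fin m) L) (st : List.Vector (StepK K) L) : List (Step × ℝ) :=
  List.zipWith (fun s a => (toStep s, δ * ((a.1 : ℕ) : ℝ))) st.1 (σ.1.sort (· ≤ ·))

theorem length_gl {K L m : ℕ} (δ : ℝ) (σ : Sym (Fin m) L) (st : List.Vector (StepK K) L) :
    (gl δ σ st).length = L := by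
  unfold gl
  rw [List.length_zipWith, Multiset.length_sort, st.2, σ.2, min_self]

theorem mem_gl {K L m : ℕ} {δ : ℝ} {σ : Sym (Fin m) L} {st : List.Vector (StepK K) L}
    {p : Step × ℝ} (h : p ∈ gl δ σ st) :
    1 ≤ p.1.k ∧ p.1.k ≤ K ∧ ∃ a : Fin m, p.2 = δ * ((a.1 : ℕ) : ℝ) := by
  unfold gl at h
  rw [List.mem_iff_getElem] at h
  obtain ⟨i, hi, rfl⟩ := h
  rw [List.getElem_zipWith]
  refine ⟨?_, ?_, _, rfl⟩
  · simp [toStep]
  · simp only [toStep]
    have := (st.1[i]'(by
      have := hi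
      rw [List.length_zipWith] at this
      exact lt_of_lt_of_le this (min_le_left _ _))).2.1.2
    omega

theorem exists_gl {K L : ℕ} {T δ : ℝ} (hδ : 0 < δ) (l : List (Step × ℝ)) (hl : l.length = L)
    (hk : ∀ p ∈ l, 1 ≤ p.1.k ∧ p.1.k ≤ K) (ht : ∀ p ∈ l, p.2 ∈ Icc (0 : ℝ) T)
    (hs : l.Pairwise (fun p p' => p.2 ≤ p'.2)) :
    ∃ (σ : Sym (Fin (⌊T / δ⌋₊ + 1)) L) (st : List.Vector (StepK K) L),
      gl δ σ st = l.map (rd δ) := by
  set m : ℕ := ⌊T / δ⌋₊ + 1 with hm
  set g : Step × ℝ → Fin m := fun p => ⟨min ⌊p.2 / δ⌋₊ ⌊T / δ⌋₊, by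
    have : min ⌊p.2 / δ⌋₊ ⌊T / δ⌋₊ ≤ ⌊T / δ⌋₊ := min_le_right _ _
    omega⟩ with hg
  have hsg : (l.map g).Pairwise (· ≤ ·) := by
    rw [List.pairwise_map]
    refine hs.imp fun {p p'} h => ?_
    rw [hg]
    simp only [Fin.mk_le_mk]
    refine min_le_min_right _ (Nat.floor_le_floor ?_)
    gcongr
  have hgv : ∀ p ∈ l, (((g p).1 : ℕ) : ℝ) = (⌊p.2 / δ⌋₊ : ℝ) := by
    intro p hp
    rw [hg]
    simp only
    rw [min_eq_left]
    refine Nat.floor_le_floor ?_
    have := (ht p hp).2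
    gcongr
  have hst : ∀ l' : List (Step × ℝ), (∀ p ∈ l', 1 ≤ p.1.k ∧ p.1.k ≤ K) →
      (∀ p ∈ l', (((g p).1 : ℕ) : ℝ) = (⌊p.2 / δ⌋₊ : ℝ)) →
      ∃ ls : List (StepK K), ls.length = l'.length ∧
        List.zipWith (fun s (a : Fin m) => (toStep s, δ * ((a.1 : ℕ) : ℝ))) ls (l'.map g) =
          l'.map (rd δ) := by
    intro l'
    induction l' with
    | nil => intro _ _; exact ⟨[], rfl, rfl⟩
    | cons p l' ih =>
      intro h1 h2
      obtain ⟨ls, e1, e2⟩ := ih (fun q hq => h1 q (List.mem_cons_of_mem _ hq))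
        (fun q hq => h2 q (List.mem_cons_of_mem _ hq))
      obtain ⟨s', hs'⟩ := exists_toStep p.1 (h1 p (List.mem_cons_self ..)).1
        (h1 p (List.mem_cons_self ..)).2
      refine ⟨s' :: ls, by simp [e1], ?_⟩
      rw [List.map_cons, List.map_cons, List.zipWith_cons_cons, e2, hs',
        h2 p (List.mem_cons_self ..)]
      rfl
  obtain ⟨ls, e1, e2⟩ := hst l hk hgv
  refine ⟨⟨(l.map g : Multiset (Fin m)), by simp [hl]⟩, ⟨ls, by rw [e1, hl]⟩, ?_⟩
  unfold gl
  simp only
  rw [Multiset.coe_sort, List.mergeSort_eq_self _ hsg]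
  exact e2

theorem activity_tot {C : ℝ≥0∞} (hε : 0 < ε) :
    ∀ l : List (Step × ℝ), (∀ p ∈ l, 1 ≤ p.1.k) →
      activity ε ^ (tot l) * (l.map fun p => C * ENNReal.ofReal ε ^ (2 * (p.1.k - 1)) *
        ENNReal.ofReal (3 * ε) ^ 3).prod = (27 * C * ENNReal.ofReal ε) ^ l.length := by
  have ha : activity ε * ENNReal.ofReal (3 * ε) ^ 3 = 27 * ENNReal.ofReal ε := by
    unfold activity
    rw [← ENNReal.ofReal_pow (by positivity), ← ENNReal.ofReal_mul (by positivity)]
    have : (ε ^ 2)⁻¹ * (3 * ε) ^ 3 = 27 * ε := by field_simp; ring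
    rw [this, ENNReal.ofReal_mul (by norm_num)]
    congr 1
    exact ENNReal.ofReal_ofNat 27
  intro l
  induction l with
  | nil => intro _; simp [tot]
  | cons p l ih =>
    intro h
    have h1 := ih fun q hq => h q (List.mem_cons_of_mem _ hq)
    have h2 := activity_pow_mul hε (h p (List.mem_cons_self ..))
    rw [List.map_cons, List.prod_cons, List.length_cons, pow_succ (27 * C * ENNReal.ofReal ε), ← h1]
    change activity ε ^ (p.1.k + tot l) * _ = _
    rw [pow_add]
    calc activity ε ^ p.1.k * activity ε ^ tot l *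
          (C * ENNReal.ofReal ε ^ (2 * (p.1.k - 1)) * ENNReal.ofReal (3 * ε) ^ 3 *
            (l.map fun p => C * ENNReal.ofReal ε ^ (2 * (p.1.k - 1)) *
              ENNReal.ofReal (3 * ε) ^ 3).prod)
        = (activity ε ^ p.1.k * ENNReal.ofReal ε ^ (2 * (p.1.k - 1))) * C *
          ENNReal.ofReal (3 * ε) ^ 3 * (activity ε ^ tot l *
            (l.map fun p => C * ENNReal.ofReal ε ^ (2 * (p.1.k - 1)) *
              ENNReal.ofReal (3 * ε) ^ 3).prod) := by ring
      _ = (activity ε * ENNReal.ofReal (3 * ε) ^ 3) * C * (activity ε ^ tot l *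
            (l.map fun p => C * ENNReal.ofReal ε ^ (2 * (p.1.k - 1)) *
              ENNReal.ofReal (3 * ε) ^ 3).prod) := by rw [h2]; ring
      _ = _ := by rw [ha]; ring

/-- velocity scale at the energy level `N` -/
def MN (B cG : ℝ) (L K N : ℕ) : ℝ := max 1 (Real.sqrt (2 * ((N : ℝ) + B * (cG + L * K))))

theorem one_le_MN (B cG : ℝ) (L K N : ℕ) : 1 ≤ MN B cG L K N := le_max_left _ _

/-- number of grid points -/
def mN (T ε B cG : ℝ) (L K N : ℕ) : ℕ := ⌊T / (ε / MN B cG L K N)⌋₊ + 1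

/-- indicator of a grid run at the energy level `N` -/
def GI (Φ : Space3 → ℝ) (ε T : ℝ) (G : Type) [Fintype G] (Z : MW G) (q : G) (N : ℕ)
    (l : List (Step × ℝ)) (V : Config (tot l)) : ℝ≥0∞ :=
  if Ch Φ ε T (3 * ε) l G Z q V ∧ (N : ℝ) - 1 ≤ kin Z.z + kin V then 1 else 0

theorem measurable_GI (hΦ : AdmissiblePotential Φ) (hε : 0 < ε) (T : ℝ) (G : Type) [Fintype G]
    (Z : MW G) (q : G) (N : ℕ) (l : List (Step × ℝ)) : Measurable (GI Φ ε T G Z q N l) := by
  unfold GI
  refine Measurable.ite ((measurableSet_ch_right hΦ hε T (3 * ε) l G Z q).inter ?_)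
    measurable_const measurable_const
  exact measurableSet_le measurable_const (measurable_const.add measurable_kin)




end Crest.Agent.R122.LinkM547

end
end

-- ▼ part R122/LinkM5_547
section

/-!
# Row 122, H11 (LINK mass), part 5 (helper547): tail of the runs

`run_tail`: the gas-level probability of a run of length `L` from a group `Z` is at most
`η L * exp (2 β kin Z)` for `ε < ε₀(L)`, with `η L → 0`.
-/

set_option autoImplicit false
set_option maxHeartbeats 400000

open MeasureTheory Set Filter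
open Crest.AnalysisR.Kinetic
open Crest.Agent.R122.Flow671 Crest.Agent.R122.Loc45 Crest.Agent.R122.Causal291
open Crest.Agent.R122.Vol365 Crest.Agent.R122.GC311 Crest.Agent.R122.EDefs602
open Crest.Agent.R122.Ins45
open scoped ENNReal Classical Nat Topology

noncomputable section

namespace Crest.Agent.R122.LinkM547

variable {Φ : Space3 → ℝ} {ε : ℝ}

theorem sqrt_pow' {x : ℝ} (hx : 0 ≤ x) (n : ℕ) : Real.sqrt (x ^ n) = Real.sqrt x ^ n := by
  rw [Real.sqrt_eq_iff_mul_self_eq (pow_nonneg hx n) (pow_nonneg (Real.sqrt_nonneg x) n),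
    ← mul_pow, Real.mul_self_sqrt hx]

theorem MN_pow_le {β B cG : ℝ} (hβ : 0 < β) (hB : 0 ≤ B) (K0 K L N : ℕ)
    (hG : cG ≤ K0) :
    MN B cG L K N ^ L ≤ Real.sqrt ((2 + 2 * B * (K0 + K)) / (2 * β)) ^ L * Real.sqrt (L ! : ℝ) *
      Real.exp (β * (N + L + 1)) := by
  set D : ℝ := 2 + 2 * B * (K0 + K) with hD
  have hD0 : 0 < D := by positivity
  have hx : (0 : ℝ) ≤ (N : ℝ) + L + 1 := by positivity
  have h1 : MN B cG L K N ≤ Real.sqrt (D * (N + L + 1)) := by
    unfold MN
    refine max_le ?_ (Real.sqrt_le_sqrt ?_)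
    · rw [Real.one_le_sqrt]
      have : (1 : ℝ) ≤ (N : ℝ) + L + 1 := by
        have : (0 : ℝ) ≤ (N : ℝ) + L := by positivity
        linarith
      have hD2 : (2 : ℝ) ≤ D := by
        have : (0 : ℝ) ≤ 2 * B * (K0 + K) := by positivity
        linarith
      nlinarith
    · have e1 : B * cG ≤ B * K0 := mul_le_mul_of_nonneg_left hG hB
      have e2 : (0 : ℝ) ≤ B * K0 * (N + L) := by positivity
      have e3 : (0 : ℝ) ≤ B * K * (N + 1) := by positivity
      have e4 : (0 : ℝ) ≤ (L : ℝ) + 1 := by positivity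
      rw [hD]
      nlinarith
  have h2 : (D * (N + L + 1)) ^ L ≤ (D / (2 * β)) ^ L * ((L ! : ℝ) * Real.exp (2 * β * (N + L + 1))) := by
    have e1 : (2 * β * ((N : ℝ) + L + 1)) ^ L / (L ! : ℝ) ≤ Real.exp (2 * β * (N + L + 1)) :=
      Real.pow_div_factorial_le_exp _ (by positivity) L
    have e2 : (0 : ℝ) < (L ! : ℝ) := by exact_mod_cast Nat.factorial_pos L
    rw [div_le_iff₀ e2] at e1
    have e3 : D * ((N : ℝ) + L + 1) = D / (2 * β) * (2 * β * (N + L + 1)) := by field_simp
    rw [e3, mul_pow]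
    refine mul_le_mul_of_nonneg_left ?_ (by positivity)
    linarith
  calc MN B cG L K N ^ L ≤ Real.sqrt (D * (N + L + 1)) ^ L := by
        refine pow_le_pow_left₀ ?_ h1 L
        exact (zero_le_one.trans (one_le_MN _ _ _ _ _))
    _ = Real.sqrt ((D * (N + L + 1)) ^ L) := (sqrt_pow' (by positivity) L).symm
    _ ≤ Real.sqrt ((D / (2 * β)) ^ L * ((L ! : ℝ) * Real.exp (2 * β * (N + L + 1)))) :=
        Real.sqrt_le_sqrt h2
    _ = _ := by
        rw [Real.sqrt_mul (by positivity), Real.sqrt_mul (by positivity),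
          sqrt_pow' (by positivity), ← Real.exp_half]
        have : 2 * β * ((N : ℝ) + L + 1) / 2 = β * (N + L + 1) := by ring
        rw [this]
        ring

theorem card_sym_le {T ε B cG : ℝ} (hT : 0 ≤ T) (hε : 0 < ε) (L K N : ℕ)
    (hεL : ε * (L + 1) ≤ 1) :
    (Fintype.card (Sym (Fin (mN T ε B cG L K N)) L) : ℝ) * ε ^ L ≤
      ((T + 1) * MN B cG L K N) ^ L / (L ! : ℝ) := by
  set M := MN B cG L K N with hM
  have hM1 : 1 ≤ M := one_le_MN _ _ _ _ _
  have hM0 : 0 < M := lt_of_lt_of_le one_pos hM1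
  set m := mN T ε B cG L K N with hm
  have hmr : (m : ℝ) ≤ T * M / ε + 1 := by
    rw [hm]
    unfold mN
    push_cast
    have : T / (ε / M) = T * M / ε := by field_simp
    rw [← hM, this]
    have := Nat.floor_le (show 0 ≤ T * M / ε by positivity)
    linarith
  have e0 : (0 : ℝ) < (L ! : ℝ) := by exact_mod_cast Nat.factorial_pos L
  have e1 : (Fintype.card (Sym (Fin m) L) : ℝ) ≤ ((m : ℝ) + L) ^ L / (L ! : ℝ) := by
    rw [Sym.card_sym_eq_multichoose, Fintype.card_fin, Nat.multichoose_eq]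
    refine (Nat.choose_le_pow_div L (m + L - 1)).trans ?_
    refine div_le_div_of_nonneg_right ?_ e0.le
    have : ((m + L - 1 : ℕ) : ℝ) ≤ (m : ℝ) + L := by
      have : m + L - 1 ≤ m + L := Nat.sub_le _ _
      exact_mod_cast this
    exact_mod_cast pow_le_pow_left₀ (by positivity) this L
  calc (Fintype.card (Sym (Fin m) L) : ℝ) * ε ^ L
      ≤ ((m : ℝ) + L) ^ L / (L ! : ℝ) * ε ^ L := mul_le_mul_of_nonneg_right e1 (by positivity)
    _ = (((m : ℝ) + L) * ε) ^ L / (L ! : ℝ) := by rw [mul_pow]; ring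
    _ ≤ _ := by
        refine div_le_div_of_nonneg_right (pow_le_pow_left₀ (by positivity) ?_ L) e0.le
        calc ((m : ℝ) + L) * ε ≤ (T * M / ε + 1 + L) * ε := by
              refine mul_le_mul_of_nonneg_right (by linarith) hε.le
          _ = T * M + ε * (L + 1) := by field_simp; ring
          _ ≤ T * M + 1 * M := by nlinarith
          _ = (T + 1) * M := by ring

/-- One grid run. -/
theorem gcE_GI_le (hΦ : AdmissiblePotential Φ) {f₀ : PhasePoint → ℝ} (hf : Measurable f₀)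
    (h1 : ∫⁻ z, ENNReal.ofReal (f₀ z) ≤ 1) (hε : 0 < ε) {T β : ℝ} (hβ : 0 ≤ β) {K : ℕ} {C : ℝ≥0∞}
    (hC : ∀ k ≤ K, ∀ (e : Fin k) (r : ℝ), 0 ≤ r → r ≤ T → ∀ a : Space3,
      ∫⁻ V : Config k, gcWeight f₀ ε k V * ENNReal.ofReal (Real.exp (2 * β * kin V)) *
          (if AllConn (NContact Φ ε 0 T V) ∧ dist (flow Φ ε r V e).1 a ≤ 3 * ε then 1 else 0) ≤
        C * ENNReal.ofReal ε ^ (2 * (k - 1)) * ENNReal.ofReal (3 * ε) ^ 3)
    (G : Type) [Fintype G] (Z : MW G) (q : G) (N : ℕ) (l : List (Step × ℝ))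
    (hk : ∀ p ∈ l, 1 ≤ p.1.k ∧ p.1.k ≤ K) (ht : ∀ p ∈ l, p.2 ∈ Icc (0 : ℝ) T) :
    gcE f₀ ε (fun n w => ∑ ι : Fin (tot l) ↪ Fin n, GI Φ ε T G Z q N l (fun i => w (ι i))) ≤
      ENNReal.ofReal (Real.exp (2 * β * (kin Z.z - (N - 1)))) *
        (27 * C * ENNReal.ofReal ε) ^ l.length := by
  refine (gcE_sum_emb_le hf h1 ε (GI Φ ε T G Z q N l) (measurable_GI hΦ hε T G Z q N l)).trans ?_
  have hle : ∀ V : Config (tot l), GI Φ ε T G Z q N l V ≤
      ENNReal.ofReal (Real.exp (2 * β * (kin Z.z - (N - 1)))) *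
        (ENNReal.ofReal (Real.exp (2 * β * kin V)) *
          (if Ch Φ ε T (3 * ε) l G Z q V then (1 : ℝ≥0∞) else 0)) := by
    intro V
    unfold GI
    by_cases h : Ch Φ ε T (3 * ε) l G Z q V ∧ (N : ℝ) - 1 ≤ kin Z.z + kin V
    · rw [if_pos h, if_pos h.1, mul_one, ← ENNReal.ofReal_mul (Real.exp_pos _).le, ← Real.exp_add,
        ENNReal.one_le_ofReal, Real.one_le_exp_iff]
      have := h.2
      have e : 2 * β * (kin Z.z - (N - 1)) + 2 * β * kin V =
        2 * β * (kin Z.z + kin V - (N - 1)) := by ring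
      rw [e]
      refine mul_nonneg (by positivity) (by linarith)
    · rw [if_neg h]; exact bot_le
  calc activity ε ^ tot l * ∫⁻ V : Config (tot l), gcWeight f₀ ε (tot l) V * GI Φ ε T G Z q N l V
      ≤ activity ε ^ tot l * ∫⁻ V : Config (tot l),
          ENNReal.ofReal (Real.exp (2 * β * (kin Z.z - (N - 1)))) *
          (gcWeight f₀ ε (tot l) V * (ENNReal.ofReal (Real.exp (2 * β * kin V)) *
          (if Ch Φ ε T (3 * ε) l G Z q V then (1 : ℝ≥0∞) else 0))) := by
        refine mul_le_mul_right (lintegral_mono fun V => ?_) _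
        calc gcWeight f₀ ε (tot l) V * GI Φ ε T G Z q N l V
            ≤ gcWeight f₀ ε (tot l) V * (ENNReal.ofReal (Real.exp (2 * β * (kin Z.z - (N - 1)))) *
              (ENNReal.ofReal (Real.exp (2 * β * kin V)) *
              (if Ch Φ ε T (3 * ε) l G Z q V then (1 : ℝ≥0∞) else 0))) :=
              mul_le_mul_right (hle V) _
          _ = _ := by ring
    _ = ENNReal.ofReal (Real.exp (2 * β * (kin Z.z - (N - 1)))) * (activity ε ^ tot l *
          ∫⁻ V : Config (tot l), gcWeight f₀ ε (tot l) V *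
            (ENNReal.ofReal (Real.exp (2 * β * kin V)) *
            (if Ch Φ ε T (3 * ε) l G Z q V then (1 : ℝ≥0∞) else 0))) := by
        rw [lintegral_const_mul' _ _ ENNReal.ofReal_ne_top]
        ring
    _ ≤ ENNReal.ofReal (Real.exp (2 * β * (kin Z.z - (N - 1)))) * (activity ε ^ tot l *
          (l.map fun p => C * ENNReal.ofReal ε ^ (2 * (p.1.k - 1)) *
            ENNReal.ofReal (3 * ε) ^ 3).prod) := by
        refine mul_le_mul_right (mul_le_mul_right ?_ _) _
        exact lintegral_ch_le hΦ hf hε hC l (fun p hp => (hk p hp).2) ht G Z q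
    _ = _ := by rw [activity_tot hε l fun p hp => (hk p hp).1]



end Crest.Agent.R122.LinkM547

end
end

-- ▼ part R122/LinkM6_547
section

/-!
# Row 122, H11 (LINK mass), part 6 (helper547): tools for the versions integrated over a line

* `grid_sum` : the sum over the grid runs, in abstract form;
* `lintegral_ch_cons` : first step of a run separated from the rest;
* `conn_bound` : mass of the connected clusters with the exponential weight of the energy.
-/

set_option autoImplicit false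
set_option maxHeartbeats 400000

open MeasureTheory Set Filter
open Crest.AnalysisR.Kinetic
open Crest.Agent.R122.Flow671 Crest.Agent.R122.Loc45 Crest.Agent.R122.Causal291
open Crest.Agent.R122.Vol365 Crest.Agent.R122.GC311 Crest.Agent.R122.EDefs602
open Crest.Agent.R122.Ins45
open scoped ENNReal Classical Nat Topology

noncomputable section

namespace Crest.Agent.R122.LinkM547

variable {Φ : Space3 → ℝ} {ε : ℝ}

/-- **Sum over the grid runs.** -/
theorem grid_sum {B : ℝ} (hB : 0 ≤ B) {β : ℝ} (hβ : 0 < β) (T : ℝ) (hT : 0 ≤ T)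
    (K K0 : ℕ) {C : ℝ≥0∞} (hCtop : C ≠ ∞) :
    ∃ η : ℕ → ℝ≥0∞, Tendsto η atTop (𝓝 0) ∧ (∀ L, η L ≠ ∞) ∧
      ∀ (L : ℕ) (ε : ℝ), 0 < ε → ε * (L + 1) ≤ 1 → ∀ cG : ℝ, cG ≤ K0 →
        ∑' N : ℕ, ∑ _σ : Sym (Fin (mN T ε B cG L K N)) L, ∑ _st : List.Vector (StepK K) L,
          ENNReal.ofReal (Real.exp (-(2 * β * (N - 1)))) * (27 * C * ENNReal.ofReal ε) ^ L ≤
          η L := by
  set cK : ℕ := Fintype.card (StepK K) with hcK
  set c : ℝ := C.toReal with hc
  have hCc : C = ENNReal.ofReal c := (ENNReal.ofReal_toReal hCtop).symm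
  have hc0 : 0 ≤ c := ENNReal.toReal_nonneg
  set D : ℝ := 2 + 2 * B * (K0 + K) with hD
  set A : ℝ := cK * (27 * c) * (T + 1) * Real.sqrt (D / (2 * β)) * Real.exp β with hA
  have hA0 : 0 ≤ A := by positivity
  set S : ℝ := ∑' N : ℕ, Real.exp (3 * β) * Real.exp (-β * N) with hS
  have hsum : Summable fun N : ℕ => Real.exp (3 * β) * Real.exp (-β * N) := by
    refine Summable.mul_left _ ?_
    have : Summable fun n : ℕ => Real.exp (n * (-β)) := Real.summable_exp_nat_mul_iff.2 (by linarith)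
    refine this.congr fun n => ?_
    rw [mul_comm]
  refine ⟨fun L => ENNReal.ofReal (A ^ L / Real.sqrt (L ! : ℝ) * S), ?_,
    fun L => ENNReal.ofReal_ne_top, ?_⟩
  · -- the limit
    have h1 : Tendsto (fun L : ℕ => A ^ L / Real.sqrt (L ! : ℝ)) atTop (𝓝 0) := by
      have h2 := (FloorSemiring.tendsto_pow_div_factorial_atTop (A ^ 2)).sqrt
      rw [Real.sqrt_zero] at h2
      refine h2.congr fun L => ?_
      have : (0 : ℝ) ≤ (L ! : ℝ) := by positivity
      rw [Real.sqrt_div' _ this, ← pow_mul, mul_comm 2 L, pow_mul, Real.sqrt_sq (pow_nonneg hA0 L)]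
    have h3 := ENNReal.tendsto_ofReal (h1.mul_const S)
    rw [zero_mul, ENNReal.ofReal_zero] at h3
    exact h3
  · intro L ε hε hεL' cG hG
    calc ∑' N : ℕ, ∑ _σ : Sym (Fin (mN T ε B cG L K N)) L, ∑ _st : List.Vector (StepK K) L,
          ENNReal.ofReal (Real.exp (-(2 * β * (N - 1)))) * (27 * C * ENNReal.ofReal ε) ^ L
        = ∑' N : ℕ, ENNReal.ofReal (Real.exp (-(2 * β * (N - 1))) *
            ((cK * (27 * c)) ^ L * ((Fintype.card (Sym (Fin (mN T ε B cG L K N)) L) : ℝ) *
              ε ^ L))) := by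
          refine tsum_congr fun N => ?_
          rw [Finset.sum_const, Finset.sum_const, Finset.card_univ, Finset.card_univ, card_vector,
            nsmul_eq_mul, nsmul_eq_mul, hCc, ← hcK]
          have e27 : (27 : ℝ≥0∞) = ENNReal.ofReal 27 := (ENNReal.ofReal_ofNat 27).symm
          rw [e27, ← ENNReal.ofReal_mul (by norm_num), ← ENNReal.ofReal_mul (by positivity),
            ← ENNReal.ofReal_pow (by positivity), ← ENNReal.ofReal_mul (Real.exp_pos _).le,
            ← ENNReal.ofReal_natCast, ← ENNReal.ofReal_natCast,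
            ← ENNReal.ofReal_mul (by positivity), ← ENNReal.ofReal_mul (by positivity)]
          congr 1
          push_cast
          ring
      _ ≤ ∑' N : ℕ, ENNReal.ofReal ((A ^ L / Real.sqrt (L ! : ℝ)) *
            (Real.exp (3 * β) * Real.exp (-β * N))) := by
          refine ENNReal.tsum_le_tsum fun N => ENNReal.ofReal_le_ofReal ?_
          have s1 := card_sym_le (B := B) (cG := cG) hT hε L K N hεL'
          have s2 := MN_pow_le (cG := cG) hβ hB K0 K L N hG
          rw [← hD] at s2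
          have e0 : (0 : ℝ) < (L ! : ℝ) := by exact_mod_cast Nat.factorial_pos L
          have hsq : Real.sqrt (L ! : ℝ) * Real.sqrt (L ! : ℝ) = (L ! : ℝ) := Real.mul_self_sqrt e0.le
          have hsq0 : 0 < Real.sqrt (L ! : ℝ) := Real.sqrt_pos.2 e0
          have s3 : (Fintype.card (Sym (Fin (mN T ε B cG L K N)) L) : ℝ) * ε ^ L ≤
              (T + 1) ^ L * (Real.sqrt (D / (2 * β)) ^ L *
                Real.exp (β * (N + L + 1))) / Real.sqrt (L ! : ℝ) := by
            refine s1.trans ?_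
            have ee : ((T + 1) * MN B cG L K N) ^ L / (L ! : ℝ) =
                ((T + 1) ^ L * MN B cG L K N ^ L) /
                  (Real.sqrt (L ! : ℝ) * Real.sqrt (L ! : ℝ)) := by rw [hsq, mul_pow]
            rw [ee, div_le_div_iff₀ (by positivity) hsq0]
            have : (T + 1) ^ L * MN B cG L K N ^ L ≤ (T + 1) ^ L *
              (Real.sqrt (D / (2 * β)) ^ L * Real.sqrt (L ! : ℝ) * Real.exp (β * (N + L + 1))) :=
              mul_le_mul_of_nonneg_left s2 (by positivity)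
            calc (T + 1) ^ L * MN B cG L K N ^ L * Real.sqrt (L ! : ℝ)
                ≤ (T + 1) ^ L * (Real.sqrt (D / (2 * β)) ^ L * Real.sqrt (L ! : ℝ) *
                  Real.exp (β * (N + L + 1))) * Real.sqrt (L ! : ℝ) :=
                  mul_le_mul_of_nonneg_right this hsq0.le
              _ = _ := by ring
          calc Real.exp (-(2 * β * (N - 1))) * ((cK * (27 * c)) ^ L *
                ((Fintype.card (Sym (Fin (mN T ε B cG L K N)) L) : ℝ) * ε ^ L))
              ≤ Real.exp (-(2 * β * (N - 1))) * ((cK * (27 * c)) ^ L *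
                ((T + 1) ^ L * (Real.sqrt (D / (2 * β)) ^ L *
                Real.exp (β * (N + L + 1))) / Real.sqrt (L ! : ℝ))) := by
                refine mul_le_mul_of_nonneg_left (mul_le_mul_of_nonneg_left s3 (by positivity))
                  (Real.exp_pos _).le
            _ = _ := by
                have x1 : Real.exp (-(2 * β * (N - 1))) * Real.exp (β * (N + L + 1)) =
                    Real.exp β ^ L * (Real.exp (3 * β) * Real.exp (-β * N)) := by
                  rw [← Real.exp_nat_mul, ← Real.exp_add, ← Real.exp_add, ← Real.exp_add]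
                  congr 1
                  ring
                calc Real.exp (-(2 * β * (N - 1))) * ((cK * (27 * c)) ^ L *
                    ((T + 1) ^ L * (Real.sqrt (D / (2 * β)) ^ L *
                    Real.exp (β * (N + L + 1))) / Real.sqrt (L ! : ℝ)))
                    = (cK * (27 * c)) ^ L * (T + 1) ^ L * Real.sqrt (D / (2 * β)) ^ L /
                      Real.sqrt (L ! : ℝ) * (Real.exp (-(2 * β * (N - 1))) *
                        Real.exp (β * (N + L + 1))) := by ring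
                  _ = _ := by rw [x1, hA]; simp only [mul_pow]; ring
      _ = ENNReal.ofReal (A ^ L / Real.sqrt (L ! : ℝ) * S) := by
          rw [hS, ← ENNReal.ofReal_tsum_of_nonneg, tsum_mul_left]
          · intro N; positivity
          · exact hsum.mul_left _

theorem list_prod_ne_top : ∀ l : List ℝ≥0∞, (∀ x ∈ l, x ≠ ∞) → l.prod ≠ ∞ := by
  intro l
  induction l with
  | nil => intro _; simp
  | cons a l ih =>
    intro h
    rw [List.prod_cons]
    exact ENNReal.mul_ne_top (h a (List.mem_cons_self ..))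
      (ih fun x hx => h x (List.mem_cons_of_mem _ hx))

/-- **First step separated.** -/
theorem lintegral_ch_cons (hΦ : AdmissiblePotential Φ) {f₀ : PhasePoint → ℝ} (hf : Measurable f₀)
    (hε : 0 < ε) {T ρ κ : ℝ} {K : ℕ} {C : ℝ≥0∞} (hCtop : C ≠ ∞)
    (hC : ∀ k ≤ K, ∀ (e : Fin k) (r : ℝ), 0 ≤ r → r ≤ T → ∀ a : Space3,
      ∫⁻ V : Config k, gcWeight f₀ ε k V * ENNReal.ofReal (Real.exp (κ * kin V)) *
          (if AllConn (NContact Φ ε 0 T V) ∧ dist (flow Φ ε r V e).1 a ≤ ρ then 1 else 0) ≤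
        C * ENNReal.ofReal ε ^ (2 * (k - 1)) * ENNReal.ofReal ρ ^ 3)
    (s : Step) (r : ℝ) (l : List (Step × ℝ)) (hk : ∀ p ∈ l, p.1.k ≤ K)
    (ht : ∀ p ∈ l, p.2 ∈ Icc (0 : ℝ) T) (G : Type) [Fintype G] (Z : MW G) (q : G) :
    ∫⁻ V : Config (tot ((s, r) :: l)), gcWeight f₀ ε (tot ((s, r) :: l)) V *
        (ENNReal.ofReal (Real.exp (κ * kin V)) *
          (if Ch Φ ε T ρ ((s, r) :: l) G Z q V then (1 : ℝ≥0∞) else 0)) ≤
      (∫⁻ V : Config s.k, gcWeight f₀ ε s.k V * ENNReal.ofReal (Real.exp (κ * kin V)) *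
          (if AllConn (NContact Φ ε 0 T V) ∧ dist (flow Φ ε r V s.e).1 (Z.path Φ ε r q).1 ≤ ρ
            then 1 else 0)) *
        (l.map fun p => C * ENNReal.ofReal ε ^ (2 * (p.1.k - 1)) * ENNReal.ofReal ρ ^ 3).prod := by
  have ih' := lintegral_ch_le hΦ hf hε hC l hk ht
  set P : ℝ≥0∞ := (l.map fun p => C * ENNReal.ofReal ε ^ (2 * (p.1.k - 1)) *
    ENNReal.ofReal ρ ^ 3).prod with hP
  have hPtop : P ≠ ∞ := by
    rw [hP]
    refine list_prod_ne_top _ ?_
    intro x hx
    rw [List.mem_map] at hx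
    obtain ⟨p, -, rfl⟩ := hx
    exact ENNReal.mul_ne_top (ENNReal.mul_ne_top hCtop (ENNReal.pow_ne_top ENNReal.ofReal_ne_top))
      (ENNReal.pow_ne_top ENNReal.ofReal_ne_top)
  have e1 := lintegral_append_gc hf ε (k := s.k) (m := tot l)
    (fun V => ENNReal.ofReal (Real.exp (κ * kin V)) *
      (if Ch Φ ε T ρ ((s, r) :: l) G Z q V then (1 : ℝ≥0∞) else 0))
    (measurable_wch hΦ hε T ρ κ ((s, r) :: l) G Z q)
  change ∫⁻ V : Config (s.k + tot l), gcWeight f₀ ε (s.k + tot l) V *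
    (ENNReal.ofReal (Real.exp (κ * kin V)) *
      (if Ch Φ ε T ρ ((s, r) :: l) G Z q V then (1 : ℝ≥0∞) else 0)) ≤ _
  rw [e1]
  have key : ∀ V : Config s.k, gcWeight f₀ ε s.k V *
      ∫⁻ w : Config (tot l), gcWeight f₀ ε (tot l) w * (perpInd ε V w *
        (ENNReal.ofReal (Real.exp (κ * kin (Fin.append V w : Config (s.k + tot l)))) *
          (if Ch Φ ε T ρ ((s, r) :: l) G Z q (Fin.append V w) then (1 : ℝ≥0∞) else 0))) ≤
      (gcWeight f₀ ε s.k V * ENNReal.ofReal (Real.exp (κ * kin V)) *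
        (if AllConn (NContact Φ ε 0 T V) ∧ dist (flow Φ ε r V s.e).1 (Z.path Φ ε r q).1 ≤ ρ
          then 1 else 0)) * P := by
    intro V
    by_cases hc : AllConn (NContact Φ ε 0 T V) ∧
        dist (flow Φ ε r V s.e).1 (Z.path Φ ε r q).1 ≤ ρ
    · rw [if_pos hc, mul_one, mul_assoc]
      refine mul_le_mul_right ?_ _
      have hnext : ∃ (G' : Type) (_ : Fintype G') (Z' : MW G') (q' : G'),
          ∀ w : Config (tot l), Ch Φ ε T ρ ((s, r) :: l) G Z q (Fin.append V w) →
            Ch Φ ε T ρ l G' Z' q' w := by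
        rcases hkd : s.kd with _ | _ | _
        · refine ⟨G ⊕ Fin s.k, inferInstance, Z.add (MW.cfg V), Sum.inl q, fun w hw => ?_⟩
          have := hw.2.2
          simp only [hkd, hd_append, tl_append] at this
          exact this
        · refine ⟨G ⊕ Fin s.k, inferInstance, Z.add (MW.cfg V), Sum.inr s.e, fun w hw => ?_⟩
          have := hw.2.2
          simp only [hkd, hd_append, tl_append] at this
          exact this
        · refine ⟨Fin s.k, inferInstance, MW.cfg V, s.e, fun w hw => ?_⟩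
          have := hw.2.2
          simp only [hkd, hd_append, tl_append] at this
          exact this
      obtain ⟨G', hG', Z', q', hnext⟩ := hnext
      calc ∫⁻ w : Config (tot l), gcWeight f₀ ε (tot l) w * (perpInd ε V w *
            (ENNReal.ofReal (Real.exp (κ * kin (Fin.append V w : Config (s.k + tot l)))) *
              (if Ch Φ ε T ρ ((s, r) :: l) G Z q (Fin.append V w) then (1 : ℝ≥0∞) else 0)))
          ≤ ∫⁻ w : Config (tot l), ENNReal.ofReal (Real.exp (κ * kin V)) *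
              (gcWeight f₀ ε (tot l) w * (ENNReal.ofReal (Real.exp (κ * kin w)) *
              (if Ch Φ ε T ρ l G' Z' q' w then (1 : ℝ≥0∞) else 0))) := by
            refine lintegral_mono fun w => ?_
            have e2 : ENNReal.ofReal (Real.exp (κ * kin (Fin.append V w : Config (s.k + tot l)))) =
                ENNReal.ofReal (Real.exp (κ * kin V)) * ENNReal.ofReal (Real.exp (κ * kin w)) := by
              rw [kin_append, mul_add, Real.exp_add, ENNReal.ofReal_mul (Real.exp_pos _).le]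
            simp only
            rw [e2]
            have e3 : (if Ch Φ ε T ρ ((s, r) :: l) G Z q (Fin.append V w) then (1 : ℝ≥0∞) else 0) ≤
                (if Ch Φ ε T ρ l G' Z' q' w then (1 : ℝ≥0∞) else 0) := by
              split_ifs with h1 h2
              · exact le_rfl
              · exact absurd (hnext w h1) h2
              · exact bot_le
              · exact bot_le
            have e4 : perpInd ε V w ≤ 1 := by
              unfold perpInd; split_ifs <;> simp
            calc gcWeight f₀ ε (tot l) w * (perpInd ε V w *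
                  (ENNReal.ofReal (Real.exp (κ * kin V)) * ENNReal.ofReal (Real.exp (κ * kin w)) *
                    (if Ch Φ ε T ρ ((s, r) :: l) G Z q (Fin.append V w) then (1 : ℝ≥0∞) else 0)))
                ≤ gcWeight f₀ ε (tot l) w * (1 *
                  (ENNReal.ofReal (Real.exp (κ * kin V)) * ENNReal.ofReal (Real.exp (κ * kin w)) *
                    (if Ch Φ ε T ρ l G' Z' q' w then (1 : ℝ≥0∞) else 0))) := by gcongr
              _ = _ := by ring
        _ = ENNReal.ofReal (Real.exp (κ * kin V)) * ∫⁻ w : Config (tot l),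
              (gcWeight f₀ ε (tot l) w * (ENNReal.ofReal (Real.exp (κ * kin w)) *
              (if Ch Φ ε T ρ l G' Z' q' w then (1 : ℝ≥0∞) else 0))) :=
            lintegral_const_mul' _ _ ENNReal.ofReal_ne_top
        _ ≤ ENNReal.ofReal (Real.exp (κ * kin V)) * P := by
            gcongr
            exact ih' G' Z' q'
    · have hno : ∀ w : Config (tot l), ¬ Ch Φ ε T ρ ((s, r) :: l) G Z q (Fin.append V w) := by
        intro w hw
        apply hc
        have h1 := hw.1
        have h2 := hw.2.1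
        simp only [hd_append] at h1 h2
        exact ⟨h1, h2⟩
      have : ∫⁻ w : Config (tot l), gcWeight f₀ ε (tot l) w * (perpInd ε V w *
        (ENNReal.ofReal (Real.exp (κ * kin (Fin.append V w : Config (s.k + tot l)))) *
          (if Ch Φ ε T ρ ((s, r) :: l) G Z q (Fin.append V w) then (1 : ℝ≥0∞) else 0))) = 0 := by
        simp [hno]
      rw [this, mul_zero]
      exact bot_le
  refine (lintegral_mono key).trans (le_of_eq ?_)
  exact lintegral_mul_const' _ _ hPtop

/-- Envelope of the initial density (consequence of `HasSummableGaussianBound`). -/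
structure EnvB (β : ℝ) (f₀ : PhasePoint → ℝ) (env : Space3 → ℝ≥0∞) (A : ℝ) : Prop where
  meas : Measurable env
  int_ne : ∫⁻ x, env x ≠ ∞
  le : ∀ x, env x ≤ ENNReal.ofReal A
  bound : ∀ z : PhasePoint, ENNReal.ofReal (f₀ z) ≤
    env z.1 * ENNReal.ofReal (Real.exp (-(2 * β * ‖z.2‖ ^ 2)))

/-- **Mass of the connected clusters** with the exponential weight of the energy. -/
theorem conn_bound (hΦ : AdmissiblePotential Φ) {β : ℝ} (hβ : 0 < β) (T A : ℝ) (hT : 0 ≤ T)
    (K : ℕ) : ∃ C : ℝ≥0∞, C ≠ ∞ ∧ ∀ (f₀ : PhasePoint → ℝ) (env : Space3 → ℝ≥0∞),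
      EnvB β f₀ env A → ∀ ε : ℝ, 0 < ε → ε ≤ 1 → ∀ k, 1 ≤ k → k ≤ K →
      ∫⁻ V : Config k, gcWeight f₀ ε k V * ENNReal.ofReal (Real.exp (2 * β * kin V)) *
          (if AllConn (NContact Φ ε 0 T V) then 1 else 0) ≤
        C * ENNReal.ofReal ε ^ (2 * (k - 1)) * ∫⁻ x, env x := by
  set a₀ : ℝ := max A 1 with ha₀
  have ha1 : 1 ≤ a₀ := le_max_right _ _
  have ha0 : 0 ≤ a₀ := zero_le_one.trans ha1
  have hk : ∀ k : ℕ, ∃ C : ℝ≥0∞, C ≠ ∞ ∧ ∀ f₀ : PhasePoint → ℝ,
      (∀ z : PhasePoint, f₀ z ≤ a₀ * Real.exp (-(2 * (β / 2) * ‖z.2‖ ^ 2))) →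
      ∀ ε : ℝ, 0 < ε → ε ≤ 1 → ∀ (ι : Type) [Fintype ι],
      Fintype.card ι = k → ∀ (i : ι) (a b τ : ℝ), a ≤ τ → τ ≤ b → b - a ≤ T →
      ∀ F : PhasePoint → ℝ≥0∞, Measurable F →
      ∫⁻ z in {z : ι → PhasePoint | Excl ε z ∧ AllConn (NContact Φ ε a b z)},
          (∏ j, ENNReal.ofReal (f₀ (z j))) * F (flow Φ ε τ z i) ≤
        C * ENNReal.ofReal ε ^ (2 * (k - 1)) * ∫⁻ y, gw (β / 2) y * F y := fun k =>
    exists_root_bound hΦ (β := β / 2) (by positivity) T a₀ ha0 k
  choose C hC h using hk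
  set I : ℝ≥0∞ := ∫⁻ v : Space3, ENNReal.ofReal (Real.exp (-(β / 2 * ‖v‖ ^ 2))) with hI
  have hIne : I ≠ ∞ := (lintegral_gaussian_lt_top (γ := β / 2) (by positivity)).ne
  refine ⟨(∑ k ∈ Finset.range (K + 1), C k) * I, ENNReal.mul_ne_top
    (ENNReal.sum_ne_top.2 fun k _ => hC k) hIne, ?_⟩
  intro f₀ env hE ε hε hε1 k hk1 hkK
  set g : PhasePoint → ℝ := fun z => a₀ * Real.exp (-(β * ‖z.2‖ ^ 2)) with hg
  have hg' : ∀ z : PhasePoint, g z ≤ a₀ * Real.exp (-(2 * (β / 2) * ‖z.2‖ ^ 2)) := by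
    intro z
    rw [hg]
    apply le_of_eq
    simp only
    congr 3
    ring
  set i₀ : Fin k := ⟨0, hk1⟩ with hi₀
  have h1 := h k g hg' ε hε hε1 (Fin k) (Fintype.card_fin k) i₀ 0 T 0 le_rfl hT (by linarith)
    (fun y => env y.1) (hE.meas.comp measurable_fst)
  have hCk : C k ≤ ∑ k ∈ Finset.range (K + 1), C k :=
    Finset.single_le_sum (f := C) (fun _ _ => bot_le) (Finset.mem_range.2 (by omega))
  have hprod : ∫⁻ y : PhasePoint, gw (β / 2) y * env y.1 = I * ∫⁻ x, env x := by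
    change ∫⁻ y : Space3 × Space3, gw (β / 2) y * env y.1 = _
    rw [Measure.volume_eq_prod, lintegral_prod]
    · rw [mul_comm, ← lintegral_mul_const' _ _ hIne]
      refine lintegral_congr fun x => ?_
      rw [hI, ← lintegral_const_mul]
      · refine lintegral_congr fun v => ?_
        unfold gw
        rw [mul_comm]
      · exact (Measurable.ennreal_ofReal (by fun_prop))
    · exact ((measurable_gw _).mul (hE.meas.comp measurable_fst)).aemeasurable
  calc ∫⁻ V : Config k, gcWeight f₀ ε k V * ENNReal.ofReal (Real.exp (2 * β * kin V)) *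
          (if AllConn (NContact Φ ε 0 T V) then 1 else 0)
      ≤ ∫⁻ V : Config k, {z : Config k | Excl ε z ∧ AllConn (NContact Φ ε 0 T z)}.indicator
          (fun z => (∏ j, ENNReal.ofReal (g (z j))) * env (flow Φ ε 0 z i₀).1) V := by
        refine lintegral_mono fun V => ?_
        by_cases hc : AllConn (NContact Φ ε 0 T V)
        · simp only
          rw [if_pos hc, mul_one]
          unfold gcWeight
          by_cases hV : V ∈ PairExcluded ε k
          · rw [indicator_of_mem hV, indicator_of_mem (show V ∈ {z : Config k | Excl ε z ∧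
              AllConn (NContact Φ ε 0 T z)} from ⟨hV, hc⟩), flow_zero hΦ hε]
            have e1 : ENNReal.ofReal (Real.exp (2 * β * kin V)) =
                ∏ i : Fin k, ENNReal.ofReal (Real.exp (β * ‖(V i).2‖ ^ 2)) := by
              rw [← ENNReal.ofReal_prod_of_nonneg (fun i _ => (Real.exp_pos _).le), ← Real.exp_sum]
              congr 2
              unfold kin
              rw [← Finset.mul_sum]
              ring
            rw [e1, ← Finset.prod_mul_distrib]
            have e2 : ∀ j : Fin k, ENNReal.ofReal (f₀ (V j)) *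
                ENNReal.ofReal (Real.exp (β * ‖(V j).2‖ ^ 2)) ≤
                (if j = i₀ then env (V i₀).1 else 1) * ENNReal.ofReal (g (V j)) := by
              intro j
              have e3 : ENNReal.ofReal (Real.exp (-(2 * β * ‖(V j).2‖ ^ 2))) *
                  ENNReal.ofReal (Real.exp (β * ‖(V j).2‖ ^ 2)) =
                  ENNReal.ofReal (Real.exp (-(β * ‖(V j).2‖ ^ 2))) := by
                rw [← ENNReal.ofReal_mul (Real.exp_pos _).le, ← Real.exp_add]
                congr 2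
                ring
              by_cases hj : j = i₀
              · rw [if_pos hj, hj]
                calc ENNReal.ofReal (f₀ (V i₀)) * ENNReal.ofReal (Real.exp (β * ‖(V i₀).2‖ ^ 2))
                    ≤ env (V i₀).1 * ENNReal.ofReal (Real.exp (-(2 * β * ‖(V i₀).2‖ ^ 2))) *
                      ENNReal.ofReal (Real.exp (β * ‖(V i₀).2‖ ^ 2)) :=
                      mul_le_mul_left (hE.bound (V i₀)) _
                  _ = env (V i₀).1 * ENNReal.ofReal (Real.exp (-(β * ‖(V i₀).2‖ ^ 2))) := by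
                      rw [hj] at e3
                      rw [mul_assoc, e3]
                  _ ≤ env (V i₀).1 * ENNReal.ofReal (g (V i₀)) := by
                      refine mul_le_mul_right (ENNReal.ofReal_le_ofReal ?_) _
                      rw [hg]
                      simp only
                      have := Real.exp_pos (-(β * ‖(V i₀).2‖ ^ 2))
                      nlinarith
              · rw [if_neg hj, one_mul]
                calc ENNReal.ofReal (f₀ (V j)) * ENNReal.ofReal (Real.exp (β * ‖(V j).2‖ ^ 2))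
                    ≤ env (V j).1 * ENNReal.ofReal (Real.exp (-(2 * β * ‖(V j).2‖ ^ 2))) *
                      ENNReal.ofReal (Real.exp (β * ‖(V j).2‖ ^ 2)) :=
                      mul_le_mul_left (hE.bound (V j)) _
                  _ = env (V j).1 * ENNReal.ofReal (Real.exp (-(β * ‖(V j).2‖ ^ 2))) := by
                      rw [mul_assoc, e3]
                  _ ≤ ENNReal.ofReal a₀ * ENNReal.ofReal (Real.exp (-(β * ‖(V j).2‖ ^ 2))) := by
                      refine mul_le_mul_left ((hE.le _).trans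
                        (ENNReal.ofReal_le_ofReal (le_max_left _ _))) _
                  _ = ENNReal.ofReal (g (V j)) := by
                      rw [← ENNReal.ofReal_mul ha0]
            refine (Finset.prod_le_prod' fun j _ => e2 j).trans (le_of_eq ?_)
            rw [Finset.prod_mul_distrib, Finset.prod_ite_eq' Finset.univ i₀]
            simp only [Finset.mem_univ, if_true]
            rw [mul_comm]
          · rw [indicator_of_notMem hV, zero_mul]
            exact bot_le
        · simp only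
          rw [if_neg hc, mul_zero]
          exact bot_le
    _ ≤ ∫⁻ V in {z : Config k | Excl ε z ∧ AllConn (NContact Φ ε 0 T z)},
          (∏ j, ENNReal.ofReal (g (V j))) * env (flow Φ ε 0 V i₀).1 := lintegral_indicator_le _ _
    _ ≤ C k * ENNReal.ofReal ε ^ (2 * (k - 1)) * ∫⁻ y, gw (β / 2) y * env y.1 := h1
    _ ≤ (∑ k ∈ Finset.range (K + 1), C k) * ENNReal.ofReal ε ^ (2 * (k - 1)) *
          (I * ∫⁻ x, env x) := by
        rw [hprod]
        gcongr
    _ = _ := by ring

end Crest.Agent.R122.LinkM547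

end
end

-- ▼ part R122/LinkM7_547

/-!
# Row 122, H11 (LINK mass), part 7 (helper547): tail of the runs from a line, integrated over it
-/

set_option autoImplicit false
set_option maxHeartbeats 400000

open MeasureTheory Set Filter
open Crest.AnalysisR.Kinetic
open Crest.Agent.R122.Flow671 Crest.Agent.R122.Loc45 Crest.Agent.R122.Causal291
open Crest.Agent.R122.Vol365 Crest.Agent.R122.GC311 Crest.Agent.R122.EDefs602
open Crest.Agent.R122.Ins45
open scoped ENNReal Classical Nat Topology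

noncomputable section

namespace Crest.Agent.R122.LinkM547

variable {Φ : Space3 → ℝ} {ε : ℝ}

/-- Path of a line in its own world. -/
theorem line_path (hΦ : AdmissiblePotential Φ) (hε : 0 < ε) (l : ML) {r : ℝ} (hr : 0 ≤ r) :
    ((MW.line l).path Φ ε r ()).1 = l.1.2.1 + (r - l.1.1) • l.1.2.2 := by
  have hd : ∀ (t : ℝ) (Z : Unit → PhasePoint), BDom Φ (MW.line l).b t Z := by
    intro t Z
    exact Or.inr fun i j hij => absurd (Subsingleton.elim i j) hij
  have hB : BWorld Φ ε (MW.line l).b 0 (fun t => evo Φ ε (MW.line l).b 0 t (MW.line l).z) :=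
    bworld_evo hΦ hε (hd _ _) fun _ _ => hd _ _
  have h := hB.free hΦ hε () (a := 0) (T := r) le_rfl
    (fun t _ _ j hj => absurd (Subsingleton.elim j ()) hj) r ⟨hr, le_rfl⟩
  have h0 : evo Φ ε (MW.line l).b 0 0 (MW.line l).z = (MW.line l).z := evo_self hΦ hε _ _ _
  simp only [h0] at h
  change (evo Φ ε (MW.line l).b 0 r (MW.line l).z ()).1 = _
  rw [h]
  simp only [MW.line, MW.lines, back, sub_zero]
  rw [sub_smul]
  abel

theorem kin_line (l : ML) : kin (MW.line l).z = (1 / 2) * ‖l.1.2.2‖ ^ 2 := by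
  unfold kin MW.line MW.lines back
  simp

theorem tsum_markW_ne_top {ρ : ℝ≥0∞} (hρ : ρ ≠ ∞) (K : ℕ) : ∑' n : ℕ, markW ρ K n ≠ ∞ := by
  have h : ∀ n ∉ Finset.range (K + 1), markW ρ K n = 0 := by
    intro n hn
    unfold markW
    rw [if_neg]
    rintro ⟨-, h⟩
    exact hn (Finset.mem_range.2 (by omega))
  rw [tsum_eq_sum h]
  refine ENNReal.sum_ne_top.2 fun n _ => ?_
  unfold markW
  split_ifs
  · exact ENNReal.pow_ne_top hρ
  · exact ENNReal.zero_ne_top

/-- Integral over the lines passing near a point at a given time. -/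
theorem line_step {β γ₀ T : ℝ} (hβγ : β < γ₀) {γ : ℝ → ℝ} (hγ : Measurable γ)
    (hγ₀ : ∀ τ ∈ Ioc (0 : ℝ) T, γ₀ ≤ γ τ) {ρm : ℝ≥0∞} (hρm : ρm ≠ ∞) (Km : ℕ) :
    ∃ C : ℝ≥0∞, C ≠ ∞ ∧ ∀ (a : Space3) (r ρ : ℝ), 0 ≤ ρ →
      ∫⁻ l, ENNReal.ofReal (Real.exp (β * ‖l.1.2.2‖ ^ 2)) *
        (if dist a (l.1.2.1 + (r - l.1.1) • l.1.2.2) ≤ ρ then 1 else 0) ∂lineM γ ρm Km T ≤
        C * ENNReal.ofReal ρ ^ 3 := by
  set I : ℝ≥0∞ := ∫⁻ v : Space3, ENNReal.ofReal (Real.exp (-((γ₀ - β) * ‖v‖ ^ 2))) with hI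
  have hIne : I ≠ ∞ := (lintegral_gaussian_lt_top (γ := γ₀ - β) (by linarith)).ne
  set S : ℝ≥0∞ := ∑' n : ℕ, markW ρm Km n with hS
  have hSne : S ≠ ∞ := tsum_markW_ne_top hρm Km
  refine ⟨ENNReal.ofReal T * (I * (S * ENNReal.ofReal (4 / 3 * Real.pi))),
    ENNReal.mul_ne_top ENNReal.ofReal_ne_top (ENNReal.mul_ne_top hIne
      (ENNReal.mul_ne_top hSne ENNReal.ofReal_ne_top)), ?_⟩
  intro a r ρ hρ
  have hF : Measurable fun l : ML => ENNReal.ofReal (Real.exp (β * ‖l.1.2.2‖ ^ 2)) *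
      (if dist a (l.1.2.1 + (r - l.1.1) • l.1.2.2) ≤ ρ then (1 : ℝ≥0∞) else 0) := by
    refine Measurable.mul (by fun_prop) (Measurable.ite ?_ measurable_const measurable_const)
    exact measurableSet_le (by fun_prop) measurable_const
  rw [EBasic602.lintegral_lineM hγ hF]
  have hball : ∀ (τ : ℝ) (v : Space3), ∫⁻ y : Space3,
      (if dist a (y + (r - τ) • v) ≤ ρ then (1 : ℝ≥0∞) else 0) =
        ENNReal.ofReal (4 / 3 * Real.pi) * ENNReal.ofReal ρ ^ 3 := by
    intro τ v
    have e1 : (fun y : Space3 => if dist a (y + (r - τ) • v) ≤ ρ then (1 : ℝ≥0∞) else 0) =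
        (Metric.closedBall (a - (r - τ) • v) ρ).indicator 1 := by
      funext y
      have : dist a (y + (r - τ) • v) = dist y (a - (r - τ) • v) := by
        rw [dist_comm, dist_eq_norm, dist_eq_norm]
        congr 1
        abel
      rw [this]
      by_cases h : dist y (a - (r - τ) • v) ≤ ρ
      · rw [if_pos h, indicator_of_mem (Metric.mem_closedBall.2 h)]; rfl
      · rw [if_neg h, indicator_of_notMem (fun h' => h (Metric.mem_closedBall.1 h'))]
    rw [e1, lintegral_indicator_one Metric.isClosed_closedBall.measurableSet,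
      EuclideanSpace.volume_closedBall_fin_three]
    rw [mul_comm]
    congr 2
    ring
  have hin : ∀ (τ : ℝ) (v : Space3), ∫⁻ y : Space3, ∑' n : ℕ, markW ρm Km n *
      (ENNReal.ofReal (Real.exp (β * ‖v‖ ^ 2)) *
        (if dist a (y + (r - τ) • v) ≤ ρ then (1 : ℝ≥0∞) else 0)) =
      ENNReal.ofReal (Real.exp (β * ‖v‖ ^ 2)) *
        (S * ENNReal.ofReal (4 / 3 * Real.pi) * ENNReal.ofReal ρ ^ 3) := by
    intro τ v
    simp_rw [ENNReal.tsum_mul_right]
    rw [← hS]
    rw [lintegral_const_mul' _ _ hSne, lintegral_const_mul' _ _ ENNReal.ofReal_ne_top, hball]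
    ring
  calc ∫⁻ τ in Ioc (0 : ℝ) T, ∫⁻ v : Space3, Kin796.wG (γ τ) v *
        ∫⁻ y : Space3, ∑' n : ℕ, markW ρm Km n *
          (ENNReal.ofReal (Real.exp (β * ‖v‖ ^ 2)) *
            (if dist a (y + (r - τ) • v) ≤ ρ then (1 : ℝ≥0∞) else 0))
      ≤ ∫⁻ _ in Ioc (0 : ℝ) T, I * (S * ENNReal.ofReal (4 / 3 * Real.pi) *
          ENNReal.ofReal ρ ^ 3) := by
        refine lintegral_mono_ae ?_
        filter_upwards [ae_restrict_mem measurableSet_Ioc] with τ hτ
        simp_rw [hin τ]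
        calc ∫⁻ v : Space3, Kin796.wG (γ τ) v * (ENNReal.ofReal (Real.exp (β * ‖v‖ ^ 2)) *
              (S * ENNReal.ofReal (4 / 3 * Real.pi) * ENNReal.ofReal ρ ^ 3))
            ≤ ∫⁻ v : Space3, ENNReal.ofReal (Real.exp (-((γ₀ - β) * ‖v‖ ^ 2))) *
              (S * ENNReal.ofReal (4 / 3 * Real.pi) * ENNReal.ofReal ρ ^ 3) := by
              refine lintegral_mono fun v => ?_
              simp only
              rw [← mul_assoc]
              refine mul_le_mul_left ?_ _
              unfold Kin796.wG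
              rw [← ENNReal.ofReal_mul (Real.exp_pos _).le, ← Real.exp_add]
              refine ENNReal.ofReal_le_ofReal (Real.exp_le_exp.2 ?_)
              have := hγ₀ τ hτ
              have h2 : 0 ≤ ‖v‖ ^ 2 := by positivity
              nlinarith
          _ = I * (S * ENNReal.ofReal (4 / 3 * Real.pi) * ENNReal.ofReal ρ ^ 3) := by
              rw [hI, lintegral_mul_const _ (by fun_prop)]
    _ = _ := by
        rw [lintegral_const, Measure.restrict_apply_univ, Real.volume_Ioc, sub_zero]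
        ring

/-- mass of the first cluster of a run starting at the line `l` -/
def Bl (Φ : Space3 → ℝ) (f₀ : PhasePoint → ℝ) (ε β T : ℝ) (s : Step) (r : ℝ) (l : ML) : ℝ≥0∞ :=
  ∫⁻ V : Config s.k, gcWeight f₀ ε s.k V * ENNReal.ofReal (Real.exp (2 * β * kin V)) *
    (if AllConn (NContact Φ ε 0 T V) ∧
      dist (flow Φ ε r V s.e).1 (l.1.2.1 + (r - l.1.1) • l.1.2.2) ≤ 3 * ε then 1 else 0)

theorem measurable_blI (hΦ : AdmissiblePotential Φ) (hε : 0 < ε) {f₀ : PhasePoint → ℝ}
    (hf : Measurable f₀) (β T : ℝ) (s : Step) (r : ℝ) :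
    Measurable fun p : ML × Config s.k => gcWeight f₀ ε s.k p.2 *
      ENNReal.ofReal (Real.exp (2 * β * kin p.2)) *
      (if AllConn (NContact Φ ε 0 T p.2) ∧
        dist (flow Φ ε r p.2 s.e).1 (p.1.1.2.1 + (r - p.1.1.1) • p.1.1.2.2) ≤ 3 * ε
        then (1 : ℝ≥0∞) else 0) := by
  refine Measurable.mul (((measurable_gcWeight hf ε s.k).comp measurable_snd).mul ?_) ?_
  · exact ((Real.measurable_exp.comp (measurable_kin.const_mul (2 * β))).ennreal_ofReal).comp
      measurable_snd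
  · refine Measurable.ite (MeasurableSet.inter (measurable_snd (measurableSet_allConn hΦ hε T s.k))
      ?_) measurable_const measurable_const
    refine measurableSet_le (Measurable.dist ?_ (by fun_prop)) measurable_const
    exact (((measurable_pi_apply s.e).comp ((measurable_flow (ι := Fin s.k) hΦ hε r).comp
      measurable_snd))).fst

theorem measurable_bl (hΦ : AdmissiblePotential Φ) (hε : 0 < ε) {f₀ : PhasePoint → ℝ}
    (hf : Measurable f₀) (β T : ℝ) (s : Step) (r : ℝ) : Measurable (Bl Φ f₀ ε β T s r) :=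
  (measurable_blI hΦ hε hf β T s r).lintegral_prod_right'

/-- First cluster, integrated over the line. -/
theorem lintegral_bl_le (hΦ : AdmissiblePotential Φ) (hε : 0 < ε) {f₀ : PhasePoint → ℝ}
    (hf : Measurable f₀) {β T : ℝ} {γ : ℝ → ℝ} {ρm : ℝ≥0∞} {Km : ℕ} {C₁ C₂ : ℝ≥0∞}
    (hC₁ : C₁ ≠ ∞) (hl : ∀ (a : Space3) (r ρ : ℝ), 0 ≤ ρ →
      ∫⁻ l, ENNReal.ofReal (Real.exp (β * ‖l.1.2.2‖ ^ 2)) *
        (if dist a (l.1.2.1 + (r - l.1.1) • l.1.2.2) ≤ ρ then 1 else 0) ∂lineM γ ρm Km T ≤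
        C₁ * ENNReal.ofReal ρ ^ 3) (s : Step) (r : ℝ)
    (hc : ∫⁻ V : Config s.k, gcWeight f₀ ε s.k V * ENNReal.ofReal (Real.exp (2 * β * kin V)) *
          (if AllConn (NContact Φ ε 0 T V) then 1 else 0) ≤
        C₂ * ENNReal.ofReal ε ^ (2 * (s.k - 1))) :
    ∫⁻ l, ENNReal.ofReal (Real.exp (β * ‖l.1.2.2‖ ^ 2)) * Bl Φ f₀ ε β T s r l ∂lineM γ ρm Km T ≤
      (C₁ * C₂) * ENNReal.ofReal ε ^ (2 * (s.k - 1)) * ENNReal.ofReal (3 * ε) ^ 3 := by
  have hm := measurable_blI hΦ hε hf β T s r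
  have hm2 : Measurable fun p : ML × Config s.k =>
      ENNReal.ofReal (Real.exp (β * ‖p.1.1.2.2‖ ^ 2)) * (gcWeight f₀ ε s.k p.2 *
      ENNReal.ofReal (Real.exp (2 * β * kin p.2)) *
      (if AllConn (NContact Φ ε 0 T p.2) ∧
        dist (flow Φ ε r p.2 s.e).1 (p.1.1.2.1 + (r - p.1.1.1) • p.1.1.2.2) ≤ 3 * ε
        then (1 : ℝ≥0∞) else 0)) := Measurable.mul (by fun_prop) hm
  calc ∫⁻ l, ENNReal.ofReal (Real.exp (β * ‖l.1.2.2‖ ^ 2)) * Bl Φ f₀ ε β T s r l
        ∂lineM γ ρm Km T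
      = ∫⁻ l : ML, (∫⁻ V : Config s.k, ENNReal.ofReal (Real.exp (β * ‖l.1.2.2‖ ^ 2)) *
          (gcWeight f₀ ε s.k V * ENNReal.ofReal (Real.exp (2 * β * kin V)) *
          (if AllConn (NContact Φ ε 0 T V) ∧
            dist (flow Φ ε r V s.e).1 (l.1.2.1 + (r - l.1.1) • l.1.2.2) ≤ 3 * ε
            then (1 : ℝ≥0∞) else 0))) ∂lineM γ ρm Km T := by
        refine lintegral_congr fun l => ?_
        unfold Bl
        rw [lintegral_const_mul' _ _ ENNReal.ofReal_ne_top]
    _ = ∫⁻ V : Config s.k, (∫⁻ l : ML, ENNReal.ofReal (Real.exp (β * ‖l.1.2.2‖ ^ 2)) *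
          (gcWeight f₀ ε s.k V * ENNReal.ofReal (Real.exp (2 * β * kin V)) *
          (if AllConn (NContact Φ ε 0 T V) ∧
            dist (flow Φ ε r V s.e).1 (l.1.2.1 + (r - l.1.1) • l.1.2.2) ≤ 3 * ε
            then (1 : ℝ≥0∞) else 0)) ∂lineM γ ρm Km T) :=
        lintegral_lintegral_swap hm2.aemeasurable
    _ ≤ ∫⁻ V : Config s.k, (gcWeight f₀ ε s.k V * ENNReal.ofReal (Real.exp (2 * β * kin V)) *
          (if AllConn (NContact Φ ε 0 T V) then 1 else 0)) *
            (C₁ * ENNReal.ofReal (3 * ε) ^ 3) := by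
        refine lintegral_mono fun V => ?_
        simp only
        set g : ℝ≥0∞ := gcWeight f₀ ε s.k V * ENNReal.ofReal (Real.exp (2 * β * kin V)) with hg
        by_cases hV : AllConn (NContact Φ ε 0 T V)
        · rw [if_pos hV, mul_one]
          have e1 : ∀ l : ML, ENNReal.ofReal (Real.exp (β * ‖l.1.2.2‖ ^ 2)) * (g *
              (if AllConn (NContact Φ ε 0 T V) ∧
                dist (flow Φ ε r V s.e).1 (l.1.2.1 + (r - l.1.1) • l.1.2.2) ≤ 3 * ε
                then (1 : ℝ≥0∞) else 0)) =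
              g * (ENNReal.ofReal (Real.exp (β * ‖l.1.2.2‖ ^ 2)) *
              (if dist (flow Φ ε r V s.e).1 (l.1.2.1 + (r - l.1.1) • l.1.2.2) ≤ 3 * ε
                then (1 : ℝ≥0∞) else 0)) := by
            intro l
            simp only [hV, true_and]
            ring
          simp_rw [e1]
          rw [lintegral_const_mul]
          · exact mul_le_mul_right (hl _ r (3 * ε) (by positivity)) _
          · refine Measurable.mul (by fun_prop) (Measurable.ite ?_ measurable_const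
              measurable_const)
            exact measurableSet_le (by fun_prop) measurable_const
        · simp [hV]
    _ = (∫⁻ V : Config s.k, gcWeight f₀ ε s.k V * ENNReal.ofReal (Real.exp (2 * β * kin V)) *
          (if AllConn (NContact Φ ε 0 T V) then 1 else 0)) *
            (C₁ * ENNReal.ofReal (3 * ε) ^ 3) :=
        lintegral_mul_const' _ _ (ENNReal.mul_ne_top hC₁
          (ENNReal.pow_ne_top ENNReal.ofReal_ne_top))
    _ ≤ (C₂ * ENNReal.ofReal ε ^ (2 * (s.k - 1))) * (C₁ * ENNReal.ofReal (3 * ε) ^ 3) :=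
        mul_le_mul_left hc _
    _ = _ := by ring

/-- bound of one grid run from the line `l` -/
def Ub (Φ : Space3 → ℝ) (f₀ : PhasePoint → ℝ) (ε β T : ℝ) (C : ℝ≥0∞) (N : ℕ) (l : ML) :
    List (Step × ℝ) → ℝ≥0∞
  | [] => ∞
  | (s, r) :: l' => ENNReal.ofReal (Real.exp (-(2 * β * (N - 1)))) *
      activity ε ^ (tot ((s, r) :: l')) *
      (l'.map fun p => C * ENNReal.ofReal ε ^ (2 * (p.1.k - 1)) *
        ENNReal.ofReal (3 * ε) ^ 3).prod *
      (ENNReal.ofReal (Real.exp (β * ‖l.1.2.2‖ ^ 2)) * Bl Φ f₀ ε β T s r l)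

theorem measurable_ub (hΦ : AdmissiblePotential Φ) (hε : 0 < ε) {f₀ : PhasePoint → ℝ}
    (hf : Measurable f₀) (β T : ℝ) (C : ℝ≥0∞) (N : ℕ) (L : List (Step × ℝ)) :
    Measurable fun l => Ub Φ f₀ ε β T C N l L := by
  rcases L with _ | ⟨⟨s, r⟩, l'⟩
  · exact measurable_const
  · unfold Ub
    exact Measurable.const_mul (Measurable.mul (by fun_prop) (measurable_bl hΦ hε hf β T s r)) _

/-- Pointwise bound. -/
theorem gcE_GI_line_le (hΦ : AdmissiblePotential Φ) {f₀ : PhasePoint → ℝ} (hf : Measurable f₀)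
    (h1 : ∫⁻ z, ENNReal.ofReal (f₀ z) ≤ 1) (hε : 0 < ε) {T β : ℝ} (hβ : 0 ≤ β) {K : ℕ}
    {C : ℝ≥0∞} (hCtop : C ≠ ∞)
    (hC : ∀ k ≤ K, ∀ (e : Fin k) (r : ℝ), 0 ≤ r → r ≤ T → ∀ a : Space3,
      ∫⁻ V : Config k, gcWeight f₀ ε k V * ENNReal.ofReal (Real.exp (2 * β * kin V)) *
          (if AllConn (NContact Φ ε 0 T V) ∧ dist (flow Φ ε r V e).1 a ≤ 3 * ε then 1 else 0) ≤
        C * ENNReal.ofReal ε ^ (2 * (k - 1)) * ENNReal.ofReal (3 * ε) ^ 3)
    (l : ML) (N : ℕ) (L : List (Step × ℝ))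
    (hk : ∀ p ∈ L, 1 ≤ p.1.k ∧ p.1.k ≤ K) (ht : ∀ p ∈ L, p.2 ∈ Icc (0 : ℝ) T) :
    gcE f₀ ε (fun n w => ∑ ι : Fin (tot L) ↪ Fin n,
      GI Φ ε T Unit (MW.line l) () N L (fun i => w (ι i))) ≤ Ub Φ f₀ ε β T C N l L := by
  rcases L with _ | ⟨⟨s, r⟩, l'⟩
  · exact le_top
  refine (gcE_sum_emb_le hf h1 ε (GI Φ ε T Unit (MW.line l) () N _)
    (measurable_GI hΦ hε T Unit (MW.line l) () N _)).trans ?_
  have hle : ∀ V : Config (tot ((s, r) :: l')), GI Φ ε T Unit (MW.line l) () N ((s, r) :: l') V ≤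
      ENNReal.ofReal (Real.exp (2 * β * (kin (MW.line l).z - (N - 1)))) *
        (ENNReal.ofReal (Real.exp (2 * β * kin V)) *
          (if Ch Φ ε T (3 * ε) ((s, r) :: l') Unit (MW.line l) () V then (1 : ℝ≥0∞) else 0)) := by
    intro V
    unfold GI
    by_cases h : Ch Φ ε T (3 * ε) ((s, r) :: l') Unit (MW.line l) () V ∧
        (N : ℝ) - 1 ≤ kin (MW.line l).z + kin V
    · rw [if_pos h, if_pos h.1, mul_one, ← ENNReal.ofReal_mul (Real.exp_pos _).le, ← Real.exp_add,
        ENNReal.one_le_ofReal, Real.one_le_exp_iff]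
      have := h.2
      have e : 2 * β * (kin (MW.line l).z - (N - 1)) + 2 * β * kin V =
        2 * β * (kin (MW.line l).z + kin V - (N - 1)) := by ring
      rw [e]
      refine mul_nonneg (by positivity) (by linarith)
    · rw [if_neg h]; exact bot_le
  have hr := ht (s, r) (List.mem_cons_self ..)
  have hstep := lintegral_ch_cons hΦ hf hε (ρ := 3 * ε) (κ := 2 * β) hCtop hC s r l'
    (fun p hp => (hk p (List.mem_cons_of_mem _ hp)).2)
    (fun p hp => ht p (List.mem_cons_of_mem _ hp)) Unit (MW.line l) ()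
  rw [line_path hΦ hε l hr.1] at hstep
  have hee : ENNReal.ofReal (Real.exp (2 * β * (kin (MW.line l).z - (N - 1)))) =
      ENNReal.ofReal (Real.exp (-(2 * β * (N - 1)))) *
        ENNReal.ofReal (Real.exp (β * ‖l.1.2.2‖ ^ 2)) := by
    rw [← ENNReal.ofReal_mul (Real.exp_pos _).le, ← Real.exp_add, kin_line]
    congr 2
    ring
  calc activity ε ^ tot ((s, r) :: l') * ∫⁻ V : Config (tot ((s, r) :: l')),
        gcWeight f₀ ε (tot ((s, r) :: l')) V * GI Φ ε T Unit (MW.line l) () N ((s, r) :: l') V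
      ≤ activity ε ^ tot ((s, r) :: l') * ∫⁻ V : Config (tot ((s, r) :: l')),
          ENNReal.ofReal (Real.exp (2 * β * (kin (MW.line l).z - (N - 1)))) *
          (gcWeight f₀ ε (tot ((s, r) :: l')) V * (ENNReal.ofReal (Real.exp (2 * β * kin V)) *
          (if Ch Φ ε T (3 * ε) ((s, r) :: l') Unit (MW.line l) () V then (1 : ℝ≥0∞) else 0))) := by
        refine mul_le_mul_right (lintegral_mono fun V => ?_) _
        calc gcWeight f₀ ε (tot ((s, r) :: l')) V *
              GI Φ ε T Unit (MW.line l) () N ((s, r) :: l') V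
            ≤ gcWeight f₀ ε (tot ((s, r) :: l')) V *
              (ENNReal.ofReal (Real.exp (2 * β * (kin (MW.line l).z - (N - 1)))) *
              (ENNReal.ofReal (Real.exp (2 * β * kin V)) *
              (if Ch Φ ε T (3 * ε) ((s, r) :: l') Unit (MW.line l) () V
                then (1 : ℝ≥0∞) else 0))) := mul_le_mul_right (hle V) _
          _ = _ := by ring
    _ = ENNReal.ofReal (Real.exp (2 * β * (kin (MW.line l).z - (N - 1)))) *
          (activity ε ^ tot ((s, r) :: l') *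
          ∫⁻ V : Config (tot ((s, r) :: l')), gcWeight f₀ ε (tot ((s, r) :: l')) V *
            (ENNReal.ofReal (Real.exp (2 * β * kin V)) *
            (if Ch Φ ε T (3 * ε) ((s, r) :: l') Unit (MW.line l) () V
              then (1 : ℝ≥0∞) else 0))) := by
        rw [lintegral_const_mul' _ _ ENNReal.ofReal_ne_top]
        ring
    _ ≤ ENNReal.ofReal (Real.exp (2 * β * (kin (MW.line l).z - (N - 1)))) *
          (activity ε ^ tot ((s, r) :: l') * (Bl Φ f₀ ε β T s r l *
          (l'.map fun p => C * ENNReal.ofReal ε ^ (2 * (p.1.k - 1)) *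
            ENNReal.ofReal (3 * ε) ^ 3).prod)) :=
        mul_le_mul_right (mul_le_mul_right hstep _) _
    _ = Ub Φ f₀ ε β T C N l ((s, r) :: l') := by
        rw [hee]
        unfold Ub
        ring

/-- Integral of the bound over the line. -/
theorem lintegral_ub_le (hΦ : AdmissiblePotential Φ) (hε : 0 < ε) {f₀ : PhasePoint → ℝ}
    (hf : Measurable f₀) {β T : ℝ} {γ : ℝ → ℝ} {ρm : ℝ≥0∞} {Km K : ℕ} {C C₁ C₂ : ℝ≥0∞}
    (hCtop : C ≠ ∞) (hC₁ : C₁ ≠ ∞) (hl : ∀ (a : Space3) (r ρ : ℝ), 0 ≤ ρ →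
      ∫⁻ l, ENNReal.ofReal (Real.exp (β * ‖l.1.2.2‖ ^ 2)) *
        (if dist a (l.1.2.1 + (r - l.1.1) • l.1.2.2) ≤ ρ then 1 else 0) ∂lineM γ ρm Km T ≤
        C₁ * ENNReal.ofReal ρ ^ 3)
    (hc : ∀ k, 1 ≤ k → k ≤ K → ∫⁻ V : Config k, gcWeight f₀ ε k V *
        ENNReal.ofReal (Real.exp (2 * β * kin V)) *
          (if AllConn (NContact Φ ε 0 T V) then 1 else 0) ≤
        C₂ * ENNReal.ofReal ε ^ (2 * (k - 1))) (N : ℕ) (L : List (Step × ℝ)) (hL : L ≠ [])
    (hk : ∀ p ∈ L, 1 ≤ p.1.k ∧ p.1.k ≤ K) :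
    ∫⁻ l, Ub Φ f₀ ε β T C N l L ∂lineM γ ρm Km T ≤
      ENNReal.ofReal (Real.exp (-(2 * β * (N - 1)))) *
        (27 * (C + C₁ * C₂) * ENNReal.ofReal ε) ^ L.length := by
  rcases L with _ | ⟨⟨s, r⟩, l'⟩
  · exact absurd rfl hL
  have hks := hk (s, r) (List.mem_cons_self ..)
  have h1 := lintegral_bl_le hΦ hε hf hC₁ hl s r (hc s.k hks.1 hks.2)
  have hPtop : (l'.map fun p => C * ENNReal.ofReal ε ^ (2 * (p.1.k - 1)) *
        ENNReal.ofReal (3 * ε) ^ 3).prod ≠ ∞ := by
    refine list_prod_ne_top _ ?_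
    intro x hx
    rw [List.mem_map] at hx
    obtain ⟨p, -, rfl⟩ := hx
    exact ENNReal.mul_ne_top (ENNReal.mul_ne_top hCtop (ENNReal.pow_ne_top ENNReal.ofReal_ne_top))
      (ENNReal.pow_ne_top ENNReal.ofReal_ne_top)
  have hc0 : ENNReal.ofReal (Real.exp (-(2 * β * (N - 1)))) *
      activity ε ^ (tot ((s, r) :: l')) *
      (l'.map fun p => C * ENNReal.ofReal ε ^ (2 * (p.1.k - 1)) *
        ENNReal.ofReal (3 * ε) ^ 3).prod ≠ ∞ := by
    refine ENNReal.mul_ne_top (ENNReal.mul_ne_top ENNReal.ofReal_ne_top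
      (ENNReal.pow_ne_top ?_)) hPtop
    unfold activity
    exact ENNReal.ofReal_ne_top
  change ∫⁻ l, ENNReal.ofReal (Real.exp (-(2 * β * (N - 1)))) *
      activity ε ^ (tot ((s, r) :: l')) *
      (l'.map fun p => C * ENNReal.ofReal ε ^ (2 * (p.1.k - 1)) *
        ENNReal.ofReal (3 * ε) ^ 3).prod *
      (ENNReal.ofReal (Real.exp (β * ‖l.1.2.2‖ ^ 2)) * Bl Φ f₀ ε β T s r l) ∂lineM γ ρm Km T ≤ _
  rw [lintegral_const_mul' _ _ hc0]
  have ha : activity ε * ENNReal.ofReal (3 * ε) ^ 3 = 27 * ENNReal.ofReal ε := by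
    unfold activity
    rw [← ENNReal.ofReal_pow (by positivity), ← ENNReal.ofReal_mul (by positivity)]
    have : (ε ^ 2)⁻¹ * (3 * ε) ^ 3 = 27 * ε := by field_simp; ring
    rw [this, ENNReal.ofReal_mul (by norm_num)]
    congr 1
    exact ENNReal.ofReal_ofNat 27
  have h2 := activity_pow_mul hε hks.1
  have h3 := activity_tot (C := C) hε l' fun p hp => (hk p (List.mem_cons_of_mem _ hp)).1
  calc ENNReal.ofReal (Real.exp (-(2 * β * (N - 1)))) * activity ε ^ (tot ((s, r) :: l')) *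
      (l'.map fun p => C * ENNReal.ofReal ε ^ (2 * (p.1.k - 1)) *
        ENNReal.ofReal (3 * ε) ^ 3).prod *
      ∫⁻ l, ENNReal.ofReal (Real.exp (β * ‖l.1.2.2‖ ^ 2)) * Bl Φ f₀ ε β T s r l ∂lineM γ ρm Km T
      ≤ ENNReal.ofReal (Real.exp (-(2 * β * (N - 1)))) * activity ε ^ (tot ((s, r) :: l')) *
      (l'.map fun p => C * ENNReal.ofReal ε ^ (2 * (p.1.k - 1)) *
        ENNReal.ofReal (3 * ε) ^ 3).prod *
      ((C₁ * C₂) * ENNReal.ofReal ε ^ (2 * (s.k - 1)) * ENNReal.ofReal (3 * ε) ^ 3) :=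
        mul_le_mul_right h1 _
    _ = ENNReal.ofReal (Real.exp (-(2 * β * (N - 1)))) *
        (activity ε ^ tot l' * (l'.map fun p => C * ENNReal.ofReal ε ^ (2 * (p.1.k - 1)) *
        ENNReal.ofReal (3 * ε) ^ 3).prod) * (activity ε ^ s.k *
          ENNReal.ofReal ε ^ (2 * (s.k - 1)) * (C₁ * C₂) * ENNReal.ofReal (3 * ε) ^ 3) := by
        change ENNReal.ofReal (Real.exp (-(2 * β * (N - 1)))) * activity ε ^ (s.k + tot l') * _ *
          _ = _
        rw [pow_add]
        ring
    _ = ENNReal.ofReal (Real.exp (-(2 * β * (N - 1)))) *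
        ((27 * C * ENNReal.ofReal ε) ^ l'.length * (27 * (C₁ * C₂) * ENNReal.ofReal ε)) := by
        rw [h3, h2]
        have : activity ε * (C₁ * C₂) * ENNReal.ofReal (3 * ε) ^ 3 =
          27 * (C₁ * C₂) * ENNReal.ofReal ε := by
          calc activity ε * (C₁ * C₂) * ENNReal.ofReal (3 * ε) ^ 3
              = (activity ε * ENNReal.ofReal (3 * ε) ^ 3) * (C₁ * C₂) := by ring
            _ = _ := by rw [ha]; ring
        rw [this]
        ring
    _ ≤ ENNReal.ofReal (Real.exp (-(2 * β * (N - 1)))) *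
        ((27 * (C + C₁ * C₂) * ENNReal.ofReal ε) ^ l'.length *
          (27 * (C + C₁ * C₂) * ENNReal.ofReal ε)) := by
        refine mul_le_mul_right (mul_le_mul' (pow_le_pow_left' ?_ _) ?_) _
        · exact mul_le_mul_left (mul_le_mul_right le_self_add _) _
        · exact mul_le_mul_left (mul_le_mul_right le_add_self _) _
    _ = _ := by rw [← pow_succ]; rfl



end Crest.Agent.R122.LinkM547

end
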