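import Crest.Agent.R122.TreeF_399

/-!
Row 122, block C3 (helper399): the limit `ε → 0` of the explicit tree trajectories at fixed
parameters: `Valid` and `Sep` hold eventually, `path ε → path 0` uniformly in time.
-/

set_option autoImplicit false

open MeasureTheory Set Filter
open scoped ENNReal Topology Classical
open Crest.AnalysisR.Kinetic Crest.Agent.R122.Kin796 Crest.Agent.R122.Disc416
  Crest.Agent.R122.Kin416 Crest.Agent.R122.Boltz814 Crest.Agent.R122.Tree674
  Crest.Agent.R122.Scat818 Crest.Agent.R122.TreeF399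

noncomputable section

namespace Crest.Agent.R122.TreeEps399

variable {Φ : Space3 → ℝ}

/-- `ε → 0+` -/
abbrev L : Filter ℝ := 𝓝[>] (0 : ℝ)

theorem tendsto_eps : Tendsto (fun ε : ℝ => ε) L (𝓝 0) := tendsto_id.mono_left nhdsWithin_le_nhds

theorem eventually_pos : ∀ᶠ ε in L, 0 < ε := eventually_mem_nhdsWithin

theorem eventually_mul_lt (K : ℝ) {η : ℝ} (hη : 0 < η) : ∀ᶠ ε in L, ε * K < η := by
  have h : Tendsto (fun ε : ℝ => ε * K) L (𝓝 (0 * K)) := tendsto_eps.mul_const K
  rw [zero_mul] at h
  exact h.eventually (gt_mem_nhds hη)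

/-! ### Elementary facts on nodes -/

theorem tau_nonneg (Φ : Space3 → ℝ) (b g : Space3) : 0 ≤ tau Φ b g := by
  by_cases h : NT Φ b g
  · exact (passage_spec h).1.le
  · unfold tau
    rw [dif_neg h]

theorem adm1_disc {v : Space3} {a : NodeP} (h : Adm1 Φ v a) :
    nb v a ∈ impactDisc (ng v a) ∧ ng v a ≠ 0 := by
  have hg : ng v a ≠ 0 := sub_ne_zero.mpr h.2.1
  exact ⟨frameMap_mem_impactDisc hg (by simpa using h.1), hg⟩


theorem sin_le {ε : ℝ} (hε : 0 ≤ ε) (v : Space3) (a : NodeP) : Tree674.sin Φ ε v a ≤ a.1 := by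
  unfold Tree674.sin
  have := mul_nonneg hε (tau_nonneg Φ (nb v a) (ng v a))
  linarith

theorem sin_zero (v : Space3) (a : NodeP) : Tree674.sin Φ 0 v a = a.1 := by
  simp [Tree674.sin]

theorem tendsto_sin (v : Space3) (a : NodeP) :
    Tendsto (fun ε => Tree674.sin Φ ε v a) L (𝓝 a.1) := by
  have h : Tendsto (fun ε : ℝ => a.1 - ε * tau Φ (nb v a) (ng v a)) L
      (𝓝 (a.1 - 0 * tau Φ (nb v a) (ng v a))) :=
    tendsto_const_nhds.sub (tendsto_eps.mul_const _)
  simpa [Tree674.sin] using h

/-- the relative incoming velocity -/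
theorem preV_sub (v : Space3) (a : NodeP) :
    (preV Φ v a).1 - (preV Φ v a).2 = exitVelocity Φ (nb v a) (ng v a) := by
  simp only [preV, postVelocities, ng]
  module

theorem hasExit_of_adm (hΦ : AdmissiblePotential Φ) {v : Space3} {a : NodeP} (h : Adm1 Φ v a) :
    HasExit Φ (inc (nb v a) (ng v a)) (tau Φ (nb v a) (ng v a)) ∧
      ∀ s, qpath Φ (nb v a) (ng v a) s = (relFlow Φ s (inc (nb v a) (ng v a))).1 := by
  obtain ⟨hb, hg⟩ := adm1_disc h
  exact (passage_iff hΦ (reg_entrance Φ hb hg)).mp (passage_spec h.2.2)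

theorem inner_qx (hΦ : AdmissiblePotential Φ) {v : Space3} {a : NodeP} (h : Adm1 Φ v a) :
    0 < inner ℝ (qx Φ (nb v a) (ng v a)) (exitVelocity Φ (nb v a) (ng v a)) := by
  obtain ⟨hb, hg⟩ := adm1_disc h
  obtain ⟨he, hq⟩ := hasExit_of_adm hΦ h
  have h1 := he.inner_pos hΦ (reg_entrance Φ hb hg)
  rw [Scat818.exitVelocity_eq hΦ (reg_entrance Φ hb hg) he, qx, hq]
  exact h1

theorem norm_qx {v : Space3} {a : NodeP} (h : Adm1 Φ v a) : ‖qx Φ (nb v a) (ng v a)‖ = 1 :=
  (passage_spec h.2.2).2.2.2.2.2.2

theorem norm_qpath_le {v : Space3} {a : NodeP} (h : Adm1 Φ v a) {s : ℝ} (hs0 : 0 ≤ s)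
    (hs : s ≤ tau Φ (nb v a) (ng v a)) : ‖qpath Φ (nb v a) (ng v a) s‖ ≤ 1 := by
  obtain ⟨hb, hg⟩ := adm1_disc h
  obtain ⟨_, h0, _, _, _, hin, hout⟩ := passage_spec h.2.2
  rcases hs0.eq_or_lt with h1 | h1
  · rw [← h1, h0, norm_entrance hb hg]
  · rcases hs.eq_or_lt with h2 | h2
    · rw [h2]; exact hout.le
    · exact (hin s ⟨h1, h2⟩).le

/-- two diverging lines stay more than `ε` apart -/
theorem diverge {q g : Space3} {ε r : ℝ} (hε : 0 < ε) (hr : 0 < r) (hq : ‖q‖ = 1)
    (hqg : 0 < inner ℝ q g) : ε < ‖ε • q + r • g‖ := by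
  have h1 : ‖ε • q + r • g‖ ^ 2 = ε ^ 2 + 2 * (ε * r * inner ℝ q g) + r ^ 2 * ‖g‖ ^ 2 := by
    rw [norm_add_sq_real, norm_smul, norm_smul, inner_smul_left, inner_smul_right, hq]
    simp only [conj_trivial, Real.norm_eq_abs, mul_one, mul_pow, sq_abs]
    ring
  have h2 : ε ^ 2 < ‖ε • q + r • g‖ ^ 2 := by
    rw [h1]
    have : 0 < ε * r * inner ℝ q g := by positivity
    have : 0 ≤ r ^ 2 * ‖g‖ ^ 2 := by positivity
    linarith
  exact lt_of_pow_lt_pow_left₀ 2 (norm_nonneg _) h2

/-! ### The incoming lines as functions of `ε` -/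

/-- first order shift of the first incoming line -/
def c1 (Φ : Space3 → ℝ) (v : Space3) (a : NodeP) : Space3 :=
  (1 / 2 : ℝ) • entrancePoint (nb v a) (ng v a) - tau Φ (nb v a) (ng v a) • cmv v a
    - (1 / 2 : ℝ) • qx Φ (nb v a) (ng v a) + tau Φ (nb v a) (ng v a) • (preV Φ v a).1

/-- first order shift of the second incoming line -/
def c2 (Φ : Space3 → ℝ) (v : Space3) (a : NodeP) : Space3 :=
  (1 / 2 : ℝ) • entrancePoint (nb v a) (ng v a) - tau Φ (nb v a) (ng v a) • cmv v a
    + (1 / 2 : ℝ) • qx Φ (nb v a) (ng v a) + tau Φ (nb v a) (ng v a) • (preV Φ v a).2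

theorem inMap_eq (ε : ℝ) (Y v : Space3) (a : NodeP) :
    inMap Φ ε (Y, v) a =
      ((Y + a.1 • v - a.1 • (preV Φ v a).1 + ε • c1 Φ v a, (preV Φ v a).1),
       (Y + a.1 • v - a.1 • (preV Φ v a).2 + ε • c2 Φ v a, (preV Φ v a).2)) := by
  simp only [inMap, xin, cms, Tree674.sin, c1, c2, Prod.mk.injEq, and_true]
  constructor
  · module
  · module



theorem tendsto_in1 {X : ℝ → Space3} {X0 : Space3} (hX : Tendsto X L (𝓝 X0)) (v : Space3)
    (a : NodeP) :
    Tendsto (fun ε => (inMap Φ ε (X ε, v) a).1.1) L (𝓝 (inMap Φ 0 (X0, v) a).1.1) := by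
  simp only [inMap_eq]
  exact ((hX.add_const _).sub_const _).add (tendsto_eps.smul_const _)

theorem tendsto_in2 {X : ℝ → Space3} {X0 : Space3} (hX : Tendsto X L (𝓝 X0)) (v : Space3)
    (a : NodeP) :
    Tendsto (fun ε => (inMap Φ ε (X ε, v) a).2.1) L (𝓝 (inMap Φ 0 (X0, v) a).2.1) := by
  simp only [inMap_eq]
  exact ((hX.add_const _).sub_const _).add (tendsto_eps.smul_const _)

/-! ### Validity -/

theorem ord_eventually (P : CTree) (v : Space3) (p : Par P) (T : ℝ → ℝ) (T0 : ℝ)
    (hT : Tendsto T L (𝓝 T0)) (h : Tree674.Ord Φ 0 P T0 v p) :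
    ∀ᶠ ε in L, Tree674.Ord Φ ε P (T ε) v p := by
  induction P generalizing v T T0 with
  | leaf => exact Eventually.of_forall fun _ => trivial
  | node l r hl hr =>
    obtain ⟨h1, h2, h3, h4⟩ := h
    rw [sin_zero] at h2 h3 h4
    have e1 : ∀ᶠ ε in L, p.1.1 < T ε := hT.eventually (lt_mem_nhds h1)
    have e2 : ∀ᶠ ε in L, 0 < Tree674.sin Φ ε v p.1 :=
      (tendsto_sin v p.1).eventually (lt_mem_nhds h2)
    filter_upwards [e1, e2, hl _ p.2.1 _ _ (tendsto_sin v p.1) h3,
      hr _ p.2.2 _ _ (tendsto_sin v p.1) h4] with ε a1 a2 a3 a4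
    exact ⟨a1, a2, a3, a4⟩

/-- **C3a** -/
theorem valid_eventually (P : CTree) (v : Space3) (p : Par P) (T : ℝ)
    (h : Valid Φ 0 P T v p) : ∀ᶠ ε in L, Valid Φ ε P T v p := by
  filter_upwards [ord_eventually P v p (fun _ => T) T tendsto_const_nhds h.2] with ε hε
  exact ⟨h.1, hε⟩

/-! ### The root is on its line after its last collision -/

/-- `u` is later than the exit time of the top node -/
def Top : ∀ P : CTree, Par P → ℝ → Prop
  | .leaf => fun _ _ => True
  | .node _ _ => fun p u => p.1.1 < u

theorem Top.mono {P : CTree} {p : Par P} {u u' : ℝ} (h : Top P p u) (hu : u ≤ u') :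
    Top P p u' := by
  cases P with
  | leaf => trivial
  | node l r => exact lt_of_lt_of_le h hu

theorem top_of_ord {ε : ℝ} {P : CTree} {T : ℝ} {v : Space3} {p : Par P}
    (h : Tree674.Ord Φ ε P T v p) : Top P p T := by
  cases P with
  | leaf => trivial
  | node l r => exact h.1

theorem exists_top {P : CTree} {p : Par P} {s : ℝ} (h : Top P p s) : ∃ κ > 0, Top P p (s - κ) := by
  cases P with
  | leaf => exact ⟨1, one_pos, trivial⟩
  | node l r =>
    have h' : p.1.1 < s := h
    refine ⟨(s - p.1.1) / 2, by linarith, ?_⟩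
    change p.1.1 < s - (s - p.1.1) / 2
    linarith

theorem path_root {ε : ℝ} (hε : 0 ≤ ε) {P : CTree} {ℓ : PhasePoint} {p : Par P} {u : ℝ}
    (h : Top P p u) : path Φ ε P ℓ p u (root P) = onLine ℓ u := by
  cases P with
  | leaf => rfl
  | node l r =>
    have h' : p.1.1 < u := h
    have h1 : ¬ u ≤ Tree674.sin Φ ε ℓ.2 p.1 := not_le.mpr ((sin_le hε _ _).trans_lt h')
    simp only [path, if_neg h1, root, Sum.elim_inl, Function.update_self, colPath, if_pos h'.le]

/-- at the exit time of the top node the root position is still on the outgoing line (`ε = 0`) -/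
theorem path_node_le {ε : ℝ} {l r : CTree} {ℓ : PhasePoint} {p : Par (.node l r)} {u : ℝ}
    (h : u ≤ Tree674.sin Φ ε ℓ.2 p.1) : path Φ ε (.node l r) ℓ p u =
      Sum.elim (path Φ ε l (inMap Φ ε ℓ p.1).1 p.2.1 u)
        (path Φ ε r (inMap Φ ε ℓ p.1).2 p.2.2 u) := by
  simp only [path, if_pos h]

theorem path_node_gt {ε : ℝ} {l r : CTree} {ℓ : PhasePoint} {p : Par (.node l r)} {u : ℝ}
    (h : Tree674.sin Φ ε ℓ.2 p.1 < u) : path Φ ε (.node l r) ℓ p u =
      Sum.elim
          (Function.update (path Φ ε l (inMap Φ ε ℓ p.1).1 p.2.1 u) (root l)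
            (colPath Φ ε ℓ p.1 u).1)
          (Function.update (path Φ ε r (inMap Φ ε ℓ p.1).2 p.2.2 u) (root r)
            (colPath Φ ε ℓ p.1 u).2) := by
  simp only [path, if_neg (not_le.mpr h)]

/-! ### Estimates inside the collision window -/

/-- constant for the window estimate -/
def KK (Φ : Space3 → ℝ) (v : Space3) (a : NodeP) : ℝ :=
  1 + ‖entrancePoint (nb v a) (ng v a)‖ + tau Φ (nb v a) (ng v a) *
    (‖cmv v a - (preV Φ v a).1‖ + ‖cmv v a - (preV Φ v a).2‖)

theorem window_arg {ε u : ℝ} (hε : 0 < ε) {v : Space3} {a : NodeP}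
    (h1 : Tree674.sin Φ ε v a < u) (h2 : u ≤ a.1) :
    0 ≤ (a.1 - u) / ε ∧ (a.1 - u) / ε ≤ tau Φ (nb v a) (ng v a) ∧
      |u - a.1| ≤ ε * tau Φ (nb v a) (ng v a) := by
  unfold Tree674.sin at h1
  refine ⟨div_nonneg (by linarith) hε.le, ?_, ?_⟩
  · rw [div_le_iff₀ hε]; linarith
  · rw [abs_le]
    constructor
    · linarith
    · have := mul_nonneg hε.le (tau_nonneg Φ (nb v a) (ng v a))
      linarith

theorem col_close1 {ε u : ℝ} (hε : 0 < ε) {v : Space3} {a : NodeP} (hA : Adm1 Φ v a)
    (h1 : Tree674.sin Φ ε v a < u) (h2 : u ≤ a.1) (Y Y0 : Space3) :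
    dist (colPath Φ ε (Y, v) a u).1.1 (Y0 + a.1 • v + (u - a.1) • (preV Φ v a).1) ≤
      dist Y Y0 + ε * KK Φ v a := by
  obtain ⟨w1, w2, w3⟩ := window_arg (Φ := Φ) hε h1 h2
  have hK : 0 ≤ KK Φ v a := by
    unfold KK
    have := tau_nonneg Φ (nb v a) (ng v a)
    positivity
  unfold colPath
  split_ifs with h
  · have hu : u = a.1 := le_antisymm h2 h
    subst hu
    simp only [onLine, sub_self, zero_smul, add_zero, dist_add_right]
    have := mul_nonneg hε.le hK
    linarith
  · simp only [pairPath, cms]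
    set q := qpath Φ (nb v a) (ng v a) ((a.1 - u) / ε) with hq
    have hqn : ‖q‖ ≤ 1 := norm_qpath_le hA w1 w2
    have e : (Y + a.1 • v + (ε / 2) • entrancePoint (nb v a) (ng v a) + (u - a.1) • cmv v a -
        (ε / 2) • q) - (Y0 + a.1 • v + (u - a.1) • (preV Φ v a).1) =
        (Y - Y0) + ((ε / 2) • entrancePoint (nb v a) (ng v a) +
          ((u - a.1) • (cmv v a - (preV Φ v a).1) - (ε / 2) • q)) := by module
    rw [dist_eq_norm, e, dist_eq_norm]
    refine (norm_add_le _ _).trans (add_le_add le_rfl ?_)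
    refine (norm_add_le _ _).trans ?_
    refine (add_le_add le_rfl (norm_sub_le _ _)).trans ?_
    rw [norm_smul, norm_smul, norm_smul, Real.norm_eq_abs, Real.norm_eq_abs,
      abs_of_pos (by positivity : (0 : ℝ) < ε / 2)]
    have b1 : |u - a.1| * ‖cmv v a - (preV Φ v a).1‖ ≤
        ε * tau Φ (nb v a) (ng v a) * ‖cmv v a - (preV Φ v a).1‖ :=
      mul_le_mul_of_nonneg_right w3 (norm_nonneg _)
    have b2 : ε / 2 * ‖q‖ ≤ ε / 2 * 1 := mul_le_mul_of_nonneg_left hqn (by positivity)
    have b3 : 0 ≤ ε * tau Φ (nb v a) (ng v a) * ‖cmv v a - (preV Φ v a).2‖ := by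
      have := tau_nonneg Φ (nb v a) (ng v a)
      positivity
    have b4 : 0 ≤ ε / 2 * ‖entrancePoint (nb v a) (ng v a)‖ := by positivity
    unfold KK
    nlinarith [norm_nonneg (entrancePoint (nb v a) (ng v a))]

theorem col_close2 {ε u : ℝ} (hε : 0 < ε) {v : Space3} {a : NodeP} (hA : Adm1 Φ v a)
    (h1 : Tree674.sin Φ ε v a < u) (h2 : u ≤ a.1) (Y Y0 : Space3) :
    dist (colPath Φ ε (Y, v) a u).2.1 (Y0 + a.1 • v + (u - a.1) • (preV Φ v a).2) ≤
      dist Y Y0 + ε * KK Φ v a := by
  obtain ⟨w1, w2, w3⟩ := window_arg (Φ := Φ) hε h1 h2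
  have hK : 0 ≤ KK Φ v a := by
    unfold KK
    have := tau_nonneg Φ (nb v a) (ng v a)
    positivity
  have b0 : 0 ≤ ε * (tau Φ (nb v a) (ng v a) *
      (‖cmv v a - (preV Φ v a).1‖ + ‖cmv v a - (preV Φ v a).2‖)) := by
    have := tau_nonneg Φ (nb v a) (ng v a)
    positivity
  unfold colPath
  split_ifs with h
  · have hu : u = a.1 := le_antisymm h2 h
    have e : ((Y + a.1 • v + ε • entrancePoint (nb v a) (ng v a) - a.1 • a.2.1) + u • a.2.1) -
        (Y0 + a.1 • v + (u - a.1) • (preV Φ v a).2) =
        (Y - Y0) + ε • entrancePoint (nb v a) (ng v a) := by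
      rw [hu]; module
    simp only [onLine, outLine]
    rw [dist_eq_norm, e, dist_eq_norm]
    refine (norm_add_le _ _).trans (add_le_add le_rfl ?_)
    rw [norm_smul, Real.norm_eq_abs, abs_of_pos hε]
    unfold KK
    nlinarith [norm_nonneg (entrancePoint (nb v a) (ng v a))]
  · simp only [pairPath, cms]
    set q := qpath Φ (nb v a) (ng v a) ((a.1 - u) / ε) with hq
    have hqn : ‖q‖ ≤ 1 := norm_qpath_le hA w1 w2
    have e : (Y + a.1 • v + (ε / 2) • entrancePoint (nb v a) (ng v a) + (u - a.1) • cmv v a +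
        (ε / 2) • q) - (Y0 + a.1 • v + (u - a.1) • (preV Φ v a).2) =
        (Y - Y0) + ((ε / 2) • entrancePoint (nb v a) (ng v a) +
          ((u - a.1) • (cmv v a - (preV Φ v a).2) + (ε / 2) • q)) := by module
    rw [dist_eq_norm, e, dist_eq_norm]
    refine (norm_add_le _ _).trans (add_le_add le_rfl ?_)
    refine (norm_add_le _ _).trans ?_
    refine (add_le_add le_rfl (norm_add_le _ _)).trans ?_
    rw [norm_smul, norm_smul, norm_smul, Real.norm_eq_abs, Real.norm_eq_abs,
      abs_of_pos (by positivity : (0 : ℝ) < ε / 2)]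
    have b1 : |u - a.1| * ‖cmv v a - (preV Φ v a).2‖ ≤
        ε * tau Φ (nb v a) (ng v a) * ‖cmv v a - (preV Φ v a).2‖ :=
      mul_le_mul_of_nonneg_right w3 (norm_nonneg _)
    have b2 : ε / 2 * ‖q‖ ≤ ε / 2 * 1 := mul_le_mul_of_nonneg_left hqn (by positivity)
    have b3 : 0 ≤ ε * tau Φ (nb v a) (ng v a) * ‖cmv v a - (preV Φ v a).1‖ := by
      have := tau_nonneg Φ (nb v a) (ng v a)
      positivity
    have b4 : 0 ≤ ε / 2 * ‖entrancePoint (nb v a) (ng v a)‖ := by positivity
    unfold KK
    nlinarith [norm_nonneg (entrancePoint (nb v a) (ng v a))]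

theorem colPath_out {ε u : ℝ} {ℓ : PhasePoint} {a : NodeP} (h : a.1 ≤ u) :
    colPath Φ ε ℓ a u = (onLine ℓ u, onLine (outLine ε ℓ a) u) := by
  unfold colPath
  rw [if_pos h]

/-! ### Uniform convergence of the trajectories -/

/-- **C3b** -/
theorem path_close (P : CTree) (v : Space3) (p : Par P) (T : ℝ) (hA : Adm Φ P v p)
    (hO : Tree674.Ord Φ 0 P T v p) (X : ℝ → Space3) (X0 : Space3) (hX : Tendsto X L (𝓝 X0))
    (η : ℝ) (hη : 0 < η) :
    ∀ᶠ ε in L, ∀ (u : ℝ) (i : Idx P),
      dist (path Φ ε P (X ε, v) p u i).1 (path Φ 0 P (X0, v) p u i).1 < η := by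
  induction P generalizing v T X X0 with
  | leaf =>
    filter_upwards [hX.eventually (Metric.ball_mem_nhds X0 hη)] with ε hε u i
    simp only [path, onLine, dist_add_right]
    exact hε
  | node l r hl hr =>
    obtain ⟨hA1, hAl, hAr⟩ := hA
    obtain ⟨hT, h0, hOl, hOr⟩ := hO
    rw [sin_zero] at h0 hOl hOr
    have IHl := hl (preV Φ v p.1).1 p.2.1 p.1.1 hAl hOl _ _ (tendsto_in1 (Φ := Φ) hX v p.1)
    have IHr := hr (preV Φ v p.1).2 p.2.2 p.1.1 hAr hOr _ _ (tendsto_in2 (Φ := Φ) hX v p.1)
    obtain ⟨κl, hκl, htl⟩ := exists_top (top_of_ord hOl)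
    obtain ⟨κr, hκr, htr⟩ := exists_top (top_of_ord hOr)
    have e1 : ∀ᶠ ε in L, p.1.1 - min κl κr < Tree674.sin Φ ε v p.1 :=
      (tendsto_sin v p.1).eventually (lt_mem_nhds (by
        have := lt_min hκl hκr
        linarith))
    have e2 : ∀ᶠ ε in L, dist (X ε) X0 < η / 2 :=
      hX.eventually (Metric.ball_mem_nhds X0 (by positivity))
    have e3 : ∀ᶠ ε in L, ε * KK Φ v p.1 < η / 2 := eventually_mul_lt _ (by positivity)
    have e4 : ∀ᶠ ε in L, ε * ‖entrancePoint (nb v p.1) (ng v p.1)‖ < η / 2 :=
      eventually_mul_lt _ (by positivity)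
    filter_upwards [IHl, IHr, e1, e2, e3, e4, eventually_pos] with ε il ir a1 a2 a3 a4 hε u i
    by_cases hu : u ≤ Tree674.sin Φ ε v p.1
    · -- both before the collision
      have hu0 : u ≤ Tree674.sin Φ 0 v p.1 := by
        rw [sin_zero]; exact hu.trans (sin_le hε.le v p.1)
      rw [path_node_le (ℓ := (X ε, v)) hu, path_node_le (ℓ := (X0, v)) hu0]
      rcases i with i | i
      · exact il u i
      · exact ir u i
    · rw [not_le] at hu
      rw [path_node_gt (ℓ := (X ε, v)) hu]
      by_cases hu0 : u ≤ p.1.1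
      · -- in the window
        rw [path_node_le (ℓ := (X0, v)) (by rw [sin_zero]; exact hu0)]
        rcases i with i | i
        · simp only [Sum.elim_inl]
          by_cases hi : i = root l
          · subst hi
            rw [Function.update_self, path_root le_rfl (htl.mono (by
              have := min_le_left κl κr
              linarith))]
            have h1 := col_close1 hε hA1 hu hu0 (X ε) X0
            have h2 : (onLine (inMap Φ 0 (X0, v) p.1).1 u).1 =
                X0 + p.1.1 • v + (u - p.1.1) • (preV Φ v p.1).1 := by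
              rw [inMap_eq]
              simp only [onLine]
              module
            rw [h2]
            linarith
          · rw [Function.update_of_ne hi]
            exact il u i
        · simp only [Sum.elim_inr]
          by_cases hi : i = root r
          · subst hi
            rw [Function.update_self, path_root le_rfl (htr.mono (by
              have := min_le_right κl κr
              linarith))]
            have h1 := col_close2 hε hA1 hu hu0 (X ε) X0
            have h2 : (onLine (inMap Φ 0 (X0, v) p.1).2 u).1 =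
                X0 + p.1.1 • v + (u - p.1.1) • (preV Φ v p.1).2 := by
              rw [inMap_eq]
              simp only [onLine]
              module
            rw [h2]
            linarith
          · rw [Function.update_of_ne hi]
            exact ir u i
      · -- after the collision
        rw [not_le] at hu0
        rw [path_node_gt (ℓ := (X0, v)) (by rw [sin_zero]; exact hu0)]
        rw [colPath_out hu0.le, colPath_out hu0.le]
        rcases i with i | i
        · simp only [Sum.elim_inl]
          by_cases hi : i = root l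
          · subst hi
            rw [Function.update_self, Function.update_self]
            simp only [onLine, dist_add_right]
            linarith
          · rw [Function.update_of_ne hi, Function.update_of_ne hi]
            exact il u i
        · simp only [Sum.elim_inr]
          by_cases hi : i = root r
          · subst hi
            rw [Function.update_self, Function.update_self]
            simp only [onLine, outLine]
            have e : (X ε + p.1.1 • v + ε • entrancePoint (nb v p.1) (ng v p.1) -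
                p.1.1 • p.1.2.1 + u • p.1.2.1) - (X0 + p.1.1 • v +
                (0 : ℝ) • entrancePoint (nb v p.1) (ng v p.1) - p.1.1 • p.1.2.1 + u • p.1.2.1) =
                (X ε - X0) + ε • entrancePoint (nb v p.1) (ng v p.1) := by module
            rw [dist_eq_norm, e]
            refine (norm_add_le _ _).trans_lt ?_
            rw [norm_smul, Real.norm_eq_abs, abs_of_pos hε, ← dist_eq_norm]
            linarith
          · rw [Function.update_of_ne hi, Function.update_of_ne hi]
            exact ir u i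

/-! ### Continuity of the straight-line trajectories -/

theorem continuous_path0 (P : CTree) (ℓ : PhasePoint) (p : Par P) (T : ℝ)
    (hO : Tree674.Ord Φ 0 P T ℓ.2 p) (i : Idx P) :
    Continuous fun u => (path Φ 0 P ℓ p u i).1 := by
  induction P generalizing ℓ T with
  | leaf =>
    simp only [path, onLine]
    fun_prop
  | node l r hl hr =>
    obtain ⟨hT, h0, hOl, hOr⟩ := hO
    rw [sin_zero] at h0 hOl hOr
    have IHl := fun i => hl (inMap Φ 0 ℓ p.1).1 p.2.1 p.1.1 hOl i
    have IHr := fun i => hr (inMap Φ 0 ℓ p.1).2 p.2.2 p.1.1 hOr i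
    obtain ⟨X0, v⟩ := ℓ
    rcases i with i | i
    · by_cases hi : i = root l
      · subst hi
        have he : (fun u => (path Φ 0 (.node l r) (X0, v) p u (Sum.inl (root l))).1) =
            fun u => if u ≤ p.1.1 then
              (path Φ 0 l (inMap Φ 0 (X0, v) p.1).1 p.2.1 u (root l)).1
              else (onLine (X0, v) u).1 := by
          funext u
          by_cases hu : u ≤ p.1.1
          · rw [path_node_le (ℓ := (X0, v)) (by rw [sin_zero]; exact hu), if_pos hu]
            rfl
          · rw [path_node_gt (ℓ := (X0, v)) (by rw [sin_zero]; exact not_le.mp hu), if_neg hu,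
              colPath_out (not_le.mp hu).le]
            simp
        rw [he]
        refine Continuous.if_le (IHl (root l)) (by simp only [onLine]; fun_prop) continuous_id
          continuous_const ?_
        intro u hu
        subst hu
        rw [path_root le_rfl (top_of_ord hOl), inMap_eq]
        simp only [onLine, id]
        module
      · have he : (fun u => (path Φ 0 (.node l r) (X0, v) p u (Sum.inl i)).1) =
            fun u => (path Φ 0 l (inMap Φ 0 (X0, v) p.1).1 p.2.1 u i).1 := by
          funext u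
          by_cases hu : u ≤ p.1.1
          · rw [path_node_le (ℓ := (X0, v)) (by rw [sin_zero]; exact hu)]
            rfl
          · rw [path_node_gt (ℓ := (X0, v)) (by rw [sin_zero]; exact not_le.mp hu)]
            simp only [Sum.elim_inl]
            rw [Function.update_of_ne hi]
        rw [he]
        exact IHl i
    · by_cases hi : i = root r
      · subst hi
        have he : (fun u => (path Φ 0 (.node l r) (X0, v) p u (Sum.inr (root r))).1) =
            fun u => if u ≤ p.1.1 then
              (path Φ 0 r (inMap Φ 0 (X0, v) p.1).2 p.2.2 u (root r)).1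
              else (onLine (outLine 0 (X0, v) p.1) u).1 := by
          funext u
          by_cases hu : u ≤ p.1.1
          · rw [path_node_le (ℓ := (X0, v)) (by rw [sin_zero]; exact hu), if_pos hu]
            rfl
          · rw [path_node_gt (ℓ := (X0, v)) (by rw [sin_zero]; exact not_le.mp hu), if_neg hu,
              colPath_out (not_le.mp hu).le]
            simp
        rw [he]
        refine Continuous.if_le (IHr (root r)) (by simp only [onLine]; fun_prop) continuous_id
          continuous_const ?_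
        intro u hu
        subst hu
        rw [path_root le_rfl (top_of_ord hOr), inMap_eq]
        simp only [onLine, outLine, id]
        module
      · have he : (fun u => (path Φ 0 (.node l r) (X0, v) p u (Sum.inr i)).1) =
            fun u => (path Φ 0 r (inMap Φ 0 (X0, v) p.1).2 p.2.2 u i).1 := by
          funext u
          by_cases hu : u ≤ p.1.1
          · rw [path_node_le (ℓ := (X0, v)) (by rw [sin_zero]; exact hu)]
            rfl
          · rw [path_node_gt (ℓ := (X0, v)) (by rw [sin_zero]; exact not_le.mp hu)]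
            simp only [Sum.elim_inr]
            rw [Function.update_of_ne hi]
        rw [he]
        exact IHr i

end Crest.Agent.R122.TreeEps399
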