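import Crest.Agent.R122.TreeMeas_674
import Crest.Agent.R122.TreeEps_399
import Crest.Agent.R122.KinQ_416
import Crest.Agent.R122.Scat4_818

/-!
Row 122, block FT (helper818), part 2: Gaussian domination of tree weights.

* `sum_vels`: energy of a tree, `∑ ‖vels j‖² = ‖v‖² + ∑ nodes ‖w‖²`.
* `wt_le`, `wt_mul_exp_le`: the weight is absorbed by a part of the Gaussian.
* `lintegral_box`: integral over all node parameters in the time box.
-/

set_option autoImplicit false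
set_option maxHeartbeats 400000

open MeasureTheory Set Filter
open Crest.AnalysisR.Kinetic
open scoped ENNReal Classical

noncomputable section

namespace Crest.Agent.R122.Tube818

open Tree674 Kin796 Kin796.CTree Disc416 Kin416

variable {Φ : Space3 → ℝ}

/-- Sum of the squares of the outgoing partner velocities. -/
def wSq : ∀ P : CTree, Par P → ℝ
  | leaf => fun _ => 0
  | node l r => fun p => ‖p.1.2.1‖ ^ 2 + (wSq l p.2.1 + wSq r p.2.2)

theorem wSq_nonneg : ∀ (P : CTree) (p : Par P), 0 ≤ wSq P p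
  | leaf, _ => le_rfl
  | node l r, p => by
      have h1 := wSq_nonneg l p.2.1
      have h2 := wSq_nonneg r p.2.2
      have h3 : 0 ≤ ‖p.1.2.1‖ ^ 2 := by positivity
      show 0 ≤ ‖p.1.2.1‖ ^ 2 + (wSq l p.2.1 + wSq r p.2.2)
      linarith


theorem preV_energy (hΦ : AdmissiblePotential Φ) {v : Space3} {a : NodeP} (h : Adm1 Φ v a) :
    ‖(preV Φ v a).1‖ ^ 2 + ‖(preV Φ v a).2‖ ^ 2 = ‖v‖ ^ 2 + ‖a.2.1‖ ^ 2 := by
  have hg : v - a.2.1 ≠ 0 := sub_ne_zero.2 h.2.1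
  refine energy_post (Scat818.scatFacts hΦ) h.2.1 ?_
  refine ⟨inner_frameMap_self _ _, ?_⟩
  show ‖frameMap (v - a.2.1) a.2.2‖ < 1
  rw [norm_frameMap hg]
  exact h.1

/-- **Energy of a tree.** -/
theorem sum_vels (hΦ : AdmissiblePotential Φ) : ∀ (P : CTree) (v : Space3) (p : Par P),
    Adm Φ P v p → ∑ j : Idx P, ‖vels Φ P v p j‖ ^ 2 = ‖v‖ ^ 2 + wSq P p
  | leaf, v, p, _ => by
      show ∑ j : Unit, ‖v‖ ^ 2 = ‖v‖ ^ 2 + 0
      simp
  | node l r, v, p, h => by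
      have h1 := sum_vels hΦ l _ _ h.2.1
      have h2 := sum_vels hΦ r _ _ h.2.2
      have h3 := preV_energy hΦ h.1
      have h4 : ∑ j : Idx (node l r), ‖vels Φ (node l r) v p j‖ ^ 2 =
          ∑ j : Idx l, ‖vels Φ l (preV Φ v p.1).1 p.2.1 j‖ ^ 2 +
          ∑ j : Idx r, ‖vels Φ r (preV Φ v p.1).2 p.2.2 j‖ ^ 2 :=
        Fintype.sum_sum_type (fun j : Idx l ⊕ Idx r => ‖vels Φ (node l r) v p j‖ ^ 2)
      rw [h4, h1, h2]
      show _ = ‖v‖ ^ 2 + (‖p.1.2.1‖ ^ 2 + (wSq l p.2.1 + wSq r p.2.2))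
      linarith

theorem wt_le_aux (hΦ : AdmissiblePotential Φ) : ∀ (P : CTree) (v : Space3) (p : Par P) (E : ℝ),
    Adm Φ P v p → ‖v‖ ^ 2 + wSq P p ≤ E →
      wt Φ P v p ≤ ENNReal.ofReal (1 + E) ^ P.size
  | leaf, v, p, E, _, _ => by
      show (1 : ℝ≥0∞) ≤ ENNReal.ofReal (1 + E) ^ 0
      simp
  | node l r, v, p, E, h, hE => by
      have hE' : ‖v‖ ^ 2 + (‖p.1.2.1‖ ^ 2 + (wSq l p.2.1 + wSq r p.2.2)) ≤ E := hE
      have h3 := preV_energy hΦ h.1
      have hl := wSq_nonneg l p.2.1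
      have hr := wSq_nonneg r p.2.2
      have n1 : 0 ≤ ‖(preV Φ v p.1).1‖ ^ 2 := by positivity
      have n2 : 0 ≤ ‖(preV Φ v p.1).2‖ ^ 2 := by positivity
      have h1 := wt_le_aux hΦ l _ p.2.1 E h.2.1 (by linarith)
      have h2 := wt_le_aux hΦ r _ p.2.2 E h.2.2 (by linarith)
      have h4 : ‖v - p.1.2.1‖ ≤ 1 + E := by
        have e1 := norm_sub_le v p.1.2.1
        have e2 : ‖v‖ ≤ (1 + ‖v‖ ^ 2) / 2 := by nlinarith [sq_nonneg (‖v‖ - 1)]
        have e3 : ‖p.1.2.1‖ ≤ (1 + ‖p.1.2.1‖ ^ 2) / 2 := by nlinarith [sq_nonneg (‖p.1.2.1‖ - 1)]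
        nlinarith [norm_nonneg v, norm_nonneg p.1.2.1]
      show ENNReal.ofReal ‖v - p.1.2.1‖ *
        (wt Φ l (preV Φ v p.1).1 p.2.1 * wt Φ r (preV Φ v p.1).2 p.2.2) ≤ _
      calc _ ≤ ENNReal.ofReal (1 + E) * (ENNReal.ofReal (1 + E) ^ l.size *
            ENNReal.ofReal (1 + E) ^ r.size) :=
            mul_le_mul' (ENNReal.ofReal_le_ofReal h4) (mul_le_mul' h1 h2)
        _ = ENNReal.ofReal (1 + E) ^ (node l r).size := by
            show _ = ENNReal.ofReal (1 + E) ^ (l.size + r.size + 1)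
            ring

theorem wt_le (hΦ : AdmissiblePotential Φ) {P : CTree} {v : Space3} {p : Par P}
    (h : Adm Φ P v p) : wt Φ P v p ≤ ENNReal.ofReal (1 + (‖v‖ ^ 2 + wSq P p)) ^ P.size :=
  wt_le_aux hΦ P v p _ h le_rfl

/-- constant in `wt_mul_exp_le` -/
def cW (a : ℝ) (n : ℕ) : ℝ≥0∞ :=
  ENNReal.ofReal ((n.factorial : ℝ) * (2 / a) ^ n * Real.exp (a / 2))


theorem pow_mul_exp_le {a : ℝ} (ha : 0 < a) (n : ℕ) {E : ℝ} (hE : 0 ≤ E) :
    (1 + E) ^ n * Real.exp (-a * E) ≤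
      (n.factorial : ℝ) * (2 / a) ^ n * Real.exp (a / 2) * Real.exp (-(a / 2) * E) := by
  have h1 : ((a / 2) * (1 + E)) ^ n / (n.factorial : ℝ) ≤ Real.exp ((a / 2) * (1 + E)) :=
    Real.pow_div_factorial_le_exp _ (by positivity) n
  have hf : (0 : ℝ) < n.factorial := by positivity
  have h2 : ((a / 2) * (1 + E)) ^ n ≤ n.factorial * Real.exp ((a / 2) * (1 + E)) := by
    rw [div_le_iff₀ hf] at h1
    linarith
  have h3 : (1 + E) ^ n = (2 / a) ^ n * ((a / 2) * (1 + E)) ^ n := by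
    rw [← mul_pow]
    congr 1
    field_simp
  rw [h3]
  have h4 : Real.exp ((a / 2) * (1 + E)) * Real.exp (-a * E) =
      Real.exp (a / 2) * Real.exp (-(a / 2) * E) := by
    rw [← Real.exp_add, ← Real.exp_add]
    congr 1
    ring
  calc (2 / a) ^ n * (a / 2 * (1 + E)) ^ n * Real.exp (-a * E)
      ≤ (2 / a) ^ n * (n.factorial * Real.exp ((a / 2) * (1 + E))) * Real.exp (-a * E) := by
        gcongr
    _ = (n.factorial : ℝ) * (2 / a) ^ n *
        (Real.exp ((a / 2) * (1 + E)) * Real.exp (-a * E)) := by ring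
    _ = _ := by rw [h4]; ring


/-! ### The box of node parameters -/

/-- all node times in `(0, T)`, all impact parameters in the unit disc -/
def Box (T : ℝ) : ∀ P : CTree, Par P → Prop
  | leaf => fun _ => True
  | node l r => fun p => (p.1.1 ∈ Ioo 0 T ∧ ‖p.1.2.2‖ < 1) ∧ Box T l p.2.1 ∧ Box T r p.2.2

theorem Box.mono {T T' : ℝ} (hT : T ≤ T') : ∀ {P : CTree} {p : Par P}, Box T P p → Box T' P p
  | leaf, _, _ => trivial
  | node _ _, _, h => ⟨⟨⟨h.1.1.1, h.1.1.2.trans_le hT⟩, h.1.2⟩, Box.mono hT h.2.1, Box.mono hT h.2.2⟩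



/-- integral over one node -/
def kN (T a : ℝ) : ℝ≥0∞ :=
  ∫⁻ x : NodeP, {x : NodeP | x.1 ∈ Ioo 0 T ∧ ‖x.2.2‖ < 1}.indicator (fun x => gau a x.2.1) x





/-- constant in `lintegral_wt_le` -/
def cI (T a : ℝ) (n : ℕ) : ℝ≥0∞ := cW a n * kN T (a / 2) ^ n



end Crest.Agent.R122.Tube818
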