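import Crest.Agent.R122.QExitA_814
import Crest.Agent.R122.Tube2_818
import Crest.Agent.R122.KinB_796

/-!
Row 122 (helper814), item G1exit, part B: estimates of one node.

* `AL_le`, `AR_le` : Lyapunov inequality for the forward operator of the last leg;
* `NI_L_le`, `NI_R_le` : one input controlled by a Gaussian, change of variables to the line of the
  other input;
* `NI_top_le` : both inputs controlled by Gaussians, change of variables to the exit line.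
-/

set_option autoImplicit false
set_option synthInstance.maxSize 1024

open MeasureTheory Set Filter Topology
open Crest.AnalysisR.Kinetic
open scoped ENNReal

noncomputable section

namespace Crest.Agent.R122.QExit814

open Kin796 Kin796.CTree Disc416 Kin416 Scat818 Flow671 Flux663 Tree674 Mark307

variable {Φ : Space3 → ℝ} {ε T : ℝ}

/-! ### Elementary facts -/

theorem wG_eq_gau (a : ℝ) (v : Space3) : wG a v = gau a v := by
  unfold wG gau
  congr 2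
  ring


theorem wG_mono {a b : ℝ} (h : a ≤ b) (v : Space3) : wG b v ≤ wG a v := by
  unfold wG
  refine ENNReal.ofReal_le_ofReal (Real.exp_le_exp.2 ?_)
  have := mul_le_mul_of_nonneg_right h (sq_nonneg ‖v‖)
  linarith

theorem one_add_le_exp {δ r : ℝ} (hδ : 0 < δ) :
    1 + r ≤ (2 + 1 / δ) * Real.exp (δ * r ^ 2) := by
  have h1 : δ * r ^ 2 + 1 ≤ Real.exp (δ * r ^ 2) := Real.add_one_le_exp _
  have h2 : r ^ 2 ≤ 1 / δ * Real.exp (δ * r ^ 2) := by
    rw [one_div, inv_mul_eq_div, le_div_iff₀ hδ]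
    nlinarith
  have h3 : 1 ≤ Real.exp (δ * r ^ 2) := Real.one_le_exp (by positivity)
  nlinarith [sq_nonneg (r - 1)]

/-- the constant in `one_add_wG_le` -/
def cA (δ : ℝ) : ℝ≥0∞ := ENNReal.ofReal (2 + 1 / δ)

theorem cA_ne_top (δ : ℝ) : cA δ ≠ ∞ := ENNReal.ofReal_ne_top

theorem one_add_wG_le {δ : ℝ} (hδ : 0 < δ) (a : ℝ) (v : Space3) :
    ENNReal.ofReal (1 + ‖v‖) * wG a v ≤ cA δ * wG (a - δ) v := by
  unfold wG cA
  rw [← ENNReal.ofReal_mul (by positivity), ← ENNReal.ofReal_mul (by positivity)]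
  refine ENNReal.ofReal_le_ofReal ?_
  calc (1 + ‖v‖) * Real.exp (-(a * ‖v‖ ^ 2)) ≤
      ((2 + 1 / δ) * Real.exp (δ * ‖v‖ ^ 2)) * Real.exp (-(a * ‖v‖ ^ 2)) :=
        mul_le_mul_of_nonneg_right (one_add_le_exp hδ) (Real.exp_pos _).le
    _ = (2 + 1 / δ) * Real.exp (-((a - δ) * ‖v‖ ^ 2)) := by
        rw [mul_assoc, ← Real.exp_add]
        congr 2
        ring

theorem lintegral_wG_lt_top {a : ℝ} (ha : 0 < a) : ∫⁻ v : Space3, wG a v < ∞ := by
  have h : ∀ v : Space3, wG a v = gau a v := wG_eq_gau a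
  simp only [h]
  exact lintegral_gau_lt_top ha

/-- area of the unit disc -/
def vD : ℝ≥0∞ := volume (Metric.ball (0 : Disc416.Plane) 1)

theorem vD_ne_top : vD ≠ ∞ := (measure_ball_lt_top (x := (0 : Disc416.Plane)) (r := 1)).ne

/-- integral of a product over the node parameters -/
theorem lintegral_nodeP {A : ℝ → ℝ≥0∞} {B : Space3 → ℝ≥0∞} (hA : Measurable A)
    (hB : Measurable B) :
    ∫⁻ a : NodeP, A a.1 * (B a.2.1 * (Metric.ball (0 : Disc416.Plane) 1).indicator 1 a.2.2) =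
      (∫⁻ t, A t) * ((∫⁻ v, B v) * vD) := by
  have mI : Measurable fun y : Disc416.Plane =>
      (Metric.ball (0 : Disc416.Plane) 1).indicator (1 : Disc416.Plane → ℝ≥0∞) y :=
    measurable_one.indicator measurableSet_ball
  have h1 : ∫⁻ y : Space3 × Disc416.Plane,
      B y.1 * (Metric.ball (0 : Disc416.Plane) 1).indicator 1 y.2 = (∫⁻ v, B v) * vD := by
    have h := lintegral_prod_mul (μ := (volume : Measure Space3))
      (ν := (volume : Measure Disc416.Plane)) hB.aemeasurable mI.aemeasurable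
    rw [lintegral_indicator_one measurableSet_ball] at h
    exact h
  have mB : Measurable fun y : Space3 × Disc416.Plane =>
      B y.1 * (Metric.ball (0 : Disc416.Plane) 1).indicator 1 y.2 :=
    (hB.comp measurable_fst).mul (mI.comp measurable_snd)
  have h2 := lintegral_prod_mul (μ := (volume : Measure ℝ))
    (ν := (volume : Measure (Space3 × Disc416.Plane))) hA.aemeasurable mB.aemeasurable
  rw [h1] at h2
  exact h2

/-! ### Facts at a flipped node -/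

theorem outD_energy (hΦ : AdmissiblePotential Φ) (hε : 0 < ε) {q : PhasePoint × PhasePoint}
    (hq : outD Φ ε T q ∈ Vset Φ ε T) :
    ‖(outD Φ ε T q).1.2‖ ^ 2 + ‖(outD Φ ε T q).2.2.1‖ ^ 2 = ‖q.1.2‖ ^ 2 + ‖q.2.2‖ ^ 2 := by
  have h1 := Tube818.preV_energy hΦ hq.1
  have h2 := inMap_outD hΦ hε hq
  have h3 : (preV Φ (outD Φ ε T q).1.2 (outD Φ ε T q).2).1 = q.1.2 := by
    have := congrArg (fun z : PhasePoint × PhasePoint => z.1.2) h2
    exact this
  have h4 : (preV Φ (outD Φ ε T q).1.2 (outD Φ ε T q).2).2 = q.2.2 := by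
    have := congrArg (fun z : PhasePoint × PhasePoint => z.2.2) h2
    exact this
  rw [h3, h4] at h1
  exact h1.symm

/-- facts at a good incoming node, first orientation -/
theorem goodL_facts (hΦ : AdmissiblePotential Φ) (hε : 0 < ε) {z : PhasePoint × NodeP}
    (hz : z ∈ GoodL Φ ε T) :
    ‖z.2.2.2‖ < 1 ∧ 0 < z.2.1 ∧ z.2.1 ≤ (outD Φ ε T (z.1, inLine ε z.1 z.2)).2.1 ∧
      (outD Φ ε T (z.1, inLine ε z.1 z.2)).2.1 < T ∧
      ‖(outD Φ ε T (z.1, inLine ε z.1 z.2)).1.2‖ ^ 2 ≤ ‖z.1.2‖ ^ 2 + ‖z.2.2.1‖ ^ 2 := by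
  have hs := sin_of_mem_GoodL hΦ hε hz
  have h1 := hz.2.2.2
  have h2 := Tree674.sin_le Φ hε.le (outD Φ ε T (z.1, inLine ε z.1 z.2)).1.2
    (outD Φ ε T (z.1, inLine ε z.1 z.2)).2
  have h3 := outD_energy hΦ hε hz.2
  rw [hs] at h1 h2
  refine ⟨hz.1.1, h1, h2, hz.2.2.1, ?_⟩
  have h4 : ‖z.1.2‖ ^ 2 + ‖z.2.2.1‖ ^ 2 =
    ‖(outD Φ ε T (z.1, inLine ε z.1 z.2)).1.2‖ ^ 2 +
      ‖(outD Φ ε T (z.1, inLine ε z.1 z.2)).2.2.1‖ ^ 2 := h3.symm
  rw [h4]
  nlinarith [sq_nonneg ‖(outD Φ ε T (z.1, inLine ε z.1 z.2)).2.2.1‖]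

/-- facts at a good incoming node, second orientation -/
theorem goodR_facts (hΦ : AdmissiblePotential Φ) (hε : 0 < ε) {z : PhasePoint × NodeP}
    (hz : z ∈ GoodR Φ ε T) :
    ‖z.2.2.2‖ < 1 ∧ 0 < z.2.1 ∧ z.2.1 ≤ (outD Φ ε T (inLine ε z.1 z.2, z.1)).2.1 ∧
      (outD Φ ε T (inLine ε z.1 z.2, z.1)).2.1 < T ∧
      ‖(outD Φ ε T (inLine ε z.1 z.2, z.1)).1.2‖ ^ 2 ≤ ‖z.1.2‖ ^ 2 + ‖z.2.2.1‖ ^ 2 := by
  have hs := sin_of_mem_GoodR hΦ hε hz
  have h1 := hz.2.2.2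
  have h2 := Tree674.sin_le Φ hε.le (outD Φ ε T (inLine ε z.1 z.2, z.1)).1.2
    (outD Φ ε T (inLine ε z.1 z.2, z.1)).2
  have h3 := outD_energy hΦ hε hz.2
  rw [hs] at h1 h2
  refine ⟨hz.1.1, h1, h2, hz.2.2.1, ?_⟩
  have h4 : ‖z.2.2.1‖ ^ 2 + ‖z.1.2‖ ^ 2 =
    ‖(outD Φ ε T (inLine ε z.1 z.2, z.1)).1.2‖ ^ 2 +
      ‖(outD Φ ε T (inLine ε z.1 z.2, z.1)).2.2.1‖ ^ 2 := h3.symm
  have h5 : ‖z.1.2‖ ^ 2 + ‖z.2.2.1‖ ^ 2 = ‖z.2.2.1‖ ^ 2 + ‖z.1.2‖ ^ 2 := add_comm _ _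
  rw [h5, h4]
  nlinarith [sq_nonneg ‖(outD Φ ε T (inLine ε z.1 z.2, z.1)).2.2.1‖]

theorem ofReal_norm_sub_le (v w : Space3) :
    ENNReal.ofReal ‖v - w‖ ≤ ENNReal.ofReal (1 + ‖v‖) * ENNReal.ofReal (1 + ‖w‖) := by
  rw [← ENNReal.ofReal_mul (by positivity)]
  refine ENNReal.ofReal_le_ofReal ?_
  have := norm_sub_le v w
  nlinarith [norm_nonneg v, norm_nonneg w, mul_nonneg (norm_nonneg v) (norm_nonneg w)]

/-! ### Weights -/

/-- exponential weight `exp (a ‖v‖²)` -/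
def eG (a : ℝ) (v : Space3) : ℝ≥0∞ := ENNReal.ofReal (Real.exp (a * ‖v‖ ^ 2))

theorem eG_mul_wG (a b : ℝ) (v : Space3) : eG a v * wG b v = wG (b - a) v := by
  unfold eG wG
  rw [← ENNReal.ofReal_mul (Real.exp_pos _).le, ← Real.exp_add]
  congr 2
  ring

theorem measurable_eG (a : ℝ) : Measurable (eG a : Space3 → ℝ≥0∞) := by
  unfold eG
  fun_prop

theorem measurable_wG' (a : ℝ) : Measurable (wG a : Space3 → ℝ≥0∞) := by
  unfold wG
  fun_prop

/-- the Lyapunov weight `exp ((ν + κ ‖v‖²) (T - s))` -/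
def Wf (ν κ T : ℝ) (q : ℝ × PhasePoint) : ℝ≥0∞ :=
  ENNReal.ofReal (Real.exp ((ν + κ * ‖q.2.2‖ ^ 2) * (T - q.1)))

theorem measurable_Wf (ν κ T : ℝ) : Measurable (Wf ν κ T) := by
  unfold Wf
  fun_prop

theorem one_le_Wf {ν κ : ℝ} (hν : 0 ≤ ν) (hκ : 0 ≤ κ) {q : ℝ × PhasePoint} (hq : q.1 ≤ T) :
    1 ≤ Wf ν κ T q := by
  unfold Wf
  rw [ENNReal.one_le_ofReal]
  exact Real.one_le_exp (mul_nonneg (by positivity) (by linarith))

/-- decay of the weight along the tree -/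
theorem Wf_out_le {ν κ : ℝ} (hν : 0 ≤ ν) (hκ : 0 ≤ κ) {t s : ℝ} {v u o : Space3} {x : Space3}
    (h0 : 0 ≤ t) (h1 : t ≤ s) (h2 : s ≤ T) (h3 : ‖o‖ ^ 2 ≤ ‖v‖ ^ 2 + ‖u‖ ^ 2) :
    Wf ν κ T (s, (x, o)) ≤ ENNReal.ofReal (Real.exp ((ν + κ * ‖v‖ ^ 2) * (T - t))) *
      eG (κ * T) u := by
  unfold Wf eG
  rw [← ENNReal.ofReal_mul (Real.exp_pos _).le, ← Real.exp_add]
  refine ENNReal.ofReal_le_ofReal (Real.exp_le_exp.2 ?_)
  have e1 : (ν + κ * ‖o‖ ^ 2) * (T - s) ≤ (ν + κ * (‖v‖ ^ 2 + ‖u‖ ^ 2)) * (T - t) := by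
    refine mul_le_mul ?_ (by linarith) (by linarith) (by positivity)
    nlinarith [mul_le_mul_of_nonneg_left h3 hκ]
  have e2 : κ * ‖u‖ ^ 2 * (T - t) ≤ κ * ‖u‖ ^ 2 * T :=
    mul_le_mul_of_nonneg_left (by linarith) (by positivity)
  show (ν + κ * ‖o‖ ^ 2) * (T - s) ≤ _
  nlinarith

theorem Wf_le {ν κ : ℝ} (hν : 0 ≤ ν) (hκ : 0 ≤ κ) {q : ℝ × PhasePoint} (h0 : 0 ≤ q.1) : Wf ν κ T q ≤ ENNReal.ofReal (Real.exp (ν * T)) * eG (κ * T) q.2.2 := by
  unfold Wf eG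
  rw [← ENNReal.ofReal_mul (Real.exp_pos _).le, ← Real.exp_add]
  refine ENNReal.ofReal_le_ofReal (Real.exp_le_exp.2 ?_)
  have : (ν + κ * ‖q.2.2‖ ^ 2) * (T - q.1) ≤ (ν + κ * ‖q.2.2‖ ^ 2) * T :=
    mul_le_mul_of_nonneg_left (by linarith) (by positivity)
  linarith

/-- time integral of the weight -/
theorem lintegral_exp_Ioo {a s : ℝ} (ha : 0 < a) :
    ∫⁻ t, (Ioo s T).indicator (fun t => ENNReal.ofReal (Real.exp (a * (T - t)))) t ≤
      ENNReal.ofReal (1 / a) * ENNReal.ofReal (Real.exp (a * (T - s))) := by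
  rw [lintegral_indicator measurableSet_Ioo]
  by_cases hs : s < T
  swap
  · rw [Ioo_eq_empty hs]
    simp
  have h1 : ∫ t in s..T, Real.exp (a * (T - t)) = 1 / a * (Real.exp (a * (T - s)) - 1) := by
    have h2 : ∀ t ∈ uIcc s T, HasDerivAt (fun t : ℝ => -(1 / a) * Real.exp (a * (T - t)))
        (Real.exp (a * (T - t))) t := by
      intro t _
      have h3 : HasDerivAt (fun t : ℝ => a * (T - t)) (a * (-1)) t :=
        ((hasDerivAt_id t).const_sub T).const_mul a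
      have h4 := h3.exp.const_mul (-(1 / a))
      have h5 : -(1 / a) * (Real.exp (a * (T - t)) * (a * (-1))) = Real.exp (a * (T - t)) := by
        have h6 : a ≠ 0 := ha.ne'
        field_simp
      rw [h5] at h4
      exact h4
    rw [intervalIntegral.integral_eq_sub_of_hasDerivAt h2]
    · simp
      ring
    · exact (by fun_prop : Continuous fun t : ℝ => Real.exp (a * (T - t))).intervalIntegrable _ _
  have hint : IntegrableOn (fun t : ℝ => Real.exp (a * (T - t))) (Ioc s T) :=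
    ((by fun_prop : Continuous fun t : ℝ => Real.exp (a * (T - t))).intervalIntegrable s T).1
  calc ∫⁻ t in Ioo s T, ENNReal.ofReal (Real.exp (a * (T - t)))
      ≤ ∫⁻ t in Ioc s T, ENNReal.ofReal (Real.exp (a * (T - t))) :=
        lintegral_mono_set Ioo_subset_Ioc_self
    _ = ENNReal.ofReal (∫ t in Ioc s T, Real.exp (a * (T - t))) :=
        (ofReal_integral_eq_lintegral_ofReal hint
          (Filter.Eventually.of_forall fun t => (Real.exp_pos _).le)).symm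
    _ = ENNReal.ofReal (1 / a * (Real.exp (a * (T - s)) - 1)) := by
        rw [← intervalIntegral.integral_of_le hs.le, h1]
    _ ≤ _ := by
        rw [← ENNReal.ofReal_mul (by positivity)]
        refine ENNReal.ofReal_le_ofReal (mul_le_mul_of_nonneg_left (by linarith) (by positivity))

/-! ### Lyapunov inequality -/

/-- velocity integral of the fresh partner -/
def mV (b κ T : ℝ) : ℝ≥0∞ := ∫⁻ u : Space3, ENNReal.ofReal (1 + ‖u‖) * (eG (κ * T) u * wG b u)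

theorem mV_ne_top {b κ : ℝ} (h : κ * T < b) : mV b κ T ≠ ∞ := by
  set δ := (b - κ * T) / 2 with hδ
  have hδ0 : 0 < δ := by rw [hδ]; linarith
  have h1 : mV b κ T ≤ cA δ * ∫⁻ u : Space3, wG (b - κ * T - δ) u := by
    rw [← lintegral_const_mul' _ _ (cA_ne_top δ)]
    refine lintegral_mono fun u => ?_
    rw [eG_mul_wG]
    exact one_add_wG_le hδ0 _ u
  have h2 : 0 < b - κ * T - δ := by rw [hδ]; linarith
  exact ne_top_of_le_ne_top (ENNReal.mul_ne_top (cA_ne_top δ) (lintegral_wG_lt_top h2).ne) h1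

/-- the integrand of a flipped node is bounded by a product -/
theorem leg_integrand_le {ν κ b : ℝ} (hν : 0 ≤ ν) (hκ : 0 ≤ κ) {c D : ℝ≥0∞} {q : ℝ × PhasePoint}
    {a : NodeP} {s : ℝ} {x o : Space3} (hy : ‖a.2.2‖ < 1) (h0 : 0 < a.1) (h1 : a.1 ≤ s)
    (h2 : s < T) (h3 : ‖o‖ ^ 2 ≤ ‖q.2.2‖ ^ 2 + ‖a.2.1‖ ^ 2) (hD : D ≤ c * wG b a.2.1) :
    ENNReal.ofReal ‖q.2.2 - a.2.1‖ *
      ((Ioi q.1).indicator 1 a.1 * (Wf ν κ T (s, (x, o)) * D)) ≤
    (c * ENNReal.ofReal (1 + ‖q.2.2‖)) *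
      ((Ioo q.1 T).indicator
        (fun t => ENNReal.ofReal (Real.exp ((ν + κ * ‖q.2.2‖ ^ 2) * (T - t)))) a.1 *
      ((ENNReal.ofReal (1 + ‖a.2.1‖) * (eG (κ * T) a.2.1 * wG b a.2.1)) *
        (Metric.ball (0 : Disc416.Plane) 1).indicator 1 a.2.2)) := by
  by_cases hq : q.1 < a.1
  · have e1 : (Ioi q.1).indicator (1 : ℝ → ℝ≥0∞) a.1 = 1 :=
      indicator_of_mem (show a.1 ∈ Ioi q.1 from hq) _
    have e2 : (Metric.ball (0 : Disc416.Plane) 1).indicator (1 : Disc416.Plane → ℝ≥0∞) a.2.2 = 1 :=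
      indicator_of_mem (show a.2.2 ∈ Metric.ball (0 : Disc416.Plane) 1 by simpa using hy) _
    have e3 : (Ioo q.1 T).indicator
        (fun t => ENNReal.ofReal (Real.exp ((ν + κ * ‖q.2.2‖ ^ 2) * (T - t)))) a.1 =
        ENNReal.ofReal (Real.exp ((ν + κ * ‖q.2.2‖ ^ 2) * (T - a.1))) :=
      indicator_of_mem (show a.1 ∈ Ioo q.1 T from ⟨hq, h1.trans_lt h2⟩) _
    rw [e1, e2, e3, one_mul, mul_one]
    calc ENNReal.ofReal ‖q.2.2 - a.2.1‖ * (Wf ν κ T (s, (x, o)) * D) ≤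
        (ENNReal.ofReal (1 + ‖q.2.2‖) * ENNReal.ofReal (1 + ‖a.2.1‖)) *
          ((ENNReal.ofReal (Real.exp ((ν + κ * ‖q.2.2‖ ^ 2) * (T - a.1))) *
            eG (κ * T) a.2.1) * (c * wG b a.2.1)) :=
          mul_le_mul' (ofReal_norm_sub_le _ _)
            (mul_le_mul' (Wf_out_le hν hκ h0.le h1 h2.le h3) hD)
      _ = _ := by ring
  · have e1 : (Ioi q.1).indicator (1 : ℝ → ℝ≥0∞) a.1 = 0 :=
      indicator_of_notMem (show a.1 ∉ Ioi q.1 from hq) _
    rw [e1, zero_mul, mul_zero]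
    exact bot_le

/-- the product integral -/
theorem leg_product_le {ν κ b : ℝ} (hν : 0 < ν) (hκ : 0 ≤ κ) (c : ℝ≥0∞) (q : ℝ × PhasePoint) :
    ∫⁻ a : NodeP, (c * ENNReal.ofReal (1 + ‖q.2.2‖)) *
      ((Ioo q.1 T).indicator
        (fun t => ENNReal.ofReal (Real.exp ((ν + κ * ‖q.2.2‖ ^ 2) * (T - t)))) a.1 *
      ((ENNReal.ofReal (1 + ‖a.2.1‖) * (eG (κ * T) a.2.1 * wG b a.2.1)) *
        (Metric.ball (0 : Disc416.Plane) 1).indicator 1 a.2.2)) ≤
    (c * (mV b κ T * vD)) * (ENNReal.ofReal ((1 + ‖q.2.2‖) / (ν + κ * ‖q.2.2‖ ^ 2)) *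
      Wf ν κ T q) := by
  have hA : Measurable ((Ioo q.1 T).indicator
        (fun t => ENNReal.ofReal (Real.exp ((ν + κ * ‖q.2.2‖ ^ 2) * (T - t))))) :=
    Measurable.indicator (by fun_prop) measurableSet_Ioo
  have hB : Measurable fun u : Space3 => ENNReal.ofReal (1 + ‖u‖) * (eG (κ * T) u * wG b u) :=
    (by fun_prop : Measurable fun u : Space3 => ENNReal.ofReal (1 + ‖u‖)).mul
      ((measurable_eG _).mul (measurable_wG' _))
  have mI : Measurable fun y : Disc416.Plane =>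
      (Metric.ball (0 : Disc416.Plane) 1).indicator (1 : Disc416.Plane → ℝ≥0∞) y :=
    measurable_one.indicator measurableSet_ball
  have mAll : Measurable fun a : NodeP => (Ioo q.1 T).indicator
        (fun t => ENNReal.ofReal (Real.exp ((ν + κ * ‖q.2.2‖ ^ 2) * (T - t)))) a.1 *
      ((ENNReal.ofReal (1 + ‖a.2.1‖) * (eG (κ * T) a.2.1 * wG b a.2.1)) *
        (Metric.ball (0 : Disc416.Plane) 1).indicator 1 a.2.2) :=
    (hA.comp measurable_fst).mul ((hB.comp measurable_snd.fst).mul (mI.comp measurable_snd.snd))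
  rw [lintegral_const_mul _ mAll, lintegral_nodeP hA hB]
  have ha : 0 < ν + κ * ‖q.2.2‖ ^ 2 := by positivity
  have h1 := lintegral_exp_Ioo (T := T) (s := q.1) ha
  calc _ ≤ (c * ENNReal.ofReal (1 + ‖q.2.2‖)) *
        ((ENNReal.ofReal (1 / (ν + κ * ‖q.2.2‖ ^ 2)) *
          ENNReal.ofReal (Real.exp ((ν + κ * ‖q.2.2‖ ^ 2) * (T - q.1)))) *
          (mV b κ T * vD)) := mul_le_mul' le_rfl (mul_le_mul' h1 le_rfl)
    _ = _ := by
        rw [div_eq_mul_one_div (1 + ‖q.2.2‖), ENNReal.ofReal_mul (by positivity)]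
        unfold Wf
        ring

theorem AL_le (hΦ : AdmissiblePotential Φ) (hε : 0 < ε) {ν κ b η : ℝ} (hν : 0 < ν) (hκ : 0 ≤ κ)
    (hη : ∀ r : ℝ, 0 ≤ r → (1 + r) / (ν + κ * r ^ 2) ≤ η) {c : ℝ≥0∞}
    {D : ℝ × PhasePoint → ℝ≥0∞} (hD : ∀ t ∈ Ioo 0 T, ∀ ℓ, D (t, ℓ) ≤ c * wG b ℓ.2)
    (q : ℝ × PhasePoint) :
    AL Φ ε T D (Wf ν κ T) q ≤ (c * (mV b κ T * vD)) * (ENNReal.ofReal η * Wf ν κ T q) := by
  have h1 : AL Φ ε T D (Wf ν κ T) q ≤ ∫⁻ a : NodeP, (c * ENNReal.ofReal (1 + ‖q.2.2‖)) *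
      ((Ioo q.1 T).indicator
        (fun t => ENNReal.ofReal (Real.exp ((ν + κ * ‖q.2.2‖ ^ 2) * (T - t)))) a.1 *
      ((ENNReal.ofReal (1 + ‖a.2.1‖) * (eG (κ * T) a.2.1 * wG b a.2.1)) *
        (Metric.ball (0 : Disc416.Plane) 1).indicator 1 a.2.2)) := by
    unfold AL
    refine lintegral_mono fun a => ?_
    by_cases hz : (q.2, a) ∈ GoodL Φ ε T
    · have hg : gL Φ ε T (q.2, a) = 1 := by
        unfold gL
        rw [indicator_of_mem hz]
        rfl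
      obtain ⟨f1, f2, f3, f4, f5⟩ := goodL_facts hΦ hε hz
      rw [hg, one_mul]
      exact leg_integrand_le hν.le hκ f1 f2 f3 f4 f5 (hD a.1 ⟨f2, f3.trans_lt f4⟩ _)
    · have hg : gL Φ ε T (q.2, a) = 0 := by
        unfold gL
        exact indicator_of_notMem hz _
      rw [hg, zero_mul]
      exact bot_le
  refine h1.trans ((leg_product_le hν hκ c q).trans (mul_le_mul' le_rfl (mul_le_mul' ?_ le_rfl)))
  exact ENNReal.ofReal_le_ofReal (hη _ (norm_nonneg _))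

theorem AR_le (hΦ : AdmissiblePotential Φ) (hε : 0 < ε) {ν κ b η : ℝ} (hν : 0 < ν) (hκ : 0 ≤ κ)
    (hη : ∀ r : ℝ, 0 ≤ r → (1 + r) / (ν + κ * r ^ 2) ≤ η) {c : ℝ≥0∞}
    {D : ℝ × PhasePoint → ℝ≥0∞} (hD : ∀ t ∈ Ioo 0 T, ∀ ℓ, D (t, ℓ) ≤ c * wG b ℓ.2)
    (q : ℝ × PhasePoint) :
    AR Φ ε T D (Wf ν κ T) q ≤ (c * (mV b κ T * vD)) * (ENNReal.ofReal η * Wf ν κ T q) := by
  have h1 : AR Φ ε T D (Wf ν κ T) q ≤ ∫⁻ a : NodeP, (c * ENNReal.ofReal (1 + ‖q.2.2‖)) *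
      ((Ioo q.1 T).indicator
        (fun t => ENNReal.ofReal (Real.exp ((ν + κ * ‖q.2.2‖ ^ 2) * (T - t)))) a.1 *
      ((ENNReal.ofReal (1 + ‖a.2.1‖) * (eG (κ * T) a.2.1 * wG b a.2.1)) *
        (Metric.ball (0 : Disc416.Plane) 1).indicator 1 a.2.2)) := by
    unfold AR
    refine lintegral_mono fun a => ?_
    by_cases hz : (q.2, a) ∈ GoodR Φ ε T
    · have hg : gR Φ ε T (q.2, a) = 1 := by
        unfold gR
        rw [indicator_of_mem hz]
        rfl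
      obtain ⟨f1, f2, f3, f4, f5⟩ := goodR_facts hΦ hε hz
      rw [hg, one_mul]
      exact leg_integrand_le hν.le hκ f1 f2 f3 f4 f5 (hD a.1 ⟨f2, f3.trans_lt f4⟩ _)
    · have hg : gR Φ ε T (q.2, a) = 0 := by
        unfold gR
        exact indicator_of_notMem hz _
      rw [hg, zero_mul]
      exact bot_le
  refine h1.trans ((leg_product_le hν hκ c q).trans (mul_le_mul' le_rfl (mul_le_mul' ?_ le_rfl)))
  exact ENNReal.ofReal_le_ofReal (hη _ (norm_nonneg _))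

/-- choice of `ν` -/
theorem exists_nu {κ η : ℝ} (hκ : 0 < κ) (hη : 0 < η) :
    ∃ ν : ℝ, 0 < ν ∧ ∀ r : ℝ, 0 ≤ r → (1 + r) / (ν + κ * r ^ 2) ≤ η := by
  refine ⟨(1 + 1 / (4 * (η * κ))) / η, by positivity, fun r hr => ?_⟩
  have hx : 0 < η * κ := by positivity
  rw [div_le_iff₀ (by positivity)]
  have h1 : r ≤ 1 / (4 * (η * κ)) + η * κ * r ^ 2 := by
    have h2 : 0 ≤ (2 * (η * κ) * r - 1) ^ 2 / (4 * (η * κ)) := by positivity
    have h3 : (2 * (η * κ) * r - 1) ^ 2 / (4 * (η * κ)) =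
        η * κ * r ^ 2 - r + 1 / (4 * (η * κ)) := by
      field_simp
      ring
    rw [h3] at h2
    linarith
  have h4 : η * ((1 + 1 / (4 * (η * κ))) / η + κ * r ^ 2) =
      1 + 1 / (4 * (η * κ)) + η * κ * r ^ 2 := by
    field_simp
  rw [h4]
  linarith

/-! ### One controlled input -/

/-- weighted space-time integral of a density of root lines -/
def EI (κ T : ℝ) (E : ℝ × PhasePoint → ℝ≥0∞) : ℝ≥0∞ :=
  ∫⁻ ℓ : PhasePoint, (ENNReal.ofReal (1 + ‖ℓ.2‖) * eG (κ * T) ℓ.2) *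
    ∫⁻ t : ℝ, (Ioo 0 T).indicator (fun t => E (t, ℓ)) t

theorem node_integral_le {κ b : ℝ} {C : ℝ≥0∞} {E : ℝ × PhasePoint → ℝ≥0∞} (hE : Measurable E)
    {F : PhasePoint × NodeP → ℝ≥0∞} (hF : Measurable F)
    (h : ∀ z, F z ≤ (C * (ENNReal.ofReal (1 + ‖z.1.2‖) * eG (κ * T) z.1.2)) *
      ((Ioo 0 T).indicator (fun t => E (t, z.1)) z.2.1 *
        ((ENNReal.ofReal (1 + ‖z.2.2.1‖) * (eG (κ * T) z.2.2.1 * wG b z.2.2.1)) *
          (Metric.ball (0 : Disc416.Plane) 1).indicator 1 z.2.2.2))) :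
    ∫⁻ z, F z ≤ (C * (mV b κ T * vD)) * EI κ T E := by
  rw [Tree674.lintegral_pair hF]
  unfold EI
  have mT : Measurable fun ℓ : PhasePoint => ∫⁻ t : ℝ, (Ioo 0 T).indicator (fun t => E (t, ℓ)) t := by
    have h1 : Measurable fun z : PhasePoint × ℝ => (Ioo 0 T).indicator (fun t => E (t, z.1)) z.2 := by
      have h2 : (fun z : PhasePoint × ℝ => (Ioo 0 T).indicator (fun t => E (t, z.1)) z.2) =
          (Prod.snd ⁻¹' Ioo 0 T).indicator (fun z : PhasePoint × ℝ => E (z.2, z.1)) := by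
        funext z
        by_cases hz : z.2 ∈ Ioo 0 T
        · rw [indicator_of_mem hz, indicator_of_mem (show z ∈ Prod.snd ⁻¹' Ioo 0 T from hz)]
        · rw [indicator_of_notMem hz, indicator_of_notMem (show z ∉ Prod.snd ⁻¹' Ioo 0 T from hz)]
      rw [h2]
      exact (hE.comp (measurable_snd.prodMk measurable_fst)).indicator
        (measurable_snd measurableSet_Ioo)
    exact h1.lintegral_prod_right'
  have mW : Measurable fun ℓ : PhasePoint => ENNReal.ofReal (1 + ‖ℓ.2‖) * eG (κ * T) ℓ.2 :=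
    (by fun_prop : Measurable fun ℓ : PhasePoint => ENNReal.ofReal (1 + ‖ℓ.2‖)).mul
      ((measurable_eG _).comp measurable_snd)
  have mWT : Measurable fun ℓ : PhasePoint => (ENNReal.ofReal (1 + ‖ℓ.2‖) * eG (κ * T) ℓ.2) *
      ∫⁻ t : ℝ, (Ioo 0 T).indicator (fun t => E (t, ℓ)) t := mW.mul mT
  rw [← lintegral_const_mul _ mWT]
  refine lintegral_mono fun ℓ => ?_
  have hB : Measurable fun u : Space3 => ENNReal.ofReal (1 + ‖u‖) * (eG (κ * T) u * wG b u) :=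
    (by fun_prop : Measurable fun u : Space3 => ENNReal.ofReal (1 + ‖u‖)).mul
      ((measurable_eG _).mul (measurable_wG' _))
  have mI : Measurable fun y : Disc416.Plane =>
      (Metric.ball (0 : Disc416.Plane) 1).indicator (1 : Disc416.Plane → ℝ≥0∞) y :=
    measurable_one.indicator measurableSet_ball
  have hA : Measurable fun t : ℝ => (Ioo 0 T).indicator (fun t => E (t, ℓ)) t :=
    (hE.comp (measurable_id.prodMk measurable_const)).indicator measurableSet_Ioo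
  have mAll : Measurable fun a : NodeP => (Ioo 0 T).indicator (fun t => E (t, ℓ)) a.1 *
        ((ENNReal.ofReal (1 + ‖a.2.1‖) * (eG (κ * T) a.2.1 * wG b a.2.1)) *
          (Metric.ball (0 : Disc416.Plane) 1).indicator 1 a.2.2) :=
    (hA.comp measurable_fst).mul ((hB.comp measurable_snd.fst).mul (mI.comp measurable_snd.snd))
  calc ∫⁻ a : NodeP, F (ℓ, a) ≤
      ∫⁻ a : NodeP, (C * (ENNReal.ofReal (1 + ‖ℓ.2‖) * eG (κ * T) ℓ.2)) *
      ((Ioo 0 T).indicator (fun t => E (t, ℓ)) a.1 *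
        ((ENNReal.ofReal (1 + ‖a.2.1‖) * (eG (κ * T) a.2.1 * wG b a.2.1)) *
          (Metric.ball (0 : Disc416.Plane) 1).indicator 1 a.2.2)) :=
        lintegral_mono fun a => h (ℓ, a)
    _ = (C * (ENNReal.ofReal (1 + ‖ℓ.2‖) * eG (κ * T) ℓ.2)) *
        ((∫⁻ t : ℝ, (Ioo 0 T).indicator (fun t => E (t, ℓ)) t) * (mV b κ T * vD)) := by
        rw [lintegral_const_mul _ mAll, lintegral_nodeP hA hB]
        rfl
    _ = _ := by ring

theorem in_integrand_le {ν κ b : ℝ} (hν : 0 ≤ ν) (hκ : 0 ≤ κ) {c D e : ℝ≥0∞}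
    {E : ℝ × PhasePoint → ℝ≥0∞} {ℓ : PhasePoint}
    {a : NodeP} {s : ℝ} {x o : Space3} (hy : ‖a.2.2‖ < 1) (h0 : 0 < a.1) (h1 : a.1 ≤ s)
    (h2 : s < T) (h3 : ‖o‖ ^ 2 ≤ ‖ℓ.2‖ ^ 2 + ‖a.2.1‖ ^ 2) (hD : D ≤ c * wG b a.2.1)
    (he : e = Wf ν κ T (s, (x, o)) * (D * E (a.1, ℓ))) :
    ENNReal.ofReal ‖ℓ.2 - a.2.1‖ * e ≤
    ((c * ENNReal.ofReal (Real.exp (ν * T))) *
        (ENNReal.ofReal (1 + ‖ℓ.2‖) * eG (κ * T) ℓ.2)) *
      ((Ioo 0 T).indicator (fun t => E (t, ℓ)) a.1 *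
        ((ENNReal.ofReal (1 + ‖a.2.1‖) * (eG (κ * T) a.2.1 * wG b a.2.1)) *
          (Metric.ball (0 : Disc416.Plane) 1).indicator 1 a.2.2)) := by
  have e2 : (Metric.ball (0 : Disc416.Plane) 1).indicator (1 : Disc416.Plane → ℝ≥0∞) a.2.2 = 1 :=
    indicator_of_mem (show a.2.2 ∈ Metric.ball (0 : Disc416.Plane) 1 by simpa using hy) _
  have e3 : (Ioo 0 T).indicator (fun t => E (t, ℓ)) a.1 = E (a.1, ℓ) :=
    indicator_of_mem (show a.1 ∈ Ioo 0 T from ⟨h0, h1.trans_lt h2⟩) _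
  have e4 : ENNReal.ofReal (Real.exp ((ν + κ * ‖ℓ.2‖ ^ 2) * (T - a.1))) ≤
      ENNReal.ofReal (Real.exp (ν * T)) * eG (κ * T) ℓ.2 :=
    Wf_le (T := T) hν hκ (q := (a.1, ℓ)) h0.le
  rw [e2, e3, mul_one, he]
  calc ENNReal.ofReal ‖ℓ.2 - a.2.1‖ * (Wf ν κ T (s, (x, o)) * (D * E (a.1, ℓ))) ≤
      (ENNReal.ofReal (1 + ‖ℓ.2‖) * ENNReal.ofReal (1 + ‖a.2.1‖)) *
        (((ENNReal.ofReal (Real.exp (ν * T)) * eG (κ * T) ℓ.2) *
          eG (κ * T) a.2.1) * ((c * wG b a.2.1) * E (a.1, ℓ))) :=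
        mul_le_mul' (ofReal_norm_sub_le _ _)
          (mul_le_mul' ((Wf_out_le hν hκ h0.le h1 h2.le h3).trans (mul_le_mul' e4 le_rfl))
            (mul_le_mul' hD le_rfl))
    _ = _ := by ring

/-- the second input controlled by a Gaussian: change of variables to the first input -/
theorem NI_L_le (hΦ : AdmissiblePotential Φ) (hε : 0 < ε) {ν κ b : ℝ} (hν : 0 ≤ ν) (hκ : 0 ≤ κ)
    {c : ℝ≥0∞} {D E : ℝ × PhasePoint → ℝ≥0∞} (mD : Measurable D) (mE : Measurable E)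
    (hD : ∀ t ∈ Ioo 0 T, ∀ ℓ, D (t, ℓ) ≤ c * wG b ℓ.2) :
    NI Φ ε T (H2 E D (Wf ν κ T) (sinM Φ ε)) ≤
      ((c * ENNReal.ofReal (Real.exp (ν * T))) * (mV b κ T * vD)) * EI κ T E := by
  have ms := measurable_sinM hΦ ε
  have mH := measurable_H2 mE mD (measurable_Wf ν κ T) ms
  rw [NI_flipL hΦ hε mH]
  have mo := (measurable_outD hΦ hε T).comp (measurable_pairL ε)
  have mw : Measurable fun z : PhasePoint × NodeP => ENNReal.ofReal ‖z.1.2 - z.2.2.1‖ := by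
    fun_prop
  have mF : Measurable fun z : PhasePoint × NodeP => gL Φ ε T z *
      (ENNReal.ofReal ‖z.1.2 - z.2.2.1‖ * H2 E D (Wf ν κ T) (sinM Φ ε)
        (outD Φ ε T (z.1, inLine ε z.1 z.2), (z.1, inLine ε z.1 z.2))) :=
    (measurable_gL hΦ hε T).mul (mw.mul (mH.comp (mo.prodMk (measurable_pairL ε))))
  refine node_integral_le mE mF fun z => ?_
  by_cases hz : z ∈ GoodL Φ ε T
  · have hg : gL Φ ε T z = 1 := by
      unfold gL
      rw [indicator_of_mem hz]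
      rfl
    obtain ⟨f1, f2, f3, f4, f5⟩ := goodL_facts hΦ hε hz
    have hsin : sinM Φ ε (outD Φ ε T (z.1, inLine ε z.1 z.2)) = z.2.1 := by
      rw [sinM_of_adm hz.2.1]
      exact sin_of_mem_GoodL hΦ hε hz
    rw [hg, one_mul]
    refine in_integrand_le hν hκ f1 f2 f3 f4 f5 (hD z.2.1 ⟨f2, f3.trans_lt f4⟩ (inLine ε z.1 z.2))
      (x := (outD Φ ε T (z.1, inLine ε z.1 z.2)).1.1) ?_
    simp only [H2, hsin]
    ring
  · have hg : gL Φ ε T z = 0 := by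
      unfold gL
      exact indicator_of_notMem hz _
    rw [hg, zero_mul]
    exact bot_le

/-- the first input controlled by a Gaussian: change of variables to the second input -/
theorem NI_R_le (hΦ : AdmissiblePotential Φ) (hε : 0 < ε) {ν κ b : ℝ} (hν : 0 ≤ ν) (hκ : 0 ≤ κ)
    {c : ℝ≥0∞} {D E : ℝ × PhasePoint → ℝ≥0∞} (mD : Measurable D) (mE : Measurable E)
    (hD : ∀ t ∈ Ioo 0 T, ∀ ℓ, D (t, ℓ) ≤ c * wG b ℓ.2) :
    NI Φ ε T (H2 D E (Wf ν κ T) (sinM Φ ε)) ≤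
      ((c * ENNReal.ofReal (Real.exp (ν * T))) * (mV b κ T * vD)) * EI κ T E := by
  have ms := measurable_sinM hΦ ε
  have mH := measurable_H2 mD mE (measurable_Wf ν κ T) ms
  rw [NI_flipR hΦ hε mH]
  have mo := (measurable_outD hΦ hε T).comp (measurable_pairR ε)
  have mw : Measurable fun z : PhasePoint × NodeP => ENNReal.ofReal ‖z.1.2 - z.2.2.1‖ := by
    fun_prop
  have mF : Measurable fun z : PhasePoint × NodeP => gR Φ ε T z *
      (ENNReal.ofReal ‖z.1.2 - z.2.2.1‖ * H2 D E (Wf ν κ T) (sinM Φ ε)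
        (outD Φ ε T (inLine ε z.1 z.2, z.1), (inLine ε z.1 z.2, z.1))) :=
    (measurable_gR hΦ hε T).mul (mw.mul (mH.comp (mo.prodMk (measurable_pairR ε))))
  refine node_integral_le mE mF fun z => ?_
  by_cases hz : z ∈ GoodR Φ ε T
  · have hg : gR Φ ε T z = 1 := by
      unfold gR
      rw [indicator_of_mem hz]
      rfl
    obtain ⟨f1, f2, f3, f4, f5⟩ := goodR_facts hΦ hε hz
    have hsin : sinM Φ ε (outD Φ ε T (inLine ε z.1 z.2, z.1)) = z.2.1 := by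
      rw [sinM_of_adm hz.2.1]
      exact sin_of_mem_GoodR hΦ hε hz
    rw [hg, one_mul]
    refine in_integrand_le hν hκ f1 f2 f3 f4 f5 (hD z.2.1 ⟨f2, f3.trans_lt f4⟩ (inLine ε z.1 z.2))
      (x := (outD Φ ε T (inLine ε z.1 z.2, z.1)).1.1) ?_
    simp only [H2, hsin]
  · have hg : gR Φ ε T z = 0 := by
      unfold gR
      exact indicator_of_notMem hz _
    rw [hg, zero_mul]
    exact bot_le

/-! ### Both inputs controlled -/

theorem exitL_sib (ε : ℝ) (d : BLine) (q : Space3 × Disc416.Plane) :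
    exitL ε (sibLine ε d q, (d.1, d.2.2, q.2)) = d := by
  have h1 : onLine (outLine ε (sibLine ε d q) (d.1, d.2.2, q.2)) d.1 = d.2 := by
    refine Prod.ext ?_ rfl
    show (sibLine ε d q).1 + d.1 • (sibLine ε d q).2 +
      ε • entrancePoint (nb (sibLine ε d q).2 (d.1, d.2.2, q.2))
        (ng (sibLine ε d q).2 (d.1, d.2.2, q.2)) - d.1 • d.2.2 + d.1 • d.2.2 = d.2.1
    simp only [sibLine]
    abel
  exact Prod.ext rfl h1

/-- integral over the exit lines -/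
def LI (T b : ℝ) (φ : ML → ℝ≥0∞) (m : ℕ) : ℝ≥0∞ :=
  ∫⁻ d : ℝ × PhasePoint, (Ioo 0 T).indicator 1 d.1 *
    (ENNReal.ofReal (1 + ‖d.2.2‖) * wG b d.2.2 * φ (d, m))

theorem wG_conserve (hΦ : AdmissiblePotential Φ) {b : ℝ} {v : Space3} {a : NodeP}
    (h : Adm1 Φ v a) : wG b (preV Φ v a).1 * wG b (preV Φ v a).2 = wG b v * wG b a.2.1 := by
  have h1 := Tube818.preV_energy hΦ h
  unfold wG
  rw [← ENNReal.ofReal_mul (Real.exp_pos _).le, ← ENNReal.ofReal_mul (Real.exp_pos _).le,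
    ← Real.exp_add, ← Real.exp_add]
  congr 2
  have h2 : b * (‖(preV Φ v a).1‖ ^ 2 + ‖(preV Φ v a).2‖ ^ 2) =
    b * (‖v‖ ^ 2 + ‖a.2.1‖ ^ 2) := by rw [h1]
  linarith

theorem NI_top_le (hΦ : AdmissiblePotential Φ) (hε : 0 < ε) {ν κ b : ℝ} (hν : 0 ≤ ν) (hκ : 0 ≤ κ)
    {c₁ c₂ : ℝ≥0∞} {D₁ D₂ : ℝ × PhasePoint → ℝ≥0∞} {φ : ML → ℝ≥0∞} (hφ : Measurable φ) (m : ℕ)
    (h₁ : ∀ t ∈ Ioo 0 T, ∀ ℓ, D₁ (t, ℓ) ≤ c₁ * wG b ℓ.2)
    (h₂ : ∀ t ∈ Ioo 0 T, ∀ ℓ, D₂ (t, ℓ) ≤ c₂ * wG b ℓ.2) :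
    NI Φ ε T (HT ε m φ D₁ D₂ (Wf ν κ T) (sinM Φ ε)) ≤
      (c₁ * c₂) * ((ENNReal.ofReal (Real.exp (ν * T)) * (mV b κ T * vD)) * LI T b φ m) := by
  set C := c₁ * c₂ * ENNReal.ofReal (Real.exp (ν * T)) with hC
  set G : PhasePoint × NodeP → ℝ≥0∞ := fun z => C * ((Ioo 0 T).indicator 1 z.2.1 *
    (ENNReal.ofReal (1 + ‖z.2.2.1‖) * wG b z.2.2.1 * φ (exitL ε z, m)) *
    ((ENNReal.ofReal (1 + ‖z.1.2‖) * (eG (κ * T) z.1.2 * wG b z.1.2)) *
      (Metric.ball (0 : Disc416.Plane) 1).indicator 1 z.2.2.2)) with hG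
  have hB : Measurable fun u : Space3 => ENNReal.ofReal (1 + ‖u‖) * (eG (κ * T) u * wG b u) :=
    (by fun_prop : Measurable fun u : Space3 => ENNReal.ofReal (1 + ‖u‖)).mul
      ((measurable_eG _).mul (measurable_wG' _))
  have mI : Measurable fun y : Disc416.Plane =>
      (Metric.ball (0 : Disc416.Plane) 1).indicator (1 : Disc416.Plane → ℝ≥0∞) y :=
    measurable_one.indicator measurableSet_ball
  have mT : Measurable fun t : ℝ => (Ioo 0 T).indicator (1 : ℝ → ℝ≥0∞) t :=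
    measurable_one.indicator measurableSet_Ioo
  have mN : Measurable fun u : Space3 => ENNReal.ofReal (1 + ‖u‖) := by fun_prop
  have mG : Measurable G := by
    have n1 : Measurable fun z : PhasePoint × NodeP => z.2.1 := by fun_prop
    have n2 : Measurable fun z : PhasePoint × NodeP => z.2.2.1 := by fun_prop
    have n3 : Measurable fun z : PhasePoint × NodeP => z.1.2 := by fun_prop
    have n4 : Measurable fun z : PhasePoint × NodeP => z.2.2.2 := by fun_prop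
    have n5 : Measurable fun z : PhasePoint × NodeP => ((exitL ε z, m) : ML) :=
      (measurable_exitL ε).prodMk measurable_const
    exact (((mT.comp n1).mul ((((mN.comp n2)).mul ((measurable_wG' b).comp n2)).mul
      (hφ.comp n5))).mul ((hB.comp n3).mul (mI.comp n4))).const_mul C
  have step1 : NI Φ ε T (HT ε m φ D₁ D₂ (Wf ν κ T) (sinM Φ ε)) ≤ ∫⁻ z, G z := by
    rw [NI_eq]
    refine lintegral_mono fun z => ?_
    by_cases hz : z ∈ Vset Φ ε T
    · rw [indicator_of_mem hz]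
      have hadm : Adm1 Φ z.1.2 z.2 := hz.1
      have hs0 : 0 < sinM Φ ε z := by rw [sinM_of_adm hadm]; exact hz.2.2
      have hsle : sinM Φ ε z ≤ z.2.1 := by
        rw [sinM_of_adm hadm]
        exact Tree674.sin_le Φ hε.le _ _
      have hsT : sinM Φ ε z ∈ Ioo 0 T := ⟨hs0, hsle.trans_lt hz.2.1⟩
      have k1 := h₁ _ hsT (inMap Φ ε z.1 z.2).1
      have k2 := h₂ _ hsT (inMap Φ ε z.1 z.2).2
      have k3 : wG b (inMap Φ ε z.1 z.2).1.2 * wG b (inMap Φ ε z.1 z.2).2.2 =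
          wG b z.1.2 * wG b z.2.2.1 := wG_conserve hΦ hadm
      have k4 := Wf_le (T := T) hν hκ (q := (z.2.1, z.1)) (hs0.le.trans hsle)
      have e1 : (Metric.ball (0 : Disc416.Plane) 1).indicator (1 : Disc416.Plane → ℝ≥0∞)
          z.2.2.2 = 1 :=
        indicator_of_mem (show z.2.2.2 ∈ Metric.ball (0 : Disc416.Plane) 1 by
          simpa using hadm.1) _
      have e2 : (Ioo 0 T).indicator (1 : ℝ → ℝ≥0∞) z.2.1 = 1 :=
        indicator_of_mem (show z.2.1 ∈ Ioo 0 T from ⟨hs0.trans_le hsle, hz.2.1⟩) _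
      simp only [hG, e1, e2, HT]
      calc ENNReal.ofReal ‖z.1.2 - z.2.2.1‖ * (Wf ν κ T (z.2.1, z.1) * φ (exitL ε z, m) *
            (D₁ (sinM Φ ε z, (inMap Φ ε z.1 z.2).1) * D₂ (sinM Φ ε z, (inMap Φ ε z.1 z.2).2))) ≤
          (ENNReal.ofReal (1 + ‖z.1.2‖) * ENNReal.ofReal (1 + ‖z.2.2.1‖)) *
            ((ENNReal.ofReal (Real.exp (ν * T)) * eG (κ * T) z.1.2) * φ (exitL ε z, m) *
            ((c₁ * wG b (inMap Φ ε z.1 z.2).1.2) * (c₂ * wG b (inMap Φ ε z.1 z.2).2.2))) :=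
            mul_le_mul' (ofReal_norm_sub_le _ _)
              (mul_le_mul' (mul_le_mul' k4 le_rfl) (mul_le_mul' k1 k2))
        _ = (ENNReal.ofReal (1 + ‖z.1.2‖) * ENNReal.ofReal (1 + ‖z.2.2.1‖)) *
            ((ENNReal.ofReal (Real.exp (ν * T)) * eG (κ * T) z.1.2) * φ (exitL ε z, m) *
            ((c₁ * c₂) * (wG b (inMap Φ ε z.1 z.2).1.2 * wG b (inMap Φ ε z.1 z.2).2.2))) := by
            ring
        _ = _ := by
            rw [k3, hC]
            ring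
    · rw [indicator_of_notMem hz]
      exact bot_le
  refine step1.trans ?_
  rw [lintegral_sib ε mG]
  have e3 : ∀ z : BLine × (Space3 × Disc416.Plane),
      G (sibLine ε z.1 z.2, (z.1.1, z.1.2.2, z.2.2)) =
      (C * ((Ioo 0 T).indicator 1 z.1.1 *
        (ENNReal.ofReal (1 + ‖z.1.2.2‖) * wG b z.1.2.2 * φ (z.1, m)))) *
      ((ENNReal.ofReal (1 + ‖z.2.1‖) * (eG (κ * T) z.2.1 * wG b z.2.1)) *
        (Metric.ball (0 : Disc416.Plane) 1).indicator 1 z.2.2) := by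
    intro z
    have e4 : (sibLine ε z.1 z.2).2 = z.2.1 := rfl
    simp only [hG, exitL_sib ε z.1 z.2, e4]
    ring
  simp only [e3]
  have m1 : Measurable fun d : BLine => C * ((Ioo 0 T).indicator 1 d.1 *
        (ENNReal.ofReal (1 + ‖d.2.2‖) * wG b d.2.2 * φ (d, m))) := by
    have n1 : Measurable fun d : BLine => d.1 := by fun_prop
    have n2 : Measurable fun d : BLine => d.2.2 := by fun_prop
    have n5 : Measurable fun d : BLine => ((d, m) : ML) := measurable_id.prodMk measurable_const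
    exact ((mT.comp n1).mul (((mN.comp n2).mul ((measurable_wG' b).comp n2)).mul
      (hφ.comp n5))).const_mul C
  have m2 : Measurable fun y : Space3 × Disc416.Plane =>
      (ENNReal.ofReal (1 + ‖y.1‖) * (eG (κ * T) y.1 * wG b y.1)) *
        (Metric.ball (0 : Disc416.Plane) 1).indicator 1 y.2 :=
    (hB.comp measurable_fst).mul (mI.comp measurable_snd)
  have h3 := lintegral_prod_mul (μ := (volume : Measure BLine))
    (ν := (volume : Measure (Space3 × Disc416.Plane))) m1.aemeasurable m2.aemeasurable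
  have h4 : ∫⁻ y : Space3 × Disc416.Plane,
      (ENNReal.ofReal (1 + ‖y.1‖) * (eG (κ * T) y.1 * wG b y.1)) *
        (Metric.ball (0 : Disc416.Plane) 1).indicator 1 y.2 = mV b κ T * vD := by
    have h := lintegral_prod_mul (μ := (volume : Measure Space3))
      (ν := (volume : Measure Disc416.Plane)) hB.aemeasurable mI.aemeasurable
    rw [lintegral_indicator_one measurableSet_ball] at h
    exact h
  rw [h4] at h3
  refine le_of_eq (h3.trans ?_)
  have m3 : Measurable fun d : BLine => (Ioo 0 T).indicator 1 d.1 *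
        (ENNReal.ofReal (1 + ‖d.2.2‖) * wG b d.2.2 * φ (d, m)) := by
    have n1 : Measurable fun d : BLine => d.1 := by fun_prop
    have n2 : Measurable fun d : BLine => d.2.2 := by fun_prop
    have n5 : Measurable fun d : BLine => ((d, m) : ML) := measurable_id.prodMk measurable_const
    exact (mT.comp n1).mul (((mN.comp n2).mul ((measurable_wG' b).comp n2)).mul
      (hφ.comp n5))
  rw [lintegral_const_mul _ m3, hC]
  unfold LI
  ring

end Crest.Agent.R122.QExit814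

end
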