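import Crest.Agent.R122.LinkSel_984
import Crest.Agent.R122.LongE_984
import Crest.Agent.R122.OneC_423
import Crest.Agent.R122.SizeCross_815
import Crest.Agent.R122.OSCalc_495
import Crest.Agent.R122.MeasEDefs_416
import Crest.Agent.R122.GoodOf_263
import Crest.Agent.R122.NbadE_796
import Crest.Agent.R122.InEq2TX_335
import Crest.Agent.R122.BadX_974

-- ▼ part R122/LinkHor_984
section

/-!
# Assembly of `StmtLink4` (row 122, board H1): contacts near the end of the window

* `horS R` : the contact time is in `(te - R ε, te]`; `osNull_hor`.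
-/

set_option autoImplicit false
set_option linter.unusedSectionVars false

open MeasureTheory Set Filter Topology
open scoped ENNReal Classical
open Crest.AnalysisR.Kinetic
open Crest.Agent.R122.Kin796 Crest.Agent.R122.Kin796.CTree Crest.Agent.R122.Tree674
open Crest.Agent.R122.GC311 Crest.Agent.R122.EDefs602 Crest.Agent.R122.OneC285
open Crest.Agent.R122.Long984 Crest.Agent.R122.Third741 Crest.Agent.R122.ThirdV796
open Crest.Agent.R122.OSCalc495 Crest.Agent.R122.GSCalc495

noncomputable section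

namespace Crest.Agent.R122.LinkAsm984

variable {Φ : Space3 → ℝ} {f₀ : PhasePoint → ℝ} {K : ℕ} {Q : EPar} {T' : ℝ}

/-- A functional of the contact data without flux has null structure integral. -/
theorem osNull_of_flux0 (hΦ : AdmissiblePotential Φ) {g0 : ℝ} (hQ : QOk Q g0) (K : ℕ) (T' : ℝ)
    {g : CF} (hg : MeasCF g) (h0 : ∀ (P : CTree) (z : PhasePoint × Par P) (m : ℕ) (w : Config m),
      fluxG Q.te g0 g P z m w = 0) : OSNull Φ f₀ K Q T' fun ε => sfOf ε K g := by
  refine OSNull.of_meas (fun ε _ => measSF_sfOf ε K hg) fun δ _ => ?_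
  refine ⟨1, one_pos, fun ε hε _ => ?_⟩
  have hfin : IsFiniteMeasure (volume.restrict (Ioc (0 : ℝ) Q.te)) :=
    ⟨by rw [Measure.restrict_apply_univ]; exact measure_Ioc_lt_top⟩
  refine (Third741.OS_le hΦ hε hQ.ρ_ne hQ.γ_meas hQ.γ_ge (ae_restrict_mem measurableSet_Ioc)
    hg (H := sfOf ε K g) fun _ _ _ _ _ => le_rfl).trans ?_
  have h1 : ∑ P ∈ GIVStep383.trees K, ∫⁻ z : PhasePoint × Par P,
      {z : PhasePoint × Par P | Valid Φ ε P T' z.1.2 z.2}.indicator
        (fun z => wt Φ P z.1.2 z.2 * (ToTree335.pf Φ f₀ ε P z *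
          gcE f₀ ε (fun m w => fluxG Q.te g0 g P z m w))) z = 0 := by
    refine Finset.sum_eq_zero fun P _ => ?_
    have h1 : (fun z : PhasePoint × Par P => {z : PhasePoint × Par P |
        Valid Φ ε P T' z.1.2 z.2}.indicator (fun z => wt Φ P z.1.2 z.2 *
          (ToTree335.pf Φ f₀ ε P z * gcE f₀ ε (fun m w => fluxG Q.te g0 g P z m w))) z) =
        fun _ => 0 := by
      funext z
      have h2 : gcE f₀ ε (fun m w => fluxG Q.te g0 g P z m w) = 0 := by
        simp only [h0]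
        exact gcE_zero f₀ ε
      by_cases hz : z ∈ {z : PhasePoint × Par P | Valid Φ ε P T' z.1.2 z.2}
      · rw [indicator_of_mem hz, h2, mul_zero, mul_zero]
      · rw [indicator_of_notMem hz]
    rw [h1, lintegral_zero]
  rw [h1, mul_zero]
  exact zero_le

/-- The contact is at the end of the window. -/
def endG (te : ℝ) : CF := fun _P _z _m _w s _v _b => if s = te then 1 else 0

theorem measCF_endG (te : ℝ) : MeasCF (endG te) := by
  intro P m
  have h1 : Measurable fun q : ((PhasePoint × Par P) × Config m) × (ℝ × (Space3 × Space3)) =>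
      q.2.1 := measurable_fst.comp measurable_snd
  exact Measurable.ite (h1 (measurableSet_singleton te)) measurable_const measurable_const

theorem fluxG_end (te g0 : ℝ) (P : CTree) (z : PhasePoint × Par P) (m : ℕ) (w : Config m) :
    fluxG te g0 (endG te) P z m w = 0 := by
  unfold fluxG
  refine (lintegral_congr_ae ?_).trans lintegral_zero
  have h1 : ∀ᵐ s ∂(volume.restrict (Ioc (0 : ℝ) te)), s ≠ te :=
    ae_restrict_of_ae (Measure.ae_ne volume te)
  filter_upwards [h1] with s hs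
  have h2 : ∀ v b : Space3, endG te P z m w s v b = 0 := fun v b => by
    unfold endG
    rw [if_neg hs]
  simp only [h2, lintegral_zero, mul_zero]

/-- The contact is shortly before the end of the window. -/
def horV (te R : ℝ) : VF := fun ε _P _q s _v _b => if te - R * ε < s ∧ s < te then 1 else 0

theorem measVF_horV (te R : ℝ) : MeasVF (horV te R) := by
  intro ε _ P
  have h1 : Measurable fun x : (Space3 × Par P) × (ℝ × (Space3 × Space3)) => x.2.1 :=
    measurable_fst.comp measurable_snd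
  exact Measurable.ite ((measurableSet_lt measurable_const h1).inter
    (measurableSet_lt h1 measurable_const)) measurable_const measurable_const

/-- Contact time in `(te - R ε, te]`. -/
def horS (te R : ℝ) (K : ℕ) (ε : ℝ) : SF := fun P z _m _w l =>
  if P.leaves ≤ K ∧ te - R * ε < cT ε z l ∧ cT ε z l ≤ te then 1 else 0

theorem osNull_hor (hΦ : AdmissiblePotential Φ) (hf : Measurable f₀) {A : Space3 → ℝ≥0∞}
    {C b g0 : ℝ} (hF : FOk f₀ A C b) (hQ : QOk Q g0) (K : ℕ) (T' R : ℝ) :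
    OSNull Φ f₀ K Q T' fun ε => horS Q.te R K ε := by
  have hfin : IsFiniteMeasure (volume.restrict (Ioc (0 : ℝ) Q.te)) :=
    ⟨by rw [Measure.restrict_apply_univ]; exact measure_Ioc_lt_top⟩
  have h1 : OSNull Φ f₀ K Q T' fun ε => sfOf ε K (endG Q.te) :=
    osNull_of_flux0 hΦ hQ K T' (measCF_endG Q.te) fun P z m w => fluxG_end Q.te g0 P z m w
  have h2 : OSNull Φ f₀ K Q T' fun ε => sfOf ε K (cfOf (horV Q.te R) ε) := by
    have ht := OS_tendsto hΦ hF hQ K T' (κ := volume.restrict (Ioc (0 : ℝ) Q.te))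
      (ae_restrict_mem measurableSet_Ioc) (measVF_horV Q.te R) (fun ε P q s v b => ?_)
      (fun P => Eventually.of_forall fun q s hs v b => ?_)
      (H := fun ε => sfOf ε K (cfOf (horV Q.te R) ε)) (fun ε _ P z m w l => le_rfl)
    · refine OSNull.of_meas (fun ε hε => measSF_sfOf ε K (measCF_cfOf (measVF_horV Q.te R) hε))
        fun δ hδ => ?_
      have h := ht.eventually (gt_mem_nhds (show (0 : ℝ≥0∞) < ENNReal.ofReal δ by simpa using hδ))
      obtain ⟨u, hu, hsub⟩ := mem_nhdsGT_iff_exists_Ioo_subset.1 h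
      exact ⟨u, hu, fun ε h0 h2 => (hsub ⟨h0, h2⟩).le⟩
    · unfold horV
      split_ifs
      · exact le_rfl
      · exact bot_le
    · refine tendsto_const_nhds.congr' ?_
      by_cases hs2 : s < Q.te
      · have h3 : Tendsto (fun ε : ℝ => Q.te - R * ε) (𝓝[>] 0) (𝓝 Q.te) := by
          have h4 : Tendsto (fun ε : ℝ => Q.te - R * ε) (𝓝 0) (𝓝 (Q.te - R * 0)) :=
            tendsto_const_nhds.sub (tendsto_id.const_mul R)
          rw [mul_zero, sub_zero] at h4
          exact h4.mono_left nhdsWithin_le_nhds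
        filter_upwards [h3.eventually (lt_mem_nhds hs2)] with ε hε
        unfold horV
        rw [if_neg]
        rintro ⟨h5, -⟩
        exact absurd h5 (not_lt.2 hε.le)
      · filter_upwards with ε
        unfold horV
        rw [if_neg]
        rintro ⟨-, h5⟩
        exact hs2 h5
  refine (h1.add hΦ hf hQ.γ_meas h2).congr fun ε hε P z m w l hg => ?_
  show horS Q.te R K ε P z m w l ≤ sfOf ε K (endG Q.te) P z m w l +
    sfOf ε K (cfOf (horV Q.te R) ε) P z m w l
  unfold horS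
  split_ifs with h
  · obtain ⟨hP, h3, h4⟩ := h
    rcases eq_or_lt_of_le h4 with h5 | h5
    · refine le_trans ?_ (le_self_add)
      unfold sfOf endG
      rw [if_pos hP, if_pos h5]
    · refine le_trans ?_ (le_add_self)
      unfold sfOf cfOf horV
      rw [if_pos hP, if_pos ⟨h3, h5⟩]
  · exact bot_le

end Crest.Agent.R122.LinkAsm984

end
end

-- ▼ part R122/Coinc_423
section

/-!
# Contact structures with a prescribed contact time (row 122, H1, helper423)

* `ctInt_J_le`, `ct_flux_J` : flux of the marked lines through the root line of a tree during a set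
  `J` of contact times: `ε² κ(0,te] |J| π cV (1 + |v|) ∑ markW`.
* `coF` : some exit of the tree is first touched by the gas at a time in `[cT, cT + R ε]`.
* `OS_coF_le`, `coinc_null` : the structure integral of `coF` is `O(R ε)`, hence null.
-/

set_option autoImplicit false
set_option linter.unusedSectionVars false

open MeasureTheory Set Filter
open scoped ENNReal Classical Topology
open Crest.AnalysisR.Kinetic
open Crest.Agent.R122.Kin796 Crest.Agent.R122.Kin796.CTree Crest.Agent.R122.Tree674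
open Crest.Agent.R122.Relabel674 Crest.Agent.R122.GC311 Crest.Agent.R122.Flow671
open Crest.Agent.R122.EDefs602 Crest.Agent.R122.OneC285 Crest.Agent.R122.OCout796
open Crest.Agent.R122.Disc416 Crest.Agent.R122.Scat818 Crest.Agent.R122.Kin416
open Crest.Agent.R122.TreeLines335 Crest.Agent.R122.LineMeas994
open Crest.Agent.R122.XC815 (cV cV_ne_top norm_sub_le_mul)

noncomputable section

namespace Crest.Agent.R122.Coinc423

variable {Φ : Space3 → ℝ} {f₀ : PhasePoint → ℝ} {ε : ℝ} {P : CTree}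

/-! ### Flux during a set of contact times -/

/-- The contact kernel of the lines with contact time in `J`. -/
theorem ctInt_J_le (hε : 0 < ε) (z : PhasePoint × Par P) {γ : ℝ → ℝ} (ρ : ℝ≥0∞) {K : ℕ}
    {g τ s : ℝ} (hg : g ≤ γ τ) (J : Set ℝ) (a : ℕ → ℝ≥0∞) :
    OneC423.ctInt ε s z.1 τ (fun l => lineD γ ρ K l * (a l.2 * if cT ε z l ∈ J then 1 else 0)) ≤
      (if s ∈ J then 1 else 0) * ((∑' n : ℕ, markW ρ K n * a n) * (ENNReal.ofReal Real.pi * cV g *
        ENNReal.ofReal (1 + ‖z.1.2‖))) := by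
  unfold OneC423.ctInt
  rw [← ENNReal.tsum_mul_right, ← ENNReal.tsum_mul_left]
  refine ENNReal.tsum_le_tsum fun n => ?_
  have hv : ∀ v : Space3, ENNReal.ofReal ‖v - z.1.2‖ *
      ∫⁻ b in impactDisc (v - z.1.2), (lineD γ ρ K (OneC423.lineAt ε s z.1 τ v b n) *
        (a (OneC423.lineAt ε s z.1 τ v b n).2 *
          if cT ε z (OneC423.lineAt ε s z.1 τ v b n) ∈ J then 1 else 0)) ∂μHE[2] ≤
      ((if s ∈ J then 1 else 0) * (markW ρ K n * a n * (ENNReal.ofReal Real.pi *
        ENNReal.ofReal (1 + ‖z.1.2‖)))) * (wG g v * ENNReal.ofReal (1 + ‖v‖)) := by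
    intro v
    by_cases hv : v - z.1.2 = 0
    · rw [hv, norm_zero, ENNReal.ofReal_zero, zero_mul]
      exact zero_le
    calc ENNReal.ofReal ‖v - z.1.2‖ *
        ∫⁻ b in impactDisc (v - z.1.2), (lineD γ ρ K (OneC423.lineAt ε s z.1 τ v b n) *
          (a (OneC423.lineAt ε s z.1 τ v b n).2 *
            if cT ε z (OneC423.lineAt ε s z.1 τ v b n) ∈ J then 1 else 0)) ∂μHE[2]
        ≤ (ENNReal.ofReal (1 + ‖v‖) * ENNReal.ofReal (1 + ‖z.1.2‖)) *
          ∫⁻ _ in impactDisc (v - z.1.2), (wG g v * markW ρ K n *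
            (a n * if s ∈ J then 1 else 0)) ∂μHE[2] := by
          refine mul_le_mul' (norm_sub_le_mul v z.1.2) ?_
          refine setLIntegral_mono' (measurableSet_impactDisc _) fun b hb => ?_
          rw [OneNS423.cT_lineAt hε hv hb]
          refine mul_le_mul' ?_ le_rfl
          exact mul_le_mul' (Kin796.wG_anti hg v) le_rfl
      _ = _ := by
          rw [setLIntegral_const, measure_impactDisc hv]
          ring
  refine (lintegral_mono hv).trans (le_of_eq ?_)
  have hm : Measurable fun v : Space3 => wG g v * ENNReal.ofReal (1 + ‖v‖) := by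
    unfold wG
    fun_prop
  rw [lintegral_const_mul _ hm]
  unfold cV
  ring

/-- **Flux of the marked lines through the root line during `J`.** -/
theorem ct_flux_J (hΦ : AdmissiblePotential Φ) (hε : 0 < ε) (z : PhasePoint × Par P)
    {te : ℝ} {κ : Measure ℝ} [SFinite κ] {γ : ℝ → ℝ} (hγ : Measurable γ) {g : ℝ}
    (hg : ∀ᵐ τ ∂κ, 0 < τ ∧ g ≤ γ τ) (ρ : ℝ≥0∞) (K : ℕ) (a : ℕ → ℝ≥0∞)
    {J : Set ℝ} (hJ : MeasurableSet J) :
    ∫⁻ l, {l : ML | (z, l.1) ∈ OneC423.ctSet Φ ε te P}.indicator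
        (fun l => lineD γ ρ K l * (a l.2 * if cT ε z l ∈ J then 1 else 0)) l
          ∂(OneC423.baseM κ) ≤
      ENNReal.ofReal (ε ^ 2) * (κ univ * (volume (J ∩ Ioc 0 te) *
        ((∑' n : ℕ, markW ρ K n * a n) * (ENNReal.ofReal Real.pi * cV g *
          ENNReal.ofReal (1 + ‖z.1.2‖))))) := by
  set c : ℝ≥0∞ := (∑' n : ℕ, markW ρ K n * a n) * (ENNReal.ofReal Real.pi * cV g *
    ENNReal.ofReal (1 + ‖z.1.2‖)) with hc
  have hmT : Measurable fun l : ML => cT ε z l :=
    (OneNS423.measurable_cT (P := P) (ε := ε)).comp (f := fun l : ML => (z, l))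
      (measurable_const.prodMk measurable_id)
  have hms : MeasurableSet {l : ML | cT ε z l ∈ J} := hmT hJ
  have hm1 : Measurable fun l : ML => (if cT ε z l ∈ J then 1 else 0 : ℝ≥0∞) :=
    Measurable.ite hms measurable_const measurable_const
  have hm2 : Measurable fun l : ML => a l.2 := measurable_from_top.comp measurable_snd
  have hH : Measurable fun l : ML => lineD γ ρ K l * (a l.2 * if cT ε z l ∈ J then 1 else 0) :=
    (EBasic602.measurable_lineD hγ).mul (hm2.mul hm1)
  rw [OneC423.lintegral_ct hΦ hε z κ hH]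
  refine mul_le_mul' le_rfl ?_
  calc ∫⁻ τ, (∫⁻ s in Ioc τ te, {s | s ≤ te ∧ Valid Φ ε P s z.1.2 z.2}.indicator
        (fun s => OneC423.ctInt ε s z.1 τ (fun l => lineD γ ρ K l *
          (a l.2 * if cT ε z l ∈ J then 1 else 0))) s) ∂κ
      ≤ ∫⁻ _, volume (J ∩ Ioc 0 te) * c ∂κ := by
        refine lintegral_mono_ae ?_
        filter_upwards [hg] with τ hτ
        calc ∫⁻ s in Ioc τ te, {s | s ≤ te ∧ Valid Φ ε P s z.1.2 z.2}.indicator
              (fun s => OneC423.ctInt ε s z.1 τ (fun l => lineD γ ρ K l *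
                (a l.2 * if cT ε z l ∈ J then 1 else 0))) s
            ≤ ∫⁻ s in Ioc τ te, J.indicator (fun _ => c) s := by
              refine lintegral_mono fun s => ?_
              refine (indicator_le_self' (fun _ _ => zero_le) s).trans ?_
              refine (ctInt_J_le hε z ρ hτ.2 J a).trans (le_of_eq ?_)
              rw [indicator_apply]
              by_cases hs : s ∈ J
              · rw [if_pos hs, if_pos hs, one_mul]
              · rw [if_neg hs, if_neg hs, zero_mul]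
          _ = c * volume (J ∩ Ioc τ te) := by
              rw [lintegral_indicator hJ, setLIntegral_const, Measure.restrict_apply hJ]
          _ ≤ volume (J ∩ Ioc 0 te) * c := by
              rw [mul_comm]
              refine mul_le_mul' (measure_mono ?_) le_rfl
              exact inter_subset_inter_right J (Ioc_subset_Ioc_left hτ.1.le)
    _ = _ := by
        rw [lintegral_const, mul_comm]

/-! ### Coincidence of the contact with the first touch of an exit -/

/-- Some exit of the tree (`|P| ≤ K`) is first touched by the gas in `[cT, cT + R ε]`. -/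
def coF (Φ : Space3 → ℝ) (ε : ℝ) (K : ℕ) (te R : ℝ) : SF := fun P z _ w l =>
  if P.leaves ≤ K ∧ ∃ i : Idx P, i ≠ root P ∧
    (MW.cfg w).thetaL Φ ε K te (lineMM Φ ε P z i) ∈ Icc (cT ε z l) (cT ε z l + R * ε) then 1 else 0

theorem measSF_coF (hΦ : AdmissiblePotential Φ) (hε : 0 < ε) (K : ℕ) (te R : ℝ) :
    MeasSF (coF Φ ε K te R) := by
  intro P m
  unfold coF
  refine Measurable.ite ?_ measurable_const measurable_const
  have hc : Measurable fun q : (PhasePoint × Par P) × (Config m × ML) => cT ε q.1 q.2.2 :=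
    (OneNS423.measurable_cT (P := P) (ε := ε)).comp
      (f := fun q : (PhasePoint × Par P) × (Config m × ML) => (q.1, q.2.2))
      (measurable_fst.prodMk measurable_snd.snd)
  have hset : ∀ i : Idx P, MeasurableSet {q : (PhasePoint × Par P) × (Config m × ML) |
      (MW.cfg q.2.1).thetaL Φ ε K te (lineMM Φ ε P q.1 i) ∈
        Icc (cT ε q.1 q.2.2) (cT ε q.1 q.2.2 + R * ε)} := by
    intro i
    have ht : Measurable fun q : (PhasePoint × Par P) × (Config m × ML) =>
        (MW.cfg q.2.1).thetaL Φ ε K te (lineMM Φ ε P q.1 i) :=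
      (MeasE416.measurable_thetaL_cfg hΦ hε K te m).comp
        (f := fun q : (PhasePoint × Par P) × (Config m × ML) => (q.2.1, lineMM Φ ε P q.1 i))
        (measurable_snd.fst.prodMk ((measurable_lineMM hΦ ε P i).comp measurable_fst))
    exact (measurableSet_le hc ht).inter (measurableSet_le ht (hc.add_const _))
  have : {q : (PhasePoint × Par P) × (Config m × ML) | P.leaves ≤ K ∧ ∃ i : Idx P, i ≠ root P ∧
      (MW.cfg q.2.1).thetaL Φ ε K te (lineMM Φ ε P q.1 i) ∈
        Icc (cT ε q.1 q.2.2) (cT ε q.1 q.2.2 + R * ε)} =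
      {_q | P.leaves ≤ K} ∩ ⋃ i : Idx P, ({_q | i ≠ root P} ∩
        {q | (MW.cfg q.2.1).thetaL Φ ε K te (lineMM Φ ε P q.1 i) ∈
        Icc (cT ε q.1 q.2.2) (cT ε q.1 q.2.2 + R * ε)}) := by
    ext q
    simp only [mem_inter_iff, mem_iUnion, Set.mem_ofPred_eq]
  rw [this]
  exact (MeasurableSet.const _).inter (MeasurableSet.iUnion fun i =>
    (MeasurableSet.const _).inter (hset i))

theorem coF_zero_of_not {K : ℕ} {te R : ℝ} (hP : ¬ P.leaves ≤ K) (z : PhasePoint × Par P) (m : ℕ)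
    (w : Config m) (l : ML) : coF Φ ε K te R P z m w l = 0 := by
  unfold coF
  rw [if_neg fun h => hP h.1]

/-- At fixed tree and gas: flux of the lines with `coF`. -/
theorem inner_coF_le (hΦ : AdmissiblePotential Φ) (hε : 0 < ε) (z : PhasePoint × Par P) {K : ℕ}
    {Q : EPar} (hγ : Measurable Q.γ) {g R : ℝ} (hg : ∀ τ ∈ Ioc 0 Q.te, g ≤ Q.γ τ) {m : ℕ}
    (w : Config m) :
    ∫⁻ l, {l : ML | (z, l.1) ∈ OneC423.ctSet Φ ε Q.te P}.indicator
        (fun l => lineD Q.γ Q.ρ K l * coF Φ ε K Q.te R P z m w l) l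
          ∂(OneC423.baseM (volume.restrict (Ioc 0 Q.te))) ≤
      (Fintype.card (Idx P) : ℝ≥0∞) * (ENNReal.ofReal (ε ^ 2) * (ENNReal.ofReal Q.te *
        (ENNReal.ofReal (R * ε) * ((∑' n : ℕ, markW Q.ρ K n) * (ENNReal.ofReal Real.pi * cV g *
          ENNReal.ofReal (1 + ‖z.1.2‖)))))) := by
  obtain ⟨J, hJ⟩ : ∃ J : Idx P → Set ℝ, ∀ i, J i =
      Icc ((MW.cfg w).thetaL Φ ε K Q.te (lineMM Φ ε P z i) - R * ε)
        ((MW.cfg w).thetaL Φ ε K Q.te (lineMM Φ ε P z i)) := ⟨_, fun _ => rfl⟩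
  have hJm : ∀ i, MeasurableSet (J i) := fun i => by rw [hJ i]; exact measurableSet_Icc
  have hms : MeasurableSet {l : ML | (z, l.1) ∈ OneC423.ctSet Φ ε Q.te P} :=
    (measurable_const.prodMk measurable_fst : Measurable fun l : ML =>
      ((z, l.1) : (PhasePoint × Par P) × (ℝ × PhasePoint)))
      (OneC423.measurableSet_ctSet hΦ ε Q.te P)
  have hmT : Measurable fun l : ML => cT ε z l :=
    (OneNS423.measurable_cT (P := P) (ε := ε)).comp (f := fun l : ML => (z, l))
      (measurable_const.prodMk measurable_id)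
  have hpt : ∀ l : ML, {l : ML | (z, l.1) ∈ OneC423.ctSet Φ ε Q.te P}.indicator
      (fun l => lineD Q.γ Q.ρ K l * coF Φ ε K Q.te R P z m w l) l ≤
      ∑ i : Idx P, {l : ML | (z, l.1) ∈ OneC423.ctSet Φ ε Q.te P}.indicator
        (fun l => lineD Q.γ Q.ρ K l * ((fun _ : ℕ => (1 : ℝ≥0∞)) l.2 *
          if cT ε z l ∈ J i then 1 else 0)) l := by
    intro l
    by_cases hl : l ∈ {l : ML | (z, l.1) ∈ OneC423.ctSet Φ ε Q.te P}
    swap
    · rw [indicator_of_notMem hl]
      exact zero_le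
    rw [indicator_of_mem hl]
    by_cases hc : P.leaves ≤ K ∧ ∃ i : Idx P, i ≠ root P ∧
        (MW.cfg w).thetaL Φ ε K Q.te (lineMM Φ ε P z i) ∈ Icc (cT ε z l) (cT ε z l + R * ε)
    · obtain ⟨-, i, -, hi⟩ := hc
      have hi' : cT ε z l ∈ J i := by
        rw [hJ i]
        exact ⟨by linarith [hi.2], hi.1⟩
      refine le_trans ?_ (Finset.single_le_sum (f := fun i =>
        {l : ML | (z, l.1) ∈ OneC423.ctSet Φ ε Q.te P}.indicator
        (fun l => lineD Q.γ Q.ρ K l * ((fun _ : ℕ => (1 : ℝ≥0∞)) l.2 *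
          if cT ε z l ∈ J i then 1 else 0)) l) (fun _ _ => zero_le) (Finset.mem_univ i))
      simp only
      rw [indicator_of_mem hl, if_pos hi', one_mul]
      refine mul_le_mul' le_rfl ?_
      unfold coF
      split_ifs
      · exact le_rfl
      · exact zero_le_one
    · unfold coF
      rw [if_neg hc, mul_zero]
      exact zero_le
  have hmi : ∀ i : Idx P, Measurable fun l : ML =>
      {l : ML | (z, l.1) ∈ OneC423.ctSet Φ ε Q.te P}.indicator
        (fun l => lineD Q.γ Q.ρ K l * ((fun _ : ℕ => (1 : ℝ≥0∞)) l.2 *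
          if cT ε z l ∈ J i then 1 else 0)) l := by
    intro i
    have hms1 : MeasurableSet {l : ML | cT ε z l ∈ J i} := hmT (hJm i)
    have hm1 : Measurable fun l : ML => (if cT ε z l ∈ J i then 1 else 0 : ℝ≥0∞) :=
      Measurable.ite hms1 measurable_const measurable_const
    exact ((EBasic602.measurable_lineD hγ).mul (measurable_const.mul hm1)).indicator hms
  refine (lintegral_mono hpt).trans ?_
  rw [lintegral_finsetSum _ fun i _ => hmi i]
  refine (Finset.sum_le_card_nsmul _ _ (ENNReal.ofReal (ε ^ 2) * (ENNReal.ofReal Q.te *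
        (ENNReal.ofReal (R * ε) * ((∑' n : ℕ, markW Q.ρ K n) * (ENNReal.ofReal Real.pi * cV g *
          ENNReal.ofReal (1 + ‖z.1.2‖)))))) fun i _ => ?_).trans (le_of_eq ?_)
  · refine (ct_flux_J hΦ hε z hγ (κ := volume.restrict (Ioc 0 Q.te)) (g := g) ?_ Q.ρ K
      (fun _ => 1) (J := J i) (hJm i)).trans ?_
    · exact (ae_restrict_iff' measurableSet_Ioc).2 (Eventually.of_forall fun τ hτ =>
        ⟨hτ.1, hg τ hτ⟩)
    · refine mul_le_mul' le_rfl ?_
      rw [Measure.restrict_apply_univ, Real.volume_Ioc, sub_zero]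
      refine mul_le_mul' le_rfl (mul_le_mul' ?_ ?_)
      · refine (measure_mono inter_subset_left).trans (le_of_eq ?_)
        rw [hJ i, Real.volume_Icc]
        congr 1
        ring
      · simp only [mul_one]
        exact le_rfl
  · rw [Finset.card_univ, nsmul_eq_mul]

/-- **The structure integral of the coincidences is `O(R ε)`.** -/
theorem OS_coF_le (hΦ : AdmissiblePotential Φ) (hf : Measurable f₀)
    (h1 : ∫⁻ z, ENNReal.ofReal (f₀ z) ≤ 1) {b : ℝ} (hb : 0 < b)
    (H : HasSummableGaussianBound b (fun x v => f₀ (x, v))) (K : ℕ) (T' : ℝ) :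
    ∃ M : ℝ≥0∞, M ≠ ∞ ∧ ∀ (Q : EPar) (g R ε : ℝ), 0 < ε → Measurable Q.γ →
      (∀ τ ∈ Ioc 0 Q.te, g ≤ Q.γ τ) →
      OS Φ f₀ ε K Q T' (volume.restrict (Ioc 0 Q.te)) (coF Φ ε K Q.te R) ≤
        M * (ENNReal.ofReal Q.te * ((∑' n : ℕ, markW Q.ρ K n) * cV g)) *
          ENNReal.ofReal (R * ε) := by
  choose M hM hMle using fun P : CTree => Long984.exists_root_mass hΦ hf hb H P T'
  have hb2 : 0 < b / 2 := by linarith
  refine ⟨∑ P ∈ GIVStep383.trees K, M P * ((Fintype.card (Idx P) : ℝ≥0∞) *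
    ENNReal.ofReal Real.pi * cV (b / 2)), ENNReal.sum_ne_top.2 fun P _ =>
      ENNReal.mul_ne_top (hM P) (ENNReal.mul_ne_top (ENNReal.mul_ne_top
        (ENNReal.natCast_ne_top _) ENNReal.ofReal_ne_top) (cV_ne_top hb2)), ?_⟩
  intro Q g R ε hε hγm hg
  set mk : ℝ≥0∞ := ∑' n : ℕ, markW Q.ρ K n with hmk
  set c : ℝ≥0∞ := ENNReal.ofReal Q.te * (mk * cV g) with hc
  -- one tree
  have htree : ∀ P : CTree, ∫⁻ z : PhasePoint × Par P,
      {z : PhasePoint × Par P | Valid Φ ε P T' z.1.2 z.2}.indicator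
        (fun z => wt Φ P z.1.2 z.2 * (ToTree335.pf Φ f₀ ε P z *
          gcE f₀ ε (fun m w => ∫⁻ l, {l : ML | (z, l.1) ∈ OneC423.ctSet Φ ε Q.te P}.indicator
            (fun l => lineD Q.γ Q.ρ K l * coF Φ ε K Q.te R P z m w l) l
              ∂(OneC423.baseM (volume.restrict (Ioc 0 Q.te)))))) z ≤
      if P ∈ GIVStep383.trees K then (M P * ((Fintype.card (Idx P) : ℝ≥0∞) *
        ENNReal.ofReal Real.pi * cV (b / 2))) * (ENNReal.ofReal (ε ^ 2) *
          (c * ENNReal.ofReal (R * ε))) else 0 := by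
    intro P
    by_cases hP : P.leaves ≤ K
    · rw [if_pos (GIVStep383.mem_trees.2 hP)]
      set d : ℝ≥0∞ := (Fintype.card (Idx P) : ℝ≥0∞) * (ENNReal.ofReal (ε ^ 2) *
        (ENNReal.ofReal Q.te * (ENNReal.ofReal (R * ε) * (mk * (ENNReal.ofReal Real.pi * cV g)))))
        with hd
      have hh : Measurable fun u : Space3 => d * ENNReal.ofReal (1 + ‖u‖) := by fun_prop
      refine le_trans ?_ ((hMle P ε T' hε.le le_rfl _ hh).trans (le_of_eq ?_))
      · refine lintegral_mono fun z => ?_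
        refine indicator_le_indicator ?_
        refine mul_le_mul' le_rfl (mul_le_mul' le_rfl ?_)
        refine le_trans (gcE_mono f₀ ε fun m w _ =>
          inner_coF_le hΦ hε z hγm hg (R := R) w) ?_
        refine (Long984.gcE_const_le hf h1 ε _).trans (le_of_eq ?_)
        rw [hd]; ring
      · have hm : Measurable fun u : Space3 => wG (b / 2) u * ENNReal.ofReal (1 + ‖u‖) := by
          unfold wG
          fun_prop
        have e1 : ∫⁻ u : Space3, wG (b / 2) u * (d * ENNReal.ofReal (1 + ‖u‖)) =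
            d * cV (b / 2) := by
          unfold cV
          rw [← lintegral_const_mul _ hm]
          refine lintegral_congr fun u => ?_
          ring
        rw [e1, hd, hc]
        ring
    · rw [if_neg fun h => hP (GIVStep383.mem_trees.1 h)]
      refine le_of_eq ?_
      have h0 : ∀ z : PhasePoint × Par P,
          {z : PhasePoint × Par P | Valid Φ ε P T' z.1.2 z.2}.indicator
          (fun z => wt Φ P z.1.2 z.2 * (ToTree335.pf Φ f₀ ε P z *
          gcE f₀ ε (fun m w => ∫⁻ l, {l : ML | (z, l.1) ∈ OneC423.ctSet Φ ε Q.te P}.indicator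
            (fun l => lineD Q.γ Q.ρ K l * coF Φ ε K Q.te R P z m w l) l
              ∂(OneC423.baseM (volume.restrict (Ioc 0 Q.te)))))) z = 0 := by
        intro z
        refine indicator_apply_eq_zero.2 fun _ => ?_
        simp only [coF_zero_of_not hP, mul_zero, indicator_zero, lintegral_zero, gcE_zero]
      simp only [h0, lintegral_zero]
  unfold OS
  calc _ ≤ activity ε * ∑' P : CTree, (if P ∈ GIVStep383.trees K then
        (M P * ((Fintype.card (Idx P) : ℝ≥0∞) *
        ENNReal.ofReal Real.pi * cV (b / 2))) * (ENNReal.ofReal (ε ^ 2) *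
          (c * ENNReal.ofReal (R * ε))) else 0) :=
        mul_le_mul' le_rfl (ENNReal.tsum_le_tsum htree)
    _ = activity ε * ∑ P ∈ GIVStep383.trees K, (M P * ((Fintype.card (Idx P) : ℝ≥0∞) *
        ENNReal.ofReal Real.pi * cV (b / 2))) * (ENNReal.ofReal (ε ^ 2) *
          (c * ENNReal.ofReal (R * ε))) := by
        rw [tsum_eq_sum (s := GIVStep383.trees K) fun P hP => if_neg hP]
        congr 1
        exact Finset.sum_congr rfl fun P hP => if_pos hP
    _ = (activity ε * ENNReal.ofReal (ε ^ 2)) * ((∑ P ∈ GIVStep383.trees K,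
          M P * ((Fintype.card (Idx P) : ℝ≥0∞) * ENNReal.ofReal Real.pi * cV (b / 2))) *
          (c * ENNReal.ofReal (R * ε))) := by
        rw [← Finset.sum_mul]
        ring
    _ = _ := by
        rw [ENNReal.ofReal_pow hε.le, Mom974.activity_mul_sq hε, one_mul, ← mul_assoc]

/-- **The coincidences are null** (H1): for fixed `K`, `R`. -/
theorem coinc_null (hΦ : AdmissiblePotential Φ) (hf : Measurable f₀)
    (h1 : ∫⁻ z, ENNReal.ofReal (f₀ z) ≤ 1) {b : ℝ} (hb : 0 < b)
    (H : HasSummableGaussianBound b (fun x v => f₀ (x, v))) (T' : ℝ) {Q : EPar}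
    (hγ : Measurable Q.γ) (hρ : Q.ρ ≠ ∞) {g : ℝ} (hg0 : 0 < g)
    (hg : ∀ τ ∈ Ioc 0 Q.te, g ≤ Q.γ τ) (R : ℝ) :
    Null fun K ε => OS Φ f₀ ε K Q T' (volume.restrict (Ioc 0 Q.te)) (coF Φ ε K Q.te R) := by
  intro K δ hδ
  obtain ⟨M, hM, hle⟩ := OS_coF_le hΦ hf h1 hb H K T'
  set c : ℝ≥0∞ := M * (ENNReal.ofReal Q.te * ((∑' n : ℕ, markW Q.ρ K n) * cV g)) with hc
  have hct : c ≠ ∞ := ENNReal.mul_ne_top hM (ENNReal.mul_ne_top ENNReal.ofReal_ne_top
    (ENNReal.mul_ne_top (LinkM547.tsum_markW_ne_top hρ K) (cV_ne_top hg0)))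
  have h2 : Tendsto (fun ε : ℝ => c * ENNReal.ofReal (R * ε)) (𝓝[>] 0) (𝓝 0) := by
    have h3 : Tendsto (fun ε : ℝ => ENNReal.ofReal (R * ε)) (𝓝[>] 0) (𝓝 0) := by
      have h4 : Tendsto (fun ε : ℝ => R * ε) (𝓝[>] 0) (𝓝 0) := by
        have : Tendsto (fun ε : ℝ => R * ε) (𝓝 0) (𝓝 (R * 0)) :=
          (continuous_const.mul continuous_id).tendsto 0
        rw [mul_zero] at this
        exact this.mono_left nhdsWithin_le_nhds
      have := (ENNReal.continuous_ofReal.tendsto 0).comp h4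
      rwa [ENNReal.ofReal_zero] at this
    have := ENNReal.Tendsto.const_mul (a := c) h3 (Or.inr hct)
    rwa [mul_zero] at this
  have h5 : ∀ᶠ ε in 𝓝[>] (0 : ℝ), c * ENNReal.ofReal (R * ε) ≤ ENNReal.ofReal δ :=
    (h2.eventually (gt_mem_nhds (ENNReal.ofReal_pos.2 hδ))).mono fun _ h => le_of_lt h
  rw [eventually_nhdsWithin_iff, Metric.eventually_nhds_iff] at h5
  obtain ⟨η, hη, h6⟩ := h5
  refine ⟨η, hη, fun ε hε hlt => (hle Q g R ε hε hγ hg).trans (h6 ?_ hε)⟩
  rw [Real.dist_eq, sub_zero, abs_of_pos hε]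
  exact hlt

/-- On admissible parameters `coF` is the event with the lines `lineML`. -/
theorem coF_eq_one {K : ℕ} {te R : ℝ} {z : PhasePoint × Par P} (hz : Adm Φ P z.1.2 z.2) {m : ℕ}
    {w : Config m} {l : ML} (hP : P.leaves ≤ K) {i : Idx P} (hi : i ≠ root P)
    (h : (MW.cfg w).thetaL Φ ε K te (lineML Φ ε P z i) ∈ Icc (cT ε z l) (cT ε z l + R * ε)) :
    coF Φ ε K te R P z m w l = 1 := by
  unfold coF
  rw [if_pos ⟨hP, i, hi, by rw [lineMM_of_adm ε hz]; exact h⟩]

end Crest.Agent.R122.Coinc423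

end
end

-- ▼ part R122/LinkAsm_984

/-!
# Assembly of `StmtLink4` (row 122, board H1): the pointwise bound and the assembly

* `OkE4` : almost sure facts; `LinkE4` : link events of a contact structure; `XbadD`, `Xbad4` : linked
  test lines, base worlds `w` and `w + d`.
* `NbadDet` : deterministic statement on `Nbad4` (helper879).
* `err4_le` : the error is bounded by the pieces.
* `osNull_err4`, `stmtLink4_of_parts` : `StmtLink4` from the pieces.
-/

set_option autoImplicit false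
set_option linter.unusedSectionVars false

open MeasureTheory Set Filter Topology
open scoped ENNReal
open Crest.AnalysisR.Kinetic
open Crest.Agent.R122.Kin796 Crest.Agent.R122.Kin796.CTree Crest.Agent.R122.Tree674
open Crest.Agent.R122.GC311 Crest.Agent.R122.EDefs602 Crest.Agent.R122.OneC285
open Crest.Agent.R122.Long984 Crest.Agent.R122.Third741 Crest.Agent.R122.ThirdV796
open Crest.Agent.R122.OSCalc495 Crest.Agent.R122.GSCalc495
open Crest.Agent.R122.Scat818 Crest.Agent.R122.OCout796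
open Crest.Agent.R122.Ins45 hiding relLs
open Crest.Agent.R122.Flow671 hiding rel
open Crest.Agent.R122.TreeLines335 Crest.Agent.R122.Line285 Crest.Agent.R122.Inf879
open Crest.Agent.R122.MWFam255 (PairNL CF)
open Crest.Agent.R122.E6Hyp879 (withD)
open Crest.Agent.R122.LNEv383 (RetC)
open Crest.Agent.R122.UnlC263 (Ad E4Pairs relLs)
open Crest.Agent.R122.Coinc423 (coF)

noncomputable section

open scoped Classical

namespace Crest.Agent.R122.LinkAsm984

variable {Φ : Space3 → ℝ} {f₀ : PhasePoint → ℝ} {ε R : ℝ} {K : ℕ} {Q : EPar} {T' : ℝ} {P : CTree}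
  {z : PhasePoint × Par P} {m : ℕ} {w : Config m} {l x : ML}

/-! ## Events -/

/-- Good worlds of the contact structure. -/
structure OkE4 (Φ : Space3 → ℝ) (ε : ℝ) (P : CTree) (z : PhasePoint × Par P) {m : ℕ}
    (w : Config m) (l : ML) : Prop where
  okR : MW.OkFam Φ ε (MW.cfg w) (lineML Φ ε P z)
  ok1 : MW.OkFam Φ ε (MW.cfg w)
    (fun x : (insert (Sum.inl (root P)) (exS P) : Finset (Idx P ⊕ Bool)) => oneLs Φ ε P z l x)
  ok2 : MW.OkFam Φ ε (MW.cfg w)
    (fun x : (insert (Sum.inr false) (insert (Sum.inr true) (exS P)) : Finset (Idx P ⊕ Bool)) =>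
      oneLs Φ ε P z l x)

/-- An exit which is altered by the gas, or a gas particle which is altered by an exit, is near the
undeflected root line during the encounter, before the exit has touched. -/
def NearL (Φ : Space3 → ℝ) (ε R : ℝ) (K : ℕ) (te : ℝ) (P : CTree) (z : PhasePoint × Par P) {m : ℕ}
    (w : Config m) (l : ML) : Prop :=
  ∃ t, cT ε z l ≤ t ∧ t ≤ cT ε z l + ε * R ∧ ∃ j, j ≠ root P ∧
    t < (MW.cfg w).thetaL Φ ε K te (lineML Φ ε P z j) ∧
    ((∃ k, CF Φ ε K (MW.cfg w) (MW.line (lineML Φ ε P z j)) t k ∧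
      dist (((MW.cfg w).ins (lineML Φ ε P z j)).path Φ ε t (Sum.inl k)).1
        (z.1.1 + t • z.1.2) ≤ (R + 2) * ε) ∨
    ((∃ r k, r < t ∧ ((MW.cfg w).ins (lineML Φ ε P z j)).C Φ ε r (Sum.inr ()) (Sum.inl k)) ∧
      dist (((MW.cfg w).ins (lineML Φ ε P z j)).path Φ ε t (Sum.inr ())).1
        (z.1.1 + t • z.1.2) ≤ (R + 2) * ε))

/-- Two coexisting lines of the contact structure are linked in `w`. -/
def LinkA (Φ : Space3 → ℝ) (ε : ℝ) (K : ℕ) (te : ℝ) (P : CTree) (z : PhasePoint × Par P) {m : ℕ}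
    (w : Config m) (l : ML) : Prop :=
  ∃ x y, Ad P x y ∧ ¬ MW.NoLink Φ ε K te (MW.cfg w) (MW.line (relLs Φ ε P z l x))
    (MW.line (relLs Φ ε P z l y))

/-- Two coexisting lines of the contact structure are linked in `w + d`, `d` an exit. -/
def LinkB (Φ : Space3 → ℝ) (ε : ℝ) (K : ℕ) (te : ℝ) (P : CTree) (z : PhasePoint × Par P) {m : ℕ}
    (w : Config m) (l : ML) : Prop :=
  ∃ d, d ≠ root P ∧ ∃ x y, Ad P x y ∧ x ≠ Sum.inl d ∧ y ≠ Sum.inl d ∧
    ¬ MW.NoLink Φ ε K te ((MW.cfg w).ins (lineML Φ ε P z d)) (MW.line (relLs Φ ε P z l x))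
      (MW.line (relLs Φ ε P z l y))

/-- The encounter is a passage, short, and ends before the horizon. -/
structure EncOk (Φ : Space3 → ℝ) (ε R te : ℝ) (P : CTree) (z : PhasePoint × Par P) (l : ML) :
    Prop where
  pass : CDpass Φ (cD ε z l)
  tau : tauM Φ (relB (cD ε z l)) ≤ R
  disp : tauM Φ (relB (cD ε z l)) * ‖(relB (cD ε z l)).2‖ ≤ R
  hor : cT ε z l + ε * R ≤ te

/-- **The link events of a contact structure** (good worlds, passage). -/
structure LinkE4 (Φ : Space3 → ℝ) (ε R : ℝ) (K : ℕ) (te : ℝ) (P : CTree) (z : PhasePoint × Par P)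
    {m : ℕ} (w : Config m) (l : ML) : Prop where
  ok : OkE4 Φ ε P z w l
  enc : EncOk Φ ε R te P z l
  link : LinkA Φ ε K te P z w l ∨ LinkB Φ ε K te P z w l ∨ NearL Φ ε R K te P z w l

/-- Test lines which are linked to the tree or return to it in the base world `w + d`, `d` an
exit. -/
def XbadD (Φ : Space3 → ℝ) (ε : ℝ) (K : ℕ) (te : ℝ) (P : CTree) (z : PhasePoint × Par P) {m : ℕ}
    (w : Config m) : Set ML :=
  {x | ∃ d, d ≠ root P ∧
    (RetC Φ ε ε K te ((MW.cfg w).ins (lineML Φ ε P z d)) x (ptube Φ ε P z) ∨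
    ∃ i, i ≠ d ∧ ¬ MW.NoLink Φ ε K te ((MW.cfg w).ins (lineML Φ ε P z d))
      (MW.line (lineML Φ ε P z i)) (MW.line x))}

/-- **Exceptional test lines.** -/
def Xbad4 (Φ : Space3 → ℝ) (ε : ℝ) (K : ℕ) (te : ℝ) (P : CTree) (z : PhasePoint × Par P) {m : ℕ}
    (w : Config m) : Set ML :=
  InEq2T.lkX Φ ε K te P z w ∪ XbadD Φ ε K te P z w

/-- (helper879) Deterministic statement: good test lines are not in `Nbad4`. -/
def NbadDet (Φ : Space3 → ℝ) : Prop :=
  ∀ (ε R : ℝ) (K : ℕ) (te T' : ℝ) (P : CTree) (z : PhasePoint × Par P) (m : ℕ) (w : Config m)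
    (l x : ML), 0 < ε → te ≤ T' → l.2 + P.leaves ≤ K → Real4 Φ ε K te T' P z w l →
    E4Pairs Φ ε K te P z w l → EncParts Φ ε R K te P z w l → 0 < x.1.1 → x.1.1 ≤ te → 1 ≤ x.2 →
    x.2 ≤ K → InEq2T.GoodX Φ ε K te P z w x → x ∉ XbadD Φ ε K te P z w →
    x ∉ Nbad4 Φ ε K te P z w l

/-! ## The parts of the encounter -/

/-- The parts of the encounter from the pieces. -/
theorem encParts_of (hε : 0 < ε) (hR : 0 ≤ R) (hK : l.2 + P.leaves ≤ K)
    (h : Real4 Φ ε K Q.te T' P z w l) (hΦ : AdmissiblePotential Φ)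
    (hen : EncOk Φ ε R Q.te P z l) (hA : ¬ Alt4 Φ ε K Q.te P z w l)
    (hco : coF Φ ε K Q.te R P z m w l < 1) (hth : thirdS Φ K R ε P z m w l < 1)
    (hme : memS Φ Q.te K (2 * (R + 1) * ε) ε P z m w l < 1)
    (hn : ¬ NearL Φ ε R K Q.te P z w l) : EncParts Φ ε R K Q.te P z w l := by
  have hPK : P.leaves ≤ K := le_trans (Nat.le_add_left _ _) hK
  have hunt : ∀ j, j ≠ root P →
      cT ε z l + ε * R < (MW.cfg w).thetaL Φ ε K Q.te (lineML Φ ε P z j) := by
    intro j hj
    by_contra hc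
    have h1 : cT ε z l ≤ (MW.cfg w).thetaL Φ ε K Q.te (lineML Φ ε P z j) := by
      by_contra h2
      exact hA ⟨j, hj, (not_le.1 h2).le⟩
    have h2 := Coinc423.coF_eq_one (Φ := Φ) (ε := ε) (K := K) (te := Q.te) (R := R) (l := l)
      (w := w) h.valid.1 hPK hj ⟨h1, by rw [mul_comm R ε]; exact not_lt.1 hc⟩
    rw [h2] at hco
    exact absurd hco (lt_irrefl 1)
  have ha : 0 < 2 * (R + 1) * ε := by positivity
  have htl : ∀ t, cT ε z l ≤ t → t ≤ cT ε z l + ε * R → |t - cT ε z l| ≤ 2 * (R + 1) * ε := by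
    intro t h1 h2
    rw [abs_of_nonneg (sub_nonneg.2 h1)]
    nlinarith
  have hrad : (R + 2) * ε ≤ 2 * (R + 1) * ε := by nlinarith
  refine ⟨hen.pass, hen.tau, hen.disp, hen.hor, hunt, ?_, ?_, ?_, ?_⟩
  · -- gas
    intro t h1 h2 i
    by_contra hc
    rw [not_lt, EBasic602.cfg_path hΦ hε] at hc
    have hnear : Near Φ ε w (cT ε z l) (2 * (R + 1) * ε)
        ((2 * (R + 1) * ε) * (1 + ‖l.1.2.2‖ + ‖z.1.2‖)) (z.1.1 + cT ε z l • z.1.2) := by
      refine ⟨i, t, ⟨by linarith [ha], ?_⟩, ?_⟩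
      · have := (abs_le.1 (htl t h1 h2)).2
        linarith
      · have h3 : dist (z.1.1 + cT ε z l • z.1.2) (z.1.1 + t • z.1.2) ≤
            ε * R * ‖z.1.2‖ := by
          rw [dist_eq_norm]
          have e1 : z.1.1 + cT ε z l • z.1.2 - (z.1.1 + t • z.1.2) =
              (cT ε z l - t) • z.1.2 := by module
          rw [e1, norm_smul, Real.norm_eq_abs, abs_sub_comm, abs_of_nonneg (sub_nonneg.2 h1)]
          exact mul_le_mul_of_nonneg_right (by linarith) (norm_nonneg _)
        have h4 : dist (z.1.1 + t • z.1.2) (flow Φ ε t w i).1 ≤ (R + 2) * ε := by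
          rw [dist_comm]
          exact hc
        have h5 := (dist_triangle _ _ _).trans (add_le_add h3 h4)
        refine h5.trans ?_
        have h6 : 0 ≤ ‖l.1.2.2‖ := norm_nonneg _
        have h7 : 0 ≤ ‖z.1.2‖ := norm_nonneg _
        have h8 : ε * R * ‖z.1.2‖ ≤ 2 * (R + 1) * ε * ‖z.1.2‖ :=
          mul_le_mul_of_nonneg_right (by nlinarith) h7
        nlinarith [mul_nonneg ha.le h6]
    have h3 : thirdS Φ K R ε P z m w l = 1 := by
      unfold thirdS sfOf thirdG
      rw [if_pos hPK, nearI_of hnear]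
    rw [h3] at hth
    exact absurd hth (lt_irrefl 1)
  · -- members
    intro t h1 h2 j hj
    have h3 := (of_memS_lt hPK h.ct hme).2 j hj t (htl t h1 h2)
    refine lt_of_le_of_lt ?_ h3
    refine hrad.trans ?_
    have h6 : 0 ≤ ‖l.1.2.2‖ := norm_nonneg _
    have h7 : 0 ≤ ‖z.1.2‖ := norm_nonneg _
    nlinarith [mul_nonneg ha.le h6, mul_nonneg ha.le h7]
  · intro t h1 h2 j hj k hk
    by_contra hc
    exact hn ⟨t, h1, h2, j, hj, h2.trans_lt (hunt j hj), Or.inl ⟨k, hk, not_lt.1 hc⟩⟩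
  · intro t h1 h2 j hj hk
    by_contra hc
    exact hn ⟨t, h1, h2, j, hj, h2.trans_lt (hunt j hj), Or.inr ⟨hk, not_lt.1 hc⟩⟩

/-! ## The pointwise bound -/

/-- `Good4` and the parts, off the pieces. -/
theorem good4_of (hε : 0 < ε) (hR : 0 ≤ R) (hK : l.2 + P.leaves ≤ K)
    (h : Real4 Φ ε K Q.te T' P z w l) (hΦ : AdmissiblePotential Φ)
    (hen : EncOk Φ ε R Q.te P z l) (hA : ¬ Alt4 Φ ε K Q.te P z w l)
    (hco : coF Φ ε K Q.te R P z m w l < 1) (hth : thirdS Φ K R ε P z m w l < 1)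
    (hme : memS Φ Q.te K (2 * (R + 1) * ε) ε P z m w l < 1) (hok : OkE4 Φ ε P z w l)
    (hl : ¬ LinkE4 Φ ε R K Q.te P z w l) :
    Good4 Φ ε K Q.te P z w l ∧ E4Pairs Φ ε K Q.te P z w l ∧
      EncParts Φ ε R K Q.te P z w l := by
  have h1 : ¬ (LinkA Φ ε K Q.te P z w l ∨ LinkB Φ ε K Q.te P z w l ∨
      NearL Φ ε R K Q.te P z w l) := fun h1 => hl ⟨hok, hen, h1⟩
  push Not at h1
  obtain ⟨h2, h3, h4⟩ := h1
  have hE : EncParts Φ ε R K Q.te P z w l := encParts_of hε hR hK h hΦ hen hA hco hth hme h4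
  have hP : E4Pairs Φ ε K Q.te P z w l := by
    refine ⟨hok.okR, hok.ok1, hok.ok2, fun x y hxy => ?_, fun d hd x y hxy hx hy => ?_⟩
    · by_contra hc
      exact h2 ⟨x, y, hxy, hc⟩
    · by_contra hc
      exact h3 ⟨d, hd, x, y, hxy, hx, hy, hc⟩
  exact ⟨Good4.of h hΦ hε hK hP hE, hP, hE⟩

/-- The encounter is a short passage before the horizon, off the pieces. -/
theorem encOk_of (hg : Gd4 Φ ε K Q T' P z w l) (hlo : longS Φ K R ε P z m w l < 1)
    (hpa : passS Φ K ε P z m w l < 1) (hho : horS Q.te R K ε P z m w l < 1) :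
    EncOk Φ ε R Q.te P z l := by
  have hPK : P.leaves ≤ K := le_trans (Nat.le_add_left _ _) hg.small
  have h1 : longI Φ R (cD ε z l) = 0 := by
    by_contra hc
    have h2 : longI Φ R (cD ε z l) = 1 := by
      unfold longI at hc ⊢
      split_ifs with h3
      · rw [if_pos h3] at hc
        exact absurd rfl hc
      · rfl
    have h3 : smI K P l = 1 := if_pos hg.small
    unfold longS at hlo
    rw [h2, h3, one_mul] at hlo
    exact absurd hlo (lt_irrefl 1)
  rw [longI_eq_zero] at h1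
  refine ⟨?_, h1.1, h1.2, ?_⟩
  · by_contra hc
    have h2 : passS Φ K ε P z m w l = 1 := by
      unfold passS sfOf passG
      rw [if_pos hPK]
      exact if_neg hc
    rw [h2] at hpa
    exact absurd hpa (lt_irrefl 1)
  · by_contra hc
    have h2 : horS Q.te R K ε P z m w l = 1 := by
      unfold horS
      refine if_pos ⟨hPK, ?_, hg.real.le⟩
      rw [not_le] at hc
      nlinarith
    rw [h2] at hho
    exact absurd hho (lt_irrefl 1)

/-- The lines of the tree are pairwise unlinked, off the link events. -/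
theorem pairNL_of (h : ¬ LinkA Φ ε K Q.te P z w l) :
    PairNL Φ ε K Q.te (MW.cfg w) (lineML Φ ε P z) := by
  intro i j hij
  by_contra hc
  have hne : (Sum.inl i : Idx P ⊕ Bool) ≠ Sum.inl j := fun h' => hij (Sum.inl_injective h')
  refine h ⟨Sum.inl i, Sum.inl j, ⟨hne, ?_, ?_⟩, hc⟩
  · rintro ⟨-, b, hb⟩
    cases hb
  · rintro ⟨-, b, hb⟩
    cases hb

theorem okx_of (hΦ : AdmissiblePotential Φ) (hε : 0 < ε)
    (h : (((MW.cfg w).add (RealL811.treeW Φ ε P z)).add (MW.line x)).Ok Φ ε) :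
    ((MW.cfg (Fin.append (cfT Φ ε P z) w)).ins x).Ok Φ ε := by
  have h3 : ((MW.cfg w).add (RealL811.treeW Φ ε P z)).add (MW.line x) =
      ((MW.cfg (Fin.append (cfT Φ ε P z) w)).ins x).comap
        (Equiv.sumCongr (R6Tree974.gE P m) (Equiv.refl Unit)) := by
    rw [← R6Tree974.comap1]
    exact EquivE416.ins_comap _ x (R6Tree974.gE P m)
  rw [h3] at h
  exact (MW.ok_comap_iff hΦ hε _).1 h

/-- **The pointwise bound.** -/
theorem err4_le (hΦ : AdmissiblePotential Φ) (hD : NbadDet Φ) (hγ : Measurable Q.γ) (hε : 0 < ε)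
    (hR : 0 ≤ R) (hTT : Q.te ≤ T') (hg : Gd4 Φ ε K Q T' P z w l) :
    err4 Φ ε K Q P z w l ≤ longS Φ K R ε P z m w l + (passS Φ K ε P z m w l +
      (horS Q.te R K ε P z m w l + (coF Φ ε K Q.te R P z m w l + (thirdS Φ K R ε P z m w l +
      (memS Φ Q.te K (2 * (R + 1) * ε) ε P z m w l + ((if ¬ OkE4 Φ ε P z w l then 1 else 0) +
      ((if LinkE4 Φ ε R K Q.te P z w l then 1 else 0) +
        min 1 (lineM Q.γ Q.ρ K Q.te (Xbad4 Φ ε K Q.te P z w))))))))) := by
  have hPK : P.leaves ≤ K := le_trans (Nat.le_add_left _ _) hg.small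
  by_cases h1 : longS Φ K R ε P z m w l < 1
  swap
  · exact err4_le_one.trans ((not_lt.1 h1).trans le_self_add)
  refine le_trans ?_ le_add_self
  by_cases h2 : passS Φ K ε P z m w l < 1
  swap
  · exact err4_le_one.trans ((not_lt.1 h2).trans le_self_add)
  refine le_trans ?_ le_add_self
  by_cases h3 : horS Q.te R K ε P z m w l < 1
  swap
  · exact err4_le_one.trans ((not_lt.1 h3).trans le_self_add)
  refine le_trans ?_ le_add_self
  by_cases h4 : coF Φ ε K Q.te R P z m w l < 1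
  swap
  · exact err4_le_one.trans ((not_lt.1 h4).trans le_self_add)
  refine le_trans ?_ le_add_self
  by_cases h5 : thirdS Φ K R ε P z m w l < 1
  swap
  · exact err4_le_one.trans ((not_lt.1 h5).trans le_self_add)
  refine le_trans ?_ le_add_self
  by_cases h6 : memS Φ Q.te K (2 * (R + 1) * ε) ε P z m w l < 1
  swap
  · exact err4_le_one.trans ((not_lt.1 h6).trans le_self_add)
  refine le_trans ?_ le_add_self
  by_cases h7 : OkE4 Φ ε P z w l
  swap
  · refine err4_le_one.trans (le_trans ?_ le_self_add)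
    rw [if_pos h7]
  refine le_trans ?_ le_add_self
  by_cases h8 : LinkE4 Φ ε R K Q.te P z w l
  · refine err4_le_one.trans (le_trans ?_ le_self_add)
    rw [if_pos h8]
  refine le_trans ?_ le_add_self
  have hen : EncOk Φ ε R Q.te P z l := encOk_of hg h1 h2 h3
  have hA0 : ¬ LinkA Φ ε K Q.te P z w l := fun h => h8 ⟨h7, hen, Or.inl h⟩
  have hnl := pairNL_of hA0
  unfold err4
  by_cases hA : Alt4 Φ ε K Q.te P z w l
  · rw [if_pos hA]
    refine min_le_min le_rfl (measure_mono_ae ?_)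
    filter_upwards [EBasic602.lineM_ae hγ] with x hx hxN
    by_contra hgx
    have hgx' : x ∉ Xbad4 Φ ε K Q.te P z w := hgx
    have hG : InEq2T.GoodX Φ ε K Q.te P z w x := by
      by_contra hc
      exact hgx' (Or.inl hc)
    exact NbadX796.not_mem_nbadE hΦ hε hTT hg.real hPK hA hx.1.le (okx_of hΦ hε hG.okr) hG.ok
      (BadX974.pairNL_withD hnl hG.nl) hG.ret hxN
  · rw [if_neg hA]
    obtain ⟨hG4, hE4, hEP⟩ := good4_of hε hR hg.small hg.real hΦ hen hA h4 h5 h6 h7 h8
    rw [if_pos hG4]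
    refine min_le_min le_rfl (measure_mono_ae ?_)
    filter_upwards [EBasic602.lineM_ae hγ] with x hx hxN
    by_contra hgx
    have hgx' : x ∉ Xbad4 Φ ε K Q.te P z w := hgx
    have hG : InEq2T.GoodX Φ ε K Q.te P z w x := by
      by_contra hc
      exact hgx' (Or.inl hc)
    exact hD ε R K Q.te T' P z m w l x hε hTT hg.small hg.real hE4 hEP hx.1 hx.2.1 hx.2.2.1
      hx.2.2.2 hG (fun h => hgx' (Or.inr h)) hxN

/-! ## Assembly -/

/-- Standing hypotheses of the assembly. -/
structure AsmH (Φ : Space3 → ℝ) (f₀ : PhasePoint → ℝ) (Q : EPar) (A : Space3 → ℝ≥0∞) (C b g0 : ℝ) :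
    Prop where
  hΦ : AdmissiblePotential Φ
  hF : FOk f₀ A C b
  hQ : QOk Q g0
  H : HasSummableGaussianBound b (fun x v => f₀ (x, v))
  te : 0 ≤ Q.te

/-- **The error is null**: `StmtLink4` from almost sure facts, link events and exceptional test
lines. -/
theorem osNull_err4 {A : Space3 → ℝ≥0∞} {C b g0 : ℝ} (h : AsmH Φ f₀ Q A C b g0)
    (hTT : Q.te ≤ T') (hD : NbadDet Φ)
    (hok : OSNull Φ f₀ K Q T' fun ε P z _ w l => if ¬ OkE4 Φ ε P z w l then 1 else 0)
    (hlk : ∀ R : ℝ, 0 ≤ R →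
      OSNull Φ f₀ K Q T' fun ε P z _ w l => if LinkE4 Φ ε R K Q.te P z w l then 1 else 0)
    (hX : OSNull Φ f₀ K Q T' fun ε P z _ w _ =>
      min 1 (lineM Q.γ Q.ρ K Q.te (Xbad4 Φ ε K Q.te P z w))) :
    OSNull Φ f₀ K Q T' fun ε P z _ w l => err4 Φ ε K Q P z w l := by
  intro δ hδ
  have hΦ := h.hΦ
  have hf := h.hF.meas
  have hγ := h.hQ.γ_meas
  obtain ⟨R₀, hR₀⟩ := osLe_long hΦ hf h.hF.mass h.hF.b_pos h.H K T' hγ h.hQ.ρ_ne h.hQ.g0_pos
    h.hQ.γ_ge h.te (half_pos hδ)
  set R : ℝ := max R₀ 0 with hRdef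
  have hR : 0 ≤ R := le_max_right _ _
  have hlong := hR₀ R (le_max_left _ _)
  have hco : OSNull Φ f₀ K Q T' fun ε => coF Φ ε K Q.te R :=
    OSNull.of_meas (fun ε hε => Coinc423.measSF_coF hΦ hε K Q.te R) fun δ' hδ' =>
      Coinc423.coinc_null hΦ hf h.hF.mass h.hF.b_pos h.H T' hγ h.hQ.ρ_ne h.hQ.g0_pos h.hQ.γ_ge R K
        δ' hδ'
  have h8 := (hlk R hR).add hΦ hf hγ hX
  have h7 := hok.add hΦ hf hγ h8
  have h6 := (osNull_mem hΦ h.hF h.hQ K T' R).add hΦ hf hγ h7
  have h5 := (osNull_third hΦ h.hF h.hQ K T' hR).add hΦ hf hγ h6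
  have h4 := hco.add hΦ hf hγ h5
  have h3 := (osNull_hor hΦ hf h.hF h.hQ K T' R).add hΦ hf hγ h4
  have h2 := (osNull_pass (f₀ := f₀) hΦ h.hQ K T').add hΦ hf hγ h3
  have h1 := hlong.add hΦ hf hγ (h2 (δ / 2) (half_pos hδ))
  refine h1.mono (le_of_eq ?_) ⟨1, one_pos, fun ε hε _ P z m w l hg => ?_⟩
  · rw [← ENNReal.ofReal_add (half_pos hδ).le (half_pos hδ).le, add_halves]
  · exact err4_le hΦ hD hγ hε hR hTT hg

/-- **`StmtLink4` from the pieces.** -/
theorem stmtLink4_of_parts {A : Space3 → ℝ≥0∞} {C b g0 : ℝ} (h : AsmH Φ f₀ Q A C b g0)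
    (hTT : Q.te ≤ T') (hD : NbadDet Φ)
    (hok : ∀ K, OSNull Φ f₀ K Q T' fun ε P z _ w l => if ¬ OkE4 Φ ε P z w l then 1 else 0)
    (hlk : ∀ K, ∀ R : ℝ, 0 ≤ R →
      OSNull Φ f₀ K Q T' fun ε P z _ w l => if LinkE4 Φ ε R K Q.te P z w l then 1 else 0)
    (hX : ∀ K, OSNull Φ f₀ K Q T' fun ε P z _ w _ =>
      min 1 (lineM Q.γ Q.ρ K Q.te (Xbad4 Φ ε K Q.te P z w))) :
    StmtLink4 Φ f₀ Q T' :=
  stmtLink4_of fun K => osNull_err4 h hTT hD (hok K) (hlk K) (hX K)

end Crest.Agent.R122.LinkAsm984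

end
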