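import Crest.Agent.R122.RealA_811
import Crest.Agent.R122.HidMW_879
import Crest.Agent.R122.LNRet_383
import Crest.Agent.R122.OneCDefs_285

/-!
# A tree which is real up to a horizon and an independent line (row 122), helper335

`Z` a base world, `A = treeW Φ ε P z` the initial particles of a tree, real in `Z + A` up to the
horizon `v` (`TreeIn`, helper811), `F = lineML Φ ε P z` its lines, `l` a line.

* `avoid` : up to a time `s ≤ v` at which nothing of `F`, `l` has touched and without links, the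
  visible particles of `Z + F + l` stay away from the hidden curves of the tree, if the clean closure
  of `l` does not return to them (`RetC`, helper383).
* `treeIn_add` : the tree is real in `Z + A + l` up to `s`.
* `touched_iff` : `(Z + A).Touched l s ↔ (Z + F).Touched l s`; `touched_tree_iff` :
  `Z.Touched A s ↔ Z.Touched F s`.
* `thetaL_le` : `θ(Z, l) ≤ s` gives `θ(Z + A, l) ≤ θ(Z, l)`.
-/

set_option autoImplicit false
set_option linter.unusedSectionVars false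

open MeasureTheory Set Filter Topology
open scoped ENNReal
open Crest.AnalysisR.Kinetic
open Crest.Agent.R122.Flow671 hiding rel
open Crest.Agent.R122.Loc45 Crest.Agent.R122.Ins45
open Crest.Agent.R122.Causal291 (Past BC)
open Crest.Agent.R122.Inf879 Crest.Agent.R122.EDefs602
open Crest.Agent.R122.Lines255 Crest.Agent.R122.Hid879
open Crest.Agent.R122.Kin796 Crest.Agent.R122.Kin796.CTree Crest.Agent.R122.Tree674
open Crest.Agent.R122.PathFlow968 Crest.Agent.R122.TreeLines335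
open Crest.Agent.R122.MWFam255 Crest.Agent.R122.RealL811
open Crest.Agent.R122.E6Hyp879 (withD)
open Crest.Agent.R122.RtG302 (near)
open Crest.Agent.R122.OneC285 (ptube)
open Crest.Agent.R122.LNEv383 (RetC)

namespace Crest.Agent.R122.LinkVh335

noncomputable section

open scoped Classical

variable {ι : Type} [Fintype ι] {Φ : Space3 → ℝ} {ε T T' s v : ℝ} {K : ℕ} {Z : MW ι} {l : ML}
  {P : CTree} {z : PhasePoint × Par P}

/-- The embedding of the labels. -/
def jj (ι κ : Type) : ι ⊕ κ → ι ⊕ (κ ⊕ Unit) := Sum.map id Sum.inl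

theorem jj_injective (ι κ : Type) : Function.Injective (jj ι κ) :=
  Sum.map_injective.2 ⟨Function.injective_id, Sum.inl_injective⟩

/-- Labels of the tree members. -/
def DD (ι κ : Type) : Set (ι ⊕ (κ ⊕ Unit)) := range fun k : κ => Sum.inr (Sum.inl k)

theorem mem_DD {κ : Type} {k : κ} : (Sum.inr (Sum.inl k) : ι ⊕ (κ ⊕ Unit)) ∈ DD ι κ := ⟨k, rfl⟩

theorem inl_not_DD {κ : Type} {i : ι} : (Sum.inl i : ι ⊕ (κ ⊕ Unit)) ∉ DD ι κ := by
  rintro ⟨k, hk⟩
  cases hk


/-- Hypotheses. -/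
structure VH (Φ : Space3 → ℝ) (ε T T' s : ℝ) (K : ℕ) (Z : MW ι) (P : CTree)
    (z : PhasePoint × Par P) (l : ML) : Prop where
  valid : Valid Φ ε P T' z.1.2 z.2
  sep : Sep Φ ε P T' z.1 z.2
  leaves : P.leaves ≤ K
  sT' : s ≤ T'
  b0 : ∀ x, 0 ≤ Z.b x
  bl : 0 ≤ l.1.1
  tree : TreeIn Φ ε (Z.add (RealL811.treeW Φ ε P z)) P z Sum.inr s
  okA : (Z.add (RealL811.treeW Φ ε P z)).Ok Φ ε
  okAl : (Z.add ((RealL811.treeW Φ ε P z).add (MW.line l))).Ok Φ ε
  /-- the tree and the base world are separated at time `0` -/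
  sep0 : ∀ (k : Idx P) (i : ι), Z.b i ≤ 0 →
    ε < dist ((Z.add (RealL811.treeW Φ ε P z)).path Φ ε 0 (Sum.inr k)).1
      ((Z.add (RealL811.treeW Φ ε P z)).path Φ ε 0 (Sum.inl i)).1
  fam : FamNL Φ ε K T Z (withD (lineML Φ ε P z) l) s
  ret : ¬ RetC Φ ε ε K T Z l (ptube Φ ε P z)

namespace VH

variable (h : VH Φ ε T T' s K Z P z l) (hΦ : AdmissiblePotential Φ) (hε : 0 < ε)

include h in
theorem s0 : 0 ≤ s := h.fam.s0

include h hΦ hε in
/-- The family of the lines of the tree. -/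
theorem famF : FamNL Φ ε K T Z (lineML Φ ε P z) s where
  ok := okFam_comp hΦ hε h.fam.ok (⟨Sum.inl, Sum.inl_injective⟩ : Idx P ↪ Idx P ⊕ Unit)
  s0 := h.fam.s0
  sT := h.fam.sT
  le k := h.fam.le (Sum.inl k)
  nl j k hjk := h.fam.nl (Sum.inl j) (Sum.inl k) fun h' => hjk (Sum.inl_injective h')

include h hΦ hε in
theorem okF : (Z.add (MW.lines (lineML Φ ε P z))).Ok Φ ε := (h.famF hΦ hε).ok.lines hΦ hε

include h hΦ hε in
theorem okFl : (Z.add (MW.lines (withD (lineML Φ ε P z) l))).Ok Φ ε := h.fam.ok.lines hΦ hε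

include h hΦ hε in
theorem rl₁ : RL Φ ε K (Z.add (RealL811.treeW Φ ε P z)) (Z.add (MW.lines (lineML Φ ε P z)))
    (range Sum.inr) s :=
  rl_add hΦ hε h.valid h.sep h.sT' h.s0 h.leaves h.tree h.okA (h.okF hΦ hε) h.b0

include h in
theorem rel0 (k : Idx P) (hε : 0 < ε) : 0 ≤ rel P z.2 k := rel_nonneg hε.le h.valid.2 k

include h hΦ hε in
/-- A particle which is visible in `Z + F` is away from the curves of the hidden members. -/
theorem avoid₁ {u : ℝ} (hu : u ∈ Icc 0 s) {k : Idx P} (hk : u ≤ rel P z.2 k) {y : ι ⊕ Idx P}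
    (hy : (Z.add (MW.lines (lineML Φ ε P z))).b y ≤ u)
    (hvis : ∀ m, y = Sum.inr m → rel P z.2 m < u) :
    ε < dist ((Z.add (RealL811.treeW Φ ε P z)).path Φ ε u (Sum.inr k)).1
      ((Z.add (MW.lines (lineML Φ ε P z))).path Φ ε u y).1 := by
  rw [(h.rl₁ hΦ hε).agree hΦ hε hu.1 hu.2 hy]
  rcases hu.1.lt_or_eq with h0 | h0
  · by_contra hno
    have hb : (Z.add (RealL811.treeW Φ ε P z)).b y ≤ u := ((h.rl₁ hΦ hε).le y).trans hy
    obtain ⟨m, hm, hm2⟩ := h.tree.sealed k u y hu.1 hu.2 hk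
      ⟨hu.1, hb, Or.inr (Or.inl h0), not_lt.1 hno⟩
    exact absurd (hvis m hm.symm) (not_lt.2 hm2)
  · subst h0
    rcases y with i | m
    · exact h.sep0 k i hy
    · exact absurd (hvis m rfl) (not_lt.2 (h.rel0 m hε))

include h hΦ hε in
/-- The curve of a hidden member. -/
theorem curve_eq {u : ℝ} (hu : u ∈ Icc 0 s) {k : Idx P} (hk : u ≤ rel P z.2 k) :
    ((Z.add (RealL811.treeW Φ ε P z)).path Φ ε u (Sum.inr k)).1 = (ptube Φ ε P z).c k u := by
  rw [h.tree.agree k u hu.1 hu.2 hk]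
  exact (Hid424.curve_eq_path (X := z.1.1) (v := z.1.2) hΦ hε h.valid h.sep
    ⟨hu.1, hu.2.trans h.sT'⟩ k).symm

include h hΦ hε in
/-- **The visible particles of `Z + F + l` avoid the hidden curves.** -/
theorem avoid {u : ℝ} (hu : u ∈ Icc 0 s) {k : Idx P} (hk : u ≤ rel P z.2 k)
    {y : ι ⊕ (Idx P ⊕ Unit)}
    (hy : (Z.add (MW.lines (withD (lineML Φ ε P z) l))).b y ≤ u)
    (hvis : ∀ m, y = Sum.inr (Sum.inl m) → rel P z.2 m < u) :
    ε < dist ((Z.add (RealL811.treeW Φ ε P z)).path Φ ε u (Sum.inr k)).1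
      ((Z.add (MW.lines (withD (lineML Φ ε P z) l))).path Φ ε u y).1 := by
  have hFN := h.famF hΦ hε
  by_cases hc : ∃ j, Col Φ ε K Z (withD (lineML Φ ε P z) l) j u y
  · obtain ⟨j, hj⟩ := hc
    rw [hj.path hΦ hε h.fam hu]
    rcases j with m | t
    · -- colour of an exit line
      rcases hj with rfl | ⟨i, rfl, hi⟩
      · have h1 := hFN.path_inr hΦ hε hu m
        have h2 := h.avoid₁ hΦ hε hu hk (y := Sum.inr m) hy fun m' hm' => by
          rw [← Sum.inr_injective hm']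
          exact hvis m rfl
        rw [h1] at h2
        exact h2
      · have h1 := hFN.path_inl hΦ hε hu (k := m) (i := i) hi
        have h2 := h.avoid₁ hΦ hε hu hk (y := Sum.inl i) hy fun m' hm' => by cases hm'
        rw [h1] at h2
        exact h2
    · -- colour of the line `l`
      by_contra hno
      push Not at hno
      refine h.ret ⟨u, ⟨hu.1, hu.2.trans h.fam.sT⟩, hu.2.trans (h.fam.le (Sum.inr ())), ?_⟩
      have hcv := h.curve_eq hΦ hε hu hk
      rw [hcv] at hno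
      rcases hj with rfl | ⟨i, rfl, hi⟩
      · exact Or.inl ⟨hy, k, hk, hno⟩
      · exact Or.inr ⟨i, hi, k, hk, hno⟩
  · push Not at hc
    obtain ⟨i, rfl, hp, -⟩ := path_no_col hΦ hε h.fam hu hc
    have hc' : ∀ j, ¬ Col Φ ε K Z (lineML Φ ε P z) j u (Sum.inl i) := by
      intro j hj
      refine hc (Sum.inl j) ?_
      rcases hj with hj | ⟨i', hi', hj⟩
      · cases hj
      · exact Or.inr ⟨i', congrArg Sum.inl (Sum.inl_injective hi'), hj⟩
    obtain ⟨i', hi', hp', -⟩ := path_no_col hΦ hε hFN hu hc'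
    have h2 := h.avoid₁ hΦ hε hu hk (y := Sum.inl i) hy fun m' hm' => by cases hm'
    rw [hp', ← Sum.inl_injective hi', ← hp] at h2
    exact h2

include h in
theorem b_le (hε : 0 < ε) (y : ι ⊕ (Idx P ⊕ Unit)) :
    (Z.add ((RealL811.treeW Φ ε P z).add (MW.line l))).b y ≤
      (Z.add (MW.lines (withD (lineML Φ ε P z) l))).b y := by
  rcases y with i | (m | t)
  · exact le_rfl
  · exact h.rel0 m hε
  · exact le_rfl

include h hΦ hε in
/-- The path level hypotheses of helper879. -/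
theorem hidHyp : HidHyp Φ ε s (Z.add (RealL811.treeW Φ ε P z)).b
    ((Z.add (RealL811.treeW Φ ε P z)).path Φ ε)
    (Z.add ((RealL811.treeW Φ ε P z).add (MW.line l))).b
    ((Z.add ((RealL811.treeW Φ ε P z).add (MW.line l))).path Φ ε)
    (Z.add (MW.lines (withD (lineML Φ ε P z) l))).b
    ((Z.add (MW.lines (withD (lineML Φ ε P z) l))).path Φ ε) (jj ι (Idx P)) (DD ι (Idx P)) where
  hX := h.okA.bw
  hX' := h.okAl.bw
  hW := (h.okFl hΦ hε).bw
  inj := jj_injective ι (Idx P)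
  sub := by
    rintro _ ⟨k, rfl⟩
    exact ⟨Sum.inr k, rfl⟩
  birth a := by
    rcases a with a | a <;> rfl
  off y hy := by
    rcases y with i | (m | t)
    · rfl
    · exact absurd mem_DD hy
    · rfl
  le := h.b_le hε
  pos := by
    rintro _ ⟨k, rfl⟩
    exact h.rel0 k hε
  init a := by
    rw [MW.path_zero hΦ hε, MW.path_zero hΦ hε]
    rcases a with a | a <;> rfl
  init' y hy := by
    rw [MW.path_zero hΦ hε, MW.path_zero hΦ hε]
    rcases y with i | (m | t)
    · rfl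
    · exact absurd mem_DD hy
    · rfl
  match_ a ha hat := by
    rcases a with i | k
    · exact absurd ha inl_not_DD
    · have hat' : rel P z.2 k ≤ s := hat
      have h0 := h.rel0 k hε
      have h1 : (Z.add (MW.lines (withD (lineML Φ ε P z) l))).path Φ ε (lineML Φ ε P z k).1.1
          (Sum.inr (Sum.inl k)) = (lineML Φ ε P z k).1.2 :=
        path_birth hΦ hε (h.okFl hΦ hε).bw rfl rfl h0
      have h2 : (Z.add (MW.lines (lineML Φ ε P z))).path Φ ε (lineML Φ ε P z k).1.1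
          (Sum.inr k) = (lineML Φ ε P z k).1.2 :=
        path_birth hΦ hε (h.okF hΦ hε).bw rfl rfl h0
      have h3 := (h.rl₁ hΦ hε).agree hΦ hε h0 hat' (x := Sum.inr k) le_rfl
      exact h1.trans (h2.symm.trans h3)
  closed u hu a a' ha hua hb hd := by
    rcases a with i | k
    · exact absurd ha inl_not_DD
    have hua' : u ≤ rel P z.2 k := hua
    rcases hu.1.lt_or_eq with h0 | h0
    · obtain ⟨m, rfl, hm2⟩ := h.tree.sealed k u a' hu.1 hu.2 hua'
        ⟨hu.1, hb, Or.inr (Or.inl h0), hd⟩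
      exact ⟨mem_DD, hm2⟩
    · subst h0
      rcases a' with i | m
      · exact absurd hd (not_le.2 (h.sep0 k i hb))
      · exact ⟨mem_DD, h.rel0 m hε⟩
  avoid u hu a ha hua y hy hvis := by
    rcases a with i | k
    · exact absurd ha inl_not_DD
    refine h.avoid hΦ hε hu hua hy fun m hm => ?_
    by_contra hlt
    subst hm
    exact hvis ⟨mem_DD, not_lt.1 hlt⟩

include h hΦ hε in
/-- **The tree is real in `Z + A + l` up to `s`.** -/
theorem treeIn_add : TreeIn Φ ε (Z.add ((RealL811.treeW Φ ε P z).add (MW.line l))) P z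
    (fun k => Sum.inr (Sum.inl k)) s := by
  have hag := (h.hidHyp hΦ hε).agree hΦ hε h.s0
  refine ⟨fun a b hab => Sum.inl_injective (Sum.inr_injective hab), fun _ => rfl, fun _ => rfl,
    fun k u h0 hu hk => ?_, fun k u y h0 hu hk hc => ?_⟩
  · have h1 := (hag u ⟨h0, hu⟩).1 (Sum.inr k) mem_DD hk
    exact h1.trans (h.tree.agree k u h0 hu hk)
  · by_contra hno
    push Not at hno
    have hvis : ∀ m, y = Sum.inr (Sum.inl m) → rel P z.2 m < u := fun m hm => hno m hm.symm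
    have hyb : (Z.add (MW.lines (withD (lineML Φ ε P z) l))).b y ≤ u := by
      rcases y with i | (m | t)
      · exact hc.2.1
      · exact (hvis m rfl).le
      · exact hc.2.1
    have h1 := h.avoid hΦ hε ⟨h0, hu⟩ hk hyb hvis
    have h2 := (hag u ⟨h0, hu⟩).1 (Sum.inr k) mem_DD hk
    have h3 := (hag u ⟨h0, hu⟩).2 y fun _ => hyb
    rw [← h2, ← h3] at h1
    exact absurd hc.2.2.2 (not_le.2 h1)

theorem lineOf₂ : LineOf Φ ε (Z.add ((RealL811.treeW Φ ε P z).add (MW.line l)))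
    (Z.add (MW.lines (withD (lineML Φ ε P z) l))) P z (fun k => Sum.inr (Sum.inl k)) where
  b _ := rfl
  z _ := rfl
  m _ := rfl
  off_b x hx := by
    rcases x with i | (m | t)
    · rfl
    · exact absurd ⟨m, rfl⟩ hx
    · rfl
  off_z x hx := by
    rcases x with i | (m | t)
    · rfl
    · exact absurd ⟨m, rfl⟩ hx
    · rfl
  off_m x hx := by
    rcases x with i | (m | t)
    · rfl
    · exact absurd ⟨m, rfl⟩ hx
    · rfl

include h hΦ hε in
theorem rl₂ : RL Φ ε K (Z.add ((RealL811.treeW Φ ε P z).add (MW.line l)))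
    (Z.add (MW.lines (withD (lineML Φ ε P z) l))) (DD ι (Idx P)) s :=
  (h.treeIn_add hΦ hε).rl hΦ hε h.valid h.sep h.sT' lineOf₂ h.okAl (h.okFl hΦ hε) (by
    rintro (x | (x | x))
    · exact h.b0 x
    · exact le_rfl
    · exact h.bl) h.s0 h.leaves

include h hΦ hε in
theorem marks₁ : ∀ x ∈ range (Sum.inr : Idx P → ι ⊕ Idx P),
    (Z.add (MW.lines (lineML Φ ε P z))).b x ≤ s →
    msize ((Z.add (RealL811.treeW Φ ε P z)).C Φ ε) (Z.add (RealL811.treeW Φ ε P z)).m
      ((Z.add (MW.lines (lineML Φ ε P z))).b x) x = (Z.add (MW.lines (lineML Φ ε P z))).m x :=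
  marks_add hΦ hε h.valid h.sep h.sT' h.tree

include h hΦ hε in
theorem marks₂ : ∀ x ∈ DD ι (Idx P), (Z.add (MW.lines (withD (lineML Φ ε P z) l))).b x ≤ s →
    msize ((Z.add ((RealL811.treeW Φ ε P z).add (MW.line l))).C Φ ε)
      (Z.add ((RealL811.treeW Φ ε P z).add (MW.line l))).m
      ((Z.add (MW.lines (withD (lineML Φ ε P z) l))).b x) x =
        (Z.add (MW.lines (withD (lineML Φ ε P z) l))).m x := by
  rintro _ ⟨k, rfl⟩ hb
  exact (h.treeIn_add hΦ hε).size_eq hΦ hε h.valid h.sep h.sT' hb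

include h hΦ hε in
theorem inf₁ (x : ι ⊕ Idx P) : (Z.add (RealL811.treeW Φ ε P z)).Inf Φ ε K s x ↔
    (Z.add (MW.lines (lineML Φ ε P z))).Inf Φ ε K s x :=
  (h.rl₁ hΦ hε).inf_iff hΦ hε (h.marks₁ hΦ hε) le_rfl
    (nd_of_famNL hΦ hε (h.famF hΦ hε) (h.rl₁ hΦ hε) le_rfl (fun _ hx => hx) (h.marks₁ hΦ hε)
      h.s0 le_rfl x)

include h hΦ hε in
theorem inf₂ (x : ι ⊕ (Idx P ⊕ Unit)) :
    (Z.add ((RealL811.treeW Φ ε P z).add (MW.line l))).Inf Φ ε K s x ↔
      (Z.add (MW.lines (withD (lineML Φ ε P z) l))).Inf Φ ε K s x :=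
  (h.rl₂ hΦ hε).inf_iff hΦ hε (h.marks₂ hΦ hε) le_rfl
    (nd_of_famNL hΦ hε h.fam (h.rl₂ hΦ hε) le_rfl (by
      rintro _ ⟨k, rfl⟩
      exact ⟨Sum.inl k, rfl⟩) (h.marks₂ hΦ hε) h.s0 le_rfl x)

theorem compat (hΦ : AdmissiblePotential Φ) (hε : 0 < ε) (Z : MW ι) (P : CTree)
    (z : PhasePoint × Par P) (l : ML) :
    Compat ((Z.add (RealL811.treeW Φ ε P z)).path Φ ε)
      ((Z.add (MW.lines (lineML Φ ε P z))).path Φ ε)
      ((Z.add ((RealL811.treeW Φ ε P z).add (MW.line l))).path Φ ε)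
      ((Z.add (MW.lines (withD (lineML Φ ε P z) l))).path Φ ε) (id : ι ⊕ Idx P → ι ⊕ Idx P)
      (jj ι (Idx P)) (range (Sum.inr : Idx P → ι ⊕ Idx P)) (DD ι (Idx P))
      (Z.add (MW.lines (lineML Φ ε P z))).b (Z.add (MW.lines (withD (lineML Φ ε P z) l))).b where
  mem_iff k := by
    rcases k with k | k
    · refine ⟨?_, fun h' => absurd h' inl_not_DD⟩
      rintro ⟨x, hx⟩
      cases hx
    · exact ⟨fun _ => mem_DD, fun _ => ⟨k, rfl⟩⟩
  exit k hk := by
    rcases k with k | k <;> rfl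
  new₁ j _ hj := absurd ⟨j, rfl⟩ hj
  new₂ j hj hj' := by
    obtain ⟨x, rfl⟩ := hj
    exact absurd ⟨Sum.inr x, rfl⟩ hj'
  out₁ k hk := by
    rw [MW.path_zero hΦ hε, MW.path_zero hΦ hε]
    rcases k with k | k
    · rfl
    · exact absurd ⟨k, rfl⟩ hk
  out₂ k hk := by
    rw [MW.path_zero hΦ hε, MW.path_zero hΦ hε]
    rcases k with k | k
    · rfl
    · exact absurd mem_DD hk
  fam k hk := by
    rw [MW.path_zero hΦ hε, MW.path_zero hΦ hε]
    rcases k with k | k <;> rfl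
  fam' k hk := by
    rw [MW.path_zero hΦ hε, MW.path_zero hΦ hε]
    rcases k with k | k <;> rfl

/-- Relabelling of a touch by one more object. -/
theorem touched_jj (hΦ : AdmissiblePotential Φ) (hε : 0 < ε) {κ : Type} [Fintype κ] (Z : MW ι)
    (A : MW κ) (B : MW Unit) (s : ℝ) :
    (Z.add A).Touched Φ ε K B s ↔
      CausalGen291.Touched ((Z.add A).C Φ ε) ((Z.add A).path Φ ε) ((Z.add (A.add B)).C Φ ε)
        ((Z.add (A.add B)).path Φ ε) (id : ι ⊕ κ → ι ⊕ κ) (jj ι κ) ((Z.add A).Inf Φ ε K)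
        ((Z.add (A.add B)).Inf Φ ε K) s := by
  have hR : MWAlg255.Rel ((Z.add A).C Φ ε) ((Z.add A).path Φ ε) ((Z.add (A.add B)).C Φ ε)
      ((Z.add (A.add B)).path Φ ε) (id : ι ⊕ κ → ι ⊕ κ) (jj ι κ) ((Z.add A).C Φ ε)
      ((Z.add A).path Φ ε) (((Z.add A).add B).C Φ ε) (((Z.add A).add B).path Φ ε) id
      (Sum.inl : ι ⊕ κ → (ι ⊕ κ) ⊕ Unit) (Equiv.refl _) (Equiv.refl _)
      (Equiv.sumAssoc ι κ Unit) :=
    { c₁ := fun _ _ _ => Iff.rfl
      c₂ := fun s j k => by
        rw [MWAlg255.add_assoc_comap]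
        exact MWAlg255.C_comap hΦ hε (Z.add (A.add B)) (Equiv.sumAssoc ι κ Unit) s j k
      s₁ := fun _ _ => rfl
      s₂ := fun s j => path_assoc hΦ hε Z A B s j
      m₁ := fun _ => rfl
      m₂ := fun k => by rcases k with k | k <;> rfl }
  exact hR.touched_iff (fun _ => Iff.rfl) (inf_assoc hΦ hε Z A B s)

theorem lines_withD {κ : Type} (F : κ → ML) (l : ML) :
    MW.lines (withD F l) = (MW.lines F).add (MW.line l) := by
  unfold MW.lines MW.add MW.line MW.lines
  congr 1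
  · funext x; rcases x with x | x <;> rfl
  · funext x; rcases x with x | x <;> rfl
  · funext x; rcases x with x | x <;> rfl

include h hΦ hε in
/-- **Touches of the line `l`**: real tree and lines. -/
theorem touched_iff : (Z.add (RealL811.treeW Φ ε P z)).Touched Φ ε K (MW.line l) s ↔
    (Z.add (MW.lines (lineML Φ ε P z))).Touched Φ ε K (MW.line l) s := by
  rw [touched_jj hΦ hε, touched_jj hΦ hε, ← lines_withD]
  exact touched_lines_iff hΦ hε (h.rl₁ hΦ hε) (h.rl₂ hΦ hε) (compat hΦ hε Z P z l) le_rfl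
    (h.inf₁ hΦ hε) (h.inf₂ hΦ hε)

end VH

/-- **World consistency of the real tree and a line**, one direction: if the line touches in `Z` at
a time `r` which is not later than the horizon and the touch times of the lines of the tree, then it
has touched in `Z + A` by the time `r`. -/
theorem thetaL_le (hΦ : AdmissiblePotential Φ) (hε : 0 < ε)
    (hV : Valid Φ ε P T' z.1.2 z.2) (hS : Sep Φ ε P T' z.1 z.2) (hK : P.leaves ≤ K)
    (hvT' : v ≤ T') (hT : 0 ≤ T) (hb : ∀ x, 0 ≤ Z.b x) (hbl : 0 ≤ l.1.1)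
    (ht : TreeIn Φ ε (Z.add (RealL811.treeW Φ ε P z)) P z Sum.inr v)
    (hokA : (Z.add (RealL811.treeW Φ ε P z)).Ok Φ ε)
    (hokAl : ((Z.add (RealL811.treeW Φ ε P z)).add (MW.line l)).Ok Φ ε)
    (hsep0 : ∀ (k : Idx P) (i : ι), Z.b i ≤ 0 →
      ε < dist ((Z.add (RealL811.treeW Φ ε P z)).path Φ ε 0 (Sum.inr k)).1
        ((Z.add (RealL811.treeW Φ ε P z)).path Φ ε 0 (Sum.inl i)).1)
    (hok : MW.OkFam Φ ε Z (withD (lineML Φ ε P z) l))
    (hNL : PairNL Φ ε K T Z (withD (lineML Φ ε P z) l))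
    (hret : ¬ RetC Φ ε ε K T Z l (ptube Φ ε P z))
    (hlv : Z.thetaL Φ ε K T l ≤ v) (hlT : Z.thetaL Φ ε K T l ≤ T)
    (hF : ∀ k, Z.thetaL Φ ε K T l ≤ Z.thetaL Φ ε K T (lineML Φ ε P z k)) :
    (Z.add (RealL811.treeW Φ ε P z)).thetaL Φ ε K T l ≤ Z.thetaL Φ ε K T l := by
  set r := Z.thetaL Φ ε K T l with hr
  have hr0 : 0 ≤ r := MW.theta_nonneg hT
  have hfam : FamNL Φ ε K T Z (withD (lineML Φ ε P z) l) r := famNL_of_pair hok hNL hr0 hlT (by
    rintro (k | k)
    · exact hF k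
    · exact le_rfl)
  have h : VH Φ ε T T' r K Z P z l :=
    { valid := hV
      sep := hS
      leaves := hK
      sT' := hlv.trans hvT'
      b0 := hb
      bl := hbl
      tree := ht.mono hlv
      okA := hokA
      okAl := (MW.ok_add_assoc hΦ hε).1 hokAl
      sep0 := hsep0
      fam := hfam
      ret := hret }
  have hZ : Z.Ok Φ ε := hok.base hΦ hε
  have hZl : (Z.add (MW.line l)).Ok Φ ε := hok.line hΦ hε (Sum.inr ())
  have hZF : (Z.add (MW.lines (lineML Φ ε P z))).Ok Φ ε := h.okF hΦ hε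
  have hZFl : ((Z.add (MW.lines (lineML Φ ε P z))).add (MW.line l)).Ok Φ ε := by
    rw [MW.ok_add_assoc hΦ hε, ← VH.lines_withD]
    exact h.okFl hΦ hε
  have h1 : r ≤ Z.theta Φ ε K T (MW.lines (lineML Φ ε P z)) := (h.famF hΦ hε).core hΦ hε
  have h2 : Decomp811.W1E Φ ε K T Z (MW.lines (lineML Φ ε P z)) (MW.line l) :=
    w1E_lines_line hΦ hε hT hok hNL (⟨Sum.inl, Sum.inl_injective⟩ : Idx P ↪ Idx P ⊕ Unit)
      (Sum.inr ()) fun _ h' => by cases h'
  have h3 : (Z.add (MW.lines (lineML Φ ε P z))).theta Φ ε K T (MW.line l) = r := h2.eq h1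
  have h4 : (Z.add (MW.lines (lineML Φ ε P z))).Touched Φ ε K (MW.line l) r :=
    (MW.touched_iff hΦ hε hZF hZFl (T := T) ⟨hr0, hlT⟩).2 h3.le
  exact MW.theta_le_of_touched ⟨hr0, hlT⟩ ((h.touched_iff hΦ hε).2 h4)

/-! ### The tree alone -/

section alone

/-- **Touches of the base world**: real tree and its lines, at a time `s` at which no line has
touched before. -/
theorem touched_tree_iff (hΦ : AdmissiblePotential Φ) (hε : 0 < ε)
    (hV : Valid Φ ε P T' z.1.2 z.2) (hS : Sep Φ ε P T' z.1 z.2) (hK : P.leaves ≤ K)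
    (hsT' : s ≤ T') (hb : ∀ x, 0 ≤ Z.b x)
    (ht : TreeIn Φ ε (Z.add (RealL811.treeW Φ ε P z)) P z Sum.inr s)
    (hok : (Z.add (RealL811.treeW Φ ε P z)).Ok Φ ε)
    (hF : FamNL Φ ε K T Z (lineML Φ ε P z) s) :
    Z.Touched Φ ε K (RealL811.treeW Φ ε P z) s ↔ Z.Touched Φ ε K (MW.lines (lineML Φ ε P z)) s := by
  have hZ : Z.Ok Φ ε := hF.ok.base hΦ hε
  have h₁ : RL Φ ε K (Z.add (RealL811.treeW Φ ε P z)) (Z.add (MW.lines (lineML Φ ε P z)))
      (range Sum.inr) s := rl_add hΦ hε hV hS hsT' hF.s0 hK ht hok (hF.ok.lines hΦ hε) hb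
  have hm := marks_add hΦ hε hV hS hsT' ht
  exact touched_lines_iff hΦ hε (RL.refl hZ hb) h₁ (compat_add hΦ hε Z P z) le_rfl
    (fun _ => Iff.rfl) fun x => h₁.inf_iff hΦ hε hm le_rfl
      (nd_of_famNL hΦ hε hF h₁ le_rfl (fun _ hx => hx) hm hF.s0 le_rfl x)

end alone

end

end Crest.Agent.R122.LinkVh335
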