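import Crest.Agent.R122.NoDbl_255
import Crest.Agent.R122.CutRel_879
import Crest.Agent.R122.LinkVh_335

-- ▼ part R122/ColN_879
section

/-!
# Colours before the touch of one line (row 122, blocks A8/A9)

`h : FamNL Φ ε K T Z ls s`, `W = Z.add (MW.lines ls)`, `u ≤ s`, `u < thetaL (ls k)` for ONE line `k`
(the other lines are only known to be untouched before `s`, with the closed end `u = s` allowed).

* `col_step_lt`, `col_of_past_lt` : a particle which has the line `k` in its past has colour `k`.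
* `col_avoid` : a particle of colour `k` has no other colour in its past.
* `not_inf_of_col` : **a particle of colour `k` is not infected in `W`.**
* `subs_or_clean` : if all members of `D`, except possibly `δ`, are lines which are not yet touched at
  `u`, then every particle has at most one member of `D` in its past or is not infected.
-/

set_option autoImplicit false
set_option linter.unusedSectionVars false

open MeasureTheory Set Filter Topology
open Crest.AnalysisR.Kinetic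
open Crest.Agent.R122.EDefs602 Crest.Agent.R122.MWAlg255 Crest.Agent.R122.CausalGen291
open Crest.Agent.R122.Inf879
open Crest.Agent.R122.Causal291 (Past BC)

namespace Crest.Agent.R122.MWFam255

noncomputable section

variable {Φ : Space3 → ℝ} {ε T s u : ℝ} {K : ℕ} {ι κ : Type} [Fintype ι] [Fintype κ]
variable {Z : MW ι} {ls : κ → ML}

/-- **Step.** A particle in contact with a particle of colour `k` has colour `k` before the touch time
of the line `k`. -/
theorem col_step_lt (hΦ : AdmissiblePotential Φ) (hε : 0 < ε) (h : FamNL Φ ε K T Z ls s)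
    (hu : u ∈ Icc 0 s) {k : κ} (hlt : u < Z.thetaL Φ ε K T (ls k)) {x y : ι ⊕ κ}
    (hy : Col Φ ε K Z ls k u y) (hc : (Z.add (MW.lines ls)).C Φ ε u x y) :
    Col Φ ε K Z ls k u x := by
  by_cases hx : ∃ j, Col Φ ε K Z ls j u x
  · obtain ⟨j, hj⟩ := hx
    have := col_contact hΦ hε h hu hj hy hc
    exact this ▸ hj
  push Not at hx
  have hok := okF_of_okFam hΦ hε h.ok
  have hZ := hok.z
  have hA := h.ok.line hΦ hε k
  obtain ⟨i, rfl, hp, hpk⟩ := path_no_col hΦ hε h hu hx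
  obtain ⟨h1, h2, h3, h4⟩ := hc
  have hck : (Z.add (MW.line (ls k))).C Φ ε u (proj y) (Sum.inl i) := by
    refine ⟨?_, h1, ?_, ?_⟩
    · rw [← hy.b]; exact h2
    · rw [← hy.b]
      rcases h3 with h3 | h3 | h3
      · left
        rw [← h3]
        rfl
      · exact Or.inr (Or.inr h3)
      · exact Or.inr (Or.inl h3)
    · rw [← hy.path hΦ hε h hu, hpk k, ← hp, dist_comm]
      exact h4
  refine Or.inr ⟨i, rfl, ?_⟩
  refine cf_of_fut_lt hΦ hε hZ hA hu.1 (hu.2.trans h.sT) hlt ?_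
  rcases hy with rfl | ⟨i', rfl, hi'⟩
  · exact .new₂ (Sum.inr ()) (by rintro ⟨l, hl⟩; cases hl) hck hu.1 le_rfl
  · exact .chain₂ hi'.fut hck le_rfl

/-- **Past and colour** before the touch time of the line `k`. -/
theorem col_of_past_lt (hΦ : AdmissiblePotential Φ) (hε : 0 < ε) (h : FamNL Φ ε K T Z ls s)
    (hus : u ≤ s) {k : κ} (hlt : u < Z.thetaL Φ ε K T (ls k)) {x : ι ⊕ κ} {v : ℝ} {y : ι ⊕ κ}
    (hp : Past ((Z.add (MW.lines ls)).C Φ ε) u x v y) (hv : 0 ≤ v)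
    (hy : Col Φ ε K Z ls k v y) : Col Φ ε K Z ls k u x := by
  induction hp with
  | root hvu => exact hy.mono hvu
  | @step v v' j y hj hc hvv ih =>
    have hv' : 0 ≤ v' := hv.trans hvv
    exact ih hv' (col_step_lt hΦ hε h ⟨hv', hj.le.trans hus⟩ (hj.le.trans_lt hlt) (hy.mono hvv) hc)

/-- Different colours do not meet in the past. -/
theorem col_avoid (hΦ : AdmissiblePotential Φ) (hε : 0 < ε) (h : FamNL Φ ε K T Z ls s)
    (hus : u ≤ s) {k : κ} (hlt : u < Z.thetaL Φ ε K T (ls k)) {x : ι ⊕ κ}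
    (hx : Col Φ ε K Z ls k u x) {v : ℝ} {y : ι ⊕ κ}
    (hp : Past ((Z.add (MW.lines ls)).C Φ ε) u x v y) (hv : 0 ≤ v) :
    (∀ j, Col Φ ε K Z ls j v y → j = k) ∧ (v = s → Col Φ ε K Z ls k v y) := by
  induction hp with
  | @root v hvu =>
    refine ⟨fun j hj => col_disjoint h ⟨hv.trans hvu, hus⟩ (hj.mono hvu) hx, fun hvs => ?_⟩
    have : v = u := le_antisymm hvu (hus.trans hvs.ge)
    rw [this]
    exact hx
  | @step v v' y' y hy' hc hvv ih =>
    have hv' : 0 ≤ v' := hv.trans hvv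
    obtain ⟨ih1, ih2⟩ := ih hv'
    have hv's : v' ≤ s := hy'.le.trans hus
    rcases hv's.lt_or_eq with hlt' | heq
    · refine ⟨fun j hj => ?_, fun hvs => absurd (hvs.ge.trans hvv) (not_le.2 hlt')⟩
      exact ih1 j (col_step hΦ hε h ⟨hv', hv's⟩ (hj.mono hvv) hc (Or.inl hlt'))
    · have hk' := ih2 heq
      have hky : Col Φ ε K Z ls k v' y :=
        col_step_lt hΦ hε h ⟨hv', hv's⟩ (hy'.le.trans_lt hlt) hk' (MW.C_symm _ hc)
      refine ⟨fun j hj => col_disjoint h ⟨hv', hv's⟩ (hj.mono hvv) hky, fun hvs => ?_⟩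
      have : v = v' := hvs.trans heq.symm
      rw [this]
      exact hky

/-- A contact of two particles which have no colour different from `k`. -/
theorem contact_proj (hΦ : AdmissiblePotential Φ) (hε : 0 < ε) (h : FamNL Φ ε K T Z ls s)
    (hu : u ∈ Icc 0 s) {k : κ} {x y : ι ⊕ κ} (hx : ∀ j, Col Φ ε K Z ls j u x → j = k)
    (hy : ∀ j, Col Φ ε K Z ls j u y → j = k) (hc : (Z.add (MW.lines ls)).C Φ ε u x y) :
    (Z.add (MW.line (ls k))).C Φ ε u (proj x) (proj y) := by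
  have key : ∀ {x : ι ⊕ κ}, (∀ j, Col Φ ε K Z ls j u x → j = k) →
      (Z.add (MW.lines ls)).b x = (Z.add (MW.line (ls k))).b (proj x) ∧
        (Z.add (MW.lines ls)).path Φ ε u x = (Z.add (MW.line (ls k))).path Φ ε u (proj x) := by
    intro x hx
    by_cases hk : Col Φ ε K Z ls k u x
    · exact ⟨hk.b, hk.path hΦ hε h hu⟩
    · have hno : ∀ j, ¬ Col Φ ε K Z ls j u x := fun j hj => hk (hx j hj ▸ hj)
      obtain ⟨i, rfl, hp, hpk⟩ := path_no_col hΦ hε h hu hno
      exact ⟨rfl, hp.trans (hpk k).symm⟩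
  obtain ⟨bx, px⟩ := key hx
  obtain ⟨bY, pY⟩ := key hy
  obtain ⟨h1, h2, h3, h4⟩ := hc
  refine ⟨bx ▸ h1, bY ▸ h2, ?_, ?_⟩
  · rcases h3 with h3 | h3 | h3
    · left
      rw [h3]
    · right; left
      rw [← bx]; exact h3
    · right; right
      rw [← bY]; exact h3
  · rw [← px, ← pY]
    exact h4

/-- The past of a particle of colour `k`, in the world with the line `k` only. -/
theorem past_proj (hΦ : AdmissiblePotential Φ) (hε : 0 < ε) (h : FamNL Φ ε K T Z ls s)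
    (hus : u ≤ s) {k : κ} (hlt : u < Z.thetaL Φ ε K T (ls k)) {x : ι ⊕ κ}
    (hx : Col Φ ε K Z ls k u x) {v : ℝ} {y : ι ⊕ κ}
    (hp : Past ((Z.add (MW.lines ls)).C Φ ε) u x v y) (hv : 0 ≤ v) :
    Past ((Z.add (MW.line (ls k))).C Φ ε) u (proj x) v (proj y) := by
  induction hp with
  | root hvu => exact .root hvu
  | @step v v' y' y hy' hc hvv ih =>
    have hv' : 0 ≤ v' := hv.trans hvv
    refine .step (ih hv') (contact_proj hΦ hε h ⟨hv', hy'.le.trans hus⟩
      (col_avoid hΦ hε h hus hlt hx hy' hv').1 ?_ hc) hvv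
    exact (col_avoid hΦ hε h hus hlt hx (.step hy' hc le_rfl) hv').1

/-- **A particle of colour `k` is not infected before the touch time of the line `k`.** -/
theorem not_inf_of_col (hΦ : AdmissiblePotential Φ) (hε : 0 < ε) (h : FamNL Φ ε K T Z ls s)
    (hu : u ∈ Icc 0 s) {k : κ} (hlt : u < Z.thetaL Φ ε K T (ls k)) {x : ι ⊕ κ}
    (hx : Col Φ ε K Z ls k u x) : ¬ (Z.add (MW.lines ls)).Inf Φ ε K u x := by
  classical
  have hok := okF_of_okFam hΦ hε h.ok
  have hZ := hok.z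
  have hA := h.ok.line hΦ hε k
  have hT : u ∈ Icc 0 T := ⟨hu.1, hu.2.trans h.sT⟩
  -- clean in the world with the line `k`
  have h1 : ¬ (Z.add (MW.line (ls k))).Inf Φ ε K u (proj x) := by
    rcases hx with rfl | ⟨i, rfl, hi⟩
    · exact MW.not_inf_new_of_lt_theta hΦ hε hZ hA hT hlt ()
    · exact ((MW.agree_of_lt_theta hΦ hε hZ hA hT hlt).2 i hi.fut).2
  have hj : ∀ j, Sum.inr j ∈ BC ((Z.add (MW.lines ls)).C Φ ε) u x → j = k := fun j hj =>
    (col_avoid hΦ hε h hu.2 hlt hx hj le_rfl).1 j (Or.inl rfl)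
  have h2 : msize ((Z.add (MW.lines ls)).C Φ ε) (Z.add (MW.lines ls)).m u x ≤
      msize ((Z.add (MW.line (ls k))).C Φ ε) (Z.add (MW.line (ls k))).m u (proj x) := by
    unfold msize
    rw [Fintype.sum_sum_type, Fintype.sum_sum_type]
    refine add_le_add (Finset.sum_le_sum fun i _ => ?_) ?_
    · by_cases hi : (Sum.inl i : ι ⊕ κ) ∈ BC ((Z.add (MW.lines ls)).C Φ ε) u x
      · have h3 : (Sum.inl i : ι ⊕ Unit) ∈ BC ((Z.add (MW.line (ls k))).C Φ ε) u (proj x) :=
          past_proj hΦ hε h hu.2 hlt hx hi le_rfl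
        rw [if_pos hi, if_pos h3]
        exact le_rfl
      · rw [if_neg hi]
        exact Nat.zero_le _
    · rw [Finset.sum_eq_single k]
      · by_cases hk : (Sum.inr k : ι ⊕ κ) ∈ BC ((Z.add (MW.lines ls)).C Φ ε) u x
        · have h3 : (Sum.inr () : ι ⊕ Unit) ∈ BC ((Z.add (MW.line (ls k))).C Φ ε) u (proj x) :=
            past_proj hΦ hε h hu.2 hlt hx hk le_rfl
          rw [if_pos hk, Fintype.sum_unique]
          rw [if_pos h3]
          exact le_rfl
        · rw [if_neg hk]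
          exact Nat.zero_le _
      · intro j _ hjk
        rw [if_neg fun h' => hjk (hj j h')]
      · intro h'
        exact absurd (Finset.mem_univ k) h'
  exact fun hI => h1 (lt_of_lt_of_le hI h2)

/-- **At most one member in the past, or clean.** -/
theorem subs_or_clean (hΦ : AdmissiblePotential Φ) (hε : 0 < ε) (h : FamNL Φ ε K T Z ls s)
    (hu : u ∈ Icc 0 s) {D : Set (ι ⊕ κ)} {δ : ι ⊕ κ}
    (hD : ∀ y ∈ D, y ≠ δ → ∃ k, y = Sum.inr k ∧ u < Z.thetaL Φ ε K T (ls k)) (x : ι ⊕ κ) :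
    (BC ((Z.add (MW.lines ls)).C Φ ε) u x ∩ D).Subsingleton ∨
      ¬ (Z.add (MW.lines ls)).Inf Φ ε K u x := by
  by_cases hne : ∃ y ∈ BC ((Z.add (MW.lines ls)).C Φ ε) u x ∩ D, y ≠ δ
  · obtain ⟨y, ⟨hy, hyD⟩, hyδ⟩ := hne
    obtain ⟨k, rfl, hlt⟩ := hD y hyD hyδ
    right
    refine not_inf_of_col hΦ hε h hu hlt ?_
    exact col_of_past_lt hΦ hε h hu.2 hlt hy le_rfl (Or.inl rfl)
  · push Not at hne
    left
    intro y hy y' hy'
    rw [hne y hy, hne y' hy']

end

end Crest.Agent.R122.MWFam255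
end

-- ▼ part R122/LinkVd_879

/-!
# A real tree and an independent line, base world with one exit (row 122, H1)

`Z` a base world, `A = treeW Φ ε P z` the initial particles of a tree, real in `Z + A`,
`F = lineML Φ ε P z` its lines, `δ` one of its leaves, `l` a line. The base world of the links is
`Z₁ = Z + F δ`; the particle of `F δ` belongs to the tree.

* `FamNL.comp`, `path_sub` : sub-families.
* `ψ`, `base_exchange` : one line of a family moved to the base world.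
* `nd_ins` : at most one line of the family in the past, or clean.
* `avoid_ins` : the visible particles of `Z + F + l` stay away from the hidden curves of the tree.
* `VC`, `VC.touched_iff` : `(Z + A).Touched l s ↔ (Z + F).Touched l s` (core of helper335's `VH`).
* `thetaL_le_ins` : **if `l` touches `Z + F δ` strictly before the other lines, then it touches
  `Z + A` not later.**
-/

set_option autoImplicit false
set_option linter.unusedSectionVars false

open MeasureTheory Set Filter Topology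
open scoped ENNReal
open Crest.AnalysisR.Kinetic
open Crest.Agent.R122.Flow671 hiding rel
open Crest.Agent.R122.Loc45 Crest.Agent.R122.Ins45
open Crest.Agent.R122.Causal291 (Past BC)
open Crest.Agent.R122.Inf879 Crest.Agent.R122.EDefs602 Crest.Agent.R122.MWAlg255
open Crest.Agent.R122.Lines255 Crest.Agent.R122.Hid879
open Crest.Agent.R122.Kin796 Crest.Agent.R122.Kin796.CTree Crest.Agent.R122.Tree674
open Crest.Agent.R122.PathFlow968 Crest.Agent.R122.TreeLines335
open Crest.Agent.R122.MWFam255 Crest.Agent.R122.RealL811 Crest.Agent.R122.Decomp811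
open Crest.Agent.R122.E6Hyp879 (withD)
open Crest.Agent.R122.RtG302 (near)
open Crest.Agent.R122.OneC285 (ptube)
open Crest.Agent.R122.LNEv383 (RetC)
open Crest.Agent.R122.LinkVh335

namespace Crest.Agent.R122.LinkVd879

noncomputable section

open scoped Classical

/-! ### Sub-families -/

section fam

variable {ι κ κ₀ : Type} [Fintype ι] [Fintype κ] [Fintype κ₀] {Φ : Space3 → ℝ} {ε T s u : ℝ} {K : ℕ}
  {Z : MW ι} {ls : κ → ML}

theorem _root_.Crest.Agent.R122.MWFam255.FamNL.comp (h : FamNL Φ ε K T Z ls s)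
    (hΦ : AdmissiblePotential Φ) (hε : 0 < ε) (g : κ₀ ↪ κ) :
    FamNL Φ ε K T Z (fun i => ls (g i)) s where
  ok := okFam_comp hΦ hε h.ok g
  s0 := h.s0
  sT := h.sT
  le k := h.le (g k)
  nl j k hjk := h.nl (g j) (g k) fun h' => hjk (g.injective h')

/-- A particle which has no colour outside the sub-family has the same state. -/
theorem path_sub (hΦ : AdmissiblePotential Φ) (hε : 0 < ε) (h : FamNL Φ ε K T Z ls s) (g : κ₀ ↪ κ)
    (hu : u ∈ Icc 0 s) {y : ι ⊕ κ₀}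
    (hy : ∀ j, j ∉ range g → ¬ Col Φ ε K Z ls j u (Sum.map id g y)) :
    (Z.add (MW.lines ls)).path Φ ε u (Sum.map id g y) =
      (Z.add (MW.lines fun i => ls (g i))).path Φ ε u y := by
  have h₀ := h.comp hΦ hε g
  rcases y with i | m
  · by_cases hc : ∃ j, Col Φ ε K Z ls j u (Sum.inl i)
    · obtain ⟨j, hj⟩ := hc
      have hjr : j ∈ range g := by
        by_contra hno
        exact hy j hno hj
      obtain ⟨k, rfl⟩ := hjr
      rcases hj with hj | ⟨i', hi', hcf⟩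
      · cases hj
      · rw [← Sum.inl_injective hi'] at hcf
        exact (h.path_inl hΦ hε hu hcf).trans (h₀.path_inl hΦ hε hu (k := k) hcf).symm
    · push Not at hc
      obtain ⟨i', hi', hp, -⟩ := path_no_col hΦ hε h hu hc
      have hc' : ∀ j, ¬ Col Φ ε K Z (fun i => ls (g i)) j u (Sum.inl i) := by
        intro j hj
        refine hc (g j) ?_
        rcases hj with hj | ⟨i', hi', hj⟩
        · cases hj
        · exact Or.inr ⟨i', congrArg Sum.inl (Sum.inl_injective hi'), hj⟩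
      obtain ⟨i'', hi'', hp', -⟩ := path_no_col hΦ hε h₀ hu hc'
      rw [← Sum.inl_injective hi'] at hp
      rw [← Sum.inl_injective hi''] at hp'
      exact hp.trans hp'.symm
  · exact (h.path_inr hΦ hε hu (g m)).trans (h₀.path_inr hΦ hε hu m).symm

/-! ### One line moved to the base world -/

/-- Labels: the line `δ` moved to the base world. -/
def ψ (ι : Type) {κ : Type} (δ : κ) : (ι ⊕ Unit) ⊕ {k : κ // k ≠ δ} ≃ ι ⊕ κ where
  toFun x := match x with
    | Sum.inl (Sum.inl i) => Sum.inl i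
    | Sum.inl (Sum.inr _) => Sum.inr δ
    | Sum.inr k => Sum.inr k.1
  invFun x := match x with
    | Sum.inl i => Sum.inl (Sum.inl i)
    | Sum.inr k => if h : k = δ then Sum.inl (Sum.inr ()) else Sum.inr ⟨k, h⟩
  left_inv := by
    rintro ((i | u) | ⟨k, hk⟩)
    · rfl
    · simp
    · simp [hk]
  right_inv := by
    rintro (i | k)
    · rfl
    · by_cases h : k = δ
      · simp [h]
      · simp [h]

theorem base_exchange (Z : MW ι) (H : κ → ML) (δ : κ) :
    (Z.ins (H δ)).add (MW.lines (exF H δ)) = (Z.add (MW.lines H)).comap (ψ ι δ) := by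
  unfold MW.ins MW.add MW.comap MW.line MW.lines exF
  congr 1 <;> · funext x; rcases x with (x | x) | x <;> rfl

/-- **At most one line in the past, or clean**, for a family which is not touched in the base world
with one of its lines. -/
theorem nd_ins (hΦ : AdmissiblePotential Φ) (hε : 0 < ε) {H : κ → ML} {δ : κ}
    (h : FamNL Φ ε K T (Z.ins (H δ)) (exF H δ) s) (hu : u ∈ Icc 0 s) {D : Set (ι ⊕ κ)}
    (hD : ∀ y ∈ D, ∃ k, y = Sum.inr k ∧ (k ≠ δ → u < (Z.ins (H δ)).thetaL Φ ε K T (H k)))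
    (x : ι ⊕ κ) :
    (BC ((Z.add (MW.lines H)).C Φ ε) u x ∩ D).Subsingleton ∨
      ¬ (Z.add (MW.lines H)).Inf Φ ε K u x := by
  set W := Z.add (MW.lines H) with hW
  have hex : (Z.ins (H δ)).add (MW.lines (exF H δ)) = W.comap (ψ ι δ) := base_exchange Z H δ
  have h1 := subs_or_clean hΦ hε h hu (D := (ψ ι δ) ⁻¹' D) (δ := Sum.inl (Sum.inr ())) (by
    rintro ((i | u') | ⟨k, hk⟩) hy hne
    · obtain ⟨k, hk, _⟩ := hD _ hy
      cases hk
    · exact absurd rfl hne
    · obtain ⟨k', hk', hlt⟩ := hD _ hy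
      have e : k = k' := Sum.inr_injective hk'
      subst e
      exact ⟨⟨k, hk⟩, rfl, hlt hk⟩) ((ψ ι δ).symm x)
  rw [hex] at h1
  have hpast : ∀ y, y ∈ BC (W.C Φ ε) u x ↔
      (ψ ι δ).symm y ∈ BC ((W.comap (ψ ι δ)).C Φ ε) u ((ψ ι δ).symm x) := by
    intro y
    have h2 : (ψ ι δ).symm y ∈ BC ((W.comap (ψ ι δ)).C Φ ε) u ((ψ ι δ).symm x) ↔
        (ψ ι δ) ((ψ ι δ).symm y) ∈ BC (W.C Φ ε) u ((ψ ι δ) ((ψ ι δ).symm x)) :=
      (past_congr_rel (C_comap hΦ hε W (ψ ι δ))).trans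
        (Causal291.past_equiv (W.C Φ ε) (ψ ι δ))
    rw [h2, (ψ ι δ).apply_symm_apply, (ψ ι δ).apply_symm_apply]
  refine h1.imp (fun h2 => ?_) fun h2 h3 => ?_
  · rintro y ⟨hy, hyD⟩ y' ⟨hy', hyD'⟩
    refine (ψ ι δ).symm.injective (h2 ⟨(hpast y).1 hy, ?_⟩ ⟨(hpast y').1 hy', ?_⟩)
    · change (ψ ι δ) ((ψ ι δ).symm y) ∈ D
      rwa [(ψ ι δ).apply_symm_apply]
    · change (ψ ι δ) ((ψ ι δ).symm y') ∈ D
      rwa [(ψ ι δ).apply_symm_apply]
  · refine h2 ?_
    rw [Inf_comap hΦ hε, (ψ ι δ).apply_symm_apply]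
    exact h3

end fam

/-! ### The core of the comparison -/

section core

variable {ι : Type} [Fintype ι] {Φ : Space3 → ℝ} {ε T T' s v : ℝ} {K : ℕ} {Z : MW ι} {l : ML}
  {P : CTree} {z : PhasePoint × Par P}

/-- Hypotheses of the comparison of the real tree and its lines, in presence of the line `l`. -/
structure VC (Φ : Space3 → ℝ) (ε T' s : ℝ) (K : ℕ) (Z : MW ι) (P : CTree)
    (z : PhasePoint × Par P) (l : ML) : Prop where
  valid : Valid Φ ε P T' z.1.2 z.2
  sep : Sep Φ ε P T' z.1 z.2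
  leaves : P.leaves ≤ K
  s0 : 0 ≤ s
  sT' : s ≤ T'
  b0 : ∀ x, 0 ≤ Z.b x
  bl : 0 ≤ l.1.1
  tree : TreeIn Φ ε (Z.add (RealL811.treeW Φ ε P z)) P z Sum.inr s
  okA : (Z.add (RealL811.treeW Φ ε P z)).Ok Φ ε
  okAl : (Z.add ((RealL811.treeW Φ ε P z).add (MW.line l))).Ok Φ ε
  okF : (Z.add (MW.lines (lineML Φ ε P z))).Ok Φ ε
  okFl : (Z.add (MW.lines (withD (lineML Φ ε P z) l))).Ok Φ ε
  /-- the tree and the base world are separated at time `0` -/
  sep0 : ∀ (k : Idx P) (i : ι), Z.b i ≤ 0 →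
    ε < dist ((Z.add (RealL811.treeW Φ ε P z)).path Φ ε 0 (Sum.inr k)).1
      ((Z.add (RealL811.treeW Φ ε P z)).path Φ ε 0 (Sum.inl i)).1
  /-- the visible particles of `Z + F + l` avoid the hidden curves -/
  avoid : ∀ u ∈ Icc 0 s, ∀ k : Idx P, u ≤ rel P z.2 k → ∀ y : ι ⊕ (Idx P ⊕ Unit),
    (Z.add (MW.lines (withD (lineML Φ ε P z) l))).b y ≤ u →
    (∀ m, y = Sum.inr (Sum.inl m) → rel P z.2 m < u) →
    ε < dist ((Z.add (RealL811.treeW Φ ε P z)).path Φ ε u (Sum.inr k)).1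
      ((Z.add (MW.lines (withD (lineML Φ ε P z) l))).path Φ ε u y).1
  nd₁ : ∀ x, (BC ((Z.add (MW.lines (lineML Φ ε P z))).C Φ ε) s x ∩
    range (Sum.inr : Idx P → ι ⊕ Idx P)).Subsingleton ∨
      ¬ (Z.add (MW.lines (lineML Φ ε P z))).Inf Φ ε K s x
  nd₂ : ∀ x, (BC ((Z.add (MW.lines (withD (lineML Φ ε P z) l))).C Φ ε) s x ∩
    DD ι (Idx P)).Subsingleton ∨
      ¬ (Z.add (MW.lines (withD (lineML Φ ε P z) l))).Inf Φ ε K s x

namespace VC

variable (h : VC Φ ε T' s K Z P z l) (hΦ : AdmissiblePotential Φ) (hε : 0 < ε)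

include h hΦ hε in
theorem rl₁ : RL Φ ε K (Z.add (RealL811.treeW Φ ε P z)) (Z.add (MW.lines (lineML Φ ε P z)))
    (range Sum.inr) s :=
  rl_add hΦ hε h.valid h.sep h.sT' h.s0 h.leaves h.tree h.okA h.okF h.b0

include h in
theorem rel0 (k : Idx P) (hε : 0 < ε) : 0 ≤ rel P z.2 k := rel_nonneg hε.le h.valid.2 k

include h in
theorem b_le (hε : 0 < ε) (y : ι ⊕ (Idx P ⊕ Unit)) :
    (Z.add ((RealL811.treeW Φ ε P z).add (MW.line l))).b y ≤
      (Z.add (MW.lines (withD (lineML Φ ε P z) l))).b y := by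
  rcases y with i | (m | t)
  · exact le_rfl
  · exact h.rel0 m hε
  · exact le_rfl

include h hΦ hε in
theorem hidHyp : HidHyp Φ ε s (Z.add (RealL811.treeW Φ ε P z)).b
    ((Z.add (RealL811.treeW Φ ε P z)).path Φ ε)
    (Z.add ((RealL811.treeW Φ ε P z).add (MW.line l))).b
    ((Z.add ((RealL811.treeW Φ ε P z).add (MW.line l))).path Φ ε)
    (Z.add (MW.lines (withD (lineML Φ ε P z) l))).b
    ((Z.add (MW.lines (withD (lineML Φ ε P z) l))).path Φ ε) (jj ι (Idx P)) (DD ι (Idx P)) where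
  hX := h.okA.bw
  hX' := h.okAl.bw
  hW := h.okFl.bw
  inj := jj_injective ι (Idx P)
  sub := by
    rintro _ ⟨k, rfl⟩
    exact ⟨Sum.inr k, rfl⟩
  birth a := by
    rcases a with a | a <;> rfl
  off y hy := by
    rcases y with i | (m | t)
    · rfl
    · exact absurd mem_DD hy
    · rfl
  le := h.b_le hε
  pos := by
    rintro _ ⟨k, rfl⟩
    exact h.rel0 k hε
  init a := by
    rw [MW.path_zero hΦ hε, MW.path_zero hΦ hε]
    rcases a with a | a <;> rfl
  init' y hy := by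
    rw [MW.path_zero hΦ hε, MW.path_zero hΦ hε]
    rcases y with i | (m | t)
    · rfl
    · exact absurd mem_DD hy
    · rfl
  match_ a ha hat := by
    rcases a with i | k
    · exact absurd ha inl_not_DD
    · have hat' : rel P z.2 k ≤ s := hat
      have h0 := h.rel0 k hε
      have h1 : (Z.add (MW.lines (withD (lineML Φ ε P z) l))).path Φ ε (lineML Φ ε P z k).1.1
          (Sum.inr (Sum.inl k)) = (lineML Φ ε P z k).1.2 :=
        path_birth hΦ hε h.okFl.bw rfl rfl h0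
      have h2 : (Z.add (MW.lines (lineML Φ ε P z))).path Φ ε (lineML Φ ε P z k).1.1
          (Sum.inr k) = (lineML Φ ε P z k).1.2 :=
        path_birth hΦ hε h.okF.bw rfl rfl h0
      have h3 := (h.rl₁ hΦ hε).agree hΦ hε h0 hat' (x := Sum.inr k) le_rfl
      exact h1.trans (h2.symm.trans h3)
  closed u hu a a' ha hua hb hd := by
    rcases a with i | k
    · exact absurd ha inl_not_DD
    have hua' : u ≤ rel P z.2 k := hua
    rcases hu.1.lt_or_eq with h0 | h0
    · obtain ⟨m, rfl, hm2⟩ := h.tree.sealed k u a' hu.1 hu.2 hua'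
        ⟨hu.1, hb, Or.inr (Or.inl h0), hd⟩
      exact ⟨mem_DD, hm2⟩
    · subst h0
      rcases a' with i | m
      · exact absurd hd (not_le.2 (h.sep0 k i hb))
      · exact ⟨mem_DD, h.rel0 m hε⟩
  avoid u hu a ha hua y hy hvis := by
    rcases a with i | k
    · exact absurd ha inl_not_DD
    refine h.avoid u hu k hua y hy fun m hm => ?_
    by_contra hlt
    subst hm
    exact hvis ⟨mem_DD, not_lt.1 hlt⟩

include h hΦ hε in
/-- **The tree is real in `Z + A + l` up to `s`.** -/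
theorem treeIn_add : TreeIn Φ ε (Z.add ((RealL811.treeW Φ ε P z).add (MW.line l))) P z
    (fun k => Sum.inr (Sum.inl k)) s := by
  have hag := (h.hidHyp hΦ hε).agree hΦ hε h.s0
  refine ⟨fun a b hab => Sum.inl_injective (Sum.inr_injective hab), fun _ => rfl, fun _ => rfl,
    fun k u h0 hu hk => ?_, fun k u y h0 hu hk hc => ?_⟩
  · have h1 := (hag u ⟨h0, hu⟩).1 (Sum.inr k) mem_DD hk
    exact h1.trans (h.tree.agree k u h0 hu hk)
  · by_contra hno
    push Not at hno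
    have hvis : ∀ m, y = Sum.inr (Sum.inl m) → rel P z.2 m < u := fun m hm => hno m hm.symm
    have hyb : (Z.add (MW.lines (withD (lineML Φ ε P z) l))).b y ≤ u := by
      rcases y with i | (m | t)
      · exact hc.2.1
      · exact (hvis m rfl).le
      · exact hc.2.1
    have h1 := h.avoid u ⟨h0, hu⟩ k hk y hyb hvis
    have h2 := (hag u ⟨h0, hu⟩).1 (Sum.inr k) mem_DD hk
    have h3 := (hag u ⟨h0, hu⟩).2 y fun _ => hyb
    rw [← h2, ← h3] at h1
    exact absurd hc.2.2.2 (not_le.2 h1)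

include h hΦ hε in
theorem rl₂ : RL Φ ε K (Z.add ((RealL811.treeW Φ ε P z).add (MW.line l)))
    (Z.add (MW.lines (withD (lineML Φ ε P z) l))) (DD ι (Idx P)) s :=
  (h.treeIn_add hΦ hε).rl hΦ hε h.valid h.sep h.sT' VH.lineOf₂ h.okAl h.okFl (by
    rintro (x | (x | x))
    · exact h.b0 x
    · exact le_rfl
    · exact h.bl) h.s0 h.leaves

include h hΦ hε in
theorem marks₁ : ∀ x ∈ range (Sum.inr : Idx P → ι ⊕ Idx P),
    (Z.add (MW.lines (lineML Φ ε P z))).b x ≤ s →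
    msize ((Z.add (RealL811.treeW Φ ε P z)).C Φ ε) (Z.add (RealL811.treeW Φ ε P z)).m
      ((Z.add (MW.lines (lineML Φ ε P z))).b x) x = (Z.add (MW.lines (lineML Φ ε P z))).m x :=
  marks_add hΦ hε h.valid h.sep h.sT' h.tree

include h hΦ hε in
theorem marks₂ : ∀ x ∈ DD ι (Idx P), (Z.add (MW.lines (withD (lineML Φ ε P z) l))).b x ≤ s →
    msize ((Z.add ((RealL811.treeW Φ ε P z).add (MW.line l))).C Φ ε)
      (Z.add ((RealL811.treeW Φ ε P z).add (MW.line l))).m
      ((Z.add (MW.lines (withD (lineML Φ ε P z) l))).b x) x =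
        (Z.add (MW.lines (withD (lineML Φ ε P z) l))).m x := by
  rintro _ ⟨k, rfl⟩ hb
  exact (h.treeIn_add hΦ hε).size_eq hΦ hε h.valid h.sep h.sT' hb

include h hΦ hε in
theorem inf₁ (x : ι ⊕ Idx P) : (Z.add (RealL811.treeW Φ ε P z)).Inf Φ ε K s x ↔
    (Z.add (MW.lines (lineML Φ ε P z))).Inf Φ ε K s x := by
  by_cases hx : (Z.add (MW.lines (lineML Φ ε P z))).Inf Φ ε K s x
  · exact (h.rl₁ hΦ hε).inf_iff hΦ hε (h.marks₁ hΦ hε) le_rfl
      fun _ _ => (h.nd₁ x).resolve_right (not_not.2 hx)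
  · exact ⟨fun h' => absurd ((h.rl₁ hΦ hε).inf hΦ hε le_rfl h') hx, fun h' => absurd h' hx⟩

include h hΦ hε in
theorem inf₂ (x : ι ⊕ (Idx P ⊕ Unit)) :
    (Z.add ((RealL811.treeW Φ ε P z).add (MW.line l))).Inf Φ ε K s x ↔
      (Z.add (MW.lines (withD (lineML Φ ε P z) l))).Inf Φ ε K s x := by
  by_cases hx : (Z.add (MW.lines (withD (lineML Φ ε P z) l))).Inf Φ ε K s x
  · exact (h.rl₂ hΦ hε).inf_iff hΦ hε (h.marks₂ hΦ hε) le_rfl
      fun _ _ => (h.nd₂ x).resolve_right (not_not.2 hx)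
  · exact ⟨fun h' => absurd ((h.rl₂ hΦ hε).inf hΦ hε le_rfl h') hx, fun h' => absurd h' hx⟩

include h hΦ hε in
/-- **Touches of the line `l`**: real tree and lines. -/
theorem touched_iff : (Z.add (RealL811.treeW Φ ε P z)).Touched Φ ε K (MW.line l) s ↔
    (Z.add (MW.lines (lineML Φ ε P z))).Touched Φ ε K (MW.line l) s := by
  rw [VH.touched_jj hΦ hε, VH.touched_jj hΦ hε, ← VH.lines_withD]
  exact touched_lines_iff hΦ hε (h.rl₁ hΦ hε) (h.rl₂ hΦ hε) (VH.compat hΦ hε Z P z l) le_rfl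
    (h.inf₁ hΦ hε) (h.inf₂ hΦ hε)

end VC

/-! ### Base world with one exit -/

/-- Embedding of the other lines of the tree. -/
def gEmb {κ : Type} (δ : κ) : {k : κ // k ≠ δ} ↪ {k : κ ⊕ Unit // k ≠ Sum.inl δ} :=
  ⟨fun k => ⟨Sum.inl k.1, fun h => k.2 (Sum.inl_injective h)⟩, fun _ _ hab =>
    Subtype.ext (Sum.inl_injective (congrArg (fun y : {k : κ ⊕ Unit // k ≠ Sum.inl δ} => y.1) hab))⟩

/-- The line `l` in the family of the other lines and `l`. -/
def lIdx {κ : Type} (δ : κ) : {k : κ ⊕ Unit // k ≠ Sum.inl δ} := ⟨Sum.inr (), fun h => by cases h⟩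

theorem not_range_gEmb {κ : Type} {δ : κ} {j : {k : κ ⊕ Unit // k ≠ Sum.inl δ}}
    (hj : j ∉ range (gEmb δ)) : j = lIdx δ := by
  obtain ⟨(k | u), hk⟩ := j
  · refine absurd ⟨⟨k, fun h => hk (congrArg Sum.inl h)⟩, rfl⟩ hj
  · rfl

theorem jj_ψ {κ : Type} (δ : κ) (y : (ι ⊕ Unit) ⊕ {k : κ // k ≠ δ}) :
    jj ι κ (ψ ι δ y) = ψ ι (Sum.inl δ : κ ⊕ Unit) (Sum.map id (gEmb δ) y) := by
  rcases y with (i | u) | k <;> rfl

/-- Hypotheses, base world with one exit. -/
structure VD (Φ : Space3 → ℝ) (ε T T' s : ℝ) (K : ℕ) (Z : MW ι) (P : CTree)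
    (z : PhasePoint × Par P) (l : ML) (δ : Idx P) : Prop where
  valid : Valid Φ ε P T' z.1.2 z.2
  sep : Sep Φ ε P T' z.1 z.2
  leaves : P.leaves ≤ K
  sT' : s ≤ T'
  b0 : ∀ x, 0 ≤ Z.b x
  bl : 0 ≤ l.1.1
  tree : TreeIn Φ ε (Z.add (RealL811.treeW Φ ε P z)) P z Sum.inr s
  okA : (Z.add (RealL811.treeW Φ ε P z)).Ok Φ ε
  okAl : (Z.add ((RealL811.treeW Φ ε P z).add (MW.line l))).Ok Φ ε
  okF : (Z.add (MW.lines (lineML Φ ε P z))).Ok Φ ε
  okFl : (Z.add (MW.lines (withD (lineML Φ ε P z) l))).Ok Φ ε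
  sep0 : ∀ (k : Idx P) (i : ι), Z.b i ≤ 0 →
    ε < dist ((Z.add (RealL811.treeW Φ ε P z)).path Φ ε 0 (Sum.inr k)).1
      ((Z.add (RealL811.treeW Φ ε P z)).path Φ ε 0 (Sum.inl i)).1
  fam : FamNL Φ ε K T (Z.ins (lineML Φ ε P z δ))
    (exF (withD (lineML Φ ε P z) l) (Sum.inl δ)) s
  strict : ∀ k, k ≠ δ → s < (Z.ins (lineML Φ ε P z δ)).thetaL Φ ε K T (lineML Φ ε P z k)
  ret : ¬ RetC Φ ε ε K T (Z.ins (lineML Φ ε P z δ)) l (ptube Φ ε P z)

namespace VD

variable {δ : Idx P} (h : VD Φ ε T T' s K Z P z l δ) (hΦ : AdmissiblePotential Φ) (hε : 0 < ε)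

include h hΦ hε in
theorem famF : FamNL Φ ε K T (Z.ins (lineML Φ ε P z δ)) (exF (lineML Φ ε P z) δ) s :=
  h.fam.comp hΦ hε (gEmb δ)

include h in
theorem rel0 (k : Idx P) (hε : 0 < ε) : 0 ≤ rel P z.2 k := rel_nonneg hε.le h.valid.2 k

include h hΦ hε in
theorem rl₁ : RL Φ ε K (Z.add (RealL811.treeW Φ ε P z)) (Z.add (MW.lines (lineML Φ ε P z)))
    (range Sum.inr) s :=
  rl_add hΦ hε h.valid h.sep h.sT' h.fam.s0 h.leaves h.tree h.okA h.okF h.b0

include h hΦ hε in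
theorem avoid₁ {u : ℝ} (hu : u ∈ Icc 0 s) {k : Idx P} (hk : u ≤ rel P z.2 k) {y : ι ⊕ Idx P}
    (hy : (Z.add (MW.lines (lineML Φ ε P z))).b y ≤ u)
    (hvis : ∀ m, y = Sum.inr m → rel P z.2 m < u) :
    ε < dist ((Z.add (RealL811.treeW Φ ε P z)).path Φ ε u (Sum.inr k)).1
      ((Z.add (MW.lines (lineML Φ ε P z))).path Φ ε u y).1 := by
  rw [(h.rl₁ hΦ hε).agree hΦ hε hu.1 hu.2 hy]
  rcases hu.1.lt_or_eq with h0 | h0
  · by_contra hno
    have hb : (Z.add (RealL811.treeW Φ ε P z)).b y ≤ u := ((h.rl₁ hΦ hε).le y).trans hy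
    obtain ⟨m, hm, hm2⟩ := h.tree.sealed k u y hu.1 hu.2 hk
      ⟨hu.1, hb, Or.inr (Or.inl h0), not_lt.1 hno⟩
    exact absurd (hvis m hm.symm) (not_lt.2 hm2)
  · subst h0
    rcases y with i | m
    · exact h.sep0 k i hy
    · exact absurd (hvis m rfl) (not_lt.2 (h.rel0 m hε))

include h hΦ hε in
theorem curve_eq {u : ℝ} (hu : u ∈ Icc 0 s) {k : Idx P} (hk : u ≤ rel P z.2 k) :
    ((Z.add (RealL811.treeW Φ ε P z)).path Φ ε u (Sum.inr k)).1 = (ptube Φ ε P z).c k u := by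
  rw [h.tree.agree k u hu.1 hu.2 hk]
  exact (Hid424.curve_eq_path (X := z.1.1) (v := z.1.2) hΦ hε h.valid h.sep
    ⟨hu.1, hu.2.trans h.sT'⟩ k).symm

include h hΦ hε in
/-- **The visible particles of `Z + F + l` avoid the hidden curves.** -/
theorem avoid {u : ℝ} (hu : u ∈ Icc 0 s) {k : Idx P} (hk : u ≤ rel P z.2 k)
    {y : ι ⊕ (Idx P ⊕ Unit)}
    (hy : (Z.add (MW.lines (withD (lineML Φ ε P z) l))).b y ≤ u)
    (hvis : ∀ m, y = Sum.inr (Sum.inl m) → rel P z.2 m < u) :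
    ε < dist ((Z.add (RealL811.treeW Φ ε P z)).path Φ ε u (Sum.inr k)).1
      ((Z.add (MW.lines (withD (lineML Φ ε P z) l))).path Φ ε u y).1 := by
  set F := lineML Φ ε P z with hF
  set H := withD F l with hH
  set Z₁ := Z.ins (F δ) with hZ₁
  have hex : Z₁.add (MW.lines (exF H (Sum.inl δ))) = (Z.add (MW.lines H)).comap
      (ψ ι (Sum.inl δ : Idx P ⊕ Unit)) := base_exchange Z H (Sum.inl δ)
  have hex' : Z₁.add (MW.lines (exF F δ)) = (Z.add (MW.lines F)).comap (ψ ι δ) :=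
    base_exchange Z F δ
  have hp₂ : ∀ y₁, (Z.add (MW.lines H)).path Φ ε u (ψ ι (Sum.inl δ : Idx P ⊕ Unit) y₁) =
      (Z₁.add (MW.lines (exF H (Sum.inl δ)))).path Φ ε u y₁ := fun y₁ => by
    rw [hex, path_comap hΦ hε]
  have hp₁ : ∀ y₁, (Z.add (MW.lines F)).path Φ ε u (ψ ι δ y₁) =
      (Z₁.add (MW.lines (exF F δ))).path Φ ε u y₁ := fun y₁ => by
    rw [hex', path_comap hΦ hε]
  -- a particle of the colour of `l`
  have hl : ∀ y₁, y = ψ ι (Sum.inl δ : Idx P ⊕ Unit) y₁ →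
      Col Φ ε K Z₁ (exF H (Sum.inl δ)) (lIdx δ) u y₁ →
      ε < dist ((Z.add (RealL811.treeW Φ ε P z)).path Φ ε u (Sum.inr k)).1
        ((Z.add (MW.lines H)).path Φ ε u y).1 := by
    rintro y₁ rfl hc
    rw [hp₂, hc.path hΦ hε h.fam hu]
    by_contra hno
    push Not at hno
    refine h.ret ⟨u, ⟨hu.1, hu.2.trans h.fam.sT⟩, hu.2.trans (h.fam.le (lIdx δ)), ?_⟩
    rw [h.curve_eq hΦ hε hu hk] at hno
    rcases hc with rfl | ⟨i, rfl, hi⟩
    · exact Or.inl ⟨hy, k, hk, hno⟩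
    · exact Or.inr ⟨i, hi, k, hk, hno⟩
  by_cases hyl : y = Sum.inr (Sum.inr ())
  · exact hl (Sum.inr (lIdx δ)) hyl (Or.inl rfl)
  obtain ⟨y', rfl⟩ : ∃ y' : ι ⊕ Idx P, y = jj ι (Idx P) y' := by
    rcases y with i | (m | t)
    · exact ⟨Sum.inl i, rfl⟩
    · exact ⟨Sum.inr m, rfl⟩
    · exact absurd rfl hyl
  obtain ⟨y₁, rfl⟩ := (ψ ι δ).surjective y'
  rw [jj_ψ] at hy hvis ⊢
  by_cases hc : Col Φ ε K Z₁ (exF H (Sum.inl δ)) (lIdx δ) u (Sum.map id (gEmb δ) y₁)
  · have h1 := hl (Sum.map id (gEmb δ) y₁) (jj_ψ δ y₁) hc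
    rw [jj_ψ] at h1
    exact h1
  · have h1 : (Z₁.add (MW.lines (exF H (Sum.inl δ)))).path Φ ε u (Sum.map id (gEmb δ) y₁) =
        (Z₁.add (MW.lines (exF F δ))).path Φ ε u y₁ :=
      path_sub hΦ hε h.fam (gEmb δ) hu fun j hj => by
        rw [not_range_gEmb hj]
        exact hc
    rw [hp₂, h1, ← hp₁]
    refine h.avoid₁ hΦ hε hu hk ?_ ?_
    · rw [← jj_ψ] at hy
      rcases hy' : ψ ι δ y₁ with i | m
      · rw [hy'] at hy
        exact hy
      · rw [hy'] at hy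
        exact hy
    · intro m hm
      refine hvis m ?_
      rw [← jj_ψ, hm]
      rfl

include h hΦ hε in
theorem vc : VC Φ ε T' s K Z P z l where
  valid := h.valid
  sep := h.sep
  leaves := h.leaves
  s0 := h.fam.s0
  sT' := h.sT'
  b0 := h.b0
  bl := h.bl
  tree := h.tree
  okA := h.okA
  okAl := h.okAl
  okF := h.okF
  okFl := h.okFl
  sep0 := h.sep0
  avoid u hu k hk y hy hvis := h.avoid hΦ hε hu hk hy hvis
  nd₁ x := by
    refine nd_ins hΦ hε (h.famF hΦ hε) ⟨h.fam.s0, le_rfl⟩ ?_ x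
    rintro _ ⟨k, rfl⟩
    exact ⟨k, rfl, h.strict k⟩
  nd₂ x := by
    refine nd_ins hΦ hε (H := withD (lineML Φ ε P z) l) (δ := Sum.inl δ) h.fam
      ⟨h.fam.s0, le_rfl⟩ ?_ x
    rintro _ ⟨k, rfl⟩
    exact ⟨Sum.inl k, rfl, fun hk => h.strict k fun h' => hk (congrArg Sum.inl h')⟩

end VD

/-- **A line which touches `Z + F δ` strictly before the other lines of the tree touches `Z + A` not
later** (`A` real in `Z + A`). -/
theorem thetaL_le_ins (hΦ : AdmissiblePotential Φ) (hε : 0 < ε) {δ : Idx P}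
    (hV : Valid Φ ε P T' z.1.2 z.2) (hS : Sep Φ ε P T' z.1 z.2) (hK : P.leaves ≤ K)
    (hvT' : v ≤ T') (hT : 0 ≤ T) (hb : ∀ x, 0 ≤ Z.b x) (hbl : 0 ≤ l.1.1)
    (ht : TreeIn Φ ε (Z.add (RealL811.treeW Φ ε P z)) P z Sum.inr v)
    (hokA : (Z.add (RealL811.treeW Φ ε P z)).Ok Φ ε)
    (hokAl : ((Z.add (RealL811.treeW Φ ε P z)).add (MW.line l)).Ok Φ ε)
    (hsep0 : ∀ (k : Idx P) (i : ι), Z.b i ≤ 0 →
      ε < dist ((Z.add (RealL811.treeW Φ ε P z)).path Φ ε 0 (Sum.inr k)).1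
        ((Z.add (RealL811.treeW Φ ε P z)).path Φ ε 0 (Sum.inl i)).1)
    (hok : MW.OkFam Φ ε Z (withD (lineML Φ ε P z) l))
    (hok₁ : MW.OkFam Φ ε (Z.ins (lineML Φ ε P z δ))
      (exF (withD (lineML Φ ε P z) l) (Sum.inl δ)))
    (hNL : PairNL Φ ε K T (Z.ins (lineML Φ ε P z δ))
      (exF (withD (lineML Φ ε P z) l) (Sum.inl δ)))
    (hret : ¬ RetC Φ ε ε K T (Z.ins (lineML Φ ε P z δ)) l (ptube Φ ε P z))
    (hlv : (Z.ins (lineML Φ ε P z δ)).thetaL Φ ε K T l ≤ v)
    (hlT : (Z.ins (lineML Φ ε P z δ)).thetaL Φ ε K T l ≤ T)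
    (hF : ∀ k, k ≠ δ → (Z.ins (lineML Φ ε P z δ)).thetaL Φ ε K T l <
      (Z.ins (lineML Φ ε P z δ)).thetaL Φ ε K T (lineML Φ ε P z k)) :
    (Z.add (RealL811.treeW Φ ε P z)).thetaL Φ ε K T l ≤
      (Z.ins (lineML Φ ε P z δ)).thetaL Φ ε K T l := by
  set F := lineML Φ ε P z with hFdef
  set Z₁ := Z.ins (F δ) with hZ₁
  set r := Z₁.thetaL Φ ε K T l with hr
  have hr0 : 0 ≤ r := MW.theta_nonneg hT
  have hfam : FamNL Φ ε K T Z₁ (exF (withD F l) (Sum.inl δ)) r := famNL_of_pair hok₁ hNL hr0 hlT (by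
    rintro ⟨(k | k), hk⟩
    · exact (hF k fun h' => hk (congrArg Sum.inl h')).le
    · exact le_rfl)
  have hokF : (Z.add (MW.lines F)).Ok Φ ε :=
    (okFam_comp hΦ hε hok (⟨Sum.inl, Sum.inl_injective⟩ : Idx P ↪ Idx P ⊕ Unit)).lines hΦ hε
  have h : VD Φ ε T T' r K Z P z l δ :=
    { valid := hV
      sep := hS
      leaves := hK
      sT' := hlv.trans hvT'
      b0 := hb
      bl := hbl
      tree := ht.mono hlv
      okA := hokA
      okAl := (MW.ok_add_assoc hΦ hε).1 hokAl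
      okF := hokF
      okFl := hok.lines hΦ hε
      sep0 := hsep0
      fam := hfam
      strict := hF
      ret := hret }
  have hfamF := h.famF hΦ hε
  have hZFl : ((Z.add (MW.lines F)).add (MW.line l)).Ok Φ ε := by
    rw [MW.ok_add_assoc hΦ hε, ← VH.lines_withD]
    exact hok.lines hΦ hε
  have h1 : r ≤ Z₁.theta Φ ε K T (MW.lines (exF F δ)) := hfamF.core hΦ hε
  have h2 : Decomp811.W1E Φ ε K T Z₁ (MW.lines (exF F δ)) (MW.line l) :=
    w1E_lines_line hΦ hε hT hok₁ hNL (gEmb δ) (lIdx δ) fun i h' => by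
      have := congrArg (fun y : {k : Idx P ⊕ Unit // k ≠ Sum.inl δ} => y.1) h'
      cases this
  have h3 : (Z₁.add (MW.lines (exF F δ))).theta Φ ε K T (MW.line l) = r := h2.eq h1
  have h3' : (Z.add (MW.lines F)).theta Φ ε K T (MW.line l) = r := by
    rw [← h3, base_exchange Z F δ]
    exact (theta_comap_left hΦ hε K T (Z.add (MW.lines F)) (MW.line l) (ψ ι δ)).symm
  have h4 : (Z.add (MW.lines F)).Touched Φ ε K (MW.line l) r :=
    (MW.touched_iff hΦ hε hokF hZFl (T := T) ⟨hr0, hlT⟩).2 h3'.le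
  exact MW.theta_le_of_touched ⟨hr0, hlT⟩ (((h.vc hΦ hε).touched_iff hΦ hε).2 h4)

end core

end

end Crest.Agent.R122.LinkVd879
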