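import Crest.Agent.R122.FluxQ_663
import Crest.Agent.R122.FluxPair_663
import Crest.Agent.R122.Scat5_818
import Crest.Agent.R122.Sweep_815

-- ▼ part R122/OCflux_663

/-!
# Row 122, (OC3) (a), (a'), (c): entrance coordinates of a free line into a moving ball

`entT ε (q, g)`, `entB ε (q, g)`: entrance time and impact parameter (in units of `ε`) of the free
relative line `q + r • g`.

* `lintegral_ent`, `lintegral_ent_line`, `lintegral_ent_line'`: exact change of variables
  `x ↔ (s, b)`, `dx = ε² |v - u| ds db`;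
* `FirstHit`, `FirstHit.ent`: the first hitting time of the moving ball is the entrance time;
* `lintegral_firstHit_le`: domination form for a path which is affine at the hitting times;
* `volume_hit_lip`: crude bound for the other times.
-/

set_option autoImplicit false

open MeasureTheory Set Filter
open Crest.AnalysisR.Kinetic
open scoped ENNReal

noncomputable section

namespace Crest.Agent.R122.OC663

open Disc416 Scat818 Flux663

/-! ### Entrance time and impact parameter -/

/-- Entrance time into the closed `ε`-ball around `0` of the relative free line `z.1 + r • z.2`. -/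
def entT (ε : ℝ) (z : Space3 × Space3) : ℝ :=
  -tline z - Real.sqrt (ε ^ 2 - ‖bline z‖ ^ 2) / ‖z.2‖

/-- Impact parameter, in units of `ε`. -/
def entB (ε : ℝ) (z : Space3 × Space3) : Space3 := ε⁻¹ • bline z

lemma measurable_entT (ε : ℝ) : Measurable (entT ε) := by
  unfold entT
  have h1 : Measurable (fun z : Space3 × Space3 => ‖bline z‖) := measurable_bline.norm
  have h2 : Measurable (fun z : Space3 × Space3 => Real.sqrt (ε ^ 2 - ‖bline z‖ ^ 2)) :=
    Real.continuous_sqrt.measurable.comp ((h1.pow_const 2).const_sub (ε ^ 2))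
  exact measurable_tline.neg.sub (h2.div measurable_snd.norm)

lemma measurable_entB (ε : ℝ) : Measurable (entB ε) := measurable_bline.const_smul ε⁻¹

lemma norm_entB {ε : ℝ} (hε : 0 < ε) (z : Space3 × Space3) : ‖entB ε z‖ = ‖bline z‖ / ε := by
  unfold entB
  rw [norm_smul, norm_inv, Real.norm_eq_abs, abs_of_pos hε]
  field_simp


lemma smul_entB {ε : ℝ} (hε : 0 < ε) (z : Space3 × Space3) : ε • entB ε z = bline z := by
  unfold entB
  rw [smul_smul, mul_inv_cancel₀ hε.ne', one_smul]

lemma mul_sqrt_entB {ε : ℝ} (hε : 0 < ε) (z : Space3 × Space3) :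
    ε * Real.sqrt (1 - ‖entB ε z‖ ^ 2) = Real.sqrt (ε ^ 2 - ‖bline z‖ ^ 2) := by
  have h1 : ε ^ 2 - ‖bline z‖ ^ 2 = ε ^ 2 * (1 - ‖entB ε z‖ ^ 2) := by
    rw [norm_entB hε]
    field_simp
  rw [h1, Real.sqrt_mul (by positivity), Real.sqrt_sq hε.le]

/-- Position at the entrance time. -/
lemma ent_pos {ε : ℝ} (hε : 0 < ε) (z : Space3 × Space3) :
    z.1 + entT ε z • z.2 = ε • entrancePoint (entB ε z) z.2 := by
  unfold entrancePoint
  rw [smul_sub, smul_entB hε, smul_smul, mul_div_assoc', mul_sqrt_entB hε]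
  unfold entT bline
  rw [sub_smul, neg_smul]
  abel

lemma tline_frame {ε : ℝ} {g : Space3} (hg : g ≠ 0) (y : Plane) (s : ℝ) :
    tline (ε • frameMap g y + s • g, g) = s := by
  have : ‖g‖ ^ 2 ≠ 0 := by positivity
  unfold tline
  simp only [inner_add_left, inner_smul_left, real_inner_self_eq_norm_sq, inner_frameMap_self,
    conj_trivial, mul_zero, zero_add]
  exact mul_div_cancel_right₀ s this

lemma bline_frame {ε : ℝ} {g : Space3} (hg : g ≠ 0) (y : Plane) (s : ℝ) :
    bline (ε • frameMap g y + s • g, g) = ε • frameMap g y := by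
  unfold bline
  rw [tline_frame hg]
  simp

lemma entB_frame {ε : ℝ} (hε : 0 < ε) {g : Space3} (hg : g ≠ 0) (y : Plane) (s : ℝ) :
    entB ε (ε • frameMap g y + s • g, g) = frameMap g y := by
  unfold entB
  rw [bline_frame hg, smul_smul, inv_mul_cancel₀ hε.ne', one_smul]

lemma entT_frame {ε : ℝ} {g : Space3} (hg : g ≠ 0) (y : Plane) (s : ℝ) :
    entT ε (ε • frameMap g y + s • g, g) =
      -s - Real.sqrt (ε ^ 2 - ‖ε • frameMap g y‖ ^ 2) / ‖g‖ := by
  unfold entT
  rw [tline_frame hg, bline_frame hg]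

/-- Entrance coordinates for one relative velocity. -/
theorem lintegral_ent {ε : ℝ} (hε : 0 < ε) {g : Space3} (hg : g ≠ 0) {F : ℝ → Space3 → ℝ≥0∞}
    (hF : Measurable (Function.uncurry F)) :
    ∫⁻ q : Space3, (if ‖bline (q, g)‖ < ε then F (entT ε (q, g)) (entB ε (q, g)) else 0) =
      ENNReal.ofReal (ε ^ 2) * (ENNReal.ofReal ‖g‖ *
        ∫⁻ s : ℝ, ∫⁻ b in impactDisc g, F s b ∂μHE[2]) := by
  have hm : Measurable (fun q : Space3 => F (entT ε (q, g)) (entB ε (q, g))) := by
    have h1 : Measurable (fun q : Space3 => (entT ε (q, g), entB ε (q, g))) :=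
      ((measurable_entT ε).comp (measurable_id.prodMk measurable_const)).prodMk
        ((measurable_entB ε).comp (measurable_id.prodMk measurable_const))
    exact hF.comp h1
  rw [lintegral_cyl_eps hε hg hm]
  congr 2
  have h2 : ∀ y : Plane, ∫⁻ s : ℝ, F (entT ε (ε • frameMap g y + s • g, g))
      (entB ε (ε • frameMap g y + s • g, g)) = ∫⁻ s : ℝ, F s (frameMap g y) := by
    intro y
    simp only [entT_frame hg, entB_frame hε hg]
    rw [← lintegral_neg_eq_self (μ := (volume : Measure ℝ)) (fun s => F (s) (frameMap g y))]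
    rw [← lintegral_add_right_eq_self (μ := (volume : Measure ℝ)) (fun s => F (-s) (frameMap g y))
      (Real.sqrt (ε ^ 2 - ‖ε • frameMap g y‖ ^ 2) / ‖g‖)]
    refine lintegral_congr fun s => ?_
    congr 1
    ring
  simp only [h2]
  have hfm : Measurable (fun y : Plane => frameMap g y) :=
    measurable_frameMap.comp (measurable_const.prodMk measurable_id)
  rw [lintegral_lintegral_swap]
  · refine lintegral_congr fun s => ?_
    rw [lintegral_impactDisc hg]
  · exact (hF.comp (measurable_snd.prodMk (hfm.comp measurable_fst))).aemeasurable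

/-- Entrance coordinates for a free line of velocity `v` and the ball around `c₀ + s • u`. -/
theorem lintegral_ent_line {ε : ℝ} (hε : 0 < ε) {v u : Space3} (c₀ : Space3) (hg : v - u ≠ 0)
    {F : ℝ → Space3 → ℝ≥0∞} (hF : Measurable (Function.uncurry F)) :
    ∫⁻ x : Space3, (if ‖bline (x - c₀, v - u)‖ < ε then
        F (entT ε (x - c₀, v - u)) (entB ε (x - c₀, v - u)) else 0) =
      ENNReal.ofReal (ε ^ 2) * (ENNReal.ofReal ‖v - u‖ *
        ∫⁻ s : ℝ, ∫⁻ b in impactDisc (v - u), F s b ∂μHE[2]) := by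
  rw [← lintegral_ent hε hg hF]
  exact lintegral_sub_right_eq_self (fun q : Space3 => if ‖bline (q, v - u)‖ < ε then
        F (entT ε (q, v - u)) (entB ε (q, v - u)) else 0) c₀

/-- Reconstruction of the line from the entrance data. -/
lemma eq_of_ent {ε : ℝ} (hε : 0 < ε) (x v u c₀ : Space3) :
    c₀ + entT ε (x - c₀, v - u) • u + ε • entrancePoint (entB ε (x - c₀, v - u)) (v - u) -
      entT ε (x - c₀, v - u) • v = x := by
  have h := ent_pos hε (x - c₀, v - u)
  simp only at h
  rw [← h, smul_sub]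
  abel

lemma measurable_ent_pos (ε : ℝ) : Measurable (fun p : Space3 × Space3 =>
    ε • entrancePoint p.1 p.2) := measurable_entrancePoint.const_smul ε

/-- Entrance coordinates, for a function of the line. -/
theorem lintegral_ent_line' {ε : ℝ} (hε : 0 < ε) {v u : Space3} (c₀ : Space3) (hg : v - u ≠ 0)
    {J : Set ℝ} (hJ : MeasurableSet J) {H : Space3 → ℝ≥0∞} (hH : Measurable H) :
    ∫⁻ x : Space3, (if ‖bline (x - c₀, v - u)‖ < ε then
        J.indicator (fun _ => H x) (entT ε (x - c₀, v - u)) else 0) =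
      ENNReal.ofReal (ε ^ 2) * (ENNReal.ofReal ‖v - u‖ *
        ∫⁻ s in J, ∫⁻ b in impactDisc (v - u),
          H (c₀ + s • u + ε • entrancePoint b (v - u) - s • v) ∂μHE[2]) := by
  have hpos : Measurable (fun p : ℝ × Space3 =>
      c₀ + p.1 • u + ε • entrancePoint p.2 (v - u) - p.1 • v) := by
    have h1 : Measurable (fun p : ℝ × Space3 => ε • entrancePoint p.2 (v - u)) :=
      (measurable_ent_pos ε).comp (measurable_snd.prodMk measurable_const)
    have h2 : Measurable (fun p : ℝ × Space3 => c₀ + p.1 • u) :=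
      (measurable_fst.smul measurable_const).const_add c₀
    exact (h2.add h1).sub (measurable_fst.smul measurable_const)
  have hF : Measurable (Function.uncurry (fun (s : ℝ) (b : Space3) => J.indicator
      (fun s => H (c₀ + s • u + ε • entrancePoint b (v - u) - s • v)) s)) := by
    have h3 : (Function.uncurry (fun (s : ℝ) (b : Space3) => J.indicator
      (fun s => H (c₀ + s • u + ε • entrancePoint b (v - u) - s • v)) s)) =
      (Prod.fst ⁻¹' J).indicator (fun p : ℝ × Space3 =>
        H (c₀ + p.1 • u + ε • entrancePoint p.2 (v - u) - p.1 • v)) := by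
      funext p
      by_cases hp : p.1 ∈ J
      · simp [Function.uncurry, indicator, hp]
      · simp [Function.uncurry, indicator, hp]
    rw [h3]
    exact (hH.comp hpos).indicator (measurable_fst hJ)
  have h := lintegral_ent_line hε c₀ hg hF
  rw [← lintegral_indicator hJ]
  have h4 : ∀ s : ℝ, ∫⁻ b in impactDisc (v - u), J.indicator
      (fun s => H (c₀ + s • u + ε • entrancePoint b (v - u) - s • v)) s ∂μHE[2] =
      J.indicator (fun s => ∫⁻ b in impactDisc (v - u),
        H (c₀ + s • u + ε • entrancePoint b (v - u) - s • v) ∂μHE[2]) s := by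
    intro s
    by_cases hs : s ∈ J
    · simp only [indicator_of_mem hs]
    · simp only [indicator_of_notMem hs, lintegral_zero]
  simp only [h4] at h
  rw [← h]
  refine lintegral_congr fun x => ?_
  split_ifs with hx
  · by_cases hs : entT ε (x - c₀, v - u) ∈ J
    · simp only [indicator_of_mem hs]
      rw [eq_of_ent hε]
    · simp only [indicator_of_notMem hs]
  · rfl

/-- Grazing lines are negligible. -/
lemma volume_grazing {g : Space3} (hg : g ≠ 0) (c₀ : Space3) {ε : ℝ} (hε : 0 < ε) :
    volume {x : Space3 | ‖bline (x - c₀, g)‖ = ε} = 0 := by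
  have hms : MeasurableSet {q : Space3 | ‖bline (q, g)‖ = ε} := by
    refine measurableSet_eq_fun ?_ measurable_const
    exact (measurable_bline.comp (measurable_id.prodMk measurable_const)).norm
  have h1 : volume {x : Space3 | ‖bline (x - c₀, g)‖ = ε} =
      volume {q : Space3 | ‖bline (q, g)‖ = ε} := by
    exact (measurePreserving_sub_right (volume : Measure Space3) c₀).measure_preimage
      hms.nullMeasurableSet
  rw [h1]
  have h2 := (measurePreserving_cylinder hg).measure_preimage hms.nullMeasurableSet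
  rw [← h2]
  have hb : ∀ (y : Plane) (r : ℝ), bline (frameMap g y + r • dir g, g) = frameMap g y := by
    intro y r
    have h0 : ‖g‖ ≠ 0 := norm_ne_zero_iff.2 hg
    unfold bline tline
    simp only [inner_add_left, inner_frameMap_self, zero_add, dir, smul_smul, inner_smul_left,
      real_inner_self_eq_norm_sq, conj_trivial]
    have : r * ‖g‖⁻¹ * ‖g‖ ^ 2 / ‖g‖ ^ 2 = r * ‖g‖⁻¹ := by field_simp
    rw [this]
    simp
  have h3 : ((fun p : Plane × ℝ => frameMap g p.1 + p.2 • dir g) ⁻¹'
      {q : Space3 | ‖bline (q, g)‖ = ε}) = (Metric.sphere (0 : Plane) ε) ×ˢ (univ : Set ℝ) := by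
    ext p
    simp only [mem_preimage, Set.mem_ofPred_eq, hb, norm_frameMap hg, mem_prod, mem_univ, and_true,
      mem_sphere_iff_norm, sub_zero]
  rw [h3, Measure.volume_eq_prod, Measure.prod_prod, Measure.addHaar_sphere_of_ne_zero _ _ hε.ne',
    zero_mul]

/-! ### First hits -/

/-- `s` is the first time after `τ` at which the curve `X` is at distance `ε` of the curve `c`
(strictly farther before, after `τ`). -/
def FirstHit (ε : ℝ) (X c : ℝ → Space3) (τ s : ℝ) : Prop :=
  τ < s ∧ ‖X s - c s‖ = ε ∧ ∀ r ∈ Ioo τ s, ε < ‖X r - c r‖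

lemma FirstHit.unique {ε : ℝ} {X c : ℝ → Space3} {τ s s' : ℝ} (h : FirstHit ε X c τ s)
    (h' : FirstHit ε X c τ s') : s = s' := by
  rcases lt_trichotomy s s' with h1 | h1 | h1
  · exact absurd h.2.1 (h'.2.2 s ⟨h.1, h1⟩).ne'
  · exact h1
  · exact absurd h'.2.1 (h.2.2 s' ⟨h'.1, h1⟩).ne'

lemma norm_sq_line {q g : Space3} (hg : g ≠ 0) (r : ℝ) :
    ‖q + r • g‖ ^ 2 = ‖bline (q, g)‖ ^ 2 + (r + tline (q, g)) ^ 2 * ‖g‖ ^ 2 := by
  have h1 : q + r • g = bline (q, g) + (r + tline (q, g)) • g := by
    unfold bline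
    simp only [add_smul]
    abel
  have h2 : inner ℝ (bline (q, g)) g = 0 := inner_bline (z := (q, g)) hg
  rw [h1, ← real_inner_self_eq_norm_sq, inner_add_left, inner_add_right, inner_add_right,
    inner_smul_right, inner_smul_left, inner_smul_left, inner_smul_right,
    real_inner_comm, h2, real_inner_self_eq_norm_sq, real_inner_self_eq_norm_sq,
    real_inner_comm, h2]
  simp only [conj_trivial]
  ring

/-- A first hit at a time at which the path is affine (to the left) is an entrance. -/
theorem FirstHit.ent {ε : ℝ} (hε : 0 < ε) {x v u c₀ : Space3} {c : ℝ → Space3} {τ s α : ℝ}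
    (hα : α < s) (hc : ∀ r ∈ Icc α s, c r = c₀ + r • u)
    (h : FirstHit ε (fun r => x + r • v) c τ s) :
    v - u ≠ 0 ∧ ‖bline (x - c₀, v - u)‖ ≤ ε ∧ s = entT ε (x - c₀, v - u) := by
  obtain ⟨hτ, hs, hlt⟩ := h
  have hrel : ∀ r ∈ Icc α s, (x + r • v) - c r = (x - c₀) + r • (v - u) := by
    intro r hr
    rw [hc r hr, smul_sub]
    abel
  set a := max α τ with ha
  have has : a < s := max_lt hα hτ
  have hs' : ‖(x - c₀) + s • (v - u)‖ = ε := by
    rw [← hrel s ⟨hα.le, le_refl s⟩]; exact hs
  have hlt' : ∀ r ∈ Ioo a s, ε < ‖(x - c₀) + r • (v - u)‖ := by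
    intro r hr
    rw [← hrel r ⟨(le_max_left _ _).trans hr.1.le, hr.2.le⟩]
    exact hlt r ⟨(le_max_right _ _).trans_lt hr.1, hr.2⟩
  have hg : v - u ≠ 0 := by
    intro h0
    have hmid : (a + s) / 2 ∈ Ioo a s := ⟨by linarith, by linarith⟩
    have := hlt' _ hmid
    rw [h0, smul_zero] at this
    rw [h0, smul_zero] at hs'
    linarith
  set q := x - c₀
  set g := v - u
  set t := tline (q, g) with ht
  have hgp : 0 < ‖g‖ := norm_pos_iff.2 hg
  have e1 : ε ^ 2 = ‖bline (q, g)‖ ^ 2 + (s + t) ^ 2 * ‖g‖ ^ 2 := by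
    rw [← norm_sq_line hg, hs']
  have e2 : ∀ r ∈ Ioo a s, (s + t) ^ 2 < (r + t) ^ 2 := by
    intro r hr
    have h1 := hlt' r hr
    have h2 : ε ^ 2 < ‖q + r • g‖ ^ 2 := by
      have := norm_nonneg (q + r • g)
      nlinarith
    rw [norm_sq_line hg, e1] at h2
    have h3 : (s + t) ^ 2 * ‖g‖ ^ 2 < (r + t) ^ 2 * ‖g‖ ^ 2 := by linarith
    exact lt_of_mul_lt_mul_right h3 (by positivity)
  have hst : s + t ≤ 0 := by
    by_contra hpos
    push Not at hpos
    -- choose r < s close with 0 ≤ r + t
    set r := max ((a + s) / 2) (-t) with hr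
    have hr1 : r < s := max_lt (by linarith) (by linarith)
    have hr2 : a < r := lt_of_lt_of_le (by linarith) (le_max_left _ _)
    have hr3 : 0 ≤ r + t := by
      have := le_max_right ((a + s) / 2) (-t)
      linarith
    have := e2 r ⟨hr2, hr1⟩
    nlinarith
  refine ⟨hg, ?_, ?_⟩
  · have : ‖bline (q, g)‖ ^ 2 ≤ ε ^ 2 := by
      have : 0 ≤ (s + t) ^ 2 * ‖g‖ ^ 2 := by positivity
      linarith
    exact (sq_le_sq₀ (norm_nonneg _) hε.le).1 this
  · unfold entT
    have h1 : ε ^ 2 - ‖bline (q, g)‖ ^ 2 = (-(s + t) * ‖g‖) ^ 2 := by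
      rw [e1]; ring
    simp only
    rw [h1, Real.sqrt_sq (mul_nonneg (by linarith) hgp.le), mul_div_assoc, div_self hgp.ne']
    rw [← ht]
    ring

/-- The majorant of a function of first hits with impact data in `J`. -/
def maj (ε : ℝ) (c₀ g : Space3) (J : Set ℝ) (G : ℝ → Space3 → ℝ≥0∞) (x : Space3) : ℝ≥0∞ :=
  open scoped Classical in
  if ‖bline (x - c₀, g)‖ < ε then
    J.indicator (fun s => G s (entB ε (x - c₀, g))) (entT ε (x - c₀, g)) else 0







/-! ### Integration over the velocity -/

/-- Joint measurability of flux integrals over the impact disc. -/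
lemma measurable_flux_disc {α : Type*} [MeasurableSpace α] {γ : α → Space3} (hγ : Measurable γ)
    {f : α → Space3 → ℝ≥0∞} (hf : Measurable (Function.uncurry f)) :
    Measurable (fun a => ENNReal.ofReal ‖γ a‖ * ∫⁻ b in impactDisc (γ a), f a b ∂μHE[2]) := by
  have h1 : (fun a => ENNReal.ofReal ‖γ a‖ * ∫⁻ b in impactDisc (γ a), f a b ∂μHE[2]) =
      fun a => ENNReal.ofReal ‖γ a‖ * ∫⁻ y in Metric.ball (0 : Plane) 1, f a (frameMap (γ a) y) := by
    funext a
    by_cases h : γ a = 0
    · simp [h]
    · rw [lintegral_impactDisc h]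
  rw [h1]
  have h2 : Measurable (fun p : α × Plane => f p.1 (frameMap (γ p.1) p.2)) :=
    hf.comp (measurable_fst.prodMk (measurable_frameMap.comp
      ((hγ.comp measurable_fst).prodMk measurable_snd)))
  exact (hγ.norm.ennreal_ofReal).mul
    (h2.lintegral_prod_right' (ν := volume.restrict (Metric.ball (0 : Plane) 1)))

/-! ### (OC3)(c): the crude bound at the bad times -/


end Crest.Agent.R122.OC663
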