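import Crest.Agent.R122.Boost4_969

/-!
Row 122, block H4 (inequality 3 of section E), helper292, part 1: the class of pair laws and the
iteration of the one-contact step.

A pair law describes a pair (first line `d`, second line `e`): `Tag` carries the first line, the
turning time `s0` and all other relative data; given the tag the second line (with mark `n`) has
the law `ν n` on line states, spread from the turning time (`Spr` of 969) with profile `Ξ n`.
The continuation replaces the second line by one of the outgoing lines of its next contact with a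
fresh cluster (kernel `κ`, mark increment `m` of mass `q m`).
-/

set_option autoImplicit false

open MeasureTheory ProbabilityTheory Set
open Crest.AnalysisR.Kinetic
open Crest.Agent.R122.Boost969
open scoped ENNReal

noncomputable section

namespace Crest.Agent.R122.Pair292

/-! ### Constant multiples of kernels -/

section sc

variable {α β : Type*} [MeasurableSpace α] [MeasurableSpace β]

/-- constant multiple of a kernel -/
def sc (q : ℝ≥0∞) (κ : Kernel α β) : Kernel α β where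
  toFun a := q • κ a
  measurable' := by
    refine Measure.measurable_of_measurable_coe _ fun s hs => ?_
    simp only [Measure.smul_apply, smul_eq_mul]
    exact (Kernel.measurable_coe κ hs).const_mul q

lemma sc_apply (q : ℝ≥0∞) (κ : Kernel α β) (a : α) : sc q κ a = q • κ a := rfl

lemma isSFiniteKernel_sc {q : ℝ≥0∞} (hq : q ≠ ∞) (κ : Kernel α β) [IsSFiniteKernel κ] :
    IsSFiniteKernel (sc q κ) := by
  have h : sc q κ = Kernel.withDensity κ fun _ _ => q := by
    ext a s hs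
    rw [Kernel.withDensity_apply _ measurable_const, withDensity_const, sc_apply]
  rw [h]
  exact Kernel.IsSFiniteKernel.withDensity κ fun _ _ => hq

end sc

/-! ### Marked lines -/

/-- Marked lines: (birth time, position and velocity at birth), mark. -/
abbrev ML : Type := LSt × ℕ

/-- Translation of a line state. -/
def shL (a : Space3) (z : LSt) : LSt := (z.1, (z.2.1 + a, z.2.2))

/-- Translation of a marked line. -/
def shM (a : Space3) (l : ML) : ML := (shL a l.1, l.2)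

lemma measurable_shL' : Measurable fun p : Space3 × LSt => shL p.1 p.2 := by
  unfold shL; fun_prop

lemma measurable_shL (a : Space3) : Measurable (shL a) :=
  measurable_shL'.comp (measurable_const.prodMk measurable_id)

lemma measurable_shM' : Measurable fun p : Space3 × ML => shM p.1 p.2 := by
  unfold shM
  exact (measurable_shL'.comp (measurable_fst.prodMk (measurable_fst.comp measurable_snd))).prodMk
    (measurable_snd.comp measurable_snd)

lemma measurable_shM (a : Space3) : Measurable (shM a) :=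
  measurable_shM'.comp (measurable_const.prodMk measurable_id)

/-- A kernel on line states is translation covariant. -/
def TrK (κ : Kernel LSt LSt) : Prop :=
  ∀ (a : Space3) (z : LSt) (F : LSt → ℝ≥0∞), Measurable F →
    ∫⁻ z', F z' ∂κ (shL a z) = ∫⁻ z', F (shL a z') ∂κ z

/-- A pair law. -/
structure PLaw (Tag : Type) [MeasurableSpace Tag] where
  /-- law of the tags -/
  Λ : Measure Tag
  /-- first line -/
  d : Tag → ML
  /-- turning time -/
  s0 : Tag → ℝ
  /-- law of the second line with mark `n` -/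
  ν : ℕ → Kernel Tag LSt
  /-- profile -/
  Ξ : ℕ → Kernel Tag LSt

namespace PLaw

variable {Tag : Type} [MeasurableSpace Tag]

/-- integral of a functional of the pair -/
def I (N : PLaw Tag) (H : ML → ML → ℝ≥0∞) : ℝ≥0∞ :=
  ∑' n, ∫⁻ t, ∫⁻ z, H (N.d t) (z, n) ∂N.ν n t ∂N.Λ

/-- weighted profile mass -/
def wt (N : PLaw Tag) (W : LSt → ℝ≥0∞) (lam₁ : ℝ≥0∞) (t : Tag) : ℝ≥0∞ :=
  ∑' n, lam₁ ^ n * ∫⁻ z, W z ∂N.Ξ n t

/-- Membership in the class, with constant `c`. -/
structure Ok (N : PLaw Tag) (W : LSt → ℝ≥0∞) (lam₁ : ℝ≥0∞) (ℓ : Measure ML) (t' : ℝ)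
    (c : ℝ≥0∞) : Prop where
  md : Measurable N.d
  ms : Measurable N.s0
  sfΛ : SFinite N.Λ
  sfν : ∀ n, IsSFiniteKernel (N.ν n)
  sfΞ : ∀ n, IsSFiniteKernel (N.Ξ n)
  spr : ∀ n t, Spr (N.s0 t) (N.Ξ n t) (N.ν n t)
  marg : ∀ F : ML × ℝ → ℝ≥0∞, Measurable F →
    ∫⁻ t, N.wt W lam₁ t * F (N.d t, N.s0 t) ∂N.Λ ≤
      c * (∫⁻ l, F (l, l.1.1) ∂ℓ + ∫⁻ l, (∫⁻ s in Icc 0 t', F (l, s)) ∂ℓ)
  trans : ∀ (a : Space3) (n : ℕ) (G : ML → LSt → ℝ≥0∞), Measurable (Function.uncurry G) →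
    ∫⁻ t, ∫⁻ z, G (shM a (N.d t)) (shL a z) ∂N.ν n t ∂N.Λ =
      ∫⁻ t, ∫⁻ z, G (N.d t) z ∂N.ν n t ∂N.Λ

lemma measurable_wt (N : PLaw Tag) {W : LSt → ℝ≥0∞} (hW : Measurable W) (lam₁ : ℝ≥0∞) :
    Measurable (N.wt W lam₁) := by
  unfold wt
  exact Measurable.tsum fun n => (hW.lintegral_kernel).const_mul _

/-- auxiliary family of marks -/
def mkK (q : ℕ → ℝ≥0∞) (κ : Kernel LSt LSt) (ν : ℕ → Kernel Tag LSt) (n : ℕ) : Kernel Tag LSt :=
  Kernel.sum fun k : ℕ => sc (if k ≤ n then q (n - k) else 0) (κ ∘ₖ ν k)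

lemma isSFiniteKernel_mkK {q : ℕ → ℝ≥0∞} (hq : ∀ m, q m ≠ ∞) {κ : Kernel LSt LSt}
    [IsSFiniteKernel κ] {ν : ℕ → Kernel Tag LSt} (hν : ∀ n, IsSFiniteKernel (ν n)) (n : ℕ) :
    IsSFiniteKernel (mkK q κ ν n) := by
  unfold mkK
  have : ∀ k : ℕ, IsSFiniteKernel (sc (if k ≤ n then q (n - k) else 0) (κ ∘ₖ ν k)) := by
    intro k
    have := hν k
    refine isSFiniteKernel_sc ?_ _
    split_ifs
    · exact hq _
    · exact ENNReal.zero_ne_top
  infer_instance

lemma lintegral_mkK (q : ℕ → ℝ≥0∞) (κ : Kernel LSt LSt) (ν : ℕ → Kernel Tag LSt) (n : ℕ)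
    (t : Tag) {F : LSt → ℝ≥0∞} (hF : Measurable F) :
    ∫⁻ z, F z ∂mkK q κ ν n t =
      ∑' k : ℕ, (if k ≤ n then q (n - k) else 0) * ∫⁻ z, ∫⁻ z', F z' ∂κ z ∂ν k t := by
  unfold mkK
  rw [Kernel.sum_apply, lintegral_sum_measure]
  refine tsum_congr fun k => ?_
  rw [sc_apply, lintegral_smul_measure, Kernel.lintegral_comp _ _ _ hF, smul_eq_mul]

lemma tsum_ite_le (k : ℕ) (f : ℕ → ℝ≥0∞) (g : ℕ → ℝ≥0∞) :
    ∑' n : ℕ, g n * (if k ≤ n then f (n - k) else 0) = ∑' m : ℕ, g (k + m) * f m := by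
  have hinj : Function.Injective (fun m : ℕ => k + m) := fun a b h => by simpa using h
  rw [← hinj.tsum_eq]
  · refine tsum_congr fun m => ?_
    simp
  · intro n hn
    rw [Function.mem_support] at hn
    by_cases h : k ≤ n
    · exact ⟨n - k, by simp only; omega⟩
    · simp [h] at hn

/-- one contact: the second line is replaced by an outgoing line of its contact with a fresh
cluster of size `m` (mass `q m`) -/
def cont (N : PLaw Tag) (κ κ' : Kernel LSt LSt) (q : ℕ → ℝ≥0∞) : PLaw Tag where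
  Λ := N.Λ
  d := N.d
  s0 := N.s0
  ν := mkK q κ N.ν
  Ξ := mkK q κ' N.Ξ

lemma spr_mkK {s0 : ℝ} {q : ℕ → ℝ≥0∞} {κ κ' : Kernel LSt LSt} [IsSFiniteKernel κ']
    (hG : GalDom κ κ') {ν Ξ : ℕ → Kernel Tag LSt} {t : Tag}
    (h : ∀ n, Spr s0 (Ξ n t) (ν n t)) (n : ℕ) : Spr s0 (mkK q κ' Ξ n t) (mkK q κ ν n t) := by
  intro F hF
  rw [lintegral_mkK q κ ν n t hF, lintegral_mkK q κ' Ξ n t (measurable_avg s0 hF)]
  refine ENNReal.tsum_le_tsum fun k => mul_le_mul_right ?_ _
  have h1 := (h k).bind hG F hF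
  rw [Measure.lintegral_bind κ.aemeasurable hF.aemeasurable,
    Measure.lintegral_bind κ'.aemeasurable (measurable_avg s0 hF).aemeasurable] at h1
  exact h1

/-- the weighted profile mass of the continuation -/
lemma wt_cont (N : PLaw Tag) {W : LSt → ℝ≥0∞} (hW : Measurable W) {lam lam₁ : ℝ≥0∞}
    {κ κ' : Kernel LSt LSt} (hκ : ∀ z, ∫⁻ z', W z' ∂κ' z ≤ lam * W z) (q : ℕ → ℝ≥0∞) (t : Tag) :
    (N.cont κ κ' q).wt W lam₁ t ≤ (lam * ∑' m, lam₁ ^ m * q m) * N.wt W lam₁ t := by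
  unfold wt
  have h1 : ∀ n, ∫⁻ z, W z ∂(N.cont κ κ' q).Ξ n t =
      ∑' k : ℕ, (if k ≤ n then q (n - k) else 0) * ∫⁻ z, ∫⁻ z', W z' ∂κ' z ∂N.Ξ k t := fun n =>
    lintegral_mkK q κ' N.Ξ n t hW
  simp only [h1]
  have h2 : ∀ n, lam₁ ^ n * ∑' k : ℕ, (if k ≤ n then q (n - k) else 0) *
      ∫⁻ z, ∫⁻ z', W z' ∂κ' z ∂N.Ξ k t = ∑' k : ℕ, (lam₁ ^ n * (if k ≤ n then q (n - k) else 0)) *
      ∫⁻ z, ∫⁻ z', W z' ∂κ' z ∂N.Ξ k t := by
    intro n
    rw [← ENNReal.tsum_mul_left]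
    exact tsum_congr fun k => (mul_assoc _ _ _).symm
  simp only [h2]
  rw [ENNReal.tsum_comm]
  have h3 : ∀ k, ∑' n : ℕ, (lam₁ ^ n * (if k ≤ n then q (n - k) else 0)) *
      ∫⁻ z, ∫⁻ z', W z' ∂κ' z ∂N.Ξ k t =
      (lam₁ ^ k * ∑' m, lam₁ ^ m * q m) * ∫⁻ z, ∫⁻ z', W z' ∂κ' z ∂N.Ξ k t := by
    intro k
    rw [ENNReal.tsum_mul_right, tsum_ite_le k q (fun n => lam₁ ^ n), ← ENNReal.tsum_mul_left]
    congr 1
    refine tsum_congr fun m => ?_
    rw [pow_add, mul_assoc]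
  simp only [h3]
  rw [← ENNReal.tsum_mul_left]
  refine ENNReal.tsum_le_tsum fun k => ?_
  have h4 : ∫⁻ z, ∫⁻ z', W z' ∂κ' z ∂N.Ξ k t ≤ lam * ∫⁻ z, W z ∂N.Ξ k t := by
    rw [← lintegral_const_mul _ hW]
    exact lintegral_mono hκ
  calc (lam₁ ^ k * ∑' m, lam₁ ^ m * q m) * ∫⁻ z, ∫⁻ z', W z' ∂κ' z ∂N.Ξ k t
      ≤ (lam₁ ^ k * ∑' m, lam₁ ^ m * q m) * (lam * ∫⁻ z, W z ∂N.Ξ k t) := by gcongr
    _ = _ := by ring

/-- The class is stable under continuation, the constant contracts. -/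
theorem Ok.cont {N : PLaw Tag} {W : LSt → ℝ≥0∞} (hW : Measurable W) {lam lam₁ c : ℝ≥0∞}
    {ℓ : Measure ML} {t' : ℝ} (h : N.Ok W lam₁ ℓ t' c) {κ κ' : Kernel LSt LSt}
    [IsSFiniteKernel κ] [IsSFiniteKernel κ'] (hG : GalDom κ κ') (hT : TrK κ)
    (hκ : ∀ z, ∫⁻ z', W z' ∂κ' z ≤ lam * W z) {q : ℕ → ℝ≥0∞} (hq : ∀ m, q m ≠ ∞) :
    (N.cont κ κ' q).Ok W lam₁ ℓ t' ((lam * ∑' m, lam₁ ^ m * q m) * c) where
  md := h.md
  ms := h.ms
  sfΛ := h.sfΛ
  sfν := isSFiniteKernel_mkK hq h.sfν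
  sfΞ := isSFiniteKernel_mkK hq h.sfΞ
  spr n t := spr_mkK hG (fun n => h.spr n t) n
  marg F hF := by
    have hm : Measurable fun t => N.wt W lam₁ t * F (N.d t, N.s0 t) :=
      (N.measurable_wt hW lam₁).mul (hF.comp (h.md.prodMk h.ms))
    calc ∫⁻ t, (N.cont κ κ' q).wt W lam₁ t * F (N.d t, N.s0 t) ∂N.Λ
        ≤ ∫⁻ t, (lam * ∑' m, lam₁ ^ m * q m) * (N.wt W lam₁ t * F (N.d t, N.s0 t)) ∂N.Λ := by
          refine lintegral_mono fun t => ?_
          rw [← mul_assoc]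
          exact mul_le_mul_left (N.wt_cont hW hκ q t) _
      _ = (lam * ∑' m, lam₁ ^ m * q m) * ∫⁻ t, N.wt W lam₁ t * F (N.d t, N.s0 t) ∂N.Λ :=
          lintegral_const_mul _ hm
      _ ≤ _ := by
          rw [mul_assoc (lam * _) c]
          exact mul_le_mul_right (h.marg F hF) _
  trans a n G hG' := by
    have := h.sfΛ
    have := h.sfν
    have hin : ∀ (d : ML), Measurable fun z => G d z := fun d =>
      hG'.comp (measurable_const.prodMk measurable_id)
    have h1 : ∀ (d : ML) (t : Tag), ∫⁻ z, G d z ∂(N.cont κ κ' q).ν n t =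
        ∑' k : ℕ, (if k ≤ n then q (n - k) else 0) * ∫⁻ z, ∫⁻ z', G d z' ∂κ z ∂N.ν k t :=
      fun d t => lintegral_mkK q κ N.ν n t (hin d)
    have h2 : ∀ (d : ML) (t : Tag), ∫⁻ z, G d (shL a z) ∂(N.cont κ κ' q).ν n t =
        ∑' k : ℕ, (if k ≤ n then q (n - k) else 0) *
          ∫⁻ z, ∫⁻ z', G d z' ∂κ (shL a z) ∂N.ν k t := by
      intro d t
      have := lintegral_mkK q κ N.ν n t (F := fun z => G d (shL a z))
        ((hin d).comp (measurable_shL a))
      refine this.trans (tsum_congr fun k => ?_)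
      congr 1
      refine lintegral_congr fun z => ?_
      exact (hT a z _ (hin d)).symm
    change ∫⁻ t, ∫⁻ z, G (shM a (N.d t)) (shL a z) ∂(N.cont κ κ' q).ν n t ∂N.Λ =
      ∫⁻ t, ∫⁻ z, G (N.d t) z ∂(N.cont κ κ' q).ν n t ∂N.Λ
    have hGk : Measurable (Function.uncurry fun (d : ML) (z : LSt) => ∫⁻ z', G d z' ∂κ z) := by
      have h3 : Measurable fun p : (ML × LSt) × LSt => G p.1.1 p.2 :=
        hG'.comp ((measurable_fst.comp measurable_fst).prodMk measurable_snd)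
      exact Measurable.lintegral_kernel_prod_right' (κ := κ.comap Prod.snd measurable_snd) h3
    have hmk : ∀ k, Measurable fun t => ∫⁻ z, ∫⁻ z', G (shM a (N.d t)) z' ∂κ (shL a z) ∂N.ν k t := by
      intro k
      have h4 : Measurable fun p : Tag × LSt => ∫⁻ z', G (shM a (N.d p.1)) z' ∂κ (shL a p.2) :=
        hGk.comp ((((measurable_shM a).comp h.md).comp measurable_fst).prodMk
          ((measurable_shL a).comp measurable_snd))
      exact Measurable.lintegral_kernel_prod_right' (κ := N.ν k) h4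
    have hmk' : ∀ k, Measurable fun t => ∫⁻ z, ∫⁻ z', G (N.d t) z' ∂κ z ∂N.ν k t := by
      intro k
      have h4 : Measurable fun p : Tag × LSt => ∫⁻ z', G (N.d p.1) z' ∂κ p.2 :=
        hGk.comp ((h.md.comp measurable_fst).prodMk measurable_snd)
      exact Measurable.lintegral_kernel_prod_right' (κ := N.ν k) h4
    simp only [h1, h2]
    rw [lintegral_tsum fun k => ((hmk k).const_mul _).aemeasurable,
      lintegral_tsum fun k => ((hmk' k).const_mul _).aemeasurable]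
    refine tsum_congr fun k => ?_
    rw [lintegral_const_mul _ (hmk k), lintegral_const_mul _ (hmk' k)]
    congr 1
    exact h.trans a k (fun d z => ∫⁻ z', G d z' ∂κ z) hGk

/-! ### The marginal bound for functionals of the pair -/

lemma Ok.I_le {N : PLaw Tag} {W : LSt → ℝ≥0∞} (hW : Measurable W) {lam₁ c : ℝ≥0∞}
    {ℓ : Measure ML} {t' : ℝ} (h : N.Ok W lam₁ ℓ t' c) (hlam₁ : 1 ≤ lam₁)
    (hW1 : ∀ z : LSt, z.1 ≤ t' → 1 ≤ W z) {H : ML → ML → ℝ≥0∞} {F : ML × ℝ → ℝ≥0∞}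
    (hF : Measurable F)
    (hH : ∀ n t z, H (N.d t) (z, n) ≤ if z.1 ≤ t' then F (N.d t, N.s0 t) else 0) :
    N.I H ≤ volume (Metric.ball (0 : Space3) 1) * (c *
      (∫⁻ l, F (l, l.1.1) ∂ℓ + ∫⁻ l, (∫⁻ s in Icc 0 t', F (l, s)) ∂ℓ)) := by
  have hset : MeasurableSet {z : LSt | z.1 ≤ t'} := measurableSet_le measurable_fst measurable_const
  have key : ∀ n t, ∫⁻ z, H (N.d t) (z, n) ∂N.ν n t ≤
      F (N.d t, N.s0 t) * (volume (Metric.ball (0 : Space3) 1) * ∫⁻ z, W z ∂N.Ξ n t) := by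
    intro n t
    have h1 : ∀ z : LSt, H (N.d t) (z, n) ≤
        F (N.d t, N.s0 t) * {z : LSt | z.1 ≤ t'}.indicator 1 z := by
      intro z
      refine (hH n t z).trans ?_
      by_cases hz : z.1 ≤ t'
      · rw [if_pos hz, Set.indicator_of_mem (show z ∈ {z : LSt | z.1 ≤ t'} from hz)]
        simp
      · rw [if_neg hz]; exact bot_le
    have hind : Measurable ({z : LSt | z.1 ≤ t'}.indicator (1 : LSt → ℝ≥0∞)) :=
      measurable_one.indicator hset
    refine (lintegral_mono h1).trans ?_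
    rw [lintegral_const_mul _ hind]
    refine mul_le_mul_right ?_ _
    refine (h.spr n t _ hind).trans ?_
    have h2 : ∀ z : LSt, avg (N.s0 t) ({z : LSt | z.1 ≤ t'}.indicator (1 : LSt → ℝ≥0∞)) z ≤
        volume (Metric.ball (0 : Space3) 1) * W z := by
      intro z
      unfold avg
      by_cases hz : z.1 ≤ t'
      · calc ∫⁻ u in Metric.ball (0 : Space3) 1,
            {z : LSt | z.1 ≤ t'}.indicator (1 : LSt → ℝ≥0∞) (gal (N.s0 t) u z)
            ≤ ∫⁻ _u in Metric.ball (0 : Space3) 1, (1 : ℝ≥0∞) := by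
              refine lintegral_mono fun u => ?_
              refine Set.indicator_apply_le' (fun _ => le_rfl) (fun _ => zero_le_one)
          _ = volume (Metric.ball (0 : Space3) 1) := by simp
          _ ≤ _ := le_mul_of_one_le_right' (hW1 z hz)
      · have h3 : ∀ u : Space3,
            {z : LSt | z.1 ≤ t'}.indicator (1 : LSt → ℝ≥0∞) (gal (N.s0 t) u z) = 0 := by
          intro u
          refine Set.indicator_of_notMem (fun hc => hz ?_) _
          simpa [gal] using hc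
        simp only [h3, lintegral_zero]
        exact bot_le
    refine (lintegral_mono h2).trans ?_
    exact le_of_eq (lintegral_const_mul' _ _ vol_ball_ne_top)
  have h4 : N.I H ≤ ∫⁻ t, volume (Metric.ball (0 : Space3) 1) *
      (N.wt W lam₁ t * F (N.d t, N.s0 t)) ∂N.Λ := by
    unfold I
    calc ∑' n, ∫⁻ t, ∫⁻ z, H (N.d t) (z, n) ∂N.ν n t ∂N.Λ
        ≤ ∑' n, ∫⁻ t, F (N.d t, N.s0 t) *
            (volume (Metric.ball (0 : Space3) 1) * ∫⁻ z, W z ∂N.Ξ n t) ∂N.Λ :=
          ENNReal.tsum_le_tsum fun n => lintegral_mono fun t => key n t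
      _ ≤ ∫⁻ t, ∑' n, F (N.d t, N.s0 t) *
            (volume (Metric.ball (0 : Space3) 1) * ∫⁻ z, W z ∂N.Ξ n t) ∂N.Λ :=
          (lintegral_tsum fun n => ((hF.comp (h.md.prodMk h.ms)).mul
            ((hW.lintegral_kernel).const_mul _)).aemeasurable).ge
      _ ≤ _ := by
          refine lintegral_mono fun t => ?_
          simp only
          rw [ENNReal.tsum_mul_left, ENNReal.tsum_mul_left]
          have h5 : ∑' n, ∫⁻ z, W z ∂N.Ξ n t ≤ N.wt W lam₁ t := by
            unfold wt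
            refine ENNReal.tsum_le_tsum fun n => ?_
            exact le_mul_of_one_le_left' (one_le_pow_of_one_le' hlam₁ n)
          calc F (N.d t, N.s0 t) * (volume (Metric.ball (0 : Space3) 1) *
                ∑' n, ∫⁻ z, W z ∂N.Ξ n t)
              ≤ F (N.d t, N.s0 t) * (volume (Metric.ball (0 : Space3) 1) * N.wt W lam₁ t) := by
                gcongr
            _ = _ := by ring
  refine h4.trans ?_
  rw [lintegral_const_mul' _ _ vol_ball_ne_top]
  exact mul_le_mul_right (h.marg F hF) _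

/-! ### Iteration -/

/-- the `j`-fold continuation -/
def contN (N : PLaw Tag) (κ κ' : Kernel LSt LSt) (q : ℕ → ℝ≥0∞) : ℕ → PLaw Tag
  | 0 => N
  | j + 1 => (contN N κ κ' q j).cont κ κ' q

/-- **Iteration of the one-contact inequality.** If every member of the class satisfies the
per-step inequality then the pair functional is bounded by the direct terms, up to seeds and a
remainder which is small with the number of steps. -/
theorem iterate {N : PLaw Tag} {W : LSt → ℝ≥0∞} (hW : Measurable W) {lam lam₁ c r₀ : ℝ≥0∞}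
    {ℓ : Measure ML} {t' : ℝ} (h : N.Ok W lam₁ ℓ t' c) (hlam₁ : 1 ≤ lam₁)
    (hW1 : ∀ z : LSt, z.1 ≤ t' → 1 ≤ W z) {κ κ' : Kernel LSt LSt}
    [IsSFiniteKernel κ] [IsSFiniteKernel κ'] (hG : GalDom κ κ') (hT : TrK κ)
    (hκ : ∀ z, ∫⁻ z', W z' ∂κ' z ≤ lam * W z) {q : ℕ → ℝ≥0∞} (hq : ∀ m, q m ≠ ∞)
    (hr : lam * ∑' m, lam₁ ^ m * q m ≤ r₀)
    {H : ML → ML → ℝ≥0∞} {R : ℝ≥0∞} (S : ℕ → ℝ≥0∞)
    (hstep : ∀ (j : ℕ) (c' : ℝ≥0∞), (N.contN κ κ' q j).Ok W lam₁ ℓ t' c' →
      (N.contN κ κ' q j).I H ≤ c' * R + (N.contN κ κ' q (j + 1)).I H + S j)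
    {F : ML × ℝ → ℝ≥0∞} (hF : Measurable F)
    (hH : ∀ d z n s, H d (z, n) ≤ if z.1 ≤ t' then F (d, s) else 0) (M : ℕ) :
    N.I H ≤ c * R * ∑ j ∈ Finset.range M, r₀ ^ j + ∑ j ∈ Finset.range M, S j +
      r₀ ^ M * (volume (Metric.ball (0 : Space3) 1) * (c *
      (∫⁻ l, F (l, l.1.1) ∂ℓ + ∫⁻ l, (∫⁻ s in Icc 0 t', F (l, s)) ∂ℓ))) := by
  have hOk : ∀ j, (N.contN κ κ' q j).Ok W lam₁ ℓ t' (r₀ ^ j * c) := by
    intro j
    induction j with
    | zero => simpa [contN] using h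
    | succ j ih =>
      have h1 := ih.cont hW hG hT hκ hq
      refine ⟨h1.md, h1.ms, h1.sfΛ, h1.sfν, h1.sfΞ, h1.spr, fun F hF => ?_, h1.trans⟩
      refine (h1.marg F hF).trans (mul_le_mul_left ?_ _)
      calc (lam * ∑' m, lam₁ ^ m * q m) * (r₀ ^ j * c) ≤ r₀ * (r₀ ^ j * c) :=
            mul_le_mul_left hr _
        _ = r₀ ^ (j + 1) * c := by ring
  have key : ∀ M : ℕ, N.I H ≤ c * R * ∑ j ∈ Finset.range M, r₀ ^ j +
      ∑ j ∈ Finset.range M, S j + (N.contN κ κ' q M).I H := by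
    intro M
    induction M with
    | zero => simp [contN]
    | succ M ih =>
      refine ih.trans ?_
      rw [Finset.sum_range_succ, Finset.sum_range_succ, mul_add]
      calc c * R * ∑ j ∈ Finset.range M, r₀ ^ j + ∑ j ∈ Finset.range M, S j +
            (N.contN κ κ' q M).I H
          ≤ c * R * ∑ j ∈ Finset.range M, r₀ ^ j + ∑ j ∈ Finset.range M, S j +
            (r₀ ^ M * c * R + (N.contN κ κ' q (M + 1)).I H + S M) := by
              gcongr
              exact hstep M _ (hOk M)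
        _ = _ := by ring
  refine (key M).trans (add_le_add le_rfl ?_)
  have h2 := (hOk M).I_le hW hlam₁ hW1 hF (H := H) fun n t z => hH _ z n _
  refine h2.trans (le_of_eq ?_)
  ring

end PLaw

end Crest.Agent.R122.Pair292
end
private theorem rz_a0fa6a0a1b : type_of% @_root_.Crest.Agent.R122.Pair292.PLaw.contN.eq_def := @_root_.Crest.Agent.R122.Pair292.PLaw.contN.eq_def -- L367
private theorem rz_ff7a113f20 : type_of% @_root_.Crest.Agent.R122.Pair292.PLaw.contN.eq_1 := @_root_.Crest.Agent.R122.Pair292.PLaw.contN.eq_1 -- L367
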