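import Crest.Agent.R122.Boost7_969
import Crest.Agent.R122.Pair1_292

/-!
Row 122, block H4 (inequality 3 of section E), helper292: the class of pair laws in measure form.

`Lab` = (first line `d`, turning time, mark of the second line). A pair law is a measure `ν` on
`Lab × LSt` (label, second line), spread (`SprL` of 969) from the turning time with a profile `Ξ`
whose weighted label marginal is dominated by the line measure.
-/

set_option autoImplicit false

open MeasureTheory ProbabilityTheory Set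
open Crest.AnalysisR.Kinetic
open Crest.Agent.R122.Boost969
open scoped ENNReal

noncomputable section

namespace Crest.Agent.R122.Pair292

/-- label: first line, turning time, mark of the second line -/
abbrev Lab : Type := ML × (ℝ × ℕ)

/-- turning time of a label -/
def sig (p : Lab) : ℝ := p.2.1

lemma measurable_sig : Measurable sig := by unfold sig; fun_prop

/-- joint translation -/
def shP (a : Space3) (p : Lab × LSt) : Lab × LSt := ((shM a p.1.1, p.1.2), shL a p.2)

lemma measurable_shP (a : Space3) : Measurable (shP a) := by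
  unfold shP
  exact (((measurable_shM a).comp (measurable_fst.comp measurable_fst)).prodMk
    (measurable_snd.comp measurable_fst)).prodMk ((measurable_shL a).comp measurable_snd)

/-- Parameters of the class: forward weight, mark weight, line measure, horizon. -/
structure PPar where
  W : LSt → ℝ≥0∞
  lam₁ : ℝ≥0∞
  ℓ : Measure ML
  t' : ℝ
  hW : Measurable W
  hlam₁ : 1 ≤ lam₁
  hW1 : ∀ z : LSt, z.1 ≤ t' → 1 ≤ W z

/-- the two-sided marginal bound -/
def PPar.rhs (P : PPar) (F : ML × ℝ → ℝ≥0∞) : ℝ≥0∞ :=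
  ∫⁻ l, F (l, l.1.1) ∂P.ℓ + ∫⁻ l, (∫⁻ s in Icc 0 P.t', F (l, s)) ∂P.ℓ

/-- Spread pair law with profile `Ξ` and constant `c`. -/
structure PX (P : PPar) (Ξ ν : Measure (Lab × LSt)) (c : ℝ≥0∞) : Prop where
  sfν : SFinite ν
  sfΞ : SFinite Ξ
  spr : SprL sig Ξ ν
  marg : ∀ F : ML × ℝ → ℝ≥0∞, Measurable F →
    ∫⁻ p, F (p.1.1, p.1.2.1) * (P.lam₁ ^ p.1.2.2 * P.W p.2) ∂Ξ ≤ c * P.rhs F
  trans : ∀ a : Space3, ν.map (shP a) = ν


variable {P : PPar} {Ξ ν : Measure (Lab × LSt)} {c : ℝ≥0∞}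

/-! ### Continuation steps -/

/-- A continuation step: `K` is dominated after boosts by `K'`, which contracts the weight. -/
structure StepK (P : PPar) (K K' : Kernel (Lab × LSt) (Lab × LSt)) (r₀ : ℝ≥0∞) : Prop where
  sf : IsSFiniteKernel K
  sf' : IsSFiniteKernel K'
  gal : GalDomL sig K K'
  contr : ∀ F : ML × ℝ → ℝ≥0∞, Measurable F → ∀ p : Lab × LSt,
    ∫⁻ p', F (p'.1.1, p'.1.2.1) * (P.lam₁ ^ p'.1.2.2 * P.W p'.2) ∂K' p ≤
      r₀ * (F (p.1.1, p.1.2.1) * (P.lam₁ ^ p.1.2.2 * P.W p.2))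
  trans : ∀ (a : Space3) (F : Lab × LSt → ℝ≥0∞), Measurable F → ∀ p : Lab × LSt,
    ∫⁻ p', F p' ∂K (shP a p) = ∫⁻ p', F (shP a p') ∂K p

theorem StepK.add {K₁ K₁' K₂ K₂' : Kernel (Lab × LSt) (Lab × LSt)} {r₁ r₂ : ℝ≥0∞}
    (h₁ : StepK P K₁ K₁' r₁) (h₂ : StepK P K₂ K₂' r₂) :
    StepK P (K₁ + K₂) (K₁' + K₂') (r₁ + r₂) := by
  have := h₁.sf
  have := h₁.sf'
  have := h₂.sf
  have := h₂.sf'
  refine ⟨inferInstance, inferInstance, h₁.gal.add h₂.gal, fun F hF p => ?_, fun a F hF p => ?_⟩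
  · rw [Kernel.add_apply, lintegral_add_measure, add_mul]
    exact add_le_add (h₁.contr F hF p) (h₂.contr F hF p)
  · rw [Kernel.add_apply, Kernel.add_apply, lintegral_add_measure, lintegral_add_measure,
      h₁.trans a F hF p, h₂.trans a F hF p]

theorem StepK.mono {K K' : Kernel (Lab × LSt) (Lab × LSt)} {r r' : ℝ≥0∞}
    (h : StepK P K K' r) (hr : r ≤ r') : StepK P K K' r' :=
  ⟨h.sf, h.sf', h.gal, fun F hF p => (h.contr F hF p).trans (mul_le_mul_left hr _), h.trans⟩

/-- **The class is stable under a continuation step**, the constant contracts. -/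
theorem PX.bind (h : PX P Ξ ν c) {K K' : Kernel (Lab × LSt) (Lab × LSt)} {r₀ : ℝ≥0∞}
    (hK : StepK P K K' r₀) : PX P (Ξ.bind K') (ν.bind K) (r₀ * c) := by
  have := h.sfν
  have := h.sfΞ
  have := hK.sf
  have := hK.sf'
  refine ⟨inferInstance, inferInstance, h.spr.bind measurable_sig hK.gal, fun F hF => ?_,
    fun a => ?_⟩
  · have hm : Measurable fun p : Lab × LSt =>
        F (p.1.1, p.1.2.1) * (P.lam₁ ^ p.1.2.2 * P.W p.2) := by
      refine (hF.comp (by fun_prop)).mul (Measurable.mul ?_ (P.hW.comp measurable_snd))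
      exact (Measurable.of_discrete (f := fun n : ℕ => P.lam₁ ^ n)).comp (by fun_prop)
    rw [Measure.lintegral_bind (Kernel.aemeasurable _) hm.aemeasurable]
    refine (lintegral_mono (hK.contr F hF)).trans ?_
    rw [lintegral_const_mul _ hm, mul_assoc]
    exact mul_le_mul_right (h.marg F hF) _
  · refine Measure.ext_of_lintegral _ fun F hF => ?_
    have hF' : Measurable fun p => F (shP a p) := hF.comp (measurable_shP a)
    rw [lintegral_map hF (measurable_shP a),
      Measure.lintegral_bind (Kernel.aemeasurable _) hF'.aemeasurable,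
      Measure.lintegral_bind (Kernel.aemeasurable _) hF.aemeasurable]
    conv_rhs => rw [← h.trans a]
    rw [lintegral_map hF.lintegral_kernel (measurable_shP a)]
    exact lintegral_congr fun p => (hK.trans a F hF p).symm

/-! ### Mark kernels -/

/-- label kernel: the mark `n` of the second line becomes `f m n` with mass `q m` -/
def incM (f : ℕ → ℕ → ℕ) (m : ℕ) (p : Lab) : Lab := (p.1, (p.2.1, f m p.2.2))

lemma measurable_incM (f : ℕ → ℕ → ℕ) (m : ℕ) : Measurable (incM f m) := by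
  unfold incM
  exact measurable_fst.prodMk ((measurable_fst.comp measurable_snd).prodMk
    ((Measurable.of_discrete (f := f m)).comp (measurable_snd.comp measurable_snd)))

/-- label kernel: the mark `n` becomes `f m n` with mass `q m` -/
def incK (f : ℕ → ℕ → ℕ) (q : ℕ → ℝ≥0∞) : Kernel Lab Lab :=
  Kernel.sum fun m : ℕ => sc (q m) (Kernel.deterministic (incM f m) (measurable_incM f m))

lemma isSFiniteKernel_incK (f : ℕ → ℕ → ℕ) {q : ℕ → ℝ≥0∞} (hq : ∀ m, q m ≠ ∞) :
    IsSFiniteKernel (incK f q) := by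
  unfold incK
  have : ∀ m : ℕ, IsSFiniteKernel
      (sc (q m) (Kernel.deterministic (incM f m) (measurable_incM f m))) := fun m =>
    isSFiniteKernel_sc (hq m) _
  infer_instance

lemma lintegral_incK (f : ℕ → ℕ → ℕ) (q : ℕ → ℝ≥0∞) (p : Lab) {F : Lab → ℝ≥0∞}
    (hF : Measurable F) : ∫⁻ p', F p' ∂incK f q p = ∑' m, q m * F (incM f m p) := by
  unfold incK
  rw [Kernel.sum_apply, lintegral_sum_measure]
  refine tsum_congr fun m => ?_
  rw [sc_apply, lintegral_smul_measure, Kernel.lintegral_deterministic' (measurable_incM f m) hF,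
    smul_eq_mul]

lemma ae_incK (f : ℕ → ℕ → ℕ) (q : ℕ → ℝ≥0∞) (p : Lab) :
    ∀ᵐ p' ∂incK f q p, sig p' = sig p := by
  rw [ae_iff]
  have hs : MeasurableSet {p' : Lab | ¬ sig p' = sig p} :=
    (measurableSet_eq_fun measurable_sig measurable_const).compl
  have h := lintegral_incK f q p (F := {p' : Lab | ¬ sig p' = sig p}.indicator 1)
    (measurable_one.indicator hs)
  rw [lintegral_indicator_one hs] at h
  rw [h]
  refine ENNReal.tsum_eq_zero.2 fun m => ?_
  have : incM f m p ∉ {p' : Lab | ¬ sig p' = sig p} := fun hc => hc rfl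
  rw [Set.indicator_of_notMem this, mul_zero]

/-- lifted line kernel with marks -/
def mkK (f : ℕ → ℕ → ℕ) (q : ℕ → ℝ≥0∞) (κ : Kernel LSt LSt) :
    Kernel (Lab × LSt) (Lab × LSt) := liftK (incK f q) κ

lemma lintegral_mkK (f : ℕ → ℕ → ℕ) {q : ℕ → ℝ≥0∞} (hq : ∀ m, q m ≠ ∞) (κ : Kernel LSt LSt)
    [IsSFiniteKernel κ] (p : Lab × LSt) {F : Lab × LSt → ℝ≥0∞} (hF : Measurable F) :
    ∫⁻ p', F p' ∂mkK f q κ p = ∑' m, q m * ∫⁻ z', F (incM f m p.1, z') ∂κ p.2 := by
  have := isSFiniteKernel_incK f hq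
  have hm : Measurable fun p : Lab × LSt => ∫⁻ z', F (p.1, z') ∂κ p.2 := by
    have h3 : Measurable fun p : (Lab × LSt) × LSt => F (p.1.1, p.2) :=
      hF.comp ((measurable_fst.comp measurable_fst).prodMk measurable_snd)
    exact Measurable.lintegral_kernel_prod_right' (κ := κ.comap Prod.snd measurable_snd) h3
  unfold mkK
  rw [lintegral_liftK _ _ _ hF]
  exact lintegral_incK f q p.1 (F := fun l' => ∫⁻ z', F (l', z') ∂κ p.2)
    (hm.comp (measurable_id.prodMk measurable_const))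

/-- **Steps from line kernels.** `f m n ≤ n + m` -/
theorem stepK_mkK {f : ℕ → ℕ → ℕ} (hf : ∀ m n, f m n ≤ n + m) {q : ℕ → ℝ≥0∞}
    (hq : ∀ m, q m ≠ ∞) {κ κ' : Kernel LSt LSt} [IsSFiniteKernel κ] [IsSFiniteKernel κ']
    (hG : GalDom κ κ') (hT : TrK κ) {lam : ℝ≥0∞}
    (hκ : ∀ z, ∫⁻ z', P.W z' ∂κ' z ≤ lam * P.W z) :
    StepK P (mkK f q κ) (mkK f q κ') (lam * ∑' m, P.lam₁ ^ m * q m) := by
  have := isSFiniteKernel_incK f hq
  refine ⟨by unfold mkK liftK; infer_instance, by unfold mkK liftK; infer_instance,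
    GalDomL.lift (ae_incK f q) measurable_sig hG, fun F hF p => ?_, fun a F hF p => ?_⟩
  · have hm : Measurable fun p : Lab × LSt =>
        F (p.1.1, p.1.2.1) * (P.lam₁ ^ p.1.2.2 * P.W p.2) := by
      refine (hF.comp (by fun_prop)).mul (Measurable.mul ?_ (P.hW.comp measurable_snd))
      exact (Measurable.of_discrete (f := fun n : ℕ => P.lam₁ ^ n)).comp (by fun_prop)
    rw [lintegral_mkK f hq κ' p hm]
    have h1 : ∀ m, ∫⁻ z', F ((incM f m p.1).1, (incM f m p.1).2.1) *
        (P.lam₁ ^ (incM f m p.1).2.2 * P.W z') ∂κ' p.2 ≤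
        F (p.1.1, p.1.2.1) * (P.lam₁ ^ p.1.2.2 * P.lam₁ ^ m * (lam * P.W p.2)) := by
      intro m
      have h2 : ∀ z', F ((incM f m p.1).1, (incM f m p.1).2.1) *
          (P.lam₁ ^ (incM f m p.1).2.2 * P.W z') ≤
          (F (p.1.1, p.1.2.1) * (P.lam₁ ^ p.1.2.2 * P.lam₁ ^ m)) * P.W z' := by
        intro z'
        have h3 : P.lam₁ ^ (incM f m p.1).2.2 ≤ P.lam₁ ^ p.1.2.2 * P.lam₁ ^ m := by
          rw [← pow_add]
          exact pow_le_pow_right₀ P.hlam₁ (hf m p.1.2.2)
        calc F ((incM f m p.1).1, (incM f m p.1).2.1) *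
              (P.lam₁ ^ (incM f m p.1).2.2 * P.W z')
            ≤ F (p.1.1, p.1.2.1) * ((P.lam₁ ^ p.1.2.2 * P.lam₁ ^ m) * P.W z') := by
              refine mul_le_mul' le_rfl (mul_le_mul_left h3 _)
          _ = _ := by ring
      refine (lintegral_mono h2).trans ?_
      rw [lintegral_const_mul _ P.hW]
      calc _ ≤ (F (p.1.1, p.1.2.1) * (P.lam₁ ^ p.1.2.2 * P.lam₁ ^ m)) *
            (lam * P.W p.2) := mul_le_mul_right (hκ _) _
        _ = _ := by ring
    calc ∑' m, q m * ∫⁻ z', F ((incM f m p.1).1, (incM f m p.1).2.1) *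
          (P.lam₁ ^ (incM f m p.1).2.2 * P.W z') ∂κ' p.2
        ≤ ∑' m, (P.lam₁ ^ m * q m) *
          (lam * (F (p.1.1, p.1.2.1) * (P.lam₁ ^ p.1.2.2 * P.W p.2))) := by
          refine ENNReal.tsum_le_tsum fun m => ?_
          refine (mul_le_mul_right (h1 m) _).trans (le_of_eq ?_)
          ring
      _ = _ := by
          rw [ENNReal.tsum_mul_right]
          ring
  · rw [lintegral_mkK f hq κ (shP a p) hF]
    have e1 : ∫⁻ p', F (shP a p') ∂mkK f q κ p = ∑' m, q m *
        ∫⁻ z', F (shP a (incM f m p.1, z')) ∂κ p.2 :=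
      lintegral_mkK f hq κ p (F := fun p => F (shP a p)) (hF.comp (measurable_shP a))
    rw [e1]
    refine tsum_congr fun m => ?_
    congr 1
    exact hT a p.2 (fun z' => F (incM f m (shP a p).1, z'))
      (hF.comp (measurable_const.prodMk measurable_id))

/-! ### Marginal bound for functionals of the pair -/

/-- **Marginal bound**: a functional of the pair which is bounded by a function of the label
`(d, s_B)` and vanishes unless `e` is born before the horizon. -/
theorem PX.le_rhs (h : PX P Ξ ν c) {G : Lab × LSt → ℝ≥0∞} {F : ML × ℝ → ℝ≥0∞}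
    (hF : Measurable F)
    (hG : ∀ p, G p ≤ if p.2.1 ≤ P.t' then F (p.1.1, p.1.2.1) else 0) :
    ∫⁻ p, G p ∂ν ≤ volume (Metric.ball (0 : Space3) 1) * (c * P.rhs F) := by
  have hset : MeasurableSet {p : Lab × LSt | p.2.1 ≤ P.t'} :=
    measurableSet_le (by fun_prop) measurable_const
  have hF' : Measurable fun p : Lab × LSt => F (p.1.1, p.1.2.1) := hF.comp (by fun_prop)
  have hind : Measurable fun p : Lab × LSt =>
      {p : Lab × LSt | p.2.1 ≤ P.t'}.indicator (fun p => F (p.1.1, p.1.2.1)) p :=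
    hF'.indicator hset
  have h0 : ∀ p, G p ≤ {p : Lab × LSt | p.2.1 ≤ P.t'}.indicator
      (fun p => F (p.1.1, p.1.2.1)) p := by
    intro p
    refine (hG p).trans ?_
    by_cases hp : p.2.1 ≤ P.t'
    · rw [if_pos hp, indicator_of_mem (show p ∈ {p : Lab × LSt | p.2.1 ≤ P.t'} from hp)]
    · rw [if_neg hp]; exact bot_le
  have h1 := h.spr _ hind
  have hwm : Measurable fun p : Lab × LSt =>
      F (p.1.1, p.1.2.1) * (P.lam₁ ^ p.1.2.2 * P.W p.2) := by
    refine hF'.mul (Measurable.mul ?_ (P.hW.comp measurable_snd))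
    exact (Measurable.of_discrete (f := fun n : ℕ => P.lam₁ ^ n)).comp (by fun_prop)
  calc ∫⁻ p, G p ∂ν ≤ ∫⁻ p, {p : Lab × LSt | p.2.1 ≤ P.t'}.indicator
        (fun p => F (p.1.1, p.1.2.1)) p ∂ν := lintegral_mono h0
    _ ≤ ∫⁻ p, avgL sig (fun p => {p : Lab × LSt | p.2.1 ≤ P.t'}.indicator
        (fun p => F (p.1.1, p.1.2.1)) p) p ∂Ξ := h1
    _ ≤ ∫⁻ p, volume (Metric.ball (0 : Space3) 1) *
          (F (p.1.1, p.1.2.1) * (P.lam₁ ^ p.1.2.2 * P.W p.2)) ∂Ξ := by
        refine lintegral_mono fun p => ?_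
        unfold avgL
        by_cases hp : p.2.1 ≤ P.t'
        · calc ∫⁻ u in Metric.ball (0 : Space3) 1, {p : Lab × LSt | p.2.1 ≤ P.t'}.indicator
                (fun p => F (p.1.1, p.1.2.1)) (p.1, gal (sig p.1) u p.2)
              ≤ ∫⁻ _u in Metric.ball (0 : Space3) 1, F (p.1.1, p.1.2.1) := by
                refine lintegral_mono fun u => ?_
                exact Set.indicator_apply_le' (fun _ => le_rfl) (fun _ => bot_le)
            _ = volume (Metric.ball (0 : Space3) 1) * F (p.1.1, p.1.2.1) := by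
                rw [setLIntegral_const, mul_comm]
            _ ≤ _ := by
                refine mul_le_mul_right ?_ _
                refine le_mul_of_one_le_right' ?_
                exact one_le_mul (one_le_pow_of_one_le' P.hlam₁ _) (P.hW1 _ hp)
        · have h3 : ∀ u : Space3, {p : Lab × LSt | p.2.1 ≤ P.t'}.indicator
              (fun p => F (p.1.1, p.1.2.1)) (p.1, gal (sig p.1) u p.2) = 0 := by
            intro u
            refine Set.indicator_of_notMem (fun hc => hp ?_) _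
            simpa [gal] using hc
          simp only [h3, lintegral_zero]
          exact bot_le
    _ = volume (Metric.ball (0 : Space3) 1) * ∫⁻ p,
          F (p.1.1, p.1.2.1) * (P.lam₁ ^ p.1.2.2 * P.W p.2) ∂Ξ := lintegral_const_mul _ hwm
    _ ≤ _ := mul_le_mul_right (h.marg F hF) _

/-! ### Iteration -/

/-- `j`-fold continuation -/
def bindN (ν : Measure (Lab × LSt)) (K : Kernel (Lab × LSt) (Lab × LSt)) :
    ℕ → Measure (Lab × LSt)
  | 0 => ν
  | j + 1 => (bindN ν K j).bind K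

lemma PX.mono_c (h : PX P Ξ ν c) {c' : ℝ≥0∞} (hc : c ≤ c') : PX P Ξ ν c' :=
  ⟨h.sfν, h.sfΞ, h.spr, fun F hF => (h.marg F hF).trans (mul_le_mul_left hc _), h.trans⟩

theorem PX.bindN (h : PX P Ξ ν c) {K K' : Kernel (Lab × LSt) (Lab × LSt)} {r₀ : ℝ≥0∞}
    (hK : StepK P K K' r₀) (j : ℕ) : PX P (bindN Ξ K' j) (bindN ν K j) (r₀ ^ j * c) := by
  induction j with
  | zero => simpa [Pair292.bindN] using h
  | succ j ih =>
    refine (ih.bind hK).mono_c (le_of_eq ?_)
    ring

/-- **Iteration of the one-contact inequality** (measure form). -/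
theorem PX.iterate (h : PX P Ξ ν c) {K K' : Kernel (Lab × LSt) (Lab × LSt)} {r₀ : ℝ≥0∞}
    (hK : StepK P K K' r₀) {G : Lab × LSt → ℝ≥0∞} {R : ℝ≥0∞} (S : ℕ → ℝ≥0∞)
    (hstep : ∀ (j : ℕ) (Ξ' : Measure (Lab × LSt)) (c' : ℝ≥0∞),
      PX P Ξ' (Pair292.bindN ν K j) c' →
      ∫⁻ p, G p ∂Pair292.bindN ν K j ≤ c' * R + ∫⁻ p, G p ∂Pair292.bindN ν K (j + 1) + S j)
    {F : ML × ℝ → ℝ≥0∞} (hF : Measurable F)
    (hGF : ∀ p, G p ≤ if p.2.1 ≤ P.t' then F (p.1.1, p.1.2.1) else 0) (M : ℕ) :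
    ∫⁻ p, G p ∂ν ≤ c * R * ∑ j ∈ Finset.range M, r₀ ^ j + ∑ j ∈ Finset.range M, S j +
      r₀ ^ M * (volume (Metric.ball (0 : Space3) 1) * (c * P.rhs F)) := by
  have key : ∀ M : ℕ, ∫⁻ p, G p ∂ν ≤ c * R * ∑ j ∈ Finset.range M, r₀ ^ j +
      ∑ j ∈ Finset.range M, S j + ∫⁻ p, G p ∂Pair292.bindN ν K M := by
    intro M
    induction M with
    | zero => simp [Pair292.bindN]
    | succ M ih =>
      refine ih.trans ?_
      rw [Finset.sum_range_succ, Finset.sum_range_succ, mul_add]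
      calc c * R * ∑ j ∈ Finset.range M, r₀ ^ j + ∑ j ∈ Finset.range M, S j +
            ∫⁻ p, G p ∂Pair292.bindN ν K M
          ≤ c * R * ∑ j ∈ Finset.range M, r₀ ^ j + ∑ j ∈ Finset.range M, S j +
            (r₀ ^ M * c * R + ∫⁻ p, G p ∂Pair292.bindN ν K (M + 1) + S M) := by
              gcongr
              exact hstep M _ _ (h.bindN hK M)
        _ = _ := by ring
  refine (key M).trans (add_le_add le_rfl ?_)
  refine ((h.bindN hK M).le_rhs hF hGF).trans (le_of_eq ?_)
  ring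

end Crest.Agent.R122.Pair292
end
private theorem rz_706f5a8655 : type_of% @_root_.Crest.Agent.R122.Pair292.bindN.eq_def := @_root_.Crest.Agent.R122.Pair292.bindN.eq_def -- L298
private theorem rz_b012003737 : type_of% @_root_.Crest.Agent.R122.Pair292.bindN.eq_1 := @_root_.Crest.Agent.R122.Pair292.bindN.eq_1 -- L298
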