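import Crest.Agent.R122.PairV4_994
import Crest.Agent.R122.LineMeas_994
import Crest.Agent.R122.MeasEDefs_416
import Crest.Agent.R122.Q1Cor_815
import Crest.Agent.R122.PairC_292
import Crest.Agent.R122.OCflux_663

/-!
# Section E, inequality 3, SP-A and SP-B: gas-level objects (row 122, helper994)

* `hitT ε ℓ e`, `Hits ε ℓ e`, `LinkEv ε te a ℓ e` : entrance time of two straight lines at distance
  `ε`, link event on `(a, te]`;
* `ghT` : protected tubes of a tree (up to the release times), ghost indicator `gh`;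
* `lineU P z u i` : marked lines of the tree `z` seen at the link time `u` (the root line is born at
  `u`);
* `wD` : world `w + lines (z)`, `tLD` : touch time of the family `lines (z)`;
* `shape` : the `Shape` of PairV4_994 for the tree shape `P`.
-/

set_option autoImplicit false

open MeasureTheory Set Filter
open scoped ENNReal Topology
open Crest.AnalysisR.Kinetic
open Crest.Agent.R122.Kin796 Crest.Agent.R122.Kin796.CTree Crest.Agent.R122.Tree674
open Crest.Agent.R122.PathFlow968 Crest.Agent.R122.EDefs602 Crest.Agent.R122.TreeLines335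
open Crest.Agent.R122.LineMeas994 Crest.Agent.R122.GC311 Crest.Agent.R122.QDens815
open Crest.Agent.R122.Hid424 Crest.Agent.R122.MeasE416 Crest.Agent.R122.SPV994
open Crest.Agent.R122.Boost969 (LSt posAt)
open Crest.Agent.R122.Pair292 (Lab)

namespace Crest.Agent.R122.H5994

noncomputable section

/-! ## Contact of two straight lines -/

/-- relative position at time `0` of the free lines `ℓ` and `e` -/
def rX (ℓ : PhasePoint) (e : LSt) : Space3 := ℓ.1 - posAt 0 e

/-- relative velocity -/
def rV (ℓ : PhasePoint) (e : LSt) : Space3 := ℓ.2 - e.2.2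

/-- entrance time of the free lines `ℓ`, `e` at distance `ε` -/
def hitT (ε : ℝ) (ℓ : PhasePoint) (e : LSt) : ℝ := OC663.entT ε (rX ℓ e, rV ℓ e)

/-- the free lines come to distance `ε` -/
def Hits (ε : ℝ) (ℓ : PhasePoint) (e : LSt) : Prop :=
  rV ℓ e ≠ 0 ∧ ‖Flux663.bline (rX ℓ e, rV ℓ e)‖ ≤ ε

/-- link event: the entrance time is after the birth of `e`, after `a` and not after `te` -/
def LinkEv (ε te a : ℝ) (ℓ : PhasePoint) (e : LSt) : Prop :=
  Hits ε ℓ e ∧ 0 < hitT ε ℓ e ∧ e.1 < hitT ε ℓ e ∧ a < hitT ε ℓ e ∧ hitT ε ℓ e ≤ te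

theorem measurable_rX : Measurable fun q : PhasePoint × LSt => rX q.1 q.2 := by
  unfold rX
  have h : Measurable fun q : PhasePoint × LSt => posAt 0 q.2 :=
    Boost969.measurable_posAt.comp (measurable_const.prodMk measurable_snd)
  exact (measurable_fst.fst).sub h

theorem measurable_rV : Measurable fun q : PhasePoint × LSt => rV q.1 q.2 := by
  unfold rV
  exact (measurable_fst.snd).sub (measurable_snd.snd.snd)

theorem measurable_rXV : Measurable fun q : PhasePoint × LSt => (rX q.1 q.2, rV q.1 q.2) :=
  measurable_rX.prodMk measurable_rV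

theorem measurable_hitT (ε : ℝ) : Measurable fun q : PhasePoint × LSt => hitT ε q.1 q.2 := by
  unfold hitT
  have h := (OC663.measurable_entT ε).comp measurable_rXV
  exact h

theorem measurable_nb : Measurable fun q : PhasePoint × LSt =>
    ‖Flux663.bline (rX q.1 q.2, rV q.1 q.2)‖ := by
  have h := (Flux663.measurable_bline.comp measurable_rXV).norm
  exact h

theorem measurable_hitT' (ε : ℝ) {α : Type*} [MeasurableSpace α] {ℓ : α → PhasePoint}
    {e : α → LSt} (hℓ : Measurable ℓ) (he : Measurable e) :
    Measurable fun q => hitT ε (ℓ q) (e q) := by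
  have hq : Measurable fun q => (ℓ q, e q) := hℓ.prodMk he
  have h := (measurable_hitT ε).comp hq
  exact h

theorem mset_aux {α : Type*} [MeasurableSpace α] {f : α → Space3} {g t s a : α → ℝ} (ε te : ℝ)
    (hf : Measurable f) (hg : Measurable g) (ht : Measurable t) (hs : Measurable s)
    (ha : Measurable a) :
    MeasurableSet {q | (f q ≠ 0 ∧ g q ≤ ε) ∧ 0 < t q ∧ s q < t q ∧ a q < t q ∧ t q ≤ te} := by
  have h1 : MeasurableSet {q | f q ≠ 0} := (measurableSet_eq_fun hf measurable_const).compl
  have h2 : MeasurableSet {q | g q ≤ ε} := measurableSet_le hg measurable_const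
  exact (h1.inter h2).inter ((measurableSet_lt measurable_const ht).inter
    ((measurableSet_lt hs ht).inter ((measurableSet_lt ha ht).inter
      (measurableSet_le ht measurable_const))))

theorem mset_ind_le {α : Type*} [MeasurableSpace α] {A : Set α} (hA : MeasurableSet A)
    {f g : α → ℝ} (hf : Measurable f) (hg : Measurable g) :
    MeasurableSet {q | q ∈ A ∧ f q ≤ g q} := hA.inter (measurableSet_le hf hg)

theorem mset_ind_lt {α : Type*} [MeasurableSpace α] {A : Set α} (hA : MeasurableSet A)
    {f g : α → ℝ} (hf : Measurable f) (hg : Measurable g) :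
    MeasurableSet {q | q ∈ A ∧ f q < g q} := hA.inter (measurableSet_lt hf hg)

theorem measurableSet_linkEv (ε te : ℝ) {α : Type*} [MeasurableSpace α] {ℓ : α → PhasePoint}
    {a : α → ℝ} {e : α → LSt} (hℓ : Measurable ℓ) (ha : Measurable a) (he : Measurable e) :
    MeasurableSet {q | LinkEv ε te (a q) (ℓ q) (e q)} := by
  have hq : Measurable fun q => (ℓ q, e q) := hℓ.prodMk he
  have h1 := mset_aux ε te (measurable_rV.comp hq) (measurable_nb.comp hq)
    ((measurable_hitT ε).comp hq) he.fst ha
  unfold LinkEv Hits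
  exact h1

/-! ## Ghost indicator -/

/-- protected tubes of a tree, active up to the release times -/
def ghT (Φ : Space3 → ℝ) (ε : ℝ) (P : CTree) (z : PhasePoint × Par P) : GIV566.Tubes (Idx P) :=
  ⟨curve Φ ε P z.1 z.2, rel P z.2⟩

/-- measurable version of `ghT` -/
def ghTM (Φ : Space3 → ℝ) (ε : ℝ) (P : CTree) (z : PhasePoint × Par P) : GIV566.Tubes (Idx P) :=
  ⟨curveM Φ ε P z.1 z.2, rel P z.2⟩

theorem ghTM_of_adm {Φ : Space3 → ℝ} {ε : ℝ} {P : CTree} {z : PhasePoint × Par P}
    (h : Adm Φ P z.1.2 z.2) : ghTM Φ ε P z = ghT Φ ε P z := by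
  unfold ghTM ghT
  congr 1
  funext i
  exact curveM_of_adm (ℓ := z.1) h i

/-- ghost indicator: the gas `w` alone does not hit the protected tubes before `tw` -/
def gh (Φ : Space3 → ℝ) (ε tw : ℝ) (P : CTree) (z : PhasePoint × Par P)
    (w : Σ n : ℕ, Config n) : ℝ≥0∞ := GIV566.unhitInd Φ ε (ghTM Φ ε P z) tw w.2

theorem measurable_gh {Φ : Space3 → ℝ} (hΦ : AdmissiblePotential Φ) {ε : ℝ} (hε : 0 < ε) (tw : ℝ)
    (P : CTree) : Measurable fun q : (Σ n : ℕ, Config n) × (PhasePoint × Par P) =>
      gh Φ ε tw P q.2 q.1 := by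
  unfold gh
  refine Q1815.measurable_sigma_prod fun n => ?_
  refine GIV566.measurable_unhitInd (Ω := Config n × (PhasePoint × Par P)) (T := max tw 0) hΦ hε
    (le_max_right _ _) (S := fun q => ghTM Φ ε P q.2) (fun q i => ?_) (fun i s => ?_) (fun i => ?_)
    (t := fun _ => tw) measurable_const (fun _ => le_max_left _ _) (w := fun q => q.1)
    measurable_fst
  · exact (continuous_curveM hΦ hε P q.2.1 q.2.2 i).continuousOn
  · exact (measurable_curveM hΦ hε P i).comp (f := fun q : Config n × (PhasePoint × Par P) =>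
      (s, q.2)) (measurable_const.prodMk measurable_snd)
  · exact (measurable_rel P i).comp (measurable_snd.snd)

theorem gh_le_one {Φ : Space3 → ℝ} {ε tw : ℝ} {P : CTree} {z : PhasePoint × Par P}
    {w : Σ n : ℕ, Config n} : gh Φ ε tw P z w ≤ 1 := by
  unfold gh GIV566.unhitInd
  split_ifs
  · exact le_rfl
  · exact zero_le_one

/-! ## Worlds -/

/-- marked lines of the tree `z` seen at the time `u`: exits born at their release times, root line
born at `u` -/
def lineU (Φ : Space3 → ℝ) (ε : ℝ) (P : CTree) (z : PhasePoint × Par P) (u : ℝ) (i : Idx P) : ML :=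
  open scoped Classical in
  if i = root P then ((u, onLine z.1 u), P.leaves) else lineMM Φ ε P z i

theorem measurable_lineU {Φ : Space3 → ℝ} (hΦ : AdmissiblePotential Φ) (ε : ℝ) (P : CTree)
    (i : Idx P) : Measurable fun q : (PhasePoint × Par P) × ℝ => lineU Φ ε P q.1 q.2 i := by
  classical
  unfold lineU
  by_cases hi : i = root P
  · simp only [hi, if_true]
    exact (measurable_snd.prodMk (measurable_onLine2.comp
      (measurable_fst.fst.prodMk measurable_snd))).prodMk measurable_const
  · simp only [if_neg hi]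
    exact (measurable_lineMM hΦ ε P i).comp measurable_fst

/-- gas world -/
def w0 (w : Σ n : ℕ, Config n) : MW (Fin w.1) := MW.cfg w.2



/-- touch times of lines in the gas world -/
def θ₀ (Φ : Space3 → ℝ) (ε : ℝ) (K : ℕ) (te : ℝ) (w : Σ n : ℕ, Config n) (l : ML) : ℝ :=
  (MW.cfg w.2).thetaL Φ ε K te l

/-- touch times of lines in the world `w + d` -/
def θd (Φ : Space3 → ℝ) (ε : ℝ) (K : ℕ) (te : ℝ) (w : Σ n : ℕ, Config n) (d l : ML) : ℝ :=
  ((MW.cfg w.2).ins d).thetaL Φ ε K te l


section meas

variable {Φ : Space3 → ℝ} (hΦ : AdmissiblePotential Φ) {ε : ℝ} (hε : 0 < ε) (K : ℕ) (te : ℝ)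

include hΦ hε

theorem measurable_θ₀ : Measurable fun q : (Σ n : ℕ, Config n) × ML => θ₀ Φ ε K te q.1 q.2 := by
  refine Q1815.measurable_sigma_prod fun n => ?_
  exact (MeasW.cfg (w := fun q : Config n × ML => q.1) measurable_fst).thetaL hΦ hε
    measurable_snd K measurable_const

theorem measurable_θd : Measurable fun q : ((Σ n : ℕ, Config n) × ML) × ML =>
    θd Φ ε K te q.1.1 q.1.2 q.2 := by
  have h : Measurable fun q : (Σ n : ℕ, Config n) × (ML × ML) =>
      θd Φ ε K te q.1 q.2.1 q.2.2 := by
    refine Q1815.measurable_sigma_prod fun n => ?_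
    exact ((MeasW.cfg (w := fun q : Config n × (ML × ML) => q.1) measurable_fst).ins
      (measurable_snd.fst)).thetaL hΦ hε (measurable_snd.snd) K measurable_const
  exact h.comp (measurable_fst.fst.prodMk (measurable_fst.snd.prodMk measurable_snd))



end meas

/-! ## The shape -/

/-- tree weight with the density of the initial configuration, trees valid at the horizon `T` -/
def tw₀ (Φ : Space3 → ℝ) (f₀ : PhasePoint → ℝ) (ε T : ℝ) (P : CTree) (z : PhasePoint × Par P) :
    ℝ≥0∞ := gw Φ f₀ P (fun _ => 1) ε T z.1 z.2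

theorem measurable_tw₀ {Φ : Space3 → ℝ} (hΦ : AdmissiblePotential Φ) {f₀ : PhasePoint → ℝ}
    (hf : Measurable f₀) (ε T : ℝ) (P : CTree) : Measurable (tw₀ Φ f₀ ε T P) := by
  unfold tw₀
  exact (measurable_gw hΦ hf (φ := fun _ => 1) measurable_const ε).comp
    (f := fun z : PhasePoint × Par P => ((T, z.1), z.2))
    ((measurable_const.prodMk measurable_fst).prodMk measurable_snd)

/-- tree weight of the valid and separated trees at the horizon `T` -/
def tws (Φ : Space3 → ℝ) (f₀ : PhasePoint → ℝ) (ε T : ℝ) (P : CTree) (z : PhasePoint × Par P) :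
    ℝ≥0∞ :=
  open scoped Classical in
  if Valid Φ ε P T z.1.2 z.2 ∧ Sep Φ ε P T z.1 z.2 then tw₀ Φ f₀ ε T P z else 0

theorem measurable_tws {Φ : Space3 → ℝ} (hΦ : AdmissiblePotential Φ) {f₀ : PhasePoint → ℝ}
    (hf : Measurable f₀) {ε : ℝ} (hε : 0 < ε) (T : ℝ) (P : CTree) :
    Measurable (tws Φ f₀ ε T P) := by
  classical
  unfold tws
  exact Measurable.ite (measurableSet_validSep hΦ hε P T) (measurable_tw₀ hΦ hf ε T P)
    measurable_const

theorem tws_le {Φ : Space3 → ℝ} {f₀ : PhasePoint → ℝ} {ε T : ℝ} {P : CTree}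
    {z : PhasePoint × Par P} : tws Φ f₀ ε T P z ≤ tw₀ Φ f₀ ε T P z := by
  unfold tws
  split_ifs
  · exact le_rfl
  · exact bot_le

/-- The cluster shape `P` in the sense of PairV4_994; `T` = horizon of the trees, `te` = horizon of
the touches. -/
def shape {Φ : Space3 → ℝ} (hΦ : AdmissiblePotential Φ) {f₀ : PhasePoint → ℝ}
    (hf : Measurable f₀) {ε : ℝ} (hε : 0 < ε) (T tw te r : ℝ) (P : CTree) :
    Shape (Σ n : ℕ, Config n) (PhasePoint × Par P) (Lab × LSt) ML (Idx P) where
  hid _ w z _ := tws Φ f₀ ε T P z * gh Φ ε tw P z w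
  line i z u := lineU Φ ε P z u i
  lt z p := hitT ε z.1 p.2
  Bo z := {p | LinkEv ε te (rel P z.2 (root P)) z.1 p.2 ∧ r ≤ hitT ε z.1 p.2 - Pair292.sig p.1}
  By z := {p | LinkEv ε te (rel P z.2 (root P)) z.1 p.2 ∧ hitT ε z.1 p.2 - Pair292.sig p.1 < r}
  rd z u := open scoped Classical in
    if 0 < u ∧ rel P z.2 (root P) < u ∧ u ≤ te then ENNReal.ofReal (1 + ‖z.1.2‖) else 0
  m_hid _ := ((measurable_tws hΦ hf hε T P).comp measurable_snd.fst).mul
    ((measurable_gh hΦ hε tw P).comp (measurable_fst.prodMk measurable_snd.fst))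
  m_line i := measurable_lineU hΦ ε P i
  m_lt := measurable_hitT' ε (ℓ := fun q : (PhasePoint × Par P) × (Lab × LSt) => q.1.1)
    (e := fun q => q.2.2) measurable_fst.fst measurable_snd.snd
  m_Bo := by
    have h1 : MeasurableSet {q : (PhasePoint × Par P) × (Lab × LSt) |
        LinkEv ε te (rel P q.1.2 (root P)) q.1.1 q.2.2} :=
      measurableSet_linkEv ε te measurable_fst.fst
        ((measurable_rel P (root P)).comp measurable_fst.snd) measurable_snd.snd
    have h2 : Measurable fun q : (PhasePoint × Par P) × (Lab × LSt) =>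
        hitT ε q.1.1 q.2.2 - Pair292.sig q.2.1 :=
      (measurable_hitT' ε (ℓ := fun q : (PhasePoint × Par P) × (Lab × LSt) => q.1.1)
        (e := fun q => q.2.2) measurable_fst.fst measurable_snd.snd).sub
        (Pair292.measurable_sig.comp measurable_snd.fst)
    exact mset_ind_le h1 measurable_const h2
  m_By := by
    have h1 : MeasurableSet {q : (PhasePoint × Par P) × (Lab × LSt) |
        LinkEv ε te (rel P q.1.2 (root P)) q.1.1 q.2.2} :=
      measurableSet_linkEv ε te measurable_fst.fst
        ((measurable_rel P (root P)).comp measurable_fst.snd) measurable_snd.snd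
    have h2 : Measurable fun q : (PhasePoint × Par P) × (Lab × LSt) =>
        hitT ε q.1.1 q.2.2 - Pair292.sig q.2.1 :=
      (measurable_hitT' ε (ℓ := fun q : (PhasePoint × Par P) × (Lab × LSt) => q.1.1)
        (e := fun q => q.2.2) measurable_fst.fst measurable_snd.snd).sub
        (Pair292.measurable_sig.comp measurable_snd.fst)
    exact mset_ind_lt h1 h2 measurable_const
  m_rd := by
    classical
    have hr : Measurable fun q : (PhasePoint × Par P) × ℝ => rel P q.1.2 (root P) :=
      (measurable_rel P (root P)).comp measurable_fst.snd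
    refine Measurable.ite ?_ ?_ measurable_const
    · exact (measurableSet_lt measurable_const measurable_snd).inter
        ((measurableSet_lt hr measurable_snd).inter
          (measurableSet_le measurable_snd measurable_const))
    · exact (measurable_const.add measurable_fst.fst.snd.norm).ennreal_ofReal

end

end Crest.Agent.R122.H5994
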