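import Crest.Agent.R122.PairKer_292
import Crest.Agent.R122.Q1Main_815
import Crest.Agent.R122.MeasEDefs_416
import Crest.Agent.R122.BadHit_370
import Crest.Agent.R122.OneCDefs_285
import Crest.Agent.R122.H5Defs_994
import Crest.Agent.R122.Direct1_658

-- ▼ part R122/PairCase_292
section

/-!
Row 122, block H4 (inequality 3 of section E), helper292: case (C).

* `caseC_pt` : pointwise in the world: the contact integrals of the quenched root densities with a
  functional of the outgoing line are bounded by the integral over the continued pair law;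
* `toPair`, `PE_toPair` : the pair unknown `PE` of a labelled pair law.
-/

set_option autoImplicit false

open MeasureTheory ProbabilityTheory Set
open Crest.AnalysisR.Kinetic
open Crest.Agent.R122.Boost969 Crest.Agent.R122.Disc416 Crest.Agent.R122.Flux663
open Crest.Agent.R122.OC663 Crest.Agent.R122.Scat818 Crest.Agent.R122.Kin416
open Crest.Agent.R122.GC311 Crest.Agent.R122.EDefs602
open scoped ENNReal

noncomputable section

namespace Crest.Agent.R122.Pair292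

/-! ### The pair law as a translation invariant family -/

variable {ν : Measure (Lab × LSt)}

/-- position of the first line at its birth -/
def posD (p : Lab × LSt) : Space3 := p.1.1.1.2.1

lemma measurable_posD : Measurable posD := by unfold posD; fun_prop

lemma measurable_shP' : Measurable fun q : Space3 × (Lab × LSt) => shP q.1 q.2 := by
  unfold shP
  have h1 : Measurable fun q : Space3 × (Lab × LSt) => shM q.1 q.2.1.1 :=
    measurable_shM'.comp (measurable_fst.prodMk (by fun_prop))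
  have h2 : Measurable fun q : Space3 × (Lab × LSt) => shL q.1 q.2.2 :=
    measurable_shL'.comp (measurable_fst.prodMk (by fun_prop))
  exact (h1.prodMk (by fun_prop)).prodMk h2

/-- a translation invariant pair law -/
theorem invFam (h : SFinite ν) (htr : ∀ a, ν.map (shP a) = ν) :
    InvFam shP (fun p : Lab × LSt => p.2) posD ν :=
  ⟨h, measurable_shP', measurable_snd, measurable_posD, fun _ _ => rfl, fun _ _ => rfl, htr⟩

theorem PX.invFam {P : PPar} {Ξ : Measure (Lab × LSt)} {c : ℝ≥0∞} (h : PX P Ξ ν c) :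
    InvFam shP (fun p : Lab × LSt => p.2) posD ν :=
  Pair292.invFam h.sfν h.trans

/-! ### Case (C), pointwise in the world -/

variable {Tr : Type*}

/-- reorganisation of a sum over trees by the number of leaves -/
theorem tsum_size {D : Tr → ℝ≥0∞} {size : Tr → ℕ} {q : ℕ → ℝ≥0∞} {g : ℝ≥0∞}
    (h : ∀ k, ∑' t, (if size t = k then D t else 0) ≤ q k * g) (a : ℕ → ℝ≥0∞) :
    ∑' t, D t * a (size t) ≤ g * ∑' k, q k * a k := by
  have h1 : ∀ t, D t * a (size t) = ∑' k, (if size t = k then D t else 0) * a k := by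
    intro t
    rw [tsum_eq_single (size t)]
    · simp
    · intro k hk
      rw [if_neg hk.symm, zero_mul]
  simp only [h1]
  rw [ENNReal.tsum_comm, ← ENNReal.tsum_mul_left]
  refine ENNReal.tsum_le_tsum fun k => ?_
  rw [ENNReal.tsum_mul_right]
  calc (∑' t, (if size t = k then D t else 0)) * a k ≤ q k * g * a k := mul_le_mul_left (h k) _
    _ = g * (q k * a k) := by ring

/-- **Case (C), pointwise in the world.** -/
theorem caseC_pt [Countable Tr] (hν : SFinite ν) (htr : ∀ a, ν.map (shP a) = ν) {χ : Space3 → ℝ≥0∞}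
    (hχ : Measurable χ) (hχ1 : ∫⁻ x, χ x = 1) {size : Tr → ℕ}
    {D D' E : Tr → ℝ × PhasePoint → ℝ≥0∞} (hD' : ∀ t, Measurable (D' t))
    (hE : ∀ t, Measurable (E t)) (hDE : ∀ t q, D t q ≤ D' t q + E t q)
    {out : ℝ → Space3 → OCout796.CD → LSt} (hout : OutMap out) {ε b₀ te : ℝ}
    {f : ℕ → ℕ → ℕ} {q : ℕ → ℝ≥0∞} (hq : ∀ m, q m ≠ ∞)
    (hkin : ∀ s ∈ Ioc 0 te, ∀ ℓ : PhasePoint, ∀ k,
      ∑' t, (if size t = k then D' t (s, ℓ) else 0) ≤ q k * gau b₀ ℓ.2)
    {H : Lab × LSt → ℝ≥0∞} (hH : Measurable H) (hH1 : ∀ p, H p ≤ 1) :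
    ∑' t, ∫⁻ θ, cInt ε te (fun p : Lab × LSt => p.2) (D t)
        (fun p : (Lab × LSt) × CDat => H (incM f (size t) p.1.1, outC out ε p.1.2 p.2)) θ ∂ν ≤
      ∫⁻ p, H p ∂(ν.bind (stO ε b₀ te out f q)) +
        Cflux (fun p : Lab × LSt => p.2) posD ν χ te *
          ∑' t, ∫⁻ s in Ioc 0 te, ∫⁻ ℓ : PhasePoint, E t (s, ℓ) * ENNReal.ofReal (1 + ‖ℓ.2‖) := by
  have hG : ∀ k, Measurable fun p : (Lab × LSt) × CDat =>
      H (incM f k p.1.1, outC out ε p.1.2 p.2) := by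
    intro k
    refine hH.comp (Measurable.prodMk ?_ ?_)
    · exact (measurable_incM f k).comp (measurable_fst.comp measurable_fst)
    · exact (measurable_outC hout ε).comp
        ((measurable_snd.comp measurable_fst).prodMk measurable_snd)
  have hinv := invFam hν htr
  have h1 : ∀ t, ∫⁻ θ, cInt ε te (fun p : Lab × LSt => p.2) (D t)
        (fun p : (Lab × LSt) × CDat => H (incM f (size t) p.1.1, outC out ε p.1.2 p.2)) θ ∂ν ≤
      ∫⁻ θ, cInt ε te (fun p : Lab × LSt => p.2) (D' t)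
        (fun p : (Lab × LSt) × CDat => H (incM f (size t) p.1.1, outC out ε p.1.2 p.2)) θ ∂ν +
      Cflux (fun p : Lab × LSt => p.2) posD ν χ te *
          ∫⁻ s in Ioc 0 te, ∫⁻ ℓ : PhasePoint, E t (s, ℓ) * ENNReal.ofReal (1 + ‖ℓ.2‖) := fun t =>
    flux_compare hinv hχ hχ1 (hD' t) (hE t) (hDE t) (hG (size t)) (fun p => hH1 _) ε te
  refine (ENNReal.tsum_le_tsum h1).trans ?_
  rw [ENNReal.tsum_add, ENNReal.tsum_mul_left]
  refine add_le_add ?_ le_rfl
  have hae : ∀ᵐ c : CDat ∂mC te, c.1 ∈ Ioc 0 te := by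
    unfold mC
    exact Measure.quasiMeasurePreserving_fst.ae (ae_restrict_mem measurableSet_Ioc)
  have hm1 : ∀ t, Measurable fun θ : Lab × LSt =>
      cInt ε te (fun p : Lab × LSt => p.2) (D' t)
        (fun p : (Lab × LSt) × CDat => H (incM f (size t) p.1.1, outC out ε p.1.2 p.2)) θ :=
    fun t => measurable_cInt measurable_snd (hD' t) (hG (size t))
  rw [← lintegral_tsum fun t => (hm1 t).aemeasurable,
    Measure.lintegral_bind (Kernel.aemeasurable _) hH.aemeasurable]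
  refine lintegral_mono fun θ => ?_
  rw [lintegral_stO hout ε b₀ te f hq θ hH]
  unfold cInt
  have hGθ : ∀ k, Measurable fun c : CDat => H (incM f k θ.1, outC out ε θ.2 c) := by
    intro k
    exact hH.comp (measurable_const.prodMk
      ((measurable_outC hout ε).comp (measurable_const.prodMk measurable_id)))
  have hrate : Measurable fun c : CDat => rate θ.2 c :=
    measurable_rate.comp (measurable_const.prodMk measurable_id)
  have hroot : Measurable fun c : CDat => rootL ε θ.2 c :=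
    (measurable_rootL ε).comp (measurable_const.prodMk measurable_id)
  have hDm : ∀ t, Measurable fun c : CDat => D' t (c.1, rootL ε θ.2 c) := fun t =>
    (hD' t).comp (measurable_fst.prodMk hroot)
  have hswap : ∑' t, ∫⁻ c, rate θ.2 c * (D' t (c.1, rootL ε θ.2 c) *
        H (incM f (size t) θ.1, outC out ε θ.2 c)) ∂mC te =
      ∫⁻ c, ∑' t, rate θ.2 c * (D' t (c.1, rootL ε θ.2 c) *
        H (incM f (size t) θ.1, outC out ε θ.2 c)) ∂mC te := by
    rw [lintegral_tsum]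
    exact fun t => (hrate.mul ((hDm t).mul (hGθ (size t)))).aemeasurable
  have hdm : Measurable fun c : CDat => dens b₀ θ.2 c :=
    (measurable_dens b₀).comp (measurable_const.prodMk measurable_id)
  refine (le_of_eq hswap).trans ?_
  calc ∫⁻ c, ∑' t, rate θ.2 c * (D' t (c.1, rootL ε θ.2 c) *
        H (incM f (size t) θ.1, outC out ε θ.2 c)) ∂mC te
      ≤ ∫⁻ c, ∑' m, q m * (dens b₀ θ.2 c * H (incM f m θ.1, outC out ε θ.2 c)) ∂mC te := by
        refine lintegral_mono_ae ?_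
        filter_upwards [hae] with c hc
        rw [ENNReal.tsum_mul_left]
        have h2 := tsum_size (D := fun t => D' t (c.1, rootL ε θ.2 c)) (size := size) (q := q)
          (g := gau b₀ (rootL ε θ.2 c).2) (fun k => hkin c.1 hc (rootL ε θ.2 c) k)
          (fun k => H (incM f k θ.1, outC out ε θ.2 c))
        rw [rootL_snd] at h2
        refine (mul_le_mul_right h2 _).trans (le_of_eq ?_)
        unfold dens
        rw [← mul_assoc, ← ENNReal.tsum_mul_left]
        exact tsum_congr fun m => by ring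
    _ = ∑' m, q m * ∫⁻ c, dens b₀ θ.2 c * H (incM f m θ.1, outC out ε θ.2 c) ∂mC te := by
        have hdG : ∀ m, Measurable fun c : CDat =>
            dens b₀ θ.2 c * H (incM f m θ.1, outC out ε θ.2 c) := fun m => hdm.mul (hGθ m)
        rw [lintegral_tsum fun m => ((hdG m).const_mul (q m)).aemeasurable]
        exact tsum_congr fun m => lintegral_const_mul (q m) (hdG m)

/-! ### The pair unknown of a labelled pair law -/



variable {Φ : Space3 → ℝ} {f₀ : PhasePoint → ℝ}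



end Crest.Agent.R122.Pair292
end
end

-- ▼ part R122/PairDefs_292

/-!
# Inequality 3 of section E (row 122, board H4), helper292: literal definitions

A pair `θ : Lab × LSt` : first line `dL θ : ML`, second line `eL θ : ML`, turning time
`sig θ.1 = θ.1.2.1`. The first contact of the FREE second line is taken in the world
`Zd w θ = (cfg w).ins (dL θ)`.

* `OkL` : positive births, marks in `[1, K]`; `tPK`, `PELK` : the pair functional on these labels.
* `CtL`, `mT2`, `DMeet2`, `CMeet2`, `BMeet2`, `clM2` : first contact of the second line with the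
  world `w + d` : with an infected particle, with a clean gas particle which is not influenced by
  `d`, anything else.
* `Real6` : the contact structure `(P, z; w; θ)` is real in `V ++ w`, `V = cfT z`.
* `OS2` : structure integral.
* `DIR`, `BAD`, `StmtDIR`, `StmtBad`, `StmtPt6`, `StmtXC6`, `StmtSP6` : the terms of inequality 3.
-/

set_option autoImplicit false
set_option linter.unusedSectionVars false

open MeasureTheory Set Filter
open scoped ENNReal Classical Topology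
open Crest.AnalysisR.Kinetic
open Crest.Agent.R122.Kin796 Crest.Agent.R122.Kin796.CTree Crest.Agent.R122.Tree674
open Crest.Agent.R122.Relabel674 Crest.Agent.R122.GC311 Crest.Agent.R122.Flow671
open Crest.Agent.R122.EDefs602 Crest.Agent.R122.TreeLines335
open Crest.Agent.R122.Boost969 (LSt posAt)
open Crest.Agent.R122.Pair292 (Lab CDat PPar PX sig)
open Crest.Agent.R122.OneC285 (cfT rt cT cB cD cX lpos uI ptube RF MeasRF rfl4)

noncomputable section

namespace Crest.Agent.R122.PairD292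

/-! ## Labels -/

/-- first line of the pair -/
def dL (θ : Lab × LSt) : ML := θ.1.1

/-- second line of the pair -/
def eL (θ : Lab × LSt) : ML := (θ.2, θ.1.2.2)

/-- positive births, marks in `[1, K]` -/
structure OkL (K : ℕ) (θ : Lab × LSt) : Prop where
  d0 : 0 < (dL θ).1.1
  d1 : 1 ≤ (dL θ).2
  dK : (dL θ).2 ≤ K
  e0 : 0 < (eL θ).1.1
  e1 : 1 ≤ (eL θ).2
  eK : (eL θ).2 ≤ K

/-- the pair functional on the labels `OkL` -/
def tPK (Φ : Space3 → ℝ) (ε : ℝ) (K : ℕ) (Q : EPar) {n : ℕ} (w : Config n) (θ : Lab × LSt) : ℝ≥0∞ :=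
  if OkL K θ then (MW.cfg w).touchP Φ ε K Q (dL θ) (eL θ) else 0

/-- the pair unknown on the labels `OkL` -/
def PELK (Φ : Space3 → ℝ) (f₀ : PhasePoint → ℝ) (ε : ℝ) (K : ℕ) (Q : EPar)
    (ν : Measure (Lab × LSt)) : ℝ≥0∞ :=
  gcE f₀ ε fun _ w => ∫⁻ θ, tPK Φ ε K Q w θ ∂ν

/-! ## First contact of a free line with a world -/

section world

variable {ι : Type} [Fintype ι]

/-- Contact at time `s` of the free line `l` with the particle `i` of `Z` (birth convention of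
`CtB`). -/
def CtL (Φ : Space3 → ℝ) (ε : ℝ) (Z : MW ι) (l : ML) (s : ℝ) (i : ι) : Prop :=
  Z.b i ≤ s ∧ l.1.1 ≤ s ∧ (Z.b i < s ∨ l.1.1 < s) ∧ dist (lpos l s) (Z.path Φ ε s i).1 ≤ ε

/-- First contact time of the free line with the world (`T + 1` if there is none in
`[birth, T]`). -/
def mT2 (Φ : Space3 → ℝ) (ε T : ℝ) (Z : MW ι) (l : ML) : ℝ :=
  MeasE416.first l.1.1 T fun s => ∃ i, CtL Φ ε Z l s i

/-- The first contact is with an infected particle. -/
def DMeet2 (Φ : Space3 → ℝ) (ε : ℝ) (K : ℕ) (T : ℝ) (Z : MW ι) (l : ML) : Prop :=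
  mT2 Φ ε T Z l ≤ T ∧ ∃ i, CtL Φ ε Z l (mT2 Φ ε T Z l) i ∧ Z.Inf Φ ε K (mT2 Φ ε T Z l) i

end world

/-- the world `w + d` -/
def Zd {n : ℕ} (w : Config n) (θ : Lab × LSt) : MW (Fin n ⊕ Unit) := (MW.cfg w).ins (dL θ)

/-- first contact time of the second line with `w + d` -/
def tC (Φ : Space3 → ℝ) (ε T : ℝ) {n : ℕ} (w : Config n) (θ : Lab × LSt) : ℝ :=
  mT2 Φ ε T (Zd w θ) (eL θ)

/-- The first contact of the second line, after its birth, is with the clean gas particle `i` which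
is not influenced by `d`. -/
structure CMeet2 (Φ : Space3 → ℝ) (ε : ℝ) (K : ℕ) (T : ℝ) {n : ℕ} (w : Config n) (θ : Lab × LSt)
    (i : Fin n) : Prop where
  lt : (eL θ).1.1 < tC Φ ε T w θ
  le : tC Φ ε T w θ ≤ T
  ct : CtL Φ ε (Zd w θ) (eL θ) (tC Φ ε T w θ) (Sum.inl i)
  clean : ¬ ∃ x, CtL Φ ε (Zd w θ) (eL θ) (tC Φ ε T w θ) x ∧ (Zd w θ).Inf Φ ε K (tC Φ ε T w θ) x
  nofut : ¬ (MW.cfg w).Fut Φ ε (MW.line (dL θ)) (tC Φ ε T w θ) i

/-- Bad first contact: neither direct nor a clean gas particle not influenced by `d` (contact with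
the clean `d`, contact at the birth, influenced clean partner). -/
def BMeet2 (Φ : Space3 → ℝ) (ε : ℝ) (K : ℕ) (T : ℝ) {n : ℕ} (w : Config n) (θ : Lab × LSt) : Prop :=
  tC Φ ε T w θ ≤ T ∧ ¬ DMeet2 Φ ε K T (Zd w θ) (eL θ) ∧ ∀ i, ¬ CMeet2 Φ ε K T w θ i

/-- Slack of the one-contact step: nothing has been touched by `d` up to `tC + slk ε`. -/
def slk (ε : ℝ) : ℝ := Real.sqrt ε

/-- Cluster map of the one-contact step (clean contacts before the touch time of the first line minus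
the slack): past cluster, strictly before the contact. -/
def clM2 (Φ : Space3 → ℝ) (ε : ℝ) (K : ℕ) (T : ℝ) (n : ℕ) (w : Config n) (i : Fin n)
    (θ : Lab × LSt) : Finset (Fin n) :=
  if CMeet2 Φ ε K T w θ i ∧ tC Φ ε T w θ + slk ε < (MW.cfg w).thetaL Φ ε K T (dL θ) then
    preC Φ ε w (tC Φ ε T w θ) i else ∅

/-- The worlds `w + d`, `w + d + e` are good. -/
def OkW (Φ : Space3 → ℝ) (ε : ℝ) {n : ℕ} (w : Config n) (θ : Lab × LSt) : Prop :=
  (Zd w θ).Ok Φ ε ∧ ((Zd w θ).ins (eL θ)).Ok Φ ε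

/-- The worlds are good almost surely. -/
def OkAE (Φ : Space3 → ℝ) (ε : ℝ) (K : ℕ) (ν : Measure (Lab × LSt)) : Prop :=
  ∀ n : ℕ, ∀ᵐ q : Config n × (Lab × LSt) ∂((volume : Measure (Config n)).prod ν),
    q.1 ∈ PairExcluded ε n → OkL K q.2 → OkW Φ ε q.1 q.2

/-! ## Contact structures -/

/-- The outgoing lines of the contact: `none` = the root `c`, reborn at the exit time of the
encounter, mark `|P|`; `some false` = `e'`, `some true` = `c'`, mark `n + |P|`. -/
def outL6 (Φ : Space3 → ℝ) (ε : ℝ) (P : CTree) (z : PhasePoint × Par P) (e : ML) : Option Bool → ML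
  | none => (OCout796.lineC Φ ε (cT ε z e) (cX ε z e) (cD ε z e), P.leaves)
  | some false => (OCout796.lineL' Φ ε (cT ε z e) (cX ε z e) (cD ε z e), e.2 + P.leaves)
  | some true => (OCout796.lineC' Φ ε (cT ε z e) (cX ε z e) (cD ε z e), e.2 + P.leaves)

/-- The continued label: same first line, same turning time. -/
def outP (Φ : Space3 → ℝ) (ε : ℝ) (P : CTree) (z : PhasePoint × Par P) (θ : Lab × LSt)
    (k : Option Bool) : Lab × LSt :=
  ((θ.1.1, (θ.1.2.1, (outL6 Φ ε P z (eL θ) k).2)), (outL6 Φ ε P z (eL θ) k).1)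

theorem dL_outP (Φ : Space3 → ℝ) (ε : ℝ) (P : CTree) (z : PhasePoint × Par P) (θ : Lab × LSt)
    (k : Option Bool) : dL (outP Φ ε P z θ k) = dL θ := rfl

theorem eL_outP (Φ : Space3 → ℝ) (ε : ℝ) (P : CTree) (z : PhasePoint × Par P) (θ : Lab × LSt)
    (k : Option Bool) : eL (outP Φ ε P z θ k) = outL6 Φ ε P z (eL θ) k := rfl

/-- The contact structure `(P, z; w; θ)` is real: in the world `V ++ w`, `V = cfT z`, the second line
meets first the root of `V` at the time `cT z e` (after the last encounter of the root, by `Valid` in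
`ctSet`); this particle is clean, not influenced by `d`, its past cluster is `V` and its real history
is the tree. -/
structure Real6 (Φ : Space3 → ℝ) (ε : ℝ) (K : ℕ) (te T' : ℝ) (P : CTree)
    (z : PhasePoint × Par P) {m : ℕ} (w : Config m) (θ : Lab × LSt) : Prop where
  exV : cfT Φ ε P z ∈ PairExcluded ε P.leaves
  exw : w ∈ PairExcluded ε m
  perp : Perp ε (cfT Φ ε P z) w
  valid : Valid Φ ε P T' z.1.2 z.2
  sep : Sep Φ ε P T' z.1 z.2
  ct : (z, θ.2) ∈ OneC423.ctSet Φ ε te P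
  time : tC Φ ε te (Fin.append (cfT Φ ε P z) w) θ = cT ε z (eL θ)
  okL : OkL K θ
  okW : OkW Φ ε (Fin.append (cfT Φ ε P z) w) θ
  meet : CMeet2 Φ ε K te (Fin.append (cfT Φ ε P z) w) θ (Fin.castAdd m (rt P))
  early : tC Φ ε te (Fin.append (cfT Φ ε P z) w) θ + slk ε <
    (MW.cfg (Fin.append (cfT Φ ε P z) w)).thetaL Φ ε K te (dL θ)
  cluster : preC Φ ε (Fin.append (cfT Φ ε P z) w) (tC Φ ε te (Fin.append (cfT Φ ε P z) w) θ)
    (Fin.castAdd m (rt P)) = block P.leaves m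
  real : RealTree674.RealTree Φ ε (cT ε z (eL θ)) (Fin.append (cfT Φ ε P z) w)
    (Fin.castAdd m (rt P)) P z.1 z.2 (fun x => Fin.castAdd m (eP P x))

/-- Functionals of a contact structure `(P, z; w; θ)`. -/
abbrev SF2 : Type := (P : CTree) → PhasePoint × Par P → (m : ℕ) → Config m → Lab × LSt → ℝ≥0∞

/-- Joint measurability. -/
def MeasSF2 (F : SF2) : Prop := ∀ (P : CTree) (m : ℕ), Measurable
  fun q : (PhasePoint × Par P) × (Config m × (Lab × LSt)) => F P q.1 m q.2.1 q.2.2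

/-- Structure integral of the pair law `ν`. -/
def OS2 (Φ : Space3 → ℝ) (f₀ : PhasePoint → ℝ) (ε te T' : ℝ) (ν : Measure (Lab × LSt)) (H : SF2) :
    ℝ≥0∞ :=
  activity ε * ∑' P : CTree, ∫⁻ z : PhasePoint × Par P,
    {z : PhasePoint × Par P | Valid Φ ε P T' z.1.2 z.2}.indicator
      (fun z => wt Φ P z.1.2 z.2 * (ToTree335.pf Φ f₀ ε P z *
        gcE f₀ ε (fun m w => ∫⁻ θ, {θ : Lab × LSt | (z, θ.2) ∈ OneC423.ctSet Φ ε te P}.indicator
          (fun θ => H P z m w θ) θ ∂ν))) z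

/-- age of the contact -/
def age (ε : ℝ) {P : CTree} (z : PhasePoint × Par P) (θ : Lab × LSt) : ℝ :=
  cT ε z (eL θ) - sig θ.1

/-- admissible structures (`OkL`, `|P| ≤ K`), ghost indicator. (`rel root < cT` on `ctSet`.) -/
def uG (Φ : Space3 → ℝ) (ε tw : ℝ) (K : ℕ) (P : CTree) (z : PhasePoint × Par P) {m : ℕ}
    (w : Config m) (θ : Lab × LSt) : ℝ≥0∞ :=
  if OkL K θ ∧ P.leaves ≤ K then uI Φ ε tw P z w else 0

/-! ## The terms of inequality 3 -/

/-- touch of the first line in the window -/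
def T1 (Φ : Space3 → ℝ) (ε : ℝ) (K : ℕ) (Q : EPar) {n : ℕ} (w : Config n) (θ : Lab × LSt) : Prop :=
  Q.tw < (MW.cfg w).thetaL Φ ε K Q.te (dL θ) ∧ (MW.cfg w).thetaL Φ ε K Q.te (dL θ) ≤ Q.te

/-- direct term (v4: infected partner, or late first contact of any kind, i.e. not before the touch
time of the first line minus the slack) -/
def DIR (Φ : Space3 → ℝ) (f₀ : PhasePoint → ℝ) (ε : ℝ) (K : ℕ) (Q : EPar)
    (ν : Measure (Lab × LSt)) : ℝ≥0∞ :=
  gcE f₀ ε fun _ w => ∫⁻ θ, (if OkW Φ ε w θ ∧ (DMeet2 Φ ε K Q.te (Zd w θ) (eL θ) ∨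
    (tC Φ ε Q.te w θ ≤ Q.te ∧
      (MW.cfg w).thetaL Φ ε K Q.te (dL θ) ≤ tC Φ ε Q.te w θ + slk ε)) then
    tPK Φ ε K Q w θ else 0) ∂ν

/-- bad first contacts before the touch time of the first line minus the slack -/
def BAD (Φ : Space3 → ℝ) (f₀ : PhasePoint → ℝ) (ε : ℝ) (K : ℕ) (Q : EPar)
    (ν : Measure (Lab × LSt)) : ℝ≥0∞ :=
  gcE f₀ ε fun _ w => ∫⁻ θ, (if OkL K θ ∧ OkW Φ ε w θ ∧ T1 Φ ε K Q w θ ∧
    BMeet2 Φ ε K Q.te w θ ∧ tC Φ ε Q.te w θ + slk ε < (MW.cfg w).thetaL Φ ε K Q.te (dL θ)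
    then 1 else 0) ∂ν

/-- The class parameters: line measure `lineM`, horizon `te`, weight above `1 + |v|`. -/
structure PPOk (Q : EPar) (PP : ℕ → PPar) : Prop where
  ell : ∀ K, (PP K).ℓ = lineM Q.γ Q.ρ K Q.te
  hor : ∀ K, (PP K).t' = Q.te
  vel : ∀ K (z : LSt), z.1 ≤ Q.te → ENNReal.ofReal (1 + ‖z.2.2‖) ≤ (PP K).W z
  vel4 : ∃ Cv : ℝ≥0∞, Cv ≠ ∞ ∧ ∀ K (z : LSt), z.1 ≤ Q.te →
    ENNReal.ofReal ((1 + ‖z.2.2‖) ^ 4) ≤ Cv * (PP K).W z
  lam : ∃ l : ℝ≥0∞, 1 < l ∧ ∀ K, l ≤ (PP K).lam₁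

/-- (811, 879, 741) **Pointwise inequality of E6** on the real structures with `n + |P| ≤ K` and
unhit protected tubes; `tO` = terms (A) + (B) (old contacts), `tY` = young contacts, `bd` = LINK,
bad encounters, bad worlds. -/
def StmtPt6 (Φ : Space3 → ℝ) (Q : EPar) (T' r : ℝ) (tO tY bd : ℕ → ℝ → SF2) : Prop :=
  ∀ (K : ℕ) (ε : ℝ), 0 < ε → ∀ (P : CTree) (z : PhasePoint × Par P) (m : ℕ) (w : Config m)
    (θ : Lab × LSt), (eL θ).2 + P.leaves ≤ K → Real6 Φ ε K Q.te T' P z w θ →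
    GIV566.unhit Φ ε (ptube Φ ε P z) Q.tw w →
    (r ≤ age ε z θ → tPK Φ ε K Q (Fin.append (cfT Φ ε P z) w) θ ≤
      tO K ε P z m w θ + ∑ k : Option Bool, tPK Φ ε K Q w (outP Φ ε P z θ k) + bd K ε P z m w θ) ∧
    (age ε z θ < r → tPK Φ ε K Q (Fin.append (cfT Φ ε P z) w) θ ≤
      tY K ε P z m w θ + bd K ε P z m w θ)

/-- (994) The spread terms: `tO` on old contacts, `tY` on young contacts. -/
def StmtSP6 (Φ : Space3 → ℝ) (f₀ : PhasePoint → ℝ) (Q : EPar) (T' r : ℝ) (PP : ℕ → PPar)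
    (tO tY : ℕ → ℝ → SF2) (C : ℝ≥0∞) : Prop :=
  PPOk Q PP → (∀ K ε, 0 < ε → MeasSF2 (tO K ε) ∧ MeasSF2 (tY K ε)) ∧
  ∃ δ : ℕ → ℝ → ℝ≥0∞, Null δ ∧ ∀ (K : ℕ) (ε : ℝ), 0 < ε → ε ≤ 1 →
    ∀ (Ξ ν : Measure (Lab × LSt)) (c : ℝ≥0∞), PX (PP K) Ξ ν c →
    (∀ᵐ θ : Lab × LSt ∂ν, 0 ≤ Pair292.sig θ.1 ∧ Pair292.sig θ.1 ≤ θ.2.1) →
    OS2 Φ f₀ ε Q.te T' ν (fun P z m w θ => uG Φ ε Q.tw K P z w θ *
      (if r ≤ age ε z θ then tO K ε P z m w θ else tY K ε P z m w θ)) ≤
    c * (C * (XI Φ f₀ ε K Q + tnMass Φ f₀ Q.γ Q.ρ ε K Q.tw) + δ K ε)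

/-- (658) The direct term. -/
def StmtDIR (Φ : Space3 → ℝ) (f₀ : PhasePoint → ℝ) (Q : EPar) (r : ℝ) (PP : ℕ → PPar)
    (C₁ C₂ : ℝ≥0∞) : Prop :=
  PPOk Q PP →
  ∃ δ : ℕ → ℝ → ℝ≥0∞, Null δ ∧ ∀ (K : ℕ) (ε : ℝ), 0 < ε → ε ≤ 1 → slk ε ≤ Q.te - Q.tw →
    ∀ (Ξ ν : Measure (Lab × LSt)) (c : ℝ≥0∞), PX (PP K) Ξ ν c →
    DIR Φ f₀ ε K Q ν ≤ c * (C₁ * XI Φ f₀ ε K Q +
      C₂ * XJ Φ f₀ ε K Q (Ioc (max 0 (Q.tw - r)) Q.te) + δ K ε)

/-- (815) Size crossings. -/
def StmtXC6 (Φ : Space3 → ℝ) (f₀ : PhasePoint → ℝ) (Q : EPar) (T' : ℝ) (PP : ℕ → PPar) : Prop :=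
  PPOk Q PP → ∃ S : ℕ → ℝ → ℝ≥0∞, Small S ∧ ∀ (K : ℕ) (ε : ℝ), 0 < ε →
    ∀ (Ξ ν : Measure (Lab × LSt)) (c : ℝ≥0∞), PX (PP K) Ξ ν c →
    OS2 Φ f₀ ε Q.te T' ν (fun P z m w θ => uG Φ ε Q.tw K P z w θ *
      (if K < (eL θ).2 + P.leaves then 1 else 0)) ≤ c * S K ε


/-- (flux of the errors of the reduction) -/
def StmtRF6 (Φ : Space3 → ℝ) (f₀ : PhasePoint → ℝ) (Q : EPar) (PP : ℕ → PPar) (Cf : ℝ≥0∞) : Prop :=
  PPOk Q PP → ∀ (K : ℕ) (ε : ℝ), 0 < ε →
    ∀ (Ξ ν : Measure (Lab × LSt)) (c : ℝ≥0∞), PX (PP K) Ξ ν c → OkAE Φ ε K ν →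
    ∀ B : RF, MeasRF B →
    ∑' k : ℕ, activity ε ^ k / (k.factorial : ℝ≥0∞) * ∫⁻ V : Config k, gcWeight f₀ ε k V *
      gcE f₀ ε (fun m w => perpInd ε V w * ∑ j : Fin k, ∫⁻ θ,
        (if OkL K θ ∧ clM2 Φ ε K Q.te (k + m) (Fin.append V w) (Fin.castAdd m j) θ = block k m then
          B k m V w j (tC Φ ε Q.te (Fin.append V w) θ) else 0) ∂ν) ≤
      Cf * (c * rfl4 Φ f₀ ε K Q.te B)

/-- (H11 etc.) The null facts of one family of pair laws. -/
structure NullFacts (Φ : Space3 → ℝ) (f₀ : PhasePoint → ℝ) (Q : EPar) (T' : ℝ)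
    (bd : ℕ → ℝ → SF2) (ν : ℕ → ℝ → Measure (Lab × LSt)) : Prop where
  ok : ∀ K ε, 0 < ε → OkAE Φ ε K (ν K ε)
  bad : Null fun K ε => BAD Φ f₀ ε K Q (ν K ε)
  meas : ∀ K ε, 0 < ε → MeasSF2 (bd K ε)
  link : Null fun K ε => OS2 Φ f₀ ε Q.te T' (ν K ε) fun P z m w θ =>
    uG Φ ε Q.tw K P z w θ * bd K ε P z m w θ

end Crest.Agent.R122.PairD292

end
private theorem rz_651355cc4d : type_of% @_root_.Crest.Agent.R122.PairD292.outL6.eq_1 := @_root_.Crest.Agent.R122.PairD292.outL6.eq_1 -- L132
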