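import Crest.Agent.R122.ThirdOS_741
import Crest.Agent.R122.PairDefs_292
import Crest.Agent.R122.PairS6_969
import Crest.Agent.R122.ThirdV_796
import Crest.Agent.R122.LongE_984

-- ▼ part R122/ThirdNu_741
section

/-!
# Bad encounters of pairs (row 122, GAP-E, row 13f): structure integrals `OS2`

Uniform over the laws `PX (PP K) Ξ ν c`.

* `fluxM` : flux integral with a velocity law `μ`.
* `muV` : velocity law of the second line.
* `OS2_le` : structure functionals of the contact data.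
* `third_OS2_le` : third particle near the encounter.
-/

set_option autoImplicit false

open MeasureTheory Set Filter Topology
open scoped ENNReal
open Crest.AnalysisR.Kinetic
open Crest.Agent.R122.Kin796 Crest.Agent.R122.Kin796.CTree Crest.Agent.R122.Tree674
open Crest.Agent.R122.Disc416 Crest.Agent.R122.Flux663 Crest.Agent.R122.OC663 Crest.Agent.R122.EDefs602
open Crest.Agent.R122.GC311 Crest.Agent.R122.Flow671 Crest.Agent.R122.Loc45 Crest.Agent.R122.Mom974
open Crest.Agent.R122.OneC423 Crest.Agent.R122.TreeDom974 Crest.Agent.R122.OneC285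
open Crest.Agent.R122.Pair292 hiding ML
open Crest.Agent.R122.PairD292
open Crest.Agent.R122.Boost969 (LSt posAt)

noncomputable section

namespace Crest.Agent.R122.Third741

variable {Φ : Space3 → ℝ} {f₀ : PhasePoint → ℝ} {ε : ℝ}

/-! ### Flux form with a velocity law -/

/-- Fourth moment of a velocity law. -/
def m4 (μ : Measure Space3) : ℝ≥0∞ := ∫⁻ v, ENNReal.ofReal ((1 + ‖v‖) ^ 4) ∂μ

theorem near_flux_mu_w (hΦ : AdmissiblePotential Φ) (hε : 0 < ε) {n : ℕ} {w : Config n}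
    (hw : w ∈ PairExcluded ε n) {a te : ℝ} (ha : 0 < a) (u : Space3)
    (μ : Measure Space3) [SFinite μ] :
    ∫⁻ x : Space3, ∫⁻ s in Ioc 0 te, ∫⁻ v, nfI Φ ε a u (fun _ => 1) w x s v ∂μ ≤
      40 * Sweep815.c3 * ENNReal.ofReal te * ENNReal.ofReal a ^ 3 *
        ENNReal.ofReal ((1 + ‖u‖) ^ 4) * m4 μ * Wt Φ w := by
  have hm := measurable_nfI hΦ hε a u (G := fun _ => 1) measurable_const n
  have m1 : Measurable fun q : (Space3 × ℝ) × Space3 =>
      nfI Φ ε a u (fun _ => 1) w q.1.1 q.1.2 q.2 :=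
    hm.comp (f := fun q : (Space3 × ℝ) × Space3 => ((w, q.1.1), (q.1.2, q.2))) (by fun_prop)
  have m2 : Measurable fun q : Space3 × ℝ => ∫⁻ v, nfI Φ ε a u (fun _ => 1) w q.1 q.2 v ∂μ :=
    m1.lintegral_prod_right'
  have m3 : ∀ s : ℝ, Measurable fun q : Space3 × Space3 =>
      nfI Φ ε a u (fun _ => 1) w q.1 s q.2 := fun s =>
    hm.comp (f := fun q : Space3 × Space3 => ((w, q.1), (s, q.2))) (by fun_prop)
  rw [lintegral_lintegral_swap (f := fun (x : Space3) (s : ℝ) =>
    ∫⁻ v, nfI Φ ε a u (fun _ => 1) w x s v ∂μ) m2.aemeasurable]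
  -- fixed `s`, `v`
  have hpt : ∀ (s : ℝ) (v : Space3), ∫⁻ x : Space3, nfI Φ ε a u (fun _ => 1) w x s v ≤
      40 * Sweep815.c3 * ENNReal.ofReal a ^ 3 * ENNReal.ofReal ((1 + ‖u‖) ^ 4) * Wt Φ w *
        ENNReal.ofReal ((1 + ‖v‖) ^ 4) := by
    intro s v
    set r : ℝ := a * (1 + ‖v‖ + ‖u‖) with hr
    have hv := norm_nonneg v
    have hu := norm_nonneg u
    have hr0 : 0 < r := by positivity
    have hle : r ≤ a * ((1 + ‖v‖) * (1 + ‖u‖)) := by
      rw [hr]
      have : 0 ≤ ‖v‖ * ‖u‖ := mul_nonneg hv hu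
      nlinarith
    have hmx : Measurable fun x : Space3 => nearI Φ ε w s a r (x + s • u) :=
      (measurable_nearI hΦ hε a n).comp (f := fun x : Space3 => (w, (s, (r, x + s • u))))
        (by fun_prop)
    have e1 : ∫⁻ x : Space3, nfI Φ ε a u (fun _ => 1) w x s v =
        ENNReal.ofReal ‖v - u‖ * ∫⁻ x : Space3, nearI Φ ε w s a r (x + s • u) := by
      unfold nfI
      simp only [one_mul]
      rw [lintegral_const_mul _ hmx]
    have h2 := lintegral_nearI_le hΦ hε hw (s := s) (a := a) hr0 (s • u)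
    have h3 : ENNReal.ofReal r + 4 * ENNReal.ofReal a ≤
        5 * (ENNReal.ofReal a * ENNReal.ofReal ((1 + ‖v‖) * (1 + ‖u‖))) := by
      rw [← ENNReal.ofReal_mul ha.le, ← ENNReal.ofReal_ofNat 4, ← ENNReal.ofReal_ofNat 5,
        ← ENNReal.ofReal_mul (by norm_num), ← ENNReal.ofReal_mul (by norm_num),
        ← ENNReal.ofReal_add hr0.le (by positivity)]
      refine ENNReal.ofReal_le_ofReal ?_
      have h4 : (1 : ℝ) ≤ (1 + ‖v‖) * (1 + ‖u‖) := by nlinarith [mul_nonneg hv hu]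
      nlinarith
    have h5 : ENNReal.ofReal r ^ 2 ≤
        (ENNReal.ofReal a * ENNReal.ofReal ((1 + ‖v‖) * (1 + ‖u‖))) ^ 2 := by
      rw [← ENNReal.ofReal_mul ha.le]
      exact pow_le_pow_left' (ENNReal.ofReal_le_ofReal hle) 2
    set X : ℝ≥0∞ := ENNReal.ofReal ((1 + ‖v‖) * (1 + ‖u‖)) with hX
    rw [e1]
    calc ENNReal.ofReal ‖v - u‖ * ∫⁻ x : Space3, nearI Φ ε w s a r (x + s • u)
        ≤ X * (8 * Sweep815.c3 * (ENNReal.ofReal a * X) ^ 2 *
            (5 * (ENNReal.ofReal a * X)) * Wt Φ w) := by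
          refine mul_le_mul' (ENNReal.ofReal_le_ofReal (norm_sub_le_mul v u)) (h2.trans ?_)
          gcongr
      _ = 40 * Sweep815.c3 * ENNReal.ofReal a ^ 3 * X ^ 4 * Wt Φ w := by ring
      _ = _ := by
          have e3 : X ^ 4 = ENNReal.ofReal ((1 + ‖v‖) ^ 4) * ENNReal.ofReal ((1 + ‖u‖) ^ 4) := by
            rw [hX, ← ENNReal.ofReal_pow (by positivity), mul_pow,
              ENNReal.ofReal_mul (by positivity)]
          rw [e3]
          ring
  calc ∫⁻ s in Ioc 0 te, ∫⁻ x : Space3, ∫⁻ v, nfI Φ ε a u (fun _ => 1) w x s v ∂μ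
      = ∫⁻ s in Ioc 0 te, ∫⁻ v, ∫⁻ x : Space3, nfI Φ ε a u (fun _ => 1) w x s v ∂volume ∂μ := by
        refine lintegral_congr fun s => ?_
        exact lintegral_lintegral_swap (m3 s).aemeasurable
    _ ≤ ∫⁻ _ in Ioc 0 te, 40 * Sweep815.c3 * ENNReal.ofReal a ^ 3 *
          ENNReal.ofReal ((1 + ‖u‖) ^ 4) * Wt Φ w * m4 μ := by
        refine lintegral_mono fun s => ?_
        refine (lintegral_mono fun v => hpt s v).trans (le_of_eq ?_)
        rw [lintegral_const_mul _ (by fun_prop)]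
        rfl
    _ = _ := by
        rw [setLIntegral_const, Real.volume_Ioc, sub_zero]
        ring

/-- The flux integral with velocity law `μ`. -/
def fluxM (te : ℝ) (μ : Measure Space3) (g : CF) (P : CTree) (z : PhasePoint × Par P) (m : ℕ)
    (w : Config m) : ℝ≥0∞ :=
  ∫⁻ s in Ioc 0 te, ∫⁻ v, ENNReal.ofReal ‖v - z.1.2‖ *
    ∫⁻ b in impactDisc (v - z.1.2), g P z m w s v b ∂μHE[2] ∂μ

theorem measurable_gcE_fluxM {g : CF} (hg : MeasCF g) (hf : Measurable f₀) (te : ℝ)
    (μ : Measure Space3) [SFinite μ] (P : CTree) :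
    Measurable fun z : PhasePoint × Par P => gcE f₀ ε (fun m w => fluxM te μ g P z m w) := by
  refine ToTree335.measurable_gcE_par hf fun m => ?_
  unfold fluxM
  refine Measurable.lintegral_prod_right' (f := fun q : ((PhasePoint × Par P) × Config m) × ℝ =>
    ∫⁻ v, ENNReal.ofReal ‖v - q.1.1.1.2‖ *
      ∫⁻ b in impactDisc (v - q.1.1.1.2), g P q.1.1 m q.1.2 q.2 v b ∂μHE[2] ∂μ) ?_
  refine Measurable.lintegral_prod_right' (f := fun q : (((PhasePoint × Par P) × Config m) × ℝ) ×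
    Space3 => ENNReal.ofReal ‖q.2 - q.1.1.1.1.2‖ *
      ∫⁻ b in impactDisc (q.2 - q.1.1.1.1.2), g P q.1.1.1 m q.1.1.2 q.1.2 q.2 b ∂μHE[2]) ?_
  have hu : Measurable fun q : (((PhasePoint × Par P) × Config m) × ℝ) × Space3 =>
      q.1.1.1.1.2 := measurable_snd.comp (measurable_fst.comp (measurable_fst.comp
        (measurable_fst.comp measurable_fst)))
  refine measurable_flux_disc (α := (((PhasePoint × Par P) × Config m) × ℝ) × Space3)
      (γ := fun q => q.2 - q.1.1.1.1.2) (measurable_snd.sub hu)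
      (f := fun q b => g P q.1.1.1 m q.1.1.2 q.1.2 q.2 b) ?_
  exact (hg P m).comp (f := fun q : ((((PhasePoint × Par P) × Config m) × ℝ) × Space3) ×
      Space3 => (q.1.1.1, (q.1.1.2, (q.1.2, q.2)))) (by fun_prop)

theorem fluxM_third (te a : ℝ) (μ : Measure Space3) (P : CTree) (z : PhasePoint × Par P)
    (m : ℕ) (w : Config m) :
    fluxM te μ (thirdG Φ ε a) P z m w = ENNReal.ofReal Real.pi *
      ∫⁻ s in Ioc 0 te, ∫⁻ v, nfI Φ ε a z.1.2 (fun _ => 1) w z.1.1 s v ∂μ := by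
  unfold fluxM thirdG nfI
  rw [← lintegral_const_mul' _ _ ENNReal.ofReal_ne_top]
  refine lintegral_congr fun s => ?_
  rw [← lintegral_const_mul' _ _ ENNReal.ofReal_ne_top]
  refine lintegral_congr fun v => ?_
  have h := norm_mul_disc_const (v - z.1.2) 1
    (nearI Φ ε w s a (a * (1 + ‖v‖ + ‖z.1.2‖)) (z.1.1 + s • z.1.2))
  simpa only [one_mul] using h

/-- Integral over the position of the root, third particle, velocity law `μ`. -/
theorem lintegral_third_mu (hΦ : AdmissiblePotential Φ) {A : Space3 → ℝ≥0∞} {C b : ℝ}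
    (hF : FOk f₀ A C b) (hε : 0 < ε) {a : ℝ} (ha : 0 < a) (te : ℝ) (P : CTree)
    (μ : Measure Space3) [SFinite μ] (hμ : m4 μ ≠ ∞) (q : Space3 × Par P) :
    ∫⁻ x : Space3, gcE f₀ ε (fun m w => fluxM te μ (thirdG Φ ε a) P ((x, q.1), q.2) m w) ≤
      ENNReal.ofReal Real.pi * (40 * Sweep815.c3 * ENNReal.ofReal te * ENNReal.ofReal a ^ 3 *
        ENNReal.ofReal ((1 + ‖q.1‖) ^ 4) * m4 μ *
          (ENNReal.ofReal (1 + 2 * stabB Φ) * (activity ε *
            ∫⁻ z, ENNReal.ofReal (f₀ z) * ENNReal.ofReal (1 + ‖z.2‖ ^ 2)))) := by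
  have hc3 : Sweep815.c3 ≠ ∞ := ENNReal.ofReal_ne_top
  have hms : ∀ n, Measurable (Function.uncurry fun (x : Space3) (w : Config n) =>
      ENNReal.ofReal Real.pi * ∫⁻ s in Ioc 0 te, ∫⁻ v, nfI Φ ε a q.1 (fun _ => 1) w x s v ∂μ) := by
    intro n
    have hm := measurable_nfI hΦ hε a q.1 (G := fun _ => 1) measurable_const n
    have m1 : Measurable fun p : ((Space3 × Config n) × ℝ) × Space3 =>
        nfI Φ ε a q.1 (fun _ => 1) p.1.1.2 p.1.1.1 p.1.2 p.2 :=
      hm.comp (f := fun p : ((Space3 × Config n) × ℝ) × Space3 =>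
        ((p.1.1.2, p.1.1.1), (p.1.2, p.2))) (by fun_prop)
    have m2 : Measurable fun p : (Space3 × Config n) × ℝ =>
        ∫⁻ v, nfI Φ ε a q.1 (fun _ => 1) p.1.2 p.1.1 p.2 v ∂μ := m1.lintegral_prod_right'
    exact m2.lintegral_prod_right'.const_mul _
  simp only [fluxM_third]
  rw [BadHit370.lintegral_gcE hF.meas ε volume hms]
  set c : ℝ≥0∞ := 40 * Sweep815.c3 * ENNReal.ofReal te * ENNReal.ofReal a ^ 3 *
        ENNReal.ofReal ((1 + ‖q.1‖) ^ 4) * m4 μ with hc
  have hct : c ≠ ∞ := by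
    rw [hc]
    refine ENNReal.mul_ne_top (ENNReal.mul_ne_top (ENNReal.mul_ne_top (ENNReal.mul_ne_top
      (ENNReal.mul_ne_top (by norm_num) hc3) ENNReal.ofReal_ne_top)
      (ENNReal.pow_ne_top ENNReal.ofReal_ne_top)) ENNReal.ofReal_ne_top) hμ
  have hπc : ENNReal.ofReal Real.pi * c ≠ ∞ := ENNReal.mul_ne_top ENNReal.ofReal_ne_top hct
  calc gcE f₀ ε (fun n w => ∫⁻ x : Space3, ENNReal.ofReal Real.pi *
        ∫⁻ s in Ioc 0 te, ∫⁻ v, nfI Φ ε a q.1 (fun _ => 1) w x s v ∂μ)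
      ≤ gcE f₀ ε (fun _ w => (ENNReal.ofReal Real.pi * c) * Wt Φ w) := by
        refine gcE_mono f₀ ε fun n w hw => ?_
        rw [lintegral_const_mul' _ _ ENNReal.ofReal_ne_top, mul_assoc]
        exact mul_le_mul' le_rfl (near_flux_mu_w hΦ hε hw ha q.1 μ)
    _ = (ENNReal.ofReal Real.pi * c) * gcE f₀ ε (fun _ w => Wt Φ w) := gcE_const_mul f₀ ε hπc _
    _ ≤ (ENNReal.ofReal Real.pi * c) * _ := mul_le_mul' le_rfl (gcE_Wt_le hF.meas hF.mass ε)
    _ = _ := by rw [mul_assoc]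

/-! ### The velocity law of the second line -/

theorem measurableSet_OkL (K : ℕ) : MeasurableSet {θ : Lab × LSt | OkL K θ} := by
  have h1 : Measurable fun θ : Lab × LSt => θ.1.1.1.1 :=
    measurable_fst.comp (measurable_fst.comp (measurable_fst.comp measurable_fst))
  have h2 : Measurable fun θ : Lab × LSt => θ.1.1.2 :=
    measurable_snd.comp (measurable_fst.comp measurable_fst)
  have h3 : Measurable fun θ : Lab × LSt => θ.2.1 := measurable_fst.comp measurable_snd
  have h4 : Measurable fun θ : Lab × LSt => θ.1.2.2 :=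
    measurable_snd.comp (measurable_snd.comp measurable_fst)
  have e : {θ : Lab × LSt | OkL K θ} = {θ : Lab × LSt | 0 < θ.1.1.1.1} ∩
      ({θ | 1 ≤ θ.1.1.2} ∩ ({θ | θ.1.1.2 ≤ K} ∩ ({θ | 0 < θ.2.1} ∩
        ({θ | 1 ≤ θ.1.2.2} ∩ {θ | θ.1.2.2 ≤ K})))) := by
    ext θ
    constructor
    · rintro ⟨a, b, c, d, e, f⟩
      exact ⟨a, b, c, d, e, f⟩
    · rintro ⟨a, b, c, d, e, f⟩
      exact ⟨a, b, c, d, e, f⟩
  rw [e]
  exact (measurableSet_lt measurable_const h1).inter ((measurableSet_le measurable_const h2).inter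
    ((measurableSet_le h2 measurable_const).inter ((measurableSet_lt measurable_const h3).inter
      ((measurableSet_le measurable_const h4).inter (measurableSet_le h4 measurable_const)))))

open scoped Classical in
/-- Density which localises the first line. -/
def chiV (K : ℕ) (te : ℝ) (θ : Lab × LSt) : ℝ≥0∞ :=
  if OkL K θ ∧ θ.2.1 ≤ te then PairS969.rho0 (posD θ) else 0

theorem measurable_chiV (K : ℕ) (te : ℝ) : Measurable (chiV K te) := by
  unfold chiV
  refine Measurable.ite ((measurableSet_OkL K).inter ?_)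
    (PairS969.measurable_rho0.comp measurable_posD) measurable_const
  exact measurableSet_le (measurable_fst.comp measurable_snd) measurable_const

theorem measurable_vel2 : Measurable fun θ : Lab × LSt => θ.2.2.2 :=
  measurable_snd.comp (measurable_snd.comp measurable_snd)

/-- Velocity law of the second line. -/
def muV (K : ℕ) (te : ℝ) (ν : Measure (Lab × LSt)) : Measure Space3 :=
  (ν.withDensity (chiV K te)).map fun θ => θ.2.2.2

instance (K : ℕ) (te : ℝ) (ν : Measure (Lab × LSt)) [SFinite ν] : SFinite (muV K te ν) := by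
  unfold muV; infer_instance

theorem lintegral_muV (K : ℕ) (te : ℝ) (ν : Measure (Lab × LSt)) {F : Space3 → ℝ≥0∞}
    (hF : Measurable F) : ∫⁻ v, F v ∂(muV K te ν) = ∫⁻ θ, chiV K te θ * F θ.2.2.2 ∂ν := by
  unfold muV
  have hFv : Measurable fun θ : Lab × LSt => F θ.2.2.2 := hF.comp measurable_vel2
  rw [lintegral_map hF measurable_vel2,
    lintegral_withDensity_eq_lintegral_mul _ (measurable_chiV K te) hFv]
  rfl

theorem OkL_shP (K : ℕ) (a : Space3) (θ : Lab × LSt) : OkL K (shP a θ) ↔ OkL K θ := by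
  constructor
  · rintro ⟨h1, h2, h3, h4, h5, h6⟩
    exact ⟨h1, h2, h3, h4, h5, h6⟩
  · rintro ⟨h1, h2, h3, h4, h5, h6⟩
    exact ⟨h1, h2, h3, h4, h5, h6⟩

open scoped Classical in
/-- The structure functional of `g` on pairs, small trees, labels `OkL`. -/
def sf2Of (ε : ℝ) (K : ℕ) (g : CF) : SF2 := fun P z m w θ =>
  if OkL K θ ∧ P.leaves ≤ K then g P z m w (cT ε z (eL θ)) θ.2.2.2 (cB ε z (eL θ)) else 0

theorem measSF2_sf2Of (ε : ℝ) (K : ℕ) {g : CF} (hg : MeasCF g) : MeasSF2 (sf2Of ε K g) := by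
  classical
  intro P m
  unfold sf2Of
  have he : Measurable fun q : (PhasePoint × Par P) × (Config m × (Lab × LSt)) =>
      eL q.2.2 := by
    unfold eL
    exact (measurable_snd.comp (measurable_snd.comp measurable_snd)).prodMk
      (measurable_snd.comp (measurable_snd.comp (measurable_fst.comp (measurable_snd.comp
        measurable_snd))))
  refine Measurable.ite ?_ ?_ measurable_const
  · by_cases hP : P.leaves ≤ K
    · simp only [hP, and_true]
      exact (measurable_snd.comp measurable_snd) (measurableSet_OkL K)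
    · simp only [hP, and_false]
      exact MeasurableSet.empty
  · have h1 : Measurable fun q : (PhasePoint × Par P) × (Config m × (Lab × LSt)) =>
        cT ε q.1 (eL q.2.2) :=
      (measurable_cT ε P).comp (f := fun q : (PhasePoint × Par P) × (Config m × (Lab × LSt)) =>
        (q.1, eL q.2.2)) (measurable_fst.prodMk he)
    have h2 : Measurable fun q : (PhasePoint × Par P) × (Config m × (Lab × LSt)) =>
        cB ε q.1 (eL q.2.2) :=
      (measurable_cB ε P).comp (f := fun q : (PhasePoint × Par P) × (Config m × (Lab × LSt)) =>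
        (q.1, eL q.2.2)) (measurable_fst.prodMk he)
    have h3 : Measurable fun q : (PhasePoint × Par P) × (Config m × (Lab × LSt)) =>
        (q.1, q.2.1) := measurable_fst.prodMk (measurable_fst.comp measurable_snd)
    have h4 : Measurable fun q : (PhasePoint × Par P) × (Config m × (Lab × LSt)) =>
        q.2.2.2.2.2 := measurable_vel2.comp (measurable_snd.comp measurable_snd)
    exact (hg P m).comp (f := fun q : (PhasePoint × Par P) × (Config m × (Lab × LSt)) =>
      ((q.1, q.2.1), (cT ε q.1 (eL q.2.2), (q.2.2.2.2.2, cB ε q.1 (eL q.2.2)))))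
      (h3.prodMk (h1.prodMk (h4.prodMk h2)))

/-- The inner integral. -/
theorem lintegral_ct_pair (hΦ : AdmissiblePotential Φ) (hε : 0 < ε) {K : ℕ} {te : ℝ}
    {ν : Measure (Lab × LSt)} (hν : InvFam shP (fun p : Lab × LSt => p.2) posD ν)
    {g : CF} (hg : MeasCF g) {P : CTree} (z : PhasePoint × Par P) {m : ℕ} (w : Config m) :
    ∫⁻ θ, {θ : Lab × LSt | (z, θ.2) ∈ ctSet Φ ε te P}.indicator
        (fun θ => sf2Of ε K g P z m w θ) θ ∂ν ≤
      ENNReal.ofReal (ε ^ 2) * fluxM te (muV K te ν) g P z m w := by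
  classical
  have hsf := hν.sf
  -- the integrand
  set H0 : ML → ℝ≥0∞ := fun l => g P z m w (cT ε z l) l.1.2.2 (cB ε z l) with hH0
  have hH0m : Measurable H0 := by
    have h1 : Measurable fun l : ML => cT ε z l :=
      (measurable_cT ε P).comp (f := fun l : ML => (z, l))
        (measurable_const.prodMk measurable_id)
    have h2 : Measurable fun l : ML => cB ε z l :=
      (measurable_cB ε P).comp (f := fun l : ML => (z, l))
        (measurable_const.prodMk measurable_id)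
    have h3 : Measurable fun l : ML => l.1.2.2 :=
      measurable_snd.comp (measurable_snd.comp measurable_fst)
    have h4 : Measurable fun _ : ML => (z, w) := measurable_const
    exact (hg P m).comp (f := fun l : ML => ((z, w), (cT ε z l, (l.1.2.2, cB ε z l))))
      (h4.prodMk (h1.prodMk (h3.prodMk h2)))
  have hct : MeasurableSet {θ : Lab × LSt | (z, θ.2) ∈ ctSet Φ ε te P} := by
    have hm : Measurable fun θ : Lab × LSt => ((z, θ.2) : (PhasePoint × Par P) × (ℝ × PhasePoint)) :=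
      measurable_const.prodMk measurable_snd
    exact hm (measurableSet_ctSet hΦ ε te P)
  have hsfm : Measurable fun θ : Lab × LSt => sf2Of ε K g P z m w θ :=
    (measSF2_sf2Of ε K hg P m).comp (f := fun θ : Lab × LSt => (z, (w, θ)))
      (measurable_const.prodMk (measurable_const.prodMk measurable_id))
  have hfm : Measurable ({θ : Lab × LSt | (z, θ.2) ∈ ctSet Φ ε te P}.indicator
      (fun θ => sf2Of ε K g P z m w θ)) := hsfm.indicator hct
  rw [hν.disint (χ := PairS969.rho0) PairS969.measurable_rho0 PairS969.lintegral_rho0 hfm]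
  -- the integral over the translations
  set J : Space3 → ℝ≥0∞ := fun v => ∫⁻ s in Ioc 0 te, ENNReal.ofReal ‖v - z.1.2‖ *
    ∫⁻ b in impactDisc (v - z.1.2), g P z m w s v b ∂μHE[2] with hJ
  have hkm : Measurable fun q : Space3 × ℝ => ENNReal.ofReal ‖q.1 - z.1.2‖ *
      ∫⁻ b in impactDisc (q.1 - z.1.2), g P z m w q.2 q.1 b ∂μHE[2] := by
    refine measurable_flux_disc (α := Space3 × ℝ) (γ := fun q => q.1 - z.1.2)
      (measurable_fst.sub measurable_const) (f := fun q b => g P z m w q.2 q.1 b) ?_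
    exact (hg P m).comp (f := fun q : (Space3 × ℝ) × Space3 =>
      ((z, w), (q.1.2, (q.1.1, q.2)))) (by fun_prop)
  have hJm : Measurable J := hkm.lintegral_prod_right'
  have key : ∀ θ : Lab × LSt, ∫⁻ a : Space3, {θ : Lab × LSt | (z, θ.2) ∈ ctSet Φ ε te P}.indicator
      (fun θ => sf2Of ε K g P z m w θ) (shP a θ) ≤
      if OkL K θ ∧ θ.2.1 ≤ te then ENNReal.ofReal (ε ^ 2) * J θ.2.2.2 else 0 := by
    intro θ
    by_cases hok : OkL K θ
    · have e1 : ∀ a : Space3, {θ : Lab × LSt | (z, θ.2) ∈ ctSet Φ ε te P}.indicator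
          (fun θ => sf2Of ε K g P z m w θ) (shP a θ) ≤
          {l : ML | (z, l.1) ∈ ctSet Φ ε te P}.indicator H0
            ((θ.2.1, (θ.2.2.1 + a, θ.2.2.2)), θ.1.2.2) := by
        intro a
        by_cases hc : shP a θ ∈ {θ : Lab × LSt | (z, θ.2) ∈ ctSet Φ ε te P}
        · have hc' : (((θ.2.1, (θ.2.2.1 + a, θ.2.2.2)), θ.1.2.2) : ML) ∈
              {l : ML | (z, l.1) ∈ ctSet Φ ε te P} := hc
          rw [indicator_of_mem hc, indicator_of_mem hc']
          unfold sf2Of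
          split_ifs
          · exact le_rfl
          · exact zero_le
        · rw [indicator_of_notMem hc]
          exact zero_le
      refine (lintegral_mono e1).trans ?_
      have e2 : ∫⁻ a : Space3, {l : ML | (z, l.1) ∈ ctSet Φ ε te P}.indicator H0
            ((θ.2.1, (θ.2.2.1 + a, θ.2.2.2)), θ.1.2.2) =
          ∫⁻ y : Space3, {l : ML | (z, l.1) ∈ ctSet Φ ε te P}.indicator H0
            ((θ.2.1, (y, θ.2.2.2)), θ.1.2.2) :=
        lintegral_add_left_eq_self (fun y : Space3 =>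
          {l : ML | (z, l.1) ∈ ctSet Φ ε te P}.indicator H0
            ((θ.2.1, (y, θ.2.2.2)), θ.1.2.2)) θ.2.2.1
      rw [e2, lintegral_ct_y hΦ hε z θ.2.1 θ.2.2.2 θ.1.2.2 hH0m]
      by_cases hte : θ.2.1 ≤ te
      · rw [if_pos ⟨hok, hte⟩]
        refine mul_le_mul' le_rfl ?_
        rw [hJ]
        simp only
        rw [lintegral_const_mul' _ _ ENNReal.ofReal_ne_top]
        by_cases hg0 : θ.2.2.2 - z.1.2 = 0
        · simp [hg0]
        refine mul_le_mul' le_rfl ?_
        have hsub : {s | θ.2.1 < s ∧ s ≤ te ∧ Valid Φ ε P s z.1.2 z.2} ⊆ Ioc 0 te := by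
          rintro s ⟨h1, h2, -⟩
          exact ⟨hok.e0.trans h1, h2⟩
        refine (lintegral_mono_set hsub).trans (lintegral_mono fun s => ?_)
        refine (setLIntegral_congr_fun (measurableSet_impactDisc _) fun b hb => ?_).le
        rw [hH0]
        simp only
        rw [cT_lineAt hε hg0 hb, cB_lineAt hε hg0 hb]
        rfl
      · rw [if_neg fun h => hte h.2]
        have hem : {s | θ.2.1 < s ∧ s ≤ te ∧ Valid Φ ε P s z.1.2 z.2} = ∅ := by
          ext s
          simp only [mem_ofPred_eq, mem_empty_iff_false, iff_false]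
          rintro ⟨h1, h2, -⟩
          exact hte (h1.le.trans h2)
        rw [hem]
        simp
    · have e1 : ∀ a : Space3, {θ : Lab × LSt | (z, θ.2) ∈ ctSet Φ ε te P}.indicator
          (fun θ => sf2Of ε K g P z m w θ) (shP a θ) = 0 := by
        intro a
        refine indicator_apply_eq_zero.2 fun _ => ?_
        unfold sf2Of
        rw [if_neg fun h => hok ((OkL_shP K a θ).1 h.1)]
      simp only [e1, lintegral_zero]
      exact zero_le
  calc ∫⁻ θ, PairS969.rho0 (posD θ) * (∫⁻ a : Space3,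
        {θ : Lab × LSt | (z, θ.2) ∈ ctSet Φ ε te P}.indicator
          (fun θ => sf2Of ε K g P z m w θ) (shP a θ)) ∂ν
      ≤ ∫⁻ θ, ENNReal.ofReal (ε ^ 2) * (chiV K te θ * J θ.2.2.2) ∂ν := by
        refine lintegral_mono fun θ => ?_
        refine (mul_le_mul' le_rfl (key θ)).trans (le_of_eq ?_)
        unfold chiV
        split_ifs
        · ring
        · simp
    _ = ENNReal.ofReal (ε ^ 2) * ∫⁻ v, J v ∂(muV K te ν) := by
        rw [lintegral_const_mul' _ _ ENNReal.ofReal_ne_top, lintegral_muV K te ν hJm]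
    _ = _ := by
        congr 1
        unfold fluxM
        rw [hJ]
        exact lintegral_lintegral_swap hkm.aemeasurable

/-! ### Structure integrals of pairs -/

/-- **Structure integral of a functional of the contact data.** -/
theorem OS2_le (hΦ : AdmissiblePotential Φ) (hε : 0 < ε) {K : ℕ} {te T' : ℝ}
    {ν : Measure (Lab × LSt)} (hν : InvFam shP (fun p : Lab × LSt => p.2) posD ν)
    {g : CF} (hg : MeasCF g) {H : SF2}
    (hH : ∀ P z m w θ, (z, θ.2) ∈ ctSet Φ ε te P → H P z m w θ ≤ sf2Of ε K g P z m w θ) :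
    OS2 Φ f₀ ε te T' ν H ≤ ∑ P ∈ GIVStep383.trees K, ∫⁻ z : PhasePoint × Par P,
      {z : PhasePoint × Par P | Valid Φ ε P T' z.1.2 z.2}.indicator
        (fun z => wt Φ P z.1.2 z.2 * (ToTree335.pf Φ f₀ ε P z *
          gcE f₀ ε (fun m w => fluxM te (muV K te ν) g P z m w))) z := by
  classical
  set c : ℝ≥0∞ := ENNReal.ofReal (ε ^ 2) with hc
  have hct : c ≠ ∞ := ENNReal.ofReal_ne_top
  have hin : ∀ (P : CTree) (z : PhasePoint × Par P) (m : ℕ) (w : Config m),
      ∫⁻ θ, {θ : Lab × LSt | (z, θ.2) ∈ ctSet Φ ε te P}.indicator (fun θ => H P z m w θ) θ ∂ν ≤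
      c * fluxM te (muV K te ν) g P z m w := by
    intro P z m w
    refine (lintegral_mono fun θ => ?_).trans (lintegral_ct_pair hΦ hε (K := K) hν hg z w)
    by_cases hθ : θ ∈ {θ : Lab × LSt | (z, θ.2) ∈ ctSet Φ ε te P}
    · rw [indicator_of_mem hθ, indicator_of_mem hθ]
      exact hH P z m w θ hθ
    · rw [indicator_of_notMem hθ]
      exact zero_le
  unfold OS2
  have hP0 : ∀ P : CTree, P ∉ GIVStep383.trees K →
      ∫⁻ z : PhasePoint × Par P, {z : PhasePoint × Par P | Valid Φ ε P T' z.1.2 z.2}.indicator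
      (fun z => wt Φ P z.1.2 z.2 * (ToTree335.pf Φ f₀ ε P z *
        gcE f₀ ε (fun m w => ∫⁻ θ, {θ : Lab × LSt | (z, θ.2) ∈ ctSet Φ ε te P}.indicator
          (fun θ => H P z m w θ) θ ∂ν))) z = 0 := by
    intro P hP
    have hP' : ¬ P.leaves ≤ K := fun h => hP (GIVStep383.mem_trees.2 h)
    have h0 : ∀ (z : PhasePoint × Par P) (m : ℕ) (w : Config m) (θ : Lab × LSt),
        {θ : Lab × LSt | (z, θ.2) ∈ ctSet Φ ε te P}.indicator (fun θ => H P z m w θ) θ = 0 := by
      intro z m w θ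
      refine indicator_apply_eq_zero.2 fun hθ => ?_
      have h1 := hH P z m w θ hθ
      unfold sf2Of at h1
      rw [if_neg fun h => hP' h.2] at h1
      exact le_antisymm h1 zero_le
    simp only [h0, lintegral_zero, gcE_zero, mul_zero, indicator_zero]
  rw [tsum_eq_sum (s := GIVStep383.trees K) (fun P hP => hP0 P hP)]
  calc activity ε * ∑ P ∈ GIVStep383.trees K, ∫⁻ z : PhasePoint × Par P,
        {z : PhasePoint × Par P | Valid Φ ε P T' z.1.2 z.2}.indicator
          (fun z => wt Φ P z.1.2 z.2 * (ToTree335.pf Φ f₀ ε P z *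
            gcE f₀ ε (fun m w => ∫⁻ θ, {θ : Lab × LSt | (z, θ.2) ∈ ctSet Φ ε te P}.indicator
              (fun θ => H P z m w θ) θ ∂ν))) z
      ≤ activity ε * ∑ P ∈ GIVStep383.trees K, c * ∫⁻ z : PhasePoint × Par P,
        {z : PhasePoint × Par P | Valid Φ ε P T' z.1.2 z.2}.indicator
          (fun z => wt Φ P z.1.2 z.2 * (ToTree335.pf Φ f₀ ε P z *
            gcE f₀ ε (fun m w => fluxM te (muV K te ν) g P z m w))) z := by
        refine mul_le_mul' le_rfl (Finset.sum_le_sum fun P _ => ?_)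
        rw [← lintegral_const_mul' _ _ hct]
        refine lintegral_mono fun z => ?_
        by_cases hz : z ∈ {z : PhasePoint × Par P | Valid Φ ε P T' z.1.2 z.2}
        · rw [indicator_of_mem hz, indicator_of_mem hz]
          have h2 : gcE f₀ ε (fun m w => ∫⁻ θ, {θ : Lab × LSt |
              (z, θ.2) ∈ ctSet Φ ε te P}.indicator (fun θ => H P z m w θ) θ ∂ν) ≤
              c * gcE f₀ ε (fun m w => fluxM te (muV K te ν) g P z m w) := by
            rw [← gcE_const_mul f₀ ε hct]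
            exact gcE_mono f₀ ε fun m w _ => hin P z m w
          refine (mul_le_mul' le_rfl (mul_le_mul' le_rfl h2)).trans (le_of_eq ?_)
          ring
        · rw [indicator_of_notMem hz, indicator_of_notMem hz]
          exact zero_le
    _ = (activity ε * ENNReal.ofReal ε ^ 2) * ∑ P ∈ GIVStep383.trees K,
        ∫⁻ z : PhasePoint × Par P, {z : PhasePoint × Par P | Valid Φ ε P T' z.1.2 z.2}.indicator
          (fun z => wt Φ P z.1.2 z.2 * (ToTree335.pf Φ f₀ ε P z *
            gcE f₀ ε (fun m w => fluxM te (muV K te ν) g P z m w))) z := by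
        rw [← Finset.mul_sum, hc, ENNReal.ofReal_pow hε.le]
        ring
    _ = _ := by rw [activity_mul_sq hε, one_mul]

/-- The velocity weight of the class dominates fourth moments. -/
structure Vel4 (Q : EPar) (PP : ℕ → PPar) (Cv : ℝ≥0∞) : Prop where
  fin : Cv ≠ ∞
  le : ∀ (K : ℕ) (z : LSt), z.1 ≤ Q.te →
    ENNReal.ofReal ((1 + ‖z.2.2‖) ^ 4) ≤ Cv * (PP K).W z

/-- Constant of the fourth moment. -/
def Dm4 (Q : EPar) (g0 : ℝ) (Cv : ℝ≥0∞) (K : ℕ) : ℝ≥0∞ :=
  volume (Metric.ball (0 : Space3) 1) * (16 * Cv * ((1 + ENNReal.ofReal Q.te) *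
    (ENNReal.ofReal Q.te * ((∫⁻ v : Space3, wG g0 v) * ∑' n : ℕ, markW Q.ρ K n))))

theorem lintegral_wG_ne_top {g0 : ℝ} (hg : 0 < g0) : ∫⁻ v : Space3, wG g0 v ≠ ∞ := by
  refine ne_top_of_le_ne_top (mom4_wG_ne_top hg) (lintegral_mono fun v => ?_)
  calc wG g0 v = wG g0 v * 1 := (mul_one _).symm
    _ ≤ wG g0 v * ENNReal.ofReal ((1 + ‖v‖) ^ 4) := by
        refine mul_le_mul' le_rfl ?_
        rw [← ENNReal.ofReal_one]
        refine ENNReal.ofReal_le_ofReal ?_
        exact one_le_pow₀ (by linarith [norm_nonneg v])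

theorem Dm4_ne_top {Q : EPar} {g0 : ℝ} (hQ : QOk Q g0) {Cv : ℝ≥0∞} (hCv : Cv ≠ ∞) (K : ℕ) :
    Dm4 Q g0 Cv K ≠ ∞ := by
  unfold Dm4
  refine ENNReal.mul_ne_top measure_ball_lt_top.ne (ENNReal.mul_ne_top
    (ENNReal.mul_ne_top (by norm_num) hCv) (ENNReal.mul_ne_top
      (ENNReal.add_ne_top.2 ⟨ENNReal.one_ne_top, ENNReal.ofReal_ne_top⟩)
      (ENNReal.mul_ne_top ENNReal.ofReal_ne_top (ENNReal.mul_ne_top
        (lintegral_wG_ne_top hQ.g0_pos) (tsum_markW_ne_top hQ.ρ_ne K)))))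

theorem lintegral_rho0_lineM {Q : EPar} {g0 : ℝ} (hQ : QOk Q g0) (K : ℕ) :
    ∫⁻ l, PairS969.rho0 (PairS969.posd l) ∂(lineM Q.γ Q.ρ K Q.te) ≤
      ENNReal.ofReal Q.te * ((∫⁻ v : Space3, wG g0 v) * ∑' n : ℕ, markW Q.ρ K n) := by
  have hm : Measurable fun l : ML => PairS969.rho0 (PairS969.posd l) :=
    PairS969.measurable_rho0.comp PairS969.measurable_posd
  rw [EBasic602.lintegral_lineM hQ.γ_meas hm]
  set S : ℝ≥0∞ := ∑' n : ℕ, markW Q.ρ K n with hS
  have h1 : ∀ (τ : ℝ) (v : Space3), ∫⁻ y : Space3, ∑' n : ℕ, markW Q.ρ K n *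
      PairS969.rho0 (PairS969.posd (((τ, (y, v)), n) : ML)) = S := by
    intro τ v
    have h2 : ∀ y : Space3, ∑' n : ℕ, markW Q.ρ K n *
        PairS969.rho0 (PairS969.posd (((τ, (y, v)), n) : ML)) = S * PairS969.rho0 y := by
      intro y
      rw [← ENNReal.tsum_mul_right]
      rfl
    simp only [h2]
    rw [lintegral_const_mul _ PairS969.measurable_rho0, PairS969.lintegral_rho0, mul_one]
  simp only [h1]
  calc ∫⁻ τ in Ioc 0 Q.te, ∫⁻ v : Space3, wG (Q.γ τ) v * S
      ≤ ∫⁻ _ in Ioc 0 Q.te, (∫⁻ v : Space3, wG g0 v) * S := by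
        refine setLIntegral_mono' measurableSet_Ioc fun τ hτ => ?_
        rw [lintegral_mul_const' _ _ (tsum_markW_ne_top hQ.ρ_ne K)]
        exact mul_le_mul' (lintegral_mono fun v => Kin796.wG_anti (hQ.γ_ge τ hτ) v) le_rfl
    _ = _ := by
        rw [setLIntegral_const, Real.volume_Ioc, sub_zero]
        ring

theorem one_add_pow4_boost (v u : Space3) (hu : ‖u‖ < 1) :
    ENNReal.ofReal ((1 + ‖v + u‖) ^ 4) ≤ 16 * ENNReal.ofReal ((1 + ‖v‖) ^ 4) := by
  have h1 : (16 : ℝ≥0∞) = ENNReal.ofReal 16 := by norm_num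
  rw [h1, ← ENNReal.ofReal_mul (by norm_num)]
  refine ENNReal.ofReal_le_ofReal ?_
  have h2 : 1 + ‖v + u‖ ≤ 2 * (1 + ‖v‖) := by
    have := norm_add_le v u
    linarith [norm_nonneg v]
  calc (1 + ‖v + u‖) ^ 4 ≤ (2 * (1 + ‖v‖)) ^ 4 := pow_le_pow_left₀ (by positivity) h2 4
    _ = 16 * (1 + ‖v‖) ^ 4 := by ring

/-- **Fourth moment of the velocity law.** -/
theorem m4_muV_le {Q : EPar} {g0 : ℝ} (hQ : QOk Q g0) {PP : ℕ → PPar} (hP : PPOk Q PP)
    {Cv : ℝ≥0∞} (hV : Vel4 Q PP Cv) {K : ℕ} {Ξ ν : Measure (Lab × LSt)} {c : ℝ≥0∞}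
    (h : PX (PP K) Ξ ν c) : m4 (muV K Q.te ν) ≤ Dm4 Q g0 Cv K * c := by
  classical
  have hpm : Measurable fun v : Space3 => ENNReal.ofReal ((1 + ‖v‖) ^ 4) := by fun_prop
  unfold m4
  rw [lintegral_muV K Q.te ν hpm]
  set G : Lab × LSt → ℝ≥0∞ := fun θ => (if θ.2.1 ≤ Q.te then
    PairS969.rho0 (PairS969.posd θ.1.1) * ENNReal.ofReal ((1 + ‖θ.2.2.2‖) ^ 4) else 0) with hG
  have hrm : Measurable fun θ : Lab × LSt => PairS969.rho0 (PairS969.posd θ.1.1) :=
    PairS969.measurable_rho0.comp (PairS969.measurable_posd.comp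
      (measurable_fst.comp measurable_fst))
  have hGm : Measurable G := by
    refine Measurable.ite (measurableSet_le (measurable_fst.comp measurable_snd)
      measurable_const) ?_ measurable_const
    exact hrm.mul (hpm.comp measurable_vel2)
  have h1 : ∫⁻ θ, chiV K Q.te θ * ENNReal.ofReal ((1 + ‖θ.2.2.2‖) ^ 4) ∂ν ≤ ∫⁻ θ, G θ ∂ν := by
    refine lintegral_mono fun θ => ?_
    rw [hG]
    unfold chiV
    by_cases ht : θ.2.1 ≤ Q.te
    · simp only
      rw [if_pos ht]
      refine mul_le_mul' ?_ le_rfl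
      split_ifs
      · exact le_rfl
      · exact zero_le
    · rw [if_neg fun h => ht h.2, zero_mul]
      exact zero_le
  refine h1.trans ((h.spr G hGm).trans ?_)
  set F : EDefs602.ML × ℝ → ℝ≥0∞ := fun q => PairS969.rho0 (PairS969.posd q.1) with hF
  have hFm : Measurable F := PairS969.measurable_rho0.comp
    (PairS969.measurable_posd.comp measurable_fst)
  set B : ℝ≥0∞ := volume (Metric.ball (0 : Space3) 1) with hB
  have h2 : ∀ p : Lab × LSt, Boost969.avgL sig G p ≤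
      (B * (16 * Cv)) * (F (p.1.1, p.1.2.1) * ((PP K).lam₁ ^ p.1.2.2 * (PP K).W p.2)) := by
    intro p
    unfold Boost969.avgL
    have h3 : ∀ u ∈ Metric.ball (0 : Space3) 1, G (p.1, Boost969.gal (sig p.1) u p.2) ≤
        (16 * Cv) * (F (p.1.1, p.1.2.1) * ((PP K).lam₁ ^ p.1.2.2 * (PP K).W p.2)) := by
      intro u hu
      have hu1 : ‖u‖ < 1 := by simpa using hu
      by_cases ht : p.2.1 ≤ Q.te
      · have hGe : G (p.1, Boost969.gal (sig p.1) u p.2) =
            PairS969.rho0 (PairS969.posd p.1.1) * ENNReal.ofReal ((1 + ‖p.2.2.2 + u‖) ^ 4) :=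
          if_pos ht
        rw [hGe]
        have h4 := one_add_pow4_boost p.2.2.2 u hu1
        have h5 := hV.le K p.2 ht
        have h6 : (1 : ℝ≥0∞) ≤ (PP K).lam₁ ^ p.1.2.2 := one_le_pow₀ (PP K).hlam₁
        calc PairS969.rho0 (PairS969.posd p.1.1) * ENNReal.ofReal ((1 + ‖p.2.2.2 + u‖) ^ 4)
            ≤ PairS969.rho0 (PairS969.posd p.1.1) * (16 * (Cv * (PP K).W p.2)) :=
              mul_le_mul' le_rfl (h4.trans (mul_le_mul' le_rfl h5))
          _ = (16 * Cv) * (PairS969.rho0 (PairS969.posd p.1.1) * (1 * (PP K).W p.2)) := by ring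
          _ ≤ _ := by gcongr
      · have hGe : G (p.1, Boost969.gal (sig p.1) u p.2) = 0 := if_neg ht
        rw [hGe]
        exact zero_le
    calc ∫⁻ u in Metric.ball (0 : Space3) 1, G (p.1, Boost969.gal (sig p.1) u p.2)
        ≤ ∫⁻ _ in Metric.ball (0 : Space3) 1,
          (16 * Cv) * (F (p.1.1, p.1.2.1) * ((PP K).lam₁ ^ p.1.2.2 * (PP K).W p.2)) :=
          setLIntegral_mono' measurableSet_ball h3
      _ = _ := by
          rw [setLIntegral_const, hB]
          ring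
  have hBt : B ≠ ∞ := measure_ball_lt_top.ne
  have hBC : B * (16 * Cv) ≠ ∞ :=
    ENNReal.mul_ne_top hBt (ENNReal.mul_ne_top (by norm_num) hV.fin)
  calc ∫⁻ p, Boost969.avgL sig G p ∂Ξ
      ≤ ∫⁻ p, (B * (16 * Cv)) *
        (F (p.1.1, p.1.2.1) * ((PP K).lam₁ ^ p.1.2.2 * (PP K).W p.2)) ∂Ξ := lintegral_mono h2
    _ = (B * (16 * Cv)) * ∫⁻ p, F (p.1.1, p.1.2.1) *
        ((PP K).lam₁ ^ p.1.2.2 * (PP K).W p.2) ∂Ξ := lintegral_const_mul' _ _ hBC
    _ ≤ (B * (16 * Cv)) * (c * (PP K).rhs F) := mul_le_mul' le_rfl (h.marg F hFm)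
    _ ≤ (B * (16 * Cv)) * (c * ((1 + ENNReal.ofReal Q.te) *
        (ENNReal.ofReal Q.te * ((∫⁻ v : Space3, wG g0 v) * ∑' n : ℕ, markW Q.ρ K n)))) := by
        refine mul_le_mul' le_rfl (mul_le_mul' le_rfl ?_)
        unfold PPar.rhs
        rw [hP.ell K, hP.hor K]
        have h7 := lintegral_rho0_lineM hQ K
        have e1 : ∀ l : ML, ∫⁻ s in Icc 0 Q.te, F (l, s) =
            ENNReal.ofReal Q.te * PairS969.rho0 (PairS969.posd l) := by
          intro l
          rw [hF]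
          simp only
          rw [setLIntegral_const, Real.volume_Icc, sub_zero, mul_comm]
        simp only [e1]
        rw [lintegral_const_mul' _ _ ENNReal.ofReal_ne_top, add_mul, one_mul]
        exact add_le_add h7 (mul_le_mul' le_rfl h7)
    _ = _ := by
        unfold Dm4
        rw [← hB]
        ring

/-- **(13f.1)** Third particle near the encounter of the second line. -/
theorem third_OS2_le (hΦ : AdmissiblePotential Φ) {A : Space3 → ℝ≥0∞} {C b g0 : ℝ}
    (hF : FOk f₀ A C b) {Q : EPar} (hQ : QOk Q g0) {PP : ℕ → PPar} (hP : PPOk Q PP)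
    {Cv : ℝ≥0∞} (hV : Vel4 Q PP Cv) (K : ℕ) (T' : ℝ) :
    ∃ D : ℝ≥0∞, D ≠ ∞ ∧ ∀ (ε : ℝ), 0 < ε → ∀ (a : ℝ), 0 < a →
      ∀ (Ξ ν : Measure (Lab × LSt)) (c : ℝ≥0∞), c ≠ ∞ → PX (PP K) Ξ ν c → ∀ H : SF2,
      (∀ P z m w θ, (z, θ.2) ∈ ctSet Φ ε Q.te P →
        H P z m w θ ≤ sf2Of ε K (thirdG Φ ε a) P z m w θ) →
      OS2 Φ f₀ ε Q.te T' ν H ≤ c * (D * (activity ε * ENNReal.ofReal a ^ 3)) := by
  have hb2 := half_pos hF.b_pos
  choose C' hC' using fun P : CTree => hF.maj.tree hΦ hb2 (half_lt_self hF.b_pos) P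
  set m2 : ℝ≥0∞ := ∫⁻ z, ENNReal.ofReal (f₀ z) * ENNReal.ofReal (1 + ‖z.2‖ ^ 2) with hm2
  set c1 : ℝ≥0∞ := ENNReal.ofReal Real.pi * (40 * Sweep815.c3 * ENNReal.ofReal Q.te *
    Dm4 Q g0 Cv K * (ENNReal.ofReal (1 + 2 * stabB Φ) * m2)) with hc1
  have hc3 : Sweep815.c3 ≠ ∞ := ENNReal.ofReal_ne_top
  have hD4 := Dm4_ne_top hQ hV.fin K
  have hc1t : c1 ≠ ∞ := by
    rw [hc1]
    refine ENNReal.mul_ne_top ENNReal.ofReal_ne_top (ENNReal.mul_ne_top (ENNReal.mul_ne_top
      (ENNReal.mul_ne_top (ENNReal.mul_ne_top (by norm_num) hc3) ENNReal.ofReal_ne_top)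
      hD4) (ENNReal.mul_ne_top ENNReal.ofReal_ne_top hF.mom))
  refine ⟨∑ P ∈ GIVStep383.trees K, c1 * ∫⁻ q : Space3 × Par P,
    domG (C' P) (b / 2) T' P q.1 q.2 * ENNReal.ofReal ((1 + ‖q.1‖) ^ 4), ?_, ?_⟩
  · refine ENNReal.sum_ne_top.2 fun P _ => ENNReal.mul_ne_top hc1t ?_
    exact lintegral_domG_pow_ne_top (hC' P).C_nonneg hb2 T' P 4
  · intro ε hε a ha Ξ ν c hcν hPX H hH
    have hν := hPX.invFam
    have := hPX.sfν
    have hμ4 := m4_muV_le hQ hP hV hPX
    have hμt : m4 (muV K Q.te ν) ≠ ∞ := ne_top_of_le_ne_top (ENNReal.mul_ne_top hD4 hcν) hμ4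
    refine (OS2_le hΦ hε hν (measCF_thirdG hΦ hε a) hH).trans ?_
    rw [Finset.sum_mul, Finset.mul_sum]
    refine Finset.sum_le_sum fun P _ => ?_
    refine ((hC' P).lintegral_x hε.le T'
      (F := fun z => gcE f₀ ε (fun m w =>
        fluxM Q.te (muV K Q.te ν) (thirdG Φ ε a) P z m w))
      (measurable_gcE_fluxM (measCF_thirdG hΦ hε a) hF.meas Q.te (muV K Q.te ν) P)).trans ?_
    have hkt : c * (c1 * (activity ε * ENNReal.ofReal a ^ 3)) ≠ ∞ :=
      ENNReal.mul_ne_top hcν (ENNReal.mul_ne_top hc1t (ENNReal.mul_ne_top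
            (activity_ne_top ε) (ENNReal.pow_ne_top ENNReal.ofReal_ne_top)))
    calc ∫⁻ q : Space3 × Par P, domG (C' P) (b / 2) T' P q.1 q.2 * ∫⁻ x : Space3,
          gcE f₀ ε (fun m w => fluxM Q.te (muV K Q.te ν) (thirdG Φ ε a) P ((x, q.1), q.2) m w)
        ≤ ∫⁻ q : Space3 × Par P, (c * (c1 * (activity ε * ENNReal.ofReal a ^ 3))) *
          (domG (C' P) (b / 2) T' P q.1 q.2 * ENNReal.ofReal ((1 + ‖q.1‖) ^ 4)) := by
          refine lintegral_mono fun q => ?_
          refine (mul_le_mul' le_rfl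
            (lintegral_third_mu hΦ hF hε ha Q.te P (muV K Q.te ν) hμt q)).trans ?_
          calc domG (C' P) (b / 2) T' P q.1 q.2 * (ENNReal.ofReal Real.pi * (40 * Sweep815.c3 *
                ENNReal.ofReal Q.te * ENNReal.ofReal a ^ 3 * ENNReal.ofReal ((1 + ‖q.1‖) ^ 4) *
                m4 (muV K Q.te ν) * (ENNReal.ofReal (1 + 2 * stabB Φ) * (activity ε * m2))))
              ≤ domG (C' P) (b / 2) T' P q.1 q.2 * (ENNReal.ofReal Real.pi * (40 * Sweep815.c3 *
                ENNReal.ofReal Q.te * ENNReal.ofReal a ^ 3 * ENNReal.ofReal ((1 + ‖q.1‖) ^ 4) *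
                (Dm4 Q g0 Cv K * c) * (ENNReal.ofReal (1 + 2 * stabB Φ) * (activity ε * m2)))) := by
                gcongr
            _ = _ := by
                rw [hc1]
                ring
      _ = (c * (c1 * (activity ε * ENNReal.ofReal a ^ 3))) * ∫⁻ q : Space3 × Par P,
          (domG (C' P) (b / 2) T' P q.1 q.2 * ENNReal.ofReal ((1 + ‖q.1‖) ^ 4)) :=
          lintegral_const_mul' _ _ hkt
      _ = _ := by ring

end Crest.Agent.R122.Third741
end
end

-- ▼ part R122/ThirdV2_796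
section

/-!
# Members of the tree near the encounter, fixed radius (row 122, helper796)

`MemM` : `Mem` with the radius `a (1 + M + |u|)`, `M` a number; `tendsto_lintegral_memM` : the mass of
the trees and contact times with `MemM` tends to `0` when `a → 0` (helper741's families).
-/

set_option autoImplicit false

open MeasureTheory Set Filter
open scoped ENNReal Classical Topology
open Crest.AnalysisR.Kinetic
open Crest.Agent.R122.Kin796 Crest.Agent.R122.Kin796.CTree Crest.Agent.R122.Tree674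
open Crest.Agent.R122.GC311 Crest.Agent.R122.EDefs602 Crest.Agent.R122.TreeLines335
open Crest.Agent.R122.OneC285 Crest.Agent.R122.Disc416 Crest.Agent.R122.OneC423
open Crest.Agent.R122.TreeDom974 Crest.Agent.R122.Third741 Crest.Agent.R122.PathFlow968

noncomputable section

namespace Crest.Agent.R122.ThirdV796

variable {Φ : Space3 → ℝ} {f₀ : PhasePoint → ℝ}

/-- The tree is valid at time `s`, and the root has just left its last window or an exit line is
`a (1 + M + |u|)`-close (up to the relative motion during `a`) to the root line at time `s`. -/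
def MemM (Φ : Space3 → ℝ) (te a ε : ℝ) (P : CTree) (q : Space3 × Par P) (s M : ℝ) : Prop :=
  (s ≤ te ∧ Valid Φ ε P s q.1 q.2) ∧ (s ≤ rel P q.2 (root P) + a ∨ ∃ i : Idx P, i ≠ root P ∧
    dist (onLine (LineMeas994.finM Φ ε P (0, q.1) q.2 i) s).1 (s • q.1) ≤
      a * (1 + M + ‖q.1‖) + a * ‖(LineMeas994.finM Φ ε P (0, q.1) q.2 i).2 - q.1‖)


theorem MemM.mono {te a ε : ℝ} {P : CTree} {q : Space3 × Par P} {s M M' : ℝ} (ha : 0 ≤ a)
    (hM : M ≤ M') (h : MemM Φ te a ε P q s M) : MemM Φ te a ε P q s M' := by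
  refine ⟨h.1, h.2.imp id ?_⟩
  rintro ⟨i, hi, hd⟩
  refine ⟨i, hi, hd.trans ?_⟩
  have : a * (1 + M + ‖q.1‖) ≤ a * (1 + M' + ‖q.1‖) :=
    mul_le_mul_of_nonneg_left (by linarith) ha
  linarith

/-- Indicator of `MemM`. -/
def memI (Φ : Space3 → ℝ) (te a ε : ℝ) (P : CTree) (q : Space3 × Par P) (s M : ℝ) : ℝ≥0∞ :=
  if MemM Φ te a ε P q s M then 1 else 0

theorem memI_le_one (te a ε : ℝ) (P : CTree) (q : Space3 × Par P) (s M : ℝ) :
    memI Φ te a ε P q s M ≤ 1 := by
  unfold memI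
  split_ifs
  · exact le_rfl
  · exact bot_le

theorem memI_eq (te a ε : ℝ) (P : CTree) (q : Space3 × Par P) (s : ℝ) (v b : Space3) :
    memI Φ te a ε P q s ‖v‖ = memF Φ te a ε P q s v b := rfl

theorem exists_norm_eq {M : ℝ} (hM : 0 ≤ M) : ∃ v : Space3, ‖v‖ = M := by
  refine ⟨M • EuclideanSpace.single (0 : Fin 3) (1 : ℝ), ?_⟩
  rw [norm_smul, Real.norm_eq_abs, abs_of_nonneg hM]
  simp

theorem measurable_memI (hΦ : AdmissiblePotential Φ) (te a ε : ℝ) (P : CTree) {M : ℝ}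
    (hM : 0 ≤ M) :
    Measurable fun x : (Space3 × Par P) × ℝ => memI Φ te a ε P x.1 x.2 M := by
  obtain ⟨v, rfl⟩ := exists_norm_eq hM
  exact Measurable.comp (g := fun x : (Space3 × Par P) × (ℝ × (Space3 × Space3)) =>
      memF Φ te a ε P x.1 x.2.1 x.2.2.1 x.2.2.2)
    (f := fun x : (Space3 × Par P) × ℝ => (x.1, (x.2, (v, (0 : Space3)))))
    (measurable_memF hΦ te a ε P) (by fun_prop)

/-- Convergence at generic parameters. -/
theorem tendsto_memI (hΦ : AdmissiblePotential Φ) {te : ℝ} {a : ℝ → ℝ}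
    (ha : Tendsto a (𝓝[>] 0) (𝓝 0)) {P : CTree} {q : Space3 × Par P}
    (hq : Valid Φ 0 P te q.1 q.2 → Gen Φ P (0, q.1) q.2) {s : ℝ} (hs : s ∈ Ioc 0 te)
    {M : ℝ} (hM : 0 ≤ M) :
    Tendsto (fun ε => memI Φ te (a ε) ε P q s M) (𝓝[>] 0) (𝓝 0) := by
  obtain ⟨v, rfl⟩ := exists_norm_eq hM
  exact tendsto_memF hΦ ha hq hs v 0

/-- The mass of the trees and contact times with `MemM` tends to `0`; any integrable majorant. -/
theorem tendsto_lintegral_memM_of (hΦ : AdmissiblePotential Φ) {te : ℝ} {a : ℝ → ℝ}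
    (ha : Tendsto a (𝓝[>] 0) (𝓝 0)) {P : CTree} {M : ℝ} (hM : 0 ≤ M)
    {D : Space3 × Par P → ℝ≥0∞} (hD : Measurable D) (hDt : ∫⁻ q, D q ≠ ∞) :
    Tendsto (fun ε => ∫⁻ q : Space3 × Par P, D q *
      ∫⁻ s in Ioc 0 te, memI Φ te (a ε) ε P q s M) (𝓝[>] 0) (𝓝 0) := by
  have hz : (0 : ℝ≥0∞) = ∫⁻ _q : Space3 × Par P, (0 : ℝ≥0∞) := by simp
  rw [hz]
  refine tendsto_lintegral_filter_of_dominated_convergence
    (fun q : Space3 × Par P => ENNReal.ofReal te * D q) ?_ ?_ ?_ ?_
  · refine Eventually.of_forall fun ε => hD.mul ?_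
    exact (measurable_memI hΦ te (a ε) ε P hM).lintegral_prod_right'
  · refine Eventually.of_forall fun ε => Eventually.of_forall fun q => ?_
    have h1 : ∫⁻ s in Ioc 0 te, memI Φ te (a ε) ε P q s M ≤ ENNReal.ofReal te := by
      refine (lintegral_mono fun s => memI_le_one te (a ε) ε P q s M).trans ?_
      rw [setLIntegral_const, Real.volume_Ioc, sub_zero, one_mul]
    calc D q * ∫⁻ s in Ioc 0 te, memI Φ te (a ε) ε P q s M ≤ D q * ENNReal.ofReal te :=
          mul_le_mul' le_rfl h1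
      _ = _ := mul_comm _ _
  · rw [lintegral_const_mul' _ _ ENNReal.ofReal_ne_top]
    exact ENNReal.mul_ne_top ENNReal.ofReal_ne_top hDt
  · have hDf : ∀ᵐ q, D q < ∞ := ae_lt_top hD hDt
    filter_upwards [TreeLim974.gen_ae_q hΦ P te, hDf] with q hq hDq
    have h2 : Tendsto (fun ε => ∫⁻ s in Ioc 0 te, memI Φ te (a ε) ε P q s M) (𝓝[>] 0)
        (𝓝 0) := by
      have hz' : (0 : ℝ≥0∞) = ∫⁻ _s in Ioc 0 te, (0 : ℝ≥0∞) := by simp
      rw [hz']
      refine tendsto_lintegral_filter_of_dominated_convergence (fun _ => 1) ?_ ?_ ?_ ?_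
      · refine Eventually.of_forall fun ε => ?_
        exact Measurable.comp (g := fun x : (Space3 × Par P) × ℝ =>
          memI Φ te (a ε) ε P x.1 x.2 M) (f := fun s : ℝ => (q, s))
          (measurable_memI hΦ te (a ε) ε P hM) (measurable_const.prodMk measurable_id)
      · exact Eventually.of_forall fun ε => Eventually.of_forall fun s =>
          memI_le_one te (a ε) ε P q s M
      · rw [setLIntegral_const, Real.volume_Ioc]
        exact ENNReal.mul_ne_top ENNReal.one_ne_top ENNReal.ofReal_ne_top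
      · filter_upwards [ae_restrict_mem measurableSet_Ioc] with s hs
        exact tendsto_memI hΦ ha hq hs hM
    have h3 := ENNReal.Tendsto.const_mul (a := D q) h2 (Or.inr hDq.ne)
    simpa using h3


/-- The same with a weight `(1 + |u|)^k`. -/
theorem tendsto_lintegral_memM_pow (hΦ : AdmissiblePotential Φ) {te : ℝ} {a : ℝ → ℝ}
    (ha : Tendsto a (𝓝[>] 0) (𝓝 0)) {C' b' T' : ℝ} (hC : 0 ≤ C') (hb : 0 < b') (P : CTree)
    {M : ℝ} (hM : 0 ≤ M) (k : ℕ) :
    Tendsto (fun ε => ∫⁻ q : Space3 × Par P, (domG C' b' T' P q.1 q.2 *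
      ENNReal.ofReal ((1 + ‖q.1‖) ^ k)) *
      ∫⁻ s in Ioc 0 te, memI Φ te (a ε) ε P q s M) (𝓝[>] 0) (𝓝 0) :=
  tendsto_lintegral_memM_of (D := fun q => domG C' b' T' P q.1 q.2 *
      ENNReal.ofReal ((1 + ‖q.1‖) ^ k)) hΦ ha hM
    ((measurable_domG hC b' T' P).mul (by fun_prop)) (lintegral_domG_pow_ne_top hC hb T' P k)

/-- **Pointwise**: another member of the tree near the encounter, at the level of `(z, s)`. -/
theorem memM_of_near {te a ε : ℝ} {P : CTree} {z : PhasePoint × Par P} {s M : ℝ}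
    (hs : s ≤ te) (hV : Valid Φ ε P s z.1.2 z.2)
    (h : s ≤ rel P z.2 (root P) + a ∨ ∃ i : Idx P, i ≠ root P ∧
      ∃ t : ℝ, |t - s| ≤ a ∧ dist (onLine (fin Φ ε P z.1 z.2 i) t).1
        (z.1.1 + t • z.1.2) ≤ a * (1 + M + ‖z.1.2‖)) :
    MemM Φ te a ε P (z.1.2, z.2) s M := by
  refine ⟨⟨hs, hV⟩, ?_⟩
  rcases h with h | ⟨i, hi, t, ht, hd⟩
  · exact Or.inl h
  · refine Or.inr ⟨i, hi, ?_⟩
    have hA : Adm Φ P z.1.2 z.2 := hV.1
    rw [LineMeas994.finM_of_adm ε (P := P) (ℓ := (0, z.1.2)) (p := z.2) hA]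
    have hsh := fin_shift (Φ := Φ) ε P z.1.1 z.1.2 z.2 i
    have hz : ((z.1.1, z.1.2) : PhasePoint) = z.1 := rfl
    rw [hz] at hsh
    set F := fin Φ ε P (0, z.1.2) z.2 i with hF
    rw [hsh] at hd
    have e1 : dist (onLine ((F.1 + z.1.1, F.2) : PhasePoint) t).1 (z.1.1 + t • z.1.2) =
        ‖F.1 + t • (F.2 - z.1.2)‖ := by
      rw [dist_eq_norm]
      congr 1
      simp only [onLine]
      module
    have e2 : dist (onLine F s).1 (s • z.1.2) = ‖F.1 + s • (F.2 - z.1.2)‖ := by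
      rw [dist_eq_norm]
      congr 1
      simp only [onLine]
      module
    rw [e1] at hd
    show dist (onLine F s).1 (s • z.1.2) ≤ _
    rw [e2]
    have e3 : F.1 + s • (F.2 - z.1.2) = (F.1 + t • (F.2 - z.1.2)) -
        (t - s) • (F.2 - z.1.2) := by module
    rw [e3]
    refine (norm_sub_le _ _).trans (add_le_add hd ?_)
    rw [norm_smul, Real.norm_eq_abs]
    exact mul_le_mul_of_nonneg_right ht (norm_nonneg _)

end Crest.Agent.R122.ThirdV796
end
end

-- ▼ part R122/ThirdNu2_741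

/-!
# Bad encounters of pairs (row 122, GAP-E, row 13f), part 2

* `long_OS2_le` (13f.2): long encounters, `lamR → 0`.
* `mem_OS2_le` (13f.3): another member of the tree near the encounter.
-/

set_option autoImplicit false

open MeasureTheory Set Filter Topology
open scoped ENNReal
open Crest.AnalysisR.Kinetic
open Crest.Agent.R122.Kin796 Crest.Agent.R122.Kin796.CTree Crest.Agent.R122.Tree674
open Crest.Agent.R122.Disc416 Crest.Agent.R122.Flux663 Crest.Agent.R122.OC663 Crest.Agent.R122.EDefs602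
open Crest.Agent.R122.GC311 Crest.Agent.R122.Flow671 Crest.Agent.R122.Loc45 Crest.Agent.R122.Mom974
open Crest.Agent.R122.OneC423 Crest.Agent.R122.TreeDom974 Crest.Agent.R122.OneC285
open Crest.Agent.R122.Pair292 hiding ML
open Crest.Agent.R122.PairD292
open Crest.Agent.R122.Boost969 (LSt posAt)
open Crest.Agent.R122.Long984 (longI measurable_longI longI_le_one longI_eq_zero)
open Crest.Agent.R122.OCout796 Crest.Agent.R122.Scat818
open Crest.Agent.R122.ThirdV796 (memI measurable_memI memI_le_one)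

noncomputable section

namespace Crest.Agent.R122.Third741

variable {Φ : Space3 → ℝ} {f₀ : PhasePoint → ℝ} {ε : ℝ}

/-! ### Long encounters: the kernel -/

theorem longI_rel (R : ℝ) (v u b : Space3) :
    longI Φ R (v, u, b) = longI Φ R (v - u, 0, b) := by
  unfold longI relB
  simp only [sub_zero]

/-- Flux of the long encounters at relative velocity `g`. -/
def lR (Φ : Space3 → ℝ) (R : ℝ) (g : Space3) : ℝ≥0∞ :=
  ENNReal.ofReal ‖g‖ * ∫⁻ b in impactDisc g, longI Φ R (g, 0, b) ∂μHE[2]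

theorem measurable_lR (hΦ : AdmissiblePotential Φ) (R : ℝ) : Measurable (lR Φ R) := by
  unfold lR
  refine measurable_lintegral_disc (α := Space3) (G := fun g => g) measurable_id
    (F := fun g b => longI Φ R (g, 0, b)) ?_
  exact (measurable_longI hΦ R).comp
    (measurable_fst.prodMk (measurable_const.prodMk measurable_snd))

theorem lR_le (R : ℝ) (g : Space3) : lR Φ R g ≤ ENNReal.ofReal Real.pi * ENNReal.ofReal ‖g‖ := by
  unfold lR
  have h := norm_mul_disc_const g 1 1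
  simp only [one_mul, mul_one] at h
  rw [← h]
  exact mul_le_mul' le_rfl (lintegral_mono fun b => longI_le_one R _)

theorem tendsto_lR (hΦ : AdmissiblePotential Φ) (g : Space3) :
    Tendsto (fun R => lR Φ R g) atTop (𝓝 0) := by
  by_cases hg : g = 0
  · have h0 : (fun R => lR Φ R g) = fun _ => 0 := by
      funext R
      unfold lR
      rw [hg, norm_zero, ENNReal.ofReal_zero, zero_mul]
    rw [h0]
    exact tendsto_const_nhds
  · have h1 : Tendsto (fun R => ∫⁻ b in impactDisc g, longI Φ R (g, 0, b) ∂μHE[2]) atTop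
        (𝓝 0) := by
      have hz : (0 : ℝ≥0∞) = ∫⁻ _b in impactDisc g, (0 : ℝ≥0∞) ∂μHE[2] := by simp
      rw [hz]
      refine tendsto_lintegral_filter_of_dominated_convergence (fun _ => 1) ?_ ?_ ?_ ?_
      · refine Eventually.of_forall fun R => ?_
        exact (measurable_longI hΦ R).comp
          (measurable_const.prodMk (measurable_const.prodMk measurable_id))
      · exact Eventually.of_forall fun R => Eventually.of_forall fun b => longI_le_one R _
      · rw [setLIntegral_const, measure_impactDisc hg, one_mul]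
        exact ENNReal.ofReal_ne_top
      · refine Eventually.of_forall fun b => ?_
        refine tendsto_const_nhds.congr' ?_
        filter_upwards [eventually_ge_atTop (max (tauM Φ (relB (g, 0, b)))
          (tauM Φ (relB (g, 0, b)) * ‖g - 0‖))] with R hR
        rw [longI_eq_zero.2 ⟨(le_max_left _ _).trans hR, (le_max_right _ _).trans hR⟩]
    have h2 := ENNReal.Tendsto.const_mul (a := ENNReal.ofReal ‖g‖) h1
      (Or.inr ENNReal.ofReal_ne_top)
    simpa [lR] using h2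

/-- Flux of the long encounters against a Gaussian. -/
def kapR (Φ : Space3 → ℝ) (c R : ℝ) : ℝ≥0∞ := ∫⁻ g : Space3, wG c g * lR Φ R g

theorem lintegral_wG_one_add {c : ℝ} (hc : 0 < c) :
    ∫⁻ u : Space3, wG c u * ENNReal.ofReal (1 + ‖u‖) ≠ ∞ := by
  refine ne_top_of_le_ne_top (mom4_wG_ne_top hc) (lintegral_mono fun u => ?_)
  refine mul_le_mul' le_rfl (ENNReal.ofReal_le_ofReal ?_)
  have h1 : (1 : ℝ) ≤ 1 + ‖u‖ := by linarith [norm_nonneg u]
  exact le_self_pow₀ h1 (by norm_num)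

theorem tendsto_kapR (hΦ : AdmissiblePotential Φ) {c : ℝ} (hc : 0 < c) :
    Tendsto (kapR Φ c) atTop (𝓝 0) := by
  have hz : (0 : ℝ≥0∞) = ∫⁻ _g : Space3, (0 : ℝ≥0∞) := by simp
  rw [hz]
  refine tendsto_lintegral_filter_of_dominated_convergence
    (fun g : Space3 => ENNReal.ofReal Real.pi * (wG c g * ENNReal.ofReal (1 + ‖g‖))) ?_ ?_ ?_ ?_
  · exact Eventually.of_forall fun R => (measurable_wG1 c).mul (measurable_lR hΦ R)
  · refine Eventually.of_forall fun R => Eventually.of_forall fun g => ?_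
    calc wG c g * lR Φ R g
        ≤ wG c g * (ENNReal.ofReal Real.pi * ENNReal.ofReal (1 + ‖g‖)) := by
          refine mul_le_mul' le_rfl ((lR_le R g).trans (mul_le_mul' le_rfl ?_))
          exact ENNReal.ofReal_le_ofReal (by linarith)
      _ = _ := by ring
  · rw [lintegral_const_mul' _ _ ENNReal.ofReal_ne_top]
    exact ENNReal.mul_ne_top ENNReal.ofReal_ne_top (lintegral_wG_one_add hc)
  · refine Eventually.of_forall fun g => ?_
    have h2 := ENNReal.Tendsto.const_mul (a := wG c g) (tendsto_lR hΦ g)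
      (Or.inr ENNReal.ofReal_ne_top)
    simpa using h2

/-- Flux of the long encounters of a line of velocity `v`, Gaussian root. -/
def laR (Φ : Space3 → ℝ) (c R : ℝ) (v : Space3) : ℝ≥0∞ :=
  ∫⁻ u : Space3, wG c u * lR Φ R (v - u)

/-- Supremum over the velocity of the line. -/
def lamR (Φ : Space3 → ℝ) (c R : ℝ) : ℝ≥0∞ :=
  ⨆ v : Space3, laR Φ c R v / ENNReal.ofReal ((1 + ‖v‖) ^ 4)

theorem laR_le_lamR (c R : ℝ) (v : Space3) :
    laR Φ c R v ≤ lamR Φ c R * ENNReal.ofReal ((1 + ‖v‖) ^ 4) := by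
  have h0 : ENNReal.ofReal ((1 + ‖v‖) ^ 4) ≠ 0 := by
    have : 0 < (1 + ‖v‖) ^ 4 := by positivity
    simpa using this
  have h1 : laR Φ c R v / ENNReal.ofReal ((1 + ‖v‖) ^ 4) ≤ lamR Φ c R :=
    le_iSup (fun v : Space3 => laR Φ c R v / ENNReal.ofReal ((1 + ‖v‖) ^ 4)) v
  exact (ENNReal.div_le_iff h0 ENNReal.ofReal_ne_top).1 h1

theorem laR_le_small (hΦ : AdmissiblePotential Φ) {c : ℝ} (hc : 0 < c) (R : ℝ) {M : ℝ}
    {v : Space3} (hv : ‖v‖ ≤ M) :
    laR Φ c R v ≤ ENNReal.ofReal (Real.exp (c * M ^ 2)) * kapR Φ (c / 2) R := by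
  have hm : Measurable fun g : Space3 => wG (c / 2) g * lR Φ R g :=
    (measurable_wG1 _).mul (measurable_lR hΦ R)
  unfold laR kapR
  rw [← lintegral_const_mul _ hm, ← lintegral_sub_left_eq_self (μ := (volume : Measure Space3))
    (fun g : Space3 => ENNReal.ofReal (Real.exp (c * M ^ 2)) *
      (wG (c / 2) g * lR Φ R g)) v]
  refine lintegral_mono fun u => ?_
  rw [← mul_assoc]
  refine mul_le_mul' ?_ le_rfl
  unfold wG
  rw [← ENNReal.ofReal_mul (Real.exp_nonneg _), ← Real.exp_add]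
  refine ENNReal.ofReal_le_ofReal (Real.exp_le_exp.2 ?_)
  have h1 : ‖v - u‖ ≤ ‖v‖ + ‖u‖ := norm_sub_le v u
  have h2 : ‖v - u‖ ^ 2 ≤ 2 * M ^ 2 + 2 * ‖u‖ ^ 2 := by
    have h3 : ‖v - u‖ ^ 2 ≤ (‖v‖ + ‖u‖) ^ 2 := pow_le_pow_left₀ (norm_nonneg _) h1 2
    have h4 : ‖v‖ ^ 2 ≤ M ^ 2 := pow_le_pow_left₀ (norm_nonneg _) hv 2
    nlinarith [sq_nonneg (‖v‖ - ‖u‖)]
  nlinarith

theorem laR_le_big (c R : ℝ) (v : Space3) :
    laR Φ c R v ≤ ENNReal.ofReal (1 + ‖v‖) * (ENNReal.ofReal Real.pi *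
      ∫⁻ u : Space3, wG c u * ENNReal.ofReal (1 + ‖u‖)) := by
  unfold laR
  rw [← lintegral_const_mul' _ _ ENNReal.ofReal_ne_top,
    ← lintegral_const_mul' _ _ ENNReal.ofReal_ne_top]
  refine lintegral_mono fun u => ?_
  calc wG c u * lR Φ R (v - u)
      ≤ wG c u * (ENNReal.ofReal Real.pi *
        ENNReal.ofReal ((1 + ‖v‖) * (1 + ‖u‖))) := by
        refine mul_le_mul' le_rfl ((lR_le R _).trans (mul_le_mul' le_rfl ?_))
        exact ENNReal.ofReal_le_ofReal (norm_sub_le_mul v u)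
    _ = _ := by
        rw [ENNReal.ofReal_mul (by positivity)]
        ring

theorem tendsto_lamR (hΦ : AdmissiblePotential Φ) {c : ℝ} (hc : 0 < c) :
    Tendsto (lamR Φ c) atTop (𝓝 0) := by
  rw [ENNReal.tendsto_nhds_zero]
  intro δ hδ
  set c1 : ℝ≥0∞ := ENNReal.ofReal Real.pi *
      ∫⁻ u : Space3, wG c u * ENNReal.ofReal (1 + ‖u‖) with hc1
  have hc1t : c1 ≠ ∞ := ENNReal.mul_ne_top ENNReal.ofReal_ne_top (lintegral_wG_one_add hc)
  obtain ⟨M, hM⟩ := ENNReal.exists_nat_mul_gt hδ.ne' hc1t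
  have hlim : Tendsto (fun R => ENNReal.ofReal (Real.exp (c * (M : ℝ) ^ 2)) *
      kapR Φ (c / 2) R) atTop (𝓝 0) := by
    have h2 := ENNReal.Tendsto.const_mul (a := ENNReal.ofReal (Real.exp (c * (M : ℝ) ^ 2)))
      (tendsto_kapR hΦ (half_pos hc)) (Or.inr ENNReal.ofReal_ne_top)
    simpa using h2
  filter_upwards [(ENNReal.tendsto_nhds_zero.1 hlim) δ hδ] with R hR
  unfold lamR
  refine iSup_le fun v => ENNReal.div_le_of_le_mul ?_
  have hv1 : (1 : ℝ) ≤ 1 + ‖v‖ := by linarith [norm_nonneg v]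
  rcases le_or_gt ‖v‖ M with hv | hv
  · calc laR Φ c R v ≤ δ := (laR_le_small hΦ hc R hv).trans hR
      _ = δ * 1 := (mul_one _).symm
      _ ≤ _ := by
          refine mul_le_mul' le_rfl ?_
          rw [← ENNReal.ofReal_one]
          exact ENNReal.ofReal_le_ofReal (one_le_pow₀ hv1)
  · calc laR Φ c R v ≤ ENNReal.ofReal (1 + ‖v‖) * c1 := laR_le_big c R v
      _ ≤ ENNReal.ofReal (1 + ‖v‖) * ((M : ℝ≥0∞) * δ) := mul_le_mul' le_rfl hM.le
      _ = δ * (ENNReal.ofReal (1 + ‖v‖) * ENNReal.ofReal (M : ℝ)) := by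
          rw [ENNReal.ofReal_natCast]
          ring
      _ ≤ δ * ENNReal.ofReal ((1 + ‖v‖) ^ 4) := by
          refine mul_le_mul' le_rfl ?_
          rw [← ENNReal.ofReal_mul (by positivity)]
          refine ENNReal.ofReal_le_ofReal ?_
          have h1 : (M : ℝ) ≤ 1 + ‖v‖ := by linarith
          have h2 : (1 + ‖v‖) * (M : ℝ) ≤ (1 + ‖v‖) ^ 2 := by
            rw [pow_two]
            exact mul_le_mul_of_nonneg_left h1 (by positivity)
          exact h2.trans (pow_le_pow_right₀ hv1 (by norm_num))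

/-! ### Long encounters: the structure integral -/

/-- Long encounters. -/
def longG (Φ : Space3 → ℝ) (R : ℝ) : CF := fun _P z _m _w _s v b => longI Φ R (v, z.1.2, b)

theorem measCF_longG (hΦ : AdmissiblePotential Φ) (R : ℝ) : MeasCF (longG Φ R) := by
  intro P m
  unfold longG
  have hu : Measurable fun q : ((PhasePoint × Par P) × Config m) × (ℝ × (Space3 × Space3)) =>
      q.1.1.1.2 := measurable_snd.comp (measurable_fst.comp (measurable_fst.comp measurable_fst))
  have hv : Measurable fun q : ((PhasePoint × Par P) × Config m) × (ℝ × (Space3 × Space3)) =>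
      q.2.2.1 := measurable_fst.comp (measurable_snd.comp measurable_snd)
  have hb : Measurable fun q : ((PhasePoint × Par P) × Config m) × (ℝ × (Space3 × Space3)) =>
      q.2.2.2 := measurable_snd.comp (measurable_snd.comp measurable_snd)
  exact (measurable_longI hΦ R).comp (hv.prodMk (hu.prodMk hb))

theorem fluxM_long (te R : ℝ) (μ : Measure Space3) (P : CTree) (z : PhasePoint × Par P)
    (m : ℕ) (w : Config m) :
    fluxM te μ (longG Φ R) P z m w = ENNReal.ofReal te * ∫⁻ v, lR Φ R (v - z.1.2) ∂μ := by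
  unfold fluxM longG
  rw [setLIntegral_const, Real.volume_Ioc, sub_zero, mul_comm]
  congr 1
  refine lintegral_congr fun v => ?_
  unfold lR
  congr 1
  refine lintegral_congr fun b => ?_
  exact longI_rel R v z.1.2 b

/-- **(13f.2)** Long encounters. -/
theorem long_OS2_le (hΦ : AdmissiblePotential Φ) {A : Space3 → ℝ≥0∞} {C b g0 : ℝ}
    (hF : FOk f₀ A C b) {Q : EPar} (hQ : QOk Q g0) {PP : ℕ → PPar} (hP : PPOk Q PP)
    {Cv : ℝ≥0∞} (hV : Vel4 Q PP Cv) (K : ℕ) (T' : ℝ) :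
    ∃ D : ℝ≥0∞, D ≠ ∞ ∧ ∀ (ε : ℝ), 0 < ε → ∀ (R : ℝ),
      ∀ (Ξ ν : Measure (Lab × LSt)) (c : ℝ≥0∞), c ≠ ∞ → PX (PP K) Ξ ν c → ∀ H : SF2,
      (∀ P z m w θ, (z, θ.2) ∈ ctSet Φ ε Q.te P →
        H P z m w θ ≤ sf2Of ε K (longG Φ R) P z m w θ) →
      OS2 Φ f₀ ε Q.te T' ν H ≤ c * (D * lamR Φ (b / 2) R) := by
  have hb2 := half_pos hF.b_pos
  choose C' hC' using fun P : CTree => hF.maj.tree hΦ hb2 (half_lt_self hF.b_pos) P
  have hD4 := Dm4_ne_top hQ hV.fin K
  set IA : ℝ≥0∞ := ∫⁻ x, A x with hIA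
  have hIAt : IA ≠ ∞ := hF.maj.fin
  refine ⟨∑ P ∈ GIVStep383.trees K, IA * (ENNReal.ofReal Q.te * (ENNReal.ofReal (C' P) *
    (∫⁻ p : Par P, domP (b / 2) T' P p) * Dm4 Q g0 Cv K)), ?_, ?_⟩
  · refine ENNReal.sum_ne_top.2 fun P _ => ENNReal.mul_ne_top hIAt (ENNReal.mul_ne_top
      ENNReal.ofReal_ne_top (ENNReal.mul_ne_top (ENNReal.mul_ne_top ENNReal.ofReal_ne_top
        (lintegral_domP_ne_top hb2 T' P)) hD4))
  · intro ε hε R Ξ ν c hcν hPX H hH
    have hν := hPX.invFam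
    have := hPX.sfν
    have hμ4 := m4_muV_le hQ hP hV hPX
    set μ : Measure Space3 := muV K Q.te ν with hμ
    refine (OS2_le hΦ hε hν (measCF_longG hΦ R) hH).trans ?_
    rw [Finset.sum_mul, Finset.mul_sum]
    refine Finset.sum_le_sum fun P _ => ?_
    have hC0 := (hC' P).C_nonneg
    set F : Space3 → ℝ≥0∞ := fun u => ENNReal.ofReal Q.te * ∫⁻ v, lR Φ R (v - u) ∂μ with hFd
    have hl2 : Measurable fun q : Space3 × Space3 => lR Φ R (q.2 - q.1) :=
      (measurable_lR hΦ R).comp (measurable_snd.sub measurable_fst)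
    have hFm : Measurable F := (hl2.lintegral_prod_right' (ν := μ)).const_mul _
    have hFq : Measurable fun q : Space3 × Par P => F q.1 := hFm.comp measurable_fst
    have hgc : ∀ z : PhasePoint × Par P, gcE f₀ ε (fun m w =>
        fluxM Q.te μ (longG Φ R) P z m w) ≤ F z.1.2 := by
      intro z
      simp only [fluxM_long]
      exact Long984.gcE_const_le hF.meas hF.mass ε _
    calc ∫⁻ z : PhasePoint × Par P, {z : PhasePoint × Par P | Valid Φ ε P T' z.1.2 z.2}.indicator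
          (fun z => wt Φ P z.1.2 z.2 * (ToTree335.pf Φ f₀ ε P z *
            gcE f₀ ε (fun m w => fluxM Q.te μ (longG Φ R) P z m w))) z
        ≤ ∫⁻ z : PhasePoint × Par P, {z : PhasePoint × Par P |
            Valid Φ ε P T' z.1.2 z.2}.indicator
          (fun z => wt Φ P z.1.2 z.2 * (ToTree335.pf Φ f₀ ε P z *
            (fun q : Space3 × Par P => F q.1) (z.1.2, z.2))) z := by
          refine lintegral_mono fun z => indicator_le_indicator ?_
          exact mul_le_mul' le_rfl (mul_le_mul' le_rfl (hgc z))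
      _ ≤ IA * ∫⁻ q : Space3 × Par P, domG (C' P) (b / 2) T' P q.1 q.2 * F q.1 :=
          (hC' P).lintegral_u hΦ hε.le T' hFq
      _ = IA * ((∫⁻ p : Par P, domP (b / 2) T' P p) * ∫⁻ u : Space3,
            ENNReal.ofReal (C' P * Real.exp (-(b / 2) * ‖u‖ ^ 2)) * F u) := by
          have hvol : (volume : Measure (Space3 × Par P)) =
            (volume : Measure Space3).prod (volume : Measure (Par P)) := rfl
          have hdm : Measurable fun q : Space3 × Par P =>
              domG (C' P) (b / 2) T' P q.1 q.2 * F q.1 :=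
            (measurable_domG hC0 (b / 2) T' P).mul hFq
          rw [hvol, lintegral_prod _ hdm.aemeasurable]
          congr 1
          rw [← lintegral_const_mul' _ _ (lintegral_domP_ne_top hb2 T' P)]
          refine lintegral_congr fun u => ?_
          have hdu : Measurable fun p : Par P => domG (C' P) (b / 2) T' P u p :=
            (measurable_domG hC0 (b / 2) T' P).comp
              (f := fun p : Par P => (u, p)) (by fun_prop)
          calc ∫⁻ p : Par P, domG (C' P) (b / 2) T' P u p * F u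
              = (∫⁻ p : Par P, domG (C' P) (b / 2) T' P u p) * F u := lintegral_mul_const _ hdu
            _ = _ := by
                rw [lintegral_domG hC0]
                ring
      _ = IA * ((∫⁻ p : Par P, domP (b / 2) T' P p) * (ENNReal.ofReal (C' P) *
            (ENNReal.ofReal Q.te * ∫⁻ v, laR Φ (b / 2) R v ∂μ))) := by
          congr 2
          have e1 : ∀ u : Space3, ENNReal.ofReal (C' P * Real.exp (-(b / 2) * ‖u‖ ^ 2)) * F u =
              ENNReal.ofReal (C' P) * (ENNReal.ofReal Q.te *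
                ∫⁻ v, wG (b / 2) u * lR Φ R (v - u) ∂μ) := by
            intro u
            have e2 : ∫⁻ v, wG (b / 2) u * lR Φ R (v - u) ∂μ =
                wG (b / 2) u * ∫⁻ v, lR Φ R (v - u) ∂μ :=
              lintegral_const_mul' _ _ ENNReal.ofReal_ne_top
            rw [e2, ENNReal.ofReal_mul hC0, hFd]
            unfold wG
            rw [neg_mul]
            ring
          simp only [e1]
          rw [lintegral_const_mul' _ _ ENNReal.ofReal_ne_top,
            lintegral_const_mul' _ _ ENNReal.ofReal_ne_top]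
          congr 2
          have hsw : Measurable fun q : Space3 × Space3 => wG (b / 2) q.1 * lR Φ R (q.2 - q.1) :=
            ((measurable_wG1 (b / 2)).comp measurable_fst).mul hl2
          rw [lintegral_lintegral_swap (f := fun (u : Space3) (v : Space3) =>
            wG (b / 2) u * lR Φ R (v - u)) hsw.aemeasurable]
          rfl
      _ ≤ IA * ((∫⁻ p : Par P, domP (b / 2) T' P p) * (ENNReal.ofReal (C' P) *
            (ENNReal.ofReal Q.te * (lamR Φ (b / 2) R * (Dm4 Q g0 Cv K * c))))) := by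
          have hpm : Measurable fun v : Space3 => ENNReal.ofReal ((1 + ‖v‖) ^ 4) := by fun_prop
          refine mul_le_mul' le_rfl (mul_le_mul' le_rfl (mul_le_mul' le_rfl
            (mul_le_mul' le_rfl ?_)))
          calc ∫⁻ v, laR Φ (b / 2) R v ∂μ
              ≤ ∫⁻ v, lamR Φ (b / 2) R * ENNReal.ofReal ((1 + ‖v‖) ^ 4) ∂μ :=
                lintegral_mono fun v => laR_le_lamR _ R v
            _ = lamR Φ (b / 2) R * m4 μ := lintegral_const_mul _ hpm
            _ ≤ _ := mul_le_mul' le_rfl hμ4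
      _ = _ := by ring

/-! ### Another member of the tree near the encounter -/

/-- Another member of the tree is close to the encounter, or the encounter is at most `a` after the
last one of the root. -/
def memG (Φ : Space3 → ℝ) (te a ε : ℝ) : CF := fun P z _m _w s v _b =>
  memI Φ te a ε P (z.1.2, z.2) s ‖v‖

theorem measCF_memG (hΦ : AdmissiblePotential Φ) (te a ε : ℝ) : MeasCF (memG Φ te a ε) := by
  intro P m
  unfold memG
  simp only [ThirdV796.memI_eq _ _ _ _ _ _ _ (0 : Space3)]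
  have hu : Measurable fun q : ((PhasePoint × Par P) × Config m) × (ℝ × (Space3 × Space3)) =>
      ((q.1.1.1.2, q.1.1.2) : Space3 × Par P) :=
    (measurable_snd.comp (measurable_fst.comp (measurable_fst.comp measurable_fst))).prodMk
      (measurable_snd.comp (measurable_fst.comp measurable_fst))
  have hs : Measurable fun q : ((PhasePoint × Par P) × Config m) × (ℝ × (Space3 × Space3)) =>
      q.2.1 := measurable_fst.comp measurable_snd
  have hv : Measurable fun q : ((PhasePoint × Par P) × Config m) × (ℝ × (Space3 × Space3)) =>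
      q.2.2.1 := measurable_fst.comp (measurable_snd.comp measurable_snd)
  exact Measurable.comp (g := fun x : (Space3 × Par P) × (ℝ × (Space3 × Space3)) =>
      ThirdV796.memF Φ te a ε P x.1 x.2.1 x.2.2.1 x.2.2.2)
    (f := fun q : ((PhasePoint × Par P) × Config m) × (ℝ × (Space3 × Space3)) =>
      (((q.1.1.1.2, q.1.1.2) : Space3 × Par P), (q.2.1, (q.2.2.1, (0 : Space3)))))
    (ThirdV796.measurable_memF hΦ te a ε P) (hu.prodMk (hs.prodMk (hv.prodMk measurable_const)))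

/-- Constant of the tail. -/
theorem fluxM_mem_le {te a : ℝ} (ha : 0 ≤ a) (M : ℕ) (μ : Measure Space3)
    [SFinite μ] (hΦ : AdmissiblePotential Φ) (P : CTree) (z : PhasePoint × Par P)
    (m : ℕ) (w : Config m) :
    fluxM te μ (memG Φ te a ε) P z m w ≤ ENNReal.ofReal Real.pi * (m4 μ *
      (ENNReal.ofReal (1 + ‖z.1.2‖) * ((∫⁻ s in Ioc 0 te, memI Φ te a ε P (z.1.2, z.2) s M) +
        ENNReal.ofReal te * ENNReal.ofReal (1 / (1 + (M : ℝ)))))) := by
  set u : Space3 := z.1.2 with hu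
  set q : Space3 × Par P := (z.1.2, z.2) with hq
  have hpm : Measurable fun v : Space3 => ENNReal.ofReal ((1 + ‖v‖) ^ 4) := by fun_prop
  have hpt : ∀ (s : ℝ) (v : Space3), ENNReal.ofReal ‖v - u‖ *
      ∫⁻ b in impactDisc (v - u), memG Φ te a ε P z m w s v b ∂μHE[2] ≤
      ENNReal.ofReal ((1 + ‖v‖) ^ 4) * (ENNReal.ofReal Real.pi * (ENNReal.ofReal (1 + ‖u‖) *
        (memI Φ te a ε P q s M + ENNReal.ofReal (1 / (1 + (M : ℝ)))))) := by
    intro s v
    have hv1 : (1 : ℝ) ≤ 1 + ‖v‖ := by linarith [norm_nonneg v]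
    have e1 : ENNReal.ofReal ‖v - u‖ *
        ∫⁻ b in impactDisc (v - u), memG Φ te a ε P z m w s v b ∂μHE[2] =
        ENNReal.ofReal Real.pi * (ENNReal.ofReal ‖v - u‖ * memI Φ te a ε P q s ‖v‖) := by
      have h := norm_mul_disc_const (v - u) 1 (memI Φ te a ε P q s ‖v‖)
      rw [one_mul, one_mul] at h
      exact h
    have e2 : memI Φ te a ε P q s ‖v‖ ≤ ENNReal.ofReal ((1 + ‖v‖) ^ 3) *
        (memI Φ te a ε P q s M + ENNReal.ofReal (1 / (1 + (M : ℝ)))) := by
      rcases le_or_gt ‖v‖ M with hv | hv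
      · have h1 : memI Φ te a ε P q s ‖v‖ ≤ memI Φ te a ε P q s M := by
          unfold memI
          by_cases h : ThirdV796.MemM Φ te a ε P q s ‖v‖
          · rw [if_pos h, if_pos (h.mono ha hv)]
          · rw [if_neg h]
            exact zero_le
        calc memI Φ te a ε P q s ‖v‖ ≤ 1 * (memI Φ te a ε P q s M + 0) := by
              rw [one_mul, add_zero]; exact h1
          _ ≤ _ := by
              refine mul_le_mul' ?_ (add_le_add le_rfl zero_le)
              rw [← ENNReal.ofReal_one]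
              exact ENNReal.ofReal_le_ofReal (one_le_pow₀ hv1)
      · calc memI Φ te a ε P q s ‖v‖ ≤ 1 := memI_le_one _ _ _ _ _ _ _
          _ ≤ ENNReal.ofReal ((1 + ‖v‖) ^ 3) * ENNReal.ofReal (1 / (1 + (M : ℝ))) := by
              rw [← ENNReal.ofReal_mul (by positivity), ← ENNReal.ofReal_one]
              refine ENNReal.ofReal_le_ofReal ?_
              have hM : (0 : ℝ) ≤ M := Nat.cast_nonneg M
              rw [mul_one_div, le_div_iff₀ (by positivity), one_mul]
              calc 1 + (M : ℝ) ≤ 1 + ‖v‖ := by linarith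
                _ ≤ (1 + ‖v‖) ^ 3 := le_self_pow₀ hv1 (by norm_num)
          _ ≤ _ := mul_le_mul' le_rfl le_add_self
    rw [e1]
    calc ENNReal.ofReal Real.pi * (ENNReal.ofReal ‖v - u‖ * memI Φ te a ε P q s ‖v‖)
        ≤ ENNReal.ofReal Real.pi * (ENNReal.ofReal ((1 + ‖v‖) * (1 + ‖u‖)) *
          (ENNReal.ofReal ((1 + ‖v‖) ^ 3) *
            (memI Φ te a ε P q s M + ENNReal.ofReal (1 / (1 + (M : ℝ)))))) :=
          mul_le_mul' le_rfl (mul_le_mul' (ENNReal.ofReal_le_ofReal (norm_sub_le_mul v u)) e2)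
      _ = _ := by
          rw [show (1 + ‖v‖) ^ 4 = (1 + ‖v‖) * (1 + ‖v‖) ^ 3 by ring,
            ENNReal.ofReal_mul (p := 1 + ‖v‖) (by positivity),
            ENNReal.ofReal_mul (p := 1 + ‖v‖) (by positivity)]
          ring
  have hms : Measurable fun s : ℝ => memI Φ te a ε P q s M :=
    Measurable.comp (g := fun x : (Space3 × Par P) × ℝ => memI Φ te a ε P x.1 x.2 M)
      (f := fun s : ℝ => (q, s)) (measurable_memI hΦ te a ε P (Nat.cast_nonneg M))
      (measurable_const.prodMk measurable_id)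
  unfold fluxM
  calc ∫⁻ s in Ioc 0 te, ∫⁻ v, ENNReal.ofReal ‖v - z.1.2‖ *
        ∫⁻ b in impactDisc (v - z.1.2), memG Φ te a ε P z m w s v b ∂μHE[2] ∂μ
      ≤ ∫⁻ s in Ioc 0 te, (m4 μ * (ENNReal.ofReal Real.pi * ENNReal.ofReal (1 + ‖u‖))) *
        (memI Φ te a ε P q s M + ENNReal.ofReal (1 / (1 + (M : ℝ)))) := by
        refine lintegral_mono fun s => ?_
        refine (lintegral_mono fun v => hpt s v).trans (le_of_eq ?_)
        rw [lintegral_mul_const _ hpm]
        unfold m4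
        ring
    _ = (m4 μ * (ENNReal.ofReal Real.pi * ENNReal.ofReal (1 + ‖u‖))) *
        ∫⁻ s in Ioc 0 te, (memI Φ te a ε P q s M + ENNReal.ofReal (1 / (1 + (M : ℝ)))) :=
        lintegral_const_mul _ (hms.add_const _)
    _ = _ := by
        rw [lintegral_add_right _ measurable_const, setLIntegral_const, Real.volume_Ioc, sub_zero]
        ring

/-- The null bound of the members. -/
def memN (Φ : Space3 → ℝ) (b te T' : ℝ) (C' : CTree → ℝ) (IA : ℝ≥0∞) (Dm : ℝ≥0∞) (K : ℕ) (a ε : ℝ) :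
    ℝ≥0∞ := ⨅ M : ℕ, ∑ P ∈ GIVStep383.trees K, IA * (ENNReal.ofReal Real.pi * (Dm *
      ((∫⁻ q : Space3 × Par P, (domG (C' P) b T' P q.1 q.2 * ENNReal.ofReal ((1 + ‖q.1‖) ^ 1)) *
        ∫⁻ s in Ioc 0 te, memI Φ te a ε P q s M) +
      (∫⁻ q : Space3 × Par P, (domG (C' P) b T' P q.1 q.2 * ENNReal.ofReal ((1 + ‖q.1‖) ^ 1))) *
        (ENNReal.ofReal te * ENNReal.ofReal (1 / (1 + (M : ℝ)))))))

theorem tendsto_memN (hΦ : AdmissiblePotential Φ) {b te T' : ℝ} (hb : 0 < b) {C' : CTree → ℝ}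
    (hC : ∀ P, 0 ≤ C' P) {IA : ℝ≥0∞} (hIA : IA ≠ ∞) {Dm : ℝ≥0∞} (hDm : Dm ≠ ∞) (K : ℕ)
    {a : ℝ → ℝ} (ha : Tendsto a (𝓝[>] 0) (𝓝 0)) :
    Tendsto (fun ε => memN Φ b te T' C' IA Dm K (a ε) ε) (𝓝[>] 0) (𝓝 0) := by
  have hJ : ∀ P : CTree, ∫⁻ q : Space3 × Par P, (domG (C' P) b T' P q.1 q.2 *
      ENNReal.ofReal ((1 + ‖q.1‖) ^ 1)) ≠ ∞ := fun P =>
    lintegral_domG_pow_ne_top (hC P) hb T' P 1
  -- the tail
  have hM0 : Tendsto (fun M : ℕ => ENNReal.ofReal (1 / (1 + (M : ℝ)))) atTop (𝓝 0) := by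
    rw [← ENNReal.ofReal_zero]
    refine ENNReal.tendsto_ofReal ?_
    have h := tendsto_one_div_add_atTop_nhds_zero_nat (𝕜 := ℝ)
    refine h.congr fun n => ?_
    rw [add_comm]
  have htail : Tendsto (fun M : ℕ => ∑ P ∈ GIVStep383.trees K, IA * (ENNReal.ofReal Real.pi *
      (Dm * ((∫⁻ q : Space3 × Par P, (domG (C' P) b T' P q.1 q.2 *
        ENNReal.ofReal ((1 + ‖q.1‖) ^ 1))) * (ENNReal.ofReal te *
          ENNReal.ofReal (1 / (1 + (M : ℝ)))))))) atTop (𝓝 0) := by
    have hz : (0 : ℝ≥0∞) = ∑ P ∈ GIVStep383.trees K, IA * (ENNReal.ofReal Real.pi *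
      (Dm * ((∫⁻ q : Space3 × Par P, (domG (C' P) b T' P q.1 q.2 *
        ENNReal.ofReal ((1 + ‖q.1‖) ^ 1))) * (ENNReal.ofReal te * 0)))) := by simp
    rw [hz]
    refine tendsto_finsetSum _ fun P _ => ?_
    refine ENNReal.Tendsto.const_mul ?_ (Or.inr hIA)
    refine ENNReal.Tendsto.const_mul ?_ (Or.inr ENNReal.ofReal_ne_top)
    refine ENNReal.Tendsto.const_mul ?_ (Or.inr hDm)
    refine ENNReal.Tendsto.const_mul ?_ (Or.inr (hJ P))
    exact ENNReal.Tendsto.const_mul hM0 (Or.inr ENNReal.ofReal_ne_top)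
  have hmain : ∀ M : ℕ, Tendsto (fun ε => ∑ P ∈ GIVStep383.trees K, IA * (ENNReal.ofReal Real.pi *
      (Dm * (∫⁻ q : Space3 × Par P, (domG (C' P) b T' P q.1 q.2 *
        ENNReal.ofReal ((1 + ‖q.1‖) ^ 1)) *
        ∫⁻ s in Ioc 0 te, memI Φ te (a ε) ε P q s M)))) (𝓝[>] 0) (𝓝 0) := by
    intro M
    have hz : (0 : ℝ≥0∞) = ∑ _P ∈ GIVStep383.trees K, IA * (ENNReal.ofReal Real.pi *
      (Dm * 0)) := by simp
    rw [hz]
    refine tendsto_finsetSum _ fun P _ => ?_
    refine ENNReal.Tendsto.const_mul ?_ (Or.inr hIA)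
    refine ENNReal.Tendsto.const_mul ?_ (Or.inr ENNReal.ofReal_ne_top)
    refine ENNReal.Tendsto.const_mul ?_ (Or.inr hDm)
    exact ThirdV796.tendsto_lintegral_memM_pow hΦ ha (hC P) hb P (Nat.cast_nonneg M) 1
  rw [ENNReal.tendsto_nhds_zero]
  intro δ hδ
  have hδ2 : 0 < δ / 2 := ENNReal.half_pos hδ.ne'
  obtain ⟨M, hM⟩ := ((ENNReal.tendsto_nhds_zero.1 htail) (δ / 2) hδ2).exists
  filter_upwards [(ENNReal.tendsto_nhds_zero.1 (hmain M)) (δ / 2) hδ2] with ε hε
  unfold memN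
  refine (iInf_le _ M).trans ?_
  rw [← ENNReal.add_halves δ]
  refine le_trans (le_of_eq ?_) (add_le_add hε hM)
  rw [← Finset.sum_add_distrib]
  refine Finset.sum_congr rfl fun P _ => ?_
  rw [← mul_add, ← mul_add, ← mul_add]

/-- **(13f.3)** Another member of the tree near the encounter. -/
theorem mem_OS2_le (hΦ : AdmissiblePotential Φ) {A : Space3 → ℝ≥0∞} {C b g0 : ℝ}
    (hF : FOk f₀ A C b) {Q : EPar} (hQ : QOk Q g0) {PP : ℕ → PPar} (hP : PPOk Q PP)
    {Cv : ℝ≥0∞} (hV : Vel4 Q PP Cv) (T' : ℝ) {a : ℝ → ℝ} (ha : Tendsto a (𝓝[>] 0) (𝓝 0))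
    (ha0 : ∀ ε, 0 < ε → 0 ≤ a ε) :
    ∃ δ : ℕ → ℝ → ℝ≥0∞, (∀ K, Tendsto (δ K) (𝓝[>] 0) (𝓝 0)) ∧ ∀ (K : ℕ) (ε : ℝ), 0 < ε →
      ∀ (Ξ ν : Measure (Lab × LSt)) (c : ℝ≥0∞), c ≠ ∞ → PX (PP K) Ξ ν c → ∀ H : SF2,
      (∀ P z m w θ, (z, θ.2) ∈ ctSet Φ ε Q.te P →
        H P z m w θ ≤ sf2Of ε K (memG Φ Q.te (a ε) ε) P z m w θ) →
      OS2 Φ f₀ ε Q.te T' ν H ≤ c * δ K ε := by
  have hb2 := half_pos hF.b_pos
  choose C' hC' using fun P : CTree => hF.maj.tree hΦ hb2 (half_lt_self hF.b_pos) P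
  set IA : ℝ≥0∞ := ∫⁻ x, A x with hIA
  have hIAt : IA ≠ ∞ := hF.maj.fin
  refine ⟨fun K ε => memN Φ (b / 2) Q.te T' C' IA (Dm4 Q g0 Cv K) K (a ε) ε, fun K =>
    tendsto_memN hΦ hb2 (fun P => (hC' P).C_nonneg) hIAt (Dm4_ne_top hQ hV.fin K) K ha, ?_⟩
  intro K ε hε Ξ ν c hcν hPX H hH
  have hν := hPX.invFam
  have := hPX.sfν
  have hμ4 := m4_muV_le hQ hP hV hPX
  set μ : Measure Space3 := muV K Q.te ν with hμ
  have hte := ha0 ε hε
  have hM : ∀ M : ℕ, OS2 Φ f₀ ε Q.te T' ν H ≤ c *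
      ∑ P ∈ GIVStep383.trees K, IA * (ENNReal.ofReal Real.pi * (Dm4 Q g0 Cv K *
      ((∫⁻ q : Space3 × Par P, (domG (C' P) (b / 2) T' P q.1 q.2 *
        ENNReal.ofReal ((1 + ‖q.1‖) ^ 1)) *
        ∫⁻ s in Ioc 0 Q.te, memI Φ Q.te (a ε) ε P q s M) +
      (∫⁻ q : Space3 × Par P, (domG (C' P) (b / 2) T' P q.1 q.2 *
        ENNReal.ofReal ((1 + ‖q.1‖) ^ 1))) *
        (ENNReal.ofReal Q.te * ENNReal.ofReal (1 / (1 + (M : ℝ))))))) := by
    intro M
    refine (OS2_le hΦ hε hν (measCF_memG hΦ Q.te (a ε) ε) hH).trans ?_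
    rw [Finset.mul_sum]
    refine Finset.sum_le_sum fun P _ => ?_
    have hC0 := (hC' P).C_nonneg
    have hmI : Measurable fun q : Space3 × Par P =>
        ∫⁻ s in Ioc 0 Q.te, memI Φ Q.te (a ε) ε P q s M :=
      (measurable_memI hΦ Q.te (a ε) ε P (Nat.cast_nonneg M)).lintegral_prod_right'
    have hw1 : Measurable fun q : Space3 × Par P => ENNReal.ofReal (1 + ‖q.1‖) := by fun_prop
    set F : Space3 × Par P → ℝ≥0∞ := fun q => (ENNReal.ofReal Real.pi * m4 μ) *
      (ENNReal.ofReal (1 + ‖q.1‖) * ((∫⁻ s in Ioc 0 Q.te, memI Φ Q.te (a ε) ε P q s M) +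
        ENNReal.ofReal Q.te * ENNReal.ofReal (1 / (1 + (M : ℝ))))) with hFd
    have hFm : Measurable F := (hw1.mul (hmI.add_const _)).const_mul _
    have hgc : ∀ z : PhasePoint × Par P, gcE f₀ ε (fun m w =>
        fluxM Q.te μ (memG Φ Q.te (a ε) ε) P z m w) ≤ F (z.1.2, z.2) := by
      intro z
      refine (gcE_mono f₀ ε fun m w _ => fluxM_mem_le hte M μ hΦ P z m w).trans ?_
      refine (Long984.gcE_const_le hF.meas hF.mass ε _).trans (le_of_eq ?_)
      rw [hFd]
      ring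
    calc ∫⁻ z : PhasePoint × Par P, {z : PhasePoint × Par P | Valid Φ ε P T' z.1.2 z.2}.indicator
          (fun z => wt Φ P z.1.2 z.2 * (ToTree335.pf Φ f₀ ε P z *
            gcE f₀ ε (fun m w => fluxM Q.te μ (memG Φ Q.te (a ε) ε) P z m w))) z
        ≤ ∫⁻ z : PhasePoint × Par P, {z : PhasePoint × Par P |
            Valid Φ ε P T' z.1.2 z.2}.indicator
          (fun z => wt Φ P z.1.2 z.2 * (ToTree335.pf Φ f₀ ε P z * F (z.1.2, z.2))) z := by
          refine lintegral_mono fun z => indicator_le_indicator ?_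
          exact mul_le_mul' le_rfl (mul_le_mul' le_rfl (hgc z))
      _ ≤ IA * ∫⁻ q : Space3 × Par P, domG (C' P) (b / 2) T' P q.1 q.2 * F q :=
          (hC' P).lintegral_u hΦ hε.le T' hFm
      _ = IA * ((ENNReal.ofReal Real.pi * m4 μ) *
          ((∫⁻ q : Space3 × Par P, (domG (C' P) (b / 2) T' P q.1 q.2 *
            ENNReal.ofReal ((1 + ‖q.1‖) ^ 1)) *
            ∫⁻ s in Ioc 0 Q.te, memI Φ Q.te (a ε) ε P q s M) +
          (∫⁻ q : Space3 × Par P, (domG (C' P) (b / 2) T' P q.1 q.2 *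
            ENNReal.ofReal ((1 + ‖q.1‖) ^ 1))) *
            (ENNReal.ofReal Q.te * ENNReal.ofReal (1 / (1 + (M : ℝ)))))) := by
          have hdm : Measurable fun q : Space3 × Par P =>
              domG (C' P) (b / 2) T' P q.1 q.2 * ENNReal.ofReal (1 + ‖q.1‖) :=
            (measurable_domG hC0 (b / 2) T' P).mul hw1
          have e1 : ∀ q : Space3 × Par P, domG (C' P) (b / 2) T' P q.1 q.2 * F q =
              (ENNReal.ofReal Real.pi * m4 μ) * ((domG (C' P) (b / 2) T' P q.1 q.2 *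
                ENNReal.ofReal (1 + ‖q.1‖)) * (∫⁻ s in Ioc 0 Q.te,
                  memI Φ Q.te (a ε) ε P q s M) + (domG (C' P) (b / 2) T' P q.1 q.2 *
                ENNReal.ofReal (1 + ‖q.1‖)) * (ENNReal.ofReal Q.te *
                  ENNReal.ofReal (1 / (1 + (M : ℝ))))) := by
            intro q
            rw [hFd]
            ring
          simp only [e1, pow_one]
          have h1 : Measurable fun q : Space3 × Par P => (domG (C' P) (b / 2) T' P q.1 q.2 *
              ENNReal.ofReal (1 + ‖q.1‖)) * ∫⁻ s in Ioc 0 Q.te, memI Φ Q.te (a ε) ε P q s M :=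
            hdm.mul hmI
          have h2 : Measurable fun q : Space3 × Par P => (domG (C' P) (b / 2) T' P q.1 q.2 *
              ENNReal.ofReal (1 + ‖q.1‖)) * (ENNReal.ofReal Q.te *
                  ENNReal.ofReal (1 / (1 + (M : ℝ)))) := hdm.mul_const _
          have h12 : Measurable fun q : Space3 × Par P => (domG (C' P) (b / 2) T' P q.1 q.2 *
              ENNReal.ofReal (1 + ‖q.1‖)) * (∫⁻ s in Ioc 0 Q.te, memI Φ Q.te (a ε) ε P q s M) +
              (domG (C' P) (b / 2) T' P q.1 q.2 * ENNReal.ofReal (1 + ‖q.1‖)) *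
                (ENNReal.ofReal Q.te * ENNReal.ofReal (1 / (1 + (M : ℝ)))) := h1.add h2
          rw [lintegral_const_mul _ h12, lintegral_add_left h1, lintegral_mul_const _ hdm]
      _ ≤ IA * ((ENNReal.ofReal Real.pi * (Dm4 Q g0 Cv K * c)) *
          ((∫⁻ q : Space3 × Par P, (domG (C' P) (b / 2) T' P q.1 q.2 *
            ENNReal.ofReal ((1 + ‖q.1‖) ^ 1)) *
            ∫⁻ s in Ioc 0 Q.te, memI Φ Q.te (a ε) ε P q s M) +
          (∫⁻ q : Space3 × Par P, (domG (C' P) (b / 2) T' P q.1 q.2 *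
            ENNReal.ofReal ((1 + ‖q.1‖) ^ 1))) *
            (ENNReal.ofReal Q.te * ENNReal.ofReal (1 / (1 + (M : ℝ)))))) :=
          mul_le_mul' le_rfl (mul_le_mul' (mul_le_mul' le_rfl hμ4) le_rfl)
      _ = _ := by ring
  by_cases hc0 : c = 0
  · have h0 := hM 0
    rw [hc0, zero_mul] at h0
    exact h0.trans zero_le
  · unfold memN
    rw [ENNReal.mul_iInf_of_ne hc0 hcν]
    exact le_iInf hM

end Crest.Agent.R122.Third741
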