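import Crest.Agent.R122.GateOSc_434
import Crest.Agent.R122.GateTree_522
import Crest.Agent.R122.LongE_984
import Crest.Agent.R122.ThirdNu2_741

/-!
# Structure-only events of the contact structures (row 122, H2 gate OS)

* `kL g` : flux constant; `ctInt_lineD_le`, `lineK_ctS_le` : mass of the test lines in contact with a
  tree, `≤ C ε² (1 + |u|)`.
* `osM_fst_le` : `∫ G θ.1 d(osM) ≤ C ∫ (1 + |u|) G d(treeM)`.
* `fLe_os_of_tree`, `fNull_os_of_tree`, `gNull_os_of_tree` : functionals / events of `(z, w)` which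
  are null over `GateT522.treeQ` are null over `osM`.
-/

set_option autoImplicit false
set_option linter.unusedSectionVars false

open MeasureTheory Set Filter Topology
open scoped ENNReal Classical
open Crest.AnalysisR.Kinetic
open Crest.Agent.R122.Kin796 Crest.Agent.R122.Kin796.CTree Crest.Agent.R122.Tree674
open Crest.Agent.R122.GC311 Crest.Agent.R122.EDefs602 Crest.Agent.R122.OneC285
open Crest.Agent.R122.Gate424 Crest.Agent.R122.Gate973 Crest.Agent.R122.OSMeas984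
open Crest.Agent.R122.OneC423 Crest.Agent.R122.GateT522 Crest.Agent.R122.InEq2
open Crest.Agent.R122.Disc416

noncomputable section

namespace Crest.Agent.R122.GateOS434

variable {Φ : Space3 → ℝ} {f₀ : PhasePoint → ℝ} {Q : EPar} {T' : ℝ} {P : CTree}

/-- Flux constant. -/
def kL (g : ℝ) : ℝ≥0∞ := ENNReal.ofReal Real.pi * ∫⁻ v : Space3, wG g v * ENNReal.ofReal (1 + ‖v‖)

theorem kL_ne_top {g : ℝ} (hg : 0 < g) : kL g ≠ ∞ :=
  ENNReal.mul_ne_top ENNReal.ofReal_ne_top (Third741.lintegral_wG_one_add hg)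

/-- Contact kernel of the line density. -/
theorem ctInt_lineD_le {ε s τ g : ℝ} (ℓ : PhasePoint) {γ : ℝ → ℝ} {ρ : ℝ≥0∞} (hρ : ρ ≠ ∞)
    (K : ℕ) (hg : g ≤ γ τ) :
    ctInt ε s ℓ τ (lineD γ ρ K) ≤
      (∑' n : ℕ, markW ρ K n) * (kL g * ENNReal.ofReal (1 + ‖ℓ.2‖)) := by
  unfold ctInt
  rw [← ENNReal.tsum_mul_right]
  refine ENNReal.tsum_le_tsum fun n => ?_
  have hmk : markW ρ K n ≠ ∞ := by
    unfold markW
    split_ifs
    · exact ENNReal.pow_ne_top hρ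
    · exact ENNReal.zero_ne_top
  have hu : ENNReal.ofReal (1 + ‖ℓ.2‖) ≠ ∞ := ENNReal.ofReal_ne_top
  have e1 : markW ρ K n * (kL g * ENNReal.ofReal (1 + ‖ℓ.2‖)) =
      ∫⁻ v : Space3, (markW ρ K n * (ENNReal.ofReal Real.pi * ENNReal.ofReal (1 + ‖ℓ.2‖))) *
        (wG g v * ENNReal.ofReal (1 + ‖v‖)) := by
    rw [lintegral_const_mul' _ _ (ENNReal.mul_ne_top hmk
      (ENNReal.mul_ne_top ENNReal.ofReal_ne_top hu))]
    unfold kL
    ring
  rw [e1]
  refine lintegral_mono fun v => ?_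
  by_cases hv : v - ℓ.2 = 0
  · simp [hv]
  have h1 : ∫⁻ b in impactDisc (v - ℓ.2), lineD γ ρ K (lineAt ε s ℓ τ v b n) ∂μHE[2] ≤
      (wG g v * markW ρ K n) * ENNReal.ofReal Real.pi := by
    calc ∫⁻ b in impactDisc (v - ℓ.2), lineD γ ρ K (lineAt ε s ℓ τ v b n) ∂μHE[2]
        ≤ ∫⁻ _b in impactDisc (v - ℓ.2), wG g v * markW ρ K n ∂μHE[2] := by
          refine lintegral_mono fun b => ?_
          exact mul_le_mul' (QExit814.wG_mono hg v) le_rfl
      _ = (wG g v * markW ρ K n) * ENNReal.ofReal Real.pi := by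
          rw [setLIntegral_const, measure_impactDisc hv]
  have h2 : ENNReal.ofReal ‖v - ℓ.2‖ ≤ ENNReal.ofReal (1 + ‖v‖) * ENNReal.ofReal (1 + ‖ℓ.2‖) := by
    rw [← ENNReal.ofReal_mul (by positivity)]
    refine ENNReal.ofReal_le_ofReal ?_
    have := norm_sub_le v ℓ.2
    nlinarith [norm_nonneg v, norm_nonneg ℓ.2, mul_nonneg (norm_nonneg v) (norm_nonneg ℓ.2)]
  refine (mul_le_mul' h2 h1).trans (le_of_eq ?_)
  ring

/-- **Mass of the test lines in contact with a tree.** -/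
theorem lineK_ctS_le (hΦ : AdmissiblePotential Φ) {ε : ℝ} (hε : 0 < ε) (K : ℕ)
    (hγm : Measurable Q.γ) (hρ : Q.ρ ≠ ∞) {g : ℝ} (hg : ∀ τ ∈ Ioc 0 Q.te, g ≤ Q.γ τ)
    (z : PhasePoint × Par P) :
    lineK Q.γ Q.ρ K (volume.restrict (Ioc 0 Q.te)) {l : ML | (z, l.1) ∈ ctSet Φ ε Q.te P} ≤
      ENNReal.ofReal (ε ^ 2) * (ENNReal.ofReal (Q.te ^ 2) * ((∑' n : ℕ, markW Q.ρ K n) *
        (kL g * ENNReal.ofReal (1 + ‖z.1.2‖)))) := by
  set mk : ℝ≥0∞ := ∑' n : ℕ, markW Q.ρ K n with hmk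
  have hct : MeasurableSet {l : ML | (z, l.1) ∈ ctSet Φ ε Q.te P} := by
    have hm : Measurable fun l : ML => ((z, l.1) : (PhasePoint × Par P) × (ℝ × PhasePoint)) :=
      measurable_const.prodMk measurable_fst
    exact hm (measurableSet_ctSet hΦ ε Q.te P)
  have hD : Measurable (lineD Q.γ Q.ρ K) := EBasic602.measurable_lineD hγm
  have e1 : lineK Q.γ Q.ρ K (volume.restrict (Ioc 0 Q.te)) {l : ML | (z, l.1) ∈ ctSet Φ ε Q.te P} =
      ∫⁻ l, {l : ML | (z, l.1) ∈ ctSet Φ ε Q.te P}.indicator (lineD Q.γ Q.ρ K) l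
        ∂(baseM (volume.restrict (Ioc 0 Q.te))) := by
    unfold lineK
    rw [withDensity_apply _ hct, ← lintegral_indicator hct]
  rw [e1, lintegral_ct hΦ hε z (volume.restrict (Ioc 0 Q.te)) hD]
  refine mul_le_mul' le_rfl ?_
  rcases le_or_gt Q.te 0 with hte | hte
  · rw [Ioc_eq_empty (not_lt.2 hte)]
    simp
  calc ∫⁻ τ in Ioc 0 Q.te, (∫⁻ s in Ioc τ Q.te,
        {s | s ≤ Q.te ∧ Valid Φ ε P s z.1.2 z.2}.indicator
          (fun s => ctInt ε s z.1 τ (lineD Q.γ Q.ρ K)) s)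
      ≤ ∫⁻ τ in Ioc 0 Q.te, (∫⁻ _s in Ioc 0 Q.te, mk * (kL g * ENNReal.ofReal (1 + ‖z.1.2‖))) := by
        refine setLIntegral_mono' measurableSet_Ioc fun τ hτ => ?_
        refine (lintegral_mono (g := fun _ => mk * (kL g * ENNReal.ofReal (1 + ‖z.1.2‖)))
          fun s => ?_).trans (lintegral_mono' (Measure.restrict_mono
            (Ioc_subset_Ioc_left hτ.1.le) le_rfl) le_rfl)
        refine (indicator_le_self _ _ _).trans ?_
        exact ctInt_lineD_le z.1 hρ K (hg τ hτ)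
    _ = ENNReal.ofReal (Q.te ^ 2) * (mk * (kL g * ENNReal.ofReal (1 + ‖z.1.2‖))) := by
        rw [setLIntegral_const, setLIntegral_const, Real.volume_Ioc, sub_zero, sq,
          ENNReal.ofReal_mul hte.le]
        ring

/-- **Structure-only functionals of contact structures.** -/
theorem osM_fst_le (hΦ : AdmissiblePotential Φ) {ε : ℝ} (hε : 0 < ε) (K : ℕ)
    (hγm : Measurable Q.γ) (hρ : Q.ρ ≠ ∞) {g : ℝ} (hg : ∀ τ ∈ Ioc 0 Q.te, g ≤ Q.γ τ)
    {G : PhasePoint × Par P → ℝ≥0∞} (hG : Measurable G) :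
    ∫⁻ θ, G θ.1 ∂(osM Φ f₀ ε K Q T' (volume.restrict (Ioc 0 Q.te)) P) ≤
      (ENNReal.ofReal (Q.te ^ 2) * ((∑' n : ℕ, markW Q.ρ K n) * kL g)) *
        ∫⁻ z, ENNReal.ofReal (1 + ‖z.1.2‖) * G z ∂(LN2.treeM Φ f₀ ε P T') := by
  rw [lintegral_osM hΦ P (F := fun θ : (PhasePoint × Par P) × ML => G θ.1)
    (hG.comp measurable_fst)]
  have h1 : ∀ z : PhasePoint × Par P,
      ∫⁻ l, (ctS Φ ε Q.te P).indicator (fun θ => G θ.1) (z, l)
        ∂(lineK Q.γ Q.ρ K (volume.restrict (Ioc 0 Q.te))) ≤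
      ENNReal.ofReal (ε ^ 2) * ((ENNReal.ofReal (Q.te ^ 2) * ((∑' n : ℕ, markW Q.ρ K n) * kL g)) *
        (ENNReal.ofReal (1 + ‖z.1.2‖) * G z)) := by
    intro z
    have hct : MeasurableSet {l : ML | (z, l.1) ∈ ctSet Φ ε Q.te P} := by
      have hm : Measurable fun l : ML => ((z, l.1) : (PhasePoint × Par P) × (ℝ × PhasePoint)) :=
        measurable_const.prodMk measurable_fst
      exact hm (measurableSet_ctSet hΦ ε Q.te P)
    have e2 : ∀ l : ML, (ctS Φ ε Q.te P).indicator (fun θ => G θ.1) (z, l) =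
        {l : ML | (z, l.1) ∈ ctSet Φ ε Q.te P}.indicator (fun _ => G z) l := fun l => rfl
    simp only [e2]
    rw [lintegral_indicator hct, setLIntegral_const]
    refine (mul_le_mul' le_rfl (lineK_ctS_le hΦ hε K hγm hρ hg z)).trans (le_of_eq ?_)
    ring
  refine (mul_le_mul' le_rfl (lintegral_mono h1)).trans ?_
  have hm1 : Measurable fun z : PhasePoint × Par P => ENNReal.ofReal (1 + ‖z.1.2‖) * G z := by
    refine Measurable.mul ?_ hG
    exact ((measurable_fst.snd.norm).const_add 1).ennreal_ofReal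
  rw [lintegral_const_mul' _ _ ENNReal.ofReal_ne_top, ← mul_assoc]
  have h2 : activity ε * ENNReal.ofReal (ε ^ 2) = 1 := by
    unfold activity
    rw [← ENNReal.ofReal_mul (by positivity), inv_mul_cancel₀ (by positivity),
      ENNReal.ofReal_one]
  rw [h2, one_mul, lintegral_const_mul _ hm1]

theorem one_add_root_le (hΦ : AdmissiblePotential Φ) (ε : ℝ) {z : PhasePoint × Par P}
    (h : Adm Φ P z.1.2 z.2) : ENNReal.ofReal (1 + ‖z.1.2‖) ≤ 2 * wQ Φ ε P z := by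
  have h1 := DomForest998.fin_sq_le (Φ := Φ) hΦ ε (ℓ := z.1) h (root P)
  rw [PathFlow968.fin_root] at h1
  have h2 : ∀ j, ‖(Tree674.lines Φ ε P z.1 z.2 j).2‖ ^ 2 = ‖(linesM Φ ε P z.1 z.2 j).2‖ ^ 2 := by
    intro j
    rw [linesM_of_adm ε h]
  simp only [h2] at h1
  have h3 : (1 : ℝ) + ∑ j, ‖(linesM Φ ε P z.1 z.2 j).2‖ ^ 2 ≤
      ∑ j, (1 + ‖(linesM Φ ε P z.1 z.2 j).2‖ ^ 2) := by
    rw [Finset.sum_add_distrib]
    have h4 : (1 : ℝ) ≤ ∑ _j : Idx P, (1 : ℝ) := by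
      rw [Finset.sum_const, nsmul_eq_mul, mul_one]
      exact_mod_cast card_idx_pos P
    linarith
  have h5 : ‖z.1.2‖ ≤ 1 + ‖z.1.2‖ ^ 2 := by nlinarith [sq_nonneg (‖z.1.2‖ - 1), norm_nonneg z.1.2]
  have h6 : 1 + ‖z.1.2‖ ≤ 2 * ∑ j, (1 + ‖(linesM Φ ε P z.1 z.2 j).2‖ ^ 2) := by
    nlinarith [sq_nonneg ‖z.1.2‖]
  have h7 := ENNReal.ofReal_le_ofReal h6
  rw [ENNReal.ofReal_mul (by norm_num : (0 : ℝ) ≤ 2), ENNReal.ofReal_ofNat,
    ENNReal.ofReal_sum_of_nonneg fun i _ => by positivity] at h7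
  exact h7




end Crest.Agent.R122.GateOS434

end
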