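import Crest.Agent.R122.CausalMeas_291

/-!
# Causal-past calculus (row 122, block F4): forests (several roots, different root times),
`Fin.append` versions, connected components of the contact graph in a window.
-/

set_option autoImplicit false

open Set Filter Topology MeasureTheory
open Crest.AnalysisR.Kinetic
open Crest.Agent.R122.Flow671 Crest.Agent.R122.Loc45

namespace Crest.Agent.R122.Causal291

/-! ### Forests -/

/-- Active set at time `s` of the exploration from a set of roots `(i, t)`. -/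
def ActF {ι : Type*} (C : ℝ → ι → ι → Prop) (R : Set (ι × ℝ)) (s : ℝ) : Set ι :=
  {k | ∃ r ∈ R, Past C r.2 r.1 s k}




@[simp] theorem ActF_singleton {ι : Type*} {C : ℝ → ι → ι → Prop} {i : ι} {t s : ℝ} :
    ActF C {(i, t)} s = Act C t i s := by
  ext k
  simp [ActF]


section forest

variable {ι₁ ι₂ κ : Type} [Finite ι₁] [Finite ι₂] [Finite κ]
variable {z₁ : ℝ → ι₁ → PhasePoint} {z₂ : ℝ → ι₂ → PhasePoint} {e₁ : κ → ι₁} {e₂ : κ → ι₂}
variable {ε T : ℝ}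

/-- Active set of a forest with roots in the common part, as a subset of the common part. -/
def ActCF (z₁ : ℝ → ι₁ → PhasePoint) (e₁ : κ → ι₁) (ε : ℝ) (R : Set (κ × ℝ)) (s : ℝ) : Set κ :=
  {k | ∃ r ∈ R, Past (Ct z₁ ε) r.2 (e₁ r.1) s (e₁ k)}

omit [Finite ι₁] [Finite κ] in
theorem ActCF_anti {R : Set (κ × ℝ)} : Antitone (ActCF z₁ e₁ ε R) := by
  rintro s s' h k ⟨r, hr, hk⟩
  exact ⟨r, hr, hk.mono h⟩

/-- **Comparison of a forest in two worlds.** -/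
theorem compareF (hz₁ : ∀ j, ContinuousOn (fun s => z₁ s j) (Icc 0 T))
    (hz₂ : ∀ j, ContinuousOn (fun s => z₂ s j) (Icc 0 T))
    (hloc : LocUniq ε T z₁ z₂) (he₁ : Function.Injective e₁) (he₂ : Function.Injective e₂)
    (R : Set (κ × ℝ)) (hR : ∀ r ∈ R, r.2 ≤ T)
    (hcl : ∀ r ∈ R, BC (Ct z₁ ε) r.2 (e₁ r.1) ⊆ range e₁)
    (h0 : ∀ k ∈ ActCF z₁ e₁ ε R 0, z₁ 0 (e₁ k) = z₂ 0 (e₂ k))
    (hav : ∀ s ∈ Icc 0 T, ∀ k ∈ ActCF z₁ e₁ ε R s, ∀ j, j ∉ e₂ '' ActCF z₁ e₁ ε R s →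
      ε < dist (z₁ s (e₁ k)).1 (z₂ s j).1) :
    (∀ s ∈ Icc 0 T, ∀ k ∈ ActCF z₁ e₁ ε R s, z₁ s (e₁ k) = z₂ s (e₂ k)) ∧
    (∀ r ∈ R, ∀ s, 0 ≤ s → ∀ k,
      Past (Ct z₂ ε) r.2 (e₂ r.1) s (e₂ k) ↔ Past (Ct z₁ ε) r.2 (e₁ r.1) s (e₁ k)) ∧
    (∀ r ∈ R, ∀ s, 0 ≤ s → ∀ j, Past (Ct z₂ ε) r.2 (e₂ r.1) s j → j ∈ range e₂) := by
  have hrange : ∀ r ∈ R, ∀ s, 0 ≤ s → ∀ j, Past (Ct z₁ ε) r.2 (e₁ r.1) s j → j ∈ range e₁ :=
    fun r hr s hs j hj => hcl r hr (hj.mono hs)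
  have hagree : ∀ s ∈ Icc 0 T, ∀ k ∈ ActCF z₁ e₁ ε R s, z₁ s (e₁ k) = z₂ s (e₂ k) := by
    refine agree_of_antitone hz₁ hz₂ hloc he₁ he₂ (fun s => ActCF z₁ e₁ ε R s)
      (fun s s' _ hss' _ => ActCF_anti hss') h0 ?_
    intro s hs hpast
    have hsI : s ∈ Icc 0 T := ⟨hs.1, hs.2.le⟩
    constructor
    · rintro k ⟨r, hr, hk⟩ j hj
      by_contra hle
      push Not at hle
      have h1 : Past (Ct z₁ ε) r.2 (e₁ r.1) s j := Past.contact hk hle
      obtain ⟨l, rfl⟩ := hrange r hr s hs.1 j h1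
      exact hj ⟨l, ⟨r, hr, h1⟩, rfl⟩
    · intro k hk j hj
      rw [← hpast s ⟨hs.1, le_rfl⟩ k hk]
      exact hav s hsI k hk j hj
  have hforw : ∀ r ∈ R, ∀ (s : ℝ) (j : ι₁), Past (Ct z₁ ε) r.2 (e₁ r.1) s j → 0 ≤ s →
      ∀ k, e₁ k = j → Past (Ct z₂ ε) r.2 (e₂ r.1) s (e₂ k) := by
    intro r hr s j h
    induction h with
    | root h =>
      intro _ k hk
      rw [he₁ hk]
      exact .root h
    | @step s s' j l h hc hss' ih =>
      intro hs0 k hk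
      subst hk
      have hs'0 : 0 ≤ s' := hs0.trans hss'
      obtain ⟨m, rfl⟩ := hrange r hr s' hs'0 j h
      have hm := ih hs'0 m rfl
      have hs'T : s' ≤ T := h.le.trans (hR r hr)
      refine .step hm ?_ hss'
      have hm1 : m ∈ ActCF z₁ e₁ ε R s' := ⟨r, hr, h⟩
      have hk1 : k ∈ ActCF z₁ e₁ ε R s' := ⟨r, hr, Past.contact h hc⟩
      change dist (z₂ s' (e₂ m)).1 (z₂ s' (e₂ k)).1 ≤ ε
      rw [← hagree s' ⟨hs'0, hs'T⟩ m hm1, ← hagree s' ⟨hs'0, hs'T⟩ k hk1]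
      exact hc
  have hback : ∀ r ∈ R, ∀ (s : ℝ) (j : ι₂), Past (Ct z₂ ε) r.2 (e₂ r.1) s j → 0 ≤ s →
      ∃ k, e₂ k = j ∧ Past (Ct z₁ ε) r.2 (e₁ r.1) s (e₁ k) := by
    intro r hr s j h
    induction h with
    | root h => exact fun _ => ⟨r.1, rfl, .root h⟩
    | @step s s' j l h hc hss' ih =>
      intro hs0
      have hs'0 : 0 ≤ s' := hs0.trans hss'
      have hs'T : s' ≤ T := h.le.trans (hR r hr)
      obtain ⟨m, rfl, hm⟩ := ih hs'0
      have hm1 : m ∈ ActCF z₁ e₁ ε R s' := ⟨r, hr, hm⟩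
      by_cases hl : l ∈ e₂ '' ActCF z₁ e₁ ε R s'
      · obtain ⟨k, hk, rfl⟩ := hl
        refine ⟨k, rfl, .step hm ?_ hss'⟩
        change dist (z₁ s' (e₁ m)).1 (z₁ s' (e₁ k)).1 ≤ ε
        rw [hagree s' ⟨hs'0, hs'T⟩ m hm1, hagree s' ⟨hs'0, hs'T⟩ k hk]
        exact hc
      · exfalso
        have h1 := hav s' ⟨hs'0, hs'T⟩ m hm1 l hl
        rw [hagree s' ⟨hs'0, hs'T⟩ m hm1] at h1
        exact absurd hc (not_le.2 h1)
  refine ⟨hagree, fun r hr s hs k => ⟨fun h => ?_, fun h => hforw r hr s _ h hs k rfl⟩,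
    fun r hr s hs j hj => ?_⟩
  · obtain ⟨k', hk', h'⟩ := hback r hr s _ h hs
    rwa [he₂ hk'] at h'
  · obtain ⟨k', hk', _⟩ := hback r hr s j hj hs
    exact ⟨k', hk'⟩

/-- Consequences of `compareF` for active sets and backward clusters. -/
theorem compareF_Act (hz₁ : ∀ j, ContinuousOn (fun s => z₁ s j) (Icc 0 T))
    (hz₂ : ∀ j, ContinuousOn (fun s => z₂ s j) (Icc 0 T))
    (hloc : LocUniq ε T z₁ z₂) (he₁ : Function.Injective e₁) (he₂ : Function.Injective e₂)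
    (R : Set (κ × ℝ)) (hR : ∀ r ∈ R, r.2 ≤ T)
    (hcl : ∀ r ∈ R, BC (Ct z₁ ε) r.2 (e₁ r.1) ⊆ range e₁)
    (h0 : ∀ k ∈ ActCF z₁ e₁ ε R 0, z₁ 0 (e₁ k) = z₂ 0 (e₂ k))
    (hav : ∀ s ∈ Icc 0 T, ∀ k ∈ ActCF z₁ e₁ ε R s, ∀ j, j ∉ e₂ '' ActCF z₁ e₁ ε R s →
      ε < dist (z₁ s (e₁ k)).1 (z₂ s j).1) :
    ∀ r ∈ R, ∀ s, 0 ≤ s →
      Act (Ct z₂ ε) r.2 (e₂ r.1) s = e₂ '' {k | e₁ k ∈ Act (Ct z₁ ε) r.2 (e₁ r.1) s} := by
  obtain ⟨_, h2, h3⟩ := compareF hz₁ hz₂ hloc he₁ he₂ R hR hcl h0 hav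
  intro r hr s hs
  ext j
  constructor
  · intro hj
    obtain ⟨k, rfl⟩ := h3 r hr s hs j hj
    exact ⟨k, (h2 r hr s hs k).1 hj, rfl⟩
  · rintro ⟨k, hk, rfl⟩
    exact (h2 r hr s hs k).2 hk

end forest

/-! ### Worlds `V`, `W` and `V ∪ W` (`Fin.append`) -/

section append

variable {Φ : Space3 → ℝ} {ε : ℝ}

/-- Factorisation: if all particles of `Z` which are not active in the isolated world `V` stay at
distance more than `ε` from the protected tubes of the isolated world `V` (roots `R`), then the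
protected tubes of `Z = V ∪ W` are the isolated ones. -/
theorem compare_append (hΦ : AdmissiblePotential Φ) (hε : 0 < ε) {k m : ℕ} {V : Config k}
    {W : Config m} (hVW : Fin.append V W ∈ Dom Φ (Fin (k + m))) (R : Set (Fin k × ℝ)) {T : ℝ}
    (hR : ∀ r ∈ R, r.2 ≤ T)
    (hav : ∀ s ∈ Icc 0 T, ∀ l ∈ ActF (Ct (pth Φ ε V) ε) R s, ∀ j,
      j ∉ Fin.castAdd m '' ActF (Ct (pth Φ ε V) ε) R s →
      ε < dist (pth Φ ε V s l).1 (pth Φ ε (Fin.append V W) s j).1) :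
    (∀ s ∈ Icc 0 T, ∀ l ∈ ActF (Ct (pth Φ ε V) ε) R s,
      pth Φ ε V s l = pth Φ ε (Fin.append V W) s (Fin.castAdd m l)) ∧
    ∀ r ∈ R, ∀ s, 0 ≤ s → Act (Ct (pth Φ ε (Fin.append V W)) ε) r.2 (Fin.castAdd m r.1) s =
      Fin.castAdd m '' Act (Ct (pth Φ ε V) ε) r.2 r.1 s := by
  have hV : V ∈ Dom Φ (Fin k) := by
    have := dom_comp hVW (e := Fin.castAdd m) (Fin.castAdd_injective k m)
    simpa using this
  have hz₁ : ∀ j, ContinuousOn (fun s => pth Φ ε V s j) (Icc 0 T) := fun j =>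
    (continuous_pth hΦ hε V j).continuousOn
  have hz₂ : ∀ j, ContinuousOn (fun s => pth Φ ε (Fin.append V W) s j) (Icc 0 T) := fun j =>
    (continuous_pth hΦ hε _ j).continuousOn
  have hloc := locUniq_pth hΦ hε T hV hVW
  have hcl : ∀ r ∈ R, BC (Ct (pth Φ ε V) ε) r.2 (id r.1) ⊆ range (id : Fin k → Fin k) := by
    intro r _
    rw [range_id]
    exact subset_univ _
  have h0 : ∀ l ∈ ActCF (pth Φ ε V) id ε R 0,
      pth Φ ε V 0 (id l) = pth Φ ε (Fin.append V W) 0 (Fin.castAdd m l) := by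
    intro l _
    simp only [pth, flow_zero hΦ hε, id_eq, Fin.append_left]
  have hinj : Function.Injective (Fin.castAdd m : Fin k → Fin (k + m)) :=
    Fin.castAdd_injective k m
  refine ⟨(compareF hz₁ hz₂ hloc Function.injective_id hinj R hR hcl h0 hav).1, ?_⟩
  intro r hr s hs
  exact compareF_Act hz₁ hz₂ hloc Function.injective_id hinj R hR hcl h0 hav r hr s hs


/-- The worlds `W` and `V ∪ W`: particles of `W` outside the forward causal closure have the same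
history. -/
theorem agree_append (hΦ : AdmissiblePotential Φ) (hε : 0 < ε) {k m : ℕ} {V : Config k}
    {W : Config m} (hVW : Fin.append V W ∈ Dom Φ (Fin (k + m))) {T s : ℝ} (hs : s ≤ T)
    {l : Fin m} (hl : ¬ Fut (pth Φ ε W) (pth Φ ε (Fin.append V W)) id (Fin.natAdd k) ε s l)
    {s' : ℝ} (hs' : s' ∈ Icc 0 s) :
    pth Φ ε W s' l = pth Φ ε (Fin.append V W) s' (Fin.natAdd k l) := by
  have hW : W ∈ Dom Φ (Fin m) := by
    have := dom_comp hVW (e := Fin.natAdd k) (Fin.natAdd_injective m k)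
    simpa using this
  exact agree_history_of_not_fut (T := T) (fun j => (continuous_pth hΦ hε W j).continuousOn)
    (fun j => (continuous_pth hΦ hε _ j).continuousOn) (locUniq_pth hΦ hε T hW hVW)
    Function.injective_id (Fin.natAdd_injective m k) hs hl hs'


end append

/-! ### Connected components of the contact graph in a window -/

section comp

variable {ι : Type*}

/-- `j` and `k` are in contact at some time of `[a, b]`. -/
def Adj (z : ℝ → ι → PhasePoint) (ε a b : ℝ) (j k : ι) : Prop := ∃ s ∈ Icc a b, Ct z ε s j k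

/-- Connected component of `i` in the contact graph of the window `[a, b]`. -/
def comp (z : ℝ → ι → PhasePoint) (ε a b : ℝ) (i : ι) : Set ι :=
  {k | Relation.ReflTransGen (Adj z ε a b) i k}

variable {z : ℝ → ι → PhasePoint} {ε a b : ℝ}

theorem Adj.symm {j k : ι} (h : Adj z ε a b j k) : Adj z ε a b k j := by
  obtain ⟨s, hs, hc⟩ := h
  exact ⟨s, hs, hc.symm⟩

theorem Adj.mono {a' b' : ℝ} {j k : ι} (h : Adj z ε a b j k) (ha : a' ≤ a) (hb : b ≤ b') :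
    Adj z ε a' b' j k := by
  obtain ⟨s, hs, hc⟩ := h
  exact ⟨s, ⟨ha.trans hs.1, hs.2.trans hb⟩, hc⟩


theorem rtg_symm {r : ι → ι → Prop} (h : ∀ j k, r j k → r k j) {i k : ι}
    (hk : Relation.ReflTransGen r i k) : Relation.ReflTransGen r k i := by
  induction hk with
  | refl => exact .refl
  | tail _ hjk ih => exact .head (h _ _ hjk) ih















end comp

section compdyn

variable {Φ : Space3 → ℝ} {ε : ℝ} {ι κ : Type*} [Fintype ι] [Fintype κ]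





end compdyn

end Crest.Agent.R122.Causal291
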