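import Crest.Agent.R122.Follow_973
import Crest.Agent.R122.ClusterBC_311
import Crest.Agent.R122.CausalForest_291
import Crest.Agent.R122.Master_566
import Crest.Agent.R122.ForestFatou_399
import Crest.Agent.R122.PathCausal_968
import Crest.Agent.R122.ForestSep_399
import Crest.Agent.R122.GIVDefs_566
import Crest.Agent.R122.HidMeas_424

-- ▼ part R122/Count_973
section

/-!
# Row 122, block FP (helper973): counting forests

`count_le`: the sum over finitely many forest types of the weight of the isolated worlds which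
follow the forest, are unhit in the real world and have their roots in `A` is at most
`activity ^ s * factorialMarginal`.  (Lower bound of the factorial marginal by forests.)
-/

set_option autoImplicit false

open MeasureTheory Set Crest.AnalysisR.Kinetic
open scoped Classical ENNReal

noncomputable section

namespace Crest.Agent.R122.Final973

open Kin796 Kin796.CTree Disc416 Tree674 Causal291 GC311 Flow671 Loc45

/-! ### `Follow` and the past -/

theorem Follow.past {κ : Type*} {z : ℝ → κ → PhasePoint} {ε : ℝ} :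
    ∀ {P : CTree} {i : κ} {t : ℝ} {e : Idx P → κ}, 0 ≤ t → Follow z ε P i t e →
      ∀ x, Past (Ct z ε) t i 0 (e x)
  | leaf, i, t, e, ht, h, x => by
      have hx : x = root leaf := rfl
      rw [hx, h.1]
      exact .root ht
  | node l r, i, t, e, ht, h, x => by
      obtain ⟨s', s, j, hn, hl, hr⟩ := h
      rcases x with x | x
      · have h1 : Past (Ct z ε) t i s' i := .root (hn.le.trans hn.lt.le)
        exact h1.trans (Follow.past hn.nonneg hl x)
      · have h1 : Past (Ct z ε) t i s j := .step (.root hn.lt.le) hn.contact le_rfl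
        exact (h1.mono hn.le).trans (Follow.past hn.nonneg hr x)

/-- Relabelling of `Follow`. -/
theorem Follow.map {κ κ' : Type*} {z : ℝ → κ → PhasePoint} {z' : ℝ → κ' → PhasePoint}
    {ε : ℝ} (σ : κ ≃ κ') (hz : ∀ u x, z' u (σ x) = z u x) :
    ∀ {P : CTree} {i : κ} {t : ℝ} {e : Idx P → κ}, Follow z ε P i t e →
      Follow z' ε P (σ i) t (fun x => σ (e x))
  | leaf, i, t, e, h => by
      refine ⟨congrArg σ h.1, fun u hu k hk => ?_⟩
      obtain ⟨k', rfl⟩ := σ.surjective k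
      have h1 := h.2 u hu k' (fun hh => hk (by rw [hh]))
      unfold Ct at h1 ⊢
      rwa [hz, hz]
  | node l r, i, t, e, h => by
      obtain ⟨s', s, j, hn, hl, hr⟩ := h
      refine ⟨s', s, σ j, ⟨hn.nonneg, hn.le, hn.lt, fun hh => hn.ne (σ.injective hh), ?_, ?_, ?_,
        ?_, ?_⟩, Follow.map σ hz hl, Follow.map σ hz hr⟩
      · have h1 := hn.contact
        unfold Ct at h1 ⊢
        rwa [hz, hz]
      · intro u hu k hk
        obtain ⟨k', rfl⟩ := σ.surjective k
        have h1 := hn.free u hu k' (fun hh => hk (by rw [hh]))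
        unfold Ct at h1 ⊢
        rwa [hz, hz]
      · intro k hk hk'
        obtain ⟨k', rfl⟩ := σ.surjective k
        have h1 := hn.only k' (fun hh => hk (by rw [hh])) (fun hh => hk' (by rw [hh]))
        unfold Ct at h1 ⊢
        rwa [hz, hz]
      · have h1 := hn.contact'
        unfold Ct at h1 ⊢
        rwa [hz, hz]
      · intro u hu
        have h1 := hn.before u hu
        unfold Ct at h1 ⊢
        rwa [hz, hz]

/-! ### Forests -/

/-- Index set of a forest. -/
abbrev FIdx {s : ℕ} (Ps : Fin s → CTree) : Type := Σ i : Fin s, Idx (Ps i)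

/-- The roots of a forest. -/
def froot {s : ℕ} (Ps : Fin s → CTree) (i : Fin s) : FIdx Ps := ⟨i, root (Ps i)⟩

variable {Φ : Space3 → ℝ} {ε : ℝ} {f₀ : PhasePoint → ℝ} {s : ℕ}

/-- The isolated worlds which follow the forest `Ps` up to time `t`. -/
def Pat (Φ : Space3 → ℝ) (ε t : ℝ) {s : ℕ} (Ps : Fin s → CTree) : Set (FIdx Ps → PhasePoint) :=
  {V | ∀ i, Follow (pth Φ ε V) ε (Ps i) (froot Ps i) t (fun x => ⟨i, x⟩)}

/-- The world `V` (isolated) with roots `ρ` (time `t`) is unhit in the real world `V ∪ w`: on `[0, t]`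
all particles which are not active keep distance more than `ε` from the active ones. -/
def Avoid (Φ : Space3 → ℝ) (ε : ℝ) {κ : Type} [Fintype κ] {m s : ℕ} (V : κ → PhasePoint)
    (w : Config m) (ρ : Fin s → κ) (t : ℝ) : Prop :=
  ∀ u ∈ Icc 0 t, ∀ l, (∃ i, Past (Ct (pth Φ ε V) ε) t (ρ i) u l) → ∀ j : κ ⊕ Fin m,
    (∀ l', j = Sum.inl l' → ¬ ∃ i, Past (Ct (pth Φ ε V) ε) t (ρ i) u l') →
    ε < dist (pth Φ ε V u l).1 (pth Φ ε (Sum.elim V w) u j).1

/-- Initial exclusion between `V` and `w`. -/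
def PerpC (ε : ℝ) {κ : Type} {m : ℕ} (V : κ → PhasePoint) (w : Config m) : Prop :=
  ∀ i j, ε < dist (V i).1 (w j).1

/-- Probability that the isolated world `V` is unhit in the real world. -/
def uR (Φ : Space3 → ℝ) (f₀ : PhasePoint → ℝ) (ε : ℝ) {κ : Type} [Fintype κ] {s : ℕ}
    (V : κ → PhasePoint) (ρ : Fin s → κ) (t : ℝ) : ℝ≥0∞ :=
  gcE f₀ ε (fun _ w => if PerpC ε V w ∧ Avoid Φ ε V w ρ t then 1 else 0)

theorem pth_relabel (hΦ : AdmissiblePotential Φ) (hε : 0 < ε) {ι κ : Type*} [Fintype ι]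
    [Fintype κ] (σ : ι ≃ κ) (Z : κ → PhasePoint) (u : ℝ) (x : ι) :
    pth Φ ε (fun i => Z (σ i)) u x = pth Φ ε Z u (σ x) := by
  unfold pth
  rw [flow_equiv hΦ hε σ u Z]

theorem avoid_relabel (hΦ : AdmissiblePotential Φ) (hε : 0 < ε) {κ κ' : Type} [Fintype κ]
    [Fintype κ'] {m s : ℕ} (σ : κ ≃ κ') (V : κ' → PhasePoint) (w : Config m) (ρ : Fin s → κ)
    (t : ℝ) : Avoid Φ ε (fun x => V (σ x)) w ρ t ↔ Avoid Φ ε V w (fun i => σ (ρ i)) t := by
  have hP : ∀ i u l, Past (Ct (pth Φ ε fun x => V (σ x)) ε) t (ρ i) u l ↔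
      Past (Ct (pth Φ ε V) ε) t (σ (ρ i)) u (σ l) := fun i u l =>
    past_pth_equiv hΦ hε σ V t u (ρ i) l
  let τ : κ ⊕ Fin m ≃ κ' ⊕ Fin m := Equiv.sumCongr σ (Equiv.refl _)
  have hS : (Sum.elim (fun x => V (σ x)) w : κ ⊕ Fin m → PhasePoint) =
      fun x => (Sum.elim V w) (τ x) := by
    funext x
    rcases x with x | x <;> rfl
  have hS' : ∀ u (x : κ ⊕ Fin m), pth Φ ε (Sum.elim (fun x => V (σ x)) w) u x =
      pth Φ ε (Sum.elim V w) u (τ x) := by
    intro u x
    rw [hS]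
    exact pth_relabel hΦ hε τ _ u x
  unfold Avoid
  constructor
  · intro h u hu l hl j hj
    obtain ⟨l, rfl⟩ := σ.surjective l
    obtain ⟨j, rfl⟩ := τ.surjective j
    have h1 := h u hu l (by simpa only [hP] using hl) j (by
      intro l' hl' hh
      refine hj (σ l') (by rw [hl']; rfl) ?_
      simpa only [hP] using hh)
    rwa [pth_relabel hΦ hε, hS'] at h1
  · intro h u hu l hl j hj
    rw [pth_relabel hΦ hε, hS']
    refine h u hu (σ l) (by simpa only [hP] using hl) (τ j) ?_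
    intro l' hl' hh
    obtain ⟨l', rfl⟩ := σ.surjective l'
    refine hj l' (τ.injective (by rw [hl']; rfl)) ?_
    simpa only [hP] using hh

theorem uR_relabel (hΦ : AdmissiblePotential Φ) (hε : 0 < ε) {κ κ' : Type} [Fintype κ]
    [Fintype κ'] {s : ℕ} (σ : κ ≃ κ') (V : κ' → PhasePoint) (ρ : Fin s → κ) (t : ℝ) :
    uR Φ f₀ ε (fun x => V (σ x)) ρ t = uR Φ f₀ ε V (fun i => σ (ρ i)) t := by
  unfold uR
  congr 1
  funext m w
  have h1 : PerpC ε (fun x => V (σ x)) w ↔ PerpC ε V w := by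
    constructor
    · intro h i j
      obtain ⟨i, rfl⟩ := σ.surjective i
      exact h i j
    · intro h i j
      exact h (σ i) j
  simp only [h1, avoid_relabel hΦ hε σ V w ρ t]

/-! ### The real cluster of an unhit world is the block -/

theorem avoid_append (hΦ : AdmissiblePotential Φ) (hε : 0 < ε) {k m s : ℕ} {V : Config k}
    {w : Config m} {ρ : Fin s → Fin k} {t : ℝ} (h : Avoid Φ ε V w ρ t) :
    ∀ u ∈ Icc 0 t, ∀ l ∈ ActF (Ct (pth Φ ε V) ε) (range fun i => (ρ i, t)) u, ∀ j,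
      j ∉ Fin.castAdd m '' ActF (Ct (pth Φ ε V) ε) (range fun i => (ρ i, t)) u →
      ε < dist (pth Φ ε V u l).1 (pth Φ ε (Fin.append V w) u j).1 := by
  have hA : ∀ u l, l ∈ ActF (Ct (pth Φ ε V) ε) (range fun i => (ρ i, t)) u ↔
      ∃ i, Past (Ct (pth Φ ε V) ε) t (ρ i) u l := by
    intro u l
    constructor
    · rintro ⟨-, ⟨i, rfl⟩, hi⟩
      exact ⟨i, hi⟩
    · rintro ⟨i, hi⟩
      exact ⟨_, ⟨i, rfl⟩, hi⟩
  have hS : (Fin.append V w : Config (k + m)) =
      fun x => (Sum.elim V w) (finSumFinEquiv.symm x) := by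
    funext x
    refine Fin.addCases (fun i => ?_) (fun i => ?_) x
    · rw [Fin.append_left, finSumFinEquiv_symm_apply_castAdd]
      rfl
    · rw [Fin.append_right, finSumFinEquiv_symm_apply_natAdd]
      rfl
  intro u hu l hl j hj
  rw [hS]
  have h2 : pth Φ ε (fun x => (Sum.elim V w) (finSumFinEquiv.symm x)) u j =
      pth Φ ε (Sum.elim V w) u (finSumFinEquiv.symm j) :=
    pth_relabel hΦ hε finSumFinEquiv.symm _ u j
  rw [h2]
  refine h u hu l ((hA u l).1 hl) _ ?_
  intro l' hl' hh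
  apply hj
  refine ⟨l', (hA u l').2 hh, ?_⟩
  rw [Equiv.symm_apply_eq] at hl'
  rw [hl']
  rfl

theorem bcU_append_eq_block (hΦ : AdmissiblePotential Φ) (hε : 0 < ε) {k m s : ℕ} {V : Config k}
    {w : Config m} (hVw : (Fin.append V w : Config (k + m)) ∈ PairExcluded ε (k + m))
    {ρ : Fin s → Fin k} {t : ℝ} (ht : 0 ≤ t) (h : Avoid Φ ε V w ρ t)
    (hcov : ∀ x, ∃ i, x ∈ BC (Ct (pth Φ ε V) ε) t (ρ i)) :
    bcU Φ ε (fun _ _ _ _ => t) (k + m) (Fin.append V w) (fun i => Fin.castAdd m (ρ i)) =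
      block k m ∧
    ∀ i, pth Φ ε (Fin.append V w) t (Fin.castAdd m (ρ i)) = pth Φ ε V t (ρ i) := by
  have hD : (Fin.append V w : Config (k + m)) ∈ Dom Φ (Fin (k + m)) :=
    pairExcluded_subset_Dom hε _ hVw
  obtain ⟨h1, h2⟩ := compare_append hΦ hε hD (range fun i => (ρ i, t)) (T := t)
    (by rintro _ ⟨i, rfl⟩; exact le_rfl) (avoid_append hΦ hε h)
  constructor
  · ext x
    rw [mem_bcU, mem_block]
    constructor
    · rintro ⟨i, hi⟩
      have h3 := h2 _ ⟨i, rfl⟩ 0 le_rfl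
      change x ∈ Act _ t _ 0 at hi
      have h4 : x ∈ Fin.castAdd m '' Act (Ct (pth Φ ε V) ε) t (ρ i) 0 := by
        rw [← h3]; exact hi
      obtain ⟨y, -, rfl⟩ := h4
      exact ⟨y, rfl⟩
    · rintro ⟨y, rfl⟩
      obtain ⟨i, hi⟩ := hcov y
      refine ⟨i, ?_⟩
      have h3 := h2 _ ⟨i, rfl⟩ 0 le_rfl
      change _ ∈ Act _ t _ 0
      rw [h3]
      exact ⟨y, hi, rfl⟩
  · intro i
    exact (h1 t ⟨ht, le_rfl⟩ (ρ i) ⟨_, ⟨i, rfl⟩, .root le_rfl⟩).symm

/-! ### Superadditivity of `gcE` (no measurability) -/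

theorem gcE_add_le (f₀ : PhasePoint → ℝ) (ε : ℝ) (F G : (n : ℕ) → Config n → ℝ≥0∞) :
    gcE f₀ ε F + gcE f₀ ε G ≤ gcE f₀ ε (fun n Z => F n Z + G n Z) := by
  unfold gcE
  rw [← mul_add, ← ENNReal.tsum_add]
  gcongr with n
  rw [← mul_add]
  gcongr
  refine (le_lintegral_add _ _).trans (le_of_eq ?_)
  refine lintegral_congr fun Z => ?_
  simp only [mul_add]

theorem gcE_sum_le' (f₀ : PhasePoint → ℝ) (ε : ℝ) {α : Type*} (S : Finset α)
    (F : α → (n : ℕ) → Config n → ℝ≥0∞) :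
    ∑ a ∈ S, gcE f₀ ε (F a) ≤ gcE f₀ ε (fun n Z => ∑ a ∈ S, F a n Z) := by
  induction S using Finset.induction_on with
  | empty => simp
  | insert a S ha ih =>
    simp only [Finset.sum_insert ha]
    exact (add_le_add_right ih _).trans (gcE_add_le f₀ ε _ _)

theorem lintegral_sum_le {Ω : Type*} [MeasurableSpace Ω] (μ : Measure Ω) {α : Type*}
    (S : Finset α) (F : α → Ω → ℝ≥0∞) :
    ∑ a ∈ S, ∫⁻ x, F a x ∂μ ≤ ∫⁻ x, ∑ a ∈ S, F a x ∂μ := by
  induction S using Finset.induction_on with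
  | empty => simp
  | insert a S ha ih =>
    simp only [Finset.sum_insert ha]
    exact (add_le_add_right ih _).trans (le_lintegral_add _ _)

/-! ### Relabelling of integrals -/

theorem lintegral_relabel {κ κ' : Type} [Fintype κ] [Fintype κ'] (σ : κ ≃ κ')
    (H : (κ → PhasePoint) → ℝ≥0∞) :
    ∫⁻ Z : κ' → PhasePoint, H (fun i => Z (σ i)) = ∫⁻ Z : κ → PhasePoint, H Z := by
  have h := volume_measurePreserving_piCongrLeft (fun _ : κ => PhasePoint) σ.symm
  have h2 := h.lintegral_comp_emb (MeasurableEquiv.measurableEmbedding _) H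
  rw [← h2]
  refine lintegral_congr fun Z => ?_
  congr 1
  ext i : 1
  obtain ⟨j, rfl⟩ := σ.symm.surjective i
  rw [MeasurableEquiv.coe_piCongrLeft]
  refine Eq.trans ?_ (Equiv.piCongrLeft_apply_apply (fun _ : κ => PhasePoint) σ.symm Z j).symm
  simp

/-- Grand-canonical weight on a general index type. -/
def wt0 (f₀ : PhasePoint → ℝ) (ε : ℝ) {κ : Type} [Fintype κ] (V : κ → PhasePoint) : ℝ≥0∞ :=
  if (∀ i j, i ≠ j → ε < dist (V i).1 (V j).1) then ∏ i, ENNReal.ofReal (f₀ (V i)) else 0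

theorem wt0_relabel {κ κ' : Type} [Fintype κ] [Fintype κ'] (σ : κ ≃ κ') (V : κ' → PhasePoint) :
    wt0 f₀ ε (fun x => V (σ x)) = wt0 f₀ ε V := by
  unfold wt0
  have h1 : (∀ i j, i ≠ j → ε < dist (V (σ i)).1 (V (σ j)).1) ↔
      ∀ i j, i ≠ j → ε < dist (V i).1 (V j).1 := by
    constructor
    · intro h i j hij
      have := h (σ.symm i) (σ.symm j) (fun hh => hij (σ.symm.injective hh))
      simpa using this
    · intro h i j hij
      exact h _ _ (fun hh => hij (σ.injective hh))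
  have h2 : ∏ i, ENNReal.ofReal (f₀ (V (σ i))) = ∏ i, ENNReal.ofReal (f₀ (V i)) :=
    Equiv.prod_comp σ (fun i => ENNReal.ofReal (f₀ (V i)))
  simp only [h1, h2]

theorem gcWeight_eq_wt0 (f₀ : PhasePoint → ℝ) (ε : ℝ) {n : ℕ} (V : Config n) :
    gcWeight f₀ ε n V = wt0 f₀ ε V := by
  unfold gcWeight wt0
  by_cases h : V ∈ PairExcluded ε n
  · rw [Set.indicator_of_mem h, if_pos (fun i j hij => h i j hij)]
  · rw [Set.indicator_of_notMem h, if_neg (fun hh => h (fun i j hij => hh i j hij))]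

/-! ### The counting inequality -/

/-- The contribution of the world `V` (type `Ps`) to the factorial marginal. -/
def fw (Φ : Space3 → ℝ) (f₀ : PhasePoint → ℝ) (ε t : ℝ) {s : ℕ} (A : Set (Config s))
    (Ps : Fin s → CTree) (V : FIdx Ps → PhasePoint) : ℝ≥0∞ :=
  if V ∈ Pat Φ ε t Ps ∧ (fun i => pth Φ ε V t (froot Ps i)) ∈ A then
    uR Φ f₀ ε V (froot Ps) t else 0

/-- The functional of `s` marked particles. -/
def fF (Φ : Space3 → ℝ) (ε t : ℝ) {s : ℕ} (A : Set (Config s)) (n : ℕ) (ι : Fin s → Fin n)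
    (_ : Finset (Fin n)) (Z : Config n) : ℝ≥0∞ :=
  if Function.Injective ι ∧ (fun i => pth Φ ε Z t (ι i)) ∈ A then 1 else 0

theorem fF_equiv (hΦ : AdmissiblePotential Φ) (hε : 0 < ε) {t : ℝ} {A : Set (Config s)} :
    MarkedEquiv ε s (fF Φ ε t A) := by
  intro n σ ι B Z _
  unfold fF
  have h1 : Function.Injective (fun j => σ (ι j)) ↔ Function.Injective ι :=
    ⟨fun h => Function.Injective.of_comp (f := σ) h, fun h => σ.injective.comp h⟩
  have h2 : (fun i => pth Φ ε Z t (σ (ι i))) =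
      (fun i => pth Φ ε (fun i => Z (σ i)) t (ι i)) := by
    funext i
    rw [pth_relabel hΦ hε]
  simp only [h1, h2]

theorem fF_measurable (hΦ : AdmissiblePotential Φ) (hε : 0 < ε) {t : ℝ} {A : Set (Config s)}
    (hA : MeasurableSet A) (n : ℕ) (ι : Fin s → Fin n) (B : Finset (Fin n)) :
    Measurable (fF Φ ε t A n ι B) := by
  unfold fF
  refine Measurable.ite ?_ measurable_const measurable_const
  refine (MeasurableSet.const _).inter ?_
  have h1 : Measurable (fun Z : Config n => fun i => pth Φ ε Z t (ι i)) :=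
    measurable_pi_lambda _ fun i => measurable_pth hΦ hε t (ι i)
  exact h1 hA

/-- For one labelled world. -/
theorem pointwise_count (hΦ : AdmissiblePotential Φ) (hε : 0 < ε) {t : ℝ} (ht : 0 ≤ t)
    {A : Set (Config s)} (Fs : Finset (Fin s → CTree)) {k : ℕ} (V : Config k)
    (hV : V ∈ PairExcluded ε k) :
    ∑ Ps ∈ Fs, ∑ σ : FIdx Ps ≃ Fin k, fw Φ f₀ ε t A Ps (fun x => V (σ x)) ≤
      gcE f₀ ε (fun m w => perpInd ε V w * ∑ j : Fin s → Fin k,
        if bcU Φ ε (fun _ _ _ _ => t) (k + m) (Fin.append V w)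
          (fun i => Fin.castAdd m (j i)) = block k m then
          fF Φ ε t A (k + m) (fun i => Fin.castAdd m (j i)) (block k m) (Fin.append V w)
        else 0) := by
  -- the marks seen by the types
  let J : Finset (Fin s → Fin k) := Finset.univ.filter fun j =>
    Function.Injective j ∧ (∀ x, ∃ i, x ∈ BC (Ct (pth Φ ε V) ε) t (j i)) ∧
      (fun i => pth Φ ε V t (j i)) ∈ A
  have step1 : ∑ j ∈ J, uR Φ f₀ ε V j t ≤
      gcE f₀ ε (fun m w => perpInd ε V w * ∑ j : Fin s → Fin k,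
        if bcU Φ ε (fun _ _ _ _ => t) (k + m) (Fin.append V w)
          (fun i => Fin.castAdd m (j i)) = block k m then
          fF Φ ε t A (k + m) (fun i => Fin.castAdd m (j i)) (block k m) (Fin.append V w)
        else 0) := by
    unfold uR
    refine (gcE_sum_le' f₀ ε J _).trans (gcE_mono f₀ ε fun m w hw => ?_)
    unfold perpInd
    by_cases hp : Perp ε V w
    swap
    · have : ∀ j : Fin s → Fin k,
          (if PerpC ε V w ∧ Avoid Φ ε V w j t then (1 : ℝ≥0∞) else 0) = 0 := by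
        intro j
        rw [if_neg]
        intro h
        exact hp h.1
      simp [this]
    rw [if_pos hp, one_mul]
    refine (Finset.sum_le_sum (s := J) (g := fun j : Fin s → Fin k =>
      if bcU Φ ε (fun _ _ _ _ => t) (k + m) (Fin.append V w)
          (fun i => Fin.castAdd m (j i)) = block k m then
          fF Φ ε t A (k + m) (fun i => Fin.castAdd m (j i)) (block k m) (Fin.append V w)
        else 0) fun j hj => ?_).trans
      (Finset.sum_le_sum_of_subset (Finset.subset_univ J))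
    obtain ⟨hinj, hcov, hA⟩ := (Finset.mem_filter.1 hj).2
    by_cases hav : Avoid Φ ε V w j t
    swap
    · rw [if_neg (fun h => hav h.2)]
      exact bot_le
    rw [if_pos ⟨hp, hav⟩]
    have hVw : (Fin.append V w : Config (k + m)) ∈ PairExcluded ε (k + m) :=
      (append_mem_pairExcluded_iff V w).2 ⟨hV, hw, hp⟩
    obtain ⟨h1, h2⟩ := bcU_append_eq_block hΦ hε hVw ht hav hcov
    rw [if_pos h1]
    unfold fF
    rw [if_pos]
    refine ⟨fun a b hab => hinj (Fin.castAdd_injective k m hab), ?_⟩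
    have h3 : (fun i => pth Φ ε (Fin.append V w) t (Fin.castAdd m (j i))) =
        fun i => pth Φ ε V t (j i) := funext h2
    rw [h3]
    exact hA
  refine le_trans ?_ step1
  -- the injection
  have hsig : ∑ Ps ∈ Fs, ∑ σ : FIdx Ps ≃ Fin k, fw Φ f₀ ε t A Ps (fun x => V (σ x)) =
      ∑ x ∈ Fs.sigma (fun Ps => (Finset.univ : Finset (FIdx Ps ≃ Fin k))),
        fw Φ f₀ ε t A x.1 (fun y => V (x.2 y)) := by
    rw [Finset.sum_sigma]
  rw [hsig]
  let S := (Fs.sigma (fun Ps => (Finset.univ : Finset (FIdx Ps ≃ Fin k)))).filter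
    (fun x => (fun y => V (x.2 y)) ∈ Pat Φ ε t x.1 ∧
      (fun i => pth Φ ε (fun y => V (x.2 y)) t (froot x.1 i)) ∈ A)
  let φ : (Σ Ps : Fin s → CTree, (FIdx Ps ≃ Fin k)) → (Fin s → Fin k) :=
    fun x i => x.2 (froot x.1 i)
  have hφ : Set.InjOn φ (S : Set (Σ Ps : Fin s → CTree, (FIdx Ps ≃ Fin k))) := by
    rintro ⟨Ps, σ⟩ h1 ⟨Ps', σ'⟩ h2 heq
    have h1' := ((Finset.mem_filter.1 (Finset.mem_coe.1 h1)).2).1
    have h2' := ((Finset.mem_filter.1 (Finset.mem_coe.1 h2)).2).1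
    have key : ∀ i, (⟨Ps i, fun x => σ ⟨i, x⟩⟩ : Σ P : CTree, (Idx P → Fin k)) =
        ⟨Ps' i, fun x => σ' ⟨i, x⟩⟩ := by
      intro i
      have e1 := Follow.map (z' := pth Φ ε V) σ
        (fun u x => (pth_relabel hΦ hε σ V u x).symm) (h1' i)
      have e2 := Follow.map (z' := pth Φ ε V) σ'
        (fun u x => (pth_relabel hΦ hε σ' V u x).symm) (h2' i)
      have e3 : σ (froot Ps i) = σ' (froot Ps' i) := congrFun heq i
      rw [e3] at e1
      exact Follow.unique e1 e2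
    have hP : Ps = Ps' := funext fun i => congrArg Sigma.fst (key i)
    subst hP
    have hσ : σ = σ' := by
      ext ⟨i, x⟩
      have h3 := key i
      have h4 := eq_of_heq (Sigma.mk.inj_iff.1 h3).2
      rw [congrFun h4 x]
    rw [hσ]
  have hzero : ∑ x ∈ Fs.sigma (fun Ps => (Finset.univ : Finset (FIdx Ps ≃ Fin k))),
        fw Φ f₀ ε t A x.1 (fun y => V (x.2 y)) = ∑ x ∈ S, uR Φ f₀ ε V (φ x) t := by
    rw [Finset.sum_filter]
    refine Finset.sum_congr rfl fun x _ => ?_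
    unfold fw
    by_cases h : (fun y => V (x.2 y)) ∈ Pat Φ ε t x.1 ∧
      (fun i => pth Φ ε (fun y => V (x.2 y)) t (froot x.1 i)) ∈ A
    · rw [if_pos h, if_pos h, uR_relabel hΦ hε x.2 V (froot x.1) t]
    · rw [if_neg h, if_neg h]
  rw [hzero, ← Finset.sum_image (f := fun j => uR Φ f₀ ε V j t) (g := φ) (s := S)
    (fun x hx y hy h => hφ (Finset.mem_coe.2 hx) (Finset.mem_coe.2 hy) h)]
  refine Finset.sum_le_sum_of_subset ?_
  intro j hj
  obtain ⟨x, hx, rfl⟩ := Finset.mem_image.1 hj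
  obtain ⟨hpat, hA⟩ := (Finset.mem_filter.1 hx).2
  refine Finset.mem_filter.2 ⟨Finset.mem_univ _, ?_, ?_, ?_⟩
  · intro a b hab
    have h1 := x.2.injective hab
    exact congrArg Sigma.fst h1
  · intro y
    obtain ⟨⟨i, y⟩, rfl⟩ := x.2.surjective y
    refine ⟨i, ?_⟩
    have e1 := Follow.map (z' := pth Φ ε V) x.2
      (fun u y => (pth_relabel hΦ hε x.2 V u y).symm) (hpat i)
    exact Follow.past ht e1 y
  · have h1 : (fun i => pth Φ ε (fun y => V (x.2 y)) t (froot x.1 i)) =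
        fun i => pth Φ ε V t (φ x i) := by
      funext i
      exact pth_relabel hΦ hε x.2 V t _
    rw [← h1]
    exact hA

theorem sum_embedding {n : ℕ} (g : (Fin s → Fin n) → ℝ≥0∞) :
    ∑ ι : Fin s ↪ Fin n, g ι = ∑ ι : Fin s → Fin n, if Function.Injective ι then g ι else 0 := by
  rw [← Finset.sum_filter]
  refine Finset.sum_bij (fun (ι : Fin s ↪ Fin n) _ => (ι : Fin s → Fin n)) ?_ ?_ ?_ ?_
  · intro ι _
    exact Finset.mem_filter.2 ⟨Finset.mem_univ _, ι.injective⟩
  · intro a _ b _ h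
    exact DFunLike.coe_injective h
  · intro ι hι
    exact ⟨⟨ι, (Finset.mem_filter.1 hι).2⟩, Finset.mem_univ _, rfl⟩
  · intro ι _
    rfl

theorem factorialMarginal_eq_gcE {t : ℝ} (hε : 0 < ε) {A : Set (Config s)} :
    activity ε ^ s * factorialMarginal f₀ ε (Master566.flowEv Φ ε) s t A =
      gcE f₀ ε (fun n Z => ∑ ι : Fin s → Fin n,
        fF Φ ε t A n ι (bcU Φ ε (fun _ _ _ _ => t) n Z ι) Z) := by
  unfold factorialMarginal gcE
  have h1 : activity ε ^ s ≠ 0 := FM167.activity_pow_ne_zero hε s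
  have h2 : activity ε ^ s ≠ ⊤ := FM167.activity_pow_ne_top ε s
  rw [← mul_assoc, mul_comm (gcPartition f₀ ε)⁻¹, ← mul_assoc (activity ε ^ s),
    ENNReal.mul_inv_cancel h1 h2, one_mul]
  congr 1
  refine tsum_congr fun n => ?_
  congr 1
  refine lintegral_congr fun Z => ?_
  congr 1
  rw [sum_embedding (fun ι => A.indicator (fun _ => (1 : ℝ≥0∞))
    (fun k => Master566.flowEv Φ ε n t Z (ι k)))]
  refine Finset.sum_congr rfl fun ι _ => ?_
  unfold fF
  change (if Function.Injective ι then A.indicator (fun _ => (1 : ℝ≥0∞))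
    (fun i => pth Φ ε Z t (ι i)) else 0) = _
  by_cases hι : Function.Injective ι
  · by_cases hA : (fun i => pth Φ ε Z t (ι i)) ∈ A
    · rw [if_pos hι, if_pos ⟨hι, hA⟩, Set.indicator_of_mem hA]
    · rw [if_pos hι, if_neg (fun h => hA h.2), Set.indicator_of_notMem hA]
  · rw [if_neg hι, if_neg (fun h => hι h.1)]

/-- **Lower bound of the factorial marginal by forests.** -/
theorem count_le (hf : Measurable f₀) (hΦ : AdmissiblePotential Φ) (hε : 0 < ε) {t : ℝ}
    (ht : 0 ≤ t) {A : Set (Config s)} (hA : MeasurableSet A) (Fs : Finset (Fin s → CTree)) :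
    ∑ Ps ∈ Fs, activity ε ^ Fintype.card (FIdx Ps) *
        ∫⁻ V : FIdx Ps → PhasePoint, wt0 f₀ ε V * fw Φ f₀ ε t A Ps V ≤
      activity ε ^ s * factorialMarginal f₀ ε (Master566.flowEv Φ ε) s t A := by
  rw [factorialMarginal_eq_gcE hε]
  rw [cluster_mecke hf (clusterMap_bcU (t := fun _ _ _ _ => t) hΦ hε (fun _ _ _ _ _ => ht)
    (fun _ _ _ => measurable_const) (fun _ _ _ _ _ _ => rfl)) (fF_equiv hΦ hε)
    (fF_measurable hΦ hε hA)]
  -- bound every `k` from below
  have hk : ∀ k : ℕ, ∑ Ps ∈ Fs, ∑ σ : FIdx Ps ≃ Fin k,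
      ∫⁻ V : FIdx Ps → PhasePoint, wt0 f₀ ε V * fw Φ f₀ ε t A Ps V ≤
      ∫⁻ V : Config k, gcWeight f₀ ε k V *
        gcE f₀ ε (fun m w => perpInd ε V w * ∑ j : Fin s → Fin k,
          if bcU Φ ε (fun _ _ _ _ => t) (k + m) (Fin.append V w)
            (fun i => Fin.castAdd m (j i)) = block k m then
            fF Φ ε t A (k + m) (fun i => Fin.castAdd m (j i)) (block k m) (Fin.append V w)
          else 0) := by
    intro k
    have h1 : ∀ Ps, ∀ σ : FIdx Ps ≃ Fin k,
        ∫⁻ V : FIdx Ps → PhasePoint, wt0 f₀ ε V * fw Φ f₀ ε t A Ps V =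
        ∫⁻ V : Config k, gcWeight f₀ ε k V * fw Φ f₀ ε t A Ps (fun x => V (σ x)) := by
      intro Ps σ
      rw [← lintegral_relabel σ]
      refine lintegral_congr fun V => ?_
      rw [wt0_relabel, gcWeight_eq_wt0]
    calc ∑ Ps ∈ Fs, ∑ σ : FIdx Ps ≃ Fin k,
          ∫⁻ V : FIdx Ps → PhasePoint, wt0 f₀ ε V * fw Φ f₀ ε t A Ps V
        = ∑ Ps ∈ Fs, ∑ σ : FIdx Ps ≃ Fin k,
          ∫⁻ V : Config k, gcWeight f₀ ε k V * fw Φ f₀ ε t A Ps (fun x => V (σ x)) :=
          Finset.sum_congr rfl fun Ps _ => Finset.sum_congr rfl fun σ _ => h1 Ps σ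
      _ ≤ ∑ Ps ∈ Fs, ∫⁻ V : Config k, ∑ σ : FIdx Ps ≃ Fin k,
            gcWeight f₀ ε k V * fw Φ f₀ ε t A Ps (fun x => V (σ x)) :=
          Finset.sum_le_sum fun Ps _ => lintegral_sum_le _ _ _
      _ ≤ ∫⁻ V : Config k, ∑ Ps ∈ Fs, ∑ σ : FIdx Ps ≃ Fin k,
            gcWeight f₀ ε k V * fw Φ f₀ ε t A Ps (fun x => V (σ x)) :=
          lintegral_sum_le _ _ _
      _ ≤ _ := by
          refine lintegral_mono fun V => ?_
          simp_rw [← Finset.mul_sum]
          by_cases hV : V ∈ PairExcluded ε k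
          · gcongr
            exact pointwise_count hΦ hε ht Fs V hV
          · have h0 : gcWeight f₀ ε k V = 0 := by
              simp [gcWeight, Set.indicator_of_notMem hV]
            simp [h0]
  have h2 : ∑' k : ℕ, activity ε ^ k / (k.factorial : ℝ≥0∞) * (∑ Ps ∈ Fs,
      ∑ σ : FIdx Ps ≃ Fin k, ∫⁻ V : FIdx Ps → PhasePoint, wt0 f₀ ε V * fw Φ f₀ ε t A Ps V) ≤
      ∑' k : ℕ, activity ε ^ k / (k.factorial : ℝ≥0∞) * ∫⁻ V : Config k, gcWeight f₀ ε k V *
        gcE f₀ ε (fun m w => perpInd ε V w * ∑ j : Fin s → Fin k,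
          if bcU Φ ε (fun _ _ _ _ => t) (k + m) (Fin.append V w)
            (fun i => Fin.castAdd m (j i)) = block k m then
            fF Φ ε t A (k + m) (fun i => Fin.castAdd m (j i)) (block k m) (Fin.append V w)
          else 0) :=
    ENNReal.tsum_le_tsum fun k => mul_le_mul_right (hk k) _
  refine le_trans ?_ h2
  simp_rw [Finset.mul_sum]
  rw [Summable.tsum_finsetSum (fun _ _ => ENNReal.summable)]
  refine Finset.sum_le_sum fun Ps _ => ?_
  refine le_trans ?_ (ENNReal.le_tsum (Fintype.card (FIdx Ps)))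
  rw [Finset.sum_const, nsmul_eq_mul, Finset.card_univ,
    Fintype.card_equiv (Fintype.equivFin (FIdx Ps))]
  have h3 : ((Fintype.card (FIdx Ps)).factorial : ℝ≥0∞) ≠ 0 := by
    exact_mod_cast (Nat.factorial_pos _).ne'
  have h4 : ((Fintype.card (FIdx Ps)).factorial : ℝ≥0∞) ≠ ⊤ := ENNReal.natCast_ne_top _
  rw [← mul_assoc, mul_comm ((Fintype.card (FIdx Ps)).factorial : ℝ≥0∞),
    ENNReal.div_mul_cancel h3 h4]

end Crest.Agent.R122.Final973
end
end

-- ▼ part R122/ForestWorld_973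
section

/-!
# Row 122, block FP (helper973): the isolated world of a valid separated forest
-/

set_option autoImplicit false

open MeasureTheory Set Crest.AnalysisR.Kinetic
open scoped Classical ENNReal

noncomputable section

namespace Crest.Agent.R122.Final973

open Kin796 Kin796.CTree Disc416 Tree674 Causal291 GC311 Flow671 Loc45
open Forest399 (FPar flines fpath FValid FSep)

variable {Φ : Space3 → ℝ} {ε : ℝ} {s : ℕ} {Ps : Fin s → CTree} {T : ℝ} {q : FPar Ps}


theorem sigma_mk_inj (i : Fin s) : Function.Injective (fun j : Idx (Ps i) => (⟨i, j⟩ : FIdx Ps)) :=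
  fun a b h => eq_of_heq (Sigma.mk.inj_iff.1 h).2

/-- The trajectory of a valid separated forest is a solution curve. -/
theorem solOn_fpath (hΦ : AdmissiblePotential Φ) (hε : 0 < ε) (hv : FValid Φ ε Ps T q)
    (hs : FSep Φ ε Ps T q) : SolOn Φ ε (fpath Φ ε Ps q) (Icc 0 T) := by
  intro u hu
  rw [hasDerivWithinAt_pi]
  rintro ⟨i, j⟩
  have h1 := PathFlow968.solOn_path hΦ hε (Ps i) T (q i).1 (q i).2 (hv i) (hs.1 i) u hu
  rw [hasDerivWithinAt_pi] at h1
  have h2 := h1 j
  have h3 := nf_comp_apply hΦ hε (⟨fun j => ⟨i, j⟩, sigma_mk_inj i⟩ : Idx (Ps i) ↪ FIdx Ps)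
    (fpath Φ ε Ps q u) j (by
      rintro ⟨i', j'⟩ hj'
      have hii : i ≠ i' := by
        rintro rfl
        exact hj' ⟨j', rfl⟩
      exact (hs.2 i i' hii j j' u hu).le)
  have h4 : nf Φ ε (fpath Φ ε Ps q u) ⟨i, j⟩ = nf Φ ε (path Φ ε (Ps i) (q i).1 (q i).2 u) j :=
    h3.symm
  rw [h4]
  exact h2

theorem fpath_zero (hv : FValid Φ ε Ps T q) : fpath Φ ε Ps q 0 = flines Φ ε Ps q := by
  funext ⟨i, j⟩
  exact congrFun (PathFlow968.path_zero (Ps i) T (q i).1 (q i).2 (hv i).2) j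

theorem flines_mem_Dom (hε : 0 < ε) (hT : 0 ≤ T) (hv : FValid Φ ε Ps T q)
    (hs : FSep Φ ε Ps T q) : flines Φ ε Ps q ∈ Dom Φ (FIdx Ps) :=
  Dom_of_far hε fun _ _ hij => (Forest399.FSep.zero Ps hε.le hT hv hs hij).le

/-- The trajectory of a valid separated forest is the Newton flow. -/
theorem pth_flines (hΦ : AdmissiblePotential Φ) (hε : 0 < ε) (hv : FValid Φ ε Ps T q)
    (hs : FSep Φ ε Ps T q) {u : ℝ} (hu : u ∈ Icc 0 T) :
    pth Φ ε (flines Φ ε Ps q) u = fpath Φ ε Ps q u := by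
  have hT : 0 ≤ T := hu.1.trans hu.2
  have h1 := Flow671.eq_flow hΦ hε (a := 0) (b := T) ⟨le_rfl, hT⟩
    (solOn_fpath hΦ hε hv hs) (by rw [fpath_zero hv]; exact flines_mem_Dom hε hT hv hs) hu
  rw [h1, fpath_zero hv]
  rfl

/-- The root of a tree at the final time. -/
theorem pth_froot (hΦ : AdmissiblePotential Φ) (hε : 0 < ε) (hT : 0 ≤ T)
    (hv : FValid Φ ε Ps T q) (hs : FSep Φ ε Ps T q) (i : Fin s) :
    pth Φ ε (flines Φ ε Ps q) T (froot Ps i) = onLine (q i).1 T := by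
  rw [pth_flines hΦ hε hv hs ⟨hT, le_rfl⟩]
  exact path_root (Ps i) hε.le (hv i).2 le_rfl

/-- **A valid separated forest is followed by its isolated world.** -/
theorem mem_pat_flines (hΦ : AdmissiblePotential Φ) (hε : 0 < ε)
    (hv : FValid Φ ε Ps T q) (hs : FSep Φ ε Ps T q) : flines Φ ε Ps q ∈ Pat Φ ε T Ps := by
  intro i
  refine follow_of_emb hε (z := pth Φ ε (flines Φ ε Ps q)) (P := Ps i) (ℓ := (q i).1)
    (p := (q i).2) (e := fun x => (⟨i, x⟩ : FIdx Ps)) (hv i) (hs.1 i) ⟨sigma_mk_inj i, ?_, ?_⟩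
  · intro k u hu0 hu
    have huT : u ≤ T := hu.trans (prot_le (Ps i) (q i).2 k hε.le (hv i).2)
    rw [pth_flines hΦ hε hv hs ⟨hu0, huT⟩]
    rfl
  · rintro k u hu0 huT huk ⟨i', j⟩ hj
    rw [pth_flines hΦ hε hv hs ⟨hu0, huT.le⟩]
    by_cases hii : i = i'
    · subst hii
      have h1 : prot (Ps i) T (q i).2 j < u := hj j rfl
      refine hs.1 i k j ?_ u ⟨hu0, huT.le⟩ ?_ ?_
      · rintro rfl
        exact absurd huk (not_le.2 h1)
      · intro hw
        exact absurd (inWindow_prot (Ps i) hε.le (hv i).2 hw).2 (not_le.2 h1)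
      · intro hw
        exact absurd (inWindow_prot (Ps i) hε.le (hv i).2 hw).1 (not_le.2 h1)
    · exact hs.2 i i' hii k j u ⟨hu0, huT.le⟩

/-- The active set of the isolated world of a forest: protected times. -/
theorem past_forest_iff (hΦ : AdmissiblePotential Φ) (hε : 0 < ε) (hT : 0 ≤ T)
    (hv : FValid Φ ε Ps T q) (hs : FSep Φ ε Ps T q) {u : ℝ} (hu : 0 ≤ u) (k : FIdx Ps) :
    (∃ i, Past (Ct (pth Φ ε (flines Φ ε Ps q)) ε) T (froot Ps i) u k) ↔
      u ≤ prot (Ps k.1) T (q k.1).2 k.2 := by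
  constructor
  · rintro ⟨i, h⟩
    have := Act_subset_of_closed (C := Ct (pth Φ ε (flines Φ ε Ps q)) ε) (t := T)
      (i := froot Ps i) (s₀ := 0)
      (G := fun u => {k : FIdx Ps | u ≤ prot (Ps k.1) T (q k.1).2 k.2}) (fun u _ h => by
        show u ≤ prot (Ps i) T (q i).2 (root (Ps i))
        rw [prot_root]
        exact h) (fun u u' _ h _ k hk => le_trans h hk) (fun u j l h1 h2 hj hc => by
        obtain ⟨i, j⟩ := j
        obtain ⟨i', l⟩ := l
        unfold Ct at hc
        rw [pth_flines hΦ hε hv hs ⟨h1, h2⟩] at hc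
        by_cases hii : i = i'
        · subst hii
          have hc' : Ct (path Φ ε (Ps i) (q i).1 (q i).2) ε u j l := hc
          rcases (PathFlow968.ct_iff hΦ hε (hv i) (hs.1 i) ⟨h1, h2⟩).1 hc' with rfl | h | h
          · exact hj
          · exact (inWindow_prot (Ps i) hε.le (hv i).2 h).2
          · exact (inWindow_prot (Ps i) hε.le (hv i).2 h).1
        · exact absurd hc (not_le.2 (hs.2 i i' hii j l u ⟨h1, h2⟩))) hu
    exact this h
  · intro h
    obtain ⟨i, k⟩ := k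
    refine ⟨i, ?_⟩
    have h1 := (PathFlow968.past_iff hΦ hε hT (hv i) (hs.1 i) hu (k := k)).2 h
    have h2 : Past (Ct (fpath Φ ε Ps q) ε) T (⟨i, root (Ps i)⟩ : FIdx Ps) u ⟨i, k⟩ :=
      past_map (C := Ct (fpath Φ ε Ps q) ε) (D := Ct (path Φ ε (Ps i) (q i).1 (q i).2) ε)
        (e := fun j => (⟨i, j⟩ : FIdx Ps)) (fun _ _ _ h => h) h1
    refine (past_congr (s₀ := 0) (fun s' j l h1 h2 => ?_) hu).1 h2
    unfold Ct
    rw [pth_flines hΦ hε hv hs ⟨h1, h2.le⟩]

end Crest.Agent.R122.Final973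
end
end

-- ▼ part R122/FinalDefs_973

/-!
# Row 122, block FP (helper973): ghost tubes of a forest, real versus ghost avoidance

* `FT` / `FT0` : the protected tubes of a forest (`ε > 0` / straight lines) as a `GIV566.Tubes`.
* `retF` : probability that the tubes are unhit by the gas alone but hit in the real world.
* `uG_le_uR_add` : ghost avoidance ≤ real avoidance + `retF`.
* `measurable_uRF` : measurability of the real avoidance probability in the forest parameters.
-/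

set_option autoImplicit false

open MeasureTheory Set Filter Topology Crest.AnalysisR.Kinetic
open scoped Classical ENNReal

noncomputable section

namespace Crest.Agent.R122.Final973

open Kin796 Kin796.CTree Disc416 Tree674 Causal291 GC311 Flow671 Loc45
open Forest399 (FPar flines fpath FValid FSep FVS flinesM)
open GIV566 Hid424

variable {Φ : Space3 → ℝ} {f₀ : PhasePoint → ℝ} {ε : ℝ} {s : ℕ} {Ps : Fin s → CTree} {t T : ℝ}
  {q : FPar Ps}

/-- Protected tubes of a forest. -/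
def FT (Φ : Space3 → ℝ) (ε : ℝ) (Ps : Fin s → CTree) (t : ℝ) (q : FPar Ps) : Tubes (FIdx Ps) where
  c k := curve Φ ε (Ps k.1) (q k.1).1 (q k.1).2 k.2
  b k := prot (Ps k.1) t (q k.1).2 k.2


/-- The tubes are unhit by the gas alone, but not in the real world. -/
def retF (Φ : Space3 → ℝ) (f₀ : PhasePoint → ℝ) (ε : ℝ) (Ps : Fin s → CTree) (t : ℝ)
    (q : FPar Ps) : ℝ≥0∞ :=
  gcE f₀ ε (fun _ w => if unhit Φ ε (FT Φ ε Ps t q) t w ∧
    ¬ Avoid Φ ε (flines Φ ε Ps q) w (froot Ps) t then 1 else 0)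

/-- The real avoidance probability of a forest. -/
def uRF (Φ : Space3 → ℝ) (f₀ : PhasePoint → ℝ) (ε : ℝ) (Ps : Fin s → CTree) (t : ℝ)
    (q : FPar Ps) : ℝ≥0∞ :=
  (FVS Φ ε Ps t).indicator (fun q => uR Φ f₀ ε (flines Φ ε Ps q) (froot Ps) t) q

theorem prot_nonneg' (hε : 0 ≤ ε) (ht : 0 ≤ t) (hv : FValid Φ ε Ps t q) (k : FIdx Ps) :
    0 ≤ prot (Ps k.1) t (q k.1).2 k.2 :=
  PathFlow968.prot_nonneg hε (Ps k.1) ht _ _ (hv k.1).2 k.2

theorem prot_le' (hε : 0 ≤ ε) (hv : FValid Φ ε Ps t q) (k : FIdx Ps) :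
    prot (Ps k.1) t (q k.1).2 k.2 ≤ t := prot_le (Ps k.1) _ k.2 hε (hv k.1).2

/-- The curves of `FT` are the positions of the isolated world of the forest. -/
theorem FT_c_eq (hΦ : AdmissiblePotential Φ) (hε : 0 < ε) (hv : FValid Φ ε Ps t q)
    (hs : FSep Φ ε Ps t q) (k : FIdx Ps) {u : ℝ} (hu : u ∈ Icc 0 t) :
    (FT Φ ε Ps t q).c k u = (pth Φ ε (flines Φ ε Ps q) u k).1 := by
  rw [pth_flines hΦ hε hv hs hu]
  exact curve_eq_path hΦ hε (X := (q k.1).1.1) (v := (q k.1).1.2) (hv k.1) (hs.1 k.1) hu k.2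

/-- ghost avoidance implies initial exclusion -/
theorem perpC_of_unhit (hΦ : AdmissiblePotential Φ) (hε : 0 < ε) (ht : 0 ≤ t)
    (hv : FValid Φ ε Ps t q) (hs : FSep Φ ε Ps t q) {m : ℕ} {w : Config m}
    (h : unhit Φ ε (FT Φ ε Ps t q) t w) : PerpC ε (flines Φ ε Ps q) w := by
  intro k j
  have h0 := prot_nonneg' hε.le ht hv k
  have h1 := h k j 0 ⟨le_rfl, le_min h0 ht⟩
  rw [FT_c_eq hΦ hε hv hs k ⟨le_rfl, ht⟩] at h1
  have e1 : pth Φ ε (flines Φ ε Ps q) 0 = flines Φ ε Ps q := Flow671.flow_zero hΦ hε _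
  have e2 : pth Φ ε w 0 = w := Flow671.flow_zero hΦ hε _
  rwa [e1, e2] at h1

/-- explicit form of `Avoid` for the isolated world of a forest -/
def AvoidP (Φ : Space3 → ℝ) (ε : ℝ) (Ps : Fin s → CTree) (t : ℝ) (q : FPar Ps) {m : ℕ}
    (w : Config m) : Prop :=
  ∀ k : FIdx Ps, ∀ j : FIdx Ps ⊕ Fin m, ∀ u ∈ Icc 0 (prot (Ps k.1) t (q k.1).2 k.2),
    (∀ k' : FIdx Ps, j = Sum.inl k' → prot (Ps k'.1) t (q k'.1).2 k'.2 < u) →
    ε < dist (pth Φ ε (flinesM Φ ε Ps q) u k).1 (pth Φ ε (Sum.elim (flinesM Φ ε Ps q) w) u j).1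

theorem avoid_iff_avoidP (hΦ : AdmissiblePotential Φ) (hε : 0 < ε) (ht : 0 ≤ t)
    (hv : FValid Φ ε Ps t q) (hs : FSep Φ ε Ps t q) {m : ℕ} {w : Config m} :
    Avoid Φ ε (flines Φ ε Ps q) w (froot Ps) t ↔ AvoidP Φ ε Ps t q w := by
  unfold Avoid AvoidP
  rw [Forest399.flinesM_of_valid hv]
  constructor
  · intro h k j u hu hj
    have hut : u ≤ t := hu.2.trans (prot_le' hε.le hv k)
    refine h u ⟨hu.1, hut⟩ k ((past_forest_iff hΦ hε ht hv hs hu.1 k).2 hu.2) j ?_
    intro k' hk' hh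
    exact absurd ((past_forest_iff hΦ hε ht hv hs hu.1 k').1 hh) (not_le.2 (hj k' hk'))
  · intro h u hu k hk j hj
    have hku := (past_forest_iff hΦ hε ht hv hs hu.1 k).1 hk
    refine h k j u ⟨hu.1, hku⟩ ?_
    intro k' hk'
    by_contra hle
    exact hj k' hk' ((past_forest_iff hΦ hε ht hv hs hu.1 k').2 (not_lt.1 hle))

/-! ### Measurability -/

theorem measurable_protF (Ps : Fin s → CTree) (t : ℝ) (k : FIdx Ps) :
    Measurable fun q : FPar Ps => prot (Ps k.1) t (q k.1).2 k.2 :=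
  (measurable_pi_apply k.2).comp ((Hid424.measurable_prot (Ps k.1)).comp
    (f := fun q : FPar Ps => (t, (q k.1).2))
    (measurable_const.prodMk (measurable_pi_apply k.1).snd))

theorem measurable_sumElim {κ : Type} [Fintype κ] {m : ℕ} :
    Measurable fun p : (κ → PhasePoint) × Config m =>
      (Sum.elim p.1 p.2 : κ ⊕ Fin m → PhasePoint) := by
  refine measurable_pi_iff.2 fun j => ?_
  rcases j with j | j
  · exact (measurable_pi_apply j).comp measurable_fst
  · exact (measurable_pi_apply j).comp measurable_snd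

theorem measurableSet_avoidP (hΦ : AdmissiblePotential Φ) (hε : 0 < ε) (Ps : Fin s → CTree) (t : ℝ)
    (m : ℕ) : MeasurableSet {p : FPar Ps × Config m | AvoidP Φ ε Ps t p.1 p.2} := by
  have hV : Measurable fun p : FPar Ps × Config m => flinesM Φ ε Ps p.1 :=
    (Forest399.measurable_flinesM hΦ ε Ps).comp measurable_fst
  have hW : Measurable fun p : FPar Ps × Config m =>
      (Sum.elim (flinesM Φ ε Ps p.1) p.2 : FIdx Ps ⊕ Fin m → PhasePoint) :=
    measurable_sumElim.comp (hV.prodMk measurable_snd)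
  have hp : ∀ k : FIdx Ps, Measurable fun p : FPar Ps × Config m =>
      prot (Ps k.1) t (p.1 k.1).2 k.2 := fun k => (measurable_protF Ps t k).comp measurable_fst
  have key : {p : FPar Ps × Config m | AvoidP Φ ε Ps t p.1 p.2} =
      (⋂ k : FIdx Ps, ⋂ j : Fin m, {p : FPar Ps × Config m | ∃ u ∈ Icc (0 : ℝ)
          (prot (Ps k.1) t (p.1 k.1).2 k.2),
          dist (pth Φ ε (flinesM Φ ε Ps p.1) u k).1
            (pth Φ ε (Sum.elim (flinesM Φ ε Ps p.1) p.2) u (Sum.inr j)).1 ≤ ε}ᶜ) ∩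
      (⋂ k : FIdx Ps, ⋂ k' : FIdx Ps, {p : FPar Ps × Config m | ∃ u ∈ Ioc
          (prot (Ps k'.1) t (p.1 k'.1).2 k'.2) (prot (Ps k.1) t (p.1 k.1).2 k.2),
          max (dist (pth Φ ε (flinesM Φ ε Ps p.1) u k).1
            (pth Φ ε (Sum.elim (flinesM Φ ε Ps p.1) p.2) u (Sum.inl k')).1 - ε) (0 - u) ≤ 0}ᶜ) := by
    ext p
    simp only [AvoidP, mem_inter_iff, mem_iInter, mem_compl_iff, mem_ofPred_eq, not_exists, not_and,
      not_le]
    constructor
    · intro h
      refine ⟨fun k j u hu => h k (Sum.inr j) u hu (fun k' hk' => by cases hk'), ?_⟩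
      intro k k' u hu
      by_contra hcon
      push Not at hcon
      have h1 := (le_max_left _ _).trans hcon
      have h2 := (le_max_right _ _).trans hcon
      have h3 := h k (Sum.inl k') u ⟨by linarith, hu.2⟩ (fun k'' hk'' => by
        cases hk''
        exact hu.1)
      linarith
    · rintro ⟨h1, h2⟩ k j u hu hj
      rcases j with k' | j
      · have h3 := h2 k k' u ⟨hj k' rfl, hu.2⟩
        by_contra hcon
        push Not at hcon
        exact absurd h3 (not_lt.2 (max_le (by linarith) (by linarith [hu.1])))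
      · exact h1 k j u hu
  rw [key]
  refine MeasurableSet.inter ?_ ?_
  · refine MeasurableSet.iInter fun k => MeasurableSet.iInter fun j => MeasurableSet.compl ?_
    refine measurableSet_exists_Icc measurable_const (hp k) (g := fun p u =>
      dist (pth Φ ε (flinesM Φ ε Ps p.1) u k).1
        (pth Φ ε (Sum.elim (flinesM Φ ε Ps p.1) p.2) u (Sum.inr j)).1) (fun p => ?_) (fun u => ?_) ε
    · exact (continuous_pth hΦ hε _ k).fst.dist (continuous_pth hΦ hε _ (Sum.inr j)).fst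
    · exact ((measurable_pth hΦ hε u k).comp hV).fst.dist
        ((measurable_pth hΦ hε u (Sum.inr j)).comp hW).fst
  · refine MeasurableSet.iInter fun k => MeasurableSet.iInter fun k' => MeasurableSet.compl ?_
    refine measurableSet_exists_Ioc (hp k') (hp k) (g := fun p u =>
      max (dist (pth Φ ε (flinesM Φ ε Ps p.1) u k).1
        (pth Φ ε (Sum.elim (flinesM Φ ε Ps p.1) p.2) u (Sum.inl k')).1 - ε) (0 - u))
      (fun p => ?_) (fun u => ?_) 0
    · exact (((continuous_pth hΦ hε _ k).fst.dist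
        (continuous_pth hΦ hε _ (Sum.inl k')).fst).sub continuous_const).max
        (continuous_const.sub continuous_id)
    · exact ((((measurable_pth hΦ hε u k).comp hV).fst.dist
        ((measurable_pth hΦ hε u (Sum.inl k')).comp hW).fst).sub_const ε).max measurable_const

theorem measurableSet_perpM (hΦ : AdmissiblePotential Φ) (ε : ℝ) (Ps : Fin s → CTree) (m : ℕ) :
    MeasurableSet {p : FPar Ps × Config m | PerpC ε (flinesM Φ ε Ps p.1) p.2} := by
  have hV : Measurable fun p : FPar Ps × Config m => flinesM Φ ε Ps p.1 :=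
    (Forest399.measurable_flinesM hΦ ε Ps).comp measurable_fst
  have : {p : FPar Ps × Config m | PerpC ε (flinesM Φ ε Ps p.1) p.2} =
      ⋂ i, ⋂ j, {p : FPar Ps × Config m | ε < dist (flinesM Φ ε Ps p.1 i).1 (p.2 j).1} := by
    ext p; simp [PerpC]
  rw [this]
  refine MeasurableSet.iInter fun i => MeasurableSet.iInter fun j => ?_
  exact measurableSet_lt measurable_const ((((measurable_pi_apply i).comp hV).fst).dist
    ((measurable_pi_apply j).comp measurable_snd).fst)

/-- explicit indicator of real avoidance -/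
def avoidInd (Φ : Space3 → ℝ) (ε : ℝ) (Ps : Fin s → CTree) (t : ℝ) (q : FPar Ps) {m : ℕ}
    (w : Config m) : ℝ≥0∞ :=
  if PerpC ε (flinesM Φ ε Ps q) w ∧ AvoidP Φ ε Ps t q w then 1 else 0

theorem measurable_avoidInd (hΦ : AdmissiblePotential Φ) (hε : 0 < ε) (Ps : Fin s → CTree) (t : ℝ)
    (m : ℕ) : Measurable fun p : FPar Ps × Config m => avoidInd Φ ε Ps t p.1 p.2 :=
  Measurable.ite ((measurableSet_perpM hΦ ε Ps m).inter (measurableSet_avoidP hΦ hε Ps t m))
    measurable_const measurable_const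

/-- measurable form of the real avoidance probability -/
theorem uR_eq_of_mem (hΦ : AdmissiblePotential Φ) (hε : 0 < ε) (ht : 0 ≤ t)
    (hq : q ∈ FVS Φ ε Ps t) : uR Φ f₀ ε (flines Φ ε Ps q) (froot Ps) t =
      gcE f₀ ε (fun _ w => avoidInd Φ ε Ps t q w) := by
  unfold uR avoidInd
  congr 1
  funext m w
  simp only [Forest399.flinesM_of_valid hq.1, avoid_iff_avoidP hΦ hε ht hq.1 hq.2]

theorem measurable_gcE_param {Ω : Type*} [MeasurableSpace Ω] (hf : Measurable f₀)
    {F : Ω → (n : ℕ) → Config n → ℝ≥0∞}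
    (hF : ∀ n, Measurable fun p : Ω × Config n => F p.1 n p.2) :
    Measurable fun ω => gcE f₀ ε (F ω) := by
  unfold gcE
  refine Measurable.const_mul (Measurable.tsum fun n => Measurable.const_mul ?_ _) _
  have h1 : Measurable fun p : Ω × Config n => gcWeight f₀ ε n p.2 * F p.1 n p.2 :=
    ((measurable_gcWeight hf ε n).comp measurable_snd).mul (hF n)
  exact h1.lintegral_prod_right'

theorem measurable_uRF (hf : Measurable f₀) (hΦ : AdmissiblePotential Φ) (hε : 0 < ε)
    (ht : 0 ≤ t) (Ps : Fin s → CTree) : Measurable (uRF Φ f₀ ε Ps t) := by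
  have h1 : Measurable fun q : FPar Ps => gcE f₀ ε (fun _ w => avoidInd Φ ε Ps t q w) :=
    measurable_gcE_param (F := fun q _ w => avoidInd Φ ε Ps t q w) hf
      fun n => measurable_avoidInd hΦ hε Ps t n
  have h2 := h1.indicator (Forest399.measurableSet_FVS hΦ hε Ps t)
  convert h2 using 1
  funext q
  unfold uRF
  by_cases hq : q ∈ FVS Φ ε Ps t
  · rw [indicator_of_mem hq, indicator_of_mem hq, uR_eq_of_mem hΦ hε ht hq]
  · rw [indicator_of_notMem hq, indicator_of_notMem hq]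

theorem measurable_wt0 (hf : Measurable f₀) {κ : Type} [Fintype κ] :
    Measurable (wt0 f₀ ε : (κ → PhasePoint) → ℝ≥0∞) := by
  unfold wt0
  refine Measurable.ite ?_ (Finset.measurable_prod _ fun i _ =>
    (hf.comp (measurable_pi_apply i)).ennreal_ofReal) measurable_const
  have : {V : κ → PhasePoint | ∀ i j, i ≠ j → ε < dist (V i).1 (V j).1} =
      ⋂ i, ⋂ j, {V : κ → PhasePoint | i ≠ j → ε < dist (V i).1 (V j).1} := by
    ext V; simp
  rw [this]
  refine MeasurableSet.iInter fun i => MeasurableSet.iInter fun j => ?_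
  by_cases hij : i = j
  · simp [hij]
  · simp only [ne_eq, hij, not_false_eq_true, forall_const]
    exact measurableSet_lt measurable_const
      ((measurable_pi_apply i).fst.dist (measurable_pi_apply j).fst)

/-! ### Ghost avoidance versus real avoidance -/

theorem measurable_avoidInd_right (hΦ : AdmissiblePotential Φ) (hε : 0 < ε) (n : ℕ) (q : FPar Ps) :
    Measurable fun w : Config n => avoidInd Φ ε Ps t q w := by
  have h := measurable_avoidInd hΦ hε Ps t n
  have h2 : Measurable fun w : Config n => (q, w) := measurable_prodMk_left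
  have h3 := h.comp h2
  exact h3

theorem uG_le_uR_add (hf : Measurable f₀) (hΦ : AdmissiblePotential Φ) (hε : 0 < ε) (ht : 0 ≤ t)
    (hq : q ∈ FVS Φ ε Ps t) : uG Φ f₀ ε (FT Φ ε Ps t q) t ≤
      uR Φ f₀ ε (flines Φ ε Ps q) (froot Ps) t + retF Φ f₀ ε Ps t q := by
  rw [uR_eq_of_mem hΦ hε ht hq]
  unfold uG retF
  rw [← gcE_add hf ε (F := fun _ w => avoidInd Φ ε Ps t q w)
    (fun n => measurable_avoidInd_right hΦ hε n q)]
  refine gcE_mono f₀ ε fun m w _ => ?_
  unfold unhitInd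
  by_cases hu : unhit Φ ε (FT Φ ε Ps t q) t w
  · rw [if_pos hu]
    by_cases ha : Avoid Φ ε (flines Φ ε Ps q) w (froot Ps) t
    · have h1 : PerpC ε (flinesM Φ ε Ps q) w ∧ AvoidP Φ ε Ps t q w := by
        rw [Forest399.flinesM_of_valid hq.1]
        exact ⟨perpC_of_unhit hΦ hε ht hq.1 hq.2 hu, (avoid_iff_avoidP hΦ hε ht hq.1 hq.2).1 ha⟩
      rw [avoidInd, if_pos h1]
      exact le_self_add
    · rw [if_pos ⟨hu, ha⟩]
      exact le_add_self
  · rw [if_neg hu]
    exact bot_le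

/-! ### The null statement needed from sections E/F -/

/-- **Ghost-unhit but really hit forests are negligible**, locally in the parameters: for every
forest type, along every sequence `(ε_n, t_n)`. -/
def RetNull (Φ : Space3 → ℝ) (f₀ : PhasePoint → ℝ) (T : ℝ) : Prop :=
  ∀ (s : ℕ) (Ps : Fin s → CTree) (e τ : ℕ → ℝ) (t₀ : ℝ), (∀ n, 0 < e n) →
    Tendsto e atTop (𝓝 0) → (∀ n, τ n ∈ Icc 0 T) → Tendsto τ atTop (𝓝 t₀) →
    Tendsto (fun n => ∫⁻ q : FPar Ps, (FVS Φ (e n) Ps (τ n)).indicator (fun q =>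
      (∏ i, wt Φ (Ps i) (q i).1.2 (q i).2) * (wt0 f₀ (e n) (flines Φ (e n) Ps q) *
        retF Φ f₀ (e n) Ps (τ n) q)) q) atTop (𝓝 0)

end Crest.Agent.R122.Final973
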