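import Crest.Agent.R122.Hit1_167
import Crest.Agent.R122.CausalNewton_291
import Crest.Agent.R122.LocFlow_45

-- ▼ part R122/Hit2_167
section

/-!
# First hits of a protected family (row 122, helper167), the dictionary

`G`-world on `κ`, `G ∪ B`-world `z'` on `κ ⊕ β`, real world `z` on `ι`; `e : κ → ι`, `f : β → ι`
with disjoint ranges. `A : ℝ → Set κ` is the protected family of `G`.

* `GoodHit z' ε A j σ` (isolated world `G ∪ B`): the family `A` is isolated on `[0, σ)`, `j ∈ B`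
  touches it at time `σ`, and the backward exploration of `(j, σ⁻)` is exactly `B`.
* `RealHit z ε e f A j σ` (real world): the same in the real world.
* `realHit_iff`: `RealHit` and "the real families are isolated in the isolated world `G ∪ B`"
  is equivalent to `GoodHit` and "the families of the isolated world are isolated in the real
  world", i.e. the structure `G ∪ B` is present in the real world up to time `σ`.
* `exists_first_touch`: first touch in a window.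
* uniqueness of the first touching time.
-/

set_option autoImplicit false

open Set Filter Topology
open Crest.AnalysisR.Kinetic

namespace Crest.Agent.R122.Hit167

open Causal291

section

variable {κ β ι : Type}

/-- Image of the family of `G` in the world `G ∪ B`. -/
def famL (A : ℝ → Set κ) : ℝ → Set (κ ⊕ β) := fun s => Sum.inl '' A s

/-- **Good hit** in the isolated world `G ∪ B`. -/
structure GoodHit (z' : ℝ → (κ ⊕ β) → PhasePoint) (ε : ℝ) (A : ℝ → Set κ) (j : β) (σ : ℝ) :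
    Prop where
  iso : Iso z' ε (famL A) σ
  touch : TouchAt z' ε (famL A) σ (Sum.inr j)
  full : preAct z' ε (Sum.inr j) σ 0 = range Sum.inr

/-- **Real hit**: in the real world the family of `G` is isolated on `[0, σ)`, `f j` touches it at
time `σ`, and the backward exploration of `(f j, σ⁻)` is exactly `f B`. -/
structure RealHit (z : ℝ → ι → PhasePoint) (ε : ℝ) (e : κ → ι) (f : β → ι) (A : ℝ → Set κ) (j : β)
    (σ : ℝ) : Prop where
  iso : Iso z ε (fun s => e '' A s) σ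
  touch : TouchAt z ε (fun s => e '' A s) σ (f j)
  full : preAct z ε (f j) σ 0 = range f

/-- The family of the structure `G ∪ B` after a hit at `(j, σ)`. -/
def famHit (z' : ℝ → (κ ⊕ β) → PhasePoint) (ε : ℝ) (A : ℝ → Set κ) (j : β) (σ : ℝ) :
    ℝ → Set (κ ⊕ β) := fun s => famL A s ∪ preAct z' ε (Sum.inr j) σ s

/-- The real family (of `G` and of the hitter) pulled back to the index set of `G ∪ B`. -/
def famReal (z : ℝ → ι → PhasePoint) (ε : ℝ) (e : κ → ι) (f : β → ι) (A : ℝ → Set κ) (j : β)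
    (σ : ℝ) : ℝ → Set (κ ⊕ β) :=
  fun s => famL A s ∪ Sum.elim e f ⁻¹' preAct z ε (f j) σ s

theorem famL_anti {A : ℝ → Set κ} {t : ℝ} (hA : Anti A t) :
    Anti (famL A : ℝ → Set (κ ⊕ β)) t :=
  fun s s' h0 h1 h2 => image_mono (hA s s' h0 h1 h2)

theorem famHit_anti {z' : ℝ → (κ ⊕ β) → PhasePoint} {ε : ℝ} {A : ℝ → Set κ} {j : β} {σ : ℝ}
    (hA : Anti A σ) : Anti (famHit z' ε A j σ) σ :=
  (famL_anti hA).union preAct_anti


theorem GoodHit.iso_famHit {z' : ℝ → (κ ⊕ β) → PhasePoint} {ε : ℝ} {A : ℝ → Set κ} {j : β} {σ : ℝ}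
    (h : GoodHit z' ε A j σ) : Iso z' ε (famHit z' ε A j σ) σ := h.iso.union iso_preAct


variable {z : ℝ → ι → PhasePoint} {z' : ℝ → (κ ⊕ β) → PhasePoint} {e : κ → ι} {f : β → ι}
variable {ε T : ℝ} {A : ℝ → Set κ} {j : β} {σ : ℝ}

theorem RealHit.pos (h : RealHit z ε e f A j σ) (hσ0 : 0 ≤ σ) : 0 < σ := by
  rcases hσ0.lt_or_eq with h1 | h1
  · exact h1
  · exfalso
    have h2 : f j ∈ preAct z ε (f j) σ 0 := by rw [h.full]; exact ⟨j, rfl⟩
    obtain ⟨s', hs', _⟩ := h2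
    rw [← h1] at hs'
    simp at hs'

theorem GoodHit.pos (h : GoodHit z' ε A j σ) (hσ0 : 0 ≤ σ) : 0 < σ := by
  rcases hσ0.lt_or_eq with h1 | h1
  · exact h1
  · exfalso
    have h2 : (Sum.inr j : κ ⊕ β) ∈ preAct z' ε (Sum.inr j) σ 0 := by rw [h.full]; exact ⟨j, rfl⟩
    obtain ⟨s', hs', _⟩ := h2
    rw [← h1] at hs'
    simp at hs'



end

section main

variable {κ β ι : Type} [Finite κ] [Finite β] [Finite ι]
variable {z : ℝ → ι → PhasePoint} {z' : ℝ → (κ ⊕ β) → PhasePoint} {e : κ → ι} {f : β → ι}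
variable {ε T : ℝ} {A : ℝ → Set κ} {j : β} {σ : ℝ}

theorem elim_injective (he : Function.Injective e) (hf : Function.Injective f)
    (hd : ∀ k b, e k ≠ f b) : Function.Injective (Sum.elim e f) := by
  rintro (a | a) (b | b) h
  · exact congrArg _ (he h)
  · exact absurd h (hd a b)
  · exact absurd h.symm (hd b a)
  · exact congrArg _ (hf h)


/-- **Dictionary, from the isolated world to the real world.** -/
theorem GoodHit.realHit (hz' : ∀ j, ContinuousOn (fun s => z' s j) (Icc 0 T))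
    (hz : ∀ j, ContinuousOn (fun s => z s j) (Icc 0 T))
    (hloc : LocUniq ε T z' z) (he : Function.Injective e) (hf : Function.Injective f)
    (hd : ∀ k b, e k ≠ f b) (h0 : ∀ i, z' 0 i = z 0 (Sum.elim e f i))
    (hσ0 : 0 ≤ σ) (hσT : σ ≤ T) (hA : Anti A σ)
    (h : GoodHit z' ε A j σ)
    (hI : Iso z ε (fun s => Sum.elim e f '' famHit z' ε A j σ s) σ) :
    RealHit z ε e f A j σ ∧ Iso z' ε (famReal z ε e f A j σ) σ ∧
      (∀ s ∈ Ico 0 σ, famHit z' ε A j σ s = famReal z ε e f A j σ s) := by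
  have hinj := elim_injective he hf hd
  have hσpos := h.pos hσ0
  have hanti := famHit_anti (z' := z') (ε := ε) (j := j) hA
  have hag : ∀ s ∈ Icc 0 σ, ∀ k ∈ famHit z' ε A j σ s, z' s k = z s (Sum.elim e f k) :=
    Iso.agree hz' hz hloc hinj hσT hanti (fun k _ => h0 k) h.iso_famHit hI
  have hj : ∀ s ∈ Ico 0 σ, (Sum.inr j : κ ⊕ β) ∈ famHit z' ε A j σ s := fun s hs =>
    Or.inr (mem_preAct_self hs.2)
  have hpre : ∀ s ∈ Ico 0 σ, preAct z ε (f j) σ s =
      Sum.elim e f '' preAct z' ε (Sum.inr j) σ s := by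
    intro s hs
    exact preAct_eq (j := Sum.inr j) hinj hanti h.iso_famHit hI hag le_rfl hj hs.1
  have hfam : ∀ s ∈ Ico 0 σ, famHit z' ε A j σ s = famReal z ε e f A j σ s := by
    intro s hs
    unfold famHit famReal
    rw [hpre s hs, preimage_image_eq _ hinj]
  refine ⟨⟨?_, ?_, ?_⟩, ?_, hfam⟩
  · rintro s hs _ ⟨k, hk, rfl⟩ i hi
    have hk2 : (Sum.inl k : κ ⊕ β) ∈ famHit z' ε A j σ s := Or.inl ⟨k, hk, rfl⟩
    by_cases hi2 : i ∈ Sum.elim e f '' famHit z' ε A j σ s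
    · obtain ⟨m, hm, rfl⟩ := hi2
      have h1 := hag s ⟨hs.1, hs.2.le⟩ _ hk2
      have h2 := hag s ⟨hs.1, hs.2.le⟩ m hm
      rw [Sum.elim_inl] at h1
      rw [← h1, ← h2]
      refine h.iso s hs _ ⟨k, hk, rfl⟩ m ?_
      rintro ⟨k', hk', rfl⟩
      exact hi ⟨k', hk', rfl⟩
    · exact hI s hs (e k) ⟨Sum.inl k, hk2, rfl⟩ i hi2
  · refine ⟨?_, ?_⟩
    · rintro ⟨k, _, h1⟩
      exact hd k j h1
    · obtain ⟨_, _, ⟨k, hk, rfl⟩, hdist⟩ := h.touch
      refine ⟨e k, ⟨k, hk, rfl⟩, ?_⟩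
      have h1 : z' σ (Sum.inl k) = z σ (e k) :=
        hag σ ⟨hσ0, le_rfl⟩ _ (Or.inl ⟨k, hk, rfl⟩)
      have h2 : z' σ (Sum.inr j) = z σ (f j) := by
        have hne : (𝓝[Ico 0 σ] σ).NeBot := by
          rw [← mem_closure_iff_nhdsWithin_neBot, closure_Ico hσpos.ne]
          exact ⟨hσ0, le_rfl⟩
        have hsub : Ico 0 σ ⊆ Icc 0 T := fun s hs => ⟨hs.1, hs.2.le.trans hσT⟩
        have h3 : Tendsto (fun s => z' s (Sum.inr j)) (𝓝[Ico 0 σ] σ) (𝓝 (z' σ (Sum.inr j))) :=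
          ((hz' (Sum.inr j)) σ ⟨hσ0, hσT⟩).mono hsub
        have h4 : Tendsto (fun s => z s (f j)) (𝓝[Ico 0 σ] σ) (𝓝 (z σ (f j))) :=
          ((hz (f j)) σ ⟨hσ0, hσT⟩).mono hsub
        refine tendsto_nhds_unique_of_eventuallyEq h3 h4 ?_
        filter_upwards [self_mem_nhdsWithin] with s hs
        exact hag s ⟨hs.1, hs.2.le⟩ _ (hj s hs)
      rw [← h1, ← h2]
      exact hdist
  · rw [hpre 0 ⟨le_rfl, hσpos⟩, h.full]
    ext i
    constructor
    · rintro ⟨_, ⟨b, rfl⟩, rfl⟩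
      exact ⟨b, rfl⟩
    · rintro ⟨b, rfl⟩
      exact ⟨Sum.inr b, ⟨b, rfl⟩, rfl⟩
  · exact h.iso_famHit.congr hfam


end main

section first

variable {κ ι : Type} [Finite κ] [Finite ι]
variable {zG : ℝ → κ → PhasePoint} {z : ℝ → ι → PhasePoint} {e : κ → ι}
variable {ε T : ℝ} {A : ℝ → Set κ} {t t₀ : ℝ}



end first

end Crest.Agent.R122.Hit167
end

-- ▼ part R122/Hit3_167
section

/-!
# First hits (row 122, helper167): families given by protected times

* `fam τ s = {m | s ≤ τ m}`: the family with protected times `τ`.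
* `StrictAt`: at the hitting time the hitter is in contact only with members of the family.
* `tauHit`: the protected times of the structure `G ∪ B` after a strict good hit;
  `GoodHit.famHit_eq`: `famHit = fam tauHit` on `[0, σ)`.
-/

set_option autoImplicit false

open Set Filter Topology
open Crest.AnalysisR.Kinetic

namespace Crest.Agent.R122.Hit167

open Causal291

/-- The family with protected times `τ`. -/
def fam {κ : Type*} (τ : κ → ℝ) : ℝ → Set κ := fun s => {m | s ≤ τ m}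


theorem fam_anti {κ : Type*} (τ : κ → ℝ) (t : ℝ) : Anti (fam τ) t :=
  fun _ _ _ h _ _ hk => h.trans hk

/-- At time `σ` the hitter `j` is in contact only with members of the family. -/
def StrictAt {κ β : Type*} (z' : ℝ → (κ ⊕ β) → PhasePoint) (ε : ℝ) (A : ℝ → Set κ) (j : β)
    (σ : ℝ) : Prop :=
  ∀ i : κ ⊕ β, i ≠ Sum.inr j → i ∉ Sum.inl '' A σ → ε < dist (z' σ (Sum.inr j)).1 (z' σ i).1

/-- Protected times of the structure `G ∪ B` after the hit `(j, σ)`. -/
noncomputable def tauHit {κ β : Type*} (z' : ℝ → (κ ⊕ β) → PhasePoint) (ε : ℝ) (τ : κ → ℝ) (j : β)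
    (σ : ℝ) : κ ⊕ β → ℝ :=
  Sum.elim (fun m => min (τ m) σ)
    (fun m => sSup {s | s < σ ∧ (Sum.inr m : κ ⊕ β) ∈ preAct z' ε (Sum.inr j) σ s})

section quiet

variable {ι : Type*} {z : ℝ → ι → PhasePoint} {ε : ℝ} {j : ι} {r r' s σ : ℝ} {k : ι}

/-- If `j` has no contact in `[r, σ)` then the exploration from a later root time is the one from
the root time `r`. -/
theorem past_of_quiet (hq : ∀ u ∈ Ico r σ, ∀ i, i ≠ j → ¬ Ct z ε u j i) (hr' : r' < σ)
    (h : Past (Ct z ε) r' j s k) :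
    (s ≤ r → Past (Ct z ε) r j s k) ∧ (r < s → k = j) := by
  induction h with
  | root h => exact ⟨fun hs => .root hs, fun _ => rfl⟩
  | @step s u l k hp hc hsu ih =>
    have hu : u ≤ r' := hp.le
    rcases le_or_gt u r with hur | hur
    · exact ⟨fun _ => .step (ih.1 hur) hc hsu, fun hrs => absurd (hsu.trans hur) (not_le.2 hrs)⟩
    · have hl : l = j := ih.2 hur
      subst hl
      have hk : k = l := by
        by_contra hne
        exact hq u ⟨hur.le, hu.trans_lt hr'⟩ k hne hc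
      subst hk
      exact ⟨fun hs => .root hs, fun _ => rfl⟩

theorem mem_preAct_of_quiet (hq : ∀ u ∈ Ico r σ, ∀ i, i ≠ j → ¬ Ct z ε u j i) (hr : r < σ)
    (hs : s ≤ r) : k ∈ preAct z ε j σ s ↔ Past (Ct z ε) r j s k := by
  constructor
  · rintro ⟨u, hu, hp⟩
    exact (past_of_quiet hq hu.2 hp).1 hs
  · intro h
    exact ⟨r, ⟨hs, hr⟩, h⟩

theorem mem_preAct_of_quiet' (hq : ∀ u ∈ Ico r σ, ∀ i, i ≠ j → ¬ Ct z ε u j i)
    (hs : s ∈ Ioo r σ) : k ∈ preAct z ε j σ s ↔ k = j := by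
  constructor
  · rintro ⟨u, hu, hp⟩
    exact (past_of_quiet hq hu.2 hp).2 hs.1
  · rintro rfl
    exact mem_preAct_self hs.2

end quiet

section main

variable {κ β : Type} [Finite κ] [Finite β]
variable {z' : ℝ → (κ ⊕ β) → PhasePoint} {ε T : ℝ} {τ : κ → ℝ} {j : β} {σ : ℝ}

/-- A strict good hit: the hitter has no contact shortly before the hitting time. -/
theorem GoodHit.exists_quiet {A : ℝ → Set κ} (hz' : ∀ j, ContinuousOn (fun s => z' s j) (Icc 0 T))
    (hA : Anti A σ) (hσ0 : 0 ≤ σ) (hσT : σ ≤ T) (h : GoodHit z' ε A j σ)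
    (hs : StrictAt z' ε A j σ) :
    ∃ r ∈ Ico 0 σ, ∀ u ∈ Ico r σ, ∀ i, i ≠ (Sum.inr j : κ ⊕ β) → ¬ Ct z' ε u (Sum.inr j) i := by
  have hσpos := h.pos hσ0
  have h1 : ∀ i : κ ⊕ β, i ≠ Sum.inr j → i ∉ Sum.inl '' A σ →
      ∀ᶠ u in 𝓝[Icc 0 T] σ, ε < dist (z' u (Sum.inr j)).1 (z' u i).1 := by
    intro i hi hi2
    have hc : ContinuousWithinAt (fun s' => dist (z' s' (Sum.inr j)).1 (z' s' i).1) (Icc 0 T) σ :=
      ((hz' (Sum.inr j) σ ⟨hσ0, hσT⟩).fst).dist ((hz' i σ ⟨hσ0, hσT⟩).fst)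
    exact hc.eventually (lt_mem_nhds (hs i hi hi2))
  have h2 : ∀ᶠ u in 𝓝[Icc 0 T] σ, ∀ i : κ ⊕ β, i ≠ Sum.inr j → i ∉ Sum.inl '' A σ →
      ε < dist (z' u (Sum.inr j)).1 (z' u i).1 := by
    rw [Filter.eventually_all]
    intro i
    by_cases hi : i ≠ Sum.inr j ∧ i ∉ Sum.inl '' A σ
    · exact (h1 i hi.1 hi.2).mono fun s' h _ _ => h
    · exact Eventually.of_forall fun s' hA hB => absurd ⟨hA, hB⟩ hi
  rw [eventually_nhdsWithin_iff, Metric.eventually_nhds_iff] at h2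
  obtain ⟨δ, hδ, h2⟩ := h2
  refine ⟨max 0 (σ - δ / 2), ⟨le_max_left _ _, max_lt hσpos (by linarith)⟩, ?_⟩
  intro u hu i hi hc
  have hu0 : 0 ≤ u := (le_max_left _ _).trans hu.1
  have huσ : σ - δ / 2 ≤ u := (le_max_right _ _).trans hu.1
  by_cases hiA : i ∈ Sum.inl '' A σ
  · obtain ⟨k, hk, rfl⟩ := hiA
    have hkA : k ∈ A u := hA u σ hu0 hu.2.le le_rfl hk
    have h3 := h.iso u ⟨hu0, hu.2⟩ (Sum.inl k) ⟨k, hkA, rfl⟩ (Sum.inr j) (by
      rintro ⟨m, _, hm⟩
      exact absurd hm (by simp))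
    rw [dist_comm] at h3
    exact absurd hc (not_le.2 h3)
  · have h3 := h2 (y := u) (by rw [Real.dist_eq, abs_lt]; constructor <;> linarith [hu.2])
      ⟨hu0, hu.2.le.trans hσT⟩ i hi hiA
    exact absurd hc (not_le.2 h3)

/-- The protected times describe the family after a strict good hit. -/
theorem GoodHit.famHit_eq (hz' : ∀ j, Continuous (fun s => z' s j))
    (hσ0 : 0 ≤ σ) (h : GoodHit z' ε (fam τ) j σ) (hs : StrictAt z' ε (fam τ) j σ) {s : ℝ}
    (hsσ : s ∈ Ico 0 σ) : famHit z' ε (fam τ) j σ s = fam (tauHit z' ε τ j σ) s := by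
  obtain ⟨r, hr, hq⟩ := h.exists_quiet (T := σ) (fun i => (hz' i).continuousOn) (fam_anti τ σ) hσ0
    le_rfl hs
  have hclosed : ∀ i k, IsClosed {s | Ct z' ε s i k} := fun i k => isClosed_ct hz' i k
  ext i
  rcases i with m | m
  · constructor
    · rintro (⟨m', hm', hmm⟩ | hm)
      · obtain rfl : m' = m := Sum.inl_injective hmm
        exact le_min hm' hsσ.2.le
      · exfalso
        have h1 : (Sum.inl m : κ ⊕ β) ∈ preAct z' ε (Sum.inr j) σ 0 :=
          preAct_anti 0 s le_rfl hsσ.1 hsσ.2.le hm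
        rw [h.full] at h1
        obtain ⟨b, hb⟩ := h1
        exact absurd hb (by simp)
    · intro hm
      exact Or.inl ⟨m, (le_min_iff.1 (show s ≤ min (τ m) σ from hm)).1, rfl⟩
  · have h0 : (Sum.inr m : κ ⊕ β) ∈ preAct z' ε (Sum.inr j) σ 0 := by
      rw [h.full]; exact ⟨m, rfl⟩
    set S : Set ℝ := {s | s < σ ∧ (Sum.inr m : κ ⊕ β) ∈ preAct z' ε (Sum.inr j) σ s} with hS
    have hτ : tauHit z' ε τ j σ (Sum.inr m) = sSup S := rfl
    have hbdd : BddAbove S := ⟨σ, fun u hu => hu.1.le⟩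
    have h0S : (0 : ℝ) ∈ S := ⟨h.pos hσ0, h0⟩
    have hdown : ∀ u v, u ≤ v → v ∈ S → u ∈ S := by
      rintro u v huv ⟨hv, w, hw, hp⟩
      exact ⟨huv.trans_lt hv, w, ⟨huv.trans hw.1, hw.2⟩, hp.mono huv⟩
    have key : (Sum.inr m : κ ⊕ β) ∈ famHit z' ε (fam τ) j σ s ↔ s ∈ S := by
      constructor
      · rintro (⟨m', _, hmm⟩ | hm)
        · exact absurd hmm (by simp)
        · exact ⟨hsσ.2, hm⟩
      · intro hm
        exact Or.inr hm.2
    rw [key]
    change s ∈ S ↔ s ≤ tauHit z' ε τ j σ (Sum.inr m)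
    rw [hτ]
    refine ⟨fun hsS => le_csSup hbdd hsS, fun hle => ?_⟩
    rcases hle.lt_or_eq with hlt | heq
    · obtain ⟨u, hu, hsu⟩ := exists_lt_of_lt_csSup ⟨0, h0S⟩ hlt
      exact hdown s u hsu.le hu
    · -- `s = sSup S`: closedness
      by_cases hmj : m = j
      · subst hmj
        exact ⟨hsσ.2, mem_preAct_self hsσ.2⟩
      · have hne : (Sum.inr m : κ ⊕ β) ≠ Sum.inr j := fun h => hmj (Sum.inr_injective h)
        -- members of `S` are `≤ r`
        have hSr : ∀ u ∈ S, u ≤ r := by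
          rintro u ⟨huσ, hu⟩
          by_contra hlt
          push Not at hlt
          exact hne ((mem_preAct_of_quiet' hq ⟨hlt, huσ⟩).1 hu)
        have hsr : s ≤ r := by
          rw [heq]
          exact csSup_le ⟨0, h0S⟩ hSr
        have hP : {u | Past (Ct z' ε) r (Sum.inr j) u (Sum.inr m)} = S := by
          ext u
          constructor
          · intro hu
            have hur : u ≤ r := Past.le hu
            exact ⟨hur.trans_lt hr.2, (mem_preAct_of_quiet hq hr.2 hur).2 hu⟩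
          · intro hu
            exact (mem_preAct_of_quiet hq hr.2 (hSr u hu)).1 hu.2
        have hcl : IsClosed S := by
          rw [← hP]
          exact isClosed_past hclosed (Sum.inr m)
        rw [heq]
        exact hcl.csSup_mem ⟨0, h0S⟩ hbdd



/-- The structure after the hit is isolated in its own world. -/
theorem GoodHit.iso_fam (hz' : ∀ j, Continuous (fun s => z' s j))
    (hσ0 : 0 ≤ σ) (h : GoodHit z' ε (fam τ) j σ) (hs : StrictAt z' ε (fam τ) j σ) :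
    Iso z' ε (fam (tauHit z' ε τ j σ)) σ :=
  h.iso_famHit.congr fun _ hs' => h.famHit_eq hz' hσ0 hs hs'

end main

/-! ### Relabelling -/

section relabel

variable {ι ι' : Type*} {z : ℝ → ι' → PhasePoint} {ε : ℝ} {t : ℝ}

theorem iso_relabel (g : ι ≃ ι') {A : ℝ → Set ι} :
    Iso (fun s i => z s (g i)) ε A t ↔ Iso z ε (fun s => g '' A s) t := by
  constructor
  · rintro h s hs _ ⟨k, hk, rfl⟩ j hj
    have hj' : g.symm j ∉ A s := fun h' => hj ⟨g.symm j, h', by simp⟩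
    have := h s hs k hk (g.symm j) hj'
    simpa using this
  · intro h s hs k hk j hj
    exact h s hs (g k) ⟨k, hk, rfl⟩ (g j) (by
      rintro ⟨m, hm, h1⟩
      exact hj (by rw [← g.injective h1]; exact hm))

theorem pth_relabel {ι ι' : Type*} [Fintype ι] [Fintype ι'] {Φ : Space3 → ℝ} {ε : ℝ}
    (hΦ : AdmissiblePotential Φ) (hε : 0 < ε) (g : ι ≃ ι') (Z : ι' → PhasePoint) :
    pth Φ ε (fun i => Z (g i)) = fun s i => pth Φ ε Z s (g i) := by
  funext s
  exact Loc45.flow_equiv hΦ hε g s Z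

theorem past_relabel {C : ℝ → ι' → ι' → Prop} (g : ι ≃ ι') {s' s : ℝ} {j k : ι} :
    Past (fun s a b => C s (g a) (g b)) s' j s k ↔ Past C s' (g j) s (g k) :=
  past_equiv C g

theorem preAct_relabel (g : ι ≃ ι') {j : ι} {σ s : ℝ} :
    preAct (fun s i => z s (g i)) ε j σ s = g ⁻¹' preAct z ε (g j) σ s := by
  ext k
  constructor
  · rintro ⟨r, hr, hp⟩
    exact ⟨r, hr, (past_relabel (C := Ct z ε) g).1 hp⟩
  · rintro ⟨r, hr, hp⟩
    exact ⟨r, hr, (past_relabel (C := Ct z ε) g).2 hp⟩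

end relabel

end Crest.Agent.R122.Hit167
end

-- ▼ part R122/HitG1_167

/-!
# Ghost first hits (row 122, helper167), deterministic part

A test family: continuous curves `c a : ℝ → Space3` (`a : α`, finite) with end times `θ a`.
`Unhit z ε c θ t`: no particle of the world `z` comes within `ε` of a curve `c a` at a time
`s < t`, `s ≤ θ a`.

* `exists_first_hit`: the first hitting time is attained.
* `GhostHit` (real world), `GoodGhostHit` (isolated world of the backward cluster `B` of the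
  hitter), `ghostHit_iff`: the dictionary.
-/

set_option autoImplicit false

open Set Filter Topology
open Crest.AnalysisR.Kinetic

namespace Crest.Agent.R122.Hit167

open Causal291

section defs

variable {α ι β : Type*}

/-- The particle `k` is within `ε` of a curve of the test family at time `s`. -/
def HitsAt (z : ℝ → ι → PhasePoint) (ε : ℝ) (c : α → ℝ → Space3) (θ : α → ℝ) (s : ℝ) (k : ι) :
    Prop :=
  ∃ a, s ≤ θ a ∧ dist (c a s) (z s k).1 ≤ ε

/-- The test family is not hit before time `t`. -/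
def Unhit (z : ℝ → ι → PhasePoint) (ε : ℝ) (c : α → ℝ → Space3) (θ : α → ℝ) (t : ℝ) : Prop :=
  ∀ s ∈ Ico 0 t, ∀ k, ¬ HitsAt z ε c θ s k

variable {z : ℝ → ι → PhasePoint} {ε : ℝ} {c : α → ℝ → Space3} {θ : α → ℝ} {t t' s : ℝ}

theorem Unhit.mono (h : Unhit z ε c θ t) (ht : t' ≤ t) : Unhit z ε c θ t' :=
  fun s hs => h s ⟨hs.1, hs.2.trans_le ht⟩

theorem unhit_iff : Unhit z ε c θ t ↔
    ∀ s ∈ Ico 0 t, ∀ a, s ≤ θ a → ∀ k, ε < dist (c a s) (z s k).1 := by
  unfold Unhit HitsAt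
  constructor
  · intro h s hs a ha k
    by_contra hle
    exact h s hs k ⟨a, ha, not_lt.1 hle⟩
  · rintro h s hs k ⟨a, ha, hd⟩
    exact absurd hd (not_le.2 (h s hs a ha k))

/-- **First hit** in the window `[t₀, t)`. -/
theorem exists_first_hit [Finite α] [Finite ι] (hz : ∀ k, Continuous fun s => z s k)
    (hc : ∀ a, Continuous (c a)) {t₀ : ℝ} (h0 : Unhit z ε c θ t₀) (hnot : ¬ Unhit z ε c θ t) :
    ∃ σ ∈ Ico 0 t, t₀ ≤ σ ∧ Unhit z ε c θ σ ∧ ∃ k, HitsAt z ε c θ σ k := by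
  set S : Set ℝ := Ici 0 ∩ ⋃ k : ι, {s | HitsAt z ε c θ s k} with hS
  have hcl : IsClosed S := by
    refine isClosed_Ici.inter (isClosed_iUnion_of_finite fun k => ?_)
    have : {s | HitsAt z ε c θ s k} = ⋃ a : α, (Iic (θ a) ∩ {s | dist (c a s) (z s k).1 ≤ ε}) := by
      ext s
      simp only [HitsAt, mem_iUnion, mem_inter_iff, mem_Iic, mem_ofPred_eq]
    rw [this]
    exact isClosed_iUnion_of_finite fun a =>
      isClosed_Iic.inter (isClosed_le ((hc a).dist (hz k).fst) continuous_const)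
  unfold Unhit at hnot
  push Not at hnot
  obtain ⟨s, hs, k, hk⟩ := hnot
  have hsS : s ∈ S := ⟨hs.1, mem_iUnion.2 ⟨k, hk⟩⟩
  have hbdd : BddBelow S := ⟨0, fun u hu => hu.1⟩
  have hσ := hcl.csInf_mem ⟨s, hsS⟩ hbdd
  have hlt : sInf S < t := (csInf_le hbdd hsS).trans_lt hs.2
  obtain ⟨k', hk'⟩ := mem_iUnion.1 hσ.2
  refine ⟨sInf S, ⟨hσ.1, hlt⟩, ?_, ?_, k', hk'⟩
  · by_contra hlt'
    push Not at hlt'
    exact h0 (sInf S) ⟨hσ.1, hlt'⟩ k' hk'
  · intro u hu k'' hk''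
    exact absurd (csInf_le hbdd (show u ∈ S from ⟨hu.1, mem_iUnion.2 ⟨k'', hk''⟩⟩)) (not_le.2 hu.2)

/-- The first hitting time is unique. -/
theorem first_hit_unique {σ σ' : ℝ} {k k' : ι} (hσ0 : 0 ≤ σ) (hσ0' : 0 ≤ σ')
    (h : Unhit z ε c θ σ) (hk : HitsAt z ε c θ σ k) (h' : Unhit z ε c θ σ')
    (hk' : HitsAt z ε c θ σ' k') : σ = σ' := by
  by_contra hne
  rcases lt_or_gt_of_ne hne with hlt | hlt
  · exact h' σ ⟨hσ0, hlt⟩ k hk
  · exact h σ' ⟨hσ0', hlt⟩ k' hk'

/-- **Ghost hit** in the real world: `f j` hits the test family at time `σ`, which is unhit before,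
and the backward exploration of `(f j, σ⁻)` is exactly `f B`. -/
structure GhostHit (z : ℝ → ι → PhasePoint) (ε : ℝ) (c : α → ℝ → Space3) (θ : α → ℝ) (f : β → ι)
    (j : β) (σ : ℝ) : Prop where
  unhit : Unhit z ε c θ σ
  hits : HitsAt z ε c θ σ (f j)
  full : preAct z ε (f j) σ 0 = range f

/-- **Good ghost hit** in the isolated world of `B`: `j` hits the test family at time `σ`, its
backward exploration is all of `B`, and the protected members do not hit the test family before. -/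
structure GoodGhostHit (zB : ℝ → β → PhasePoint) (ε : ℝ) (c : α → ℝ → Space3) (θ : α → ℝ) (j : β)
    (σ : ℝ) : Prop where
  hits : HitsAt zB ε c θ σ j
  full : preAct zB ε j σ 0 = univ
  unhit : ∀ s ∈ Ico 0 σ, ∀ k ∈ preAct zB ε j σ s, ¬ HitsAt zB ε c θ s k

/-- At time `σ` the particle `j` is not in contact with any other particle. -/
def AloneAt (zB : ℝ → β → PhasePoint) (ε : ℝ) (j : β) (σ : ℝ) : Prop :=
  ∀ i, i ≠ j → ε < dist (zB σ j).1 (zB σ i).1

/-- Protected times of the backward cluster of `(j, σ⁻)`. -/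
noncomputable def tauPre (zB : ℝ → β → PhasePoint) (ε : ℝ) (j : β) (σ : ℝ) : β → ℝ :=
  fun m => sSup {s | s < σ ∧ m ∈ preAct zB ε j σ s}

end defs

section main

variable {α β ι : Type} [Finite β] [Finite ι]
variable {z : ℝ → ι → PhasePoint} {zB : ℝ → β → PhasePoint} {f : β → ι}
variable {ε T : ℝ} {c : α → ℝ → Space3} {θ : α → ℝ} {j : β} {σ : ℝ}

omit [Finite β] [Finite ι] in
theorem GhostHit.pos (h : GhostHit z ε c θ f j σ) (hσ0 : 0 ≤ σ) : 0 < σ := by
  rcases hσ0.lt_or_eq with h1 | h1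
  · exact h1
  · exfalso
    have h2 : f j ∈ preAct z ε (f j) σ 0 := by rw [h.full]; exact ⟨j, rfl⟩
    obtain ⟨s', hs', _⟩ := h2
    rw [← h1] at hs'
    simp at hs'

omit [Finite β] [Finite ι] in
theorem GoodGhostHit.pos (h : GoodGhostHit zB ε c θ j σ) (hσ0 : 0 ≤ σ) : 0 < σ := by
  rcases hσ0.lt_or_eq with h1 | h1
  · exact h1
  · exfalso
    have h2 : j ∈ preAct zB ε j σ 0 := by rw [h.full]; exact mem_univ j
    obtain ⟨s', hs', _⟩ := h2
    rw [← h1] at hs'
    simp at hs'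

omit [Finite β] [Finite ι] in
/-- Left limits: states of `j` agree at time `σ` if they agree before. -/
theorem agree_at_end {i : ι} (hzB : ContinuousOn (fun s => zB s j) (Icc 0 T))
    (hz : ContinuousOn (fun s => z s i) (Icc 0 T)) (hσ : 0 < σ) (hσT : σ ≤ T)
    (h : ∀ s ∈ Ico 0 σ, zB s j = z s i) : zB σ j = z σ i := by
  have hne : (𝓝[Ico 0 σ] σ).NeBot := by
    rw [← mem_closure_iff_nhdsWithin_neBot, closure_Ico hσ.ne]
    exact ⟨hσ.le, le_rfl⟩
  have hsub : Ico 0 σ ⊆ Icc 0 T := fun s hs => ⟨hs.1, hs.2.le.trans hσT⟩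
  have h3 : Tendsto (fun s => zB s j) (𝓝[Ico 0 σ] σ) (𝓝 (zB σ j)) :=
    (hzB σ ⟨hσ.le, hσT⟩).mono hsub
  have h4 : Tendsto (fun s => z s i) (𝓝[Ico 0 σ] σ) (𝓝 (z σ i)) := (hz σ ⟨hσ.le, hσT⟩).mono hsub
  refine tendsto_nhds_unique_of_eventuallyEq h3 h4 ?_
  filter_upwards [self_mem_nhdsWithin] with s hs
  exact h s hs

/-- **Ghost dictionary, from the real world to the isolated world.** -/
theorem GhostHit.good (hzB : ∀ j, ContinuousOn (fun s => zB s j) (Icc 0 T))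
    (hz : ∀ j, ContinuousOn (fun s => z s j) (Icc 0 T))
    (hloc : LocUniq ε T zB z) (hf : Function.Injective f) (h0 : ∀ i, zB 0 i = z 0 (f i))
    (hσ0 : 0 ≤ σ) (hσT : σ ≤ T) (h : GhostHit z ε c θ f j σ)
    (hI : Iso zB ε (fun s => f ⁻¹' preAct z ε (f j) σ s) σ) :
    GoodGhostHit zB ε c θ j σ ∧ Iso z ε (fun s => f '' preAct zB ε j σ s) σ ∧
      (∀ s ∈ Ico 0 σ, preAct zB ε j σ s = f ⁻¹' preAct z ε (f j) σ s) ∧
      (∀ s ∈ Ico 0 σ, ∀ k ∈ preAct zB ε j σ s, zB s k = z s (f k)) := by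
  have hσpos := h.pos hσ0
  have hsub : ∀ s ∈ Ico 0 σ, preAct z ε (f j) σ s ⊆ range f := by
    intro s hs
    rw [← h.full]
    exact preAct_anti 0 s le_rfl hs.1 hs.2.le
  have himg : ∀ s ∈ Ico 0 σ, f '' (f ⁻¹' preAct z ε (f j) σ s) = preAct z ε (f j) σ s :=
    fun s hs => image_preimage_eq_of_subset (hsub s hs)
  have hI2 : Iso z ε (fun s => f '' (f ⁻¹' preAct z ε (f j) σ s)) σ :=
    iso_preAct.congr fun s hs => (himg s hs).symm
  have hanti : Anti (fun s => f ⁻¹' preAct z ε (f j) σ s) σ :=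
    fun s s' h0 h1 h2 => preimage_mono (preAct_anti s s' h0 h1 h2)
  have hag : ∀ s ∈ Icc 0 σ, ∀ k ∈ f ⁻¹' preAct z ε (f j) σ s, zB s k = z s (f k) :=
    Iso.agree hzB hz hloc hf hσT hanti (fun k _ => h0 k) hI hI2
  have hj : ∀ s ∈ Ico 0 σ, j ∈ f ⁻¹' preAct z ε (f j) σ s := fun s hs =>
    mem_preAct_self (j := f j) hs.2
  have hpre : ∀ s ∈ Ico 0 σ, preAct zB ε j σ s = f ⁻¹' preAct z ε (f j) σ s := by
    intro s hs
    have h1 : preAct z ε (f j) σ s = f '' preAct zB ε j σ s :=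
      preAct_eq hf hanti hI hI2 hag le_rfl hj hs.1
    rw [h1, preimage_image_eq _ hf]
  have hag' : ∀ s ∈ Ico 0 σ, ∀ k ∈ preAct zB ε j σ s, zB s k = z s (f k) := by
    intro s hs k hk
    rw [hpre s hs] at hk
    exact hag s ⟨hs.1, hs.2.le⟩ k hk
  refine ⟨⟨?_, ?_, ?_⟩, ?_, hpre, hag'⟩
  · obtain ⟨a, ha, hd⟩ := h.hits
    refine ⟨a, ha, ?_⟩
    rw [agree_at_end (hzB j) (hz (f j)) hσpos hσT
      (fun s hs => hag' s hs j (mem_preAct_self hs.2))]
    exact hd
  · rw [hpre 0 ⟨le_rfl, hσpos⟩, h.full, preimage_range]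
  · rintro s hs k hk ⟨a, ha, hd⟩
    refine h.unhit s hs (f k) ⟨a, ha, ?_⟩
    rw [← hag' s hs k hk]
    exact hd
  · refine (iso_preAct (z := z) (j := f j)).congr fun s hs => ?_
    rw [hpre s hs, himg s hs]

/-- **Ghost dictionary, from the isolated world to the real world.** -/
theorem GoodGhostHit.ghost (hzB : ∀ j, ContinuousOn (fun s => zB s j) (Icc 0 T))
    (hz : ∀ j, ContinuousOn (fun s => z s j) (Icc 0 T))
    (hloc : LocUniq ε T zB z) (hf : Function.Injective f) (h0 : ∀ i, zB 0 i = z 0 (f i))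
    (hσ0 : 0 ≤ σ) (hσT : σ ≤ T) (h : GoodGhostHit zB ε c θ j σ)
    (hI : Iso z ε (fun s => f '' preAct zB ε j σ s) σ) (hU : Unhit z ε c θ σ) :
    GhostHit z ε c θ f j σ ∧ Iso zB ε (fun s => f ⁻¹' preAct z ε (f j) σ s) σ ∧
      (∀ s ∈ Ico 0 σ, preAct zB ε j σ s = f ⁻¹' preAct z ε (f j) σ s) := by
  have hσpos := h.pos hσ0
  have hag : ∀ s ∈ Icc 0 σ, ∀ k ∈ preAct zB ε j σ s, zB s k = z s (f k) :=
    Iso.agree hzB hz hloc hf hσT preAct_anti (fun k _ => h0 k) iso_preAct hI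
  have hj : ∀ s ∈ Ico 0 σ, j ∈ preAct zB ε j σ s := fun s hs => mem_preAct_self hs.2
  have hpre : ∀ s ∈ Ico 0 σ, preAct z ε (f j) σ s = f '' preAct zB ε j σ s := by
    intro s hs
    exact preAct_eq hf preAct_anti iso_preAct hI hag le_rfl hj hs.1
  have hpre' : ∀ s ∈ Ico 0 σ, preAct zB ε j σ s = f ⁻¹' preAct z ε (f j) σ s := by
    intro s hs
    rw [hpre s hs, preimage_image_eq _ hf]
  refine ⟨⟨hU, ?_, ?_⟩, ?_, hpre'⟩
  · obtain ⟨a, ha, hd⟩ := h.hits
    refine ⟨a, ha, ?_⟩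
    rw [← agree_at_end (hzB j) (hz (f j)) hσpos hσT
      (fun s hs => hag s ⟨hs.1, hs.2.le⟩ j (mem_preAct_self hs.2))]
    exact hd
  · rw [hpre 0 ⟨le_rfl, hσpos⟩, h.full, image_univ]
  · exact (iso_preAct (z := zB) (j := j)).congr hpre'

/-- **The ghost dictionary.** -/
theorem ghostHit_iff (hzB : ∀ j, ContinuousOn (fun s => zB s j) (Icc 0 T))
    (hz : ∀ j, ContinuousOn (fun s => z s j) (Icc 0 T))
    (hloc : LocUniq ε T zB z) (hf : Function.Injective f) (h0 : ∀ i, zB 0 i = z 0 (f i))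
    (hσ0 : 0 ≤ σ) (hσT : σ ≤ T) :
    (GhostHit z ε c θ f j σ ∧ Iso zB ε (fun s => f ⁻¹' preAct z ε (f j) σ s) σ) ↔
      (GoodGhostHit zB ε c θ j σ ∧ Iso z ε (fun s => f '' preAct zB ε j σ s) σ ∧
        Unhit z ε c θ σ) := by
  constructor
  · rintro ⟨h, hI⟩
    obtain ⟨h1, h2, _⟩ := h.good hzB hz hloc hf h0 hσ0 hσT hI
    exact ⟨h1, h2, h.unhit⟩
  · rintro ⟨h, hI, hU⟩
    obtain ⟨h1, h2, _⟩ := h.ghost hzB hz hloc hf h0 hσ0 hσT hI hU
    exact ⟨h1, h2⟩

omit [Finite ι] in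
/-- If the hitter is alone at time `σ` it has no contact shortly before `σ`. -/
theorem AloneAt.exists_quiet (hzB : ∀ j, Continuous (fun s => zB s j)) (hσ : 0 < σ)
    (h : AloneAt zB ε j σ) :
    ∃ r ∈ Ico 0 σ, ∀ u ∈ Icc r σ, ∀ i, i ≠ j → ¬ Ct zB ε u j i := by
  have h1 : ∀ i, i ≠ j → ∀ᶠ u in 𝓝 σ, ε < dist (zB u j).1 (zB u i).1 := by
    intro i hi
    have hc : Continuous (fun s' => dist (zB s' j).1 (zB s' i).1) := (hzB j).fst.dist (hzB i).fst
    exact hc.continuousAt.eventually (lt_mem_nhds (h i hi))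
  have h2 : ∀ᶠ u in 𝓝 σ, ∀ i, i ≠ j → ε < dist (zB u j).1 (zB u i).1 := by
    rw [Filter.eventually_all]
    intro i
    by_cases hi : i ≠ j
    · exact (h1 i hi).mono fun s' h _ => h
    · exact Eventually.of_forall fun s' hA => absurd hA hi
  obtain ⟨δ, hδ, h2⟩ := Metric.eventually_nhds_iff.1 h2
  refine ⟨max 0 (σ - δ / 2), ⟨le_max_left _ _, max_lt hσ (by linarith)⟩, ?_⟩
  intro u hu i hi hc
  have huσ : σ - δ / 2 ≤ u := (le_max_right _ _).trans hu.1
  exact absurd hc (not_le.2 (h2 (y := u) (by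
    rw [Real.dist_eq, abs_lt]; constructor <;> linarith [hu.2]) i hi))

omit [Finite ι] in
/-- Protected times describe the backward cluster of `(j, σ⁻)` if the hitter is alone. -/
theorem preAct_eq_fam (hzB : ∀ j, Continuous (fun s => zB s j)) (hσ : 0 < σ)
    (hfull : preAct zB ε j σ 0 = univ) (h : AloneAt zB ε j σ) {s : ℝ} (hsσ : s ∈ Ico 0 σ) :
    preAct zB ε j σ s = fam (tauPre zB ε j σ) s := by
  obtain ⟨r, hr, hq'⟩ := h.exists_quiet hzB hσ
  have hq : ∀ u ∈ Ico r σ, ∀ i, i ≠ j → ¬ Ct zB ε u j i := fun u hu => hq' u ⟨hu.1, hu.2.le⟩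
  ext m
  have h0 : m ∈ preAct zB ε j σ 0 := by rw [hfull]; exact mem_univ m
  set S : Set ℝ := {s | s < σ ∧ m ∈ preAct zB ε j σ s} with hS
  have hbdd : BddAbove S := ⟨σ, fun u hu => hu.1.le⟩
  have h0S : (0 : ℝ) ∈ S := ⟨hσ, h0⟩
  have hdown : ∀ u v, u ≤ v → v ∈ S → u ∈ S := by
    rintro u v huv ⟨hv, w, hw, hp⟩
    exact ⟨huv.trans_lt hv, w, ⟨huv.trans hw.1, hw.2⟩, hp.mono huv⟩
  have key : m ∈ preAct zB ε j σ s ↔ s ∈ S := ⟨fun hm => ⟨hsσ.2, hm⟩, fun hm => hm.2⟩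
  rw [key]
  change s ∈ S ↔ s ≤ sSup S
  refine ⟨fun hsS => le_csSup hbdd hsS, fun hle => ?_⟩
  rcases hle.lt_or_eq with hlt | heq
  · obtain ⟨u, hu, hsu⟩ := exists_lt_of_lt_csSup ⟨0, h0S⟩ hlt
    exact hdown s u hsu.le hu
  · by_cases hmj : m = j
    · subst hmj
      exact ⟨hsσ.2, mem_preAct_self hsσ.2⟩
    · have hSr : ∀ u ∈ S, u ≤ r := by
        rintro u ⟨huσ, hu⟩
        by_contra hlt
        push Not at hlt
        exact hmj ((mem_preAct_of_quiet' hq ⟨hlt, huσ⟩).1 hu)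
      have hP : {u | Past (Ct zB ε) r j u m} = S := by
        ext u
        constructor
        · intro hu
          have hur : u ≤ r := Past.le hu
          exact ⟨hur.trans_lt hr.2, (mem_preAct_of_quiet hq hr.2 hur).2 hu⟩
        · intro hu
          exact (mem_preAct_of_quiet hq hr.2 (hSr u hu)).1 hu.2
      have hcl : IsClosed S := by
        rw [← hP]
        exact isClosed_past (fun i k => isClosed_ct hzB i k) m
      rw [heq]
      exact hcl.csSup_mem ⟨0, h0S⟩ hbdd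

omit [Finite β] [Finite ι] in
theorem tauPre_self : tauPre zB ε j σ j = σ := by
  unfold tauPre
  have : {s | s < σ ∧ j ∈ preAct zB ε j σ s} = Iio σ := by
    ext s
    exact ⟨fun h => h.1, fun h => ⟨h, mem_preAct_self h⟩⟩
  rw [this, csSup_Iio]

omit [Finite β] [Finite ι] in
theorem tauPre_le (hσ0 : 0 ≤ σ) (i : β) : tauPre zB ε j σ i ≤ σ :=
  Real.sSup_le (fun _ hu => hu.1.le) hσ0

end main

end Crest.Agent.R122.Hit167
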