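import Crest.Agent.R122.RtGDet_302
import Crest.Agent.R122.FinalDefs_973
import Crest.Agent.R122.HitG1_167
import Crest.Agent.R122.RetMass_424
import Crest.Agent.R122.FinalH_973
import Crest.Agent.R122.EMDefs_602

-- ▼ part R122/RetRed_424
section

/-!
# Row 122 (helper424): forests which are unhit by the gas alone but hit in the real world

* `FEx Ps`, `fexL` : exit lines of a forest, `forestStr` : its structure (helper302's `Str`).
* `exists_fail` : first failure of real avoidance.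
* `ret_cases` : **deterministic reduction** of `retF` to: an exit line has touched, two exit lines
  are linked, return of (the influence of) one exit line to the protected tubes of one tree.
-/

set_option autoImplicit false
set_option linter.unusedSectionVars false

open MeasureTheory Set Filter Topology
open Crest.AnalysisR.Kinetic
open Crest.Agent.R122.Flow671 Crest.Agent.R122.Loc45 Crest.Agent.R122.Ins45
open Crest.Agent.R122.Causal291 Crest.Agent.R122.EDefs602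
open Crest.Agent.R122.Kin796 Crest.Agent.R122.Kin796.CTree Crest.Agent.R122.Tree674
open Crest.Agent.R122.PathFlow968 Crest.Agent.R122.TreeLines335 Crest.Agent.R122.GIV566
open Crest.Agent.R122.GC311 Crest.Agent.R122.Hit167
open Crest.Agent.R122.RtG302 (Str Shadow near AllOk LinkEx RetL RetM RetEx RetLn protT)
open Crest.Agent.R122.Forest399 (FIdx FPar flines fpath FValid FSep FVS)
open Crest.Agent.R122.Final973 (FT froot Avoid PerpC)

noncomputable section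

open scoped Classical

namespace Crest.Agent.R122.Ret424

variable {Φ : Space3 → ℝ} {ε : ℝ} {s : ℕ} {Ps : Fin s → CTree} {t T : ℝ} {q : FPar Ps}

/-- Labels of the exit lines of a forest. -/
abbrev FEx (Ps : Fin s → CTree) : Type := {k : FIdx Ps // k.2 ≠ root (Ps k.1)}

/-- Exit lines of a forest. -/
def fexL (Φ : Space3 → ℝ) (ε : ℝ) (Ps : Fin s → CTree) (q : FPar Ps) (x : FEx Ps) : ML :=
  lineML Φ ε (Ps x.1.1) (q x.1.1) x.1.2

/-- release times -/
def fprot (Ps : Fin s → CTree) (t : ℝ) (q : FPar Ps) (k : FIdx Ps) : ℝ :=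
  prot (Ps k.1) t (q k.1).2 k.2

theorem fprot_nonneg (hε : 0 < ε) (ht : 0 ≤ t) (hV : FValid Φ ε Ps t q) (k : FIdx Ps) :
    0 ≤ fprot Ps t q k := Final973.prot_nonneg' hε.le ht hV k

/-- The structure of a valid forest, roots protected up to `t`. -/
def forestStr (hε : 0 < ε) (ht : 0 ≤ t) (hV : FValid Φ ε Ps t q) : Str (FIdx Ps) (FEx Ps) where
  c u k := fpath Φ ε Ps q u k
  σ := fprot Ps t q
  j := Subtype.val
  ls := fexL Φ ε Ps q
  j_inj := Subtype.val_injective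
  birth x := rel_eq_prot (Ps x.1.1) t (q x.1.1).2 x.1.2 x.2
  state x := by
    have h1 := rel_eq_prot (Ps x.1.1) t (q x.1.1).2 x.1.2 x.2
    show _ = path Φ ε (Ps x.1.1) (q x.1.1).1 (q x.1.1).2
      (prot (Ps x.1.1) t (q x.1.1).2 x.1.2) x.1.2
    rw [RtG302.path_after_rel hε (Ps x.1.1) t (q x.1.1).1 (q x.1.1).2 (hV x.1.1) _ _ h1.le, ← h1]
    rfl
  nonneg := fprot_nonneg hε ht hV

theorem ne_root_of_lt {k : FIdx Ps} {v : ℝ} (hv : v ≤ t) (h : fprot Ps t q k < v) :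
    k.2 ≠ root (Ps k.1) := by
  intro hr
  unfold fprot at h
  rw [hr, PathFlow968.prot_root] at h
  exact absurd hv (not_le.2 h)

/-- The protected legs are isolated in the isolated world of the forest. -/
theorem iso_forest (hΦ : AdmissiblePotential Φ) (hε : 0 < ε) (hv : FValid Φ ε Ps t q)
    (hs : FSep Φ ε Ps t q) :
    Iso (pth Φ ε (flines Φ ε Ps q)) ε (fam (fprot Ps t q)) t := by
  rintro u hu ⟨i, k⟩ hk ⟨i', j⟩ hj
  have hut : u ∈ Icc 0 t := ⟨hu.1, hu.2.le⟩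
  rw [Final973.pth_flines hΦ hε hv hs hut]
  have hj' : fprot Ps t q ⟨i', j⟩ < u := not_le.1 hj
  by_cases hii : i = i'
  · subst hii
    refine hs.1 i k j ?_ u hut ?_ ?_
    · rintro rfl
      exact absurd hk (not_le.2 hj')
    · intro hw
      exact absurd (Final973.inWindow_prot (Ps i) hε.le (hv i).2 hw).2 (not_le.2 hj')
    · intro hw
      exact absurd (Final973.inWindow_prot (Ps i) hε.le (hv i).2 hw).1 (not_le.2 hj')
  · exact hs.2 i i' hii k j u hut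

section fail

variable {m : ℕ} {w : Config m}

/-- The real configuration. -/
abbrev rW (Φ : Space3 → ℝ) (ε : ℝ) (Ps : Fin s → CTree) (q : FPar Ps) {m : ℕ} (w : Config m) :
    FIdx Ps ⊕ Fin m → PhasePoint := Sum.elim (flines Φ ε Ps q) w

/-- A failure of real avoidance at time `v`. -/
def FailAt (Φ : Space3 → ℝ) (ε : ℝ) (Ps : Fin s → CTree) (t : ℝ) (q : FPar Ps) {m : ℕ}
    (w : Config m) (v : ℝ) : Prop :=
  ∃ (k : FIdx Ps) (l : FIdx Ps ⊕ Fin m), v ≤ fprot Ps t q k ∧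
    (∀ k', l = Sum.inl k' → fprot Ps t q k' < v) ∧
    dist (fpath Φ ε Ps q v k).1 (pth Φ ε (rW Φ ε Ps q w) v l).1 ≤ ε

/-- **First failure of real avoidance.** -/
theorem exists_fail (hΦ : AdmissiblePotential Φ) (hε : 0 < ε) (ht : 0 ≤ t)
    (hv : FValid Φ ε Ps t q) (hs : FSep Φ ε Ps t q)
    (hX : rW Φ ε Ps q w ∈ Dom Φ (FIdx Ps ⊕ Fin m))
    (hA : ¬ Avoid Φ ε (flines Φ ε Ps q) w (froot Ps) t) :
    ∃ v ∈ Icc 0 t, Iso (pth Φ ε (rW Φ ε Ps q w)) ε (fun u => Sum.inl '' fam (fprot Ps t q) u) v ∧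
      (∀ u ∈ Icc 0 v, ∀ k, u ≤ fprot Ps t q k →
        fpath Φ ε Ps q u k = pth Φ ε (rW Φ ε Ps q w) u (Sum.inl k)) ∧
      FailAt Φ ε Ps t q w v := by
  set X := rW Φ ε Ps q w with hXdef
  set V := flines Φ ε Ps q with hVdef
  set σ := fprot Ps t q with hσ
  have hVD : V ∈ Dom Φ (FIdx Ps) := Final973.flines_mem_Dom hε ht hv hs
  have hloc : LocUniq ε t (pth Φ ε V) (pth Φ ε X) := locUniq_pth hΦ hε t hVD hX
  have hzV : ∀ i, ContinuousOn (fun u => pth Φ ε V u i) (Icc 0 t) :=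
    fun i => (continuous_pth hΦ hε V i).continuousOn
  have hzX : ∀ i, ContinuousOn (fun u => pth Φ ε X u i) (Icc 0 t) :=
    fun i => (continuous_pth hΦ hε X i).continuousOn
  have hinj : Function.Injective (Sum.inl : FIdx Ps → FIdx Ps ⊕ Fin m) := Sum.inl_injective
  have h0 : ∀ i ∈ fam σ 0, pth Φ ε V 0 i = pth Φ ε X 0 (Sum.inl i) := by
    intro i _
    have e1 : pth Φ ε V 0 = V := flow_zero hΦ hε V
    have e2 : pth Φ ε X 0 = X := flow_zero hΦ hε X
    rw [e1, e2]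
    rfl
  have hI1 : Iso (pth Φ ε V) ε (fam σ) t := iso_forest hΦ hε hv hs
  have hAn : Anti (fam σ) t := fam_anti σ t
  have hag : ∀ v, v ≤ t → Iso (pth Φ ε X) ε (fun u => Sum.inl '' fam σ u) v →
      ∀ u ∈ Icc 0 v, ∀ k, u ≤ σ k → fpath Φ ε Ps q u k = pth Φ ε X u (Sum.inl k) := by
    intro v hvt hI2 u hu k hk
    have := Iso.agree hzV hzX hloc hinj hvt (hAn.mono hvt) h0 (hI1.mono hvt) hI2 u hu k hk
    rw [← this, Final973.pth_flines hΦ hε hv hs ⟨hu.1, hu.2.trans hvt⟩]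
  rcases iso_or_first_touch hzV hzX hloc hinj le_rfl hAn h0 hI1 with hI | ⟨v, hv', hI, l, hl, i', hi',
    hd⟩
  · -- the failure is at the final time
    refine ⟨t, ⟨ht, le_rfl⟩, hI, hag t le_rfl hI, ?_⟩
    rw [Final973.avoid_iff_avoidP hΦ hε ht hv hs] at hA
    unfold Final973.AvoidP at hA
    rw [Forest399.flinesM_of_valid hv] at hA
    push Not at hA
    obtain ⟨k, j, u, hu, hj, hd⟩ := hA
    have hut : u ≤ t := hu.2.trans (Final973.prot_le' hε.le hv k)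
    rcases lt_or_eq_of_le hut with h1 | h1
    · exfalso
      have h2 := hI u ⟨hu.1, h1⟩ (Sum.inl k) ⟨k, hu.2, rfl⟩ j (by
        rintro ⟨k', hk', rfl⟩
        exact absurd (hj k' rfl) (not_lt.2 hk'))
      rw [← hag t le_rfl hI u ⟨hu.1, hut⟩ k hu.2,
        ← Final973.pth_flines hΦ hε hv hs ⟨hu.1, hut⟩] at h2
      exact absurd hd (not_le.2 h2)
    · subst h1
      refine ⟨k, j, hu.2, hj, ?_⟩
      rw [← Final973.pth_flines hΦ hε hv hs ⟨hu.1, le_rfl⟩]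
      exact hd
  · obtain ⟨k, hk, rfl⟩ := hi'
    refine ⟨v, ⟨hv'.1, hv'.2.le⟩, hI, hag v hv'.2.le hI, k, l, hk, ?_, ?_⟩
    · rintro k' rfl
      by_contra hle
      push Not at hle
      exact hl ⟨k', hle, rfl⟩
    · rw [hag v hv'.2.le hI v ⟨hv'.1, le_rfl⟩ k hk]
      exact hd

/-- The shadow of the forest in the real world up to the first failure. -/
theorem forest_shadow (hε : 0 < ε) (ht : 0 ≤ t)
    (hV : FValid Φ ε Ps t q) (hX : rW Φ ε Ps q w ∈ Dom Φ (FIdx Ps ⊕ Fin m)) {v : ℝ} (hvt : v ≤ t)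
    (hI : Iso (pth Φ ε (rW Φ ε Ps q w)) ε (fun u => Sum.inl '' fam (fprot Ps t q) u) v)
    (hag : ∀ u ∈ Icc 0 v, ∀ k, u ≤ fprot Ps t q k →
        fpath Φ ε Ps q u k = pth Φ ε (rW Φ ε Ps q w) u (Sum.inl k)) :
    Shadow Φ ε (forestStr hε ht hV) v (rW Φ ε Ps q w) Sum.inl Sum.inr where
  dom := hX
  e_inj := Sum.inl_injective
  g_inj := Sum.inr_injective
  cover := by
    rintro (a | b)
    · exact Or.inl ⟨a, rfl⟩
    · exact Or.inr ⟨b, rfl⟩
  disj x i h := by cases h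
  exits k hk := ⟨⟨k, ne_root_of_lt hvt hk⟩, rfl⟩
  agree x u h0 hu hx := (hag u ⟨h0, hu⟩ x hx).symm
  iso u hu x hx l hl := by
    refine (hI u hu (Sum.inl x) ⟨x, hx, rfl⟩ l ?_).le
    rintro ⟨y, hy, hyl⟩
    exact absurd (hl y hyl) (not_lt.2 hy)

/-- The protected tubes of the forest (explicit paths). -/
def FTp (Φ : Space3 → ℝ) (ε : ℝ) (Ps : Fin s → CTree) (t : ℝ) (q : FPar Ps) : Tubes (FIdx Ps) :=
  ⟨fun k u => (fpath Φ ε Ps q u k).1, fprot Ps t q⟩

theorem near_FTp {v : ℝ} {x : Space3} (h : near ε (FTp Φ ε Ps t q) v x) :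
    ∃ i, near ε (protT Φ ε (Ps i) t (q i)) v x := by
  obtain ⟨k, h1, h2⟩ := h
  exact ⟨k.1, k.2, h1, h2⟩

/-- **Deterministic reduction.** -/
theorem ret_cases (hΦ : AdmissiblePotential Φ) (hε : 0 < ε) (ht : 0 ≤ t) (hq : q ∈ FVS Φ ε Ps t)
    (hw : w ∈ PairExcluded ε m) (hu : unhit Φ ε (FT Φ ε Ps t q) t w)
    (hA : ¬ Avoid Φ ε (flines Φ ε Ps q) w (froot Ps) t)
    (hOk : AllOk Φ ε w (fexL Φ ε Ps q)) (K : ℕ) :
    (∃ x, (MW.cfg w).thetaL Φ ε K t (fexL Φ ε Ps q x) ≤ t) ∨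
      (∃ x y, x ≠ y ∧ ¬ MW.NoLink Φ ε K t (MW.cfg w) (MW.line (fexL Φ ε Ps q x))
        (MW.line (fexL Φ ε Ps q y))) ∨
      ∃ x i, RetL Φ ε K t w (fexL Φ ε Ps q x) (protT Φ ε (Ps i) t (q i)) ∨
        RetM Φ ε K t w (fexL Φ ε Ps q x) (protT Φ ε (Ps i) t (q i)) := by
  obtain ⟨hv, hs⟩ := hq
  -- the real world is excluded
  have hperp : PerpC ε (flines Φ ε Ps q) w := Final973.perpC_of_unhit hΦ hε ht hv hs hu
  have hX : rW Φ ε Ps q w ∈ Dom Φ (FIdx Ps ⊕ Fin m) := by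
    refine Dom_of_far hε ?_
    rintro (a | a) (b | b) hab
    · exact (Forest399.FSep.zero Ps hε.le ht hv hs (fun h => hab (by rw [h]))).le
    · exact (hperp a b).le
    · have := (hperp b a).le
      rw [dist_comm] at this
      exact this
    · exact (hw a b (fun h => hab (by rw [h]))).le
  obtain ⟨v, hvt, hI, hag, k, l, hk, hl, hd⟩ := exists_fail hΦ hε ht hv hs hX hA
  have hS := forest_shadow (w := w) hε ht hv hX hvt.2 hI hag
  have hnear : near ε (FTp Φ ε Ps t q) v (pth Φ ε (rW Φ ε Ps q w) v l).1 := ⟨k, hk, hd⟩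
  have hwX : (fun i => rW Φ ε Ps q w (Sum.inr i)) = w := rfl
  have hlink : LinkEx Φ ε K t w (fexL Φ ε Ps q) → ∃ x y, x ≠ y ∧
      ¬ MW.NoLink Φ ε K t (MW.cfg w) (MW.line (fexL Φ ε Ps q x)) (MW.line (fexL Φ ε Ps q y)) := by
    intro h
    unfold LinkEx MWFam255.PairNL at h
    push Not at h
    exact h
  rcases l with k' | i
  · -- a released member returns
    rcases hS.det_exit (K := K) (O := FTp Φ ε Ps t q) hΦ hε (u₀ := t) hvt hOk (k := k') (hl k' rfl)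
      hnear with ⟨x, hx⟩ | h | ⟨x, u, hu', hT, hb, hn⟩
    · exact Or.inl ⟨x, hx.trans hvt.2⟩
    · exact Or.inr (Or.inl (hlink h))
    · obtain ⟨i, hi⟩ := near_FTp hn
      exact Or.inr (Or.inr ⟨x, i, Or.inr ⟨u, hu', hT, hb, hi⟩⟩)
  · -- a particle of the gas
    have hghost : ¬ near ε (FTp Φ ε Ps t q) v (pth Φ ε w v i).1 := by
      rintro ⟨a, ha, hda⟩
      have h1 := hu a i v ⟨hvt.1, le_min ha hvt.2⟩
      rw [Final973.FT_c_eq hΦ hε hv hs a hvt, Final973.pth_flines hΦ hε hv hs hvt] at h1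
      exact absurd hda (not_le.2 h1)
    rcases hS.det (K := K) (O := FTp Φ ε Ps t q) hΦ hε (u₀ := t) hvt hOk (i := i)
      (fun h => hghost (h.2 hnear)) with ⟨x, hx⟩ | h | ⟨x, u, hu', hT, j, hF, hn⟩
    · exact Or.inl ⟨x, hx.trans hvt.2⟩
    · exact Or.inr (Or.inl (hlink h))
    · refine Or.inr (Or.inr ?_)
      rcases hn with hn | hn
      · obtain ⟨i, hi⟩ := near_FTp hn
        exact ⟨x, i, Or.inl ⟨u, hu', hT, j, hF, Or.inl hi⟩⟩
      · obtain ⟨i, hi⟩ := near_FTp hn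
        exact ⟨x, i, Or.inl ⟨u, hu', hT, j, hF, Or.inr hi⟩⟩

end fail

end Crest.Agent.R122.Ret424

end
end

-- ▼ part R122/RetNull_424

/-!
# Row 122 (helper424): `RetNull` from the null facts for the exit lines of a forest

* `fD` : weight of a forest; `fD_le`.
* `ForOk` : almost surely all the worlds with exit lines of the forest are good.
* `ForNull` : an event for a forest and the gas is null, uniformly in time.
* `RetFacts` : links of two exit lines, returns of an exit line to a tree are null.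
* `retNull_of` : `RetNull` from `ForOk`, `RetFacts` and `TN`.
-/

set_option autoImplicit false
set_option linter.unusedSectionVars false

open MeasureTheory Set Filter Topology
open scoped ENNReal
open Crest.AnalysisR.Kinetic
open Crest.Agent.R122.Flow671 Crest.Agent.R122.EDefs602
open Crest.Agent.R122.Kin796 Crest.Agent.R122.Kin796.CTree Crest.Agent.R122.Tree674
open Crest.Agent.R122.TreeLines335 Crest.Agent.R122.GIV566 Crest.Agent.R122.GC311
open Crest.Agent.R122.Disc416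
open Crest.Agent.R122.RtG302 (AllOk RetL RetM protT)
open Crest.Agent.R122.Forest399 (FIdx FPar flines fpath FValid FSep FVS)
open Crest.Agent.R122.Final973 (FT froot Avoid PerpC RetNull retF wt0)

noncomputable section

open scoped Classical

namespace Crest.Agent.R122.Ret424

variable {Φ : Space3 → ℝ} {f₀ : PhasePoint → ℝ} {ε : ℝ} {s : ℕ} {Ps : Fin s → CTree} {t T : ℝ}
  {q : FPar Ps}

/-- Weight of a forest. -/
def fD (Φ : Space3 → ℝ) (f₀ : PhasePoint → ℝ) (ε : ℝ) (Ps : Fin s → CTree) (t : ℝ)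
    (q : FPar Ps) : ℝ≥0∞ :=
  (FVS Φ ε Ps t).indicator (fun q =>
    (∏ i, wt Φ (Ps i) (q i).1.2 (q i).2) * wt0 f₀ ε (flines Φ ε Ps q)) q

theorem measurable_fD (hf : Measurable f₀) (hΦ : AdmissiblePotential Φ) (hε : 0 < ε)
    (Ps : Fin s → CTree) (t : ℝ) : Measurable (fD Φ f₀ ε Ps t) := by
  have h := Final973.measurable_FVS_ind (G := wt0 f₀ ε) (H := fun _ => 1) hΦ hε Ps t
    (Final973.measurable_wt0 hf) measurable_const
  simp only [mul_one] at h
  exact h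

theorem wt0_le (V : FIdx Ps → PhasePoint) :
    wt0 f₀ ε V ≤ ∏ i, ∏ j : Idx (Ps i), ENNReal.ofReal (f₀ (V ⟨i, j⟩)) := by
  have h : ∏ i, ∏ j : Idx (Ps i), ENNReal.ofReal (f₀ (V ⟨i, j⟩)) =
      ∏ k : FIdx Ps, ENNReal.ofReal (f₀ (V k)) := by
    rw [Fintype.prod_sigma]
  rw [h]
  unfold wt0
  split_ifs
  · exact le_rfl
  · exact bot_le

theorem fD_le (q : FPar Ps) : fD Φ f₀ ε Ps t q ≤ ∏ i, pf Φ f₀ ε (Ps i) t (q i) := by
  unfold fD
  by_cases hq : q ∈ FVS Φ ε Ps t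
  · rw [indicator_of_mem hq]
    have h : ∏ i, pf Φ f₀ ε (Ps i) t (q i) = (∏ i, wt Φ (Ps i) (q i).1.2 (q i).2) *
        ∏ i, ∏ j : Idx (Ps i), ENNReal.ofReal (f₀ (flines Φ ε Ps q ⟨i, j⟩)) := by
      rw [← Finset.prod_mul_distrib]
      exact Finset.prod_congr rfl fun i _ => pf_of_valid (hq.1 i)
    rw [h]
    exact mul_le_mul_right (wt0_le _) _
  · rw [indicator_of_notMem hq]
    exact bot_le

theorem gcE_mono_ae {F G : (n : ℕ) → Config n → ℝ≥0∞}
    (h : ∀ n, ∀ᵐ Z : Config n, Z ∈ PairExcluded ε n → F n Z ≤ G n Z) :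
    gcE f₀ ε F ≤ gcE f₀ ε G := by
  unfold gcE
  refine mul_le_mul_right (ENNReal.tsum_le_tsum fun n => mul_le_mul_right
    (lintegral_mono_ae ?_) _) _
  filter_upwards [h n] with Z hZ
  by_cases hZ' : Z ∈ PairExcluded ε n
  · exact mul_le_mul_right (hZ hZ') _
  · simp [gcWeight, Set.indicator_of_notMem hZ']

/-! ### The inputs -/

/-- Almost surely all the worlds with exit lines of the forest are good. -/
def ForOk (Φ : Space3 → ℝ) (T : ℝ) : Prop :=
  ∀ (s : ℕ) (Ps : Fin s → CTree) (ε : ℝ), 0 < ε → ∀ t ∈ Icc 0 T, ∀ᵐ q : FPar Ps,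
    q ∈ FVS Φ ε Ps t → (∏ i, wt Φ (Ps i) (q i).1.2 (q i).2) ≠ 0 → ∀ m, ∀ᵐ w : Config m,
      w ∈ PairExcluded ε m → PerpC ε (flines Φ ε Ps q) w → AllOk Φ ε w (fexL Φ ε Ps q)

/-- The event `E` for a forest and the gas is null, uniformly in time. -/
def ForNull (Φ : Space3 → ℝ) (f₀ : PhasePoint → ℝ) (T : ℝ) (Ps : Fin s → CTree)
    (E : (ε t : ℝ) → (m : ℕ) → FPar Ps → Config m → Prop) : Prop :=
  ∀ δ : ℝ, 0 < δ → ∃ ε₀ : ℝ, 0 < ε₀ ∧ ∀ ε, 0 < ε → ε < ε₀ → ∀ t ∈ Icc 0 T,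
    ∃ N : (m : ℕ) → FPar Ps × Config m → ℝ≥0∞, (∀ m, Measurable (N m)) ∧
      (∀ (m : ℕ) (q : FPar Ps) (w : Config m), q ∈ FVS Φ ε Ps t → w ∈ PairExcluded ε m →
        PerpC ε (flines Φ ε Ps q) w → AllOk Φ ε w (fexL Φ ε Ps q) → E ε t m q w →
        1 ≤ N m (q, w)) ∧
      ∫⁻ q, fD Φ f₀ ε Ps t q * gcE f₀ ε (fun m w => N m (q, w)) ≤ ENNReal.ofReal δ

/-- Two exit lines are linked. -/
def LinkEv (Φ : Space3 → ℝ) (K : ℕ) (Ps : Fin s → CTree) (x y : FEx Ps) (ε t : ℝ) (m : ℕ)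
    (q : FPar Ps) (w : Config m) : Prop :=
  ¬ MW.NoLink Φ ε K t (MW.cfg w) (MW.line (fexL Φ ε Ps q x)) (MW.line (fexL Φ ε Ps q y))

/-- The exit line `x`, or its influence, returns to the protected tubes of the tree `i`. -/
def RetEv (Φ : Space3 → ℝ) (K : ℕ) (Ps : Fin s → CTree) (x : FEx Ps) (i : Fin s) (ε t : ℝ)
    (m : ℕ) (q : FPar Ps) (w : Config m) : Prop :=
  RetL Φ ε K t w (fexL Φ ε Ps q x) (protT Φ ε (Ps i) t (q i)) ∨
    RetM Φ ε K t w (fexL Φ ε Ps q x) (protT Φ ε (Ps i) t (q i))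

/-- **Null facts for forests.** -/
structure RetFacts (Φ : Space3 → ℝ) (f₀ : PhasePoint → ℝ) (T : ℝ) : Prop where
  ok : ForOk Φ T
  link : ∀ (s : ℕ) (Ps : Fin s → CTree) (x y : FEx Ps), x ≠ y → ∀ K : ℕ,
    ForNull Φ f₀ T Ps (LinkEv Φ K Ps x y)
  ret : ∀ (s : ℕ) (Ps : Fin s → CTree) (x : FEx Ps) (i : Fin s) (K : ℕ),
    ForNull Φ f₀ T Ps (RetEv Φ K Ps x i)

/-! ### Pointwise bound -/

/-- **Bound of `retF`.** -/
theorem retF_le (hf : Measurable f₀) (hΦ : AdmissiblePotential Φ) (hε : 0 < ε) (ht : 0 ≤ t)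
    (hq : q ∈ FVS Φ ε Ps t)
    (hOk : ∀ m, ∀ᵐ w : Config m, w ∈ PairExcluded ε m → PerpC ε (flines Φ ε Ps q) w →
      AllOk Φ ε w (fexL Φ ε Ps q)) (K : ℕ)
    {A : FEx Ps → FEx Ps → (m : ℕ) → Config m → ℝ≥0∞} {B : FEx Ps → Fin s → (m : ℕ) → Config m →
      ℝ≥0∞} (hAm : ∀ x y m, Measurable (A x y m)) (hBm : ∀ x i m, Measurable (B x i m))
    (hA : ∀ x y, x ≠ y → ∀ (m : ℕ) (w : Config m), w ∈ PairExcluded ε m →
      PerpC ε (flines Φ ε Ps q) w → AllOk Φ ε w (fexL Φ ε Ps q) → LinkEv Φ K Ps x y ε t m q w →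
      1 ≤ A x y m w)
    (hB : ∀ x i, ∀ (m : ℕ) (w : Config m), w ∈ PairExcluded ε m →
      PerpC ε (flines Φ ε Ps q) w → AllOk Φ ε w (fexL Φ ε Ps q) → RetEv Φ K Ps x i ε t m q w →
      1 ≤ B x i m w) :
    retF Φ f₀ ε Ps t q ≤ ∑ x : FEx Ps, touchP1 Φ f₀ ε K t (fexL Φ ε Ps q x) +
      (∑ x : FEx Ps, ∑ y : FEx Ps, gcE f₀ ε (A x y) + ∑ x : FEx Ps, ∑ i, gcE f₀ ε (B x i)) := by
  have hTm : ∀ (x : FEx Ps) (m : ℕ), Measurable fun w : Config m =>
      (if (MW.cfg w).thetaL Φ ε K t (fexL Φ ε Ps q x) ≤ t then 1 else 0 : ℝ≥0∞) := fun x m =>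
    (measurable_touchI hΦ hε K t m).comp (f := fun w : Config m => (fexL Φ ε Ps q x, w))
      measurable_prodMk_left
  have e1 : ∑ x : FEx Ps, touchP1 Φ f₀ ε K t (fexL Φ ε Ps q x) =
      gcE f₀ ε (fun _ w => ∑ x : FEx Ps,
        (if (MW.cfg w).thetaL Φ ε K t (fexL Φ ε Ps q x) ≤ t then 1 else 0 : ℝ≥0∞)) := by
    rw [gcE_finset_sum hf ε (F := fun x _ w =>
      (if (MW.cfg w).thetaL Φ ε K t (fexL Φ ε Ps q x) ≤ t then 1 else 0 : ℝ≥0∞)) Finset.univ
      (fun x _ m => hTm x m)]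
    rfl
  have e2 : ∑ x : FEx Ps, ∑ y : FEx Ps, gcE f₀ ε (A x y) =
      gcE f₀ ε (fun m w => ∑ x : FEx Ps, ∑ y : FEx Ps, A x y m w) := by
    rw [gcE_finset_sum hf ε (F := fun x m w => ∑ y : FEx Ps, A x y m w) Finset.univ
      (fun x _ m => Finset.measurable_sum _ fun y _ => hAm x y m)]
    refine Finset.sum_congr rfl fun x _ => ?_
    rw [gcE_finset_sum hf ε (F := fun y m w => A x y m w) Finset.univ (fun y _ m => hAm x y m)]
  have e3 : ∑ x : FEx Ps, ∑ i, gcE f₀ ε (B x i) =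
      gcE f₀ ε (fun m w => ∑ x : FEx Ps, ∑ i, B x i m w) := by
    rw [gcE_finset_sum hf ε (F := fun x m w => ∑ i, B x i m w) Finset.univ
      (fun x _ m => Finset.measurable_sum _ fun i _ => hBm x i m)]
    refine Finset.sum_congr rfl fun x _ => ?_
    rw [gcE_finset_sum hf ε (F := fun i m w => B x i m w) Finset.univ (fun i _ m => hBm x i m)]
  have hAm' : ∀ m, Measurable fun w : Config m => ∑ x : FEx Ps, ∑ y : FEx Ps, A x y m w :=
    fun m => Finset.measurable_sum _ fun x _ => Finset.measurable_sum _ fun y _ => hAm x y m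
  have hTm' : ∀ m, Measurable fun w : Config m => ∑ x : FEx Ps,
      (if (MW.cfg w).thetaL Φ ε K t (fexL Φ ε Ps q x) ≤ t then 1 else 0 : ℝ≥0∞) :=
    fun m => Finset.measurable_sum _ fun x _ => hTm x m
  rw [e1, e2, e3, ← gcE_add hf ε hAm', ← gcE_add hf ε hTm']
  unfold retF
  refine gcE_mono_ae fun m => ?_
  filter_upwards [hOk m] with w hw hwP
  split_ifs with hc
  · have hperp : PerpC ε (flines Φ ε Ps q) w :=
      Final973.perpC_of_unhit hΦ hε ht hq.1 hq.2 hc.1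
    have hok := hw hwP hperp
    rcases ret_cases hΦ hε ht hq hwP hc.1 hc.2 hok K with ⟨x, hx⟩ | ⟨x, y, hxy, hl⟩ | ⟨x, i, hr⟩
    · refine le_trans ?_ le_self_add
      refine le_trans (le_of_eq ?_) (Finset.single_le_sum (f := fun x : FEx Ps =>
        (if (MW.cfg w).thetaL Φ ε K t (fexL Φ ε Ps q x) ≤ t then 1 else 0 : ℝ≥0∞))
        (fun _ _ => bot_le) (Finset.mem_univ x))
      rw [if_pos hx]
    · refine le_trans ?_ (le_add_self.trans' le_self_add)
      refine (hA x y hxy m w hwP hperp hok hl).trans ?_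
      exact (Finset.single_le_sum (f := fun y : FEx Ps => A x y m w)
        (fun _ _ => bot_le) (Finset.mem_univ y)).trans (Finset.single_le_sum
          (f := fun x : FEx Ps => ∑ y : FEx Ps, A x y m w) (fun _ _ => bot_le) (Finset.mem_univ x))
    · refine le_trans ?_ (le_add_self.trans' le_add_self)
      refine (hB x i m w hwP hperp hok hr).trans ?_
      exact (Finset.single_le_sum (f := fun i => B x i m w)
        (fun _ _ => bot_le) (Finset.mem_univ i)).trans (Finset.single_le_sum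
          (f := fun x : FEx Ps => ∑ i, B x i m w) (fun _ _ => bot_le) (Finset.mem_univ x))
  · exact bot_le

/-! ### Touched exit lines of a forest -/

/-- Mass of the forests with a touched exit line. -/
theorem exists_touchF (hΦ : AdmissiblePotential Φ) (hf : Measurable f₀) {b : ℝ}
    (H : HasSummableGaussianBound b (fun x v => f₀ (x, v))) {b' : ℝ} (hb' : 0 < b')
    (hbb : b' < b) {γ' : ℝ → ℝ} (hγm : Measurable γ') (hγ : ∀ τ ∈ Ioc 0 T, γ' τ ≤ b')
    {ρ : ℝ≥0∞} (hρ0 : ρ ≠ 0) (hρt : ρ ≠ ∞) (Ps : Fin s → CTree) (x : FEx Ps) :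
    ∃ C : ℝ≥0∞, C ≠ ∞ ∧ ∀ (ε t : ℝ) (K : ℕ), 0 < ε → t ≤ T → (Ps x.1.1).leaves ≤ K →
      ∃ g : FPar Ps → ℝ≥0∞, Measurable g ∧
        (∀ q, fD Φ f₀ ε Ps t q * touchP1 Φ f₀ ε K t (fexL Φ ε Ps q x) ≤ g q) ∧
        ∫⁻ q, g q ≤ C * tnMass Φ f₀ γ' ρ ε K t := by
  obtain ⟨C, hC, hCb⟩ := exists_touch_mass (T := T) hΦ hf H hb' hbb hγm hγ hρ0 hρt (Ps x.1.1)
  have hM : ∀ i, ∃ M : ℝ≥0∞, M ≠ ∞ ∧ ∀ ε t : ℝ, 0 ≤ ε → t ≤ T →
      ∫⁻ z, pf Φ f₀ ε (Ps i) t z ≤ M := fun i => exists_mass hΦ hf (hb'.trans hbb) H (Ps i) T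
  choose M hMt hMb using hM
  refine ⟨(∏ i ∈ Finset.univ.erase x.1.1, M i) * C, ENNReal.mul_ne_top
    (ENNReal.prod_ne_top fun i _ => hMt i) hC, fun ε t K hε ht hK => ?_⟩
  have hTm := measurable_touchP1 (f₀ := f₀) hf hΦ hε K t
  have hgm : ∀ i, Measurable (pf Φ f₀ ε (Ps i) t) := fun i => measurable_pf hΦ hf ε (Ps i) t
  have hFm : Measurable fun z : PhasePoint × Par (Ps x.1.1) =>
      touchP1 Φ f₀ ε K t (LineMeas994.lineMM Φ ε (Ps x.1.1) z x.1.2) :=
    hTm.comp (LineMeas994.measurable_lineMM hΦ ε (Ps x.1.1) x.1.2)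
  refine ⟨fun q => (∏ i, pf Φ f₀ ε (Ps i) t (q i)) *
    touchP1 Φ f₀ ε K t (LineMeas994.lineMM Φ ε (Ps x.1.1) (q x.1.1) x.1.2), ?_, ?_, ?_⟩
  · exact (Finset.measurable_prod _ fun i _ => (hgm i).comp (measurable_pi_apply i)).mul
      (hFm.comp (measurable_pi_apply x.1.1))
  · intro q
    by_cases hq : q ∈ FVS Φ ε Ps t
    · show _ ≤ (∏ i, pf Φ f₀ ε (Ps i) t (q i)) *
        touchP1 Φ f₀ ε K t (LineMeas994.lineMM Φ ε (Ps x.1.1) (q x.1.1) x.1.2)
      rw [LineMeas994.lineMM_of_adm ε (hq.1 x.1.1).1]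
      exact mul_le_mul_left (fD_le q) _
    · unfold fD
      rw [indicator_of_notMem hq, zero_mul]
      exact bot_le
  · rcases isEmpty_or_nonempty (FPar Ps) with he | ⟨⟨q₀⟩⟩
    · rw [lintegral_of_isEmpty]
      exact bot_le
    · have h := lintegral_pi_one (μ := fun i : Fin s =>
        (volume : Measure (PhasePoint × Par (Ps i)))) hgm x.1.1 hFm q₀
      rw [← volume_pi] at h
      rw [h]
      have h2 : ∫⁻ a : PhasePoint × Par (Ps x.1.1), pf Φ f₀ ε (Ps x.1.1) t a *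
          touchP1 Φ f₀ ε K t (LineMeas994.lineMM Φ ε (Ps x.1.1) a x.1.2) ≤
          C * tnMass Φ f₀ γ' ρ ε K t := by
        refine le_trans (le_of_eq ?_) (hCb ε t K hε ht hK x.1.2 x.2)
        refine lintegral_congr fun z => ?_
        by_cases hz : Valid Φ ε (Ps x.1.1) t z.1.2 z.2
        · rw [LineMeas994.lineMM_of_adm ε hz.1]
        · rw [pf_of_not_valid hz, zero_mul, zero_mul]
      calc (∏ k ∈ Finset.univ.erase x.1.1, ∫⁻ y, pf Φ f₀ ε (Ps k) t y) *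
            ∫⁻ a : PhasePoint × Par (Ps x.1.1), pf Φ f₀ ε (Ps x.1.1) t a *
              touchP1 Φ f₀ ε K t (LineMeas994.lineMM Φ ε (Ps x.1.1) a x.1.2)
          ≤ (∏ k ∈ Finset.univ.erase x.1.1, M k) * (C * tnMass Φ f₀ γ' ρ ε K t) := by
            gcongr with k
            exact hMb k ε t hε.le ht
        _ = _ := by rw [mul_assoc]

/-! ### The assembly -/

theorem tendsto_zero_of_le {F : ℕ → ℝ≥0∞} {A : ℝ≥0∞} (hA : A ≠ ∞)
    (h : ∀ η : ℝ, 0 < η → ∀ᶠ n in atTop, F n ≤ A * ENNReal.ofReal η) :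
    Tendsto F atTop (𝓝 0) := by
  rw [ENNReal.tendsto_nhds_zero]
  intro δ hδ
  have h1 : Tendsto (fun η : ℝ => A * ENNReal.ofReal η) (𝓝[>] 0) (𝓝 (A * ENNReal.ofReal 0)) :=
    (ENNReal.Tendsto.const_mul (ENNReal.tendsto_ofReal tendsto_id) (Or.inr hA)).mono_left
      nhdsWithin_le_nhds
  rw [ENNReal.ofReal_zero, mul_zero] at h1
  have h2 : ∀ᶠ η in 𝓝[>] (0 : ℝ), A * ENNReal.ofReal η < δ := h1.eventually_lt_const hδ
  obtain ⟨η, hη, hη0⟩ := (h2.and self_mem_nhdsWithin).exists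
  exact (h η hη0).mono fun n hn => hn.trans hη.le

/-- **`RetNull` from the null facts.** -/
theorem retNull_of (hΦ : AdmissiblePotential Φ) (hf : Measurable f₀) {b : ℝ}
    (H : HasSummableGaussianBound b (fun x v => f₀ (x, v))) {b' : ℝ} (hb' : 0 < b')
    (hbb : b' < b) {γ' : ℝ → ℝ} (hγm : Measurable γ') (hγ : ∀ τ ∈ Ioc 0 T, γ' τ ≤ b')
    {ρ : ℝ≥0∞} (hρ0 : ρ ≠ 0) (hρt : ρ ≠ ∞) (hTN : TN Φ f₀ γ' ρ T) (hR : RetFacts Φ f₀ T) :
    RetNull Φ f₀ T := by
  intro s Ps e τ t₀ he he0 hτ _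
  have hC : ∀ x : FEx Ps, ∃ C : ℝ≥0∞, C ≠ ∞ ∧ ∀ (ε t : ℝ) (K : ℕ), 0 < ε → t ≤ T →
      (Ps x.1.1).leaves ≤ K → ∃ g : FPar Ps → ℝ≥0∞, Measurable g ∧
        (∀ q, fD Φ f₀ ε Ps t q * touchP1 Φ f₀ ε K t (fexL Φ ε Ps q x) ≤ g q) ∧
        ∫⁻ q, g q ≤ C * tnMass Φ f₀ γ' ρ ε K t := fun x =>
    exists_touchF hΦ hf H hb' hbb hγm hγ hρ0 hρt Ps x
  choose C hCt hCb using hC
  refine tendsto_zero_of_le (A := ∑ x : FEx Ps, C x + (∑ _x : FEx Ps, ∑ _y : FEx Ps, 1 +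
    ∑ _x : FEx Ps, ∑ _i : Fin s, 1)) ?_ fun η hη => ?_
  · refine ENNReal.add_ne_top.2 ⟨ENNReal.sum_ne_top.2 fun x _ => hCt x, ENNReal.add_ne_top.2
      ⟨ENNReal.sum_ne_top.2 fun x _ => ENNReal.sum_ne_top.2 fun y _ => ENNReal.one_ne_top,
        ENNReal.sum_ne_top.2 fun x _ => ENNReal.sum_ne_top.2 fun y _ => ENNReal.one_ne_top⟩⟩
  -- the level
  obtain ⟨K₀, hK₀⟩ := hTN η hη
  set K : ℕ := max K₀ (∑ i, (Ps i).leaves) with hKdef
  have hKl : ∀ i, (Ps i).leaves ≤ K := fun i =>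
    (Finset.single_le_sum (f := fun i => (Ps i).leaves) (fun _ _ => Nat.zero_le _)
      (Finset.mem_univ i)).trans (le_max_right _ _)
  obtain ⟨ε₁, hε₁, hT⟩ := hK₀ K (le_max_left _ _)
  have hL : ∀ x y : FEx Ps, ∃ ε₀ : ℝ, 0 < ε₀ ∧ (x ≠ y → ∀ ε, 0 < ε → ε < ε₀ → ∀ t ∈ Icc 0 T,
    ∃ N : (m : ℕ) → FPar Ps × Config m → ℝ≥0∞, (∀ m, Measurable (N m)) ∧
      (∀ (m : ℕ) (q : FPar Ps) (w : Config m), q ∈ FVS Φ ε Ps t → w ∈ PairExcluded ε m →
        PerpC ε (flines Φ ε Ps q) w → AllOk Φ ε w (fexL Φ ε Ps q) → LinkEv Φ K Ps x y ε t m q w →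
        1 ≤ N m (q, w)) ∧
      ∫⁻ q, fD Φ f₀ ε Ps t q * gcE f₀ ε (fun m w => N m (q, w)) ≤ ENNReal.ofReal η) := by
    intro x y
    by_cases hxy : x = y
    · exact ⟨1, one_pos, fun h => absurd hxy h⟩
    · obtain ⟨ε₀, h0, h⟩ := hR.link s Ps x y hxy K η hη
      exact ⟨ε₀, h0, fun _ => h⟩
  choose εL hεL hL using hL
  have hRt := fun (x : FEx Ps) (i : Fin s) => hR.ret s Ps x i K η hη
  choose εR hεR hRt using hRt
  have hev : ∀ᶠ n in atTop, e n < ε₁ ∧ (∀ x y, e n < εL x y) ∧ ∀ x i, e n < εR x i := by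
    refine (he0.eventually_lt_const hε₁).and (Filter.Eventually.and ?_ ?_)
    · exact eventually_all.2 fun x => eventually_all.2 fun y => he0.eventually_lt_const (hεL x y)
    · exact eventually_all.2 fun x => eventually_all.2 fun i => he0.eventually_lt_const (hεR x i)
  filter_upwards [hev] with n ⟨h1, h2, h3⟩
  have hεn := he n
  have htn := hτ n
  -- majorants
  have hA : ∀ x y : FEx Ps, ∃ N : (m : ℕ) → FPar Ps × Config m → ℝ≥0∞, (∀ m, Measurable (N m)) ∧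
      (x ≠ y → ∀ (m : ℕ) (q : FPar Ps) (w : Config m), q ∈ FVS Φ (e n) Ps (τ n) →
        w ∈ PairExcluded (e n) m → PerpC (e n) (flines Φ (e n) Ps q) w →
        AllOk Φ (e n) w (fexL Φ (e n) Ps q) → LinkEv Φ K Ps x y (e n) (τ n) m q w →
        1 ≤ N m (q, w)) ∧
      ∫⁻ q, fD Φ f₀ (e n) Ps (τ n) q * gcE f₀ (e n) (fun m w => N m (q, w)) ≤
        ENNReal.ofReal η := by
    intro x y
    by_cases hxy : x = y
    · refine ⟨fun _ _ => 0, fun _ => measurable_const, fun h => absurd hxy h, ?_⟩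
      simp [gcE_zero]
    · obtain ⟨N, hN1, hN2, hN3⟩ := hL x y hxy (e n) hεn (h2 x y) (τ n) htn
      exact ⟨N, hN1, fun _ => hN2, hN3⟩
  choose A hAm hA1 hA2 using hA
  have hB := fun (x : FEx Ps) (i : Fin s) => hRt x i (e n) hεn (h3 x i) (τ n) htn
  choose B hBm hB1 hB2 using hB
  have hg := fun x : FEx Ps => hCb x (e n) (τ n) K hεn htn.2 (hKl x.1.1)
  choose g hgm hg1 hg2 using hg
  -- pointwise bound
  have hpt : ∀ᵐ q : FPar Ps, (FVS Φ (e n) Ps (τ n)).indicator (fun q =>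
      (∏ i, wt Φ (Ps i) (q i).1.2 (q i).2) * (wt0 f₀ (e n) (flines Φ (e n) Ps q) *
        retF Φ f₀ (e n) Ps (τ n) q)) q ≤
      ∑ x, g x q + (∑ x, ∑ y, fD Φ f₀ (e n) Ps (τ n) q *
        gcE f₀ (e n) (fun m w => A x y m (q, w)) + ∑ x, ∑ i, fD Φ f₀ (e n) Ps (τ n) q *
        gcE f₀ (e n) (fun m w => B x i m (q, w))) := by
    filter_upwards [hR.ok s Ps (e n) hεn (τ n) htn] with q hq
    by_cases hqF : q ∈ FVS Φ (e n) Ps (τ n)
    · rw [indicator_of_mem hqF]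
      by_cases hw : (∏ i, wt Φ (Ps i) (q i).1.2 (q i).2) = 0
      · rw [hw, zero_mul]
        exact bot_le
      have hret := retF_le (f₀ := f₀) (A := fun x y m w => A x y m (q, w))
        (B := fun x i m w => B x i m (q, w)) hf hΦ hεn htn.1 hqF (hq hqF hw) K
        (fun x y m => (hAm x y m).comp measurable_prodMk_left)
        (fun x i m => (hBm x i m).comp measurable_prodMk_left)
        (fun x y hxy m w hwP hperp hok hl => hA1 x y hxy m q w hqF hwP hperp hok hl)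
        (fun x i m w hwP hperp hok hl => hB1 x i m q w hqF hwP hperp hok hl)
      have hfD : fD Φ f₀ (e n) Ps (τ n) q = (∏ i, wt Φ (Ps i) (q i).1.2 (q i).2) *
          wt0 f₀ (e n) (flines Φ (e n) Ps q) := by
        unfold fD
        rw [indicator_of_mem hqF]
      rw [← mul_assoc, ← hfD]
      refine (mul_le_mul_right hret _).trans ?_
      rw [mul_add, mul_add, Finset.mul_sum, Finset.mul_sum, Finset.mul_sum]
      simp only [Finset.mul_sum]
      gcongr with x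
      exact hg1 x q
    · rw [indicator_of_notMem hqF]
      exact bot_le
  have hfDm := measurable_fD (f₀ := f₀) hf hΦ hεn Ps (τ n)
  have hAg : ∀ x y, Measurable fun q : FPar Ps => fD Φ f₀ (e n) Ps (τ n) q *
      gcE f₀ (e n) (fun m w => A x y m (q, w)) := fun x y => hfDm.mul
    (Final973.measurable_gcE_param (F := fun q m w => A x y m (q, w)) hf fun m => hAm x y m)
  have hBg : ∀ x i, Measurable fun q : FPar Ps => fD Φ f₀ (e n) Ps (τ n) q *
      gcE f₀ (e n) (fun m w => B x i m (q, w)) := fun x i => hfDm.mul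
    (Final973.measurable_gcE_param (F := fun q m w => B x i m (q, w)) hf fun m => hBm x i m)
  refine (lintegral_mono_ae hpt).trans ?_
  rw [lintegral_add_left (Finset.measurable_sum _ fun x _ => hgm x),
    lintegral_add_left (Finset.measurable_sum _ fun x _ => Finset.measurable_sum _ fun y _ =>
      hAg x y), lintegral_finsetSum _ (fun x _ => hgm x),
    lintegral_finsetSum _ (fun x _ => Finset.measurable_sum _ fun y _ => hAg x y),
    lintegral_finsetSum _ (fun x _ => Finset.measurable_sum _ fun y _ => hBg x y)]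
  simp only [add_mul, Finset.sum_mul, one_mul]
  refine add_le_add (Finset.sum_le_sum fun x _ => ?_) (add_le_add (Finset.sum_le_sum fun x _ => ?_)
    (Finset.sum_le_sum fun x _ => ?_))
  · refine (hg2 x).trans (mul_le_mul_right ?_ _)
    exact (EBasic602.tnMass_mono htn.2).trans (hT (e n) hεn h1)
  · rw [lintegral_finsetSum _ (fun y _ => hAg x y)]
    exact Finset.sum_le_sum fun y _ => hA2 x y
  · rw [lintegral_finsetSum _ (fun y _ => hBg x y)]
    exact Finset.sum_le_sum fun y _ => hB2 x y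

/-- **`RetNull` under the induction hypothesis**, in the form of `Top602.retIn_of_retNull`. -/
theorem retNull_of_facts {β : ℝ} {f : ℝ → PhasePoint → ℝ}
    (hD : Master566.KData Φ β T f₀ f) (hR : RetFacts Φ f₀ T) :
    ∃ g1 : ℝ, 0 < g1 ∧ ∃ r1 : ℝ≥0∞, r1 < 1 ∧ ∀ (γ : ℝ → ℝ) (ρ : ℝ≥0∞),
      Top602.LinePar g1 r1 T γ ρ → Top602.IH Φ f₀ f T γ ρ T → RetNull Φ f₀ T := by
  refine ⟨β, hD.beta_pos, 1 / 2, ENNReal.half_lt_self one_ne_zero ENNReal.one_ne_top,
    fun γ ρ hl hI => ?_⟩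
  obtain ⟨g0, κ, hκ, rfl, _, hg⟩ := hl.lin
  refine retNull_of hD.adm hD.contDiff.continuous.measurable (b := 2 * β) hD.gaussian
    (b' := β) hD.beta_pos (by linarith [hD.beta_pos]) ?_ (fun τ hτ => ?_) ?_ ?_ hI.tn hR
  · fun_prop
  · have : 0 ≤ κ * τ := mul_nonneg hκ.le hτ.1.le
    linarith
  · intro h0
    have := hl.lo
    rw [h0] at this
    simp at this
  · exact (hl.hi.trans_le le_top).ne

end Crest.Agent.R122.Ret424

end
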