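import Crest.Agent.R122.LN2Inst_473
import Crest.Agent.R122.RetNull_424

-- ▼ part R122/DomForest_998
section

/-!
# Row 122 (helper998): the law of a forest is dominated

* `forM Φ f₀ ε Ps t` : the law `1[valid, separated] ∏ wt ∏ f₀ (lines) dq` of a forest (density `fD` of
  helper424).
* `dom_forest` : `forM` is dominated in the sense of helper473's `Dom` : `s` groups, births `0`, all
  particles are anchors, structure map `flinesM`.
* `dom_forest_exp` : the same with exponential velocity weights.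
-/

set_option autoImplicit false
open MeasureTheory Set
open scoped Classical ENNReal
open Crest.AnalysisR.Kinetic
noncomputable section

namespace Crest.Agent.R122.DomForest998

open Crest.Agent.R122.GC311 Crest.Agent.R122.Kin796 Crest.Agent.R122.Kin796.CTree
open Crest.Agent.R122.LN2 Crest.Agent.R122.Ret424 Crest.Agent.R122.Tree674
open Crest.Agent.R122.Forest399 (FIdx FPar flines flinesM FValid FVS fsize FSkelS finv
  flinesM_of_valid measurable_flinesM forestMeasure_sep)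
open Crest.Agent.R122.Final973 (wt0)

variable {Φ : Space3 → ℝ} {f₀ : PhasePoint → ℝ} {ε γ t : ℝ} {ρ : Space3 → ℝ≥0∞} {C : ℝ≥0∞} {s : ℕ}

/-- The law of a forest. -/
def forM (Φ : Space3 → ℝ) (f₀ : PhasePoint → ℝ) (ε : ℝ) (Ps : Fin s → CTree) (t : ℝ) :
    Measure (FPar Ps) := (volume : Measure (FPar Ps)).withDensity (fD Φ f₀ ε Ps t)

instance instSFiniteForM (Ps : Fin s → CTree) (t : ℝ) : SFinite (forM Φ f₀ ε Ps t) := by
  unfold forM; infer_instance

theorem lintegral_forM (hΦ : AdmissiblePotential Φ) (hf : Measurable f₀) (hε : 0 < ε)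
    (Ps : Fin s → CTree) (t : ℝ) {G : FPar Ps → ℝ≥0∞} (hG : Measurable G) :
    ∫⁻ q, G q ∂(forM Φ f₀ ε Ps t) = ∫⁻ q : FPar Ps, fD Φ f₀ ε Ps t q * G q := by
  unfold forM
  rw [lintegral_withDensity_eq_lintegral_mul _ (measurable_fD hf hΦ hε Ps t) hG]
  rfl

theorem one_le_card_idx (P : CTree) : 1 ≤ Fintype.card (Idx P) :=
  Fintype.card_pos_iff.2 ⟨root P⟩

theorem card_FIdx (Ps : Fin s → CTree) : Fintype.card (FIdx Ps) = fsize Ps + s := by
  have h1 : ∀ i, Fintype.card (Idx (Ps i)) = (Ps i).size + 1 := by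
    intro i
    have h2 := size_eq (Ps i)
    have h3 := one_le_card_idx (Ps i)
    omega
  unfold fsize
  rw [Fintype.card_sigma]
  simp only [h1]
  rw [Finset.sum_add_distrib]
  simp

theorem fsize_eq (Ps : Fin s → CTree) : Fintype.card (FIdx Ps) - s = fsize Ps := by
  rw [card_FIdx]; omega

theorem wt0_le_wgtA (he : Env f₀ γ ρ C) {κ : Type} [Fintype κ] (V : κ → PhasePoint) :
    wt0 f₀ ε V ≤ C ^ Fintype.card κ * wgtA γ ρ Finset.univ V := by
  have h1 : wt0 f₀ ε V ≤ ∏ k, ENNReal.ofReal (f₀ (V k)) := by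
    unfold wt0
    split_ifs
    · exact le_rfl
    · exact bot_le
  refine h1.trans ?_
  calc ∏ i, ENNReal.ofReal (f₀ (V i)) ≤ ∏ i, C * (ρ (V i).1 * wG γ (V i).2) :=
        Finset.prod_le_prod' fun i _ => he.le (V i)
    _ = C ^ Fintype.card κ * wgtA γ ρ Finset.univ V := by
        unfold wgtA
        rw [Finset.prod_mul_distrib, Finset.prod_const, Finset.card_univ,
          Finset.prod_mul_distrib]

/-- **The law of a forest is dominated**: `s` groups, births `0`, all particles are anchors. -/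
theorem dom_forest (hΦ : AdmissiblePotential Φ) (hf : Measurable f₀) (he : Env f₀ γ ρ C)
    (hε : 0 < ε) (Ps : Fin s → CTree) (t : ℝ) :
    Dom γ ρ ε s Finset.univ (C ^ Fintype.card (FIdx Ps))
      (Measure.dirac fun _ : FIdx Ps => (0 : ℝ)) (forM Φ f₀ ε Ps t) (fun _ _ => 0)
      (flinesM Φ ε Ps) where
  mb := measurable_const
  mz := measurable_flinesM hΦ ε Ps
  le F hF := by
    set b0 : FIdx Ps → ℝ := fun _ => 0 with hb0
    have hF0 : Measurable fun z : FIdx Ps → PhasePoint => F (b0, z) :=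
      hF.comp (measurable_const.prodMk measurable_id)
    have hw0 : Measurable (wt0 f₀ ε : (FIdx Ps → PhasePoint) → ℝ≥0∞) :=
      Final973.measurable_wt0 hf
    have hH : Measurable fun z : FPar Ps × (FIdx Ps → PhasePoint) =>
        wt0 f₀ ε z.2 * F (b0, z.2) :=
      (hw0.comp measurable_snd).mul (hF0.comp measurable_snd)
    have hout : Measurable fun b : FIdx Ps → ℝ => ∫⁻ z, wgtA γ ρ Finset.univ z * F (b, z) := by
      have h1 : Measurable fun p : (FIdx Ps → ℝ) × (FIdx Ps → PhasePoint) =>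
          wgtA γ ρ Finset.univ p.2 * F p := ((measurable_wgtA he.meas _).comp measurable_snd).mul hF
      exact h1.lintegral_prod_right'
    rw [lintegral_dirac' _ hout, fsize_eq, lintegral_forM hΦ hf hε Ps t
      (G := fun q => F (b0, flinesM Φ ε Ps q)) (hF0.comp (measurable_flinesM hΦ ε Ps))]
    have e1 : ∀ q : FPar Ps, fD Φ f₀ ε Ps t q * F (b0, flinesM Φ ε Ps q) =
        (FVS Φ ε Ps t).indicator (fun q => (∏ i, wt Φ (Ps i) (q i).1.2 (q i).2) *
          (fun z : FPar Ps × (FIdx Ps → PhasePoint) => wt0 f₀ ε z.2 * F (b0, z.2))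
            (q, flines Φ ε Ps q)) q := by
      intro q
      unfold fD
      by_cases hq : q ∈ FVS Φ ε Ps t
      · rw [indicator_of_mem hq, indicator_of_mem hq, flinesM_of_valid hq.1, mul_assoc]
      · rw [indicator_of_notMem hq, indicator_of_notMem hq, zero_mul]
    rw [lintegral_congr e1, forestMeasure_sep hΦ hε Ps t hH]
    calc ∫⁻ V : FIdx Ps → PhasePoint, (FSkelS Φ ε Ps t).indicator
          (fun V => wt0 f₀ ε V * F (b0, V)) V
        ≤ ∫⁻ V : FIdx Ps → PhasePoint, C ^ Fintype.card (FIdx Ps) *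
            (wgtA γ ρ Finset.univ V * F (b0, V)) := by
          refine lintegral_mono fun V => ?_
          refine (indicator_le_self _ _ _).trans ?_
          rw [← mul_assoc]
          exact mul_le_mul_left (wt0_le_wgtA he V) _
      _ = C ^ Fintype.card (FIdx Ps) * ∫⁻ V, wgtA γ ρ Finset.univ V * F (b0, V) := by
          rw [lintegral_const_mul' _ _ (ENNReal.pow_ne_top he.fin)]


end Crest.Agent.R122.DomForest998

end
end

-- ▼ part R122/MomForest_998

/-!
# Row 122 (helper998): velocity moments of the law of a forest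

* `sum_fin_sq` : the squared final velocities of a tree; `lineML_sq_le`, `lineMM_sq_le` : the velocity
  of an exit line is bounded by the initial energy.
* `exists_mass_exp` : moments of a tree, uniformly in `ε` and in the horizon.
* `exists_forest_exp` : `∫ fD * expW a ≤ M`.
* `fexM` : measurable version of the exit lines of a forest; `fexM_exp_le`.
* `exists_exit_exp` : `∫ exp (a ‖v_x‖²) d(forM) ≤ M` for all exit lines `x`.
* `dom_forest_exit` : the law of the forest with weight `exp (a ‖v_x‖²)` is dominated.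
-/

set_option autoImplicit false
open MeasureTheory Set
open scoped Classical ENNReal
open Crest.AnalysisR.Kinetic
noncomputable section

namespace Crest.Agent.R122.DomForest998

open Crest.Agent.R122.GC311 Crest.Agent.R122.Kin796 Crest.Agent.R122.Kin796.CTree
open Crest.Agent.R122.LN2 Crest.Agent.R122.Ret424 Crest.Agent.R122.Tree674
open Crest.Agent.R122.EDefs602 Crest.Agent.R122.TreeLines335 Crest.Agent.R122.LineMeas994
open Crest.Agent.R122.Disc416 Crest.Agent.R122.PathFlow968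
open Crest.Agent.R122.Forest399 (FIdx FPar flines flinesM FValid FVS fsize FSkelS finv
  flinesM_of_valid measurable_flinesM forestMeasure_sep)
open Crest.Agent.R122.Final973 (wt0)

variable {Φ : Space3 → ℝ} {f₀ : PhasePoint → ℝ} {ε γ t T a b : ℝ} {ρ : Space3 → ℝ≥0∞} {C : ℝ≥0∞}
  {s : ℕ}

/-! ### Energy of the exit lines -/

theorem sum_update_sq {ι : Type*} [Fintype ι] (F : ι → PhasePoint) (i : ι) (ℓ : PhasePoint) :
    ∑ j, ‖(Function.update F i ℓ j).2‖ ^ 2 + ‖(F i).2‖ ^ 2 = ∑ j, ‖(F j).2‖ ^ 2 + ‖ℓ.2‖ ^ 2 := by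
  have h1 := Finset.add_sum_erase Finset.univ (fun j => ‖(Function.update F i ℓ j).2‖ ^ 2)
    (Finset.mem_univ i)
  have h2 := Finset.add_sum_erase Finset.univ (fun j => ‖(F j).2‖ ^ 2) (Finset.mem_univ i)
  have h3 : ∑ j ∈ Finset.univ.erase i, ‖(Function.update F i ℓ j).2‖ ^ 2 =
      ∑ j ∈ Finset.univ.erase i, ‖(F j).2‖ ^ 2 := by
    refine Finset.sum_congr rfl fun j hj => ?_
    rw [Function.update_of_ne (Finset.ne_of_mem_erase hj)]
  simp only [Function.update_self] at h1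
  rw [← h1, ← h2, h3]
  ring

/-- The squared final velocities of a tree. -/
theorem sum_fin_sq (ε : ℝ) : ∀ (P : CTree) (ℓ : PhasePoint) (p : Par P),
    ∑ i, ‖(fin Φ ε P ℓ p i).2‖ ^ 2 = ‖ℓ.2‖ ^ 2 + QDens815.nodeEn P p
  | leaf, ℓ, p => by
    show ∑ _i : Unit, ‖ℓ.2‖ ^ 2 = ‖ℓ.2‖ ^ 2 + 0
    simp
  | node l r, ℓ, p => by
    have hl := sum_fin_sq ε l (inMap Φ ε ℓ p.1).1 p.2.1
    have hr := sum_fin_sq ε r (inMap Φ ε ℓ p.1).2 p.2.2
    have ul := sum_update_sq (fin Φ ε l (inMap Φ ε ℓ p.1).1 p.2.1) (root l) ℓ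
    have ur := sum_update_sq (fin Φ ε r (inMap Φ ε ℓ p.1).2 p.2.2) (root r) (outLine ε ℓ p.1)
    rw [fin_root] at ul ur
    have hs : ∑ i, ‖(fin Φ ε (node l r) ℓ p i).2‖ ^ 2 =
        ∑ i : Idx l, ‖(Function.update (fin Φ ε l (inMap Φ ε ℓ p.1).1 p.2.1) (root l) ℓ i).2‖ ^ 2 +
        ∑ i : Idx r, ‖(Function.update (fin Φ ε r (inMap Φ ε ℓ p.1).2 p.2.2) (root r)
          (outLine ε ℓ p.1) i).2‖ ^ 2 :=
      Fintype.sum_sum_type (fun i : Idx l ⊕ Idx r => ‖(fin Φ ε (node l r) ℓ p i).2‖ ^ 2)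
    have ho : (outLine ε ℓ p.1).2 = p.1.2.1 := rfl
    rw [hs]
    rw [ho] at ur
    simp only [QDens815.nodeEn]
    linarith

/-- The velocity of an exit line is bounded by the initial energy. -/
theorem fin_sq_le (hΦ : AdmissiblePotential Φ) (ε : ℝ) {P : CTree} {ℓ : PhasePoint} {p : Par P}
    (h : Adm Φ P ℓ.2 p) (i : Idx P) :
    ‖(fin Φ ε P ℓ p i).2‖ ^ 2 ≤ ∑ j, ‖(Tree674.lines Φ ε P ℓ p j).2‖ ^ 2 := by
  have h1 := QDens815.sum_vels hΦ P ℓ.2 p h
  have h2 : ∀ j, (Tree674.lines Φ ε P ℓ p j).2 = vels Φ P ℓ.2 p j :=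
    Hid424.lines_vel ε P ℓ p
  simp only [h2]
  rw [h1, ← sum_fin_sq (Φ := Φ) ε P ℓ p]
  exact Finset.single_le_sum (f := fun i => ‖(fin Φ ε P ℓ p i).2‖ ^ 2) (fun _ _ => sq_nonneg _)
    (Finset.mem_univ i)

theorem lineML_sq_le (hΦ : AdmissiblePotential Φ) (ε : ℝ) {P : CTree} {z : PhasePoint × Par P}
    (h : Adm Φ P z.1.2 z.2) (i : Idx P) :
    ‖(lineML Φ ε P z i).1.2.2‖ ^ 2 ≤ ∑ j, ‖(Tree674.lines Φ ε P z.1 z.2 j).2‖ ^ 2 :=
  fin_sq_le hΦ ε h i

/-! ### Moments of a tree -/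

/-- The density with an exponential velocity weight. -/
def fexp (f₀ : PhasePoint → ℝ) (a : ℝ) (z : PhasePoint) : ℝ := f₀ z * Real.exp (a * ‖z.2‖ ^ 2)

theorem measurable_fexp (hf : Measurable f₀) (a : ℝ) : Measurable (fexp f₀ a) := by
  unfold fexp
  fun_prop

theorem ofReal_fexp (f₀ : PhasePoint → ℝ) (a : ℝ) (z : PhasePoint) :
    ENNReal.ofReal (fexp f₀ a z) =
      ENNReal.ofReal (f₀ z) * ENNReal.ofReal (Real.exp (a * ‖z.2‖ ^ 2)) := by
  unfold fexp
  rw [ENNReal.ofReal_mul' (Real.exp_pos _).le]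

theorem gaussian_fexp (H : HasSummableGaussianBound b (fun x v => f₀ (x, v))) (a : ℝ) :
    HasSummableGaussianBound (b - a) (fun x v => fexp f₀ a (x, v)) := by
  obtain ⟨M, hM, hb⟩ := H
  refine ⟨M, hM, fun k x v hx => ?_⟩
  refine le_trans (le_of_eq ?_) (hb k x v hx)
  unfold fexp
  rw [norm_mul, Real.norm_of_nonneg (Real.exp_pos _).le, mul_comm ‖f₀ (x, v)‖, ← mul_assoc,
    ← Real.exp_add]
  congr 2
  ring

/-- Weight of a tree for the density with an exponential velocity weight. -/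
theorem pf_fexp {P : CTree} (ε t a : ℝ) (z : PhasePoint × Par P) :
    pf Φ (fexp f₀ a) ε P t z =
      pf Φ f₀ ε P t z * expW a (Tree674.lines Φ ε P z.1 z.2) := by
  by_cases h : Valid Φ ε P t z.1.2 z.2
  · rw [pf_of_valid h, pf_of_valid h, mul_assoc]
    unfold expW
    rw [← Finset.prod_mul_distrib]
    simp only [ofReal_fexp]
  · rw [pf_of_not_valid h, pf_of_not_valid h, zero_mul]

/-- **Moments of a tree**, uniform in `ε ≥ 0` and `t ≤ T`. -/
theorem exists_mass_exp (hΦ : AdmissiblePotential Φ) (hf : Measurable f₀)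
    (H : HasSummableGaussianBound b (fun x v => f₀ (x, v))) (ha : a < b) (P : CTree) (T : ℝ) :
    ∃ M : ℝ≥0∞, M ≠ ∞ ∧ ∀ ε t : ℝ, 0 ≤ ε → t ≤ T →
      ∫⁻ z : PhasePoint × Par P, pf Φ f₀ ε P t z * expW a (Tree674.lines Φ ε P z.1 z.2) ≤ M := by
  obtain ⟨M, hM, h⟩ := exists_mass hΦ (measurable_fexp hf a) (sub_pos.2 ha)
    (gaussian_fexp H a) P T
  refine ⟨M, hM, fun ε t hε ht => ?_⟩
  refine le_trans (le_of_eq (lintegral_congr fun z => ?_)) (h ε t hε ht)
  rw [pf_fexp]

/-! ### Exponential weights of one velocity -/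

/-- Exponential weight of one velocity. -/
def eW (a : ℝ) (v : Space3) : ℝ≥0∞ := ENNReal.ofReal (Real.exp (a * ‖v‖ ^ 2))


theorem expW_eq {κ : Type} [Fintype κ] (a : ℝ) (z : κ → PhasePoint) :
    expW a z = ENNReal.ofReal (Real.exp (a * ∑ j, ‖(z j).2‖ ^ 2)) := by
  unfold expW
  rw [← ENNReal.ofReal_prod_of_nonneg fun j _ => (Real.exp_pos _).le, ← Real.exp_sum,
    Finset.mul_sum]

theorem eW_le_expW {κ : Type} [Fintype κ] (ha : 0 ≤ a) {z : κ → PhasePoint} {v : Space3}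
    (h : ‖v‖ ^ 2 ≤ ∑ j, ‖(z j).2‖ ^ 2) : eW a v ≤ expW a z := by
  rw [expW_eq]
  unfold eW
  exact ENNReal.ofReal_le_ofReal (Real.exp_le_exp.2 (mul_le_mul_of_nonneg_left h ha))

/-! ### Forests -/


theorem expW_flines {Ps : Fin s → CTree} (a : ℝ) (q : FPar Ps) :
    expW a (flines Φ ε Ps q) =
      ∏ i, expW a (Tree674.lines Φ ε (Ps i) (q i).1 (q i).2) := by
  unfold expW
  rw [Fintype.prod_sigma]
  rfl










theorem lintegral_pi_prod {δ : Type*} [Fintype δ] {X : δ → Type*} [∀ i, MeasurableSpace (X i)]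
    (μ : ∀ i, Measure (X i)) [∀ i, SigmaFinite (μ i)] {g : ∀ i, X i → ℝ≥0∞}
    (hg : ∀ i, Measurable (g i)) :
    ∫⁻ q, ∏ k, g k (q k) ∂Measure.pi μ = ∏ k, ∫⁻ y, g k y ∂μ k := by
  rcases isEmpty_or_nonempty (∀ i, X i) with he | ⟨⟨x₀⟩⟩
  · obtain ⟨i, hi⟩ : ∃ i, IsEmpty (X i) := by
      by_contra hc
      push Not at hc
      exact he.false fun i => (hc i).some
    rw [lintegral_of_isEmpty]
    symm
    refine Finset.prod_eq_zero (Finset.mem_univ i) ?_
    rw [lintegral_of_isEmpty]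
  · rw [lintegral_eq_lmarginal_univ x₀]
    have h := lmarginal_prod_mul μ Finset.univ hg (fun _ => 1) measurable_const
      (fun _ _ _ _ => rfl) x₀
    simpa using h

/-- **Moments of a forest**, uniform in `ε > 0` and `t ≤ T`. -/
theorem exists_forest_exp (hΦ : AdmissiblePotential Φ) (hf : Measurable f₀)
    (H : HasSummableGaussianBound b (fun x v => f₀ (x, v))) (ha : a < b)
    (Ps : Fin s → CTree) (T : ℝ) :
    ∃ M : ℝ≥0∞, M ≠ ∞ ∧ ∀ ε t : ℝ, 0 < ε → t ≤ T →
      ∫⁻ q : FPar Ps, fD Φ f₀ ε Ps t q * expW a (flinesM Φ ε Ps q) ≤ M := by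
  have hM : ∀ i, ∃ M : ℝ≥0∞, M ≠ ∞ ∧ ∀ ε t : ℝ, 0 ≤ ε → t ≤ T →
      ∫⁻ z, pf Φ (fexp f₀ a) ε (Ps i) t z ≤ M := fun i =>
    exists_mass hΦ (measurable_fexp hf a) (sub_pos.2 ha) (gaussian_fexp H a) (Ps i) T
  choose M hMt hMb using hM
  refine ⟨∏ i, M i, ENNReal.prod_ne_top fun i _ => hMt i, fun ε t hε ht => ?_⟩
  calc ∫⁻ q : FPar Ps, fD Φ f₀ ε Ps t q * expW a (flinesM Φ ε Ps q)
      ≤ ∫⁻ q : FPar Ps, ∏ i, pf Φ (fexp f₀ a) ε (Ps i) t (q i) := by
        refine lintegral_mono fun q => ?_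
        by_cases hq : q ∈ FVS Φ ε Ps t
        · rw [flinesM_of_valid hq.1, expW_flines]
          simp only [pf_fexp]
          rw [Finset.prod_mul_distrib]
          exact mul_le_mul_left (fD_le q) _
        · unfold fD
          rw [indicator_of_notMem hq, zero_mul]
          exact bot_le
    _ = ∏ i, ∫⁻ z, pf Φ (fexp f₀ a) ε (Ps i) t z :=
        lintegral_pi_prod (fun i : Fin s => (volume : Measure (PhasePoint × Par (Ps i))))
          fun i => measurable_pf hΦ (measurable_fexp hf a) ε (Ps i) t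
    _ ≤ ∏ i, M i := Finset.prod_le_prod' fun i _ => hMb i ε t hε.le ht






end Crest.Agent.R122.DomForest998

end
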