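import Crest.Agent.R122.ExclNull_302
import Crest.Agent.R122.LinkGate_424
import Crest.Agent.R122.LN2Inst_473
import Crest.Agent.R122.MomForest_998
import Crest.Agent.R122.LineMeas_994

/-!
# The gateway for trees (row 122, H12 / F3), helper302

* `treeQ` : law of a tree with the energy weight `wQ` of the leaves; `dom_treeQ`, `exists_momQ`.
* `TLe Φ f₀ T' K E δ` : for small `ε` the event `E` has a measurable majorant of mass at most `δ`;
  `tLe_of_gLe` : from helper424's `GLe` for every tree with at most `K` leaves.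
* `RunT`, `BadT` : runs from an exit line, bad partitions of the leaves and the gas.
* `tNull_of_det` : **tree instance of the gateway**.
-/

set_option autoImplicit false
set_option linter.unusedSectionVars false

open MeasureTheory Set Filter Topology
open scoped ENNReal
open Crest.AnalysisR.Kinetic
open Crest.Agent.R122.GC311 Crest.Agent.R122.EDefs602
open Crest.Agent.R122.Kin796 Crest.Agent.R122.Kin796.CTree Crest.Agent.R122.Tree674
open Crest.Agent.R122.InEq2 Crest.Agent.R122.TreeLines335 Crest.Agent.R122.LineMeas994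
open Crest.Agent.R122.ToTree335 Crest.Agent.R122.LinkM547 Crest.Agent.R122.LN2
open Crest.Agent.R122.Gate424 Crest.Agent.R122.RtG302 Crest.Agent.R122.Excl302

noncomputable section

open scoped Classical

namespace Crest.Agent.R122.TreeGate302

variable {Φ : Space3 → ℝ} {f₀ : PhasePoint → ℝ} {ε T' : ℝ} {K : ℕ}

/-! ### The law of a tree with the energy weight -/

/-- Law of a tree with the energy weight. -/
def treeQ (Φ : Space3 → ℝ) (f₀ : PhasePoint → ℝ) (ε : ℝ) (P : CTree) (T : ℝ) :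
    Measure (PhasePoint × Par P) := (treeM Φ f₀ ε P T).withDensity (wQ Φ ε P)

instance (P : CTree) (T : ℝ) : SFinite (treeQ Φ f₀ ε P T) := by
  unfold treeQ; infer_instance

theorem lintegral_treeQ (hΦ : AdmissiblePotential Φ) (hf : Measurable f₀) (ε : ℝ) (P : CTree)
    (T : ℝ) {G : PhasePoint × Par P → ℝ≥0∞} (hG : Measurable G) :
    ∫⁻ z, G z ∂(treeQ Φ f₀ ε P T) = ∫⁻ z : PhasePoint × Par P,
      {z : PhasePoint × Par P | Valid Φ ε P T z.1.2 z.2}.indicator
        (fun z => wt Φ P z.1.2 z.2 * (pf Φ f₀ ε P z * (wQ Φ ε P z * G z))) z := by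
  unfold treeQ
  rw [lintegral_withDensity_eq_lintegral_mul _ (measurable_wQ hΦ P) hG,
    lintegral_treeM hΦ hf ε P T (G := wQ Φ ε P * G) ((measurable_wQ hΦ P).mul hG)]
  rfl

theorem exp_one_le {a : ℝ} (ha : 0 < a) {n : ℕ} {s : ℝ} (hs : 0 ≤ s) :
    (n : ℝ) + s ≤ (n + 1 / a) * Real.exp (a * s) := by
  have h1 := Real.add_one_le_exp (a * s)
  have h2 : 1 ≤ Real.exp (a * s) := Real.one_le_exp_iff.2 (by positivity)
  have h3 : (n : ℝ) ≤ n * Real.exp (a * s) := le_mul_of_one_le_right (Nat.cast_nonneg _) h2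
  have h4 : s ≤ 1 / a * Real.exp (a * s) := by
    rw [div_mul_eq_mul_div, one_mul, le_div_iff₀ ha]
    linarith [mul_comm a s]
  linarith

theorem wQ_le_expW {a : ℝ} (ha : 0 < a) (P : CTree) (z : PhasePoint × Par P) :
    wQ Φ ε P z ≤ ENNReal.ofReal (Fintype.card (Idx P) + 1 / a) *
      expW a (linesM Φ ε P z.1 z.2) := by
  rw [DomForest998.expW_eq]
  unfold wQ
  rw [← ENNReal.ofReal_sum_of_nonneg fun i _ => by positivity, ← ENNReal.ofReal_mul (by positivity)]
  refine ENNReal.ofReal_le_ofReal ?_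
  rw [Finset.sum_add_distrib, Finset.sum_const, Finset.card_univ, nsmul_eq_mul, mul_one]
  exact exp_one_le ha (Finset.sum_nonneg fun i _ => by positivity)

/-- The law with the energy weight is dominated. -/
theorem dom_treeQ (hΦ : AdmissiblePotential Φ) (hf : Measurable f₀) {γ : ℝ}
    {ρ : Space3 → ℝ≥0∞} {C : ℝ≥0∞} (he : Env f₀ γ ρ C) (hε : 0 < ε) {a : ℝ} (ha : 0 < a)
    (P : CTree) (T : ℝ) :
    Dom (γ - a) ρ ε 1 Finset.univ (ENNReal.ofReal (Fintype.card (Idx P) + 1 / a) *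
        C ^ Fintype.card (Idx P)) (Measure.dirac fun _ : Idx P => (0 : ℝ))
      (treeQ Φ f₀ ε P T) (fun _ _ => 0) (fun z => linesM Φ ε P z.1 z.2) :=
  (dom_tree hΦ hf he hε P T).weight a (measurable_wQ hΦ P) (fun z => wQ_le_expW ha P z)
    ENNReal.ofReal_ne_top


/-! ### Events of small mass -/

/-- For small `ε` the event has a measurable majorant of mass at most `δ`. -/
def TLe (Φ : Space3 → ℝ) (f₀ : PhasePoint → ℝ) (T' : ℝ) (K : ℕ) (E : TEv) (δ : ℝ≥0∞) : Prop :=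
  ∃ ε₀ : ℝ, 0 < ε₀ ∧ ∀ ε : ℝ, 0 < ε → ε < ε₀ → ∃ G, TMaj Φ ε T' K E G ∧
    TS Φ f₀ ε T' (fun P z m w => wQ Φ ε P z * G P z m w) ≤ δ

variable {E E' : TEv} {δ δ' : ℝ≥0∞}

theorem TLe.mono (h : TLe Φ f₀ T' K E δ) (hδ : δ ≤ δ')
    (hE : ∃ ε₁ : ℝ, 0 < ε₁ ∧ ∀ ε : ℝ, 0 < ε → ε < ε₁ → ∀ P z m w, P.leaves ≤ K →
      Valid Φ ε P T' z.1.2 z.2 → Sep Φ ε P T' z.1 z.2 → w ∈ PairExcluded ε m →
        E' ε P z m w → E ε P z m w) : TLe Φ f₀ T' K E' δ' := by
  obtain ⟨ε₀, h0, h⟩ := h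
  obtain ⟨ε₁, h1, hE⟩ := hE
  refine ⟨min ε₀ ε₁, lt_min h0 h1, fun ε hε hlt => ?_⟩
  obtain ⟨G, hG, hm⟩ := h ε hε (hlt.trans_le (min_le_left _ _))
  exact ⟨G, ⟨hG.meas, fun P z m w hP hV hS hw hE' => hG.maj P z m w hP hV hS hw
    (hE ε hε (hlt.trans_le (min_le_right _ _)) P z m w hP hV hS hw hE')⟩, hm.trans hδ⟩

theorem TLe.or (hΦ : AdmissiblePotential Φ) (hf : Measurable f₀) (h : TLe Φ f₀ T' K E δ)
    (h' : TLe Φ f₀ T' K E' δ') :
    TLe Φ f₀ T' K (fun ε P z m w => E ε P z m w ∨ E' ε P z m w) (δ + δ') := by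
  obtain ⟨ε₀, h0, h⟩ := h
  obtain ⟨ε₁, h1, h'⟩ := h'
  refine ⟨min ε₀ ε₁, lt_min h0 h1, fun ε hε hlt => ?_⟩
  obtain ⟨G, hG, hm⟩ := h ε hε (hlt.trans_le (min_le_left _ _))
  obtain ⟨G', hG', hm'⟩ := h' ε hε (hlt.trans_le (min_le_right _ _))
  refine ⟨_, hG.add hG', ?_⟩
  have h3 : TS Φ f₀ ε T' (fun P z m w => wQ Φ ε P z * (G P z m w + G' P z m w)) =
      TS Φ f₀ ε T' (fun P z m w => wQ Φ ε P z * G P z m w) +
        TS Φ f₀ ε T' (fun P z m w => wQ Φ ε P z * G' P z m w) := by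
    rw [← TS_add hΦ hf (measTS_wQ hΦ hG.meas)]
    simp only [mul_add]
  rw [h3]
  exact add_le_add hm hm'

theorem _root_.Crest.Agent.R122.RtG302.TNull.tLe (h : TNull Φ f₀ T' K E) (hδ : 0 < δ) :
    TLe Φ f₀ T' K E δ := by
  rcases eq_or_ne δ ∞ with rfl | hδt
  · obtain ⟨e, he, h⟩ := h 1 one_pos
    refine ⟨e, he, fun ε hε hlt => ?_⟩
    obtain ⟨G, hG, -⟩ := h ε hε hlt
    exact ⟨G, hG, le_top⟩
  · obtain ⟨e, he, h⟩ := h δ.toReal (ENNReal.toReal_pos hδ.ne' hδt)
    rw [ENNReal.ofReal_toReal hδt] at h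
    exact ⟨e, he, h⟩

/-- From helper424's `GLe` for every tree. -/
theorem tLe_of_gLe (hΦ : AdmissiblePotential Φ) (hf : Measurable f₀)
    (h : ∀ P : CTree, P.leaves ≤ K → GLe (I := Unit) f₀ (fun ε _ => treeQ Φ f₀ ε P T')
      (fun ε _ n z w => Valid Φ ε P T' z.1.2 z.2 ∧ Sep Φ ε P T' z.1 z.2 ∧ E ε P z n w) δ) :
    TLe Φ f₀ T' K E ((GIVStep383.trees K).card * δ) := by
  choose e he h using h
  have hpos : ∃ ε₀ : ℝ, 0 < ε₀ ∧ ∀ P (hP : P.leaves ≤ K), ε₀ ≤ e P hP := by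
    have h1 : ∀ S : Finset CTree, ∃ ε₀ : ℝ, 0 < ε₀ ∧ ∀ P ∈ S, ∀ hP : P.leaves ≤ K,
        ε₀ ≤ e P hP := by
      intro S
      induction S using Finset.induction_on with
      | empty => exact ⟨1, one_pos, fun P hP => absurd hP (Finset.notMem_empty P)⟩
      | insert a S ha ih =>
        obtain ⟨ε₀, h0, ih⟩ := ih
        by_cases hP : a.leaves ≤ K
        · refine ⟨min ε₀ (e a hP), lt_min h0 (he a hP), fun P hPS hPK => ?_⟩
          rcases Finset.mem_insert.1 hPS with rfl | h2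
          · exact min_le_right _ _
          · exact (min_le_left _ _).trans (ih P h2 hPK)
        · refine ⟨ε₀, h0, fun P hPS hPK => ?_⟩
          rcases Finset.mem_insert.1 hPS with rfl | h2
          · exact absurd hPK hP
          · exact ih P h2 hPK
    obtain ⟨ε₀, h0, h1⟩ := h1 (GIVStep383.trees K)
    exact ⟨ε₀, h0, fun P hP => h1 P (GIVStep383.mem_trees.2 hP) hP⟩
  obtain ⟨ε₀, h0, hε₀⟩ := hpos
  refine ⟨ε₀, h0, fun ε hε hlt => ?_⟩
  choose G hGm hG hGi using fun (P : CTree) (hP : P.leaves ≤ K) =>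
    h P hP ε hε (hlt.trans_le (hε₀ P hP)) ()
  set F : (P : CTree) → PhasePoint × Par P → (m : ℕ) → Config m → ℝ≥0∞ := fun P z m w =>
    if hP : P.leaves ≤ K then G P hP m (z, w) else 0 with hF
  have hF1 : ∀ P (hP : P.leaves ≤ K), F P = fun z m w => G P hP m (z, w) := by
    intro P hP
    funext z m w
    simp only [hF, dif_pos hP]
  have hF0 : ∀ P, ¬ P.leaves ≤ K → F P = fun _ _ _ => 0 := by
    intro P hP
    funext z m w
    simp only [hF, dif_neg hP]
  have hFm : MeasTS F := by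
    intro P m
    by_cases hP : P.leaves ≤ K
    · rw [hF1 P hP]
      exact hGm P hP m
    · rw [hF0 P hP]
      exact measurable_const
  refine ⟨F, ⟨hFm, ?_⟩, ?_⟩
  · intro P z m w hP hV hS hw hE
    rw [hF1 P hP]
    exact hG P hP m z w hw ⟨hV, hS, hE⟩
  · unfold InEq2.TS
    rw [tsum_eq_sum (s := GIVStep383.trees K)]
    · calc _ ≤ ∑ _P ∈ GIVStep383.trees K, δ := by
            refine Finset.sum_le_sum fun P hP => ?_
            have hP' : P.leaves ≤ K := GIVStep383.mem_trees.1 hP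
            refine le_trans (le_of_eq ?_) (hGi P hP')
            have hgm : Measurable fun z : PhasePoint × Par P =>
                gcE f₀ ε fun n w => G P hP' n (z, w) :=
              MeasE416.measurable_gcE_of hf ε (F := fun n z w => G P hP' n (z, w))
                fun n => hGm P hP' n
            rw [lintegral_treeQ hΦ hf ε P T' hgm]
            refine lintegral_congr fun z => ?_
            congr 1
            funext z
            have e1 : gcE f₀ ε (fun m w => wQ Φ ε P z * F P z m w) =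
                wQ Φ ε P z * gcE f₀ ε fun n w => G P hP' n (z, w) := by
              rw [hF1 P hP', gcE_const_mul f₀ ε (Small302.wQ_ne_top z)]
            show wt Φ P z.1.2 z.2 * (pf Φ f₀ ε P z *
              gcE f₀ ε (fun m w => wQ Φ ε P z * F P z m w)) = _
            rw [e1]
        _ = _ := by rw [Finset.sum_const, nsmul_eq_mul]
    · intro P hP
      have hP' : ¬ P.leaves ≤ K := fun h => hP (GIVStep383.mem_trees.2 h)
      have e1 : ∀ z, gcE f₀ ε (fun m w => wQ Φ ε P z * F P z m w) = 0 := by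
        intro z
        rw [hF0 P hP']
        simp [gcE_zero]
      refine (lintegral_congr fun z => ?_).trans lintegral_zero
      by_cases hz : z ∈ {z : PhasePoint × Par P | Valid Φ ε P T' z.1.2 z.2}
      · rw [indicator_of_mem hz]
        show wt Φ P z.1.2 z.2 * (pf Φ f₀ ε P z *
          gcE f₀ ε (fun m w => wQ Φ ε P z * F P z m w)) = 0
        rw [e1, mul_zero, mul_zero]
      · rw [indicator_of_notMem hz]

/-! ### Runs and bad partitions -/


/-- The leaves and at most `N` gas particles form a bad partition. -/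
def BadT (Φ : Space3 → ℝ) (T' C R ς : ℝ) (N : ℕ) : TEv := fun ε P z _ w =>
  BadGas Φ T' C R ς ε N 1 Finset.univ (fun _ : Idx P => 0) (Tree674.lines Φ ε P z.1 z.2) w

/-- Division of a mass. -/
theorem exists_div (n : ℕ) {δ : ℝ≥0∞} (hδ : 0 < δ) : ∃ δ' : ℝ≥0∞, 0 < δ' ∧ n * δ' ≤ δ := by
  have hc : (n + 1 : ℝ≥0∞) ≠ ∞ := ENNReal.add_ne_top.2 ⟨ENNReal.natCast_ne_top _, ENNReal.one_ne_top⟩
  refine ⟨δ / (n + 1), ENNReal.div_pos hδ.ne' hc, ?_⟩
  calc (n : ℝ≥0∞) * (δ / (n + 1)) ≤ (n + 1) * (δ / (n + 1)) := by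
        gcongr
        exact le_self_add
    _ = δ := ENNReal.mul_div_cancel (by simp) hc


/-- **Bad partitions have small mass.** -/
theorem badT_small (hΦ : AdmissiblePotential Φ) {γ : ℝ} (hγ : 0 < γ) (hf : Continuous f₀)
    (H : HasSummableGaussianBound γ (fun x v => f₀ (x, v)))
    (h1 : ∫⁻ z, ENNReal.ofReal (f₀ z) ≤ 1) (hCN : VLMeas973.ClassNull Φ T') (K : ℕ) (C : ℝ) (N : ℕ)
    (hδ : 0 < δ) : ∃ R > 0, ∃ ς > 0, TLe Φ f₀ T' K (BadT Φ T' C R ς N) δ := by
  obtain ⟨ρ, C₀, he⟩ := exists_env (le_refl γ) H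
  obtain ⟨δ', hδ', hle⟩ := exists_div (GIVStep383.trees K).card hδ
  have hP : ∀ P : CTree, ∃ R > 0, ∃ ς > 0, GLe (I := Unit) f₀ (fun ε _ => treeQ Φ f₀ ε P T')
      (fun ε _ _ z w => BadGas Φ T' C R ς ε N 1 Finset.univ (fun _ : Idx P => 0)
        (linesM Φ ε P z.1 z.2) w) δ' := by
    intro P
    have hs : 1 ≤ Fintype.card (Idx P) := Fintype.card_pos_iff.2 ⟨root P⟩
    have he' : Env f₀ (γ - γ / 2) ρ C₀ := ⟨he.meas, he.le_one, he.int, he.fin, fun z =>
      (he.le z).trans (mul_le_mul_right (mul_le_mul_right (LN2.wG_anti (by linarith) z.2) _) _)⟩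
    exact gLe_badGas (I := Unit) (m := fun ε _ => treeQ Φ f₀ ε P T') hCN hf.measurable h1 he'
      (by linarith) C N hs Finset.univ
      (c := ENNReal.ofReal (Fintype.card (Idx P) + 1 / (γ / 2)) * C₀ ^ Fintype.card (Idx P))
      (ENNReal.mul_ne_top ENNReal.ofReal_ne_top (ENNReal.pow_ne_top he.fin))
      (Measure.dirac fun _ : Idx P => (0 : ℝ)) (b := fun _ _ _ _ => 0)
      (z := fun ε _ z => linesM Φ ε P z.1 z.2) (fun ε _ => inferInstance)
      (fun ε _ hε => dom_treeQ hΦ hf.measurable he hε (by positivity) P T') hδ'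
  choose R hR ς hς hB using hP
  -- uniform radius and separation
  obtain ⟨R₀, hR₀, hRle⟩ : ∃ R₀ : ℝ, 0 < R₀ ∧ ∀ P, P.leaves ≤ K → R P ≤ R₀ := by
    refine ⟨1 + ∑ P ∈ GIVStep383.trees K, R P, ?_, fun P hP => ?_⟩
    · have : 0 ≤ ∑ P ∈ GIVStep383.trees K, R P := Finset.sum_nonneg fun P _ => (hR P).le
      linarith
    · have := Finset.single_le_sum (f := R) (fun P _ => (hR P).le) (GIVStep383.mem_trees.2 hP)
      linarith
  obtain ⟨ς₀, hς₀, hςle⟩ : ∃ ς₀ : ℝ, 0 < ς₀ ∧ ∀ P, P.leaves ≤ K → ς₀ ≤ ς P := by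
    have h2 : ∀ S : Finset CTree, ∃ ς₀ : ℝ, 0 < ς₀ ∧ ∀ P ∈ S, ς₀ ≤ ς P := by
      intro S
      induction S using Finset.induction_on with
      | empty => exact ⟨1, one_pos, fun P hP => absurd hP (Finset.notMem_empty P)⟩
      | insert a S ha ih =>
        obtain ⟨ς₀, h0, ih⟩ := ih
        refine ⟨min ς₀ (ς a), lt_min h0 (hς a), fun P hPS => ?_⟩
        rcases Finset.mem_insert.1 hPS with rfl | h2
        · exact min_le_right _ _
        · exact (min_le_left _ _).trans (ih P h2)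
    obtain ⟨ς₀, h0, h2⟩ := h2 (GIVStep383.trees K)
    exact ⟨ς₀, h0, fun P hP => h2 P (GIVStep383.mem_trees.2 hP)⟩
  refine ⟨R₀, hR₀, ς₀, hς₀, ?_⟩
  refine (tLe_of_gLe hΦ hf.measurable (E := BadT Φ T' C R₀ ς₀ N) fun P hP => ?_).mono hle
    ⟨1, one_pos, fun _ _ _ _ _ _ _ _ _ _ _ h => h⟩
  refine (hB P).mono le_rfl ⟨1, one_pos, ?_⟩
  rintro ε hε - - n z w - ⟨hV, -, hb⟩
  rw [linesM_of_adm ε hV.1]
  exact badGas_mono hε.le (hRle P hP) (hςle P hP) hb


/-- Calculus: `or` for null events. -/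
theorem tNull_or (hΦ : AdmissiblePotential Φ) (hf : Measurable f₀) (h : TNull Φ f₀ T' K E)
    (h' : TNull Φ f₀ T' K E') : TNull Φ f₀ T' K fun ε P z m w => E ε P z m w ∨ E' ε P z m w := by
  intro δ hδ
  have h1 : (0 : ℝ≥0∞) < ENNReal.ofReal (δ / 2) := ENNReal.ofReal_pos.2 (by positivity)
  have h2 := (h.tLe h1).or hΦ hf (h'.tLe h1)
  rw [← ENNReal.ofReal_add (by positivity) (by positivity), add_halves] at h2
  exact h2


end Crest.Agent.R122.TreeGate302
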