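import Crest.Agent.R122.LNBind_302
import Crest.Agent.R122.LNTreeRA_399
import Crest.Agent.R122.TreeGate_302
import Crest.Agent.R122.LNTreeDef_399
import Crest.Agent.R122.LinkGate2_424
import Crest.Agent.R122.GateTree_522

-- ▼ part R122/LNTreeBind_302
section

/-!
# Row 122, EVENTS (helper302): the events of one tree from `ReachAll`

Master system `Mt` of helper399 (gas and one tree, valid and separated on `[0, T']`), horizon
`u₀ ≤ T'`, arbitrary base world `Z` on the labels (`cfg w`, `cfg w` + exits).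

* `pairNL_tree` : exit lines of the tree (root line included) are pairwise unlinked.
* `not_retA_tree`, `not_retB_tree` : no return to the protected tubes (exits different from the
  root).
* `RAll`, `RAll.not_linkEx`, `RAll.not_retEx`, `RAll.not_retLn` : base world `cfg w`.
-/

set_option autoImplicit false
set_option linter.unusedSectionVars false

open MeasureTheory Set Filter Topology
open Crest.AnalysisR.Kinetic
open Crest.Agent.R122.GIV566 Crest.Agent.R122.VL581 Crest.Agent.R122.LNg410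
open Crest.Agent.R122.LN304 Crest.Agent.R122.Ins45
open Crest.Agent.R122.Inf879 Crest.Agent.R122.EDefs602 Crest.Agent.R122.MWFam255
open Crest.Agent.R122.LNEv968 Crest.Agent.R122.LNEv818 Crest.Agent.R122.LNEv383
open Crest.Agent.R122.LNTree410 Crest.Agent.R122.LNTree399 Crest.Agent.R122.Bind302
open Crest.Agent.R122.TreeLines335 Crest.Agent.R122.Kin796 Crest.Agent.R122.Kin796.CTree
open Crest.Agent.R122.Tree674 Crest.Agent.R122.PathFlow968
open Crest.Agent.R122.RtG302 (near exL protT LinkEx RetEx RetLn AllOk)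
open scoped Classical

noncomputable section

namespace Crest.Agent.R122.TreeBind302

variable {Φ : Space3 → ℝ} {ε T' u₀ c ℓ ς : ℝ} {n N K : ℕ} {P : CTree} {z : PhasePoint × Par P}
  {w : Config n}

/-- Contacts of the isolated tree. -/
def RT (Φ : Space3 → ℝ) (T' ε : ℝ) (n : ℕ) (P : CTree) (Zc : Fin n ⊕ Idx P → PhasePoint) (r : ℝ)
    (j k : Fin n ⊕ Idx P) : Prop :=
  dist ((Mt Φ T' ε n P).st (pT n P) r Zc j).1 ((Mt Φ T' ε n P).st (pT n P) r Zc k).1 ≤ ε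

theorem lineAt_lineML (Φ : Space3 → ℝ) (ε : ℝ) (P : CTree) (z : PhasePoint × Par P) (x : Idx P)
    (u : ℝ) : Ins45.lineAt (lineML Φ ε P z x).1.1 (lineML Φ ε P z x).1.2 u =
      onLine (fin Φ ε P z.1 z.2 x) u := by
  unfold Ins45.lineAt lineML onLine
  refine Prod.ext ?_ rfl
  simp only
  rw [add_assoc, ← add_smul]
  congr 2
  ring

section tree

variable (hΦ : AdmissiblePotential Φ) (hε : 0 < ε)
  (hV : Valid Φ ε P T' z.1.2 z.2) (hS : Sep Φ ε P T' z.1 z.2)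
include hΦ hε hV hS

theorem st_eq_path {t : ℝ} (ht : t ∈ Icc 0 T') (i : Idx P) :
    (Mt Φ T' ε n P).st (pT n P) t (Zt Φ ε w z) (Sum.inr i) = path Φ ε P z.1 z.2 t i :=
  (treeIn hV hS).st_tree (M := Mt Φ T' ε n P) hΦ hε ht i

theorem st_eq_lineAt {t : ℝ} (i : Idx P) (ht : rel P z.2 i ≤ t) (htT : t ≤ T') :
    (Mt Φ T' ε n P).st (pT n P) t (Zt Φ ε w z) (Sum.inr i) =
      Ins45.lineAt (lineML Φ ε P z i).1.1 (lineML Φ ε P z i).1.2 t := by
  rw [lineAt_lineML]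
  exact (treeIn hV hS).line_tree (M := Mt Φ T' ε n P) hΦ hε i ht htT

theorem far_of_rel {t : ℝ} {i : Idx P} {k : Fin n ⊕ Idx P} (hk : k ∈ pT n P)
    (hki : k ≠ Sum.inr i) (ht : rel P z.2 i < t) (htT : t ≤ T') :
    ε < dist ((Mt Φ T' ε n P).st (pT n P) t (Zt Φ ε w z) (Sum.inr i)).1
      ((Mt Φ T' ε n P).st (pT n P) t (Zt Φ ε w z) k).1 :=
  (treeIn hV hS).exit_tree (M := Mt Φ T' ε n P) hΦ hε hk hki ht htT

theorem rT_le_rel {r : ℝ} {i : Idx P} {k : Fin n ⊕ Idx P} (hk : k ∈ pT n P)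
    (hki : k ≠ Sum.inr i) (hr : r ∈ Icc 0 T')
    (h : RT Φ T' ε n P (Zt Φ ε w z) r (Sum.inr i) k) : r ≤ rel P z.2 i := by
  by_contra hcon
  exact absurd h (not_le.2 (far_of_rel hΦ hε hV hS hk hki (not_le.1 hcon) hr.2))

theorem ok_pT (hT : 0 ≤ T') (t : ℝ) : (Mt Φ T' ε n P).ok (pT n P) t (Zt Φ ε w z) :=
  (treeIn hV hS).ok_tree (M := Mt Φ T' ε n P) hΦ hε hT t

theorem partR (hT : 0 ≤ T') (hc : 1 ≤ c) :
    PartR (Mt Φ T' ε n P) c (Zt Φ ε w z) (pT n P) (RT Φ T' ε n P (Zt Φ ε w z)) where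
  cut := ((treeIn (w := w) hV hS).conn_tree (M := Mt Φ T' ε n P) hΦ hε).mono
    fun i _ j _ _ h => Or.inl (by
      obtain ⟨r, hr, _, _, hd⟩ := h
      exact ⟨r, hr, hd⟩)
  symm r j k h := by
    unfold RT at h ⊢
    rwa [dist_comm]
  vct r _ j hj k hk _ h := by
    have ho : ∀ j : Fin n ⊕ Idx P, (Mt Φ T' ε n P).o ≠ some j := fun j h => by
      have h1 : (none : Option (Fin n ⊕ Idx P)) = some _ := h
      exact absurd h1 (by simp)
    refine vct_of_st subset_rfl subset_rfl hj hk (ok_pT hΦ hε hV hS hT r)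
      (ok_pT hΦ hε hV hS hT r) (ho j) (ho k) (le_trans h ?_)
    change ε ≤ c * ε
    nlinarith

/-! ### Base world on the labels -/

variable {ι μ : Type} [Fintype ι] [Fintype μ] {Z : MW ι} {lab : ι → Fin n ⊕ Idx P} {g : μ → Idx P}

/-- **Exit lines of one tree are pairwise unlinked** (the root line may be included). -/
theorem pairNL_tree (hu : u₀ ≤ T') (hT : 0 ≤ T') (hc : 1 ≤ c) (hℓς : 2 * ℓ ≤ ς)
    (hlab : Function.Injective lab) (hg : Function.Injective g)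
    (hlg : ∀ x i, lab i ≠ Sum.inr (g x))
    (hZ : Z.Ok Φ ε) (hOk : ∀ x, (Z.ins (lineML Φ ε P z (g x))).Ok Φ ε)
    (hNB : NoBad (Mt Φ T' ε n P) c ℓ ς (Zt Φ ε w z) (Lt n P) (N + N + (N + N)))
    (hRA : ∀ x, ReachAll (Reach (Mt Φ T' ε n P) c (Zt Φ ε w z) (Lt n P) (pT n P)
      (Sum.inr (g x)) N) Φ ε K u₀ Z lab (lineML Φ ε P z (g x)) (Sum.inr (g x))) :
    PairNL Φ ε K u₀ Z fun x => lineML Φ ε P z (g x) := by
  have hR := partR (n := n) (w := w) hΦ hε hV hS hT hc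
  have hπ : pT n P ∈ Lt n P := mem_Lt.2 rfl
  have hgi : ∀ {x y : μ}, x ≠ y → (Sum.inr (g x) : Fin n ⊕ Idx P) ≠ Sum.inr (g y) :=
    fun hxy h => hxy (hg (Sum.inr_injective h))
  refine pairNL_of_reach hΦ hε (M := Mt Φ T' ε n P) (c := c) (ℓ := ℓ) (ς := ς)
    (Zc := Zt Φ ε w z) (Λ := Lt n P) (N := N) rfl hu hc (fun π hπ' => ?_)
    (noBad_mono hNB (Nat.le_add_right _ _)) (noTwo _) hlab (P := fun _ => pT n P)
    (p := fun x => Sum.inr (g x)) (fun _ => hπ) (fun x => inr_mem _)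
    (fun x y h => hg (Sum.inr_injective h)) (fun x h => ?_) hRA ?_
  · rw [mem_Lt.1 hπ']
    exact conn_pT hΦ hε hc hV hS
  · obtain ⟨i, hi⟩ := h
    exact hlg x i hi
  · intro x y hxy _ u hu' hux huy hbx hby hb
    refine exits_apart hΦ hε (M := Mt Φ T' ε n P) (c := c) (ℓ := ℓ) (ς := ς) rfl hu hc hℓς hR hπ
      hZ (hOk x) (hOk y) (hRA x) (hRA y) (hlg x) (hlg y) hNB (inr_mem _) (inr_mem _) (hgi hxy)
      (fun r hr h => ⟨rT_le_rel hΦ hε hV hS (inr_mem _) (hgi hxy.symm) hr h,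
        rT_le_rel hΦ hε hV hS (inr_mem _) (hgi hxy) hr (hR.symm r _ _ h)⟩) ?_ hu' hux huy hbx hby hb
    intro t ht h1 h2 h3
    have e1 := st_eq_lineAt (n := n) (w := w) hΦ hε hV hS (g x) h1 ht.2
    have e2 := st_eq_lineAt (n := n) (w := w) hΦ hε hV hS (g y) h2 ht.2
    rw [← e1, ← e2]
    rcases h3 with h3 | h3
    · exact far_of_rel hΦ hε hV hS (inr_mem _) (hgi hxy.symm) h3 ht.2
    · rw [dist_comm]
      exact far_of_rel hΦ hε hV hS (inr_mem _) (hgi hxy) h3 ht.2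

/-- **No return of the influence of an exit to the protected tubes** (radius `r ≤ c ε`). -/
theorem not_retA_tree {x : Idx P} {r : ℝ} (hx : x ≠ root P) (hu : u₀ ≤ T') (hT : 0 < T')
    (hc : 1 ≤ c) (hr : r ≤ c * ε) (hℓς : 2 * ℓ ≤ ς) (hlg : ∀ i, lab i ≠ Sum.inr x)
    (hZ : Z.Ok Φ ε) (hOk : (Z.ins (lineML Φ ε P z x)).Ok Φ ε)
    (hNB : NoBad (Mt Φ T' ε n P) c ℓ ς (Zt Φ ε w z) (Lt n P) N)
    (hRA : ReachAll (Reach (Mt Φ T' ε n P) c (Zt Φ ε w z) (Lt n P) (pT n P)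
      (Sum.inr x) N) Φ ε K u₀ Z lab (lineML Φ ε P z x) (Sum.inr x)) :
    ¬ RetA Φ ε r K u₀ Z (lineML Φ ε P z x) (protT Φ ε P T' z) := by
  have hR := partR (n := n) (w := w) hΦ hε hV hS hT.le hc
  have hπ : pT n P ∈ Lt n P := mem_Lt.2 rfl
  have ho : ∀ j : Fin n ⊕ Idx P, (Mt Φ T' ε n P).o ≠ some j := fun j h => by
    have h1 : (none : Option (Fin n ⊕ Idx P)) = some _ := h
    exact absurd h1 (by simp)
  refine not_retA_of hΦ hε (M := Mt Φ T' ε n P) (c := c) (ℓ := ℓ) (ς := ς) (ξ := Idx P) hu hr hℓς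
    hR hπ hZ hOk hRA hlg hNB (inr_mem _) ?_
  intro y v hv hbv hvy
  have hvT : v ∈ Icc 0 T' := ⟨hv.1, hv.2.trans hu⟩
  have hok := ok_pT (n := n) (w := w) hΦ hε hV hS hT.le v
  have hc' : (protT Φ ε P T' z).c y v =
      ((Mt Φ T' ε n P).st (pT n P) v (Zt Φ ε w z) (Sum.inr y)).1 := by
    rw [st_eq_path hΦ hε hV hS hvT]
    rfl
  by_cases hxy : y = x
  · subst hxy
    right
    have h1 : v ≤ rel P z.2 y := by rw [rel_eq_prot P T' z.2 y hx]; exact hvy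
    have h2 : rel P z.2 y = v := le_antisymm hbv h1
    rcases (treeIn (w := w) (n := n) hV hS).last_tree (M := Mt Φ T' ε n P) hΦ hε hT y with h3 | h3
    · exfalso
      have h4 := rel_pos hε.le hV.2 y hx
      have h5 : (Mt Φ T' ε n P).bb (eT n P y) = 0 := max_self 0
      rw [h3, h5] at h4
      exact lt_irrefl _ h4
    · obtain ⟨k, hk, hky, _, hd⟩ := h3
      rw [h2] at hd
      refine ⟨k, hk, hky, ho _, hok, hc', ?_⟩
      exact hR.vct v hvT _ (inr_mem _) k hk (Ne.symm hky) hd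
  · left
    exact ⟨Sum.inr y, inr_mem _, fun h => hxy (Sum.inr_injective h), ho _, hok, hc'⟩

/-- **No return of an exit to the protected tubes.** -/
theorem not_retB_tree {x : Idx P} (hx : x ≠ root P) (hu : u₀ ≤ T') (hT : 0 < T')
    (hc : 1 ≤ c) (hℓς : 2 * ℓ ≤ ς) (hlg : ∀ i, lab i ≠ Sum.inr x)
    (hlb : ∀ i y, lab i = Sum.inr y → prot P T' z.2 y ≤ Z.b i)
    (hZ : Z.Ok Φ ε) (hOk : (Z.ins (lineML Φ ε P z x)).Ok Φ ε)
    (hNB : NoBad (Mt Φ T' ε n P) c ℓ ς (Zt Φ ε w z) (Lt n P) (N + (N + N)))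
    (hRA : ReachAll (Reach (Mt Φ T' ε n P) c (Zt Φ ε w z) (Lt n P) (pT n P)
      (Sum.inr x) N) Φ ε K u₀ Z lab (lineML Φ ε P z x) (Sum.inr x)) :
    ¬ RetB Φ ε ε K u₀ Z (lineML Φ ε P z x) (protT Φ ε P T' z) := by
  have hR := partR (n := n) (w := w) hΦ hε hV hS hT.le hc
  have hπ : pT n P ∈ Lt n P := mem_Lt.2 rfl
  have ho : ∀ j : Fin n ⊕ Idx P, (Mt Φ T' ε n P).o ≠ some j := fun j h => by
    have h1 : (none : Option (Fin n ⊕ Idx P)) = some _ := h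
    exact absurd h1 (by simp)
  refine not_retB_of hΦ hε (M := Mt Φ T' ε n P) (c := c) (ℓ := ℓ) (ς := ς) (ξ := Idx P) rfl hu hc
    hℓς hR hπ hZ hOk hRA hlg hNB (inr_mem _) ?_
  intro y v hv hbv hvy
  have hvT : v ∈ Icc 0 T' := ⟨hv.1, hv.2.trans hu⟩
  have hbv' : rel P z.2 x < v := hbv
  have hc' : (protT Φ ε P T' z).c y v =
      ((Mt Φ T' ε n P).st (pT n P) v (Zt Φ ε w z) (Sum.inr y)).1 := by
    rw [st_eq_path hΦ hε hV hS hvT]
    rfl
  have hxy : y ≠ x := by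
    rintro rfl
    have h1 : v ≤ rel P z.2 y := by rw [rel_eq_prot P T' z.2 y hx]; exact hvy
    exact absurd hbv' (not_lt.2 h1)
  have hne : (Sum.inr y : Fin n ⊕ Idx P) ≠ Sum.inr x := fun h => hxy (Sum.inr_injective h)
  refine ⟨Sum.inr y, inr_mem _, hne, ho _, ok_pT hΦ hε hV hS hT.le v, hc',
    fun i hi => (show v ≤ prot P T' z.2 y from hvy).trans (hlb i y hi),
    fun r hr h => rT_le_rel hΦ hε hV hS (inr_mem _) hne hr h, ?_⟩
  rw [hc', ← st_eq_lineAt (n := n) (w := w) hΦ hε hV hS x hbv'.le hvT.2, dist_comm]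
  exact far_of_rel hΦ hε hV hS (inr_mem _) hne hbv' hvT.2

end tree

/-! ### The gas alone -/

/-- All exits (different from the root) of the tree reach only their groups, and there is no bad
structure: output of the deterministic theory for the tree. -/
structure RAll (Φ : Space3 → ℝ) (T' c ℓ ς : ℝ) (N K : ℕ) (u₀ ε : ℝ) (P : CTree)
    (z : PhasePoint × Par P) (n : ℕ) (w : Config n) : Prop where
  noBad : NoBad (Mt Φ T' ε n P) c ℓ ς (Zt Φ ε w z) (Lt n P) (N + N + (N + N))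
  reach : ∀ x : {x : Idx P // x ≠ root P}, ReachAll (Reach (Mt Φ T' ε n P) c (Zt Φ ε w z)
    (Lt n P) (pT n P) (Sum.inr x.1) N) Φ ε K u₀ (MW.cfg w) Sum.inl (lineML Φ ε P z x.1)
      (Sum.inr x.1)

namespace RAll

variable (h : RAll Φ T' c ℓ ς N K u₀ ε P z n w) (hΦ : AdmissiblePotential Φ) (hε : 0 < ε)
  (hV : Valid Φ ε P T' z.1.2 z.2) (hS : Sep Φ ε P T' z.1 z.2)
  (hOk : AllOk Φ ε w (exL Φ ε P z)) (hu : u₀ ≤ T') (hc : 1 ≤ c) (hℓς : 2 * ℓ ≤ ς)
include h hΦ hε hV hS hOk hu hc hℓς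

theorem not_linkEx (hT : 0 ≤ T') : ¬ LinkEx Φ ε K u₀ w (exL Φ ε P z) := by
  unfold LinkEx
  rw [not_not]
  have hok := MWFam255.okF_of_okFam hΦ hε hOk
  exact pairNL_tree hΦ hε hV hS (g := fun x : {x : Idx P // x ≠ root P} => x.1) (Z := MW.cfg w)
    (lab := Sum.inl) hu hT hc hℓς Sum.inl_injective Subtype.val_injective
    (fun _ _ h => by cases h) hok.z (fun x => hok.line hΦ hε x) h.noBad h.reach

theorem not_retEx : ¬ RetEx Φ ε K u₀ w (exL Φ ε P z) (protT Φ ε P T' z) := by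
  rintro ⟨x, hx⟩
  have hok := MWFam255.okF_of_okFam hΦ hε hOk
  have hT : 0 < T' := (rel_pos hε.le hV.2 x.1 x.2).trans_le (by
    rw [rel_eq_prot P T' z.2 x.1 x.2]
    exact prot_le hε.le P T' z.1.2 z.2 hV.2 x.1)
  exact not_retA_tree hΦ hε hV hS (Z := MW.cfg w) (lab := Sum.inl) x.2 hu hT hc
    (by nlinarith) hℓς (fun _ h => by cases h) hok.z (hok.line hΦ hε x)
    (noBad_mono h.noBad (by omega)) (h.reach x) ((retL_iff hΦ hε _ _ _ _).1 hx)

theorem not_retLn : ¬ RetLn Φ ε K u₀ w (exL Φ ε P z) (protT Φ ε P T' z) := by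
  rintro ⟨x, hx⟩
  have hok := MWFam255.okF_of_okFam hΦ hε hOk
  have hT : 0 < T' := (rel_pos hε.le hV.2 x.1 x.2).trans_le (by
    rw [rel_eq_prot P T' z.2 x.1 x.2]
    exact prot_le hε.le P T' z.1.2 z.2 hV.2 x.1)
  exact not_retB_tree hΦ hε hV hS (Z := MW.cfg w) (lab := Sum.inl) x.2 hu hT hc
    hℓς (fun _ h => by cases h) (fun _ _ h => by cases h) hok.z (hok.line hΦ hε x)
    (noBad_mono h.noBad (by omega)) (h.reach x) ((retM_iff _ _ _ _).1 hx)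

end RAll

end Crest.Agent.R122.TreeBind302

end
end

-- ▼ part R122/TreeGate2_302

/-!
# Links and returns of the exit lines of a tree are null (row 122, H12/F3, helper302)

* `RunST`, `runST_small` : runs which start from a group of leaves (helper331, helper424).
* `tNull_of_det2` : gateway with group runs.
* `reachAll_hor` : `ReachAll` at a smaller horizon.
* `RATR` : helper399's `RAT` with the root line included.
* `linkNull_of_rat`, `retNullT_of_rat` : **`LinkNull`, `RetNullT`** from `RAT`;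
  `linkNullR_of_ratR` : all lines of the tree (root line included).
-/

set_option autoImplicit false
set_option linter.unusedSectionVars false

open MeasureTheory Set Filter Topology
open scoped ENNReal
open Crest.AnalysisR.Kinetic
open Crest.Agent.R122.GC311 Crest.Agent.R122.EDefs602
open Crest.Agent.R122.Kin796 Crest.Agent.R122.Kin796.CTree Crest.Agent.R122.Tree674
open Crest.Agent.R122.TreeLines335 Crest.Agent.R122.LineMeas994
open Crest.Agent.R122.LinkM547 Crest.Agent.R122.LN2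
open Crest.Agent.R122.Gate424 Crest.Agent.R122.RtG302 Crest.Agent.R122.Excl302
open Crest.Agent.R122.TreeGate302 Crest.Agent.R122.LN304 Crest.Agent.R122.LNEv968
open Crest.Agent.R122.LNEv818 Crest.Agent.R122.LNTree399 Crest.Agent.R122.TreeBind302

noncomputable section

open scoped Classical

namespace Crest.Agent.R122.TreeGate2302

variable {Φ : Space3 → ℝ} {f₀ : PhasePoint → ℝ} {ε T' : ℝ} {K : ℕ} {δ : ℝ≥0∞} {E : TEv}

/-- Monotonicity of null events. -/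
theorem tNull_mono {E E' : TEv} (h : TNull Φ f₀ T' K E)
    (hE : ∀ ε P z m w, E' ε P z m w → E ε P z m w) : TNull Φ f₀ T' K E' := by
  intro δ hδ
  obtain ⟨e, he, h⟩ := h δ hδ
  refine ⟨e, he, fun ε hε hlt => ?_⟩
  obtain ⟨G, hG, hm⟩ := h ε hε hlt
  exact ⟨G, ⟨hG.meas, fun P z m w hP hV hS hw h' => hG.maj P z m w hP hV hS hw
    (hE ε P z m w h')⟩, hm⟩

/-! ### Group runs -/

/-- A run of length `L` starts from a group of leaves. -/
def RunST (Φ : Space3 → ℝ) (T' : ℝ) (K₂ L : ℕ) : TEv := fun ε _ z _ w =>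
  LNTree399.RunS Φ T' K₂ L ε z w

/-- **Long runs from groups of leaves have small mass.** -/
theorem runST_small (hΦ : AdmissiblePotential Φ) {γ : ℝ} (hγ : 0 < γ) (hf : Continuous f₀)
    (H : HasSummableGaussianBound γ (fun x v => f₀ (x, v)))
    (h1 : ∫⁻ z, ENNReal.ofReal (f₀ z) ≤ 1) (hT : 0 ≤ T') (K K₂ : ℕ) (hδ : 0 < δ) :
    ∃ L₀ : ℕ, ∀ L, L₀ ≤ L → TLe Φ f₀ T' K (RunST Φ T' K₂ L) δ := by
  obtain ⟨C₀, hC₀, hb⟩ := exists_gaussian_bound H
  have hb' : ∀ z : PhasePoint, f₀ z ≤ C₀ * Real.exp (-(2 * (γ / 4) * ‖z.2‖ ^ 2)) := by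
    intro z
    refine (le_abs_self _).trans ((hb z.1 z.2).trans ?_)
    refine mul_le_mul_of_nonneg_left (Real.exp_le_exp.2 ?_) hC₀
    have := mul_nonneg hγ.le (sq_nonneg ‖z.2‖)
    linarith
  obtain ⟨δ', hδ', hle⟩ := exists_div (GIVStep383.trees K).card hδ
  have hP : ∀ P : CTree, ∃ L₀ : ℕ, ∀ L, L₀ ≤ L → GLe (I := Unit) f₀
      (fun ε _ => treeQ Φ f₀ ε P T')
      (fun ε _ _ z w => Gate424.RunS Φ ε T' K₂ L (fun _ : Idx P => 0) (linesM Φ ε P z.1 z.2) w)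
        δ' := by
    intro P
    obtain ⟨M, hM, hmom⟩ := GateT522.exists_moment_expW hΦ hf.measurable H
      (β := γ / 4) (by linarith) P T'
    exact gLe_runS (I := Unit) (m := fun ε _ => treeQ Φ f₀ ε P T') hΦ (β := γ / 4) (by positivity)
      hT hC₀ K₂ hf.measurable hb' h1 (t := fun _ => T') (fun _ => le_rfl)
      (b := fun _ _ _ _ => 0) (z := fun ε _ z => linesM Φ ε P z.1 z.2)
      (fun _ _ _ => measurable_const) (fun ε _ _ => measurable_linesM hΦ ε P) hM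
      (fun ε _ hε => hmom ε T' hε le_rfl) hδ'
  choose L₀ hL₀ using hP
  refine ⟨(GIVStep383.trees K).sup L₀, fun L hL => ?_⟩
  refine (tLe_of_gLe hΦ hf.measurable (E := RunST Φ T' K₂ L) fun P hP => ?_).mono hle
    ⟨1, one_pos, fun _ _ _ _ _ _ _ _ _ _ _ h => h⟩
  refine (hL₀ P L ((Finset.le_sup (GIVStep383.mem_trees.2 hP)).trans hL)).mono' ?_
  rintro ε - n z w ⟨hV, -, D, a, hR⟩
  refine ⟨D, a, ?_⟩
  rw [linesM_of_adm ε hV.1]
  exact hR

/-- **Tree instance of the gateway**, group runs. -/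
theorem tNull_of_det2 (hΦ : AdmissiblePotential Φ) {γ : ℝ} (hγ : 0 < γ) (hf : Continuous f₀)
    (H : HasSummableGaussianBound γ (fun x v => f₀ (x, v)))
    (h1 : ∫⁻ z, ENNReal.ofReal (f₀ z) ≤ 1) (hT : 0 ≤ T') (hCN : VLMeas973.ClassNull Φ T')
    {K₂ : ℕ} {Ht : ℕ → TEv} {G : TEv} (hG : TNull Φ f₀ T' K fun ε P z m w => ¬ G ε P z m w)
    (hdet : ∀ L : ℕ, ∃ (N : ℕ) (C : ℝ), ∀ R > 0, ∀ ς > 0, ∃ ε₁ : ℝ, 0 < ε₁ ∧ ∀ ε : ℝ, 0 < ε →
      ε < ε₁ → ∀ P z m w, P.leaves ≤ K → Valid Φ ε P T' z.1.2 z.2 → Sep Φ ε P T' z.1 z.2 →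
        Exc Φ ε P z w → G ε P z m w → E ε P z m w →
          RunST Φ T' K₂ L ε P z m w ∨ BadT Φ T' C R ς N ε P z m w ∨ Ht L ε P z m w)
    (hhit : ∀ L, TNull Φ f₀ T' K (Ht L)) : TNull Φ f₀ T' K E := by
  refine tNull_of_exc hΦ hγ hf H h1 hT (E' := fun ε P z m w => Exc Φ ε P z w ∧ E ε P z m w)
    ?_ fun ε P z m w _ _ _ h2 h3 => ⟨h2, h3⟩
  intro δ hδ
  have h3 : (0 : ℝ≥0∞) < ENNReal.ofReal (δ / 3) := ENNReal.ofReal_pos.2 (by positivity)
  obtain ⟨L, hL⟩ := runST_small hΦ hγ hf H h1 hT K K₂ h3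
  have hL := hL L le_rfl
  obtain ⟨N, C, hdet⟩ := hdet L
  obtain ⟨R, hR, ς, hς, hB⟩ := badT_small hΦ hγ hf H h1 hCN K C N h3
  obtain ⟨ε₁, he₁, hdet⟩ := hdet R hR ς hς
  have h4 := (hL.or hΦ hf.measurable (hB.or hΦ hf.measurable
    ((tNull_or hΦ hf.measurable (hhit L) hG).tLe h3)))
  have h5 : ENNReal.ofReal (δ / 3) + (ENNReal.ofReal (δ / 3) + ENNReal.ofReal (δ / 3)) =
      ENNReal.ofReal δ := by
    rw [← ENNReal.ofReal_add (by positivity) (by positivity),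
      ← ENNReal.ofReal_add (by positivity) (by positivity)]
    congr 1
    ring
  rw [h5] at h4
  obtain ⟨e, he, h⟩ := h4.mono le_rfl (E' := fun ε P z m w => Exc Φ ε P z w ∧ E ε P z m w)
    ⟨ε₁, he₁, fun ε hε hlt P z m w hP hV hS _ h => by
      by_cases hg : G ε P z m w
      · rcases hdet ε hε hlt P z m w hP hV hS h.1 hg h.2 with h6 | h6 | h6
        · exact Or.inl h6
        · exact Or.inr (Or.inl h6)
        · exact Or.inr (Or.inr (Or.inl h6))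
      · exact Or.inr (Or.inr (Or.inr hg))⟩
  exact ⟨e, he, h⟩

/-! ### Horizons -/

/-- `ReachAll` at a smaller horizon. -/
theorem reachAll_hor {ι J : Type} [Fintype ι] {Rp : J → ℝ → Space3 → Prop} {Z : MW ι}
    {lab : ι → J} {a : ML} {p : J} {u₀ : ℝ} (hu : u₀ ≤ T')
    (h : ReachAll Rp Φ ε K T' Z lab a p) : ReachAll Rp Φ ε K u₀ Z lab a p := by
  intro u hu' hθ x hx hb
  refine h u ⟨hu'.1, hu'.2.trans hu⟩ ?_ x hx hb
  by_contra hcon
  rw [not_le] at hcon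
  obtain ⟨s, hs1, hs2⟩ := exists_between hcon
  have h1 : Z.Touched Φ ε K (MW.line a) s :=
    EBasic602.touched_of_theta_lt (hs2.le.trans (hu'.2.trans hu)) hs1
  have hT0 : 0 ≤ T' := hu'.1.trans (hu'.2.trans hu)
  have h0 : 0 ≤ s := (EBasic602.theta_nonneg hT0).trans hs1.le
  exact absurd (hθ.trans (MW.theta_le_of_touched ⟨h0, hs2.le.trans hu'.2⟩ h1)) (not_le.2 hs2)

/-! ### Events of one tree -/

/-- helper399's `RAll` with the root line included. -/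
def RAllR (Φ : Space3 → ℝ) (t c ε : ℝ) (K N : ℕ) {n : ℕ} {P : CTree} (z : PhasePoint × Par P)
    (w : Config n) : Prop :=
  ∀ x : Idx P, ReachAll (Reach (Mt Φ t ε n P) c (Zt Φ ε w z) (Lt n P) (pT n P)
    (Sum.inr x) N) Φ ε K t (MW.cfg w) Sum.inl (lineML Φ ε P z x) (Sum.inr x)

/-- helper399's `HitT` with the root line included. -/
def HitTR (Φ : Space3 → ℝ) (t c ε : ℝ) (N : ℕ) {n : ℕ} {P : CTree} (z : PhasePoint × Par P)
    (w : Config n) : Prop :=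
  HitW Φ t c ε N z w (MW.cfg w) (eG n P) ∨
    ∃ x, HitW Φ t c ε N z w ((MW.cfg w).ins (lineML Φ ε P z x)) (eX n P x)

/-- **helper399's `RAT` with the root line included.** -/
def RATR (Φ : Space3 → ℝ) (t : ℝ) (K K₂ : ℕ) : Prop :=
  ∀ L : ℕ, ∃ N : ℕ, ∀ (c ε ℓ ς : ℝ), 1 ≤ c → 0 < ε → 0 ≤ ℓ → 2 * ℓ ≤ ς →
    ∀ (P : CTree) (z : PhasePoint × Par P) (n : ℕ) (w : Config n), P.leaves ≤ K →
      Valid Φ ε P t z.1.2 z.2 → Sep Φ ε P t z.1 z.2 → w ∈ PairExcluded ε n →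
      (∀ i q, ε < dist (Tree674.lines Φ ε P z.1 z.2 i).1 (w q).1) →
      MW.OkFam Φ ε (MW.cfg w) (lineML Φ ε P z) →
      LNTree399.RunS Φ t K₂ L ε z w ∨
      ¬ NoBad (Mt Φ t ε n P) c ℓ ς (Zt Φ ε w z) (Lt n P) (N + N) ∨
      HitTR Φ t c ε N z w ∨ RAllR Φ t c ε K₂ N z w

/-- Two of the lines of the tree are linked (root line included). -/
def LinkR (Φ : Space3 → ℝ) (K' : ℕ) (u₀ : ℝ) : TEv := fun ε P z _ w =>
  ¬ MWFam255.PairNL Φ ε K' u₀ (MW.cfg w) (lineML Φ ε P z)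

/-- The family of all lines of the tree is not good. -/
def NOkR (Φ : Space3 → ℝ) : TEv := fun ε P z _ w =>
  ¬ MW.OkFam Φ ε (MW.cfg w) (lineML Φ ε P z)

/-- Link or return. -/
def LREv (Φ : Space3 → ℝ) (K' : ℕ) (u₀ T' : ℝ) : TEv := fun ε P z _ w =>
  LinkEx Φ ε K' u₀ w (exL Φ ε P z) ∨ (RetEx Φ ε K' u₀ w (exL Φ ε P z) (protT Φ ε P T' z) ∨
    RetLn Φ ε K' u₀ w (exL Φ ε P z) (protT Φ ε P T' z))

section events

variable {u₀ ℓ ς : ℝ} {N K' n : ℕ} {P : CTree} {z : PhasePoint × Par P} {w : Config n}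

/-- **No link, no return** from helper399's `RAll`. -/
theorem not_lrEv (hΦ : AdmissiblePotential Φ) (hε : 0 < ε)
    (hV : Valid Φ ε P T' z.1.2 z.2) (hS : Sep Φ ε P T' z.1 z.2)
    (hOk : AllOk Φ ε w (exL Φ ε P z)) (hu : u₀ ≤ T') (hT : 0 ≤ T') (hℓς : 2 * ℓ ≤ ς)
    (hNB : NoBad (Mt Φ T' ε n P) 1 ℓ ς (Zt Φ ε w z) (Lt n P) (N + N + (N + N)))
    (hRA : LNTree399.RAll Φ T' 1 ε K' N z w) : ¬ LREv Φ K' u₀ T' ε P z n w := by
  have h : TreeBind302.RAll Φ T' 1 ℓ ς N K' u₀ ε P z n w := ⟨hNB, fun x => reachAll_hor hu (hRA x)⟩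
  rintro (h1 | h1 | h1)
  · exact h.not_linkEx hΦ hε hV hS hOk hu le_rfl hℓς hT h1
  · exact h.not_retEx hΦ hε hV hS hOk hu le_rfl hℓς h1
  · exact h.not_retLn hΦ hε hV hS hOk hu le_rfl hℓς h1

/-- **No link**, root line included. -/
theorem not_linkR (hΦ : AdmissiblePotential Φ) (hε : 0 < ε)
    (hV : Valid Φ ε P T' z.1.2 z.2) (hS : Sep Φ ε P T' z.1 z.2)
    (hOk : MW.OkFam Φ ε (MW.cfg w) (lineML Φ ε P z)) (hu : u₀ ≤ T') (hT : 0 ≤ T')
    (hℓς : 2 * ℓ ≤ ς)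
    (hNB : NoBad (Mt Φ T' ε n P) 1 ℓ ς (Zt Φ ε w z) (Lt n P) (N + N + (N + N)))
    (hRA : RAllR Φ T' 1 ε K' N z w) : ¬ LinkR Φ K' u₀ ε P z n w := by
  unfold LinkR
  rw [not_not]
  have hok := MWFam255.okF_of_okFam hΦ hε hOk
  exact pairNL_tree hΦ hε hV hS (g := id) (Z := MW.cfg w) (lab := Sum.inl) (w := w) hu hT le_rfl
    hℓς Sum.inl_injective Function.injective_id (fun _ _ h => by cases h) hok.z
    (fun x => hok.line hΦ hε x) hNB (fun x => reachAll_hor hu (hRA x))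

end events

/-! ### Null events -/

section null

variable {u₀ : ℝ} {K' : ℕ} {Ht : ℕ → TEv}

/-- The excluded case `T' = 0`: no exits. -/
theorem tNull_zero (hT : T' ≤ 0) (h : ∀ ε : ℝ, 0 < ε → ∀ P (z : PhasePoint × Par P) n
    (w : Config n), P = CTree.leaf → ¬ E ε P z n w) : TNull Φ f₀ T' K E := by
  intro δ hδ
  refine ⟨1, one_pos, fun ε hε _ => ⟨fun _ _ _ _ => 0, ⟨fun _ _ => measurable_const, ?_⟩, ?_⟩⟩
  · intro P z m w _ hV _ _ hE
    exfalso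
    cases P with
    | leaf => exact h ε hε _ z m w rfl hE
    | node l r =>
      have h1 := hV.2.1
      have h2 := hV.2.2.1
      have h3 := sin_le hε.le (Φ := Φ) z.1.2 z.2.1
      linarith
  · have h1 : InEq2.TS Φ f₀ ε T' (fun P z m w => InEq2.wQ Φ ε P z * 0) = 0 := by
      simp [InEq2.TS, gcE_zero]
    rw [h1]
    exact bot_le

/-- **Links and returns of the exit lines are null.** -/
theorem lr_null (hΦ : AdmissiblePotential Φ) {γ : ℝ} (hγ : 0 < γ) (hf : Continuous f₀)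
    (H : HasSummableGaussianBound γ (fun x v => f₀ (x, v)))
    (h1 : ∫⁻ z, ENNReal.ofReal (f₀ z) ≤ 1) (hT : 0 ≤ T') (hu : u₀ ≤ T')
    (hCN : VLMeas973.ClassNull Φ T') (hok : OkNull Φ f₀ T' K) (hR : RAT Φ T' K K')
    (hH : ∀ N, TNull Φ f₀ T' K (Ht N))
    (hHd : ∀ N (ε : ℝ), 0 < ε → ∀ P (z : PhasePoint × Par P) n (w : Config n), P.leaves ≤ K →
      Valid Φ ε P T' z.1.2 z.2 → Sep Φ ε P T' z.1 z.2 → Exc Φ ε P z w →
        AllOk Φ ε w (exL Φ ε P z) → LNTree399.HitT Φ T' 1 ε N z w → Ht N ε P z n w) :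
    TNull Φ f₀ T' K (LREv Φ K' u₀ T') := by
  choose Nf hNf using hR
  refine tNull_of_det2 hΦ hγ hf H h1 hT hCN (K₂ := K') (Ht := fun L => Ht (Nf L))
    (G := fun ε P z m w => AllOk Φ ε w (exL Φ ε P z)) hok (fun L => ?_) fun L => hH _
  refine ⟨Nf L + Nf L + (Nf L + Nf L), 1, fun R hR ς hς => ⟨ς / (2 * R), by positivity,
    fun ε hε hlt P z m w hP hV hS hE hOk hev => ?_⟩⟩
  have hℓς : 2 * (R * ε) ≤ ς := by
    have h2 := (lt_div_iff₀ (by positivity : 0 < 2 * R)).1 hlt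
    linarith
  by_cases hNB : NoBad (Mt Φ T' ε m P) 1 (R * ε) ς (Zt Φ ε w z) (Lt m P)
    (Nf L + Nf L + (Nf L + Nf L))
  · rcases hNf L 1 ε (R * ε) ς le_rfl hε (by positivity) hℓς P z m w hP hV hS hE.2.1 hE.2.2 hOk
      with h3 | h3 | h3 | h3
    · exact Or.inl h3
    · exact absurd (Bind302.noBad_mono hNB (Nat.le_add_right _ _)) h3
    · exact Or.inr (Or.inr (hHd _ ε hε P z m w hP hV hS hE hOk h3))
    · exact absurd hev (not_lrEv hΦ hε hV hS hOk hu hT hℓς hNB h3)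
  · right; left
    exact LNTree399.badGas_tree hΦ hε le_rfl hV hS le_rfl hNB

/-- **Links of all lines of the tree (root line included) are null.** -/
theorem linkR_null (hΦ : AdmissiblePotential Φ) {γ : ℝ} (hγ : 0 < γ) (hf : Continuous f₀)
    (H : HasSummableGaussianBound γ (fun x v => f₀ (x, v)))
    (h1 : ∫⁻ z, ENNReal.ofReal (f₀ z) ≤ 1) (hT : 0 ≤ T') (hu : u₀ ≤ T')
    (hCN : VLMeas973.ClassNull Φ T') (hok : TNull Φ f₀ T' K (NOkR Φ)) (hR : RATR Φ T' K K')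
    (hH : ∀ N, TNull Φ f₀ T' K (Ht N))
    (hHd : ∀ N (ε : ℝ), 0 < ε → ∀ P (z : PhasePoint × Par P) n (w : Config n), P.leaves ≤ K →
      Valid Φ ε P T' z.1.2 z.2 → Sep Φ ε P T' z.1 z.2 → Exc Φ ε P z w →
        MW.OkFam Φ ε (MW.cfg w) (lineML Φ ε P z) → HitTR Φ T' 1 ε N z w → Ht N ε P z n w) :
    TNull Φ f₀ T' K (LinkR Φ K' u₀) := by
  choose Nf hNf using hR
  refine tNull_of_det2 hΦ hγ hf H h1 hT hCN (K₂ := K') (Ht := fun L => Ht (Nf L))
    (G := fun ε P z m w => MW.OkFam Φ ε (MW.cfg w) (lineML Φ ε P z)) hok (fun L => ?_) fun L => hH _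
  refine ⟨Nf L + Nf L + (Nf L + Nf L), 1, fun R hR ς hς => ⟨ς / (2 * R), by positivity,
    fun ε hε hlt P z m w hP hV hS hE hOk hev => ?_⟩⟩
  have hℓς : 2 * (R * ε) ≤ ς := by
    have h2 := (lt_div_iff₀ (by positivity : 0 < 2 * R)).1 hlt
    linarith
  by_cases hNB : NoBad (Mt Φ T' ε m P) 1 (R * ε) ς (Zt Φ ε w z) (Lt m P)
    (Nf L + Nf L + (Nf L + Nf L))
  · rcases hNf L 1 ε (R * ε) ς le_rfl hε (by positivity) hℓς P z m w hP hV hS hE.2.1 hE.2.2 hOk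
      with h3 | h3 | h3 | h3
    · exact Or.inl h3
    · exact absurd (Bind302.noBad_mono hNB (Nat.le_add_right _ _)) h3
    · exact Or.inr (Or.inr (hHd _ ε hε P z m w hP hV hS hE hOk h3))
    · exact absurd hev (not_linkR hΦ hε hV hS hOk hu hT hℓς hNB h3)
  · right; left
    exact LNTree399.badGas_tree hΦ hε le_rfl hV hS le_rfl hNB

/-- Zero horizon: no events. -/
theorem lrEv_leaf (ε : ℝ) (z : PhasePoint × Par CTree.leaf) (n : ℕ) (w : Config n) :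
    ¬ LREv Φ K' u₀ T' ε CTree.leaf z n w := by
  have hex : ∀ x : {x : Idx CTree.leaf // x ≠ root CTree.leaf}, False := fun x => x.2 rfl
  rintro (h | ⟨x, _⟩ | ⟨x, _⟩)
  · exact h fun x => (hex x).elim
  · exact hex x
  · exact hex x

/-- Deterministic input about trees (root line not included). -/
structure TreeDet (Φ : Space3 → ℝ) (T' : ℝ) (K K' : ℕ) (Ht : ℕ → TEv) : Prop where
  rat : RAT Φ T' K K'
  hit : ∀ N (ε : ℝ), 0 < ε → ∀ P (z : PhasePoint × Par P) n (w : Config n), P.leaves ≤ K →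
    Valid Φ ε P T' z.1.2 z.2 → Sep Φ ε P T' z.1 z.2 → Exc Φ ε P z w →
      AllOk Φ ε w (exL Φ ε P z) → LNTree399.HitT Φ T' 1 ε N z w → Ht N ε P z n w

/-- Deterministic input about trees (root line included). -/
structure TreeDetR (Φ : Space3 → ℝ) (T' : ℝ) (K K' : ℕ) (Ht : ℕ → TEv) : Prop where
  rat : RATR Φ T' K K'
  hit : ∀ N (ε : ℝ), 0 < ε → ∀ P (z : PhasePoint × Par P) n (w : Config n), P.leaves ≤ K →
    Valid Φ ε P T' z.1.2 z.2 → Sep Φ ε P T' z.1 z.2 → Exc Φ ε P z w →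
      MW.OkFam Φ ε (MW.cfg w) (lineML Φ ε P z) → HitTR Φ T' 1 ε N z w → Ht N ε P z n w

/-- **Links and returns are null**, every horizon `T' ≥ 0`. -/
theorem lr_null' (hΦ : AdmissiblePotential Φ) {γ : ℝ} (hγ : 0 < γ) (hf : Continuous f₀)
    (H : HasSummableGaussianBound γ (fun x v => f₀ (x, v)))
    (h1 : ∫⁻ z, ENNReal.ofReal (f₀ z) ≤ 1) (hT : 0 ≤ T') (hu : u₀ ≤ T')
    (hCN : 0 < T' → VLMeas973.ClassNull Φ T') (hok : OkNull Φ f₀ T' K)
    (hD : 0 < T' → TreeDet Φ T' K K' Ht) (hH : ∀ N, TNull Φ f₀ T' K (Ht N)) :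
    TNull Φ f₀ T' K (LREv Φ K' u₀ T') := by
  rcases hT.eq_or_lt with h | h
  · refine tNull_zero h.symm.le ?_
    rintro ε - P z n w rfl
    exact lrEv_leaf ε z n w
  · exact lr_null hΦ hγ hf H h1 hT hu (hCN h) hok (hD h).rat hH (hD h).hit

/-- **`LinkNull`.** -/
theorem linkNull (hΦ : AdmissiblePotential Φ) {γ : ℝ} (hγ : 0 < γ) (hf : Continuous f₀)
    (H : HasSummableGaussianBound γ (fun x v => f₀ (x, v)))
    (h1 : ∫⁻ z, ENNReal.ofReal (f₀ z) ≤ 1) (hT : 0 ≤ T') (hu : u₀ ≤ T')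
    (hCN : 0 < T' → VLMeas973.ClassNull Φ T') (hok : OkNull Φ f₀ T' K)
    (hD : 0 < T' → TreeDet Φ T' K K' Ht) (hH : ∀ N, TNull Φ f₀ T' K (Ht N)) :
    LinkNull Φ f₀ u₀ T' K K' :=
  tNull_mono (lr_null' hΦ hγ hf H h1 hT hu hCN hok hD hH) fun _ _ _ _ _ h => Or.inl h

/-- **`RetNullT`.** -/
theorem retNullT (hΦ : AdmissiblePotential Φ) {γ : ℝ} (hγ : 0 < γ) (hf : Continuous f₀)
    (H : HasSummableGaussianBound γ (fun x v => f₀ (x, v)))
    (h1 : ∫⁻ z, ENNReal.ofReal (f₀ z) ≤ 1) (hT : 0 ≤ T') (hu : u₀ ≤ T')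
    (hCN : 0 < T' → VLMeas973.ClassNull Φ T') (hok : OkNull Φ f₀ T' K)
    (hD : 0 < T' → TreeDet Φ T' K K' Ht) (hH : ∀ N, TNull Φ f₀ T' K (Ht N)) :
    RetNullT Φ f₀ u₀ T' K K' :=
  tNull_mono (lr_null' hΦ hγ hf H h1 hT hu hCN hok hD hH) fun _ _ _ _ _ h => Or.inr h

end null

end Crest.Agent.R122.TreeGate2302

end
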