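import Crest.Agent.R122.TreeLimX_974
import Crest.Agent.R122.GIVChild_383
import Crest.Agent.R122.RtG_302

/-!
# Small sets of tree parameters (row 122), helper302

* `tendsto_tree_small` : if for almost every `(v, p)` the sets `B ε` of valid trees are eventually
  avoided by all `((x, v), p)`, then `∫ 1_{B ε} wt ∏ k(lines) → 0`.
* `wQ_mul_pf_le` : `wQ * pf` is at most a constant times a product of weighted initial densities.
* `tendsto_TS_small` : the same for `TS` with the energy weight, at most `K` leaves.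
* `sepNull` : valid trees which are not separated have small mass.
-/

set_option autoImplicit false

open MeasureTheory Set Filter
open scoped ENNReal Topology Classical
open Crest.AnalysisR.Kinetic Crest.Agent.R122.Kin796 Crest.Agent.R122.Disc416
  Crest.Agent.R122.Tree674 Crest.Agent.R122.TreeEps399 Crest.Agent.R122.TreeDom974
  Crest.Agent.R122.TreeLim974 Crest.Agent.R122.TreeLimX974 Crest.Agent.R122.InEq2
  Crest.Agent.R122.ToTree335 Crest.Agent.R122.GC311 Crest.Agent.R122.Relabel674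
  Crest.Agent.R122.TreeBound335

noncomputable section

namespace Crest.Agent.R122.Small302

open CTree

variable {Φ : Space3 → ℝ}

/-- **Small sets of tree parameters.** -/
theorem tendsto_tree_small (hΦ : AdmissiblePotential Φ) {k : PhasePoint → ℝ≥0∞}
    {m : Space3 → ℝ≥0∞} {C b : ℝ} (hk : Measurable k) (hkb : KB k m C b) (P : CTree) (T : ℝ)
    {B : ℝ → Set (PhasePoint × Par P)} (hBm : ∀ ε, 0 < ε → MeasurableSet (B ε))
    (hBV : ∀ ε, 0 < ε → ∀ z ∈ B ε, Valid Φ ε P T z.1.2 z.2)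
    (hev : ∀ᵐ q : Space3 × Par P, Valid Φ 0 P T q.1 q.2 → Gen Φ P (0, q.1) q.2 →
      ∀ᶠ ε in L, ∀ x : Space3, ((x, q.1), q.2) ∉ B ε) :
    Tendsto (fun ε => ∫⁻ z, (B ε).indicator (tA Φ k ε P) z) L (𝓝 0) := by
  obtain ⟨C', hC', hdom⟩ := lintegral_gX_le hΦ hkb P T
  have hpos : ∀ᶠ ε : ℝ in L, 0 < ε := eventually_pos
  have hm : ∀ ε, 0 < ε → Measurable ((B ε).indicator (tA Φ k ε P)) := by
    intro ε hε
    have h1 := measurable_ind_tA hΦ hk ε P (S := B ε) (fun z hz => (hBV ε hε z hz).1)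
      (G := fun _ => 1) (measurable_const.indicator (hBm ε hε))
    simpa using h1
  have hsplit : ∀ᶠ ε in L, ∫⁻ q : Space3 × Par P, ∫⁻ x : Space3,
      (B ε).indicator (tA Φ k ε P) ((x, q.1), q.2) = ∫⁻ z, (B ε).indicator (tA Φ k ε P) z := by
    filter_upwards [hpos] with ε hε
    exact (lintegral_split P (hm ε hε)).symm
  refine Tendsto.congr' hsplit ?_
  have h0 : (0 : ℝ≥0∞) = ∫⁻ _q : Space3 × Par P, (0 : ℝ≥0∞) := by simp
  rw [h0]
  refine tendsto_lintegral_filter_of_dominated_convergence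
    (fun q => domG C' (b / 2) T P q.1 q.2 * ∫⁻ x, m x) ?_ ?_ ?_ ?_
  · filter_upwards [hpos] with ε hε
    have : Measurable (Function.uncurry fun (q : Space3 × Par P) (x : Space3) =>
        (B ε).indicator (tA Φ k ε P) ((x, q.1), q.2)) :=
      (hm ε hε).comp (by fun_prop : Measurable fun y : (Space3 × Par P) × Space3 =>
        (((y.2, y.1.1), y.1.2) : PhasePoint × Par P))
    exact this.lintegral_prod_right'
  · filter_upwards [hpos] with ε hε
    refine Eventually.of_forall fun q => ?_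
    by_cases hV : Valid Φ ε P T q.1 q.2
    · exact (lintegral_mono fun x => indicator_le_self _ _ _).trans (hdom ε hε.le q hV)
    · have : ∀ x : Space3, (B ε).indicator (tA Φ k ε P) ((x, q.1), q.2) = 0 := fun x =>
        indicator_of_notMem (fun h => hV (hBV ε hε _ h)) _
      simp only [this, lintegral_zero]
      exact bot_le
  · rw [lintegral_mul_const _ (measurable_domG hC' (b / 2) T P)]
    exact ENNReal.mul_ne_top (lintegral_domG_ne_top hC' (half_pos hkb.b0) T P) hkb.fin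
  · filter_upwards [hev, gen_ae_q hΦ P T] with q hq1 hq2
    refine Tendsto.congr' ?_ tendsto_const_nhds
    by_cases hV : Valid Φ 0 P T q.1 q.2
    · filter_upwards [hq1 hV (hq2 hV)] with ε hε
      have : ∀ x : Space3, (B ε).indicator (tA Φ k ε P) ((x, q.1), q.2) = 0 := fun x =>
        indicator_of_notMem (hε x) _
      simp only [this, lintegral_zero]
    · filter_upwards [hpos] with ε hε
      have : ∀ x : Space3, (B ε).indicator (tA Φ k ε P) ((x, q.1), q.2) = 0 := fun x =>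
        indicator_of_notMem (fun h => hV (valid_zero hε.le (hBV ε hε _ h))) _
      simp only [this, lintegral_zero]

/-! ### The energy weight -/

theorem wQ_mul_pf_le {f₀ : PhasePoint → ℝ} {κ : ℝ} (hκ : 0 < κ) (ε : ℝ) {P : CTree}
    {z : PhasePoint × Par P} (h : Adm Φ P z.1.2 z.2) :
    wQ Φ ε P z * pf Φ f₀ ε P z ≤ ENNReal.ofReal (Fintype.card (Idx P) + 1 / κ) *
      ∏ i, kE f₀ κ (lines Φ ε P z.1 z.2 i) := by
  rw [wQ_eq h]
  unfold pf kE
  rw [Finset.prod_mul_distrib, ← mul_assoc]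
  refine mul_le_mul' ?_ le_rfl
  rw [← ENNReal.ofReal_prod_of_nonneg fun i _ => (Real.exp_nonneg _), ← Real.exp_sum,
    ← Finset.mul_sum, ← ENNReal.ofReal_sum_of_nonneg fun i _ => by positivity,
    ← ENNReal.ofReal_mul (by positivity)]
  refine ENNReal.ofReal_le_ofReal ?_
  set S : ℝ := ∑ i, ‖(lines Φ ε P z.1 z.2 i).2‖ ^ 2 with hS
  have hS0 : 0 ≤ S := Finset.sum_nonneg fun i _ => by positivity
  have h1 : ∑ i, (1 + ‖(lines Φ ε P z.1 z.2 i).2‖ ^ 2) = Fintype.card (Idx P) + S := by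
    rw [Finset.sum_add_distrib, Finset.sum_const, Finset.card_univ, nsmul_eq_mul, mul_one]
  rw [h1, add_mul]
  have h2 : κ * S ≤ Real.exp (κ * S) := by
    have := Real.add_one_le_exp (κ * S)
    linarith
  have h3 : (1 : ℝ) ≤ Real.exp (κ * S) := by
    rw [Real.one_le_exp_iff]; positivity
  refine add_le_add ?_ ?_
  · exact le_mul_of_one_le_right (Nat.cast_nonneg _) h3
  · rw [div_mul_eq_mul_div, one_mul, le_div_iff₀ hκ]
    linarith

/-- Small sets of tree parameters, energy weight. -/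
theorem tendsto_pf_small (hΦ : AdmissiblePotential Φ) {f₀ : PhasePoint → ℝ} {γ : ℝ}
    (hγ : 0 < γ) (hf : Continuous f₀) (H : HasSummableGaussianBound γ (fun x v => f₀ (x, v)))
    (P : CTree) (T : ℝ) {B : ℝ → Set (PhasePoint × Par P)}
    (hBm : ∀ ε, 0 < ε → MeasurableSet (B ε))
    (hBV : ∀ ε, 0 < ε → ∀ z ∈ B ε, Valid Φ ε P T z.1.2 z.2)
    (hev : ∀ᵐ q : Space3 × Par P, Valid Φ 0 P T q.1 q.2 → Gen Φ P (0, q.1) q.2 →
      ∀ᶠ ε in L, ∀ x : Space3, ((x, q.1), q.2) ∉ B ε) :
    Tendsto (fun ε => ∫⁻ z, (B ε).indicator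
      (fun z => wt Φ P z.1.2 z.2 * (wQ Φ ε P z * pf Φ f₀ ε P z)) z) L (𝓝 0) := by
  obtain ⟨m, C, hkb⟩ := exists_kb (κ := γ / 2) (half_lt_self hγ) H
  have hk : Measurable (kE f₀ (γ / 2)) := (continuous_kE hf _).measurable
  have h1 := tendsto_tree_small hΦ hk hkb P T hBm hBV hev
  have h2 := ENNReal.Tendsto.const_mul
    (a := ENNReal.ofReal (Fintype.card (Idx P) + 1 / (γ / 2))) h1
    (Or.inr ENNReal.ofReal_ne_top)
  rw [mul_zero] at h2
  refine tendsto_of_tendsto_of_tendsto_of_le_of_le' tendsto_const_nhds h2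
    (Eventually.of_forall fun _ => bot_le) ?_
  have hpos : ∀ᶠ ε : ℝ in L, 0 < ε := eventually_pos
  filter_upwards [hpos] with ε hε
  rw [← lintegral_const_mul' _ _ ENNReal.ofReal_ne_top]
  refine lintegral_mono fun z => ?_
  by_cases hz : z ∈ B ε
  · rw [indicator_of_mem hz, indicator_of_mem hz]
    unfold tA
    calc wt Φ P z.1.2 z.2 * (wQ Φ ε P z * pf Φ f₀ ε P z)
        ≤ wt Φ P z.1.2 z.2 * (ENNReal.ofReal (Fintype.card (Idx P) + 1 / (γ / 2)) *
          ∏ i, kE f₀ (γ / 2) (lines Φ ε P z.1 z.2 i)) :=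
          mul_le_mul_right (wQ_mul_pf_le (half_pos hγ) ε (hBV ε hε z hz).1) _
      _ = _ := by ring
  · rw [indicator_of_notMem hz, indicator_of_notMem hz, mul_zero]

/-! ### Sums over trees -/

theorem wQ_ne_top {ε : ℝ} {P : CTree} (z : PhasePoint × Par P) : wQ Φ ε P z ≠ ∞ := by
  unfold wQ
  exact (ENNReal.sum_lt_top.2 fun i _ => ENNReal.ofReal_lt_top).ne

/-- Indicator of a set of tree parameters, at most `K` leaves. -/
def setG (K : ℕ) (B : (P : CTree) → Set (PhasePoint × Par P)) (P : CTree)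
    (z : PhasePoint × Par P) (m : ℕ) (_w : Config m) : ℝ≥0∞ :=
  if P.leaves ≤ K ∧ z ∈ B P then 1 else 0

theorem measTS_setG {K : ℕ} {B : (P : CTree) → Set (PhasePoint × Par P)}
    (hB : ∀ P, MeasurableSet (B P)) : MeasTS (setG K B) := by
  intro P m
  unfold setG
  by_cases hP : P.leaves ≤ K
  · simp only [hP, true_and]
    exact Measurable.ite (measurable_fst (hB P)) measurable_const measurable_const
  · simp only [hP, false_and, if_false]
    exact measurable_const

/-- **Small sets in `TS`.** -/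
theorem tendsto_TS_small (hΦ : AdmissiblePotential Φ) {f₀ : PhasePoint → ℝ} {γ : ℝ}
    (hγ : 0 < γ) (hf : Continuous f₀) (H : HasSummableGaussianBound γ (fun x v => f₀ (x, v)))
    (h1 : ∫⁻ z, ENNReal.ofReal (f₀ z) ≤ 1) (K : ℕ) (T : ℝ)
    {B : ℝ → (P : CTree) → Set (PhasePoint × Par P)}
    (hBm : ∀ ε, 0 < ε → ∀ P, MeasurableSet (B ε P))
    (hBV : ∀ ε, 0 < ε → ∀ P, ∀ z ∈ B ε P, Valid Φ ε P T z.1.2 z.2)
    (hev : ∀ P, ∀ᵐ q : Space3 × Par P, Valid Φ 0 P T q.1 q.2 → Gen Φ P (0, q.1) q.2 →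
      ∀ᶠ ε in L, ∀ x : Space3, ((x, q.1), q.2) ∉ B ε P) :
    Tendsto (fun ε => TS Φ f₀ ε T (fun P z m w => wQ Φ ε P z * setG K (B ε) P z m w)) L
      (𝓝 0) := by
  have hlim : Tendsto (fun ε => ∑ P ∈ GIVStep383.trees K, ∫⁻ z, (B ε P).indicator
      (fun z => wt Φ P z.1.2 z.2 * (wQ Φ ε P z * pf Φ f₀ ε P z)) z) L (𝓝 0) := by
    have := tendsto_finsetSum (GIVStep383.trees K) fun P _ =>
      tendsto_pf_small hΦ hγ hf H P T (fun ε hε => hBm ε hε P) (fun ε hε => hBV ε hε P) (hev P)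
    simpa using this
  refine tendsto_of_tendsto_of_tendsto_of_le_of_le' tendsto_const_nhds hlim
    (Eventually.of_forall fun _ => bot_le) ?_
  have hpos : ∀ᶠ ε : ℝ in L, 0 < ε := eventually_pos
  filter_upwards [hpos] with ε hε
  unfold InEq2.TS
  rw [tsum_eq_sum (s := GIVStep383.trees K)]
  · refine Finset.sum_le_sum fun P _ => lintegral_mono fun z => ?_
    by_cases hz : z ∈ {z : PhasePoint × Par P | Valid Φ ε P T z.1.2 z.2}
    · rw [indicator_of_mem hz]
      by_cases hzB : z ∈ B ε P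
      · rw [indicator_of_mem hzB]
        refine mul_le_mul_right ?_ _
        rw [mul_comm]
        refine mul_le_mul_left ?_ _
        refine le_trans (gcE_mono f₀ ε (G := fun _ _ => wQ Φ ε P z) fun m w _ => ?_)
          ?_
        · show wQ Φ ε P z * (if P.leaves ≤ K ∧ z ∈ B ε P then 1 else 0) ≤ wQ Φ ε P z
          split_ifs
          · rw [mul_one]
          · rw [mul_zero]; exact bot_le
        · rw [gcE_const f₀ ε hf.measurable h1 (wQ_ne_top z)]
      · have h0 : (fun (m : ℕ) (w : Config m) => wQ Φ ε P z * setG K (B ε) P z m w) =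
            fun _ _ => 0 := by
          funext m w
          unfold setG
          rw [if_neg fun h => hzB h.2, mul_zero]
        rw [h0, gcE_zero, mul_zero, mul_zero]
        exact bot_le
    · rw [indicator_of_notMem hz]
      exact bot_le
  · intro P hP
    have hP' : ¬ P.leaves ≤ K := fun h => hP (GIVStep383.mem_trees.2 h)
    have h0 : ∀ z, (fun (m : ℕ) (w : Config m) => wQ Φ ε P z * setG K (B ε) P z m w) =
        fun _ _ => 0 := by
      intro z
      funext m w
      unfold setG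
      rw [if_neg fun h => hP' h.1, mul_zero]
    simp only [h0, gcE_zero, mul_zero, indicator_zero, lintegral_zero]

/-! ### Trees which are not separated -/

/-- Valid trees which are not separated. -/
def nsep (Φ : Space3 → ℝ) (T : ℝ) (ε : ℝ) (P : CTree) : Set (PhasePoint × Par P) :=
  {z | Valid Φ ε P T z.1.2 z.2 ∧ ¬ Sep Φ ε P T z.1 z.2}

theorem measurableSet_nsep (hΦ : AdmissiblePotential Φ) (T : ℝ) {ε : ℝ} (hε : 0 < ε)
    (P : CTree) : MeasurableSet (nsep Φ T ε P) := by
  have h1 : nsep Φ T ε P = {z : PhasePoint × Par P | Valid Φ ε P T z.1.2 z.2} \ goodS Φ ε P T := by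
    ext z
    exact ⟨fun h => ⟨h.1, fun h' => h.2 h'.2⟩, fun h => ⟨h.1, fun h' => h.2 ⟨h.1, h'⟩⟩⟩
  rw [h1]
  exact (measurableSet_valid hΦ ε P T).diff (measurableSet_goodS hΦ hε P T)

/-- **Non-separated trees are null.** -/
theorem sepNull (hΦ : AdmissiblePotential Φ) {f₀ : PhasePoint → ℝ} {γ : ℝ}
    (hγ : 0 < γ) (hf : Continuous f₀) (H : HasSummableGaussianBound γ (fun x v => f₀ (x, v)))
    (h1 : ∫⁻ z, ENNReal.ofReal (f₀ z) ≤ 1) (K : ℕ) (T : ℝ) :
    Tendsto (fun ε => TS Φ f₀ ε T (fun P z m w => wQ Φ ε P z * setG K (nsep Φ T ε) P z m w)) L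
      (𝓝 0) :=
  tendsto_TS_small hΦ hγ hf H h1 K T (fun ε hε P => measurableSet_nsep hΦ T hε P)
    (fun ε _ P z hz => hz.1) fun P => Eventually.of_forall fun q hV hG => by
      filter_upwards [Hid424.eventually_good hΦ hV hG] with ε hε x hx
      exact hx.2 (hε.2.2 x)

/-! ### Mecke'd majorants -/






end Crest.Agent.R122.Small302
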