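import Crest.Agent.R122.LN2Main_473

/-!
# Row 122, LN2 at gas level, uniform in the horizon and in the birth law (helper473)

* `TLW` : tree-likeness without separation of the contact times from the horizon; `BadPartW`,
  `BadGasW` : the bad partitions with `TLW`. They are monotone in the horizon
  (`badPart_of_hor`): a bad partition at the horizon `t ≤ T` is one at the horizon `T`.
* `ln2_gas_hor` : `ln2_gas` with majorants which are independent of the horizon `t ∈ [0, T]` and of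
  the law `Λ` of the births (mass at most `L`).
-/

set_option autoImplicit false
set_option linter.unusedSectionVars false
open MeasureTheory Set
open scoped Classical ENNReal
open Crest.AnalysisR.Kinetic
noncomputable section

namespace Crest.Agent.R122.LN2

open Crest.Agent.R122.GC311 Crest.Agent.R122.Kin796
open Crest.Agent.R122.VL581 Crest.Agent.R122.LinkGas473 Crest.Agent.R122.VLMeas973

section hor

variable {J κ' : Type} [Fintype J]

/-- The system with horizon `t`. -/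
def atT (M : VSys J κ') (t : ℝ) : VSys J κ' := { M with T := t }

/-- Tree-like without separation from the horizon (births of the part only). -/
def TLW (M : VSys J κ') (C ℓ ς : ℝ) (P : Finset J) (Z : J → PhasePoint) : Prop :=
  (∀ A ⊆ P, M.ok A M.T Z) ∧
  ∃ (E : Finset (J × J)) (σ : J × J → ℝ), E.card + 1 = P.card ∧
    (∀ e ∈ E, e.1 ∈ P ∧ e.2 ∈ P ∧ e.1 ≠ e.2) ∧
    (∀ e ∈ E, ς < σ e) ∧
    (∀ e ∈ E, ∀ i ∈ P, ς < |σ e - M.b i|) ∧
    (∀ e ∈ E, ∀ e' ∈ E, e ≠ e' → ς < |σ e - σ e'|) ∧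
    (∀ i ∈ P, ∀ j ∈ P, i ≠ j → ∀ t ∈ Icc 0 M.T, M.VCt C P i j t Z →
      ∃ e ∈ E, (e = (i, j) ∨ e = (j, i)) ∧ |t - σ e| ≤ ℓ)

theorem TLW.of_tlp {M : VSys J κ'} {C ℓ ς : ℝ} {P : Finset J} {Z : J → PhasePoint}
    (h : TLP M C ℓ ς P Z) : TLW M C ℓ ς P Z := by
  obtain ⟨h1, E, σ, h2, h3, h4, h5, h6, h7⟩ := h
  exact ⟨h1, E, σ, h2, h3, fun e he => (h4 e he).1, h5, h6, h7⟩


/-- Bad partition with `TLW`. -/
def BadPartW (M : VSys J κ') (C ℓ ς : ℝ) (s : ℕ) (A : Finset J) (Z : J → PhasePoint) : Prop :=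
  ∃ π : Finpartition (Finset.univ : Finset J),
    (∀ P ∈ π.parts, M.Conn C P Z ∧ ∃ x ∈ P, x ∈ A) ∧
    (π.parts.card < s ∨ (π.parts.card = s ∧ ∃ P ∈ π.parts, ¬ TLW M C ℓ ς P Z))

theorem BadPartW.badPart {M : VSys J κ'} {C ℓ ς : ℝ} {s : ℕ} {A : Finset J}
    {Z : J → PhasePoint} (h : BadPartW M C ℓ ς s A Z) : M.BadPart C ℓ ς s A Z := by
  obtain ⟨π, h1, h2⟩ := h
  refine ⟨π, h1, h2.imp_right ?_⟩
  rintro ⟨h3, P, hP, h4⟩
  exact ⟨h3, P, hP, fun h5 => h4 (TLW.of_tlp h5)⟩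

/-! ### Change of the horizon -/



theorem ok_mono {M : VSys J κ'} {A : Finset J} {s t : ℝ} (hst : s ≤ t) {Z : J → PhasePoint}
    (h : M.ok A t Z) : M.ok A s Z :=
  fun i hi hio hit j hj hjo hji hbb => h i hi hio (hit.trans_le hst) j hj hjo hji hbb

theorem vct_atT {M : VSys J κ'} {t : ℝ} (htT : t ≤ M.T) {C : ℝ} {P : Finset J} {i j : J} {s : ℝ}
    (hs : s ∈ Icc 0 t) {Z : J → PhasePoint} : (atT M t).VCt C P i j s Z ↔ M.VCt C P i j s Z := by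
  have h1 : min s t = min s M.T := by
    rw [min_eq_left hs.2, min_eq_left (hs.2.trans htT)]
  have hpos : ∀ (A : Finset J) (k : κ') (x : J), (atT M t).pos A k s Z x = M.pos A k s Z x := by
    intro A k x
    show (if M.o = some x then (Z x).1 + M.S.c k (max 0 (min s t)) else (M.st A s Z x).1) = _
    rw [h1]
    rfl
  unfold VSys.VCt VSys.Ct
  simp only [hpos]
  exact Iff.rfl

theorem conn_of_hor {M : VSys J κ'} {t : ℝ} (htT : t ≤ M.T) {C : ℝ} {P : Finset J}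
    {Z : J → PhasePoint} (h : (atT M t).Conn C P Z) : M.Conn C P Z := by
  refine ⟨h.1, fun Q hQ hQn hQP => ?_⟩
  obtain ⟨i, hi, j, hj, s, hs, hc⟩ := h.2 Q hQ hQn hQP
  exact ⟨i, hi, j, hj, s, ⟨hs.1, hs.2.trans htT⟩, (vct_atT htT hs).1 hc⟩

theorem tlw_hor {M : VSys J κ'} {t : ℝ} (htT : t ≤ M.T) {C ℓ ς : ℝ} {P : Finset J}
    {Z : J → PhasePoint} (h : TLW M C ℓ ς P Z) : TLW (atT M t) C ℓ ς P Z := by
  obtain ⟨h1, E, σ, h2, h3, h4, h5, h6, h7⟩ := h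
  refine ⟨fun A hA => ok_mono htT (h1 A hA), E, σ, h2, h3, h4, h5, h6,
    fun i hi j hj hij s hs hv => ?_⟩
  exact h7 i hi j hj hij s ⟨hs.1, hs.2.trans htT⟩ ((vct_atT htT hs).1 hv)

/-- A bad partition at the horizon `t ≤ T` is a bad partition at the horizon `T`. -/
theorem badPartW_of_hor {M : VSys J κ'} {t : ℝ} (htT : t ≤ M.T) {C ℓ ς : ℝ} {s : ℕ}
    {A : Finset J} {Z : J → PhasePoint} (h : BadPartW (atT M t) C ℓ ς s A Z) :
    BadPartW M C ℓ ς s A Z := by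
  obtain ⟨π, h1, h2⟩ := h
  refine ⟨π, fun P hP => ⟨conn_of_hor htT (h1 P hP).1, (h1 P hP).2⟩, h2.imp_right ?_⟩
  rintro ⟨h3, P, hP, h4⟩
  exact ⟨h3, P, hP, fun h5 => h4 (tlw_hor htT h5)⟩

end hor

variable {Φ : Space3 → ℝ} {f₀ : PhasePoint → ℝ} {T γ : ℝ} {ρ : Space3 → ℝ≥0∞} {C₀ : ℝ≥0∞}
variable {κ : Type} [Fintype κ]

/-- `BadGas` with `TLW`. -/
def BadGasW (Φ : Space3 → ℝ) (T C R ς ε : ℝ) (N s : ℕ) (A₀ : Finset κ) (b : κ → ℝ)
    (z : κ → PhasePoint) {n : ℕ} (w : Config n) : Prop :=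
  ∃ k ≤ N, ∃ ι : Fin k ↪ Fin n, BadPartW (VLMeas973.vsys Φ T ε (bS k b)) C (R * ε) ς s (anch k A₀)
    (Sum.elim (fun i => w (ι i)) z)

theorem BadGasW.badGas {C R ς ε : ℝ} {N s : ℕ} {A₀ : Finset κ} {b : κ → ℝ} {z : κ → PhasePoint}
    {n : ℕ} {w : Config n} (h : BadGasW Φ T C R ς ε N s A₀ b z w) :
    BadGas Φ T C R ς ε N s A₀ b z w := by
  obtain ⟨k, hk, ι, h⟩ := h
  exact ⟨k, hk, ι, h.badPart⟩

/-- `BadGasW` is monotone in the horizon. -/
theorem badGasW_hor {t C R ς ε : ℝ} (htT : t ≤ T) {N s : ℕ} {A₀ : Finset κ} {b : κ → ℝ}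
    {z : κ → PhasePoint} {n : ℕ} {w : Config n} (h : BadGasW Φ t C R ς ε N s A₀ b z w) :
    BadGasW Φ T C R ς ε N s A₀ b z w := by
  obtain ⟨k, hk, ι, h⟩ := h
  exact ⟨k, hk, ι, badPartW_of_hor (M := VLMeas973.vsys Φ T ε (bS k b)) htT h⟩


end Crest.Agent.R122.LN2
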