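import Crest.Agent.R122.TreeOwn_335
import Crest.Agent.R122.RtGDet_302
import Crest.Agent.R122.InEq2Defs_311
import Crest.Agent.R122.H5Defs_994
import Crest.Agent.R122.EFam_879
import Crest.Agent.R122.MWFam2_255

-- ▼ part R122/InEq2TDet_335
section

/-!
# Row 122, INEQUALITY 2', touched half (helper335): the deterministic bound

* `cut_of_hTreeP` : helper311's history `HTreeP` gives helper302's `Cut` at every earlier time.
* `exists_exit_touch` : if the cluster `V` (a tree up to `σ-`) has touched the gas `w` before `σ`,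
  then an exit line of the tree touches `w` by the time `thV`.
* `wm_touched_le` : the weight at `σ` is at most the sum over the exit lines of `phi1 + phi2`, plus
  the link term.
-/

set_option autoImplicit false
set_option linter.unusedSectionVars false

open MeasureTheory Set Filter Topology
open scoped ENNReal
open Crest.AnalysisR.Kinetic
open Crest.Agent.R122.Flow671 Crest.Agent.R122.Causal291 Crest.Agent.R122.Loc45
open Crest.Agent.R122.Inf879 Crest.Agent.R122.GC311 Crest.Agent.R122.EDefs602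
open Crest.Agent.R122.InEq2 Crest.Agent.R122.EBasic602 Crest.Agent.R122.MWAlg255
open Crest.Agent.R122.Kin796 Crest.Agent.R122.Kin796.CTree Crest.Agent.R122.Tree674
open Crest.Agent.R122.PathFlow968 Crest.Agent.R122.TreeLines335
open Crest.Agent.R122.RtG302 Crest.Agent.R122.Weight984

namespace Crest.Agent.R122.InEq2T

noncomputable section

open scoped Classical

section det

variable {Φ : Space3 → ℝ} {ε : ℝ} {k m K : ℕ} {V : Config k} {w : Config m} {P : CTree}
  {z : PhasePoint × Par P} {T' σ v te tw : ℝ}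

theorem cut_of_hTreeP {κ : Type} [Fintype κ] {Z : κ → PhasePoint} {i : κ} {e : Idx P → κ}
    (h : HTreeP Φ ε T' σ Z i P z.1 z.2 e) (hv : v < σ) : Cut Φ ε T' v Z P z e where
  inj := h.inj
  agree k s h0 hs hk := h.agree k s h0 (hs.trans_lt hv) hk
  avoid s hs k hk j hj := by
    have hsσ : s < σ := hs.2.trans_lt hv
    by_contra hno
    push Not at hno
    have hk' : e k ∈ pre (Ct (pth Φ ε Z) ε) i σ s := (h.past s hs.1 hsσ (e k)).2 ⟨k, rfl, hk⟩
    obtain ⟨r, hr, hp⟩ := hk'
    have hc : Ct (pth Φ ε Z) ε s (e k) j := by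
      unfold Ct
      rw [h.agree k s hs.1 hsσ hk]
      exact hno
    have hj' : j ∈ pre (Ct (pth Φ ε Z) ε) i σ s := ⟨r, hr, hp.contact hc⟩
    obtain ⟨m', hm', hm2⟩ := (h.past s hs.1 hsσ j).1 hj'
    exact absurd (hj m' hm') (not_lt.2 hm2)

theorem gasP_append (V : Config k) (w : Config m) :
    gasP (Fin.append V w : Config (k + m)) (Fin.natAdd k) = w := by
  funext i
  simp [gasP]

theorem shadowS_of_cut (hΦ : AdmissiblePotential Φ) (hε : 0 < ε) (hT : 0 ≤ T')
    (hV : Valid Φ ε P T' z.1.2 z.2) (hvT : v ≤ T')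
    (hX : (Fin.append V w : Config (k + m)) ∈ PairExcluded ε (k + m)) (e : Idx P ≃ Fin k)
    (h : Cut Φ ε T' v (Fin.append V w) P z (Fin.castAdd m ∘ e)) :
    ShadowS Φ ε (treeStr Φ ε P T' z hε hT hV) v (Fin.append V w) (Fin.castAdd m ∘ e)
      (Fin.natAdd k) where
  toShadow := h.shadow hΦ hε hT hV hvT (pairExcluded_subset_Dom hε _ hX) e
  isoS s hs x hx q hq := by
    rw [h.agree x s hs.1 hs.2.le hx]
    exact h.avoid s ⟨hs.1, hs.2.le⟩ x hx q hq
  excl i j hij := hX i j hij

/-- **The exit lines carry the touch of the cluster.** -/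
theorem exists_exit_touch (hΦ : AdmissiblePotential Φ) (hε : 0 < ε) (hT : 0 ≤ T')
    (hX : (Fin.append V w : Config (k + m)) ∈ PairExcluded ε (k + m))
    (hw : w ∈ PairExcluded ε m) (e : Idx P ≃ Fin k) {i : Fin (k + m)}
    (h : HTreeP Φ ε T' σ (Fin.append V w : Config (k + m)) i P z.1 z.2 (Fin.castAdd m ∘ e))
    (hK : P.leaves ≤ K) (hσte : σ ≤ te) (hteT : te ≤ T')
    (hOk : AllOk Φ ε w (exL Φ ε P z)) (hL : ¬ LinkEx Φ ε K te w (exL Φ ε P z))
    {s : ℝ} (hs : s < σ) (ht : TchV Φ ε K V w s) :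
    ∃ x, (MW.cfg w).thetaL Φ ε K te (exL Φ ε P z x) ≤ thV Φ ε K te V w := by
  have h0 : 0 ≤ s := tchV_nonneg hΦ hε ht
  have hte : 0 ≤ te := (h0.trans hs.le).trans hσte
  set θ := thV Φ ε K te V w with hθ
  have hθs : θ ≤ s := thV_le_of_tchV hΦ hε hw hX ⟨h0, hs.le.trans hσte⟩ ht
  have hθ0 : 0 ≤ θ := MW.theta_nonneg hte
  have hθσ : θ < σ := hθs.trans_lt hs
  obtain ⟨v, hv1, hv2⟩ := exists_between hθσ
  have hvT : v ≤ T' := (hv2.le.trans hσte).trans hteT
  have hcut := cut_of_hTreeP h hv2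
  have hS := shadowS_of_cut hΦ hε hT h.valid hvT hX e hcut
  have hOk' : ((treeStr Φ ε P T' z hε hT h.valid).wL v
      (gasP (Fin.append V w : Config (k + m)) (Fin.natAdd k))).Ok Φ ε := by
    rw [gasP_append]
    exact hOk _
  have htθ : TchV Φ ε K V w θ :=
    (tchV_iff_thV hΦ hε hw hX ⟨hθ0, (hθσ.le.trans hσte)⟩).2 le_rfl
  have hK' : Fintype.card (Idx P) ≤ K := by rw [card_idx]; exact hK
  have hmk : ∀ x ∈ (treeStr Φ ε P T' z hε hT h.valid).born v,
      (BC (Ct (pth Φ ε (Fin.append V w : Config (k + m))) ε)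
        ((treeStr Φ ε P T' z hε hT h.valid).σ ((treeStr Φ ε P T' z hε hT h.valid).j x))
        ((Fin.castAdd m ∘ e) ((treeStr Φ ε P T' z hε hT h.valid).j x))).ncard ≤
      ((treeStr Φ ε P T' z hε hT h.valid).ls x).2 := by
    intro x hx
    have hx' : prot P T' z.2 x.1 < v := Str.mem_born.1 hx
    exact own_card hΦ hε hT h.valid h.sep hvT hS x.2 hx'
  have ht' : Causal291.Touched
      (pth Φ ε (gasP (Fin.append V w : Config (k + m)) (Fin.natAdd k)))
      (pth Φ ε (Fin.append V w : Config (k + m))) (Fin.natAdd k) ε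
      (fun s l => K < (BC (Ct (pth Φ ε
        (gasP (Fin.append V w : Config (k + m)) (Fin.natAdd k))) ε) s l).ncard)
      (fun s j => K < (BC (Ct (pth Φ ε (Fin.append V w : Config (k + m))) ε) s j).ncard) θ := by
    rw [gasP_append]
    unfold TchV at htθ
    simp only [gInf_iff] at htθ
    exact htθ
  have htt := hS.touched_exits hΦ hε (hθ0.trans hv1.le) hOk' hmk hK' hv1 ht'
  rw [gasP_append] at htt
  rcases exists_touch hΦ hε hOk ⟨hθ0, hθσ.le.trans hσte⟩ htt with ⟨x, _, hx⟩ | hl
  · exact ⟨x, hx⟩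
  · exact absurd hl hL

/-! ### The weights -/

/-- Touch in the window of a marked line born before the end of the window. -/
def phi1 (Φ : Space3 → ℝ) (ε : ℝ) (K : ℕ) (Q : EPar) (m : ℕ) (w : Config m) (l : ML) : ℝ≥0∞ :=
  if l.1.1 ≤ Q.te then (MW.cfg w).touchW Φ ε K Q l else 0

/-- Touch before the window. -/
def phi2 (Φ : Space3 → ℝ) (ε : ℝ) (K : ℕ) (Q : EPar) (m : ℕ) (w : Config m) (l : ML) : ℝ≥0∞ :=
  if l.1.1 ≤ Q.tw ∧ (MW.cfg w).thetaL Φ ε K Q.tw l ≤ Q.tw then 1 else 0


end det

end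

end Crest.Agent.R122.InEq2T
end

-- ▼ part R122/InEq2TPt_335

/-!
# Row 122, INEQUALITY 2', touched half (helper335): tree functionals

* `treeW` : the leaves of a tree as a world; `lkT` : the lines linked to the leaves, `lkV = lkT`.
* `gI` : ghost indicator (protected tubes up to the release times, helper994).
* `HT` : tree functional of the touched half; `HL` : tree functional of the weight comparison.
* `measTS_HT`, `measTS_HL`; `FT_le`, `FL_le` : pointwise bounds by the tree functionals.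
-/

set_option autoImplicit false
set_option linter.unusedSectionVars false

open MeasureTheory Set Filter Topology
open scoped ENNReal
open Crest.AnalysisR.Kinetic
open Crest.Agent.R122.Flow671 Crest.Agent.R122.Causal291 Crest.Agent.R122.Loc45
open Crest.Agent.R122.Inf879 Crest.Agent.R122.GC311 Crest.Agent.R122.EDefs602
open Crest.Agent.R122.InEq2 Crest.Agent.R122.EBasic602
open Crest.Agent.R122.Kin796 Crest.Agent.R122.Kin796.CTree Crest.Agent.R122.Tree674
open Crest.Agent.R122.PathFlow968 Crest.Agent.R122.TreeLines335 Crest.Agent.R122.LineMeas994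
open Crest.Agent.R122.RtG302 Crest.Agent.R122.Weight984 Crest.Agent.R122.MeasE416
open Crest.Agent.R122.Decomp811 Crest.Agent.R122.GIV566 Crest.Agent.R122.Hid424
open Crest.Agent.R122.TreeBound335

namespace Crest.Agent.R122.InEq2T

noncomputable section

open scoped Classical

variable {Φ : Space3 → ℝ} {ε : ℝ} {K : ℕ} {Q : EPar} {T' : ℝ}

/-! ### The leaves as a world -/

/-- The leaves of a tree as a world (gas particles). -/
def treeW (Φ : Space3 → ℝ) (ε : ℝ) (P : CTree) (z : PhasePoint × Par P) : MW (Idx P) :=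
  ⟨fun _ => 0, linesM Φ ε P z.1 z.2, fun _ => 1⟩

theorem measW_treeW (hΦ : AdmissiblePotential Φ) (ε : ℝ) (P : CTree) :
    MeasW fun z : PhasePoint × Par P => treeW Φ ε P z :=
  ⟨fun _ => measurable_const, fun i => (measurable_pi_apply i).comp (measurable_linesM hΦ ε P),
    fun _ => measurable_const⟩






/-! ### Ghost -/

/-- Ghost indicator: the protected tubes (up to the release times) are not hit by the gas alone
before `tw`. -/
def gI (Φ : Space3 → ℝ) (ε tw : ℝ) (P : CTree) (z : PhasePoint × Par P) {m : ℕ} (w : Config m) :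
    ℝ≥0∞ := unhitInd Φ ε (H5994.ghTM Φ ε P z) tw w

theorem measurable_gI (hΦ : AdmissiblePotential Φ) (hε : 0 < ε) (tw : ℝ) (P : CTree) (m : ℕ) :
    Measurable fun q : (PhasePoint × Par P) × Config m => gI Φ ε tw P q.1 q.2 := by
  unfold gI
  refine GIV566.measurable_unhitInd (Ω := (PhasePoint × Par P) × Config m) (T := max tw 0) hΦ hε
    (le_max_right _ _) (S := fun q => H5994.ghTM Φ ε P q.1) (fun q i => ?_) (fun i s => ?_)
    (fun i => ?_) (t := fun _ => tw) measurable_const (fun _ => le_max_left _ _)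
    (w := fun q => q.2) measurable_snd
  · exact (continuous_curveM hΦ hε P q.1.1 q.1.2 i).continuousOn
  · exact (measurable_curveM hΦ hε P i).comp (f := fun q : (PhasePoint × Par P) × Config m =>
      (s, q.1)) (measurable_const.prodMk measurable_fst)
  · exact (measurable_rel P i).comp (measurable_fst.snd)

theorem gI_eq_one (hΦ : AdmissiblePotential Φ) (hε : 0 < ε) {P : CTree} {z : PhasePoint × Par P}
    (hV : Valid Φ ε P T' z.1.2 z.2) (hS : Sep Φ ε P T' z.1 z.2) {tw : ℝ} (htw : tw ≤ T') {m : ℕ}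
    {w : Config m} (h : unhit Φ ε (protT Φ ε P T' z) tw w) : gI Φ ε tw P z w = 1 := by
  unfold gI unhitInd
  rw [if_pos]
  rw [H5994.ghTM_of_adm hV.1]
  intro i j s hs
  have hs1 : s ≤ rel P z.2 i := hs.2.trans (min_le_left _ _)
  have hs2 : s ≤ tw := hs.2.trans (min_le_right _ _)
  have hs3 : s ≤ prot P T' z.2 i := by
    by_cases hi : i = root P
    · rw [hi, PathFlow968.prot_root]
      exact hs2.trans htw
    · rw [← rel_eq_prot P T' z.2 i hi]
      exact hs1
  have h1 := h i j s ⟨hs.1, le_min hs3 hs2⟩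
  have h2 : curve Φ ε P z.1 z.2 i s = (path Φ ε P z.1 z.2 s i).1 :=
    curve_eq_path (X := z.1.1) (v := z.1.2) hΦ hε hV hS ⟨hs.1, hs2.trans htw⟩ i
  show ε < dist (curve Φ ε P z.1 z.2 i s) _
  rw [h2]
  exact h1

/-! ### The tree functionals -/


/-- Valid and separated trees with at most `K` leaves. -/
def vsI (Φ : Space3 → ℝ) (ε : ℝ) (K : ℕ) (T : ℝ) (P : CTree) (z : PhasePoint × Par P) : ℝ≥0∞ :=
  if P.leaves ≤ K ∧ Valid Φ ε P T z.1.2 z.2 ∧ Sep Φ ε P T z.1 z.2 then 1 else 0

theorem measurable_vsI (hΦ : AdmissiblePotential Φ) (hε : 0 < ε) (K : ℕ) (T : ℝ) (P : CTree) :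
    Measurable (vsI Φ ε K T P) := by
  unfold vsI
  exact Measurable.ite ((MeasurableSet.const _).inter (measurableSet_validSep hΦ hε P T))
    measurable_const measurable_const

/-- The leaves of the tree and the gas exclude each other. -/
def PerpT (Φ : Space3 → ℝ) (ε : ℝ) (P : CTree) (z : PhasePoint × Par P) {m : ℕ}
    (w : Config m) : Prop :=
  ∀ (x : Idx P) (i : Fin m), ε < dist (linesM Φ ε P z.1 z.2 x).1 (w i).1

/-- Indicator of `PerpT`. -/
def pI (Φ : Space3 → ℝ) (ε : ℝ) (P : CTree) (z : PhasePoint × Par P) {m : ℕ}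
    (w : Config m) : ℝ≥0∞ := if PerpT Φ ε P z w then 1 else 0

theorem measurableSet_perpT (hΦ : AdmissiblePotential Φ) (ε : ℝ) (P : CTree) (m : ℕ) :
    MeasurableSet {q : (PhasePoint × Par P) × Config m | PerpT Φ ε P q.1 q.2} := by
  have h1 : {q : (PhasePoint × Par P) × Config m | PerpT Φ ε P q.1 q.2} =
      ⋂ x : Idx P, ⋂ i : Fin m, {q : (PhasePoint × Par P) × Config m |
        ε < dist (linesM Φ ε P q.1.1 q.1.2 x).1 (q.2 i).1} := by
    ext q
    simp [PerpT]
  rw [h1]
  refine MeasurableSet.iInter fun x => MeasurableSet.iInter fun i => ?_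
  have h2 : Measurable fun q : (PhasePoint × Par P) × Config m =>
      (linesM Φ ε P q.1.1 q.1.2 x).1 :=
    ((measurable_pi_apply x).comp ((measurable_linesM hΦ ε P).comp measurable_fst)).fst
  have h3 : Measurable fun q : (PhasePoint × Par P) × Config m => (q.2 i).1 :=
    ((measurable_pi_apply i).comp measurable_snd).fst
  exact measurableSet_lt measurable_const (h2.dist h3)

theorem measurable_pI (hΦ : AdmissiblePotential Φ) (ε : ℝ) (P : CTree) (m : ℕ) :
    Measurable fun q : (PhasePoint × Par P) × Config m => pI Φ ε P q.1 q.2 := by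
  unfold pI
  exact Measurable.ite (measurableSet_perpT hΦ ε P m) measurable_const measurable_const

theorem pI_eq_one {k m : ℕ} {V : Config k} {w : Config m} {P : CTree} {z : PhasePoint × Par P}
    (e : Idx P → Fin k) (h : Adm Φ P z.1.2 z.2) (hV : ∀ x, V (e x) = lines Φ ε P z.1 z.2 x)
    (hp : Perp ε V w) : pI Φ ε P z w = 1 := by
  unfold pI
  rw [if_pos]
  intro x i
  rw [linesM_of_adm ε h, ← hV x]
  exact hp (e x) i

/-- Sum over the exit lines (measurable version of the lines). -/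
def exS (Φ : Space3 → ℝ) (ε : ℝ) (φ : (m : ℕ) → Config m → ML → ℝ≥0∞) (P : CTree)
    (z : PhasePoint × Par P) {m : ℕ} (w : Config m) : ℝ≥0∞ :=
  ∑ x : {x : Idx P // x ≠ root P}, φ m w (lineMM Φ ε P z x)

theorem measurable_exS (hΦ : AdmissiblePotential Φ) {φ : (m : ℕ) → Config m → ML → ℝ≥0∞}
    (hφ : ∀ m, Measurable fun p : Config m × ML => φ m p.1 p.2) (P : CTree) (m : ℕ) :
    Measurable fun q : (PhasePoint × Par P) × Config m => exS Φ ε φ P q.1 q.2 := by
  unfold exS
  refine Finset.measurable_sum _ fun x _ => ?_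
  exact (hφ m).comp (measurable_snd.prodMk ((measurable_lineMM hΦ ε P x).comp measurable_fst))

theorem exS_eq {φ : (m : ℕ) → Config m → ML → ℝ≥0∞} {P : CTree} {z : PhasePoint × Par P}
    (h : Adm Φ P z.1.2 z.2) {m : ℕ} (w : Config m) :
    exS Φ ε φ P z w = ∑ x, φ m w (exL Φ ε P z x) := by
  unfold exS
  refine Finset.sum_congr rfl fun x _ => ?_
  rw [lineMM_of_adm ε h]
  rfl

/-- Main part of the tree functional of the touched half: touches by the exit lines. -/
def HX (Φ : Space3 → ℝ) (ε : ℝ) (K : ℕ) (T tw : ℝ) (φ : (m : ℕ) → Config m → ML → ℝ≥0∞)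
    (P : CTree) (z : PhasePoint × Par P) (m : ℕ) (w : Config m) : ℝ≥0∞ :=
  vsI Φ ε K T P z * (wQ Φ ε P z * (gI Φ ε tw P z w * exS Φ ε φ P z w))



theorem measTS_HX (hΦ : AdmissiblePotential Φ) (hε : 0 < ε) (K : ℕ) (T tw : ℝ)
    {φ : (m : ℕ) → Config m → ML → ℝ≥0∞}
    (hφ : ∀ m, Measurable fun p : Config m × ML => φ m p.1 p.2) :
    MeasTS (HX Φ ε K T tw φ) := by
  intro P m
  unfold HX
  exact ((measurable_vsI hΦ hε K T P).comp measurable_fst).mul
    (((measurable_wQ hΦ P).comp measurable_fst).mul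
      ((measurable_gI hΦ hε tw P m).mul (measurable_exS hΦ hφ P m)))


theorem measurable_phi1 (hΦ : AdmissiblePotential Φ) (hε : 0 < ε) (K : ℕ) (Q : EPar) (m : ℕ) :
    Measurable fun p : Config m × ML => phi1 Φ ε K Q m p.1 p.2 := by
  unfold phi1
  exact Measurable.ite (measurableSet_le measurable_snd.fst.fst measurable_const)
    (measurable_touchW_cfg hΦ hε K Q m) measurable_const

theorem measurable_phi2 (hΦ : AdmissiblePotential Φ) (hε : 0 < ε) (K : ℕ) (Q : EPar) (m : ℕ) :
    Measurable fun p : Config m × ML => phi2 Φ ε K Q m p.1 p.2 := by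
  unfold phi2
  exact Measurable.ite ((measurableSet_le measurable_snd.fst.fst measurable_const).inter
    (measurableSet_le (measurable_thetaL_cfg hΦ hε K Q.tw m) measurable_const))
    measurable_const measurable_const

theorem phi1_le_one (hL : 0 ≤ Q.L) (m : ℕ) (w : Config m) (l : ML) : phi1 Φ ε K Q m w l ≤ 1 := by
  unfold phi1 MW.touchW
  split_ifs
  · exact W_le_one hL _
  · exact zero_le_one
  · exact zero_le_one

theorem phi2_le_one (m : ℕ) (w : Config m) (l : ML) : phi2 Φ ε K Q m w l ≤ 1 := by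
  unfold phi2
  split_ifs
  · exact le_rfl
  · exact zero_le_one

/-! ### Pointwise bounds -/

/-- The cluster strictly before the infection time is the block `V` and the particle joins the
infection in the window. -/
def JT (Φ : Space3 → ℝ) (ε : ℝ) (K : ℕ) (Q : EPar) {k m : ℕ} (V : Config k) (w : Config m)
    (j : Fin k) : Prop :=
  preC Φ ε (Fin.append V w : Config (k + m))
    (iTime Φ ε K Q.te (Fin.append V w : Config (k + m)) (Fin.castAdd m j)) (Fin.castAdd m j) =
      block k m ∧ Joins Φ ε K Q (Fin.append V w : Config (k + m)) (Fin.castAdd m j)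

/-- Some history of `(j, σ-)` is a tree whose protected tubes are not hit by `w` alone before
`tw`. -/
def HisG (Φ : Space3 → ℝ) (ε : ℝ) (K : ℕ) (Q : EPar) (T' : ℝ) {k m : ℕ} (V : Config k)
    (w : Config m) (j : Fin k) : Prop :=
  ∃ (P : CTree) (z : PhasePoint × Par P) (e : Idx P → Fin (k + m)),
    HTreeP Φ ε T' (iTime Φ ε K Q.te (Fin.append V w : Config (k + m)) (Fin.castAdd m j))
      (Fin.append V w : Config (k + m)) (Fin.castAdd m j) P z.1 z.2 e ∧
    unhit Φ ε (protT Φ ε P T' z) Q.tw w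

/-- `V` has touched the gas `w` before the infection time. -/
def TchB (Φ : Space3 → ℝ) (ε : ℝ) (K : ℕ) (Q : EPar) {k m : ℕ} (V : Config k) (w : Config m)
    (j : Fin k) : Prop :=
  ∃ s < iTime Φ ε K Q.te (Fin.append V w : Config (k + m)) (Fin.castAdd m j), TchV Φ ε K V w s

/-- Some history of `(j, σ-)` is a tree. -/
def HisP (Φ : Space3 → ℝ) (ε : ℝ) (K : ℕ) (Q : EPar) (T' : ℝ) {k m : ℕ} (V : Config k)
    (w : Config m) (j : Fin k) : Prop :=
  ∃ (P : CTree) (z : PhasePoint × Par P) (e : Idx P → Fin (k + m)),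
    HTreeP Φ ε T' (iTime Φ ε K Q.te (Fin.append V w : Config (k + m)) (Fin.castAdd m j))
      (Fin.append V w : Config (k + m)) (Fin.castAdd m j) P z.1 z.2 e

theorem exists_equiv_block {k m : ℕ} {P : CTree} {e' : Idx P → Fin (k + m)}
    (hi : Function.Injective e') (hr : range e' = {x | x ∈ block k m}) :
    ∃ e : Idx P ≃ Fin k, e' = Fin.castAdd m ∘ e := by
  have h1 : ∀ x, ∃ j : Fin k, Fin.castAdd m j = e' x := by
    intro x
    have : e' x ∈ {x | x ∈ block k m} := by rw [← hr]; exact ⟨x, rfl⟩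
    exact mem_block.1 this
  choose f hf using h1
  have hfi : Function.Injective f := by
    intro x y hxy
    exact hi (by rw [← hf, ← hf, hxy])
  have hfs : Function.Surjective f := by
    intro j
    have : Fin.castAdd m j ∈ range e' := by rw [hr]; exact castAdd_mem_block j
    obtain ⟨x, hx⟩ := this
    refine ⟨x, Fin.castAdd_injective k m ?_⟩
    rw [hf, hx]
  exact ⟨Equiv.ofBijective f ⟨hfi, hfs⟩, funext fun x => (hf x).symm⟩

theorem card_preC_le {n : ℕ} {w : Config n} {q : Fin n} {T : ℝ}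
    (h0 : 0 < iTime Φ ε K T w q) :
    (preC Φ ε w (iTime Φ ε K T w q) q).card ≤ K := by
  have h1 : ∀ u < iTime Φ ε K T w q, ¬ Infd (Ct (pth Φ ε w) ε) (fun _ => 1) K u q :=
    fun u hu hi => not_gInfB_sig (b := T + 1) ⟨u, hu, hi⟩
  have h2 := (msizePre_le_iff h0 q).2 h1
  refine le_trans (le_of_eq ?_) h2
  unfold msizePre
  rw [← Finset.sum_filter, Finset.sum_const, smul_eq_mul, mul_one]
  congr 1
  ext k
  rw [Finset.mem_filter, mem_preC_iff_pre w h0]
  simp

section pointwise

variable {k m : ℕ} {V : Config k} {w : Config m} {j : Fin k}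

/-- The data of the tree. -/
theorem tree_data (hΦ : AdmissiblePotential Φ) (hε : 0 < ε) (hT : 0 ≤ T') (htw : 0 ≤ Q.tw)
    (hJ : JT Φ ε K Q V w j) {P : CTree} {z : PhasePoint × Par P} {e' : Idx P → Fin (k + m)}
    (h : HTreeP Φ ε T' (iTime Φ ε K Q.te (Fin.append V w : Config (k + m)) (Fin.castAdd m j))
      (Fin.append V w : Config (k + m)) (Fin.castAdd m j) P z.1 z.2 e') :
    P.leaves ≤ K ∧ ∃ e : Idx P ≃ Fin k, e' = Fin.castAdd m ∘ e ∧ e (root P) = j ∧
      ∀ x, V (e x) = lines Φ ε P z.1 z.2 x := by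
  set σ := iTime Φ ε K Q.te (Fin.append V w : Config (k + m)) (Fin.castAdd m j) with hσ
  have hσ0 : 0 < σ := htw.trans_lt hJ.2.1
  have hr : range e' = {x | x ∈ block k m} := by
    rw [h.range_eq hε hT hσ0, ← hJ.1]
    ext x
    rw [mem_ofPred_eq]
    exact (mem_preC_iff_pre _ hσ0 _ x).symm
  obtain ⟨e, he⟩ := exists_equiv_block h.inj hr
  have hk : k ≤ K := by
    have h1 := card_preC_le (Φ := Φ) (ε := ε) (K := K) (T := Q.te)
      (w := (Fin.append V w : Config (k + m))) (q := Fin.castAdd m j) hσ0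
    rw [← hσ, hJ.1, card_block] at h1
    exact h1
  refine ⟨?_, e, he, ?_, fun x => ?_⟩
  · rw [← card_idx, Fintype.card_congr e, Fintype.card_fin]
    exact hk
  · have h1 := h.root
    rw [he] at h1
    exact Fin.castAdd_injective k m h1
  · have h1 := h.lines_eq hΦ hε hT hσ0 x
    rw [he] at h1
    rw [← h1]
    show V (e x) = Fin.append V w (Fin.castAdd m (e x))
    rw [Fin.append_left]

theorem append_mem (hV : V ∈ PairExcluded ε k) (hw : w ∈ PairExcluded ε m) (hp : Perp ε V w) :
    (Fin.append V w : Config (k + m)) ∈ PairExcluded ε (k + m) :=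
  (append_mem_pairExcluded_iff V w).2 ⟨hV, hw, hp⟩

/-- Touched part of the integrand of `aI`. -/
def FTg (Φ : Space3 → ℝ) (ε : ℝ) (K : ℕ) (Q : EPar) (T' : ℝ) (k m : ℕ) (V : Config k)
    (w : Config m) (j : Fin k) : ℝ≥0∞ :=
  if JT Φ ε K Q V w j ∧ TchB Φ ε K Q V w j ∧ HisG Φ ε K Q T' V w j then
    (activity ε)⁻¹ * (eW (Fin.append V w : Config (k + m)) (block k m) *
      (MW.cfg (Fin.append V w : Config (k + m))).Wm Φ ε K Q
        (iTime Φ ε K Q.te (Fin.append V w : Config (k + m)) (Fin.castAdd m j)))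
  else 0


/-- Weight comparison, untouched case. -/
def FLg (Φ : Space3 → ℝ) (ε : ℝ) (K : ℕ) (Q : EPar) (T' : ℝ) (k m : ℕ) (V : Config k)
    (w : Config m) (j : Fin k) : ℝ≥0∞ :=
  if JT Φ ε K Q V w j ∧ ¬ TchB Φ ε K Q V w j ∧ HisP Φ ε K Q T' V w j then
    (activity ε)⁻¹ * (eW (Fin.append V w : Config (k + m)) (block k m) *
      ((MW.cfg (Fin.append V w : Config (k + m))).Wm Φ ε K Q
        (iTime Φ ε K Q.te (Fin.append V w : Config (k + m)) (Fin.castAdd m j)) -
      (MW.cfg w).Wm Φ ε K Q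
        (iTime Φ ε K Q.te (Fin.append V w : Config (k + m)) (Fin.castAdd m j))))
  else 0


end pointwise

end

end Crest.Agent.R122.InEq2T
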