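import Crest.Agent.R122.TransD1_151

-- ▼ part R122/TransD2_151
section

/-!
# The transfer theorem with deaths (row 122), helper151

`A : Finset κ` the isolated group (births `b`, deaths `d`), `M : Finset κ` the final world: the
particles of `M \ A` with births `b` and those of `M ∩ A`, which enter when they die in `A`.

* `GoodD Φ ε M A b Z` : for all release data the final world exists, and there is no coincidence
  between a particle of `A` which is not dead and a particle of the world.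
* `ae_goodD`.
-/

set_option autoImplicit false
set_option linter.unusedSectionVars false

open MeasureTheory Set Filter Topology
open scoped ENNReal NNReal
open Crest.AnalysisR.Kinetic
open Crest.Agent.R122.Flow671 Crest.Agent.R122.Loc45 Crest.Agent.R122.Ins45
open Crest.Agent.R122.Simul984

namespace Crest.Agent.R122.TransOk151

noncomputable section

open scoped Classical

variable {Φ : Space3 → ℝ} {ε : ℝ} {κ : Type*} [Fintype κ] {M A : Finset κ} {b d : κ → ℝ}

/-- The living particles of the world. -/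
def gW (M A : Finset κ) (b : κ → ℝ) : Finset κ := (M \ A).filter fun k => b k ≤ 0

theorem mem_gW {k : κ} : k ∈ gW M A b ↔ (k ∈ M ∧ k ∉ A) ∧ b k ≤ 0 := by simp [gW]

theorem gW_subset : gW M A b ⊆ M := fun _ h => (mem_gW.1 h).1.1

theorem disjoint_gW : Disjoint (gr₁ A b) (gW M A b) := by
  rw [Finset.disjoint_left]
  intro k h1 h2
  exact (mem_gW.1 h2).1.2 (mem_gr₁.1 h1).1

/-- The final world exists, and nobody of it meets a particle of `A` which is not dead. -/
def GoodD (Φ : Space3 → ℝ) (ε : ℝ) (M A : Finset κ) (b : κ → ℝ) (Z : κ → PhasePoint) : Prop :=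
  ∀ (d : κ → ℝ) (T : ℝ) (X : ℝ → A → PhasePoint), 0 ≤ T →
    DWorld Φ ε (fun a : A => b a) (fun a : A => d a) 0 T X → (∀ a : A, X 0 a = Z a) →
    RelD ε (fun a : A => b a) (fun a : A => d a) T X → (∀ a : A, (a : κ) ∈ M → d a ≤ T) →
    ∃ Y : ℝ → M → PhasePoint, BWorld Φ ε (fun m : M => wb A b d m) 0 Y ∧
      (∀ m : M, Y 0 m = wz A d X Z 0 m) ∧
      ∀ t ∈ Icc 0 T, ∀ a : A, t ≤ d a → ∀ m : M, (m : κ) ≠ a → ((m : κ) ∈ A → d m ≤ t) →
        (X t a).1 ≠ (Y t m).1

theorem RelD.d_pos {T : ℝ} {X : ℝ → A → PhasePoint} (hT : 0 ≤ T)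
    (hR : RelD ε (fun a : A => b a) (fun a : A => d a) T X) (a : A) : 0 < d a := by
  by_cases h : d a ≤ T
  · exact hR.pos a h
  · exact hT.trans_lt (not_le.1 h)

/-- Comparison of the partial flow on `M` and the decoupled flow. -/
theorem flW (hΦ : AdmissiblePotential Φ) (hε : 0 < ε) {G₁ G₂ : Finset κ} (hG : G₂ ⊆ M) (t : ℝ)
    (Z : κ → PhasePoint) (z : M → PhasePoint) (hz : ∀ m : M, (m : κ) ∈ G₂ → z m = Z m) {m : M}
    (hm : (m : κ) ∉ G₁) (hzm : z m = Z m) :
    flowA Φ ε (G₂.subtype (· ∈ M)) t z m = fl Φ ε G₁ G₂ t Z m := by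
  by_cases h : (m : κ) ∈ G₂
  · rw [flowA_subtype hΦ hε hG t Z z hz h, flowA_mem _ _ _ h, fl_mem₂ _ _ hm h]
  · rw [flowA_not_mem _ _ _ (fun h' => h (Finset.mem_subtype.1 h')), fl_free _ _ hm h, hzm]

theorem flW₁ (hΦ : AdmissiblePotential Φ) (hε : 0 < ε) {G₁ G₂ : Finset κ} (hG : G₁ ⊆ M) (t : ℝ)
    (Z : κ → PhasePoint) (z : M → PhasePoint) (hz : ∀ m : M, (m : κ) ∈ G₁ → z m = Z m) {m : M}
    (hm : (m : κ) ∉ G₂) (hzm : z m = Z m) :
    flowA Φ ε (G₁.subtype (· ∈ M)) t z m = fl Φ ε G₁ G₂ t Z m := by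
  by_cases h : (m : κ) ∈ G₁
  · rw [flowA_subtype hΦ hε hG t Z z hz h, flowA_mem _ _ _ h, fl_mem₁ _ _ h]
  · rw [flowA_not_mem _ _ _ (fun h' => h (Finset.mem_subtype.1 h')), fl_free _ _ h hm, hzm]

/-- Before the first event the isolated group is given by `fl`. -/
theorem DX_eq (hΦ : AdmissiblePotential Φ) (hε : 0 < ε) {T : ℝ} {X : ℝ → A → PhasePoint}
    {Z : κ → PhasePoint} (hX : DWorld Φ ε (fun a : A => b a) (fun a : A => d a) 0 T X)
    (h0 : ∀ a : A, X 0 a = Z a) (hd0 : ∀ a : A, 0 < d a) {t : ℝ} (ht : 0 ≤ t) (htT : t ≤ T)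
    (hb : ∀ k, 0 < b k → t ≤ b k) (hd : ∀ a : A, t ≤ d a) (a : A) :
    X t a = fl Φ ε (gr₁ A b) (gW M A b) t Z a := by
  have h1 := hX.eq_flowA hΦ hε ht htT (fun i hi => hb i hi) (fun i _ => hd i) (i := a) (hd0 a)
  have h2 : lv (fun a : A => b a) (fun a : A => d a) 0 = (gr₁ A b).subtype (· ∈ A) := by
    ext x
    rw [mem_lv, Finset.mem_subtype, mem_gr₁]
    exact ⟨fun h => ⟨x.2, h.1⟩, fun h => ⟨h.2, hd0 x⟩⟩
  rw [h1, h2, sub_zero]
  exact flW₁ hΦ hε (Finset.filter_subset _ _) t Z (X 0) (fun m _ => h0 m)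
    (fun h => (mem_gW.1 h).1.2 a.2) (h0 a)

/-- First step of the world: nobody is born or released before `c`. -/
theorem world_stepD (hΦ : AdmissiblePotential Φ) (hε : 0 < ε) {X : ℝ → A → PhasePoint}
    {Z : κ → PhasePoint} (hI : Inj Z) {c : ℝ} (hc : 0 < c)
    (hb : ∀ k, 0 < b k → c ≤ b k) (hσ : ∀ k ∈ A, k ∈ M → c ≤ d k)
    {Y₂ : ℝ → M → PhasePoint} (h₂ : BWorld Φ ε (fun m : M => wb A b d m) c Y₂)
    (h0 : ∀ m : M, Y₂ c m = wz A d X (fl Φ ε (gr₁ A b) (gW M A b) c Z) c m) :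
    ∃ Y : ℝ → M → PhasePoint, BWorld Φ ε (fun m : M => wb A b d m) 0 Y ∧
      (∀ m : M, Y 0 m = wz A d X Z 0 m) ∧ (∀ t, c ≤ t → Y t = Y₂ t) ∧
      ∀ t ∈ Icc 0 c, ∀ m : M, (m : κ) ∉ A → Y t m = fl Φ ε (gr₁ A b) (gW M A b) t Z m := by
  set z0 : M → PhasePoint := fun m => wz A d X Z 0 m with hz0
  have hz0' : ∀ m : M, (m : κ) ∉ A → z0 m = Z m := by
    intro m hm
    simp only [hz0, wz, dif_neg hm]
  have hz0W : ∀ m : M, (m : κ) ∈ gW M A b → z0 m = Z m := fun m hm => hz0' m (mem_gW.1 hm).1.2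
  have hA : ∀ t ∈ Ico 0 c, ∀ m : M, m ∈ (gW M A b).subtype (· ∈ M) ↔ wb A b d m ≤ t := by
    intro t ht m
    rw [Finset.mem_subtype, mem_gW]
    by_cases hm : (m : κ) ∈ A
    · simp only [wb, if_pos hm]
      constructor
      · exact fun h => absurd hm h.1.2
      · intro h
        exact absurd ((hσ m hm m.2).trans h) (not_le.2 ht.2)
    · simp only [wb, if_neg hm]
      constructor
      · exact fun h => h.2.trans ht.1
      · intro h
        refine ⟨⟨m.2, hm⟩, ?_⟩
        by_contra hcon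
        exact absurd ((hb m (not_le.1 hcon)).trans h) (not_le.2 ht.2)
  have hZ : (fun a : (gW M A b).subtype (· ∈ M) => z0 a) ∈ Dom Φ ((gW M A b).subtype (· ∈ M)) := by
    refine Or.inr fun i j hij => ?_
    show (z0 i).1 ≠ (z0 j).1
    rw [hz0W _ (Finset.mem_subtype.1 i.2), hz0W _ (Finset.mem_subtype.1 j.2)]
    exact hI _ _ fun h => hij (Subtype.ext (Subtype.ext h))
  have hY₂ : Y₂ c = flowA Φ ε ((gW M A b).subtype (· ∈ M)) (c - 0) z0 := by
    funext m
    rw [h0, sub_zero]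
    by_cases hm : (m : κ) ∈ A
    · have h1 : m ∉ (gW M A b).subtype (· ∈ M) := fun h =>
        (mem_gW.1 (Finset.mem_subtype.1 h)).1.2 hm
      rw [flowA_not_mem _ _ _ h1]
      simp only [hz0, wz, dif_pos hm]
      have := lineAt_free (d m) 0 c (X (d m) ⟨m, hm⟩)
      rw [sub_zero] at this
      exact this.symm
    · have h2 : wz A d X (fl Φ ε (gr₁ A b) (gW M A b) c Z) c m =
          fl Φ ε (gr₁ A b) (gW M A b) c Z m := by simp only [wz, dif_neg hm]
      rw [h2]
      exact (flW hΦ hε gW_subset c Z z0 hz0W (not_mem_gr₁ hm) (hz0' m hm)).symm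
  obtain ⟨Y, hY, hY0, hYc⟩ := bworld_cons hΦ hε hc hA hZ h₂ hY₂
  refine ⟨Y, hY, fun m => by rw [hY0], hYc, fun t ht m hm => ?_⟩
  have h1 := hY.eq_flowA hΦ hε ht.1 (fun m' hm' => by
    by_cases h : (m' : κ) ∈ A
    · simp only [wb, if_pos h]
      exact ht.2.trans (hσ m' h m'.2)
    · simp only [wb, if_neg h] at hm' ⊢
      exact ht.2.trans (hb m' hm'))
  have h2 : alive (fun m : M => wb A b d m) 0 = (gW M A b).subtype (· ∈ M) := by
    ext m
    rw [mem_alive, hA 0 ⟨le_rfl, hc⟩]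
  rw [h1, h2, sub_zero, hY0]
  exact flW hΦ hε gW_subset t Z z0 hz0W (not_mem_gr₁ hm) (hz0' m hm)

/-- Step over an external birth at time `c`. -/
theorem stepD_ext (hΦ : AdmissiblePotential Φ) (hε : 0 < ε) {Z : κ → PhasePoint}
    (hI : ∀ t, Inj (fl Φ ε (gr₁ A b) (gW M A b) t Z)) {c : ℝ} (hc : 0 < c)
    (hb : ∀ k, 0 < b k → c ≤ b k)
    (hG : GoodD Φ ε M A (fun k => b k - c) (fl Φ ε (gr₁ A b) (gW M A b) c Z))
    {T : ℝ} {X : ℝ → A → PhasePoint} (hcT : c ≤ T)
    (hX : DWorld Φ ε (fun a : A => b a) (fun a : A => d a) 0 T X) (h0 : ∀ a : A, X 0 a = Z a)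
    (hR : RelD ε (fun a : A => b a) (fun a : A => d a) T X)
    (hM : ∀ a : A, (a : κ) ∈ M → d a ≤ T) (hσ : ∀ a : A, c < d a) :
    ∃ Y : ℝ → M → PhasePoint, BWorld Φ ε (fun m : M => wb A b d m) 0 Y ∧
      (∀ m : M, Y 0 m = wz A d X Z 0 m) ∧
      ∀ t ∈ Icc 0 T, ∀ a : A, t ≤ d a → ∀ m : M, (m : κ) ≠ a → ((m : κ) ∈ A → d m ≤ t) →
        (X t a).1 ≠ (Y t m).1 := by
  have hI0 : Inj Z := by
    have := hI 0
    rwa [fl_zero hΦ hε] at this
  have hd0 : ∀ a : A, 0 < d a := fun a => hc.trans (hσ a)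
  have hXt : ∀ t, 0 ≤ t → t ≤ c → ∀ a : A, X t a = fl Φ ε (gr₁ A b) (gW M A b) t Z a :=
    fun t ht htc a => DX_eq hΦ hε hX h0 hd0 ht (htc.trans hcT) (fun k hk => htc.trans (hb k hk))
      (fun a => htc.trans (hσ a).le) a
  have hX' : DWorld Φ ε (fun a : A => b a - c) (fun a : A => d a - c) 0 (T - c)
      (fun t => X (t + c)) := by
    have h1 := (hX.mono hc.le le_rfl).shift c
    rwa [sub_self] at h1
  have hR' : RelD ε (fun a : A => b a - c) (fun a : A => d a - c) (T - c)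
      (fun t => X (t + c)) := by
    refine ⟨fun i _ => by linarith [hσ i], fun i hi => ?_, fun i hi => ?_⟩
    · linarith [hR.born i (by linarith)]
    · obtain ⟨p, h1, h2, h3, h4, h5⟩ := hR.exit i (by linarith)
      refine ⟨p, h1, by linarith, by linarith, ?_, ?_⟩
      · simpa only [sub_add_cancel] using h4
      · simpa only [sub_add_cancel] using h5
  obtain ⟨Y', hY', hY0, hN⟩ := hG (fun k => d k - c) (T - c) (fun t => X (t + c)) (by linarith)
    hX' (fun a => by
      rw [zero_add]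
      exact hXt c hc.le le_rfl a) hR' (fun a ha => by linarith [hM a ha])
  have h1 := bworld_shift hY' c
  rw [zero_add] at h1
  have h2 : (fun m : M => wb A (fun k => b k - c) (fun k => d k - c) m + c) =
      fun m : M => wb A b d m := by
    funext m
    unfold wb
    split_ifs <;> ring
  rw [h2] at h1
  obtain ⟨Y, hY, hYz, hYc, hYl⟩ := world_stepD (X := X) hΦ hε hI0 hc hb
    (fun k hk _ => (hσ ⟨k, hk⟩).le) h1 fun m => by
      rw [sub_self, hY0]
      unfold wz
      by_cases hm : (m : κ) ∈ A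
      · rw [dif_pos hm, dif_pos hm]
        simp only [sub_add_cancel]
        unfold lineAt
        congr 3
        ring
      · rw [dif_neg hm, dif_neg hm]
  refine ⟨Y, hY, hYz, fun t ht a hta m hma hmt => ?_⟩
  rcases le_total t c with htc | htc
  · have hmA : (m : κ) ∉ A := fun h => absurd ((hmt h).trans htc) (not_le.2 (hσ ⟨m, h⟩))
    rw [hXt t ht.1 htc, hYl t ⟨ht.1, htc⟩ m hmA]
    exact hI t _ _ (Ne.symm hma)
  · have h3 := hN (t - c) ⟨by linarith, by linarith [ht.2]⟩ a (by linarith) m hma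
      fun h => by linarith [hmt h]
    rw [hYc t htc]
    simpa only [sub_add_cancel] using h3

/-- The isolated group after the release of `B` at time `β`. -/
theorem DX_after (hΦ : AdmissiblePotential Φ) (hε : 0 < ε) {T : ℝ} {X : ℝ → A → PhasePoint}
    {Z : κ → PhasePoint} (hX : DWorld Φ ε (fun a : A => b a) (fun a : A => d a) 0 T X)
    (h0 : ∀ a : A, X 0 a = Z a) (hd0 : ∀ a : A, 0 < d a) {B : Finset κ} {β q : ℝ}
    (hβ : 0 < β) (hβq : β < q) (hb : ∀ k, 0 < b k → q < b k)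
    (hdB : ∀ a : A, (a : κ) ∈ B → d a = β) (hd : ∀ a : A, (a : κ) ∉ B → q < d a)
    {t : ℝ} (ht : β ≤ t) (htq : t ≤ q) (htT : t ≤ T) (a : ↥(A \ B)) :
    X t ⟨a, (Finset.mem_sdiff.1 a.2).1⟩ =
      fl Φ ε (gr₁ A b \ B) (gW M A b ∪ (B ∩ M)) (t - β) (fl Φ ε (gr₁ A b) (gW M A b) β Z) a := by
  have hsub : ∀ a : ↥(A \ B), (a : κ) ∈ A := fun a => (Finset.mem_sdiff.1 a.2).1
  let e : ↥(A \ B) ↪ A := ⟨fun a => ⟨a, hsub a⟩, fun x y h => Subtype.ext (by
    simpa using congrArg Subtype.val h)⟩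
  have hW := (hX.mono hβ.le le_rfl).comp e (fun i hi => by
    have hiB : (i : κ) ∈ B := by
      by_contra hcon
      exact hi ⟨⟨i, Finset.mem_sdiff.2 ⟨i.2, hcon⟩⟩, rfl⟩
    exact (hdB i hiB).le)
  have hda : ∀ a : ↥(A \ B), q < d a := fun a => hd ⟨a, hsub a⟩ (Finset.mem_sdiff.1 a.2).2
  have h1 := hW.eq_flowA hΦ hε ht htT (fun i hi => htq.trans (hb _ (hβ.trans hi)).le)
    (fun i _ => htq.trans (hda i).le) (i := a) (hβq.trans (hda a))
  have h2 : lv (fun i : ↥(A \ B) => b (e i)) (fun i : ↥(A \ B) => d (e i)) β =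
      (gr₁ A b \ B).subtype (· ∈ A \ B) := by
    ext x
    rw [mem_lv, Finset.mem_subtype, Finset.mem_sdiff, mem_gr₁]
    constructor
    · rintro ⟨h3, _⟩
      refine ⟨⟨hsub x, ?_⟩, (Finset.mem_sdiff.1 x.2).2⟩
      by_contra hcon
      exact absurd ((hb _ (not_le.1 hcon)).trans_le h3) (not_lt.2 hβq.le)
    · rintro ⟨⟨_, h3⟩, _⟩
      exact ⟨h3.trans hβ.le, hβq.trans (hda x)⟩
  have h3 : ∀ x : ↥(A \ B), X β (e x) = fl Φ ε (gr₁ A b) (gW M A b) β Z x := fun x =>
    DX_eq hΦ hε hX h0 hd0 hβ.le (ht.trans htT) (fun k hk => hβq.le.trans (hb k hk).le)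
      (fun a => by
        by_cases h : (a : κ) ∈ B
        · exact (hdB a h).ge
        · exact hβq.le.trans (hd a h).le) (e x)
  have h4 : X t (e a) = X t ⟨a, (Finset.mem_sdiff.1 a.2).1⟩ := rfl
  rw [← h4, h1, h2]
  refine flW₁ hΦ hε (fun k hk => ?_) (t - β) _ _ (fun m _ => h3 m) (fun h => ?_) (h3 a)
  · have := Finset.mem_sdiff.1 hk
    exact Finset.mem_sdiff.2 ⟨(mem_gr₁.1 this.1).1, this.2⟩
  · rcases Finset.mem_union.1 h with h5 | h5
    · exact (mem_gW.1 h5).1.2 (hsub a)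
    · exact (Finset.mem_sdiff.1 a.2).2 (Finset.mem_inter.1 h5).1

/-- The world over the release of `B` at time `β`. -/
theorem world_relD (hΦ : AdmissiblePotential Φ) (hε : 0 < ε) {T : ℝ} {X : ℝ → A → PhasePoint}
    {Z : κ → PhasePoint} (hX : DWorld Φ ε (fun a : A => b a) (fun a : A => d a) 0 T X)
    (h0 : ∀ a : A, X 0 a = Z a) (hd0 : ∀ a : A, 0 < d a) (hI : Inj Z) {B : Finset κ} {β q : ℝ}
    (hβ : 0 < β) (hβq : β < q) (hβT : β ≤ T) (hb : ∀ k, 0 < b k → q < b k)
    (hbB : ∀ k ∈ B, b k ≤ 0) (hBA : B ⊆ A)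
    (hdB : ∀ a : A, (a : κ) ∈ B → d a = β) (hd : ∀ a : A, (a : κ) ∉ B → q < d a)
    (hIβ : Inj (fl Φ ε (gr₁ A b) (gW M A b) β Z)) {d' : κ → ℝ} {Y' : ℝ → M → PhasePoint}
    (hY' : BWorld Φ ε (fun m : M => wb (A \ B) (fun k => b k - q) d' m) 0 Y')
    (hY'0 : ∀ m : M, (m : κ) ∉ A \ B → Y' 0 m =
      fl Φ ε (gr₁ A b \ B) (gW M A b ∪ (B ∩ M)) (q - β) (fl Φ ε (gr₁ A b) (gW M A b) β Z) m)
    (hY'1 : ∀ (m : M) (h : (m : κ) ∈ A), (m : κ) ∉ B → d' m = d m - q ∧
      Y' 0 m = lineAt (d m) (X (d m) ⟨m, h⟩) q) :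
    ∃ Y : ℝ → M → PhasePoint, BWorld Φ ε (fun m : M => wb A b d m) 0 Y ∧
      (∀ m : M, Y 0 m = wz A d X Z 0 m) ∧ (∀ t, q ≤ t → Y t = Y' (t - q)) ∧
      (∀ t ∈ Icc β q, ∀ m : M, (m : κ) ∉ A \ B → Y t m =
        fl Φ ε (gr₁ A b \ B) (gW M A b ∪ (B ∩ M)) (t - β)
          (fl Φ ε (gr₁ A b) (gW M A b) β Z) m) ∧
      ∀ t ∈ Icc 0 β, ∀ m : M, (m : κ) ∉ A → Y t m = fl Φ ε (gr₁ A b) (gW M A b) t Z m := by
  set Zβ := fl Φ ε (gr₁ A b) (gW M A b) β Z with hZβ
  set H₁ : Finset κ := gr₁ A b \ B with hH₁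
  set H₂ : Finset κ := gW M A b ∪ (B ∩ M) with hH₂
  have hXβ : ∀ a : A, X β a = Zβ a := fun a =>
    DX_eq hΦ hε hX h0 hd0 hβ.le hβT (fun k hk => hβq.le.trans (hb k hk).le)
      (fun a => by
        by_cases h : (a : κ) ∈ B
        · exact (hdB a h).ge
        · exact hβq.le.trans (hd a h).le) a
  -- from `q` on
  have h1 := bworld_shift hY' q
  rw [zero_add] at h1
  have h2 : BWorld Φ ε (fun m : M => wb A b d m) q (fun t => Y' (t - q)) := by
    refine h1.congr_births fun m t ht => ?_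
    unfold wb
    by_cases hmA : (m : κ) ∈ A
    · by_cases hmB : (m : κ) ∈ B
      · rw [if_neg (fun h => (Finset.mem_sdiff.1 h).2 hmB), if_pos hmA, hdB ⟨m, hmA⟩ hmB]
        constructor
        · intro _; exact hβq.le.trans ht
        · intro _; linarith [hbB m hmB, hβ.trans hβq]
      · rw [if_pos (Finset.mem_sdiff.2 ⟨hmA, hmB⟩), if_pos hmA, (hY'1 m hmA hmB).1,
          sub_add_cancel]
    · rw [if_neg (fun h => hmA (Finset.mem_sdiff.1 h).1), if_neg hmA, sub_add_cancel]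
  -- from `β` to `q`
  set zβ : M → PhasePoint := fun m => wz A d X Zβ β m with hzβ
  have hzβ' : ∀ m : M, (m : κ) ∉ A \ B → zβ m = Zβ m := by
    intro m hm
    simp only [hzβ, wz]
    by_cases hmA : (m : κ) ∈ A
    · have hmB : (m : κ) ∈ B := by
        by_contra hcon
        exact hm (Finset.mem_sdiff.2 ⟨hmA, hcon⟩)
      rw [dif_pos hmA, hdB ⟨m, hmA⟩ hmB, lineAt_self, hXβ]
    · rw [dif_neg hmA]
  have hH₂AB : ∀ k ∈ H₂, k ∉ A \ B := by
    intro k hk h
    rcases Finset.mem_union.1 hk with h3 | h3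
    · exact (mem_gW.1 h3).1.2 (Finset.mem_sdiff.1 h).1
    · exact (Finset.mem_sdiff.1 h).2 (Finset.mem_inter.1 h3).1
  have hH₁AB : ∀ k ∈ H₁, k ∈ A \ B := fun k hk => Finset.mem_sdiff.2
    ⟨(mem_gr₁.1 (Finset.mem_sdiff.1 hk).1).1, (Finset.mem_sdiff.1 hk).2⟩
  have hsub : H₂ ⊆ M := by
    intro k hk
    rcases Finset.mem_union.1 hk with h3 | h3
    · exact gW_subset h3
    · exact (Finset.mem_inter.1 h3).2
  have hA₂ : ∀ t ∈ Ico β q, ∀ m : M, m ∈ H₂.subtype (· ∈ M) ↔ wb A b d m ≤ t := by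
    intro t ht m
    rw [Finset.mem_subtype, hH₂, Finset.mem_union, mem_gW, Finset.mem_inter]
    unfold wb
    by_cases hmA : (m : κ) ∈ A
    · rw [if_pos hmA]
      constructor
      · rintro (h | h)
        · exact absurd hmA h.1.2
        · rw [hdB ⟨m, hmA⟩ h.1]; exact ht.1
      · intro h
        right
        refine ⟨?_, m.2⟩
        by_contra hcon
        exact absurd ((hd ⟨m, hmA⟩ hcon).le.trans h) (not_le.2 ht.2)
    · rw [if_neg hmA]
      constructor
      · rintro (h | h)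
        · exact h.2.trans (hβ.le.trans ht.1)
        · exact absurd (hBA h.1) hmA
      · intro h
        refine Or.inl ⟨⟨m.2, hmA⟩, ?_⟩
        by_contra hcon
        exact absurd ((hb m (not_le.1 hcon)).le.trans h) (not_le.2 ht.2)
  have hzW : ∀ m : M, (m : κ) ∈ H₂ → zβ m = Zβ m := fun m hm => hzβ' m (hH₂AB m hm)
  have hZ₂ : (fun a : H₂.subtype (· ∈ M) => zβ a) ∈ Dom Φ (H₂.subtype (· ∈ M)) := by
    refine Or.inr fun i j hij => ?_
    show (zβ i).1 ≠ (zβ j).1
    rw [hzW _ (Finset.mem_subtype.1 i.2), hzW _ (Finset.mem_subtype.1 j.2)]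
    exact hIβ _ _ fun h => hij (Subtype.ext (Subtype.ext h))
  have hY₂ : Y' (q - q) = flowA Φ ε (H₂.subtype (· ∈ M)) (q - β) zβ := by
    funext m
    rw [sub_self]
    by_cases hm : (m : κ) ∈ A \ B
    · have hmA := (Finset.mem_sdiff.1 hm).1
      have hmB := (Finset.mem_sdiff.1 hm).2
      rw [(hY'1 m hmA hmB).2, flowA_not_mem _ _ _ (fun h => hH₂AB _ (Finset.mem_subtype.1 h) hm)]
      simp only [hzβ]
      unfold wz
      rw [dif_pos hmA, lineAt_free]
    · rw [hY'0 m hm]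
      exact (flW hΦ hε hsub (q - β) Zβ zβ hzW (fun h => hm (hH₁AB _ h)) (hzβ' m hm)).symm
  obtain ⟨Y₂, hYw, hYβ, hYq⟩ := bworld_cons hΦ hε hβq hA₂ hZ₂ h2 hY₂
  obtain ⟨Y, hY, hYz, hYc, hYl⟩ := world_stepD (X := X) hΦ hε hI hβ
    (fun k hk => hβq.le.trans (hb k hk).le)
    (fun k hk hkM => by
      by_cases hkB : k ∈ B
      · exact (hdB ⟨k, hk⟩ hkB).ge
      · exact hβq.le.trans (hd ⟨k, hk⟩ hkB).le) hYw fun m => by rw [hYβ]
  refine ⟨Y, hY, hYz, fun t ht => ?_, fun t ht m hm => ?_, hYl⟩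
  · rw [hYc t (hβq.le.trans ht), hYq t ht]
  · rw [hYc t ht.1]
    have h3 := hYw.eq_flowA hΦ hε ht.1 (fun m' hm' => by
      unfold wb at hm' ⊢
      by_cases h : (m' : κ) ∈ A
      · rw [if_pos h] at hm' ⊢
        by_cases hB : (m' : κ) ∈ B
        · rw [hdB ⟨m', h⟩ hB] at hm'
          exact absurd hm' (lt_irrefl _)
        · exact ht.2.trans (hd ⟨m', h⟩ hB).le
      · rw [if_neg h] at hm' ⊢
        exact ht.2.trans (hb m' (hβ.trans hm')).le)
    have h4 : alive (fun m : M => wb A b d m) β = H₂.subtype (· ∈ M) := by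
      ext m
      rw [mem_alive, hA₂ β ⟨le_rfl, hβq⟩]
    rw [h3, h4, hYβ]
    exact flW hΦ hε hsub (t - β) Zβ zβ hzW (fun h => hm (hH₁AB _ h)) (hzβ' m hm)

/-- No coincidence up to the release time `β`. -/
theorem nc_before {X : ℝ → A → PhasePoint} {J : ℝ → κ → PhasePoint}
    {B : Finset κ} {β : ℝ} (hJ : ∀ t, Inj (J t))
    (hXJ : ∀ t, 0 ≤ t → t ≤ β → ∀ a : A, X t a = J t a) {Y : ℝ → M → PhasePoint}
    (hY : ∀ t ∈ Icc 0 β, ∀ m : M, (m : κ) ∉ A → Y t m = J t m)
    (hYB : ∀ m : M, (m : κ) ∈ B → Y β m = J β m)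
    (hdB : ∀ a : A, (a : κ) ∈ B → d a = β) (hd : ∀ a : A, (a : κ) ∉ B → β < d a)
    {t : ℝ} (ht : t ∈ Icc 0 β) (a : A) (m : M) (hma : (m : κ) ≠ a)
    (hmt : (m : κ) ∈ A → d m ≤ t) : (X t a).1 ≠ (Y t m).1 := by
  have h1 : Y t m = J t m := by
    by_cases hmA : (m : κ) ∈ A
    · by_cases hmB : (m : κ) ∈ B
      · have h2 := hmt hmA
        rw [hdB ⟨m, hmA⟩ hmB] at h2
        have h3 : t = β := le_antisymm ht.2 h2
        rw [h3]
        exact hYB m hmB
      · exact absurd ((hmt hmA).trans ht.2) (not_le.2 (hd ⟨m, hmA⟩ hmB))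
    · exact hY t ht m hmA
  rw [hXJ t ht.1 ht.2, h1]
  exact hJ t _ _ (Ne.symm hma)

/-- Step over the release of `B` at time `β`. -/
theorem stepD_rel (hΦ : AdmissiblePotential Φ) (hε : 0 < ε) {T : ℝ} {X : ℝ → A → PhasePoint}
    {Z : κ → PhasePoint} (hT : 0 ≤ T)
    (hX : DWorld Φ ε (fun a : A => b a) (fun a : A => d a) 0 T X)
    (h0 : ∀ a : A, X 0 a = Z a) (hR : RelD ε (fun a : A => b a) (fun a : A => d a) T X)
    (hM : ∀ a : A, (a : κ) ∈ M → d a ≤ T)
    (hI : ∀ t, Inj (fl Φ ε (gr₁ A b) (gW M A b) t Z)) {B : Finset κ} {β q : ℝ}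
    (hβ : 0 < β) (hβq : β < q) (hβT : β ≤ T) (hqT : β < T → q < T)
    (hb : ∀ k, 0 < b k → q < b k) (hbB : ∀ k ∈ B, b k ≤ 0) (hBA : B ⊆ A)
    (hdB : ∀ a : A, (a : κ) ∈ B → d a = β) (hd : ∀ a : A, (a : κ) ∉ B → q < d a)
    (hG : GoodD Φ ε M (A \ B) (fun k => b k - q)
      (fl Φ ε (gr₁ A b \ B) (gW M A b ∪ (B ∩ M)) (q - β) (fl Φ ε (gr₁ A b) (gW M A b) β Z)))
    (hIq : ∀ t, Inj (fl Φ ε (gr₁ A b \ B) (gW M A b ∪ (B ∩ M)) t
      (fl Φ ε (gr₁ A b \ B) (gW M A b ∪ (B ∩ M)) (q - β)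
        (fl Φ ε (gr₁ A b) (gW M A b) β Z)))) :
    ∃ Y : ℝ → M → PhasePoint, BWorld Φ ε (fun m : M => wb A b d m) 0 Y ∧
      (∀ m : M, Y 0 m = wz A d X Z 0 m) ∧
      ∀ t ∈ Icc 0 T, ∀ a : A, t ≤ d a → ∀ m : M, (m : κ) ≠ a → ((m : κ) ∈ A → d m ≤ t) →
        (X t a).1 ≠ (Y t m).1 := by
  have hd0 : ∀ a : A, 0 < d a := fun a => hR.d_pos hT a
  have hI0 : Inj Z := by
    have := hI 0
    rwa [fl_zero hΦ hε] at this
  set J : ℝ → κ → PhasePoint := fun t => fl Φ ε (gr₁ A b) (gW M A b) t Z with hJ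
  set H₁ : Finset κ := gr₁ A b \ B with hH₁
  set H₂ : Finset κ := gW M A b ∪ (B ∩ M) with hH₂
  have hdis : Disjoint H₁ H₂ := by
    rw [Finset.disjoint_left]
    intro k h1 h2
    rcases Finset.mem_union.1 h2 with h3 | h3
    · exact (mem_gW.1 h3).1.2 (mem_gr₁.1 (Finset.mem_sdiff.1 h1).1).1
    · exact (Finset.mem_sdiff.1 h1).2 (Finset.mem_inter.1 h3).1
  have hdβ : ∀ a : A, β ≤ d a := fun a => by
    by_cases h : (a : κ) ∈ B
    · exact (hdB a h).ge
    · exact hβq.le.trans (hd a h).le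
  have hXJ : ∀ t, 0 ≤ t → t ≤ β → ∀ a : A, X t a = J t a := fun t ht htβ a =>
    DX_eq hΦ hε hX h0 hd0 ht (htβ.trans hβT) (fun k hk => (htβ.trans hβq.le).trans (hb k hk).le)
      (fun a => htβ.trans (hdβ a)) a
  rcases hβT.lt_or_eq with hlt | heq
  · -- the motion is given after `q`
    have hqT' := hqT hlt
    have hsub : ∀ a : ↥(A \ B), (a : κ) ∈ A := fun a => (Finset.mem_sdiff.1 a.2).1
    have hnB : ∀ a : ↥(A \ B), (a : κ) ∉ B := fun a => (Finset.mem_sdiff.1 a.2).2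
    have hqd : ∀ a : ↥(A \ B), q < d (a : κ) := fun a => hd ⟨a, hsub a⟩ (hnB a)
    let e : ↥(A \ B) ↪ A := ⟨fun a => ⟨a, hsub a⟩, fun x y h => Subtype.ext (by
      simpa using congrArg Subtype.val h)⟩
    set X' : ℝ → ↥(A \ B) → PhasePoint := fun t a => X (t + q) (e a) with hX'
    have hW : DWorld Φ ε (fun a : ↥(A \ B) => b a - q) (fun a : ↥(A \ B) => d a - q) 0 (T - q)
        X' := by
      have h1 := ((hX.mono (hβ.trans hβq).le le_rfl).comp e (fun i hi => by
        have hiB : (i : κ) ∈ B := by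
          by_contra hcon
          exact hi ⟨⟨i, Finset.mem_sdiff.2 ⟨i.2, hcon⟩⟩, rfl⟩
        exact (hdB i hiB).le.trans hβq.le)).shift q
      rw [sub_self] at h1
      exact h1
    have hag : ∀ t, β ≤ t → t ≤ q → ∀ a : ↥(A \ B), X t (e a) = fl Φ ε H₁ H₂ (t - β) (J β) a :=
      fun t ht htq a => DX_after hΦ hε hX h0 hd0 hβ hβq hb hdB hd ht htq (htq.trans hqT'.le) a
    have hR' : RelD ε (fun a : ↥(A \ B) => b a - q) (fun a : ↥(A \ B) => d a - q) (T - q) X' := by
      refine ⟨fun i _ => by linarith [hqd i], fun i hi => ?_, fun i hi => ?_⟩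
      · have h1 := hR.born (e i) (by show d (i : κ) ≤ T; linarith)
        have h2 : b (i : κ) ≤ d (i : κ) := h1
        linarith
      · obtain ⟨p, h1, h2, h3, h4, h5⟩ := hR.exit (e i) (by show d (i : κ) ≤ T; linarith)
        have h3' : d (i : κ) ≤ d p := h3
        have hpB : (p : κ) ∉ B := by
          intro hp
          rw [hdB p hp] at h3'
          exact absurd (hβq.trans (hd (e i) (hnB i))) (not_lt.2 h3')
        refine ⟨⟨p, Finset.mem_sdiff.2 ⟨p.2, hpB⟩⟩, fun h => h1 ?_, ?_, ?_, ?_, ?_⟩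
        · exact Subtype.ext (congrArg (fun x : ↥(A \ B) => (x : κ)) h)
        · have h2' : b (p : κ) ≤ d (i : κ) := h2
          show b (p : κ) - q ≤ d (i : κ) - q
          linarith
        · show d (i : κ) - q ≤ d (p : κ) - q
          linarith
        · show dist (X (d (i : κ) - q + q) (e i)).1 (X (d (i : κ) - q + q) p).1 = ε
          rw [sub_add_cancel]
          exact h4
        · show 0 < inner ℝ ((X (d (i : κ) - q + q) (e i)).1 - (X (d (i : κ) - q + q) p).1)
            ((X (d (i : κ) - q + q) (e i)).2 - (X (d (i : κ) - q + q) p).2)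
          rw [sub_add_cancel]
          exact h5
    obtain ⟨Y', hY', hY'0, hN⟩ := hG (fun k => d k - q) (T - q) X' (by linarith) hW (fun a => by
      show X (0 + q) (e a) = _
      rw [zero_add]
      exact hag q hβq.le le_rfl a) hR' (fun a ha => by
        have h1 : d (a : κ) ≤ T := hM (e a) ha
        linarith)
    obtain ⟨Y, hY, hYz, hYq, hYm, hYl⟩ := world_relD hΦ hε hX h0 hd0 hI0 hβ hβq hβT hb hbB hBA
      hdB hd (hI β) hY' (fun m hm => by
        rw [hY'0]
        unfold wz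
        rw [dif_neg hm]) (fun m hmA hmB => by
        refine ⟨rfl, ?_⟩
        rw [hY'0]
        unfold wz
        rw [dif_pos (Finset.mem_sdiff.2 ⟨hmA, hmB⟩)]
        simp only [hX', sub_add_cancel]
        unfold lineAt
        congr 3
        ring)
    refine ⟨Y, hY, hYz, fun t ht a hta m hma hmt => ?_⟩
    rcases le_total t β with h1 | h1
    · refine nc_before (J := J) (B := B) hI hXJ hYl (fun m hmB => ?_) hdB
        (fun a ha => hβq.trans (hd a ha)) ⟨ht.1, h1⟩ a m hma hmt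
      rw [hYm β ⟨le_rfl, hβq.le⟩ m (fun h => (Finset.mem_sdiff.1 h).2 hmB), sub_self,
        fl_zero hΦ hε]
    rcases h1.lt_or_eq with h1' | h1'
    swap
    · subst h1'
      refine nc_before (J := J) (B := B) hI hXJ hYl (fun m hmB => ?_) hdB
        (fun a ha => hβq.trans (hd a ha)) ⟨ht.1, le_rfl⟩ a m hma hmt
      rw [hYm β ⟨le_rfl, hβq.le⟩ m (fun h => (Finset.mem_sdiff.1 h).2 hmB), sub_self,
        fl_zero hΦ hε]
    have haB : (a : κ) ∉ B := fun h => by
      rw [hdB a h] at hta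
      exact absurd hta (not_le.2 h1')
    have haAB : (a : κ) ∈ A \ B := Finset.mem_sdiff.2 ⟨a.2, haB⟩
    rcases le_total t q with h2 | h2
    · have hmAB : (m : κ) ∉ A \ B := fun h => by
        have h3 := Finset.mem_sdiff.1 h
        exact absurd ((hmt h3.1).trans h2) (not_le.2 (hd ⟨m, h3.1⟩ h3.2))
      have h3 : X t a = fl Φ ε H₁ H₂ (t - β) (J β) a := hag t h1 h2 ⟨a, haAB⟩
      rw [h3, hYm t ⟨h1, h2⟩ m hmAB]
      have h4 := hIq (t - q)
      rw [← fl_add hΦ hε hdis] at h4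
      have h5 : q - β + (t - q) = t - β := by ring
      rw [h5] at h4
      exact h4 _ _ (Ne.symm hma)
    · have h3 := hN (t - q) ⟨by linarith, by linarith [ht.2]⟩ ⟨a, haAB⟩
        (show t - q ≤ d (a : κ) - q by linarith) m hma fun h => by
          have := hmt (Finset.mem_sdiff.1 h).1
          show d (m : κ) - q ≤ t - q
          linarith
      rw [hYq t h2]
      have h4 : X' (t - q) ⟨a, haAB⟩ = X t a := by
        simp only [hX', sub_add_cancel]
        rfl
      rw [h4] at h3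
      exact h3
  · -- nobody is released after `β = T`
    have hnM : ∀ a : A, (a : κ) ∉ B → (a : κ) ∉ M := fun a ha haM => by
      have h1 := hM a haM
      rw [← heq] at h1
      exact absurd (h1.trans_lt hβq) (not_lt.2 (hd a ha).le)
    set Z' : κ → PhasePoint := fl Φ ε H₁ H₂ (q - β) (J β) with hZ'
    have hW : DWorld Φ ε (fun a : ↥(A \ B) => b a - q) (fun _ : ↥(A \ B) => (1 : ℝ)) 0 0
        (fun _ a => Z' a) := by
      refine ⟨fun i => continuousOn_const, fun t ht ht' => ?_, fun t ht ht' => ?_⟩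
      · exact absurd ht' (not_lt.2 ht)
      · exact absurd ht' (not_lt.2 ht)
    obtain ⟨Y', hY', hY'0, -⟩ := hG (fun _ => 1) 0 (fun _ a => Z' a) le_rfl hW (fun a => rfl)
      ⟨fun i hi => absurd hi (by norm_num), fun i hi => absurd hi (by norm_num),
        fun i hi => absurd hi (by norm_num)⟩ (fun a ha => absurd ha
          (hnM ⟨a, (Finset.mem_sdiff.1 a.2).1⟩ (Finset.mem_sdiff.1 a.2).2))
    obtain ⟨Y, hY, hYz, hYq, hYm, hYl⟩ := world_relD hΦ hε hX h0 hd0 hI0 hβ hβq hβT hb hbB hBA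
      hdB hd (hI β) hY' (fun m hm => by
        rw [hY'0]
        unfold wz
        rw [dif_neg hm]) (fun m hmA hmB => absurd m.2 (hnM ⟨m, hmA⟩ hmB))
    refine ⟨Y, hY, hYz, fun t ht a hta m hma hmt => ?_⟩
    refine nc_before (J := J) (B := B) hI hXJ hYl (fun m hmB => ?_) hdB
      (fun a ha => hβq.trans (hd a ha)) ⟨ht.1, ht.2.trans heq.ge⟩ a m hma hmt
    rw [hYm β ⟨le_rfl, hβq.le⟩ m (fun h => (Finset.mem_sdiff.1 h).2 hmB), sub_self,
      fl_zero hΦ hε]

theorem ae_goodD_aux (hΦ : AdmissiblePotential Φ) (hε : 0 < ε) (M : Finset κ) :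
    ∀ (n : ℕ) (A : Finset κ) (b : κ → ℝ),
      A.card + (Finset.univ.filter fun k => 0 < b k).card ≤ n →
      ∀ᵐ Z : κ → PhasePoint, GoodD Φ ε M A b Z := by
  intro n
  induction n with
  | zero =>
    intro A b hn
    have hA : A = ∅ := Finset.card_eq_zero.1 (by omega)
    subst hA
    have h1 : ∀ᵐ Z : κ → PhasePoint, BWorld Φ ε (fun m : M => b m) 0
        (fun t => evo Φ ε (fun m : M => b m) 0 t (fun m : M => Z m)) :=
      ae_restrict (ae_bworld (ι := M) hΦ hε (fun m : M => b m) 0)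
    filter_upwards [h1] with Z hZ d T X _ _ _ _ _
    refine ⟨_, hZ.congr_births fun m t _ => ?_, fun m => ?_, fun t _ a => ?_⟩
    · unfold wb
      rw [if_neg (Finset.notMem_empty _)]
    · rw [evo_self hΦ hε]
      unfold wz
      rw [dif_neg (Finset.notMem_empty _)]
    · exact absurd a.2 (Finset.notMem_empty _)
  | succ n ih =>
    intro A b hn
    have hd : Disjoint (gr₁ A b) (gW M A b) := disjoint_gW
    have g1 := ae_inj_fl (κ := κ) hΦ hε hd
    have g2 : ∀ᵐ Z : κ → PhasePoint, ∀ k, 0 < b k → (∀ k', 0 < b k' → b k ≤ b k') →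
        GoodD Φ ε M A (fun l => b l - b k) (fl Φ ε (gr₁ A b) (gW M A b) (b k) Z) ∧
        NoEq ε (fl Φ ε (gr₁ A b) (gW M A b) (b k) Z) := by
      rw [ae_all_iff]; intro k
      by_cases hk : 0 < b k ∧ ∀ k', 0 < b k' → b k ≤ b k'
      · have h1 : ∀ᵐ Z : κ → PhasePoint, GoodD Φ ε M A (fun l => b l - b k) Z := by
          refine ih A _ ?_
          have hlt : (Finset.univ.filter fun l => 0 < b l - b k).card <
              (Finset.univ.filter fun l => 0 < b l).card := by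
            refine Finset.card_lt_card ?_
            rw [Finset.ssubset_iff_of_subset]
            · exact ⟨k, by simp [hk.1], by simp⟩
            · intro l hl
              simp only [Finset.mem_filter, Finset.mem_univ, true_and] at hl ⊢
              linarith [hk.1]
          omega
        have h2 := (measurePreserving_fl (κ := κ) hΦ hε hd (b k)).quasiMeasurePreserving.ae
          (h1.and (ae_noEq hΦ hε))
        filter_upwards [h2] with Z hZ _ _ using hZ
      · exact Eventually.of_forall fun Z h1 h2 => absurd ⟨h1, h2⟩ hk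
    have g3 : ∀ᵐ Z : κ → PhasePoint, ∀ B : Finset κ, B ⊆ A → B.Nonempty →
        ∀ q : ℚ, (0 : ℝ) < q → ∀ β : ℝ, ∀ i j : κ,
        Inj (fl Φ ε (gr₁ A b) (gW M A b) β Z) →
        dist (fl Φ ε (gr₁ A b) (gW M A b) β Z i).1 (fl Φ ε (gr₁ A b) (gW M A b) β Z j).1 = ε →
        0 < inner ℝ ((fl Φ ε (gr₁ A b) (gW M A b) β Z i).1 - (fl Φ ε (gr₁ A b) (gW M A b) β Z j).1)
          ((fl Φ ε (gr₁ A b) (gW M A b) β Z i).2 - (fl Φ ε (gr₁ A b) (gW M A b) β Z j).2) →
        GoodD Φ ε M (A \ B) (fun k => b k - q)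
          (fl Φ ε (gr₁ A b \ B) (gW M A b ∪ (B ∩ M)) (q - β)
            (fl Φ ε (gr₁ A b) (gW M A b) β Z)) ∧
        ∀ t, Inj (fl Φ ε (gr₁ A b \ B) (gW M A b ∪ (B ∩ M)) t
          (fl Φ ε (gr₁ A b \ B) (gW M A b ∪ (B ∩ M)) (q - β)
            (fl Φ ε (gr₁ A b) (gW M A b) β Z))) := by
      rw [ae_all_iff]; intro B
      rw [ae_all_iff]; intro hBA
      rw [ae_all_iff]; intro hBn
      rw [ae_all_iff]; intro q
      rw [ae_all_iff]; intro hq
      have hd' : Disjoint (gr₁ A b \ B) (gW M A b ∪ (B ∩ M)) := by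
        rw [Finset.disjoint_left]
        intro k h1 h2
        rcases Finset.mem_union.1 h2 with h3 | h3
        · exact (mem_gW.1 h3).1.2 (mem_gr₁.1 (Finset.mem_sdiff.1 h1).1).1
        · exact (Finset.mem_sdiff.1 h1).2 (Finset.mem_inter.1 h3).1
      have h1 : ∀ᵐ Z : κ → PhasePoint, GoodD Φ ε M (A \ B) (fun k => b k - q) Z := by
        refine ih (A \ B) _ ?_
        have hlt : (A \ B).card < A.card := by
          refine Finset.card_lt_card ?_
          rw [Finset.ssubset_iff_of_subset Finset.sdiff_subset]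
          obtain ⟨k, hk⟩ := hBn
          exact ⟨k, hBA hk, fun h => (Finset.mem_sdiff.1 h).2 hk⟩
        have hle : (Finset.univ.filter fun l => 0 < b l - (q : ℝ)).card ≤
            (Finset.univ.filter fun l => 0 < b l).card := by
          refine Finset.card_le_card fun l hl => ?_
          simp only [Finset.mem_filter, Finset.mem_univ, true_and] at hl ⊢
          linarith
        omega
      have h2 := ae_inj_fl (κ := κ) hΦ hε hd'
      have h3 := transfer_null (G₁ := gr₁ A b) (G₂ := gW M A b) (H₁ := gr₁ A b \ B)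
        (H₂ := gW M A b ∪ (B ∩ M)) hΦ hε hd hd' q (ae_iff.1 (h1.and h2))
      filter_upwards [measure_eq_zero_iff_ae_notMem.1 h3] with Z hZ β i j hI hdist hin
      by_contra hcon
      exact hZ ⟨β, i, j, hI, hdist, hin, hcon⟩
    have g4 : ∀ᵐ Z : κ → PhasePoint, BWorld Φ ε (fun m : M => b m) 0
        (fun t => evo Φ ε (fun m : M => b m) 0 t (fun m : M => Z m)) :=
      ae_restrict (ae_bworld (ι := M) hΦ hε (fun m : M => b m) 0)
    filter_upwards [g1, g2, g3, g4] with Z hg1 hg2 hg3 hg4 d T X hT hX h0 hR hM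
    have hd0 : ∀ a : A, 0 < d a := fun a => hR.d_pos hT a
    by_cases hdie : ∃ a : A, d a ≤ T
    · -- somebody dies
      obtain ⟨a₁, ha₁⟩ := hdie
      obtain ⟨i₀, hi₀, hmin⟩ := Finset.exists_min_image A d ⟨a₁, a₁.2⟩
      have hmin' : ∀ a : A, d i₀ ≤ d a := fun a => hmin a a.2
      set β := d i₀ with hβ
      have hβT : β ≤ T := (hmin' a₁).trans ha₁
      have hβ0 : 0 < β := hd0 ⟨i₀, hi₀⟩
      obtain ⟨p, hpi, hbp, hdp, hpd, hpin⟩ := hR.exit ⟨i₀, hi₀⟩ hβT
      have hpd' : dist (X β ⟨i₀, hi₀⟩).1 (X β p).1 = ε := hpd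
      have hpin' : 0 < inner ℝ ((X β ⟨i₀, hi₀⟩).1 - (X β p).1)
          ((X β ⟨i₀, hi₀⟩).2 - (X β p).2) := hpin
      by_cases hex : ∃ k, 0 < b k ∧ b k ≤ β
      · -- an external birth comes first
        obtain ⟨k₁, hk₁, hk₁β⟩ := hex
        obtain ⟨k₀, hk₀, hk₀min⟩ := Finset.exists_min_image (Finset.univ.filter fun k => 0 < b k) b
          ⟨k₁, by simp [hk₁]⟩
        have hk₀0 : 0 < b k₀ := (Finset.mem_filter.1 hk₀).2
        have hk₀m : ∀ k', 0 < b k' → b k₀ ≤ b k' := fun k' hk' => hk₀min k' (by simp [hk'])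
        have hle : b k₀ ≤ β := (hk₀m k₁ hk₁).trans hk₁β
        obtain ⟨hG, hNE⟩ := hg2 k₀ hk₀0 hk₀m
        have hlt : b k₀ < β := by
          refine lt_of_le_of_ne hle fun he => ?_
          have h1 : ∀ a : A, X β a = fl Φ ε (gr₁ A b) (gW M A b) (b k₀) Z a := by
            intro a
            rw [← he]
            exact DX_eq hΦ hε hX h0 hd0 hk₀0.le (hle.trans hβT) hk₀m
              (fun a => hle.trans (hmin' a)) a
          rw [h1, h1] at hpd'
          exact hNE _ _ (fun h => hpi (Subtype.ext h.symm)) hpd'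
        exact stepD_ext hΦ hε hg1 hk₀0 hk₀m hG (hle.trans hβT) hX h0 hR hM
          (fun a => hlt.trans_le (hmin' a))
      · -- a release comes first
        push Not at hex
        set B : Finset κ := A.filter fun k => d k = β with hB
        have hBmem : ∀ k, k ∈ B ↔ k ∈ A ∧ d k = β := by
          intro k
          rw [hB, Finset.mem_filter]
        have hev : ∀ᶠ x in 𝓝[>] β, (∀ k, 0 < b k → x < b k) ∧
            (∀ k, k ∈ A → k ∉ B → x < d k) ∧ (β < T → x < T) := by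
          refine (Filter.eventually_all.2 fun k => ?_).and
            ((Filter.eventually_all.2 fun k => ?_).and ?_)
          · by_cases hk : 0 < b k
            · exact mem_of_superset (Ioo_mem_nhdsGT (hex k hk)) fun x hx _ => hx.2
            · exact Eventually.of_forall fun x h => absurd h hk
          · by_cases hk : k ∈ A ∧ k ∉ B
            · have hlt : β < d k := by
                refine lt_of_le_of_ne (hmin' ⟨k, hk.1⟩) fun he => ?_
                exact hk.2 ((hBmem k).2 ⟨hk.1, he.symm⟩)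
              exact mem_of_superset (Ioo_mem_nhdsGT hlt) fun x hx _ _ => hx.2
            · exact Eventually.of_forall fun x h1 h2 => absurd ⟨h1, h2⟩ hk
          · by_cases hk : β < T
            · exact mem_of_superset (Ioo_mem_nhdsGT hk) fun x hx _ => hx.2
            · exact Eventually.of_forall fun x h => absurd h hk
        obtain ⟨r, hr, hrs⟩ := (mem_nhdsGT_iff_exists_Ioo_subset).1 hev
        obtain ⟨q, hq1, hq2⟩ := exists_rat_btwn (show β < r from hr)
        obtain ⟨hqb, hqd, hqT⟩ := hrs ⟨hq1, hq2⟩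
        have hXβ : ∀ a : A, X β a = fl Φ ε (gr₁ A b) (gW M A b) β Z a := fun a =>
          DX_eq hΦ hε hX h0 hd0 hβ0.le hβT (fun k hk => (hex k hk).le) hmin' a
        rw [hXβ, hXβ] at hpd' hpin'
        obtain ⟨hG, hIq⟩ := hg3 B (Finset.filter_subset _ _) ⟨i₀, (hBmem i₀).2 ⟨hi₀, rfl⟩⟩ q
          (hβ0.trans hq1) β i₀ p (hg1 β) hpd' hpin'
        refine stepD_rel hΦ hε hT hX h0 hR hM hg1 hβ0 hq1 hβT hqT hqb (fun k hk => ?_)
          (Finset.filter_subset _ _) (fun a ha => ((hBmem a).1 ha).2)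
          (fun a ha => hqd a a.2 ha) hG hIq
        by_contra hcon
        have hkA := ((hBmem k).1 hk).1
        have hkd := ((hBmem k).1 hk).2
        have h1 := hR.born ⟨k, hkA⟩ (show d k ≤ T by rw [hkd]; exact hβT)
        have h2 : b k ≤ d k := h1
        rw [hkd] at h2
        exact absurd h2 (not_le.2 (hex k (not_le.1 hcon)))
    · -- nobody dies in `[0, T]`
      push Not at hdie
      have hAM : ∀ m : M, (m : κ) ∉ A := fun m hm => absurd (hM ⟨m, hm⟩ m.2)
        (not_le.2 (hdie ⟨m, hm⟩))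
      by_cases hex : ∃ k, 0 < b k ∧ b k ≤ T
      · obtain ⟨k₁, hk₁, hk₁T⟩ := hex
        obtain ⟨k₀, hk₀, hk₀min⟩ := Finset.exists_min_image (Finset.univ.filter fun k => 0 < b k) b
          ⟨k₁, by simp [hk₁]⟩
        have hk₀0 : 0 < b k₀ := (Finset.mem_filter.1 hk₀).2
        have hk₀m : ∀ k', 0 < b k' → b k₀ ≤ b k' := fun k' hk' => hk₀min k' (by simp [hk'])
        have hle : b k₀ ≤ T := (hk₀m k₁ hk₁).trans hk₁T
        exact stepD_ext hΦ hε hg1 hk₀0 hk₀m (hg2 k₀ hk₀0 hk₀m).1 hle hX h0 hR hM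
          (fun a => hle.trans_lt (hdie a))
      · push Not at hex
        have hY : BWorld Φ ε (fun m : M => wb A b d m) 0
            (fun t => evo Φ ε (fun m : M => b m) 0 t (fun m : M => Z m)) :=
          hg4.congr_births fun m t _ => by
            unfold wb
            rw [if_neg (hAM m)]
        refine ⟨_, hY, fun m => ?_, fun t ht a _ m hma _ => ?_⟩
        · rw [evo_self hΦ hε]
          unfold wz
          rw [dif_neg (hAM m)]
        · have h1 := hg4.eq_flowA hΦ hε ht.1 (fun m' hm' => ht.2.trans (hex m' hm').le)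
          have h2 : alive (fun m : M => b m) 0 = (gW M A b).subtype (· ∈ M) := by
            ext m
            rw [mem_alive, Finset.mem_subtype, mem_gW]
            exact ⟨fun h => ⟨⟨m.2, hAM m⟩, h⟩, fun h => h.2⟩
          have h3 : evo Φ ε (fun m : M => b m) 0 t (fun m : M => Z m) m =
              fl Φ ε (gr₁ A b) (gW M A b) t Z m := by
            rw [h1, h2, sub_zero, evo_self hΦ hε]
            exact flW hΦ hε gW_subset t Z _ (fun _ _ => rfl) (not_mem_gr₁ (hAM m)) rfl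
          show (X t a).1 ≠ (evo Φ ε (fun m : M => b m) 0 t (fun m : M => Z m) m).1
          rw [h3, DX_eq hΦ hε hX h0 hd0 ht.1 ht.2 (fun k hk => ht.2.trans (hex k hk).le)
            (fun a => ht.2.trans (hdie a).le) a]
          exact hg1 t _ _ (Ne.symm hma)

/-- **The transfer theorem with deaths.** -/
theorem ae_goodD (hΦ : AdmissiblePotential Φ) (hε : 0 < ε) (M A : Finset κ) (b : κ → ℝ) :
    ∀ᵐ Z : κ → PhasePoint, GoodD Φ ε M A b Z :=
  ae_goodD_aux hΦ hε M _ A b le_rfl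

end

end Crest.Agent.R122.TransOk151
end

-- ▼ part R122/TransD3_151

/-!
# Good worlds from release data with deaths (row 122), helper151

* `ae_worldD`, `ae_worldD_prod` : `ae_goodD` for an isolated group `α` and a world `ω`.
* `path_eq_of` : the path of a marked world from a world with births.
* `ok_add_last` : lines born last, at a place where nobody is.
* `ae_okFamD` : `MW.OkFam` for the released lines, and no coincidence between particles of the
  isolated group which are not dead and the world, at all times.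
-/

set_option autoImplicit false
set_option linter.unusedSectionVars false

open MeasureTheory Set Filter Topology
open scoped ENNReal NNReal
open Crest.AnalysisR.Kinetic
open Crest.Agent.R122.Flow671 Crest.Agent.R122.Loc45 Crest.Agent.R122.Ins45
open Crest.Agent.R122.Simul984 Crest.Agent.R122.Inf879 Crest.Agent.R122.EDefs602
open Crest.Agent.R122.MWAlg255

namespace Crest.Agent.R122.TransOk151

noncomputable section

open scoped Classical

variable {Φ : Space3 → ℝ} {ε : ℝ}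

section world

variable {α ω : Type} [Fintype α] [Fintype ω]

/-- **Worlds with released lines**, joint statement on `α ⊕ ω`. -/
theorem ae_worldD (hΦ : AdmissiblePotential Φ) (hε : 0 < ε) (bα : α → ℝ) (bω : ω → ℝ) :
    ∀ᵐ Z : α ⊕ ω → PhasePoint, ∀ (S : Finset α) (d : α → ℝ) (T : ℝ) (X : ℝ → α → PhasePoint),
      0 ≤ T → DWorld Φ ε bα d 0 T X → (∀ a, X 0 a = Z (Sum.inl a)) → RelD ε bα d T X →
      (∀ a ∈ S, d a ≤ T) →
      ∃ Y : ℝ → ω ⊕ S → PhasePoint, BWorld Φ ε (Sum.elim bω fun i : S => d i) 0 Y ∧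
        (Y 0 = Sum.elim (fun x => Z (Sum.inr x)) fun i : S => lineAt (d i) (X (d i) i) 0) ∧
        ∀ t ∈ Icc 0 T, ∀ a : α, t ≤ d a → (∀ y : ω, (X t a).1 ≠ (Y t (Sum.inl y)).1) ∧
          ∀ i : S, (i : α) ≠ a → d i ≤ t → (X t a).1 ≠ (Y t (Sum.inr i)).1 := by
  rw [ae_all_iff]
  intro S
  filter_upwards [ae_goodD (κ := α ⊕ ω) hΦ hε (grM ω S) (grA α ω) (Sum.elim bα bω)] with Z hZ d T X
    hT hX h0 hR hS
  have hb : (fun a : ↥(grA α ω) => Sum.elim bα bω (a : α ⊕ ω)) = fun a => bα (eqA a) := by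
    funext a
    rw [← inl_eqA a]
    rfl
  have hd : (fun a : ↥(grA α ω) => Sum.elim d (fun _ : ω => (0 : ℝ)) (a : α ⊕ ω)) =
      fun a => d (eqA a) := by
    funext a
    rw [← inl_eqA a]
    rfl
  obtain ⟨Y, hY, hY0, hN⟩ := hZ (Sum.elim d fun _ => 0) T (fun t a => X t (eqA a)) hT (by
      rw [hb, hd]
      exact hX.comp eqA.toEmbedding fun i hi => absurd ⟨eqA.symm i, eqA.apply_symm_apply i⟩ hi)
    (fun a => by rw [h0, inl_eqA]) (by
      rw [hb, hd]
      refine ⟨fun i hi => hR.pos _ hi, fun i hi => hR.born _ hi, fun i hi => ?_⟩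
      obtain ⟨p, h1, h2, h3, h4, h5⟩ := hR.exit _ hi
      refine ⟨eqA.symm p, fun h => h1 ?_, ?_, ?_, ?_, ?_⟩
      · rw [← h, Equiv.apply_symm_apply]
      · simpa only [Equiv.apply_symm_apply] using h2
      · simpa only [Equiv.apply_symm_apply] using h3
      · simpa only [Equiv.apply_symm_apply] using h4
      · simpa only [Equiv.apply_symm_apply] using h5)
    (fun a ha => by
      have ha' := ha
      rw [← inl_eqA a, inl_mem_grM] at ha'
      rw [← inl_eqA a]
      exact hS _ ha')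
  refine ⟨fun t x => Y t (eqM S x), ?_, ?_, fun t ht a hta => ⟨fun y => ?_, fun i hia hit => ?_⟩⟩
  · have h1 := hY.equiv (eqM S)
    have h2 : (fun x : ω ⊕ S => wb (grA α ω) (Sum.elim bα bω) (Sum.elim d fun _ => 0)
        (eqM S x : α ⊕ ω)) = Sum.elim bω fun i : S => d i := by
      funext x
      rcases x with x | x
      · show wb _ _ _ (Sum.inr x) = _
        unfold wb
        rw [if_neg (inr_not_mem_grA x)]
        rfl
      · show wb _ _ _ (Sum.inl x.1) = _
        unfold wb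
        rw [if_pos (inl_mem_grA x.1)]
        rfl
    rw [h2] at h1
    exact h1
  · funext x
    show Y 0 (eqM S x) = _
    rw [hY0]
    rcases x with x | x
    · show wz _ _ _ _ _ (Sum.inr x) = _
      unfold wz
      rw [dif_neg (inr_not_mem_grA x)]
      rfl
    · show wz _ _ _ _ _ (Sum.inl x.1) = _
      unfold wz
      rw [dif_pos (inl_mem_grA x.1)]
      rfl
  · have h1 := hN t ht (eqA.symm a) (show t ≤ Sum.elim d (fun _ => 0)
      ((eqA.symm a : ↥(grA α ω)) : α ⊕ ω) from hta) (eqM S (Sum.inl y)) (by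
        show (Sum.inr y : α ⊕ ω) ≠ Sum.inl a
        exact Sum.inr_ne_inl) (fun h => absurd h (inr_not_mem_grA y))
    simp only [Equiv.apply_symm_apply] at h1
    exact h1
  · have h1 := hN t ht (eqA.symm a) (show t ≤ Sum.elim d (fun _ => 0)
      ((eqA.symm a : ↥(grA α ω)) : α ⊕ ω) from hta) (eqM S (Sum.inr i)) (by
        show (Sum.inl i.1 : α ⊕ ω) ≠ Sum.inl a
        exact fun h => hia (Sum.inl_injective h)) (fun _ => hit)
    simp only [Equiv.apply_symm_apply] at h1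
    exact h1

/-- Product form. -/
theorem ae_worldD_prod (hΦ : AdmissiblePotential Φ) (hε : 0 < ε) (bα : α → ℝ) (bω : ω → ℝ) :
    ∀ᵐ p ∂((volume : Measure (α → PhasePoint)).prod (volume : Measure (ω → PhasePoint))),
      ∀ (S : Finset α) (d : α → ℝ) (T : ℝ) (X : ℝ → α → PhasePoint),
      0 ≤ T → DWorld Φ ε bα d 0 T X → X 0 = p.1 → RelD ε bα d T X → (∀ a ∈ S, d a ≤ T) →
      ∃ Y : ℝ → ω ⊕ S → PhasePoint, BWorld Φ ε (Sum.elim bω fun i : S => d i) 0 Y ∧
        (Y 0 = Sum.elim p.2 fun i : S => lineAt (d i) (X (d i) i) 0) ∧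
        ∀ t ∈ Icc 0 T, ∀ a : α, t ≤ d a → (∀ y : ω, (X t a).1 ≠ (Y t (Sum.inl y)).1) ∧
          ∀ i : S, (i : α) ≠ a → d i ≤ t → (X t a).1 ≠ (Y t (Sum.inr i)).1 := by
  have he := (volume_measurePreserving_sumPiEquivProdPi_symm
    (fun _ : α ⊕ ω => PhasePoint)).quasiMeasurePreserving
  have h1 := he.ae (ae_worldD (ω := ω) hΦ hε bα bω)
  rw [Measure.volume_eq_prod] at h1
  filter_upwards [h1] with p hp S d T X hT hX h0 hR hS
  exact hp S d T X hT hX (fun a => by rw [h0]; rfl) hR hS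

end world

/-! ### Marked worlds -/

section mw

variable {ι κ : Type} [Fintype ι] [Fintype κ]

theorem path_eq_of (hΦ : AdmissiblePotential Φ) (hε : 0 < ε) {Z : MW ι}
    {Y : ℝ → ι → PhasePoint} (hY : BWorld Φ ε Z.b 0 Y) (hY0 : Y 0 = Z.z) {t : ℝ} (ht : 0 ≤ t) :
    Z.path Φ ε t = Y t := by
  rw [hY.eq_evo hΦ hε ht, hY0]
  rfl

/-- Gluing of worlds with births (one-sided derivatives). -/
theorem bworld_glue {b : ι → ℝ} {s s' : ℝ} {X X₁ X₂ : ℝ → ι → PhasePoint} (hss' : s ≤ s')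
    (h₁c : ContinuousOn X₁ (Icc s s'))
    (h₁d : ∀ t ∈ Ico s s', HasDerivWithinAt X₁ (bf Φ ε b t (X₁ t)) (Ici t) t)
    (h₁m : ∀ t ∈ Ico s s', BDom Φ b t (X₁ t)) (h₂ : BWorld Φ ε b s' X₂)
    (hX₁ : ∀ t ∈ Icc s s', X t = X₁ t) (hX₂ : ∀ t, s' ≤ t → X t = X₂ t) :
    BWorld Φ ε b s X where
  cont := by
    have h3 : Ici s = Icc s s' ∪ Ici s' := by
      ext t
      simp only [mem_Ici, mem_union, mem_Icc]
      constructor
      · intro h
        rcases le_total t s' with h' | h'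
        · exact Or.inl ⟨h, h'⟩
        · exact Or.inr h'
      · rintro (h | h)
        · exact h.1
        · exact hss'.trans h
    rw [h3]
    refine ContinuousOn.union_of_isClosed ?_ ?_ isClosed_Icc isClosed_Ici
    · exact h₁c.congr hX₁
    · exact h₂.cont.congr fun t ht => hX₂ t ht
  der t ht := by
    rcases lt_or_ge t s' with h | h
    · rw [hX₁ t ⟨ht, h.le⟩]
      refine (h₁d t ⟨ht, h⟩).congr_of_eventuallyEq ?_ (hX₁ t ⟨ht, h.le⟩)
      have h4 : Icc t s' ∈ 𝓝[≥] t := Icc_mem_nhdsGE h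
      filter_upwards [h4] with u hu
      exact hX₁ u ⟨ht.trans hu.1, hu.2⟩
    · rw [hX₂ t h]
      exact (h₂.der t h).congr (fun u hu => hX₂ u (h.trans hu)) (hX₂ t h)
  dom t ht := by
    rcases lt_or_ge t s' with h | h
    · rw [hX₁ t ⟨ht, h.le⟩]
      exact h₁m t ⟨ht, h⟩
    · rw [hX₂ t h]
      exact h₂.dom t h

/-- **Lines born last**, at a place where nobody is. -/
theorem ok_add_last (hΦ : AdmissiblePotential Φ) (hε : 0 < ε) {Z : MW ι} (hZ : Z.Ok Φ ε)
    (hb : ∀ i, 0 ≤ Z.b i) {B : MW κ} {s : ℝ} (hs : 0 < s) (hBb : ∀ k, B.b k = s)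
    (hZs : ∀ i, Z.b i < s)
    (hBs : ∀ k l, k ≠ l → StartSep ε (lineAt 0 (B.z k) s) (lineAt 0 (B.z l) s))
    (hne : ∀ i k, (Z.path Φ ε s i).1 ≠ (lineAt 0 (B.z k) s).1) : (Z.add B).Ok Φ ε := by
  set Zs : ι ⊕ κ → PhasePoint := Sum.elim (Z.path Φ ε s) fun k => lineAt 0 (B.z k) s with hZs'
  have hBd : ∀ k l, k ≠ l → (lineAt 0 (B.z k) s).1 ≠ (lineAt 0 (B.z l) s).1 := by
    intro k l hkl h
    rcases hBs k l hkl with h1 | h1
    · rw [h, dist_self] at h1
      exact absurd h1 (not_lt.2 hε.le)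
    · rw [h, dist_self] at h1
      exact hε.ne h1.1
  have hD : Zs ∈ Dom Φ (ι ⊕ κ) :=
    Dom_sum_elim ((hZ.bw.dom s hs.le).imp id fun h i j hij => h i j hij (hZs i).le (hZs j).le)
      (Or.inr hBd) hne
  have hW : World Φ ε (fun t => flow Φ ε (t - s) Zs) := by
    have h1 := (world_flow hΦ hε hD).shift (-s)
    have h2 : (fun t => flow Φ ε (-s + t) Zs) = fun t => flow Φ ε (t - s) Zs := by
      funext t
      rw [neg_add_eq_sub]
    rwa [h2] at h1
  have hB : BWorld Φ ε (Z.add B).b s (fun t => flow Φ ε (t - s) Zs) := World.bworld hW (by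
    rintro (i | k)
    · exact (hZs i).le
    · exact (hBb k).le)
  set Y : ℝ → ι ⊕ κ → PhasePoint := fun t =>
    if t < s then Sum.elim (Z.path Φ ε t) (fun k => lineAt 0 (B.z k) t)
    else flow Φ ε (t - s) Zs with hY
  have hY₁ : ∀ t ∈ Icc 0 s, Y t = Sum.elim (Z.path Φ ε t) (fun k => lineAt 0 (B.z k) t) := by
    intro t ht
    rcases ht.2.lt_or_eq with h1 | h1
    · simp only [hY, if_pos h1]
    · subst h1
      simp only [hY, lt_irrefl, if_false]
      rw [sub_self, Flow671.flow_zero hΦ hε]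
  have hY₂ : ∀ t, s ≤ t → Y t = flow Φ ε (t - s) Zs := fun t ht => by
    simp only [hY, if_neg (not_lt.2 ht)]
  have hYw : BWorld Φ ε (Z.add B).b 0 Y := by
    refine bworld_glue hs.le ?_ (fun t ht => ?_) (fun t ht => ?_) hB hY₁ hY₂
    · refine continuousOn_pi.2 ?_
      rintro (i | k)
      · exact (hZ.bw.cont_apply i).mono fun t ht => ht.1
      · exact (continuous_lineAt 0 (B.z k)).continuousOn
    · rw [hasDerivWithinAt_pi]
      rintro (i | k)
      · have h1 := (hasDerivWithinAt_pi.1 (hZ.bw.der t ht.1)) i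
        have h2 : bf Φ ε (Z.add B).b t (Sum.elim (Z.path Φ ε t)
            fun k => lineAt 0 (B.z k) t) (Sum.inl i) = bf Φ ε Z.b t (Z.path Φ ε t) i := by
          unfold bf
          rw [Fintype.sum_sum_type]
          change ((Z.path Φ ε t i).2, if Z.b i ≤ t then -(1 / ε) •
            ((∑ j, (if Z.b j ≤ t then
              gradient Φ ((1 / ε) • ((Z.path Φ ε t i).1 - (Z.path Φ ε t j).1)) else 0)) +
            ∑ j, (if B.b j ≤ t then
              gradient Φ ((1 / ε) • ((Z.path Φ ε t i).1 - (lineAt 0 (B.z j) t).1)) else 0))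
              else 0) = _
          have h3 : (∑ j, (if B.b j ≤ t then
              gradient Φ ((1 / ε) • ((Z.path Φ ε t i).1 - (lineAt 0 (B.z j) t).1)) else 0))
              = 0 := by
            refine Finset.sum_eq_zero fun j _ => ?_
            rw [if_neg]
            rw [hBb]
            exact not_le.2 ht.2
          rw [h3, add_zero]
        rw [h2]
        exact h1
      · have h2 : bf Φ ε (Z.add B).b t (Sum.elim (Z.path Φ ε t)
            fun k => lineAt 0 (B.z k) t) (Sum.inr k) = ((lineAt 0 (B.z k) t).2, 0) := by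
          refine (bf_of_unborn Φ ε (b := (Z.add B).b) _ (i := Sum.inr k) ?_).trans rfl
          show t < B.b k
          rw [hBb]
          exact ht.2
        rw [h2]
        exact (hasDerivAt_lineAt 0 (B.z k) t).hasDerivWithinAt
    · refine (hZ.bw.dom t ht.1).imp id fun h => ?_
      rintro (i | k) (j | l) hij hi hj
      · exact h i j (fun h' => hij (by rw [h'])) hi hj
      · exact absurd (show B.b l ≤ t from hj) (by rw [hBb]; exact not_le.2 ht.2)
      · exact absurd (show B.b k ≤ t from hi) (by rw [hBb]; exact not_le.2 ht.2)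
      · exact absurd (show B.b k ≤ t from hi) (by rw [hBb]; exact not_le.2 ht.2)
  have hY0 : Y 0 = (Z.add B).z := by
    rw [hY₁ 0 ⟨le_rfl, hs.le⟩]
    funext x
    rcases x with i | k
    · show Z.path Φ ε 0 i = Z.z i
      rw [MW.path_zero hΦ hε]
    · exact lineAt_self 0 (B.z k)
  have hb' : ∀ x, 0 ≤ (Z.add B).b x := by
    rintro (i | k)
    · exact hb i
    · show 0 ≤ B.b k
      rw [hBb]
      exact hs.le
  have hX : BWorld Φ ε (Z.add B).b 0 ((Z.add B).path Φ ε) := hYw.congr fun t ht =>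
    path_eq_of hΦ hε hYw hY0 ht
  refine ⟨hX, ?_⟩
  rintro (i | k) (j | l) hij hbij
  · obtain ⟨δ, hδ, h1⟩ := hZ.sep i j (fun h => hij (by rw [h])) hbij
    have hbi : Z.b i < s := hZs i
    refine ⟨min δ (s - Z.b i), lt_min hδ (by linarith), fun t ht1 ht2 => ?_⟩
    have ht1' : Z.b i < t := ht1
    have ht2' : t < Z.b i + min δ (s - Z.b i) := ht2
    have h2 := min_le_left δ (s - Z.b i)
    have h3 := min_le_right δ (s - Z.b i)
    have h4 : t ∈ Icc 0 s := ⟨(hb i).trans ht1'.le, by linarith⟩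
    rw [path_eq_of hΦ hε hYw hY0 h4.1, hY₁ t h4]
    exact h1 t ht1' (by linarith)
  · have h1 : Z.b i = B.b l := hbij
    rw [hBb] at h1
    exact absurd h1 (hZs i).ne
  · have h1 : B.b k = Z.b j := hbij
    rw [hBb] at h1
    exact absurd h1.symm (hZs j).ne
  · have hk : ∀ k, (Z.add B).b (Sum.inr k) = s := hBb
    have hst : ∀ k, (Z.add B).path Φ ε s (Sum.inr k) = lineAt 0 (B.z k) s := fun k => by
      rw [path_eq_of hΦ hε hYw hY0 hs.le, hY₁ s ⟨hs.le, le_rfl⟩]
      rfl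
    rw [hk k]
    refine startSep_eventually (x := fun t => (Z.add B).path Φ ε t (Sum.inr k))
      (y := fun t => (Z.add B).path Φ ε t (Sum.inr l)) (bworld_deriv_pos hX hs.le _)
      (bworld_deriv_pos hX hs.le _) ?_
    rw [hst, hst]
    exact hBs k l fun h => hij (by rw [h])

end mw

/-! ### Families -/

section fam

variable {α ω : Type} [Fintype α] [Fintype ω]

/-- **A.e. all sub-families of released lines give good worlds, and no particle of the isolated
group which is not dead meets the world.** -/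
theorem ae_okFamD (hΦ : AdmissiblePotential Φ) (hε : 0 < ε) (bα : α → ℝ) (bω : ω → ℝ)
    (hbω : ∀ x, 0 ≤ bω x) :
    ∀ᵐ p ∂((volume : Measure (α → PhasePoint)).prod (volume : Measure (ω → PhasePoint))),
      ∀ (d : α → ℝ) (T : ℝ) (X : ℝ → α → PhasePoint), 0 ≤ T → DWorld Φ ε bα d 0 T X →
      X 0 = p.1 → RelD ε bα d T X →
      ∀ (κ : Type) [Fintype κ] (j : κ → α) (ls : κ → ML) (W : MW ω), Function.Injective j →
      (∀ x, d (j x) ≤ T) → (∀ x, (ls x).1 = (d (j x), X (d (j x)) (j x))) →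
      W.b = bω → W.z = p.2 → SepB ε (W.add (MW.lines ls)) →
      MW.OkFam Φ ε W ls ∧ ∀ (S : Finset κ), ∀ t ∈ Icc 0 T, ∀ a : α, t ≤ d a →
        (∀ y : ω, (X t a).1 ≠ ((W.add (sub ls S)).path Φ ε t (Sum.inl y)).1) ∧
        ∀ x : S, j x ≠ a → d (j x) ≤ t →
          (X t a).1 ≠ ((W.add (sub ls S)).path Φ ε t (Sum.inr x)).1 := by
  filter_upwards [ae_worldD_prod (α := α) hΦ hε bα bω] with p hp d T X hT hX h0 hR κ _ j ls W hj
    hjT hls hWb hWz hSep
  have key : ∀ S : Finset κ, ∃ Y : ℝ → ω ⊕ S → PhasePoint,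
      BWorld Φ ε (W.add (sub ls S)).b 0 Y ∧ Y 0 = (W.add (sub ls S)).z ∧
      ∀ t ∈ Icc 0 T, ∀ a : α, t ≤ d a → (∀ y : ω, (X t a).1 ≠ (Y t (Sum.inl y)).1) ∧
        ∀ x : S, j x ≠ a → d (j x) ≤ t → (X t a).1 ≠ (Y t (Sum.inr x)).1 := by
    intro S
    obtain ⟨Y, hY, hY0, hN⟩ := hp (S.image j) d T X hT hX h0 hR (fun a ha => by
      obtain ⟨x, _, hx⟩ := Finset.mem_image.1 ha
      rw [← hx]
      exact hjT x)
    let e : ω ⊕ S ≃ ω ⊕ (S.image j : Finset α) := Equiv.sumCongr (Equiv.refl ω)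
      { toFun := fun x => ⟨j x, Finset.mem_image_of_mem j x.2⟩
        invFun := fun a => ⟨(Finset.mem_image.1 a.2).choose,
          (Finset.mem_image.1 a.2).choose_spec.1⟩
        left_inv := fun x => Subtype.ext (hj
          (Finset.mem_image.1 (Finset.mem_image_of_mem j x.2)).choose_spec.2)
        right_inv := fun a => Subtype.ext (Finset.mem_image.1 a.2).choose_spec.2 }
    have hY' := hY.equiv e
    have hb : (fun x : ω ⊕ S => (Sum.elim bω fun i : (S.image j : Finset α) => d i) (e x)) =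
        (W.add (sub ls S)).b := by
      funext x
      rcases x with x | x
      · show bω x = W.b x
        rw [hWb]
      · show d (j x) = (ls x).1.1
        rw [hls]
    rw [hb] at hY'
    refine ⟨_, hY', ?_, fun t ht a hta => ⟨fun y => (hN t ht a hta).1 y, fun x hxa hxt => ?_⟩⟩
    · funext x
      show Y 0 (e x) = _
      rw [hY0]
      rcases x with x | x
      · show p.2 x = W.z x
        rw [hWz]
      · show lineAt (d (j x)) (X (d (j x)) (j x)) 0 = back (ls x).1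
        rw [back_eq, hls]
    · exact (hN t ht a hta).2 ⟨j x, Finset.mem_image_of_mem j x.2⟩ hxa hxt
  refine ⟨fun S => ?_, fun S t ht a hta => ?_⟩
  · obtain ⟨Y, hY, hY0, -⟩ := key S
    refine ok_of hΦ hε ?_ hY hY0 ?_
    · rintro (x | x)
      · show 0 ≤ W.b x
        rw [hWb]
        exact hbω x
      · show 0 ≤ (ls x).1.1
        rw [hls]
        exact (hR.pos _ (hjT x)).le
    · have h1 := hSep.comap (e := Sum.map id (fun x : S => (x : κ)))
        (Function.injective_id.sumMap Subtype.val_injective)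
      have h2 : (W.add (MW.lines ls)).comap (Sum.map id (fun x : S => (x : κ))) =
          W.add (sub ls S) := by
        unfold sub MW.comap MW.add MW.lines
        congr 1 <;> · funext x; rcases x with x | x <;> rfl
      rwa [h2] at h1
  · obtain ⟨Y, hY, hY0, hN⟩ := key S
    rw [path_eq_of hΦ hε hY hY0 ht.1]
    exact hN t ht a hta

end fam

end

end Crest.Agent.R122.TransOk151
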