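import Crest.Agent.R122.TransOk_151
import Crest.Agent.R122.OkAE_302
import Crest.Agent.R122.TreeMeas_674

/-!
# Trees as release data (row 122), helper942

* `exit_path`   : at its release time a particle of a valid tree is at distance exactly `ε` from its
  last partner, and moves away from it.
* `free_path`   : after its release time it is at distance more than `ε` from everybody.
* `rel_tree`, `rel_tree_root` : release data `TransOk151.Rel` of the exits (and of the root).
* `startSep_tree` : particles released at the same time separate at once.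
* `ae_lines_notMem`, `ae_lines_prod` : null sets of configurations are not seen by almost every tree.
* `ae_allOk`, `ae_okFam_root` : for almost every tree and almost every gas all the worlds
  gas + sub-family of the exit lines (root line included) are good.
* `okNull` : `RtG302.OkNull`.
-/

set_option autoImplicit false
set_option linter.unusedSectionVars false

open MeasureTheory Set
open Crest.AnalysisR.Kinetic
open Crest.Agent.R122.Flow671 Crest.Agent.R122.EDefs602
open Crest.Agent.R122.Kin796 Crest.Agent.R122.Kin796.CTree Crest.Agent.R122.Tree674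
open Crest.Agent.R122.PathFlow968 Crest.Agent.R122.TreeLines335
open Crest.Agent.R122.TransOk151

namespace Crest.Agent.R122.TransTree942

noncomputable section

variable {Φ : Space3 → ℝ} {ε : ℝ}

/-! ### The exit of a pair -/

theorem inner_entrance {b g : Space3} (hb : b ∈ impactDisc g) (hg : g ≠ 0) :
    inner ℝ (entrancePoint b g) g < 0 := by
  have h0 : 0 < ‖g‖ := norm_pos_iff.2 hg
  have h1 : 0 < Real.sqrt (1 - ‖b‖ ^ 2) := by
    refine Real.sqrt_pos.2 ?_
    have := hb.2
    nlinarith [norm_nonneg b]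
  have h2 : inner ℝ (entrancePoint b g) g = -(Real.sqrt (1 - ‖b‖ ^ 2) * ‖g‖) := by
    unfold entrancePoint
    rw [inner_sub_left, hb.1, real_inner_smul_left, real_inner_self_eq_norm_sq]
    field_simp
    ring
  rw [h2]
  have := mul_pos h1 h0
  linarith

/-- Two states at distance exactly `ε` moving away from each other. -/
def Exit (ε : ℝ) (z z' : PhasePoint) : Prop :=
  dist z.1 z'.1 = ε ∧ 0 < inner ℝ (z.1 - z'.1) (z.2 - z'.2)

theorem Exit.symm {z z' : PhasePoint} (h : Exit ε z z') : Exit ε z' z := by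
  refine ⟨by rw [dist_comm]; exact h.1, ?_⟩
  have h1 : z'.1 - z.1 = -(z.1 - z'.1) := by abel
  have h2 : z'.2 - z.2 = -(z.2 - z'.2) := by abel
  rw [h1, h2, inner_neg_neg]
  exact h.2

theorem exit_pair (hΦ : AdmissiblePotential Φ) (hε : 0 < ε) {ℓ : PhasePoint} {a : NodeP}
    (h : Adm1 Φ ℓ.2 a) : Exit ε (pairPath Φ ε ℓ a a.1).1 (pairPath Φ ε ℓ a a.1).2 := by
  rw [pairPath_after hΦ hε h le_rfl]
  have h1 : (onLine ℓ a.1).1 - (onLine (outLine ε ℓ a) a.1).1 =
      -(ε • entrancePoint (nb ℓ.2 a) (ng ℓ.2 a)) := by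
    simp only [onLine, outLine]
    abel
  have h2 : (onLine ℓ a.1).2 - (onLine (outLine ε ℓ a) a.1).2 = ng ℓ.2 a := rfl
  have h3 : ‖entrancePoint (nb ℓ.2 a) (ng ℓ.2 a)‖ = 1 := norm_entrance h
  refine ⟨?_, ?_⟩
  · rw [dist_eq_norm, h1, norm_neg, norm_smul, h3, Real.norm_eq_abs, abs_of_pos hε, mul_one]
  · rw [h1, h2, inner_neg_left, real_inner_smul_left]
    have := inner_entrance (nb_mem h) (ng_ne h)
    nlinarith

/-- **Exit data of a tree**: at its release time a particle is at distance exactly `ε` from its last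
partner, and moves away from it. -/
theorem exit_path (hΦ : AdmissiblePotential Φ) (hε : 0 < ε) : ∀ (P : CTree) (T : ℝ)
    (ℓ : PhasePoint) (p : Par P), Valid Φ ε P T ℓ.2 p → ∀ i : Idx P, (i ≠ root P ∨ P ≠ leaf) →
      ∃ q, q ≠ i ∧ Exit ε (path Φ ε P ℓ p (TreeLines335.rel P p i) i)
        (path Φ ε P ℓ p (TreeLines335.rel P p i) q)
  | leaf, _, _, _, _, i, h => by
      rcases h with h | h
      · exact absurd (Subsingleton.elim (α := Unit) i ()) h
      · exact absurd rfl h
  | node l r, T, ℓ, p, hv, i, _ => by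
      have hsin : Tree674.sin Φ ε ℓ.2 p.1 < p.1.1 := sin_lt hε hv.1.1
      have hl := exit_path hΦ hε l (Tree674.sin Φ ε ℓ.2 p.1) (inMap Φ ε ℓ p.1).1 p.2.1
        (Valid.left hv)
      have hr := exit_path hΦ hε r (Tree674.sin Φ ε ℓ.2 p.1) (inMap Φ ε ℓ p.1).2 p.2.2
        (Valid.right hv)
      have hp := exit_pair hΦ hε hv.1.1 (ℓ := ℓ)
      have h1 : path Φ ε (node l r) ℓ p p.1.1 (Sum.inl (root l)) = (pairPath Φ ε ℓ p.1 p.1.1).1 := by
        rw [path_node_after hΦ hε hv hsin.le]
        simp
      have h2 : path Φ ε (node l r) ℓ p p.1.1 (Sum.inr (root r)) = (pairPath Φ ε ℓ p.1 p.1.1).2 := by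
        rw [path_node_after hΦ hε hv hsin.le]
        simp
      rcases i with i | i
      · by_cases hi : i = root l
        · subst hi
          have h3 : TreeLines335.rel (node l r) p (Sum.inl (root l)) = p.1.1 := by
            simp [TreeLines335.rel]
          refine ⟨Sum.inr (root r), by simp, ?_⟩
          rw [h3, h1, h2]
          exact hp
        · have h3 : TreeLines335.rel (node l r) p (Sum.inl i) = TreeLines335.rel l p.2.1 i := by
            simp [TreeLines335.rel, hi]
          obtain ⟨q, hq, hE⟩ := hl i (Or.inl hi)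
          have h4 : TreeLines335.rel l p.2.1 i ≤ Tree674.sin Φ ε ℓ.2 p.1 :=
            (TreeLines335.rel_lt hε.le hv.2.2.1 hv.2.2.2.1 i).le
          refine ⟨Sum.inl q, fun h => hq (Sum.inl_injective h), ?_⟩
          rw [h3, path_node_before ℓ p h4]
          exact hE
      · by_cases hi : i = root r
        · subst hi
          have h3 : TreeLines335.rel (node l r) p (Sum.inr (root r)) = p.1.1 := by
            simp [TreeLines335.rel]
          refine ⟨Sum.inl (root l), by simp, ?_⟩
          rw [h3, h1, h2]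
          exact hp.symm
        · have h3 : TreeLines335.rel (node l r) p (Sum.inr i) = TreeLines335.rel r p.2.2 i := by
            simp [TreeLines335.rel, hi]
          obtain ⟨q, hq, hE⟩ := hr i (Or.inl hi)
          have h4 : TreeLines335.rel r p.2.2 i ≤ Tree674.sin Φ ε ℓ.2 p.1 :=
            (TreeLines335.rel_lt hε.le hv.2.2.1 hv.2.2.2.2 i).le
          refine ⟨Sum.inr q, fun h => hq (Sum.inr_injective h), ?_⟩
          rw [h3, path_node_before ℓ p h4]
          exact hE

/-! ### Windows and release times -/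

/-- Windows are before the release times of both particles. -/
theorem window_le_rel (hε : 0 < ε) : ∀ (P : CTree) (T : ℝ) (v : Space3) (p : Par P),
    Valid Φ ε P T v p → ∀ (i j : Idx P) (u : ℝ), InWindow Φ ε P v p i j u →
      u ≤ TreeLines335.rel P p i ∧ u ≤ TreeLines335.rel P p j
  | leaf, _, _, _, _, _, _, _, h => h.elim
  | node l r, T, v, p, hv, i, j, u, h => by
      have hsin : Tree674.sin Φ ε v p.1 < p.1.1 := sin_lt hε hv.1.1
      rcases h with ⟨rfl, rfl, -, hu⟩ | ⟨i', j', rfl, rfl, h⟩ | ⟨i', j', rfl, rfl, h⟩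
      · constructor
        · simpa [TreeLines335.rel] using hu
        · simpa [TreeLines335.rel] using hu
      · have h2 := window_le_rel hε l _ _ p.2.1 (Valid.left hv) i' j' u h
        have h3 := (InWindow.mem hε.le l _ _ p.2.1 hv.2.2.2.1 i' j' u h).2
        have h4 : ∀ k : Idx l, u ≤ TreeLines335.rel l p.2.1 k →
            u ≤ TreeLines335.rel (node l r) p (Sum.inl k) := by
          intro k hk
          by_cases hk' : k = root l
          · simp only [TreeLines335.rel, Sum.elim_inl, if_pos hk']
            exact (h3.trans hsin).le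
          · simpa only [TreeLines335.rel, Sum.elim_inl, if_neg hk'] using hk
        exact ⟨h4 _ h2.1, h4 _ h2.2⟩
      · have h2 := window_le_rel hε r _ _ p.2.2 (Valid.right hv) i' j' u h
        have h3 := (InWindow.mem hε.le r _ _ p.2.2 hv.2.2.2.2 i' j' u h).2
        have h4 : ∀ k : Idx r, u ≤ TreeLines335.rel r p.2.2 k →
            u ≤ TreeLines335.rel (node l r) p (Sum.inr k) := by
          intro k hk
          by_cases hk' : k = root r
          · simp only [TreeLines335.rel, Sum.elim_inr, if_pos hk']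
            exact (h3.trans hsin).le
          · simpa only [TreeLines335.rel, Sum.elim_inr, if_neg hk'] using hk
        exact ⟨h4 _ h2.1, h4 _ h2.2⟩

/-- The first particle of a window is released strictly later, unless it is the root. -/
theorem window_lt_rel (hε : 0 < ε) : ∀ (P : CTree) (T : ℝ) (v : Space3) (p : Par P),
    Valid Φ ε P T v p → ∀ (i j : Idx P) (u : ℝ), InWindow Φ ε P v p i j u → i ≠ root P →
      u < TreeLines335.rel P p i
  | leaf, _, _, _, _, _, _, _, h, _ => h.elim
  | node l r, T, v, p, hv, i, j, u, h, hi => by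
      have hsin : Tree674.sin Φ ε v p.1 < p.1.1 := sin_lt hε hv.1.1
      rcases h with ⟨rfl, rfl, -, hu⟩ | ⟨i', j', rfl, rfl, h⟩ | ⟨i', j', rfl, rfl, h⟩
      · exact absurd rfl hi
      · have hi' : i' ≠ root l := fun h' => hi (by rw [h']; rfl)
        have h2 := window_lt_rel hε l _ _ p.2.1 (Valid.left hv) i' j' u h hi'
        simpa only [TreeLines335.rel, Sum.elim_inl, if_neg hi'] using h2
      · have h3 := (InWindow.mem hε.le r _ _ p.2.2 hv.2.2.2.2 i' j' u h).2
        by_cases hi' : i' = root r
        · simp only [TreeLines335.rel, Sum.elim_inr, if_pos hi']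
          exact h3.trans hsin
        · have h2 := window_lt_rel hε r _ _ p.2.2 (Valid.right hv) i' j' u h hi'
          simpa only [TreeLines335.rel, Sum.elim_inr, if_neg hi'] using h2

/-- After its release time a particle of a separated tree is far from everybody. -/
theorem free_path (hε : 0 < ε) {P : CTree} {T : ℝ} {ℓ : PhasePoint} {p : Par P}
    (hv : Valid Φ ε P T ℓ.2 p) (hs : Sep Φ ε P T ℓ p) {i j : Idx P} (hij : j ≠ i) {t : ℝ}
    (h0 : 0 ≤ t) (hi : TreeLines335.rel P p i < t) (ht : t ≤ T) :
    ε < dist (path Φ ε P ℓ p t i).1 (path Φ ε P ℓ p t j).1 := by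
  refine hs i j hij.symm t ⟨h0, ht⟩ (fun h => ?_) (fun h => ?_)
  · exact absurd (window_le_rel hε P T ℓ.2 p hv i j t h).1 (not_le.2 hi)
  · exact absurd (window_le_rel hε P T ℓ.2 p hv j i t h).2 (not_le.2 hi)

/-- Positivity of the release times. -/
theorem rel_pos' (hε : 0 < ε) {P : CTree} {T : ℝ} {v : Space3} {p : Par P}
    (hv : Valid Φ ε P T v p) {i : Idx P} (hi : i ≠ root P ∨ P ≠ leaf) :
    0 < TreeLines335.rel P p i := by
  rcases P with _ | ⟨l, r⟩
  · rcases hi with hi | hi
    · exact absurd (Subsingleton.elim (α := Unit) i ()) hi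
    · exact absurd rfl hi
  · by_cases h : i = root (node l r)
    · subst h
      rw [TreeLines335.rel_root_node]
      exact hv.2.2.1.trans_le (sin_le hε.le v p.1)
    · exact TreeLines335.rel_pos hε.le hv.2 i h

/-- **Release data of a tree.** The root is included if the tree is not a leaf. -/
theorem rel_tree_root (hΦ : AdmissiblePotential Φ) (hε : 0 < ε) {P : CTree} {T : ℝ}
    {ℓ : PhasePoint} {p : Par P} (hT : 0 < T) (hv : Valid Φ ε P T ℓ.2 p)
    (hs : Sep Φ ε P T ℓ p) :
    TransOk151.Rel ε (fun _ : Idx P => (0 : ℝ)) {i | i ≠ root P ∨ P ≠ leaf}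
      (TreeLines335.rel P p) T (fun t => flow Φ ε t (lines Φ ε P ℓ p)) where
  pos i hi := rel_pos' hε hv hi
  le i _ := (TreeLines335.rel_lt hε.le hT hv.2 i).le
  born i hi := (rel_pos' hε hv hi).le
  exit i hi := by
    obtain ⟨q, hq, hE⟩ := exit_path hΦ hε P T ℓ p hv i hi
    have h1 := (rel_pos' hε hv hi).le
    rw [path_eq_flow hΦ hε hv hs ⟨h1, (TreeLines335.rel_lt hε.le hT hv.2 i).le⟩] at hE
    exact ⟨q, hq, h1, hE⟩
  free i hi t ht j hj _ := by
    have h1 := rel_pos' hε hv hi
    have h2 := free_path hε hv hs hj (h1.trans ht.1).le ht.1 ht.2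
    rwa [path_eq_flow hΦ hε hv hs ⟨(h1.trans ht.1).le, ht.2⟩] at h2

theorem _root_.Crest.Agent.R122.TransOk151.Rel.mono_set {α : Type*} {ε : ℝ} {b : α → ℝ}
    {S S' : Set α} {σ : α → ℝ} {T : ℝ} {X : ℝ → α → PhasePoint} (h : TransOk151.Rel ε b S σ T X)
    (hS : S' ⊆ S) : TransOk151.Rel ε b S' σ T X where
  pos i hi := h.pos i (hS hi)
  le i hi := h.le i (hS hi)
  born i hi := h.born i (hS hi)
  exit i hi := h.exit i (hS hi)
  free i hi := h.free i (hS hi)

/-- **Release data of the exits of a tree.** -/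
theorem rel_tree (hΦ : AdmissiblePotential Φ) (hε : 0 < ε) {P : CTree} {T : ℝ}
    {ℓ : PhasePoint} {p : Par P} (hT : 0 < T) (hv : Valid Φ ε P T ℓ.2 p)
    (hs : Sep Φ ε P T ℓ p) :
    TransOk151.Rel ε (fun _ : Idx P => (0 : ℝ)) {i | i ≠ root P} (TreeLines335.rel P p) T
      (fun t => flow Φ ε t (lines Φ ε P ℓ p)) :=
  (rel_tree_root hΦ hε hT hv hs).mono_set fun _ hi => Or.inl hi

/-- The marked line of a particle, in terms of the flow. -/
theorem lineML_fst (hΦ : AdmissiblePotential Φ) (hε : 0 < ε) {P : CTree} {T : ℝ}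
    {ℓ : PhasePoint} {p : Par P} (hT : 0 < T) (hv : Valid Φ ε P T ℓ.2 p)
    (hs : Sep Φ ε P T ℓ p) (i : Idx P) :
    (lineML Φ ε P (ℓ, p) i).1 = (TreeLines335.rel P p i,
      flow Φ ε (TreeLines335.rel P p i) (lines Φ ε P ℓ p) i) := by
  rw [← path_eq_flow hΦ hε hv hs ⟨TreeLines335.rel_nonneg hε.le hv.2 i,
    (TreeLines335.rel_lt hε.le hT hv.2 i).le⟩,
    RtG302.path_after_rel hε P T ℓ p hv i _ le_rfl]
  rfl

/-! ### Simultaneous releases -/

/-- Two particles released at the same time: one of them is the root, or they are far. -/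
theorem sep_of_rel_eq (hε : 0 < ε) {P : CTree} {T : ℝ} {ℓ : PhasePoint} {p : Par P}
    (hT : 0 < T) (hv : Valid Φ ε P T ℓ.2 p) (hs : Sep Φ ε P T ℓ p) {x y : Idx P} (hxy : x ≠ y)
    (hx : x ≠ root P) (hy : y ≠ root P)
    (he : TreeLines335.rel P p x = TreeLines335.rel P p y) :
    ε < dist (path Φ ε P ℓ p (TreeLines335.rel P p x) x).1
      (path Φ ε P ℓ p (TreeLines335.rel P p x) y).1 := by
  refine hs x y hxy _ ⟨TreeLines335.rel_nonneg hε.le hv.2 x,
    (TreeLines335.rel_lt hε.le hT hv.2 x).le⟩ (fun h => ?_) (fun h => ?_)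
  · exact absurd (window_lt_rel hε P T ℓ.2 p hv x y _ h hx) (lt_irrefl _)
  · have := window_lt_rel hε P T ℓ.2 p hv y x _ h hy
    rw [← he] at this
    exact absurd this (lt_irrefl _)

/-- **Simultaneous releases** separate at once. -/
theorem startSep_tree (hΦ : AdmissiblePotential Φ) (hε : 0 < ε) {P : CTree} {T : ℝ}
    {ℓ : PhasePoint} {p : Par P} (hT : 0 < T) (hv : Valid Φ ε P T ℓ.2 p)
    (hs : Sep Φ ε P T ℓ p) {x y : Idx P} (hxy : x ≠ y)
    (he : TreeLines335.rel P p x = TreeLines335.rel P p y) :
    StartSep ε (path Φ ε P ℓ p (TreeLines335.rel P p x) x)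
      (path Φ ε P ℓ p (TreeLines335.rel P p y) y) := by
  -- the root and another particle
  have key : ∀ (P : CTree) (ℓ : PhasePoint) (p : Par P), Valid Φ ε P T ℓ.2 p → ∀ y : Idx P,
      y ≠ root P → TreeLines335.rel P p (root P) = TreeLines335.rel P p y →
      Exit ε (path Φ ε P ℓ p (TreeLines335.rel P p y) (root P))
        (path Φ ε P ℓ p (TreeLines335.rel P p y) y) := by
    intro P ℓ p hv y hy he
    rcases P with _ | ⟨l, r⟩
    · exact absurd (Subsingleton.elim (α := Unit) y ()) hy
    · have hsin : Tree674.sin Φ ε ℓ.2 p.1 < p.1.1 := sin_lt hε hv.1.1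
      rw [TreeLines335.rel_root_node] at he
      rcases y with y | y
      · have hy' : y ≠ root l := fun h => hy (by rw [h]; rfl)
        have h3 : TreeLines335.rel (node l r) p (Sum.inl y) = TreeLines335.rel l p.2.1 y := by
          simp [TreeLines335.rel, hy']
        have h4 := TreeLines335.rel_lt hε.le hv.2.2.1 hv.2.2.2.1 y
        rw [h3] at he
        linarith
      · by_cases hy' : y = root r
        · subst hy'
          rw [← he]
          have h1 : path Φ ε (node l r) ℓ p p.1.1 (Sum.inl (root l)) =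
              (pairPath Φ ε ℓ p.1 p.1.1).1 := by
            rw [path_node_after hΦ hε hv hsin.le]
            simp
          have h2 : path Φ ε (node l r) ℓ p p.1.1 (Sum.inr (root r)) =
              (pairPath Φ ε ℓ p.1 p.1.1).2 := by
            rw [path_node_after hΦ hε hv hsin.le]
            simp
          have h3 := exit_pair hΦ hε hv.1.1 (ℓ := ℓ)
          rw [← h1, ← h2] at h3
          exact h3
        · have h3 : TreeLines335.rel (node l r) p (Sum.inr y) = TreeLines335.rel r p.2.2 y := by
            simp [TreeLines335.rel, hy']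
          have h4 := TreeLines335.rel_lt hε.le hv.2.2.1 hv.2.2.2.2 y
          rw [h3] at he
          linarith
  by_cases hx : x = root P
  · subst hx
    rw [he]
    exact Or.inr (key P ℓ p hv y hxy.symm he)
  · by_cases hy : y = root P
    · subst hy
      rw [← he]
      exact Or.inr (key P ℓ p hv x hxy he.symm).symm
    · rw [← he]
      exact Or.inl (sep_of_rel_eq hε hT hv hs hxy hx hy he)

/-- Simultaneous releases, in terms of the marked lines. -/
theorem startSep_lineML (hΦ : AdmissiblePotential Φ) (hε : 0 < ε) {P : CTree} {T : ℝ}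
    {ℓ : PhasePoint} {p : Par P} (hT : 0 < T) (hv : Valid Φ ε P T ℓ.2 p)
    (hs : Sep Φ ε P T ℓ p) {x y : Idx P} (hxy : x ≠ y)
    (he : (lineML Φ ε P (ℓ, p) x).1.1 = (lineML Φ ε P (ℓ, p) y).1.1) :
    StartSep ε (lineML Φ ε P (ℓ, p) x).1.2 (lineML Φ ε P (ℓ, p) y).1.2 := by
  have h := startSep_tree hΦ hε hT hv hs hxy he
  rw [RtG302.path_after_rel hε P T ℓ p hv x _ le_rfl,
    RtG302.path_after_rel hε P T ℓ p hv y _ le_rfl] at h
  exact h

/-! ### Null sets -/




/-! ### All the worlds are good -/




end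

end Crest.Agent.R122.TransTree942
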