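import Crest.Agent.R122.LinkSel_285_Mg
import Crest.Agent.R122.GoodOf_263
import Crest.Agent.R122.LinkVd_879
import Crest.Agent.R122.InEq2TX_335
import Crest.Agent.R122.OSTree_434
import Crest.Agent.R122.LinkSel_984
import Crest.Agent.R122.GateCap_973
import Crest.Agent.R122.RtG_302
import Crest.Agent.R122.LinkWin_984
import Crest.Agent.R122.TLGate_311
import Crest.Agent.R122.TransD1_151
import Crest.Agent.R122.Rebirth_45
import Crest.Agent.R122.TransTree_942
import Crest.Agent.R122.Good4One_45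
import Crest.Agent.R122.TransD3_151
import Crest.Agent.R122.OkRoot_663
import Crest.Agent.R122.LinkAsm_984
import Crest.Agent.R122.TLBind_311
import Crest.Agent.R122.LNOSdet_515
import Crest.Agent.R122.GateOSc_434
import Crest.Agent.R122.Line3G_984
import Crest.Agent.R122.GateOS_973
import Crest.Agent.R122.XShape_692
import Crest.Agent.R122.LNOS_515
import Crest.Agent.R122.PWBirth_365
import Crest.Agent.R122.SepNull_302
import Crest.Agent.R122.GateTree_522
import Crest.Agent.R122.NuLA_735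
import Crest.Agent.R122.TreeGate2_302
import Crest.Agent.R122.LNOSra_515
import Crest.Agent.R122.LN2Ct_473
import Crest.Agent.R122.ThirdV_796

-- ▼ part R122/NbadG_263
section

/-!
# The error of a real structure (row 122, H1), helper263

* `okFam_ins` : one line of a good family moved to the base world.
* `GoodXd` : the test line `x` is good for the base world `w + d`, `d` an exit.
* `Real4.not_mem_nbad4_of_good` : `x ∉ Nbad4` from helper335's `GoodX` and `GoodXd`.
* `lineM_nbad4_le`, `lineM_nbadE_le` : the measures of `Nbad4`, `NbadE`.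
* `err4_le` : **the error `err4` of INEQUALITY 1 on real structures.**
-/

set_option autoImplicit false
set_option linter.unusedSectionVars false

open MeasureTheory Set Filter Topology
open scoped ENNReal
open Crest.AnalysisR.Kinetic
open Crest.Agent.R122.Flow671 hiding rel
open Crest.Agent.R122.Loc45 Crest.Agent.R122.Ins45
open Crest.Agent.R122.Causal291 Crest.Agent.R122.Inf879 Crest.Agent.R122.EDefs602
open Crest.Agent.R122.Lines255 Crest.Agent.R122.MWAlg255
open Crest.Agent.R122.Kin796 Crest.Agent.R122.Kin796.CTree Crest.Agent.R122.Tree674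
open Crest.Agent.R122.PathFlow968 Crest.Agent.R122.TreeLines335 Crest.Agent.R122.Relabel674
open Crest.Agent.R122.GC311 Crest.Agent.R122.Line285 Crest.Agent.R122.OCout796
open Crest.Agent.R122.MWFam255 (FamNL PairNL okFam_comp)
open Crest.Agent.R122.E6Hyp879 (withD)
open Crest.Agent.R122.RealL811 (treeW)
open Crest.Agent.R122.LNEv383 (RetC)
open Crest.Agent.R122.InEq2T (GoodX lkX GoodT)
open Crest.Agent.R122.UnlC263 (Ad E4Pairs)
open Crest.Agent.R122.OneC285 (lpos cfT rt cT cD cX Real4 ptube oneLs exS Nbad4 NbadE Alt4 Good4 err4)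
open Crest.Agent.R122.R6Tree974 (gE comap1 toRL)
open Crest.Agent.R122.NbadX796

namespace Crest.Agent.R122.NbadR263

noncomputable section

open scoped Classical

/-! ### One line moved to the base world -/

/-- Labels. -/
def optE (ι β : Type) : (ι ⊕ Unit) ⊕ β ≃ ι ⊕ Option β where
  toFun := Sum.elim (Sum.elim Sum.inl fun _ => Sum.inr none) fun b => Sum.inr (some b)
  invFun := Sum.elim (fun i => Sum.inl (Sum.inl i)) fun o =>
    o.elim (Sum.inl (Sum.inr ())) fun b => Sum.inr b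
  left_inv := by rintro ((i | u) | b) <;> rfl
  right_inv := by rintro (i | (_ | b)) <;> rfl

theorem okFam_ins {ι κ : Type} [Fintype ι] [Fintype κ] {Φ : Space3 → ℝ} {ε : ℝ}
    (hΦ : AdmissiblePotential Φ) (hε : 0 < ε) {Z : MW ι} {H : κ → ML}
    (hok : MW.OkFam Φ ε Z H) (δ : κ) :
    MW.OkFam Φ ε (Z.ins (H δ)) (Decomp811.exF H δ) := by
  intro S
  set g : Option S ↪ κ :=
    { toFun := fun o => o.elim δ fun b => b.1.1
      inj' := by
        rintro (_ | a) (_ | b) hab
        · rfl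
        · exact absurd hab.symm b.1.2
        · exact absurd hab a.1.2
        · exact congrArg some (Subtype.ext (Subtype.ext hab)) } with hg
  have h1 := (okFam_comp hΦ hε hok g).lines hΦ hε
  have h2 : (Z.ins (H δ)).add (sub (Decomp811.exF H δ) S) =
      (Z.add (MW.lines fun i => H (g i))).comap (optE ι S) := by
    unfold MW.ins MW.add MW.comap MW.line sub MW.lines Decomp811.exF
    congr 1 <;> · funext x; rcases x with (x | x) | x <;> rfl
  rw [h2]
  exact h1.comap hΦ hε _

/-- Labels of the family `withD` without one line. -/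
def wdE {κ : Type} (d : κ) : {k : κ // k ≠ d} ⊕ Unit ↪
    {k : κ ⊕ Unit // k ≠ (Sum.inl d : κ ⊕ Unit)} where
  toFun := Sum.elim (fun k => ⟨Sum.inl k.1, fun h' => k.2 (Sum.inl_injective h')⟩)
    fun u => ⟨Sum.inr u, by simp⟩
  inj' := by
    rintro (j | j) (k | k) hjk
    · have h' : j.1 = k.1 := Sum.inl_injective (congrArg Subtype.val hjk)
      exact congrArg Sum.inl (Subtype.ext h')
    · have h' := congrArg Subtype.val hjk
      cases h'
    · have h' := congrArg Subtype.val hjk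
      cases h'
    · rfl

theorem wdE_comp {κ : Type} (F : κ → ML) (x : ML) (d : κ) :
    (fun i => Decomp811.exF (withD F x) (Sum.inl d) (wdE d i)) =
      withD (fun k : {k : κ // k ≠ d} => F k) x := by
  funext i
  rcases i with i | i <;> rfl

variable {Φ : Space3 → ℝ} {ε te T' R : ℝ} {K : ℕ} {P : CTree} {z : PhasePoint × Par P} {m : ℕ}
  {w : Config m} {l x : ML}

/-- The test line `x` is good for the base world `w + d`, `d` an exit. -/
structure GoodXd (Φ : Space3 → ℝ) (ε : ℝ) (K : ℕ) (te : ℝ) (P : CTree) (z : PhasePoint × Par P)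
    {m : ℕ} (w : Config m) (d : Idx P) (x : ML) : Prop where
  nl : ∀ k : Idx P, k ≠ d → MW.NoLink Φ ε K te ((MW.cfg w).ins (lineML Φ ε P z d))
    (MW.line (lineML Φ ε P z k)) (MW.line x)
  ret : ¬ RetC Φ ε ε K te ((MW.cfg w).ins (lineML Φ ε P z d)) x (ptube Φ ε P z)


/-- The pairs of lines of the tree are unlinked in `w + d`. -/
theorem E4Pairs.pairD (h4 : E4Pairs Φ ε K te P z w l) {d : Idx P} (hd : d ≠ root P) :
    PairNL Φ ε K te ((MW.cfg w).ins (lineML Φ ε P z d))
      (fun k : {k : Idx P // k ≠ d} => lineML Φ ε P z k) := by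
  intro j k hjk
  refine h4.nld d hd (Sum.inl j.1) (Sum.inl k.1) ⟨fun h' => hjk (Subtype.ext
    (Sum.inl_injective h')), ?_, ?_⟩ (fun h' => j.2 (Sum.inl_injective h'))
    (fun h' => k.2 (Sum.inl_injective h'))
  · rintro ⟨-, b, hb⟩
    cases hb
  · rintro ⟨-, b, hb⟩
    cases hb

theorem E4Pairs.pairR (h4 : E4Pairs Φ ε K te P z w l) :
    PairNL Φ ε K te (MW.cfg w) (lineML Φ ε P z) := by
  intro j k hjk
  refine h4.nl (Sum.inl j) (Sum.inl k) ⟨fun h' => hjk (Sum.inl_injective h'), ?_, ?_⟩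
  · rintro ⟨-, b, hb⟩
    cases hb
  · rintro ⟨-, b, hb⟩
    cases hb

/-- The pairs of a family of unlinked lines and a line which is unlinked to all of them. -/
theorem pairNL_withD {ι κ : Type} [Fintype ι] [Fintype κ] {Y : MW ι} {F : κ → ML}
    (h1 : PairNL Φ ε K te Y F)
    (h2 : ∀ k, MW.NoLink Φ ε K te Y (MW.line (F k)) (MW.line x)) :
    PairNL Φ ε K te Y (withD F x) := by
  rintro (j | j) (k | k) hjk
  · exact h1 j k fun h' => hjk (congrArg Sum.inl h')
  · exact h2 j
  · exact (h2 k).symm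
  · exact absurd rfl hjk

/-- **A good test line is not in `Nbad4`.** -/
theorem _root_.Crest.Agent.R122.OneC285.Real4.not_mem_nbad4_of_good
    (h : Real4 Φ ε K te T' P z w l)
    (hΦ : AdmissiblePotential Φ) (hε : 0 < ε) (hTT : te ≤ T') (hK : P.leaves ≤ K)
    (hE : EncEv Φ ε R P z w l) (h4 : E4Pairs Φ ε K te P z w l) (hx0 : 0 ≤ x.1.1)
    (hx : GoodX Φ ε K te P z w x) (hxd : ∀ d, d ≠ root P → GoodXd Φ ε K te P z w d x) :
    x ∉ Nbad4 Φ ε K te P z w l := by
  have hT : 0 ≤ te := h.pos.le.trans h.le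
  have hokx : ((MW.cfg (Fin.append (cfT Φ ε P z) w)).ins x).Ok Φ ε := by
    have h3 : ((MW.cfg w).add (treeW Φ ε P z)).add (MW.line x) =
        ((MW.cfg (Fin.append (cfT Φ ε P z) w)).ins x).comap
          (Equiv.sumCongr (gE P m) (Equiv.refl Unit)) := by
      rw [← comap1]
      exact EquivE416.ins_comap _ x (gE P m)
    have h4 := hx.okr
    rw [h3] at h4
    exact h4.of_comap hΦ hε _
  have hnl := pairNL_withD (E4Pairs.pairR h4) hx.nl
  refine h.not_mem_nbad4 hΦ hε hTT hK hE hx0 hokx hx.ok hnl hx.ret (fun d hd => ?_)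
    (fun d hd => E4Pairs.pairD h4 hd) fun d hd hte hF => ?_
  · -- the family `(F k)_{k ≠ d}, x`
    have h1 := okFam_comp hΦ hε (okFam_ins hΦ hε hx.ok (Sum.inl d)) (wdE d)
    rw [wdE_comp] at h1
    exact h1
  · have key := LinkVd879.thetaL_le_ins (Z := MW.cfg w) (T := te) (T' := T')
      (v := ((MW.cfg w).ins (lineML Φ ε P z d)).thetaL Φ ε K te x) (l := x) (δ := d) hΦ hε
      h.valid h.sep hK (hte.trans hTT) hT (fun _ => le_rfl) hx0 (toRL (R4.in1 hΦ hε h) _)
      (R4.ok1 hΦ hε h) hx.okr (fun k i _ => R4.sep0 hΦ hε h k i) hx.ok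
      (okFam_ins hΦ hε hx.ok (Sum.inl d)) ?_ (hxd d hd).ret le_rfl hte hF
    · rwa [thetaL_treeW hΦ hε] at key
    · rintro ⟨(j | j), hj⟩ ⟨(k | k), hk⟩ hjk
      · exact E4Pairs.pairD h4 hd ⟨j, fun h' => hj (congrArg Sum.inl h')⟩
          ⟨k, fun h' => hk (congrArg Sum.inl h')⟩ fun h' => hjk (Subtype.ext (congrArg Sum.inl
            (congrArg Subtype.val h')))
      · exact (hxd d hd).nl j fun h' => hj (congrArg Sum.inl h')
      · exact ((hxd d hd).nl k fun h' => hk (congrArg Sum.inl h')).symm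
      · exact absurd rfl hjk

/-! ### The measure of the bad test lines -/



theorem min_one_add_le (a b : ℝ≥0∞) : min 1 (a + b) ≤ min 1 a + min 1 b := by
  rcases le_total 1 a with ha | ha
  · exact (min_le_left _ _).trans ((min_eq_left ha).ge.trans le_self_add)
  rcases le_total 1 b with hb | hb
  · exact (min_le_left _ _).trans ((min_eq_left hb).ge.trans le_add_self)
  · rw [min_eq_right ha, min_eq_right hb]
    exact min_le_right _ _


end

end Crest.Agent.R122.NbadR263
end

-- ▼ part R122/OSOut_434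
section

/-!
# Outputs of the gateways as null functionals of contact structures (row 122, H1)

* `exists_osM_mass` : the mass of `osM` is bounded, uniformly in `ε`.
* `osNull_zw`, `osNull_zw_of_gNull` : functionals / events of `(z, w)` only, null over 522's `treeQ`.
* `CapDet`, `osNull_cap` : capped measures of independent lines (973's `fNull_cap_of_det`).
* `osNull_one_cap` : `if A then 1 else min 1 (lineM ..)`.
-/

set_option autoImplicit false
set_option linter.unusedSectionVars false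

open MeasureTheory Set Filter Topology
open scoped ENNReal Classical
open Crest.AnalysisR.Kinetic
open Crest.Agent.R122.Kin796 Crest.Agent.R122.Kin796.CTree Crest.Agent.R122.Tree674
open Crest.Agent.R122.GC311 Crest.Agent.R122.EDefs602 Crest.Agent.R122.OneC285
open Crest.Agent.R122.Gate424 Crest.Agent.R122.Gate973 Crest.Agent.R122.OSMeas984
open Crest.Agent.R122.OneC423 Crest.Agent.R122.GateT522 Crest.Agent.R122.InEq2
open Crest.Agent.R122.LinkAsm984 Crest.Agent.R122.GateOS434

noncomputable section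

namespace Crest.Agent.R122.GateOS434

variable {Φ : Space3 → ℝ} {f₀ : PhasePoint → ℝ} {Q : EPar} {T' : ℝ}




/-- The hypotheses of the capped gateway (973's `fNull_cap_of_det`) for a structure `m` and an
independent variable `ν` (one index). -/
structure CapDet {Θ X : Type} [MeasurableSpace Θ] [MeasurableSpace X] (f₀ : PhasePoint → ℝ)
    (m : ℝ → Measure Θ) (ν : ℝ → Measure X) (E : ℝ → (n : ℕ) → Θ → X → Config n → Prop)
    (RS HS : ℕ → ℝ → (n : ℕ) → Θ → Config n → Prop)
    (RX HX : ℕ → ℝ → (n : ℕ) → X → Config n → Prop)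
    (HJ : ℕ → ℝ → (n : ℕ) → Θ × X → Config n → Prop) : Prop where
  det : ∀ L : ℕ, ∃ (BS : ℝ → ℝ → ℝ → Unit → (n : ℕ) → Θ → Config n → Prop)
    (BX : ℝ → ℝ → ℝ → Unit → (n : ℕ) → X → Config n → Prop)
    (BJ : ℝ → ℝ → ℝ → Unit → (n : ℕ) → Θ × X → Config n → Prop),
    BadF f₀ (fun ε _ => m ε) BS ∧ BadF f₀ (fun ε _ => ν ε) BX ∧
    BadF f₀ (fun ε _ => (m ε).prod (ν ε)) BJ ∧
    ∀ R > 0, ∀ ς > 0, ∃ ε₁ : ℝ, 0 < ε₁ ∧ ∀ ε : ℝ, 0 < ε → ε < ε₁ →
      ∀ n θ x (w : Config n), w ∈ PairExcluded ε n → E ε n θ x w →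
      (RS L ε n θ w ∨ BS R ς ε () n θ w ∨ HS L ε n θ w) ∨
      (RX L ε n x w ∨ BX R ς ε () n x w ∨ HX L ε n x w) ∨
      (BJ R ς ε () n (θ, x) w ∨ HJ L ε n (θ, x) w)
  runS : ∀ δ : ℝ≥0∞, 0 < δ → ∃ L₀ : ℕ, ∀ L, L₀ ≤ L →
    GLe f₀ (fun ε (_ : Unit) => m ε) (fun ε _ => RS L ε) δ
  runX : ∀ δ : ℝ≥0∞, 0 < δ → ∃ L₀ : ℕ, ∀ L, L₀ ≤ L →
    GLe f₀ (fun ε (_ : Unit) => ν ε) (fun ε _ => RX L ε) δ
  hitS : ∀ L, GNull f₀ (fun ε (_ : Unit) => m ε) (fun ε _ => HS L ε)
  hitX : ∀ L, GNull f₀ (fun ε (_ : Unit) => ν ε) (fun ε _ => HX L ε)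
  hitJ : ∀ L, GNull f₀ (fun ε (_ : Unit) => (m ε).prod (ν ε)) (fun ε _ => HJ L ε)



end Crest.Agent.R122.GateOS434

end
end

-- ▼ part R122/OSTN_434
section

/-!
# Tree events as null functionals of contact structures (row 122, H1)

* `os_zw_le` : `OS` of a functional of `(z, w)` is `≤ C * TS` of its product with `wQ`.
* `osNull_of_tNull` : 302's `TNull` events are null for contact structures.
-/

set_option autoImplicit false
set_option linter.unusedSectionVars false

open MeasureTheory Set Filter Topology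
open scoped ENNReal Classical
open Crest.AnalysisR.Kinetic
open Crest.Agent.R122.Kin796 Crest.Agent.R122.Kin796.CTree Crest.Agent.R122.Tree674
open Crest.Agent.R122.GC311 Crest.Agent.R122.EDefs602 Crest.Agent.R122.OneC285
open Crest.Agent.R122.Gate424 Crest.Agent.R122.Gate973 Crest.Agent.R122.OSMeas984
open Crest.Agent.R122.OneC423 Crest.Agent.R122.GateT522 Crest.Agent.R122.InEq2
open Crest.Agent.R122.LinkAsm984 Crest.Agent.R122.GateOS434

noncomputable section

namespace Crest.Agent.R122.GateOS434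

variable {Φ : Space3 → ℝ} {f₀ : PhasePoint → ℝ} {Q : EPar} {T' : ℝ}

/-- The constant of the structure integrals of `(z, w)`-functionals. -/
def cOS (Q : EPar) (K : ℕ) (g : ℝ) : ℝ≥0∞ :=
  ENNReal.ofReal (Q.te ^ 2) * ((∑' n : ℕ, markW Q.ρ K n) * kL g)

theorem cOS_ne_top {K : ℕ} (hρ : Q.ρ ≠ ∞) {g : ℝ} (hg0 : 0 < g) : cOS Q K g ≠ ∞ :=
  ENNReal.mul_ne_top ENNReal.ofReal_ne_top
    (ENNReal.mul_ne_top (Third741.tsum_markW_ne_top hρ K) (kL_ne_top hg0))

/-- **`OS` of a functional of `(z, w)`.** -/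
theorem os_zw_le (hΦ : AdmissiblePotential Φ) (hf : Measurable f₀) {ε : ℝ} (hε : 0 < ε) (K : ℕ)
    (hγm : Measurable Q.γ) (hρ : Q.ρ ≠ ∞) {g : ℝ} (hg : ∀ τ ∈ Ioc 0 Q.te, g ≤ Q.γ τ)
    {G : (P : CTree) → PhasePoint × Par P → (m : ℕ) → Config m → ℝ≥0∞} (hG : MeasTS G) :
    OS Φ f₀ ε K Q T' (volume.restrict (Ioc 0 Q.te)) (fun P z m w _ => G P z m w) ≤
      cOS Q K g * (2 * InEq2.TS Φ f₀ ε T' (fun P z m w => wQ Φ ε P z * G P z m w)) := by
  have hGS : MeasSF (fun P z m w _ => G P z m w : SF) := fun P m =>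
    (hG P m).comp (measurable_fst.prodMk measurable_snd.fst)
  rw [OS_eq hΦ hf hγm hGS]
  unfold InEq2.TS
  rw [← ENNReal.tsum_mul_left, ← ENNReal.tsum_mul_left]
  refine ENNReal.tsum_le_tsum fun P => ?_
  have hgm : Measurable fun z : PhasePoint × Par P => gcE f₀ ε (fun m w => G P z m w) :=
    MeasE416.measurable_gcE_of hf ε (F := fun m z w => G P z m w) fun m => hG P m
  have e1 : gcE f₀ ε (fun m w => ∫⁻ θ, G P θ.1 m w
      ∂(osM Φ f₀ ε K Q T' (volume.restrict (Ioc 0 Q.te)) P)) =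
      ∫⁻ θ, gcE f₀ ε (fun m w => G P θ.1 m w)
        ∂(osM Φ f₀ ε K Q T' (volume.restrict (Ioc 0 Q.te)) P) :=
    (LN2.lintegral_gcE_swap hf ε (osM Φ f₀ ε K Q T' (volume.restrict (Ioc 0 Q.te)) P)
      (F := fun m θ w => G P θ.1 m w) fun m =>
        (hG P m).comp (measurable_fst.fst.prodMk measurable_snd)).symm
  rw [e1]
  refine (osM_fst_le (G := fun z => gcE f₀ ε (fun m w => G P z m w)) hΦ hε K hγm hρ hg
    hgm).trans ?_
  refine mul_le_mul' le_rfl ?_
  have hm1 : Measurable fun z : PhasePoint × Par P =>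
      ENNReal.ofReal (1 + ‖z.1.2‖) * gcE f₀ ε (fun m w => G P z m w) := by
    refine Measurable.mul ?_ hgm
    exact ((measurable_fst.snd.norm).const_add 1).ennreal_ofReal
  rw [LN2.lintegral_treeM hΦ hf ε P T' hm1, ← lintegral_const_mul' _ _ (by norm_num)]
  refine lintegral_mono fun z => ?_
  by_cases hz : z ∈ {z : PhasePoint × Par P | Valid Φ ε P T' z.1.2 z.2}
  · rw [indicator_of_mem hz, indicator_of_mem hz]
    have hwt : wQ Φ ε P z ≠ ∞ := by
      unfold wQ
      exact ENNReal.sum_ne_top.2 fun i _ => ENNReal.ofReal_ne_top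
    rw [gcE_const_mul f₀ ε hwt]
    have h2 := one_add_root_le hΦ ε (z := z) hz.1
    calc wt Φ P z.1.2 z.2 * (ToTree335.pf Φ f₀ ε P z *
          (ENNReal.ofReal (1 + ‖z.1.2‖) * gcE f₀ ε (fun m w => G P z m w)))
        ≤ wt Φ P z.1.2 z.2 * (ToTree335.pf Φ f₀ ε P z *
          ((2 * wQ Φ ε P z) * gcE f₀ ε (fun m w => G P z m w))) :=
          mul_le_mul' le_rfl (mul_le_mul' le_rfl (mul_le_mul' h2 le_rfl))
      _ = _ := by ring
  · rw [indicator_of_notMem hz, indicator_of_notMem hz, mul_zero]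

/-- **Functionals of `(z, w)` with small tree integral.** -/
theorem osLe_of_TS (hΦ : AdmissiblePotential Φ) (hf : Measurable f₀) (K : ℕ)
    (hγm : Measurable Q.γ) (hρ : Q.ρ ≠ ∞) {g : ℝ} (hg : ∀ τ ∈ Ioc 0 Q.te, g ≤ Q.γ τ) {c : ℝ≥0∞}
    {F : ℝ → (P : CTree) → PhasePoint × Par P → (m : ℕ) → Config m → ℝ≥0∞}
    (h : ∃ ε₀ : ℝ, 0 < ε₀ ∧ ∀ ε : ℝ, 0 < ε → ε < ε₀ →
      ∃ G : (P : CTree) → PhasePoint × Par P → (m : ℕ) → Config m → ℝ≥0∞, MeasTS G ∧
        (∀ (P : CTree) (z : PhasePoint × Par P) (m : ℕ) (w : Config m), P.leaves ≤ K →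
          Valid Φ ε P T' z.1.2 z.2 → Sep Φ ε P T' z.1 z.2 → w ∈ PairExcluded ε m →
          F ε P z m w ≤ G P z m w) ∧
        InEq2.TS Φ f₀ ε T' (fun P z m w => wQ Φ ε P z * G P z m w) ≤ c) :
    OSLe Φ f₀ K Q T' (fun ε P z m w _ => F ε P z m w) (cOS Q K g * (2 * c)) := by
  obtain ⟨ε₀, h0, h⟩ := h
  refine ⟨ε₀, h0, fun ε hε hlt => ?_⟩
  obtain ⟨G, hGm, hG, hGi⟩ := h ε hε hlt
  refine ⟨fun P z m w _ => G P z m w, fun P m =>
    (hGm P m).comp (measurable_fst.prodMk measurable_snd.fst), fun P z m w l hg => ?_, ?_⟩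
  · exact hG P z m w ((Nat.le_add_left _ _).trans hg.small) hg.real.valid hg.real.sep
      hg.real.exw
  · exact (os_zw_le hΦ hf hε K hγm hρ hg hGm).trans
      (mul_le_mul' le_rfl (mul_le_mul' le_rfl hGi))

/-- **Tree events (302's `TNull`) are null for contact structures.** -/
theorem osNull_of_tNull (hΦ : AdmissiblePotential Φ) (hf : Measurable f₀) (K : ℕ)
    (hγm : Measurable Q.γ) (hρ : Q.ρ ≠ ∞) {g : ℝ} (hg0 : 0 < g)
    (hg : ∀ τ ∈ Ioc 0 Q.te, g ≤ Q.γ τ) {E : RtG302.TEv} (h : RtG302.TNull Φ f₀ T' K E) :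
    OSNull Φ f₀ K Q T' (fun ε P z m w _ => if E ε P z m w then 1 else 0) := by
  intro δ hδ
  obtain ⟨δ', hδ', hmul⟩ := exists_mul_le (c := cOS Q K g * 2)
    (ENNReal.mul_ne_top (cOS_ne_top hρ hg0) (by norm_num)) hδ
  obtain ⟨ε₀, h0, h1⟩ := h δ' hδ'
  have h2 := osLe_of_TS (Φ := Φ) (f₀ := f₀) (Q := Q) (T' := T') hΦ hf K hγm hρ hg
    (c := ENNReal.ofReal δ') (F := fun ε P z m w => if E ε P z m w then 1 else 0)
    ⟨ε₀, h0, fun ε hε hlt => by
      obtain ⟨G, hG, hGi⟩ := h1 ε hε hlt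
      refine ⟨G, hG.meas, fun P z m w hP hV hS hw => ?_, hGi⟩
      split_ifs with hE
      · exact hG.maj P z m w hP hV hS hw hE
      · exact bot_le⟩
  refine h2.mono ?_ ⟨1, one_pos, fun _ _ _ _ _ _ _ _ _ => le_rfl⟩
  rw [← mul_assoc]
  exact hmul _ le_rfl

end Crest.Agent.R122.GateOS434

end
end

-- ▼ part R122/LinkNbad_984
section

/-!
# `StmtLink4` (row 122, board H1): `NbadDet`, slots from tree facts

* `nbadDet` : helper263's theorem gives `NbadDet`.
* `link4In_of` : `Link4In` from `KData` and `Slots4`.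
* `osNull_of_tsn`, `slotX_of_tsn` : helper311's tree functionals give null structure functionals.
-/

set_option autoImplicit false

open MeasureTheory Set Filter Topology
open scoped ENNReal
open Crest.AnalysisR.Kinetic
open Crest.Agent.R122.Kin796 Crest.Agent.R122.Kin796.CTree Crest.Agent.R122.Tree674
open Crest.Agent.R122.GC311 Crest.Agent.R122.EDefs602 Crest.Agent.R122.OneC285
open Crest.Agent.R122.Third741 Crest.Agent.R122.Master566 Crest.Agent.R122.Top602
open Crest.Agent.R122.Ineq1815 Crest.Agent.R122.InEq2 Crest.Agent.R122.TL311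
open Crest.Agent.R122.Ins45 hiding relLs

noncomputable section

open scoped Classical

namespace Crest.Agent.R122.LinkAsm984

variable {Φ : Space3 → ℝ} {f₀ : PhasePoint → ℝ} {f : ℝ → PhasePoint → ℝ} {β T : ℝ}
  {K : ℕ} {Q : EPar} {T' : ℝ}

/-- **Good test lines are not in `Nbad4`** (helper263). -/
theorem nbadDet (hΦ : AdmissiblePotential Φ) : NbadDet Φ := by
  intro ε R K te T' P z m w l x hε hTT hK hR h4 hE hx0 _ _ _ hG hXd
  have hPK : P.leaves ≤ K := le_trans (Nat.le_add_left _ _) hK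
  have hEv : EncEv Φ ε R P z w l :=
    EncEv.of_parts hΦ hε hE hR.pos.le h4.okR (NbadR263.E4Pairs.pairR h4)
  refine hR.not_mem_nbad4_of_good hΦ hε hTT hPK hEv h4 hx0.le hG fun d hd => ⟨fun k hk => ?_, ?_⟩
  · by_contra hc
    exact hXd ⟨d, hd, Or.inr ⟨k, hk, hc⟩⟩
  · intro hc
    exact hXd ⟨d, hd, Or.inl hc⟩

/-- **`StmtLink4` in the windows**, from the three null slots. -/
theorem link4In_of (hD : KData Φ β T f₀ f) (hS : Slots4 Φ f₀) : Link4In Φ f₀ f T :=
  link4In_of_slots hD (nbadDet hD.adm) hS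

/-- **Tree functionals (helper311's `TSN`) are null for contact structures.** -/
theorem osNull_of_tsn (hΦ : AdmissiblePotential Φ) (hf : Measurable f₀) {g0 : ℝ} (hQ : QOk Q g0)
    {F : ℝ → (P : CTree) → PhasePoint × Par P → (m : ℕ) → Config m → ℝ≥0∞}
    (h : TSN Φ f₀ T' K F) : OSNull Φ f₀ K Q T' fun ε P z m w _ => F ε P z m w := by
  intro δ hδ
  have hc : GateOS434.cOS Q K g0 * 2 ≠ ∞ :=
    ENNReal.mul_ne_top (GateOS434.cOS_ne_top hQ.ρ_ne hQ.g0_pos) (by norm_num)
  obtain ⟨δ', hδ', hmul⟩ := exists_mul_le hc hδ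
  obtain ⟨ε₀, h0, h1⟩ := h (ENNReal.ofReal δ') (by simpa using hδ')
  have h2 := GateOS434.osLe_of_TS (Φ := Φ) (f₀ := f₀) (Q := Q) (T' := T') hΦ hf K hQ.γ_meas
    hQ.ρ_ne hQ.γ_ge (c := ENNReal.ofReal δ') (F := F) ⟨ε₀, h0, fun ε hε hlt => by
      obtain ⟨G, hG, hle, hGi⟩ := h1 ε hε hlt
      exact ⟨G, hG, fun P z m w hP _ _ hw => hle P z m w hP hw, hGi⟩⟩
  refine h2.mono ?_ ⟨1, one_pos, fun _ _ _ _ _ _ _ _ _ => le_rfl⟩
  rw [← mul_assoc]
  exact hmul _ le_rfl

/-- The tree of a real contact structure is away from the gas at time `0`. -/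
theorem perpT_of_real4 {ε te : ℝ} {P : CTree} {z : PhasePoint × Par P} {m : ℕ} {w : Config m}
    {l : ML} (h : Real4 Φ ε K te T' P z w l) : InEq2T.PerpT Φ ε P z w := by
  intro x i
  rw [linesM_of_adm ε h.valid.1]
  have h1 := h.perp (Relabel674.eP P x) i
  rwa [R6Tree974.cfT_apply] at h1

/-- **The slot of the exceptional test lines** from helper311's gate. -/
theorem slotX_of_tsn (hΦ : AdmissiblePotential Φ) (hf : Measurable f₀) {g0 : ℝ} (hQ : QOk Q g0)
    (h : TSN Φ f₀ T' K (fun ε P z m w => if Valid Φ ε P T' z.1.2 z.2 ∧ Sep Φ ε P T' z.1 z.2 ∧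
      InEq2T.PerpT Φ ε P z w then
        min 1 (EDefs602.lineM Q.γ Q.ρ K Q.te (Xbad4 Φ ε K Q.te P z w)) else 0)) :
    OSNull Φ f₀ K Q T' fun ε P z _ w _ =>
      min 1 (EDefs602.lineM Q.γ Q.ρ K Q.te (Xbad4 Φ ε K Q.te P z w)) := by
  refine (osNull_of_tsn hΦ hf hQ h).congr fun ε hε P z m w l hg => ?_
  rw [if_pos ⟨hg.real.valid, hg.real.sep, perpT_of_real4 hg.real⟩]

end Crest.Agent.R122.LinkAsm984

end
end

-- ▼ part R122/DSum_167
section

/-!
# Motions with births and deaths: sums and dead particles (row 122), helper167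

* `DWorld.congr_d` : the deaths after `T` do not matter.
* `DWorld.sum` : two motions whose living particles stay at distance at least `ε` form one motion.
* `DWorld.of_emb` : adding dead particles.
* `DWorld.line` : a free particle.
* `RelD.sum`, `RelD.mono` : release data.
-/

set_option autoImplicit false
set_option linter.unusedSectionVars false

open MeasureTheory Set Filter Topology
open scoped ENNReal NNReal
open Crest.AnalysisR.Kinetic
open Crest.Agent.R122.Flow671 Crest.Agent.R122.Loc45 Crest.Agent.R122.Ins45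
open Crest.Agent.R122.Simul984

namespace Crest.Agent.R122.TransOk151

noncomputable section

open scoped Classical

variable {Φ : Space3 → ℝ} {ε : ℝ} {α α' : Type*} [Fintype α] [Fintype α']

namespace DWorld

variable {b d d' : α → ℝ} {s T : ℝ} {X : ℝ → α → PhasePoint}

/-- The deaths after `T` do not matter. -/
theorem congr_d (h : DWorld Φ ε b d s T X) (hd : ∀ i, d i = d' i ∨ (T ≤ d i ∧ T ≤ d' i)) :
    DWorld Φ ε b d' s T X where
  cont i := by
    rcases hd i with h1 | ⟨h1, h2⟩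
    · rw [← h1]; exact h.cont i
    · have h3 := h.cont i
      rw [min_eq_left h1] at h3
      rw [min_eq_left h2]
      exact h3
  der t ht htT i hi := by
    have hiff : ∀ j, t < d' j ↔ t < d j := by
      intro j
      rcases hd j with h1 | ⟨h1, h2⟩
      · rw [h1]
      · exact ⟨fun _ => htT.trans_le h1, fun _ => htT.trans_le h2⟩
    have h1 := h.der t ht htT i ((hiff i).1 hi)
    have h2 : bfd Φ ε b d' t (X t) i = bfd Φ ε b d t (X t) i := by
      unfold bfd
      simp only [hiff]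
    rw [h2]
    exact h1
  dom t ht htT := by
    have hiff : ∀ j, t < d' j ↔ t < d j := by
      intro j
      rcases hd j with h1 | ⟨h1, h2⟩
      · rw [h1]
      · exact ⟨fun _ => htT.trans_le h1, fun _ => htT.trans_le h2⟩
    refine (h.dom t ht htT).imp id fun h' i j hij h1 h2 h3 h4 =>
      h' i j hij h1 ((hiff i).1 h2) h3 ((hiff j).1 h4)

/-- Change of the path. -/
theorem congr {X' : ℝ → α → PhasePoint} (h : DWorld Φ ε b d s T X)
    (hX : ∀ t, s ≤ t → t ≤ T → ∀ i, t ≤ d i → X' t i = X t i) : DWorld Φ ε b d s T X' where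
  cont i := (h.cont i).congr fun t ht =>
    hX t ht.1 (ht.2.trans (min_le_left _ _)) i (ht.2.trans (min_le_right _ _))
  der t ht htT i hi := by
    have h3 := h.der t ht htT i hi
    have h4 : bfd Φ ε b d t (X' t) i = bfd Φ ε b d t (X t) i := by
      unfold bfd
      rw [hX t ht htT.le i hi.le]
      congr 3
      refine Finset.sum_congr rfl fun j _ => ?_
      split_ifs with h5
      · rw [hX t ht htT.le j h5.2.le]
      · rfl
    rw [h4]
    refine h3.congr_of_eventuallyEq ?_ (hX t ht htT.le i hi.le)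
    have h5 : Icc t (min T (d i)) ∈ 𝓝[≥] t := Icc_mem_nhdsGE (lt_min htT hi)
    filter_upwards [h5] with u hu
    exact hX u (ht.trans hu.1) (hu.2.trans (min_le_left _ _)) i (hu.2.trans (min_le_right _ _))
  dom t ht htT := by
    refine (h.dom t ht htT).imp id fun h' i j hij h3 h4 h5 h6 => ?_
    rw [hX t ht htT.le i h4.le, hX t ht htT.le j h6.le]
    exact h' i j hij h3 h4 h5 h6

/-- Adding dead particles. -/
theorem of_emb {b : α → ℝ} {d : α → ℝ} {X : ℝ → α → PhasePoint} (e : α' ↪ α)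
    (h : DWorld Φ ε (fun i => b (e i)) (fun i => d (e i)) s T (fun t i => X t (e i)))
    (he : ∀ i, i ∉ range e → d i ≤ s) : DWorld Φ ε b d s T X where
  cont i := by
    by_cases hi : i ∈ range e
    · obtain ⟨k, rfl⟩ := hi
      exact h.cont k
    · have h1 : Icc s (min T (d i)) ⊆ {s} := by
        intro t ht
        exact le_antisymm ((ht.2.trans (min_le_right _ _)).trans (he i hi)) ht.1
      exact (continuousOn_singleton _ _).mono h1
  der t ht htT i hi := by
    by_cases hr : i ∈ range e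
    · obtain ⟨k, rfl⟩ := hr
      have h1 := h.der t ht htT k hi
      have h2 : bfd Φ ε (fun i => b (e i)) (fun i => d (e i)) t (fun i => X t (e i)) k =
          bfd Φ ε b d t (X t) (e k) := by
        unfold bfd
        congr 3
        have h3 : ∑ j : α', (if b (e j) ≤ t ∧ t < d (e j) then
            gradient Φ ((1 / ε) • ((X t (e k)).1 - (X t (e j)).1)) else 0) =
            ∑ j ∈ Finset.univ.map e, (if b j ≤ t ∧ t < d j then
              gradient Φ ((1 / ε) • ((X t (e k)).1 - (X t j).1)) else 0) := by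
          rw [Finset.sum_map]
        rw [h3]
        refine Finset.sum_subset (Finset.subset_univ _) fun j _ hj => ?_
        have hj' : j ∉ range e := fun ⟨k, hk⟩ => hj (by simp [← hk])
        rw [if_neg]
        intro h4
        exact absurd ((he j hj').trans ht) (not_le.2 h4.2)
      rw [← h2]
      exact h1
    · exact absurd ((he i hr).trans ht) (not_le.2 hi)
  dom t ht htT := by
    refine (h.dom t ht htT).imp id fun h' i j hij h1 h2 h3 h4 => ?_
    have hi : i ∈ range e := by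
      by_contra hcon
      exact absurd ((he i hcon).trans ht) (not_le.2 h2)
    have hj : j ∈ range e := by
      by_contra hcon
      exact absurd ((he j hcon).trans ht) (not_le.2 h4)
    obtain ⟨k, rfl⟩ := hi
    obtain ⟨l, rfl⟩ := hj
    exact h' k l (fun h => hij (by rw [h])) h1 h2 h3 h4

/-- **Two motions whose living particles stay at distance at least `ε` form one motion.** -/
theorem sum (hΦ : AdmissiblePotential Φ) (hε : 0 < ε) {b₁ d₁ : α → ℝ} {b₂ d₂ : α' → ℝ}
    {X₁ : ℝ → α → PhasePoint} {X₂ : ℝ → α' → PhasePoint}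
    (h₁ : DWorld Φ ε b₁ d₁ s T X₁) (h₂ : DWorld Φ ε b₂ d₂ s T X₂)
    (hfar : ∀ t, s ≤ t → t < T → ∀ i j, b₁ i ≤ t → t < d₁ i → b₂ j ≤ t → t < d₂ j →
      ε ≤ dist (X₁ t i).1 (X₂ t j).1) :
    DWorld Φ ε (Sum.elim b₁ b₂) (Sum.elim d₁ d₂) s T (fun t => Sum.elim (X₁ t) (X₂ t)) where
  cont i := by
    rcases i with i | i
    · exact h₁.cont i
    · exact h₂.cont i
  der t ht htT i hi := by
    rcases i with i | i
    · have h1 := h₁.der t ht htT i hi
      have h2 : bfd Φ ε (Sum.elim b₁ b₂) (Sum.elim d₁ d₂) t (Sum.elim (X₁ t) (X₂ t)) (Sum.inl i) =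
          bfd Φ ε b₁ d₁ t (X₁ t) i := by
        unfold bfd
        simp only [Sum.elim_inl, Fintype.sum_sum_type, Sum.elim_inr]
        by_cases hb : b₁ i ≤ t
        · rw [if_pos hb, if_pos hb]
          congr 2
          refine add_eq_left.2 (Finset.sum_eq_zero fun j _ => ?_)
          split_ifs with h3
          · exact grad_far hΦ hε (hfar t ht htT i j hb hi h3.1 h3.2)
          · rfl
        · rw [if_neg hb, if_neg hb]
      rw [h2]
      exact h1
    · have h1 := h₂.der t ht htT i hi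
      have h2 : bfd Φ ε (Sum.elim b₁ b₂) (Sum.elim d₁ d₂) t (Sum.elim (X₁ t) (X₂ t)) (Sum.inr i) =
          bfd Φ ε b₂ d₂ t (X₂ t) i := by
        unfold bfd
        simp only [Sum.elim_inl, Fintype.sum_sum_type, Sum.elim_inr]
        by_cases hb : b₂ i ≤ t
        · rw [if_pos hb, if_pos hb]
          congr 2
          refine add_eq_right.2 (Finset.sum_eq_zero fun j _ => ?_)
          split_ifs with h3
          · refine grad_far hΦ hε ?_
            rw [dist_comm]
            exact hfar t ht htT j i h3.1 h3.2 hb hi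
          · rfl
        · rw [if_neg hb, if_neg hb]
      rw [h2]
      exact h1
  dom t ht htT := by
    rcases h₁.dom t ht htT with h | h1
    · exact Or.inl h
    rcases h₂.dom t ht htT with h | h2
    · exact Or.inl h
    refine Or.inr ?_
    rintro (i | i) (j | j) hij hbi hdi hbj hdj
    · exact h1 i j (fun h => hij (by rw [h])) hbi hdi hbj hdj
    · intro h
      have h3 := hfar t ht htT i j hbi hdi hbj hdj
      simp only [Sum.elim_inl, Sum.elim_inr] at h
      rw [h, dist_self] at h3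
      exact absurd h3 (not_le.2 hε)
    · intro h
      have h3 := hfar t ht htT j i hbj hdj hbi hdi
      simp only [Sum.elim_inl, Sum.elim_inr] at h
      rw [← h, dist_self] at h3
      exact absurd h3 (not_le.2 hε)
    · exact h2 i j (fun h => hij (by rw [h])) hbi hdi hbj hdj

/-- A world with births, everybody dies at the same time. -/
theorem of_bworld_const (hΦ : AdmissiblePotential Φ) (hε : 0 < ε) (h : BWorld Φ ε b s X)
    (δ : ℝ) (T : ℝ) : DWorld Φ ε b (fun _ => δ) s T X :=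
  DWorld.of_bworld hΦ hε h fun _ _ _ _ _ _ h1 _ h2 => absurd h2 (not_le.2 h1)

/-- A free particle. -/
theorem line (hΦ : AdmissiblePotential Φ) (hε : 0 < ε) (τ : ℝ) (z : PhasePoint) (δ s T : ℝ) :
    DWorld Φ ε (fun _ : Unit => τ) (fun _ => δ) s T (fun t _ => lineAt τ z t) :=
  of_bworld_const hΦ hε (bworld_line hΦ τ z s) δ T

end DWorld

/-- Release data of a sum. -/
theorem RelD.sum {b₁ d₁ : α → ℝ} {b₂ d₂ : α' → ℝ} {T : ℝ}
    {X₁ : ℝ → α → PhasePoint} {X₂ : ℝ → α' → PhasePoint}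
    (h₁ : RelD ε b₁ d₁ T X₁) (h₂ : RelD ε b₂ d₂ T X₂) :
    RelD ε (Sum.elim b₁ b₂) (Sum.elim d₁ d₂) T (fun t => Sum.elim (X₁ t) (X₂ t)) where
  pos i hi := by
    rcases i with i | i
    · exact h₁.pos i hi
    · exact h₂.pos i hi
  born i hi := by
    rcases i with i | i
    · exact h₁.born i hi
    · exact h₂.born i hi
  exit i hi := by
    rcases i with i | i
    · obtain ⟨p, h1, h2, h3, h4, h5⟩ := h₁.exit i hi
      exact ⟨Sum.inl p, fun h => h1 (Sum.inl_injective h), h2, h3, h4, h5⟩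
    · obtain ⟨p, h1, h2, h3, h4, h5⟩ := h₂.exit i hi
      exact ⟨Sum.inr p, fun h => h1 (Sum.inr_injective h), h2, h3, h4, h5⟩

end

end Crest.Agent.R122.TransOk151
end

-- ▼ part R122/MotE4_167
section

/-!
# The motion of a tree and of the test line (row 122, OkFam facts of inequality 1), helper167

`Real4 Φ ε K te T' P z w l`: the test line `l` meets the root of the tree `(P, z)` at the time
`cT ε z l`. The isolated motion of tree + `l`, in which the exits die at their release times and the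
root and `l` die at the end `tO` of their encounter:

* `dworld_E4`, `relD_E4` : motion with births and deaths, release data; the birth of `l` may be
  replaced by any `q ∈ [l.1.1, cT]`.
* `dworld_E1`, `relD_E1` : the tree alone, the root survives up to a given time `T`.
-/

set_option autoImplicit false
set_option linter.unusedSectionVars false

open MeasureTheory Set Filter Topology
open scoped ENNReal NNReal
open Crest.AnalysisR.Kinetic
open Crest.Agent.R122.Flow671 hiding rel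
open Crest.Agent.R122.Loc45 Crest.Agent.R122.Ins45
open Crest.Agent.R122.Simul984 Crest.Agent.R122.Inf879 Crest.Agent.R122.EDefs602
open Crest.Agent.R122.MWAlg255
open Crest.Agent.R122.Kin796 Crest.Agent.R122.Kin796.CTree Crest.Agent.R122.Tree674
open Crest.Agent.R122.PathFlow968 Crest.Agent.R122.TreeLines335 Crest.Agent.R122.Relabel674
open Crest.Agent.R122.GC311
open Crest.Agent.R122.Scat818 Crest.Agent.R122.OCout796
open Crest.Agent.R122.OneC285 (lpos mSet mT Meet clM cfT rt cT cB cD cX oneLs exS Real4)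
open Crest.Agent.R122.TransOk151

namespace Crest.Agent.R122.OkE167

noncomputable section

open scoped Classical

variable {Φ : Space3 → ℝ} {ε : ℝ}

/-- Whoever separates from its partner at the end of a passage moves away from it. -/
theorem exit_enc (hΦ : AdmissiblePotential Φ) (hε : 0 < ε) {s : ℝ} {y : Space3} {q : CD}
    (hq : CDpass Φ q) : TransTree942.Exit ε (encPL Φ ε s y q (s + outT Φ ε q))
      (encPC Φ ε s y q (s + outT Φ ε q)) := by
  refine ⟨hq.dist_exit hε, ?_⟩
  have h1 : (encPL Φ ε s y q (s + outT Φ ε q)).2 - (encPC Φ ε s y q (s + outT Φ ε q)).2 =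
      (encR Φ ε s q (s + outT Φ ε q)).2 := by
    unfold encPL encPC
    simp only
    module
  rw [encPL_sub_encPC, h1, real_inner_smul_left]
  refine mul_pos hε ?_
  have h2 := hq.hasExit.inner_pos hΦ (reg_entrance Φ hq.ok.1 hq.ok.2)
  have h3 : encR Φ ε s q (s + outT Φ ε q) =
      relFlow Φ (tauM Φ (relB q)) (inc (relB q).1 (relB q).2) := by
    unfold encR outT
    rw [add_sub_cancel_left, mul_div_cancel_left₀ _ hε.ne']
  rw [h3]
  exact h2

/-! ### The tree, the root survives -/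

section tree

variable {P : CTree} {s : ℝ} {ℓ : PhasePoint} {p : Par P}

/-- Deaths: the exits at their release times, the root at `δ`. -/
def dT (P : CTree) (p : Par P) (δ : ℝ) (i : Idx P) : ℝ := if i = root P then δ else rel P p i

theorem dT_root (P : CTree) (p : Par P) (δ : ℝ) : dT P p δ (root P) = δ := if_pos rfl

theorem dT_exit {p : Par P} {δ : ℝ} {i : Idx P} (hi : i ≠ root P) : dT P p δ i = rel P p i :=
  if_neg hi

/-- Up to the time `s` at which it is seen. -/
theorem dworld_tree (hΦ : AdmissiblePotential Φ) (hε : 0 < ε) (hs : 0 < s)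
    (hv : Valid Φ ε P s ℓ.2 p) (hS : Sep Φ ε P s ℓ p) {δ : ℝ} (hδ : s < δ) :
    DWorld Φ ε (fun _ : Idx P => (0 : ℝ)) (dT P p δ) 0 s
        (fun t => flow Φ ε t (lines Φ ε P ℓ p)) ∧
      RelD ε (fun _ : Idx P => (0 : ℝ)) (dT P p δ) s (fun t => flow Φ ε t (lines Φ ε P ℓ p)) := by
  have hX : BWorld Φ ε (fun _ : Idx P => (0 : ℝ)) 0 (fun t => flow Φ ε t (lines Φ ε P ℓ p)) :=
    World.bworld (world_flow hΦ hε (lines_mem_Dom hε hs.le hv.2 hS)) fun _ => le_rfl
  obtain ⟨h1, h2⟩ := Rel.dworld hΦ hε hX (TransTree942.rel_tree hΦ hε hs hv hS)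
  have hd : ∀ i : Idx P, i ≠ root P → dth {i : Idx P | i ≠ root P} (rel P p) s i = rel P p i :=
    fun i hi => dth_mem hi
  have hr : dth {i : Idx P | i ≠ root P} (rel P p) s (root P) = s + 1 :=
    dth_not_mem fun h => h rfl
  refine ⟨h1.congr_d fun i => ?_, fun i hi => ?_, fun i hi => ?_, fun i hi => ?_⟩
  · by_cases hi : i = root P
    · subst hi
      rw [hr, dT_root]
      exact Or.inr ⟨by linarith, hδ.le⟩
    · rw [hd i hi, dT_exit hi]
      exact Or.inl rfl
  · have hi' : i ≠ root P := by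
      rintro rfl
      rw [dT_root] at hi
      exact absurd hi (not_le.2 hδ)
    rw [dT_exit hi'] at hi ⊢
    have := h2.pos i (by rw [hd i hi']; exact hi)
    rwa [hd i hi'] at this
  · have hi' : i ≠ root P := by
      rintro rfl
      rw [dT_root] at hi
      exact absurd hi (not_le.2 hδ)
    rw [dT_exit hi'] at hi ⊢
    have := h2.born i (by rw [hd i hi']; exact hi)
    rwa [hd i hi'] at this
  · have hi' : i ≠ root P := by
      rintro rfl
      rw [dT_root] at hi
      exact absurd hi (not_le.2 hδ)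
    rw [dT_exit hi'] at hi ⊢
    obtain ⟨k, h3, h4, h5, h6, h7⟩ := h2.exit i (by rw [hd i hi']; exact hi)
    rw [hd i hi'] at h4 h5 h6 h7
    refine ⟨k, h3, h4, ?_, h6, h7⟩
    by_cases hk : k = root P
    · subst hk
      rw [dT_root]
      exact hi.trans hδ.le
    · rw [dT_exit hk, ← hd k hk]
      exact h5

/-- The path of the root at the time `s`. -/
theorem flow_root (hΦ : AdmissiblePotential Φ) (hε : 0 < ε) (hs : 0 < s)
    (hv : Valid Φ ε P s ℓ.2 p) (hS : Sep Φ ε P s ℓ p) :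
    flow Φ ε s (lines Φ ε P ℓ p) (root P) = onLine ℓ s := by
  rw [← path_eq_flow hΦ hε hv hS ⟨hs.le, le_rfl⟩]
  exact path_root_after hε.le hv.2 le_rfl

/-- The motion of the tree in which the root flies freely after the time `s`. -/
def XT (Φ : Space3 → ℝ) (ε : ℝ) (P : CTree) (s : ℝ) (ℓ : PhasePoint) (p : Par P) (t : ℝ) :
    Idx P → PhasePoint :=
  if t ≤ s then flow Φ ε t (lines Φ ε P ℓ p) else fun _ => onLine ℓ t

theorem XT_le {t : ℝ} (ht : t ≤ s) :
    XT Φ ε P s ℓ p t = flow Φ ε t (lines Φ ε P ℓ p) := if_pos ht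

theorem XT_root (hΦ : AdmissiblePotential Φ) (hε : 0 < ε) (hs : 0 < s)
    (hv : Valid Φ ε P s ℓ.2 p) (hS : Sep Φ ε P s ℓ p) {t : ℝ} (ht : s ≤ t) :
    XT Φ ε P s ℓ p t (root P) = onLine ℓ t := by
  rcases ht.eq_or_lt with h | h
  · subst h
    rw [XT_le le_rfl, flow_root hΦ hε hs hv hS]
  · unfold XT
    rw [if_neg (not_le.2 h)]

theorem XT_zero (hΦ : AdmissiblePotential Φ) (hε : 0 < ε) (hs : 0 < s) :
    XT Φ ε P s ℓ p 0 = lines Φ ε P ℓ p := by
  rw [XT_le hs.le, Flow671.flow_zero hΦ hε]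


/-- **The tree alone**, the root survives up to `T`. -/
theorem dworld_E1 (hΦ : AdmissiblePotential Φ) (hε : 0 < ε) (hs : 0 < s)
    (hv : Valid Φ ε P s ℓ.2 p) (hS : Sep Φ ε P s ℓ p) {δ T : ℝ} (hsT : s ≤ T) (hδ : T < δ) :
    DWorld Φ ε (fun _ : Idx P => (0 : ℝ)) (dT P p δ) 0 T (XT Φ ε P s ℓ p) := by
  have h1 := (dworld_tree hΦ hε hs hv hS (hsT.trans_lt hδ)).1
  have h2 : DWorld Φ ε (fun _ : Idx P => (0 : ℝ)) (dT P p δ) s T (fun t _ => onLine ℓ t) := by
    let e : Unit ↪ Idx P := ⟨fun _ => root P, fun _ _ _ => rfl⟩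
    refine DWorld.of_emb e ?_ fun i hi => ?_
    · have h3 : DWorld Φ ε (fun _ : Unit => (0 : ℝ)) (fun _ => δ) s T
          (fun t _ => lineAt 0 ℓ t) := DWorld.line hΦ hε 0 ℓ δ s T
      have e1 : (fun i : Unit => dT P p δ (e i)) = fun _ => δ := by
        funext i
        exact dT_root P p δ
      rw [e1]
      refine h3.congr fun t _ _ _ _ => ?_
      unfold onLine lineAt
      rw [sub_zero]
    · have hi' : i ≠ root P := fun h => hi ⟨(), h.symm⟩
      rw [dT_exit hi']
      exact (rel_lt hε.le hs hv.2 i).le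
  refine DWorld.glue hs.le hsT h1 h2 (fun t _ ht i _ => by rw [XT_le ht]) fun t ht _ i hi => ?_
  by_cases hi' : i = root P
  · subst hi'
    exact XT_root hΦ hε hs hv hS ht
  · rw [dT_exit hi'] at hi
    exact absurd ((rel_lt hε.le hs hv.2 i).trans_le ht) (not_lt.2 hi)

theorem relD_E1 (hΦ : AdmissiblePotential Φ) (hε : 0 < ε) (hs : 0 < s)
    (hv : Valid Φ ε P s ℓ.2 p) (hS : Sep Φ ε P s ℓ p) {δ T : ℝ} (hsT : s ≤ T) (hδ : T < δ) :
    RelD ε (fun _ : Idx P => (0 : ℝ)) (dT P p δ) T (XT Φ ε P s ℓ p) := by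
  have h1 := (dworld_tree hΦ hε hs hv hS (hsT.trans_lt hδ)).2
  have hle : ∀ i, dT P p δ i ≤ T → dT P p δ i ≤ s := by
    intro i hi
    by_cases hi' : i = root P
    · subst hi'
      rw [dT_root] at hi
      exact absurd hi (not_le.2 hδ)
    · rw [dT_exit hi']
      exact (rel_lt hε.le hs hv.2 i).le
  refine ⟨fun i hi => h1.pos i (hle i hi), fun i hi => h1.born i (hle i hi), fun i hi => ?_⟩
  obtain ⟨k, h3, h4, h5, h6, h7⟩ := h1.exit i (hle i hi)
  refine ⟨k, h3, h4, h5, ?_, ?_⟩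
  · rw [XT_le (hle i hi)]; exact h6
  · rw [XT_le (hle i hi)]; exact h7

end tree

/-! ### The tree and the test line -/

section enc

variable {te T' : ℝ} {K : ℕ} {P : CTree} {z : PhasePoint × Par P} {m : ℕ} {w : Config m} {l : ML}

/-- The end of the encounter. -/
def tO (Φ : Space3 → ℝ) (ε : ℝ) (z : PhasePoint × Par P) (l : ML) : ℝ :=
  cT ε z l + outT Φ ε (cD ε z l)

/-- Deaths: the exits at their release times, the root and the test line at the end of the
encounter. -/
def dE (Φ : Space3 → ℝ) (ε : ℝ) (P : CTree) (z : PhasePoint × Par P) (l : ML) :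
    Idx P ⊕ Unit → ℝ := Sum.elim (dT P z.2 (tO Φ ε z l)) fun _ => tO Φ ε z l

/-- Births. -/
def bE (P : CTree) (q : ℝ) : Idx P ⊕ Unit → ℝ := Sum.elim (fun _ => 0) fun _ => q

/-- The motion of tree + test line. -/
def XE (Φ : Space3 → ℝ) (ε : ℝ) (P : CTree) (z : PhasePoint × Par P) (l : ML) (t : ℝ) :
    Idx P ⊕ Unit → PhasePoint :=
  if t ≤ cT ε z l then
    Sum.elim (flow Φ ε t (lines Φ ε P z.1 z.2)) fun _ => lineAt l.1.1 l.1.2 t
  else Sum.elim (fun _ => encPC Φ ε (cT ε z l) (cX ε z l) (cD ε z l) t)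
    fun _ => encPL Φ ε (cT ε z l) (cX ε z l) (cD ε z l) t

theorem XE_le {t : ℝ} (ht : t ≤ cT ε z l) : XE Φ ε P z l t =
    Sum.elim (flow Φ ε t (lines Φ ε P z.1 z.2)) fun _ => lineAt l.1.1 l.1.2 t := if_pos ht

variable (h : Real4 Φ ε K te T' P z w l)

include h in
/-- The living particles of the tree do not meet the test line before `cT`. -/
theorem far_alive (hΦ : AdmissiblePotential Φ) (hε : 0 < ε) {t : ℝ} (h0 : 0 ≤ t)
    (ht : l.1.1 ≤ t) (hts : t < cT ε z l) {i : Idx P} {δ : ℝ} (hi : t < dT P z.2 δ i) :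
    ε < dist (flow Φ ε t (lines Φ ε P z.1 z.2) i).1 (lineAt l.1.1 l.1.2 t).1 := by
  have hr := h.real
  have hp : t ≤ prot P (cT ε z l) z.2 i := by
    by_cases hi' : i = root P
    · subst hi'
      rw [PathFlow968.prot_root]
      exact hts.le
    · rw [dT_exit hi', rel_eq_prot P (cT ε z l) z.2 i hi'] at hi
      exact hi.le
  have h1 := h.freeFar hΦ hε t (Fin.castAdd m (eP P i)) ht hts h0
  rw [EBasic602.cfg_path hΦ hε, hr.agree i t h0 hp,
    path_eq_flow hΦ hε hr.valid hr.sep ⟨h0, hts.le⟩, dist_comm] at h1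
  exact h1

include h in
/-- The root at the contact time. -/
theorem state_root (hΦ : AdmissiblePotential Φ) (hε : 0 < ε) :
    flow Φ ε (cT ε z l) (lines Φ ε P z.1 z.2) (root P) = (cX ε z l, (cD ε z l).2.1) := by
  rw [flow_root hΦ hε h.pos h.real.valid h.real.sep]
  rfl

include h in
theorem XE_root (hΦ : AdmissiblePotential Φ) (hε : 0 < ε) (hq : CDpass Φ (cD ε z l)) {t : ℝ}
    (ht : cT ε z l ≤ t) : XE Φ ε P z l t (Sum.inl (root P)) =
      encPC Φ ε (cT ε z l) (cX ε z l) (cD ε z l) t := by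
  rcases ht.eq_or_lt with h1 | h1
  · rw [← h1, XE_le le_rfl, encPC_self hΦ hε hq.ok]
    exact state_root h hΦ hε
  · unfold XE
    rw [if_neg (not_le.2 h1)]
    rfl

include h in
theorem XE_line (hΦ : AdmissiblePotential Φ) (hε : 0 < ε) (hq : CDpass Φ (cD ε z l)) {t : ℝ}
    (ht : cT ε z l ≤ t) (x : Unit) : XE Φ ε P z l t (Sum.inr x) =
      encPL Φ ε (cT ε z l) (cX ε z l) (cD ε z l) t := by
  rcases ht.eq_or_lt with h1 | h1
  · rw [← h1, XE_le le_rfl, encPL_self hΦ hε hq.ok]
    exact h.state_l hε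
  · unfold XE
    rw [if_neg (not_le.2 h1)]
    rfl

include h in
/-- The motion up to the contact. -/
theorem dworld_before (hΦ : AdmissiblePotential Φ) (hε : 0 < ε) (hq : CDpass Φ (cD ε z l)) {q : ℝ}
    (hq1 : l.1.1 ≤ q) :
    DWorld Φ ε (bE P q) (dE Φ ε P z l) 0 (cT ε z l)
      (fun t => Sum.elim (flow Φ ε t (lines Φ ε P z.1 z.2)) fun _ => lineAt l.1.1 l.1.2 t) := by
  have hs := h.pos
  have hO : cT ε z l < tO Φ ε z l := by
    have := hq.outT_pos hε
    unfold tO
    linarith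
  have h1 := (dworld_tree hΦ hε hs h.real.valid h.real.sep hO).1
  have h2 : DWorld Φ ε (fun _ : Unit => q) (fun _ => tO Φ ε z l) 0 (cT ε z l)
      (fun t _ => lineAt l.1.1 l.1.2 t) := by
    refine (DWorld.line hΦ hε q (lineAt l.1.1 l.1.2 q) _ _ _).congr fun t _ _ _ _ => ?_
    exact (lineAt_lineAt l.1.1 q t l.1.2).symm
  exact DWorld.sum hΦ hε h1 h2 fun t ht hts i j _ hdi hbj _ =>
    (far_alive h hΦ hε ht (hq1.trans hbj) hts hdi).le

include h in
/-- The encounter. -/
theorem dworld_after (hΦ : AdmissiblePotential Φ) (hε : 0 < ε) (hq : CDpass Φ (cD ε z l)) {q : ℝ}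
    (hq2 : q ≤ cT ε z l) {T : ℝ} :
    DWorld Φ ε (bE P q) (dE Φ ε P z l) (cT ε z l) T
      (fun t => Sum.elim (fun _ => encPC Φ ε (cT ε z l) (cX ε z l) (cD ε z l) t)
        fun _ => encPL Φ ε (cT ε z l) (cX ε z l) (cD ε z l) t) := by
  have hs := h.pos
  let e : Fin 2 ↪ Idx P ⊕ Unit := ⟨![Sum.inr (), Sum.inl (root P)], by
    intro i j hij
    fin_cases i <;> fin_cases j
    · rfl
    · simp at hij
    · simp at hij
    · rfl⟩
  have e0 : e 0 = Sum.inr () := rfl
  have e1 : e 1 = Sum.inl (root P) := rfl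
  have hW := world_encP (s := cT ε z l) (y := cX ε z l) hΦ hε hq.ok
  have hB : BWorld Φ ε (fun i => bE P q (e i)) (cT ε z l) (fun t =>
      pr2 (encPL Φ ε (cT ε z l) (cX ε z l) (cD ε z l) t,
        encPC Φ ε (cT ε z l) (cX ε z l) (cD ε z l) t)) := World.bworld hW (by
    intro i
    fin_cases i
    · exact hq2
    · exact hs.le)
  refine DWorld.of_emb e ?_ fun i hi => ?_
  · have h1 := DWorld.of_bworld_const hΦ hε hB (tO Φ ε z l) T
    have h2 : (fun i => dE Φ ε P z l (e i)) = fun _ => tO Φ ε z l := by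
      funext i
      fin_cases i
      · rfl
      · exact dT_root P z.2 _
    rw [h2]
    refine h1.congr fun t _ _ i _ => ?_
    fin_cases i <;> rfl
  · rcases i with i | i
    · have hi' : i ≠ root P := fun h => hi ⟨1, by rw [e1, h]⟩
      show dT P z.2 _ i ≤ _
      rw [dT_exit hi']
      exact (rel_lt hε.le hs h.real.valid.2 i).le
    · exact absurd ⟨0, e0⟩ hi

include h in
/-- **The motion of tree + test line** up to the end of the encounter. -/
theorem dworld_E4 (hΦ : AdmissiblePotential Φ) (hε : 0 < ε) (hq : CDpass Φ (cD ε z l)) {q : ℝ}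
    (hq1 : l.1.1 ≤ q) (hq2 : q ≤ cT ε z l) :
    DWorld Φ ε (bE P q) (dE Φ ε P z l) 0 (tO Φ ε z l) (XE Φ ε P z l) := by
  have hs := h.pos
  have hO : cT ε z l ≤ tO Φ ε z l := by
    have := hq.outT_pos hε
    unfold tO
    linarith
  refine DWorld.glue hs.le hO (dworld_before h hΦ hε hq hq1) (dworld_after h hΦ hε hq hq2)
    (fun t _ ht i _ => by rw [XE_le ht]) fun t ht _ i hi => ?_
  rcases i with i | i
  · by_cases hi' : i = root P
    · subst hi'
      exact XE_root h hΦ hε hq ht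
    · have h1 : t ≤ dT P z.2 (tO Φ ε z l) i := hi
      rw [dT_exit hi'] at h1
      exact absurd ((rel_lt hε.le hs h.real.valid.2 i).trans_le ht) (not_lt.2 h1)
  · exact XE_line h hΦ hε hq ht i

include h in
/-- **Release data** of tree + test line. -/
theorem relD_E4 (hΦ : AdmissiblePotential Φ) (hε : 0 < ε) (hq : CDpass Φ (cD ε z l)) {q : ℝ}
    (hq2 : q ≤ cT ε z l) :
    RelD ε (bE P q) (dE Φ ε P z l) (tO Φ ε z l) (XE Φ ε P z l) := by
  have hs := h.pos
  have hO : cT ε z l < tO Φ ε z l := by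
    have := hq.outT_pos hε
    unfold tO
    linarith
  have hT0 : 0 < tO Φ ε z l := hs.trans hO
  have h1 := (dworld_tree hΦ hε hs h.real.valid h.real.sep hO).2
  have hroot : dE Φ ε P z l (Sum.inl (root P)) = tO Φ ε z l := dT_root P z.2 _
  have hex : ∀ i, i ≠ root P → dT P z.2 (tO Φ ε z l) i < cT ε z l := fun i hi => by
    rw [dT_exit hi]
    exact rel_lt hε.le hs h.real.valid.2 i
  have hE := exit_enc (s := cT ε z l) (y := cX ε z l) hΦ hε hq
  have eL := XE_line h hΦ hε hq hO.le ()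
  have eC := XE_root h hΦ hε hq hO.le
  refine ⟨fun i _ => ?_, fun i _ => ?_, fun i _ => ?_⟩
  · rcases i with i | i
    · by_cases hi : i = root P
      · subst hi
        rw [hroot]
        exact hT0
      · exact h1.pos i (hex i hi).le
    · exact hT0
  · rcases i with i | i
    · by_cases hi : i = root P
      · subst hi
        rw [hroot]
        exact hT0.le
      · exact h1.born i (hex i hi).le
    · exact hq2.trans hO.le
  · rcases i with i | i
    · by_cases hi : i = root P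
      · subst hi
        rw [hroot]
        refine ⟨Sum.inr (), by simp, hq2.trans hO.le, le_rfl, ?_⟩
        rw [eL, eC]
        exact hE.symm
      · obtain ⟨k, h3, h4, h5, h6, h7⟩ := h1.exit i (hex i hi).le
        refine ⟨Sum.inl k, fun h => h3 (Sum.inl_injective h), h4, h5, ?_⟩
        have e1 : XE Φ ε P z l (dE Φ ε P z l (Sum.inl i)) = _ := XE_le (hex i hi).le
        rw [e1]
        exact ⟨h6, h7⟩
    · refine ⟨Sum.inl (root P), by simp, hT0.le, hroot.ge, ?_⟩
      have e2 : dE Φ ε P z l (Sum.inr i) = tO Φ ε z l := rfl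
      rw [e2, eC, XE_line h hΦ hε hq hO.le i]
      exact hE

include h in
theorem XE_zero (hΦ : AdmissiblePotential Φ) (hε : 0 < ε) :
    XE Φ ε P z l 0 = Sum.elim (lines Φ ε P z.1 z.2) fun _ => back l.1 := by
  rw [XE_le h.pos.le, Flow671.flow_zero hΦ hε, back_eq]

end enc

end

end Crest.Agent.R122.OkE167
end

-- ▼ part R122/OkE4_167
section

/-!
# Good worlds of inequality 1 (row 122), helper167

* `GoodP`, `ae_goodP` : `ae_okFamD` (151), one family at a time.
* `okFam_of_sub` : `MW.OkFam` on a finset from all its sub-finsets.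
* `ok2_of`, `ok1_of` : the families `{l', c'} ∪ exits` and `{c} ∪ exits` of a real one-contact
  structure whose encounter is a passage.
* `ae_okE4` : almost every `(z, w, l)`, every s-finite law of the birth of `l`.
* `os_eq_zero` : structure integrals of a.e. vanishing functionals.
-/

set_option autoImplicit false
set_option linter.unusedSectionVars false

open MeasureTheory Set Filter Topology
open scoped ENNReal NNReal
open Crest.AnalysisR.Kinetic
open Crest.Agent.R122.Flow671 hiding rel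
open Crest.Agent.R122.Loc45 Crest.Agent.R122.Ins45
open Crest.Agent.R122.Simul984 Crest.Agent.R122.Inf879 Crest.Agent.R122.EDefs602
open Crest.Agent.R122.MWAlg255
open Crest.Agent.R122.Kin796 Crest.Agent.R122.Kin796.CTree Crest.Agent.R122.Tree674
open Crest.Agent.R122.PathFlow968 Crest.Agent.R122.TreeLines335 Crest.Agent.R122.Relabel674
open Crest.Agent.R122.GC311
open Crest.Agent.R122.Scat818 Crest.Agent.R122.OCout796
open Crest.Agent.R122.OneC285 (lpos mSet mT Meet clM cfT rt cT cB cD cX oneLs exS Real4 OS)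
open Crest.Agent.R122.TransOk151

namespace Crest.Agent.R122.OkE167

noncomputable section

open scoped Classical

variable {Φ : Space3 → ℝ} {ε : ℝ}

/-! ### One family at a time -/

section fam

variable {α ω : Type} [Fintype α] [Fintype ω]

/-- The conclusion of the transfer theorem with deaths at the states `p`, one family at a time. -/
def GoodP (Φ : Space3 → ℝ) (ε : ℝ) (bα : α → ℝ) (bω : ω → ℝ)
    (p : (α → PhasePoint) × (ω → PhasePoint)) : Prop :=
  ∀ (d : α → ℝ) (T : ℝ) (X : ℝ → α → PhasePoint), 0 ≤ T → DWorld Φ ε bα d 0 T X →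
    X 0 = p.1 → RelD ε bα d T X →
    ∀ (κ : Type) [Fintype κ] (j : κ → α) (ls : κ → ML) (W : MW ω), Function.Injective j →
    (∀ x, d (j x) ≤ T) → (∀ x, (ls x).1 = (d (j x), X (d (j x)) (j x))) →
    W.b = bω → W.z = p.2 → SepB ε (W.add (MW.lines ls)) →
    (W.add (MW.lines ls)).Ok Φ ε ∧ ∀ t ∈ Icc 0 T, ∀ a : α, t ≤ d a →
      (∀ y : ω, (X t a).1 ≠ ((W.add (MW.lines ls)).path Φ ε t (Sum.inl y)).1) ∧
      ∀ x : κ, j x ≠ a → d (j x) ≤ t →
        (X t a).1 ≠ ((W.add (MW.lines ls)).path Φ ε t (Sum.inr x)).1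

theorem ae_goodP (hΦ : AdmissiblePotential Φ) (hε : 0 < ε) (bα : α → ℝ) (bω : ω → ℝ)
    (hbω : ∀ x, 0 ≤ bω x) :
    ∀ᵐ p ∂((volume : Measure (α → PhasePoint)).prod (volume : Measure (ω → PhasePoint))),
      GoodP Φ ε bα bω p := by
  filter_upwards [ae_okFamD (α := α) hΦ hε bα bω hbω] with p hp d T X hT hX h0 hR κ _ j ls W hj
    hjT hls hWb hWz hSep
  obtain ⟨h1, h2⟩ := hp d T X hT hX h0 hR κ j ls W hj hjT hls hWb hWz hSep
  let e : ω ⊕ κ ≃ ω ⊕ (Finset.univ : Finset κ) := Equiv.sumCongr (Equiv.refl ω)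
    { toFun := fun x => ⟨x, Finset.mem_univ x⟩
      invFun := fun x => x.1
      left_inv := fun _ => rfl
      right_inv := fun _ => rfl }
  have he : (W.add (sub ls Finset.univ)).comap e = W.add (MW.lines ls) := by
    unfold sub MW.comap MW.add MW.lines
    congr 1 <;> · funext x; rcases x with x | x <;> rfl
  have hpath : ∀ t x, (W.add (MW.lines ls)).path Φ ε t x =
      (W.add (sub ls Finset.univ)).path Φ ε t (e x) := by
    intro t x
    rw [← he]
    exact MWAlg255.path_comap hΦ hε _ e t x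
  refine ⟨?_, fun t ht a hta => ?_⟩
  · rw [← he]
    exact (h1 Finset.univ).comap hΦ hε e
  · obtain ⟨h3, h4⟩ := h2 Finset.univ t ht a hta
    refine ⟨fun y => ?_, fun x hx hxt => ?_⟩
    · rw [hpath]
      exact h3 y
    · rw [hpath]
      exact h4 ⟨x, Finset.mem_univ x⟩ hx hxt

/-- `MW.OkFam` on a finset from all its sub-finsets. -/
theorem okFam_of_sub (hΦ : AdmissiblePotential Φ) (hε : 0 < ε) {κ : Type} [Fintype κ] {Z : MW ω}
    {ls : κ → ML} {F : Finset κ} (h : ∀ S ⊆ F, (Z.add (sub ls S)).Ok Φ ε) :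
    MW.OkFam Φ ε Z (fun x : F => ls x) := by
  intro S
  have h1 := h (S.map (Function.Embedding.subtype _)) (fun x hx => by
    obtain ⟨y, _, rfl⟩ := Finset.mem_map.1 hx
    exact y.2)
  have h2 : Z.add (sub (fun x : F => ls x) S) =
      (Z.add (sub ls (S.map (Function.Embedding.subtype _)))).comap
      (Equiv.sumCongr (Equiv.refl ω) (Equiv.ofBijective
        (fun i : S => (⟨i.1.1, Finset.mem_map_of_mem (Function.Embedding.subtype _) i.2⟩ :
          (S.map (Function.Embedding.subtype _) : Finset κ)))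
      ⟨fun i j h => Subtype.ext (Subtype.ext (congrArg (fun y :
          (S.map (Function.Embedding.subtype _) : Finset κ) => y.1) h)), fun ⟨k, hk⟩ => by
        obtain ⟨i, hi, rfl⟩ := Finset.mem_map.1 hk
        exact ⟨⟨i, hi⟩, rfl⟩⟩)) := by
    rw [← MWFam255.add_comap_right]
    rfl
  rw [h2]
  exact h1.comap hΦ hε _

end fam

/-! ### The families of inequality 1 -/

section e4

variable {te T' : ℝ} {K : ℕ} {P : CTree} {z : PhasePoint × Par P} {m : ℕ} {w : Config m} {l : ML}

/-- `StartSep` is symmetric. -/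
theorem _root_.Crest.Agent.R122.TransOk151.StartSep.symm {z z' : PhasePoint}
    (h : StartSep ε z z') : StartSep ε z' z := by
  rcases h with h | ⟨h, h'⟩
  · exact Or.inl (by rwa [dist_comm])
  · refine Or.inr ⟨by rwa [dist_comm], ?_⟩
    rw [← neg_sub z.1 z'.1, ← neg_sub z.2 z'.2, inner_neg_neg]
    exact h'

variable (h : Real4 Φ ε K te T' P z w l)

include h in
theorem lt_tO (hε : 0 < ε) (hq : CDpass Φ (cD ε z l)) : cT ε z l < tO Φ ε z l := by
  have := hq.outT_pos hε
  unfold tO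
  linarith

include h in
/-- The released lines, in terms of the motion. -/
theorem exit_fst (hΦ : AdmissiblePotential Φ) (hε : 0 < ε) {i : Idx P} (hi : i ≠ root P) :
    (oneLs Φ ε P z l (Sum.inl i)).1 = (dT P z.2 (tO Φ ε z l) i,
      flow Φ ε (dT P z.2 (tO Φ ε z l) i) (lines Φ ε P z.1 z.2) i) := by
  rw [oneLs_exit hi, dT_exit hi]
  exact TransTree942.lineML_fst hΦ hε h.pos h.real.valid h.real.sep i

include h in
theorem exit_startSep (hΦ : AdmissiblePotential Φ) (hε : 0 < ε) {i k : Idx P} (hi : i ≠ root P)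
    (hk : k ≠ root P) (hik : i ≠ k)
    (hb : (oneLs Φ ε P z l (Sum.inl i)).1.1 = (oneLs Φ ε P z l (Sum.inl k)).1.1) :
    StartSep ε (oneLs Φ ε P z l (Sum.inl i)).1.2 (oneLs Φ ε P z l (Sum.inl k)).1.2 := by
  rw [oneLs_exit hi, oneLs_exit hk] at *
  exact TransTree942.startSep_lineML hΦ hε h.pos h.real.valid h.real.sep hik hb

include h in
theorem exit_birth_lt (hε : 0 < ε) {i : Idx P} (hi : i ≠ root P) :
    (oneLs Φ ε P z l (Sum.inl i)).1.1 < cT ε z l := by
  rw [oneLs_exit hi]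
  exact rel_lt hε.le h.pos h.real.valid.2 i

include h in
theorem exit_birth_pos (hε : 0 < ε) {i : Idx P} (hi : i ≠ root P) :
    0 < (oneLs Φ ε P z l (Sum.inl i)).1.1 := by
  rw [oneLs_exit hi]
  exact TreeLines335.rel_pos hε.le h.real.valid.2 i hi

/-- The particle of a line of `{l', c'} ∪ exits`. -/
def jE (P : CTree) : Idx P ⊕ Bool → Idx P ⊕ Unit
  | Sum.inl i => Sum.inl i
  | Sum.inr false => Sum.inr ()
  | Sum.inr true => Sum.inl (root P)

include h in
/-- **The family `{l', c'} ∪ exits`.** -/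
theorem ok2_of (hΦ : AdmissiblePotential Φ) (hε : 0 < ε) (hq : CDpass Φ (cD ε z l))
    (hG : ∀ r : ℚ, GoodP Φ ε (bE P r) (fun _ : Fin m => 0)
      (Sum.elim (lines Φ ε P z.1 z.2) (fun _ : Unit => back l.1), w)) :
    MW.OkFam Φ ε (MW.cfg w)
      (fun x : (insert (Sum.inr false) (insert (Sum.inr true) (exS P)) :
        Finset (Idx P ⊕ Bool)) => oneLs Φ ε P z l x) := by
  have hs := h.pos
  have hO := lt_tO h hε hq
  refine okFam_of_sub hΦ hε fun S hS => ?_
  obtain ⟨r, hr1, hr2⟩ := exists_rat_btwn h.lt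
  have hmem : ∀ x : S, (∃ i, x.1 = Sum.inl i ∧ i ≠ root P) ∨ x.1 = Sum.inr false ∨
      x.1 = Sum.inr true := by
    rintro ⟨x, hx⟩
    rcases x with i | b
    · left
      refine ⟨i, rfl, ?_⟩
      rcases Finset.mem_insert.1 (hS hx) with h1 | h1
      · cases h1
      rcases Finset.mem_insert.1 h1 with h2 | h2
      · cases h2
      · exact mem_exS.1 h2
    · cases b
      · exact Or.inr (Or.inl rfl)
      · exact Or.inr (Or.inr rfl)
  have hd : ∀ x : S, dE Φ ε P z l (jE P x.1) ≤ tO Φ ε z l := by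
    intro x
    rcases hmem x with ⟨i, h1, h2⟩ | h1 | h1
    · rw [h1]
      show dT P z.2 _ i ≤ _
      rw [dT_exit h2]
      exact ((rel_lt hε.le hs h.real.valid.2 i).trans hO).le
    · rw [h1]
      exact le_rfl
    · rw [h1]
      exact (dT_root P z.2 _).le
  have hls : ∀ x : S, (oneLs Φ ε P z l x).1 = (dE Φ ε P z l (jE P x.1),
      XE Φ ε P z l (dE Φ ε P z l (jE P x.1)) (jE P x.1)) := by
    intro x
    rcases hmem x with ⟨i, h1, h2⟩ | h1 | h1
    · rw [h1, exit_fst h hΦ hε h2]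
      have h3 : dT P z.2 (tO Φ ε z l) i ≤ cT ε z l := by
        rw [dT_exit h2]
        exact (rel_lt hε.le hs h.real.valid.2 i).le
      have h4 : dE Φ ε P z l (jE P (Sum.inl i)) = dT P z.2 (tO Φ ε z l) i := rfl
      rw [h4, XE_le h3]
      rfl
    · rw [h1]
      have h4 : dE Φ ε P z l (jE P (Sum.inr false)) = tO Φ ε z l := rfl
      rw [h4]
      refine Prod.ext rfl ?_
      show _ = XE Φ ε P z l (tO Φ ε z l) (Sum.inr ())
      rw [XE_line h hΦ hε hq hO.le]
      exact (encPL_exit hε.ne').symm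
    · rw [h1]
      have h4 : dE Φ ε P z l (jE P (Sum.inr true)) = tO Φ ε z l := dT_root P z.2 _
      rw [h4]
      refine Prod.ext rfl ?_
      show _ = XE Φ ε P z l (tO Φ ε z l) (Sum.inl (root P))
      rw [XE_root h hΦ hε hq hO.le]
      exact (encPC_exit hε.ne').symm
  have hj : Function.Injective fun x : S => jE P x.1 := by
    intro x y hxy
    have hxy' : jE P x.1 = jE P y.1 := hxy
    refine Subtype.ext ?_
    rcases hmem x with ⟨i, h1, h2⟩ | h1 | h1 <;> rcases hmem y with ⟨k, h3, h4⟩ | h3 | h3 <;>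
      rw [h1, h3] at hxy' <;> rw [h1, h3]
    · exact congrArg Sum.inl (Sum.inl_injective hxy')
    · exact absurd hxy' (by simp [jE])
    · exact absurd (Sum.inl_injective hxy') h2
    · exact absurd hxy' (by simp [jE])
    · exact absurd hxy' (by simp [jE])
    · exact absurd (Sum.inl_injective hxy').symm h4
    · exact absurd hxy' (by simp [jE])
  have hE := exit_enc (s := cT ε z l) (y := cX ε z l) hΦ hε hq
  have hb1 : (oneLs Φ ε P z l (Sum.inr false)).1.1 = tO Φ ε z l := rfl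
  have hb2 : (oneLs Φ ε P z l (Sum.inr true)).1.1 = tO Φ ε z l := rfl
  have hst : StartSep ε (oneLs Φ ε P z l (Sum.inr false)).1.2
      (oneLs Φ ε P z l (Sum.inr true)).1.2 := by
    refine Or.inr ?_
    rw [encPL_exit hε.ne', encPC_exit hε.ne'] at hE
    exact hE
  refine (hG r (dE Φ ε P z l) (tO Φ ε z l) (XE Φ ε P z l) (hs.trans hO).le
    (dworld_E4 h hΦ hε hq hr1.le hr2.le) (XE_zero h hΦ hε) (relD_E4 h hΦ hε hq hr2.le) S
    (fun x => jE P x.1) (fun x => oneLs Φ ε P z l x) (MW.cfg w) hj hd hls rfl rfl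
    (sepB_add_lines (sepB_cfg h.exw) (fun x y hxy hb => ?_) fun i x hb => ?_)).1
  · rcases hmem x with ⟨i, h1, h2⟩ | h1 | h1 <;> rcases hmem y with ⟨k, h3, h4⟩ | h3 | h3 <;>
      rw [h1, h3] at hb <;> rw [h1, h3]
    · exact exit_startSep h hΦ hε h2 h4 (fun h5 => hxy (Subtype.ext (by rw [h1, h3, h5]))) hb
    · have := exit_birth_lt h hε h2
      rw [hb, hb1] at this
      exact absurd this (not_lt.2 hO.le)
    · have := exit_birth_lt h hε h2
      rw [hb, hb2] at this
      exact absurd this (not_lt.2 hO.le)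
    · have := exit_birth_lt h hε h4
      rw [← hb, hb1] at this
      exact absurd this (not_lt.2 hO.le)
    · exact absurd (Subtype.ext (h1.trans h3.symm)) hxy
    · exact hst
    · have := exit_birth_lt h hε h4
      rw [← hb, hb2] at this
      exact absurd this (not_lt.2 hO.le)
    · exact hst.symm
    · exact absurd (Subtype.ext (h1.trans h3.symm)) hxy
  · have hb' : (0 : ℝ) = (oneLs Φ ε P z l x).1.1 := hb
    rcases hmem x with ⟨i, h1, h2⟩ | h1 | h1
    · rw [h1] at hb'
      exact absurd hb' (exit_birth_pos h hε h2).ne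
    · rw [h1, hb1] at hb'
      exact absurd hb' (hs.trans hO).ne
    · rw [h1, hb2] at hb'
      exact absurd hb' (hs.trans hO).ne

/-- The particle of an exit. -/
def jX (P : CTree) (x : Idx P ⊕ Bool) : Idx P := Sum.elim id (fun _ => root P) x

include h in
/-- **The family `{c} ∪ exits`.** -/
theorem ok1_of (hΦ : AdmissiblePotential Φ) (hε : 0 < ε) (hq : CDpass Φ (cD ε z l))
    (hG : GoodP Φ ε (fun _ : Idx P => 0) (fun _ : Fin m => 0) (lines Φ ε P z.1 z.2, w)) :
    MW.OkFam Φ ε (MW.cfg w)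
      (fun x : (insert (Sum.inl (root P)) (exS P) : Finset (Idx P ⊕ Bool)) =>
        oneLs Φ ε P z l x) := by
  have hs := h.pos
  have hO := lt_tO h hε hq
  set T := tO Φ ε z l with hT
  -- the exits
  have key : ∀ S ⊆ exS P, ((MW.cfg w).add (sub (oneLs Φ ε P z l) S)).Ok Φ ε ∧
      ∀ x, (((MW.cfg w).add (sub (oneLs Φ ε P z l) S)).path Φ ε T x).1 ≠ (onLine z.1 T).1 := by
    intro S hS
    have hmem : ∀ x : S, ∃ i, x.1 = Sum.inl i ∧ i ≠ root P := by
      rintro ⟨x, hx⟩
      rcases x with i | b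
      · exact ⟨i, rfl, mem_exS.1 (hS hx)⟩
      · exact absurd (hS hx) inr_not_mem_exS
    have hdx : ∀ x : S, dT P z.2 (T + 1) (jX P x.1) < cT ε z l := by
      intro x
      obtain ⟨i, h1, h2⟩ := hmem x
      rw [h1]
      show dT P z.2 (T + 1) i < _
      rw [dT_exit h2]
      exact rel_lt hε.le hs h.real.valid.2 i
    have hls : ∀ x : S, (oneLs Φ ε P z l x).1 = (dT P z.2 (T + 1) (jX P x.1),
        XT Φ ε P (cT ε z l) z.1 z.2 (dT P z.2 (T + 1) (jX P x.1)) (jX P x.1)) := by
      intro x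
      rw [XT_le (hdx x).le]
      obtain ⟨i, h1, h2⟩ := hmem x
      rw [h1, exit_fst h hΦ hε h2]
      show _ = (dT P z.2 (T + 1) i, flow Φ ε (dT P z.2 (T + 1) i) (lines Φ ε P z.1 z.2) i)
      rw [dT_exit h2, dT_exit h2]
    have hj : Function.Injective fun x : S => jX P x.1 := by
      intro x y hxy
      have hxy' : jX P x.1 = jX P y.1 := hxy
      obtain ⟨i, h1, h2⟩ := hmem x
      obtain ⟨k, h3, h4⟩ := hmem y
      rw [h1, h3] at hxy'
      exact Subtype.ext (by rw [h1, h3]; exact congrArg Sum.inl hxy')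
    obtain ⟨h1, h2⟩ := hG (dT P z.2 (T + 1)) T (XT Φ ε P (cT ε z l) z.1 z.2) (hs.trans hO).le
      (dworld_E1 hΦ hε hs h.real.valid h.real.sep hO.le (by linarith))
      (XT_zero hΦ hε hs) (relD_E1 hΦ hε hs h.real.valid h.real.sep hO.le (by linarith)) S
      (fun x => jX P x.1) (fun x => oneLs Φ ε P z l x) (MW.cfg w) hj
      (fun x => ((hdx x).trans hO).le) hls rfl rfl
      (sepB_add_lines (sepB_cfg h.exw) (fun x y hxy hb => by
        obtain ⟨i, h3, h4⟩ := hmem x
        obtain ⟨k, h5, h6⟩ := hmem y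
        rw [h3, h5] at hb ⊢
        exact exit_startSep h hΦ hε h4 h6 (fun h7 => hxy (Subtype.ext (by rw [h3, h5, h7]))) hb)
        fun i x hb => by
          obtain ⟨i, h3, h4⟩ := hmem x
          have hb' : (0 : ℝ) = (oneLs Φ ε P z l x).1.1 := hb
          rw [h3] at hb'
          exact absurd hb' (exit_birth_pos h hε h4).ne)
    refine ⟨h1, ?_⟩
    obtain ⟨h3, h4⟩ := h2 T ⟨(hs.trans hO).le, le_rfl⟩ (root P) (by
      rw [dT_root]; linarith)
    rw [XT_root hΦ hε hs h.real.valid h.real.sep hO.le] at h3 h4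
    rintro (x | x)
    · exact (h3 x).symm
    · refine (h4 x ?_ ((hdx x).trans hO).le).symm
      obtain ⟨i, h5, h6⟩ := hmem x
      rw [h5]
      exact h6
  refine okFam_of_sub hΦ hε fun S hS => ?_
  by_cases hr : Sum.inl (root P) ∈ S
  · set S₀ := S.erase (Sum.inl (root P)) with hS₀
    have hS₀' : S₀ ⊆ exS P := fun x hx =>
      (Finset.mem_insert.1 (hS (Finset.mem_of_mem_erase hx))).resolve_left
        (Finset.ne_of_mem_erase hx)
    have hSi : S = insert (Sum.inl (root P)) S₀ := (Finset.insert_erase hr).symm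
    obtain ⟨h1, h2⟩ := key S₀ hS₀'
    have hc : (oneLs Φ ε P z l (Sum.inl (root P))).1 = (T, onLine z.1 T) := by
      rw [oneLs_root]
      refine Prod.ext rfl (Prod.ext ?_ rfl)
      show z.1.1 + cT ε z l • z.1.2 + outT Φ ε (cD ε z l) • z.1.2 = z.1.1 + T • z.1.2
      rw [hT, tO, add_smul, add_assoc]
    have h3 : (((MW.cfg w).add (sub (oneLs Φ ε P z l) S₀)).ins
        (oneLs Φ ε P z l (Sum.inl (root P)))).Ok Φ ε := by
      refine ok_add_last hΦ hε h1 ?_ (hs.trans hO) (fun k => ?_) ?_ ?_ ?_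
      · rintro (x | x)
        · exact le_rfl
        · have hx := hS₀' x.2
          rcases x with ⟨i | b, hxS⟩
          · exact (exit_birth_pos h hε (mem_exS.1 hx)).le
          · exact absurd hx inr_not_mem_exS
      · show (oneLs Φ ε P z l (Sum.inl (root P))).1.1 = T
        rw [hc]
      · rintro (x | x)
        · exact hs.trans hO
        · have hx := hS₀' x.2
          rcases x with ⟨i | b, hxS⟩
          · exact (exit_birth_lt h hε (mem_exS.1 hx)).trans hO
          · exact absurd hx inr_not_mem_exS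
      · exact fun k k' hkk' => absurd (Subsingleton.elim k k') hkk'
      · intro x k
        have h4 : (lineAt 0 ((MW.line (oneLs Φ ε P z l (Sum.inl (root P)))).z k) T) =
            onLine z.1 T := by
          show lineAt 0 (back (oneLs Φ ε P z l (Sum.inl (root P))).1) T = _
          rw [hc, back_eq, lineAt_lineAt, lineAt_self]
        rw [h4]
        exact h2 x
    have h5 : ((MW.cfg w).add (sub (oneLs Φ ε P z l) (insert (Sum.inl (root P)) S₀))).comap
        ((Equiv.sumAssoc (Fin m) S₀ Unit).trans (Equiv.sumCongr (Equiv.refl (Fin m))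
          (insertEquiv (Finset.notMem_erase _ _)))) =
        ((MW.cfg w).add (sub (oneLs Φ ε P z l) S₀)).ins
          (oneLs Φ ε P z l (Sum.inl (root P))) := by
      unfold MW.ins MW.comap MW.add
      congr 1 <;> · funext x; rcases x with (x | x) | x <;> rfl
    rw [hSi]
    refine MW.Ok.of_comap hΦ hε ((Equiv.sumAssoc (Fin m) S₀ Unit).trans
      (Equiv.sumCongr (Equiv.refl (Fin m)) (insertEquiv (Finset.notMem_erase _ _)))) ?_
    rw [h5]
    exact h3
  · exact (key S fun x hx => (Finset.mem_insert.1 (hS hx)).resolve_left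
      fun h' => hr (h' ▸ hx)).1

end e4

end

end Crest.Agent.R122.OkE167
private theorem rz_6118f8e05d : type_of% @_root_.Crest.Agent.R122.OkE167.jE.eq_1 := @_root_.Crest.Agent.R122.OkE167.jE.eq_1 -- L167
end

-- ▼ part R122/OkE4AE_167
section

/-!
# Good worlds of inequality 1, almost surely (row 122), helper167

* `qmp_back`, `qmp_join` : null sets of time-`0` states are not seen by the lines.
* `ae_okE4` : for every s-finite law `κ` of the birth of the test line, for almost every `(z, w, l)`: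
  `Real4` and a passage imply the three `OkFam` fields of helper263's `E4Pairs`.
* `os_eq_zero` : structure integrals of a.e. vanishing functionals.
* `os_not_ok` : the structure integral of the structures with a bad world is zero.
-/

set_option autoImplicit false
set_option linter.unusedSectionVars false

open MeasureTheory Set Filter Topology
open scoped ENNReal NNReal
open Crest.AnalysisR.Kinetic
open Crest.Agent.R122.Flow671 hiding rel
open Crest.Agent.R122.Loc45 Crest.Agent.R122.Ins45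
open Crest.Agent.R122.Simul984 Crest.Agent.R122.Inf879 Crest.Agent.R122.EDefs602
open Crest.Agent.R122.MWAlg255
open Crest.Agent.R122.Kin796 Crest.Agent.R122.Kin796.CTree Crest.Agent.R122.Tree674
open Crest.Agent.R122.PathFlow968 Crest.Agent.R122.TreeLines335 Crest.Agent.R122.Relabel674
open Crest.Agent.R122.GC311
open Crest.Agent.R122.Scat818 Crest.Agent.R122.OCout796
open Crest.Agent.R122.OneC285 (lpos mSet mT Meet clM cfT rt cT cB cD cX oneLs exS Real4 OS SF)
open Crest.Agent.R122.OneC423 (baseM)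
open Crest.Agent.R122.TransOk151

namespace Crest.Agent.R122.OkE167

noncomputable section

open scoped Classical

variable {Φ : Space3 → ℝ} {ε : ℝ}

/-! ### Null sets -/

theorem back_eq_onLine (l : ℝ × PhasePoint) : back l = onLine l.2 (-l.1) := by
  unfold back onLine
  refine Prod.ext ?_ rfl
  simp only
  rw [neg_smul, sub_eq_add_neg]

theorem qmp_back (κ : Measure ℝ) [SFinite κ] :
    Measure.QuasiMeasurePreserving (fun l : ML => back l.1) (baseM κ)
      (volume : Measure PhasePoint) := by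
  have hb : Measurable fun p : ℝ × PhasePoint => back p := by
    unfold back
    fun_prop
  have h1 : Measure.QuasiMeasurePreserving (fun p : ℝ × PhasePoint => back p)
      (κ.prod (volume : Measure PhasePoint)) (volume : Measure PhasePoint) := by
    refine QuasiMeasurePreserving.prod_of_right hb (Eventually.of_forall fun τ => ?_)
    have h2 : (fun y : PhasePoint => back (τ, y)) = fun y => onLine y (-τ) := by
      funext y
      exact back_eq_onLine (τ, y)
    rw [h2]
    exact (measurePreserving_onLine (-τ)).quasiMeasurePreserving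
  exact h1.comp Measure.quasiMeasurePreserving_fst

section join

variable {α : Type} [Fintype α] {Ω : Type*} [MeasurableSpace Ω]

/-- State of the group, state of the line. -/
theorem qmp_elim : Measure.QuasiMeasurePreserving
    (fun q : (α → PhasePoint) × PhasePoint => (Sum.elim q.1 fun _ : Unit => q.2))
    ((volume : Measure (α → PhasePoint)).prod (volume : Measure PhasePoint))
    (volume : Measure (α ⊕ Unit → PhasePoint)) := by
  have h1 := volume_measurePreserving_sumPiEquivProdPi_symm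
    (fun _ : α ⊕ Unit => PhasePoint)
  have h2 : MeasurePreserving (fun q : (α → PhasePoint) × PhasePoint =>
      (q.1, fun _ : Unit => q.2))
      ((volume : Measure (α → PhasePoint)).prod (volume : Measure PhasePoint))
      ((volume : Measure (α → PhasePoint)).prod (volume : Measure (Unit → PhasePoint))) :=
    (MeasurePreserving.id _).prod (volume_preserving_funUnique Unit PhasePoint).symm
  rw [Measure.volume_eq_prod] at h1
  have h3 := (h1.comp h2).quasiMeasurePreserving
  exact h3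

/-- State of the group, the rest, the line. -/
theorem qmp_join (μ : Measure Ω) [SFinite μ] (κ : Measure ℝ) [SFinite κ] :
    Measure.QuasiMeasurePreserving
      (fun q : (α → PhasePoint) × (Ω × ML) => ((Sum.elim q.1 fun _ : Unit => back q.2.2.1), q.2.1))
      ((volume : Measure (α → PhasePoint)).prod (μ.prod (baseM κ)))
      ((volume : Measure (α ⊕ Unit → PhasePoint)).prod μ) := by
  have h1 : Measure.QuasiMeasurePreserving
      (fun q : (α → PhasePoint) × (Ω × ML) => (q.1, (back q.2.2.1, q.2.1)))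
      ((volume : Measure (α → PhasePoint)).prod (μ.prod (baseM κ)))
      ((volume : Measure (α → PhasePoint)).prod ((volume : Measure PhasePoint).prod μ)) := by
    have h2 : Measure.QuasiMeasurePreserving (fun q : Ω × ML => (back q.2.1, q.1))
        (μ.prod (baseM κ)) ((volume : Measure PhasePoint).prod μ) := by
      have h3 := (Measure.measurePreserving_swap (μ := μ)
        (ν := (volume : Measure PhasePoint))).quasiMeasurePreserving
      have h4 : Measure.QuasiMeasurePreserving (Prod.map id fun l : ML => back l.1)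
          (μ.prod (baseM κ)) (μ.prod (volume : Measure PhasePoint)) :=
        QuasiMeasurePreserving.prodMap (Measure.QuasiMeasurePreserving.id μ) (qmp_back κ)
      exact h3.comp h4
    exact QuasiMeasurePreserving.prodMap (Measure.QuasiMeasurePreserving.id _) h2
  have h5 : Measure.QuasiMeasurePreserving
      (fun q : (α → PhasePoint) × (PhasePoint × Ω) => ((q.1, q.2.1), q.2.2))
      ((volume : Measure (α → PhasePoint)).prod ((volume : Measure PhasePoint).prod μ))
      (((volume : Measure (α → PhasePoint)).prod (volume : Measure PhasePoint)).prod μ) :=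
    (MeasurePreserving.symm MeasurableEquiv.prodAssoc
      (measurePreserving_prodAssoc (volume : Measure (α → PhasePoint))
        (volume : Measure PhasePoint) μ)).quasiMeasurePreserving
  have h6 : Measure.QuasiMeasurePreserving
      (Prod.map (fun q : (α → PhasePoint) × PhasePoint => (Sum.elim q.1 fun _ : Unit => q.2))
        (id : Ω → Ω))
      (((volume : Measure (α → PhasePoint)).prod (volume : Measure PhasePoint)).prod μ)
      ((volume : Measure (α ⊕ Unit → PhasePoint)).prod μ) :=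
    QuasiMeasurePreserving.prodMap qmp_elim (Measure.QuasiMeasurePreserving.id μ)
  exact h6.comp (h5.comp h1)

end join

/-! ### The families of inequality 1 -/

variable {te T' : ℝ} {K : ℕ} {P : CTree} {z : PhasePoint × Par P} {m : ℕ} {w : Config m} {l : ML}

/-- The three good-world facts of a one-contact structure. -/
structure OkE4 (Φ : Space3 → ℝ) (ε : ℝ) (P : CTree) (z : PhasePoint × Par P) {m : ℕ}
    (w : Config m) (l : ML) : Prop where
  okR : MW.OkFam Φ ε (MW.cfg w) (lineML Φ ε P z)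
  ok1 : MW.OkFam Φ ε (MW.cfg w)
    (fun x : (insert (Sum.inl (root P)) (exS P) : Finset (Idx P ⊕ Bool)) => oneLs Φ ε P z l x)
  ok2 : MW.OkFam Φ ε (MW.cfg w)
    (fun x : (insert (Sum.inr false) (insert (Sum.inr true) (exS P)) : Finset (Idx P ⊕ Bool)) =>
      oneLs Φ ε P z l x)

/-- **Good worlds of inequality 1**, almost surely, for every s-finite law of the birth. -/
theorem ae_okE4 (hΦ : AdmissiblePotential Φ) (hε : 0 < ε) (P : CTree) (m : ℕ) (T' : ℝ)
    (κ : Measure ℝ) [SFinite κ] :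
    ∀ᵐ q ∂((volume : Measure (PhasePoint × Par P)).prod
        ((volume : Measure (Config m)).prod (baseM κ))),
      ∀ (K : ℕ) (te : ℝ), Real4 Φ ε K te T' P q.1 q.2.1 q.2.2 → CDpass Φ (cD ε q.1 q.2.2) →
        OkE4 Φ ε P q.1 q.2.1 q.2.2 := by
  -- the families with `l', c'`
  have h2 : ∀ᵐ q ∂((volume : Measure (PhasePoint × Par P)).prod
      ((volume : Measure (Config m)).prod (baseM κ))),
      Valid Φ ε P T' q.1.1.2 q.1.2 → ∀ r : ℚ, GoodP Φ ε (bE P r) (fun _ : Fin m => 0)
        (Sum.elim (lines Φ ε P q.1.1 q.1.2) (fun _ : Unit => back q.2.2.1), q.2.1) := by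
    refine AllOk663.ae_tree_prod hΦ hε P T'
      (Q := fun q : (Idx P → PhasePoint) × (Config m × ML) => ∀ r : ℚ,
        GoodP Φ ε (bE P r) (fun _ : Fin m => 0)
          (Sum.elim q.1 (fun _ : Unit => back q.2.2.1), q.2.1)) ?_
    rw [ae_all_iff]
    intro r
    exact (qmp_join (α := Idx P) (volume : Measure (Config m)) κ).ae
      (ae_goodP hΦ hε (bE P r) (fun _ : Fin m => (0 : ℝ)) fun _ => le_rfl)
  -- the exits
  have h1 : ∀ᵐ q ∂((volume : Measure (PhasePoint × Par P)).prod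
      ((volume : Measure (Config m)).prod (baseM κ))),
      Valid Φ ε P T' q.1.1.2 q.1.2 → GoodP Φ ε (fun _ : Idx P => 0) (fun _ : Fin m => 0)
        (lines Φ ε P q.1.1 q.1.2, q.2.1) := by
    refine AllOk663.ae_tree_prod hΦ hε P T'
      (Q := fun q : (Idx P → PhasePoint) × (Config m × ML) =>
        GoodP Φ ε (fun _ : Idx P => 0) (fun _ : Fin m => 0) (q.1, q.2.1)) ?_
    have h3 : Measure.QuasiMeasurePreserving
        (fun q : (Idx P → PhasePoint) × (Config m × ML) => (q.1, q.2.1))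
        ((volume : Measure (Idx P → PhasePoint)).prod
          ((volume : Measure (Config m)).prod (baseM κ)))
        ((volume : Measure (Idx P → PhasePoint)).prod (volume : Measure (Config m))) :=
      QuasiMeasurePreserving.prodMap (Measure.QuasiMeasurePreserving.id _)
        Measure.quasiMeasurePreserving_fst
    exact h3.ae (ae_goodP hΦ hε (fun _ : Idx P => (0 : ℝ)) (fun _ : Fin m => (0 : ℝ))
      fun _ => le_rfl)
  -- the lines of the tree
  have h0 : ∀ᵐ q ∂((volume : Measure (PhasePoint × Par P)).prod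
      ((volume : Measure (Config m)).prod (baseM κ))), Valid Φ ε P T' q.1.1.2 q.1.2 →
      Sep Φ ε P T' q.1.1 q.1.2 → q.2.1 ∈ PairExcluded ε m →
      (P = leaf → ∀ i, ε < dist q.1.1.1 (q.2.1 i).1) →
        MW.OkFam Φ ε (MW.cfg q.2.1) (lineML Φ ε P q.1) := by
    have h3 : Measure.QuasiMeasurePreserving
        (fun q : (PhasePoint × Par P) × (Config m × ML) => (q.1, q.2.1))
        ((volume : Measure (PhasePoint × Par P)).prod
          ((volume : Measure (Config m)).prod (baseM κ)))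
        ((volume : Measure (PhasePoint × Par P)).prod (volume : Measure (Config m))) :=
      QuasiMeasurePreserving.prodMap (Measure.QuasiMeasurePreserving.id _)
        Measure.quasiMeasurePreserving_fst
    have h4 := AllOk663.ae_okR hΦ hε P T' m
    rw [Measure.volume_eq_prod] at h4
    exact h3.ae h4
  filter_upwards [h0, h1, h2] with q hq0 hq1 hq2 K te h hp
  refine ⟨hq0 h.valid h.sep h.exw fun hP i => ?_, ok1_of h hΦ hε hp (hq1 h.valid),
    ok2_of h hΦ hε hp (hq2 h.valid)⟩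
  subst hP
  exact h.perp (eP leaf (root leaf)) i



end

end Crest.Agent.R122.OkE167
end

-- ▼ part R122/OkSlot4_167
section

/-!
# Slot `hok` of helper984's assembly of inequality 1 (row 122), helper167

`hok` : the structures of inequality 1 with a bad world are null.
-/

set_option autoImplicit false
set_option linter.unusedSectionVars false

open MeasureTheory Set Filter Topology
open scoped ENNReal Classical
open Crest.AnalysisR.Kinetic
open Crest.Agent.R122.Kin796 Crest.Agent.R122.Kin796.CTree Crest.Agent.R122.Tree674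
open Crest.Agent.R122.GC311 Crest.Agent.R122.EDefs602 Crest.Agent.R122.OneC285
open Crest.Agent.R122.Long984 Crest.Agent.R122.Third741 Crest.Agent.R122.ThirdV796
open Crest.Agent.R122.OSCalc495 Crest.Agent.R122.GSCalc495
open Crest.Agent.R122.Scat818 Crest.Agent.R122.OCout796 Crest.Agent.R122.Ins45
open Crest.Agent.R122.LinkAsm984

noncomputable section

namespace Crest.Agent.R122.OkE167

variable {Φ : Space3 → ℝ} {f₀ : PhasePoint → ℝ} {K : ℕ} {Q : EPar} {T' : ℝ}

/-- No passage: the functional is one. -/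
theorem passS_eq_one {ε : ℝ} {P : CTree} {z : PhasePoint × Par P} {m : ℕ} {w : Config m} {l : ML}
    (hP : P.leaves ≤ K) (hc : ¬ CDpass Φ (cD ε z l)) : passS Φ K ε P z m w l = 1 := by
  unfold passS sfOf passG
  rw [if_pos hP]
  exact if_neg hc

/-- A real structure with a passage and a bad world. -/
def NOk4 (Φ : Space3 → ℝ) (K : ℕ) (Q : EPar) (T' ε : ℝ) (P : CTree) (z : PhasePoint × Par P)
    (m : ℕ) (w : Config m) (l : ML) : Prop :=
  Real4 Φ ε K Q.te T' P z w l ∧ CDpass Φ (cD ε z l) ∧ ¬ OkE4 Φ ε P z w l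

/-- **Slot `hok`** of `LinkAsm984.stmtLink4_of_parts`. -/
theorem hok {g0 : ℝ} (hΦ : AdmissiblePotential Φ) (hf : Measurable f₀) (hQ : QOk Q g0) (K : ℕ)
    (T' : ℝ) : OSNull Φ f₀ K Q T'
      fun ε P z _ w l => if ¬ LinkAsm984.OkE4 Φ ε P z w l then 1 else 0 := by
  have h1 : OSNull Φ f₀ K Q T' fun ε P z m w l =>
      if NOk4 Φ K Q T' ε P z m w l then 1 else 0 := by
    refine osNull_of_ae K T' fun ε hε P m => ?_
    filter_upwards [ae_okE4 hΦ hε P m T' (volume.restrict (Ioc 0 Q.te))] with q hq h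
    exact h.2.2 (hq K Q.te h.1 h.2.1)
  refine (h1.add hΦ hf hQ.γ_meas (osNull_pass hΦ hQ K T')).congr fun ε _ P z m w l hg => ?_
  by_cases hok : LinkAsm984.OkE4 Φ ε P z w l
  · rw [if_neg (not_not_intro hok)]
    exact zero_le
  rw [if_pos hok]
  by_cases hc : CDpass Φ (cD ε z l)
  · have h2 : NOk4 Φ K Q T' ε P z m w l := ⟨hg.real, hc, fun h => hok ⟨h.okR, h.ok1, h.ok2⟩⟩
    rw [if_pos h2]
    exact le_self_add
  · rw [passS_eq_one ((Nat.le_add_left _ _).trans hg.small) hc]
    exact le_add_self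

end Crest.Agent.R122.OkE167

end
end

-- ▼ part R122/LinkFin_984
section

/-!
# `StmtLink4` (row 122, board H1): the slots

* `ctx_of` : helper311's context of the gateway from `KData` and `QOk`.
* `SlotLk`, `SlotX` : the two open slots; `slots4_of` : `Slots4`.
-/

set_option autoImplicit false

open MeasureTheory Set Filter Topology
open scoped ENNReal
open Crest.AnalysisR.Kinetic
open Crest.Agent.R122.Kin796 Crest.Agent.R122.Kin796.CTree Crest.Agent.R122.Tree674
open Crest.Agent.R122.GC311 Crest.Agent.R122.EDefs602 Crest.Agent.R122.OneC285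
open Crest.Agent.R122.Third741 Crest.Agent.R122.Master566 Crest.Agent.R122.Top602
open Crest.Agent.R122.Ineq1815 Crest.Agent.R122.InEq2 Crest.Agent.R122.TL311

noncomputable section

open scoped Classical

namespace Crest.Agent.R122.LinkAsm984

variable {Φ : Space3 → ℝ} {f₀ : PhasePoint → ℝ} {f : ℝ → PhasePoint → ℝ} {β T : ℝ}
  {K : ℕ} {Q : EPar} {T' g0 : ℝ}

/-- **The context of the gateway.** -/
theorem ctx_of (hD : KData Φ β T f₀ f) (hQ : QOk Q g0) (hte : 0 ≤ Q.te) (hlt : Q.te < T') :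
    Ctx Φ f₀ β T' Q.te (min g0 β) Q.γ Q.ρ where
  adm := hD.adm
  cont := hD.contDiff.continuous
  gauss := hD.gaussian
  mass := (Q1815.lintegral_mass hD).le
  T_nonneg := hte.trans hlt.le
  te_le := hlt.le
  g_pos := lt_min hQ.g0_pos hD.beta_pos
  g_le := min_le_right _ _
  rate τ hτ := (min_le_left _ _).trans (hQ.γ_ge τ hτ)
  meas := hQ.γ_meas
  mark := hQ.ρ_ne

/-- The slot of the almost sure facts. -/
theorem slotOk (hD : KData Φ β T f₀ f) (hQ : QOk Q g0) (K : ℕ) (T' : ℝ) :
    OSNull Φ f₀ K Q T' fun ε P z _ w l => if ¬ OkE4 Φ ε P z w l then 1 else 0 :=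
  OkE167.hok hD.adm hD.contDiff.continuous.measurable hQ K T'

/-- **`Slots4`** from the two other slots. -/
theorem slots4_of (hD : KData Φ β T f₀ f)
    (hlk : ∀ (Q : EPar) (g0 T' : ℝ) (K : ℕ) (R : ℝ), QOk Q g0 → 0 ≤ Q.te → Q.te < T' → 0 ≤ R →
      OSNull Φ f₀ K Q T' fun ε P z _ w l => if LinkE4 Φ ε R K Q.te P z w l then 1 else 0)
    (hx : ∀ (Q : EPar) (g0 T' : ℝ) (K : ℕ), QOk Q g0 → 0 ≤ Q.te → Q.te < T' →
      OSNull Φ f₀ K Q T' fun ε P z _ w _ =>
        min 1 (EDefs602.lineM Q.γ Q.ρ K Q.te (Xbad4 Φ ε K Q.te P z w))) : Slots4 Φ f₀ where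
  ok _ _ T' K hQ _ _ := slotOk hD hQ K T'
  lk := hlk
  x := hx

end Crest.Agent.R122.LinkAsm984

end
end

-- ▼ part R122/LinkE4_302
section

/-!
# `LinkE4` is excluded by the deterministic output `RAO` (row 122, instance (OS)), helper302

* `OSSide` : side conditions on the constants; `osIn_of` : helper515's `OSIn` on helper984's `Gd4`.
* `not_linkA`, `not_linkB`, `not_nearL` : the three link events of a contact structure (helper984)
  are excluded by helper515's `RAO`.
* `not_linkE4_of_rao` : `RAO` excludes `LinkE4` on `Gd4`.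
-/

set_option autoImplicit false
set_option linter.unusedSectionVars false

open MeasureTheory Set Filter Topology
open scoped ENNReal
open Crest.AnalysisR.Kinetic
open Crest.Agent.R122.Kin796 Crest.Agent.R122.Kin796.CTree Crest.Agent.R122.Tree674
open Crest.Agent.R122.GC311 Crest.Agent.R122.EDefs602 Crest.Agent.R122.OneC285
open Crest.Agent.R122.OSCalc495 Crest.Agent.R122.GSCalc495
open Crest.Agent.R122.Scat818 Crest.Agent.R122.OCout796
open Crest.Agent.R122.Ins45 hiding relLs
open Crest.Agent.R122.TreeLines335 Crest.Agent.R122.Line285 Crest.Agent.R122.Inf879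
open Crest.Agent.R122.MWFam255 (PairNL CF)
open Crest.Agent.R122.UnlC263 (Ad E4Pairs relLs)
open Crest.Agent.R122.LinkAsm984 Crest.Agent.R122.LNOS515

noncomputable section

open scoped Classical

namespace Crest.Agent.R122.LinkE302

variable {Φ : Space3 → ℝ} {ε R T te c ℓ ς : ℝ} {K N : ℕ} {Q : EPar} {T' : ℝ} {P : CTree}
  {z : PhasePoint × Par P} {m : ℕ} {w : Config m} {l : ML}

/-! ## The set of families -/


/-- Two coexisting lines are tree lines or lines of the second family. -/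
theorem ad_cases {x y : Idx P ⊕ Bool} (h : Ad P x y) :
    (∃ i j : Idx P, i ≠ j ∧ x = Sum.inl i ∧ y = Sum.inl j) ∨ (x ∈ F2 P ∧ y ∈ F2 P) := by
  rcases x with i | b <;> rcases y with j | b'
  · exact Or.inl ⟨i, j, fun h' => h.ne (congrArg _ h'), rfl, rfl⟩
  · refine Or.inr ⟨mem_F2.2 (Or.inr (Or.inr ⟨i, ?_, rfl⟩)), ?_⟩
    · rintro rfl
      exact h.left ⟨rfl, b', rfl⟩
    · cases b'
      · exact mem_F2.2 (Or.inl rfl)
      · exact mem_F2.2 (Or.inr (Or.inl rfl))
  · refine Or.inr ⟨?_, mem_F2.2 (Or.inr (Or.inr ⟨j, ?_, rfl⟩))⟩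
    · cases b
      · exact mem_F2.2 (Or.inl rfl)
      · exact mem_F2.2 (Or.inr (Or.inl rfl))
    · rintro rfl
      exact h.right ⟨rfl, b, rfl⟩
  · refine Or.inr ⟨?_, ?_⟩
    · cases b
      · exact mem_F2.2 (Or.inl rfl)
      · exact mem_F2.2 (Or.inr (Or.inl rfl))
    · cases b'
      · exact mem_F2.2 (Or.inl rfl)
      · exact mem_F2.2 (Or.inr (Or.inl rfl))

/-! ## The three link events -/

section Det

variable (h : RAO Φ T te c ℓ ς ε K N z w l) (hi : OSIn Φ ε T P z l) (hΦ : AdmissiblePotential Φ)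
  (hε : 0 < ε) (hc : 1 ≤ c) (hℓς : 2 * ℓ ≤ ς) (hte : te ≤ T)
include h hi hΦ hε hc hℓς hte

theorem not_linkA (hlT : cT ε z l + 2 * ℓ < T) (hok : OkE4 Φ ε P z w l) :
    ¬ LinkA Φ ε K te P z w l := by
  rintro ⟨x, y, hxy, hn⟩
  rcases ad_cases hxy with ⟨i, j, hij, rfl, rfl⟩ | ⟨hx, hy⟩
  · exact hn (h.o1 hi hΦ hε hc hℓς hte hok.okR i j hij)
  · refine hn ?_
    rw [UnlC263.relLs_eq_oneLs hx, UnlC263.relLs_eq_oneLs hy]
    exact (h.e4Hyp hi hΦ hε hc hℓς hte hlT hok.ok2).nl ⟨x, hx⟩ ⟨y, hy⟩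
      fun h' => hxy.ne (congrArg Subtype.val h')

theorem not_linkB (hlT : cT ε z l + 2 * ℓ < T) (hok : OkE4 Φ ε P z w l) :
    ¬ LinkB Φ ε K te P z w l := by
  rintro ⟨d, hd, x, y, hxy, hxd, hyd, hn⟩
  rcases ad_cases hxy with ⟨i, j, hij, rfl, rfl⟩ | ⟨hx, hy⟩
  · exact hn (h.o2 hi hΦ hε hc hℓς hte hok.okR hd
      ⟨i, fun h' => hxd (congrArg _ h')⟩ ⟨j, fun h' => hyd (congrArg _ h')⟩
      fun h' => hij (congrArg Subtype.val h'))
  · refine hn ?_
    have hds : (Sum.inl d : Idx P ⊕ Bool) ∈ exS P := mem_exS.2 hd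
    have h1 := (h.e4Hyp hi hΦ hε hc hℓς hte hlT hok.ok2).nld (Sum.inl d) hds
    rw [oneLs_exit hd] at h1
    rw [UnlC263.relLs_eq_oneLs hx, UnlC263.relLs_eq_oneLs hy]
    have key : ∀ {x : Idx P ⊕ Bool}, x ∈ F2 P → x ≠ Sum.inl d → x ∈ (F2 P).erase (Sum.inl d) :=
      fun hx hxd => Finset.mem_erase_of_ne_of_mem hxd hx
    refine h1 ⟨x, ?_⟩ ⟨y, ?_⟩ fun h' => hxy.ne (congrArg Subtype.val h')
    · convert key hx hxd
    · convert key hy hyd

theorem not_nearL (hR : R + 2 ≤ c) (hor : cT ε z l + ε * R ≤ te)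
    (hok : MW.OkFam Φ ε (MW.cfg w) (lineML Φ ε P z)) : ¬ NearL Φ ε R K te P z w l := by
  rintro ⟨t, ht, ht', j, hj, htj, hn⟩
  have h1 := h.near hi hΦ hε hc hℓς hte hok hj (r := (R + 2) * ε) (by nlinarith)
  have hroot := hi.st_root (n := m) (w := w) hΦ hε ((hi.rel_lt hε _).le.trans ht)
    (ht'.trans (hor.trans hte))
  rcases hn with ⟨k, hk, hd⟩ | ⟨⟨r, k, hrt, hk⟩, hd⟩
  · have h2 := (h1.influenced ⟨hi.pos.le.trans ht, ht'.trans hor⟩ htj.le hk).1
    rw [hroot] at h2
    exact absurd h2 (not_lt.2 hd)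
  · have h2 := h1.altered ⟨hi.pos.le.trans ht, ht'.trans hor⟩ htj.le (s := r)
      (hrt.trans htj) hrt.le hk
    rw [hroot] at h2
    exact absurd h2 (not_lt.2 hd)

/-- **`RAO` excludes the link events of a contact structure.** -/
theorem not_linkE4 (hlT : cT ε z l + 2 * ℓ < T) (hR : R + 2 ≤ c) :
    ¬ LinkE4 Φ ε R K te P z w l := by
  intro hL
  rcases hL.link with h1 | h1 | h1
  · exact not_linkA h hi hΦ hε hc hℓς hte hlT hL.ok h1
  · exact not_linkB h hi hΦ hε hc hℓς hte hlT hL.ok h1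
  · exact not_nearL h hi hΦ hε hc hℓς hte hR hL.enc.hor hL.ok.okR h1

end Det

/-! ## The structure on `Gd4` -/

/-- Helper515's `OSIn` on helper984's guard. -/
theorem osIn_of (hg : Gd4 Φ ε K Q T' P z w l) (hen : EncOk Φ ε R Q.te P z l) (hT : Q.te ≤ T)
    (hTT : T ≤ T') (hlt : cT ε z l < T) : OSIn Φ ε T P z l where
  valid := LNTree410.valid_mono hT (OneC423.valid_of_mem_ctSet hg.real.ct)
  sep := LNTree410.sep_anti hTT hg.real.sep
  ct := ⟨hg.real.ct.1, hg.real.ct.2.1, hg.real.ct.2.2.1, hg.real.ct.2.2.2.1.trans hT,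
    hg.real.ct.2.2.2.2⟩
  birth := hg.real.birth
  cd := hen.pass.ok
  lt_T := hlt

end Crest.Agent.R122.LinkE302

end
end

-- ▼ part R122/GateOSd_434
section

/-!
# `StmtLink4` from gateway null facts (row 122, H2 gate OS)

* `fLe_of_OS`, `fNull_of_OS`, `fNull_of_null` : functionals with small structure integral are small
  over every `osM P`.
* `Cond4` : side conditions of `StmtLink4`.
* `stmtLink4_of_fNull` : `StmtLink4` from `FNull` of `1[Cond4] err4` over every `osM P`.
* `stmtLink4_of_le` : the same from a pointwise bound `err4 ≤ F` on `Cond4`.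
* `stmtLink4_of_trunc` : bounds depending on a truncation (chosen after `δ`).
-/

set_option autoImplicit false
set_option linter.unusedSectionVars false

open MeasureTheory Set Filter Topology
open scoped ENNReal Classical
open Crest.AnalysisR.Kinetic
open Crest.Agent.R122.Kin796 Crest.Agent.R122.Kin796.CTree Crest.Agent.R122.Tree674
open Crest.Agent.R122.GC311 Crest.Agent.R122.EDefs602 Crest.Agent.R122.OneC285
open Crest.Agent.R122.Gate424 Crest.Agent.R122.Gate973 Crest.Agent.R122.OSMeas984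

noncomputable section

namespace Crest.Agent.R122.GateOS434

variable {Φ : Space3 → ℝ} {f₀ : PhasePoint → ℝ} {Q : EPar} {T' : ℝ} {κ : Measure ℝ}

theorem lintegral_le_OS (hΦ : AdmissiblePotential Φ) (hf : Measurable f₀) (hγ : Measurable Q.γ)
    (ε : ℝ) (K : ℕ) [SFinite κ] {H : SF} (hH : MeasSF H) (P : CTree) :
    ∫⁻ θ, gcE f₀ ε (fun m w => H P θ.1 m w θ.2) ∂(osM Φ f₀ ε K Q T' κ P) ≤
      OS Φ f₀ ε K Q T' κ H := by
  rw [OS_eq' hΦ hf hγ ε K hH]
  exact ENNReal.le_tsum P




/-! ### `StmtLink4` -/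





end Crest.Agent.R122.GateOS434

end
end

-- ▼ part R122/OSGate_410
section

/-!
# The closed gateway of the one-contact structures (row 122, H1, helper410)

* `fLe_of_osLe`, `gNull_of_osNull` : a null functional of helper984 (`OSNull`) is null over every `osM P`
  on the guard `Gd4`.
* `osNull_of_salt` : **`OSNull` of an event** from the alternatives of helper692 (`SAlt`: run, bad
  partition, bad hit of the tree and the line) and any event with `OSNull`.
-/

set_option autoImplicit false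
set_option linter.unusedSectionVars false

open MeasureTheory Set Filter Topology
open scoped ENNReal Classical
open Crest.AnalysisR.Kinetic
open Crest.Agent.R122.Kin796 Crest.Agent.R122.Kin796.CTree Crest.Agent.R122.Tree674
open Crest.Agent.R122.GC311 Crest.Agent.R122.EDefs602 Crest.Agent.R122.OneC285
open Crest.Agent.R122.Gate424 Crest.Agent.R122.Gate973 Crest.Agent.R122.OSMeas984
open Crest.Agent.R122.LinkAsm984 Crest.Agent.R122.GateOS434

noncomputable section

namespace Crest.Agent.R122.OSGate410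

variable {Φ : Space3 → ℝ} {f₀ : PhasePoint → ℝ} {K : ℕ} {Q : EPar} {T' : ℝ}

/-- Births of the structure. -/
theorem osB_eq (P : CTree) (θ : (PhasePoint × Par P) × ML) :
    osB P θ = LNOS515.bO P θ.2 := rfl

/-- States at time `0` of the structure. -/
theorem osZ_eq {ε : ℝ} {P : CTree} {θ : (PhasePoint × Par P) × ML} (h : Adm Φ P θ.1.1.2 θ.1.2) :
    osZ Φ ε P θ = LNOS515.zO Φ ε θ.1 θ.2 := by
  unfold osZ LNOS515.zO
  rw [linesM_of_adm ε h]

/-! ### `OSNull` events are null over `osM` -/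

/-- A functional which is small in the sense of helper984 is small over every `osM P`. -/
theorem fLe_of_osLe (hΦ : AdmissiblePotential Φ) (hf : Measurable f₀) (hγ : Measurable Q.γ)
    {F : ℝ → SF} {c : ℝ≥0∞} (h : OSLe Φ f₀ K Q T' F c) (P : CTree) :
    FLe f₀ (fun ε (_ : Unit) => osM Φ f₀ ε K Q T' (volume.restrict (Ioc 0 Q.te)) P)
      (fun ε _ m θ w => if Gd4 Φ ε K Q T' P θ.1 w θ.2 then F ε P θ.1 m w θ.2 else 0) c := by
  obtain ⟨ε₀, h0, h⟩ := h
  refine ⟨ε₀, h0, fun ε hε hlt _ => ?_⟩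
  obtain ⟨M, hM, hle, hO⟩ := h ε hε hlt
  refine ⟨fun m p => M P p.1.1 m p.2 p.1.2, fun m => ?_, fun m θ w _ => ?_, ?_⟩
  · exact (hM P m).comp (measurable_fst.fst.prodMk (measurable_snd.prodMk measurable_fst.snd))
  · show (if Gd4 Φ ε K Q T' P θ.1 w θ.2 then F ε P θ.1 m w θ.2 else 0) ≤ M P θ.1 m w θ.2
    by_cases hg : Gd4 Φ ε K Q T' P θ.1 w θ.2
    · rw [if_pos hg]
      exact hle P θ.1 m w θ.2 hg
    · rw [if_neg hg]
      exact bot_le
  · exact (lintegral_le_OS hΦ hf hγ ε K hM P).trans hO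

theorem fNull_of_osNull (hΦ : AdmissiblePotential Φ) (hf : Measurable f₀) (hγ : Measurable Q.γ)
    {F : ℝ → SF} (h : OSNull Φ f₀ K Q T' F) (P : CTree) :
    FNull f₀ (fun ε (_ : Unit) => osM Φ f₀ ε K Q T' (volume.restrict (Ioc 0 Q.te)) P)
      (fun ε _ m θ w => if Gd4 Φ ε K Q T' P θ.1 w θ.2 then F ε P θ.1 m w θ.2 else 0) := by
  intro c hc
  have hc1 : 0 < min c 1 := lt_min hc one_pos
  have hct : min c 1 ≠ ∞ := ne_top_of_le_ne_top ENNReal.one_ne_top (min_le_right _ _)
  have h1 := h (min c 1).toReal (ENNReal.toReal_pos hc1.ne' hct)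
  rw [ENNReal.ofReal_toReal hct] at h1
  exact (fLe_of_osLe hΦ hf hγ h1 P).mono (min_le_left _ _)
    ⟨1, one_pos, fun _ _ _ _ _ _ _ _ => le_rfl⟩

/-- Events of the one-contact structures. -/
abbrev OEv : Type := (ε : ℝ) → (P : CTree) → PhasePoint × Par P → (m : ℕ) → Config m → ML → Prop

/-- The event on the guard. -/
def onG (Φ : Space3 → ℝ) (K : ℕ) (Q : EPar) (T' : ℝ) (N : OEv) : OEv := fun ε P z _ w l =>
  Gd4 Φ ε K Q T' P z w l ∧ N ε P z _ w l

/-- Union of events. -/
def orE (N N' : OEv) : OEv := fun ε P z _ w l => N ε P z _ w l ∨ N' ε P z _ w l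

/-- The event is null. -/
def ONull (Φ : Space3 → ℝ) (f₀ : PhasePoint → ℝ) (K : ℕ) (Q : EPar) (T' : ℝ) (N : OEv) : Prop :=
  OSNull Φ f₀ K Q T' fun ε P z m w l => if N ε P z m w l then 1 else 0

/-- **An event with `OSNull` is null over every `osM P`**, on the guard. -/
theorem gNull_of_osNull (hΦ : AdmissiblePotential Φ) (hf : Measurable f₀) (hγ : Measurable Q.γ)
    {N : OEv} (h : ONull Φ f₀ K Q T' N) (P : CTree) :
    GNull f₀ (fun ε (_ : Unit) => osM Φ f₀ ε K Q T' (volume.restrict (Ioc 0 Q.te)) P)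
      (fun ε _ m θ w => onG Φ K Q T' N ε P θ.1 m w θ.2) := by
  intro δ hδ
  refine GLe.ofF ((fNull_of_osNull hΦ hf hγ h P).mono
    ⟨1, one_pos, fun ε _ _ _ m θ w _ => ?_⟩ δ hδ)
  show (if onG Φ K Q T' N ε P θ.1 m w θ.2 then (1 : ℝ≥0∞) else 0) ≤
    if Gd4 Φ ε K Q T' P θ.1 w θ.2 then (if N ε P θ.1 m w θ.2 then 1 else 0) else 0
  by_cases hg : Gd4 Φ ε K Q T' P θ.1 w θ.2
  · by_cases hN : N ε P θ.1 m w θ.2
    · rw [if_pos ⟨hg, hN⟩, if_pos hg, if_pos hN]
    · rw [if_neg fun h' => hN h'.2]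
      exact bot_le
  · rw [if_neg fun h' => hg h'.1]
    exact bot_le

/-! ### Calculus of `OSNull` for events -/

section ev

variable {N N' : OEv}

/-- Monotonicity. -/
theorem ONull.mono (h : ONull Φ f₀ K Q T' N)
    (hN : ∃ ε₁ : ℝ, 0 < ε₁ ∧ ∀ ε : ℝ, 0 < ε → ε < ε₁ → ∀ (P : CTree) (z : PhasePoint × Par P)
      (m : ℕ) (w : Config m) (l : ML), Gd4 Φ ε K Q T' P z w l → N' ε P z m w l →
        N ε P z m w l) : ONull Φ f₀ K Q T' N' := by
  obtain ⟨ε₁, h1, hN⟩ := hN
  refine OSNull.mono h ⟨ε₁, h1, fun ε hε hlt P z m w l hg => ?_⟩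
  show (if N' ε P z m w l then (1 : ℝ≥0∞) else 0) ≤ if N ε P z m w l then 1 else 0
  by_cases h' : N' ε P z m w l
  · rw [if_pos h', if_pos (hN ε hε hlt P z m w l hg h')]
  · rw [if_neg h']
    exact bot_le

/-- Union. -/
theorem ONull.or (hΦ : AdmissiblePotential Φ) (hf : Measurable f₀) (hγ : Measurable Q.γ)
    (h : ONull Φ f₀ K Q T' N) (h' : ONull Φ f₀ K Q T' N') : ONull Φ f₀ K Q T' (orE N N') := by
  refine (OSNull.add hΦ hf hγ h h').congr fun ε _ P z m w l _ => ?_
  show (if orE N N' ε P z m w l then (1 : ℝ≥0∞) else 0) ≤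
    (if N ε P z m w l then 1 else 0) + if N' ε P z m w l then 1 else 0
  by_cases h1 : N ε P z m w l
  · rw [if_pos (show orE N N' ε P z m w l from Or.inl h1), if_pos h1]
    exact le_self_add
  · by_cases h2 : N' ε P z m w l
    · rw [if_pos (show orE N N' ε P z m w l from Or.inr h2), if_pos h2]
      exact le_add_self
    · rw [if_neg (show ¬ orE N N' ε P z m w l from not_or.2 ⟨h1, h2⟩)]
      exact bot_le

/-- From the gateway. -/
theorem ONull.of_gNull (hΦ : AdmissiblePotential Φ) (hf : Measurable f₀) (hγ : Measurable Q.γ)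
    (h : ∀ P : CTree, P.leaves ≤ K →
      GNull f₀ (fun ε (_ : Unit) => osM Φ f₀ ε K Q T' (volume.restrict (Ioc 0 Q.te)) P)
        (fun ε _ n θ w => onG Φ K Q T' N ε P θ.1 n w θ.2)) : ONull Φ f₀ K Q T' N := by
  have h2 : ONull Φ f₀ K Q T' (onG Φ K Q T' N) :=
    osNull_of_gNull hΦ hf hγ K T' (N := onG Φ K Q T' N) h
  exact h2.mono ⟨1, one_pos, fun ε _ _ P z m w l hg hE => ⟨hg, hE⟩⟩

end ev

/-! ### The gateway -/

variable {b g0 : ℝ}

/-- **The closed gateway of the one-contact structures.** For every `L` the event implies (on the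
guard, for small `ε`) helper692's alternatives of the structure (tree and line) with runs of length
`L`, or an event with `OSNull`. -/
theorem osNull_of_salt (hΦ : AdmissiblePotential Φ) (hb : 0 < b) (hf : Measurable f₀)
    (H : HasSummableGaussianBound b (fun x v => f₀ (x, v)))
    (h1 : ∫⁻ z, ENNReal.ofReal (f₀ z) ≤ 1) (hg0 : 0 < g0) (hγ : Measurable Q.γ)
    (hg : ∀ τ ∈ Ioc (0 : ℝ) Q.te, g0 ≤ Q.γ τ) (hρ : Q.ρ ≠ ∞) (K K₂ : ℕ) (T' : ℝ)
    {t T T₁ : ℝ} (hT : 0 < T) (ht : t ≤ T) (hT₁ : 0 ≤ T₁)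
    {E : OEv} {Ht : ℕ → OEv}
    (hdet : ∀ P : CTree, P.leaves ≤ K → ∀ L : ℕ, ∃ (N : ℕ) (C : ℝ), ∀ R > 0, ∀ ς > 0,
      ∃ ε₁ : ℝ, 0 < ε₁ ∧ ∀ ε : ℝ, 0 < ε → ε < ε₁ → ∀ (z : PhasePoint × Par P) (m : ℕ)
        (w : Config m) (l : ML), Gd4 Φ ε K Q T' P z w l → E ε P z m w l →
          X692.SAlt Φ T T₁ t C R ς ε K₂ L N
            ((Finset.univ : Finset (Idx P)).disjSum (∅ : Finset Unit)) (LNOS515.bO P l)
            (LNOS515.zO Φ ε z l) w ∨ Ht L ε P z m w l)
    (hHt : ∀ L, ONull Φ f₀ K Q T' (Ht L)) : ONull Φ f₀ K Q T' E := by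
  refine ONull.of_gNull hΦ hf hγ fun P hP => ?_
  choose N C hdet using hdet P hP
  refine gNull_os (Φ := Φ) (T := T) (t := t) hΦ hb hf H h1 hg0 hγ hg hρ K K₂ P T' hT ht
    (E := fun ε m θ w => onG Φ K Q T' E ε P θ.1 m w θ.2)
    (Ht := fun L ε m θ w => BH167.BadHitGas (BH167.bpos Φ T₁ T) Φ T (C L) 1 ε (N L) (N L) 1
      (Finset.univ.disjSum ∅) (osB P θ) (osZ Φ ε P θ) w ∨
      onG Φ K Q T' (Ht L) ε P θ.1 m w θ.2) (fun L => ?_) fun L => ?_
  · refine ⟨N L, C L, fun R hR ς hς => ?_⟩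
    obtain ⟨ε₁, h0, h⟩ := hdet L R hR ς hς
    refine ⟨ε₁, h0, fun ε hε hlt m θ w _ hE => ?_⟩
    have hz : osZ Φ ε P θ = LNOS515.zO Φ ε θ.1 θ.2 := osZ_eq hE.1.real.valid.1
    rw [hz, osB_eq]
    rcases h ε hε hlt θ.1 m w θ.2 hE.1 hE.2 with (h2 | h2 | h2) | h2
    · exact Or.inl h2
    · exact Or.inr (Or.inl h2)
    · exact Or.inr (Or.inr (Or.inl h2))
    · exact Or.inr (Or.inr (Or.inr ⟨hE.1, h2⟩))
  · exact GNull.or hf
      (gNull_osHit (Φ := Φ) (T := T) (T₁ := T₁) hΦ hb hf H h1 hg0 hγ hg hρ K P T' hT.le T hT₁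
        (C L) 1 (N L) (N L))
      (gNull_of_osNull hΦ hf hγ (hHt L) P)

end Crest.Agent.R122.OSGate410

end
end

-- ▼ part R122/BWNull_302
section

/-!
# No exit line of a tree is born near a particle of the gas (row 122, LN1), helper302

* `refT` : translation invariant reference law of a tree; `treeQ_le_refT`.
* `yT Φ ε P i z` : the birth point of the exit line `i`, translation covariant version.
* `gNull_birthT`, `tNull_birthT` : an exit line (the root line included) is born within `R ε` of a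
  particle of the gas: null event. `tNull_noB` : the same with helper365's `NoB`.
-/

set_option autoImplicit false
set_option linter.unusedSectionVars false

open MeasureTheory Set Filter Topology
open scoped ENNReal
open Crest.AnalysisR.Kinetic
open Crest.Agent.R122.GC311 Crest.Agent.R122.EDefs602
open Crest.Agent.R122.Kin796 Crest.Agent.R122.Kin796.CTree Crest.Agent.R122.Tree674
open Crest.Agent.R122.InEq2 Crest.Agent.R122.TreeLines335 Crest.Agent.R122.LineMeas994
open Crest.Agent.R122.ToTree335 Crest.Agent.R122.LN2 Crest.Agent.R122.Gate424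
open Crest.Agent.R122.RtG302 Crest.Agent.R122.TreeDom974 Crest.Agent.R122.TreeLim974
open Crest.Agent.R122.TreeLimX974 Crest.Agent.R122.Relabel674 Crest.Agent.R122.GateT522
open Crest.Agent.R122.NuL735 (trZ lineML_tr)

noncomputable section

open scoped Classical

namespace Crest.Agent.R122.BW302

variable {Φ : Space3 → ℝ} {f₀ : PhasePoint → ℝ} {ε T' : ℝ} {K : ℕ} {P : CTree}

/-! ### The reference law -/

/-- Translation invariant reference law of a tree. -/
def refT (C b T : ℝ) (P : CTree) : Measure (PhasePoint × Par P) :=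
  (volume : Measure (PhasePoint × Par P)).withDensity fun z => domG C b T P z.1.2 z.2

theorem measurable_refD {C : ℝ} (hC : 0 ≤ C) (b T : ℝ) (P : CTree) :
    Measurable fun z : PhasePoint × Par P => domG C b T P z.1.2 z.2 :=
  (measurable_domG hC b T P).comp (by fun_prop : Measurable fun z : PhasePoint × Par P =>
    (z.1.2, z.2))

theorem lintegral_refT {C : ℝ} (hC : 0 ≤ C) (b T : ℝ) (P : CTree)
    {F : PhasePoint × Par P → ℝ≥0∞} (hF : Measurable F) :
    ∫⁻ z, F z ∂(refT C b T P) = ∫⁻ z : PhasePoint × Par P, domG C b T P z.1.2 z.2 * F z := by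
  unfold refT
  rw [lintegral_withDensity_eq_lintegral_mul _ (measurable_refD hC b T P) hF]
  rfl

/-- The law of a tree is dominated by the reference law. -/
theorem treeQ_le_refT (hΦ : AdmissiblePotential Φ) {γ : ℝ} (hγ : 0 < γ) (hf : Measurable f₀)
    (H : HasSummableGaussianBound γ (fun x v => f₀ (x, v))) (P : CTree) (T : ℝ) :
    ∃ (c : ℝ≥0∞) (C b : ℝ), c ≠ ∞ ∧ 0 ≤ C ∧ 0 < b ∧ ∀ ε : ℝ, 0 < ε →
      ∀ F : PhasePoint × Par P → ℝ≥0∞, Measurable F →
        ∫⁻ z, F z ∂(treeQ Φ f₀ ε P T) ≤ c * ∫⁻ z, F z ∂(refT C b T P) := by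
  obtain ⟨m, C₁, hkb⟩ := exists_kb (κ := γ / 2) (half_lt_self hγ) H
  have hk : ∀ z, kE f₀ (γ / 2) z ≤
      ENNReal.ofReal (C₁ * Real.exp (-(γ - γ / 2) * ‖z.2‖ ^ 2)) := by
    intro z
    rw [ENNReal.ofReal_mul hkb.C0]
    exact (hkb.bd z).trans (mul_le_mul_left (hkb.le z.1) _)
  obtain ⟨C, hC, hdom⟩ := le_domG hΦ hkb.C0 (b' := γ / 4) (by linarith) hk P
  refine ⟨ENNReal.ofReal (Fintype.card (Idx P) + 1 / (γ / 2)), C, γ / 4, ENNReal.ofReal_ne_top,
    hC, by positivity, fun ε hε F hF => ?_⟩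
  have hwF : Measurable fun z : PhasePoint × Par P => wQ Φ ε P z * F z :=
    (measurable_wQ hΦ P).mul hF
  rw [lintegral_treeQ hΦ P T hF, lintegral_treeM hΦ hf ε P T hwF, lintegral_refT hC _ _ P hF,
    ← lintegral_const_mul' _ _ ENNReal.ofReal_ne_top]
  refine lintegral_mono fun z => ?_
  by_cases hz : z ∈ {z : PhasePoint × Par P | Valid Φ ε P T z.1.2 z.2}
  · rw [indicator_of_mem hz]
    have hz' : Valid Φ ε P T z.1.2 z.2 := hz
    calc wt Φ P z.1.2 z.2 * (pf Φ f₀ ε P z * (wQ Φ ε P z * F z))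
        = wt Φ P z.1.2 z.2 * (wQ Φ ε P z * pf Φ f₀ ε P z) * F z := by ring
      _ ≤ wt Φ P z.1.2 z.2 * (ENNReal.ofReal (Fintype.card (Idx P) + 1 / (γ / 2)) *
          ∏ i, kE f₀ (γ / 2) (lines Φ ε P z.1 z.2 i)) * F z :=
          mul_le_mul_left (mul_le_mul_right (Small302.wQ_mul_pf_le (half_pos hγ) ε hz'.1) _) _
      _ = ENNReal.ofReal (Fintype.card (Idx P) + 1 / (γ / 2)) *
          ((wt Φ P z.1.2 z.2 * ∏ i, kE f₀ (γ / 2) (lines Φ ε P z.1 z.2 i)) * F z) := by ring
      _ ≤ _ := mul_le_mul_right (mul_le_mul_left (hdom ε T T z.1 z.2 hε.le le_rfl hz') _) _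
  · rw [indicator_of_notMem hz]
    exact bot_le

/-- Translations preserve the volume. -/
theorem mp_trZ (a : Space3) : MeasurePreserving (fun z : PhasePoint × Par P => trZ a z) := by
  have h1 : MeasurePreserving (fun x : Space3 => x + a) := measurePreserving_add_right volume a
  exact (h1.prod (MeasurePreserving.id volume)).prod (MeasurePreserving.id volume)

theorem measurable_trZ2 :
    Measurable fun q : Space3 × (PhasePoint × Par P) => trZ q.1 q.2 := by
  unfold trZ
  fun_prop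

theorem refT_inv {C : ℝ} (hC : 0 ≤ C) (b T : ℝ) (a : Space3) :
    (refT C b T P).map (trZ a) = refT C b T P := by
  have hm : Measurable (trZ a : PhasePoint × Par P → PhasePoint × Par P) :=
    measurable_trZ2.comp (measurable_const.prodMk measurable_id)
  refine Measure.ext_of_lintegral _ fun F hF => ?_
  rw [lintegral_map hF hm, lintegral_refT hC b T P hF]
  refine (lintegral_refT hC b T P (hF.comp hm)).trans ?_
  exact (mp_trZ a).lintegral_comp ((measurable_refD hC b T P).mul hF)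

/-! ### Birth points -/

/-- The birth point of the exit line `i`, measurable and translation covariant version. -/
def yT (Φ : Space3 → ℝ) (ε : ℝ) (P : CTree) (i : Idx P) (z : PhasePoint × Par P) : Space3 :=
  (lineMM Φ ε P (trZ (-z.1.1) z) i).1.2.1 + z.1.1

theorem measurable_yT (hΦ : AdmissiblePotential Φ) (ε : ℝ) (P : CTree) (i : Idx P) :
    Measurable (yT Φ ε P i) := by
  unfold yT
  have h1 : Measurable fun z : PhasePoint × Par P => trZ (-z.1.1) z :=
    measurable_trZ2.comp ((measurable_fst.fst.neg).prodMk measurable_id)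
  exact ((measurable_lineMM hΦ ε P i).comp h1).fst.snd.fst.add measurable_fst.fst

theorem trZ_neg_trZ (a : Space3) (z : PhasePoint × Par P) :
    trZ (-(trZ a z).1.1) (trZ a z) = trZ (-z.1.1) z := by
  unfold trZ
  simp

theorem yT_tr (ε : ℝ) (i : Idx P) (a : Space3) (z : PhasePoint × Par P) :
    yT Φ ε P i (trZ a z) = yT Φ ε P i z + a := by
  unfold yT
  rw [trZ_neg_trZ]
  show _ + (z.1.1 + a) = _
  rw [add_assoc]

theorem yT_of_adm {i : Idx P} {z : PhasePoint × Par P} (h : Adm Φ P z.1.2 z.2) :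
    yT Φ ε P i z = (lineML Φ ε P z i).1.2.1 := by
  unfold yT
  have h1 : Adm Φ P (trZ (-z.1.1) z).1.2 (trZ (-z.1.1) z).2 := h
  rw [lineMM_of_adm ε h1, lineML_tr]
  show (lineML Φ ε P z i).1.2.1 + -z.1.1 + z.1.1 = _
  rw [neg_add_cancel_right]

theorem bInv {C : ℝ} (hΦ : AdmissiblePotential Φ) (hC : 0 ≤ C) (b T ε : ℝ) (P : CTree)
    (i : Idx P) :
    BInv (refT C b T P) trZ (fun z => rel P z.2 i) (yT Φ ε P i) (fun z => z.1.1) where
  sf := by unfold refT; infer_instance
  mT := measurable_trZ2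
  inv := refT_inv hC b T
  ms := (measurable_rel P i).comp measurable_snd
  my := measurable_yT hΦ ε P i
  mpos := measurable_fst.fst
  s_tr _ _ := rfl
  y_tr a z := yT_tr ε i a z
  pos_tr _ _ := rfl

/-- The reference law has finite mass per unit volume. -/
theorem pin_refT {C b : ℝ} (hC : 0 ≤ C) (hb : 0 < b) (T : ℝ) (P : CTree) :
    ∫⁻ z, chi z.1.1 ∂(refT C b T P) ≠ ∞ := by
  have hm : Measurable fun z : PhasePoint × Par P => chi z.1.1 :=
    measurable_chi.comp measurable_fst.fst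
  have hm2 : Measurable fun z : PhasePoint × Par P => domG C b T P z.1.2 z.2 * chi z.1.1 :=
    (measurable_refD hC b T P).mul hm
  rw [lintegral_refT hC b T P hm, lintegral_split P hm2]
  have h1 : ∀ q : Space3 × Par P, ∫⁻ x : Space3, domG C b T P q.1 q.2 * chi x =
      domG C b T P q.1 q.2 := by
    intro q
    rw [lintegral_const_mul _ measurable_chi, lintegral_chi, mul_one]
  simp only [h1]
  exact lintegral_domG_ne_top hC hb T P

/-! ### The null event -/

/-- **An exit line is born near a particle of the gas**: null event. -/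
theorem gNull_birthT (hΦ : AdmissiblePotential Φ) {γ : ℝ} (hγ : 0 < γ) (hf : Measurable f₀)
    (H : HasSummableGaussianBound γ (fun x v => f₀ (x, v)))
    (h1 : ∫⁻ z, ENNReal.ofReal (f₀ z) ≤ 1) (R : ℝ) (P : CTree) (T : ℝ) (i : Idx P) :
    GNull f₀ (fun ε (_ : Unit) => treeQ Φ f₀ ε P T)
      (fun ε _ _ z w => Birth Φ ε R w (rel P z.2 i) (yT Φ ε P i z)) := by
  obtain ⟨c, C, b, hc, hC, hb, hle⟩ := treeQ_le_refT hΦ hγ hf H P T
  exact gNull_birth (I := Unit) (m := fun ε _ => treeQ Φ f₀ ε P T)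
    (m' := fun _ _ => refT C b T P) (Tr := fun _ _ => trZ) (s := fun _ _ z => rel P z.2 i)
    (y := fun ε _ => yT Φ ε P i) (pos := fun _ _ z => z.1.1) hΦ hf h1 R hc
    (pin_refT hC hb T P) measurable_chi lintegral_chi (fun ε _ hε => hle ε hε)
    (fun ε _ _ => bInv hΦ hC b T ε P i) (fun _ _ _ => le_rfl)

/-- **An exit line of a tree is born near a particle of the gas**: `TNull`. -/
theorem tNull_birthT (hΦ : AdmissiblePotential Φ) {γ : ℝ} (hγ : 0 < γ) (hf : Measurable f₀)
    (H : HasSummableGaussianBound γ (fun x v => f₀ (x, v)))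
    (h1 : ∫⁻ z, ENNReal.ofReal (f₀ z) ≤ 1) (R T' : ℝ) (K : ℕ) :
    TNull Φ f₀ T' K fun ε P z _ w => ∃ i : Idx P,
      Birth Φ ε R w (lineML Φ ε P z i).1.1 (lineML Φ ε P z i).1.2.1 := by
  refine GateT522.tNull_of_gNull hΦ hf fun P _ => ?_
  refine (GNull.exists_fintype hf fun i : Idx P =>
    gNull_birthT hΦ hγ hf H h1 R P T' i).mono' ?_
  rintro ε - n z w ⟨hV, -, i, hi⟩
  refine ⟨i, ?_⟩
  rw [yT_of_adm hV.1]
  exact hi


end Crest.Agent.R122.BW302

end
end

-- ▼ part R122/LinkE4b_302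
section

/-!
# The link events of a contact structure are null (row 122, StmtLink4, slot `hlk`), helper302

* `bt_null` : helper515's birth event `BT` of the tree is null.
* `linkE4_det` : off helper692's `SAlt` and `BT` there is no link event.
* `osNull_linkE4` : **`LinkE4` is null**, horizon `te < T'`.
-/

set_option autoImplicit false
set_option linter.unusedSectionVars false

open MeasureTheory Set Filter Topology
open scoped ENNReal
open Crest.AnalysisR.Kinetic
open Crest.Agent.R122.Kin796 Crest.Agent.R122.Kin796.CTree Crest.Agent.R122.Tree674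
open Crest.Agent.R122.GC311 Crest.Agent.R122.EDefs602 Crest.Agent.R122.OneC285
open Crest.Agent.R122.Third741 Crest.Agent.R122.OSCalc495 Crest.Agent.R122.GSCalc495
open Crest.Agent.R122.Scat818 Crest.Agent.R122.OCout796
open Crest.Agent.R122.TreeLines335 Crest.Agent.R122.Line285 Crest.Agent.R122.Inf879
open Crest.Agent.R122.LinkAsm984 Crest.Agent.R122.Ins45 Crest.Agent.R122.LNOS515
open Crest.Agent.R122.OSGate410

noncomputable section

open scoped Classical

namespace Crest.Agent.R122.LinkE302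

variable {Φ : Space3 → ℝ} {f₀ : PhasePoint → ℝ} {ε R te c ρ ς : ℝ} {K N : ℕ} {Q : EPar} {T' : ℝ}
  {P : CTree} {z : PhasePoint × Par P} {m : ℕ} {w : Config m} {l : ML}

/-- The birth event of the tree is null. -/
theorem bt_null {A : Space3 → ℝ≥0∞} {C b g0 : ℝ} (h : AsmH Φ f₀ Q A C b g0) (K : ℕ) (T' : ℝ) :
    ONull Φ f₀ K Q T' fun ε _ z _ w _ => BT Φ ε Q.te z w := by
  have h1 : RtG302.TNull Φ f₀ T' K fun ε P z m w => BT Φ ε Q.te (P := P) z w :=
    TreeGate2302.tNull_mono (BW302.tNull_birthT h.hΦ h.hF.b_pos h.hF.meas h.H h.hF.mass 1 T' K)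
      fun _ _ _ _ _ ⟨i, hi⟩ => ⟨i, hi.2⟩
  refine (GateOS434.osNull_of_tNull h.hΦ h.hF.meas K h.hQ.γ_meas h.hQ.ρ_ne h.hQ.g0_pos
    h.hQ.γ_ge h1).congr fun ε _ P z m w l _ => ?_
  split_ifs
  · exact le_rfl
  · exact bot_le

/-- **Deterministic statement.** -/
theorem linkE4_det (hΦ : AdmissiblePotential Φ) (hε : 0 < ε) (hR : 0 ≤ R)
    (hρς : 2 * (ρ * ε) ≤ ς) (hρT : Q.te + 2 * (ρ * ε) < T') (hρ : 0 < ρ) {T₁ : ℝ} (hT₁ : T' < T₁)
    {L : ℕ} (hN : P.leaves + 1 + 2 * K * (L + 2) ≤ N)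
    (hg : Gd4 Φ ε K Q T' P z w l) (hE : LinkE4 Φ ε R K Q.te P z w l) :
    X692.SAlt Φ T' T₁ T' (R + 2) ρ ς ε K L (N + N + (N + N))
      ((Finset.univ : Finset (Idx P)).disjSum (∅ : Finset Unit)) (bO P l) (zO Φ ε z l) w ∨
      BT Φ ε Q.te z w := by
  by_contra hcon
  push Not at hcon
  obtain ⟨hS, hB⟩ := hcon
  have hρε : 0 < ρ * ε := mul_pos hρ hε
  have hte : Q.te ≤ T' := by linarith
  have hcT : cT ε z l ≤ Q.te := hg.real.ct.2.2.2.1
  have hlT : cT ε z l + 2 * (ρ * ε) < T' := by linarith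
  have hi : OSIn Φ ε T' P z l := osIn_of hg hE.enc hte le_rfl (by linarith)
  have hc : (1 : ℝ) ≤ R + 2 := by linarith
  have h1 : RAO Φ T' Q.te (R + 2) (ρ * ε) ς ε K N z w l :=
    rao_of_salt_bt hΦ hε hc hρς hi hg.real.exw hte hlT hE.ok.okR hE.ok.ok2 hT₁ hN hS hB
  exact not_linkE4 h1 hi hΦ hε hc hρς hte hlT le_rfl hE

/-- **The link events of a contact structure are null** (slot `hlk` of helper984's
`stmtLink4_of_parts`). -/
theorem osNull_linkE4 {A : Space3 → ℝ≥0∞} {C b g0 : ℝ} (h : AsmH Φ f₀ Q A C b g0)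
    (hT : Q.te < T') (K : ℕ) {R : ℝ} (hR : 0 ≤ R) :
    OSNull Φ f₀ K Q T' fun ε P z _ w l => if LinkE4 Φ ε R K Q.te P z w l then 1 else 0 := by
  have hT0 : 0 < T' := h.te.trans_lt hT
  have key : ONull Φ f₀ K Q T' fun ε P z _ w l => LinkE4 Φ ε R K Q.te P z w l := by
    refine osNull_of_salt (T := T') (t := T') (T₁ := T' + 1) (K₂ := K)
      (Ht := fun _ ε _ z _ w _ => BT Φ ε Q.te z w) h.hΦ h.hF.b_pos h.hF.meas h.H h.hF.mass
      h.hQ.g0_pos h.hQ.γ_meas h.hQ.γ_ge h.hQ.ρ_ne K T' hT0 le_rfl (by linarith)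
      (fun P _ L => ?_) fun _ => bt_null h K T'
    set N : ℕ := P.leaves + 1 + 2 * K * (L + 2) with hN
    refine ⟨N + N + (N + N), R + 2, fun ρ hρ ς hς => ⟨min (ς / (2 * ρ)) ((T' - Q.te) / (2 * ρ)),
      lt_min (by positivity) (div_pos (by linarith) (by positivity)),
      fun ε hε hlt z m w l hg hE => ?_⟩⟩
    have h2 : (0 : ℝ) < 2 * ρ := by positivity
    have h3 : ε * (2 * ρ) < ς := (lt_div_iff₀ h2).1 (hlt.trans_le (min_le_left _ _))
    have h4 : ε * (2 * ρ) < T' - Q.te := (lt_div_iff₀ h2).1 (hlt.trans_le (min_le_right _ _))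
    exact linkE4_det h.hΦ hε hR (by nlinarith) (by nlinarith) hρ (by linarith) hN.ge hg hE
  refine OSNull.congr key fun ε _ P z m w l _ => ?_
  show (if LinkE4 Φ ε R K Q.te P z w l then (1 : ℝ≥0∞) else 0) ≤
    if LinkE4 Φ ε R K Q.te P z w l then 1 else 0
  split_ifs
  · exact le_rfl
  · exact bot_le

end Crest.Agent.R122.LinkE302

end
end

-- ▼ part R122/XSlot_434
section

/-!
# The capped gateway for a tree and an independent line (row 122): 692's alternatives, 984's slot

* `gNull_hitT'`, `gNull_hitL'` : bad hits of the tree / of the line, horizon `T₁` of the positions.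
* `fNull_tl_of_alt` : one tree; `tsn_of_alt` : **the closed gateway** with 692's alternatives
  `SAlt`, `XAlt`, `JAlt` (structure labels `Idx P`).
* `osNull_of_tsn` : tree functionals as functionals of contact structures.
* `osNull_of_alt` : the slot `hX` of helper984's `stmtLink4_of_parts` from the alternatives.
-/

set_option autoImplicit false
set_option linter.unusedSectionVars false

open MeasureTheory Set Filter Topology
open scoped ENNReal Classical
open Crest.AnalysisR.Kinetic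
open Crest.Agent.R122.Kin796 Crest.Agent.R122.Kin796.CTree Crest.Agent.R122.Tree674
open Crest.Agent.R122.GC311 Crest.Agent.R122.EDefs602 Crest.Agent.R122.OneC285
open Crest.Agent.R122.LinkM547 Crest.Agent.R122.LN2 Crest.Agent.R122.InEq2
open Crest.Agent.R122.Gate424 Crest.Agent.R122.Gate973 Crest.Agent.R122.OSMeas984
open Crest.Agent.R122.OneC423 Crest.Agent.R122.LinkAsm984 Crest.Agent.R122.GateOS434
open Crest.Agent.R122.X692 Crest.Agent.R122.TL311

noncomputable section

namespace Crest.Agent.R122.GateOS434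

variable {Φ : Space3 → ℝ} {f₀ : PhasePoint → ℝ} {β T te g : ℝ} {γ : ℝ → ℝ} {ρ : ℝ≥0∞}

/-- Bad hits of the tree. -/
theorem gNull_hitT' (h : Ctx Φ f₀ β T te g γ ρ) (P : CTree) {T₁ : ℝ} (hT₁ : 0 ≤ T₁) (tb C R : ℝ)
    (N N' : ℕ) : GNull f₀ (mT Φ f₀ T P) (fun ε _ _ z w =>
      BH167.BadHitGas (BH167.bpos Φ T₁ tb) Φ T C R ε N N' 1 Finset.univ
        (fun _ : Idx P => 0) (zT Φ ε P z) w) := by
  obtain ⟨r, C₀, he, heg⟩ := h.exists_env
  exact BH167.gNull_badPos (I := Unit) (m := mT Φ f₀ T P) h.adm h.T_nonneg tb hT₁ h.hf h.mass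
    heg h.g_pos C R N N' (s := 1) (Fintype.card_pos_iff.2 ⟨root P⟩) Finset.univ
    (c := ENNReal.ofReal (Fintype.card (Idx P) + 1 / (2 * β - g)) * C₀ ^ Fintype.card (Idx P))
    (ENNReal.mul_ne_top ENNReal.ofReal_ne_top (ENNReal.pow_ne_top he.fin))
    (Measure.dirac fun _ : Idx P => (0 : ℝ)) (b := fun _ _ _ _ => 0) (z := fun ε _ z => zT Φ ε P z)
    (sf_mT P) (fun ε _ hε => h.dom_T he hε P)

/-- Bad hits of the line. -/
theorem gNull_hitL' (h : Ctx Φ f₀ β T te g γ ρ) (Km : ℕ) {T₁ : ℝ} (hT₁ : 0 ≤ T₁) (tb C R : ℝ)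
    (N N' : ℕ) : GNull f₀ (nL γ ρ Km te) (fun ε _ _ x w =>
      BH167.BadHitGasN (BH167.bpos Φ T₁ tb) Φ T C R ε N N' 1 (∅ : Finset Unit)
        (fun _ => x.1.1) (fun _ => back x.1) w) := by
  obtain ⟨r, C₀, he, heg⟩ := h.exists_env
  exact BH167.gNull_badPosN (I := Unit) (m := nL γ ρ Km te) h.adm h.T_nonneg tb hT₁ h.hf h.mass
    heg h.g_pos C R N N' (s := 1) le_rfl ∅ (c := ∑' n : ℕ, markW ρ Km n)
    (sum_markW_ne_top h.mark Km) (lineΛ te) (b := fun _ _ x _ => x.1.1)
    (z := fun _ _ x _ => back x.1) sf_nL (fun ε _ _ => h.dom_L r Km ε)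

/-- Runs at a horizon `t ≤ T` from the groups of the tree. -/
theorem gLe_runT' (h : Ctx Φ f₀ β T te g γ ρ) (P : CTree) (K₂ : ℕ) {t : ℝ} (ht : t ≤ T)
    {δ : ℝ≥0∞} (hδ : 0 < δ) : ∃ L₀ : ℕ, ∀ L, L₀ ≤ L →
    GLe f₀ (mT Φ f₀ T P) (fun ε _ _ z w => RunS Φ ε t K₂ L (fun _ => 0) (zT Φ ε P z) w) δ := by
  obtain ⟨C₀, hC₀, hb⟩ := h.exists_bound
  obtain ⟨M, hM, hmom⟩ := h.exists_moment P
  exact gLe_runS (I := Unit) (m := mT Φ f₀ T P) h.adm (β := g / 2) (half_pos h.g_pos)
    h.T_nonneg hC₀ K₂ h.hf hb h.mass (t := fun _ => t) (fun _ => ht)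
    (b := fun _ _ _ _ => 0) (z := fun ε _ z => zT Φ ε P z) (fun _ _ _ => measurable_const)
    (fun ε _ _ => measurable_linesM h.adm ε P) hM hmom hδ

/-- Runs at a horizon `t ≤ T` from the line. -/
theorem gLe_runL' (h : Ctx Φ f₀ β T te g γ ρ) (Km K₂ : ℕ) {t : ℝ} (ht : t ≤ T) {δ : ℝ≥0∞}
    (hδ : 0 < δ) : ∃ L₀ : ℕ, ∀ L, L₀ ≤ L →
    GLe f₀ (nL γ ρ Km te) (fun ε _ _ x w => Run Φ ε t K₂ L (MW.line x) () w) δ := by
  have h1 : 2 * (g / 2) ≤ 2 * β := by
    have := h.g_pos
    have := h.g_le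
    linarith
  obtain ⟨env, A, hA, hE⟩ := exists_envB h1 h.gauss
  exact gLe_runX (I := Unit) h.adm (half_pos h.g_pos) (half_lt_self h.g_pos) h.te_le h.T_nonneg hA
    K₂ h.hf h.mass hE h.meas h.rate h.mark Km (t := fun _ => t) (fun _ => ht) hδ

/-- **The capped gateway for a tree and an independent line**, one tree. -/
theorem fNull_tl_of_alt (h : Ctx Φ f₀ β T te g γ ρ) (hT : 0 < T) (P : CTree) (Km K₂ : ℕ)
    {t T₁ : ℝ} (ht : t ≤ T) (hT₁ : 0 ≤ T₁)
    {E : ℝ → (n : ℕ) → PhasePoint × Par P → ML → Config n → Prop}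
    {HS : ℕ → ℝ → (n : ℕ) → PhasePoint × Par P → Config n → Prop}
    {HX : ℕ → ℝ → (n : ℕ) → ML → Config n → Prop}
    {HJ : ℕ → ℝ → (n : ℕ) → (PhasePoint × Par P) × ML → Config n → Prop}
    (hdet : ∀ L : ℕ, ∃ (N : ℕ) (C : ℝ), ∀ R > 0, ∀ ς > 0, ∃ ε₁ : ℝ, 0 < ε₁ ∧ ∀ ε : ℝ, 0 < ε →
      ε < ε₁ → ∀ n z x (w : Config n), w ∈ PairExcluded ε n → E ε n z x w →
        (SAlt Φ T T₁ t C R ς ε K₂ L N Finset.univ (fun _ => 0) (zT Φ ε P z) w ∨
          HS L ε n z w) ∨
        (XAlt Φ T T₁ t C R ς ε K₂ L N x w ∨ HX L ε n x w) ∨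
        (JAlt Φ T C R ς ε N Finset.univ (fun _ => 0) (zT Φ ε P z) x w ∨ HJ L ε n (z, x) w))
    (hHS : ∀ L, GNull (I := Unit) f₀ (mT Φ f₀ T P) (fun ε _ n z w => HS L ε n z w))
    (hHX : ∀ L, GNull (I := Unit) f₀ (nL γ ρ Km te) (fun ε _ n x w => HX L ε n x w))
    (hHJ : ∀ L, GNull (I := Unit) f₀ (fun ε i => (mT Φ f₀ T P ε i).prod (nL γ ρ Km te ε i))
      (fun ε _ n p w => HJ L ε n p w)) :
    FNull f₀ (mT Φ f₀ T P) (fun ε _ n z w => min 1 (lineM γ ρ Km te {x | E ε n z x w})) := by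
  obtain ⟨M, hM, hmass⟩ := h.exists_mass P
  have hCN := classNull h.adm hT
  refine fNull_cap_of_det (I := Unit) (m := mT Φ f₀ T P) (ν := nL γ ρ Km te)
    (E := fun ε _ n z x w => E ε n z x w)
    (RS := fun L ε _ _ z w => RunS Φ ε t K₂ L (fun _ => 0) (zT Φ ε P z) w)
    (HS := fun L ε _ n z w => HS L ε n z w)
    (RX := fun L ε _ _ x w => Run Φ ε t K₂ L (MW.line x) () w)
    (HX := fun L ε _ n x w => HX L ε n x w) (HJ := fun L ε _ n p w => HJ L ε n p w) h.hf (sf_mT P)
    sf_nL hM hmass (fun L => ?_) (fun δ hδ => gLe_runT' h P K₂ ht hδ)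
    (fun δ hδ => gLe_runL' h Km K₂ ht hδ) hHS hHX hHJ
  obtain ⟨N, C, hd⟩ := hdet L
  refine ⟨_, _, _, (h.badF_T hCN P C N).or h.hf (BadF.of_gNull (gNull_hitT' h P hT₁ T C 1 N N)),
    (h.badF_L hCN Km C N).or h.hf (BadF.of_gNull (gNull_hitL' h Km hT₁ T C 1 N N)),
    h.badF_J hCN P Km C N, fun R hR ς hς => ?_⟩
  obtain ⟨ε₁, h0, hd⟩ := hd R hR ς hς
  refine ⟨ε₁, h0, fun ε hε hlt _ n z x w hw hE => ?_⟩
  rcases hd ε hε hlt n z x w hw hE with (h' | h') | (h' | h') | (h' | h')
  · rcases h' with h' | h' | h'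
    · exact Or.inl (Or.inl h')
    · exact Or.inl (Or.inr (Or.inl (Or.inl h')))
    · exact Or.inl (Or.inr (Or.inl (Or.inr h')))
  · exact Or.inl (Or.inr (Or.inr h'))
  · rcases h' with h' | h' | h'
    · exact Or.inr (Or.inl (Or.inl h'))
    · exact Or.inr (Or.inl (Or.inr (Or.inl (Or.inl h'))))
    · exact Or.inr (Or.inl (Or.inr (Or.inl (Or.inr h'))))
  · exact Or.inr (Or.inl (Or.inr (Or.inr h')))
  · unfold JAlt at h'
    rw [← Finset.disjSum_empty] at h'
    exact Or.inr (Or.inr (Or.inl h'))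
  · exact Or.inr (Or.inr (Or.inr h'))

/-- **The closed gateway for trees and an independent line**, 692's alternatives. The law of the
trees has horizon `T`, the events have horizon `t ≤ T`. -/
theorem tsn_of_alt (h : Ctx Φ f₀ β T te g γ ρ) (hT : 0 < T) (K Km K₂ : ℕ)
    {t T₁ : ℝ} (ht : t ≤ T) (hT₁ : 0 ≤ T₁)
    {lk : ℝ → (P : CTree) → PhasePoint × Par P → (m : ℕ) → Config m → Set ML}
    {HS : ℕ → ℝ → (P : CTree) → PhasePoint × Par P → (m : ℕ) → Config m → Prop}
    {HX : ℕ → ℝ → (m : ℕ) → ML → Config m → Prop}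
    {HJ : ℕ → ℝ → (P : CTree) → PhasePoint × Par P → (m : ℕ) → Config m → ML → Prop}
    (hdet : ∀ P : CTree, P.leaves ≤ K → ∀ L : ℕ, ∃ (N : ℕ) (C : ℝ), ∀ R > 0, ∀ ς > 0,
      ∃ ε₁ : ℝ, 0 < ε₁ ∧ ∀ ε : ℝ, 0 < ε → ε < ε₁ → ∀ (z : PhasePoint × Par P) (m : ℕ)
        (w : Config m) (x : ML), w ∈ PairExcluded ε m → Valid Φ ε P T z.1.2 z.2 →
        Sep Φ ε P T z.1 z.2 → InEq2T.PerpT Φ ε P z w → x ∈ lk ε P z m w →
        (SAlt Φ T T₁ t C R ς ε K₂ L N Finset.univ (fun _ => 0) (linesM Φ ε P z.1 z.2) w ∨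
          HS L ε P z m w) ∨
        (XAlt Φ T T₁ t C R ς ε K₂ L N x w ∨ HX L ε m x w) ∨
        (JAlt Φ T C R ς ε N Finset.univ (fun _ => 0) (linesM Φ ε P z.1 z.2) x w ∨
          HJ L ε P z m w x))
    (hHS : ∀ L, ∀ P : CTree, P.leaves ≤ K → GNull (I := Unit) f₀ (mT Φ f₀ T P)
      (fun ε _ n z w => Valid Φ ε P T z.1.2 z.2 ∧ Sep Φ ε P T z.1 z.2 ∧
        InEq2T.PerpT Φ ε P z w ∧ HS L ε P z n w))
    (hHX : ∀ L, GNull (I := Unit) f₀ (nL γ ρ Km te) (fun ε _ n x w => HX L ε n x w))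
    (hHJ : ∀ L, ∀ P : CTree, P.leaves ≤ K → GNull (I := Unit) f₀
      (fun ε i => (mT Φ f₀ T P ε i).prod (nL γ ρ Km te ε i))
      (fun ε _ n p w => Valid Φ ε P T p.1.1.2 p.1.2 ∧ Sep Φ ε P T p.1.1 p.1.2 ∧
        InEq2T.PerpT Φ ε P p.1 w ∧ HJ L ε P p.1 n w p.2)) :
    TSN Φ f₀ T K (fun ε P z m w => if Valid Φ ε P T z.1.2 z.2 ∧ Sep Φ ε P T z.1 z.2 ∧
      InEq2T.PerpT Φ ε P z w then min 1 (lineM γ ρ Km te (lk ε P z m w)) else 0) := by
  refine tsn_of_fNull h.adm h.hf fun P hP => ?_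
  have h1 := fNull_tl_of_alt h hT P Km K₂ ht hT₁
    (E := fun ε n z x w => Valid Φ ε P T z.1.2 z.2 ∧ Sep Φ ε P T z.1 z.2 ∧
      InEq2T.PerpT Φ ε P z w ∧ x ∈ lk ε P z n w)
    (HS := fun L ε n z w => Valid Φ ε P T z.1.2 z.2 ∧ Sep Φ ε P T z.1 z.2 ∧
      InEq2T.PerpT Φ ε P z w ∧ HS L ε P z n w)
    (HX := fun L ε n x w => HX L ε n x w)
    (HJ := fun L ε n p w => Valid Φ ε P T p.1.1.2 p.1.2 ∧ Sep Φ ε P T p.1.1 p.1.2 ∧
      InEq2T.PerpT Φ ε P p.1 w ∧ HJ L ε P p.1 n w p.2)
    (fun L => ?_) (fun L => hHS L P hP) hHX (fun L => hHJ L P hP)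
  · refine h1.mono ⟨1, one_pos, fun ε _ _ i n z w _ => ?_⟩
    show (if Valid Φ ε P T z.1.2 z.2 ∧ Sep Φ ε P T z.1 z.2 ∧ InEq2T.PerpT Φ ε P z w then
      min 1 (lineM γ ρ Km te (lk ε P z n w)) else 0) ≤ _
    split_ifs with hc
    · refine min_le_min le_rfl (measure_mono fun x hx => ?_)
      exact ⟨hc.1, hc.2.1, hc.2.2, hx⟩
    · exact bot_le
  · obtain ⟨N, C, hd⟩ := hdet P hP L
    refine ⟨N, C, fun R hR ς hς => ?_⟩
    obtain ⟨ε₁, h0, hd⟩ := hd R hR ς hς
    refine ⟨ε₁, h0, fun ε hε hlt n z x w hw hE => ?_⟩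
    rcases hd ε hε hlt z n w x hw hE.1 hE.2.1 hE.2.2.1 hE.2.2.2 with (h' | h') | h' | (h' | h')
    · exact Or.inl (Or.inl h')
    · exact Or.inl (Or.inr ⟨hE.1, hE.2.1, hE.2.2.1, h'⟩)
    · exact Or.inr (Or.inl h')
    · exact Or.inr (Or.inr (Or.inl h'))
    · exact Or.inr (Or.inr (Or.inr ⟨hE.1, hE.2.1, hE.2.2.1, h'⟩))

/-! ### Functionals of contact structures -/

section os

variable {Q : EPar} {T' : ℝ} {K : ℕ}




end os

end Crest.Agent.R122.GateOS434

end
end

-- ▼ part R122/BirthT_255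

/-!
# Row 122: no particle of the gas near the births of the lines of the tree (helper255)

* `BT Φ R` : at the birth of the line of some particle of the tree a particle of the gas is within
  `R ε` of it.
* `gNull_birth_line` : null, for every particle of a tree, under the energy weighted law.
* `tNull_bt` : `TNull Φ f₀ T' K (BT Φ R)`; `osNull_bt` : the same for contact structures.
* `noB_of_not_bt` : `PW365.NoB` for all lines of the tree.
-/

set_option autoImplicit false
set_option linter.unusedSectionVars false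

open MeasureTheory Set Filter Topology
open scoped Classical ENNReal
open Crest.AnalysisR.Kinetic
open Crest.Agent.R122.GC311 Crest.Agent.R122.EDefs602
open Crest.Agent.R122.Kin796 Crest.Agent.R122.Kin796.CTree Crest.Agent.R122.Tree674
open Crest.Agent.R122.TreeLines335 Crest.Agent.R122.LineMeas994
open Crest.Agent.R122.ToTree335 Crest.Agent.R122.InEq2 Crest.Agent.R122.LN2
open Crest.Agent.R122.Gate424 Crest.Agent.R122.GateT522

noncomputable section

namespace Crest.Agent.R122.BirthT255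

variable {Φ : Space3 → ℝ} {f₀ : PhasePoint → ℝ} {ε T' : ℝ}

/-- Translation of the root. -/
def shT {P : CTree} (a : Space3) (z : PhasePoint × Par P) : PhasePoint × Par P :=
  ((z.1.1 + a, z.1.2), z.2)

/-- Position of the line of `i` at its birth, on valid trees. -/
def yT (Φ : Space3 → ℝ) (ε T' : ℝ) (P : CTree) (i : Idx P) (z : PhasePoint × Par P) : Space3 :=
  if Valid Φ ε P T' z.1.2 z.2 then (lineMM Φ ε P z i).1.2.1 else z.1.1

theorem measurable_yT (hΦ : AdmissiblePotential Φ) (ε T' : ℝ) (P : CTree) (i : Idx P) :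
    Measurable (yT Φ ε T' P i) := by
  unfold yT
  refine Measurable.ite (measurableSet_valid hΦ ε P T') ?_ measurable_fst.fst
  exact (measurable_lineMM hΦ ε P i).fst.snd.fst

theorem yT_of_valid {P : CTree} {i : Idx P} {z : PhasePoint × Par P}
    (h : Valid Φ ε P T' z.1.2 z.2) : yT Φ ε T' P i z = (lineML Φ ε P z i).1.2.1 := by
  unfold yT
  rw [if_pos h, lineMM_of_adm ε h.1]

theorem yT_sh {P : CTree} {i : Idx P} (a : Space3) (z : PhasePoint × Par P) :
    yT Φ ε T' P i (shT a z) = yT Φ ε T' P i z + a := by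
  by_cases h : Valid Φ ε P T' z.1.2 z.2
  · have h' : Valid Φ ε P T' (shT a z).1.2 (shT a z).2 := h
    rw [yT_of_valid h, yT_of_valid h']
    show (onLine (PathFlow968.fin Φ ε P (z.1.1 + a, z.1.2) z.2 i) (rel P z.2 i)).1 =
      (onLine (PathFlow968.fin Φ ε P z.1 z.2 i) (rel P z.2 i)).1 + a
    have h1 := ThirdV796.fin_shift (Φ := Φ) ε P (z.1.1 + a) z.1.2 z.2 i
    have h2 := ThirdV796.fin_shift (Φ := Φ) ε P z.1.1 z.1.2 z.2 i
    have h3 : ((z.1.1, z.1.2) : PhasePoint) = z.1 := rfl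
    rw [h3] at h2
    rw [h1, h2]
    unfold onLine
    simp only
    abel
  · have h' : ¬ Valid Φ ε P T' (shT a z).1.2 (shT a z).2 := h
    unfold yT
    rw [if_neg h, if_neg h']
    rfl

/-- **No particle of the gas near the birth of one line of the tree.** -/
theorem gNull_birth_line (hΦ : AdmissiblePotential Φ) (hf : Measurable f₀) {b : ℝ} (hb : 0 < b)
    (H : HasSummableGaussianBound b (fun x v => f₀ (x, v)))
    (h1 : ∫⁻ z, ENNReal.ofReal (f₀ z) ≤ 1) (R : ℝ) (P : CTree) (T' : ℝ) (i : Idx P) :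
    GNull f₀ (fun ε (_ : Unit) => treeQ Φ f₀ ε P T') (fun ε _ _ z w =>
      Valid Φ ε P T' z.1.2 z.2 ∧
        LN2.Birth Φ ε R w (lineML Φ ε P z i).1.1 (lineML Φ ε P z i).1.2.1) := by
  obtain ⟨ρ, C₀, he⟩ := LN2.exists_env (le_refl b) H
  set a : ℝ := b / 2 with ha
  have ha0 : 0 < a := by rw [ha]; linarith
  have hab : a < b := by rw [ha]; linarith
  obtain ⟨G, hG, hGi, hGle⟩ := LN2.exists_treeG hΦ he hab P T'
  obtain ⟨χ, hχ, hχ1⟩ : ∃ χ : Space3 → ℝ≥0∞, Measurable χ ∧ ∫⁻ x, χ x = 1 := by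
    refine ⟨(Metric.closedBall (0 : Space3) 1).indicator fun _ =>
      (volume (Metric.closedBall (0 : Space3) 1))⁻¹,
      measurable_const.indicator Metric.isClosed_closedBall.measurableSet, ?_⟩
    rw [lintegral_indicator Metric.isClosed_closedBall.measurableSet, setLIntegral_const,
      ENNReal.inv_mul_cancel]
    · exact (Metric.measure_closedBall_pos volume _ one_pos).ne'
    · exact measure_closedBall_lt_top.ne
  have hG' : Measurable fun z : PhasePoint × Par P => G (z.1.2, z.2) :=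
    hG.comp (measurable_fst.snd.prodMk measurable_snd)
  set m' : Measure (PhasePoint × Par P) :=
    (volume : Measure (PhasePoint × Par P)).withDensity fun z => G (z.1.2, z.2) with hm'
  have hsf : SFinite m' := by rw [hm']; infer_instance
  have hshm : ∀ a : Space3, Measurable (shT (P := P) a) := fun a => by
    unfold shT
    exact ((measurable_fst.fst.add measurable_const).prodMk measurable_fst.snd).prodMk
      measurable_snd
  -- the mass
  have hGfin : ∫⁻ q : Space3 × Par P, G q ≠ ∞ := by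
    refine ne_top_of_le_ne_top hGi (lintegral_mono fun q => ?_)
    refine le_mul_of_one_le_right bot_le ?_
    rw [← ENNReal.ofReal_one]
    exact ENNReal.ofReal_le_ofReal (by linarith [norm_nonneg q.1])
  -- integrals
  have hint : ∀ F : PhasePoint × Par P → ℝ≥0∞, Measurable F →
      ∫⁻ z, F z ∂m' = ∫⁻ z : PhasePoint × Par P, G (z.1.2, z.2) * F z := by
    intro F hF
    rw [hm', lintegral_withDensity_eq_lintegral_mul _ hG' hF]
    rfl
  have hsplit : ∀ F : PhasePoint × Par P → ℝ≥0∞, Measurable F →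
      ∫⁻ z : PhasePoint × Par P, F z = ∫⁻ q : Space3 × Par P, ∫⁻ x : Space3, F ((x, q.1), q.2) :=
    fun F hF => TreeLim974.lintegral_split P hF
  have hinv : ∀ a : Space3, m'.map (shT a) = m' := by
    intro a
    refine Measure.ext fun s hs => ?_
    rw [Measure.map_apply (hshm a) hs]
    have e1 : ∀ s : Set (PhasePoint × Par P), MeasurableSet s →
        m' s = ∫⁻ q : Space3 × Par P, ∫⁻ x : Space3,
          G (q.1, q.2) * s.indicator 1 (((x, q.1), q.2) : PhasePoint × Par P) := by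
      intro s hs
      have hsm : Measurable (s.indicator (1 : PhasePoint × Par P → ℝ≥0∞)) :=
        measurable_one.indicator hs
      rw [← lintegral_indicator_one hs, hint _ hsm]
      exact hsplit _ (hG'.mul hsm)
    rw [e1 _ hs, e1 _ ((hshm a) hs)]
    refine lintegral_congr fun q => ?_
    have hm1 : Measurable fun x : Space3 => s.indicator (1 : PhasePoint × Par P → ℝ≥0∞)
        (((x, q.1), q.2) : PhasePoint × Par P) :=
      (measurable_one.indicator hs).comp
        ((measurable_id.prodMk measurable_const).prodMk measurable_const)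
    rw [← lintegral_add_right_eq_self (fun x : Space3 => G (q.1, q.2) *
      s.indicator (1 : PhasePoint × Par P → ℝ≥0∞) (((x, q.1), q.2) : PhasePoint × Par P)) a]
    rfl
  have key := LN2.gNull_birth (f₀ := f₀) (Φ := Φ) (I := Unit)
    (m := fun ε _ => treeQ Φ f₀ ε P T') (m' := fun _ _ => m')
    (Tr := fun _ _ => shT) (s := fun _ _ z => rel P z.2 i)
    (y := fun ε _ z => yT Φ ε T' P i z) (pos := fun _ _ z => z.1.1)
    hΦ hf h1 R (c := (Fintype.card (Idx P) * ENNReal.ofReal (max 1 (1 / a))))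
    (M := ∫⁻ q : Space3 × Par P, G q) (card_mul_ne_top P) hGfin hχ hχ1 ?_ ?_ ?_
  · refine key.mono' fun ε _ n z w ⟨hV, hB⟩ => ?_
    rw [yT_of_valid hV]
    exact hB
  · intro ε _ hε F hF
    have hw : Measurable fun z : PhasePoint × Par P => wQ Φ ε P z * F z :=
      (measurable_wQ hΦ P).mul hF
    rw [lintegral_treeQ hΦ P T' hF, hint F hF]
    unfold LN2.treeM
    rw [lintegral_withDensity_eq_lintegral_mul _ (LN2.measurable_treeD hΦ hf ε P T') hw,
      ← lintegral_const_mul' _ _ (card_mul_ne_top P)]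
    refine lintegral_mono fun z => ?_
    have h2 := hGle ε T' z hε.le le_rfl
    have h3 := GateT522.wQ_le_expW (Φ := Φ) (ε := ε) ha0 P z
    calc (LN2.treeD Φ f₀ ε P T' * fun z => wQ Φ ε P z * F z) z
        = LN2.treeD Φ f₀ ε P T' z * wQ Φ ε P z * F z := by
          simp only [Pi.mul_apply]
          ring
      _ ≤ LN2.treeD Φ f₀ ε P T' z * ((Fintype.card (Idx P) * ENNReal.ofReal (max 1 (1 / a))) *
          expW a (linesM Φ ε P z.1 z.2)) * F z :=
          mul_le_mul_left (mul_le_mul_right h3 _) _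
      _ = (Fintype.card (Idx P) * ENNReal.ofReal (max 1 (1 / a))) * ((LN2.treeD Φ f₀ ε P T' z *
          expW a (linesM Φ ε P z.1 z.2)) * F z) := by ring
      _ ≤ _ := by
          refine mul_le_mul_right (mul_le_mul_left (h2.trans ?_) _) _
          exact mul_le_of_le_one_left bot_le (he.le_one _)
  · intro ε _ hε
    refine ⟨hsf, ?_, hinv, (measurable_rel P i).comp measurable_snd, measurable_yT hΦ ε T' P i,
      measurable_fst.fst, fun _ _ => rfl, fun a z => yT_sh a z, fun _ _ => rfl⟩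
    unfold shT
    exact ((measurable_snd.fst.fst.add measurable_fst).prodMk measurable_snd.fst.snd).prodMk
      measurable_snd.snd
  · intro ε _ hε
    have hχm : Measurable fun z : PhasePoint × Par P => χ z.1.1 := hχ.comp measurable_fst.fst
    rw [hint _ hχm]
    refine (hsplit _ (hG'.mul hχm)).le.trans (lintegral_mono fun q => ?_)
    show ∫⁻ x : Space3, G (q.1, q.2) * χ x ≤ G q
    rw [lintegral_const_mul _ hχ, hχ1, mul_one]

/-- **Births of the lines of the tree near the gas.** -/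
def BT (Φ : Space3 → ℝ) (R : ℝ) : RtG302.TEv := fun ε P z _ w =>
  ∃ i : Idx P, LN2.Birth Φ ε R w (lineML Φ ε P z i).1.1 (lineML Φ ε P z i).1.2.1

theorem gNull_bt (hΦ : AdmissiblePotential Φ) (hf : Measurable f₀) {b : ℝ} (hb : 0 < b)
    (H : HasSummableGaussianBound b (fun x v => f₀ (x, v)))
    (h1 : ∫⁻ z, ENNReal.ofReal (f₀ z) ≤ 1) (R : ℝ) (P : CTree) (T' : ℝ) :
    GNull f₀ (fun ε (_ : Unit) => treeQ Φ f₀ ε P T') (fun ε _ n z w =>
      Valid Φ ε P T' z.1.2 z.2 ∧ BT Φ R ε P z n w) :=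
  (GNull.exists_fintype hf fun i => gNull_birth_line hΦ hf hb H h1 R P T' i).mono'
    fun _ _ _ _ _ ⟨hV, i, hi⟩ => ⟨i, hV, hi⟩




end Crest.Agent.R122.BirthT255
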