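import Crest.Agent.R122.BoltzL1b_814

/-!
Row 122, Boltzmann side (helper814): the `L¹` exponential moment theorem.
-/

set_option autoImplicit false

open MeasureTheory ProbabilityTheory Set
open Crest.AnalysisR.Kinetic
open Crest.Agent.R122.Kin416 Crest.Agent.R122.Kin796
open scoped ENNReal

noncomputable section

namespace Crest.Agent.R122.Boltz814

variable {Φ : Space3 → ℝ} {β T : ℝ} {f₀ : PhasePoint → ℝ} {f : ℝ → PhasePoint → ℝ}

/-- the time dependent rate -/
def gam (β T t : ℝ) : ℝ := β / 2 - β / (4 * T) * t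

lemma gam_mem (hβ : 0 < β) (hT : 0 < T) {t : ℝ} (ht : t ∈ Icc 0 T) :
    gam β T t ∈ Icc (β / 4) (β / 2) := by
  unfold gam
  constructor
  · have h1 : β / (4 * T) * t ≤ β / (4 * T) * T := by
      have : 0 ≤ β / (4 * T) := by positivity
      exact mul_le_mul_of_nonneg_left ht.2 this
    have h2 : β / (4 * T) * T = β / 4 := by field_simp
    linarith
  · have : 0 ≤ β / (4 * T) * t := mul_nonneg (by positivity) ht.1
    linarith

/-- finite initial exponential moment -/
lemma initial_moment (hβ : 0 < β)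
    (H : HasSummableGaussianBound (2 * β) (fun x v => f₀ (x, v)))
    (hT : 0 < T) (hf : IsRegularKineticSolution Φ β T f₀ f) {γ : ℝ} (hγ : γ ≤ β) :
    phI (fun x v => gau (-γ) v * fE T f 0 x v) < ∞ := by
  obtain ⟨C, hC0, hC⟩ := exists_velocity_marginal H
  have h0 : (0 : ℝ) ∈ Icc 0 T := ⟨le_rfl, hT.le⟩
  have hm : Measurable (Function.uncurry fun x v : Space3 => gau (-γ) v * fE T f 0 x v) :=
    ((measurable_gau _).comp measurable_snd).mul (meas_fE_zero hf)
  unfold phI
  rw [lintegral_lintegral_swap hm.aemeasurable]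
  have h1 : ∀ v : Space3, ∫⁻ x, gau (-γ) v * fE T f 0 x v ≤
      ENNReal.ofReal C * gau β v := by
    intro v
    have hm2 : Measurable fun x : Space3 => fE T f 0 x v :=
      (meas_fE_zero hf).comp (measurable_id.prodMk measurable_const)
    rw [lintegral_const_mul _ hm2]
    have h2 : ∫⁻ x, fE T f 0 x v ≤ ENNReal.ofReal C * gau (2 * β) v := by
      refine le_trans (le_of_eq ?_) (hC v)
      refine lintegral_congr fun x => ?_
      rw [fE_of_mem h0, hf.initial]
    calc gau (-γ) v * ∫⁻ x, fE T f 0 x v ≤ gau (-γ) v * (ENNReal.ofReal C * gau (2 * β) v) :=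
          mul_le_mul' le_rfl h2
      _ = ENNReal.ofReal C * (gau (-γ) v * gau (2 * β) v) := by ring
      _ = ENNReal.ofReal C * gau (-γ + 2 * β) v := by rw [gau_add]
      _ ≤ ENNReal.ofReal C * gau β v :=
          mul_le_mul' le_rfl (gau_antitone (by linarith) v)
  refine lt_of_le_of_lt (lintegral_mono h1) ?_
  rw [lintegral_const_mul _ (measurable_gau β)]
  exact ENNReal.mul_lt_top ENNReal.ofReal_lt_top (lintegral_gau_lt_top hβ)



end Crest.Agent.R122.Boltz814

end
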