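import Crest.Agent.R122.KinC_796
import Crest.Agent.R122.KinMain_796

-- ▼ part R122/BoltzSeg_814
section

/-!
Row 122 (helper814): window damping and undamped straight segments, abstract part.

* `Dwin D tw` : the damping `D` restricted to the times before `tw`.
* `exists_window_moment` : the exponential moment of the tree series damped by `Dwin D tw` stays
  bounded on `[0, tw + h₀]`, `h₀` uniform in `tw`.
* `FS` : tree weights with no damping on the straight line of the root (root leg and all legs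
  attached to it through nodes where an incoming velocity is equal to the outgoing velocity `v`).
* `FS_moment_le` : exponential moment of `FS`.
-/

set_option autoImplicit false
set_option linter.unusedSectionVars false
open MeasureTheory ProbabilityTheory Set
open scoped Classical ENNReal

noncomputable section

namespace Crest.Agent.R122.Seg814

open Kin796 Kin796.CTree

variable {E : Type*} [NormedAddCommGroup E] [NormedSpace ℝ E] [MeasurableSpace E] [BorelSpace E]
  [SecondCountableTopology E]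

/-! ### Window damping -/

/-- The damping `D` restricted to the times before `tw`. -/
def Dwin (D : ℝ → ℝ → E → E → ℝ≥0∞) (tw : ℝ) (s t : ℝ) (x v : E) : ℝ≥0∞ :=
  D (min s tw) (min t tw) (x - (t - min t tw) • v) v

theorem Dwin_le_one {D : ℝ → ℝ → E → E → ℝ≥0∞} (hD1 : ∀ s t x v, D s t x v ≤ 1) (tw s t : ℝ)
    (x v : E) : Dwin D tw s t x v ≤ 1 := hD1 _ _ _ _

theorem meas4_Dwin {D : ℝ → ℝ → E → E → ℝ≥0∞} (hD : Meas4 D) (tw : ℝ) : Meas4 (Dwin D tw) := by
  have h1 : Measurable fun p : ℝ × ℝ × E × E => ((min p.1 tw, min p.2.1 tw,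
      p.2.2.1 - (p.2.1 - min p.2.1 tw) • p.2.2.2, p.2.2.2) : ℝ × ℝ × E × E) := by fun_prop
  have h2 := Measurable.comp hD h1
  exact h2

theorem Dwin_eq {D : ℝ → ℝ → E → E → ℝ≥0∞} {tw s t : ℝ} (hs : s ≤ t) (ht : t ≤ tw) (x v : E) :
    Dwin D tw s t x v = D s t x v := by
  unfold Dwin
  rw [min_eq_left (hs.trans ht), min_eq_left ht, sub_self, zero_smul, sub_zero]

theorem Dwin_add {D : ℝ → ℝ → E → E → ℝ≥0∞} {tw s τ : ℝ} (hs : s ≤ tw) (hτ : 0 ≤ τ) (x v : E) :
    Dwin D tw s (tw + τ) x v = D s tw (x - τ • v) v := by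
  unfold Dwin
  rw [min_eq_left hs, min_eq_right (by linarith : tw ≤ tw + τ)]
  congr 2
  rw [add_sub_cancel_left]

theorem P_congr (κ : Kernel E (E × E)) {D D' : ℝ → ℝ → E → E → ℝ≥0∞} {f0 : E → E → ℝ≥0∞}
    {lam : ℝ≥0∞} {tw : ℝ}
    (h : ∀ s t, 0 ≤ s → s ≤ t → t ≤ tw → ∀ x v, D s t x v = D' s t x v) (n : ℕ) {t : ℝ}
    (ht : t ∈ Icc 0 tw) (x v : E) : P κ D f0 lam n t x v = P κ D' f0 lam n t x v := by
  induction n generalizing t x v with
  | zero => rfl
  | succ n ih =>
    show D 0 t x v * f0 (x - t • v) v + (∫⁻ s in Ioc 0 t, D s t x v *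
      (lam * Q κ (P κ D f0 lam n s (x - (t - s) • v)) (P κ D f0 lam n s (x - (t - s) • v)) v)) =
      D' 0 t x v * f0 (x - t • v) v + ∫⁻ s in Ioc 0 t, D' s t x v *
      (lam * Q κ (P κ D' f0 lam n s (x - (t - s) • v)) (P κ D' f0 lam n s (x - (t - s) • v)) v)
    rw [h 0 t le_rfl ht.1 ht.2]
    congr 1
    refine setLIntegral_congr_fun measurableSet_Ioc fun s hs => ?_
    have hs' : s ∈ Icc 0 tw := ⟨hs.1.le, hs.2.trans ht.2⟩
    have h1 : P κ D f0 lam n s (x - (t - s) • v) = P κ D' f0 lam n s (x - (t - s) • v) :=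
      funext fun u => ih hs' _ u
    show D s t x v * _ = D' s t x v * _
    rw [h s t hs.1.le hs.2 ht.2, h1]

theorem lintegral_Ioc_shift (g : ℝ → ℝ≥0∞) (a τ : ℝ) :
    ∫⁻ s in Ioc a (a + τ), g s = ∫⁻ s in Ioc 0 τ, g (a + s) := by
  rw [← lintegral_indicator measurableSet_Ioc, ← lintegral_indicator measurableSet_Ioc,
    ← lintegral_add_left_eq_self _ a]
  refine lintegral_congr fun s => ?_
  by_cases h : s ∈ Ioc 0 τ
  · rw [indicator_of_mem h, indicator_of_mem]
    exact ⟨by linarith [h.1], by linarith [h.2]⟩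
  · rw [indicator_of_notMem h, indicator_of_notMem]
    intro h'
    exact h ⟨by linarith [h'.1], by linarith [h'.2]⟩

/-- Restart of the Picard iteration at the beginning of the window. -/
theorem P_window_le (κ : Kernel E (E × E)) {D : ℝ → ℝ → E → E → ℝ≥0∞}
    (hD1 : ∀ s t x v, D s t x v ≤ 1) {f0 : E → E → ℝ≥0∞} {lam : ℝ≥0∞} {tw : ℝ} (htw : 0 ≤ tw)
    {G : E → E → ℝ≥0∞} (hG : ∀ n x v, P κ D f0 lam n tw x v ≤ G x v) (n : ℕ) {τ : ℝ}
    (hτ : 0 ≤ τ) (x v : E) :
    P κ (Dwin D tw) f0 lam n (tw + τ) x v ≤ P κ (fun _ _ _ _ => 1) G lam n τ x v := by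
  induction n generalizing τ x v with
  | zero => exact bot_le
  | succ n ih =>
    have hsplit : Ioc 0 (tw + τ) = Ioc 0 tw ∪ Ioc tw (tw + τ) :=
      (Ioc_union_Ioc_eq_Ioc htw (by linarith)).symm
    have hdisj : Disjoint (Ioc 0 tw) (Ioc tw (tw + τ)) := Ioc_disjoint_Ioc_of_le le_rfl
    show Dwin D tw 0 (tw + τ) x v * f0 (x - (tw + τ) • v) v + (∫⁻ s in Ioc 0 (tw + τ),
      Dwin D tw s (tw + τ) x v * (lam * Q κ (P κ (Dwin D tw) f0 lam n s (x - (tw + τ - s) • v))
        (P κ (Dwin D tw) f0 lam n s (x - (tw + τ - s) • v)) v)) ≤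
      1 * G (x - τ • v) v + ∫⁻ s in Ioc 0 τ, 1 * (lam *
        Q κ (P κ (fun _ _ _ _ => 1) G lam n s (x - (τ - s) • v))
          (P κ (fun _ _ _ _ => 1) G lam n s (x - (τ - s) • v)) v)
    rw [hsplit, lintegral_union measurableSet_Ioc hdisj, ← add_assoc]
    refine add_le_add ?_ ?_
    · rw [one_mul]
      refine le_trans (le_of_eq ?_) (hG (n + 1) (x - τ • v) v)
      show _ = D 0 tw (x - τ • v) v * f0 (x - τ • v - tw • v) v + ∫⁻ s in Ioc 0 tw,
        D s tw (x - τ • v) v * (lam * Q κ (P κ D f0 lam n s (x - τ • v - (tw - s) • v))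
          (P κ D f0 lam n s (x - τ • v - (tw - s) • v)) v)
      rw [Dwin_add htw hτ]
      congr 1
      · congr 2
        rw [add_smul]; abel
      · refine setLIntegral_congr_fun measurableSet_Ioc fun s hs => ?_
        have hx : x - (tw + τ - s) • v = x - τ • v - (tw - s) • v := by
          rw [sub_smul, sub_smul, add_smul]; abel
        have h1 : P κ (Dwin D tw) f0 lam n s (x - (tw + τ - s) • v) =
            P κ D f0 lam n s (x - τ • v - (tw - s) • v) := by
          rw [hx]
          exact funext fun u => P_congr κ (tw := tw) (fun s t _ h1 h2 x v => Dwin_eq h1 h2 x v) n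
            ⟨hs.1.le, hs.2⟩ _ u
        show Dwin D tw s (tw + τ) x v * _ = _
        rw [Dwin_add hs.2 hτ, h1]
    · rw [lintegral_Ioc_shift]
      refine setLIntegral_mono' measurableSet_Ioc fun s hs => ?_
      refine mul_le_mul' (Dwin_le_one hD1 _ _ _ _ _) (mul_le_mul' le_rfl ?_)
      have hx : x - (tw + τ - (tw + s)) • v = x - (τ - s) • v := by
        rw [add_sub_add_left_eq_sub]
      rw [hx]
      exact Q_mono κ (fun u => ih hs.1.le _ u) (fun u => ih hs.1.le _ u) v

/-- **Window moment.** -/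
theorem exists_window_moment {κ : Kernel E (E × E)} [IsSFiniteKernel κ] {β C0 C1 : ℝ}
    (hβ : 0 < β) (hC0 : 0 ≤ C0) (hC1 : 0 ≤ C1) (hκ : KernelBound κ β C1) {lam : ℝ}
    (hlam : 0 ≤ lam) : ∃ h₀ : ℝ, 0 < h₀ ∧ ∀ {T : ℝ} {D : ℝ → ℝ → E → E → ℝ≥0∞}
      {f0 : E → E → ℝ≥0∞}, (∀ s t x v, D s t x v ≤ 1) → Meas4 D →
      (Measurable fun p : E × E => f0 p.1 p.2) →
      (∀ t ∈ Icc 0 T, ∀ x v, ∑' τ : CTree, ENNReal.ofReal lam ^ τ.size * F κ D f0 τ t x v ≤
        ENNReal.ofReal C0 * wG (2 * β) v) →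
      ∀ tw ∈ Icc 0 T, ∀ t ∈ Icc 0 (tw + h₀), ∀ x v,
        ∑' τ : CTree, ENNReal.ofReal lam ^ τ.size * F κ (Dwin D tw) f0 τ t x v ≤
          ENNReal.ofReal (6 * C0) * wG β v := by
  obtain ⟨h₀, hh₀, H⟩ := exists_lanford (κ := κ) hβ hC0 hC1 hκ hlam
  refine ⟨h₀, hh₀, fun {T D f0} hD1 hD hf0 hb tw htw t ht x v => ?_⟩
  rw [tsum_eq_iSup κ (meas4_Dwin hD tw) hf0]
  rcases le_total t tw with h | h
  · -- before the window
    have h1 : (⨆ n, P κ (Dwin D tw) f0 (ENNReal.ofReal lam) n t x v) =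
        ⨆ n, P κ D f0 (ENNReal.ofReal lam) n t x v := by
      refine iSup_congr fun n => ?_
      exact P_congr κ (tw := tw) (fun s t _ h1 h2 x v => Dwin_eq h1 h2 x v) n ⟨ht.1, h⟩ x v
    rw [h1, ← tsum_eq_iSup κ hD hf0]
    refine (hb t ⟨ht.1, h.trans htw.2⟩ x v).trans (mul_le_mul' (ENNReal.ofReal_le_ofReal ?_)
      (wG_anti (by linarith) v))
    linarith
  · -- in the window
    set G : E → E → ℝ≥0∞ := fun x v => ⨆ n, P κ D f0 (ENNReal.ofReal lam) n tw x v with hG
    have hGm : Measurable fun p : E × E => G p.1 p.2 := by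
      refine Measurable.iSup fun n => ?_
      have h1 := meas_P κ hD hf0 (ENNReal.ofReal lam) n
      have h2 : Measurable fun p : E × E => ((tw, p.1, p.2) : ℝ × E × E) := by fun_prop
      exact h1.comp h2
    have hGb : ∀ x v, G x v ≤ ENNReal.ofReal C0 * wG (2 * β) v := by
      intro x v
      have := hb tw htw x v
      rwa [tsum_eq_iSup κ hD hf0] at this
    have hone : Meas4 (fun (_ _ : ℝ) (_ _ : E) => (1 : ℝ≥0∞)) := measurable_const
    have h2 := H h₀ hh₀ le_rfl (D := fun _ _ _ _ => 1) (f0 := G) (fun _ _ _ _ => le_rfl)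
      hone hGm hGb (t - tw) ⟨by linarith, by linarith [ht.2]⟩ x v
    rw [tsum_eq_iSup κ hone hGm] at h2
    refine le_trans (iSup_mono fun n => ?_) h2
    have h3 := P_window_le κ hD1 (f0 := f0) (lam := ENNReal.ofReal lam) htw.1 (G := G)
      (fun n x v => le_iSup (fun n => P κ D f0 (ENNReal.ofReal lam) n tw x v) n) n
      (τ := t - tw) (by linarith) x v
    rwa [show tw + (t - tw) = t by ring] at h3

/-! ### Undamped straight segments -/

/-- Tree weights without damping on the straight line of the root. -/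
def FS (κ : Kernel E (E × E)) (D : ℝ → ℝ → E → E → ℝ≥0∞) (f0 : E → E → ℝ≥0∞) :
    CTree → ℝ → E → E → ℝ≥0∞
  | leaf => fun t x v => f0 (x - t • v) v
  | node l r => fun t x v => ∫⁻ s in Ioc 0 t, ∫⁻ p : E × E,
      (if p.1 = v then FS κ D f0 l s (x - (t - s) • v) p.1
        else F κ D f0 l s (x - (t - s) • v) p.1) *
      (if p.2 = v then FS κ D f0 r s (x - (t - s) • v) p.2
        else F κ D f0 r s (x - (t - s) • v) p.2) ∂(κ v)

/-- time integral of an exponential -/
theorem lintegral_exp_Ioc {a t : ℝ} (ha : 0 ≤ a) (ht : 0 ≤ t) :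
    ∫⁻ s in Ioc 0 t, ENNReal.ofReal (a * Real.exp (a * s)) =
      ENNReal.ofReal (Real.exp (a * t) - 1) := by
  have h1 : ∫ s in (0 : ℝ)..t, a * Real.exp (a * s) = Real.exp (a * t) - 1 := by
    have h2 : ∀ s ∈ uIcc 0 t, HasDerivAt (fun s : ℝ => Real.exp (a * s)) (a * Real.exp (a * s)) s := by
      intro s _
      have h3 : HasDerivAt (fun s : ℝ => a * s) (a * 1) s := (hasDerivAt_id s).const_mul a
      have h4 := h3.exp
      rw [mul_one, mul_comm] at h4
      exact h4
    rw [intervalIntegral.integral_eq_sub_of_hasDerivAt h2]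
    · simp
    · exact (by fun_prop : Continuous fun s : ℝ => a * Real.exp (a * s)).intervalIntegrable _ _
  rw [← h1, intervalIntegral.integral_of_le ht, ofReal_integral_eq_lintegral_ofReal]
  · exact ((by fun_prop : Continuous fun s : ℝ => a * Real.exp (a * s)).intervalIntegrable 0 t).1
  · exact Filter.Eventually.of_forall fun s => by positivity

section straight

variable {κ : Kernel E (E × E)} {D : ℝ → ℝ → E → E → ℝ≥0∞} {f0 : E → E → ℝ≥0∞}
  {γ C C0 C1 C2 lam T : ℝ}

/-- source majorant -/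
def sA (γ C C0 C1 lam T : ℝ) (v : E) : ℝ :=
  C0 * Real.exp (-(γ * ‖v‖ ^ 2)) + T * (lam * (C ^ 2 * (C1 * ((1 + ‖v‖) *
    Real.exp (-(γ * ‖v‖ ^ 2))))))

/-- rate on the straight line -/
def sa (C C2 lam : ℝ) (v : E) : ℝ := 2 * lam * C * C2 * (1 + ‖v‖)

theorem sA_nonneg (hC0 : 0 ≤ C0) (hC1 : 0 ≤ C1) (hlam : 0 ≤ lam) (hT : 0 ≤ T) (v : E) :
    0 ≤ sA γ C C0 C1 lam T v := by unfold sA; positivity

theorem sa_nonneg (hC : 0 ≤ C) (hC2 : 0 ≤ C2) (hlam : 0 ≤ lam) (v : E) :
    0 ≤ sa C C2 lam v := by unfold sa; positivity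

/-- The finite sums of `FS` are bounded. -/
theorem FS_sum_le (hC : 0 ≤ C) (hC0 : 0 ≤ C0) (hC1 : 0 ≤ C1) (hC2 : 0 ≤ C2) (hlam : 0 ≤ lam)
    (hT : 0 ≤ T)
    (hQ : ∀ v, Q κ (wG γ) (wG γ) v ≤
      ENNReal.ofReal (C1 * ((1 + ‖v‖) * Real.exp (-(γ * ‖v‖ ^ 2)))))
    (hS1 : ∀ v, ∫⁻ p in {p : E × E | p.1 = v}, wG γ p.2 ∂(κ v) ≤ ENNReal.ofReal (C2 * (1 + ‖v‖)))
    (hS2 : ∀ v, ∫⁻ p in {p : E × E | p.2 = v}, wG γ p.1 ∂(κ v) ≤ ENNReal.ofReal (C2 * (1 + ‖v‖)))
    (hS3 : ∀ v, κ v {p : E × E | p.1 = v ∧ p.2 = v} = 0)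
    (hP : ∀ t ∈ Icc 0 T, ∀ x v, ∑' τ : CTree, ENNReal.ofReal lam ^ τ.size * F κ D f0 τ t x v ≤
      ENNReal.ofReal C * wG γ v)
    (hf0 : ∀ x v, f0 x v ≤ ENNReal.ofReal C0 * wG γ v) (n : ℕ) :
    ∀ t ∈ Icc 0 T, ∀ x v, ∑ τ ∈ CTree.lt n, ENNReal.ofReal lam ^ τ.size * FS κ D f0 τ t x v ≤
      ENNReal.ofReal (sA γ C C0 C1 lam T v * Real.exp (sa C C2 lam v * t)) := by
  induction n with
  | zero => intro t ht x v; simp [CTree.lt]
  | succ n ih =>
    intro t ht x v
    set L : ℝ≥0∞ := ENNReal.ofReal lam with hL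
    have hnot : leaf ∉ ((CTree.lt n ×ˢ CTree.lt n).image fun p => node p.1 p.2) := by simp
    have hinj : Set.InjOn (fun p : CTree × CTree => node p.1 p.2)
        (CTree.lt n ×ˢ CTree.lt n : Finset (CTree × CTree)) := by
      intro p _ q _ h
      simp only [node.injEq] at h
      exact Prod.ext h.1 h.2
    rw [CTree.lt, Finset.sum_insert hnot, Finset.sum_image hinj]
    -- the two factors
    set a : CTree → ℝ → E × E → ℝ≥0∞ := fun l s p =>
      if p.1 = v then FS κ D f0 l s (x - (t - s) • v) p.1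
        else F κ D f0 l s (x - (t - s) • v) p.1 with ha
    set b : CTree → ℝ → E × E → ℝ≥0∞ := fun r s p =>
      if p.2 = v then FS κ D f0 r s (x - (t - s) • v) p.2
        else F κ D f0 r s (x - (t - s) • v) p.2 with hb
    set B : ℝ → ℝ≥0∞ := fun s =>
      ENNReal.ofReal (sA γ C C0 C1 lam T v * Real.exp (sa C C2 lam v * s)) with hB
    have hasum : ∀ s ∈ Ioc 0 t, ∀ p : E × E, ∑ l ∈ CTree.lt n, L ^ l.size * a l s p ≤
        if p.1 = v then B s else ENNReal.ofReal C * wG γ p.1 := by
      intro s hs p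
      have hs' : s ∈ Icc 0 T := ⟨hs.1.le, hs.2.trans ht.2⟩
      by_cases h : p.1 = v
      · simp only [ha, h, if_true]
        exact ih s hs' _ v
      · simp only [ha, h, if_false]
        exact (ENNReal.sum_le_tsum _).trans (hP s hs' _ _)
    have hbsum : ∀ s ∈ Ioc 0 t, ∀ p : E × E, ∑ r ∈ CTree.lt n, L ^ r.size * b r s p ≤
        if p.2 = v then B s else ENNReal.ofReal C * wG γ p.2 := by
      intro s hs p
      have hs' : s ∈ Icc 0 T := ⟨hs.1.le, hs.2.trans ht.2⟩
      by_cases h : p.2 = v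
      · simp only [hb, h, if_true]
        exact ih s hs' _ v
      · simp only [hb, h, if_false]
        exact (ENNReal.sum_le_tsum _).trans (hP s hs' _ _)
    -- kernel integral of the product
    have hprod : ∀ s ∈ Ioc 0 t, ∫⁻ p, (∑ l ∈ CTree.lt n, L ^ l.size * a l s p) *
        (∑ r ∈ CTree.lt n, L ^ r.size * b r s p) ∂(κ v) ≤
        ENNReal.ofReal (C ^ 2 * (C1 * ((1 + ‖v‖) * Real.exp (-(γ * ‖v‖ ^ 2))))) +
          B s * ENNReal.ofReal (2 * C * C2 * (1 + ‖v‖)) := by
      intro s hs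
      have hae : ∀ᵐ p ∂(κ v), ¬ (p.1 = v ∧ p.2 = v) := by
        rw [ae_iff]
        simpa using hS3 v
      have hm1 : MeasurableSet {p : E × E | p.1 = v} :=
        measurableSet_eq_fun measurable_fst measurable_const
      have hm2 : MeasurableSet {p : E × E | p.2 = v} :=
        measurableSet_eq_fun measurable_snd measurable_const
      have hw1 : Measurable fun p : E × E => wG γ p.1 := (meas_wG γ).comp measurable_fst
      have hw2 : Measurable fun p : E × E => wG γ p.2 := (meas_wG γ).comp measurable_snd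
      calc ∫⁻ p, (∑ l ∈ CTree.lt n, L ^ l.size * a l s p) *
            (∑ r ∈ CTree.lt n, L ^ r.size * b r s p) ∂(κ v)
          ≤ ∫⁻ p, (ENNReal.ofReal C * ENNReal.ofReal C * (wG γ p.1 * wG γ p.2) +
              (B s * ENNReal.ofReal C * ({p : E × E | p.1 = v}.indicator (fun p => wG γ p.2) p) +
              B s * ENNReal.ofReal C * ({p : E × E | p.2 = v}.indicator (fun p => wG γ p.1) p)))
              ∂(κ v) := by
            refine lintegral_mono_ae ?_
            filter_upwards [hae] with p hp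
            refine (mul_le_mul' (hasum s hs p) (hbsum s hs p)).trans ?_
            by_cases h1 : p.1 = v
            · have h2 : ¬ p.2 = v := fun h => hp ⟨h1, h⟩
              rw [if_pos h1, if_neg h2, indicator_of_mem (show p ∈ {p : E × E | p.1 = v} from h1),
                indicator_of_notMem (show p ∉ {p : E × E | p.2 = v} from h2), mul_zero, add_zero,
                ← mul_assoc]
              exact le_add_self
            · rw [if_neg h1, indicator_of_notMem (show p ∉ {p : E × E | p.1 = v} from h1),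
                mul_zero, zero_add]
              by_cases h2 : p.2 = v
              · rw [if_pos h2, indicator_of_mem (show p ∈ {p : E × E | p.2 = v} from h2)]
                refine le_trans (le_of_eq ?_) le_add_self
                ring
              · rw [if_neg h2, indicator_of_notMem (show p ∉ {p : E × E | p.2 = v} from h2),
                  mul_zero, add_zero]
                exact le_of_eq (by ring)
        _ = ENNReal.ofReal C * ENNReal.ofReal C * Q κ (wG γ) (wG γ) v +
              (B s * ENNReal.ofReal C * ∫⁻ p in {p : E × E | p.1 = v}, wG γ p.2 ∂(κ v) +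
              B s * ENNReal.ofReal C * ∫⁻ p in {p : E × E | p.2 = v}, wG γ p.1 ∂(κ v)) := by
            have hw12 : Measurable fun p : E × E => wG γ p.1 * wG γ p.2 := hw1.mul hw2
            have hi1 : Measurable fun p : E × E =>
                {p : E × E | p.1 = v}.indicator (fun p => wG γ p.2) p := hw2.indicator hm1
            have hi2 : Measurable fun p : E × E =>
                {p : E × E | p.2 = v}.indicator (fun p => wG γ p.1) p := hw1.indicator hm2
            rw [lintegral_add_left (hw12.const_mul _), lintegral_add_left (hi1.const_mul _),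
              lintegral_const_mul _ hw12, lintegral_const_mul _ hi1, lintegral_const_mul _ hi2,
              lintegral_indicator hm1, lintegral_indicator hm2]
            rfl
        _ ≤ ENNReal.ofReal C * ENNReal.ofReal C *
              ENNReal.ofReal (C1 * ((1 + ‖v‖) * Real.exp (-(γ * ‖v‖ ^ 2)))) +
              (B s * ENNReal.ofReal C * ENNReal.ofReal (C2 * (1 + ‖v‖)) +
              B s * ENNReal.ofReal C * ENNReal.ofReal (C2 * (1 + ‖v‖))) := by
            gcongr
            · exact hQ v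
            · exact hS1 v
            · exact hS2 v
        _ = _ := by
            have hn : 0 ≤ 1 + ‖v‖ := by positivity
            rw [← ENNReal.ofReal_mul hC, ← ENNReal.ofReal_mul (mul_nonneg hC hC), mul_assoc (B s),
              ← mul_add, ← ENNReal.ofReal_mul hC, ← ENNReal.ofReal_add (by positivity)
              (by positivity)]
            congr 2
            · ring_nf
            · ring_nf
    have hv : 0 ≤ 1 + ‖v‖ := by positivity
    have hA := sA_nonneg (γ := γ) (C := C) (C1 := C1) hC0 hC1 hlam hT v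
    have hsa := sa_nonneg hC hC2 hlam v
    -- sum over the pairs of trees
    have hpairs : ∑ p ∈ CTree.lt n ×ˢ CTree.lt n, L ^ (node p.1 p.2).size *
        FS κ D f0 (node p.1 p.2) t x v ≤ ∫⁻ s in Ioc 0 t, L * ∫⁻ p,
          (∑ l ∈ CTree.lt n, L ^ l.size * a l s p) *
          (∑ r ∈ CTree.lt n, L ^ r.size * b r s p) ∂(κ v) := by
      have hterm : ∀ q : CTree × CTree, L ^ (node q.1 q.2).size *
          FS κ D f0 (node q.1 q.2) t x v ≤ ∫⁻ s in Ioc 0 t, L * ∫⁻ p,
            (L ^ q.1.size * a q.1 s p) * (L ^ q.2.size * b q.2 s p) ∂(κ v) := by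
        intro q
        have h1 : FS κ D f0 (node q.1 q.2) t x v =
            ∫⁻ s in Ioc 0 t, ∫⁻ p, a q.1 s p * b q.2 s p ∂(κ v) := rfl
        have hfin : L ^ (node q.1 q.2).size ≠ ∞ := ENNReal.pow_ne_top ENNReal.ofReal_ne_top
        rw [h1, ← lintegral_const_mul' _ _ hfin]
        refine lintegral_mono fun s => ?_
        show L ^ (node q.1 q.2).size * _ ≤ _
        rw [← lintegral_const_mul' _ _ hfin, ← lintegral_const_mul' _ _ ENNReal.ofReal_ne_top]
        refine lintegral_mono fun p => le_of_eq ?_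
        simp only [CTree.size, pow_add, pow_one]
        ring
      refine (Finset.sum_le_sum fun q _ => hterm q).trans ?_
      have hsup : ∀ (S : Finset (CTree × CTree)) (g : CTree × CTree → ℝ → ℝ≥0∞),
          ∑ q ∈ S, ∫⁻ s in Ioc 0 t, g q s ≤ ∫⁻ s in Ioc 0 t, ∑ q ∈ S, g q s := by
        intro S g
        induction S using Finset.induction_on with
        | empty => simp
        | insert q S hq ihS =>
          rw [Finset.sum_insert hq]
          refine (add_le_add le_rfl ihS).trans ?_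
          refine (le_lintegral_add _ _).trans (le_of_eq ?_)
          refine lintegral_congr fun s => ?_
          rw [Finset.sum_insert hq]
      have hsup2 : ∀ (S : Finset (CTree × CTree)) (g : CTree × CTree → E × E → ℝ≥0∞),
          ∑ q ∈ S, ∫⁻ p, g q p ∂(κ v) ≤ ∫⁻ p, ∑ q ∈ S, g q p ∂(κ v) := by
        intro S g
        induction S using Finset.induction_on with
        | empty => simp
        | insert q S hq ihS =>
          rw [Finset.sum_insert hq]
          refine (add_le_add le_rfl ihS).trans ?_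
          refine (le_lintegral_add _ _).trans (le_of_eq ?_)
          refine lintegral_congr fun s => ?_
          rw [Finset.sum_insert hq]
      refine (hsup _ _).trans (lintegral_mono fun s => ?_)
      show ∑ q ∈ CTree.lt n ×ˢ CTree.lt n, L * ∫⁻ p,
            (L ^ q.1.size * a q.1 s p) * (L ^ q.2.size * b q.2 s p) ∂(κ v) ≤ _
      rw [← Finset.mul_sum]
      refine mul_le_mul' le_rfl ((hsup2 _ _).trans (lintegral_mono fun p => le_of_eq ?_))
      rw [Finset.sum_mul_sum, Finset.sum_product]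
    have h0 : L ^ leaf.size * FS κ D f0 leaf t x v ≤
        ENNReal.ofReal (C0 * Real.exp (-(γ * ‖v‖ ^ 2))) := by
      have h1 : FS κ D f0 leaf t x v = f0 (x - t • v) v := rfl
      rw [h1]
      simp only [CTree.size, pow_zero, one_mul]
      refine (hf0 _ _).trans (le_of_eq ?_)
      unfold wG
      rw [ENNReal.ofReal_mul hC0]
    refine (add_le_add h0 hpairs).trans ?_
    -- time integral
    have h2 : ∫⁻ s in Ioc 0 t, L * ∫⁻ p, (∑ l ∈ CTree.lt n, L ^ l.size * a l s p) *
          (∑ r ∈ CTree.lt n, L ^ r.size * b r s p) ∂(κ v) ≤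
        ∫⁻ s in Ioc 0 t, (ENNReal.ofReal (lam * (C ^ 2 * (C1 * ((1 + ‖v‖) *
          Real.exp (-(γ * ‖v‖ ^ 2)))))) + ENNReal.ofReal (sA γ C C0 C1 lam T v) *
          ENNReal.ofReal (sa C C2 lam v * Real.exp (sa C C2 lam v * s))) := by
      refine setLIntegral_mono' measurableSet_Ioc fun s hs => ?_
      refine (mul_le_mul' le_rfl (hprod s hs)).trans (le_of_eq ?_)
      rw [mul_add, hL, hB, ← ENNReal.ofReal_mul hlam]
      congr 1
      rw [← ENNReal.ofReal_mul (mul_nonneg hA (Real.exp_pos _).le), ← ENNReal.ofReal_mul hlam,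
        ← ENNReal.ofReal_mul hA]
      congr 1
      unfold sa
      ring
    refine (add_le_add le_rfl h2).trans ?_
    rw [lintegral_add_left measurable_const, lintegral_const_mul' _ _ ENNReal.ofReal_ne_top,
      lintegral_exp_Ioc hsa ht.1, lintegral_const, Measure.restrict_apply_univ, Real.volume_Ioc,
      sub_zero, ← ENNReal.ofReal_mul (by positivity), ← ENNReal.ofReal_mul hA,
      ← ENNReal.ofReal_add (by have := ht.1; positivity) (mul_nonneg hA (by
        have := Real.one_le_exp (mul_nonneg hsa ht.1); linarith)),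
      ← ENNReal.ofReal_add (by positivity) (by
        have h3 := Real.one_le_exp (mul_nonneg hsa ht.1)
        have h4 : 0 ≤ Real.exp (sa C C2 lam v * t) - 1 := by linarith
        have := ht.1
        positivity)]
    refine ENNReal.ofReal_le_ofReal ?_
    have h5 : lam * (C ^ 2 * (C1 * ((1 + ‖v‖) * Real.exp (-(γ * ‖v‖ ^ 2))))) * t ≤
        T * (lam * (C ^ 2 * (C1 * ((1 + ‖v‖) * Real.exp (-(γ * ‖v‖ ^ 2)))))) := by
      rw [mul_comm]
      exact mul_le_mul_of_nonneg_right ht.2 (by positivity)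
    have h6 : C0 * Real.exp (-(γ * ‖v‖ ^ 2)) + lam * (C ^ 2 * (C1 * ((1 + ‖v‖) *
        Real.exp (-(γ * ‖v‖ ^ 2))))) * t ≤ sA γ C C0 C1 lam T v := by
      unfold sA; linarith
    linarith

end straight

end Crest.Agent.R122.Seg814
end
end

-- ▼ part R122/BoltzSeg2_814

/-!
Row 122 (helper814): kinetic bounds for the quenched densities (Q2).

* `window_moment` (K1): exponential moment of the tree series of the solution with the damping
  restricted to the times before `tw`, on `[0, tw + h₀]`, uniformly in `tw`.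
* `straight_moment` (K2): the same for `FS` (no damping on the straight line of the root).
-/

set_option autoImplicit false
set_option linter.unusedSectionVars false
open MeasureTheory ProbabilityTheory Set
open Crest.AnalysisR.Kinetic
open Crest.Agent.R122.Boltz814 Crest.Agent.R122.Kin416 Crest.Agent.R122.Kin796
  Crest.Agent.R122.Disc416
open scoped ENNReal

noncomputable section

namespace Crest.Agent.R122.Seg814

variable {Φ : Space3 → ℝ} {β T : ℝ} {f₀ : PhasePoint → ℝ} {f : ℝ → PhasePoint → ℝ}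

/-! ### The kernel on the diagonals -/

/-- common computation -/
theorem lintegral_kapQ_le_of (S : ScatFacts Φ) {γ : ℝ} (v : Space3)
    {F : Space3 × Space3 → ℝ≥0∞} (hF : Measurable F)
    (h : ∀ w b, v ≠ w → F (postVelocities Φ b v w) ≤ gau γ w) :
    ∫⁻ p, F p ∂(kapQ Φ v) ≤ CG γ * ENNReal.ofReal (1 + ‖v‖) := by
  rw [lintegral_kapQ S v hF]
  refine le_trans ?_ (nuE_gau_le γ v)
  unfold nuE
  rw [← lintegral_const_mul' _ _ ENNReal.ofReal_ne_top]
  refine lintegral_mono fun w => ?_
  show ENNReal.ofReal ‖v - w‖ * ∫⁻ b in impactDisc (v - w), F (postVelocities Φ b v w) ∂μHE[2] ≤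
    ENNReal.ofReal Real.pi * (ENNReal.ofReal ‖v - w‖ * gau γ w)
  by_cases hvw : v = w
  · rw [hvw, sub_self, norm_zero, ENNReal.ofReal_zero, zero_mul]
    exact bot_le
  · have hg : v - w ≠ 0 := sub_ne_zero.2 hvw
    calc ENNReal.ofReal ‖v - w‖ * ∫⁻ b in impactDisc (v - w), F (postVelocities Φ b v w) ∂μHE[2]
        ≤ ENNReal.ofReal ‖v - w‖ * ∫⁻ _ in impactDisc (v - w), gau γ w ∂μHE[2] :=
          mul_le_mul' le_rfl (lintegral_mono fun b => h w b hvw)
      _ = ENNReal.ofReal Real.pi * (ENNReal.ofReal ‖v - w‖ * gau γ w) := by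
          rw [lintegral_const, Measure.restrict_apply_univ, measure_impactDisc hg]
          ring

theorem kapQ_fst_le (S : ScatFacts Φ) (γ : ℝ) (v : Space3) :
    ∫⁻ p in {p : Space3 × Space3 | p.1 = v}, wG γ p.2 ∂(kapQ Φ v) ≤
      CG γ * ENNReal.ofReal (1 + ‖v‖) := by
  have hm1 : MeasurableSet {p : Space3 × Space3 | p.1 = v} :=
    measurableSet_eq_fun measurable_fst measurable_const
  have hw : Measurable fun p : Space3 × Space3 => wG γ p.2 := (meas_wG γ).comp measurable_snd
  rw [← lintegral_indicator hm1]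
  refine lintegral_kapQ_le_of S v (hw.indicator hm1) fun w b _ => ?_
  by_cases hp : postVelocities Φ b v w ∈ {p : Space3 × Space3 | p.1 = v}
  · rw [indicator_of_mem hp, wG_eq_gau]
    have h1 := momentum_post (Φ := Φ) b v w
    have h2 : (postVelocities Φ b v w).1 = v := hp
    rw [h2] at h1
    have h3 : (postVelocities Φ b v w).2 = w := add_left_cancel h1
    exact le_of_eq (by rw [h3])
  · rw [indicator_of_notMem hp]; exact bot_le

theorem kapQ_snd_le (S : ScatFacts Φ) (γ : ℝ) (v : Space3) :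
    ∫⁻ p in {p : Space3 × Space3 | p.2 = v}, wG γ p.1 ∂(kapQ Φ v) ≤
      CG γ * ENNReal.ofReal (1 + ‖v‖) := by
  have hm1 : MeasurableSet {p : Space3 × Space3 | p.2 = v} :=
    measurableSet_eq_fun measurable_snd measurable_const
  have hw : Measurable fun p : Space3 × Space3 => wG γ p.1 := (meas_wG γ).comp measurable_fst
  rw [← lintegral_indicator hm1]
  refine lintegral_kapQ_le_of S v (hw.indicator hm1) fun w b _ => ?_
  by_cases hp : postVelocities Φ b v w ∈ {p : Space3 × Space3 | p.2 = v}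
  · rw [indicator_of_mem hp, wG_eq_gau]
    have h1 := momentum_post (Φ := Φ) b v w
    have h2 : (postVelocities Φ b v w).2 = v := hp
    rw [h2, add_comm v w] at h1
    have h3 : (postVelocities Φ b v w).1 = w := add_right_cancel h1
    exact le_of_eq (by rw [h3])
  · rw [indicator_of_notMem hp]; exact bot_le

theorem kapQ_diag (S : ScatFacts Φ) (v : Space3) :
    kapQ Φ v {p : Space3 × Space3 | p.1 = v ∧ p.2 = v} = 0 := by
  have hm : MeasurableSet {p : Space3 × Space3 | p.1 = v ∧ p.2 = v} :=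
    (measurableSet_eq_fun measurable_fst measurable_const).inter
      (measurableSet_eq_fun measurable_snd measurable_const)
  rw [← lintegral_indicator_one hm, lintegral_kapQ S v (measurable_one.indicator hm)]
  have h0 : ∀ w : Space3, ENNReal.ofReal ‖v - w‖ * ∫⁻ b in impactDisc (v - w),
      {p : Space3 × Space3 | p.1 = v ∧ p.2 = v}.indicator 1 (postVelocities Φ b v w) ∂μHE[2] =
        0 := by
    intro w
    by_cases hvw : v = w
    · rw [hvw, sub_self, norm_zero, ENNReal.ofReal_zero, zero_mul]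
    · have h1 : ∀ b : Space3, {p : Space3 × Space3 | p.1 = v ∧ p.2 = v}.indicator
          (1 : Space3 × Space3 → ℝ≥0∞) (postVelocities Φ b v w) = 0 := by
        intro b
        refine indicator_of_notMem ?_ _
        rintro ⟨h1, h2⟩
        have h3 := momentum_post (Φ := Φ) b v w
        rw [h1, h2] at h3
        exact hvw (add_left_cancel h3)
      simp only [h1, lintegral_zero, mul_zero]
  simp only [h0, lintegral_zero]

/-! ### (K1) -/


/-! ### (K2) -/

/-- Gaussian absorption of the exponential factor. -/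
theorem absorb {γ M0 M a : ℝ} (hγ : 0 < γ) (hM0 : 0 ≤ M0) (hM : 0 ≤ M) (_ha : 0 ≤ a) {r : ℝ}
    (hr : 0 ≤ r) : (M0 * Real.exp (-(γ * r ^ 2)) + M * ((1 + r) * Real.exp (-(γ * r ^ 2)))) *
      Real.exp (a * (1 + r)) ≤
      (M0 + M) * Real.exp (a + (1 + a) ^ 2 / (2 * γ)) * Real.exp (-(γ / 2 * r ^ 2)) := by
  have h1 : 1 + r ≤ Real.exp r := by linarith [Real.add_one_le_exp r]
  have h0 : 1 ≤ Real.exp r := Real.one_le_exp hr
  have he := Real.exp_pos (-(γ * r ^ 2))
  have h2 : M0 * Real.exp (-(γ * r ^ 2)) + M * ((1 + r) * Real.exp (-(γ * r ^ 2))) ≤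
      (M0 + M) * (Real.exp r * Real.exp (-(γ * r ^ 2))) := by
    have e1 : M0 * Real.exp (-(γ * r ^ 2)) ≤ M0 * (Real.exp r * Real.exp (-(γ * r ^ 2))) :=
      mul_le_mul_of_nonneg_left (le_mul_of_one_le_left he.le h0) hM0
    have e2 : M * ((1 + r) * Real.exp (-(γ * r ^ 2))) ≤
        M * (Real.exp r * Real.exp (-(γ * r ^ 2))) :=
      mul_le_mul_of_nonneg_left (mul_le_mul_of_nonneg_right h1 he.le) hM
    linarith
  refine (mul_le_mul_of_nonneg_right h2 (Real.exp_pos _).le).trans ?_
  rw [mul_assoc, mul_assoc, mul_assoc, ← Real.exp_add, ← Real.exp_add, ← Real.exp_add]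
  refine mul_le_mul_of_nonneg_left (Real.exp_le_exp.2 ?_) (by positivity)
  have h3 : (1 + a) * r ≤ γ / 2 * r ^ 2 + (1 + a) ^ 2 / (2 * γ) := by
    have h4 : 0 ≤ (γ * r - (1 + a)) ^ 2 / (2 * γ) := by positivity
    have h5 : (γ * r - (1 + a)) ^ 2 / (2 * γ) =
        γ / 2 * r ^ 2 + (1 + a) ^ 2 / (2 * γ) - (1 + a) * r := by
      field_simp; ring
    linarith
  nlinarith



end Crest.Agent.R122.Seg814
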