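import Crest.Agent.R122.KinQ_416
import Crest.Agent.R122.Sweep_815

-- ▼ part R122/Boost1_969
section

/-!
Row 122, block BO (boost lemma), helper969.

A tagged line in a background of partners of density `≤ M e^{-β|w|²}`: the property "for every `k`
the position reached after free flight of duration `r`, restricted to velocities within distance one
of `k`, has density `≤ a e^{-γ|k|²}`" is propagated by the gain-only collision step (either outgoing
leg may be the tagged one), with the factor `C (1+|k|)`.  Only `‖exit‖ = ‖g‖` and the invariance of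
the law of the exit velocity are used.
-/

set_option autoImplicit false

open MeasureTheory ProbabilityTheory Crest.AnalysisR.Kinetic
open Crest.Agent.R122.Boltz814 Crest.Agent.R122.Disc416 Crest.Agent.R122.Kin416
open scoped Classical ENNReal

noncomputable section

namespace Crest.Agent.R122.Boost969

variable {Φ : Space3 → ℝ}


/-- exit velocity in planar coordinates -/
def ex (Φ : Space3 → ℝ) (c : Space3 × Plane) : Space3 := exitM Φ (frameMap c.1 c.2, c.1)

/-- change of velocity of the tagged particle, first leg -/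
def D1 (Φ : Space3 → ℝ) (c : Space3 × Plane) : Space3 := (1 / 2 : ℝ) • (ex Φ c - c.1)


lemma measurable_ex (S : ScatFacts Φ) : Measurable (ex Φ) := by
  unfold ex
  exact (measurable_exitM S).comp (measurable_frameMap.prodMk measurable_fst)

lemma measurable_D1 (S : ScatFacts Φ) : Measurable (D1 Φ) := by
  unfold D1
  exact ((measurable_ex S).sub measurable_fst).const_smul (1 / 2 : ℝ)




/-! ### Velocity identities -/




/-- smearing of the Gaussian over a unit ball -/
lemma gau_smear {β γ : ℝ} (hβ : 0 ≤ β) (hγ : γ ≤ β / 2) {v V : Space3} (h : ‖v - V‖ < 1)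
    (g : Space3) : gau β (v - g) ≤ ENNReal.ofReal (Real.exp β) * gau γ (V - g) := by
  unfold gau
  rw [← ENNReal.ofReal_mul (Real.exp_pos _).le, ← Real.exp_add]
  refine ENNReal.ofReal_le_ofReal (Real.exp_le_exp.2 ?_)
  have h1 : ‖V - g‖ ≤ ‖v - g‖ + 1 := by
    have : V - g = (v - g) - (v - V) := by abel
    rw [this]
    exact (norm_sub_le _ _).trans (by linarith)
  have h2 : ‖V - g‖ ^ 2 ≤ 2 * ‖v - g‖ ^ 2 + 2 := by
    have h0 : 0 ≤ ‖V - g‖ := norm_nonneg _
    nlinarith [norm_nonneg (v - g), sq_nonneg (‖v - g‖ - 1)]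
  have h3 : γ * ‖V - g‖ ^ 2 ≤ β / 2 * ‖V - g‖ ^ 2 :=
    mul_le_mul_of_nonneg_right hγ (sq_nonneg _)
  nlinarith

/-! ### The collision step of a tagged line -/



/-- Position after free flight of duration `r`, restricted to velocities near `k`, has density at
most `a e^{-γ|k|²}`. -/
def Bd (r : ℝ) (a : ℝ≥0∞) (γ : ℝ) (H : Measure PhasePoint) : Prop :=
  ∀ (k : Space3) (φ : Space3 → ℝ≥0∞), Measurable φ →
    ∫⁻ p, (if ‖p.2 - k‖ < 1 then φ (p.1 + r • p.2) else 0) ∂H ≤ a * gau γ k * ∫⁻ x, φ x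






end Crest.Agent.R122.Boost969
end
end

-- ▼ part R122/Boost2_969
section

/-!
Row 122, block BO (boost lemma), helper969: abstract Galilean averaging.

A *tagged path* is followed leg by leg; the state of a leg is `(s, x, v)` (time, position at that
time, velocity).  Kernels `κ` on states whose boosts are dominated by a kernel `κ'` (`GalDom`) are
closed under composition; for such kernels a Gaussian initial velocity at a *fixed* space-time point
`(s₀, y)` gives the position at a fixed time `t ≠ s₀` a density `≤ C |t - s₀|⁻³` (`boost_density`).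
-/

set_option autoImplicit false

open MeasureTheory ProbabilityTheory Crest.AnalysisR.Kinetic
open Crest.Agent.R122.Boltz814 Crest.Agent.R122.Disc416 Crest.Agent.R122.Kin416
open scoped Classical ENNReal

noncomputable section

namespace Crest.Agent.R122.Boost969

/-- State of a leg: time, position at that time, velocity. -/
abbrev LSt : Type := ℝ × PhasePoint

/-- Galilean boost of velocity `u` fixing positions at time `s0`. -/
def gal (s0 : ℝ) (u : Space3) (z : LSt) : LSt := (z.1, (z.2.1 + (z.1 - s0) • u, z.2.2 + u))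

lemma measurable_gal' : Measurable (fun p : ℝ × Space3 × LSt => gal p.1 p.2.1 p.2.2) := by
  unfold gal
  refine Measurable.prodMk (by fun_prop) (Measurable.prodMk ?_ (by fun_prop))
  exact Continuous.measurable (by fun_prop)

lemma measurable_gal (s0 : ℝ) (u : Space3) : Measurable (gal s0 u) :=
  measurable_gal'.comp (measurable_const.prodMk (measurable_const.prodMk measurable_id))

lemma measurable_gal_uz (s0 : ℝ) : Measurable (fun p : Space3 × LSt => gal s0 p.1 p.2) :=
  measurable_gal'.comp (measurable_const.prodMk measurable_id)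

lemma gal_base (s0 : ℝ) (u y v : Space3) : gal s0 u (s0, (y, v)) = (s0, (y, v + u)) := by
  unfold gal; simp

/-- The boosts of `κ` by velocities of norm `≤ 1` are dominated by `κ'`. -/
def GalDom (κ κ' : Kernel LSt LSt) : Prop :=
  ∀ (s0 : ℝ) (u : Space3), ‖u‖ ≤ 1 → ∀ (z : LSt) (F : LSt → ℝ≥0∞), Measurable F →
    ∫⁻ z', F z' ∂κ (gal s0 u z) ≤ ∫⁻ z', F (gal s0 u z') ∂κ' z

lemma GalDom.id : GalDom Kernel.id Kernel.id := by
  intro s0 u _ z F hF
  have hm : Measurable (fun z' => F (gal s0 u z')) := hF.comp (measurable_gal s0 u)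
  rw [Kernel.id_apply, Kernel.id_apply, lintegral_dirac' _ hF, lintegral_dirac' _ hm]

lemma GalDom.comp {κ κ' η η' : Kernel LSt LSt} (h1 : GalDom κ κ') (h2 : GalDom η η') :
    GalDom (η ∘ₖ κ) (η' ∘ₖ κ') := by
  intro s0 u hu z F hF
  have hm : Measurable (fun z' => F (gal s0 u z')) := hF.comp (measurable_gal s0 u)
  rw [Kernel.lintegral_comp _ _ _ hF, Kernel.lintegral_comp _ _ _ hm]
  refine (h1 s0 u hu z _ hF.lintegral_kernel).trans (lintegral_mono fun z' => ?_)
  exact h2 s0 u hu z' F hF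

lemma GalDom.add {κ κ' η η' : Kernel LSt LSt} (h1 : GalDom κ κ') (h2 : GalDom η η') :
    GalDom (κ + η) (κ' + η') := by
  intro s0 u hu z F hF
  rw [Kernel.add_apply, Kernel.add_apply, lintegral_add_measure, lintegral_add_measure]
  exact add_le_add (h1 s0 u hu z F hF) (h2 s0 u hu z F hF)

lemma GalDom.sum {ι : Type*} [Countable ι] {κ κ' : ι → Kernel LSt LSt}
    (h : ∀ i, GalDom (κ i) (κ' i)) : GalDom (Kernel.sum κ) (Kernel.sum κ') := by
  intro s0 u hu z F hF
  rw [Kernel.sum_apply, Kernel.sum_apply, lintegral_sum_measure, lintegral_sum_measure]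
  exact ENNReal.tsum_le_tsum fun i => h i s0 u hu z F hF

lemma GalDom.mono {κ₀ κ κ' : Kernel LSt LSt} (h : GalDom κ κ') (h0 : ∀ z, κ₀ z ≤ κ z) :
    GalDom κ₀ κ' := by
  intro s0 u hu z F hF
  exact (lintegral_mono' (h0 _) le_rfl).trans (h s0 u hu z F hF)

/-- composition of a list of steps (the head is performed first) -/
def pathK : List (Kernel LSt LSt) → Kernel LSt LSt
  | [] => Kernel.id
  | κ :: l => pathK l ∘ₖ κ



lemma GalDom.path : ∀ {l l' : List (Kernel LSt LSt)}, List.Forall₂ GalDom l l' →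
    GalDom (pathK l) (pathK l')
  | _, _, List.Forall₂.nil => GalDom.id
  | _, _, List.Forall₂.cons h t => GalDom.comp h (GalDom.path t)

/-! ### The averaging argument -/

/-- **Averaging over boosts.** -/
theorem boost_avg {κ κ' : Kernel LSt LSt} [IsSFiniteKernel κ'] (h : GalDom κ κ') (s0 : ℝ)
    (y : Space3) {b : ℝ} (hb : 0 ≤ b) {B : LSt → ℝ≥0∞} (hB : Measurable B) :
    volume (Metric.ball (0 : Space3) 1) * ∫⁻ v0, gau b v0 * ∫⁻ z, B z ∂κ (s0, (y, v0)) ≤
      ENNReal.ofReal (Real.exp b) * ∫⁻ v0, gau (b / 2) v0 *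
        ∫⁻ z, (∫⁻ u in Metric.ball (0 : Space3) 1, B (gal s0 u z)) ∂κ' (s0, (y, v0)) := by
  have hI : Measurable (fun v0 : Space3 => ∫⁻ z, B z ∂κ (s0, (y, v0))) :=
    hB.lintegral_kernel.comp (by fun_prop)
  have hmB : Measurable (fun p : (Space3 × Space3) × LSt => B (gal s0 p.1.1 p.2)) :=
    hB.comp ((measurable_gal_uz s0).comp ((measurable_fst.comp measurable_fst).prodMk
      measurable_snd))
  -- the kernel `(u, v0) ↦ κ' (s0, y, v0)`
  set K : Kernel (Space3 × Space3) LSt :=
    κ'.comap (fun p : Space3 × Space3 => ((s0, (y, p.2)) : LSt)) (by fun_prop) with hK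
  have hJ : Measurable (fun p : Space3 × Space3 => ∫⁻ z, B (gal s0 p.1 z) ∂κ' (s0, (y, p.2))) := by
    exact Measurable.lintegral_kernel_prod_right' (κ := K) hmB
  calc volume (Metric.ball (0 : Space3) 1) * ∫⁻ v0, gau b v0 * ∫⁻ z, B z ∂κ (s0, (y, v0))
      = ∫⁻ _u in Metric.ball (0 : Space3) 1, (∫⁻ v0, gau b v0 * ∫⁻ z, B z ∂κ (s0, (y, v0))) := by
        rw [setLIntegral_const, mul_comm]
    _ = ∫⁻ u in Metric.ball (0 : Space3) 1, (∫⁻ v0, gau b (v0 + u) *
          ∫⁻ z, B z ∂κ (s0, (y, v0 + u))) := by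
        refine lintegral_congr fun u => ?_
        exact (lintegral_add_right_eq_self
          (fun v0 => gau b v0 * ∫⁻ z, B z ∂κ (s0, (y, v0))) u).symm
    _ ≤ ∫⁻ u in Metric.ball (0 : Space3) 1, (∫⁻ v0, ENNReal.ofReal (Real.exp b) *
          (gau (b / 2) v0 * ∫⁻ z, B (gal s0 u z) ∂κ' (s0, (y, v0)))) := by
        refine setLIntegral_mono' measurableSet_ball fun u hu => lintegral_mono fun v0 => ?_
        have hu' : ‖u‖ < 1 := by simpa using hu
        have h1 : gau b (v0 + u) ≤ ENNReal.ofReal (Real.exp b) * gau (b / 2) v0 := by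
          have := gau_smear (v := v0 + u) (V := v0) hb le_rfl (by simpa using hu') 0
          simpa using this
        have h2 := h s0 u hu'.le (s0, (y, v0)) B hB
        rw [gal_base] at h2
        calc gau b (v0 + u) * ∫⁻ z, B z ∂κ (s0, (y, v0 + u))
            ≤ (ENNReal.ofReal (Real.exp b) * gau (b / 2) v0) *
              ∫⁻ z, B (gal s0 u z) ∂κ' (s0, (y, v0)) := mul_le_mul' h1 h2
          _ = _ := by ring
    _ = ∫⁻ v0, ∫⁻ u in Metric.ball (0 : Space3) 1, ENNReal.ofReal (Real.exp b) *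
          (gau (b / 2) v0 * ∫⁻ z, B (gal s0 u z) ∂κ' (s0, (y, v0))) := by
        rw [lintegral_lintegral_swap]
        refine Measurable.aemeasurable ?_
        exact measurable_const.mul ((((measurable_gau _).comp measurable_snd)).mul hJ)
    _ = ∫⁻ v0, ENNReal.ofReal (Real.exp b) * (gau (b / 2) v0 *
          ∫⁻ z, (∫⁻ u in Metric.ball (0 : Space3) 1, B (gal s0 u z)) ∂κ' (s0, (y, v0))) := by
        refine lintegral_congr fun v0 => ?_
        have hm1 : Measurable (fun u : Space3 => ∫⁻ z, B (gal s0 u z) ∂κ' (s0, (y, v0))) :=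
          hJ.comp (measurable_id.prodMk measurable_const)
        rw [lintegral_const_mul _ (hm1.const_mul _), lintegral_const_mul _ hm1]
        congr 2
        rw [lintegral_lintegral_swap]
        exact (hB.comp (measurable_gal_uz s0)).aemeasurable
    _ = _ := by
        have hm2 : Measurable (fun z : LSt => ∫⁻ u in Metric.ball (0 : Space3) 1,
            B (gal s0 u z)) := by
          have h1 : Measurable (fun p : LSt × Space3 => B (gal s0 p.2 p.1)) :=
            hB.comp ((measurable_gal_uz s0).comp (measurable_snd.prodMk measurable_fst))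
          exact h1.lintegral_prod_right'
        rw [lintegral_const_mul]
        refine (measurable_gau _).mul ?_
        exact hm2.lintegral_kernel.comp (by fun_prop)

/-- scaling of Lebesgue measure on `Space3` -/
lemma lintegral_comp_smul_add {a : Space3 → ℝ≥0∞} (ha : Measurable a) {r : ℝ} (hr : r ≠ 0)
    (c : Space3) : ∫⁻ u, a (c + r • u) = ENNReal.ofReal (|r|⁻¹ ^ 3) * ∫⁻ x, a x := by
  have h1 := Measure.map_addHaar_smul (volume : Measure Space3) hr
  have h2 : ∫⁻ u, a (c + r • u) = ∫⁻ x, a (c + x) ∂(Measure.map (r • ·) (volume : Measure Space3)) := by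
    have hm : Measurable (fun x => a (c + x)) := ha.comp (measurable_const_add c)
    rw [lintegral_map hm (measurable_const_smul r)]
  rw [h2, h1, lintegral_smul_measure, lintegral_add_left_eq_self a c, smul_eq_mul]
  congr 2
  rw [show Module.finrank ℝ Space3 = 3 by simp, abs_inv, abs_pow, inv_pow]


end Crest.Agent.R122.Boost969
end
private theorem rz_effab5b27c : type_of% @_root_.Crest.Agent.R122.Boost969.pathK.eq_def := @_root_.Crest.Agent.R122.Boost969.pathK.eq_def -- L78
end

-- ▼ part R122/Boost3_969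
section

/-!
Row 122, block BO (boost lemma), helper969: step kernels of tagged paths, weights.

`stepK μ L N`: from the state `(s₁, x, v)` choose an interaction time `s` and relative parameters `e`
with density `N` with respect to `ds ⊗ μ(de)`; the next leg starts at time `s + dt e` at the position
`x + (s - s₁ + dt e) v + off e` with velocity `v + jump e`.  Delays and offsets are arbitrary
measurable functions of the relative parameters, so the `ε`-dynamics is covered exactly.
-/

set_option autoImplicit false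

open MeasureTheory ProbabilityTheory Crest.AnalysisR.Kinetic
open Crest.Agent.R122.Boltz814 Crest.Agent.R122.Disc416 Crest.Agent.R122.Kin416
open scoped Classical ENNReal

noncomputable section

namespace Crest.Agent.R122.Boost969

/-- Relative data of a change of leg. -/
structure Leg (E : Type*) [MeasurableSpace E] where
  dt : E → ℝ
  off : E → Space3
  jump : E → Space3
  mdt : Measurable dt
  moff : Measurable off
  mjump : Measurable jump

variable {E : Type*} [MeasurableSpace E]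

/-- next state -/
def Leg.out (L : Leg E) (p : LSt × (ℝ × E)) : LSt :=
  (p.2.1 + L.dt p.2.2,
    (p.1.2.1 + (p.2.1 - p.1.1 + L.dt p.2.2) • p.1.2.2 + L.off p.2.2, p.1.2.2 + L.jump p.2.2))

lemma Leg.measurable_out (L : Leg E) : Measurable L.out := by
  unfold Leg.out
  have h1 := L.mdt
  have h2 := L.moff
  have h3 := L.mjump
  refine Measurable.prodMk (by fun_prop) (Measurable.prodMk ?_ (by fun_prop))
  have hc : Measurable (fun p : LSt × (ℝ × E) => p.2.1 - p.1.1 + L.dt p.2.2) := by fun_prop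
  have hv : Measurable (fun p : LSt × (ℝ × E) => p.1.2.2) := by fun_prop
  exact Measurable.add (Measurable.add (by fun_prop) (hc.smul hv)) (by fun_prop)

lemma Leg.out_gal (L : Leg E) (s0 : ℝ) (u : Space3) (z : LSt) (q : ℝ × E) :
    L.out (gal s0 u z, q) = gal s0 u (L.out (z, q)) := by
  unfold Leg.out gal
  refine Prod.ext rfl (Prod.ext ?_ ?_)
  · simp only; module
  · simp only; module

/-- The step kernel. -/
def stepK (μ : Measure E) [SFinite μ] (L : Leg E) (N : LSt → ℝ × E → ℝ≥0∞) : Kernel LSt LSt :=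
  (Kernel.id ×ₖ (Kernel.withDensity (Kernel.const LSt ((volume : Measure ℝ).prod μ)) N)).map L.out

lemma isSFiniteKernel_stepK {μ : Measure E} [SFinite μ] (L : Leg E) {N : LSt → ℝ × E → ℝ≥0∞}
    (hN : ∀ z q, N z q ≠ ∞) : IsSFiniteKernel (stepK μ L N) := by
  have := Kernel.IsSFiniteKernel.withDensity
    (Kernel.const LSt ((volume : Measure ℝ).prod μ)) hN
  unfold stepK
  infer_instance

lemma lintegral_stepK {μ : Measure E} [SFinite μ] (L : Leg E) {N : LSt → ℝ × E → ℝ≥0∞}
    (hNm : Measurable (Function.uncurry N)) (hN : ∀ z q, N z q ≠ ∞) {F : LSt → ℝ≥0∞}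
    (hF : Measurable F) (z : LSt) :
    ∫⁻ z', F z' ∂stepK μ L N z =
      ∫⁻ q, N z q * F (L.out (z, q)) ∂((volume : Measure ℝ).prod μ) := by
  have := Kernel.IsSFiniteKernel.withDensity
    (Kernel.const LSt ((volume : Measure ℝ).prod μ)) hN
  have hFo : Measurable (fun p => F (L.out p)) := hF.comp L.measurable_out
  unfold stepK
  rw [Kernel.lintegral_map _ L.measurable_out _ hF, Kernel.lintegral_id_prod hFo,
    Kernel.lintegral_withDensity _ hNm]
  · simp only [Kernel.const_apply]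
  · exact hFo.comp (measurable_const.prodMk measurable_id)

/-- Domination of the boosts of a step kernel. -/
lemma GalDom.step {μ : Measure E} [SFinite μ] (L : Leg E) {N N' : LSt → ℝ × E → ℝ≥0∞}
    (hNm : Measurable (Function.uncurry N)) (hN : ∀ z q, N z q ≠ ∞)
    (hNm' : Measurable (Function.uncurry N')) (hN' : ∀ z q, N' z q ≠ ∞)
    (h : ∀ (s0 : ℝ) (u : Space3), ‖u‖ ≤ 1 → ∀ z q, N (gal s0 u z) q ≤ N' z q) :
    GalDom (stepK μ L N) (stepK μ L N') := by
  intro s0 u hu z F hF
  have hm : Measurable (fun z' => F (gal s0 u z')) := hF.comp (measurable_gal s0 u)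
  rw [lintegral_stepK L hNm hN hF, lintegral_stepK L hNm' hN' hm]
  refine lintegral_mono fun q => ?_
  rw [L.out_gal]
  exact mul_le_mul_left (h s0 u hu z q) _


/-! ### Standard densities -/

/-- `1[s > s₁] M e^{-β |v - h e|²}` -/
def Nf (M β : ℝ) (h : E → Space3) (z : LSt) (q : ℝ × E) : ℝ≥0∞ :=
  if z.1 < q.1 then ENNReal.ofReal M * gau β (z.2.2 - h q.2) else 0


lemma measurable_Nf (M β : ℝ) {h : E → Space3} (hh : Measurable h) :
    Measurable (Function.uncurry (Nf M β h)) := by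
  unfold Nf Function.uncurry
  refine Measurable.ite (measurableSet_lt (by fun_prop) (by fun_prop)) ?_ measurable_const
  exact measurable_const.mul ((measurable_gau β).comp (by fun_prop))


omit [MeasurableSpace E] in
lemma Nf_ne_top (M β : ℝ) (h : E → Space3) (z : LSt) (q : ℝ × E) : Nf M β h z q ≠ ∞ := by
  unfold Nf
  split_ifs
  · exact ENNReal.mul_ne_top ENNReal.ofReal_ne_top (gau_ne_top _ _)
  · exact ENNReal.zero_ne_top


/-- closed version of `gau_smear` -/
lemma gau_smear' {β : ℝ} (hβ : 0 ≤ β) {u : Space3} (h : ‖u‖ ≤ 1) (w : Space3) :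
    gau β (w + u) ≤ ENNReal.ofReal (Real.exp β) * gau (β / 2) w := by
  unfold gau
  rw [← ENNReal.ofReal_mul (Real.exp_pos _).le, ← Real.exp_add]
  refine ENNReal.ofReal_le_ofReal (Real.exp_le_exp.2 ?_)
  have h1 : ‖w‖ ≤ ‖w + u‖ + 1 := by
    have : w = (w + u) - u := by abel
    calc ‖w‖ = ‖(w + u) - u‖ := by rw [← this]
      _ ≤ ‖w + u‖ + ‖u‖ := norm_sub_le _ _
      _ ≤ _ := by linarith
  have h2 : ‖w‖ ^ 2 ≤ 2 * ‖w + u‖ ^ 2 + 2 := by
    nlinarith [norm_nonneg w, norm_nonneg (w + u), sq_nonneg (‖w + u‖ - 1)]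
  nlinarith

omit [MeasurableSpace E] in
lemma Nf_gal {M β : ℝ} (hβ : 0 ≤ β) (h : E → Space3) (s0 : ℝ) {u : Space3} (hu : ‖u‖ ≤ 1)
    (z : LSt) (q : ℝ × E) :
    Nf M β h (gal s0 u z) q ≤ Nf (M * Real.exp β) (β / 2) h z q := by
  unfold Nf
  have e1 : (gal s0 u z).1 = z.1 := rfl
  have e2 : (gal s0 u z).2.2 - h q.2 = (z.2.2 - h q.2) + u := by simp only [gal]; abel
  rw [e1, e2]
  split_ifs
  · rw [ENNReal.ofReal_mul' (Real.exp_pos β).le, mul_assoc]
    exact mul_le_mul_right (gau_smear' hβ hu _) _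
  · exact le_rfl


/-- forward step in a background of density `M e^{-β|w|²}` -/
def fwdK (μ : Measure E) [SFinite μ] (L : Leg E) (g : E → Space3) (M β : ℝ) : Kernel LSt LSt :=
  stepK μ L (Nf M β g)


lemma GalDom.fwd {μ : Measure E} [SFinite μ] (L : Leg E) {g : E → Space3} (hg : Measurable g)
    {M β : ℝ} (hβ : 0 ≤ β) :
    GalDom (fwdK μ L g M β) (fwdK μ L g (M * Real.exp β) (β / 2)) :=
  GalDom.step L (measurable_Nf M β hg) (Nf_ne_top M β g) (measurable_Nf _ _ hg) (Nf_ne_top _ _ g)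
    fun s0 _ hu z q => Nf_gal hβ g s0 hu z q


/-! ### Weights -/

/-- The flux bound for the relative parameters. -/
def Flx (μ : Measure E) (g : E → Space3) (γ C₁ : ℝ) : Prop :=
  ∀ v : Space3, ∫⁻ e, gau γ (v - g e) ∂μ ≤ ENNReal.ofReal (C₁ * (1 + ‖v‖))

lemma Flx.mono {μ : Measure E} {g : E → Space3} {γ γ' C₁ : ℝ} (h : Flx μ g γ C₁) (hγ : γ ≤ γ') :
    Flx μ g γ' C₁ := fun v => (lintegral_mono fun _ => gau_antitone hγ _).trans (h v)

/-- Time integral of an exponential. -/
lemma lintegral_exp_Ioi {c : ℝ} (hc : 0 < c) (a : ℝ) :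
    ∫⁻ s in Set.Ioi a, ENNReal.ofReal (Real.exp (-(c * (s - a)))) = ENNReal.ofReal (1 / c) := by
  have h1 : ∀ s : ℝ, Real.exp (-(c * (s - a))) = Real.exp (c * a) * Real.exp (-c * s) := by
    intro s; rw [← Real.exp_add]; congr 1; ring
  have hint : IntegrableOn (fun s => Real.exp (-(c * (s - a)))) (Set.Ioi a) := by
    simp_rw [h1]
    exact (integrableOn_exp_mul_Ioi (by linarith) a).const_mul _
  rw [← ofReal_integral_eq_lintegral_ofReal hint
    (Filter.Eventually.of_forall fun s => (Real.exp_pos _).le)]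
  congr 1
  simp_rw [h1]
  rw [integral_const_mul, integral_exp_mul_Ioi (by linarith) a]
  have h2 : Real.exp (c * a) * Real.exp (-c * a) = 1 := by
    rw [← Real.exp_add]; simp
  calc Real.exp (c * a) * (-Real.exp (-c * a) / -c)
      = (Real.exp (c * a) * Real.exp (-c * a)) / c := by rw [neg_div_neg_eq]; ring
    _ = 1 / c := by rw [h2]


/-- Forward weight: `⊤` for negative times, `0` after the horizon `T`. -/
def Wf (T ν θ κ : ℝ) (z : LSt) : ℝ≥0∞ :=
  if z.1 < 0 then ∞ else if z.1 ≤ T then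
    ENNReal.ofReal (Real.exp (ν * (T - z.1) + (θ + κ * (T - z.1)) * ‖z.2.2‖ ^ 2)) else 0


lemma measurable_Wf (T ν θ κ : ℝ) : Measurable (Wf T ν θ κ) := by
  unfold Wf
  refine Measurable.ite (measurableSet_lt (by fun_prop) (by fun_prop)) measurable_const ?_
  refine Measurable.ite (measurableSet_le (by fun_prop) (by fun_prop)) ?_ measurable_const
  exact ENNReal.measurable_ofReal.comp (Continuous.measurable (by fun_prop))


/-- pointwise estimate inside the forward step -/
lemma fwd_pt {T ν θ κ β M : ℝ} (hν : 0 ≤ ν) (hθ : 0 ≤ θ) (hκ : 0 ≤ κ) (hβ : θ + κ * T ≤ β / 2)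
    {s δ : ℝ} (hs : 0 ≤ s) (hδ : 0 ≤ δ) (v j w x : Space3)
    (hen : ‖v + j‖ ^ 2 ≤ ‖v‖ ^ 2 + ‖w‖ ^ 2) :
    ENNReal.ofReal M * gau β w * Wf T ν θ κ (s + δ, (x, v + j)) ≤
      ENNReal.ofReal M * Wf T ν θ κ (s, (x, v)) * gau (β / 2) w := by
  have hs0 : ¬ (s + δ < 0) := by linarith
  have hs1 : ¬ (s < 0) := by linarith
  unfold Wf
  simp only [hs0, hs1, if_false]
  by_cases h1 : s + δ ≤ T
  · have h2 : s ≤ T := by linarith
    simp only [h1, h2, if_true]
    rw [mul_assoc, mul_assoc]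
    refine mul_le_mul_right ?_ _
    unfold gau
    rw [← ENNReal.ofReal_mul (Real.exp_pos _).le, ← ENNReal.ofReal_mul (Real.exp_pos _).le,
      ← Real.exp_add, ← Real.exp_add]
    refine ENNReal.ofReal_le_ofReal (Real.exp_le_exp.2 ?_)
    have h3 : 0 ≤ θ + κ * (T - (s + δ)) := by nlinarith [mul_nonneg hκ (sub_nonneg.2 h1)]
    have h4 : (θ + κ * (T - (s + δ))) * ‖v + j‖ ^ 2 ≤
        (θ + κ * (T - (s + δ))) * (‖v‖ ^ 2 + ‖w‖ ^ 2) := mul_le_mul_of_nonneg_left hen h3
    have h5 : θ + κ * (T - (s + δ)) ≤ θ + κ * (T - s) := by nlinarith [mul_nonneg hκ hδ]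
    have h6 : (θ + κ * (T - (s + δ))) * (‖v‖ ^ 2 + ‖w‖ ^ 2) ≤
        (θ + κ * (T - s)) * (‖v‖ ^ 2 + ‖w‖ ^ 2) := mul_le_mul_of_nonneg_right h5 (by positivity)
    have h7 : (θ + κ * (T - s)) * ‖w‖ ^ 2 ≤ β / 2 * ‖w‖ ^ 2 := by
      refine mul_le_mul_of_nonneg_right ?_ (sq_nonneg _)
      nlinarith [mul_nonneg hκ hs]
    have h8 : ν * (T - (s + δ)) ≤ ν * (T - s) := by nlinarith [mul_nonneg hν hδ]
    nlinarith
  · simp [h1]

/-- **Forward super-solution.** -/
theorem forward_super {μ : Measure E} [SFinite μ] (L : Leg E) {g : E → Space3} (hg : Measurable g)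
    {T ν θ κ β M C₁ lam : ℝ} (hν : 0 < ν) (hθ : 0 ≤ θ) (hκ : 0 ≤ κ) (hβ : θ + κ * T ≤ β / 2)
    (hM : 0 ≤ M) (hlam : 0 < lam) (hF : Flx μ g (β / 2) C₁)
    (hdt : ∀ᵐ e ∂μ, 0 ≤ L.dt e)
    (hen : ∀ᵐ e ∂μ, ∀ v : Space3, ‖v + L.jump e‖ ^ 2 ≤ ‖v‖ ^ 2 + ‖v - g e‖ ^ 2)
    (hk : ∀ r : ℝ, 0 ≤ r → M * C₁ * (1 + r) ≤ lam * (ν + κ * r ^ 2)) (z : LSt) :
    ∫⁻ z', Wf T ν θ κ z' ∂fwdK μ L g M β z ≤ ENNReal.ofReal lam * Wf T ν θ κ z := by
  have hlam' : ENNReal.ofReal lam ≠ 0 := by simpa using hlam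
  obtain ⟨s1, x, v⟩ := z
  by_cases h0 : s1 < 0
  · have : Wf T ν θ κ (s1, (x, v)) = ∞ := by unfold Wf; simp [h0]
    rw [this, ENNReal.mul_top hlam']
    exact le_top
  push Not at h0
  unfold fwdK
  rw [lintegral_stepK L (measurable_Nf M β hg) (Nf_ne_top M β g) (measurable_Wf T ν θ κ)]
  -- pointwise bound
  have hpt : ∀ᵐ q ∂((volume : Measure ℝ).prod μ), Nf M β g (s1, (x, v)) q *
      Wf T ν θ κ (L.out ((s1, (x, v)), q)) ≤
      (if s1 < q.1 then ENNReal.ofReal M * Wf T ν θ κ (q.1, (x, v)) *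
        gau (β / 2) (v - g q.2) else 0) := by
    have h1 : ∀ᵐ e ∂μ, 0 ≤ L.dt e ∧ ‖v + L.jump e‖ ^ 2 ≤ ‖v‖ ^ 2 + ‖v - g e‖ ^ 2 := by
      filter_upwards [hdt, hen] with e h1 h2 using ⟨h1, h2 v⟩
    have h2 : ∀ᵐ q ∂((volume : Measure ℝ).prod μ),
        0 ≤ L.dt q.2 ∧ ‖v + L.jump q.2‖ ^ 2 ≤ ‖v‖ ^ 2 + ‖v - g q.2‖ ^ 2 :=
      Measure.quasiMeasurePreserving_snd.ae h1
    filter_upwards [h2] with q hq
    unfold Nf
    simp only
    split_ifs with hs
    · have h3 := fwd_pt (T := T) (ν := ν) (θ := θ) (κ := κ) (β := β) (M := M) hν.le hθ hκ hβ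
        (s := q.1) (δ := L.dt q.2) (by linarith) hq.1 v (L.jump q.2) (v - g q.2)
        (x + (q.1 - s1 + L.dt q.2) • v + L.off q.2) hq.2
      have e3 : Wf T ν θ κ (q.1, (x + (q.1 - s1 + L.dt q.2) • v + L.off q.2, v)) =
        Wf T ν θ κ (q.1, (x, v)) := rfl
      rw [e3] at h3
      exact h3
    · simp
  refine (lintegral_mono_ae hpt).trans ?_
  have hmW : Measurable (fun s : ℝ => Wf T ν θ κ (s, (x, v))) :=
    (measurable_Wf T ν θ κ).comp (by fun_prop)
  have hmg : Measurable (fun e : E => gau (β / 2) (v - g e)) :=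
    (measurable_gau _).comp (measurable_const.sub hg)
  have hmi : Measurable (fun q : ℝ × E => if s1 < q.1 then ENNReal.ofReal M *
      Wf T ν θ κ (q.1, (x, v)) * gau (β / 2) (v - g q.2) else 0) := by
    refine Measurable.ite (measurableSet_lt (by fun_prop) (by fun_prop)) ?_ measurable_const
    exact ((measurable_const.mul (hmW.comp measurable_fst))).mul (hmg.comp measurable_snd)
  rw [lintegral_prod _ hmi.aemeasurable]
  set c : ℝ := ν + κ * ‖v‖ ^ 2 with hc
  have hc0 : 0 < c := by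
    have : 0 ≤ κ * ‖v‖ ^ 2 := by positivity
    linarith
  have hC : M * C₁ * (1 + ‖v‖) ≤ lam * c := hk _ (norm_nonneg v)
  -- the inner integral
  have hin : ∀ s : ℝ, ∫⁻ e, (if s1 < s then ENNReal.ofReal M *
      Wf T ν θ κ (s, (x, v)) * gau (β / 2) (v - g e) else 0) ∂μ ≤
      ENNReal.ofReal (M * C₁ * (1 + ‖v‖)) * (Wf T ν θ κ (s1, (x, v)) *
        (Set.Ioi s1).indicator (fun s => ENNReal.ofReal (Real.exp (-(c * (s - s1))))) s) := by
    intro s
    by_cases hs : s1 < s
    · simp only [hs, if_true]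
      rw [lintegral_const_mul _ hmg, Set.indicator_of_mem (Set.mem_Ioi.2 hs)]
      have hW : Wf T ν θ κ (s, (x, v)) ≤ Wf T ν θ κ (s1, (x, v)) *
          ENNReal.ofReal (Real.exp (-(c * (s - s1)))) := by
        unfold Wf
        have hn1 : ¬ (s < 0) := by linarith
        have hn2 : ¬ (s1 < 0) := by linarith
        simp only [hn1, hn2, if_false]
        by_cases hT : s ≤ T
        · have hT1 : s1 ≤ T := by linarith
          simp only [hT, hT1, if_true]
          rw [← ENNReal.ofReal_mul (Real.exp_pos _).le, ← Real.exp_add]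
          refine ENNReal.ofReal_le_ofReal (Real.exp_le_exp.2 (le_of_eq ?_))
          rw [hc]; ring
        · simp [hT]
      calc ENNReal.ofReal M * Wf T ν θ κ (s, (x, v)) * ∫⁻ e, gau (β / 2) (v - g e) ∂μ
          ≤ ENNReal.ofReal M * (Wf T ν θ κ (s1, (x, v)) *
            ENNReal.ofReal (Real.exp (-(c * (s - s1))))) * ENNReal.ofReal (C₁ * (1 + ‖v‖)) := by
            gcongr
            exact hF v
        _ = _ := by
            rw [mul_assoc M, ENNReal.ofReal_mul hM]
            ring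
    · simp [hs]
  refine (lintegral_mono hin).trans ?_
  have hme : Measurable (fun s : ℝ => (Set.Ioi s1).indicator
      (fun s => ENNReal.ofReal (Real.exp (-(c * (s - s1))))) s) := by
    refine Measurable.indicator ?_ measurableSet_Ioi
    exact ENNReal.measurable_ofReal.comp (Continuous.measurable (by fun_prop))
  rw [lintegral_const_mul _ (hme.const_mul _), lintegral_const_mul _ hme,
    lintegral_indicator measurableSet_Ioi, lintegral_exp_Ioi hc0]
  calc ENNReal.ofReal (M * C₁ * (1 + ‖v‖)) * (Wf T ν θ κ (s1, (x, v)) * ENNReal.ofReal (1 / c))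
      ≤ ENNReal.ofReal (lam * c) * (Wf T ν θ κ (s1, (x, v)) * ENNReal.ofReal (1 / c)) := by
        gcongr
    _ = (ENNReal.ofReal (lam * c) * ENNReal.ofReal (1 / c)) * Wf T ν θ κ (s1, (x, v)) := by ring
    _ = _ := by
        rw [← ENNReal.ofReal_mul (by positivity)]
        congr 2
        field_simp



/-! ### A vertex time restricted to a short window -/






end Crest.Agent.R122.Boost969
end
end

-- ▼ part R122/Boost4_969

/-!
Row 122, block BO (boost lemma), helper969: spread measures on lines.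

`Spr s₀ Ξ ν`: the law `ν` of a line (birth time, position, velocity) is dominated by the average of
the unit Galilean boosts about the time `s₀` of the profile `Ξ`.  Point sources with Gaussian
velocities are spread, and the property is stable under the continuation kernels (`GalDom`).
Consequences: bounded position density at times `t ≠ s₀`, flux through an obstacle, full density of
the lines linked to a spread line.
-/

set_option autoImplicit false

open MeasureTheory ProbabilityTheory Crest.AnalysisR.Kinetic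
open Crest.Agent.R122.Boltz814 Crest.Agent.R122.Disc416 Crest.Agent.R122.Kin416
open scoped Classical ENNReal

noncomputable section

namespace Crest.Agent.R122.Boost969

/-- average over unit boosts -/
def avg (s0 : ℝ) (F : LSt → ℝ≥0∞) (z : LSt) : ℝ≥0∞ :=
  ∫⁻ u in Metric.ball (0 : Space3) 1, F (gal s0 u z)

lemma measurable_avg (s0 : ℝ) {F : LSt → ℝ≥0∞} (hF : Measurable F) : Measurable (avg s0 F) := by
  unfold avg
  have h1 : Measurable (fun p : LSt × Space3 => F (gal s0 p.2 p.1)) :=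
    hF.comp ((measurable_gal_uz s0).comp (measurable_snd.prodMk measurable_fst))
  exact h1.lintegral_prod_right'


/-- **Spread measures.** -/
def Spr (s0 : ℝ) (Ξ ν : Measure LSt) : Prop :=
  ∀ F : LSt → ℝ≥0∞, Measurable F → ∫⁻ z, F z ∂ν ≤ ∫⁻ z, avg s0 F z ∂Ξ

lemma Spr.mono {s0 : ℝ} {Ξ Ξ' ν ν' : Measure LSt} (h : Spr s0 Ξ ν) (h1 : Ξ ≤ Ξ') (h2 : ν' ≤ ν) :
    Spr s0 Ξ' ν' := fun F hF =>
  (lintegral_mono' h2 le_rfl).trans ((h F hF).trans (lintegral_mono' h1 le_rfl))

lemma Spr.add {s0 : ℝ} {Ξ Ξ' ν ν' : Measure LSt} (h : Spr s0 Ξ ν) (h' : Spr s0 Ξ' ν') :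
    Spr s0 (Ξ + Ξ') (ν + ν') := by
  intro F hF
  rw [lintegral_add_measure, lintegral_add_measure]
  exact add_le_add (h F hF) (h' F hF)

lemma Spr.smul {s0 : ℝ} {Ξ ν : Measure LSt} (h : Spr s0 Ξ ν) (c : ℝ≥0∞) :
    Spr s0 (c • Ξ) (c • ν) := by
  intro F hF
  rw [lintegral_smul_measure, lintegral_smul_measure]
  exact mul_le_mul_right (h F hF) c

lemma Spr.sum {ι : Type*} {s0 : ℝ} {Ξ ν : ι → Measure LSt} (h : ∀ i, Spr s0 (Ξ i) (ν i)) :
    Spr s0 (Measure.sum Ξ) (Measure.sum ν) := by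
  intro F hF
  rw [lintegral_sum_measure, lintegral_sum_measure]
  exact ENNReal.tsum_le_tsum fun i => h i F hF


/-- **Continuation.** -/
theorem Spr.bind {s0 : ℝ} {Ξ ν : Measure LSt} (h : Spr s0 Ξ ν) {κ κ' : Kernel LSt LSt}
    [IsSFiniteKernel κ'] (hκ : GalDom κ κ') : Spr s0 (Ξ.bind κ') (ν.bind κ) := by
  intro F hF
  rw [Measure.lintegral_bind κ.aemeasurable hF.aemeasurable,
    Measure.lintegral_bind κ'.aemeasurable (measurable_avg s0 hF).aemeasurable]
  refine (h _ hF.lintegral_kernel).trans (lintegral_mono fun z => ?_)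
  unfold avg
  have hm : Measurable (fun p : Space3 × LSt => F (gal s0 p.1 p.2)) :=
    hF.comp (measurable_gal_uz s0)
  calc ∫⁻ u in Metric.ball (0 : Space3) 1, ∫⁻ z', F z' ∂κ (gal s0 u z)
      ≤ ∫⁻ u in Metric.ball (0 : Space3) 1, ∫⁻ z', F (gal s0 u z') ∂κ' z := by
        refine setLIntegral_mono' measurableSet_ball fun u hu => ?_
        have hu' : ‖u‖ < 1 := by simpa using hu
        exact hκ s0 u hu'.le z F hF
    _ = _ := lintegral_lintegral_swap hm.aemeasurable

/-! ### Point sources -/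

/-- the law of a line born at the space-time point `(s0, y)` with velocity density `G` -/
def srcM (s0 : ℝ) (y : Space3) (G : Space3 → ℝ≥0∞) : Measure LSt :=
  ((volume : Measure Space3).withDensity G).map (fun v => (s0, (y, v)))

lemma lintegral_srcM (s0 : ℝ) (y : Space3) {G : Space3 → ℝ≥0∞} (hG : Measurable G)
    {F : LSt → ℝ≥0∞} (hF : Measurable F) :
    ∫⁻ z, F z ∂srcM s0 y G = ∫⁻ v, G v * F (s0, (y, v)) := by
  unfold srcM
  rw [lintegral_map hF (by fun_prop), lintegral_withDensity_eq_lintegral_mul _ hG]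
  · rfl
  · exact hF.comp (by fun_prop)

/-- inverse volume of the unit ball -/
def cB : ℝ≥0∞ := (volume (Metric.ball (0 : Space3) 1))⁻¹

lemma vol_ball_ne_zero : volume (Metric.ball (0 : Space3) 1) ≠ 0 :=
  (Metric.measure_ball_pos _ _ one_pos).ne'

lemma vol_ball_ne_top : volume (Metric.ball (0 : Space3) 1) ≠ ∞ := measure_ball_lt_top.ne

lemma cB_ne_top : cB ≠ ∞ := ENNReal.inv_ne_top.2 vol_ball_ne_zero

/-- **Point sources are spread.** -/
theorem Spr.src (s0 : ℝ) (y : Space3) {b : ℝ} (hb : 0 ≤ b) {G : Space3 → ℝ≥0∞}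
    (hGm : Measurable G) {M : ℝ≥0∞} (hG : ∀ v, G v ≤ M * gau b v) :
    Spr s0 (srcM s0 y (fun v => M * cB * ENNReal.ofReal (Real.exp b) * gau (b / 2) v))
      (srcM s0 y G) := by
  intro F hF
  have hmg : Measurable (fun v => M * cB * ENNReal.ofReal (Real.exp b) * gau (b / 2) v) :=
    (measurable_gau _).const_mul _
  rw [lintegral_srcM s0 y hGm hF, lintegral_srcM s0 y hmg (measurable_avg s0 hF)]
  have h1 := boost_avg GalDom.id s0 y hb hF
  simp only [Kernel.id_apply] at h1
  have e1 : ∀ v0 : Space3, ∫⁻ z, F z ∂(Measure.dirac ((s0, (y, v0)) : LSt)) = F (s0, (y, v0)) :=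
    fun v0 => lintegral_dirac' _ hF
  have e2 : ∀ v0 : Space3, ∫⁻ z, (∫⁻ u in Metric.ball (0 : Space3) 1, F (gal s0 u z))
      ∂(Measure.dirac ((s0, (y, v0)) : LSt)) = avg s0 F (s0, (y, v0)) :=
    fun v0 => lintegral_dirac' _ (measurable_avg s0 hF)
  simp only [e1, e2] at h1
  have h2 : ∫⁻ v0, gau b v0 * F (s0, (y, v0)) ≤ cB * (ENNReal.ofReal (Real.exp b) *
      ∫⁻ v0, gau (b / 2) v0 * avg s0 F (s0, (y, v0))) := by
    calc ∫⁻ v0, gau b v0 * F (s0, (y, v0))
        = cB * (volume (Metric.ball (0 : Space3) 1) * ∫⁻ v0, gau b v0 * F (s0, (y, v0))) := by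
          unfold cB
          rw [← mul_assoc, ENNReal.inv_mul_cancel vol_ball_ne_zero vol_ball_ne_top, one_mul]
      _ ≤ _ := mul_le_mul_right h1 _
  have hmF : Measurable (fun v : Space3 => F (s0, (y, v))) := hF.comp (by fun_prop)
  have hmA : Measurable (fun v : Space3 => avg s0 F (s0, (y, v))) :=
    (measurable_avg s0 hF).comp (by fun_prop)
  calc ∫⁻ v, G v * F (s0, (y, v)) ≤ ∫⁻ v, M * (gau b v * F (s0, (y, v))) := by
        refine lintegral_mono fun v => ?_
        rw [← mul_assoc]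
        exact mul_le_mul_left (hG v) _
    _ = M * ∫⁻ v, gau b v * F (s0, (y, v)) :=
        lintegral_const_mul _ ((measurable_gau b).mul hmF)
    _ ≤ M * (cB * (ENNReal.ofReal (Real.exp b) *
          ∫⁻ v0, gau (b / 2) v0 * avg s0 F (s0, (y, v0)))) := mul_le_mul_right h2 _
    _ = _ := by
        have hmp : Measurable (fun v : Space3 => gau (b / 2) v * avg s0 F (s0, (y, v))) :=
          (measurable_gau (b / 2)).mul hmA
        simp only [mul_assoc]
        rw [lintegral_const_mul _ ((hmp.const_mul _).const_mul _),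
          lintegral_const_mul _ (hmp.const_mul _), lintegral_const_mul _ hmp]

/-! ### Densities -/

/-- position at time `t` on the (extended) line -/
def posAt (t : ℝ) (z : LSt) : Space3 := z.2.1 + (t - z.1) • z.2.2

lemma measurable_posAt : Measurable (fun p : ℝ × LSt => posAt p.1 p.2) := by
  unfold posAt
  exact Continuous.measurable (by fun_prop)

lemma measurable_posAt_t (t : ℝ) : Measurable (posAt t) :=
  measurable_posAt.comp (measurable_const.prodMk measurable_id)

lemma posAt_gal (s0 t : ℝ) (u : Space3) (z : LSt) :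
    posAt t (gal s0 u z) = posAt t z + (t - s0) • u := by
  unfold posAt gal; simp only; module

/-- averaged test functions -/
lemma avg_pos_le {s0 t : ℝ} (hst : t ≠ s0) {a : Space3 → ℝ≥0∞} (ha : Measurable a)
    {ψ Ψ : ℝ × Space3 → ℝ≥0∞} (hle : ∀ τ u v, ‖u‖ < 1 → ψ (τ, v + u) ≤ Ψ (τ, v)) (z : LSt) :
    avg s0 (fun z => a (posAt t z) * ψ (z.1, z.2.2)) z ≤
      (ENNReal.ofReal (|t - s0|⁻¹ ^ 3) * ∫⁻ x, a x) * Ψ (z.1, z.2.2) := by
  have hr : t - s0 ≠ 0 := sub_ne_zero.2 hst
  unfold avg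
  calc ∫⁻ u in Metric.ball (0 : Space3) 1,
      a (posAt t (gal s0 u z)) * ψ ((gal s0 u z).1, (gal s0 u z).2.2)
      ≤ ∫⁻ u in Metric.ball (0 : Space3) 1, a (posAt t z + (t - s0) • u) * Ψ (z.1, z.2.2) := by
        refine setLIntegral_mono' measurableSet_ball fun u hu => ?_
        rw [posAt_gal]
        exact mul_le_mul_right (hle z.1 u z.2.2 (by simpa using hu)) _
    _ ≤ ∫⁻ u, a (posAt t z + (t - s0) • u) * Ψ (z.1, z.2.2) := setLIntegral_le_lintegral _ _
    _ = _ := by
        have hm : Measurable (fun u => a (posAt t z + (t - s0) • u)) :=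
          ha.comp (Continuous.measurable (by fun_prop))
        rw [lintegral_mul_const _ hm, lintegral_comp_smul_add ha hr]

/-- **Position density of a spread line.** -/
theorem Spr.density {s0 : ℝ} {Ξ ν : Measure LSt} (h : Spr s0 Ξ ν) {t : ℝ} (hst : t ≠ s0)
    {a : Space3 → ℝ≥0∞} (ha : Measurable a) {ψ Ψ : ℝ × Space3 → ℝ≥0∞} (hψ : Measurable ψ)
    (hΨ : Measurable Ψ) (hle : ∀ τ u v, ‖u‖ < 1 → ψ (τ, v + u) ≤ Ψ (τ, v)) :
    ∫⁻ z, a (posAt t z) * ψ (z.1, z.2.2) ∂ν ≤
      (ENNReal.ofReal (|t - s0|⁻¹ ^ 3) * ∫⁻ x, a x) * ∫⁻ z, Ψ (z.1, z.2.2) ∂Ξ := by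
  have hF : Measurable (fun z : LSt => a (posAt t z) * ψ (z.1, z.2.2)) :=
    (ha.comp (measurable_posAt_t t)).mul (hψ.comp (by fun_prop))
  refine (h _ hF).trans ?_
  have hΨ' : Measurable (fun z : LSt => Ψ (z.1, z.2.2)) := hΨ.comp (by fun_prop)
  rw [← lintegral_const_mul _ hΨ']
  exact lintegral_mono fun z => avg_pos_le hst ha hle z

/-- Version with a bounded range of ages `|t - s0| ≥ r`. -/
theorem Spr.density_ge {s0 : ℝ} {Ξ ν : Measure LSt} (h : Spr s0 Ξ ν) {t r : ℝ} (hr : 0 < r)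
    (hst : r ≤ |t - s0|) {a : Space3 → ℝ≥0∞} (ha : Measurable a) {ψ Ψ : ℝ × Space3 → ℝ≥0∞}
    (hψ : Measurable ψ) (hΨ : Measurable Ψ)
    (hle : ∀ τ u v, ‖u‖ < 1 → ψ (τ, v + u) ≤ Ψ (τ, v)) :
    ∫⁻ z, a (posAt t z) * ψ (z.1, z.2.2) ∂ν ≤
      ENNReal.ofReal (r⁻¹ ^ 3) * (∫⁻ x, a x) * ∫⁻ z, Ψ (z.1, z.2.2) ∂Ξ := by
  have h0 : t ≠ s0 := by
    rintro rfl
    simp at hst
    linarith
  refine (h.density h0 ha hψ hΨ hle).trans ?_
  have h1 : |t - s0|⁻¹ ^ 3 ≤ r⁻¹ ^ 3 := by
    gcongr
  gcongr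

/-- **Flux of a spread line through an obstacle** (`815`'s sweeping inequality). -/
theorem Spr.flux {s0 : ℝ} {Ξ ν : Measure LSt} [SFinite ν] (h : Spr s0 Ξ ν) {a b r : ℝ}
    (hr : 0 < r) (hab : a ≤ b) (hs : s0 < a) {y y' : ℝ → Space3}
    (hy : ∀ s ∈ Set.Icc a b, HasDerivAt y (y' s) s) (hyc : ContinuousOn y' (Set.Icc a b))
    (hym : Measurable y) (hym' : Measurable y')
    {ψ Ψ : ℝ × Space3 → ℝ≥0∞} (hψ : Measurable ψ) (hΨ : Measurable Ψ)
    (hle : ∀ τ u v, ‖u‖ < 1 →
      ψ (τ, v + u) * (1 + ENNReal.ofReal ‖v + u‖) ≤ Ψ (τ, v)) :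
    ∫⁻ z, ψ (z.1, z.2.2) *
        {z | ∃ s ∈ Set.Icc a b, dist (posAt s z) (y s) ≤ r}.indicator 1 z ∂ν ≤
      8 * ENNReal.ofReal r ^ 2 * Sweep815.c3 * (∫⁻ z, Ψ (z.1, z.2.2) ∂Ξ) *
        (ENNReal.ofReal r * ENNReal.ofReal ((a - s0)⁻¹ ^ 3) +
          ∫⁻ u in Set.Icc a b, ENNReal.ofReal ((u - s0)⁻¹ ^ 3) *
            (1 + ENNReal.ofReal ‖y' u‖)) := by
  set I : ℝ≥0∞ := ∫⁻ z, Ψ (z.1, z.2.2) ∂Ξ with hI
  set D : ℝ → ℝ≥0∞ := fun u => I * ENNReal.ofReal ((u - s0)⁻¹ ^ 3) with hD
  have hPm' : Measurable (Function.uncurry fun (z : LSt) (_ : ℝ) => z.2.2) := by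
    have : Measurable (fun p : LSt × ℝ => p.1.2.2) := by fun_prop
    exact this
  have hPm : Measurable (Function.uncurry fun (z : LSt) (s : ℝ) => posAt s z) :=
    measurable_posAt.comp (measurable_snd.prodMk measurable_fst)
  have h1 := Sweep815.contact_le (Ω := LSt) ν hr hab (P := fun z s => posAt s z)
    (P' := fun z _ => z.2.2) (y := y) (y' := y') (w := fun z => ψ (z.1, z.2.2))
    (hψ.comp (by fun_prop)) hPm hPm'
    (by
      intro z s _
      have h2 : HasDerivAt (fun s : ℝ => (s - z.1) • z.2.2) ((1 : ℝ) • z.2.2) s :=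
        ((hasDerivAt_id s).sub_const z.1).smul_const z.2.2
      rw [one_smul] at h2
      exact h2.const_add z.2.1)
    (fun z => continuousOn_const) hy hyc hym hym' (D := D)
    (by
      intro u hu
      have hus : 0 < u - s0 := by linarith [hu.1]
      have hst : u ≠ s0 := by intro h3; linarith
      have hm1 : Measurable (fun x : Space3 =>
          (Metric.closedBall (y u) (2 * r)).indicator (1 : Space3 → ℝ≥0∞) x) :=
        measurable_one.indicator Metric.isClosed_closedBall.measurableSet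
      have hψ' : Measurable (fun p : ℝ × Space3 => ψ p * (1 + ENNReal.ofReal ‖p.2‖)) := by
        exact hψ.mul (by fun_prop)
      have h4 := h.density (t := u) hst hm1 hψ' hΨ (fun τ u v hu => hle τ u v hu)
      calc ∫⁻ z, ψ (z.1, z.2.2) * {z : LSt | dist (posAt u z) (y u) ≤ 2 * r}.indicator
              (fun z => 1 + ENNReal.ofReal ‖z.2.2‖) z ∂ν
          = ∫⁻ z, (Metric.closedBall (y u) (2 * r)).indicator (1 : Space3 → ℝ≥0∞) (posAt u z) *
              (ψ (z.1, z.2.2) * (1 + ENNReal.ofReal ‖z.2.2‖)) ∂ν := by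
            refine lintegral_congr fun z => ?_
            by_cases hz : dist (posAt u z) (y u) ≤ 2 * r
            · rw [Set.indicator_of_mem (show z ∈ {z : LSt | dist (posAt u z) (y u) ≤ 2 * r} from hz),
                Set.indicator_of_mem (show posAt u z ∈ Metric.closedBall (y u) (2 * r) from hz)]
              simp
            · rw [Set.indicator_of_notMem
                (show z ∉ {z : LSt | dist (posAt u z) (y u) ≤ 2 * r} from hz),
                Set.indicator_of_notMem
                (show posAt u z ∉ Metric.closedBall (y u) (2 * r) from hz)]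
              simp
        _ ≤ _ := h4
        _ = D u * (ENNReal.ofReal (2 * r) ^ 3 * Sweep815.c3) := by
            rw [lintegral_indicator_one Metric.isClosed_closedBall.measurableSet,
              Sweep815.vol_closedBall, hD, abs_of_pos hus]
            ring)
  refine h1.trans (le_of_eq ?_)
  simp only [hD]
  have hm5 : Measurable (fun u : ℝ => ENNReal.ofReal ((u - s0)⁻¹ ^ 3) *
      (1 + ENNReal.ofReal ‖y' u‖)) := by
    have hm6 : Measurable (fun u : ℝ => ENNReal.ofReal ((u - s0)⁻¹ ^ 3)) :=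
      ENNReal.measurable_ofReal.comp (((measurable_id.sub_const s0).inv).pow_const 3)
    have hm7 : Measurable (fun u : ℝ => 1 + ENNReal.ofReal ‖y' u‖) :=
      measurable_const.add (ENNReal.measurable_ofReal.comp hym'.norm)
    exact hm6.mul hm7
  have e5 : ∫⁻ u in Set.Icc a b, I * ENNReal.ofReal ((u - s0)⁻¹ ^ 3) *
      (1 + ENNReal.ofReal ‖y' u‖) = I * ∫⁻ u in Set.Icc a b, ENNReal.ofReal ((u - s0)⁻¹ ^ 3) *
        (1 + ENNReal.ofReal ‖y' u‖) := by
    rw [← lintegral_const_mul _ hm5]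
    refine lintegral_congr fun u => ?_
    ring
  rw [e5]
  ring

end Crest.Agent.R122.Boost969
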