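import Crest.Agent.R122.Boost4_969

-- ▼ part R122/Boost5_969
section

/-!
Row 122, block BO (boost lemma), helper969: links of a spread line with fresh structures.

`e` is a spread line (law `ν`, spread from time `s₀`).  At a time `s ≥ s₀ + r` it contacts a
translation invariant structure; `m` is the law of the structure seen from the contact point, `H s ω`
a marked line of it (relative to the contact point).  Then the marked line has a full
(7-dimensional) density `≤ C r⁻³` (`Spr.link`).  Conversely, if the structure is fixed and the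
contacting line `e` is spread from the line `d`, translation covariantly, then `d` has a full density
(`Spr.link_neg`).
-/

set_option autoImplicit false

open MeasureTheory ProbabilityTheory Crest.AnalysisR.Kinetic
open Crest.Agent.R122.Boltz814 Crest.Agent.R122.Disc416 Crest.Agent.R122.Kin416
open scoped Classical ENNReal

noncomputable section

namespace Crest.Agent.R122.Boost969

/-- translation of a line -/
def shiftX (x : Space3) (l : LSt) : LSt := (l.1, (l.2.1 + x, l.2.2))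

lemma measurable_shiftX : Measurable (fun p : Space3 × LSt => shiftX p.1 p.2) := by
  unfold shiftX
  refine Measurable.prodMk (by fun_prop) (Measurable.prodMk ?_ (by fun_prop))
  exact Continuous.measurable (by fun_prop)



variable {Q : Type*} [MeasurableSpace Q]

/-- General form: `A q x` is the test function evaluated at the position `x = posAt (T q) z` of the
spread line at the link time `T q`. -/
theorem Spr.link_gen {s0 : ℝ} {Ξ ν : Measure LSt} [SFinite ν] (h : Spr s0 Ξ ν) {r : ℝ}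
    (hr : 0 < r) (m : Measure Q) [SFinite m] {T : Q → ℝ} (hT : Measurable T)
    (hS : ∀ᵐ q ∂m, r ≤ |T q - s0|)
    {G : Q → ℝ≥0∞} (hG : Measurable G) {A : Q × Space3 → ℝ≥0∞} (hA : Measurable A)
    {ψ Ψ : ℝ × Space3 → ℝ≥0∞} (hψ : Measurable ψ) (hΨ : Measurable Ψ)
    (hle : ∀ τ u v, ‖u‖ < 1 → ψ (τ, v + u) ≤ Ψ (τ, v)) :
    ∫⁻ z, ∫⁻ q, ψ (z.1, z.2.2) * (G q * A (q, posAt (T q) z)) ∂m ∂ν ≤
      ENNReal.ofReal (r⁻¹ ^ 3) * (∫⁻ z, Ψ (z.1, z.2.2) ∂Ξ) *
        ∫⁻ q, G q * ∫⁻ x : Space3, A (q, x) ∂volume ∂m := by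
  set I : ℝ≥0∞ := ∫⁻ z, Ψ (z.1, z.2.2) ∂Ξ with hI
  have hmA : Measurable (fun p : LSt × Q => A (p.2, posAt (T p.2) p.1)) :=
    hA.comp (measurable_snd.prodMk (measurable_posAt.comp
      ((hT.comp measurable_snd).prodMk measurable_fst)))
  have hmT : Measurable (fun p : LSt × Q =>
      ψ (p.1.1, p.1.2.2) * (G p.2 * A (p.2, posAt (T p.2) p.1))) := by
    have h1 : Measurable (fun p : LSt × Q => ψ (p.1.1, p.1.2.2)) := hψ.comp (by fun_prop)
    exact h1.mul ((hG.comp measurable_snd).mul hmA)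
  have hmI : Measurable (fun q : Q => ∫⁻ x : Space3, A (q, x)) := hA.lintegral_prod_right'
  have hmGI : Measurable (fun q : Q => G q * ∫⁻ x : Space3, A (q, x)) := hG.mul hmI
  rw [lintegral_lintegral_swap hmT.aemeasurable, ← lintegral_const_mul _ hmGI]
  refine lintegral_mono_ae ?_
  filter_upwards [hS] with q hq
  have hmaq : Measurable (fun x : Space3 => A (q, x)) :=
    hA.comp (measurable_const.prodMk measurable_id)
  have h1 := h.density_ge (t := T q) hr hq hmaq hψ hΨ hle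
  have hmq : Measurable (fun z : LSt => A (q, posAt (T q) z) * ψ (z.1, z.2.2)) :=
    (hmaq.comp (measurable_posAt_t (T q))).mul (hψ.comp (by fun_prop))
  calc ∫⁻ z, ψ (z.1, z.2.2) * (G q * A (q, posAt (T q) z)) ∂ν
      = ∫⁻ z, G q * (A (q, posAt (T q) z) * ψ (z.1, z.2.2)) ∂ν := by
        refine lintegral_congr fun z => ?_
        ring
    _ = G q * ∫⁻ z, A (q, posAt (T q) z) * ψ (z.1, z.2.2) ∂ν := lintegral_const_mul _ hmq
    _ ≤ G q * (ENNReal.ofReal (r⁻¹ ^ 3) * (∫⁻ x, A (q, x)) * I) := mul_le_mul_right h1 _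
    _ = _ := by ring

/-- **Link.** Full density of a marked line of a fresh structure contacted by a spread line: `m` is
the law of the structure seen from the contact point (link time `T q`), `H q` the marked line
relative to the contact point. -/
theorem Spr.link {s0 : ℝ} {Ξ ν : Measure LSt} [SFinite ν] (h : Spr s0 Ξ ν) {r : ℝ}
    (hr : 0 < r) (m : Measure Q) [SFinite m] {T : Q → ℝ} (hT : Measurable T)
    (hS : ∀ᵐ q ∂m, r ≤ |T q - s0|)
    {G : Q → ℝ≥0∞} (hG : Measurable G) {H : Q → LSt} (hH : Measurable H)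
    {F : LSt → ℝ≥0∞} (hF : Measurable F)
    {ψ Ψ : ℝ × Space3 → ℝ≥0∞} (hψ : Measurable ψ) (hΨ : Measurable Ψ)
    (hle : ∀ τ u v, ‖u‖ < 1 → ψ (τ, v + u) ≤ Ψ (τ, v)) :
    ∫⁻ z, ∫⁻ q, ψ (z.1, z.2.2) * (G q * F (shiftX (posAt (T q) z) (H q))) ∂m ∂ν ≤
      ENNReal.ofReal (r⁻¹ ^ 3) * (∫⁻ z, Ψ (z.1, z.2.2) ∂Ξ) *
        ∫⁻ q, G q * ∫⁻ x : Space3, F ((H q).1, (x, (H q).2.2)) ∂volume ∂m := by
  have hA : Measurable (fun p : Q × Space3 => F (shiftX p.2 (H p.1))) :=
    hF.comp (measurable_shiftX.comp (measurable_snd.prodMk (hH.comp measurable_fst)))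
  refine (h.link_gen hr m hT hS hG hA hψ hΨ hle).trans (le_of_eq ?_)
  congr 1
  refine lintegral_congr fun q => ?_
  congr 1
  have e1 : ∀ x : Space3, F (shiftX x (H q)) =
      (fun x => F ((H q).1, (x, (H q).2.2))) ((H q).2.1 + x) := by
    intro x; rfl
  simp_rw [e1]
  exact lintegral_add_left_eq_self (fun x => F ((H q).1, (x, (H q).2.2))) (H q).2.1


/-! ### Translation covariant families -/

/-- shift of all lines by `x` -/
def shiftK (x : Space3) (ν : Measure LSt) : Measure LSt := ν.map (shiftX x)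

lemma measurable_shiftX_x (x : Space3) : Measurable (shiftX x) :=
  measurable_shiftX.comp (measurable_const.prodMk measurable_id)

lemma lintegral_shiftK (x : Space3) (ν : Measure LSt) {F : LSt → ℝ≥0∞} (hF : Measurable F) :
    ∫⁻ z, F z ∂shiftK x ν = ∫⁻ z, F (shiftX x z) ∂ν := by
  unfold shiftK
  rw [lintegral_map hF (measurable_shiftX_x x)]

lemma gal_shiftX (s0 : ℝ) (u x : Space3) (z : LSt) :
    gal s0 u (shiftX x z) = shiftX x (gal s0 u z) := by
  unfold gal shiftX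
  simp only
  refine Prod.ext rfl (Prod.ext ?_ rfl)
  simp only; abel

lemma Spr.shift {s0 : ℝ} {Ξ ν : Measure LSt} (h : Spr s0 Ξ ν) (x : Space3) :
    Spr s0 (shiftK x Ξ) (shiftK x ν) := by
  intro F hF
  have hm : Measurable (fun z => F (shiftX x z)) := hF.comp (measurable_shiftX_x x)
  rw [lintegral_shiftK x ν hF, lintegral_shiftK x Ξ (measurable_avg s0 hF)]
  refine (h _ hm).trans (le_of_eq (lintegral_congr fun z => ?_))
  unfold avg
  simp_rw [gal_shiftX]


end Crest.Agent.R122.Boost969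
end
end

-- ▼ part R122/Boost6_969
section

/-!
Row 122, block BO (boost lemma), helper969: flux of a spread line through a finite family of moving
particles, translation covariant kernels.
-/

set_option autoImplicit false

open MeasureTheory ProbabilityTheory Crest.AnalysisR.Kinetic
open Crest.Agent.R122.Boltz814 Crest.Agent.R122.Disc416 Crest.Agent.R122.Kin416
open scoped Classical ENNReal

noncomputable section

namespace Crest.Agent.R122.Boost969




/-! ### Translation covariant kernels -/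

/-- translation covariance of a kernel on lines -/
def TrCov (κ : Kernel LSt LSt) : Prop :=
  ∀ (x : Space3) (z : LSt) (F : LSt → ℝ≥0∞), Measurable F →
    ∫⁻ z', F z' ∂κ (shiftX x z) = ∫⁻ z', F (shiftX x z') ∂κ z

lemma TrCov.id : TrCov Kernel.id := by
  intro x z F hF
  have hm : Measurable (fun z' => F (shiftX x z')) := hF.comp (measurable_shiftX_x x)
  rw [Kernel.id_apply, Kernel.id_apply, lintegral_dirac' _ hF, lintegral_dirac' _ hm]

lemma TrCov.comp {κ η : Kernel LSt LSt} (h1 : TrCov κ) (h2 : TrCov η) : TrCov (η ∘ₖ κ) := by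
  intro x z F hF
  have hm : Measurable (fun z' => F (shiftX x z')) := hF.comp (measurable_shiftX_x x)
  rw [Kernel.lintegral_comp _ _ _ hF, Kernel.lintegral_comp _ _ _ hm,
    h1 x z _ hF.lintegral_kernel]
  exact lintegral_congr fun z' => h2 x z' F hF

lemma TrCov.add {κ η : Kernel LSt LSt} (h1 : TrCov κ) (h2 : TrCov η) : TrCov (κ + η) := by
  intro x z F hF
  rw [Kernel.add_apply, Kernel.add_apply, lintegral_add_measure, lintegral_add_measure,
    h1 x z F hF, h2 x z F hF]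

lemma TrCov.sum {ι : Type*} [Countable ι] {κ : ι → Kernel LSt LSt} (h : ∀ i, TrCov (κ i)) :
    TrCov (Kernel.sum κ) := by
  intro x z F hF
  rw [Kernel.sum_apply, Kernel.sum_apply, lintegral_sum_measure, lintegral_sum_measure]
  exact tsum_congr fun i => h i x z F hF

lemma TrCov.path : ∀ {l : List (Kernel LSt LSt)}, (∀ κ ∈ l, TrCov κ) → TrCov (pathK l)
  | [], _ => TrCov.id
  | κ :: l, h => TrCov.comp (h κ (by simp)) (TrCov.path fun κ' hκ' => h κ' (by simp [hκ']))


variable {E : Type*} [MeasurableSpace E]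

lemma Leg.out_shiftX (L : Leg E) (x : Space3) (z : LSt) (q : ℝ × E) :
    L.out (shiftX x z, q) = shiftX x (L.out (z, q)) := by
  unfold Leg.out shiftX
  refine Prod.ext rfl (Prod.ext ?_ rfl)
  simp only; module

/-- step kernels with translation invariant densities are translation covariant -/
lemma TrCov.step {μ : Measure E} [SFinite μ] (L : Leg E) {N : LSt → ℝ × E → ℝ≥0∞}
    (hNm : Measurable (Function.uncurry N)) (hN : ∀ z q, N z q ≠ ∞)
    (h : ∀ x z q, N (shiftX x z) q = N z q) : TrCov (stepK μ L N) := by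
  intro x z F hF
  have hm : Measurable (fun z' => F (shiftX x z')) := hF.comp (measurable_shiftX_x x)
  rw [lintegral_stepK L hNm hN hF, lintegral_stepK L hNm hN hm]
  refine lintegral_congr fun q => ?_
  rw [L.out_shiftX, h]

lemma TrCov.fwd {μ : Measure E} [SFinite μ] (L : Leg E) {g : E → Space3} (hg : Measurable g)
    {M β : ℝ} : TrCov (fwdK μ L g M β) :=
  TrCov.step L (measurable_Nf M β hg) (Nf_ne_top M β g) fun _ _ _ => rfl



end Crest.Agent.R122.Boost969
end
namespace Crest.Agent.R122.Boost969.Spr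
end Crest.Agent.R122.Boost969.Spr
end

-- ▼ part R122/Boost7_969

/-!
Row 122, block BO (boost lemma), helper969: labelled spread measures.

The label `ℓ : Λ` carries the turning time `σ ℓ` and any other data (marks, ...).  `SprL σ Ξ ν`: the
measure `ν` on `Λ × LSt` is dominated by the average of the unit boosts about the time `σ ℓ` of `Ξ`.
-/

set_option autoImplicit false

open MeasureTheory ProbabilityTheory Crest.AnalysisR.Kinetic
open Crest.Agent.R122.Boltz814 Crest.Agent.R122.Disc416 Crest.Agent.R122.Kin416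
open scoped Classical ENNReal

noncomputable section

namespace Crest.Agent.R122.Boost969

variable {Λ : Type*} [MeasurableSpace Λ]

/-- labelled average over unit boosts -/
def avgL (σ : Λ → ℝ) (F : Λ × LSt → ℝ≥0∞) (p : Λ × LSt) : ℝ≥0∞ :=
  ∫⁻ u in Metric.ball (0 : Space3) 1, F (p.1, gal (σ p.1) u p.2)

lemma measurable_galL {σ : Λ → ℝ} (hσ : Measurable σ) :
    Measurable (fun p : (Λ × LSt) × Space3 => ((p.1.1, gal (σ p.1.1) p.2 p.1.2) : Λ × LSt)) := by
  refine Measurable.prodMk (by fun_prop) ?_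
  exact measurable_gal'.comp ((hσ.comp (measurable_fst.comp measurable_fst)).prodMk
    (measurable_snd.prodMk (measurable_snd.comp measurable_fst)))

lemma measurable_avgL {σ : Λ → ℝ} (hσ : Measurable σ) {F : Λ × LSt → ℝ≥0∞} (hF : Measurable F) :
    Measurable (avgL σ F) := by
  unfold avgL
  have h1 : Measurable (fun p : (Λ × LSt) × Space3 => F (p.1.1, gal (σ p.1.1) p.2 p.1.2)) :=
    hF.comp (measurable_galL hσ)
  exact h1.lintegral_prod_right'

/-- **Labelled spread measures.** -/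
def SprL (σ : Λ → ℝ) (Ξ ν : Measure (Λ × LSt)) : Prop :=
  ∀ F : Λ × LSt → ℝ≥0∞, Measurable F → ∫⁻ p, F p ∂ν ≤ ∫⁻ p, avgL σ F p ∂Ξ

variable {σ : Λ → ℝ} {Ξ Ξ' ν ν' : Measure (Λ × LSt)}

lemma SprL.mono (h : SprL σ Ξ ν) (h1 : Ξ ≤ Ξ') (h2 : ν' ≤ ν) : SprL σ Ξ' ν' := fun F hF =>
  (lintegral_mono' h2 le_rfl).trans ((h F hF).trans (lintegral_mono' h1 le_rfl))

lemma SprL.add (h : SprL σ Ξ ν) (h' : SprL σ Ξ' ν') : SprL σ (Ξ + Ξ') (ν + ν') := by
  intro F hF
  rw [lintegral_add_measure, lintegral_add_measure]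
  exact add_le_add (h F hF) (h' F hF)

lemma SprL.smul (h : SprL σ Ξ ν) (c : ℝ≥0∞) : SprL σ (c • Ξ) (c • ν) := by
  intro F hF
  rw [lintegral_smul_measure, lintegral_smul_measure]
  exact mul_le_mul_right (h F hF) c

lemma SprL.sum {ι : Type*} {Ξ ν : ι → Measure (Λ × LSt)} (h : ∀ i, SprL σ (Ξ i) (ν i)) :
    SprL σ (Measure.sum Ξ) (Measure.sum ν) := by
  intro F hF
  rw [lintegral_sum_measure, lintegral_sum_measure]
  exact ENNReal.tsum_le_tsum fun i => h i F hF

/-- density weights depending on the label only -/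
lemma SprL.withDensity (hσ : Measurable σ) (h : SprL σ Ξ ν) {w : Λ → ℝ≥0∞} (hw : Measurable w) :
    SprL σ (Ξ.withDensity fun p => w p.1) (ν.withDensity fun p => w p.1) := by
  intro F hF
  have hw' : Measurable (fun p : Λ × LSt => w p.1) := hw.comp measurable_fst
  rw [lintegral_withDensity_eq_lintegral_mul _ hw' hF,
    lintegral_withDensity_eq_lintegral_mul _ hw' (measurable_avgL hσ hF)]
  refine (h _ (hw'.mul hF)).trans (lintegral_mono fun p => ?_)
  unfold avgL
  simp only [Pi.mul_apply]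
  rw [lintegral_const_mul]
  exact hF.comp ((measurable_galL hσ).comp (measurable_const.prodMk measurable_id))


/-- change of label (keeping the turning time) -/
lemma SprL.map (h : SprL σ Ξ ν) {Λ' : Type*} [MeasurableSpace Λ'] {σ' : Λ' → ℝ}
    {f : Λ → Λ'} (hf : Measurable f) (hσ : ∀ ℓ, σ' (f ℓ) = σ ℓ) (hσ' : Measurable σ') :
    SprL σ' (Ξ.map fun p => (f p.1, p.2)) (ν.map fun p => (f p.1, p.2)) := by
  intro F hF
  have hm : Measurable (fun p : Λ × LSt => ((f p.1, p.2) : Λ' × LSt)) :=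
    (hf.comp measurable_fst).prodMk measurable_snd
  rw [lintegral_map hF hm, lintegral_map (measurable_avgL hσ' hF) hm]
  refine (h _ (hF.comp hm)).trans (le_of_eq (lintegral_congr fun p => ?_))
  unfold avgL
  simp only [Function.comp, hσ]

/-! ### Continuation -/

/-- labelled domination of boosts -/
def GalDomL (σ : Λ → ℝ) (κ κ' : Kernel (Λ × LSt) (Λ × LSt)) : Prop :=
  ∀ (u : Space3), ‖u‖ ≤ 1 → ∀ (p : Λ × LSt) (F : Λ × LSt → ℝ≥0∞), Measurable F →
    ∫⁻ p', F p' ∂κ (p.1, gal (σ p.1) u p.2) ≤ ∫⁻ p', F (p'.1, gal (σ p'.1) u p'.2) ∂κ' p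

lemma GalDomL.comp (hσ : Measurable σ) {κ κ' η η' : Kernel (Λ × LSt) (Λ × LSt)}
    (h1 : GalDomL σ κ κ') (h2 : GalDomL σ η η') : GalDomL σ (η ∘ₖ κ) (η' ∘ₖ κ') := by
  intro u hu p F hF
  have hm : Measurable (fun p' : Λ × LSt => F (p'.1, gal (σ p'.1) u p'.2)) :=
    hF.comp ((measurable_galL hσ).comp (measurable_id.prodMk measurable_const))
  rw [Kernel.lintegral_comp _ _ _ hF, Kernel.lintegral_comp _ _ _ hm]
  refine (h1 u hu p _ hF.lintegral_kernel).trans (lintegral_mono fun p' => ?_)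
  exact h2 u hu p' F hF

lemma GalDomL.add {κ κ' η η' : Kernel (Λ × LSt) (Λ × LSt)}
    (h1 : GalDomL σ κ κ') (h2 : GalDomL σ η η') : GalDomL σ (κ + η) (κ' + η') := by
  intro u hu p F hF
  rw [Kernel.add_apply, Kernel.add_apply, lintegral_add_measure, lintegral_add_measure]
  exact add_le_add (h1 u hu p F hF) (h2 u hu p F hF)

lemma GalDomL.sum {ι : Type*} [Countable ι] {κ κ' : ι → Kernel (Λ × LSt) (Λ × LSt)}
    (h : ∀ i, GalDomL σ (κ i) (κ' i)) : GalDomL σ (Kernel.sum κ) (Kernel.sum κ') := by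
  intro u hu p F hF
  rw [Kernel.sum_apply, Kernel.sum_apply, lintegral_sum_measure, lintegral_sum_measure]
  exact ENNReal.tsum_le_tsum fun i => h i u hu p F hF

lemma GalDomL.mono {κ₀ κ κ' : Kernel (Λ × LSt) (Λ × LSt)} (h : GalDomL σ κ κ')
    (h0 : ∀ p, κ₀ p ≤ κ p) : GalDomL σ κ₀ κ' := by
  intro u hu p F hF
  exact (lintegral_mono' (h0 _) le_rfl).trans (h u hu p F hF)

/-- lift of a kernel on lines; the label is transported by a kernel `M` -/
def liftK (M : Kernel Λ Λ) (κ : Kernel LSt LSt) : Kernel (Λ × LSt) (Λ × LSt) := M ∥ₖ κ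

lemma lintegral_liftK (M : Kernel Λ Λ) [IsSFiniteKernel M] (κ : Kernel LSt LSt)
    [IsSFiniteKernel κ] (p : Λ × LSt) {F : Λ × LSt → ℝ≥0∞} (hF : Measurable F) :
    ∫⁻ p', F p' ∂liftK M κ p = ∫⁻ ℓ', ∫⁻ z', F (ℓ', z') ∂κ p.2 ∂M p.1 := by
  unfold liftK
  rw [Kernel.parallelComp_apply, lintegral_prod _ hF.aemeasurable]

lemma GalDomL.lift {M : Kernel Λ Λ} [IsSFiniteKernel M]
    (hM : ∀ ℓ, ∀ᵐ ℓ' ∂M ℓ, σ ℓ' = σ ℓ) (hσ : Measurable σ) {κ κ' : Kernel LSt LSt}
    [IsSFiniteKernel κ] [IsSFiniteKernel κ'] (h : GalDom κ κ') :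
    GalDomL σ (liftK M κ) (liftK M κ') := by
  intro u hu p F hF
  have hm : Measurable (fun p' : Λ × LSt => F (p'.1, gal (σ p'.1) u p'.2)) :=
    hF.comp ((measurable_galL hσ).comp (measurable_id.prodMk measurable_const))
  rw [lintegral_liftK M κ _ hF, lintegral_liftK M κ' _ hm]
  refine lintegral_mono_ae ?_
  filter_upwards [hM p.1] with ℓ' hℓ'
  simp only [hℓ']
  exact h (σ p.1) u hu p.2 (fun z' => F (ℓ', z')) (hF.comp (measurable_const.prodMk measurable_id))

/-- **Continuation**, labelled. -/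
theorem SprL.bind (hσ : Measurable σ) (h : SprL σ Ξ ν) {κ κ' : Kernel (Λ × LSt) (Λ × LSt)}
    [IsSFiniteKernel κ'] (hκ : GalDomL σ κ κ') : SprL σ (Ξ.bind κ') (ν.bind κ) := by
  intro F hF
  rw [Measure.lintegral_bind κ.aemeasurable hF.aemeasurable,
    Measure.lintegral_bind κ'.aemeasurable (measurable_avgL hσ hF).aemeasurable]
  refine (h _ hF.lintegral_kernel).trans (lintegral_mono fun p => ?_)
  unfold avgL
  have hm : Measurable (fun q : Space3 × (Λ × LSt) => F (q.2.1, gal (σ q.2.1) q.1 q.2.2)) :=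
    hF.comp ((measurable_galL hσ).comp (measurable_snd.prodMk measurable_fst))
  calc ∫⁻ u in Metric.ball (0 : Space3) 1, ∫⁻ p', F p' ∂κ (p.1, gal (σ p.1) u p.2)
      ≤ ∫⁻ u in Metric.ball (0 : Space3) 1, ∫⁻ p', F (p'.1, gal (σ p'.1) u p'.2) ∂κ' p := by
        refine setLIntegral_mono' measurableSet_ball fun u hu => ?_
        have hu' : ‖u‖ < 1 := by simpa using hu
        exact hκ u hu'.le p F hF
    _ = _ := lintegral_lintegral_swap hm.aemeasurable

/-! ### Densities and links -/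

variable {Q : Type*} [MeasurableSpace Q]

/-- **General link theorem**, labelled.  `q ~ m` = everything integrated independently (link time
`T q`, relative structure, ...); `G (ℓ, q)` vanishes unless the age `|T q - σ ℓ|` is `≥ r`. -/
theorem SprL.link_gen (hσ : Measurable σ) (h : SprL σ Ξ ν) {r : ℝ}
    (hr : 0 < r) (m : Measure Q) [SFinite m] {T : Q → ℝ} (hT : Measurable T)
    {G : Λ × Q → ℝ≥0∞} (hG : Measurable G) (hGr : ∀ ℓ q, G (ℓ, q) ≠ 0 → r ≤ |T q - σ ℓ|)
    {A : (Λ × Q) × Space3 → ℝ≥0∞} (hA : Measurable A)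
    {ψ Ψ : Λ × (ℝ × Space3) → ℝ≥0∞} (hψ : Measurable ψ) (hΨ : Measurable Ψ)
    (hle : ∀ ℓ τ u v, ‖u‖ < 1 → ψ (ℓ, (τ, v + u)) ≤ Ψ (ℓ, (τ, v))) :
    ∫⁻ p, ∫⁻ q, ψ (p.1, (p.2.1, p.2.2.2)) *
        (G (p.1, q) * A ((p.1, q), posAt (T q) p.2)) ∂m ∂ν ≤
      ENNReal.ofReal (r⁻¹ ^ 3) * ∫⁻ p, Ψ (p.1, (p.2.1, p.2.2.2)) *
        ∫⁻ q, G (p.1, q) * ∫⁻ x : Space3, A ((p.1, q), x) ∂volume ∂m ∂Ξ := by
  have hmA : Measurable (fun p : (Λ × LSt) × Q => A ((p.1.1, p.2), posAt (T p.2) p.1.2)) :=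
    hA.comp (((measurable_fst.comp measurable_fst).prodMk measurable_snd).prodMk
      (measurable_posAt.comp ((hT.comp measurable_snd).prodMk
        (measurable_snd.comp measurable_fst))))
  have hmG : Measurable (fun p : (Λ × LSt) × Q => G (p.1.1, p.2)) :=
    hG.comp ((measurable_fst.comp measurable_fst).prodMk measurable_snd)
  have hmψ : Measurable (fun p : Λ × LSt => ψ (p.1, (p.2.1, p.2.2.2))) := hψ.comp (by fun_prop)
  have hmΨ : Measurable (fun p : Λ × LSt => Ψ (p.1, (p.2.1, p.2.2.2))) := hΨ.comp (by fun_prop)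
  have hmT : Measurable (fun p : (Λ × LSt) × Q => ψ (p.1.1, (p.1.2.1, p.1.2.2.2)) *
      (G (p.1.1, p.2) * A ((p.1.1, p.2), posAt (T p.2) p.1.2))) :=
    (hmψ.comp measurable_fst).mul (hmG.mul hmA)
  have hF : Measurable (fun p : Λ × LSt => ∫⁻ q, ψ (p.1, (p.2.1, p.2.2.2)) *
      (G (p.1, q) * A ((p.1, q), posAt (T q) p.2)) ∂m) := hmT.lintegral_prod_right'
  have hmI : Measurable (fun q : Λ × Q => ∫⁻ x : Space3, A (q, x)) := hA.lintegral_prod_right'
  have hmGI : Measurable (fun p : (Λ × LSt) × Q =>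
      G (p.1.1, p.2) * ∫⁻ x : Space3, A ((p.1.1, p.2), x)) :=
    hmG.mul (hmI.comp ((measurable_fst.comp measurable_fst).prodMk measurable_snd))
  have hmR : Measurable (fun p : Λ × LSt => Ψ (p.1, (p.2.1, p.2.2.2)) *
        ∫⁻ q, G (p.1, q) * ∫⁻ x : Space3, A ((p.1, q), x) ∂volume ∂m) :=
    hmΨ.mul hmGI.lintegral_prod_right'
  refine (h _ hF).trans ?_
  rw [← lintegral_const_mul _ hmR]
  refine lintegral_mono fun p => ?_
  obtain ⟨ℓ, z⟩ := p
  unfold avgL
  simp only
  have hmu : Measurable (fun q : Space3 × Q => ψ (ℓ, ((gal (σ ℓ) q.1 z).1,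
      (gal (σ ℓ) q.1 z).2.2)) * (G (ℓ, q.2) * A ((ℓ, q.2), posAt (T q.2) (gal (σ ℓ) q.1 z)))) := by
    have h1 : Measurable (fun q : Space3 × Q => (((ℓ, gal (σ ℓ) q.1 z), q.2) : (Λ × LSt) × Q)) :=
      (measurable_const.prodMk ((measurable_gal_uz (σ ℓ)).comp
        (measurable_fst.prodMk measurable_const))).prodMk measurable_snd
    exact hmT.comp h1
  rw [lintegral_lintegral_swap hmu.aemeasurable]
  have hmq : Measurable (fun q : Q => G (ℓ, q) * ∫⁻ x : Space3, A ((ℓ, q), x)) := by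
    have h5 : Measurable (fun q : Q => (((ℓ, z), q) : (Λ × LSt) × Q)) :=
      measurable_const.prodMk measurable_id
    exact hmGI.comp h5
  rw [← lintegral_const_mul _ hmq, ← lintegral_const_mul _ (hmq.const_mul _)]
  refine lintegral_mono fun q => ?_
  by_cases hG0 : G (ℓ, q) = 0
  · simp [hG0]
  have hrq : r ≤ |T q - σ ℓ| := hGr ℓ q hG0
  have h0 : T q ≠ σ ℓ := by
    intro h1
    rw [h1] at hrq
    simp at hrq
    linarith
  have hmaq : Measurable (fun x : Space3 => A ((ℓ, q), x)) :=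
    hA.comp (measurable_const.prodMk measurable_id)
  have h2 := avg_pos_le (s0 := σ ℓ) (t := T q) h0 hmaq (ψ := fun p => ψ (ℓ, p))
    (Ψ := fun p => Ψ (ℓ, p)) (fun τ u v hu => hle ℓ τ u v hu) z
  have h3 : |T q - σ ℓ|⁻¹ ^ 3 ≤ r⁻¹ ^ 3 := by gcongr
  unfold avg at h2
  have hmz : Measurable (fun u : Space3 => A ((ℓ, q), posAt (T q) (gal (σ ℓ) u z)) *
      ψ (ℓ, ((gal (σ ℓ) u z).1, (gal (σ ℓ) u z).2.2))) := by
    have h4 : Measurable (fun u : Space3 => gal (σ ℓ) u z) :=
      (measurable_gal_uz (σ ℓ)).comp (measurable_id.prodMk measurable_const)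
    refine (hmaq.comp ((measurable_posAt_t (T q)).comp h4)).mul (hψ.comp ?_)
    exact measurable_const.prodMk ((measurable_fst.comp h4).prodMk
      (measurable_snd.comp (measurable_snd.comp h4)))
  calc ∫⁻ u in Metric.ball (0 : Space3) 1, ψ (ℓ, ((gal (σ ℓ) u z).1, (gal (σ ℓ) u z).2.2)) *
        (G (ℓ, q) * A ((ℓ, q), posAt (T q) (gal (σ ℓ) u z)))
      = ∫⁻ u in Metric.ball (0 : Space3) 1, G (ℓ, q) *
          (A ((ℓ, q), posAt (T q) (gal (σ ℓ) u z)) *
            ψ (ℓ, ((gal (σ ℓ) u z).1, (gal (σ ℓ) u z).2.2))) := by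
        refine lintegral_congr fun u => ?_
        ring
    _ = G (ℓ, q) * ∫⁻ u in Metric.ball (0 : Space3) 1,
          A ((ℓ, q), posAt (T q) (gal (σ ℓ) u z)) *
            ψ (ℓ, ((gal (σ ℓ) u z).1, (gal (σ ℓ) u z).2.2)) := lintegral_const_mul _ hmz
    _ ≤ G (ℓ, q) * ((ENNReal.ofReal (|T q - σ ℓ|⁻¹ ^ 3) * ∫⁻ x, A ((ℓ, q), x)) *
          Ψ (ℓ, (z.1, z.2.2))) := mul_le_mul_right h2 _
    _ ≤ G (ℓ, q) * ((ENNReal.ofReal (r⁻¹ ^ 3) * ∫⁻ x, A ((ℓ, q), x)) *
          Ψ (ℓ, (z.1, z.2.2))) := by gcongr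
    _ = _ := by ring

/-- **Link**, labelled: the marked line `H (ℓ, q)` (relative to the contact point) of a fresh
structure contacted by the spread line has a full density. -/
theorem SprL.link (hσ : Measurable σ) (h : SprL σ Ξ ν) {r : ℝ}
    (hr : 0 < r) (m : Measure Q) [SFinite m] {T : Q → ℝ} (hT : Measurable T)
    {G : Λ × Q → ℝ≥0∞} (hG : Measurable G) (hGr : ∀ ℓ q, G (ℓ, q) ≠ 0 → r ≤ |T q - σ ℓ|)
    {H : Λ × Q → LSt} (hH : Measurable H) {F : Λ × Q → LSt → ℝ≥0∞}
    (hF : Measurable (Function.uncurry F))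
    {ψ Ψ : Λ × (ℝ × Space3) → ℝ≥0∞} (hψ : Measurable ψ) (hΨ : Measurable Ψ)
    (hle : ∀ ℓ τ u v, ‖u‖ < 1 → ψ (ℓ, (τ, v + u)) ≤ Ψ (ℓ, (τ, v))) :
    ∫⁻ p, ∫⁻ q, ψ (p.1, (p.2.1, p.2.2.2)) *
        (G (p.1, q) * F (p.1, q) (shiftX (posAt (T q) p.2) (H (p.1, q)))) ∂m ∂ν ≤
      ENNReal.ofReal (r⁻¹ ^ 3) * ∫⁻ p, Ψ (p.1, (p.2.1, p.2.2.2)) *
        ∫⁻ q, G (p.1, q) *
          ∫⁻ x : Space3, F (p.1, q) ((H (p.1, q)).1, (x, (H (p.1, q)).2.2)) ∂volume ∂m ∂Ξ := by
  have hA : Measurable (fun p : (Λ × Q) × Space3 => F p.1 (shiftX p.2 (H p.1))) := by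
    have h1 : Measurable (fun p : (Λ × Q) × Space3 =>
        ((p.1, shiftX p.2 (H p.1)) : (Λ × Q) × LSt)) :=
      measurable_fst.prodMk (measurable_shiftX.comp
        (measurable_snd.prodMk (hH.comp measurable_fst)))
    exact hF.comp h1
  refine (h.link_gen hσ hr m hT hG hGr hA hψ hΨ hle).trans (le_of_eq ?_)
  congr 1
  refine lintegral_congr fun p => ?_
  congr 1
  refine lintegral_congr fun q => ?_
  congr 1
  have e1 : ∀ x : Space3, F (p.1, q) (shiftX x (H (p.1, q))) =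
      (fun x => F (p.1, q) ((H (p.1, q)).1, (x, (H (p.1, q)).2.2))) ((H (p.1, q)).2.1 + x) := by
    intro x; rfl
  simp_rw [e1]
  exact lintegral_add_left_eq_self
    (fun x => F (p.1, q) ((H (p.1, q)).1, (x, (H (p.1, q)).2.2))) (H (p.1, q)).2.1


end Crest.Agent.R122.Boost969
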