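import Crest.Agent.R122.SizeCross_815
import Crest.Agent.R122.PairDefs_292
import Crest.Agent.R122.PairRoot_292
import Crest.Agent.R122.PairSplit_292
import Crest.Agent.R122.MeasPair_522
import Crest.Agent.R122.EMDefs_602

-- ▼ part R122/SizeCross6_815
section

/-!
helper815, row 122: **size crossings** of INEQUALITY 3 (pair laws), `StmtXC6` of `PairDefs_292`.

* `ct_vol_le` : volume of the positions from which a free line meets the root line of a tree;
* `pair_flux_le` : the flux of the second line of a translation invariant pair law through the root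
  line of a fixed tree;
* `px_weight_le` : the weight `(1 + |v_e|) μ^mark` through `PX`;
* `stmtXC6` : `StmtXC6`.
-/

set_option autoImplicit false

open MeasureTheory Set Filter
open scoped ENNReal Topology Classical
open Crest.AnalysisR.Kinetic Crest.Agent.R122.Kin796 Crest.Agent.R122.Disc416
  Crest.Agent.R122.Kin416 Crest.Agent.R122.Tree674
  Crest.Agent.R122.Hid424 Crest.Agent.R122.Quench815 Crest.Agent.R122.QDens815
  Crest.Agent.R122.GC311 Crest.Agent.R122.EDefs602 Crest.Agent.R122.OneC285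
  Crest.Agent.R122.OneC423 Crest.Agent.R122.Q1815 Crest.Agent.R122.Master566
  Crest.Agent.R122.PairD292
open Crest.Agent.R122.Boost969 (LSt gal avgL SprL)
open Crest.Agent.R122.Pair292 (Lab PPar PX posD shP sig)

noncomputable section

namespace Crest.Agent.R122.XC815

open CTree

variable {Φ : Space3 → ℝ} {f₀ : PhasePoint → ℝ} {f : ℝ → PhasePoint → ℝ} {β T : ℝ}

/-! ### Flux through the root line -/

/-- volume of the positions from which a free line meets the root line of a fixed tree -/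
theorem ct_vol_le (hΦ : AdmissiblePotential Φ) {ε : ℝ} (hε : 0 < ε) {P : CTree}
    (z : PhasePoint × Par P) {te τ : ℝ} (hτ : 0 < τ) (v : Space3) :
    ∫⁻ y : Space3, {l : LSt | (z, l) ∈ ctSet Φ ε te P}.indicator (fun _ => (1 : ℝ≥0∞)) (τ, (y, v)) ≤
      ENNReal.ofReal (ε ^ 2) * (ENNReal.ofReal te * ENNReal.ofReal Real.pi *
        ENNReal.ofReal (1 + ‖z.1.2‖)) * (if τ ≤ te then ENNReal.ofReal (1 + ‖v‖) else 0) := by
  have h0 := lintegral_ct_y (te := te) hΦ hε z τ v 0 (H := fun _ => (1 : ℝ≥0∞)) measurable_const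
  have e1 : ∀ y : Space3, {l : LSt | (z, l) ∈ ctSet Φ ε te P}.indicator
      (fun _ => (1 : ℝ≥0∞)) (τ, (y, v)) = {l : ML | (z, l.1) ∈ ctSet Φ ε te P}.indicator
        (fun _ => (1 : ℝ≥0∞)) ((τ, (y, v)), 0) := fun y => rfl
  simp only [e1]
  rw [h0]
  simp only [lintegral_const, Measure.restrict_apply_univ, one_mul]
  by_cases hte : τ ≤ te
  · rw [if_pos hte]
    have hJ : volume {s | τ < s ∧ s ≤ te ∧ Valid Φ ε P s z.1.2 z.2} ≤ ENNReal.ofReal te := by
      refine (measure_mono (t := Ioc 0 te) fun s hs => ⟨hτ.trans hs.1, hs.2.1⟩).trans ?_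
      rw [Real.volume_Ioc, sub_zero]
    by_cases hvu : v - z.1.2 = 0
    · rw [hvu, norm_zero, ENNReal.ofReal_zero, zero_mul, mul_zero]
      exact bot_le
    · rw [measure_impactDisc hvu]
      have h1 := norm_sub_le_mul v z.1.2
      calc ENNReal.ofReal (ε ^ 2) * (ENNReal.ofReal ‖v - z.1.2‖ *
            (ENNReal.ofReal Real.pi *
              volume {s | τ < s ∧ s ≤ te ∧ Valid Φ ε P s z.1.2 z.2}))
          ≤ ENNReal.ofReal (ε ^ 2) * ((ENNReal.ofReal (1 + ‖v‖) *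
            ENNReal.ofReal (1 + ‖z.1.2‖)) * (ENNReal.ofReal Real.pi * ENNReal.ofReal te)) := by
            gcongr
        _ = _ := by ring
  · rw [if_neg hte]
    have hJ : {s | τ < s ∧ s ≤ te ∧ Valid Φ ε P s z.1.2 z.2} = ∅ := by
      ext s
      simp only [mem_ofPred_eq, mem_empty_iff_false, iff_false]
      exact fun hh => hte (hh.1.le.trans hh.2.1)
    rw [hJ, measure_empty, mul_zero, mul_zero, mul_zero, mul_zero]

/-- **flux of the second line of a pair law through the root line of a fixed tree** -/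
theorem pair_flux_le (hΦ : AdmissiblePotential Φ) {ε : ℝ} (hε : 0 < ε) {ν : Measure (Lab × LSt)}
    (h : Pair292.InvFam shP (fun p : Lab × LSt => p.2) posD ν) {χ : Space3 → ℝ≥0∞}
    (hχ : Measurable χ) (hχ1 : ∫⁻ x, χ x = 1) {P : CTree} (z : PhasePoint × Par P) (te : ℝ)
    (g : ℕ → ℝ≥0∞) :
    ∫⁻ θ, {θ : Lab × LSt | (z, θ.2) ∈ ctSet Φ ε te P ∧ 0 < θ.2.1}.indicator
        (fun θ => g θ.1.2.2) θ ∂ν ≤
      ENNReal.ofReal (ε ^ 2) * (ENNReal.ofReal te * ENNReal.ofReal Real.pi *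
        ENNReal.ofReal (1 + ‖z.1.2‖)) *
        ∫⁻ θ, χ (posD θ) * (if θ.2.1 ≤ te then ENNReal.ofReal (1 + ‖θ.2.2.2‖) * g θ.1.2.2 else 0)
          ∂ν := by
  have hgm : Measurable fun θ : Lab × LSt => g θ.1.2.2 :=
    (Measurable.of_discrete (f := g)).comp (by fun_prop)
  have hS : MeasurableSet {θ : Lab × LSt | (z, θ.2) ∈ ctSet Φ ε te P ∧ 0 < θ.2.1} := by
    have h1 : Measurable fun θ : Lab × LSt => ((z, θ.2) : (PhasePoint × Par P) × (ℝ × PhasePoint)) :=
      measurable_const.prodMk measurable_snd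
    have h2 : Measurable fun θ : Lab × LSt => θ.2.1 := measurable_snd.fst
    exact (h1 (measurableSet_ctSet hΦ ε te P)).inter (measurableSet_lt measurable_const h2)
  have hfm : Measurable fun θ : Lab × LSt =>
      {θ : Lab × LSt | (z, θ.2) ∈ ctSet Φ ε te P ∧ 0 < θ.2.1}.indicator
        (fun θ => g θ.1.2.2) θ := hgm.indicator hS
  set A : ℝ≥0∞ := ENNReal.ofReal (ε ^ 2) * (ENNReal.ofReal te * ENNReal.ofReal Real.pi *
        ENNReal.ofReal (1 + ‖z.1.2‖)) with hA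
  have hwm : Measurable fun θ : Lab × LSt => χ (posD θ) *
      (if θ.2.1 ≤ te then ENNReal.ofReal (1 + ‖θ.2.2.2‖) * g θ.1.2.2 else 0) := by
    refine (hχ.comp Pair292.measurable_posD).mul (Measurable.ite ?_ ?_ measurable_const)
    · exact measurableSet_le (by fun_prop) measurable_const
    · exact Measurable.mul (by fun_prop) hgm
  rw [h.disint hχ hχ1 hfm, ← lintegral_const_mul _ hwm]
  refine lintegral_mono fun θ => ?_
  have key : ∫⁻ a : Space3, {θ : Lab × LSt | (z, θ.2) ∈ ctSet Φ ε te P ∧ 0 < θ.2.1}.indicator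
        (fun θ => g θ.1.2.2) (shP a θ) ≤
      A * (if θ.2.1 ≤ te then ENNReal.ofReal (1 + ‖θ.2.2.2‖) * g θ.1.2.2 else 0) := by
    by_cases hτ : 0 < θ.2.1
    · have e1 : ∀ a : Space3, {θ : Lab × LSt | (z, θ.2) ∈ ctSet Φ ε te P ∧ 0 < θ.2.1}.indicator
          (fun θ => g θ.1.2.2) (shP a θ) = {l : LSt | (z, l) ∈ ctSet Φ ε te P}.indicator
            (fun _ => (1 : ℝ≥0∞)) (θ.2.1, (θ.2.2.1 + a, θ.2.2.2)) * g θ.1.2.2 := by
        intro a
        by_cases hc : (z, ((θ.2.1, (θ.2.2.1 + a, θ.2.2.2)) : LSt)) ∈ ctSet Φ ε te P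
        · rw [indicator_of_mem (show shP a θ ∈ {θ : Lab × LSt | (z, θ.2) ∈ ctSet Φ ε te P ∧
              0 < θ.2.1} from ⟨hc, hτ⟩), indicator_of_mem (show
              ((θ.2.1, (θ.2.2.1 + a, θ.2.2.2)) : LSt) ∈ {l : LSt | (z, l) ∈ ctSet Φ ε te P}
              from hc), one_mul]
          rfl
        · rw [indicator_of_notMem (show shP a θ ∉ {θ : Lab × LSt | (z, θ.2) ∈ ctSet Φ ε te P ∧
              0 < θ.2.1} from fun hh => hc hh.1), indicator_of_notMem (show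
              ((θ.2.1, (θ.2.2.1 + a, θ.2.2.2)) : LSt) ∉ {l : LSt | (z, l) ∈ ctSet Φ ε te P}
              from hc), zero_mul]
      simp only [e1]
      have hm1 : Measurable fun y : Space3 => {l : LSt | (z, l) ∈ ctSet Φ ε te P}.indicator
          (fun _ => (1 : ℝ≥0∞)) (θ.2.1, (y, θ.2.2.2)) := by
        have h1 : Measurable fun y : Space3 =>
            ((z, (θ.2.1, (y, θ.2.2.2))) : (PhasePoint × Par P) × (ℝ × PhasePoint)) := by
          fun_prop
        have h2 := h1 (measurableSet_ctSet hΦ ε te P)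
        exact (measurable_const (a := (1 : ℝ≥0∞))).indicator h2
      have hm2 : Measurable fun a : Space3 => {l : LSt | (z, l) ∈ ctSet Φ ε te P}.indicator
          (fun _ => (1 : ℝ≥0∞)) (θ.2.1, (θ.2.2.1 + a, θ.2.2.2)) :=
        hm1.comp (measurable_const.add measurable_id)
      rw [lintegral_mul_const _ hm2]
      have e2 : ∫⁻ a : Space3, {l : LSt | (z, l) ∈ ctSet Φ ε te P}.indicator
          (fun _ => (1 : ℝ≥0∞)) (θ.2.1, (θ.2.2.1 + a, θ.2.2.2)) =
          ∫⁻ y : Space3, {l : LSt | (z, l) ∈ ctSet Φ ε te P}.indicator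
          (fun _ => (1 : ℝ≥0∞)) (θ.2.1, (y, θ.2.2.2)) :=
        lintegral_add_left_eq_self (fun y : Space3 => {l : LSt | (z, l) ∈ ctSet Φ ε te P}.indicator
          (fun _ => (1 : ℝ≥0∞)) (θ.2.1, (y, θ.2.2.2))) θ.2.2.1
      rw [e2]
      refine (mul_le_mul_left (ct_vol_le hΦ hε z hτ θ.2.2.2) _).trans (le_of_eq ?_)
      rw [mul_assoc, ite_mul, zero_mul]
    · have e1 : ∀ a : Space3, {θ : Lab × LSt | (z, θ.2) ∈ ctSet Φ ε te P ∧ 0 < θ.2.1}.indicator
          (fun θ => g θ.1.2.2) (shP a θ) = 0 := fun a =>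
        indicator_of_notMem (show shP a θ ∉ {θ : Lab × LSt | (z, θ.2) ∈ ctSet Φ ε te P ∧
              0 < θ.2.1} from fun hh => hτ hh.2) _
      simp only [e1, lintegral_zero]
      exact bot_le
  calc χ (posD θ) * ∫⁻ a : Space3, {θ : Lab × LSt | (z, θ.2) ∈ ctSet Φ ε te P ∧
        0 < θ.2.1}.indicator (fun θ => g θ.1.2.2) (shP a θ)
      ≤ χ (posD θ) * (A * (if θ.2.1 ≤ te then ENNReal.ofReal (1 + ‖θ.2.2.2‖) * g θ.1.2.2
          else 0)) := mul_le_mul_right key _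
    _ = _ := by ring

/-! ### The weight of the second line -/

/-- the weight of the second line through the spread law -/
theorem px_weight_le {PP : PPar} {Ξ ν : Measure (Lab × LSt)} {c : ℝ≥0∞} (h : PX PP Ξ ν c)
    {te : ℝ} (hv : ∀ z : LSt, z.1 ≤ te → ENNReal.ofReal (1 + ‖z.2.2‖) ≤ PP.W z) {μ : ℝ≥0∞}
    (hμ : μ ≤ PP.lam₁) {χ : Space3 → ℝ≥0∞} (hχ : Measurable χ) :
    ∫⁻ θ, χ (posD θ) * (if θ.2.1 ≤ te then ENNReal.ofReal (1 + ‖θ.2.2.2‖) * μ ^ θ.1.2.2 else 0)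
        ∂ν ≤
      2 * volume (Metric.ball (0 : Space3) 1) * (c * PP.rhs (fun q => χ q.1.1.2.1)) := by
  have hgm : Measurable fun θ : Lab × LSt => μ ^ θ.1.2.2 :=
    (Measurable.of_discrete (f := fun n : ℕ => μ ^ n)).comp (by fun_prop)
  have hGm : Measurable fun θ : Lab × LSt => χ (posD θ) *
      (if θ.2.1 ≤ te then ENNReal.ofReal (1 + ‖θ.2.2.2‖) * μ ^ θ.1.2.2 else 0) := by
    refine (hχ.comp Pair292.measurable_posD).mul (Measurable.ite ?_ ?_ measurable_const)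
    · exact measurableSet_le (by fun_prop) measurable_const
    · exact Measurable.mul (by fun_prop) hgm
  have hF : Measurable fun q : ML × ℝ => χ q.1.1.2.1 := hχ.comp (by fun_prop)
  have hwm : Measurable fun p : Lab × LSt =>
      χ (posD p) * (PP.lam₁ ^ p.1.2.2 * PP.W p.2) := by
    refine (hχ.comp Pair292.measurable_posD).mul (Measurable.mul ?_ (PP.hW.comp measurable_snd))
    exact (Measurable.of_discrete (f := fun n : ℕ => PP.lam₁ ^ n)).comp (by fun_prop)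
  refine (h.spr _ hGm).trans ?_
  have h1 : ∀ p : Lab × LSt, avgL sig (fun θ : Lab × LSt => χ (posD θ) *
      (if θ.2.1 ≤ te then ENNReal.ofReal (1 + ‖θ.2.2.2‖) * μ ^ θ.1.2.2 else 0)) p ≤
      2 * volume (Metric.ball (0 : Space3) 1) *
        (χ (posD p) * (PP.lam₁ ^ p.1.2.2 * PP.W p.2)) := by
    intro p
    unfold avgL
    have h2 : ∀ u ∈ Metric.ball (0 : Space3) 1, χ (posD (p.1, gal (sig p.1) u p.2)) *
        (if (gal (sig p.1) u p.2).1 ≤ te then
          ENNReal.ofReal (1 + ‖(gal (sig p.1) u p.2).2.2‖) * μ ^ p.1.2.2 else 0) ≤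
        2 * (χ (posD p) * (PP.lam₁ ^ p.1.2.2 * PP.W p.2)) := by
      intro u hu
      have e1 : posD (p.1, gal (sig p.1) u p.2) = posD p := rfl
      have e2 : (gal (sig p.1) u p.2).1 = p.2.1 := rfl
      have e3 : (gal (sig p.1) u p.2).2.2 = p.2.2.2 + u := rfl
      rw [e1, e2, e3]
      by_cases hte : p.2.1 ≤ te
      · rw [if_pos hte]
        have h3 : ENNReal.ofReal (1 + ‖p.2.2.2 + u‖) ≤ 2 * PP.W p.2 := by
          refine le_trans ?_ (mul_le_mul_right (hv p.2 hte) 2)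
          have e4 : (2 : ℝ≥0∞) * ENNReal.ofReal (1 + ‖p.2.2.2‖) =
              ENNReal.ofReal (2 * (1 + ‖p.2.2.2‖)) := by
            rw [ENNReal.ofReal_mul (by norm_num), ENNReal.ofReal_ofNat]
          rw [e4]
          refine ENNReal.ofReal_le_ofReal ?_
          have h4 := norm_add_le p.2.2.2 u
          have h5 : ‖u‖ < 1 := by simpa using hu
          nlinarith [norm_nonneg p.2.2.2]
        have h4 : μ ^ p.1.2.2 ≤ PP.lam₁ ^ p.1.2.2 := pow_le_pow_left' hμ _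
        calc χ (posD p) * (ENNReal.ofReal (1 + ‖p.2.2.2 + u‖) * μ ^ p.1.2.2)
            ≤ χ (posD p) * ((2 * PP.W p.2) * PP.lam₁ ^ p.1.2.2) := by gcongr
          _ = _ := by ring
      · rw [if_neg hte, mul_zero]
        exact bot_le
    refine (setLIntegral_mono' measurableSet_ball h2).trans (le_of_eq ?_)
    rw [setLIntegral_const]
    ring
  refine (lintegral_mono h1).trans ?_
  rw [lintegral_const_mul _ hwm]
  exact mul_le_mul_right (h.marg _ hF) _

/-- the line measure of the test function of the first line -/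
theorem rhs_le {PP : PPar} {γ : ℝ → ℝ} {ρ : ℝ≥0∞} {K : ℕ} {te : ℝ} (hl : PP.ℓ = lineM γ ρ K te)
    (ht : PP.t' = te) (hγ : Measurable γ) {g0 : ℝ} (hγ0 : ∀ τ ∈ Ioc (0 : ℝ) te, g0 ≤ γ τ)
    {χ : Space3 → ℝ≥0∞} (hχ : Measurable χ) (hχ1 : ∫⁻ x, χ x = 1) :
    PP.rhs (fun q => χ q.1.1.2.1) ≤
      (1 + ENNReal.ofReal te) * (ENNReal.ofReal te * (cV g0 * (1 - ρ)⁻¹)) := by
  have hF : Measurable fun l : ML => χ l.1.2.1 := hχ.comp (by fun_prop)
  have h1 : ∫⁻ l, χ l.1.2.1 ∂(lineM γ ρ K te) ≤ ENNReal.ofReal te * (cV g0 * (1 - ρ)⁻¹) := by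
    rw [EBasic602.lintegral_lineM hγ hF]
    have h2 : ∀ τ ∈ Ioc (0 : ℝ) te, ∫⁻ v : Space3, wG (γ τ) v *
        ∫⁻ y : Space3, ∑' n : ℕ, markW ρ K n * χ y ≤ cV g0 * (1 - ρ)⁻¹ := by
      intro τ hτ
      have e1 : ∫⁻ y : Space3, ∑' n : ℕ, markW ρ K n * χ y = ∑' n : ℕ, markW ρ K n := by
        have : ∀ y : Space3, ∑' n : ℕ, markW ρ K n * χ y = (∑' n : ℕ, markW ρ K n) * χ y :=
          fun y => ENNReal.tsum_mul_right
        simp only [this]
        rw [lintegral_const_mul _ hχ, hχ1, mul_one]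
      rw [e1]
      have hm : Measurable fun v : Space3 => wG g0 v * ENNReal.ofReal (1 + ‖v‖) := by
        unfold wG
        fun_prop
      calc ∫⁻ v : Space3, wG (γ τ) v * ∑' n : ℕ, markW ρ K n
          ≤ ∫⁻ v : Space3, wG g0 v * ENNReal.ofReal (1 + ‖v‖) * (1 - ρ)⁻¹ := by
            refine lintegral_mono fun v => mul_le_mul' ?_ (EBasic602.tsum_markW_le K)
            refine (Kin796.wG_anti (hγ0 τ hτ) v).trans (le_mul_of_one_le_right' ?_)
            rw [← ENNReal.ofReal_one]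
            exact ENNReal.ofReal_le_ofReal (by linarith [norm_nonneg v])
        _ = _ := by rw [lintegral_mul_const _ hm]; rfl
    refine (setLIntegral_mono' measurableSet_Ioc h2).trans (le_of_eq ?_)
    rw [setLIntegral_const, Real.volume_Ioc, sub_zero, mul_comm]
  unfold PPar.rhs
  simp only [lintegral_const, Measure.restrict_apply_univ]
  rw [hl, ht, Real.volume_Icc, sub_zero, lintegral_mul_const _ hF, add_mul, one_mul]
  refine add_le_add h1 ?_
  rw [mul_comm]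
  exact mul_le_mul_right h1 _

/-! ### The crossings -/

/-- weight of the sizes -/
def r6 (m : ℝ) (K : ℕ) (P : CTree) : ℝ≥0∞ :=
  if P.leaves ≤ K then ENNReal.ofReal m⁻¹ ^ K * ENNReal.ofReal m ^ P.leaves else 0

theorem r6_ne_top (m : ℝ) (K : ℕ) (P : CTree) : r6 m K P ≠ ∞ := by
  unfold r6
  split_ifs
  · exact ENNReal.mul_ne_top (ENNReal.pow_ne_top ENNReal.ofReal_ne_top)
      (ENNReal.pow_ne_top ENNReal.ofReal_ne_top)
  · exact ENNReal.zero_ne_top

/-- the crossing indicator against the weights -/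
theorem cross_le {m : ℝ} (hm : 1 ≤ m) {K n : ℕ} {P : CTree} (hP : P.leaves ≤ K)
    (h : K < n + P.leaves) : (1 : ℝ≥0∞) ≤ r6 m K P * ENNReal.ofReal m ^ n := by
  unfold r6
  rw [if_pos hP]
  have h1 : (1 : ℝ≥0∞) ≤ ENNReal.ofReal m := by
    rw [← ENNReal.ofReal_one]
    exact ENNReal.ofReal_le_ofReal hm
  have h2 : ENNReal.ofReal m⁻¹ * ENNReal.ofReal m = 1 := by
    rw [← ENNReal.ofReal_mul (by positivity), inv_mul_cancel₀ (by linarith), ENNReal.ofReal_one]
  calc (1 : ℝ≥0∞) = (ENNReal.ofReal m⁻¹ * ENNReal.ofReal m) ^ K := by rw [h2, one_pow]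
    _ = ENNReal.ofReal m⁻¹ ^ K * ENNReal.ofReal m ^ K := mul_pow _ _ _
    _ ≤ ENNReal.ofReal m⁻¹ ^ K * ENNReal.ofReal m ^ (P.leaves + n) :=
        mul_le_mul_right (pow_le_pow_right₀ h1 (by omega)) _
    _ = _ := by rw [pow_add, mul_assoc]

/-- weight of the quenched densities -/
def φ6 (m : ℝ) (K : ℕ) (P : CTree) : ℝ × PhasePoint × Par P → ℝ≥0∞ := fun q =>
  r6 m K P * rootA P q

theorem measurable_φ6 (m : ℝ) (K : ℕ) (P : CTree) : Measurable (φ6 m K P) :=
  (measurable_rootA P).const_mul _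

theorem φ6_ne_top (m : ℝ) (K : ℕ) (P : CTree) (q : ℝ × PhasePoint × Par P) :
    φ6 m K P q ≠ ∞ := ENNReal.mul_ne_top (r6_ne_top m K P) ENNReal.ofReal_ne_top

/-- coefficient of the crossing mass -/
def a6 (m M : ℝ) (K : ℕ) : ℝ≥0∞ :=
  (ENNReal.ofReal m * (2 * ENNReal.ofReal M)) * ENNReal.ofReal m⁻¹ ^ K

theorem a6_ne_top (m M : ℝ) (K : ℕ) : a6 m M K ≠ ∞ := by
  unfold a6
  exact ENNReal.mul_ne_top (ENNReal.mul_ne_top ENNReal.ofReal_ne_top
    (ENNReal.mul_ne_top (by norm_num) ENNReal.ofReal_ne_top))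
    (ENNReal.pow_ne_top ENNReal.ofReal_ne_top)

theorem tendsto_a6 {m : ℝ} (hm : 1 < m) (M : ℝ) : Tendsto (a6 m M) atTop (𝓝 0) := by
  have h1 : ENNReal.ofReal m⁻¹ < 1 := by
    rw [← ENNReal.ofReal_one]
    exact (ENNReal.ofReal_lt_ofReal_iff one_pos).2 (inv_lt_one_of_one_lt₀ hm)
  have h2 := ENNReal.tendsto_pow_atTop_nhds_zero_of_lt_one h1
  have h3 : ENNReal.ofReal m * (2 * ENNReal.ofReal M) ≠ ∞ :=
    ENNReal.mul_ne_top ENNReal.ofReal_ne_top
      (ENNReal.mul_ne_top (by norm_num) ENNReal.ofReal_ne_top)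
  have := ENNReal.Tendsto.const_mul (a := ENNReal.ofReal m * (2 * ENNReal.ofReal M)) h2
    (Or.inr h3)
  rwa [mul_zero] at this

theorem φ6_le (hΦ : AdmissiblePotential Φ) {m lam lam₁ kap M : ℝ} (hm : 0 < m)
    (h2 : m * lam₁ ≤ lam) (hM : ∀ (P : CTree) (s : ℝ) (ℓ : PhasePoint) (p : Par P),
      wtA Φ P (s, ℓ, p) ≤ ENNReal.ofReal M * ENNReal.ofReal lam₁ ^ P.size *
        ENNReal.ofReal (Real.exp (kap * Seg814.eng Φ P ℓ.2 p)))
    {K : ℕ} {P : CTree} (s : ℝ) (ℓ : PhasePoint) (p : Par P)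
    (hA : Adm Φ P ℓ.2 p) : φ6 m K P (s, ℓ, p) ≤ a6 m M K *
      ENNReal.ofReal lam ^ P.size * ENNReal.ofReal (Real.exp (kap * Seg814.eng Φ P ℓ.2 p)) := by
  by_cases hP : P.leaves ≤ K
  swap
  · unfold φ6 r6
    rw [if_neg hP, zero_mul]
    exact bot_le
  have h3 : rootA P (s, ℓ, p) ≤ 2 * (ENNReal.ofReal M * ENNReal.ofReal lam₁ ^ P.size *
      ENNReal.ofReal (Real.exp (kap * Seg814.eng Φ P ℓ.2 p))) :=
    (rootA_le_wtA hΦ hA).trans (mul_le_mul_right (hM P s ℓ p) 2)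
  have h4 : ENNReal.ofReal m * ENNReal.ofReal lam₁ ≤ ENNReal.ofReal lam := by
    rw [← ENNReal.ofReal_mul hm.le]
    exact ENNReal.ofReal_le_ofReal h2
  calc φ6 m K P (s, ℓ, p) ≤ (ENNReal.ofReal m⁻¹ ^ K * ENNReal.ofReal m ^ (P.size + 1)) *
        (2 * (ENNReal.ofReal M * ENNReal.ofReal lam₁ ^ P.size *
          ENNReal.ofReal (Real.exp (kap * Seg814.eng Φ P ℓ.2 p)))) := by
        unfold φ6 r6
        rw [if_pos hP, CTree.leaves_eq P]
        exact mul_le_mul_right h3 _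
    _ = a6 m M K * (ENNReal.ofReal m * ENNReal.ofReal lam₁) ^ P.size *
          ENNReal.ofReal (Real.exp (kap * Seg814.eng Φ P ℓ.2 p)) := by
        unfold a6
        rw [pow_succ, mul_pow]
        ring
    _ ≤ _ := by gcongr

/-- the constant of the crossings -/
def C6 (te g0 : ℝ) (ρ : ℝ≥0∞) : ℝ≥0∞ :=
  (ENNReal.ofReal te * ENNReal.ofReal Real.pi) * (2 * volume (Metric.ball (0 : Space3) 1) *
    ((1 + ENNReal.ofReal te) * (ENNReal.ofReal te * (cV g0 * (1 - ρ)⁻¹))))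

theorem C6_ne_top {te g0 : ℝ} (hg0 : 0 < g0) {ρ : ℝ≥0∞} (hρ : ρ < 1) : C6 te g0 ρ ≠ ∞ := by
  have h1 : (1 - ρ)⁻¹ ≠ ∞ := by
    rw [Ne, ENNReal.inv_eq_top, tsub_eq_zero_iff_le]
    exact not_le.2 hρ
  unfold C6
  refine ENNReal.mul_ne_top (ENNReal.mul_ne_top ENNReal.ofReal_ne_top ENNReal.ofReal_ne_top)
    (ENNReal.mul_ne_top (ENNReal.mul_ne_top (by norm_num) measure_ball_lt_top.ne)
      (ENNReal.mul_ne_top (ENNReal.add_ne_top.2 ⟨ENNReal.one_ne_top, ENNReal.ofReal_ne_top⟩)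
        (ENNReal.mul_ne_top ENNReal.ofReal_ne_top (ENNReal.mul_ne_top (cV_ne_top hg0) h1))))

/-- a normalised bump function -/
def chi (x : Space3) : ℝ≥0∞ :=
  (Metric.ball (0 : Space3) 1).indicator (fun _ => (volume (Metric.ball (0 : Space3) 1))⁻¹) x

theorem measurable_chi : Measurable chi := measurable_const.indicator measurableSet_ball

theorem lintegral_chi : ∫⁻ x, chi x = 1 := by
  unfold chi
  rw [lintegral_indicator_const measurableSet_ball]
  exact ENNReal.inv_mul_cancel (Metric.measure_ball_pos volume 0 one_pos).ne'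
    measure_ball_lt_top.ne

/-- the crossing mass against the quenched trees -/
theorem OS2_cross_le (hΦ : AdmissiblePotential Φ) (hf : Measurable f₀) {ε : ℝ} (hε : 0 < ε)
    {K : ℕ} {Q : EPar} (hγ : Measurable Q.γ) {g0 : ℝ}
    (hγ0 : ∀ τ ∈ Ioc (0 : ℝ) Q.te, g0 ≤ Q.γ τ) (T' : ℝ) {PP : PPar}
    (hl : PP.ℓ = lineM Q.γ Q.ρ K Q.te) (ht : PP.t' = Q.te)
    (hv : ∀ z : LSt, z.1 ≤ Q.te → ENNReal.ofReal (1 + ‖z.2.2‖) ≤ PP.W z) {m : ℝ} (hm : 1 ≤ m)
    (hml : ENNReal.ofReal m ≤ PP.lam₁) {Ξ ν : Measure (Lab × LSt)} {c : ℝ≥0∞}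
    (h : PX PP Ξ ν c) (hc : C6 Q.te g0 Q.ρ * c ≠ ∞) :
    OS2 Φ f₀ ε Q.te T' ν (fun P z _ w θ => PairD292.uG Φ ε Q.tw K P z w θ *
      (if K < (eL θ).2 + P.leaves then 1 else 0)) ≤
      (C6 Q.te g0 Q.ρ * c) * gcE f₀ ε fun _ w => ∑ P ∈ GIVStep383.trees K,
        ∫⁻ ℓ : PhasePoint, Dw Φ f₀ P (φ6 m K P) ε Q.tw T' ℓ w := by
  have hmD : ∀ P : CTree, ∀ n, Measurable fun w : Config n => ∫⁻ ℓ : PhasePoint,
      Dw Φ f₀ P (φ6 m K P) ε Q.tw T' ℓ w := fun P n => by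
    have h := (measurable_Dw_n hΦ hf (measurable_φ6 m K P) hε Q.tw n).comp
      (f := fun q : Config n × PhasePoint => (q.1, (T', q.2))) (by fun_prop)
    exact h.lintegral_prod_right'
  have e1 : (gcE f₀ ε fun (n : ℕ) (w : Config n) => ∑ P ∈ GIVStep383.trees K,
      ∫⁻ ℓ : PhasePoint, Dw Φ f₀ P (φ6 m K P) ε Q.tw T' ℓ w) =
      ∑ P ∈ GIVStep383.trees K, gcE f₀ ε fun (n : ℕ) (w : Config n) =>
        ∫⁻ ℓ : PhasePoint, Dw Φ f₀ P (φ6 m K P) ε Q.tw T' ℓ w :=
    gcE_finset_sum hf ε (GIVStep383.trees K) (F := fun P n w =>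
      ∫⁻ ℓ : PhasePoint, Dw Φ f₀ P (φ6 m K P) ε Q.tw T' ℓ w) fun P _ n => hmD P n
  rw [e1, Finset.mul_sum]
  unfold OS2
  rw [← ENNReal.tsum_mul_left]
  -- trees with more than `K` leaves do not contribute
  have e2 : ∀ P ∉ GIVStep383.trees K, (activity ε * ∫⁻ z : PhasePoint × Par P,
      {z : PhasePoint × Par P | Valid Φ ε P T' z.1.2 z.2}.indicator
      (fun z => wt Φ P z.1.2 z.2 * (ToTree335.pf Φ f₀ ε P z *
        gcE f₀ ε (fun _ w => ∫⁻ θ, {θ : Lab × LSt | (z, θ.2) ∈ OneC423.ctSet Φ ε Q.te P}.indicator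
          (fun θ => PairD292.uG Φ ε Q.tw K P z w θ *
            (if K < (eL θ).2 + P.leaves then 1 else 0)) θ ∂ν))) z) = 0 := by
    intro P hP
    have hP' : ¬ P.leaves ≤ K := fun hh => hP (GIVStep383.mem_trees.2 hh)
    have e3 : ∀ (z : PhasePoint × Par P) (n : ℕ) (w : Config n) (θ : Lab × LSt),
        PairD292.uG Φ ε Q.tw K P z w θ = 0 := fun z n w θ => if_neg fun hh => hP' hh.2
    simp only [e3, zero_mul, indicator_zero, lintegral_zero, gcE_zero, mul_zero]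
  rw [tsum_eq_sum e2]
  refine Finset.sum_le_sum fun P hP => ?_
  have hPK : P.leaves ≤ K := GIVStep383.mem_trees.1 hP
  rw [← lintegral_gw_unhit hΦ hf (measurable_φ6 m K P) (φ6_ne_top m K P) hε Q.tw T',
    ← lintegral_const_mul' _ _ hc, ← lintegral_const_mul' _ _
      (show activity ε ≠ ∞ from ENNReal.ofReal_ne_top)]
  refine lintegral_mono fun z => ?_
  by_cases hV : Valid Φ ε P T' z.1.2 z.2
  swap
  · rw [indicator_of_notMem (show z ∉ {z : PhasePoint × Par P | Valid Φ ε P T' z.1.2 z.2} from hV),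
      mul_zero]
    exact bot_le
  rw [indicator_of_mem (show z ∈ {z : PhasePoint × Par P | Valid Φ ε P T' z.1.2 z.2} from hV),
    gw_of_valid hV]
  -- the flux of the second line
  set A : ℝ≥0∞ := ENNReal.ofReal (ε ^ 2) * ((C6 Q.te g0 Q.ρ * c) *
    (ENNReal.ofReal (1 + ‖z.1.2‖) * r6 m K P)) with hA
  have hAt : A ≠ ∞ := ENNReal.mul_ne_top ENNReal.ofReal_ne_top (ENNReal.mul_ne_top hc
    (ENNReal.mul_ne_top ENNReal.ofReal_ne_top (r6_ne_top m K P)))
  have hfl : r6 m K P * ∫⁻ θ, {θ : Lab × LSt | (z, θ.2) ∈ ctSet Φ ε Q.te P ∧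
      0 < θ.2.1}.indicator (fun θ => ENNReal.ofReal m ^ θ.1.2.2) θ ∂ν ≤ A := by
    have h1 := pair_flux_le hΦ hε h.invFam measurable_chi lintegral_chi z Q.te
      (fun n => ENNReal.ofReal m ^ n)
    have h2 := px_weight_le h hv hml measurable_chi
    have h3 := rhs_le (K := K) hl ht hγ hγ0 measurable_chi lintegral_chi
    calc r6 m K P * ∫⁻ θ, {θ : Lab × LSt | (z, θ.2) ∈ ctSet Φ ε Q.te P ∧
          0 < θ.2.1}.indicator (fun θ => ENNReal.ofReal m ^ θ.1.2.2) θ ∂ν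
        ≤ r6 m K P * (ENNReal.ofReal (ε ^ 2) * (ENNReal.ofReal Q.te * ENNReal.ofReal Real.pi *
            ENNReal.ofReal (1 + ‖z.1.2‖)) * (2 * volume (Metric.ball (0 : Space3) 1) *
            (c * ((1 + ENNReal.ofReal Q.te) *
              (ENNReal.ofReal Q.te * (cV g0 * (1 - Q.ρ)⁻¹)))))) := by
          refine mul_le_mul_right (h1.trans (mul_le_mul_right (h2.trans ?_) _)) _
          gcongr
      _ = A := by
          rw [hA]
          unfold C6
          ring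
  have hin : gcE f₀ ε (fun _ w => ∫⁻ θ, {θ : Lab × LSt |
      (z, θ.2) ∈ OneC423.ctSet Φ ε Q.te P}.indicator
        (fun θ => PairD292.uG Φ ε Q.tw K P z w θ *
          (if K < (eL θ).2 + P.leaves then 1 else 0)) θ ∂ν) ≤
      A * gcE f₀ ε (fun _ w => GIV566.unhitInd Φ ε (hid Φ ε P z.1 z.2) Q.tw w) := by
    rw [← gcE_const_mul f₀ ε hAt]
    refine gcE_mono f₀ ε fun n w _ => ?_
    have hu : uI Φ ε Q.tw P z w ≠ ∞ := by
      unfold uI GIV566.unhitInd
      split_ifs <;> simp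
    have h4 : ∀ θ : Lab × LSt, {θ : Lab × LSt |
        (z, θ.2) ∈ OneC423.ctSet Φ ε Q.te P}.indicator
          (fun θ => PairD292.uG Φ ε Q.tw K P z w θ *
            (if K < (eL θ).2 + P.leaves then 1 else 0)) θ ≤
        (r6 m K P * uI Φ ε Q.tw P z w) * {θ : Lab × LSt | (z, θ.2) ∈ ctSet Φ ε Q.te P ∧
          0 < θ.2.1}.indicator (fun θ => ENNReal.ofReal m ^ θ.1.2.2) θ := by
      intro θ
      by_cases hθ : θ ∈ {θ : Lab × LSt | (z, θ.2) ∈ OneC423.ctSet Φ ε Q.te P}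
      swap
      · rw [indicator_of_notMem hθ]
        exact bot_le
      rw [indicator_of_mem hθ]
      unfold PairD292.uG
      by_cases hok : OkL K θ ∧ P.leaves ≤ K
      swap
      · rw [if_neg hok, zero_mul]
        exact bot_le
      rw [if_pos hok]
      by_cases hx : K < (eL θ).2 + P.leaves
      swap
      · rw [if_neg hx, mul_zero]
        exact bot_le
      rw [if_pos hx, mul_one, indicator_of_mem (show θ ∈ {θ : Lab × LSt |
        (z, θ.2) ∈ ctSet Φ ε Q.te P ∧ 0 < θ.2.1} from ⟨hθ, hok.1.e0⟩)]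
      have h5 := cross_le hm hPK hx
      calc uI Φ ε Q.tw P z w = 1 * uI Φ ε Q.tw P z w := (one_mul _).symm
        _ ≤ (r6 m K P * ENNReal.ofReal m ^ (eL θ).2) * uI Φ ε Q.tw P z w :=
            mul_le_mul_left h5 _
        _ = _ := by
            show (r6 m K P * ENNReal.ofReal m ^ θ.1.2.2) * uI Φ ε Q.tw P z w = _
            ring
    refine (lintegral_mono h4).trans ?_
    rw [lintegral_const_mul' _ _ (ENNReal.mul_ne_top (r6_ne_top m K P) hu)]
    calc r6 m K P * uI Φ ε Q.tw P z w * ∫⁻ θ, {θ : Lab × LSt |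
          (z, θ.2) ∈ ctSet Φ ε Q.te P ∧ 0 < θ.2.1}.indicator
            (fun θ => ENNReal.ofReal m ^ θ.1.2.2) θ ∂ν
        = (r6 m K P * ∫⁻ θ, {θ : Lab × LSt |
          (z, θ.2) ∈ ctSet Φ ε Q.te P ∧ 0 < θ.2.1}.indicator
            (fun θ => ENNReal.ofReal m ^ θ.1.2.2) θ ∂ν) * uI Φ ε Q.tw P z w := by ring
      _ ≤ A * GIV566.unhitInd Φ ε (hid Φ ε P z.1 z.2) Q.tw w :=
          mul_le_mul' hfl (unhitInd_rel_le hε.le hV Q.tw w)
  have hact : activity ε * ENNReal.ofReal (ε ^ 2) = 1 := by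
    unfold activity
    rw [← ENNReal.ofReal_mul (by positivity), inv_mul_cancel₀ (by positivity),
      ENNReal.ofReal_one]
  calc activity ε * (wt Φ P z.1.2 z.2 * (ToTree335.pf Φ f₀ ε P z * gcE f₀ ε (fun _ w =>
        ∫⁻ θ, {θ : Lab × LSt | (z, θ.2) ∈ OneC423.ctSet Φ ε Q.te P}.indicator
          (fun θ => PairD292.uG Φ ε Q.tw K P z w θ *
            (if K < (eL θ).2 + P.leaves then 1 else 0)) θ ∂ν)))
      ≤ activity ε * (wt Φ P z.1.2 z.2 * (ToTree335.pf Φ f₀ ε P z *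
          (A * gcE f₀ ε (fun _ w => GIV566.unhitInd Φ ε (hid Φ ε P z.1 z.2) Q.tw w)))) := by
        gcongr
    _ = (activity ε * ENNReal.ofReal (ε ^ 2)) * ((C6 Q.te g0 Q.ρ * c) * (wt Φ P z.1.2 z.2 *
          ToTree335.pf Φ f₀ ε P z * (r6 m K P * ENNReal.ofReal (1 + ‖z.1.2‖)) *
            gcE f₀ ε (fun _ w => GIV566.unhitInd Φ ε (hid Φ ε P z.1 z.2) Q.tw w))) := by
        rw [hA]
        ring
    _ = _ := by rw [hact, one_mul]; rfl

/-- **(XC)** : the size crossings of INEQUALITY 3 are small. -/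
theorem stmtXC6 (hD : KData Φ β T f₀ f) {Q : EPar} (htw : Q.tw ∈ Icc 0 T)
    (hG : GIV566.GIV Φ f₀ f T Q.tw) {h₀ kap lam b M : ℝ}
    (hK : KinL1.KinM Φ T f h₀ kap lam b M) {T' : ℝ} (hT' : 0 < T') (hT'2 : T' ≤ Q.tw + h₀)
    (hγ : Measurable Q.γ) {g0 : ℝ} (hg0 : 0 < g0) (hγ0 : ∀ τ ∈ Ioc (0 : ℝ) Q.te, g0 ≤ Q.γ τ)
    (hρ : Q.ρ < 1) (PP : ℕ → PPar) : StmtXC6 Φ f₀ Q T' PP := by
  intro hPP
  have hΦ := hD.adm
  have hf : Measurable f₀ := hD.contDiff.continuous.measurable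
  have X : Ctx Φ β T f₀ f T' Q.tw := Ctx.of_kdata hD htw hG hT'
  have hβ := hD.beta_pos
  have hlam : 1 < lam := hK.2.2.1
  have hkap : 0 < kap := hK.2.1
  set lam₁ : ℝ := Real.sqrt lam with hl1
  have hl1' : 1 < lam₁ := by
    rw [hl1]
    exact Real.lt_sqrt_of_sq_lt (by simpa using hlam)
  have hl2 : lam₁ * lam₁ = lam := Real.mul_self_sqrt (by linarith)
  set kap' : ℝ := min kap β with hkap'
  have hkap'0 : 0 < kap' := lt_min hkap hβ
  obtain ⟨MA, hMA, hMAle⟩ := exists_wtA_le Φ hl1' hkap'0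
  have hexp : ∀ (P : CTree) (v : Space3) (p : Par P),
      ENNReal.ofReal (Real.exp (kap' * Seg814.eng Φ P v p)) ≤
        ENNReal.ofReal (Real.exp (kap * Seg814.eng Φ P v p)) := fun P v p =>
    ENNReal.ofReal_le_ofReal (Real.exp_le_exp.2 (mul_le_mul_of_nonneg_right (min_le_left _ _)
      (Seg814.eng_nonneg P v p)))
  -- the factor of the marks
  obtain ⟨l, hl, hle⟩ := hPP.lam
  obtain ⟨m₀, hm₀, hm₀l⟩ := ENNReal.lt_iff_exists_real_btwn.1 hl
  set m : ℝ := min m₀ lam₁ with hm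
  have hm₀1 : 1 < m₀ := by
    have := hm₀l.1
    rw [← ENNReal.ofReal_one] at this
    exact (ENNReal.ofReal_lt_ofReal_iff_of_nonneg zero_le_one).1 this
  have hm1 : 1 < m := lt_min hm₀1 hl1'
  have hml : ∀ K, ENNReal.ofReal m ≤ (PP K).lam₁ := fun K =>
    (ENNReal.ofReal_le_ofReal (min_le_left _ _)).trans (hm₀l.2.le.trans (hle K))
  have hmlam : m * lam₁ ≤ lam := by
    rw [← hl2]
    exact mul_le_mul_of_nonneg_right (min_le_right _ _) (by linarith)
  have hsmall := small_time X hK (t := T') ⟨hT'.le, hT'2⟩ le_rfl (φ := fun K P => φ6 m K P)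
    (N := fun K => K) (fun K P =>
      Wgt.of_le (measurable_φ6 m K P) (kap := kap') (lam := lam)
        (by linarith [min_le_right kap β]) (a6_ne_top m MA K)
        (fun s ℓ p hA => φ6_le hΦ (by linarith) hmlam hMAle s ℓ p hA))
    (a := a6 m MA) (a6_ne_top m MA) (tendsto_a6 hm1 MA)
    (fun K P ℓ p _ hA => (φ6_le hΦ (by linarith) hmlam hMAle T' ℓ p hA).trans
      (mul_le_mul_right (hexp P ℓ.2 p) _))
  have hC : C6 Q.te g0 Q.ρ ≠ ∞ := C6_ne_top hg0 hρ
  have hpos : Small fun K (_ : ℝ) => ((2 : ℝ≥0∞)⁻¹) ^ K :=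
    Small.of_tendsto (ENNReal.tendsto_pow_atTop_nhds_zero_of_lt_one (by norm_num))
  refine ⟨_, (hsmall.const_mul hC).add hpos, fun K ε hε Ξ ν c hX => ?_⟩
  by_cases hc : c = ∞
  · have h1 : ((2 : ℝ≥0∞)⁻¹) ^ K ≠ 0 := by
      refine pow_ne_zero _ ?_
      simp
    rw [hc, ENNReal.top_mul]
    · exact le_top
    · intro hh
      exact h1 (add_eq_zero.1 hh).2
  have h2 := OS2_cross_le hΦ hf hε hγ hγ0 T' (hPP.ell K) (hPP.hor K) (hPP.vel K) hm1.le (hml K)
    hX (ENNReal.mul_ne_top hC hc)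
  refine h2.trans ?_
  rw [mul_comm (C6 Q.te g0 Q.ρ) c, mul_assoc]
  exact mul_le_mul_right le_self_add _

end Crest.Agent.R122.XC815

end
end

-- ▼ part R122/CaseC_658

/-!
# Row 122, section E, inequality 3, case (C) on the gas level (helper658)

* `outK`, `mrk` : output map and mark rule of the continued lines `outP .. k`.
* `outP_rootL` : the continued pair in root coordinates.
* `caseC` : `OS2 ν (uG * tPK w (outP k)) ≤ PELK (ν.bind (stO ..)) + c * δ`, `δ` null uniformly in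
  the pair law `ν` of class `PX` with constant `c`.
-/

set_option autoImplicit false
set_option linter.unusedSectionVars false

open MeasureTheory Set Filter ProbabilityTheory
open scoped ENNReal Classical Topology
open Crest.AnalysisR.Kinetic
open Crest.Agent.R122.Kin796 Crest.Agent.R122.Kin796.CTree Crest.Agent.R122.Tree674
open Crest.Agent.R122.Relabel674 Crest.Agent.R122.GC311 Crest.Agent.R122.Flow671
open Crest.Agent.R122.EDefs602 Crest.Agent.R122.TreeLines335 Crest.Agent.R122.Kin416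
open Crest.Agent.R122.Boost969 (LSt posAt)
open Crest.Agent.R122.Pair292 hiding ML
open Crest.Agent.R122.OneC285 (cfT rt cT cB cD cX lpos uI ptube RF MeasRF rfl4)
open Crest.Agent.R122.Q1815 Crest.Agent.R122.QDens815 Crest.Agent.R122.Disc416
open Crest.Agent.R122.Quench815 Crest.Agent.R122.PairD292

noncomputable section

namespace Crest.Agent.R122.CaseC658

variable {Φ : Space3 → ℝ} {f₀ : PhasePoint → ℝ} {f : ℝ → PhasePoint → ℝ} {ε : ℝ} {K : ℕ}

/-! ### Outputs -/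

/-- Output map of the continued line. -/
def outK (Φ : Space3 → ℝ) (ε : ℝ) : Option Bool → ℝ → Space3 → OCout796.CD → LSt
  | none => OCout796.lineC Φ ε
  | some false => OCout796.lineL' Φ ε
  | some true => OCout796.lineC' Φ ε

/-- Mark rule of the continued line: `m` leaves of the fresh tree, old mark `n`. -/
def mrk : Option Bool → ℕ → ℕ → ℕ
  | none => fun m _ => m
  | some _ => fun m n => n + m


theorem outMap_outK (hΦ : AdmissiblePotential Φ) (ε : ℝ) (k : Option Bool) :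
    OutMap (outK Φ ε k) := by
  rcases k with _ | (_ | _)
  · exact outMap_C hΦ ε
  · exact outMap_L' hΦ ε
  · exact outMap_C' hΦ ε

theorem outL6_eq (Φ : Space3 → ℝ) (ε : ℝ) (P : CTree) (z : PhasePoint × Par P) (e : ML)
    (k : Option Bool) : outL6 Φ ε P z e k =
      (outK Φ ε k (cT ε z e) (cX ε z e) (cD ε z e), mrk k P.leaves e.2) := by
  rcases k with _ | (_ | _) <;> rfl

/-- The continued pair in root coordinates. -/
theorem outP_rootL {P : CTree} (p : Par P) {θ : Lab × LSt} {c : CDat} (hε : 0 < ε)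
    (hy : ‖c.2.2‖ < 1) (hg : θ.2.2.2 - c.2.1 ≠ 0) (k : Option Bool) :
    outP Φ ε P (rootL ε θ.2 c, p) θ k =
      (incM (mrk k) P.leaves θ.1, outC (outK Φ ε k) ε θ.2 c) := by
  have h1 := cT_rootL (p := p) (e := eL θ) hε hg hy
  have h2 := cX_rootL (p := p) (e := eL θ) hε hg hy
  have h3 := cD_rootL (p := p) (e := eL θ) hε hg hy
  unfold outP
  rw [outL6_eq]
  have e1 : rootL ε (eL θ).1 c = rootL ε θ.2 c := rfl
  rw [e1] at h1 h2 h3
  rw [h1, h2, h3]
  rfl

theorem measurable_outL6 (hΦ : AdmissiblePotential Φ) (ε : ℝ) (P : CTree) (k : Option Bool) :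
    Measurable fun q : (PhasePoint × Par P) × ML => outL6 Φ ε P q.1 q.2 k := by
  simp only [outL6_eq]
  have hd : Measurable fun q : (PhasePoint × Par P) × ML =>
      ((cT ε q.1 q.2, (cX ε q.1 q.2, cD ε q.1 q.2)) : ℝ × (Space3 × OCout796.CD)) :=
    (Nu0566.measurable_cT ε P).prodMk ((Nu0566.measurable_cX ε P).prodMk
      (Nu0566.measurable_cD ε P))
  have h1 := (outMap_outK hΦ ε k).meas.comp hd
  refine Measurable.prodMk h1 ?_
  exact (Measurable.of_discrete (f := fun n : ℕ => mrk k P.leaves n)).comp measurable_snd.snd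

theorem meas_aux {α : Type*} [MeasurableSpace α] {θ : α → Lab × LSt} {g : α → ML}
    (hθ : Measurable θ) (hg : Measurable g) :
    Measurable fun a => ((((θ a).1.1, ((θ a).1.2.1, (g a).2)), (g a).1) : Lab × LSt) := by
  fun_prop

theorem measurable_outL6' (hΦ : AdmissiblePotential Φ) (ε : ℝ) (P : CTree) (k : Option Bool) :
    Measurable fun q : (PhasePoint × Par P) × (Lab × LSt) => outL6 Φ ε P q.1 (eL q.2) k := by
  have h0 : Measurable fun q : (PhasePoint × Par P) × (Lab × LSt) => (q.1, eL q.2) :=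
    measurable_fst.prodMk (PairD292.measurable_eL.comp measurable_snd)
  have h := Measurable.comp (g := fun q : (PhasePoint × Par P) × ML => outL6 Φ ε P q.1 q.2 k)
    (f := fun q : (PhasePoint × Par P) × (Lab × LSt) => (q.1, eL q.2))
    (measurable_outL6 hΦ ε P k) h0
  simp only [Function.comp_def] at h
  exact h

theorem measurable_outP (hΦ : AdmissiblePotential Φ) (ε : ℝ) (P : CTree) (k : Option Bool) :
    Measurable fun q : (PhasePoint × Par P) × (Lab × LSt) => outP Φ ε P q.1 q.2 k :=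
  meas_aux (θ := fun q : (PhasePoint × Par P) × (Lab × LSt) => q.2)
    (g := fun q : (PhasePoint × Par P) × (Lab × LSt) => outL6 Φ ε P q.1 (eL q.2) k)
    measurable_snd (measurable_outL6' hΦ ε P k)

theorem measSF2_tPK (hΦ : AdmissiblePotential Φ) (hε : 0 < ε) (K : ℕ) (Q : EPar)
    (k : Option Bool) : MeasSF2 fun P z _ w θ => tPK Φ ε K Q w (outP Φ ε P z θ k) := by
  intro P m
  exact MeasPair522.measurable_tPK hΦ hε (w := fun q : (PhasePoint × Par P) × (Config m × (Lab × LSt)) =>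
    q.2.1) (θ := fun q => outP Φ ε P q.1 q.2.2 k) measurable_snd.fst
    ((measurable_outP hΦ ε P k).comp (measurable_fst.prodMk measurable_snd.snd)) K Q

/-! ### The constant of the contact mass -/

/-- Bound of `Cflux` of a spread pair law, divided by `c`. -/
def cCC (te g0 : ℝ) (ρ : ℝ≥0∞) : ℝ≥0∞ :=
  volume (Metric.ball (0 : Disc416.Plane) 1) * (2 * volume (Metric.ball (0 : Space3) 1) *
    ((1 + ENNReal.ofReal te) * (ENNReal.ofReal te * (XC815.cV g0 * (1 - ρ)⁻¹))))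

theorem cCC_ne_top {te g0 : ℝ} (hg0 : 0 < g0) {ρ : ℝ≥0∞} (hρ : ρ < 1) : cCC te g0 ρ ≠ ∞ := by
  have h1 : (1 - ρ)⁻¹ ≠ ∞ := by
    rw [Ne, ENNReal.inv_eq_top, tsub_eq_zero_iff_le]
    exact not_le.2 hρ
  unfold cCC
  refine ENNReal.mul_ne_top measure_ball_lt_top.ne
    (ENNReal.mul_ne_top (ENNReal.mul_ne_top (by norm_num) measure_ball_lt_top.ne)
      (ENNReal.mul_ne_top (ENNReal.add_ne_top.2 ⟨ENNReal.one_ne_top, ENNReal.ofReal_ne_top⟩)
        (ENNReal.mul_ne_top ENNReal.ofReal_ne_top (ENNReal.mul_ne_top (XC815.cV_ne_top hg0) h1))))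

theorem cflux_le {Q : EPar} (hγ : Measurable Q.γ) {g0 : ℝ}
    (hγ0 : ∀ τ ∈ Ioc (0 : ℝ) Q.te, g0 ≤ Q.γ τ) {PP : ℕ → PPar} (hPP : PPOk Q PP)
    {Ξ ν : Measure (Lab × LSt)} {c : ℝ≥0∞} (h : PX (PP K) Ξ ν c) :
    Cflux (fun p : Lab × LSt => p.2) posD ν XC815.chi Q.te ≤ cCC Q.te g0 Q.ρ * c := by
  have h2 := XC815.px_weight_le h (fun z hz => hPP.vel K z hz) (μ := 1) (PP K).hlam₁
    XC815.measurable_chi
  have h3 := XC815.rhs_le (K := K) (hPP.ell K) (hPP.hor K) hγ hγ0 XC815.measurable_chi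
    XC815.lintegral_chi
  unfold Cflux cCC
  simp only [one_pow, mul_one] at h2
  calc _ ≤ volume (Metric.ball (0 : Disc416.Plane) 1) *
        (2 * volume (Metric.ball (0 : Space3) 1) * (c * ((1 + ENNReal.ofReal Q.te) *
          (ENNReal.ofReal Q.te * (XC815.cV g0 * (1 - Q.ρ)⁻¹))))) := by
        refine mul_le_mul_right (h2.trans ?_) _
        gcongr
    _ = _ := by ring

/-! ### The error -/

/-- Weight of the error. -/
def φV (K : ℕ) (P : CTree) : ℝ × PhasePoint × Par P → ℝ≥0∞ := fun q =>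
  ENNReal.ofReal (1 + ‖q.2.1.2‖) * φK K P q

theorem measurable_φV (K : ℕ) (P : CTree) : Measurable (φV K P) := by
  unfold φV φK
  fun_prop

/-- Error of case (C). -/
def errC (Φ : Space3 → ℝ) (f₀ : PhasePoint → ℝ) (f : ℝ → PhasePoint → ℝ) (T : ℝ) (K : ℕ)
    (te tw ε : ℝ) : ℝ≥0∞ :=
  ∑ P ∈ GIVStep383.trees K, err Φ f₀ f T P (φV K P) (volume.restrict (Ioc 0 te)) tw ε

theorem φV_eq_zero {P : CTree} (h : P ∉ GIVStep383.trees K) (q : ℝ × PhasePoint × Par P) :
    φV K P q = 0 := by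
  unfold φV φK
  rw [if_neg fun hh => h (GIVStep383.mem_trees.2 hh), mul_zero]


variable {β T T₀ tw te : ℝ}

theorem wgt_φV (hΦ : AdmissiblePotential Φ) (hβ : 0 < β) (K : ℕ) (P : CTree) (T₀ : ℝ) :
    Wgt Φ β P (φV K P) T₀ := by
  obtain ⟨M, hM, hle⟩ := exists_wtA_le Φ (lam := 2) (kap := β) (by norm_num) hβ
  refine Wgt.of_le (measurable_φV K P) (kap := β) (lam := 2) (by linarith)
    (M := 2 * ENNReal.ofReal M) (ENNReal.mul_ne_top (by norm_num) ENNReal.ofReal_ne_top)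
    fun s ℓ p hA => ?_
  have h1 : φV K P (s, ℓ, p) ≤ rootA P (s, ℓ, p) := by
    unfold φV rootA
    exact mul_le_of_le_one_right (zero_le) (φK_le_one K P _)
  calc φV K P (s, ℓ, p) ≤ rootA P (s, ℓ, p) := h1
    _ ≤ 2 * wtA Φ P (s, ℓ, p) := rootA_le_wtA hΦ hA
    _ ≤ 2 * (ENNReal.ofReal M * ENNReal.ofReal 2 ^ P.size *
        ENNReal.ofReal (Real.exp (β * Seg814.eng Φ P ℓ.2 p))) :=
        mul_le_mul_right (hle P s ℓ p) _
    _ = _ := by ring

theorem null_errC (X : Ctx Φ β T f₀ f T₀ tw) (hte : te ≤ T₀) :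
    Null fun K ε => errC Φ f₀ f T K te tw ε := by
  rw [null_iff_tendsto]
  intro K
  have hκ : ∀ᵐ s ∂(volume.restrict (Ioc 0 te)), s ≤ T₀ := by
    filter_upwards [ae_restrict_mem measurableSet_Ioc] with s hs
    exact hs.2.trans hte
  exact tendsto_err_sum X hκ (GIVStep383.trees K) fun P _ => wgt_φV X.hΦ X.hβ K P T₀

/-! ### Marks -/

/-- Mark weights of the fresh tree. -/
def qK (C lam : ℝ) (K m : ℕ) : ℝ≥0∞ :=
  if 1 ≤ m ∧ m ≤ K then ENNReal.ofReal C * ENNReal.ofReal (1 / lam) ^ (m - 1) else 0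

theorem qK_ne_top (C lam : ℝ) (K m : ℕ) : qK C lam K m ≠ ∞ := by
  unfold qK
  split_ifs
  · exact ENNReal.mul_ne_top ENNReal.ofReal_ne_top (ENNReal.pow_ne_top ENNReal.ofReal_ne_top)
  · exact ENNReal.zero_ne_top

theorem gau_eq_wG (b : ℝ) (v : Space3) : gau b v = Kin796.wG b v := by
  unfold gau Kin796.wG
  rw [neg_mul]

theorem kin_le (X : Ctx Φ β T f₀ f T₀ tw) {h₀ kap lam C b : ℝ}
    (hK : Seg814.KinC Φ T f h₀ kap lam C b) (hte : te ≤ tw + h₀) {s : ℝ} (hs : s ∈ Ioc 0 te)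
    (ℓ : PhasePoint) (m : ℕ) :
    ∑' P : CTree, (if P.leaves = m then D0 Φ f₀ f T P (φK K P) tw s ℓ else 0) ≤
      qK C lam K m * gau b ℓ.2 := by
  rw [gau_eq_wG]
  by_cases hm : 1 ≤ m ∧ m ≤ K
  · have h1 := D0_size_le X.hΦ X.hβ X.hT X.sol hK (φ := fun P => φK K P) (M := 1)
      ENNReal.one_ne_top (lam₁ := 1) one_pos hK.2.2.1.le X.htw
      (⟨hs.1.le, hs.2.trans hte⟩ : s ∈ Icc 0 (tw + h₀)) ℓ (fun P p _ => by
        refine (φK_le_one K P _).trans ?_
        rw [ENNReal.ofReal_one, one_pow, one_mul, one_mul]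
        have := mul_nonneg hK.2.1.le (Seg814.eng_nonneg (Φ := Φ) P ℓ.2 p)
        rw [← ENNReal.ofReal_one]
        exact ENNReal.ofReal_le_ofReal (Real.one_le_exp this)) m
    refine h1.trans (le_of_eq ?_)
    unfold qK
    rw [if_pos hm]
    ring
  · refine le_trans (le_of_eq (ENNReal.tsum_eq_zero.2 fun P => ?_)) zero_le
    split_ifs with hP
    · refine D0_zero fun p => ?_
      unfold φK
      rw [if_neg]
      intro h
      exact hm ⟨hP ▸ one_le_leaves' P, hP ▸ h⟩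
    · rfl

theorem isSFiniteKernel_stO (Φ : Space3 → ℝ) (ε b te : ℝ) (k : Option Bool)
    (C lam : ℝ) (K : ℕ) :
    IsSFiniteKernel (stO ε b te (outK Φ ε k) (mrk k) (qK C lam K)) := by
  have := isSFiniteKernel_incK (mrk k) (qK_ne_top C lam K)
  unfold stO mkK Boost969.liftK
  infer_instance

/-! ### Case (C) for one pair law -/

set_option maxHeartbeats 1600000 in
theorem caseC_le (X : Ctx Φ β T f₀ f T₀ tw) {h₀ kap lam C b : ℝ}
    (hK : Seg814.KinC Φ T f h₀ kap lam C b) {Q : EPar} (hQtw : Q.tw = tw)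
    (hte : Q.te ≤ tw + h₀) (hL : 0 ≤ Q.L) (hε : 0 < ε) {ν : Measure (Lab × LSt)}
    (hν : SFinite ν) (htr : ∀ a, ν.map (shP a) = ν)
    (hcf : Cflux (fun p : Lab × LSt => p.2) posD ν XC815.chi Q.te ≠ ∞) (T' : ℝ)
    (k : Option Bool) :
    OS2 Φ f₀ ε Q.te T' ν (fun P z _ w θ => uG Φ ε Q.tw K P z w θ *
        tPK Φ ε K Q w (outP Φ ε P z θ k)) ≤
      PELK Φ f₀ ε K Q (ν.bind (stO ε b Q.te (outK Φ ε k) (mrk k) (qK C lam K))) +
        Cflux (fun p : Lab × LSt => p.2) posD ν XC815.chi Q.te *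
          errC Φ f₀ f T K Q.te Q.tw ε := by
  have hΦ := X.hΦ
  have hf := X.cont.measurable
  subst hQtw
  have htK : ∀ n, Measurable fun q : Config n × (Lab × LSt) => tPK Φ ε K Q q.1 q.2 := fun n =>
    MeasPair522.measurable_tPK_joint hΦ hε K Q n
  set G : CTree → (m : ℕ) → Config m → (Lab × LSt) × CDat → ℝ≥0∞ := fun P m w q =>
    tPK Φ ε K Q w (incM (mrk k) P.leaves q.1.1, outC (outK Φ ε k) ε q.1.2 q.2) with hG
  have hGm : ∀ P m, Measurable fun q : Config m × ((Lab × LSt) × CDat) => G P m q.1 q.2 := by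
    intro P m
    have h1 : Measurable fun q : Config m × ((Lab × LSt) × CDat) =>
        incM (mrk k) P.leaves q.2.1.1 :=
      (measurable_incM (mrk k) P.leaves).comp (by fun_prop)
    have h2 : Measurable fun q : Config m × ((Lab × LSt) × CDat) =>
        outC (outK Φ ε k) ε q.2.1.2 q.2.2 :=
      (measurable_outC (outMap_outK hΦ ε k) ε).comp
        (f := fun q : Config m × ((Lab × LSt) × CDat) => (q.2.1.2, q.2.2)) (by fun_prop)
    have h3 : Measurable fun q : Config m × ((Lab × LSt) × CDat) =>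
        ((q.1, (incM (mrk k) P.leaves q.2.1.1, outC (outK Φ ε k) ε q.2.1.2 q.2.2)) :
          Config m × (Lab × LSt)) := measurable_fst.prodMk (h1.prodMk h2)
    exact (htK m).comp h3
  refine (OS2_le_root hΦ hf hε (measSF2_tPK hΦ hε K Q k) hGm
    fun P m w θ c p _ _ _ hy hg => by
      simp only [hG]
      rw [outP_rootL p hε hy hg k]).trans ?_
  -- fixed world
  set κ : Measure ℝ := volume.restrict (Ioc 0 Q.te) with hκ
  set Cf := Cflux (fun p : Lab × LSt => p.2) posD ν XC815.chi Q.te with hCf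
  set E : CTree → (m : ℕ) → Config m → ℝ × PhasePoint → ℝ≥0∞ := fun P m w q =>
    absd (Dw Φ f₀ P (φK K P) ε Q.tw q.1 q.2 w) (D0 Φ f₀ f T P (φK K P) Q.tw q.1 q.2) with hE
  have hEm : ∀ P m, Measurable fun q : Config m × (ℝ × PhasePoint) => E P m q.1 q.2 :=
    fun P m => measurable_absd (measurable_Dw_n hΦ hf (measurable_φK K P) hε Q.tw m)
      ((measurable_D0 X.hΦ X.hβ X.hT X.sol X.htw.1 (measurable_φK K P)).comp measurable_snd)
  have hpt : ∀ m, ∀ w ∈ PairExcluded ε m, ∑' P : CTree, ∫⁻ θ, cInt ε Q.te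
      (fun p : Lab × LSt => p.2) (fun q => Dw Φ f₀ P (φK K P) ε Q.tw q.1 q.2 w) (G P m w) θ ∂ν ≤
      ∫⁻ θ, tPK Φ ε K Q w θ ∂(ν.bind (stO ε b Q.te (outK Φ ε k) (mrk k) (qK C lam K))) +
        Cf * ∑' P : CTree, ∫⁻ s in Ioc 0 Q.te, ∫⁻ ℓ : PhasePoint,
          E P m w (s, ℓ) * ENNReal.ofReal (1 + ‖ℓ.2‖) := by
    intro m w _
    have hEw : ∀ P, Measurable fun q : ℝ × PhasePoint => E P m w q := fun P =>
      (hEm P m).comp (f := fun q : ℝ × PhasePoint => (w, q)) measurable_prodMk_left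
    have hDw : ∀ P, Measurable fun q : ℝ × PhasePoint =>
        D0 Φ f₀ f T P (φK K P) Q.tw q.1 q.2 := fun P =>
      measurable_D0 X.hΦ X.hβ X.hT X.sol X.htw.1 (measurable_φK K P)
    have htw' : Measurable fun θ : Lab × LSt => tPK Φ ε K Q w θ :=
      (htK m).comp (f := fun θ : Lab × LSt => (w, θ)) measurable_prodMk_left
    exact caseC_pt hν htr XC815.measurable_chi XC815.lintegral_chi (size := CTree.leaves)
      (D := fun P q => Dw Φ f₀ P (φK K P) ε Q.tw q.1 q.2 w)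
      (D' := fun P q => D0 Φ f₀ f T P (φK K P) Q.tw q.1 q.2) (E := fun P q => E P m w q)
      hDw hEw (fun P q => le_add_absd _ _)
      (outMap_outK hΦ ε k) (qK_ne_top C lam K)
      (fun s hs ℓ j => kin_le X hK hte hs ℓ j)
      (H := fun θ => tPK Φ ε K Q w θ) htw'
      (fun θ => tPK_le_one hL)
  refine (gcE_mono f₀ ε hpt).trans ?_
  have hker := isSFiniteKernel_stO Φ ε b Q.te k C lam K
  have hsf : SFinite (ν.bind (stO ε b Q.te (outK Φ ε k) (mrk k) (qK C lam K))) := inferInstance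
  rw [gcE_add hf ε fun m => (htK m).lintegral_prod_right', gcE_const_mul f₀ ε hcf]
  refine add_le_add le_rfl (mul_le_mul_right ?_ _)
  have hEw : ∀ P m, Measurable fun q : (Config m × ℝ) × PhasePoint =>
      E P m q.1.1 (q.1.2, q.2) * ENNReal.ofReal (1 + ‖q.2.2‖) := by
    intro P m
    refine Measurable.mul ?_ (by fun_prop)
    exact (hEm P m).comp (f := fun q : (Config m × ℝ) × PhasePoint => (q.1.1, (q.1.2, q.2)))
      (by fun_prop)
  rw [gcE_tsum hf ε fun P m => (hEw P m).lintegral_prod_right'.lintegral_prod_right']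
  have hterm : ∀ P : CTree, (gcE f₀ ε fun m w => ∫⁻ s in Ioc 0 Q.te, ∫⁻ ℓ : PhasePoint,
      E P m w (s, ℓ) * ENNReal.ofReal (1 + ‖ℓ.2‖)) =
      err Φ f₀ f T P (φV K P) (volume.restrict (Ioc 0 Q.te)) Q.tw ε := by
    intro P
    have h1 := err_mul_left (Φ := Φ) (f₀ := f₀) (f := f) (T := T) (P := P) (φ := φK K P)
      (c := fun _ ℓ => ENNReal.ofReal (1 + ‖ℓ.2‖)) (κ := volume.restrict (Ioc 0 Q.te))
      (tw := Q.tw) (ε := ε) (fun s ℓ => ENNReal.ofReal_ne_top)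
    have h2 : φV K P = fun q => (fun (_ : ℝ) (ℓ : PhasePoint) =>
        ENNReal.ofReal (1 + ‖ℓ.2‖)) q.1 q.2.1 * φK K P q := rfl
    rw [h2, h1]
    congr 1
    funext m w
    have h3 : Measurable fun y : ℝ × PhasePoint =>
        ENNReal.ofReal (1 + ‖y.2.2‖) * E P m w y :=
      Measurable.mul (by fun_prop) ((hEm P m).comp measurable_prodMk_left)
    rw [lintegral_prod _ h3.aemeasurable]
    refine lintegral_congr fun s => lintegral_congr fun ℓ => ?_
    exact mul_comm _ _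
  simp only [hterm]
  unfold errC
  refine le_of_eq (tsum_eq_sum fun P hP => ?_)
  unfold err
  have h0 : ∀ (n : ℕ) (w : Config n) (y : ℝ × PhasePoint),
      absd (Dw Φ f₀ P (φV K P) ε Q.tw y.1 y.2 w) (D0 Φ f₀ f T P (φV K P) Q.tw y.1 y.2) = 0 := by
    intro n w y
    rw [Dw_zero fun p => φV_eq_zero hP _, D0_zero fun p => φV_eq_zero hP _, absd_self]
  simp only [h0, lintegral_zero]
  exact gcE_zero f₀ ε

/-! ### Case (C), uniform in the pair law -/

/-- **Case (C) on the gas level.** The continued line is a new pair law, up to an error which is null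
uniformly in the pair law. -/
theorem caseC (hD : Master566.KData Φ β T f₀ f) {h₀ kap lam C b : ℝ}
    (hK : Seg814.KinC Φ T f h₀ kap lam C b) {Q : EPar} (htw : Q.tw ∈ Icc 0 T)
    (hG : GIV566.GIV Φ f₀ f T Q.tw) (hte : Q.te ≤ Q.tw + h₀) (hL : 0 ≤ Q.L)
    (hγ : Measurable Q.γ) {g0 : ℝ} (hg0 : 0 < g0) (hγ0 : ∀ τ ∈ Ioc (0 : ℝ) Q.te, g0 ≤ Q.γ τ)
    (hρ : Q.ρ < 1) {PP : ℕ → PPar} (hPP : PPOk Q PP) :
    ∃ δ : ℕ → ℝ → ℝ≥0∞, Null δ ∧ ∀ (k : Option Bool) (T' : ℝ) (K : ℕ) (ε : ℝ), 0 < ε →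
      ∀ (Ξ ν : Measure (Lab × LSt)) (c : ℝ≥0∞), PX (PP K) Ξ ν c →
      OS2 Φ f₀ ε Q.te T' ν (fun P z _ w θ => uG Φ ε Q.tw K P z w θ *
          tPK Φ ε K Q w (outP Φ ε P z θ k)) ≤
        PELK Φ f₀ ε K Q (ν.bind (stO ε b Q.te (outK Φ ε k) (mrk k) (qK C lam K))) +
          c * δ K ε := by
  have ht0 : Tendsto (fun ε : ℝ => ENNReal.ofReal ε) (𝓝[>] 0) (𝓝 0) := by
    have := (ENNReal.continuous_ofReal.tendsto 0).mono_left
      (nhdsWithin_le_nhds : (𝓝[>] (0 : ℝ)) ≤ 𝓝 0)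
    rwa [ENNReal.ofReal_zero] at this
  have X : Ctx Φ β T f₀ f (max Q.te 1) Q.tw :=
    Ctx.of_kdata hD htw hG (lt_of_lt_of_le one_pos (le_max_right _ _))
  have hC := cCC_ne_top (te := Q.te) hg0 hρ
  refine ⟨fun K ε => cCC Q.te g0 Q.ρ * errC Φ f₀ f T K Q.te Q.tw ε + ENNReal.ofReal ε,
    ((null_errC X (le_max_left _ _)).const_mul hC).add (Null.of_tendsto ht0), ?_⟩
  intro k T' K ε hε Ξ ν c hX
  by_cases hc : c = ∞
  · have hne : cCC Q.te g0 Q.ρ * errC Φ f₀ f T K Q.te Q.tw ε + ENNReal.ofReal ε ≠ 0 := by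
      intro h0
      have h3 := (add_eq_zero.1 h0).2
      rw [ENNReal.ofReal_eq_zero] at h3
      linarith
    rw [hc, ENNReal.top_mul hne]
    exact le_add_self.trans' le_top
  have hcf := cflux_le hγ hγ0 hPP hX
  have hcf' : Cflux (fun p : Lab × LSt => p.2) posD ν XC815.chi Q.te ≠ ∞ :=
    ne_top_of_le_ne_top (ENNReal.mul_ne_top hC hc) hcf
  refine (caseC_le X hK rfl hte hL hε hX.sfν hX.trans hcf' T' k).trans ?_
  refine add_le_add le_rfl ?_
  calc _ ≤ (cCC Q.te g0 Q.ρ * c) * errC Φ f₀ f T K Q.te Q.tw ε := mul_le_mul_left hcf _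
    _ = c * (cCC Q.te g0 Q.ρ * errC Φ f₀ f T K Q.te Q.tw ε) := by ring
    _ ≤ _ := mul_le_mul_right le_self_add _

end Crest.Agent.R122.CaseC658

end
private theorem rz_3d5d817301 : type_of% @_root_.Crest.Agent.R122.CaseC658.mrk.eq_1 := @_root_.Crest.Agent.R122.CaseC658.mrk.eq_1 -- L46
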