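import Mathlib

/-!
# Causal-past calculus (row 122, block F4), relational part

`C s j k` means: the particles `j` and `k` are in contact at time `s`.
`Past C t i s k`: the particle `k` is active at time `s` in the backward exploration which starts
from the particle `i` at time `t`: whenever an active particle is in contact with another one at
time `s'`, this one becomes active at `s'` and at all earlier times.
-/

set_option autoImplicit false

open Set

namespace Crest.Agent.R122.Causal291

variable {ι : Type*}

/-- Backward exploration from `(i, t)`: `Past C t i s k` says that `k` is active at time `s`. -/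
inductive Past (C : ℝ → ι → ι → Prop) (t : ℝ) (i : ι) : ℝ → ι → Prop
  | root {s : ℝ} (h : s ≤ t) : Past C t i s i
  | step {s s' : ℝ} {j k : ι} (h : Past C t i s' j) (hc : C s' j k) (hs : s ≤ s') :
      Past C t i s k

/-- The backward cluster of `(i, t)`: everything which is active at time `0`. -/
def BC (C : ℝ → ι → ι → Prop) (t : ℝ) (i : ι) : Set ι := {k | Past C t i 0 k}

/-- The active set at time `s`. -/
def Act (C : ℝ → ι → ι → Prop) (t : ℝ) (i : ι) (s : ℝ) : Set ι := {k | Past C t i s k}

/-- The protected time of `k`: the last time at which `k` is active. -/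
noncomputable def tau (C : ℝ → ι → ι → Prop) (t : ℝ) (i : ι) (k : ι) : ℝ :=
  sSup {s | Past C t i s k}

section basic

variable {C C' : ℝ → ι → ι → Prop} {t : ℝ} {i : ι}

@[simp] theorem mem_Act {s : ℝ} {k : ι} : k ∈ Act C t i s ↔ Past C t i s k := Iff.rfl

@[simp] theorem mem_BC {k : ι} : k ∈ BC C t i ↔ Past C t i 0 k := Iff.rfl


theorem Past.le {s : ℝ} {k : ι} (h : Past C t i s k) : s ≤ t := by
  induction h with
  | root h => exact h
  | step _ _ hs ih => exact hs.trans ih

theorem Past.mono {s s' : ℝ} {k : ι} (h : Past C t i s' k) (hs : s ≤ s') : Past C t i s k := by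
  cases h with
  | root h => exact .root (hs.trans h)
  | step h hc h' => exact .step h hc (hs.trans h')

theorem Act_anti : Antitone (Act C t i) := fun _ _ h _ hk => Past.mono hk h


theorem root_mem_BC (h : 0 ≤ t) : i ∈ BC C t i := .root h



theorem Past.trans {s s' : ℝ} {j k : ι} (h : Past C t i s j) (h' : Past C s j s' k) :
    Past C t i s' k := by
  induction h' with
  | root h1 => exact h.mono h1
  | step _ hc hs ih => exact .step ih hc hs

theorem Past.contact {s : ℝ} {j k : ι} (h : Past C t i s j) (hc : C s j k) : Past C t i s k :=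
  .step h hc le_rfl

/-- The active set of an active pair `(j, s)` is contained in the one of `(i, t)`. -/
theorem Act_subset_of_mem {s : ℝ} {j : ι} (h : j ∈ Act C t i s) (s' : ℝ) :
    Act C s j s' ⊆ Act C t i s' := fun _ hk => Past.trans h hk

theorem BC_subset_of_mem {s : ℝ} {j : ι} (h : j ∈ Act C t i s) : BC C s j ⊆ BC C t i :=
  Act_subset_of_mem h 0

/-- Either `k` is the root, or it became active at a contact with another active particle. -/
theorem Past.cases' {s : ℝ} {k : ι} (h : Past C t i s k) :
    k = i ∨ ∃ s' j, s ≤ s' ∧ s' ≤ t ∧ Past C t i s' j ∧ C s' j k := by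
  cases h with
  | root h => exact Or.inl rfl
  | @step _ s' j _ h hc hs => exact Or.inr ⟨s', j, hs, h.le, h, hc⟩

/-- The exploration decomposes at an intermediate time. -/
theorem Past.split {s r : ℝ} {k : ι} (h : Past C t i s k) (hsr : s ≤ r) (hrt : r ≤ t) :
    ∃ j, Past C t i r j ∧ Past C r j s k := by
  induction h with
  | @root s h => exact ⟨i, .root hrt, .root hsr⟩
  | @step s s' j k h hc hs ih =>
    rcases le_total s' r with h1 | h1
    · obtain ⟨l, hl, hl'⟩ := ih h1
      exact ⟨l, hl, .step hl' hc hs⟩
    · exact ⟨k, (Past.contact h hc).mono h1, .root hsr⟩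


/-- Transport of `Past` to another contact relation: it is enough to compare the relations on the
contacts made by active particles. -/
theorem Past.imp {s : ℝ} {k : ι} (h : Past C t i s k)
    (hC : ∀ s' j l, s ≤ s' → Past C t i s' j → C s' j l → C' s' j l) : Past C' t i s k := by
  induction h with
  | root h => exact .root h
  | @step s s' j k h hc hs ih =>
    exact .step (ih fun s'' j l h1 h2 h3 => hC s'' j l (hs.trans h1) h2 h3)
      (hC s' j k hs h hc) hs

theorem Past.mono_rel {s : ℝ} {k : ι} (h : Past C t i s k) (hC : ∀ s j k, C s j k → C' s j k) :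
    Past C' t i s k := h.imp fun s' j l _ _ h' => hC s' j l h'


/-- If the two relations agree on all contacts made by `C`-active particles at times at least `s₀`,
then the explorations agree at all times at least `s₀`. -/
theorem past_congr {s₀ : ℝ}
    (hC : ∀ s' j l, s₀ ≤ s' → Past C t i s' j → (C s' j l ↔ C' s' j l)) {s : ℝ} (hs : s₀ ≤ s)
    {k : ι} : Past C t i s k ↔ Past C' t i s k := by
  constructor
  · intro h
    exact h.imp fun s' j l h1 h2 h3 => (hC s' j l (hs.trans h1) h2).1 h3
  · intro h
    induction h with
    | root h => exact .root h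
    | @step s s' j k h hc hs' ih =>
      have h1 := ih (hs.trans hs')
      exact .step h1 ((hC s' j k (hs.trans hs') h1).2 hc) hs'



/-- Everything active lies in any set which contains the root and is closed under contacts made
inside it at the relevant times. -/
theorem Past.mem_of_closed {s : ℝ} {k : ι} (h : Past C t i s k) {S : Set ι} (hi : i ∈ S)
    (hS : ∀ s' j l, s ≤ s' → s' ≤ t → j ∈ S → C s' j l → l ∈ S) : k ∈ S := by
  induction h with
  | root h => exact hi
  | @step s s' j k h hc hs ih =>
    exact hS s' j k hs h.le (ih fun s'' j l h1 h2 h3 h4 => hS s'' j l (hs.trans h1) h2 h3 h4) hc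

/-- Time dependent version of `Past.mem_of_closed`: an antitone family of sets containing the root
and closed under contacts contains the active sets. -/
theorem Act_subset_of_closed {s₀ : ℝ} {G : ℝ → Set ι}
    (hi : ∀ s, s₀ ≤ s → s ≤ t → i ∈ G s)
    (hanti : ∀ s s', s₀ ≤ s → s ≤ s' → s' ≤ t → G s' ⊆ G s)
    (hG : ∀ s j l, s₀ ≤ s → s ≤ t → j ∈ G s → C s j l → l ∈ G s) {s : ℝ} (hs : s₀ ≤ s) :
    Act C t i s ⊆ G s := by
  intro k h
  change Past C t i s k at h
  induction h with
  | @root s h => exact hi s hs h
  | @step s s' j k h hc hs' ih =>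
    exact hanti s s' hs hs' h.le (hG s' j k (hs.trans hs') h.le (ih (hs.trans hs')) hc)

end basic

/-! ### Relabelling -/

section relabel

variable {κ : Type*}

/-- Relabelling by an injection `e` whose range contains all contact partners. -/
theorem past_map {C : ℝ → ι → ι → Prop} {D : ℝ → κ → κ → Prop} {e : κ → ι}
    (hCD : ∀ s j k, D s j k → C s (e j) (e k)) {t : ℝ} {i : κ} {s : ℝ} {k : κ}
    (h : Past D t i s k) : Past C t (e i) s (e k) := by
  induction h with
  | root h => exact .root h
  | step _ hc hs ih => exact .step ih (hCD _ _ _ hc) hs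

theorem past_comap {C : ℝ → ι → ι → Prop} {D : ℝ → κ → κ → Prop} {e : κ → ι}
    (hCD : ∀ s j k, C s (e j) (e k) → D s j k) {t : ℝ} {i : κ}
    {s : ℝ} (hrange : ∀ s' j l, s ≤ s' → C s' (e j) l → l ∈ range e) {l : ι}
    (h : Past C t (e i) s l) : ∃ k, l = e k ∧ Past D t i s k := by
  generalize hi : e i = i' at h
  induction h with
  | root h => exact ⟨i, hi.symm, .root h⟩
  | @step s s' j k h hc hs ih =>
    obtain ⟨j', rfl, hj'⟩ := ih fun s'' j l h1 h2 => hrange s'' j l (hs.trans h1) h2
    obtain ⟨k', rfl⟩ := hrange s' j' k hs hc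
    exact ⟨k', rfl, .step hj' (hCD _ _ _ hc) hs⟩

/-- Relabelling by a bijection. -/
theorem past_equiv (C : ℝ → ι → ι → Prop) (e : κ ≃ ι) {t : ℝ} {i : κ} {s : ℝ} {k : κ} :
    Past (fun s j k => C s (e j) (e k)) t i s k ↔ Past C t (e i) s (e k) := by
  constructor
  · exact past_map (C := C) (D := fun s j k => C s (e j) (e k)) (e := e) (fun _ _ _ h => h)
  · intro h
    obtain ⟨k', hk', h'⟩ := past_comap (D := fun s j k => C s (e j) (e k))
      (fun _ _ _ h => h) (fun _ _ l _ _ => ⟨e.symm l, e.apply_symm_apply l⟩) h
    rwa [← e.injective hk'] at h'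

end relabel

/-! ### Chains of bounded length -/

section chains

variable {C : ℝ → ι → ι → Prop} {t : ℝ} {i : ι}

/-- Exploration with at most `m` contacts. -/
def PastN (C : ℝ → ι → ι → Prop) (t : ℝ) (i : ι) : ℕ → ℝ → ι → Prop
  | 0, s, k => k = i ∧ s ≤ t
  | m + 1, s, k => PastN C t i m s k ∨ ∃ s' j, s ≤ s' ∧ PastN C t i m s' j ∧ C s' j k

theorem PastN.past {m : ℕ} {s : ℝ} {k : ι} (h : PastN C t i m s k) : Past C t i s k := by
  induction m generalizing s k with
  | zero => obtain ⟨rfl, h⟩ := h; exact .root h
  | succ m ih =>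
    rcases h with h | ⟨s', j, hs, hj, hc⟩
    · exact ih h
    · exact .step (ih hj) hc hs

theorem PastN.mono_left {m m' : ℕ} (hm : m ≤ m') {s : ℝ} {k : ι} (h : PastN C t i m s k) :
    PastN C t i m' s k := by
  induction hm with
  | refl => exact h
  | step _ ih => exact Or.inl ih

theorem PastN.mono {m : ℕ} {s s' : ℝ} {k : ι} (h : PastN C t i m s' k) (hs : s ≤ s') :
    PastN C t i m s k := by
  induction m generalizing s s' k with
  | zero => exact ⟨h.1, hs.trans h.2⟩
  | succ m ih =>
    rcases h with h | ⟨s'', j, h1, hj, hc⟩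
    · exact Or.inl (ih h hs)
    · exact Or.inr ⟨s'', j, hs.trans h1, hj, hc⟩

theorem past_iff_exists_pastN {s : ℝ} {k : ι} :
    Past C t i s k ↔ ∃ m, PastN C t i m s k := by
  constructor
  · intro h
    induction h with
    | root h => exact ⟨0, rfl, h⟩
    | @step s s' j k h hc hs ih =>
      obtain ⟨m, hm⟩ := ih
      exact ⟨m + 1, Or.inr ⟨s', j, hs, hm, hc⟩⟩
  · rintro ⟨m, hm⟩
    exact hm.past

/-- An explored particle is reached by a chain of distinct particles, whose length is less than
the number of explored particles. Here: if the chain is longer than the number of particles then it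
can be shortened. -/
theorem pastN_of_past [Finite ι] {s : ℝ} {k : ι} (h : Past C t i s k) :
    PastN C t i (Nat.card ι - 1) s k := by
  classical
  -- A : for each `m` the number of particles explored with at most `m` contacts at SOME time
  -- `≥ s` is used to shorten; we argue through "rank" of first exploration.
  have key : ∀ (S : Finset ι) (s : ℝ) (k : ι), k ∉ S → i ∉ S →
      (Past (fun s j k => j ∉ S ∧ k ∉ S ∧ C s j k) t i s k) →
      PastN (fun s j k => j ∉ S ∧ k ∉ S ∧ C s j k) t i (Nat.card ι - S.card - 1) s k := by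
    intro S
    have := Fintype.ofFinite ι
    rw [Nat.card_eq_fintype_card]
    -- strong induction on the complement size
    induction hn : (Fintype.card ι - S.card) using Nat.strong_induction_on generalizing S with
    | _ n IH =>
    intro s k hkS hiS h
    by_cases hki : k = i
    · subst hki
      exact PastN.mono_left (Nat.zero_le _) ⟨rfl, h.le⟩
    -- look at the last step of a derivation in which `k` is reached: there is an active `j`
    -- reached without `k`.
    have hstep : ∀ {s : ℝ} {l : ι},
        Past (fun s j k => j ∉ S ∧ k ∉ S ∧ C s j k) t i s l →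
        (Past (fun s j k' => j ∉ insert k S ∧ k' ∉ insert k S ∧ C s j k') t i s l) ∨
        (∃ s' j, s ≤ s' ∧ j ∉ S ∧ C s' j k ∧
          Past (fun s j k' => j ∉ insert k S ∧ k' ∉ insert k S ∧ C s j k') t i s' j) := by
      intro s l h
      induction h with
      | root h => exact Or.inl (.root h)
      | @step s s' j l h hc hs ih =>
        rcases ih with ih | ⟨s'', j', h1, h2, h3, h4⟩
        · by_cases hlk : l = k
          · subst hlk
            exact Or.inr ⟨s', j, hs, hc.1, hc.2.2, ih⟩
          · by_cases hjk : j = k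
            · -- `j = k` was reached in the restricted relation: impossible unless `k = i`
              subst hjk
              exfalso
              rcases ih.cases' with h5 | ⟨_, _, _, _, _, h6⟩
              · exact hki h5
              · exact h6.2.1 (Finset.mem_insert_self _ _)
            · refine Or.inl (.step ih ⟨?_, ?_, hc.2.2⟩ hs)
              · simp only [Finset.mem_insert, not_or]; exact ⟨hjk, hc.1⟩
              · simp only [Finset.mem_insert, not_or]; exact ⟨hlk, hc.2.1⟩
        · exact Or.inr ⟨s'', j', hs.trans h1, h2, h3, h4⟩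
    have hlast : ∃ s' j, s ≤ s' ∧ j ∉ S ∧ C s' j k ∧
        Past (fun s j k' => j ∉ insert k S ∧ k' ∉ insert k S ∧ C s j k') t i s' j := by
      rcases hstep h with h1 | h1
      · exfalso
        rcases h1.cases' with h5 | ⟨_, _, _, _, _, h6⟩
        · exact hki h5
        · exact h6.2.1 (Finset.mem_insert_self _ _)
      · exact h1
    obtain ⟨s', j, hs, hjS, hc, hj⟩ := hlast
    have hjk : j ≠ k := by
      rintro rfl
      rcases hj.cases' with h5 | ⟨_, _, _, _, _, h6⟩
      · exact hki h5
      · exact h6.2.1 (Finset.mem_insert_self _ _)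
    have hcard : (insert k S).card = S.card + 1 := Finset.card_insert_of_notMem hkS
    have hiS' : i ∉ insert k S := by
      simp only [Finset.mem_insert, not_or]; exact ⟨fun h => hki h.symm, hiS⟩
    have hjS' : j ∉ insert k S := by
      simp only [Finset.mem_insert, not_or]; exact ⟨hjk, hjS⟩
    have hle : (insert (i : ι) (insert k S)).card ≤ Fintype.card ι := Finset.card_le_univ _
    rw [Finset.card_insert_of_notMem hiS', hcard] at hle
    have hlt : Fintype.card ι - (insert k S).card < n := by omega
    have := IH _ hlt (insert k S) rfl s' j hjS' hiS' hj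
    have h2 : PastN (fun s j k => j ∉ S ∧ k ∉ S ∧ C s j k) t i
        (Fintype.card ι - (insert k S).card - 1) s' j := by
      have gen : ∀ (m : ℕ) (s : ℝ) (l : ι),
          PastN (fun s j k' => j ∉ insert k S ∧ k' ∉ insert k S ∧ C s j k') t i m s l →
          PastN (fun s j k => j ∉ S ∧ k ∉ S ∧ C s j k) t i m s l := by
        intro m
        induction m with
        | zero => intro s l h; exact h
        | succ m ih =>
          intro s l h
          rcases h with h | ⟨s'', j'', h1, h2, h3⟩
          · exact Or.inl (ih _ _ h)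
          · refine Or.inr ⟨s'', j'', h1, ih _ _ h2, ?_, ?_, h3.2.2⟩
            · exact fun h => h3.1 (Finset.mem_insert_of_mem h)
            · exact fun h => h3.2.1 (Finset.mem_insert_of_mem h)
      exact gen _ _ _ this
    have h3 : PastN (fun s j k => j ∉ S ∧ k ∉ S ∧ C s j k) t i
        ((Fintype.card ι - (insert k S).card - 1) + 1) s k :=
      Or.inr ⟨s', j, hs, h2, hjS, hkS, hc⟩
    exact h3.mono_left (by omega)
  have h0 := key ∅ s k (by simp) (by simp)
    (h.mono_rel fun s j k h => ⟨by simp, by simp, h⟩)
  simp only [Finset.notMem_empty, not_false_eq_true, true_and, Finset.card_empty,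
    Nat.sub_zero] at h0
  exact h0

end chains

/-! ### Last activity times are attained -/

section closed

variable {C : ℝ → ι → ι → Prop} {t : ℝ} {i : ι}

theorem Past.exit {σ : ℝ} (hσ : σ ≤ t) {s : ℝ} {k : ι} (h : Past C t i s k) (hs : s < σ)
    (hk : ¬ Past C t i σ k) :
    ∃ s' j k', s ≤ s' ∧ s' < σ ∧ Past C t i σ j ∧ ¬ Past C t i σ k' ∧ C s' j k' ∧
      Past C t i s' k' := by
  induction h with
  | @root s h => exact absurd (.root hσ) hk
  | @step s s' j k h hc hss' ih =>
    have hk' : s' < σ := by
      by_contra hle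
      push Not at hle
      exact hk ((Past.contact h hc).mono hle)
    by_cases hj : Past C t i σ j
    · exact ⟨s', j, k, hss', hk', hj, hk, hc, Past.contact h hc⟩
    · obtain ⟨s'', j', k', h1, h2, h3, h4, h5, h6⟩ := ih hk' hj
      exact ⟨s'', j', k', hss'.trans h1, h2, h3, h4, h5, h6⟩

/-- If all contact sets are closed in time and there are finitely many particles, then the set of
active times of a particle is closed. -/
theorem isClosed_past [Finite ι] (hC : ∀ j k, IsClosed {s | C s j k}) (k : ι) :
    IsClosed {s | Past C t i s k} := by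
  rw [← isSeqClosed_iff_isClosed]
  intro u σ hu hlim
  have hσ : σ ≤ t := le_of_tendsto' hlim fun n => (hu n).le
  by_contra hk
  change ¬ Past C t i σ k at hk
  have hlt : ∀ n, u n < σ := by
    intro n
    by_contra h
    push Not at h
    exact hk ((hu n).mono h)
  have hex : ∀ n, ∃ (p : ι × ι) (s' : ℝ), u n ≤ s' ∧ s' < σ ∧ Past C t i σ p.1 ∧
      ¬ Past C t i σ p.2 ∧ C s' p.1 p.2 := by
    intro n
    obtain ⟨s', j, k', h1, h2, h3, h4, h5, -⟩ := Past.exit hσ (hu n) (hlt n) hk
    exact ⟨(j, k'), s', h1, h2, h3, h4, h5⟩
  choose p s' h1 h2 h3 h4 h5 using hex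
  have hs' : Filter.Tendsto s' Filter.atTop (nhds σ) :=
    tendsto_of_tendsto_of_tendsto_of_le_of_le hlim tendsto_const_nhds h1 fun n => (h2 n).le
  obtain ⟨q, hq⟩ := Finite.exists_infinite_fiber p
  have hinf : Set.Infinite (p ⁻¹' {q}) := Set.infinite_coe_iff.1 hq
  obtain ⟨φ, hφ, hφ'⟩ := Filter.extraction_of_frequently_atTop
    (Nat.frequently_atTop_iff_infinite.2 hinf)
  have hCq : C σ q.1 q.2 := by
    refine (hC q.1 q.2).mem_of_tendsto (hs'.comp hφ.tendsto_atTop) ?_
    refine Filter.Eventually.of_forall fun n => ?_
    have h6 : p (φ n) = q := hφ' n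
    have := h5 (φ n)
    rw [h6] at this
    exact this
  have h6 : p (φ 0) = q := hφ' 0
  have h7 := h3 (φ 0)
  have h8 := h4 (φ 0)
  rw [h6] at h7 h8
  exact h8 (Past.contact h7 hCq)

theorem bddAbove_past (k : ι) : BddAbove {s | Past C t i s k} := ⟨t, fun _ h => h.le⟩

/-- The last activity time is attained. -/
theorem past_tau [Finite ι] (hC : ∀ j k, IsClosed {s | C s j k}) {s : ℝ} {k : ι}
    (h : Past C t i s k) : Past C t i (tau C t i k) k :=
  (isClosed_past hC k).csSup_mem ⟨s, h⟩ (bddAbove_past k)

theorem le_tau {s : ℝ} {k : ι} (h : Past C t i s k) : s ≤ tau C t i k :=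
  le_csSup (bddAbove_past k) h

theorem past_iff_le_tau [Finite ι] (hC : ∀ j k, IsClosed {s | C s j k}) {s₀ s : ℝ} {k : ι}
    (h : Past C t i s₀ k) : Past C t i s k ↔ s ≤ tau C t i k :=
  ⟨le_tau, fun h' => (past_tau hC h).mono h'⟩





/-- Just before `s` (and at `s`) the active set is constant. -/
theorem eventually_Act_eq_left [Finite ι] (hC : ∀ j k, IsClosed {s | C s j k}) (s : ℝ) :
    ∃ δ > 0, ∀ s', s - δ < s' → s' ≤ s → Act C t i s' = Act C t i s := by
  classical
  have := Fintype.ofFinite ι
  let F : Finset ℝ := (Finset.univ.filter fun k : ι => tau C t i k < s).image fun k => tau C t i k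
  have hF : ∃ δ > 0, ∀ x ∈ F, x ≤ s - δ := by
    by_cases hne : F.Nonempty
    · refine ⟨s - F.max' hne, ?_, fun x hx => ?_⟩
      · have := F.max'_mem hne
        simp only [F, Finset.mem_image, Finset.mem_filter, Finset.mem_univ, true_and] at this
        obtain ⟨k, hk, hk'⟩ := this
        simp only [F, gt_iff_lt, sub_pos] at hk' ⊢
        rw [← hk']; exact hk
      · have := F.le_max' x hx
        linarith
    · exact ⟨1, one_pos, fun x hx => absurd ⟨x, hx⟩ hne⟩
  obtain ⟨δ, hδ, hδF⟩ := hF
  refine ⟨δ, hδ, fun s' h1 h2 => ?_⟩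
  refine Subset.antisymm (fun k h => ?_) (Act_anti h2)
  change Past C t i s' k at h
  change Past C t i s k
  by_contra hk
  have h3 : tau C t i k < s := by
    by_contra h4
    push Not at h4
    exact hk ((past_tau hC h).mono h4)
  have h4 : tau C t i k ∈ F := by
    simp only [F, Finset.mem_image, Finset.mem_filter, Finset.mem_univ, true_and]
    exact ⟨k, h3, rfl⟩
  have h5 := hδF _ h4
  have h6 := le_tau h
  linarith

end closed

end Crest.Agent.R122.Causal291
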