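import Crest.Agent.R122.ChainHist_726
import Crest.Agent.R122.InfRule_879
import Crest.Agent.R122.BadDefs_726
import Crest.Agent.R122.BPair_45
import Crest.Agent.R122.BirthsEvo_45
import Crest.Agent.R122.InEq2Defs_311

-- ▼ part R122/ChainWorld_726
section

/-!
# Release chains (row 122, D5, helper726): the history of a real cluster is a tapered history

`GWorld Φ ε t X C G`: a world on `[0, t]` with contact relation `C` (with or without births), in
which isolated families of particles of `G` (the gas) move by their own flow.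

`Activity C i u P`: `P s k` means that `k` is active at time `s < u` in the backward exploration of
the root `i` seen at time `u` (closed version: contacts at time `u` count; or at `u⁻`).
-/

set_option autoImplicit false
set_option linter.unusedSectionVars false

open Set Filter Topology
open Crest.AnalysisR.Kinetic
open scoped Classical

noncomputable section

namespace Crest.Agent.R122.Chain726

open Flow671 Loc45 Causal291

/-- A world on `[0, t]` whose particles in `G` obey Newton's equations locally. -/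
structure GWorld (Φ : Space3 → ℝ) (ε t : ℝ) {κ : Type} [Fintype κ] (X : ℝ → κ → PhasePoint)
    (C : ℝ → κ → κ → Prop) (G : Set κ) : Prop where
  closed : ∀ j k, IsClosed {s | C s j k}
  symm : ∀ s j k, C s j k → C s k j
  ct : ∀ s ∈ Icc 0 t, ∀ j ∈ G, ∀ k ∈ G, C s j k ↔ dist (X s j).1 (X s k).1 ≤ ε
  dom : ∀ s ∈ Icc 0 t, ∀ (ι : Type) [Fintype ι] (e : ι ↪ κ), range e ⊆ G →
    (fun k => X s (e k)) ∈ Dom Φ ι
  iso : ∀ (ι : Type) [Fintype ι] (e : ι ↪ κ), range e ⊆ G → ∀ a b, 0 ≤ a → a < b → b ≤ t →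
    (∀ s ∈ Ioo a b, ∀ j, ∀ x, x ∉ range e → ¬ C s (e j) x) →
      ∀ s ∈ Icc a b, (fun k => X s (e k)) = flow Φ ε (s - a) (fun k => X a (e k))

/-- the activity predicate of the exploration of `(i, u)`, closed or open at `u` -/
structure Activity {κ : Type} (C : ℝ → κ → κ → Prop) (u : ℝ) (P : ℝ → κ → Prop) : Prop where
  anti : ∀ s s' k, s ≤ s' → P s' k → P s k
  contact : ∀ s j k, P s j → C s j k → P s k
  left : ∀ σ k, σ < u → (∀ s, s < σ → P s k) → P σ k
  gen : ∀ σ k, σ < u → P σ k → ¬ (∃ s, σ < s ∧ s < u ∧ P s k) →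
    ∃ m m', (∃ s, σ < s ∧ s < u ∧ P s m) ∧ C σ m m' ∧ (¬ ∃ s, σ < s ∧ s < u ∧ P s m') ∧
      Relation.ReflTransGen (fun a b => C σ a b ∧ ¬ ∃ s, σ < s ∧ s < u ∧ P s b) m' k

theorem mem_of_left {S : Set ℝ} (hS : IsClosed S) {σ : ℝ} (h : ∀ s, s < σ → s ∈ S) : σ ∈ S := by
  have h1 : Tendsto (fun s : ℝ => s) (𝓝[<] σ) (𝓝 σ) := nhdsWithin_le_nhds
  refine hS.mem_of_tendsto h1 ?_
  filter_upwards [self_mem_nhdsWithin] with s hs
  exact h s hs

section activity

variable {κ : Type} [Fintype κ] {C : ℝ → κ → κ → Prop}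

theorem gen_aux {r σ : ℝ} {i : κ} {N : κ → Prop} (hr : σ < r)
    (hN : ∀ s l, σ < s → Past C r i s l → N l) {s : ℝ} {k : κ} (h : Past C r i s k) (hs : σ ≤ s) :
    N k ∨ ∃ m m', N m ∧ C σ m m' ∧ ¬ N m' ∧
      Relation.ReflTransGen (fun a b => C σ a b ∧ ¬ N b) m' k := by
  induction h with
  | @root s h =>
    exact Or.inl (hN r i hr (.root le_rfl))
  | @step s s' j k h hc hs' ih =>
    have ih' := ih (hs.trans hs')
    rcases eq_or_lt_of_le (hs.trans hs') with h1 | h1
    · subst h1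
      by_cases hk : N k
      · exact Or.inl hk
      · right
        rcases ih' with h2 | ⟨m, m', h2, h3, h4, h5⟩
        · exact ⟨j, k, h2, hc, hk, .refl⟩
        · exact ⟨m, m', h2, h3, h4, h5.tail ⟨hc, hk⟩⟩
    · exact Or.inl (hN s' k h1 (h.contact hc))

/-- the closed version -/
theorem activity_past (hC : ∀ j k, IsClosed {s | C s j k}) (i : κ) (u : ℝ) :
    Activity C u (fun s k => Past C u i s k) where
  anti _ _ _ h h' := h'.mono h
  contact _ _ _ h h' := h.contact h'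
  left σ k hσ h := mem_of_left (isClosed_past hC k) h
  gen σ k hσ h hn := by
    refine (gen_aux (N := fun k => ∃ s, σ < s ∧ s < u ∧ Past C u i s k) hσ ?_ h le_rfl).resolve_left
      hn
    intro s l hs hl
    rcases lt_or_ge s u with h1 | h1
    · exact ⟨s, hs, h1, hl⟩
    · exact ⟨(σ + u) / 2, by linarith, by linarith, hl.mono (by linarith)⟩

/-- the version at `u⁻` -/
theorem activity_pre (hC : ∀ j k, IsClosed {s | C s j k}) (i : κ) (u : ℝ) :
    Activity C u (fun s k => k ∈ Inf879.pre C i u s) where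
  anti _ _ _ h h' := Inf879.pre_anti h h'
  contact s j k h h' := by
    obtain ⟨r, hr, hp⟩ := h
    exact ⟨r, hr, hp.contact h'⟩
  left σ k hσ h := by
    obtain ⟨r, hr, hr'⟩ := Inf879.exists_Act_eq_pre (C := C) (j := i) hσ
    have h1 : ∀ s, s < σ → Past C r i s k := by
      intro s hs
      obtain ⟨r', hr1, hp⟩ := h s hs
      have hp' : Past C (max r' r) i s k := Inf879.past_root_mono (le_max_left _ _) hp
      have hm : max r' r ∈ Ico r u := ⟨le_max_right _ _, max_lt hr1.2 hr.2⟩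
      obtain ⟨j, hj, hjk⟩ := hp'.split hs.le (hr.1.trans hm.1)
      have h2 : j ∈ Act C (max r' r) i σ := hj
      rw [hr' _ hm, ← hr' r ⟨le_rfl, hr.2⟩] at h2
      exact Past.trans h2 hjk
    exact ⟨r, hr, mem_of_left (isClosed_past hC k) h1⟩
  gen σ k hσ h hn := by
    obtain ⟨r, hr, hp⟩ := h
    obtain ⟨r', hr1, hr2⟩ := exists_between hr.2
    have hp' : Past C r' i σ k := Inf879.past_root_mono hr1.le hp
    refine (gen_aux (N := fun k => ∃ s, σ < s ∧ s < u ∧ k ∈ Inf879.pre C i u s)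
      (hr.1.trans_lt hr1) ?_ hp' le_rfl).resolve_left hn
    intro s l hs hl
    exact ⟨s, hs, hl.le.trans_lt hr2, r', ⟨hl.le, hr2⟩, hl⟩

end activity

/-! ### The history -/

section hist

variable {Φ : Space3 → ℝ} {ε t u : ℝ} {κ : Type} [Fintype κ] {X : ℝ → κ → PhasePoint}
  {C : ℝ → κ → κ → Prop} {G : Set κ} {P : ℝ → κ → Prop} {ι : Type} [Fintype ι] {e : ι ↪ κ}
  {τ : ι → ℝ}

/-- No contacts for a short time with particles which are not in contact. -/
theorem exists_no_contact (hC : ∀ j k, IsClosed {s | C s j k}) {s : ℝ} (S : Set (κ × κ))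
    (h : ∀ p ∈ S, ¬ C s p.1 p.2) : ∃ δ > 0, ∀ s', |s' - s| < δ → ∀ p ∈ S, ¬ C s' p.1 p.2 := by
  have h1 : ∀ᶠ s' in 𝓝 s, ∀ p : κ × κ, p ∈ S → ¬ C s' p.1 p.2 := by
    rw [Filter.eventually_all]
    intro p
    by_cases hp : p ∈ S
    · have h2 : {s' | C s' p.1 p.2}ᶜ ∈ 𝓝 s := (hC p.1 p.2).isOpen_compl.mem_nhds (h p hp)
      filter_upwards [h2] with s' hs' _
      exact hs'
    · exact Filter.Eventually.of_forall fun _ h' => absurd h' hp
  obtain ⟨δ, hδ, h2⟩ := Metric.eventually_nhds_iff.1 h1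
  exact ⟨δ, hδ, fun s' hs' p hp => h2 (by rwa [Real.dist_eq]) p hp⟩

/-- **The history of a real cluster is a tapered history.** -/
theorem rhist (hw : GWorld Φ ε t X C G) (hP : Activity C u P) (hu : u ≤ t)
    (heG : range e ⊆ G) (hV : ∀ k, P 0 k → k ∈ range e) (hτ0 : ∀ k, 0 ≤ τ k)
    (hτ : ∀ k s, 0 ≤ s → s < u → (P s (e k) ↔ s ≤ τ k)) :
    RHist Φ ε u τ (fun s k => X s (e k)) where
  dom s hs A := by
    refine hw.dom s ⟨hs.1, hs.2.trans hu⟩ A ((Function.Embedding.subtype (· ∈ A)).trans e) ?_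
    rintro _ ⟨k, rfl⟩
    exact heG ⟨k, rfl⟩
  nonneg := hτ0
  move a b ha hab hb hdich A hA s hs := by
    refine hw.iso A ((Function.Embedding.subtype (· ∈ A)).trans e) ?_ a b ha hab (hb.trans hu) ?_
      s hs
    · rintro _ ⟨k, rfl⟩
      exact heG ⟨k, rfl⟩
    · intro s hs j x hx hc
      have hj : s ≤ τ j := hs.2.le.trans ((hA j).1 j.2)
      have hs0 : 0 ≤ s := ha.trans hs.1.le
      have hsu : s < u := hs.2.trans_le hb
      have h1 : P s x := hP.contact s _ _ ((hτ j s hs0 hsu).2 hj) hc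
      obtain ⟨l, rfl⟩ := hV x (hP.anti 0 s x hs0 h1)
      have h2 := (hτ l s hs0 hsu).1 h1
      have h3 : l ∈ A := by
        rw [hA]
        rcases hdich l with h4 | h4
        · linarith [hs.1]
        · exact h4
      exact hx ⟨⟨l, h3⟩, rfl⟩
  loc s hs0 hsu _ := by
    obtain ⟨δ, hδ, hδ'⟩ := exists_no_contact hw.closed (s := s)
      {p | (∃ l, s ≤ τ l ∧ e l = p.1) ∧ ¬ ∃ l, s ≤ τ l ∧ e l = p.2} (by
        rintro ⟨j, x⟩ ⟨⟨l, hl, rfl⟩, hx⟩ hc
        have h1 : P s x := hP.contact s _ _ ((hτ l s hs0 hsu).2 hl) hc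
        obtain ⟨l', rfl⟩ := hV x (hP.anti 0 s x hs0 h1)
        exact hx ⟨l', (hτ l' s hs0 hsu).1 h1, rfl⟩)
    refine ⟨min (δ / 2) (u - s), lt_min (by linarith) (by linarith), ?_⟩
    intro A hA s' hs'
    have h1 := min_le_left (δ / 2) (u - s)
    have h2 := min_le_right (δ / 2) (u - s)
    have h3 : 0 < min (δ / 2) (u - s) := lt_min (by linarith) (by linarith)
    refine hw.iso A ((Function.Embedding.subtype (· ∈ A)).trans e) ?_ s
      (s + min (δ / 2) (u - s)) hs0 (by linarith) (by linarith) ?_ s' hs'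
    · rintro _ ⟨k, rfl⟩
      exact heG ⟨k, rfl⟩
    · intro v hv j x hx
      refine hδ' v ?_ (e j, x) ⟨⟨j, (hA j).1 j.2, rfl⟩, ?_⟩
      · rw [abs_of_pos (by linarith [hv.1])]
        linarith [hv.2]
      · rintro ⟨l, hl, rfl⟩
        exact hx ⟨⟨l, (hA l).2 hl⟩, rfl⟩
  sep j k hju hjk := by
    have hm : τ j < min (τ k) u := lt_min hjk hju
    filter_upwards [Ioo_mem_nhdsGT hm] with s hs
    have hsu : s < u := hs.2.trans_le (min_le_right _ _)
    have hsk : s ≤ τ k := hs.2.le.trans (min_le_left _ _)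
    have hs0 : 0 ≤ s := (hτ0 j).trans hs.1.le
    by_contra hle
    rw [not_lt] at hle
    have hc : C s (e k) (e j) := by
      refine hw.symm _ _ _ ((hw.ct s ⟨hs0, hsu.le.trans hu⟩ _ (heG ⟨j, rfl⟩) _
        (heG ⟨k, rfl⟩)).2 hle)
    have h1 := (hτ j s hs0 hsu).1 (hP.contact s _ _ ((hτ k s hs0 hsu).2 hsk) hc)
    linarith [hs.1]
  conn j hju := by
    have h0 := hτ0 j
    have hσI : τ j ∈ Icc 0 t := ⟨h0, hju.le.trans hu⟩
    have hact : ∀ l, τ j < τ l → ∃ s, τ j < s ∧ s < u ∧ P s (e l) := by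
      intro l hl
      obtain ⟨s, hs1, hs2⟩ := exists_between (lt_min hl hju)
      exact ⟨s, hs1, hs2.trans_le (min_le_right _ _),
        (hτ l s (h0.trans hs1.le) (hs2.trans_le (min_le_right _ _))).2
          (hs2.le.trans (min_le_left _ _))⟩
    have hact' : ∀ l, (∃ s, τ j < s ∧ s < u ∧ P s (e l)) → τ j < τ l := by
      rintro l ⟨s, hs1, hs2, hs3⟩
      exact hs1.trans_le ((hτ l s (h0.trans hs1.le) hs2).1 hs3)
    have hin : ∀ x s, 0 ≤ s → P s x → ∃ l, e l = x := fun x s hs hx => by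
      obtain ⟨l, hl⟩ := hV x (hP.anti 0 s x hs hx)
      exact ⟨l, hl⟩
    obtain ⟨m, m', ⟨s, hs1, hs2, hs3⟩, hmm, hm', hch⟩ := hP.gen (τ j) (e j) hju
      ((hτ j _ h0 hju).2 le_rfl) (fun h => lt_irrefl _ (hact' j h))
    obtain ⟨l, rfl⟩ := hin m s (h0.trans hs1.le) hs3
    have hl : τ j < τ l := hact' l ⟨s, hs1, hs2, hs3⟩
    have hPl : P (τ j) (e l) := hP.anti _ _ _ hs1.le hs3
    have hPm' : P (τ j) m' := hP.contact _ _ _ hPl hmm
    have key : ∀ x, Relation.ReflTransGen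
        (fun a b => C (τ j) a b ∧ ¬ ∃ s, τ j < s ∧ s < u ∧ P s b) m' x →
        ∃ l', e l' = m' ∧ ∃ y, e y = x ∧ τ l' = τ j ∧ τ y = τ j ∧ Relation.ReflTransGen
          (fun a b => τ b = τ j ∧ dist (X (τ j) (e a)).1 (X (τ j) (e b)).1 ≤ ε) l' y := by
      intro x hx
      induction hx with
      | refl =>
        obtain ⟨l', rfl⟩ := hin m' _ h0 hPm'
        have h1 : τ l' = τ j := by
          refine le_antisymm (not_lt.1 fun h => hm' (hact l' h)) ?_
          exact (hτ l' _ h0 hju).1 hPm'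
        exact ⟨l', rfl, l', rfl, h1, h1, .refl⟩
      | @tail y z _ hyz ih =>
        obtain ⟨l', hl', y', rfl, h1, h2, h3⟩ := ih
        have hPz : P (τ j) z := hP.contact _ _ _ ((hτ y' _ h0 hju).2 h2.ge) hyz.1
        obtain ⟨z', rfl⟩ := hin z _ h0 hPz
        have h4 : τ z' = τ j := by
          refine le_antisymm (not_lt.1 fun h => hyz.2 (hact z' h)) ?_
          exact (hτ z' _ h0 hju).1 hPz
        refine ⟨l', hl', z', rfl, h1, h4, h3.tail ⟨h4, ?_⟩⟩
        exact (hw.ct _ hσI _ (heG ⟨y', rfl⟩) _ (heG ⟨z', rfl⟩)).1 hyz.1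
    obtain ⟨l', hl', y, hy, h1, _, h3⟩ := key (e j) hch
    have hyj : y = j := e.injective hy
    subst hyj
    refine ⟨l', h1, ⟨l, hl, ?_⟩, h3⟩
    have h5 : C (τ y) (e l) (e l') := by rw [hl']; exact hmm
    exact (hw.ct _ hσI _ (heG ⟨l', rfl⟩) _ (heG ⟨l, rfl⟩)).1 (hw.symm _ _ _ h5)

end hist

end Crest.Agent.R122.Chain726

end
end

-- ▼ part R122/ChainDet_726
section

/-!
# Release chains (row 122, D5, helper726): a tapered history is a collision tree or bad
-/

set_option autoImplicit false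
set_option linter.unusedSectionVars false

open Set Filter Topology
open Crest.AnalysisR.Kinetic
open scoped Classical

noncomputable section

namespace Crest.Agent.R122.Chain726

open Kin796 Kin796.CTree Disc416 Tree674 Flow671 Loc45 Causal291 PathFlow968 Surj968 Graft968

variable {Φ : Space3 → ℝ} {ε T : ℝ}

/-- Right after `s` the pair is separated: the radial velocity at time `s` is not negative. -/
theorem radial_nonneg (hΦ : AdmissiblePotential Φ) (hε : 0 < ε) {κ : Type*} [Fintype κ]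
    {W : κ → PhasePoint} (hW : W ∈ Dom Φ κ) {s : ℝ} {j k : κ}
    (hd : dist (flow Φ ε s W j).1 (flow Φ ε s W k).1 = ε)
    (hsep : ∀ᶠ u in 𝓝[>] s, ε < dist (flow Φ ε u W j).1 (flow Φ ε u W k).1) :
    0 ≤ inner ℝ ((flow Φ ε s W j).1 - (flow Φ ε s W k).1)
      ((flow Φ ε s W j).2 - (flow Φ ε s W k).2) := by
  by_contra hneg
  rw [not_le] at hneg
  set f : ℝ → ℝ := fun u => ‖(flow Φ ε u W j).1 - (flow Φ ε u W k).1‖ ^ 2 with hf
  have h1 : HasDerivAt f (2 * inner ℝ ((flow Φ ε s W j).1 - (flow Φ ε s W k).1)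
      ((flow Φ ε s W j).2 - (flow Φ ε s W k).2)) s :=
    ((hasDerivAt_pos_flow hΦ hε hW s j).sub (hasDerivAt_pos_flow hΦ hε hW s k)).norm_sq
  have h2 := (hasDerivAt_iff_tendsto_slope.1 h1).mono_left
    (nhdsWithin_mono s (fun x (hx : s < x) => hx.ne') : 𝓝[>] s ≤ 𝓝[≠] s)
  have h3 : ∀ᶠ u in 𝓝[>] s, slope f s u < 0 := h2.eventually (gt_mem_nhds (by linarith))
  obtain ⟨u, ⟨h4, h5⟩, h6⟩ := ((h3.and hsep).and self_mem_nhdsWithin).exists
  have h6' : s < u := h6
  rw [slope_def_field, div_neg_iff] at h4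
  have h7 : f u < f s := by
    rcases h4 with h4 | h4
    · linarith [h4.2]
    · linarith [h4.1]
  have h8 : f s = ε ^ 2 := by
    simp only [hf]
    rw [← dist_eq_norm, hd]
  have h9 : ε ^ 2 < f u := by
    simp only [hf]
    rw [← dist_eq_norm]
    exact pow_lt_pow_left₀ h5 hε.le two_ne_zero
  linarith

theorem after_le_entr : ∀ (P : CTree) {s : ℝ} (T : ℝ) (v : Space3) (p : Par P) (m : Idx P),
    After Φ ε s P v p → s ≤ T → s ≤ entr Φ ε P T v p m
  | leaf, _, _, _, _, _, _, h => h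
  | node l _, _, _, v, p, Sum.inl m, h, _ => after_le_entr l _ _ p.2.1 m h.2.1 h.1.le
  | node _ r, _, _, v, p, Sum.inr m, h, _ => after_le_entr r _ _ p.2.2 m h.2.2 h.1.le


/-- the equivalence `Option A' ≃ A` for `A = insert j A'` -/
def optE {ι : Type*} {A A' : Finset ι} (hsub : A' ⊆ A) (j : A) (hj : (j : ι) ∉ A')
    (hcov : ∀ k : A, (k : ι) ∉ A' → k = j) : Option A' ≃ A :=
  Equiv.ofBijective (fun o => o.elim j fun k => ⟨k, hsub k.2⟩) ⟨by
    rintro (_ | k) (_ | k') h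
    · rfl
    · exact absurd (by rw [show j = ⟨(k' : ι), hsub k'.2⟩ from h]; exact k'.2) hj
    · exact absurd (by rw [← show (⟨(k : ι), hsub k.2⟩ : A) = j from h]; exact k.2) hj
    · congr 1
      exact Subtype.ext (Subtype.mk.inj h), by
    intro k
    by_cases hk : (k : ι) ∈ A'
    · exact ⟨some ⟨k, hk⟩, rfl⟩
    · exact ⟨none, (hcov k hk).symm⟩⟩

@[simp] theorem optE_none {ι : Type*} {A A' : Finset ι} (hsub : A' ⊆ A) (j : A)
    (hj : (j : ι) ∉ A') (hcov : ∀ k : A, (k : ι) ∉ A' → k = j) : optE hsub j hj hcov none = j := rfl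

@[simp] theorem optE_some {ι : Type*} {A A' : Finset ι} (hsub : A' ⊆ A) (j : A)
    (hj : (j : ι) ∉ A') (hcov : ∀ k : A, (k : ι) ∉ A' → k = j) (k : A') :
    optE hsub j hj hcov (some k) = ⟨k, hsub k.2⟩ := rfl

/-- **One release step of a good younger tree**: the graft is good, or the step is bad. -/
theorem graft_or_badAt (hΦ : AdmissiblePotential Φ) (hε : 0 < ε) {ι : Type*} {A A' : Finset ι}
    {W : A → PhasePoint} {W' : A' → PhasePoint} {s : ℝ} (hs : s ∈ Icc 0 T)
    (hst : Step Φ ε s W W') {i : ι} (hi : i ∈ A') {τ : ι → ℝ}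
    {P : CTree} {e : Idx P ≃ A'} {ℓ : PhasePoint} {p : Par P}
    (hg : Good0 Φ ε T ⟨i, hi⟩ W' (fun k => τ k) P e ℓ p)
    (hle : ∀ k ∈ A', s ≤ τ k) (hτ : ∀ k : A, (k : ι) ∉ A' → τ k = s)
    (hch : ∃ W'' : ({i} : Finset ι) → PhasePoint, Chain Φ ε T A' W' {i} W'') :
    (∃ (Q : CTree) (f : Idx Q ≃ A) (q : Par Q),
      Good0 Φ ε T ⟨i, hst.sub hi⟩ W (fun k => τ k) Q f ℓ q ∧
      ∀ (k : A') (s' : ℝ), s ≤ s' →
        path Φ ε Q ℓ q s' (f.symm ⟨k, hst.sub k.2⟩) = path Φ ε P ℓ p s' (e.symm k)) ∨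
    BadAt Φ ε T i s W W' := by
  by_cases hcard : A'.card + 2 ≤ A.card
  · exact Or.inr (Or.inl ⟨hcard, hch⟩)
  have hcard1 : A'.card + 1 = A.card := by
    have h1 := hst.card_lt
    omega
  obtain ⟨j, hj, ⟨m, hm, hjm⟩, -⟩ := hst.touch
  have hcov : ∀ k : A, (k : ι) ∉ A' → k = j := by
    intro k hk
    by_contra hkj
    refine hcard ?_
    have h1 : insert (k : ι) (insert (j : ι) A') ⊆ A := by
      intro x hx
      rw [Finset.mem_insert, Finset.mem_insert] at hx
      rcases hx with rfl | rfl | hx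
      · exact k.2
      · exact j.2
      · exact hst.sub hx
    have h2 := Finset.card_le_card h1
    rw [Finset.card_insert_of_notMem, Finset.card_insert_of_notMem hj] at h2
    · exact h2
    · rw [Finset.mem_insert]
      rintro (h3 | h3)
      · exact hkj (Subtype.ext h3)
      · exact hk h3
  have hfl : ∀ k : A', flow Φ ε s W' k = flow Φ ε s W ⟨k, hst.sub k.2⟩ := fun k =>
    congrFun (hst.flow_eq hΦ hε) k
  set m' : A' := ⟨m, hm⟩ with hm'
  have hmm : flow Φ ε s W' m' = flow Φ ε s W m := hfl m'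
  have hd : dist (flow Φ ε s W j).1 (flow Φ ε s W' m').1 = ε := by
    rw [hmm]
    exact hjm
  have hrad : 0 ≤ inner ℝ ((flow Φ ε s W j).1 - (flow Φ ε s W' m').1)
      ((flow Φ ε s W j).2 - (flow Φ ε s W' m').2) := by
    rw [hmm]
    refine radial_nonneg hΦ hε hst.dom hjm ?_
    obtain ⟨h, hh, hsep⟩ := hst.sep
    filter_upwards [Ioo_mem_nhdsGT (show s < s + h by linarith)] with u hu
    exact hsep u hu j m hj hm
  rcases hrad.eq_or_lt with hr | hr
  · exact Or.inr (Or.inr ⟨hcard1, j, m', ⟨i, hi⟩, rfl, hj, hd, Or.inl hr.symm⟩)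
  -- the impact parameter
  have hbad : ∀ y : Plane, ‖y‖ < 1 → (flow Φ ε s W' m').2 ≠ (flow Φ ε s W j).2 →
      (flow Φ ε s W j).1 = (flow Φ ε s W' m').1 + ε • entrancePoint
        (frameMap ((flow Φ ε s W' m').2 - (flow Φ ε s W j).2) y)
        ((flow Φ ε s W' m').2 - (flow Φ ε s W j).2) →
      ¬ (After Φ ε s P ℓ.2 p ∧
        Valid Φ ε (graft P (e.symm m')) T ℓ.2 (gpar P (e.symm m') ((s, (flow Φ ε s W j).2, y), p)) ∧
        Sep Φ ε (graft P (e.symm m')) T ℓ (gpar P (e.symm m') ((s, (flow Φ ε s W j).2, y), p))) →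
      BadAt Φ ε T i s W W' := by
    intro y hy hv hx hno
    refine Or.inr ⟨hcard1, j, m', ⟨i, hi⟩, rfl, hj, hd, Or.inr ⟨hr, ?_⟩⟩
    refine ⟨P, e, ℓ, p, y, hg.valid, hg.sep, hg.root, hg.state, fun x => ?_, hy, hv, hx, hno⟩
    rw [← hg.rel x]
    exact hle _ (e x).2
  by_cases haf : After Φ ε s P ℓ.2 p
  swap
  · -- an open window
    right
    obtain ⟨a, ha1, ha2, ha3, ha4, ha5⟩ := exists_node hε (ℓ := lineOf (flow Φ ε s W' m') s)
      (z := flow Φ ε s W j) (s := s) (by rw [onLine_lineOf]; exact hd)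
      (by rw [onLine_lineOf]; exact hr)
    refine hbad a.2.2 ha3 (by rw [← ha2]; exact ha4) ?_ fun h => haf h.1
    rw [← ha2]
    have h1 := congrArg Prod.fst ha5
    unfold onLine outLine lineOf nb ng at h1
    simp only [ha1, sub_add_cancel] at h1
    exact h1.symm
  -- the node of the graft
  have hentr := after_le_entr P T ℓ.2 p (e.symm m') haf hs.2
  obtain ⟨hline, a, ha1, ha2, ha3, ha4, ha5, hgr⟩ := exists_graft hΦ hε hg hs.1 (e.symm m') hentr
    (z := flow Φ ε s W j) (by rw [Equiv.apply_symm_apply]; exact hd)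
    (by rw [Equiv.apply_symm_apply]; exact hr)
  rw [Equiv.apply_symm_apply] at hline
  have hav : a = (s, (flow Φ ε s W j).2, a.2.2) := by
    rw [← ha2, ← ha1]
  by_cases hok : Valid Φ ε (graft P (e.symm m')) T ℓ.2 (gpar P (e.symm m') (a, p)) ∧
      Sep Φ ε (graft P (e.symm m')) T ℓ (gpar P (e.symm m') (a, p))
  swap
  · right
    refine hbad a.2.2 ha3 ?_ ?_ ?_
    · rw [hline, ← ha2]
      exact ha4
    · rw [← ha2]
      have h1 := congrArg Prod.fst ha5
      unfold onLine outLine nb ng at h1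
      rw [hline]
      unfold onLine
      simp only [ha1, sub_add_cancel] at h1
      exact h1.symm
    · rintro ⟨-, h1, h2⟩
      rw [← hav] at h1 h2
      exact hok ⟨h1, h2⟩
  · left
    set f := optE hst.sub j hj hcov with hf
    have hnew := hgr hok.1 hok.2 f (W' := W) (σ' := fun k : A => τ k)
      (fun k => by rw [hf, optE_some]; exact (hfl k).symm) rfl (fun k => rfl)
      (by rw [hf, optE_none]; exact hτ j hj)
    refine ⟨graft P (e.symm m'), gLabel P (e.symm m') e f, gpar P (e.symm m') (a, p), hnew, ?_⟩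
    intro k s' hs'
    have h1 : (gLabel P (e.symm m') e f).symm ⟨k, hst.sub k.2⟩ = old P (e.symm m') (e.symm k) := by
      rw [Equiv.symm_apply_eq, gLabel_old, Equiv.apply_symm_apply]
      rfl
    rw [h1]
    exact path_graft_old hΦ hε P (e.symm m') T ℓ a p hok.1 s' (e.symm k)
      (Or.inr (ha1.le.trans hs'))

/-- The same with `BadStep`. -/
theorem graft_or_bad (hΦ : AdmissiblePotential Φ) (hε : 0 < ε) {ι : Type*} {A A' : Finset ι}
    {W : A → PhasePoint} {W' : A' → PhasePoint} {s : ℝ} (hs : s ∈ Icc 0 T)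
    (hst : Step Φ ε s W W') {i : ι} (hi : i ∈ A') {τ : ι → ℝ}
    {P : CTree} {e : Idx P ≃ A'} {ℓ : PhasePoint} {p : Par P}
    (hg : Good0 Φ ε T ⟨i, hi⟩ W' (fun k => τ k) P e ℓ p)
    (hle : ∀ k ∈ A', s ≤ τ k) (hτ : ∀ k : A, (k : ι) ∉ A' → τ k = s)
    (hch : ∃ W'' : ({i} : Finset ι) → PhasePoint, Chain Φ ε T A' W' {i} W'') :
    (∃ (Q : CTree) (f : Idx Q ≃ A) (q : Par Q),
      Good0 Φ ε T ⟨i, hst.sub hi⟩ W (fun k => τ k) Q f ℓ q ∧
      ∀ (k : A') (s' : ℝ), s ≤ s' →
        path Φ ε Q ℓ q s' (f.symm ⟨k, hst.sub k.2⟩) = path Φ ε P ℓ p s' (e.symm k)) ∨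
    BadStep Φ ε T i W :=
  (graft_or_badAt hΦ hε hs hst hi hg hle hτ hch).imp id fun h => ⟨s, hs, A', W', hst, h⟩

/-! ### The induction over the releases -/

section main

variable {u te : ℝ} {ι : Type} [Fintype ι] {τ : ι → ℝ} {X : ℝ → ι → PhasePoint} {i : ι}

/-- The group `A` at time `s` is the group of a good tree whose protected times are the release
times, and on `[s, u]` the active particles follow the path of the tree. -/
def GoodX (Φ : Space3 → ℝ) (ε T u : ℝ) (τ : ι → ℝ) (X : ℝ → ι → PhasePoint) (i : ι)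
    (A : Finset ι) (s : ℝ) : Prop :=
  ∃ (hi : i ∈ A) (P : CTree) (e : Idx P ≃ A) (ℓ : PhasePoint) (p : Par P),
    Good0 Φ ε T ⟨i, hi⟩ (pull Φ ε X A s) (fun k => τ k) P e ℓ p ∧
    (∃ W'' : ({i} : Finset ι) → PhasePoint, Chain Φ ε T A (pull Φ ε X A s) {i} W'') ∧
    ∀ (k : A) (s' : ℝ), s' ∈ Icc s u → s' ≤ τ k → X s' k = path Φ ε P ℓ p s' (e.symm k)

/-- transfer over a release-free interval -/
theorem transfer (hΦ : AdmissiblePotential Φ) (hε : 0 < ε) (h : RHist Φ ε u τ X) (huT : u ≤ T)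
    {A : Finset ι} {s s₁ : ℝ} (hs0 : 0 ≤ s) (hss : s < s₁) (hsu : s₁ ≤ u)
    (hdich : ∀ k, τ k ≤ s ∨ s₁ ≤ τ k) (hA : ∀ k, k ∈ A ↔ s₁ ≤ τ k) :
    pull Φ ε X A s = pull Φ ε X A s₁ ∧ (GoodX Φ ε T u τ X i A s₁ → GoodX Φ ε T u τ X i A s) := by
  have hmove := h.move s s₁ hs0 hss hsu hdich A hA
  have hpull : pull Φ ε X A s = pull Φ ε X A s₁ := by
    unfold pull
    rw [hmove s₁ ⟨hss.le, le_rfl⟩, ← flow_add hΦ hε]
    congr 1
    ring
  refine ⟨hpull, ?_⟩
  rintro ⟨hi, P, e, ℓ, p, hg, hch, hp⟩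
  refine ⟨hi, P, e, ℓ, p, hpull ▸ hg, hpull ▸ hch, ?_⟩
  intro k s' hs' hk
  rcases le_total s₁ s' with h1 | h1
  · exact hp k s' ⟨h1, hs'.2⟩ hk
  · have h2 := hg.flow_eq hΦ hε ⟨hs0.trans hs'.1, h1.trans (hsu.trans huT)⟩ (e.symm k)
    rw [Equiv.apply_symm_apply] at h2
    rw [← h2, ← hpull, flow_pull' hΦ hε, ← hmove s' ⟨hs'.1, h1⟩]
    rfl

/-- one release -/
theorem release_at (hΦ : AdmissiblePotential Φ) (hε : 0 < ε) (h : RHist Φ ε u τ X) (huT : u ≤ T)
    {A : Finset ι} {s : ℝ} (hsu : s < u) (hA : Stage ε τ X A s) {j₀ : ι} (hj₀ : j₀ ∈ A)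
    (hτ : τ j₀ = s) (hG : GoodX Φ ε T u τ X i (A \ comp ε τ X s j₀) s) :
    GoodX Φ ε T u τ X i A s ∨
      BadAt Φ ε T i s (pull Φ ε X A s) (pull Φ ε X (A \ comp ε τ X s j₀) s) := by
  have hs0 : 0 ≤ s := hτ ▸ h.nonneg j₀
  have hsT : s ∈ Icc 0 T := ⟨hs0, hsu.le.trans huT⟩
  have hst := h.step hΦ hε hsu hA hj₀ hτ
  have hA' := hA.sdiff hτ
  obtain ⟨hi, P, e, ℓ, p, hg, hch, hp⟩ := hG
  have hτJ : ∀ k : A, (k : ι) ∉ A \ comp ε τ X s j₀ → τ k = s := by
    intro k hk
    by_contra hne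
    refine hk (Finset.mem_sdiff.2 ⟨k.2, fun hc => hne (comp_tau hτ hc)⟩)
  rcases graft_or_badAt hΦ hε hsT hst hi hg hA'.le hτJ hch with ⟨Q, f, q, hQ, hQp⟩ | hbad
  swap
  · exact Or.inr hbad
  left
  refine ⟨hst.sub hi, Q, f, ℓ, q, hQ, hch.imp fun _ h' => .step hsT hst h', ?_⟩
  intro k s' hs' hk
  rcases eq_or_lt_of_le hs'.1 with h1 | h1
  · subst h1
    have h2 := hQ.flow_eq hΦ hε hsT (f.symm k)
    rw [Equiv.apply_symm_apply, flow_pull hΦ hε] at h2
    exact h2
  · by_cases hkA : (k : ι) ∈ A \ comp ε τ X s j₀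
    · have h2 := hQp ⟨k, hkA⟩ s' hs'.1
      rw [show (⟨(k : ι), hst.sub hkA⟩ : A) = k from rfl] at h2
      rw [h2]
      exact hp ⟨k, hkA⟩ s' hs' hk
    · exact absurd (hτJ k hkA) (by linarith)

/-- **A tapered history is the history of a tree, or bad**, for any notion `B` of badness which
contains the bad release steps from good younger groups and goes backward along release steps. -/
theorem good_or_gen (hΦ : AdmissiblePotential Φ) (hε : 0 < ε) (h : RHist Φ ε u τ X) (huT : u ≤ T)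
    (hiT : τ i = T) (B : (A : Finset ι) → (A → PhasePoint) → Prop)
    (hB1 : ∀ s ∈ Icc 0 T, ∀ (A A' : Finset ι) (W : A → PhasePoint) (W' : A' → PhasePoint),
      Step Φ ε s W W' → B A' W' → B A W)
    (hB2 : ∀ s ∈ Icc 0 u, ∀ (A A' : Finset ι) (W : A → PhasePoint),
      Step Φ ε s W (pull Φ ε X A' s) → GoodX Φ ε T u τ X i A' s →
      BadAt Φ ε T i s W (pull Φ ε X A' s) → B A W)
    (hterm : ∀ A : Finset ι, (∀ k, k ∈ A ↔ u ≤ τ k) →
      GoodX Φ ε T u τ X i A u ∨ B A (pull Φ ε X A u)) :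
    ∀ (n : ℕ) (A : Finset ι) (s : ℝ), A.card ≤ n → 0 ≤ s → s < u → Stage ε τ X A s →
      GoodX Φ ε T u τ X i A s ∨ B A (pull Φ ε X A s) := by
  intro n
  induction n with
  | zero =>
    intro A s hn hs0 hsu hA
    exfalso
    have h1 : i ∈ A := hA.mem i (by rw [hiT]; linarith)
    rw [Nat.le_zero, Finset.card_eq_zero] at hn
    rw [hn] at h1
    exact absurd h1 (Finset.notMem_empty _)
  | succ n ih =>
    intro A s hn hs0 hsu hA
    -- release of a component at time `s'`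
    have key : ∀ s', 0 ≤ s' → s' < u → Stage ε τ X A s' → (∃ j₀ ∈ A, τ j₀ = s') →
        GoodX Φ ε T u τ X i A s' ∨ B A (pull Φ ε X A s') := by
      rintro s' hs'0 hs'u hA' ⟨j₀, hj₀, hτ⟩
      have hst := h.step hΦ hε hs'u hA' hj₀ hτ
      have h1 := hst.card_lt
      rcases ih _ s' (by omega) hs'0 hs'u (hA'.sdiff hτ) with hG | hB
      · exact (release_at hΦ hε h huT hs'u hA' hj₀ hτ hG).imp id
          fun hb => hB2 s' ⟨hs'0, hs'u.le⟩ _ _ _ hst hG hb
      · exact Or.inr (hB1 s' ⟨hs'0, hs'u.le.trans huT⟩ _ _ _ _ hst hB)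
    by_cases hex : ∃ j₀ ∈ A, τ j₀ = s
    · exact key s hs0 hsu hA hex
    push Not at hex
    have hlt : ∀ k ∈ A, s < τ k := fun k hk => lt_of_le_of_ne (hA.le k hk) (hex k hk).symm
    by_cases hF : ∃ k ∈ A, τ k < u
    · -- the next release time
      obtain ⟨k₀, hk₀, hk₀u⟩ := hF
      obtain ⟨k₁, hk₁, hmin⟩ := Finset.exists_min_image A τ ⟨k₀, hk₀⟩
      set s₁ := τ k₁ with hs₁
      have hs₁u : s₁ < u := (hmin k₀ hk₀).trans_lt hk₀u
      have hss : s < s₁ := hlt k₁ hk₁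
      have hdich : ∀ k, τ k ≤ s ∨ s₁ ≤ τ k := by
        intro k
        rcases le_or_gt (τ k) s with h1 | h1
        · exact Or.inl h1
        · exact Or.inr (hmin k (hA.mem k h1))
      have hAm : ∀ k, k ∈ A ↔ s₁ ≤ τ k := fun k =>
        ⟨fun hk => hmin k hk, fun hk => hA.mem k (hss.trans_le hk)⟩
      have hA₁ : Stage ε τ X A s₁ :=
        ⟨fun k hk => hmin k hk, fun k hk => hA.mem k (hss.trans hk), fun a _ b _ hb _ =>
          hA.mem b (by rw [hb]; exact hss)⟩
      obtain ⟨h1, h2⟩ := transfer (i := i) hΦ hε h huT hs0 hss hs₁u.le hdich hAm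
      rw [h1]
      exact (key s₁ (hs0.trans hss.le) hs₁u hA₁ ⟨k₁, hk₁, rfl⟩).imp h2 id
    · push Not at hF
      have hdich : ∀ k, τ k ≤ s ∨ u ≤ τ k := by
        intro k
        rcases le_or_gt (τ k) s with h1 | h1
        · exact Or.inl h1
        · exact Or.inr (hF k (hA.mem k h1))
      have hAm : ∀ k, k ∈ A ↔ u ≤ τ k := fun k =>
        ⟨fun hk => hF k hk, fun hk => hA.mem k (hsu.trans_le hk)⟩
      obtain ⟨h1, h2⟩ := transfer (i := i) hΦ hε h huT hs0 hsu le_rfl hdich hAm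
      rw [h1]
      exact (hterm A hAm).imp h2 id


end main

end Crest.Agent.R122.Chain726

end
end

-- ▼ part R122/ChainEnd_726
section

/-!
# Release chains (row 122, D5, helper726): the terminal group and its virtual continuation
-/

set_option autoImplicit false
set_option linter.unusedSectionVars false

open Set Filter Topology
open Crest.AnalysisR.Kinetic
open scoped Classical

noncomputable section

namespace Crest.Agent.R122.Chain726

open Kin796 Kin796.CTree Disc416 Tree674 Flow671 Loc45 Causal291 PathFlow968 Surj968 Graft968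

/-! ### The terminal group is contact-connected -/

section term

variable {κ : Type} [Fintype κ] {C : ℝ → κ → κ → Prop}

theorem term_past (hC : ∀ j k, IsClosed {s | C s j k}) {i : κ} {u : ℝ} {k : κ}
    (h : ∀ s, s < u → Past C u i s k) :
    Relation.ReflTransGen (fun a b => C u a b ∧ ∀ s, s < u → Past C u i s b) i k := by
  have h1 : Past C u i u k := mem_of_left (isClosed_past hC k) h
  have key : ∀ s k, Past C u i s k → s = u →
      Relation.ReflTransGen (fun a b => C u a b ∧ ∀ s, s < u → Past C u i s b) i k := by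
    intro s k h
    induction h with
    | root h => exact fun _ => .refl
    | @step s s' j k h hc hs ih =>
      intro hsu
      have h2 : s' = u := le_antisymm h.le (hsu ▸ hs)
      subst h2
      exact (ih rfl).tail ⟨hc, fun s hs => (h.contact hc).mono hs.le⟩
  exact key u k h1 rfl

theorem term_pre (hC : ∀ j k, IsClosed {s | C s j k}) {i : κ} {u : ℝ} {k : κ}
    (h : ∀ s, s < u → k ∈ Inf879.pre C i u s) :
    Relation.ReflTransGen (fun a b => C u a b ∧ ∀ s, s < u → b ∈ Inf879.pre C i u s) i k := by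
  obtain ⟨δ, hδ, hδ'⟩ := exists_no_contact hC (s := u) {p | ¬ C u p.1 p.2} (fun p hp => hp)
  have h1 : ∀ s, u - δ < s → s < u → ∀ a b, C s a b → C u a b := by
    intro s hs1 hs2 a b hab
    by_contra hno
    refine hδ' s ?_ (a, b) hno hab
    rw [abs_sub_comm, abs_of_pos (by linarith)]
    linarith
  have h2 : ∀ b : κ, ∃ s, s < u ∧ (b ∈ Inf879.pre C i u s → ∀ s', s' < u →
      b ∈ Inf879.pre C i u s') := by
    intro b
    by_cases hb : ∀ s', s' < u → b ∈ Inf879.pre C i u s'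
    · exact ⟨u - 1, by linarith, fun _ => hb⟩
    · push Not at hb
      obtain ⟨s, hs, hs'⟩ := hb
      exact ⟨s, hs, fun h => absurd h hs'⟩
  choose σ hσ hσ' using h2
  have hne : (Finset.univ : Finset κ).Nonempty := ⟨i, Finset.mem_univ i⟩
  set s₀ := max (u - δ / 2) (Finset.univ.sup' hne σ) with hs₀
  have hs₀u : s₀ < u := max_lt (by linarith) ((Finset.sup'_lt_iff hne).2 fun b _ => hσ b)
  have hs₀δ : u - δ < s₀ := lt_of_lt_of_le (by linarith) (le_max_left _ _)
  have h3 : ∀ b s, s₀ ≤ s → b ∈ Inf879.pre C i u s → ∀ s', s' < u → b ∈ Inf879.pre C i u s' := by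
    intro b s hs hb
    refine hσ' b (Inf879.pre_anti ?_ hb)
    exact ((Finset.le_sup' σ (Finset.mem_univ b)).trans (le_max_right _ _)).trans hs
  obtain ⟨r, hr, hp⟩ := h s₀ hs₀u
  have key : ∀ s k, Past C r i s k → s₀ ≤ s → Relation.ReflTransGen
      (fun a b => C u a b ∧ ∀ s, s < u → b ∈ Inf879.pre C i u s) i k := by
    intro s k h
    induction h with
    | root h => exact fun _ => .refl
    | @step s s' j k h hc hs ih =>
      intro hs0
      have h4 : s₀ ≤ s' := hs0.trans hs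
      have h5 : s' < u := h.le.trans_lt hr.2
      refine (ih h4).tail ⟨h1 s' (hs₀δ.trans_le h4) h5 _ _ hc, ?_⟩
      exact h3 k s' h4 ⟨r, ⟨h.le, hr.2⟩, h.contact hc⟩
  exact key s₀ k hp le_rfl

/-- the release times of the particles which are released before `u` -/
theorem exists_sigma {P : ℝ → κ → Prop} {u : ℝ} (hP : Activity C u P) {k : κ} (h0 : P 0 k)
    (hk : ¬ ∀ s, s < u → P s k) :
    ∃ σ, 0 ≤ σ ∧ σ < u ∧ ∀ s, 0 ≤ s → s < u → (P s k ↔ s ≤ σ) := by
  push Not at hk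
  obtain ⟨s₁, hs₁, hk₁⟩ := hk
  have hs₁0 : 0 < s₁ := by
    by_contra hle
    exact hk₁ (hP.anti _ _ _ (not_lt.1 hle) h0)
  set S : Set ℝ := {s | 0 ≤ s ∧ s ≤ s₁ ∧ P s k} with hS
  have hne : S.Nonempty := ⟨0, le_rfl, hs₁0.le, h0⟩
  have hbd : BddAbove S := ⟨s₁, fun s hs => hs.2.1⟩
  have hσ0 : 0 ≤ sSup S := le_csSup hbd ⟨le_rfl, hs₁0.le, h0⟩
  have hσ1 : sSup S ≤ s₁ := csSup_le hne fun s hs => hs.2.1
  have hσP : P (sSup S) k := by
    refine hP.left _ _ (hσ1.trans_lt hs₁) fun s hs => ?_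
    obtain ⟨s', hs', hss'⟩ := exists_lt_of_lt_csSup hne hs
    exact hP.anti _ _ _ hss'.le hs'.2.2
  refine ⟨sSup S, hσ0, hσ1.trans_lt hs₁, fun s hs0 _ => ⟨fun h => ?_, fun h => ?_⟩⟩
  · rcases le_or_gt s s₁ with h1 | h1
    · exact le_csSup hbd ⟨hs0, h1, h⟩
    · exact absurd (hP.anti _ _ _ h1.le h) hk₁
  · exact hP.anti _ _ _ h hσP

end term

/-! ### The virtual continuation -/

section virt

variable {Φ : Space3 → ℝ} {ε T u te : ℝ} {ι : Type} [Fintype ι] {X : ℝ → ι → PhasePoint} {i : ι}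

theorem good_single (hΦ : AdmissiblePotential Φ) (hε : 0 < ε) (hu : 0 ≤ u) (huT : u ≤ T)
    (τ : ι → ℝ) (hτ : τ i = T) : GoodX Φ ε T u τ X i {i} u := by
  haveI : Subsingleton ({i} : Finset ι) := ⟨fun a b => Subtype.ext
    ((Finset.mem_singleton.1 a.2).trans (Finset.mem_singleton.1 b.2).symm)⟩
  have hi : i ∈ ({i} : Finset ι) := Finset.mem_singleton_self i
  obtain ⟨e, he⟩ := exists_good0_leaf Φ ε T (⟨i, hi⟩ : ({i} : Finset ι)) (pull Φ ε X {i} u)
    (fun k => τ k) hτ
  refine ⟨hi, leaf, e, _, _, he, ⟨_, .refl _ _⟩, ?_⟩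
  intro k s' hs' _
  obtain rfl : s' = u := le_antisymm hs'.2 hs'.1
  have h1 := he.flow_eq hΦ hε ⟨hu, huT⟩ (e.symm k)
  rw [Equiv.apply_symm_apply, flow_pull hΦ hε] at h1
  exact h1

/-- **The terminal group** at time `u`: a single particle, or a pair which separates before the
horizon `T` (virtual release), or bad. -/
theorem terminal_at (hΦ : AdmissiblePotential Φ) (hε : 0 < ε) (hu : u ∈ Icc 0 te) (hteT : te < T)
    {A : Finset ι} (hi : i ∈ A) (hdom : grp A (X u) ∈ Dom Φ A)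
    (hconn : ∀ k : A, Relation.ReflTransGen (fun a b => dst (grp A (X u)) a b ≤ ε) ⟨i, hi⟩ k) :
    ∃ τA : ι → ℝ, (∀ k, u ≤ τA k) ∧ τA i = T ∧ ∀ τ : ι → ℝ, (∀ k ∈ A, τ k = τA k) →
      (GoodX Φ ε T u τ X i A u ∨ (A.card = 2 ∧ BadStep Φ ε T i (pull Φ ε X A u)) ∨
        TermBad Φ ε T te i (pull Φ ε X A u)) := by
  have huT : u < T := hu.2.trans_lt hteT
  have hcard1 : 1 ≤ A.card := Finset.card_pos.2 ⟨i, hi⟩
  by_cases hc3 : 3 ≤ A.card
  · refine ⟨fun _ => T, fun _ => huT.le, rfl, fun τ _ => Or.inr (Or.inr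
      ⟨⟨i, hi⟩, rfl, Or.inl ⟨hc3, u, hu, ?_⟩⟩)⟩
    rw [flow_pull hΦ hε]
    exact hconn
  by_cases hc1 : A.card = 1
  · obtain ⟨a, rfl⟩ := Finset.card_eq_one.1 hc1
    obtain rfl : i = a := Finset.mem_singleton.1 hi
    refine ⟨fun _ => T, fun _ => huT.le, rfl, fun τ hτ => Or.inl ?_⟩
    exact good_single hΦ hε hu.1 huT.le τ (hτ i hi)
  have hc2 : A.card = 2 := by omega
  -- the pair
  obtain ⟨j, hj⟩ : ∃ j, A.erase i = {j} := Finset.card_eq_one.1 (by
    rw [Finset.card_erase_of_mem hi, hc2])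
  have hjA' : j ∈ A.erase i := by rw [hj]; exact Finset.mem_singleton_self j
  have hjA : j ∈ A := Finset.mem_of_mem_erase hjA'
  have hji : j ≠ i := Finset.ne_of_mem_erase hjA'
  have hcov : ∀ k ∈ A, k = i ∨ k = j := by
    intro k hk
    by_cases hki : k = i
    · exact Or.inl hki
    · right
      have : k ∈ A.erase i := Finset.mem_erase.2 ⟨hki, hk⟩
      rw [hj] at this
      exact Finset.mem_singleton.1 this
  set iA : A := ⟨i, hi⟩ with hiA
  set jA : A := ⟨j, hjA⟩ with hjA2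
  have hjiA : jA ≠ iA := fun h => hji (congrArg Subtype.val h)
  set W : A → PhasePoint := pull Φ ε X A u with hW
  have hWd : W ∈ Dom Φ A := (flow_mem_iff hΦ hε _ _).2 hdom
  by_cases hTc : dst (flow Φ ε T W) iA jA ≤ ε
  · exact ⟨fun _ => T, fun _ => huT.le, rfl, fun τ _ => Or.inr (Or.inr
      ⟨iA, rfl, Or.inr ⟨hc2, jA, hjiA, hTc⟩⟩)⟩
  rw [not_le] at hTc
  -- contact at time `u`
  have hcu : dst (flow Φ ε u W) iA jA ≤ ε := by
    have h1 : flow Φ ε u W = grp A (X u) := flow_pull hΦ hε A u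
    rw [h1]
    have key : ∀ k : A, Relation.ReflTransGen (fun a b => dst (grp A (X u)) a b ≤ ε) iA k →
        k = iA ∨ dst (grp A (X u)) iA jA ≤ ε := by
      intro k hk
      induction hk with
      | refl => exact Or.inl rfl
      | @tail b c _ hbc ih =>
        rcases ih with rfl | ih
        · rcases hcov c c.2 with h2 | h2
          · exact Or.inl (Subtype.ext h2)
          · right
            have h3 : c = jA := Subtype.ext h2
            rwa [h3] at hbc
        · exact Or.inr ih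
    rcases key jA (hconn jA) with h2 | h2
    · exact absurd h2 hjiA
    · exact h2
  -- the exit time
  have hcont : Continuous fun s => dst (flow Φ ε s W) iA jA := by
    have hc : ∀ m : A, Continuous fun s => flow Φ ε s W m := fun m =>
      (continuous_apply m).comp (flow_continuous_time hΦ hε W)
    exact (hc iA).fst.dist (hc jA).fst
  have hcomp : IsCompact (Icc u T ∩ {s | dst (flow Φ ε s W) iA jA ≤ ε}) :=
    isCompact_Icc.inter_right (isClosed_le hcont continuous_const)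
  obtain ⟨s, ⟨hsI, hsc⟩, hsmax⟩ := hcomp.exists_isGreatest ⟨u, ⟨le_rfl, huT.le⟩, hcu⟩
  have hsc' : dst (flow Φ ε s W) iA jA ≤ ε := hsc
  have hsT : s < T := by
    rcases eq_or_lt_of_le hsI.2 with h | h
    · rw [h] at hsc'
      exact absurd hsc' (not_le.2 hTc)
    · exact h
  have hs0 : 0 ≤ s := hu.1.trans hsI.1
  have hafter : ∀ s', s < s' → s' ≤ T → ε < dst (flow Φ ε s' W) iA jA := by
    intro s' h1 h2
    by_contra hle
    exact absurd (hsmax ⟨⟨hsI.1.trans h1.le, h2⟩, not_lt.1 hle⟩) (not_le.2 h1)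
  have hseq : dst (flow Φ ε s W) iA jA = ε := by
    refine le_antisymm hsc' ?_
    refine ge_of_tendsto ((hcont.tendsto s).mono_left nhdsWithin_le_nhds : Tendsto _ (𝓝[>] s) _) ?_
    filter_upwards [Ioc_mem_nhdsGT hsT] with s' hs'
    exact (hafter s' hs'.1 hs'.2).le
  -- the virtual step
  have hsub : ({i} : Finset ι) ⊆ A := Finset.singleton_subset_iff.2 hi
  have hj' : (jA : ι) ∉ ({i} : Finset ι) := fun h => hji (Finset.mem_singleton.1 h)
  have hrel : ∀ k : A, (k : ι) ∉ ({i} : Finset ι) → k = jA := by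
    intro k hk
    rcases hcov k k.2 with h | h
    · exact absurd (Finset.mem_singleton.2 h) hk
    · exact Subtype.ext h
  have hrel' : ∀ k : A, (k : ι) ∈ ({i} : Finset ι) → k = iA := fun k hk =>
    Subtype.ext (Finset.mem_singleton.1 hk)
  set W' : ({i} : Finset ι) → PhasePoint := flow Φ ε (-s) (rs hsub (flow Φ ε s W)) with hW'
  have hst : Step Φ ε s W W' := by
    refine ⟨hWd, hsub, ⟨jA, hj', ⟨iA, Finset.mem_singleton_self i, ?_⟩, ?_⟩, ?_, rfl⟩
    · rw [dst_comm]
      exact hseq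
    · intro k hk
      rw [hrel k hk]
    · refine ⟨T - s, by linarith, fun s' hs' a b ha hb => ?_⟩
      rw [hrel a ha, hrel' b hb, dst_comm]
      exact hafter s' hs'.1 (by linarith [hs'.2])
  refine ⟨fun k => if k = i then T else s, fun k => ?_, if_pos rfl, fun τ hτ => ?_⟩
  · show u ≤ if k = i then T else s
    split_ifs
    · exact huT.le
    · exact hsI.1
  have hτi : τ i = T := (hτ i hi).trans (if_pos rfl)
  have hτj : τ j = s := (hτ j hjA).trans (if_neg hji)
  haveI : Subsingleton ({i} : Finset ι) := ⟨fun a b => Subtype.ext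
    ((Finset.mem_singleton.1 a.2).trans (Finset.mem_singleton.1 b.2).symm)⟩
  have hi1 : i ∈ ({i} : Finset ι) := Finset.mem_singleton_self i
  obtain ⟨e, he⟩ := exists_good0_leaf Φ ε T (⟨i, hi1⟩ : ({i} : Finset ι)) W'
    (fun k => τ k) hτi
  rcases graft_or_bad hΦ hε ⟨hs0, hsT.le⟩ hst hi1 he
    (fun k hk => by rw [Finset.mem_singleton.1 hk, hτi]; exact hsT.le)
    (fun k hk => by rw [hrel k hk]; exact hτj) ⟨W', .refl _ _⟩ with ⟨Q, f, q, hQ, -⟩ | hbad
  swap
  · exact Or.inr (Or.inl ⟨hc2, hbad⟩)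
  left
  refine ⟨hi, Q, f, _, q, hQ, ⟨W', Chain.single ⟨hs0, hsT.le⟩ hst⟩, ?_⟩
  intro k s' hs' _
  obtain rfl : s' = u := le_antisymm hs'.2 hs'.1
  have h1 := hQ.flow_eq hΦ hε ⟨hu.1, huT.le⟩ (f.symm k)
  rw [Equiv.apply_symm_apply, hW, flow_pull hΦ hε] at h1
  exact h1


end virt

end Crest.Agent.R122.Chain726

end
end

-- ▼ part R122/GWorldInst_968
section

/-!
# Row 122, D5 (helper968): instances of the abstract world `GWorld` of helper726

* `gworld_pth`: the isolated Newton flow of a finite family, contact relation `Ct`.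
* `gworld_bworld`: a world with births `b ≥ 0` with contact relation `CtB`, `G` = any set of
  particles born at time `0` which are separated at time `0`.
* `gworld_bworld_Icc`: the same with the contact relation restricted to `[0, t]`, without condition on
  the births.
-/

set_option autoImplicit false

open Set Filter Topology
open Crest.AnalysisR.Kinetic
open scoped Classical

noncomputable section

namespace Crest.Agent.R122.Chain726

open Flow671 Loc45 Causal291 Ins45 Inf879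

variable {Φ : Space3 → ℝ} {ε t : ℝ} {κ : Type} [Fintype κ]

/-- Particles which are not in contact on an open interval have distance at least `ε` on the closed
interval. -/
theorem le_dist_of_Ioo {X : ℝ → κ → PhasePoint} {S : Set ℝ} {j k : κ}
    (hj : ContinuousOn (fun s => X s j) S) (hk : ContinuousOn (fun s => X s k) S) {a b : ℝ}
    (hab : a < b) (hS : Icc a b ⊆ S) (h : ∀ s ∈ Ioo a b, ε ≤ dist (X s j).1 (X s k).1) {s : ℝ}
    (hs : s ∈ Icc a b) : ε ≤ dist (X s j).1 (X s k).1 := by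
  have h3 : ContinuousOn (fun s => dist (X s j).1 (X s k).1) S :=
    continuous_dist.comp_continuousOn (hj.fst.prodMk hk.fst)
  have h2 : ContinuousWithinAt (fun s => dist (X s j).1 (X s k).1) (Ioo a b) s :=
    (h3 s (hS hs)).mono fun u hu => hS ⟨hu.1.le, hu.2.le⟩
  have : (𝓝[Ioo a b] s).NeBot := by
    rw [← mem_closure_iff_nhdsWithin_neBot, closure_Ioo hab.ne]
    exact hs
  exact ge_of_tendsto h2 (eventually_nhdsWithin_of_forall h)

/-- **The isolated flow is a world.** -/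
theorem gworld_pth (hΦ : AdmissiblePotential Φ) (hε : 0 < ε) {Z : κ → PhasePoint}
    (hZ : Z ∈ Dom Φ κ) (t : ℝ) :
    GWorld Φ ε t (pth Φ ε Z) (Ct (pth Φ ε Z) ε) univ where
  closed j k := isClosed_ct (continuous_pth hΦ hε Z) j k
  symm _ _ _ h := h.symm
  ct _ _ _ _ _ _ := Iff.rfl
  dom s _ ι _ e _ := Dom_comp e (flow_mem hΦ hε hZ s)
  iso ι _ e _ a b _ hab _ hno s hs := by
    have hfar : ∀ r ∈ Icc a b, CrossFar ε e (flow Φ ε r Z) := by
      intro r hr j x hx
      refine le_dist_of_Ioo (X := pth Φ ε Z) (S := univ) (continuous_pth hΦ hε Z _).continuousOn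
        (continuous_pth hΦ hε Z _).continuousOn hab (subset_univ _) (fun r hr => ?_) hr
      exact (not_le.1 (hno r hr j x hx)).le
    exact flow_comp hΦ hε e hZ (t₀ := a) ⟨le_rfl, hab.le⟩ hfar hs


section births

variable {b : κ → ℝ} {X : ℝ → κ → PhasePoint} {G : Set κ}






end births

end Crest.Agent.R122.Chain726

end
end

-- ▼ part R122/ChainFinal_726
section

/-!
# Release chains (row 122, D5, helper726): the history of a real cluster is a collision tree or bad

`HistTree`: the history of a labelled family `e` in a world is a collision tree.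
`det`: in a world `GWorld`, for an exploration of gas particles only, the history is a tree or the
configuration at time `0` of the cluster is bad (`BadCh`).
`det_past`, `det_pre`: the closed past and the past at `u⁻`; `det_pth`, `det_pth_pre`: the isolated
Newton world (`HTreeC`, `HTreeP` of helper311).
-/

set_option autoImplicit false
set_option linter.unusedSectionVars false

open Set Filter Topology
open Crest.AnalysisR.Kinetic
open scoped Classical

noncomputable section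

namespace Crest.Agent.R122.Chain726

open Kin796 Kin796.CTree Disc416 Tree674 Flow671 Loc45 Causal291 PathFlow968 Surj968 Graft968
open InEq2 (topIn topOut)

variable {Φ : Space3 → ℝ} {ε T te t u : ℝ}

/-- **The history (activity `P`) up to time `u` of the labelled family `g` in the world `X` is the
collision tree `(Q, ℓ, p)`** (valid and separated at the horizon `T`), cut at `u`. -/
structure HistTree (Φ : Space3 → ℝ) (ε T u : ℝ) {κ : Type} (X : ℝ → κ → PhasePoint)
    (P : ℝ → κ → Prop) (i : κ) (Q : CTree) (ℓ : PhasePoint) (p : Par Q) (g : Idx Q → κ) :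
    Prop where
  valid : Valid Φ ε Q T ℓ.2 p
  sep : Sep Φ ε Q T ℓ p
  root : g (root Q) = i
  inj : Function.Injective g
  top : topIn Φ ε Q ℓ.2 p ≤ u
  lines : ∀ x, X 0 (g x) = Tree674.lines Φ ε Q ℓ p x
  agree : ∀ x s, 0 ≤ s → s ≤ u → s ≤ prot Q T p x → X s (g x) = path Φ ε Q ℓ p s x
  past : ∀ s, 0 ≤ s → s < u → ∀ k, P s k ↔ ∃ x, g x = k ∧ s ≤ prot Q T p x
  last : ∀ k, (∀ s, s < u → P s k) ↔ ∃ x, g x = k ∧ u ≤ prot Q T p x

/-- the entrance time of the top node is not after `u`, if the active particles are connected at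
time `u` -/
theorem topIn_le (hε : 0 < ε) {Q : CTree} {ℓ : PhasePoint} {p : Par Q}
    (hv : Valid Φ ε Q T ℓ.2 p) (hs : Sep Φ ε Q T ℓ p) (hu : 0 ≤ u)
    (hconn : ∀ x, u ≤ prot Q T p x → Relation.ReflTransGen (fun a b =>
      dist (path Φ ε Q ℓ p u a).1 (path Φ ε Q ℓ p u b).1 ≤ ε) (root Q) x) :
    topIn Φ ε Q ℓ.2 p ≤ u := by
  match Q, p, hv, hs, hconn with
  | leaf, _, _, _, _ => exact hu
  | node l r, p, hv, hs, hconn =>
    by_contra hlt
    have hlt : u < Tree674.sin Φ ε ℓ.2 p.1 := not_le.1 hlt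
    have hsT : Tree674.sin Φ ε ℓ.2 p.1 < T := Valid.sin_lt hε.le hv
    have hpr : u ≤ prot (node l r) T p (Sum.inr (root r)) := by
      show u ≤ prot r p.1.1 p.2.2 (root r)
      rw [Final973.prot_root]
      exact hlt.le.trans (sin_le hε.le _ _)
    have h1 := hconn (Sum.inr (root r)) hpr
    have key : ∀ x, Relation.ReflTransGen (fun a b =>
        dist (path Φ ε (node l r) ℓ p u a).1 (path Φ ε (node l r) ℓ p u b).1 ≤ ε)
        (root (node l r)) x → ∃ y, x = Sum.inl y := by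
      intro x hx
      induction hx with
      | refl => exact ⟨root l, rfl⟩
      | @tail b c _ hbc ih =>
        obtain ⟨y, rfl⟩ := ih
        rcases c with c | c
        · exact ⟨c, rfl⟩
        · exfalso
          refine absurd hbc (not_le.2 (hs (Sum.inl y) (Sum.inr c) (fun h' => by cases h') u
            ⟨hu, (hlt.trans hsT).le⟩ ?_ inWindow_inr_inl))
          rw [inWindow_inl_inr]
          rintro ⟨-, -, h2, -⟩
          exact absurd h2 (not_le.2 hlt)
    obtain ⟨y, hy⟩ := key _ h1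
    cases hy

section det

variable {κ : Type} [Fintype κ] {X : ℝ → κ → PhasePoint} {C : ℝ → κ → κ → Prop} {G : Set κ}
  {P : ℝ → κ → Prop} {ι : Type} [Fintype ι] {e : ι ↪ κ} {i : ι}

/-- **The history of a real cluster is a collision tree, or the cluster is bad**, for a general
notion `B` of badness. -/
theorem det_gen (hΦ : AdmissiblePotential Φ) (hε : 0 < ε) (hw : GWorld Φ ε t X C G)
    (hP : Activity C u P) (hu : u ∈ Icc 0 te) (hut : u ≤ t) (hteT : te < T)
    (heG : range e ⊆ G) (hV : ∀ k, P 0 k ↔ k ∈ range e)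
    (h0 : ∀ k, (∀ s, s < u → P s k) → P 0 k) (hi : ∀ s, s < u → P s (e i))
    (hconn : ∀ k, (∀ s, s < u → P s k) → Relation.ReflTransGen
      (fun a b => C u a b ∧ ∀ s, s < u → P s b) (e i) k)
    (B : (A : Finset ι) → (A → PhasePoint) → Prop)
    (hB1 : ∀ s ∈ Icc 0 T, ∀ (A A' : Finset ι) (W : A → PhasePoint) (W' : A' → PhasePoint),
      Step Φ ε s W W' → B A' W' → B A W)
    (hB2 : ∀ τ : ι → ℝ, τ i = T → ∀ s ∈ Icc 0 u, ∀ (A A' : Finset ι) (W : A → PhasePoint),
      Step Φ ε s W (pull Φ ε (fun s k => X s (e k)) A' s) →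
      GoodX Φ ε T u τ (fun s k => X s (e k)) i A' s →
      BadAt Φ ε T i s W (pull Φ ε (fun s k => X s (e k)) A' s) → B A W)
    (hB3 : ∀ A : Finset ι, i ∈ A →
      (A.card = 2 ∧ BadStep Φ ε T i (pull Φ ε (fun s k => X s (e k)) A u)) ∨
        TermBad Φ ε T te i (pull Φ ε (fun s k => X s (e k)) A u) →
      B A (pull Φ ε (fun s k => X s (e k)) A u)) :
    (∃ (Q : CTree) (f : Idx Q ≃ ι) (ℓ : PhasePoint) (p : Par Q),
      HistTree Φ ε T u X P (e i) Q ℓ p (fun x => e (f x))) ∨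
    B Finset.univ (grp Finset.univ fun k => X 0 (e k)) := by
  have huI : u ∈ Icc 0 t := ⟨hu.1, hut⟩
  set A : Finset ι := Finset.univ.filter fun k => ∀ s, s < u → P s (e k) with hA
  have hAm : ∀ k, k ∈ A ↔ ∀ s, s < u → P s (e k) := fun k => by simp [hA]
  have hiA : i ∈ A := (hAm i).2 hi
  set X' : ℝ → ι → PhasePoint := fun s k => X s (e k) with hX'
  -- release times
  have hσ : ∀ k : ι, ∃ σ : ℝ, k ∉ A → 0 ≤ σ ∧ σ < u ∧
      ∀ s, 0 ≤ s → s < u → (P s (e k) ↔ s ≤ σ) := by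
    intro k
    by_cases hk : k ∈ A
    · exact ⟨0, fun h => absurd hk h⟩
    · obtain ⟨σ, h1⟩ := exists_sigma hP ((hV _).2 ⟨k, rfl⟩) (fun h => hk ((hAm k).2 h))
      exact ⟨σ, fun _ => h1⟩
  choose σ hσ using hσ
  -- the terminal group
  have hdomA : grp A (X' u) ∈ Dom Φ A := by
    refine hw.dom u huI A ((Function.Embedding.subtype (· ∈ A)).trans e) ?_
    rintro _ ⟨k, rfl⟩
    exact heG ⟨k, rfl⟩
  have hconnA : ∀ k : A, Relation.ReflTransGen (fun a b => dst (grp A (X' u)) a b ≤ ε)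
      ⟨i, hiA⟩ k := by
    intro k
    have key : ∀ x, Relation.ReflTransGen
        (fun a b => C u a b ∧ ∀ s, s < u → P s b) (e i) x → ∃ (y : ι) (hy : y ∈ A), e y = x ∧
        Relation.ReflTransGen (fun a b => dst (grp A (X' u)) a b ≤ ε) ⟨i, hiA⟩ ⟨y, hy⟩ := by
      intro x hx
      induction hx with
      | refl => exact ⟨i, hiA, rfl, .refl⟩
      | @tail b c _ hbc ih =>
        obtain ⟨y, hy, rfl, hR⟩ := ih
        obtain ⟨z, rfl⟩ := (hV c).1 (h0 c hbc.2)
        refine ⟨z, (hAm z).2 hbc.2, rfl, hR.tail ?_⟩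
        exact (hw.ct u huI _ (heG ⟨y, rfl⟩) _ (heG ⟨z, rfl⟩)).1 hbc.1
    obtain ⟨y, hy, hyk, hR⟩ := key (e k) (hconn _ ((hAm k).1 k.2))
    have h1 : (⟨y, hy⟩ : A) = k := Subtype.ext (e.injective hyk)
    rwa [h1] at hR
  obtain ⟨τA, hτA1, hτA2, hterm'⟩ := terminal_at (T := T) (te := te) hΦ hε hu hteT hiA hdomA hconnA
  have hterm : ∀ τ : ι → ℝ, (∀ k ∈ A, τ k = τA k) →
      GoodX Φ ε T u τ X' i A u ∨ B A (pull Φ ε X' A u) := fun τ hτ =>
    (hterm' τ hτ).imp id (hB3 A hiA)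
  set τ : ι → ℝ := fun k => if k ∈ A then τA k else σ k with hτ
  have hτin : ∀ k ∈ A, τ k = τA k := fun k hk => if_pos hk
  have hτout : ∀ k, k ∉ A → τ k = σ k := fun k hk => if_neg hk
  have hτu : ∀ k, k ∈ A ↔ u ≤ τ k := by
    intro k
    constructor
    · intro hk
      rw [hτin k hk]
      exact hτA1 k
    · intro hk
      by_contra hkA
      rw [hτout k hkA] at hk
      linarith [(hσ k hkA).2.1]
  have hτ0 : ∀ k, 0 ≤ τ k := by
    intro k
    by_cases hk : k ∈ A
    · exact hu.1.trans ((hτu k).1 hk)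
    · rw [hτout k hk]
      exact (hσ k hk).1
  have hτP : ∀ k s, 0 ≤ s → s < u → (P s (e k) ↔ s ≤ τ k) := by
    intro k s hs0 hsu
    by_cases hk : k ∈ A
    · exact ⟨fun _ => hsu.le.trans ((hτu k).1 hk), fun _ => (hAm k).1 hk s hsu⟩
    · rw [hτout k hk]
      exact (hσ k hk).2.2 s hs0 hsu
  have hhist : RHist Φ ε u τ X' := rhist hw hP hut heG (fun k hk => (hV k).1 hk) hτ0 hτP
  have huT : u < T := hu.2.trans_lt hteT
  have hτi : τ i = T := (hτin i hiA).trans hτA2
  have hmain : GoodX Φ ε T u τ X' i Finset.univ 0 ∨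
      B Finset.univ (pull Φ ε X' Finset.univ 0) := by
    rcases eq_or_lt_of_le hu.1 with h1 | h1
    · have hAu : A = Finset.univ := by
        ext k
        simp only [Finset.mem_univ, iff_true]
        rw [hAm]
        intro s hs
        exact hP.anti s 0 _ (by linarith) ((hV _).2 ⟨k, rfl⟩)
      have h2 := hterm τ hτin
      rw [hAu] at h2
      subst h1
      exact h2
    · refine good_or_gen hΦ hε hhist huT.le hτi B hB1 (hB2 τ hτi) (fun A₁ hA₁ => ?_) _
        Finset.univ 0 le_rfl le_rfl h1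
        ⟨fun k _ => hτ0 k, fun k _ => Finset.mem_univ k, fun _ _ b _ _ _ => Finset.mem_univ b⟩
      have hBA : A₁ = A := by
        ext k
        rw [hA₁, hτu]
      subst hBA
      exact hterm τ hτin
  have hpull : pull Φ ε X' Finset.univ 0 = grp Finset.univ (fun k => X 0 (e k)) := by
    unfold pull
    rw [neg_zero, flow_zero hΦ hε]
  rcases hmain with hG | hB
  swap
  · right
    rw [← hpull]
    exact hB
  left
  obtain ⟨hi', Q, f, ℓ, p, hg, -, hpath⟩ := hG
  set f' : Idx Q ≃ ι := f.trans (Equiv.subtypeUnivEquiv fun k => Finset.mem_univ k) with hf'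
  have hff : ∀ x, f' x = (f x : ι) := fun x => rfl
  have hrel : ∀ x, τ (f' x) = prot Q T p x := fun x => hg.rel x
  have hagree : ∀ x s, 0 ≤ s → s ≤ u → s ≤ prot Q T p x →
      X s (e (f' x)) = path Φ ε Q ℓ p s x := by
    intro x s hs0 hsu hsp
    have h1 := hpath (f x) s ⟨hs0, hsu⟩ (by rw [← hff, hrel]; exact hsp)
    rw [Equiv.symm_apply_apply] at h1
    exact h1
  have hlast : ∀ k, (∀ s, s < u → P s k) ↔ ∃ x, e (f' x) = k ∧ u ≤ prot Q T p x := by
    intro k
    constructor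
    · intro hk
      obtain ⟨y, rfl⟩ := (hV k).1 (h0 k hk)
      refine ⟨f'.symm y, by rw [Equiv.apply_symm_apply], ?_⟩
      rw [← hrel, Equiv.apply_symm_apply]
      exact (hτu y).1 ((hAm y).2 hk)
    · rintro ⟨x, rfl, hx⟩
      rw [← hrel] at hx
      exact (hAm _).1 ((hτu _).2 hx)
  refine ⟨Q, f', ℓ, p, hg.valid, hg.sep, ?_, fun a b hab => f'.injective (e.injective hab), ?_,
    ?_, hagree, ?_, hlast⟩
  · show e (f (root Q) : ι) = e i
    rw [hg.root]
  · -- the top node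
    refine topIn_le hε hg.valid hg.sep hu.1 fun x hx => ?_
    have h1 : f' x ∈ A := (hτu _).2 (by rw [hrel]; exact hx)
    have h2 := hconnA ⟨f' x, h1⟩
    have key : ∀ k : A, Relation.ReflTransGen (fun a b => dst (grp A (X' u)) a b ≤ ε)
        ⟨i, hiA⟩ k → Relation.ReflTransGen (fun a b =>
          dist (path Φ ε Q ℓ p u a).1 (path Φ ε Q ℓ p u b).1 ≤ ε) (root Q) (f'.symm k) := by
      intro k hk
      induction hk with
      | refl =>
        have h3 : f'.symm i = root Q := by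
          rw [Equiv.symm_apply_eq, hff, hg.root]
        show Relation.ReflTransGen _ (root Q) (f'.symm i)
        rw [h3]
      | @tail b c _ hbc ih =>
        refine ih.tail ?_
        have h3 : ∀ b : A, path Φ ε Q ℓ p u (f'.symm b) = X' u b := by
          intro b
          have h4 := hagree (f'.symm b) u hu.1 le_rfl (by
            rw [← hrel, Equiv.apply_symm_apply]
            exact (hτu _).1 b.2)
          rw [Equiv.apply_symm_apply] at h4
          exact h4.symm
        rw [h3, h3]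
        exact hbc
    have h4 := key _ h2
    simp only [Equiv.symm_apply_apply] at h4
    exact h4
  · intro x
    have h1 := hagree x 0 le_rfl hu.1 (PathFlow968.prot_nonneg hε.le Q (hu.1.trans huT.le) ℓ.2 p
      hg.valid.2 x)
    rw [PathFlow968.path_zero Q T ℓ p hg.valid.2] at h1
    exact h1
  · intro s hs0 hsu k
    constructor
    · intro hk
      obtain ⟨y, rfl⟩ := (hV k).1 (hP.anti 0 s k hs0 hk)
      refine ⟨f'.symm y, by rw [Equiv.apply_symm_apply], ?_⟩
      rw [← hrel, Equiv.apply_symm_apply]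
      exact (hτP y s hs0 hsu).1 hk
    · rintro ⟨x, rfl, hx⟩
      rw [← hrel] at hx
      exact (hτP _ s hs0 hsu).2 hx

/-- **The history of a real cluster is a collision tree, or the cluster is bad.** -/
theorem det (hΦ : AdmissiblePotential Φ) (hε : 0 < ε) (hw : GWorld Φ ε t X C G)
    (hP : Activity C u P) (hu : u ∈ Icc 0 te) (hut : u ≤ t) (hteT : te < T)
    (heG : range e ⊆ G) (hV : ∀ k, P 0 k ↔ k ∈ range e)
    (h0 : ∀ k, (∀ s, s < u → P s k) → P 0 k) (hi : ∀ s, s < u → P s (e i))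
    (hconn : ∀ k, (∀ s, s < u → P s k) → Relation.ReflTransGen
      (fun a b => C u a b ∧ ∀ s, s < u → P s b) (e i) k) :
    (∃ (Q : CTree) (f : Idx Q ≃ ι) (ℓ : PhasePoint) (p : Par Q),
      HistTree Φ ε T u X P (e i) Q ℓ p (fun x => e (f x))) ∨
    BadCh Φ ε T te (fun k => X 0 (e k)) i := by
  refine det_gen hΦ hε hw hP hu hut hteT heG hV h0 hi hconn (fun A W => BadGrp Φ ε T te i A W)
    (fun _ hs _ _ _ _ hst hB => BadGrp.of_chain (Chain.single hs hst) hB)
    (fun _ _ s hs _ _ _ hst _ hb => BadGrp.of_step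
      ⟨s, ⟨hs.1, hs.2.trans (hu.2.trans hteT.le)⟩, _, _, hst, hb⟩) (fun A _ h => ?_)
  rcases h with h | h
  · exact BadGrp.of_step h.2
  · exact BadGrp.of_term h

/-- **Closed past.** -/
theorem det_past (hΦ : AdmissiblePotential Φ) (hε : 0 < ε) (hw : GWorld Φ ε t X C G)
    (hu : u ∈ Icc 0 te) (hut : u ≤ t) (hteT : te < T) (heG : range e ⊆ G)
    (hV : ∀ k, Past C u (e i) 0 k ↔ k ∈ range e) :
    (∃ (Q : CTree) (f : Idx Q ≃ ι) (ℓ : PhasePoint) (p : Par Q),
      HistTree Φ ε T u X (fun s k => Past C u (e i) s k) (e i) Q ℓ p (fun x => e (f x))) ∨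
    BadCh Φ ε T te (fun k => X 0 (e k)) i := by
  refine det hΦ hε hw (activity_past hw.closed (e i) u) hu hut hteT heG hV (fun k hk => ?_)
    (fun s hs => .root hs.le) (fun k hk => term_past hw.closed hk)
  exact (mem_of_left (S := {s | Past C u (e i) s k}) (isClosed_past hw.closed k) hk).mono hu.1

/-- **Past at `u⁻`.** -/
theorem det_pre (hΦ : AdmissiblePotential Φ) (hε : 0 < ε) (hw : GWorld Φ ε t X C G)
    (hu : u ∈ Ioc 0 te) (hut : u ≤ t) (hteT : te < T) (heG : range e ⊆ G)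
    (hV : ∀ k, k ∈ Inf879.pre C (e i) u 0 ↔ k ∈ range e) :
    (∃ (Q : CTree) (f : Idx Q ≃ ι) (ℓ : PhasePoint) (p : Par Q),
      HistTree Φ ε T u X (fun s k => k ∈ Inf879.pre C (e i) u s) (e i) Q ℓ p
        (fun x => e (f x))) ∨
    BadCh Φ ε T te (fun k => X 0 (e k)) i := by
  refine det hΦ hε hw (activity_pre hw.closed (e i) u) ⟨hu.1.le, hu.2⟩ hut hteT heG hV
    (fun k hk => hk 0 hu.1) (fun s hs => ?_) (fun k hk => term_pre hw.closed hk)
  obtain ⟨r, hr1, hr2⟩ := exists_between hs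
  exact ⟨r, ⟨hr1.le, hr2⟩, .root hr1.le⟩

/-- In the version at `u⁻`, the entrance time of the top node is before `u`. -/
theorem HistTree.top_lt (hε : 0 < ε) (hw : GWorld Φ ε t X C G) (hu : 0 < u) (hut : u ≤ t)
    {k₀ : κ} {Q : CTree} {ℓ : PhasePoint} {p : Par Q} {g : Idx Q → κ} (hG : range g ⊆ G)
    (h : HistTree Φ ε T u X (fun s k => k ∈ Inf879.pre C k₀ u s) k₀ Q ℓ p g) :
    topIn Φ ε Q ℓ.2 p < u := by
  match Q, p, g, hG, h with
  | leaf, _, _, _, _ => exact hu
  | node l r, p, g, hG, h =>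
    by_contra hlt
    have hlt : u ≤ Tree674.sin Φ ε ℓ.2 p.1 := not_lt.1 hlt
    have hsT : Tree674.sin Φ ε ℓ.2 p.1 < T := Valid.sin_lt hε.le h.valid
    have hpr : u ≤ prot (node l r) T p (Sum.inr (Tree674.root r)) := by
      show u ≤ prot r p.1.1 p.2.2 (Tree674.root r)
      rw [Final973.prot_root]
      exact hlt.trans (sin_le hε.le _ _)
    obtain ⟨v, hv, hpast⟩ := (h.last _).2 ⟨Sum.inr (Tree674.root r), rfl, hpr⟩ 0 hu
    have key : ∀ s k, Past C v k₀ s k → 0 ≤ s → ∃ y, k = g (Sum.inl y) := by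
      intro s k hk
      induction hk with
      | root _ => exact fun _ => ⟨Tree674.root l, h.root.symm⟩
      | @step s s' j k h1 hc hs ih =>
        intro hs0
        have hs'0 : 0 ≤ s' := hs0.trans hs
        have hs'u : s' < u := h1.le.trans_lt hv.2
        obtain ⟨y, rfl⟩ := ih hs'0
        obtain ⟨y', hy', hyp⟩ := (h.past s' hs'0 hs'u _).1 ⟨v, ⟨h1.le, hv.2⟩, h1⟩
        have hyy : y' = Sum.inl y := h.inj hy'
        subst hyy
        obtain ⟨x, rfl, hx⟩ := (h.past s' hs'0 hs'u _).1 ⟨v, ⟨h1.le, hv.2⟩, h1.contact hc⟩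
        rcases x with x | x
        · exact ⟨x, rfl⟩
        · exfalso
          have h2 := (hw.ct s' ⟨hs'0, hs'u.le.trans hut⟩ _ (hG ⟨_, rfl⟩) _ (hG ⟨_, rfl⟩)).1 hc
          rw [h.agree _ s' hs'0 hs'u.le hyp, h.agree _ s' hs'0 hs'u.le hx] at h2
          refine absurd h2 (not_le.2 (h.sep (Sum.inl y) (Sum.inr x) (fun h' => by cases h') s'
            ⟨hs'0, (hs'u.le.trans hlt).trans hsT.le⟩ ?_ inWindow_inr_inl))
          rw [inWindow_inl_inr]
          rintro ⟨-, -, h3, -⟩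
          exact absurd h3 (not_le.2 (hs'u.trans_le hlt))
    obtain ⟨y, hy⟩ := key 0 _ hpast le_rfl
    have := h.inj hy
    cases this

end det

/-! ### The isolated Newton world -/

section pth

variable {κ : Type} [Fintype κ] {Z : κ → PhasePoint} {ι : Type} [Fintype ι] {e : ι ↪ κ} {i : ι}

/-- **Closed past in the Newton world** (`HTreeC`). -/
theorem det_pth (hΦ : AdmissiblePotential Φ) (hε : 0 < ε) (hZ : Z ∈ Dom Φ κ)
    (hu : u ∈ Icc 0 te) (hteT : te < T)
    (hV : ∀ k, Past (Ct (pth Φ ε Z) ε) u (e i) 0 k ↔ k ∈ range e) :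
    (∃ (Q : CTree) (f : Idx Q ≃ ι) (ℓ : PhasePoint) (p : Par Q),
      InEq2.HTreeC Φ ε T u Z (e i) Q ℓ p (fun x => e (f x))) ∨
    BadCh Φ ε T te (fun k => Z (e k)) i := by
  have hX0 : pth Φ ε Z 0 = Z := by
    show flow Φ ε 0 Z = Z
    rw [Flow671.flow_zero hΦ hε]
  have hw := gworld_pth hΦ hε hZ te
  rcases det_past (T := T) hΦ hε hw hu hu.2 hteT (subset_univ _) hV with ⟨Q, f, ℓ, p, h⟩ | h
  · refine Or.inl ⟨Q, f, ℓ, p, h.valid, h.sep, h.root, h.inj, h.top, h.agree, ?_⟩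
    intro s hs k
    rcases eq_or_lt_of_le hs.2 with h1 | h1
    · subst h1
      rw [← h.last]
      exact ⟨fun h2 s' hs' => h2.mono hs'.le, fun h2 =>
        mem_of_left (S := {s' | Past (Ct (pth Φ ε Z) ε) s (e i) s' k})
          (isClosed_past hw.closed k) h2⟩
    · exact h.past s hs.1 h1 k
  · right
    rw [hX0] at h
    exact h

/-- **Past at `u⁻` in the Newton world** (`HTreeP`). -/
theorem det_pth_pre (hΦ : AdmissiblePotential Φ) (hε : 0 < ε) (hZ : Z ∈ Dom Φ κ)
    (hu : u ∈ Ioc 0 te) (hteT : te < T)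
    (hV : ∀ k, k ∈ Inf879.pre (Ct (pth Φ ε Z) ε) (e i) u 0 ↔ k ∈ range e) :
    (∃ (Q : CTree) (f : Idx Q ≃ ι) (ℓ : PhasePoint) (p : Par Q),
      InEq2.HTreeP Φ ε T u Z (e i) Q ℓ p (fun x => e (f x))) ∨
    BadCh Φ ε T te (fun k => Z (e k)) i := by
  have hX0 : pth Φ ε Z 0 = Z := by
    show flow Φ ε 0 Z = Z
    rw [Flow671.flow_zero hΦ hε]
  have hw := gworld_pth hΦ hε hZ te
  rcases det_pre (T := T) hΦ hε hw hu hu.2 hteT (subset_univ _) hV with ⟨Q, f, ℓ, p, h⟩ | h
  · exact Or.inl ⟨Q, f, ℓ, p, h.valid, h.sep, h.root, h.inj,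
      h.top_lt hε hw hu.1 hu.2 (subset_univ _), fun k s h1 h2 => h.agree k s h1 h2.le, h.past⟩
  · right
    rw [hX0] at h
    exact h

end pth

end Crest.Agent.R122.Chain726

end
end

-- ▼ part R122/ChainPerm_726

/-!
# Release chains (row 122, D5, helper726): `BadCh` does not depend on the labelling

`BadCh_equiv` : for a bijection `f : ι ≃ ι'` of the labels, `BadCh` of `V ∘ f` with root `i` is
`BadCh` of `V` with root `f i`.
-/

set_option autoImplicit false
set_option linter.unusedSectionVars false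

open Set Filter Topology
open Crest.AnalysisR.Kinetic
open scoped Classical

noncomputable section

namespace Crest.Agent.R122.Chain726

open Kin796 Kin796.CTree Disc416 Tree674 Flow671 Loc45 Causal291 PathFlow968 Surj968 Graft968

variable {Φ : Space3 → ℝ} {ε T te s : ℝ} {ι ι' : Type*} {f : ι ≃ ι'}

/-- `V` is the relabelling of `W`. -/
structure Mv (f : ι ≃ ι') {A : Finset ι} {B : Finset ι'} (W : A → PhasePoint)
    (V : B → PhasePoint) : Prop where
  mem : ∀ k, k ∈ A ↔ f k ∈ B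
  val : ∀ (k : A) (k' : B), (k' : ι') = f k → V k' = W k

/-- the bijection of the labels -/
def Mv.eqv {A : Finset ι} {B : Finset ι'} {W : A → PhasePoint} {V : B → PhasePoint}
    (h : Mv f W V) : A ≃ B where
  toFun k := ⟨f k, (h.mem k).1 k.2⟩
  invFun k := ⟨f.symm k, (h.mem _).2 (by rw [Equiv.apply_symm_apply]; exact k.2)⟩
  left_inv k := Subtype.ext (by simp)
  right_inv k := Subtype.ext (by simp)

section mv

variable {A : Finset ι} {B : Finset ι'} {W : A → PhasePoint} {V : B → PhasePoint}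


theorem Mv.val_eqv (h : Mv f W V) (k : A) : V (h.eqv k) = W k := h.val k _ rfl

theorem Mv.eq (h : Mv f W V) : W = fun k => V (h.eqv k) := funext fun k => (h.val_eqv k).symm

theorem Mv.flw (hΦ : AdmissiblePotential Φ) (hε : 0 < ε) (h : Mv f W V) (s : ℝ) :
    Mv f (flow Φ ε s W) (flow Φ ε s V) where
  mem := h.mem
  val k k' hk := by
    have h1 : k' = h.eqv k := Subtype.ext hk
    have h2 := congrFun (flow_equiv hΦ hε h.eqv s V) k
    rw [← h.eq] at h2
    rw [h1, h2]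

theorem Mv.card (h : Mv f W V) : B.card = A.card := by
  have := Fintype.card_congr h.eqv
  rw [Fintype.card_coe, Fintype.card_coe] at this
  exact this.symm

theorem Mv.dom (h : Mv f W V) (hW : W ∈ Dom Φ A) : V ∈ Dom Φ B := by
  have h1 := Dom_comp h.eqv.symm.toEmbedding hW
  have h2 : (fun i => W (h.eqv.symm.toEmbedding i)) = V := by
    funext k
    have h3 := h.val_eqv (h.eqv.symm k)
    rw [Equiv.apply_symm_apply] at h3
    exact h3.symm
  rwa [h2] at h1

theorem Mv.dst_eq (h : Mv f W V) (a b : A) : dst V (h.eqv a) (h.eqv b) = dst W a b := by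
  show dist (V (h.eqv a)).1 (V (h.eqv b)).1 = dist (W a).1 (W b).1
  rw [h.val_eqv, h.val_eqv]

theorem Mv.mk' (f : ι ≃ ι') (A : Finset ι) (W : A → PhasePoint) :
    ∃ V : ↥(A.map f.toEmbedding) → PhasePoint, Mv f W V := by
  refine ⟨fun k => W ⟨f.symm k, ?_⟩, fun k => by simp, fun k k' hk => ?_⟩
  · obtain ⟨a, ha, hak⟩ := Finset.mem_map.1 k.2
    have : f a = k := hak
    rw [← this, Equiv.symm_apply_apply]
    exact ha
  · have h1 : (⟨f.symm k', by
        obtain ⟨a, ha, hak⟩ := Finset.mem_map.1 k'.2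
        have : f a = k' := hak
        rw [← this, Equiv.symm_apply_apply]
        exact ha⟩ : A) = k := Subtype.ext (by
          show f.symm k' = k
          rw [hk, Equiv.symm_apply_apply])
    exact congrArg W h1

theorem Mv.step (hΦ : AdmissiblePotential Φ) (hε : 0 < ε) {A' : Finset ι} {B' : Finset ι'}
    {W' : A' → PhasePoint} {V' : B' → PhasePoint} (h : Mv f W V) (h' : Mv f W' V')
    (hst : Step Φ ε s W W') : Step Φ ε s V V' := by
  have hsub : B' ⊆ B := by
    intro k hk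
    have h1 : f.symm k ∈ A := hst.sub ((h'.mem _).2 (by rw [Equiv.apply_symm_apply]; exact hk))
    have h2 := (h.mem _).1 h1
    rwa [Equiv.apply_symm_apply] at h2
  have hmem : ∀ a : A, (h.eqv a : ι') ∈ B' ↔ (a : ι) ∈ A' := fun a => (h'.mem a).symm
  have hfl := h.flw hΦ hε s
  have hd : ∀ a b : A, dst (flow Φ ε s V) (h.eqv a) (h.eqv b) =
      dst (flow Φ ε s W) a b := fun a b => hfl.dst_eq a b
  refine ⟨h.dom hst.dom, hsub, ?_, ?_, ?_⟩
  · obtain ⟨j, hj, ⟨m, hm, hjm⟩, hch⟩ := hst.touch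
    refine ⟨h.eqv j, fun h1 => hj ((hmem j).1 h1), ⟨h.eqv m, (hmem m).2 hm, ?_⟩, ?_⟩
    · rw [hd]
      exact hjm
    · intro k hk
      obtain ⟨k, rfl⟩ := h.eqv.surjective k
      have h1 := hch k fun h2 => hk ((hmem k).2 h2)
      refine Relation.ReflTransGen.lift h.eqv (fun a b hab => ?_) _ _ h1
      exact ⟨fun h2 => hab.1 ((hmem b).1 h2), by rw [hd]; exact hab.2⟩
  · obtain ⟨δ, hδ, hsep⟩ := hst.sep
    refine ⟨δ, hδ, fun u hu j k hj hk => ?_⟩
    obtain ⟨j, rfl⟩ := h.eqv.surjective j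
    obtain ⟨k, rfl⟩ := h.eqv.surjective k
    have h1 : dst (flow Φ ε u V) (h.eqv j) (h.eqv k) =
      dst (flow Φ ε u W) j k := (h.flw hΦ hε u).dst_eq j k
    rw [h1]
    exact hsep u hu j k (fun h2 => hj ((hmem j).2 h2)) ((hmem k).1 hk)
  · have h1 : Mv f (rs hst.sub (flow Φ ε s W)) (rs hsub (flow Φ ε s V)) :=
      ⟨h'.mem, fun k k' hk => hfl.val ⟨k, hst.sub k.2⟩ ⟨k', hsub k'.2⟩ hk⟩
    have h2 := h1.flw hΦ hε (-s)
    funext k
    obtain ⟨k, rfl⟩ := h'.eqv.surjective k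
    refine (h'.val_eqv k).trans ((congrFun hst.state k).trans ?_)
    exact (h2.val k (h'.eqv k) rfl).symm

/-- Relabelling of chains. -/
theorem Mv.chain (hΦ : AdmissiblePotential Φ) (hε : 0 < ε) {A' : Finset ι}
    {W' : A' → PhasePoint} (hc : Chain Φ ε T A W A' W') :
    ∀ {B : Finset ι'} {V : B → PhasePoint}, Mv f W V → ∀ B' : Finset ι',
      (∀ k, k ∈ A' ↔ f k ∈ B') → ∃ V' : B' → PhasePoint, Mv f W' V' ∧ Chain Φ ε T B V B' V' := by
  induction hc with
  | refl A W =>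
    intro B V h B' hB'
    have hBB : B = B' := by
      ext k
      obtain ⟨k, rfl⟩ := f.surjective k
      rw [← h.mem, hB']
    subst hBB
    exact ⟨V, h, .refl _ _⟩
  | @step A₀ A₁ A₂ W₀ W₁ W₂ s hs hst _ ih =>
    intro B V h B' hB'
    obtain ⟨V₁, h₁⟩ := Mv.mk' f A₁ W₁
    obtain ⟨V', h', hc'⟩ := ih h₁ B' hB'
    exact ⟨V', h', .step hs (h.step hΦ hε h₁ hst) hc'⟩

end mv

theorem BadGraft.map {κ κ' : Type*} [Fintype κ] [Fintype κ'] (hΦ : AdmissiblePotential Φ)
    (hε : 0 < ε) (g : κ ≃ κ') {i : κ} {W : κ' → PhasePoint} {m : κ} {z : PhasePoint}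
    (h : BadGraft Φ ε T i s (fun k => W (g k)) m z) : BadGraft Φ ε T (g i) s W (g m) z := by
  obtain ⟨P, e, ℓ, p, y, h1, h2, h3, h4, h5, h6, h7, h8, h9⟩ := h
  have hfl := congrFun (flow_equiv hΦ hε g s W) m
  rw [hfl] at h7 h8
  refine ⟨P, e.trans g, ℓ, p, y, h1, h2, ?_, fun x => h4 x, h5, h6, h7, h8, ?_⟩
  · rw [Equiv.trans_apply, h3]
  · have hm : (e.trans g).symm (g m) = e.symm m := by simp
    rw [hm]
    exact h9

section bad

variable {A : Finset ι} {B : Finset ι'} {W : A → PhasePoint} {V : B → PhasePoint} {i : ι}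

theorem BadStep.map (hΦ : AdmissiblePotential Φ) (hε : 0 < ε) (h : Mv f W V)
    (hb : BadStep Φ ε T i W) : BadStep Φ ε T (f i) V := by
  obtain ⟨s, hs, A', W', hst, hb⟩ := hb
  obtain ⟨V', h'⟩ := Mv.mk' f A' W'
  refine ⟨s, hs, _, V', h.step hΦ hε h' hst, ?_⟩
  rcases hb with ⟨hc, W'', hch⟩ | ⟨hc, j, m, i', hi', hj, hd, hb⟩
  · left
    refine ⟨by rw [h.card, h'.card]; exact hc, ?_⟩
    obtain ⟨V'', -, hc'⟩ := Mv.chain hΦ hε hch h' {f i} fun k => by
      rw [Finset.mem_singleton, Finset.mem_singleton, f.injective.eq_iff]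
    exact ⟨V'', hc'⟩
  · right
    have hflj := (h.flw hΦ hε s).val_eqv j
    have hflm := (h'.flw hΦ hε s).val_eqv m
    have hflj' : flow Φ ε s V (h.eqv j) = flow Φ ε s W j := hflj
    have hflm' : flow Φ ε s V' (h'.eqv m) = flow Φ ε s W' m := hflm
    refine ⟨by rw [h.card, h'.card]; exact hc, h.eqv j, h'.eqv m, h'.eqv i', congrArg f hi',
      fun h1 => hj ((h'.mem _).2 h1), ?_, ?_⟩
    · rw [hflj', hflm']
      exact hd
    · rw [hflj', hflm']
      refine hb.imp id fun hb => ⟨hb.1, ?_⟩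
      have h2 := hb.2
      rw [h'.eq] at h2
      exact h2.map hΦ hε h'.eqv

theorem TermBad.map (hΦ : AdmissiblePotential Φ) (hε : 0 < ε) (h : Mv f W V)
    (hb : TermBad Φ ε T te i W) : TermBad Φ ε T te (f i) V := by
  obtain ⟨i', hi', hb⟩ := hb
  have hd : ∀ s (a b : A), dst (flow Φ ε s V) (h.eqv a) (h.eqv b) =
      dst (flow Φ ε s W) a b := fun s a b => (h.flw hΦ hε s).dst_eq a b
  refine ⟨h.eqv i', congrArg f hi', ?_⟩
  rw [h.card]
  refine hb.imp ?_ ?_
  · rintro ⟨hc, u, hu, hch⟩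
    refine ⟨hc, u, hu, fun k => ?_⟩
    obtain ⟨k, rfl⟩ := h.eqv.surjective k
    refine Relation.ReflTransGen.lift h.eqv (fun a b hab => ?_) _ _ (hch k)
    show dst (flow Φ ε u V) (h.eqv a) (h.eqv b) ≤ ε
    rw [hd]
    exact hab
  · rintro ⟨hc, j, hj, hd'⟩
    refine ⟨hc, h.eqv j, fun h1 => hj (h.eqv.injective h1), ?_⟩
    rw [hd]
    exact hd'

theorem BadGrp.map (hΦ : AdmissiblePotential Φ) (hε : 0 < ε) (h : Mv f W V)
    (hb : BadGrp Φ ε T te i A W) : BadGrp Φ ε T te (f i) B V := by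
  obtain ⟨A', W', hc, hb⟩ := hb
  obtain ⟨V', h', hc'⟩ := Mv.chain hΦ hε hc h (A'.map f.toEmbedding) fun k => by simp
  exact ⟨_, V', hc', hb.imp (fun hb => hb.map hΦ hε h') fun hb => hb.map hΦ hε h'⟩

/-- **Relabelling.** -/
theorem BadCh_equiv [Fintype ι] [Fintype ι'] (hΦ : AdmissiblePotential Φ) (hε : 0 < ε)
    (f : ι ≃ ι') {V : ι' → PhasePoint} {i : ι} :
    BadCh Φ ε T te (fun k => V (f k)) i ↔ BadCh Φ ε T te V (f i) := by
  constructor
  · intro h
    refine BadGrp.map (f := f) hΦ hε ⟨fun k => by simp, fun k k' hk => ?_⟩ h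
    show V k' = V (f k)
    rw [hk]
  · intro h
    have h1 : BadGrp Φ ε T te (f.symm (f i)) Finset.univ (grp Finset.univ fun k => V (f k)) := by
      refine BadGrp.map (f := f.symm) hΦ hε ⟨fun k => by simp, fun k k' hk => ?_⟩ h
      show V (f k') = V k
      rw [hk, Equiv.apply_symm_apply]
    rw [Equiv.symm_apply_apply] at h1
    exact h1

end bad

end Crest.Agent.R122.Chain726

end
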