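import Crest.Agent.R122.VLClassSeq_973
import Crest.Agent.R122.VCFin_973
import Crest.Agent.R122.VLu_664

/-!
# Row 122, H11 / D3 (helper973): the class facts from `VL` alone

`VC` is proved (`VC973.vc`), `VLu` follows from `VL` (helper664).
-/

set_option autoImplicit false

open MeasureTheory Set Filter Topology
open scoped NNReal ENNReal
open Crest.AnalysisR.Kinetic
open Crest.Agent.R122.Ins45 Crest.Agent.R122.GIV566 Crest.Agent.R122.VL581

noncomputable section

namespace Crest.Agent.R122.VLMeas973

variable {J κ : Type} [Fintype J]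

/-- **Uniform class form** from `VL`. -/
theorem classNull_of_vl {Φ : Space3 → ℝ} (hΦ : AdmissiblePotential Φ) {T : ℝ} (hT : 0 < T)
    (hVL : VL Φ) : ClassNull Φ T :=
  class_null hΦ hT (VC973.vc hΦ) (VLu664.vlu_of_vl hVL)


end Crest.Agent.R122.VLMeas973

end
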