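import Crest.Agent.R122.ClusterBC_311

/-!
# Grand-canonical calculus VII: clusters strictly before a random time

* `ftime a b S`: the first time in `[a, b]` at which `S` holds (`b + 1` if none).
* `PastFam`: an abstract relabelling-equivariant measurable monotone "past" relation
  `R n Z s i k` (`k` is in the past of `(i, s)`).
* `preR R t n Z ι`: the union of the pasts of the marked particles strictly before the times
  `t n Z ι j`: it is a `ClusterMap`, so `cluster_mecke` applies (`pre_mecke`).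
* `sig K T1 n Z i`: infection time of `i` (`K < |BC|`), and the Mecke formula at `σ⁻`.
-/

set_option autoImplicit false
open MeasureTheory Set
open scoped Classical ENNReal
open Crest.AnalysisR.Kinetic
open Crest.Agent.R122.Causal291 Crest.Agent.R122.Flow671 Crest.Agent.R122.Loc45
noncomputable section

namespace Crest.Agent.R122.GC311

/-! ### First times -/

/-- The first time in `[a, b]` at which `S` holds, `b + 1` if there is none. -/
def ftime (a b : ℝ) (S : Set ℝ) : ℝ :=
  if (S ∩ Icc a b).Nonempty then sInf (S ∩ Icc a b) else b + 1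

section ftime

variable {a b : ℝ} {S : Set ℝ}













end ftime

/-! ### Abstract past relations -/

/-- A relabelling-equivariant measurable monotone past relation: `R n Z s i k` says that `k` is in
the past of `(i, s)` in the world with gas configuration `Z`. -/
structure PastFam (ε : ℝ) (R : (n : ℕ) → Config n → ℝ → Fin n → Fin n → Prop) : Prop where
  equiv : ∀ (n : ℕ) (σ : Equiv.Perm (Fin n)) (Z : Config n), Z ∈ PairExcluded ε n →
    ∀ (s : ℝ) (i k : Fin n), 0 ≤ s → (R n (fun i => Z (σ i)) s i k ↔ R n Z s (σ i) (σ k))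
  mono : ∀ (n : ℕ) (Z : Config n) (s s' : ℝ) (i k : Fin n), 0 ≤ s → s ≤ s' → R n Z s i k →
    R n Z s' i k
  meas : ∀ (n : ℕ) (s : ℝ) (i k : Fin n), 0 ≤ s → MeasurableSet {Z : Config n | R n Z s i k}

/-- The union of the pasts of the marked particles strictly before the times `t n Z ι j`. -/
def preR {r : ℕ} (R : (n : ℕ) → Config n → ℝ → Fin n → Fin n → Prop)
    (t : (n : ℕ) → Config n → (Fin r → Fin n) → Fin r → ℝ) (n : ℕ) (Z : Config n)
    (ι : Fin r → Fin n) : Finset (Fin n) :=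
  Finset.univ.filter fun k => ∃ j, k = ι j ∨ ∃ s, 0 ≤ s ∧ s < t n Z ι j ∧ R n Z s (ι j) k

theorem mem_preR {r n : ℕ} {R : (n : ℕ) → Config n → ℝ → Fin n → Fin n → Prop}
    {t : (n : ℕ) → Config n → (Fin r → Fin n) → Fin r → ℝ} {Z : Config n}
    {ι : Fin r → Fin n} {k : Fin n} :
    k ∈ preR R t n Z ι ↔
      ∃ j, k = ι j ∨ ∃ s, 0 ≤ s ∧ s < t n Z ι j ∧ R n Z s (ι j) k := by
  simp [preR]

/-- **The pasts strictly before measurable equivariant times form a cluster map.** -/
theorem clusterMap_preR {ε : ℝ} {r : ℕ} {R : (n : ℕ) → Config n → ℝ → Fin n → Fin n → Prop}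
    (hR : PastFam ε R) {t : (n : ℕ) → Config n → (Fin r → Fin n) → Fin r → ℝ}
    (htm : ∀ n ι j, Measurable fun Z : Config n => t n Z ι j)
    (hte : ∀ (n : ℕ) (σ : Equiv.Perm (Fin n)) (Z : Config n) (ι : Fin r → Fin n) (j : Fin r),
      Z ∈ PairExcluded ε n → t n Z (fun j => σ (ι j)) j = t n (fun i => Z (σ i)) ι j) :
    ClusterMap ε r (preR R t) where
  self_mem n Z ι j hZ := mem_preR.2 ⟨j, Or.inl rfl⟩
  equiv n σ Z ι hZ := by
    ext k
    obtain ⟨k', rfl⟩ := σ.surjective k
    rw [mem_preR, Finset.mem_map_equiv, Equiv.symm_apply_apply, mem_preR]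
    refine exists_congr fun j => or_congr σ.injective.eq_iff (exists_congr fun s => ?_)
    rw [hte n σ Z ι j hZ]
    refine and_congr_right fun hs => and_congr_right fun _ => ?_
    exact (hR.equiv n σ Z hZ s (ι j) k' hs).symm
  meas n ι B := by
    have hmem : ∀ k : Fin n, MeasurableSet {Z : Config n | k ∈ preR R t n Z ι} := by
      intro k
      have : {Z : Config n | k ∈ preR R t n Z ι} =
          ⋃ j, ({_Z : Config n | k = ι j} ∪
            ⋃ q : ℚ, if (0 : ℝ) ≤ q then {Z : Config n | (q : ℝ) < t n Z ι j} ∩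
              {Z : Config n | R n Z q (ι j) k} else ∅) := by
        ext Z
        simp only [mem_preR, mem_iUnion, mem_union, mem_ofPred_eq]
        refine exists_congr fun j => or_congr Iff.rfl ?_
        constructor
        · rintro ⟨s, hs0, hst, hs⟩
          obtain ⟨q, hq1, hq2⟩ := exists_rat_btwn hst
          refine ⟨q, ?_⟩
          rw [if_pos (hs0.trans hq1.le)]
          exact ⟨hq2, hR.mono n Z s q _ _ hs0 hq1.le hs⟩
        · rintro ⟨q, hq⟩
          split_ifs at hq with h0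
          · exact ⟨q, h0, hq.1, hq.2⟩
          · exact hq.elim
      rw [this]
      refine MeasurableSet.iUnion fun j => (MeasurableSet.const _).union
        (MeasurableSet.iUnion fun q => ?_)
      split_ifs with h0
      · exact (measurableSet_lt measurable_const (htm n ι j)).inter (hR.meas n q _ _ h0)
      · exact MeasurableSet.empty
    have h2 : {Z : Config n | preR R t n Z ι = B} =
        ⋂ k : Fin n, {Z : Config n | k ∈ preR R t n Z ι ↔ k ∈ B} := by
      ext Z
      simp only [mem_ofPred_eq, mem_iInter, Finset.ext_iff]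
    rw [h2]
    refine MeasurableSet.iInter fun k => ?_
    by_cases hk : k ∈ B
    · have : {Z : Config n | k ∈ preR R t n Z ι ↔ k ∈ B} =
          {Z : Config n | k ∈ preR R t n Z ι} := by
        ext Z
        simp only [mem_ofPred_eq, hk, iff_true]
      rw [this]
      exact hmem k
    · have : {Z : Config n | k ∈ preR R t n Z ι ↔ k ∈ B} =
          {Z : Config n | k ∈ preR R t n Z ι}ᶜ := by
        ext Z
        simp only [mem_ofPred_eq, hk, iff_false, mem_compl_iff]
      rw [this]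
      exact (hmem k).compl

/-- **Mecke formula for the past of one particle strictly before a random time.** -/
theorem pre_mecke {f₀ : PhasePoint → ℝ} (hf : Measurable f₀) {ε : ℝ}
    {R : (n : ℕ) → Config n → ℝ → Fin n → Fin n → Prop} (hR : PastFam ε R)
    {t : (n : ℕ) → Config n → Fin n → ℝ} (htm : ∀ n i, Measurable fun Z : Config n => t n Z i)
    (hte : ∀ (n : ℕ) (σ : Equiv.Perm (Fin n)) (Z : Config n) (i : Fin n),
      Z ∈ PairExcluded ε n → t n Z (σ i) = t n (fun i => Z (σ i)) i)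
    {F : (n : ℕ) → Fin n → Finset (Fin n) → Config n → ℝ≥0∞}
    (hF : ∀ (n : ℕ) (σ : Equiv.Perm (Fin n)) (i : Fin n) (B : Finset (Fin n)) (Z : Config n),
      Z ∈ PairExcluded ε n → F n (σ i) (B.map σ.toEmbedding) Z = F n i B (fun i => Z (σ i)))
    (hFm : ∀ n i B, Measurable (F n i B)) :
    gcE f₀ ε (fun n Z => ∑ i : Fin n,
        F n i (preR R (r := 1) (fun n Z ι j => t n Z (ι j)) n Z fun _ => i) Z) =
      ∑' k : ℕ, activity ε ^ k / (k.factorial : ℝ≥0∞) * ∫⁻ V : Config k, gcWeight f₀ ε k V *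
        gcE f₀ ε (fun m w => perpInd ε V w * ∑ j : Fin k,
          if preR R (r := 1) (fun n Z ι j => t n Z (ι j)) (k + m) (Fin.append V w)
              (fun _ => Fin.castAdd m j) = block k m then
            F (k + m) (Fin.castAdd m j) (block k m) (Fin.append V w) else 0) := by
  have h := cluster_mecke hf (clusterMap_preR (r := 1) hR (t := fun n Z ι j => t n Z (ι j))
      (fun n ι j => htm n (ι j)) (fun n σ Z ι j hZ => hte n σ Z (ι j) hZ))
    (F := fun n ι B Z => F n (ι 0) B Z) (fun n σ ι B Z hZ => hF n σ (ι 0) B Z hZ)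
    (fun n ι B => hFm n (ι 0) B)
  have e0 : ∀ (n : ℕ) (ι : Fin 1 → Fin n), (fun _ => ι 0) = ι := by
    intro n ι
    funext j
    rw [Subsingleton.elim j 0]
  have e1 : (fun (n : ℕ) (Z : Config n) => ∑ ι : Fin 1 → Fin n,
      F n (ι 0) (preR R (r := 1) (fun n Z ι j => t n Z (ι j)) n Z ι) Z) =
      fun (n : ℕ) (Z : Config n) => ∑ i : Fin n,
        F n i (preR R (r := 1) (fun n Z ι j => t n Z (ι j)) n Z fun _ => i) Z := by
    funext n Z
    rw [← sum_fin_one (fun i => F n i (preR R (r := 1) (fun n Z ι j => t n Z (ι j)) n Z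
      fun _ => i) Z)]
    refine Finset.sum_congr rfl fun ι _ => ?_
    rw [e0 n ι]
  rw [e1] at h
  rw [h]
  refine tsum_congr fun k => ?_
  congr 1
  refine lintegral_congr fun V => ?_
  congr 2
  funext m w
  congr 1
  rw [← sum_fin_one (fun j : Fin k =>
    if preR R (r := 1) (fun n Z ι j => t n Z (ι j)) (k + m) (Fin.append V w)
        (fun _ => Fin.castAdd m j) = block k m then
      F (k + m) (Fin.castAdd m j) (block k m) (Fin.append V w) else 0)]
  refine Finset.sum_congr rfl fun ι _ => ?_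
  have e2 : (fun i => Fin.castAdd m (ι i)) = fun _ : Fin 1 => Fin.castAdd m (ι 0) := by
    funext i
    rw [Subsingleton.elim i 0]
  rw [e2]

/-! ### Threshold times -/

/-- The first time `≥ 0` at which the upward closed set `S` holds, `b` if it is not before `b`. -/
def utime (b : ℝ) (S : Set ℝ) : ℝ := sInf ((S ∩ Ici 0) ∪ Ici b)

section utime

variable {b : ℝ} {S : Set ℝ}

theorem bddBelow_utime : BddBelow ((S ∩ Ici 0) ∪ Ici b) := by
  refine ⟨min 0 b, ?_⟩
  rintro s (hs | hs)
  · exact (min_le_left _ _).trans hs.2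
  · exact (min_le_right _ _).trans hs

theorem utime_le : utime b S ≤ b := csInf_le bddBelow_utime (Or.inr (mem_Ici.2 le_rfl))

theorem utime_nonneg (hb : 0 ≤ b) : 0 ≤ utime b S := by
  refine le_csInf ⟨b, Or.inr (mem_Ici.2 le_rfl)⟩ ?_
  rintro s (hs | hs)
  · exact hs.2
  · exact hb.trans hs

theorem utime_le_of_mem {s : ℝ} (h0 : 0 ≤ s) (hs : s ∈ S) : utime b S ≤ s :=
  csInf_le bddBelow_utime (Or.inl ⟨hs, h0⟩)

theorem not_mem_of_lt_utime {s : ℝ} (h0 : 0 ≤ s) (h : s < utime b S) : s ∉ S :=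
  fun hs => absurd (utime_le_of_mem h0 hs) (not_le.2 h)

theorem mem_of_utime_lt (hup : ∀ s ∈ S, ∀ s', 0 ≤ s → s ≤ s' → s' ∈ S) {s : ℝ} (hs : s ≤ b)
    (h : utime b S < s) : s ∈ S := by
  obtain ⟨u, hu, hus⟩ := exists_lt_of_csInf_lt ⟨b, Or.inr (mem_Ici.2 le_rfl)⟩ h
  rcases hu with hu | hu
  · exact hup u hu.1 s hu.2 hus.le
  · exact absurd (hs.trans hu) (not_le.2 hus)

theorem utime_lt_iff (hup : ∀ s ∈ S, ∀ s', 0 ≤ s → s ≤ s' → s' ∈ S) {s : ℝ} (hs : s ≤ b) :
    utime b S < s ↔ ∃ q : ℚ, (0 : ℝ) ≤ q ∧ (q : ℝ) < s ∧ (q : ℝ) ∈ S := by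
  constructor
  · intro h
    obtain ⟨u, hu, hus⟩ := exists_lt_of_csInf_lt ⟨b, Or.inr (mem_Ici.2 le_rfl)⟩ h
    rcases hu with hu | hu
    · obtain ⟨q, hq1, hq2⟩ := exists_rat_btwn hus
      exact ⟨q, hu.2.trans hq1.le, hq2, hup u hu.1 q hu.2 hq1.le⟩
    · exact absurd (hs.trans hu) (not_le.2 hus)
  · rintro ⟨q, hq0, hqs, hq⟩
    exact (utime_le_of_mem hq0 hq).trans_lt hqs

theorem measurable_utime {Ω : Type*} [MeasurableSpace Ω] {b : ℝ} {S : Ω → Set ℝ}
    (hup : ∀ ω, ∀ s ∈ S ω, ∀ s', 0 ≤ s → s ≤ s' → s' ∈ S ω)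
    (hm : ∀ s, 0 ≤ s → MeasurableSet {ω | s ∈ S ω}) :
    Measurable fun ω => utime b (S ω) := by
  refine measurable_of_Iio fun s => ?_
  rcases le_or_gt s b with hs | hs
  · have : (fun ω => utime b (S ω)) ⁻¹' Iio s =
        ⋃ q : ℚ, if (0 : ℝ) ≤ q ∧ (q : ℝ) < s then {ω | (q : ℝ) ∈ S ω} else ∅ := by
      ext ω
      simp only [mem_preimage, mem_Iio, mem_iUnion]
      rw [utime_lt_iff (hup ω) hs]
      refine exists_congr fun q => ?_
      split_ifs with h
      · exact ⟨fun h' => h'.2.2, fun h' => ⟨h.1, h.2, h'⟩⟩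
      · exact ⟨fun h' => h ⟨h'.1, h'.2.1⟩, fun h' => h'.elim⟩
    rw [this]
    refine MeasurableSet.iUnion fun q => ?_
    split_ifs with h
    · exact hm q h.1
    · exact MeasurableSet.empty
  · have : (fun ω => utime b (S ω)) ⁻¹' Iio s = univ := by
      ext ω
      simp only [mem_preimage, mem_Iio, mem_univ, iff_true]
      exact utime_le.trans_lt hs
    rw [this]
    exact MeasurableSet.univ

end utime

/-- An equivariant measurable monotone size function of the past. -/
structure SizeFam (ε : ℝ) (N : (n : ℕ) → Config n → ℝ → Fin n → ℕ) : Prop where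
  equiv : ∀ (n : ℕ) (σ : Equiv.Perm (Fin n)) (Z : Config n), Z ∈ PairExcluded ε n →
    ∀ (s : ℝ) (i : Fin n), 0 ≤ s → N n Z s (σ i) = N n (fun i => Z (σ i)) s i
  mono : ∀ (n : ℕ) (Z : Config n) (s s' : ℝ) (i : Fin n), 0 ≤ s → s ≤ s' → N n Z s i ≤ N n Z s' i
  meas : ∀ (n : ℕ) (s : ℝ) (i : Fin n), 0 ≤ s → Measurable fun Z : Config n => N n Z s i

/-- Infection time: the size of the past exceeds `K` (`b` if not before `b`). -/
def sig (N : (n : ℕ) → Config n → ℝ → Fin n → ℕ) (K : ℕ) (b : ℝ) (n : ℕ) (Z : Config n)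
    (i : Fin n) : ℝ := utime b {s | K < N n Z s i}

section sig

variable {ε : ℝ} {N : (n : ℕ) → Config n → ℝ → Fin n → ℕ} {K : ℕ} {b : ℝ}

theorem SizeFam.up (hN : SizeFam ε N) (n : ℕ) (Z : Config n) (i : Fin n) :
    ∀ s ∈ {s | K < N n Z s i}, ∀ s', 0 ≤ s → s ≤ s' → s' ∈ {s | K < N n Z s i} :=
  fun s hs s' h0 h => lt_of_lt_of_le hs (hN.mono n Z s s' i h0 h)

theorem measurable_sig (hN : SizeFam ε N) (n : ℕ) (i : Fin n) :
    Measurable fun Z : Config n => sig N K b n Z i :=
  measurable_utime (fun Z => hN.up n Z i) fun s hs =>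
    measurableSet_lt measurable_const (hN.meas n s i hs)

theorem sig_equiv (hN : SizeFam ε N) (n : ℕ) (σ : Equiv.Perm (Fin n)) (Z : Config n)
    (hZ : Z ∈ PairExcluded ε n) (i : Fin n) :
    sig N K b n Z (σ i) = sig N K b n (fun i => Z (σ i)) i := by
  unfold sig utime
  congr 2
  ext s
  simp only [mem_inter_iff, mem_ofPred_eq, mem_Ici]
  refine and_congr_left fun hs => ?_
  rw [hN.equiv n σ Z hZ s i hs]

theorem sig_nonneg (hb : 0 ≤ b) {n : ℕ} {Z : Config n} {i : Fin n} : 0 ≤ sig N K b n Z i :=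
  utime_nonneg hb


theorem size_le_of_lt_sig {n : ℕ} {Z : Config n} {i : Fin n} {s : ℝ} (h0 : 0 ≤ s)
    (h : s < sig N K b n Z i) : N n Z s i ≤ K :=
  not_lt.1 (not_mem_of_lt_utime h0 h)

theorem lt_size_of_sig_lt (hN : SizeFam ε N) {n : ℕ} {Z : Config n} {i : Fin n} {s : ℝ}
    (hs : s ≤ b) (h : sig N K b n Z i < s) : K < N n Z s i :=
  mem_of_utime_lt (hN.up n Z i) hs h

end sig

/-! ### Monotonicity of the past in the root time -/

theorem past_mono_time {ι : Type*} {C : ℝ → ι → ι → Prop} {s s' r : ℝ} {i k : ι} (h : s ≤ s')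
    (hp : Past C s i r k) : Past C s' i r k := Past.trans (.root h) hp

theorem BC_mono_time {ι : Type*} {C : ℝ → ι → ι → Prop} {s s' : ℝ} {i : ι} (h : s ≤ s') :
    BC C s i ⊆ BC C s' i := fun _ hk => past_mono_time h hk

/-! ### The gas alone -/

section gas

variable {Φ : Space3 → ℝ} {ε : ℝ}

/-- The past relation of the gas. -/
def gasR (Φ : Space3 → ℝ) (ε : ℝ) (n : ℕ) (Z : Config n) (s : ℝ) (i k : Fin n) : Prop :=
  k ∈ BC (Ct (pth Φ ε Z) ε) s i

theorem pastFam_gasR (hΦ : AdmissiblePotential Φ) (hε : 0 < ε) : PastFam ε (gasR Φ ε) where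
  equiv n σ Z _ s i k _ := past_pth_equiv hΦ hε σ Z s 0 i k
  mono n Z s s' i k _ h hk := BC_mono_time h hk
  meas n s i k _ := by
    have := (measurableSet_mem_BC_pth hΦ hε (ι := Fin n) i k)
    exact (measurable_prodMk_left (x := s)) this

/-- The size of the past in the gas. -/
def gasSize (Φ : Space3 → ℝ) (ε : ℝ) (n : ℕ) (Z : Config n) (s : ℝ) (i : Fin n) : ℕ :=
  (BC (Ct (pth Φ ε Z) ε) s i).ncard

theorem gasSize_equiv (hΦ : AdmissiblePotential Φ) (hε : 0 < ε) (n : ℕ)
    (σ : Equiv.Perm (Fin n)) (Z : Config n) (s : ℝ) (i : Fin n) :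
    gasSize Φ ε n Z s (σ i) = gasSize Φ ε n (fun i => Z (σ i)) s i := by
  unfold gasSize
  rw [BC_pth_equiv hΦ hε σ Z s i]
  exact ncard_image_of_injective _ σ.injective

theorem gasSize_mono (n : ℕ) (Z : Config n) {s s' : ℝ} (i : Fin n) (h : s ≤ s') :
    gasSize Φ ε n Z s i ≤ gasSize Φ ε n Z s' i :=
  ncard_le_ncard (BC_mono_time h) (toFinite _)

theorem measurable_gasSize (hΦ : AdmissiblePotential Φ) (hε : 0 < ε) (n : ℕ) (s : ℝ)
    (i : Fin n) : Measurable fun Z : Config n => gasSize Φ ε n Z s i := by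
  have h1 := measurable_ncard_BC_pth (Φ := Φ) (ε := ε) (ι := Fin n) hΦ hε i
  have h2 := h1.comp (measurable_prodMk_left (x := s) (β := Fin n → PhasePoint))
  exact h2

theorem sizeFam_gasSize (hΦ : AdmissiblePotential Φ) (hε : 0 < ε) :
    SizeFam ε (gasSize Φ ε) :=
  ⟨fun n σ Z _ s i _ => gasSize_equiv hΦ hε n σ Z s i,
    fun n Z _ _ i _ h => gasSize_mono n Z i h,
    fun n s i _ => measurable_gasSize hΦ hε n s i⟩

end gas

end Crest.Agent.R122.GC311
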