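import Crest.Agent.R122.PairKer_292

/-!
Row 122, block H7, helper969: the collision legs of `OCout_796` in the form of `Boost3_969`, and the
forward weight for them.

* `collM`, `gE` : relative velocities and planar impact parameters with flux weight;
* `legL'`, `legC'`, `legC`, `legL` : the output lines as functions of the incoming line and of the
  relative data;
* `kO_le` : the continuation kernels `kO` of `PairKer_292` are dominated by the forward kernels;
* `exists_weight` : the forward weight with small contraction constant;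
* `stepK_leg` : the step property (`StepK`) of the continuation kernels.
-/

set_option autoImplicit false

open MeasureTheory ProbabilityTheory Set
open Crest.AnalysisR.Kinetic
open Crest.Agent.R122.Boost969 Crest.Agent.R122.Disc416 Crest.Agent.R122.Flux663
open Crest.Agent.R122.OC663 Crest.Agent.R122.Scat818 Crest.Agent.R122.Kin416
open Crest.Agent.R122.Boltz814 Crest.Agent.R122.Pair292
open scoped ENNReal

noncomputable section

namespace Crest.Agent.R122.CollLeg969

/-- relative data: relative velocity, planar impact parameter -/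
abbrev EC : Type := Space3 × Disc416.Plane

/-- reference measure with flux weight -/
def collM : Measure EC :=
  ((volume : Measure Space3).prod (volume.restrict (Metric.ball (0 : Disc416.Plane) 1))).withDensity
    (fun e => ENNReal.ofReal ‖e.1‖)

instance : SFinite collM := by
  unfold collM; infer_instance

/-- relative velocity -/
def gE (e : EC) : Space3 := e.1

lemma measurable_gE : Measurable gE := measurable_fst

lemma lintegral_collM {F : EC → ℝ≥0∞} (hF : Measurable F) :
    ∫⁻ e, F e ∂collM = ∫⁻ g : Space3, ENNReal.ofReal ‖g‖ *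
      ∫⁻ y in Metric.ball (0 : Disc416.Plane) 1, F (g, y) := by
  have hn : Measurable (fun e : EC => ENNReal.ofReal ‖e.1‖) := by fun_prop
  unfold collM
  rw [lintegral_withDensity_eq_lintegral_mul _ hn hF, lintegral_prod _ (hn.mul hF).aemeasurable]
  refine lintegral_congr fun g => ?_
  have hFg : Measurable (fun y : Disc416.Plane => F (g, y)) :=
    hF.comp (measurable_const.prodMk measurable_id)
  simp only [Pi.mul_apply]
  exact lintegral_const_mul _ hFg

/-! ### Legs -/

variable {Φ : Space3 → ℝ}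

/-- impact parameter and relative velocity -/
def bg (e : EC) : Space3 × Space3 := (Disc416.frameMap e.1 e.2, e.1)

lemma measurable_bg : Measurable bg := by
  unfold bg
  exact (Disc416.measurable_frameMap.comp measurable_id).prodMk measurable_fst

/-- duration of the collision at range `ε` -/
def dtE (Φ : Space3 → ℝ) (ε : ℝ) (e : EC) : ℝ := ε * tauM Φ (bg e)

lemma measurable_dtE (hΦ : AdmissiblePotential Φ) (ε : ℝ) : Measurable (dtE Φ ε) := by
  unfold dtE
  exact ((measurable_tauM hΦ).comp measurable_bg).const_mul ε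

/-- entrance point -/
def entE (e : EC) : Space3 := entrancePoint (bg e).1 (bg e).2

lemma measurable_entE : Measurable entE := by
  unfold entE
  exact measurable_entrancePoint.comp measurable_bg

/-- exit data -/
def exE (Φ : Space3 → ℝ) (e : EC) : Space3 × Space3 := Scat818.exitM Φ (bg e)

lemma measurable_exE (hΦ : AdmissiblePotential Φ) : Measurable (exE Φ) :=
  (Scat818.measurable_exitM hΦ).comp measurable_bg

/-- the relative speed is preserved -/
lemma norm_exitM_snd (hΦ : AdmissiblePotential Φ) (p : Space3 × Space3) :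
    ‖(Scat818.exitM Φ p).2‖ = ‖p.2‖ := by
  by_cases hp : p ∈ passSet Φ
  · rw [exitM_of_mem hΦ hp]
    exact norm_exitVelocity hΦ hp.1.1 hp.1.2
  · rw [exitM_of_not hΦ hp]
    rfl

lemma norm_exE (hΦ : AdmissiblePotential Φ) (e : EC) : ‖(exE Φ e).2‖ = ‖e.1‖ :=
  norm_exitM_snd hΦ _

/-- outgoing leg of the tagged particle -/
def legL' (hΦ : AdmissiblePotential Φ) (ε : ℝ) : Leg EC where
  dt := dtE Φ ε
  off e := -((ε / 2) • entE e) - (dtE Φ ε e / 2) • e.1 + (ε / 2) • (exE Φ e).1
  jump e := (1 / 2 : ℝ) • ((exE Φ e).2 - e.1)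
  mdt := measurable_dtE hΦ ε
  moff := by
    have h1 := measurable_dtE hΦ ε
    have h2 := measurable_exE hΦ
    have h3 := measurable_entE
    exact (((h3.const_smul (ε / 2)).neg).sub ((h1.div_const 2).smul measurable_fst)).add
      (h2.fst.const_smul (ε / 2))
  mjump := ((measurable_exE hΦ).snd.sub measurable_fst).const_smul (1 / 2 : ℝ)

/-- outgoing leg of the partner -/
def legC' (hΦ : AdmissiblePotential Φ) (ε : ℝ) : Leg EC where
  dt := dtE Φ ε
  off e := -((ε / 2) • entE e) - (dtE Φ ε e / 2) • e.1 - (ε / 2) • (exE Φ e).1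
  jump e := -((1 / 2 : ℝ) • ((exE Φ e).2 + e.1))
  mdt := measurable_dtE hΦ ε
  moff := by
    have h1 := measurable_dtE hΦ ε
    have h2 := measurable_exE hΦ
    have h3 := measurable_entE
    exact (((h3.const_smul (ε / 2)).neg).sub ((h1.div_const 2).smul measurable_fst)).sub
      (h2.fst.const_smul (ε / 2))
  mjump := (((measurable_exE hΦ).snd.add measurable_fst).const_smul (1 / 2 : ℝ)).neg

/-- undeflected partner, born at the exit time -/
def legC (hΦ : AdmissiblePotential Φ) (ε : ℝ) : Leg EC where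
  dt := dtE Φ ε
  off e := -(ε • entE e) - dtE Φ ε e • e.1
  jump e := -e.1
  mdt := measurable_dtE hΦ ε
  moff := by
    have h1 := measurable_dtE hΦ ε
    have h3 := measurable_entE
    exact ((h3.const_smul ε).neg).sub (h1.smul measurable_fst)
  mjump := measurable_fst.neg

/-- undeflected tagged particle, born at the exit time -/
def legL (hΦ : AdmissiblePotential Φ) (ε : ℝ) : Leg EC where
  dt := dtE Φ ε
  off _ := 0
  jump _ := 0
  mdt := measurable_dtE hΦ ε
  moff := measurable_const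
  mjump := measurable_const

/-- Admissible legs: nonnegative delay, energy inequality. -/
structure CLeg (L : Leg EC) : Prop where
  dt0 : ∀ e, 0 ≤ L.dt e
  en : ∀ (e : EC) (v : Space3), ‖v + L.jump e‖ ^ 2 ≤ ‖v‖ ^ 2 + ‖v - gE e‖ ^ 2

lemma dtE_nonneg {ε : ℝ} (hε : 0 ≤ ε) (e : EC) : 0 ≤ dtE Φ ε e :=
  mul_nonneg hε (tauM_nonneg _)

lemma norm_half_le (v g w : Space3) (h : ‖w‖ = ‖g‖) :
    ‖v + (1 / 2 : ℝ) • (w - g)‖ ^ 2 ≤ ‖v‖ ^ 2 + ‖v - g‖ ^ 2 := by
  have e1 : v + (1 / 2 : ℝ) • (w - g) = (v - (1 / 2 : ℝ) • g) + (1 / 2 : ℝ) • w := by module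
  rw [e1]
  have h1 := parallelogram_law_with_norm ℝ (v - (1 / 2 : ℝ) • g) ((1 / 2 : ℝ) • w)
  have h2 := parallelogram_law_with_norm ℝ (v - (1 / 2 : ℝ) • g) ((1 / 2 : ℝ) • g)
  have e3 : v - (1 / 2 : ℝ) • g + (1 / 2 : ℝ) • g = v := by module
  have e4 : v - (1 / 2 : ℝ) • g - (1 / 2 : ℝ) • g = v - g := by module
  rw [e3, e4] at h2
  have h3 : ‖(1 / 2 : ℝ) • w‖ = ‖(1 / 2 : ℝ) • g‖ := by rw [norm_smul, norm_smul, h]
  rw [h3] at h1
  nlinarith [sq_nonneg ‖v - (1 / 2 : ℝ) • g - (1 / 2 : ℝ) • w‖]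

lemma CLeg.legL' (hΦ : AdmissiblePotential Φ) {ε : ℝ} (hε : 0 ≤ ε) :
    CLeg (CollLeg969.legL' hΦ ε) where
  dt0 e := dtE_nonneg hε e
  en e v := norm_half_le v e.1 _ (norm_exE hΦ e)

lemma CLeg.legC' (hΦ : AdmissiblePotential Φ) {ε : ℝ} (hε : 0 ≤ ε) :
    CLeg (CollLeg969.legC' hΦ ε) where
  dt0 e := dtE_nonneg hε e
  en e v := by
    have h := norm_half_le v e.1 (-(exE Φ e).2) (by rw [norm_neg]; exact norm_exE hΦ e)
    have e1 : v + (CollLeg969.legC' hΦ ε).jump e = v + (1 / 2 : ℝ) • (-(exE Φ e).2 - e.1) := by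
      unfold CollLeg969.legC'
      simp only
      module
    rw [e1]
    exact h

lemma CLeg.legC (hΦ : AdmissiblePotential Φ) {ε : ℝ} (hε : 0 ≤ ε) :
    CLeg (CollLeg969.legC hΦ ε) where
  dt0 e := dtE_nonneg hε e
  en e v := by
    have e1 : v + (CollLeg969.legC hΦ ε).jump e = v - gE e := by
      unfold CollLeg969.legC gE
      simp only
      abel
    rw [e1]
    nlinarith [sq_nonneg ‖v‖]

lemma CLeg.legL (hΦ : AdmissiblePotential Φ) {ε : ℝ} (hε : 0 ≤ ε) :
    CLeg (CollLeg969.legL hΦ ε) where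
  dt0 e := dtE_nonneg hε e
  en e v := by
    have e1 : v + (CollLeg969.legL hΦ ε).jump e = v := by
      unfold CollLeg969.legL
      simp
    rw [e1]
    nlinarith [sq_nonneg ‖v - gE e‖]

/-! ### Output maps as legs -/

/-- `out` is the leg `L` at range `ε`. -/
def OutLeg (out : ℝ → Space3 → OCout796.CD → LSt) (ε : ℝ) (L : Leg EC) : Prop :=
  ∀ (z : LSt) (s : ℝ) (g : Space3) (y : Disc416.Plane),
    outC out ε z (s, (z.2.2 - g, y)) = L.out (z, (s, (g, y)))

lemma bC_eq (z : LSt) (s : ℝ) (g : Space3) (y : Disc416.Plane) :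
    bC z (s, (z.2.2 - g, y)) = Disc416.frameMap g y := by
  unfold bC
  simp only [sub_sub_cancel]

lemma xC_eq (ε : ℝ) (z : LSt) (s : ℝ) (g : Space3) (y : Disc416.Plane) :
    xC ε z (s, (z.2.2 - g, y)) = posAt s z - ε • entE (g, y) := by
  unfold xC
  simp only [sub_sub_cancel, bC_eq]
  rfl

lemma cdC_eq (z : LSt) (s : ℝ) (g : Space3) (y : Disc416.Plane) :
    cdC z (s, (z.2.2 - g, y)) = (z.2.2, z.2.2 - g, Disc416.frameMap g y) := by
  unfold cdC
  rw [bC_eq]

lemma rate_eq (z : LSt) (s : ℝ) (g : Space3) (y : Disc416.Plane) :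
    Pair292.rate z (s, (z.2.2 - g, y)) = if z.1 < s then ENNReal.ofReal ‖g‖ else 0 := by
  unfold Pair292.rate
  simp only [sub_sub_cancel]

lemma relB_eq (v g b : Space3) : OCout796.relB (v, v - g, b) = (b, g) := by
  unfold OCout796.relB
  simp only [sub_sub_cancel]

theorem outLeg_L' (hΦ : AdmissiblePotential Φ) (ε : ℝ) :
    OutLeg (OCout796.lineL' Φ ε) ε (legL' hΦ ε) := by
  intro z s g y
  have hr := relB_eq z.2.2 g (Disc416.frameMap g y)
  unfold outC
  rw [xC_eq, cdC_eq]
  unfold OCout796.lineL' OCout796.outCM OCout796.outT OCout796.cmvel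
  rw [hr]
  have hτ : ε * tauM Φ (Disc416.frameMap g y, g) = dtE Φ ε (g, y) := rfl
  have hx : Scat818.exitM Φ (Disc416.frameMap g y, g) = exE Φ (g, y) := rfl
  have he : entrancePoint (Disc416.frameMap g y) g = entE (g, y) := rfl
  simp only [hτ, hx, he]
  unfold Leg.out legL' posAt
  simp only
  refine Prod.ext rfl (Prod.ext ?_ ?_)
  · simp only; module
  · simp only; module

theorem outLeg_C' (hΦ : AdmissiblePotential Φ) (ε : ℝ) :
    OutLeg (OCout796.lineC' Φ ε) ε (legC' hΦ ε) := by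
  intro z s g y
  have hr := relB_eq z.2.2 g (Disc416.frameMap g y)
  unfold outC
  rw [xC_eq, cdC_eq]
  unfold OCout796.lineC' OCout796.outCM OCout796.outT OCout796.cmvel
  rw [hr]
  have hτ : ε * tauM Φ (Disc416.frameMap g y, g) = dtE Φ ε (g, y) := rfl
  have hx : Scat818.exitM Φ (Disc416.frameMap g y, g) = exE Φ (g, y) := rfl
  have he : entrancePoint (Disc416.frameMap g y) g = entE (g, y) := rfl
  simp only [hτ, hx, he]
  unfold Leg.out legC' posAt
  simp only
  refine Prod.ext rfl (Prod.ext ?_ ?_)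
  · simp only; module
  · simp only; module

theorem outLeg_C (hΦ : AdmissiblePotential Φ) (ε : ℝ) :
    OutLeg (OCout796.lineC Φ ε) ε (legC hΦ ε) := by
  intro z s g y
  have hr := relB_eq z.2.2 g (Disc416.frameMap g y)
  unfold outC
  rw [xC_eq, cdC_eq]
  unfold OCout796.lineC OCout796.outT
  rw [hr]
  have hτ : ε * tauM Φ (Disc416.frameMap g y, g) = dtE Φ ε (g, y) := rfl
  simp only [hτ]
  unfold Leg.out legC posAt
  simp only
  refine Prod.ext rfl (Prod.ext ?_ ?_)
  · simp only; module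
  · simp only; module



/-! ### Domination of the continuation kernels -/

variable {out : ℝ → Space3 → OCout796.CD → LSt}

/-- exact form of the continuation kernel in relative coordinates -/
lemma lintegral_kO_leg {ε : ℝ} (h : OutMap out) {L : Leg EC} (hL : OutLeg out ε L) (b₀ te : ℝ)
    (z : LSt) {F : LSt → ℝ≥0∞} (hF : Measurable F) :
    ∫⁻ z', F z' ∂kO ε b₀ te out z =
      ∫⁻ s in Ioc 0 te, ∫⁻ e, Nf 1 b₀ gE z (s, e) * F (L.out (z, (s, e))) ∂collM := by
  rw [lintegral_kO h ε b₀ te z hF]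
  have hm1 : Measurable (fun c : CDat => dens b₀ z c * F (outC out ε z c)) := by
    have g1 : Measurable (fun c : CDat => (z, c)) := measurable_const.prodMk measurable_id
    have g2 := (measurable_dens b₀).comp g1
    have g3 := hF.comp ((measurable_outC h ε).comp g1)
    exact g2.mul g3
  unfold mC
  rw [lintegral_prod _ hm1.aemeasurable]
  refine lintegral_congr fun s => ?_
  have hm2 : Measurable (fun q : Space3 × Disc416.Plane =>
      dens b₀ z (s, q) * F (outC out ε z (s, q))) :=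
    hm1.comp (measurable_const.prodMk measurable_id)
  have hm3 : Measurable (fun e : EC => Nf 1 b₀ gE z (s, e) * F (L.out (z, (s, e)))) := by
    have g1 : Measurable (fun e : EC => ((z, (s, e)) : LSt × (ℝ × EC))) :=
      measurable_const.prodMk (measurable_const.prodMk measurable_id)
    have g2 := (measurable_Nf 1 b₀ measurable_gE).comp g1
    have g3 := hF.comp (L.measurable_out.comp g1)
    exact g2.mul g3
  rw [lintegral_prod _ hm2.aemeasurable, lintegral_collM hm3,
    ← lintegral_sub_left_eq_self (fun u : Space3 => ∫⁻ y in Metric.ball (0 : Disc416.Plane) 1,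
      dens b₀ z (s, (u, y)) * F (outC out ε z (s, (u, y)))) z.2.2]
  refine lintegral_congr fun g => ?_
  have hm4 : Measurable (fun y : Disc416.Plane =>
      Nf 1 b₀ gE z (s, (g, y)) * F (L.out (z, (s, (g, y))))) :=
    hm3.comp (measurable_const.prodMk measurable_id)
  rw [← lintegral_const_mul _ hm4]
  refine lintegral_congr fun y => ?_
  have h1 := hL z s g y
  rw [h1]
  unfold dens
  rw [rate_eq]
  unfold Nf gE
  simp only [ENNReal.ofReal_one, one_mul]
  split_ifs
  · ring
  · simp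

/-- **Domination** of the continuation kernels by the forward kernels. -/
theorem kO_le {ε : ℝ} (h : OutMap out) {L : Leg EC} (hL : OutLeg out ε L) (b₀ te : ℝ) (z : LSt) :
    kO ε b₀ te out z ≤ fwdK collM L gE 1 b₀ z := by
  refine Measure.le_intro fun s hs _ => ?_
  have hF : Measurable (s.indicator (1 : LSt → ℝ≥0∞)) := measurable_one.indicator hs
  rw [← lintegral_indicator_one hs, ← lintegral_indicator_one hs,
    lintegral_kO_leg h hL b₀ te z hF]
  unfold fwdK
  rw [lintegral_stepK L (measurable_Nf 1 b₀ measurable_gE) (Nf_ne_top 1 b₀ gE) hF]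
  have hm3 : Measurable (fun q : ℝ × EC => Nf 1 b₀ gE z q *
      s.indicator (1 : LSt → ℝ≥0∞) (L.out (z, q))) := by
    have g1 : Measurable (fun q : ℝ × EC => ((z, q) : LSt × (ℝ × EC))) :=
      measurable_const.prodMk measurable_id
    have g2 := (measurable_Nf 1 b₀ measurable_gE).comp g1
    have g3 := hF.comp (L.measurable_out.comp g1)
    exact g2.mul g3
  rw [lintegral_prod _ hm3.aemeasurable]
  exact setLIntegral_le_lintegral _ _

/-- reference measure dominating `collM` and Lebesgue measure -/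
def collM1 : Measure EC :=
  ((volume : Measure Space3).prod (volume.restrict (Metric.ball (0 : Disc416.Plane) 1))).withDensity
    (fun e => ENNReal.ofReal (1 + ‖e.1‖))

instance : SFinite collM1 := by
  unfold collM1; infer_instance

lemma lintegral_collM1 {F : EC → ℝ≥0∞} (hF : Measurable F) :
    ∫⁻ e, F e ∂collM1 = ∫⁻ g : Space3, ENNReal.ofReal (1 + ‖g‖) *
      ∫⁻ y in Metric.ball (0 : Disc416.Plane) 1, F (g, y) := by
  have hn : Measurable (fun e : EC => ENNReal.ofReal (1 + ‖e.1‖)) := by fun_prop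
  unfold collM1
  rw [lintegral_withDensity_eq_lintegral_mul _ hn hF, lintegral_prod _ (hn.mul hF).aemeasurable]
  refine lintegral_congr fun g => ?_
  have hFg : Measurable (fun y : Disc416.Plane => F (g, y)) :=
    hF.comp (measurable_const.prodMk measurable_id)
  simp only [Pi.mul_apply]
  exact lintegral_const_mul _ hFg

lemma collM_le_collM1 : collM ≤ collM1 := by
  unfold collM collM1
  refine withDensity_mono (Filter.Eventually.of_forall fun e => ENNReal.ofReal_le_ofReal ?_)
  linarith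


/-- monotonicity of the forward kernels in the reference measure -/
lemma fwdK_mono {μ μ' : Measure EC} [SFinite μ] [SFinite μ'] (h : μ ≤ μ') (L : Leg EC)
    (M β : ℝ) (z : LSt) : fwdK μ L gE M β z ≤ fwdK μ' L gE M β z := by
  refine Measure.le_intro fun s hs _ => ?_
  have hF : Measurable (s.indicator (1 : LSt → ℝ≥0∞)) := measurable_one.indicator hs
  rw [← lintegral_indicator_one hs, ← lintegral_indicator_one hs]
  unfold fwdK
  rw [lintegral_stepK L (measurable_Nf M β measurable_gE) (Nf_ne_top M β gE) hF,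
    lintegral_stepK L (measurable_Nf M β measurable_gE) (Nf_ne_top M β gE) hF]
  exact lintegral_mono' (Measure.prod_mono le_rfl h) le_rfl

/-- the dominating kernel for the unit boosts -/
def domK (L : Leg EC) (b₀ : ℝ) : Kernel LSt LSt :=
  fwdK collM1 L gE (1 * Real.exp b₀) (b₀ / 2)

instance (L : Leg EC) (b₀ : ℝ) : IsSFiniteKernel (domK L b₀) := by
  unfold domK fwdK
  exact isSFiniteKernel_stepK L (Nf_ne_top _ _ gE)

theorem galDom_domK1 (L : Leg EC) {b₀ : ℝ} (hb : 0 ≤ b₀) :
    GalDom (fwdK collM1 L gE 1 b₀) (domK L b₀) :=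
  GalDom.fwd L measurable_gE hb

theorem galDom_domK (L : Leg EC) {b₀ : ℝ} (hb : 0 ≤ b₀) :
    GalDom (fwdK collM L gE 1 b₀) (domK L b₀) :=
  (galDom_domK1 L hb).mono (fwdK_mono collM_le_collM1 L 1 b₀)



/-! ### Flux bound -/

lemma flx_collM1 {γ : ℝ} (hγ : 0 < γ) : Flx collM1 gE γ (CG γ).toReal := by
  intro v
  have hm : Measurable (fun e : EC => gau γ (v - gE e)) :=
    (measurable_gau γ).comp (measurable_const.sub measurable_gE)
  rw [lintegral_collM1 hm]
  have h1 : ∀ g : Space3, ENNReal.ofReal (1 + ‖g‖) *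
      (∫⁻ _y in Metric.ball (0 : Disc416.Plane) 1, gau γ (v - gE (g, _y))) =
      ENNReal.ofReal Real.pi * (ENNReal.ofReal (1 + ‖g‖) * gau γ (v - g)) := by
    intro g
    have e1 : ∀ y : Disc416.Plane, gau γ (v - gE (g, y)) = gau γ (v - g) := fun _ => rfl
    simp only [e1]
    rw [setLIntegral_const, Disc416.volume_unitDisc]
    ring
  simp only [h1]
  have hm2 : Measurable (fun g : Space3 => ENNReal.ofReal (1 + ‖g‖) * gau γ (v - g)) :=
    (Measurable.ennreal_ofReal (by fun_prop)).mul ((measurable_gau γ).comp (by fun_prop))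
  have hm3 : Measurable (fun w : Space3 => ENNReal.ofReal (1 + ‖w‖) * gau γ w) :=
    (Measurable.ennreal_ofReal (by fun_prop)).mul (measurable_gau γ)
  have h2 : ∫⁻ g : Space3, ENNReal.ofReal (1 + ‖g‖) * gau γ (v - g) ≤
      ENNReal.ofReal (1 + ‖v‖) * ∫⁻ w : Space3, ENNReal.ofReal (1 + ‖w‖) * gau γ w := by
    rw [← lintegral_sub_left_eq_self (fun g : Space3 => ENNReal.ofReal (1 + ‖g‖) *
      gau γ (v - g)) v, ← lintegral_const_mul _ hm3]
    refine lintegral_mono fun w => ?_
    simp only [sub_sub_cancel]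
    rw [← mul_assoc]
    refine mul_le_mul_left ?_ _
    rw [← ENNReal.ofReal_mul (by positivity)]
    refine ENNReal.ofReal_le_ofReal ?_
    have h3 := norm_sub_le v w
    nlinarith [norm_nonneg v, norm_nonneg w, mul_nonneg (norm_nonneg v) (norm_nonneg w)]
  rw [lintegral_const_mul _ hm2]
  calc ENNReal.ofReal Real.pi * ∫⁻ g : Space3, ENNReal.ofReal (1 + ‖g‖) * gau γ (v - g)
      ≤ ENNReal.ofReal Real.pi * (ENNReal.ofReal (1 + ‖v‖) *
          ∫⁻ w : Space3, ENNReal.ofReal (1 + ‖w‖) * gau γ w) := mul_le_mul_right h2 _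
    _ = CG γ * ENNReal.ofReal (1 + ‖v‖) := by unfold CG; ring
    _ = _ := by
        rw [ENNReal.ofReal_mul ENNReal.toReal_nonneg, ENNReal.ofReal_toReal (CG_lt_top hγ).ne]


/-! ### The forward weight -/

/-- Forward weight with contraction constant `lam`, for the dominating kernels at inverse
temperature `b₀`, growth `exp (η ‖v‖²)`. -/
structure WPack (b₀ te η : ℝ) (lam : ℝ≥0∞) (W : LSt → ℝ≥0∞) (A : ℝ≥0∞) : Prop where
  meas : Measurable W
  low : ∀ z : LSt, z.1 ≤ te → ENNReal.ofReal (1 + ‖z.2.2‖) ≤ W z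
  high : ∀ z : LSt, 0 ≤ z.1 → W z ≤ A * ENNReal.ofReal (Real.exp (η * ‖z.2.2‖ ^ 2))
  Atop : A ≠ ∞
  sh : ∀ (a : Space3) (z : LSt), W (shL a z) = W z
  anti : ∀ (s s' : ℝ) (x x' v : Space3), s ≤ s' → W (s', (x', v)) ≤ W (s, (x, v))
  step : ∀ L : Leg EC, CLeg L → ∀ z, ∫⁻ z', W z' ∂domK L b₀ z ≤ lam * W z

lemma one_add_le_exp {θ : ℝ} (hθ : 0 < θ) (r : ℝ) :
    1 + r ≤ (1 + 1 / (4 * θ)) * Real.exp (θ * r ^ 2) := by
  have h1 : 1 + θ * r ^ 2 ≤ Real.exp (θ * r ^ 2) := by
    have := Real.add_one_le_exp (θ * r ^ 2)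
    linarith
  have h2 : r ≤ 1 / (4 * θ) + θ * r ^ 2 := by
    have h3 : 0 ≤ θ * (r - 1 / (2 * θ)) ^ 2 := by positivity
    have h4 : θ * (r - 1 / (2 * θ)) ^ 2 = θ * r ^ 2 - r + 1 / (4 * θ) := by
      field_simp
      ring
    linarith
  have h5 : 0 ≤ 1 / (4 * θ) := by positivity
  calc 1 + r ≤ 1 + (1 / (4 * θ) + θ * r ^ 2) := by linarith
    _ ≤ (1 + 1 / (4 * θ)) * (1 + θ * r ^ 2) := by
        have : 0 ≤ 1 / (4 * θ) * (θ * r ^ 2) := by positivity
        nlinarith
    _ ≤ _ := by gcongr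

lemma one_add_pow4_le {θ : ℝ} (hθ : 0 < θ) {r : ℝ} (hr : 0 ≤ r) :
    (1 + r) ^ 4 ≤ (1 + 1 / θ) ^ 4 * Real.exp (θ * r ^ 2) := by
  have h1 := one_add_le_exp (θ := θ / 4) (by positivity) r
  have h2 : (1 + r) ^ 4 ≤ ((1 + 1 / (4 * (θ / 4))) * Real.exp (θ / 4 * r ^ 2)) ^ 4 :=
    pow_le_pow_left₀ (by positivity) h1 4
  refine h2.trans (le_of_eq ?_)
  rw [mul_pow, ← Real.exp_nat_mul]
  congr 2
  · congr 1
    field_simp
  · push_cast
    ring

/-- **The forward weight**, with a fourth power of the velocity. -/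
theorem exists_weight4 {b₀ te η : ℝ} (hb : 0 < b₀) (hte : 0 < te) (hη : 0 < η) {lam : ℝ}
    (hlam : 0 < lam) : ∃ (W : LSt → ℝ≥0∞) (A : ℝ≥0∞),
      WPack b₀ te η (ENNReal.ofReal lam) W A ∧ ∃ Cv : ℝ≥0∞, Cv ≠ ∞ ∧ ∀ z : LSt, z.1 ≤ te →
        ENNReal.ofReal ((1 + ‖z.2.2‖) ^ 4) ≤ Cv * W z := by
  set M : ℝ := 1 * Real.exp b₀ with hM
  have hM0 : 0 ≤ M := by positivity
  set C₁ : ℝ := (CG (b₀ / 2 / 2)).toReal with hC₁
  have hC₁0 : 0 ≤ C₁ := ENNReal.toReal_nonneg
  set θ : ℝ := min (b₀ / 8) (η / 2) with hθ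
  have hθ0 : 0 < θ := lt_min (by positivity) (by positivity)
  set κ : ℝ := θ / te with hκ
  have hκ0 : 0 < κ := by positivity
  have hκte : κ * te = θ := by rw [hκ]; field_simp
  set a : ℝ := M * C₁ with ha
  have ha0 : 0 ≤ a := mul_nonneg hM0 hC₁0
  set ν : ℝ := a / lam + a ^ 2 / (4 * lam ^ 2 * κ) + 1 with hν
  have hν0 : 0 < ν := by positivity
  have hβ : θ + κ * te ≤ b₀ / 2 / 2 := by
    rw [hκte]
    have : θ ≤ b₀ / 8 := min_le_left _ _
    linarith
  have hk : ∀ r : ℝ, 0 ≤ r → M * C₁ * (1 + r) ≤ lam * (ν + κ * r ^ 2) := by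
    intro r hr
    have h1 : 0 ≤ lam * κ * (r - a / (2 * lam * κ)) ^ 2 := by positivity
    have h2 : lam * κ * (r - a / (2 * lam * κ)) ^ 2 =
        lam * κ * r ^ 2 - a * r + a ^ 2 / (4 * lam * κ) := by
      field_simp
      ring
    have h3 : lam * ν = a + a ^ 2 / (4 * lam * κ) + lam := by
      rw [hν]
      field_simp
    rw [← ha]
    nlinarith
  set Cc : ℝ := 1 + 1 / (4 * θ) with hCc
  have hCc0 : 0 ≤ Cc := by positivity
  refine ⟨fun z => ENNReal.ofReal Cc * Wf te ν θ κ z, ENNReal.ofReal Cc *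
    ENNReal.ofReal (Real.exp (ν * te)), ⟨?_, ?_, ?_, ?_, ?_, ?_, ?_⟩,
    ENNReal.ofReal ((1 + 1 / θ) ^ 4), ENNReal.ofReal_ne_top, ?_⟩
  · exact (measurable_Wf te ν θ κ).const_mul _
  · intro z hz
    unfold Wf
    by_cases h0 : z.1 < 0
    · simp only [h0, if_true]
      have hne : ENNReal.ofReal Cc ≠ 0 := by
        have : 0 < Cc := by positivity
        simpa using this
      rw [ENNReal.mul_top hne]
      exact le_top
    · simp only [h0, if_false, hz, if_true]
      rw [← ENNReal.ofReal_mul hCc0]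
      refine ENNReal.ofReal_le_ofReal ?_
      refine (one_add_le_exp hθ0 ‖z.2.2‖).trans ?_
      refine mul_le_mul_of_nonneg_left (Real.exp_le_exp.2 ?_) hCc0
      have h1 : 0 ≤ te - z.1 := by linarith
      have h2 : 0 ≤ ν * (te - z.1) := by positivity
      have h3 : 0 ≤ κ * (te - z.1) * ‖z.2.2‖ ^ 2 := by positivity
      nlinarith
  · intro z hz
    have h0 : ¬ z.1 < 0 := not_lt.2 hz
    unfold Wf
    simp only [h0, if_false]
    by_cases h1 : z.1 ≤ te
    · simp only [h1, if_true]
      rw [mul_assoc, ← ENNReal.ofReal_mul (Real.exp_pos _).le, ← Real.exp_add]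
      refine mul_le_mul_right (ENNReal.ofReal_le_ofReal (Real.exp_le_exp.2 ?_)) _
      have h2 : ν * (te - z.1) ≤ ν * te := by nlinarith
      have h3 : θ + κ * (te - z.1) ≤ η := by
        have h4 : κ * (te - z.1) ≤ κ * te := by nlinarith
        have h5 : θ ≤ η / 2 := min_le_right _ _
        linarith
      have h6 : (θ + κ * (te - z.1)) * ‖z.2.2‖ ^ 2 ≤ η * ‖z.2.2‖ ^ 2 :=
        mul_le_mul_of_nonneg_right h3 (sq_nonneg _)
      linarith
    · simp [h1]
  · exact ENNReal.mul_ne_top ENNReal.ofReal_ne_top ENNReal.ofReal_ne_top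
  · intro a z
    rfl
  · intro s s' x x' v hss
    refine mul_le_mul_right ?_ _
    unfold Wf
    simp only
    by_cases h0 : s < 0
    · simp [h0]
    · have h0' : ¬ s' < 0 := by push Not at h0 ⊢; linarith
      simp only [h0, h0', if_false]
      by_cases h1 : s' ≤ te
      · have h1' : s ≤ te := hss.trans h1
        simp only [h1, h1', if_true]
        refine ENNReal.ofReal_le_ofReal (Real.exp_le_exp.2 ?_)
        have h2 : ν * (te - s') ≤ ν * (te - s) := by nlinarith
        have h3 : θ + κ * (te - s') ≤ θ + κ * (te - s) := by nlinarith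
        have h4 := mul_le_mul_of_nonneg_right h3 (sq_nonneg ‖v‖)
        linarith
      · simp [h1]
  · intro L hL z
    have h1 := forward_super (μ := collM1) L measurable_gE (T := te) (ν := ν) (θ := θ) (κ := κ)
      (β := b₀ / 2) (M := M) (C₁ := C₁) (lam := lam) hν0 hθ0.le hκ0.le hβ hM0 hlam
      (flx_collM1 (by positivity)) (Filter.Eventually.of_forall hL.dt0)
      (Filter.Eventually.of_forall hL.en) hk z
    unfold domK
    rw [lintegral_const_mul _ (measurable_Wf te ν θ κ)]
    calc ENNReal.ofReal Cc * ∫⁻ z', Wf te ν θ κ z' ∂fwdK collM1 L gE (1 * Real.exp b₀) (b₀ / 2) z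
        ≤ ENNReal.ofReal Cc * (ENNReal.ofReal lam * Wf te ν θ κ z) := mul_le_mul_right h1 _
      _ = _ := by ring
  · intro z hz
    have hCc1 : 1 ≤ ENNReal.ofReal Cc := by
      rw [← ENNReal.ofReal_one]
      refine ENNReal.ofReal_le_ofReal ?_
      have : 0 ≤ 1 / (4 * θ) := by positivity
      linarith
    have hkey : ENNReal.ofReal ((1 + ‖z.2.2‖) ^ 4) ≤
        ENNReal.ofReal ((1 + 1 / θ) ^ 4) * Wf te ν θ κ z := by
      unfold Wf
      by_cases h0 : z.1 < 0
      · simp only [h0, if_true]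
        have hne : ENNReal.ofReal ((1 + 1 / θ) ^ 4) ≠ 0 := by
          have : 0 < (1 + 1 / θ) ^ 4 := by positivity
          simpa using this
        rw [ENNReal.mul_top hne]
        exact le_top
      · simp only [h0, if_false, hz, if_true]
        rw [← ENNReal.ofReal_mul (by positivity)]
        refine ENNReal.ofReal_le_ofReal ?_
        refine (one_add_pow4_le hθ0 (norm_nonneg z.2.2)).trans ?_
        refine mul_le_mul_of_nonneg_left (Real.exp_le_exp.2 ?_) (by positivity)
        have h1 : 0 ≤ te - z.1 := by linarith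
        have h2 : 0 ≤ ν * (te - z.1) := by positivity
        have h3 : 0 ≤ κ * (te - z.1) * ‖z.2.2‖ ^ 2 := by positivity
        nlinarith
    refine hkey.trans (mul_le_mul_right ?_ _)
    calc Wf te ν θ κ z = 1 * Wf te ν θ κ z := (one_mul _).symm
      _ ≤ _ := mul_le_mul_left hCc1 _


/-! ### Consequences -/

variable {b₀ te η : ℝ} {lam A : ℝ≥0∞} {W : LSt → ℝ≥0∞}


lemma WPack.one_le (h : WPack b₀ te η lam W A) (z : LSt) (hz : z.1 ≤ te) : 1 ≤ W z := by
  refine le_trans ?_ (h.low z hz)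
  rw [ENNReal.ofReal_add zero_le_one (norm_nonneg _), ENNReal.ofReal_one]
  exact le_self_add

/-- initial laws with Gaussian velocities -/
lemma WPack.init (h : WPack b₀ te η lam W A) {γ : ℝ} (s : ℝ) (hs : 0 ≤ s) (x : Space3) :
    ∫⁻ v, gau γ v * W (s, (x, v)) ≤ A * ∫⁻ v, gau (γ - η) v := by
  rw [← lintegral_const_mul _ (measurable_gau _)]
  refine lintegral_mono fun v => ?_
  calc gau γ v * W (s, (x, v)) ≤ gau γ v * (A * ENNReal.ofReal (Real.exp (η * ‖v‖ ^ 2))) :=
        mul_le_mul_right (h.high (s, (x, v)) hs) _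
    _ = A * (gau γ v * ENNReal.ofReal (Real.exp (η * ‖v‖ ^ 2))) := by ring
    _ = A * gau (γ - η) v := by
        unfold gau
        rw [← ENNReal.ofReal_mul (Real.exp_pos _).le, ← Real.exp_add]
        congr 3
        ring

/-- **Step property** of the continuation kernels (`out` any of the four lines). -/
theorem stepK_leg (h : WPack b₀ te η lam W A) {P : PPar} (hPW : P.W = W) (hb : 0 ≤ b₀) {ε : ℝ}
    (ho : OutMap out) {L : Leg EC} (hoL : OutLeg out ε L) (hL : CLeg L) (t : ℝ) {f : ℕ → ℕ → ℕ}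
    (hf : ∀ m n, f m n ≤ n + m) {q : ℕ → ℝ≥0∞} (hq : ∀ m, q m ≠ ∞) :
    StepK P (stO ε b₀ t out f q) (mkK f q (domK L b₀)) (lam * ∑' m, P.lam₁ ^ m * q m) := by
  refine stepK_stO ho hf hq (kO_le ho hoL b₀ t) (galDom_domK L hb) ?_
  intro z
  rw [hPW]
  exact h.step L hL z




end Crest.Agent.R122.CollLeg969
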