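import Crest.Agent.R122.Mom_974
import Crest.Agent.R122.GCBounds_311

/-!
# Concentration of additive functionals of the gas (row 122, E6 direct term), helper984

For `Y = activity⁻¹ ∑_j φ (Z_j)` and `c = ∫ f₀ φ` (finite, with `∫ f₀ φ² < ∞`):

* `le_gcE_add`    : `c ≤ E Y + δ_ε c`, `δ_ε = O(ε)` (exclusion correction);
* `gcE_exc_sq_le` : `E (Y - c)_+² ≤ ε² ∫ f₀ φ² + 2 δ_ε c²`;
* `gcE_exc_le`    : `E (Y - c)_+ ≤ √ε (1 + ∫ f₀ φ² + C c²)` for `ε ≤ 1`;
* `tendsto_gcE_exc` : `E (Y - c)_+ → 0`;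
* `gcE_mul_le`    : `E (Y F) ≤ c E F + B E (Y - c)_+` for every `F ≤ B` (no measurability);
* `energy_at_le`, `gcE_energy_mul_le` : the same for `ε² ∑_i (1 + |v_i(t)|²)`, uniformly in `t`.
-/

set_option autoImplicit false

open MeasureTheory Set Filter Topology
open scoped ENNReal
open Crest.AnalysisR.Kinetic
open Crest.Agent.R122.Flow671 Crest.Agent.R122.Loc45 Crest.Agent.R122.GC311

namespace Crest.Agent.R122.Conc984

noncomputable section

variable {Φ : Space3 → ℝ} {f₀ : PhasePoint → ℝ} {ε : ℝ}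

/-- The rescaled additive functional. -/
def Y (ε : ℝ) (φ : PhasePoint → ℝ≥0∞) (n : ℕ) (Z : Config n) : ℝ≥0∞ :=
  (activity ε)⁻¹ * ∑ j, φ (Z j)

/-- Its kinetic mean. -/
def mean (f₀ : PhasePoint → ℝ) (φ : PhasePoint → ℝ≥0∞) : ℝ≥0∞ :=
  ∫⁻ z, ENNReal.ofReal (f₀ z) * φ z

/-- The excess over the mean. -/
def exc (f₀ : PhasePoint → ℝ) (ε : ℝ) (φ : PhasePoint → ℝ≥0∞) (n : ℕ) (Z : Config n) : ℝ≥0∞ :=
  Y ε φ n Z - mean f₀ φ

theorem measurable_Y {φ : PhasePoint → ℝ≥0∞} (hφ : Measurable φ) (n : ℕ) :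
    Measurable (Y ε φ n) :=
  (Finset.measurable_sum _ fun j _ => hφ.comp (measurable_pi_apply j)).const_mul _

theorem measurable_exc {φ : PhasePoint → ℝ≥0∞} (hφ : Measurable φ) (n : ℕ) :
    Measurable (exc f₀ ε φ n) := (measurable_Y hφ n).sub measurable_const

theorem Y_le (φ : PhasePoint → ℝ≥0∞) (n : ℕ) (Z : Config n) :
    Y ε φ n Z ≤ mean f₀ φ + exc f₀ ε φ n Z := le_add_tsub

/-- Lower bound of the first moment. -/
theorem le_gcE_add (hf : Measurable f₀) (h1 : ∫⁻ z, ENNReal.ofReal (f₀ z) ≤ 1) {R : ℝ≥0∞}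
    (hR : ∀ x : Space3, ∫⁻ v : Space3, ENNReal.ofReal (f₀ (x, v)) ≤ R) (hε : 0 < ε)
    {φ : PhasePoint → ℝ≥0∞} (hφ : Measurable φ) :
    mean f₀ φ ≤ gcE f₀ ε (Y ε φ) + R * ENNReal.ofReal (4 / 3 * Real.pi * ε) * mean f₀ φ := by
  have ha0 := activity_ne_zero hε
  have hat := activity_ne_top ε
  -- Mecke
  have hinv : RelabelInv (k := 1) ε (fun (n : ℕ) (ι : Fin 1 ↪ Fin n) (Z : Config n) =>
      φ (Z (ι 0))) := by
    intro n σ ι Z _
    rfl
  have hM := mecke hf hinv (fun n ι => hφ.comp (measurable_pi_apply _))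
  have e : (fun (n : ℕ) (Z : Config n) => ∑ ι : Fin 1 ↪ Fin n, φ (Z (ι 0))) =
      fun (n : ℕ) (Z : Config n) => ∑ j : Fin n, φ (Z j) := by
    funext n Z
    exact Fintype.sum_equiv (Equiv.uniqueEmbeddingEquivResult) _ _ (fun ι => rfl)
  rw [e, pow_one] at hM
  have hin : ∀ V : Config 1, gcE f₀ ε (fun m w => perpInd ε V w *
      φ ((Fin.append V w : Config (1 + m)) (Fin.castAddEmb m 0))) =
      gcE f₀ ε (fun m w => perpInd ε V w * φ (V 0)) := by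
    intro V
    refine gcE_congr f₀ ε fun m w _ => ?_
    have : (Fin.append V w : Config (1 + m)) (Fin.castAddEmb m 0) = V 0 := by simp
    rw [this]
  have hone : ∀ V : Config 1, 1 ≤ gcE f₀ ε (fun m w => perpInd ε V w) +
      R * ENNReal.ofReal (4 / 3 * Real.pi * ε) := by
    intro V
    have h2 := gcE_le_perp_add (F := fun _ _ => (1 : ℝ≥0∞)) hf h1 ε V (fun n => measurable_const) 1
      ENNReal.one_ne_top (fun n Z _ => le_rfl)
    rw [gcE_one f₀ ε hf h1] at h2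
    refine h2.trans (add_le_add (le_of_eq ?_) ?_)
    · congr 1
      funext m w
      rw [mul_one]
    · rw [one_mul, Fin.sum_univ_one]
      exact activity_mul_ballMass_le hf hR hε _
  -- the weight of one particle
  have hw1 : ∀ V : Config 1, gcWeight f₀ ε 1 V = ENNReal.ofReal (f₀ (V 0)) := by
    intro V
    have hV : V ∈ PairExcluded ε 1 := by
      intro i j hij
      exact absurd (Subsingleton.elim i j) hij
    unfold gcWeight
    rw [Set.indicator_of_mem hV]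
    simp
  have h3 := (volume_preserving_funUnique (Fin 1) PhasePoint).lintegral_comp
    (f := fun z => ENNReal.ofReal (f₀ z) * φ z) ((hf.ennreal_ofReal).mul hφ)
  have hmean : mean f₀ φ = ∫⁻ V : Config 1, gcWeight f₀ ε 1 V * φ (V 0) := by
    unfold mean
    rw [← h3]
    refine lintegral_congr fun V => ?_
    rw [hw1]
    rfl
  have hEY : gcE f₀ ε (Y ε φ) = ∫⁻ V : Config 1, gcWeight f₀ ε 1 V *
      gcE f₀ ε (fun m w => perpInd ε V w * φ (V 0)) := by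
    unfold Y
    rw [gcE_const_mul f₀ ε (ENNReal.inv_ne_top.2 ha0), hM, ← mul_assoc,
      ENNReal.inv_mul_cancel ha0 hat, one_mul]
    exact lintegral_congr fun V => by rw [hin V]
  have hmw : Measurable fun V : Config 1 => gcWeight f₀ ε 1 V * φ (V 0) :=
    (measurable_gcWeight hf ε 1).mul (hφ.comp (measurable_pi_apply 0))
  rw [hEY]
  calc mean f₀ φ = ∫⁻ V : Config 1, gcWeight f₀ ε 1 V * φ (V 0) := hmean
    _ ≤ ∫⁻ V : Config 1, (gcWeight f₀ ε 1 V * gcE f₀ ε (fun m w => perpInd ε V w * φ (V 0)) +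
          R * ENNReal.ofReal (4 / 3 * Real.pi * ε) * (gcWeight f₀ ε 1 V * φ (V 0))) := by
        refine lintegral_mono fun V => ?_
        have h4 : φ (V 0) ≤ gcE f₀ ε (fun m w => perpInd ε V w * φ (V 0)) +
            R * ENNReal.ofReal (4 / 3 * Real.pi * ε) * φ (V 0) := by
          by_cases hφt : φ (V 0) = ∞
          · -- infinite value
            have hne : gcE f₀ ε (fun m w => perpInd ε V w * φ (V 0)) +
                R * ENNReal.ofReal (4 / 3 * Real.pi * ε) * φ (V 0) = ∞ := by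
              rw [hφt]
              by_cases hz : R * ENNReal.ofReal (4 / 3 * Real.pi * ε) = 0
              · have h5 := hone V
                rw [hz, add_zero] at h5
                have h6 : (∞ : ℝ≥0∞) ≤ gcE f₀ ε (fun m w => perpInd ε V w * ∞) := by
                  refine ENNReal.le_of_forall_nnreal_lt fun r _ => ?_
                  calc (r : ℝ≥0∞) ≤ (r : ℝ≥0∞) * gcE f₀ ε (fun m w => perpInd ε V w) := by
                        calc (r : ℝ≥0∞) = (r : ℝ≥0∞) * 1 := (mul_one _).symm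
                          _ ≤ _ := mul_le_mul_right h5 _
                    _ = gcE f₀ ε (fun m w => (r : ℝ≥0∞) * perpInd ε V w) :=
                        (gcE_const_mul f₀ ε ENNReal.coe_ne_top _).symm
                    _ ≤ _ := gcE_mono f₀ ε fun m w _ => by
                        rw [mul_comm]
                        exact mul_le_mul_right le_top _
                rw [top_le_iff.1 h6, top_add]
              · rw [ENNReal.mul_top hz, add_top]
            rw [hne]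
            exact le_top
          · have h5 : gcE f₀ ε (fun m w => perpInd ε V w * φ (V 0)) =
                φ (V 0) * gcE f₀ ε (fun m w => perpInd ε V w) := by
              rw [← gcE_const_mul f₀ ε hφt]
              congr 1
              funext m w
              rw [mul_comm]
            rw [h5]
            calc φ (V 0) = φ (V 0) * 1 := (mul_one _).symm
              _ ≤ φ (V 0) * (gcE f₀ ε (fun m w => perpInd ε V w) +
                  R * ENNReal.ofReal (4 / 3 * Real.pi * ε)) := mul_le_mul_right (hone V) _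
              _ = _ := by rw [mul_add]; ring
        calc gcWeight f₀ ε 1 V * φ (V 0) ≤ gcWeight f₀ ε 1 V *
              (gcE f₀ ε (fun m w => perpInd ε V w * φ (V 0)) +
                R * ENNReal.ofReal (4 / 3 * Real.pi * ε) * φ (V 0)) := mul_le_mul_right h4 _
          _ = _ := by ring
    _ = (∫⁻ V : Config 1, gcWeight f₀ ε 1 V * gcE f₀ ε (fun m w => perpInd ε V w * φ (V 0))) +
          ∫⁻ V : Config 1, R * ENNReal.ofReal (4 / 3 * Real.pi * ε) *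
            (gcWeight f₀ ε 1 V * φ (V 0)) := lintegral_add_right _ (hmw.const_mul _)
    _ = _ := by
        rw [lintegral_const_mul _ hmw, ← hmean]

/-- Exclusion correction. -/
def dl (R : ℝ≥0∞) (ε : ℝ) : ℝ≥0∞ := R * ENNReal.ofReal (4 / 3 * Real.pi * ε)

/-- pointwise algebra -/
theorem sq_exc_add_le (a c : ℝ≥0∞) : (a - c) ^ 2 + 2 * c * a ≤ a ^ 2 + c ^ 2 := by
  rcases eq_or_ne a ∞ with rfl | ha
  · have : (∞ : ℝ≥0∞) ^ 2 = ∞ := by norm_num
    rw [this, top_add]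
    exact le_top
  rcases eq_or_ne c ∞ with rfl | hc
  · have : (∞ : ℝ≥0∞) ^ 2 = ∞ := by norm_num
    rw [this, add_top]
    exact le_top
  lift a to NNReal using ha
  lift c to NNReal using hc
  rw [← ENNReal.coe_sub]
  norm_cast
  rcases le_total a c with h | h
  · rw [tsub_eq_zero_of_le h]
    rw [← NNReal.coe_le_coe]
    push_cast
    nlinarith [sq_nonneg ((a : ℝ) - c)]
  · rw [← NNReal.coe_le_coe]
    push_cast [NNReal.coe_sub h]
    nlinarith [sq_nonneg ((a : ℝ) - c)]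

/-- **Second moment of the excess.** -/
theorem gcE_exc_sq_le (hf : Measurable f₀) (h1 : ∫⁻ z, ENNReal.ofReal (f₀ z) ≤ 1) {R : ℝ≥0∞}
    (hR : ∀ x : Space3, ∫⁻ v : Space3, ENNReal.ofReal (f₀ (x, v)) ≤ R) (hε : 0 < ε)
    {φ : PhasePoint → ℝ≥0∞} (hφ : Measurable φ) (hc : mean f₀ φ ≠ ∞) :
    gcE f₀ ε (fun n Z => exc f₀ ε φ n Z ^ 2) ≤
      (activity ε)⁻¹ * (∫⁻ z, ENNReal.ofReal (f₀ z) * φ z ^ 2) +
        2 * dl R ε * mean f₀ φ ^ 2 := by
  set c := mean f₀ φ with hcdef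
  set m2 := ∫⁻ z, ENNReal.ofReal (f₀ z) * φ z ^ 2 with hm2
  have hYm := fun n => measurable_Y (ε := ε) hφ n
  have hEm := fun n => measurable_exc (f₀ := f₀) (ε := ε) hφ n
  -- E exc² + 2 c E Y ≤ E Y² + c²
  have h2 : gcE f₀ ε (fun n Z => exc f₀ ε φ n Z ^ 2) + 2 * c * gcE f₀ ε (Y ε φ) ≤
      gcE f₀ ε (fun n Z => Y ε φ n Z ^ 2) + c ^ 2 := by
    rw [← gcE_const_mul f₀ ε (ENNReal.mul_ne_top (by simp) hc),
      ← gcE_add hf ε (fun n => (hEm n).pow_const 2)]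
    have h3 : gcE f₀ ε (fun n Z => Y ε φ n Z ^ 2) + c ^ 2 =
        gcE f₀ ε (fun n Z => Y ε φ n Z ^ 2 + c ^ 2) := by
      rw [gcE_add hf ε (fun n => (hYm n).pow_const 2), gcE_const f₀ ε hf h1 (ENNReal.pow_ne_top hc)]
    rw [h3]
    exact gcE_mono f₀ ε fun n Z _ => sq_exc_add_le _ _
  have h4 : gcE f₀ ε (fun n Z => Y ε φ n Z ^ 2) ≤ c ^ 2 + (activity ε)⁻¹ * m2 :=
    Mom974.gcE_sq_le hf h1 hε φ hφ
  have h5 : c ≤ gcE f₀ ε (Y ε φ) + dl R ε * c := le_gcE_add hf h1 hR hε hφ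
  have h6 : gcE f₀ ε (fun n Z => exc f₀ ε φ n Z ^ 2) + 2 * c ^ 2 ≤
      ((activity ε)⁻¹ * m2 + 2 * dl R ε * c ^ 2) + 2 * c ^ 2 := by
    calc gcE f₀ ε (fun n Z => exc f₀ ε φ n Z ^ 2) + 2 * c ^ 2
        = gcE f₀ ε (fun n Z => exc f₀ ε φ n Z ^ 2) + 2 * c * c := by ring
      _ ≤ gcE f₀ ε (fun n Z => exc f₀ ε φ n Z ^ 2) +
            2 * c * (gcE f₀ ε (Y ε φ) + dl R ε * c) :=
          add_le_add le_rfl (mul_le_mul_right h5 _)
      _ = (gcE f₀ ε (fun n Z => exc f₀ ε φ n Z ^ 2) + 2 * c * gcE f₀ ε (Y ε φ)) +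
            2 * dl R ε * c ^ 2 := by ring
      _ ≤ (gcE f₀ ε (fun n Z => Y ε φ n Z ^ 2) + c ^ 2) + 2 * dl R ε * c ^ 2 :=
          add_le_add h2 le_rfl
      _ ≤ ((c ^ 2 + (activity ε)⁻¹ * m2) + c ^ 2) + 2 * dl R ε * c ^ 2 := by gcongr
      _ = _ := by ring
  have hne : 2 * c ^ 2 ≠ ∞ := ENNReal.mul_ne_top (by simp) (ENNReal.pow_ne_top hc)
  exact (ENNReal.add_le_add_iff_right hne).1 h6

/-- `x ≤ η + x² / η` -/
theorem le_add_sq_div (x : ℝ≥0∞) {η : ℝ≥0∞} (h0 : η ≠ 0) (ht : η ≠ ∞) : x ≤ η + η⁻¹ * x ^ 2 := by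
  rcases le_total x η with h | h
  · exact h.trans le_self_add
  · refine le_trans ?_ le_add_self
    calc x = η⁻¹ * (η * x) := by rw [← mul_assoc, ENNReal.inv_mul_cancel h0 ht, one_mul]
      _ ≤ η⁻¹ * (x * x) := mul_le_mul_right (mul_le_mul_left h x) _
      _ = _ := by rw [sq]

/-- The constant of `gcE_exc_le`. -/
def cE (f₀ : PhasePoint → ℝ) (R : ℝ≥0∞) (φ : PhasePoint → ℝ≥0∞) : ℝ≥0∞ :=
  1 + (∫⁻ z, ENNReal.ofReal (f₀ z) * φ z ^ 2) + 2 * (R * ENNReal.ofReal (4 / 3 * Real.pi)) *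
    mean f₀ φ ^ 2

theorem cE_ne_top {R : ℝ≥0∞} (hR : R ≠ ∞) {φ : PhasePoint → ℝ≥0∞} (hc : mean f₀ φ ≠ ∞)
    (h2 : ∫⁻ z, ENNReal.ofReal (f₀ z) * φ z ^ 2 ≠ ∞) : cE f₀ R φ ≠ ∞ := by
  unfold cE
  refine ENNReal.add_ne_top.2 ⟨ENNReal.add_ne_top.2 ⟨ENNReal.one_ne_top, h2⟩, ?_⟩
  exact ENNReal.mul_ne_top (ENNReal.mul_ne_top (by simp)
    (ENNReal.mul_ne_top hR ENNReal.ofReal_ne_top)) (ENNReal.pow_ne_top hc)

/-- **Concentration.** -/
theorem gcE_exc_le (hf : Measurable f₀) (h1 : ∫⁻ z, ENNReal.ofReal (f₀ z) ≤ 1) {R : ℝ≥0∞}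
    (hR : ∀ x : Space3, ∫⁻ v : Space3, ENNReal.ofReal (f₀ (x, v)) ≤ R) (hε : 0 < ε) (hε1 : ε ≤ 1)
    {φ : PhasePoint → ℝ≥0∞} (hφ : Measurable φ) (hc : mean f₀ φ ≠ ∞) :
    gcE f₀ ε (exc f₀ ε φ) ≤ ENNReal.ofReal (Real.sqrt ε) * cE f₀ R φ := by
  have hs : 0 < Real.sqrt ε := Real.sqrt_pos.2 hε
  set η := ENNReal.ofReal (Real.sqrt ε) with hη
  have hη0 : η ≠ 0 := by rw [hη]; simpa using hs
  have hηt : η ≠ ∞ := ENNReal.ofReal_ne_top
  have hEm := fun n => measurable_exc (f₀ := f₀) (ε := ε) hφ n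
  have hη2 : η * η = ENNReal.ofReal ε := by
    rw [hη, ← ENNReal.ofReal_mul hs.le, Real.mul_self_sqrt hε.le]
  have h2 : gcE f₀ ε (exc f₀ ε φ) ≤ η + η⁻¹ * gcE f₀ ε (fun n Z => exc f₀ ε φ n Z ^ 2) := by
    calc gcE f₀ ε (exc f₀ ε φ)
        ≤ gcE f₀ ε (fun n Z => η + η⁻¹ * exc f₀ ε φ n Z ^ 2) :=
          gcE_mono f₀ ε fun n Z _ => le_add_sq_div _ hη0 hηt
      _ = η + η⁻¹ * gcE f₀ ε (fun n Z => exc f₀ ε φ n Z ^ 2) := by
          rw [gcE_add hf ε (fun n => measurable_const), gcE_const f₀ ε hf h1 hηt,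
            gcE_const_mul f₀ ε (ENNReal.inv_ne_top.2 hη0)]
  have hact : (activity ε)⁻¹ = ENNReal.ofReal ε * ENNReal.ofReal ε := by
    unfold activity
    rw [← ENNReal.ofReal_mul hε.le, ← ENNReal.ofReal_inv_of_pos (by positivity), inv_inv, sq]
  have h3 := gcE_exc_sq_le hf h1 hR hε hφ hc
  set m2 := ∫⁻ z, ENNReal.ofReal (f₀ z) * φ z ^ 2 with hm2
  have hdl : dl R ε = (R * ENNReal.ofReal (4 / 3 * Real.pi)) * (η * η) := by
    unfold dl
    rw [ENNReal.ofReal_mul (by positivity), hη2]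
    ring
  have hinv : η⁻¹ * η = 1 := ENNReal.inv_mul_cancel hη0 hηt
  have hε1' : ENNReal.ofReal ε ≤ 1 := by
    rw [← ENNReal.ofReal_one]; exact ENNReal.ofReal_le_ofReal hε1
  calc gcE f₀ ε (exc f₀ ε φ) ≤ η + η⁻¹ * ((activity ε)⁻¹ * m2 + 2 * dl R ε * mean f₀ φ ^ 2) :=
        h2.trans (add_le_add le_rfl (mul_le_mul_right h3 _))
    _ = η + ((η⁻¹ * η) * (ENNReal.ofReal ε * (η * m2)) +
          (η⁻¹ * η) * (η * (2 * (R * ENNReal.ofReal (4 / 3 * Real.pi)) * mean f₀ φ ^ 2))) := by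
        rw [hact, hdl, ← hη2]
        ring
    _ = η + (ENNReal.ofReal ε * (η * m2) +
          η * (2 * (R * ENNReal.ofReal (4 / 3 * Real.pi)) * mean f₀ φ ^ 2)) := by
        rw [hinv, one_mul, one_mul]
    _ ≤ η + (1 * (η * m2) +
          η * (2 * (R * ENNReal.ofReal (4 / 3 * Real.pi)) * mean f₀ φ ^ 2)) := by gcongr
    _ = _ := by unfold cE; rw [← hm2]; ring

theorem tendsto_gcE_exc (hf : Measurable f₀) (h1 : ∫⁻ z, ENNReal.ofReal (f₀ z) ≤ 1) {R : ℝ≥0∞}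
    (hRt : R ≠ ∞) (hR : ∀ x : Space3, ∫⁻ v : Space3, ENNReal.ofReal (f₀ (x, v)) ≤ R)
    {φ : PhasePoint → ℝ≥0∞} (hφ : Measurable φ) (hc : mean f₀ φ ≠ ∞)
    (h2 : ∫⁻ z, ENNReal.ofReal (f₀ z) * φ z ^ 2 ≠ ∞) :
    Tendsto (fun ε => gcE f₀ ε (exc f₀ ε φ)) (𝓝[>] 0) (𝓝 0) := by
  have hlim : Tendsto (fun ε : ℝ => ENNReal.ofReal (Real.sqrt ε) * cE f₀ R φ) (𝓝[>] 0) (𝓝 0) := by
    have h3 : Tendsto (fun ε : ℝ => ENNReal.ofReal (Real.sqrt ε)) (𝓝[>] 0) (𝓝 0) := by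
      have h4 : Tendsto (fun ε : ℝ => Real.sqrt ε) (𝓝[>] 0) (𝓝 0) := by
        have := (Real.continuous_sqrt.tendsto 0)
        rw [Real.sqrt_zero] at this
        exact this.mono_left nhdsWithin_le_nhds
      have := (ENNReal.continuous_ofReal.tendsto 0).comp h4
      rwa [ENNReal.ofReal_zero] at this
    have := ENNReal.Tendsto.mul_const h3 (Or.inr (cE_ne_top hRt hc h2))
    rwa [zero_mul] at this
  refine tendsto_of_tendsto_of_tendsto_of_le_of_le' tendsto_const_nhds hlim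
    (Eventually.of_forall fun _ => zero_le) ?_
  have h5 : ∀ᶠ ε : ℝ in 𝓝[>] 0, ε ≤ 1 :=
    mem_nhdsWithin_of_mem_nhds (Iic_mem_nhds one_pos)
  filter_upwards [self_mem_nhdsWithin, h5] with ε h6 h7
  exact gcE_exc_le hf h1 hR h6 h7 hφ hc

/-- Multiplication of a functional `F ≤ B` by `Y`. -/
theorem gcE_mul_le (hf : Measurable f₀) {φ : PhasePoint → ℝ≥0∞} (hφ : Measurable φ)
    (hc : mean f₀ φ ≠ ∞) {F : (n : ℕ) → Config n → ℝ≥0∞} {B : ℝ≥0∞} (hB : B ≠ ∞)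
    (hF : ∀ n, ∀ Z ∈ PairExcluded ε n, F n Z ≤ B) :
    gcE f₀ ε (fun n Z => Y ε φ n Z * F n Z) ≤ mean f₀ φ * gcE f₀ ε F +
      B * gcE f₀ ε (exc f₀ ε φ) := by
  have hEm := fun n => measurable_exc (f₀ := f₀) (ε := ε) hφ n
  calc gcE f₀ ε (fun n Z => Y ε φ n Z * F n Z)
      ≤ gcE f₀ ε (fun n Z => B * exc f₀ ε φ n Z + mean f₀ φ * F n Z) := by
        refine gcE_mono f₀ ε fun n Z hZ => ?_
        calc Y ε φ n Z * F n Z ≤ (mean f₀ φ + exc f₀ ε φ n Z) * F n Z :=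
              mul_le_mul_left (Y_le φ n Z) _
          _ = exc f₀ ε φ n Z * F n Z + mean f₀ φ * F n Z := by ring
          _ ≤ exc f₀ ε φ n Z * B + mean f₀ φ * F n Z :=
              add_le_add (mul_le_mul_right (hF n Z hZ) _) le_rfl
          _ = _ := by rw [mul_comm (exc f₀ ε φ n Z)]
    _ = gcE f₀ ε (fun n Z => B * exc f₀ ε φ n Z) + gcE f₀ ε (fun n Z => mean f₀ φ * F n Z) :=
        gcE_add hf ε fun n => (hEm n).const_mul _
    _ = _ := by
        rw [gcE_const_mul f₀ ε hB, gcE_const_mul f₀ ε hc, add_comm]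

/-! ### Energy at time `t` -/

/-- The weight `1 + |v|²`. -/
def en (z : PhasePoint) : ℝ≥0∞ := ENNReal.ofReal (1 + ‖z.2‖ ^ 2)

theorem measurable_en : Measurable en := by unfold en; fun_prop

theorem mean_en_ne_top {γ : ℝ} (hγ : 0 < γ)
    (hb : HasSummableGaussianBound γ (fun x v => f₀ (x, v))) :
    mean f₀ en ≠ ∞ ∧ ∫⁻ z, ENNReal.ofReal (f₀ z) * en z ^ 2 ≠ ∞ :=
  Mom974.lintegral_f0_weight_ne_top hγ hb



end

end Crest.Agent.R122.Conc984
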