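import Crest.Agent.R122.VolFub_365
import Crest.Agent.R122.LocFlow_45
import Crest.Agent.R122.HitG4_167

-- ▼ part R122/Graze_968
section

/-!
# Row 122 (helper968): grazing contacts are negligible

For every finite family and almost every initial configuration, the isolated Newton flow has no
grazing contact at any time: whenever two particles are at distance exactly `ε`, the derivative of
their distance is nonzero.
-/

set_option autoImplicit false

open MeasureTheory Set Filter Topology
open Crest.AnalysisR.Kinetic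
open scoped ENNReal Classical NNReal

noncomputable section

namespace Crest.Agent.R122.Graze968

open Flow671 Loc45 Vol365

variable {Φ : Space3 → ℝ} {ε : ℝ} {ι : Type} [Fintype ι]

/-! ### Shells -/

theorem shell_subset (c : Space3) (r η : ℝ) :
    {x : Space3 | r - η ≤ ‖x - c‖ ∧ ‖x - c‖ ≤ r + η} ⊆
      Metric.closedBall c (r + η) \ Metric.ball c (r - η) := by
  rintro x ⟨h1, h2⟩
  refine ⟨?_, ?_⟩
  · rw [Metric.mem_closedBall, dist_eq_norm]
    exact h2
  · rw [Metric.mem_ball, dist_eq_norm, not_lt]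
    exact h1

theorem volume_shell (c : Space3) {r η : ℝ} (hη : 0 ≤ η) (hηr : η ≤ r) :
    volume {x : Space3 | r - η ≤ ‖x - c‖ ∧ ‖x - c‖ ≤ r + η} ≤
      ENNReal.ofReal (8 * r ^ 2 * η) * kap := by
  have hr : 0 ≤ r := hη.trans hηr
  refine (measure_mono (shell_subset c r η)).trans ?_
  have hb1 : volume (Metric.closedBall c (r + η)) = ENNReal.ofReal ((r + η) ^ 3) * kap := by
    rw [Vol365.vol_closedBall _ (by linarith), ENNReal.ofReal_pow (by linarith)]
  have hb2 : volume (Metric.ball c (r - η)) = ENNReal.ofReal ((r - η) ^ 3) * kap := by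
    rw [Measure.addHaar_ball _ _ (by linarith)]
    simp only [finrank_euclideanSpace, Fintype.card_fin]
    rfl
  rw [measure_sdiff (Metric.ball_subset_closedBall.trans
    (Metric.closedBall_subset_closedBall (by linarith))) measurableSet_ball.nullMeasurableSet
    measure_ball_lt_top.ne, hb1, hb2, ← ENNReal.sub_mul (fun _ _ => kap_ne_top),
    ← ENNReal.ofReal_sub _ (by
    have : 0 ≤ r - η := by linarith
    positivity)]
  refine mul_le_mul_left ?_ _
  refine ENNReal.ofReal_le_ofReal ?_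
  nlinarith [mul_nonneg hη (mul_nonneg (sub_nonneg.2 hηr) (add_nonneg hr hη)), mul_nonneg hη hr]




/-! ### Deterministic estimates -/









end Crest.Agent.R122.Graze968

end
end

-- ▼ part R122/HitNull_167

/-!
# Simultaneous hits are null (row 122, helper167)
-/

set_option autoImplicit false

open Set Filter Topology MeasureTheory
open scoped Classical ENNReal NNReal
open Crest.AnalysisR.Kinetic

namespace Crest.Agent.R122.Hit167

open Causal291 Flow671 Loc45 GC311 Vol365

/-! ### Two shells -/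

/-- Configurations with two different particles in two shells, in a box. -/
def twoShell (n : ℕ) (i i' : Fin n) (p p' : Space3) (r δ R : ℝ) : Set (Config n) :=
  {W | |dist p (W i).1 - r| ≤ δ ∧ |dist p' (W i').1 - r| ≤ δ ∧
    ∀ l, ‖(W l).1‖ ≤ R ∧ ‖(W l).2‖ ≤ R}

/-- volume of a large ball, at least `1` -/
noncomputable def bigBall (R : ℝ) : ℝ≥0∞ := max 1 (volume (Metric.closedBall (0 : Space3) R))

theorem bigBall_ne_top (R : ℝ) : bigBall R ≠ ∞ :=
  (max_lt ENNReal.one_lt_top measure_closedBall_lt_top).ne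

theorem one_le_bigBall (R : ℝ) : 1 ≤ bigBall R := le_max_left _ _

theorem volume_twoShell {n : ℕ} {i i' : Fin n} (hi : i ≠ i') (p p' : Space3) {r δ : ℝ} (R : ℝ)
    (hδ : 0 ≤ δ) (hδr : δ ≤ r) :
    volume (twoShell n i i' p p' r δ R) ≤
      (ENNReal.ofReal (8 * r ^ 2 * δ) * kap) ^ 2 * (bigBall R * bigBall R) ^ (n + 1) := by
  set sh : ℝ≥0∞ := ENNReal.ofReal (8 * r ^ 2 * δ) * kap with hsh
  set S : Fin n → Set PhasePoint := fun l =>
    (if l = i then {x : Space3 | r - δ ≤ ‖x - p‖ ∧ ‖x - p‖ ≤ r + δ} else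
      if l = i' then {x : Space3 | r - δ ≤ ‖x - p'‖ ∧ ‖x - p'‖ ≤ r + δ} else
        Metric.closedBall (0 : Space3) R) ×ˢ Metric.closedBall (0 : Space3) R with hS
  have hsub : twoShell n i i' p p' r δ R ⊆ Set.pi univ S := by
    rintro W ⟨h1, h2, h3⟩ l _
    rw [abs_le] at h1 h2
    refine ⟨?_, by simpa [mem_closedBall_zero_iff] using (h3 l).2⟩
    by_cases hl : l = i
    · simp only [hl, if_true]
      rw [dist_comm, dist_eq_norm] at h1
      exact ⟨by linarith [h1.1], by linarith [h1.2]⟩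
    · by_cases hl' : l = i'
      · simp only [hl', if_true, if_neg hi.symm]
        rw [dist_comm, dist_eq_norm] at h2
        exact ⟨by linarith [h2.1], by linarith [h2.2]⟩
      · simp only [hl, hl', if_false]
        simpa [mem_closedBall_zero_iff] using (h3 l).1
  have hvol : ∀ l, volume (S l) = volume (if l = i then
      {x : Space3 | r - δ ≤ ‖x - p‖ ∧ ‖x - p‖ ≤ r + δ} else
      if l = i' then {x : Space3 | r - δ ≤ ‖x - p'‖ ∧ ‖x - p'‖ ≤ r + δ} else
        Metric.closedBall (0 : Space3) R) * volume (Metric.closedBall (0 : Space3) R) := by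
    intro l
    exact Measure.prod_prod _ _
  have hbig : volume (Metric.closedBall (0 : Space3) R) ≤ bigBall R := le_max_right _ _
  have hi1 : volume (S i) ≤ sh * bigBall R := by
    rw [hvol, if_pos rfl]
    exact mul_le_mul' (Graze968.volume_shell p hδ hδr) hbig
  have hi2 : volume (S i') ≤ sh * bigBall R := by
    rw [hvol, if_neg hi.symm, if_pos rfl]
    exact mul_le_mul' (Graze968.volume_shell p' hδ hδr) hbig
  have hi3 : ∀ l, l ≠ i → l ≠ i' → volume (S l) ≤ bigBall R * bigBall R := by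
    intro l h1 h2
    rw [hvol, if_neg h1, if_neg h2]
    exact mul_le_mul' hbig hbig
  have h1 : 1 ≤ bigBall R * bigBall R := one_le_mul (one_le_bigBall R) (one_le_bigBall R)
  calc volume (twoShell n i i' p p' r δ R) ≤ volume (Set.pi univ S) := measure_mono hsub
    _ = ∏ l, volume (S l) := volume_pi_pi _
    _ = volume (S i) * (volume (S i') * ∏ l ∈ (Finset.univ.erase i).erase i', volume (S l)) := by
        rw [Finset.mul_prod_erase (Finset.univ.erase i) (fun l => volume (S l))
          (Finset.mem_erase.2 ⟨hi.symm, Finset.mem_univ _⟩),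
          Finset.mul_prod_erase Finset.univ (fun l => volume (S l)) (Finset.mem_univ i)]
    _ ≤ (sh * bigBall R) * ((sh * bigBall R) * (bigBall R * bigBall R) ^ n) := by
        refine mul_le_mul' hi1 (mul_le_mul' hi2 ?_)
        calc ∏ l ∈ (Finset.univ.erase i).erase i', volume (S l)
            ≤ ∏ _l ∈ (Finset.univ.erase i).erase i', (bigBall R * bigBall R) := by
              refine Finset.prod_le_prod' fun l hl => ?_
              rw [Finset.mem_erase, Finset.mem_erase] at hl
              exact hi3 l hl.2.1 hl.1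
          _ = (bigBall R * bigBall R) ^ ((Finset.univ.erase i).erase i').card := by
              rw [Finset.prod_const]
          _ ≤ (bigBall R * bigBall R) ^ n := by
              refine pow_le_pow_right₀ h1 ?_
              exact (Finset.card_le_card ((Finset.erase_subset _ _).trans
                (Finset.erase_subset _ _))).trans (by simp)
    _ = sh ^ 2 * (bigBall R * bigBall R) ^ (n + 1) := by ring

/-! ### The event -/

/-- Box of initial data. -/
def box (ε : ℝ) (n : ℕ) (R : ℝ) : Set (Config n) :=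
  {Z | Z ∈ PairExcluded ε n ∧ ∀ l, ‖(Z l).1‖ ≤ R ∧ ‖(Z l).2‖ ≤ R}

theorem energy_box_le {Φ : Space3 → ℝ} (hΦ : AdmissiblePotential Φ) {ε : ℝ} (hε : 0 < ε) {n : ℕ}
    {R : ℝ} (hR : 0 ≤ R) {Z : Config n} (hZ : Z ∈ box ε n R) :
    energy Φ ε Z ≤ n * R ^ 2 := by
  rw [energy_pairExcluded hΦ hε hZ.1]
  unfold kin
  have h1 : ∑ i, ‖(Z i).2‖ ^ 2 ≤ ∑ _i : Fin n, R ^ 2 := by
    refine Finset.sum_le_sum fun i _ => ?_
    exact pow_le_pow_left₀ (norm_nonneg _) (hZ.2 i).2 2
  rw [Finset.sum_const, Finset.card_univ, Fintype.card_fin, nsmul_eq_mul] at h1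
  have h2 : 0 ≤ (n : ℝ) * R ^ 2 := by positivity
  linarith

/-- Speed bound on the box. -/
noncomputable def spd (Φ : Space3 → ℝ) (n : ℕ) (R : ℝ) : ℝ :=
  Real.sqrt (2 * (n * R ^ 2 + stabB Φ * n))

theorem spd_nonneg (Φ : Space3 → ℝ) (n : ℕ) (R : ℝ) : 0 ≤ spd Φ n R := Real.sqrt_nonneg _

theorem sqrt_energy_le {Φ : Space3 → ℝ} (hΦ : AdmissiblePotential Φ) {ε : ℝ} (hε : 0 < ε) {n : ℕ}
    {R : ℝ} (hR : 0 ≤ R) {Z : Config n} (hZ : Z ∈ box ε n R) :
    Real.sqrt (2 * (energy Φ ε Z + stabB Φ * Fintype.card (Fin n))) ≤ spd Φ n R := by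
  refine Real.sqrt_le_sqrt ?_
  rw [Fintype.card_fin]
  linarith [energy_box_le hΦ hε hR hZ]

section main

variable {Φ : Space3 → ℝ} {ε : ℝ}

/-- The set of data in the box for which two different particles are at distance exactly `r` from
two Lipschitz curves at the same time. -/
theorem volume_two_touch (hΦ : AdmissiblePotential Φ) (hε : 0 < ε) {n : ℕ} {i i' : Fin n}
    (hi : i ≠ i') {p p' : ℝ → Space3} {M : ℝ≥0} {T : ℝ}
    (hp : LipschitzOnWith M p (Icc 0 T)) (hp' : LipschitzOnWith M p' (Icc 0 T)) {r : ℝ}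
    (hr : 0 < r) {R : ℝ} (hR : 0 ≤ R) :
    volume {Z : Config n | Z ∈ box ε n R ∧ ∃ s ∈ Icc 0 T, dist (p s) (pth Φ ε Z s i).1 = r ∧
      dist (p' s) (pth Φ ε Z s i').1 = r} = 0 := by
  rcases lt_or_ge T 0 with hT | hT
  · rw [Icc_eq_empty (not_le.2 hT)]
    simp
  set V := spd Φ n R with hV
  have hV0 : 0 ≤ V := spd_nonneg _ _ _
  set L : ℝ := (M + V) * (T + 1) with hL
  have hL0 : 0 ≤ L := by positivity
  set R' : ℝ := R + V * (T + 1) + V with hR'
  set D : ℝ≥0∞ := (bigBall R' * bigBall R') ^ (n + 1) with hD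
  have hDt : D ≠ ∞ := ENNReal.pow_ne_top (ENNReal.mul_ne_top (bigBall_ne_top _) (bigBall_ne_top _))
  -- covering estimate
  have key : ∀ N : ℕ, L ≤ r * (N + 1) →
      volume {Z : Config n | Z ∈ box ε n R ∧ ∃ s ∈ Icc 0 T, dist (p s) (pth Φ ε Z s i).1 = r ∧
        dist (p' s) (pth Φ ε Z s i').1 = r} ≤
      ENNReal.ofReal ((8 * r ^ 2 * L) ^ 2 * (1 / (N + 1))) * (kap ^ 2 * D) := by
    intro N hN
    have hN0 : (0 : ℝ) < N + 1 := by positivity
    set h : ℝ := (T + 1) / (N + 1) with hh
    have hh0 : 0 < h := by positivity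
    set δ : ℝ := L / (N + 1) with hδ
    have hδ0 : 0 ≤ δ := by positivity
    have hδr : δ ≤ r := by
      rw [hδ, div_le_iff₀ hN0]
      exact hN
    have hδe : (M + V) * h = δ := by
      rw [hδ, hL, hh]; ring
    have hsub : {Z : Config n | Z ∈ box ε n R ∧ ∃ s ∈ Icc 0 T,
          dist (p s) (pth Φ ε Z s i).1 = r ∧ dist (p' s) (pth Φ ε Z s i').1 = r} ⊆
        ⋃ k : Fin (N + 1), flow Φ ε (min (k * h) T) ⁻¹'
          twoShell n i i' (p (min (k * h) T)) (p' (min (k * h) T)) r δ R' := by
      rintro Z ⟨hZ, s, hs, h1, h2⟩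
      -- grid index
      have hk0 : 0 ≤ s / h := div_nonneg hs.1 hh0.le
      have hklt : ⌊s / h⌋₊ < N + 1 := by
        rw [Nat.floor_lt hk0, div_lt_iff₀ hh0]
        have : ((N + 1 : ℕ) : ℝ) * h = T + 1 := by
          rw [hh]; push_cast; field_simp
        rw [this]
        linarith [hs.2]
      set k : Fin (N + 1) := ⟨⌊s / h⌋₊, hklt⟩ with hk
      have hle : (k : ℝ) * h ≤ s := by
        have := Nat.floor_le hk0
        rw [le_div_iff₀ hh0] at this
        exact this
      have hlt : s < (k : ℝ) * h + h := by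
        have := Nat.lt_floor_add_one (s / h)
        rw [div_lt_iff₀ hh0] at this
        have h3 : ((k : Fin (N + 1)) : ℕ) = ⌊s / h⌋₊ := rfl
        rw [h3]
        linarith
      have hmin : min ((k : ℝ) * h) T = (k : ℝ) * h := min_eq_left (hle.trans hs.2)
      refine mem_iUnion.2 ⟨k, ?_⟩
      rw [mem_preimage, hmin]
      set u : ℝ := (k : ℝ) * h with hu
      have hu0 : 0 ≤ u := by positivity
      have huT : u ≤ T := hle.trans hs.2
      have hsu : |s - u| ≤ h := by
        rw [abs_le]; constructor <;> linarith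
      have hdom := pairExcluded_subset_Dom (Φ := Φ) hε n hZ.1
      have hsq := sqrt_energy_le hΦ hε hR hZ
      have hmove : ∀ l, dist (flow Φ ε s Z l).1 (flow Φ ε u Z l).1 ≤ V * h := by
        intro l
        refine (dist_pos_flow_le hΦ hε hdom u s l).trans ?_
        exact mul_le_mul hsq hsu (abs_nonneg _) hV0
      have hshell : ∀ (q : ℝ → Space3) (l : Fin n), LipschitzOnWith M q (Icc 0 T) →
          dist (q s) (pth Φ ε Z s l).1 = r → |dist (q u) (flow Φ ε u Z l).1 - r| ≤ δ := by
        intro q l hq hqs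
        have hq1 : dist (q s) (q u) ≤ M * h := by
          have := hq.dist_le_mul s hs u ⟨hu0, huT⟩
          rw [Real.dist_eq] at this
          exact this.trans (mul_le_mul_of_nonneg_left hsu M.2)
        have hq2 := hmove l
        change dist (q s) (flow Φ ε s Z l).1 = r at hqs
        rw [← hδe, abs_le]
        constructor
        · have h3 := dist_triangle4 (q s) (q u) (flow Φ ε u Z l).1 (flow Φ ε s Z l).1
          rw [dist_comm (flow Φ ε u Z l).1] at h3
          nlinarith [h3]
        · have h3 := dist_triangle4 (q u) (q s) (flow Φ ε s Z l).1 (flow Φ ε u Z l).1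
          rw [dist_comm (q u) (q s)] at h3
          nlinarith [h3]
      refine ⟨hshell p i hp h1, hshell p' i' hp' h2, fun l => ⟨?_, ?_⟩⟩
      · have h3 := dist_pos_flow_le hΦ hε hdom 0 u l
        rw [flow_zero hΦ hε, sub_zero, abs_of_nonneg hu0] at h3
        have h4 : dist (flow Φ ε u Z l).1 (Z l).1 ≤ V * (T + 1) :=
          h3.trans (mul_le_mul hsq (by linarith) hu0 hV0)
        have h5 : ‖(flow Φ ε u Z l).1‖ ≤ ‖(Z l).1‖ + dist (flow Φ ε u Z l).1 (Z l).1 := by
          rw [dist_eq_norm]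
          have := norm_add_le ((Z l).1) ((flow Φ ε u Z l).1 - (Z l).1)
          simpa using this
        linarith [(hZ.2 l).1]
      · have h3 := (norm_vel_flow_le hΦ hε hdom u l).trans hsq
        have : 0 ≤ V * (T + 1) := by positivity
        linarith
    have hmeas : ∀ s, MeasurableSet (twoShell n i i' (p s) (p' s) r δ R') := by
      intro s
      have : twoShell n i i' (p s) (p' s) r δ R' =
          {W : Config n | |dist (p s) (W i).1 - r| ≤ δ} ∩
          ({W : Config n | |dist (p' s) (W i').1 - r| ≤ δ} ∩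
          ⋂ l, ({W : Config n | ‖(W l).1‖ ≤ R'} ∩ {W : Config n | ‖(W l).2‖ ≤ R'})) := by
        ext W
        simp only [twoShell, mem_inter_iff, mem_iInter, mem_ofPred_eq]
      rw [this]
      refine (IsClosed.measurableSet (isClosed_le (by fun_prop) continuous_const)).inter
        ((IsClosed.measurableSet (isClosed_le (by fun_prop) continuous_const)).inter
        (MeasurableSet.iInter fun l => ?_))
      exact (IsClosed.measurableSet (isClosed_le (by fun_prop) continuous_const)).inter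
        (IsClosed.measurableSet (isClosed_le (by fun_prop) continuous_const))
    refine (measure_mono hsub).trans ((measure_iUnion_fintype_le _ _).trans ?_)
    calc ∑ k : Fin (N + 1), volume (flow Φ ε (min (k * h) T) ⁻¹'
          twoShell n i i' (p (min (k * h) T)) (p' (min (k * h) T)) r δ R')
        = ∑ k : Fin (N + 1), volume
            (twoShell n i i' (p (min (k * h) T)) (p' (min (k * h) T)) r δ R') := by
          refine Finset.sum_congr rfl fun k _ => ?_
          exact (measurePreserving_flow hΦ hε _).measure_preimage (hmeas _).nullMeasurableSet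
      _ ≤ ∑ _k : Fin (N + 1), (ENNReal.ofReal (8 * r ^ 2 * δ) * kap) ^ 2 * D :=
          Finset.sum_le_sum fun k _ => volume_twoShell hi _ _ R' hδ0 hδr
      _ = ENNReal.ofReal ((8 * r ^ 2 * L) ^ 2 * (1 / (N + 1))) * (kap ^ 2 * D) := by
          rw [Finset.sum_const, Finset.card_univ, Fintype.card_fin, nsmul_eq_mul, mul_pow,
            ← ENNReal.ofReal_pow (by positivity)]
          have h3 : ((N + 1 : ℕ) : ℝ≥0∞) = ENNReal.ofReal (N + 1) := by
            rw [← Nat.cast_succ, ENNReal.ofReal_natCast]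
          rw [h3, ← mul_assoc, ← mul_assoc, ← ENNReal.ofReal_mul hN0.le, mul_assoc]
          congr 2
          rw [hδ]
          field_simp
  -- limit
  have hlim : Tendsto (fun N : ℕ => ENNReal.ofReal ((8 * r ^ 2 * L) ^ 2 * (1 / (N + 1))) *
      (kap ^ 2 * D)) atTop (𝓝 (ENNReal.ofReal ((8 * r ^ 2 * L) ^ 2 * 0) * (kap ^ 2 * D))) := by
    refine ENNReal.Tendsto.mul_const ?_ (Or.inr (ENNReal.mul_ne_top
      (ENNReal.pow_ne_top kap_ne_top) hDt))
    refine ENNReal.tendsto_ofReal ?_
    exact (tendsto_one_div_add_atTop_nhds_zero_nat).const_mul _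
  rw [mul_zero, ENNReal.ofReal_zero, zero_mul] at hlim
  refine le_antisymm ?_ zero_le
  refine ge_of_tendsto hlim ?_
  obtain ⟨N0, hN0⟩ := exists_nat_ge (L / r)
  filter_upwards [eventually_ge_atTop N0] with N hN
  refine key N ?_
  rw [div_le_iff₀ hr] at hN0
  have : (N0 : ℝ) ≤ N := by exact_mod_cast hN
  nlinarith

/-! ### Simultaneous first hits -/

/-- At the first hitting time the distance is exactly `ε`. -/
theorem dist_eq_of_first_hit {ι : Type*} {α : Type} {z : ℝ → ι → PhasePoint} {c : α → ℝ → Space3}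
    {θ : α → ℝ} (hz : ∀ k, Continuous fun s => z s k) {T : ℝ}
    (hc : ∀ a, ContinuousOn (c a) (Icc 0 T)) {σ : ℝ} (hσ : 0 < σ) (hσT : σ ≤ T)
    (hU : Unhit z ε c θ σ) {k : ι} {a : α} (ha : σ ≤ θ a) (hd : dist (c a σ) (z σ k).1 ≤ ε) :
    dist (c a σ) (z σ k).1 = ε := by
  refine le_antisymm hd ?_
  have hcw : ContinuousWithinAt (fun s => dist (c a s) (z s k).1) (Ico 0 σ) σ :=
    (((hc a) σ ⟨hσ.le, hσT⟩).mono (fun s hs => ⟨hs.1, hs.2.le.trans hσT⟩)).dist
      (hz k).fst.continuousAt.continuousWithinAt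
  have hne : (𝓝[Ico 0 σ] σ).NeBot := by
    rw [← mem_closure_iff_nhdsWithin_neBot, closure_Ico hσ.ne]
    exact ⟨hσ.le, le_rfl⟩
  refine ge_of_tendsto hcw ?_
  filter_upwards [self_mem_nhdsWithin] with s hs
  exact ((unhit_iff.1 hU) s hs a (hs.2.le.trans ha) k).le

/-- **Simultaneous first hits are null.** -/
theorem ae_not_multHit (hΦ : AdmissiblePotential Φ) (hε : 0 < ε) {α : Type} [Finite α]
    {c : α → ℝ → Space3} {θ : α → ℝ} {t₀ t : ℝ} {M : ℝ≥0} (ht₀ : 0 ≤ t₀)
    (hc : ∀ a, LipschitzOnWith M (c a) (Icc 0 t)) (n : ℕ) :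
    ∀ᵐ Z : Config n, Z ∈ PairExcluded ε n → ¬ MultHit Φ ε c θ t₀ t Z := by
  have h1 : ∀ (i i' : Fin n) (a a' : α) (R : ℕ), i ≠ i' → ∀ᵐ Z : Config n,
      ¬ (Z ∈ box ε n R ∧ ∃ s ∈ Icc 0 t, dist (c a s) (pth Φ ε Z s i).1 = ε ∧
        dist (c a' s) (pth Φ ε Z s i').1 = ε) := by
    intro i i' a a' R hi
    have := volume_two_touch hΦ hε hi (hc a) (hc a') hε (R := (R : ℝ)) (Nat.cast_nonneg R)
    rw [ae_iff]
    simpa [and_assoc] using this
  have h2 : ∀ᵐ Z : Config n, ∀ (i i' : Fin n) (a a' : α) (R : ℕ), i ≠ i' →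
      ¬ (Z ∈ box ε n R ∧ ∃ s ∈ Icc 0 t, dist (c a s) (pth Φ ε Z s i).1 = ε ∧
        dist (c a' s) (pth Φ ε Z s i').1 = ε) := by
    rw [ae_all_iff]; intro i
    rw [ae_all_iff]; intro i'
    rw [ae_all_iff]; intro a
    rw [ae_all_iff]; intro a'
    rw [ae_all_iff]; intro R
    by_cases hi : i = i'
    · exact Eventually.of_forall fun Z h => absurd hi h
    · filter_upwards [h1 i i' a a' R hi] with Z hZ _
      exact hZ
  filter_upwards [h2] with Z hZ hp hM
  obtain ⟨σ, hσ, hpos, hU, i, i', hi, ⟨a, ha, hd⟩, a', ha', hd'⟩ := hM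
  obtain ⟨R, hR⟩ : ∃ R : ℕ, ∀ l, ‖(Z l).1‖ ≤ R ∧ ‖(Z l).2‖ ≤ R := by
    obtain ⟨R, hR⟩ := exists_nat_ge (∑ l, (‖(Z l).1‖ + ‖(Z l).2‖))
    refine ⟨R, fun l => ?_⟩
    have : ‖(Z l).1‖ + ‖(Z l).2‖ ≤ ∑ l, (‖(Z l).1‖ + ‖(Z l).2‖) :=
      Finset.single_le_sum (f := fun l => ‖(Z l).1‖ + ‖(Z l).2‖) (fun _ _ => by positivity)
        (Finset.mem_univ l)
    constructor <;> linarith [norm_nonneg (Z l).1, norm_nonneg (Z l).2]
  have hcc : ∀ a, ContinuousOn (c a) (Icc 0 t) := fun a => (hc a).continuousOn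
  exact hZ i i' a a' R hi ⟨⟨hp, hR⟩, σ, ⟨hpos.le, hσ.2.le⟩,
    dist_eq_of_first_hit (continuous_pth hΦ hε Z) hcc hpos hσ.2.le hU ha hd,
    dist_eq_of_first_hit (continuous_pth hΦ hε Z) hcc hpos hσ.2.le hU ha' hd'⟩

/-! ### Closed and half-open avoidance -/

/-- For a fixed time and a fixed point, the set of data with a particle at distance exactly `r` is
null. -/
theorem ae_dist_ne (hΦ : AdmissiblePotential Φ) (hε : 0 < ε) {n : ℕ} (k : Fin n) (x : Space3)
    {r : ℝ} (hr : 0 < r) (s : ℝ) :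
    ∀ᵐ Z : Config n, dist x (pth Φ ε Z s k).1 ≠ r := by
  have h1 : volume (Metric.sphere x r) = 0 := Measure.addHaar_sphere_of_ne_zero _ _ hr.ne'
  have h2 : ∀ᵐ W : Config n, dist x (W k).1 ≠ r := by
    have h3 : volume ((fun W : Config n => W k) ⁻¹' (Metric.sphere x r ×ˢ univ)) = 0 := by
      have h4 : volume (Metric.sphere x r ×ˢ (univ : Set Space3)) = 0 := by
        change ((volume : Measure Space3).prod volume) _ = 0
        rw [Measure.prod_prod, h1, zero_mul]
      have h5 : (fun W : Config n => W k) ⁻¹' (Metric.sphere x r ×ˢ univ) =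
          Set.pi univ (Function.update (fun _ : Fin n => (univ : Set PhasePoint)) k
            (Metric.sphere x r ×ˢ univ)) := by
        ext W
        constructor
        · intro h l _
          by_cases hl : l = k
          · subst hl; rw [Function.update_self]; exact h
          · rw [Function.update_of_ne hl]; exact mem_univ _
        · intro h
          have := h k (mem_univ k)
          rwa [Function.update_self] at this
      rw [h5, volume_pi_pi, Finset.prod_eq_zero (Finset.mem_univ k)]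
      rw [Function.update_self]
      exact h4
    rw [ae_iff]
    refine measure_mono_null ?_ h3
    intro W hW
    simp only [ne_eq, not_not, mem_ofPred_eq] at hW
    rw [mem_preimage, mem_prod]
    exact ⟨by rw [Metric.mem_sphere, dist_comm]; exact hW, mem_univ _⟩
  exact (measurePreserving_flow hΦ hε s).quasiMeasurePreserving.ae h2

/-- For `t > 0` the half-open avoidance is a.e. the closed one. -/
theorem ae_unhit_closed (hΦ : AdmissiblePotential Φ) (hε : 0 < ε) {α : Type} [Finite α]
    {c : α → ℝ → Space3} {θ : α → ℝ} {t : ℝ} (ht : 0 < t)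
    (hc : ∀ a, ContinuousOn (c a) (Icc 0 t)) (n : ℕ) :
    ∀ᵐ Z : Config n, Unhit (pth Φ ε Z) ε c θ t ↔
      ∀ a j, ∀ s ∈ Icc 0 (min (θ a) t), ε < dist (c a s) (pth Φ ε Z s j).1 := by
  have h1 : ∀ᵐ Z : Config n, ∀ (k : Fin n) (a : α), dist (c a t) (pth Φ ε Z t k).1 ≠ ε := by
    rw [ae_all_iff]; intro k
    rw [ae_all_iff]; intro a
    exact ae_dist_ne hΦ hε k (c a t) hε t
  filter_upwards [h1] with Z hZ
  constructor
  · intro hU a j s hs
    have hst : s ≤ t := hs.2.trans (min_le_right _ _)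
    have hsa : s ≤ θ a := hs.2.trans (min_le_left _ _)
    rcases hst.lt_or_eq with hlt | heq
    · exact (unhit_iff.1 hU) s ⟨hs.1, hlt⟩ a hsa j
    · subst heq
      by_contra hle
      push Not at hle
      exact hZ j a (dist_eq_of_first_hit (continuous_pth hΦ hε Z) hc ht le_rfl hU hsa hle)
  · intro h
    rw [unhit_iff]
    intro s hs a ha k
    exact h a k s ⟨hs.1, le_min ha hs.2.le⟩

end main

end Crest.Agent.R122.Hit167
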