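import Crest.Agent.R122.IDefs_317
import Crest.Agent.R122.BadHit_370
import Crest.Agent.R122.HitNull_167
import Crest.Agent.R122.GIVUse_424
import Crest.Agent.R122.GIVChild_383

-- ▼ part R122/IStep1_317
section

/-!
# First good hits: configurations versus trees (row 122, helper317)

`hitMassG_eq` : for the class of tree clusters, the mass of the first good hits by clusters of `k`
particles is the sum over the tree types with `k` leaves of `Hgh`.
-/

set_option autoImplicit false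

open MeasureTheory Set Filter
open scoped Classical ENNReal Topology
open Crest.AnalysisR.Kinetic

noncomputable section

namespace Crest.Agent.R122.IStep317

open Kin796 Kin796.CTree Tree674 Flow671 Loc45 Causal291 PathFlow968 Hit167 GC311 GIV566
  TreeHit317 Relabel674

variable {Φ : Space3 → ℝ} {f₀ : PhasePoint → ℝ} {ε : ℝ} {ι : Type} {S : Tubes ι} {T tw t : ℝ}

/-- clipped hitting time -/
def tauC (Φ : Space3 → ℝ) (ε : ℝ) (S : Tubes ι) (T : ℝ) (k : ℕ) (V : Config k) (j : Fin k) : ℝ :=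
  max 0 (min (hT Φ ε S V j) T)

/-- good hit, without the class -/
def GoodU (Φ : Space3 → ℝ) (ε : ℝ) (S : Tubes ι) {k : ℕ} (V : Config k) (j : Fin k) (σ : ℝ) :
    Prop :=
  GoodGhostHit (pth Φ ε V) ε S.c S.b j σ ∧ AloneAt (pth Φ ε V) ε j σ

/-- the integrand -/
def Fint (Φ : Space3 → ℝ) (f₀ : PhasePoint → ℝ) (ε : ℝ) (S : Tubes ι) (T tw t : ℝ) (k : ℕ)
    (V : Config k) (j : Fin k) : ℝ≥0∞ :=
  gcWeight f₀ ε k V * (ind (hT Φ ε S V j ∈ Ico tw t ∧ GoodU Φ ε S V j (tauC Φ ε S T k V j)) *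
    uG Φ f₀ ε (S.sum (clTubes Φ ε V j (tauC Φ ε S T k V j))) (tauC Φ ε S T k V j))

theorem tauC_eq (htw : 0 ≤ tw) (htT : t ≤ T) {k : ℕ} {V : Config k} {j : Fin k}
    (h : hT Φ ε S V j ∈ Ico tw t) : tauC Φ ε S T k V j = hT Φ ε S V j := by
  unfold tauC
  rw [min_eq_left (h.2.le.trans htT), max_eq_right (htw.trans h.1)]

/-! ### Covariance -/

theorem hT_perm (hΦ : AdmissiblePotential Φ) (hε : 0 < ε) {k : ℕ} (g : Equiv.Perm (Fin k))
    (V : Config k) (j : Fin k) : hT Φ ε S (fun i => V (g i)) j = hT Φ ε S V (g j) := by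
  unfold hT
  rw [Hit167.pth_relabel hΦ hε g V]
  rfl

theorem tauC_cov (hΦ : AdmissiblePotential Φ) (hε : 0 < ε) : Cov ε (tauC Φ ε S T) := by
  intro k g V j _
  unfold tauC
  rw [hT_perm hΦ hε]

theorem goodU_perm (hΦ : AdmissiblePotential Φ) (hε : 0 < ε) {k : ℕ} (g : Equiv.Perm (Fin k))
    (V : Config k) (j : Fin k) (σ : ℝ) :
    GoodU Φ ε S (fun i => V (g i)) j σ ↔ GoodU Φ ε S V (g j) σ := by
  unfold GoodU
  rw [Hit167.pth_relabel hΦ hε g V]
  exact and_congr (goodGhostHit_relabel g) (aloneAt_relabel g)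

theorem uG_perm (hΦ : AdmissiblePotential Φ) (hε : 0 < ε) {k : ℕ} (g : Equiv.Perm (Fin k))
    (V : Config k) (j : Fin k) (σ : ℝ) :
    uG Φ f₀ ε (S.sum (clTubes Φ ε (fun i => V (g i)) j σ)) σ =
      uG Φ f₀ ε (S.sum (clTubes Φ ε V (g j) σ)) σ := by
  have hp := Hit167.pth_relabel hΦ hε g V
  refine uG_congr_tubes (Equiv.sumCongr (Equiv.refl ι) g) ?_ ?_
  · rintro (i | i)
    · rfl
    · show tauPre (pth Φ ε fun i => V (g i)) ε j σ i = tauPre (pth Φ ε V) ε (g j) σ (g i)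
      rw [hp]
      exact tauPre_relabel g
  · rintro (i | i) s _
    · rfl
    · show (pth Φ ε (fun i => V (g i)) s i).1 = (pth Φ ε V s (g i)).1
      rw [hp]

theorem fint_cov (hΦ : AdmissiblePotential Φ) (hε : 0 < ε) : Cov ε (Fint Φ f₀ ε S T tw t) := by
  intro k g V j hV
  unfold Fint
  rw [gcWeight_comp_perm, tauC_cov hΦ hε k g V j hV, hT_perm hΦ hε, uG_perm hΦ hε,
    ind_congr (and_congr Iff.rfl (goodU_perm hΦ hε g V j _))]

/-! ### Measurability -/

theorem measurable_hT [Finite ι] (hΦ : AdmissiblePotential Φ) (hε : 0 < ε)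
    (hc : ∀ i, Continuous (S.c i)) {k : ℕ} (j : Fin k) :
    Measurable fun V : Config k => hT Φ ε S V j :=
  measurable_hitTime (x := fun V : Config k => pth Φ ε V) (fun V i => continuous_pth hΦ hε V i)
    (fun s i => measurable_pth_id hΦ hε s i) hc 0 j

theorem measurable_tauC [Finite ι] (hΦ : AdmissiblePotential Φ) (hε : 0 < ε)
    (hc : ∀ i, Continuous (S.c i)) {k : ℕ} (j : Fin k) :
    Measurable fun V : Config k => tauC Φ ε S T k V j :=
  measurable_const.max ((measurable_hT hΦ hε hc j).min measurable_const)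

theorem measurableSet_goodU [Finite ι] (hΦ : AdmissiblePotential Φ) (hε : 0 < ε)
    (hc : ∀ i, Continuous (S.c i)) {k : ℕ} (j : Fin k) {σ : Config k → ℝ} (hσ : Measurable σ) :
    MeasurableSet {V : Config k | GoodU Φ ε S V j (σ V)} := by
  have hx : ∀ (V : Config k) i, Continuous fun s => pth Φ ε V s i :=
    fun V i => continuous_pth hΦ hε V i
  have hm : ∀ s i, Measurable fun V : Config k => pth Φ ε V s i :=
    fun s i => measurable_pth_id hΦ hε s i
  exact (measurableSet_goodGhostHit (x := fun V : Config k => pth Φ ε V) hx hm hc j hσ).inter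
    (measurableSet_aloneAt (x := fun V : Config k => pth Φ ε V) hx hm hσ j)

theorem measurable_uG_cl [Finite ι] (hf : Measurable f₀) (hΦ : AdmissiblePotential Φ) (hε : 0 < ε)
    (hT0 : 0 ≤ T) (hc : ∀ i, Continuous (S.c i)) {k : ℕ} (j : Fin k) {σ : Config k → ℝ}
    (hσ : Measurable σ) (hσT : ∀ V, σ V ≤ T) :
    Measurable fun V : Config k => uG Φ f₀ ε (S.sum (clTubes Φ ε V j (σ V))) (σ V) := by
  haveI : Countable ι := Finite.to_countable
  refine measurable_uG (S := fun V : Config k => S.sum (clTubes Φ ε V j (σ V))) hf hΦ hε hT0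
    ?_ ?_ ?_ hσ hσT
  · rintro V (i | i)
    · exact (hc i).continuousOn
    · exact (continuous_pth hΦ hε V i).fst.continuousOn
  · rintro (i | i) s
    · exact measurable_const
    · exact (measurable_pth_id hΦ hε s i).fst
  · rintro (i | i)
    · exact measurable_const
    · exact measurable_tauPre (x := fun V : Config k => pth Φ ε V)
        (fun V i => continuous_pth hΦ hε V i) (fun s i => measurable_pth_id hΦ hε s i) j i hσ

theorem measurable_fint [Finite ι] (hf : Measurable f₀) (hΦ : AdmissiblePotential Φ) (hε : 0 < ε)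
    (hT0 : 0 ≤ T) (hc : ∀ i, Continuous (S.c i)) (k : ℕ) (j : Fin k) :
    Measurable fun V : Config k => Fint Φ f₀ ε S T tw t k V j := by
  unfold Fint
  refine (measurable_gcWeight hf ε k).mul (Measurable.mul ?_ ?_)
  · refine measurable_ind ?_
    exact ((measurable_hT hΦ hε hc j) measurableSet_Ico).inter
      (measurableSet_goodU hΦ hε hc j (measurable_tauC hΦ hε hc j))
  · exact measurable_uG_cl hf hΦ hε hT0 hc j (measurable_tauC hΦ hε hc j)
      (fun V => max_le hT0 (min_le_right _ _))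

/-! ### The configuration side -/

theorem goodV_iff {k : ℕ} {V : Config k} {j : Fin k} {σ : ℝ} :
    GoodV Φ ε S.c S.b (treeCls Φ ε) V j σ ↔ GoodU Φ ε S V j σ ∧ TreeLike Φ ε σ V j :=
  ⟨fun h => ⟨⟨h.good, h.alone⟩, h.cls⟩, fun h => ⟨h.1.1, h.1.2, h.2⟩⟩

theorem integrand_cfg (htw : 0 ≤ tw) (htT : t ≤ T) {k : ℕ} (V : Config k) :
    gcWeight f₀ ε k V * ∑ j : Fin k, ind (hT Φ ε S V j ∈ Ico tw t ∧
        GoodV Φ ε S.c S.b (treeCls Φ ε) V j (hT Φ ε S V j)) *
      uG Φ f₀ ε (S.sum (clTubes Φ ε V j (hT Φ ε S V j))) (hT Φ ε S V j) =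
      ∑ j : Fin k, (if TreeLike Φ ε (tauC Φ ε S T k V j) V j then
        Fint Φ f₀ ε S T tw t k V j else 0) := by
  rw [Finset.mul_sum]
  refine Finset.sum_congr rfl fun j _ => ?_
  by_cases h : hT Φ ε S V j ∈ Ico tw t
  · unfold Fint
    rw [tauC_eq htw htT h]
    by_cases h2 : TreeLike Φ ε (hT Φ ε S V j) V j
    · rw [if_pos h2]
      congr 2
      refine ind_congr (and_congr Iff.rfl ?_)
      rw [goodV_iff]
      exact ⟨fun h => h.1, fun h => ⟨h, h2⟩⟩
    · rw [if_neg h2, ind_false, zero_mul, mul_zero]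
      rintro ⟨_, h3⟩
      exact h2 (goodV_iff.1 h3).2
  · rw [ind_false fun h' => h h'.1, zero_mul, mul_zero]
    unfold Fint
    rw [ind_false fun h' => h h'.1, zero_mul, mul_zero, ite_self]

/-! ### The tree side -/

theorem prod_confOf (P : CTree) (W : Idx P → PhasePoint) :
    ∏ i, ENNReal.ofReal (f₀ (confOf P W i)) = ∏ x, ENNReal.ofReal (f₀ (W x)) :=
  Equiv.prod_comp (eP P).symm fun x => ENNReal.ofReal (f₀ (W x))

theorem pth_confOf (hΦ : AdmissiblePotential Φ) (hε : 0 < ε) (P : CTree)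
    (W : Idx P → PhasePoint) :
    pth Φ ε (confOf P W) = fun s i => pth Φ ε W s ((eP P).symm i) :=
  Hit167.pth_relabel hΦ hε (eP P).symm W

theorem hT_confOf (hΦ : AdmissiblePotential Φ) (hε : 0 < ε) (P : CTree)
    (W : Idx P → PhasePoint) : hT Φ ε S (confOf P W) (eP P (root P)) =
      hitTime (pth Φ ε W) ε S.c S.b 0 (root P) := by
  unfold hT
  rw [pth_confOf hΦ hε, hitTime_relabel (eP P).symm, Equiv.symm_apply_apply]

theorem goodU_confOf (hΦ : AdmissiblePotential Φ) (hε : 0 < ε) (P : CTree)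
    (W : Idx P → PhasePoint) (σ : ℝ) : GoodU Φ ε S (confOf P W) (eP P (root P)) σ ↔
      GoodGhostHit (pth Φ ε W) ε S.c S.b (root P) σ ∧ AloneAt (pth Φ ε W) ε (root P) σ := by
  unfold GoodU
  rw [pth_confOf hΦ hε, goodGhostHit_relabel (eP P).symm, aloneAt_relabel (eP P).symm,
    Equiv.symm_apply_apply]

theorem uG_confOf (hΦ : AdmissiblePotential Φ) (hε : 0 < ε) {P : CTree} {z : PhasePoint × Par P}
    {σ : ℝ} (hσ : 0 < σ) (hv : Valid Φ ε P σ z.1.2 z.2) (hs : Sep Φ ε P σ z.1 z.2) :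
    uG Φ f₀ ε (S.sum (clTubes Φ ε (confOf P (lines Φ ε P z.1 z.2)) (eP P (root P)) σ)) σ =
      uG Φ f₀ ε (S.sum (ptubes Φ ε P z.1 z.2 σ)) σ := by
  refine (uG_congr_tubes (Equiv.sumCongr (Equiv.refl ι) (eP P)) ?_ ?_).symm
  · rintro (i | i)
    · rfl
    · show prot P σ z.2 i = tauPre (pth Φ ε (confOf P (lines Φ ε P z.1 z.2))) ε
        (eP P (root P)) σ (eP P i)
      rw [pth_confOf hΦ hε, tauPre_relabel (eP P).symm, Equiv.symm_apply_apply,
        Equiv.symm_apply_apply, tauPre_eq hΦ hε hσ hv hs]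
  · rintro (i | i) s hs'
    · rfl
    · show (path Φ ε P z.1 z.2 s i).1 =
        (pth Φ ε (confOf P (lines Φ ε P z.1 z.2)) s (eP P i)).1
      rw [pth_confOf hΦ hε]
      show _ = (pth Φ ε (lines Φ ε P z.1 z.2) s ((eP P).symm (eP P i))).1
      rw [Equiv.symm_apply_apply, path_eq_flow hΦ hε hv hs
        ⟨hs'.1, hs'.2.trans (min_le_right _ _)⟩]
      rfl

theorem gcWeight_confOf (hε : 0 < ε) {P : CTree} {z : PhasePoint × Par P} {σ : ℝ} (hσ : 0 ≤ σ)
    (hv : Valid Φ ε P σ z.1.2 z.2) (hs : Sep Φ ε P σ z.1 z.2) :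
    gcWeight f₀ ε P.leaves (confOf P (lines Φ ε P z.1 z.2)) =
      ∏ x, ENNReal.ofReal (f₀ (lines Φ ε P z.1 z.2 x)) := by
  have h1 : confOf P (lines Φ ε P z.1 z.2) ∈ PairExcluded ε P.leaves :=
    confOf_excluded hε hσ (t := σ) (Φ := Φ) ⟨z.1, z.2, hv, hs, rfl⟩
  unfold gcWeight
  rw [Set.indicator_of_mem h1, prod_confOf]

theorem integrand_tree (hΦ : AdmissiblePotential Φ) (hε : 0 < ε) (htw : 0 ≤ tw) (htT : t ≤ T)
    (P : CTree) (z : PhasePoint × Par P) :
    (VST Φ ε P (tauP (tauC Φ ε S T) P)).indicator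
          (fun z => wt Φ P z.1.2 z.2 * Fint Φ f₀ ε S T tw t P.leaves
            (confOf P (lines Φ ε P z.1 z.2)) (eP P (root P))) z =
      if sigHit Φ ε P S z ∈ Ico tw t ∧ 0 < sigHit Φ ε P S z ∧
        FirstAt Φ ε P S z (sigHit Φ ε P S z) then
      wt Φ P z.1.2 z.2 * ((∏ x, ENNReal.ofReal (f₀ (lines Φ ε P z.1 z.2 x))) *
        uG Φ f₀ ε (S.sum (ptubes Φ ε P z.1 z.2 (sigHit Φ ε P S z))) (sigHit Φ ε P S z))
      else 0 := by
  set W := lines Φ ε P z.1 z.2 with hW
  set σ := hitTime (pth Φ ε W) ε S.c S.b 0 (root P) with hσ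
  have hhT : hT Φ ε S (confOf P W) (eP P (root P)) = σ := hT_confOf hΦ hε P W
  -- the condition on the right side implies that the hitting times agree
  have hR : ∀ (_ : sigHit Φ ε P S z ∈ Ico tw t ∧ 0 < sigHit Φ ε P S z ∧
      FirstAt Φ ε P S z (sigHit Φ ε P S z)), sigHit Φ ε P S z = σ := by
    rintro ⟨_, h2, h3⟩
    have h4 := ((firstAt_iff hΦ hε h2).1 h3).2.2
    exact (hitTime_eq h2.le h4.hits fun s hs => h4.unhit s hs (root P)
      (mem_preAct_self hs.2)).symm
  by_cases hI : σ ∈ Ico tw t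
  · have hτ : tauP (tauC Φ ε S T) P W = σ := by
      unfold tauP
      rw [tauC_eq htw htT (by rw [hhT]; exact hI), hhT]
    have hτ' : tauC Φ ε S T P.leaves (confOf P W) (eP P (root P)) = σ := hτ
    by_cases hV : Valid Φ ε P σ z.1.2 z.2 ∧ Sep Φ ε P σ z.1 z.2
    · have hmem : z ∈ VST Φ ε P (tauP (tauC Φ ε S T) P) := by
        show Valid Φ ε P (tauP (tauC Φ ε S T) P W) z.1.2 z.2 ∧
          Sep Φ ε P (tauP (tauC Φ ε S T) P W) z.1 z.2
        rw [hτ]
        exact hV
      rw [indicator_of_mem hmem]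
      show wt Φ P z.1.2 z.2 * Fint Φ f₀ ε S T tw t P.leaves (confOf P W) (eP P (root P)) = _
      unfold Fint
      rw [hτ', hhT]
      by_cases hG : GoodGhostHit (pth Φ ε W) ε S.c S.b (root P) σ
      · have hpos : 0 < σ := hG.pos (htw.trans hI.1)
        have hF : FirstAt Φ ε P S z σ := (firstAt_iff hΦ hε hpos).2 ⟨hV.1, hV.2, hG⟩
        have hs : sigHit Φ ε P S z = σ := hF.sigHit_eq hε hpos.le
        rw [hs, if_pos ⟨hI, hpos, hF⟩, ind_true, one_mul, uG_confOf hΦ hε hpos hV.1 hV.2,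
          gcWeight_confOf hε hpos.le hV.1 hV.2]
        exact ⟨hI, (goodU_confOf hΦ hε P W σ).2 ⟨hG, aloneAt hΦ hε hpos hV.1 hV.2⟩⟩
      · rw [ind_false, zero_mul, mul_zero, mul_zero, if_neg]
        · intro h
          have hs := hR h
          rw [hs] at h
          exact hG ((firstAt_iff hΦ hε h.2.1).1 h.2.2).2.2
        · rintro ⟨_, h⟩
          exact hG ((goodU_confOf hΦ hε P W σ).1 h).1
    · have hmem : z ∉ VST Φ ε P (tauP (tauC Φ ε S T) P) := by
        intro h
        have h' : Valid Φ ε P (tauP (tauC Φ ε S T) P W) z.1.2 z.2 ∧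
          Sep Φ ε P (tauP (tauC Φ ε S T) P W) z.1 z.2 := h
        rw [hτ] at h'
        exact hV h'
      rw [indicator_of_notMem hmem, if_neg]
      intro h
      have hs := hR h
      rw [hs] at h
      exact hV ⟨h.2.2.valid, h.2.2.sep⟩
  · have hF0 : Fint Φ f₀ ε S T tw t P.leaves (confOf P W) (eP P (root P)) = 0 := by
      unfold Fint
      rw [ind_false, zero_mul, mul_zero]
      rintro ⟨h, _⟩
      rw [hhT] at h
      exact hI h
    rw [if_neg]
    · by_cases hmem : z ∈ VST Φ ε P (tauP (tauC Φ ε S T) P)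
      · rw [indicator_of_mem hmem]
        show wt Φ P z.1.2 z.2 * Fint Φ f₀ ε S T tw t P.leaves (confOf P W) (eP P (root P)) = 0
        rw [hF0, mul_zero]
      · rw [indicator_of_notMem hmem]
    · intro h
      have hs := hR h
      rw [hs] at h
      exact hI h.1

/-- **First good hits: from configurations to trees.** -/
theorem hitMassG_eq [Finite ι] (hf : Measurable f₀) (hΦ : AdmissiblePotential Φ) (hε : 0 < ε)
    (hc : ∀ i, Continuous (S.c i)) (htw : 0 ≤ tw) (k : ℕ) :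
    hitMassG Φ f₀ ε S (treeCls Φ ε) tw t k =
      ∑' P : CTree, if P.leaves = k then Hgh Φ f₀ ε P S tw t else 0 := by
  set T : ℝ := max 0 t with hTdef
  have hT0 : 0 ≤ T := le_max_left _ _
  have htT : t ≤ T := le_max_right _ _
  unfold hitMassG
  have h1 : (∫⁻ V : Config k, gcWeight f₀ ε k V *
      ∑ j : Fin k, ind (hT Φ ε S V j ∈ Ico tw t ∧
        GoodV Φ ε S.c S.b (treeCls Φ ε) V j (hT Φ ε S V j)) *
      uG Φ f₀ ε (S.sum (clTubes Φ ε V j (hT Φ ε S V j))) (hT Φ ε S V j)) =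
      ∫⁻ V : Config k, ∑ j : Fin k, (if TreeLike Φ ε (tauC Φ ε S T k V j) V j then
        Fint Φ f₀ ε S T tw t k V j else 0) :=
    lintegral_congr fun V => integrand_cfg htw htT V
  rw [h1, tree_transport_tau hΦ hε (tauC_cov hΦ hε) (fun k j => measurable_tauC hΦ hε hc j)
    (fun _ _ _ => le_max_left _ _) (fun _ _ _ => max_le hT0 (min_le_right _ _))
    (fint_cov hΦ hε) (fun k j => measurable_fint hf hΦ hε hT0 hc k j) k, ← ENNReal.tsum_mul_left]
  refine tsum_congr fun P => ?_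
  by_cases hP : P.leaves = k
  · rw [if_pos hP, if_pos hP]
    unfold Hgh
    congr 1
    exact lintegral_congr fun z => integrand_tree hΦ hε htw htT P z
  · rw [if_neg hP, if_neg hP, mul_zero]

end Crest.Agent.R122.IStep317
end
end

-- ▼ part R122/IStep2_317
section

/-!
# The first-hit inequality in tree form (row 122, helper317)

* `treeCls_inv`, `treeCls_meas` : the class of tree clusters is invariant and measurable;
* `first_hit_tree` : `adiff (U tw) (U t + ∑_{P.leaves ≤ K} Hgh P) ≤ P(BadR) + ∑_{k ≤ K} errC k`.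
-/

set_option autoImplicit false

open MeasureTheory Set Filter
open scoped Classical ENNReal Topology
open Crest.AnalysisR.Kinetic

noncomputable section

namespace Crest.Agent.R122.IStep317

open Kin796 Kin796.CTree Tree674 Flow671 Loc45 Causal291 PathFlow968 Hit167 GC311 GIV566
  TreeHit317 Relabel674

variable {Φ : Space3 → ℝ} {f₀ : PhasePoint → ℝ} {ε : ℝ} {ι : Type} {S : Tubes ι} {T tw t : ℝ}

/-! ### The class of tree clusters -/

theorem treeCls_inv : (treeCls Φ ε).Inv := by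
  intro k V j σ g
  constructor
  · rintro ⟨P, e, h0, ℓ, p, h1, h2, h3⟩
    refine ⟨P, e.trans g, ?_, ℓ, p, h1, h2, fun x => ?_⟩
    · show g (e (root P)) = g j
      rw [h0]
    · exact h3 x
  · rintro ⟨P, e, h0, ℓ, p, h1, h2, h3⟩
    refine ⟨P, e.trans g.symm, ?_, ℓ, p, h1, h2, fun x => ?_⟩
    · show g.symm (e (root P)) = j
      rw [h0, Equiv.symm_apply_apply]
    · show V (g (g.symm (e x))) = _
      rw [Equiv.apply_symm_apply]
      exact h3 x

theorem measurableSet_skS_joint (hΦ : AdmissiblePotential Φ) (hε : 0 < ε) (P : CTree) :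
    MeasurableSet {q : ℝ × (Idx P → PhasePoint) | q.2 ∈ SkS Φ ε P q.1} := by
  have key : {q : ℝ × (Idx P → PhasePoint) | q.2 ∈ SkS Φ ε P q.1} =
      ⋃ n : ℕ, ({q : ℝ × (Idx P → PhasePoint) | q.1 ≤ (n : ℝ)} ∩
        ((fun q : ℝ × (Idx P → PhasePoint) => q.2) ⁻¹' Skel Φ ε P n ∩
        (fun q : ℝ × (Idx P → PhasePoint) => (q.1, Tree674.inv Φ ε P n q.2)) ⁻¹'
          {q : ℝ × (PhasePoint × Par P) | Valid Φ ε P q.1 q.2.1.2 q.2.2 ∧
            Sep Φ ε P q.1 q.2.1 q.2.2})) := by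
    ext ⟨s, W⟩
    simp only [mem_iUnion, mem_inter_iff, mem_preimage, mem_ofPred_eq]
    constructor
    · intro h
      obtain ⟨n, hn⟩ := exists_nat_ge s
      have h1 := (mem_skT_iff hΦ hε (τ := fun _ => s) (T := n) (fun _ => hn) (W := W)).1 h
      exact ⟨n, hn, h1.1, h1.2⟩
    · rintro ⟨n, hn, h1, h2⟩
      have h3 := (lines_inv hΦ hε h1).2
      exact ⟨_, _, h2.1, h2.2, h3⟩
  rw [key]
  refine MeasurableSet.iUnion fun n => ?_
  refine (measurableSet_le measurable_fst measurable_const).inter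
    ((measurable_snd (measurableSet_skel hΦ hε P n)).inter ?_)
  exact (measurable_fst.prodMk ((measurable_inv hΦ hε P n).comp measurable_snd))
    (measurableSet_validSep2 hΦ hε P)

theorem treeCls_meas (hΦ : AdmissiblePotential Φ) (hε : 0 < ε) : (treeCls Φ ε).Meas := by
  intro k j
  have key : {p : Config k × ℝ | treeCls Φ ε k p.1 j p.2} =
      ⋃ P : CTree, ⋃ e : Idx P ≃ Fin k, ⋃ _ : e (root P) = j,
        (fun p : Config k × ℝ => (p.2, fun x => p.1 (e x))) ⁻¹'
          {q : ℝ × (Idx P → PhasePoint) | q.2 ∈ SkS Φ ε P q.1} := by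
    ext ⟨V, s⟩
    simp only [treeCls, TreeLike, isTree_iff, mem_iUnion, mem_preimage, mem_ofPred_eq,
      exists_prop]
  rw [key]
  refine MeasurableSet.iUnion fun P => MeasurableSet.iUnion fun e => MeasurableSet.iUnion fun _ => ?_
  refine Measurable.prodMk measurable_snd ?_ (measurableSet_skS_joint hΦ hε P)
  exact measurable_pi_iff.2 fun x => (measurable_pi_apply (e x)).comp measurable_fst

/-! ### Real versus ghost mass -/

theorem measurable_restE [Finite ι] (hf : Measurable f₀) (hΦ : AdmissiblePotential Φ) (hε : 0 < ε)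
    (hc : ∀ i, Continuous (S.c i)) {k : ℕ} (j : Fin k) {σ : Config k → ℝ} (hσ : Measurable σ) :
    Measurable fun V : Config k => restE f₀ Φ ε S.c S.b V j (σ V) := by
  unfold restE
  refine BadHit370.measurable_gcE_param hf ε (X := Config k)
    (F := fun m V w => perpInd ε V w *
      ind (RestV Φ ε S.c S.b (Fin.append V w : Config (k + m)) (Fin.castAdd m) j (σ V)))
    fun m => ?_
  refine (measurable_perpInd ε k m).mul (measurable_ind ?_)
  exact measurableSet_restV (Ω := Config k × Config m) hΦ hε hc (Fin.castAdd_injective k m) j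
    measurable_append (hσ.comp measurable_fst)

/-- the indicator of a good cluster in the window -/
def indG (Φ : Space3 → ℝ) (ε : ℝ) (S : Tubes ι) (tw t : ℝ) {k : ℕ} (V : Config k) (j : Fin k) :
    ℝ≥0∞ :=
  ind (hT Φ ε S V j ∈ Ico tw t ∧ GoodV Φ ε S.c S.b (treeCls Φ ε) V j (hT Φ ε S V j))

theorem measurable_indG [Finite ι] (hΦ : AdmissiblePotential Φ) (hε : 0 < ε)
    (hc : ∀ i, Continuous (S.c i)) {k : ℕ} (j : Fin k) :
    Measurable fun V : Config k => indG Φ ε S tw t V j := by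
  refine measurable_ind ?_
  exact ((measurable_hT hΦ hε hc j) measurableSet_Ico).inter
    (measurableSet_goodV hΦ hε hc (treeCls_meas hΦ hε) j measurable_id (measurable_hT hΦ hε hc j))

theorem lintegral_add_le {Ω : Type*} [MeasurableSpace Ω] {μ : Measure Ω} {a b c : Ω → ℝ≥0∞}
    (hb : Measurable b) (h : ∀ ω, a ω ≤ b ω + c ω) : ∫⁻ ω, a ω ∂μ ≤ ∫⁻ ω, b ω ∂μ + ∫⁻ ω, c ω ∂μ := by
  rw [← lintegral_add_left hb]
  exact lintegral_mono h

/-- clipped version of the ghost term, to have measurability -/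
theorem indG_mul_uG (htw : 0 ≤ tw) (htT : t ≤ T) {k : ℕ} (V : Config k) (j : Fin k) :
    indG Φ ε S tw t V j * uG Φ f₀ ε (S.sum (clTubes Φ ε V j (hT Φ ε S V j))) (hT Φ ε S V j) =
      indG Φ ε S tw t V j *
        uG Φ f₀ ε (S.sum (clTubes Φ ε V j (tauC Φ ε S T k V j))) (tauC Φ ε S T k V j) := by
  by_cases h : hT Φ ε S V j ∈ Ico tw t
  · rw [tauC_eq htw htT h]
  · unfold indG
    rw [ind_false fun h' => h h'.1, zero_mul, zero_mul]

theorem measurable_ghost [Finite ι] (hf : Measurable f₀) (hΦ : AdmissiblePotential Φ) (hε : 0 < ε)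
    (hc : ∀ i, Continuous (S.c i)) (htw : 0 ≤ tw) {k : ℕ} (j : Fin k) :
    Measurable fun V : Config k => indG Φ ε S tw t V j *
      uG Φ f₀ ε (S.sum (clTubes Φ ε V j (hT Φ ε S V j))) (hT Φ ε S V j) := by
  have h : (fun V : Config k => indG Φ ε S tw t V j *
      uG Φ f₀ ε (S.sum (clTubes Φ ε V j (hT Φ ε S V j))) (hT Φ ε S V j)) =
      fun V : Config k => indG Φ ε S tw t V j * uG Φ f₀ ε
        (S.sum (clTubes Φ ε V j (tauC Φ ε S (max 0 t) k V j))) (tauC Φ ε S (max 0 t) k V j) :=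
    funext fun V => indG_mul_uG htw (le_max_right _ _) V j
  rw [h]
  exact (measurable_indG hΦ hε hc j).mul (measurable_uG_cl hf hΦ hε (le_max_left _ _) hc j
    (measurable_tauC hΦ hε hc j) (fun V => max_le (le_max_left _ _) (min_le_right _ _)))

theorem le_add_adiff (a b : ℝ≥0∞) : a ≤ b + adiff a b := by
  unfold adiff
  calc a ≤ b + (a - b) := le_add_tsub
    _ ≤ b + ((a - b) + (b - a)) := add_le_add le_rfl le_self_add

theorem hitMass_le [Finite ι] (hf : Measurable f₀) (hΦ : AdmissiblePotential Φ) (hε : 0 < ε)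
    (hc : ∀ i, Continuous (S.c i)) (htw : 0 ≤ tw) (k : ℕ) :
    hitMass f₀ Φ ε S.c S.b (treeCls Φ ε) tw t k ≤
      hitMassG Φ f₀ ε S (treeCls Φ ε) tw t k + errC Φ f₀ ε S (treeCls Φ ε) tw t k := by
  unfold hitMass hitMassG errC
  rw [← mul_add]
  refine mul_le_mul_right ?_ _
  refine lintegral_add_le ?_ fun V => ?_
  · refine (measurable_gcWeight hf ε k).mul (Finset.measurable_sum _ fun j _ => ?_)
    exact measurable_ghost hf hΦ hε hc htw j
  · rw [← mul_add, ← Finset.sum_add_distrib]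
    refine mul_le_mul_right (Finset.sum_le_sum fun j _ => ?_) _
    rw [← mul_add]
    exact mul_le_mul_right (le_add_adiff _ _) _

theorem hitMassG_le [Finite ι] (hf : Measurable f₀) (hΦ : AdmissiblePotential Φ) (hε : 0 < ε)
    (hc : ∀ i, Continuous (S.c i)) (k : ℕ) :
    hitMassG Φ f₀ ε S (treeCls Φ ε) tw t k ≤
      hitMass f₀ Φ ε S.c S.b (treeCls Φ ε) tw t k + errC Φ f₀ ε S (treeCls Φ ε) tw t k := by
  unfold hitMass hitMassG errC
  rw [← mul_add]
  refine mul_le_mul_right ?_ _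
  refine lintegral_add_le ?_ fun V => ?_
  · refine (measurable_gcWeight hf ε k).mul (Finset.measurable_sum _ fun j _ => ?_)
    exact (measurable_indG hΦ hε hc j).mul
      (measurable_restE hf hΦ hε hc j (measurable_hT hΦ hε hc j))
  · rw [← mul_add, ← Finset.sum_add_distrib]
    refine mul_le_mul_right (Finset.sum_le_sum fun j _ => ?_) _
    change indG Φ ε S tw t V j * _ ≤ indG Φ ε S tw t V j *
      restE f₀ Φ ε S.c S.b V j (hT Φ ε S V j) + indG Φ ε S tw t V j * _
    rw [← mul_add, adiff_comm]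
    exact mul_le_mul_right (le_add_adiff _ _) _

/-! ### The inequality -/

theorem sum_hitMassG [Finite ι] (hf : Measurable f₀) (hΦ : AdmissiblePotential Φ) (hε : 0 < ε)
    (hc : ∀ i, Continuous (S.c i)) (htw : 0 ≤ tw) (K : ℕ) :
    ∑ k ∈ Finset.range (K + 1), hitMassG Φ f₀ ε S (treeCls Φ ε) tw t k =
      ∑' P : CTree, if P.leaves ≤ K then Hgh Φ f₀ ε P S tw t else 0 := by
  have h1 : ∀ k ∈ Finset.range (K + 1), hitMassG Φ f₀ ε S (treeCls Φ ε) tw t k =
      ∑' P : CTree, if P.leaves = k then Hgh Φ f₀ ε P S tw t else 0 :=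
    fun k _ => hitMassG_eq hf hΦ hε hc htw k
  rw [Finset.sum_congr rfl h1, ← Summable.tsum_finsetSum fun _ _ => ENNReal.summable]
  refine tsum_congr fun P => ?_
  rw [Finset.sum_ite_eq (Finset.range (K + 1)) P.leaves]
  simp only [Finset.mem_range, Nat.lt_succ_iff]

/-- **First-hit inequality in tree form.** -/
theorem first_hit_tree [Finite ι] (hf : Measurable f₀) (hΦ : AdmissiblePotential Φ) (hε : 0 < ε)
    (hc : ∀ i, Continuous (S.c i)) (htw : 0 ≤ tw) (htt : tw ≤ t) (K : ℕ)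
    (hM : ∀ n, ∀ᵐ Z : Config n, Z ∈ PairExcluded ε n → ¬ MultHit Φ ε S.c S.b tw t Z) :
    adiff (U f₀ Φ ε S.c S.b tw)
        (U f₀ Φ ε S.c S.b t + ∑' P : CTree, if P.leaves ≤ K then Hgh Φ f₀ ε P S tw t else 0) ≤
      gcE f₀ ε (fun _ Z => ind (BadR Φ ε S.c S.b (treeCls Φ ε) tw t K Z)) +
        ∑ k ∈ Finset.range (K + 1), errC Φ f₀ ε S (treeCls Φ ε) tw t k := by
  have h1 := unhit_le (θ := S.b) (t := t) hf hΦ hε hc treeCls_inv (treeCls_meas hΦ hε) htw K
  have h2 := le_unhit (θ := S.b) (t := t) hf hΦ hε hc treeCls_inv (treeCls_meas hΦ hε) htw htt K hM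
  rw [← sum_hitMassG hf hΦ hε hc htw K]
  set A := U f₀ Φ ε S.c S.b tw
  set B := U f₀ Φ ε S.c S.b t
  set M := ∑ k ∈ Finset.range (K + 1), hitMass f₀ Φ ε S.c S.b (treeCls Φ ε) tw t k
  set G := ∑ k ∈ Finset.range (K + 1), hitMassG Φ f₀ ε S (treeCls Φ ε) tw t k
  set E := ∑ k ∈ Finset.range (K + 1), errC Φ f₀ ε S (treeCls Φ ε) tw t k
  set R := gcE f₀ ε (fun _ Z => ind (BadR Φ ε S.c S.b (treeCls Φ ε) tw t K Z))
  have hMG : M ≤ G + E := by
    rw [← Finset.sum_add_distrib]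
    exact Finset.sum_le_sum fun k _ => hitMass_le hf hΦ hε hc htw k
  have hGM : G ≤ M + E := by
    rw [← Finset.sum_add_distrib]
    exact Finset.sum_le_sum fun k _ => hitMassG_le hf hΦ hε hc k
  have h3 : A - (B + G) ≤ R + E := by
    rw [tsub_le_iff_left]
    calc A ≤ B + M + R := h1
      _ ≤ B + (G + E) + R := by gcongr
      _ = B + G + (R + E) := by ring
  have h4 : (B + G) - A ≤ R + E := by
    rw [tsub_le_iff_left]
    calc B + G ≤ B + (M + E) := by gcongr
      _ = (B + M) + E := by ring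
      _ ≤ A + E := by gcongr
      _ ≤ A + (R + E) := by gcongr; exact le_add_self
  unfold adiff
  rcases le_total A (B + G) with h | h
  · rw [tsub_eq_zero_of_le h, zero_add]
    exact h4
  · rw [tsub_eq_zero_of_le h, add_zero]
    exact h3

end Crest.Agent.R122.IStep317
end
end

-- ▼ part R122/IStep3_317

/-!
# The first-hit identity in tree form, integrated in the translation (row 122, helper317)

* `clip` : curves clipped to `[0, T]`;
* `Hgh_clip` : clipping does not change `Hgh`;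
* `U_eq_uG`, `adiff_uG_U_le` : the half-open avoidance probability is `uG` (`t > 0`), and `1` at
  time zero;
* `BadSmall`, `ErrSmall` : the two analytic inputs;
* `first_hit_maj` : the identity with errors, in majorant form.
-/

set_option autoImplicit false

open MeasureTheory Set Filter
open scoped Classical ENNReal Topology NNReal
open Crest.AnalysisR.Kinetic

noncomputable section

namespace Crest.Agent.R122.IStep317

open Kin796 Kin796.CTree Tree674 Flow671 Loc45 Causal291 PathFlow968 Hit167 GC311 GIV566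
  TreeHit317 Relabel674

variable {Φ : Space3 → ℝ} {f₀ : PhasePoint → ℝ} {ε : ℝ} {ι : Type} {S : Tubes ι} {T tw t : ℝ}

/-! ### Clipping -/

/-- Curves clipped to `[0, T]`. -/
def clip (T : ℝ) (S : Tubes ι) : Tubes ι := ⟨fun i s => S.c i (max 0 (min s T)), S.b⟩

@[simp] theorem clip_b : (clip T S).b = S.b := rfl

theorem clip_c {i : ι} {s : ℝ} (hs : s ∈ Icc 0 T) : (clip T S).c i s = S.c i s := by
  show S.c i (max 0 (min s T)) = S.c i s
  rw [min_eq_left hs.2, max_eq_right hs.1]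


theorem clip_lip (hT : 0 ≤ T) {M : ℝ≥0} {i : ι} (h : LipschitzOnWith M (S.c i) (Icc 0 T)) :
    LipschitzWith M ((clip T S).c i) := by
  refine LipschitzWith.of_dist_le_mul fun s u => ?_
  have hm : ∀ s : ℝ, max 0 (min s T) ∈ Icc (0 : ℝ) T := fun s =>
    ⟨le_max_left _ _, max_le hT (min_le_right _ _)⟩
  refine (h.dist_le_mul _ (hm s) _ (hm u)).trans ?_
  refine mul_le_mul_of_nonneg_left ?_ M.2
  have := ((LipschitzWith.id.min_const T).const_max 0).dist_le_mul s u
  simpa using this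

theorem sInf_congr_Icc {A B : Set ℝ} (hA : ∀ s ∈ A, 0 ≤ s) (hB : ∀ s ∈ B, 0 ≤ s)
    (h : ∀ s ≤ T, s ∈ A ↔ s ∈ B) (h1 : sInf A < T) (h0 : 0 < sInf A) : sInf B = sInf A := by
  have hne : A.Nonempty := by
    by_contra hA'
    rw [not_nonempty_iff_eq_empty] at hA'
    rw [hA', Real.sInf_empty] at h0
    exact lt_irrefl _ h0
  obtain ⟨s0, hs0, hlt⟩ := exists_lt_of_csInf_lt hne h1
  have hbA : BddBelow A := ⟨0, hA⟩
  have hbB : BddBelow B := ⟨0, hB⟩
  have hs0B : s0 ∈ B := (h s0 hlt.le).1 hs0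
  refine le_antisymm ?_ ?_
  · refine le_csInf hne fun a ha => ?_
    rcases le_or_gt a T with haT | haT
    · exact csInf_le hbB ((h a haT).1 ha)
    · exact (csInf_le hbB hs0B).trans (hlt.le.trans haT.le)
  · refine le_csInf ⟨s0, hs0B⟩ fun a ha => ?_
    rcases le_or_gt a T with haT | haT
    · exact csInf_le hbA ((h a haT).2 ha)
    · exact h1.le.trans haT.le

theorem sigHit_clip {P : CTree} {z : PhasePoint × Par P}
    (h : sigHit Φ ε P S z < T) (h0 : 0 < sigHit Φ ε P S z) :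
    sigHit Φ ε P (clip T S) z = sigHit Φ ε P S z := by
  refine sInf_congr_Icc (T := T) (fun s hs => hs.1) (fun s hs => hs.1) (fun s hs => ?_) h h0
  simp only [mem_ofPred_eq, clip_b]
  refine and_congr_right fun hs0 => exists_congr fun i => ?_
  rw [clip_c ⟨hs0, hs⟩]

theorem sigHit_clip' {P : CTree} {z : PhasePoint × Par P}
    (h : sigHit Φ ε P (clip T S) z < T) (h0 : 0 < sigHit Φ ε P (clip T S) z) :
    sigHit Φ ε P (clip T S) z = sigHit Φ ε P S z := by
  refine (sInf_congr_Icc (T := T) (fun s hs => hs.1) (fun s hs => hs.1) (fun s hs => ?_) h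
    h0).symm
  simp only [mem_ofPred_eq, clip_b]
  refine and_congr_right fun hs0 => exists_congr fun i => ?_
  rw [clip_c ⟨hs0, hs⟩]

theorem firstAt_clip {P : CTree} {z : PhasePoint × Par P} {σ : ℝ} (hσ : σ ∈ Icc 0 T) :
    FirstAt Φ ε P (clip T S) z σ ↔ FirstAt Φ ε P S z σ := by
  constructor
  · rintro ⟨h1, h2, h3, h4⟩
    refine ⟨h1, h2, ?_, fun u hu m hm i hi => ?_⟩
    · obtain ⟨i, hi, hd⟩ := h3
      exact ⟨i, hi, by rwa [clip_c hσ] at hd⟩
    · have := h4 u hu m hm i hi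
      rwa [clip_c ⟨hu.1, hu.2.le.trans hσ.2⟩] at this
  · rintro ⟨h1, h2, h3, h4⟩
    refine ⟨h1, h2, ?_, fun u hu m hm i hi => ?_⟩
    · obtain ⟨i, hi, hd⟩ := h3
      exact ⟨i, hi, by rw [clip_c hσ]; exact hd⟩
    · rw [clip_c ⟨hu.1, hu.2.le.trans hσ.2⟩]
      exact h4 u hu m hm i hi

theorem uG_sum_clip {κ : Type} {S' : Tubes κ} {σ : ℝ} (hσ : σ ≤ T) :
    uG Φ f₀ ε ((clip T S).sum S') σ = uG Φ f₀ ε (S.sum S') σ := by
  refine GIVUse424.uG_congr ?_ ?_
  · funext i
    rcases i with i | i <;> rfl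
  · rintro (i | i) s hs
    · exact clip_c ⟨hs.1, hs.2.trans ((min_le_right _ _).trans hσ)⟩
    · rfl

theorem uG_clip {σ : ℝ} (hσ : σ ≤ T) : uG Φ f₀ ε (clip T S) σ = uG Φ f₀ ε S σ :=
  GIVUse424.uG_congr rfl fun _ _ hs => clip_c ⟨hs.1, hs.2.trans ((min_le_right _ _).trans hσ)⟩

theorem Hgh_clip (P : CTree) (htT : t ≤ T) :
    Hgh Φ f₀ ε P (clip T S) tw t = Hgh Φ f₀ ε P S tw t := by
  unfold Hgh
  congr 1
  refine lintegral_congr fun z => ?_
  by_cases h : sigHit Φ ε P S z ∈ Ico tw t ∧ 0 < sigHit Φ ε P S z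
  · have h1 := sigHit_clip (Φ := Φ) (ε := ε) (h.1.2.trans_le htT) h.2
    rw [h1]
    have h2 := firstAt_clip (Φ := Φ) (ε := ε) (S := S) (P := P) (z := z)
      ⟨h.2.le, h.1.2.le.trans htT⟩
    rw [h2, uG_sum_clip (h.1.2.le.trans htT)]
  · by_cases h' : sigHit Φ ε P (clip T S) z ∈ Ico tw t ∧ 0 < sigHit Φ ε P (clip T S) z
    · have h1 := sigHit_clip' (Φ := Φ) (ε := ε) (h'.1.2.trans_le htT) h'.2
      rw [h1] at h'
      exact absurd h' h
    · rw [if_neg fun h3 => h' ⟨h3.1, h3.2.1⟩, if_neg fun h3 => h ⟨h3.1, h3.2.1⟩]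

/-! ### Closed and half-open avoidance -/

theorem U_eq_uG [Finite ι] (hΦ : AdmissiblePotential Φ) (hε : 0 < ε) (ht : 0 < t)
    (hc : ∀ i, ContinuousOn (S.c i) (Icc 0 t)) :
    U f₀ Φ ε S.c S.b t = uG Φ f₀ ε S t := by
  unfold U uG
  refine le_antisymm ?_ ?_
  · refine Hit167.gcE_mono_ae f₀ ε fun n => ?_
    filter_upwards [ae_unhit_closed (θ := S.b) hΦ hε ht hc n] with Z hZ _
    unfold unhitInd
    by_cases h : Unhit (pth Φ ε Z) ε S.c S.b t
    · rw [if_pos (show unhit Φ ε S t Z from hZ.1 h)]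
      exact ind_le_one _
    · rw [ind_false h]
      exact bot_le
  · refine Hit167.gcE_mono_ae f₀ ε fun n => ?_
    filter_upwards [ae_unhit_closed (θ := S.b) hΦ hε ht hc n] with Z hZ _
    unfold unhitInd
    by_cases h : unhit Φ ε S t Z
    · rw [if_pos h, ind_true (hZ.2 h)]
    · rw [if_neg h]
      exact bot_le

theorem U_zero (hf : Measurable f₀) (h1 : ∫⁻ z, ENNReal.ofReal (f₀ z) ≤ 1) :
    U f₀ Φ ε S.c S.b 0 = 1 := by
  unfold U
  rw [← gcE_one f₀ ε hf h1]
  refine gcE_congr f₀ ε fun n Z _ => ?_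
  rw [ind_true]
  rw [unhit_iff]
  intro s hs
  exact absurd hs.2 (not_lt.2 hs.1)

theorem adiff_self (a : ℝ≥0∞) : adiff a a = 0 := by simp [adiff]

theorem adiff_uG_U_le [Fintype ι] (hΦ : AdmissiblePotential Φ) (hf : Measurable f₀)
    (h1 : ∫⁻ z, ENNReal.ofReal (f₀ z) ≤ 1) {R : ℝ≥0∞}
    (hR : ∀ x : Space3, ∫⁻ v : Space3, ENNReal.ofReal (f₀ (x, v)) ≤ R) (hε : 0 < ε) (ht : 0 ≤ t)
    (hc : ∀ i, ContinuousOn (S.c i) (Icc 0 t)) :
    adiff (uG Φ f₀ ε S t) (U f₀ Φ ε S.c S.b t) ≤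
      Fintype.card ι * (R * ENNReal.ofReal (4 / 3 * Real.pi * ε)) := by
  rcases ht.eq_or_lt with h | h
  · subst h
    rw [U_zero hf h1, adiff_self_one _ (uG_le_one hf h1)]
    exact one_sub_uG_zero_le hΦ hf h1 hR hε S
  · rw [U_eq_uG hΦ hε h hc, adiff_self]
    exact bot_le

theorem adiff_add_right_le (a b c : ℝ≥0∞) : adiff (a + c) (b + c) ≤ adiff a b := by
  unfold adiff
  exact add_le_add add_tsub_add_le_tsub_right add_tsub_add_le_tsub_right

theorem adiff_add_left_le (a b c : ℝ≥0∞) : adiff (c + a) (c + b) ≤ adiff a b := by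
  rw [add_comm c a, add_comm c b]
  exact adiff_add_right_le a b c

/-- **First-hit inequality for `uG`.** -/
theorem first_hit_uG [Fintype ι] (hΦ : AdmissiblePotential Φ) (hf : Measurable f₀)
    (h1 : ∫⁻ z, ENNReal.ofReal (f₀ z) ≤ 1) {R : ℝ≥0∞}
    (hR : ∀ x : Space3, ∫⁻ v : Space3, ENNReal.ofReal (f₀ (x, v)) ≤ R) (hε : 0 < ε)
    {M : ℝ≥0} (hc : ∀ i, LipschitzOnWith M (S.c i) (Icc 0 T)) (htw : 0 ≤ tw) (htt : tw ≤ t)
    (htT : t ≤ T) (K : ℕ) :
    adiff (uG Φ f₀ ε S t + ∑' P : CTree, if P.leaves ≤ K then Hgh Φ f₀ ε P S tw t else 0)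
        (uG Φ f₀ ε S tw) ≤
      2 * (Fintype.card ι * (R * ENNReal.ofReal (4 / 3 * Real.pi * ε))) +
      (gcE f₀ ε (fun _ Z => ind (BadR Φ ε (clip T S).c S.b (treeCls Φ ε) tw t K Z)) +
        ∑ k ∈ Finset.range (K + 1), errC Φ f₀ ε (clip T S) (treeCls Φ ε) tw t k) := by
  have hT : 0 ≤ T := htw.trans (htt.trans htT)
  have hlip : ∀ i, LipschitzWith M ((clip T S).c i) := fun i => clip_lip hT (hc i)
  have hcc : ∀ i, Continuous ((clip T S).c i) := fun i => (hlip i).continuous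
  have key := first_hit_tree (S := clip T S) hf hΦ hε hcc htw htt K
    (fun n => ae_not_multHit (M := M) hΦ hε htw (fun i => (hlip i).lipschitzOnWith) n)
  have hH : (∑' P : CTree, if P.leaves ≤ K then Hgh Φ f₀ ε P (clip T S) tw t else 0) =
      ∑' P : CTree, if P.leaves ≤ K then Hgh Φ f₀ ε P S tw t else 0 := by
    refine tsum_congr fun P => ?_
    rw [Hgh_clip P htT]
  rw [hH] at key
  have ht0 : 0 ≤ t := htw.trans htt
  have e1 := adiff_uG_U_le (S := clip T S) hΦ hf h1 hR hε ht0 fun i => (hcc i).continuousOn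
  have e2 := adiff_uG_U_le (S := clip T S) hΦ hf h1 hR hε htw fun i => (hcc i).continuousOn
  rw [uG_clip htT] at e1
  rw [uG_clip (htt.trans htT)] at e2
  set H := ∑' P : CTree, if P.leaves ≤ K then Hgh Φ f₀ ε P S tw t else 0
  set A := uG Φ f₀ ε S t
  set B := uG Φ f₀ ε S tw
  set A' := U f₀ Φ ε (clip T S).c (clip T S).b t
  set B' := U f₀ Φ ε (clip T S).c (clip T S).b tw
  set e := (Fintype.card ι * (R * ENNReal.ofReal (4 / 3 * Real.pi * ε)) : ℝ≥0∞)
  set X := (gcE f₀ ε (fun _ Z => ind (BadR Φ ε (clip T S).c (clip T S).b (treeCls Φ ε) tw t K Z)) +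
      ∑ k ∈ Finset.range (K + 1), errC Φ f₀ ε (clip T S) (treeCls Φ ε) tw t k : ℝ≥0∞) with hX
  calc adiff (A + H) B ≤ adiff (A + H) (A' + H) + adiff (A' + H) B := adiff_triangle _ _ _
    _ ≤ adiff (A + H) (A' + H) + (adiff (A' + H) B' + adiff B' B) :=
        add_le_add le_rfl (adiff_triangle _ _ _)
    _ ≤ e + (X + e) := by
        refine add_le_add ((adiff_add_right_le _ _ _).trans e1) (add_le_add ?_ ?_)
        · rw [adiff_comm]
          exact key
        · rw [adiff_comm]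
          exact e2
    _ = _ := by rw [two_mul, hX]; simp only [clip_b]; ring

/-! ### The two inputs and the integrated form -/

/-- **Bad first hits are rare** (majorant form, integrated in the translation). -/
def BadSmall (Φ : Space3 → ℝ) (f₀ : PhasePoint → ℝ) (T tw t : ℝ) : Prop :=
  ∀ (ι : Type) [Fintype ι] (Sk : ℕ → Tubes ι) (S : Tubes ι) (εk : ℕ → ℝ),
    (∀ k, 0 < εk k) → Tendsto εk atTop (𝓝 0) → TubeConv T Sk S → Generic T S →
    ∀ R δ : ℝ, 0 < δ → ∃ K₀ : ℕ, ∀ K ≥ K₀, ∀ᶠ k in atTop, ∃ maj : Space3 → ℝ≥0∞,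
      Measurable maj ∧ (∀ x, gcE f₀ (εk k) (fun _ Z => ind (BadR Φ (εk k)
        (clip T ((Sk k).shift x)).c (Sk k).b (treeCls Φ (εk k)) tw t K Z)) ≤ maj x) ∧
      ∫⁻ x in Metric.closedBall (0 : Space3) R, maj x ≤ ENNReal.ofReal δ

/-- **Real and ghost avoidance probabilities agree** (majorant form). -/
def ErrSmall (Φ : Space3 → ℝ) (f₀ : PhasePoint → ℝ) (T tw t : ℝ) : Prop :=
  ∀ (ι : Type) [Fintype ι] (Sk : ℕ → Tubes ι) (S : Tubes ι) (εk : ℕ → ℝ),
    (∀ k, 0 < εk k) → Tendsto εk atTop (𝓝 0) → TubeConv T Sk S → Generic T S →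
    ∀ (R : ℝ) (n : ℕ) (δ : ℝ), 0 < δ → ∀ᶠ k in atTop, ∃ maj : Space3 → ℝ≥0∞,
      Measurable maj ∧ (∀ x, errC Φ f₀ (εk k) (clip T ((Sk k).shift x)) (treeCls Φ (εk k))
        tw t n ≤ maj x) ∧
      ∫⁻ x in Metric.closedBall (0 : Space3) R, maj x ≤ ENNReal.ofReal δ

/-- Sum of the good first hits by trees with at most `K` particles. -/
theorem tsum_trees (K : ℕ) (g : CTree → ℝ≥0∞) :
    (∑' P : CTree, if P.leaves ≤ K then g P else 0) = ∑ P ∈ GIVStep383.trees K, g P := by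
  rw [tsum_eq_sum (s := GIVStep383.trees K)]
  · refine Finset.sum_congr rfl fun P hP => ?_
    rw [if_pos (GIVStep383.mem_trees.1 hP)]
  · intro P hP
    rw [if_neg fun h => hP (GIVStep383.mem_trees.2 h)]

/-- **The first-hit identity, integrated in the translation, in majorant form.** -/
theorem first_hit_maj (hΦ : AdmissiblePotential Φ) (hf : Measurable f₀)
    (h1 : ∫⁻ z, ENNReal.ofReal (f₀ z) ≤ 1) {Q : ℝ≥0∞} (hQ : Q ≠ ∞)
    (hQb : ∀ x : Space3, ∫⁻ v : Space3, ENNReal.ofReal (f₀ (x, v)) ≤ Q)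
    (htw : 0 ≤ tw) (htt : tw ≤ t) (htT : t ≤ T)
    (hB : BadSmall Φ f₀ T tw t) (hE : ErrSmall Φ f₀ T tw t)
    (ι : Type) [Fintype ι] {Sk : ℕ → Tubes ι} {S : Tubes ι} {εk : ℕ → ℝ}
    (hεk : ∀ k, 0 < εk k) (hlim : Tendsto εk atTop (𝓝 0)) (hc : TubeConv T Sk S)
    (hg : Generic T S) (R : ℝ) {δ : ℝ} (hδ : 0 < δ) :
    ∃ K₀ : ℕ, ∀ K ≥ K₀, ∀ᶠ k in atTop, ∃ maj : Space3 → ℝ≥0∞, Measurable maj ∧
      (∀ x, adiff (uG Φ f₀ (εk k) ((Sk k).shift x) t +
        ∑ P ∈ GIVStep383.trees K, Hgh Φ f₀ (εk k) P ((Sk k).shift x) tw t)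
        (uG Φ f₀ (εk k) ((Sk k).shift x) tw) ≤ maj x) ∧
      ∫⁻ x in Metric.closedBall (0 : Space3) R, maj x ≤ ENNReal.ofReal δ := by
  obtain ⟨K₀, hK₀⟩ := hB ι Sk S εk hεk hlim hc hg R (δ / 3) (by positivity)
  refine ⟨K₀, fun K hK => ?_⟩
  have hE' : ∀ᶠ k in atTop, ∀ n ∈ Finset.range (K + 1), ∃ maj : Space3 → ℝ≥0∞,
      Measurable maj ∧ (∀ x, errC Φ f₀ (εk k) (clip T ((Sk k).shift x)) (treeCls Φ (εk k))
        tw t n ≤ maj x) ∧
      ∫⁻ x in Metric.closedBall (0 : Space3) R, maj x ≤ ENNReal.ofReal (δ / (3 * (K + 1))) := by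
    rw [Finset.eventually_all]
    intro n _
    exact hE ι Sk S εk hεk hlim hc hg R n _ (by positivity)
  -- the boundary term at time zero
  set e : ℕ → ℝ≥0∞ := fun k => 2 * (Fintype.card ι * (Q * ENNReal.ofReal (4 / 3 * Real.pi * εk k)))
    with he
  have hv : volume (Metric.closedBall (0 : Space3) R) ≠ ∞ := measure_closedBall_lt_top.ne
  have hlime : Tendsto (fun k => e k * volume (Metric.closedBall (0 : Space3) R)) atTop (𝓝 0) := by
    have h2 : Tendsto (fun k => ENNReal.ofReal (4 / 3 * Real.pi * εk k)) atTop (𝓝 0) := by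
      have := (ENNReal.continuous_ofReal.tendsto _).comp (hlim.const_mul (4 / 3 * Real.pi))
      rw [mul_zero, ENNReal.ofReal_zero] at this
      exact this
    have h3 : Tendsto (fun k => e k * volume (Metric.closedBall (0 : Space3) R)) atTop
        (𝓝 (2 * (Fintype.card ι * (Q * 0)) * volume (Metric.closedBall (0 : Space3) R))) := by
      refine ENNReal.Tendsto.mul_const ?_ (Or.inr hv)
      refine ENNReal.Tendsto.const_mul ?_ (Or.inr (by norm_num))
      refine ENNReal.Tendsto.const_mul ?_ (Or.inr (ENNReal.natCast_ne_top _))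
      exact ENNReal.Tendsto.const_mul h2 (Or.inr hQ)
    simpa using h3
  have hev : ∀ᶠ k in atTop, e k * volume (Metric.closedBall (0 : Space3) R) ≤
      ENNReal.ofReal (δ / 3) :=
    (hlime.eventually_lt_const (by simpa using (by positivity : 0 < δ / 3))).mono
      fun _ h => h.le
  obtain ⟨M, hM, -⟩ := hc.lip
  filter_upwards [hK₀ K hK, hE', hev, hM] with k hk1 hk2 hk3 hk4
  obtain ⟨mB, hmB, hB1, hB2⟩ := hk1
  choose! mE hmE hE1 hE2 using hk2
  refine ⟨fun x => e k + (mB x + ∑ n ∈ Finset.range (K + 1), mE n x),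
    measurable_const.add (hmB.add (Finset.measurable_sum _ fun n hn => hmE n hn)), fun x => ?_, ?_⟩
  · have hlipx : ∀ i, LipschitzOnWith M (((Sk k).shift x).c i) (Icc 0 T) := by
      intro i
      refine LipschitzOnWith.of_dist_le_mul fun s hs u hu => ?_
      show dist ((Sk k).c i s + x) ((Sk k).c i u + x) ≤ _
      rw [dist_add_right]
      exact (hk4 i).dist_le_mul s hs u hu
    have := first_hit_uG (S := (Sk k).shift x) hΦ hf h1 hQb (hεk k) hlipx htw htt htT K
    rw [tsum_trees] at this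
    refine this.trans (add_le_add le_rfl (add_le_add (hB1 x) (Finset.sum_le_sum fun n hn => ?_)))
    exact hE1 n hn x
  · rw [lintegral_add_left measurable_const, lintegral_add_left hmB,
      lintegral_finsetSum _ fun n hn => hmE n hn, setLIntegral_const]
    calc e k * volume (Metric.closedBall (0 : Space3) R) +
        ((∫⁻ x in Metric.closedBall (0 : Space3) R, mB x) +
          ∑ n ∈ Finset.range (K + 1), ∫⁻ x in Metric.closedBall (0 : Space3) R, mE n x)
        ≤ ENNReal.ofReal (δ / 3) + (ENNReal.ofReal (δ / 3) +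
          ∑ _n ∈ Finset.range (K + 1), ENNReal.ofReal (δ / (3 * (K + 1)))) :=
          add_le_add hk3 (add_le_add hB2 (Finset.sum_le_sum fun n hn => hE2 n hn))
      _ = ENNReal.ofReal δ := by
          rw [Finset.sum_const, Finset.card_range, nsmul_eq_mul]
          have h3 : ((K + 1 : ℕ) : ℝ≥0∞) = ENNReal.ofReal (K + 1) := by
            rw [← Nat.cast_succ, ENNReal.ofReal_natCast]
          rw [h3, ← ENNReal.ofReal_mul (by positivity), ← ENNReal.ofReal_add (by positivity)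
            (by positivity), ← ENNReal.ofReal_add (by positivity) (by positivity)]
          congr 1
          field_simp
          ring

end Crest.Agent.R122.IStep317
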