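import Crest.Agent.R122.EW_370
import Crest.Agent.R122.CausalMeas_291

/-!
# From no escape to the first-moment form (row 122, helper370)

* `bandMass Φ f₀ ε K₁ K t` : expected mass of the particles with `K₁ < |bc| ≤ K`.
* `escMass_le_band` : `escMass K₁ ≤ bandMass K₁ K + escMass K`.
* `Band Φ f₀ t τ` : `limsup_ε bandMass K₁ K ≤ τ K₁` for all `K₁`, `K`.
* `NEK_of_band` : `NE t`, `Band t τ` and `K τ_K → 0` imply `NEK t`, hence energy-weighted no escape.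
-/

set_option autoImplicit false
open MeasureTheory Set
open scoped Classical ENNReal
open Crest.AnalysisR.Kinetic
open Crest.Agent.R122.GC311 Crest.Agent.R122.Causal291 Crest.Agent.R122.Master566
open Crest.Agent.R122.EW370
noncomputable section

namespace Crest.Agent.R122.NEK370

variable {Φ : Space3 → ℝ} {f₀ : PhasePoint → ℝ} {ε : ℝ}

/-- Number of particles whose backward cluster has a size in a given set. -/
def cnt (Φ : Space3 → ℝ) (ε : ℝ) (S : Set ℕ) (t : ℝ) {n : ℕ} (Z : Config n) : ℕ :=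
  (Finset.univ.filter fun i : Fin n => (bc Φ ε Z t i).ncard ∈ S).card

/-- Expected mass of the particles whose backward cluster has a size in a given set. -/
def sizeMass (Φ : Space3 → ℝ) (f₀ : PhasePoint → ℝ) (ε : ℝ) (S : Set ℕ) (t : ℝ) : ℝ≥0∞ :=
  gcE f₀ ε fun _ Z => (activity ε)⁻¹ * (cnt Φ ε S t Z : ℝ≥0∞)

theorem measurable_ncard_bc (hΦ : AdmissiblePotential Φ) (hε : 0 < ε) (t : ℝ) {n : ℕ}
    (i : Fin n) : Measurable fun Z : Config n => (bc Φ ε Z t i).ncard := by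
  have h := (measurable_ncard_BC_pth (ι := Fin n) hΦ hε i).comp
      ((measurable_const : Measurable fun _ : Config n => t).prodMk measurable_id)
  exact h

theorem cnt_eq (S : Set ℕ) (t : ℝ) {n : ℕ} (Z : Config n) : (cnt Φ ε S t Z : ℝ≥0∞) =
      ∑ i : Fin n, S.indicator (fun _ => (1 : ℝ≥0∞)) (bc Φ ε Z t i).ncard := by
  unfold cnt
  rw [Finset.card_filter, Nat.cast_sum]
  refine Finset.sum_congr rfl fun i _ => ?_
  by_cases h : (bc Φ ε Z t i).ncard ∈ S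
  · rw [if_pos h, indicator_of_mem h, Nat.cast_one]
  · rw [if_neg h, indicator_of_notMem h, Nat.cast_zero]

theorem measurable_cnt (hΦ : AdmissiblePotential Φ) (hε : 0 < ε) (S : Set ℕ) (t : ℝ) (n : ℕ) :
    Measurable fun Z : Config n => (cnt Φ ε S t Z : ℝ≥0∞) := by
  simp only [cnt_eq]
  refine Finset.measurable_sum _ fun i _ => ?_
  have h3 : Measurable fun k : ℕ => S.indicator (fun _ => (1 : ℝ≥0∞)) k := measurable_from_top
  exact h3.comp (measurable_ncard_bc hΦ hε t i)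

/-- Expected mass of the particles with `K₁ < |bc| ≤ K`. -/
def bandMass (Φ : Space3 → ℝ) (f₀ : PhasePoint → ℝ) (ε : ℝ) (K₁ K : ℕ) (t : ℝ) : ℝ≥0∞ :=
  sizeMass Φ f₀ ε (Ioc K₁ K) t

theorem escMass_eq_sizeMass (K : ℕ) (t : ℝ) :
    escMass Φ f₀ ε K t = sizeMass Φ f₀ ε (Ioi K) t := by
  unfold escMass sizeMass cnt
  refine gcE_congr f₀ ε fun n Z _ => ?_
  have h : (Finset.univ.filter fun i : Fin n => K < (bc Φ ε Z t i).ncard) =
      (Finset.univ.filter fun i : Fin n => (bc Φ ε Z t i).ncard ∈ Ioi K) := by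
    ext i
    simp only [Finset.mem_filter, mem_Ioi]
  rw [h]
  congr!

theorem sizeMass_mono {S S' : Set ℕ} (h : S ⊆ S') (t : ℝ) :
    sizeMass Φ f₀ ε S t ≤ sizeMass Φ f₀ ε S' t := by
  refine gcE_mono f₀ ε fun n Z _ => ?_
  refine mul_le_mul_right (Nat.cast_le.2 (Finset.card_le_card ?_)) _
  intro i hi
  simp only [Finset.mem_filter] at hi ⊢
  exact ⟨hi.1, h hi.2⟩

theorem sizeMass_union_le (hΦ : AdmissiblePotential Φ) (hf : Measurable f₀) (hε : 0 < ε)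
    (S S' : Set ℕ) (t : ℝ) :
    sizeMass Φ f₀ ε (S ∪ S') t ≤ sizeMass Φ f₀ ε S t + sizeMass Φ f₀ ε S' t := by
  unfold sizeMass
  rw [← gcE_add hf ε (F := fun _ Z => (activity ε)⁻¹ * (cnt Φ ε S t Z : ℝ≥0∞))
    fun n => (measurable_cnt hΦ hε S t n).const_mul _]
  refine gcE_mono f₀ ε fun n Z _ => ?_
  rw [← mul_add, ← Nat.cast_add]
  refine mul_le_mul_right (Nat.cast_le.2 ?_) _
  unfold cnt
  refine le_trans (Finset.card_le_card ?_) (Finset.card_union_le _ _)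
  intro i hi
  simp only [Finset.mem_filter, Finset.mem_union] at hi ⊢
  rcases hi.2 with h | h
  · exact Or.inl ⟨hi.1, h⟩
  · exact Or.inr ⟨hi.1, h⟩

theorem escMass_le_band (hΦ : AdmissiblePotential Φ) (hf : Measurable f₀) (hε : 0 < ε)
    (K₁ K : ℕ) (t : ℝ) :
    escMass Φ f₀ ε K₁ t ≤ bandMass Φ f₀ ε K₁ K t + escMass Φ f₀ ε K t := by
  rw [escMass_eq_sizeMass, escMass_eq_sizeMass]
  refine le_trans (sizeMass_mono ?_ t) (sizeMass_union_le hΦ hf hε _ _ t)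
  intro k hk
  rcases le_or_gt k K with h | h
  · exact Or.inl ⟨hk, h⟩
  · exact Or.inr h

/-- The band bound delivered by the identification: `limsup_ε bandMass K₁ K ≤ τ K₁`. -/
def Band (Φ : Space3 → ℝ) (f₀ : PhasePoint → ℝ) (t : ℝ) (τ : ℕ → ℝ) : Prop :=
  ∀ K₁ K : ℕ, ∀ δ : ℝ, 0 < δ → ∃ ε₀ : ℝ, 0 < ε₀ ∧ ∀ ε : ℝ, 0 < ε → ε < ε₀ →
    bandMass Φ f₀ ε K₁ K t ≤ ENNReal.ofReal (τ K₁ + δ)

/-- No escape and the band bound give the tail bound for `escMass`. -/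
theorem escMass_le_of_band (hΦ : AdmissiblePotential Φ) (hf : Measurable f₀) {t : ℝ}
    (hN : NE Φ f₀ t) {τ : ℕ → ℝ} (hτ : ∀ K, 0 ≤ τ K) (hB : Band Φ f₀ t τ) (K₁ : ℕ) {δ : ℝ}
    (hδ : 0 < δ) :
    ∃ ε₀ : ℝ, 0 < ε₀ ∧ ∀ ε : ℝ, 0 < ε → ε < ε₀ →
      escMass Φ f₀ ε K₁ t ≤ ENNReal.ofReal (τ K₁ + δ) := by
  obtain ⟨K, ε₁, hε₁, h1⟩ := hN (δ / 2) (by positivity)
  obtain ⟨ε₂, hε₂, h2⟩ := hB K₁ K (δ / 2) (by positivity)
  refine ⟨min ε₁ ε₂, lt_min hε₁ hε₂, fun ε hε hlt => ?_⟩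
  calc escMass Φ f₀ ε K₁ t ≤ bandMass Φ f₀ ε K₁ K t + escMass Φ f₀ ε K t :=
        escMass_le_band hΦ hf hε K₁ K t
    _ ≤ ENNReal.ofReal (τ K₁ + δ / 2) + ENNReal.ofReal (δ / 2) :=
        add_le_add (h2 ε hε (hlt.trans_le (min_le_right _ _)))
          (h1 ε hε (hlt.trans_le (min_le_left _ _)))
    _ = ENNReal.ofReal (τ K₁ + δ) := by
        rw [← ENNReal.ofReal_add (by have := hτ K₁; positivity) (by positivity)]
        congr 1; ring

/-- **`NEK` from the band bound.** -/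
theorem NEK_of_band (hΦ : AdmissiblePotential Φ) (hf : Measurable f₀) {t : ℝ}
    (hN : NE Φ f₀ t) {τ : ℕ → ℝ} (hτ : ∀ K, 0 ≤ τ K) (hB : Band Φ f₀ t τ)
    (hlim : Filter.Tendsto (fun K : ℕ => (K : ℝ) * τ K) Filter.atTop (nhds 0)) :
    NEK Φ f₀ t := by
  intro δ hδ
  obtain ⟨K₀, hK₀⟩ := Filter.eventually_atTop.1 (hlim.eventually (gt_mem_nhds (half_pos hδ)))
  refine ⟨K₀, fun K hK => ?_⟩
  obtain ⟨ε₀, hε₀, h1⟩ := escMass_le_of_band hΦ hf hN hτ hB K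
    (δ := δ / 2 / (K + 1)) (by positivity)
  refine ⟨ε₀, hε₀, fun ε hε hlt => ?_⟩
  calc (K : ℝ≥0∞) * escMass Φ f₀ ε K t
      ≤ ENNReal.ofReal K * ENNReal.ofReal (τ K + δ / 2 / (K + 1)) := by
        rw [ENNReal.ofReal_natCast]
        exact mul_le_mul_right (h1 ε hε hlt) _
    _ = ENNReal.ofReal (K * τ K + K / (K + 1) * (δ / 2)) := by
        rw [← ENNReal.ofReal_mul (by positivity)]
        congr 1
        field_simp
    _ ≤ ENNReal.ofReal δ := by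
        refine ENNReal.ofReal_le_ofReal ?_
        have h2 := hK₀ K hK
        have h3 : (K : ℝ) / (K + 1) ≤ 1 := by
          rw [div_le_one (by positivity)]
          linarith
        have h4 : (K : ℝ) / (K + 1) * (δ / 2) ≤ 1 * (δ / 2) :=
          mul_le_mul_of_nonneg_right h3 (by positivity)
        linarith

/-- Geometric tails (814 `exists_TR_L1`). -/
theorem NEK_of_geometric (hΦ : AdmissiblePotential Φ) (hf : Measurable f₀) {t : ℝ}
    (hN : NE Φ f₀ t) {r C : ℝ} (hr0 : 0 ≤ r) (hr1 : r < 1) (hC : 0 ≤ C)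
    (hB : Band Φ f₀ t fun K => r ^ K * C) : NEK Φ f₀ t := by
  refine NEK_of_band hΦ hf hN (fun K => by positivity) hB ?_
  have h1 : Filter.Tendsto (fun K : ℕ => (K : ℝ) * r ^ K) Filter.atTop (nhds 0) :=
    tendsto_self_mul_const_pow_of_lt_one hr0 hr1
  have h2 := h1.mul_const C
  rw [zero_mul] at h2
  refine h2.congr fun K => ?_
  ring


/-- `NEK` is monotone in time. -/
theorem NEK_mono {t₁ t₂ : ℝ} (h : NEK Φ f₀ t₂) (ht : t₁ ≤ t₂) : NEK Φ f₀ t₁ := by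
  intro δ hδ
  obtain ⟨K₀, hK₀⟩ := h δ hδ
  refine ⟨K₀, fun K hK => ?_⟩
  obtain ⟨ε₀, hε₀, h1⟩ := hK₀ K hK
  exact ⟨ε₀, hε₀, fun ε hε hlt =>
    (mul_le_mul_right (escMass_mono_time ht) _).trans (h1 ε hε hlt)⟩


/-- **Energy-weighted no escape, uniformly on `[0,t]`.** The threshold `K₀` and `ε₀` do not
depend on the time. -/
theorem escEnergy_small_unif (hΦ : AdmissiblePotential Φ) (hf : Measurable f₀)
    (h1 : ∫⁻ z, ENNReal.ofReal (f₀ z) ≤ 1)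
    (h2 : ∫⁻ z, ENNReal.ofReal (f₀ z) * ENNReal.ofReal (‖z.2‖ ^ 2) ≠ ∞)
    {t : ℝ} (hN : NEK Φ f₀ t) {δ : ℝ} (hδ : 0 < δ) :
    ∃ K₀ : ℕ, ∀ K : ℕ, K₀ ≤ K → ∃ ε₀ : ℝ, 0 < ε₀ ∧ ∀ ε : ℝ, 0 < ε → ε < ε₀ →
      ∀ s : ℝ, 0 ≤ s → s ≤ t → escEnergy Φ f₀ ε K s ≤ ENNReal.ofReal δ := by
  have hB := Loc45.stabB_nonneg Φ
  have h3 := (hotMass_tendsto hf h2).eventually (gt_mem_nhds (ENNReal.ofReal_pos.2 (half_pos hδ)))
  obtain ⟨R, hR⟩ := h3.exists
  set c : ℝ := 1 + 2 * Loc45.stabB Φ + (R ^ 2 + 2 * Loc45.stabB Φ) with hc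
  have hc0 : 0 < c := by positivity
  obtain ⟨K₀, hK₀⟩ := hN (δ / 2 / c) (by positivity)
  refine ⟨max K₀ 1, fun K hK => ?_⟩
  obtain ⟨ε₀, hε₀, h4⟩ := hK₀ K ((le_max_left _ _).trans hK)
  refine ⟨ε₀, hε₀, fun ε hε hlt s hs hst => ?_⟩
  have hK1 : 1 ≤ K := (le_max_right _ _).trans hK
  have h5 := escEnergy_le hΦ hf h1 hε hK1 hs (R := (R : ℝ)) (by positivity)
  have h6 := (mul_le_mul_right (escMass_mono_time (Φ := Φ) (f₀ := f₀) (ε := ε) (K := K) hst)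
    (K : ℝ≥0∞)).trans (h4 ε hε hlt)
  have h7 : ENNReal.ofReal (1 + 2 * Loc45.stabB Φ + K * ((R : ℝ) ^ 2 + 2 * Loc45.stabB Φ)) ≤
      ENNReal.ofReal c * (K : ℝ≥0∞) := by
    rw [← ENNReal.ofReal_natCast K, ← ENNReal.ofReal_mul hc0.le]
    refine ENNReal.ofReal_le_ofReal ?_
    have hK1' : (1 : ℝ) ≤ K := by exact_mod_cast hK1
    rw [hc]
    nlinarith
  calc escEnergy Φ f₀ ε K s
      ≤ hotMass f₀ R + ENNReal.ofReal (1 + 2 * Loc45.stabB Φ +
          K * ((R : ℝ) ^ 2 + 2 * Loc45.stabB Φ)) * escMass Φ f₀ ε K s := h5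
    _ ≤ ENNReal.ofReal (δ / 2) + ENNReal.ofReal c * (K : ℝ≥0∞) * escMass Φ f₀ ε K s := by
        gcongr
    _ = ENNReal.ofReal (δ / 2) + ENNReal.ofReal c * ((K : ℝ≥0∞) * escMass Φ f₀ ε K s) := by
        rw [mul_assoc]
    _ ≤ ENNReal.ofReal (δ / 2) + ENNReal.ofReal c * ENNReal.ofReal (δ / 2 / c) := by
        gcongr
    _ = ENNReal.ofReal δ := by
        rw [← ENNReal.ofReal_mul hc0.le, mul_div_cancel₀ _ hc0.ne',
          ← ENNReal.ofReal_add (by positivity) (by positivity), add_halves]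

end Crest.Agent.R122.NEK370
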