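import Crest.Agent.R122.BoltzL1c_814
import Crest.Agent.R122.BoltzEn2_814

-- ▼ part R122/KinL1a_263
section

/-!
Row 122 (helper263): `x`-integrated (`L¹`) energy moments, part 1.

* `gronwall_sing` : the singular Gronwall induction.
* `phI_duh` : one Duhamel step in weighted `L¹`.
* `L1_P` : `L¹` exponential moment of the Picard iterates for a general damping `D ≤ 1` and a
  general datum.
* `L1_FS` : the same for the finite sums of `FS` (no damping on the straight line of the root).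
-/

set_option autoImplicit false
set_option linter.unusedSectionVars false
set_option maxHeartbeats 1000000

open MeasureTheory ProbabilityTheory Set
open Crest.AnalysisR.Kinetic
open Crest.Agent.R122.Boltz814 Crest.Agent.R122.Kin416 Crest.Agent.R122.Kin796
  Crest.Agent.R122.Disc416 Crest.Agent.R122.Seg814
open scoped Classical ENNReal

noncomputable section

namespace Crest.Agent.R122.KinL1

variable {Φ : Space3 → ℝ}

/-- the singular Gronwall induction -/
theorem gronwall_sing {A0 : ℝ≥0∞} {CB lb μ T1 : ℝ} (hμ : 0 < μ)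
    (hker : ∫⁻ u in Ioi (0 : ℝ), ENNReal.ofReal (CB * (1 + 1 / Real.sqrt (lb * u)) *
      Real.exp (-μ * u)) ≤ ENNReal.ofReal (1 / 2)) (hCB : 0 ≤ CB)
    {φ : ℕ → ℝ → ℝ≥0∞} (h0 : ∀ t ∈ Icc 0 T1, φ 0 t = 0)
    (hs : ∀ n, ∀ t ∈ Icc 0 T1, φ (n + 1) t ≤ A0 + ∫⁻ s in Ioo 0 t,
      ENNReal.ofReal (CB * (1 + 1 / Real.sqrt (lb * (t - s)))) * φ n s) (hA0 : A0 ≠ ∞) :
    ∀ n, ∀ t ∈ Icc 0 T1, φ n t ≤ ENNReal.ofReal (Real.exp (μ * t)) * (2 * A0) := by
  intro n
  induction n with
  | zero => intro t ht; rw [h0 t ht]; exact bot_le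
  | succ n ih =>
    intro t ht
    have h8 : (1 : ℝ≥0∞) ≤ ENNReal.ofReal (Real.exp (μ * t)) := by
      rw [← ENNReal.ofReal_one]
      exact ENNReal.ofReal_le_ofReal (Real.one_le_exp (mul_nonneg hμ.le ht.1))
    have h7 : ∫⁻ s in Ioo 0 t, ENNReal.ofReal (CB * (1 + 1 / Real.sqrt (lb * (t - s)))) * φ n s ≤
        ENNReal.ofReal (Real.exp (μ * t)) * A0 := by
      calc ∫⁻ s in Ioo 0 t, ENNReal.ofReal (CB * (1 + 1 / Real.sqrt (lb * (t - s)))) * φ n s
          ≤ ∫⁻ s in Ioo 0 t, ENNReal.ofReal (CB * (1 + 1 / Real.sqrt (lb * (t - s))) *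
              Real.exp (μ * s)) * (2 * A0) := by
            refine setLIntegral_mono' measurableSet_Ioo fun s hs => ?_
            have hs' : s ∈ Icc 0 T1 := ⟨hs.1.le, hs.2.le.trans ht.2⟩
            refine (mul_le_mul' le_rfl (ih s hs')).trans (le_of_eq ?_)
            rw [← mul_assoc, ← ENNReal.ofReal_mul (by positivity)]
        _ ≤ ∫⁻ s in Ioc 0 t, ENNReal.ofReal (CB * (1 + 1 / Real.sqrt (lb * (t - s))) *
              Real.exp (μ * s)) * (2 * A0) := lintegral_mono_set Ioo_subset_Ioc_self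
        _ = (∫⁻ s in Ioc 0 t, ENNReal.ofReal (CB * (1 + 1 / Real.sqrt (lb * (t - s))) *
              Real.exp (μ * s))) * (2 * A0) :=
              lintegral_mul_const' _ _ (ENNReal.mul_ne_top (by simp) hA0)
        _ ≤ (ENNReal.ofReal (Real.exp (μ * t)) * ENNReal.ofReal (1 / 2)) * (2 * A0) :=
              mul_le_mul' (lintegral_singular_le hker t) le_rfl
        _ = ENNReal.ofReal (Real.exp (μ * t)) * (ENNReal.ofReal (1 / 2) * 2) * A0 := by ring
        _ = ENNReal.ofReal (Real.exp (μ * t)) * A0 := by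
              have : ENNReal.ofReal (1 / 2) * 2 = 1 := by
                rw [show (2 : ℝ≥0∞) = ENNReal.ofReal 2 by simp, ← ENNReal.ofReal_mul (by norm_num)]
                norm_num
              rw [this, mul_one]
    calc φ (n + 1) t ≤ A0 + ENNReal.ofReal (Real.exp (μ * t)) * A0 :=
          (hs n t ht).trans (add_le_add le_rfl h7)
      _ ≤ ENNReal.ofReal (Real.exp (μ * t)) * A0 + ENNReal.ofReal (Real.exp (μ * t)) * A0 := by
          gcongr
          calc A0 = 1 * A0 := (one_mul _).symm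
            _ ≤ _ := mul_le_mul' h8 le_rfl
      _ = _ := by ring

/-- one Duhamel step in weighted `L¹` -/
theorem phI_duh {W : Space3 → Space3 → ℝ≥0∞} {g0 : Space3 → Space3 → ℝ≥0∞}
    {R : ℝ → Space3 → Space3 → ℝ≥0∞} {w : Space3 → ℝ≥0∞} (hw : Measurable w)
    (hg : Measurable fun p : Space3 × Space3 => g0 p.1 p.2) (hR : Meas3 R) (t : ℝ)
    (hW : ∀ x v, W x v ≤ g0 (x - t • v) v + ∫⁻ s in Ioc 0 t, R s (x - (t - s) • v) v) :
    phI (fun x v => w v * W x v) ≤ phI (fun x v => w v * g0 x v) +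
      ∫⁻ s in Ioo 0 t, phI (fun x v => w v * R s x v) := by
  have hpt : ∀ x v, w v * W x v ≤ w v * g0 (x - t • v) v +
      ∫⁻ s in Ioc 0 t, w v * R s (x - (t - s) • v) v := by
    intro x v
    have hm1 : Measurable fun s => R s (x - (t - s) • v) v := by
      have hm : Measurable fun s : ℝ => (s, x - (t - s) • v, v) := by fun_prop
      exact Measurable.comp hR hm
    rw [lintegral_const_mul _ hm1, ← mul_add]
    exact mul_le_mul' le_rfl (hW x v)
  refine (phI_mono hpt).trans ?_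
  have hf0m : Measurable (Function.uncurry fun x v : Space3 => w v * g0 x v) :=
    (hw.comp measurable_snd).mul hg
  have hf0m' : Measurable (Function.uncurry fun x v : Space3 => w v * g0 (x - t • v) v) := by
    have hm : Measurable fun p : Space3 × Space3 => (p.1 - t • p.2, p.2) := by fun_prop
    exact hf0m.comp hm
  rw [phI_add hf0m', phI_transport (G := fun x v => w v * g0 x v) hf0m]
  refine add_le_add le_rfl ?_
  have ha : Measurable fun p : ℝ × Space3 × Space3 => w p.2.2 *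
      R p.1 (p.2.1 - (t - p.1) • p.2.2) p.2.2 := by
    refine Measurable.mul (hw.comp (by fun_prop)) ?_
    have hm : Measurable fun p : ℝ × Space3 × Space3 =>
      (p.1, p.2.1 - (t - p.1) • p.2.2, p.2.2) := by fun_prop
    have h2 := Measurable.comp hR hm
    exact h2
  rw [phI_time (a := fun s x v => w v * R s (x - (t - s) • v) v) _ ha,
    setLIntegral_congr Ioo_ae_eq_Ioc.symm]
  refine lintegral_mono fun s => ?_
  have hG : Measurable (Function.uncurry fun x v : Space3 => w v * R s x v) := by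
    refine (hw.comp measurable_snd).mul ?_
    exact meas3_uncurry hR s
  exact le_of_eq (phI_transport (G := fun x v => w v * R s x v) hG (t - s))

/-- weight exchange -/
theorem weight_exchange {b T1 : ℝ} (hb : 0 < b) (hT1 : 0 < T1) {s t : ℝ} (hst : s < t)
    (v : Space3) : ENNReal.ofReal (1 + ‖v‖) * gau (-(gam b T1 t)) v ≤
      ENNReal.ofReal (1 + 1 / Real.sqrt (b / (4 * T1) * (t - s))) * gau (-(gam b T1 s)) v := by
  have hlb0 : 0 < b / (4 * T1) := by positivity
  have h5 : gau (-(gam b T1 t)) v = gau (b / (4 * T1) * (t - s)) v * gau (-(gam b T1 s)) v := by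
    rw [← gau_add]; congr 1; unfold gam; ring
  rw [h5, ← mul_assoc]
  refine mul_le_mul' ?_ le_rfl
  unfold gau
  rw [← ENNReal.ofReal_mul (by positivity)]
  refine ENNReal.ofReal_le_ofReal ?_
  exact one_add_mul_exp_le hlb0 (by linarith)

/-- one gain step in weighted `L¹` -/
theorem gain_le (hΦ : AdmissiblePotential Φ) {b A T1 : ℝ} (hb : 0 < b) (hT1 : 0 < T1)
    {s t : ℝ} (hs0 : 0 ≤ s) (hst : s < t) (htT : t ≤ T1)
    {h : Space3 → Space3 → ℝ≥0∞} (hm : Measurable fun p : Space3 × Space3 => h p.1 p.2)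
    (hA : ∀ x v, h x v ≤ ENNReal.ofReal A * gau b v) :
    phI (fun x v => gau (-(gam b T1 t)) v * Q (kapQ Φ) (h x) (h x) v) ≤
      (ENNReal.ofReal A * CG (b / 2) *
        ENNReal.ofReal (1 + 1 / Real.sqrt (b / (4 * T1) * (t - s)))) *
        phI (fun x v => gau (-(gam b T1 s)) v * h x v) := by
  have hS := Scat818.scatFacts hΦ
  have hgt := gam_mem hb hT1 (t := t) ⟨hs0.trans hst.le, htT⟩
  have hgt0 : 0 ≤ gam b T1 t := le_trans (by positivity) hgt.1
  have h3 : ∀ x, ∫⁻ v, gau (-(gam b T1 t)) v * Q (kapQ Φ) (h x) (h x) v ≤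
      ∫⁻ v, (ENNReal.ofReal A * CG (b / 2) *
        ENNReal.ofReal (1 + 1 / Real.sqrt (b / (4 * T1) * (t - s)))) *
          (gau (-(gam b T1 s)) v * h x v) := by
    intro x
    have hslice : Measurable (h x) := hm.comp measurable_prodMk_left
    have hQe : ∀ v, Q (kapQ Φ) (h x) (h x) v = Qp Φ (h x) (h x) v := fun v =>
      Q_kapQ hS hslice hslice v
    simp_rw [hQe]
    refine (lintegral_gau_mul_Qp_le' hΦ (δ := b / 2) hgt0 hslice hslice
      (A := ENNReal.ofReal A) ?_).trans ?_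
    · intro w
      refine (hA x w).trans (mul_le_mul' le_rfl (gau_antitone ?_ w))
      linarith [hgt.2]
    · refine lintegral_mono fun v => ?_
      have h4 := weight_exchange hb hT1 hst v
      calc ENNReal.ofReal A * CG (b / 2) * ENNReal.ofReal (1 + ‖v‖) *
            (gau (-(gam b T1 t)) v * h x v)
          = ENNReal.ofReal A * CG (b / 2) * (ENNReal.ofReal (1 + ‖v‖) *
            gau (-(gam b T1 t)) v) * h x v := by ring
        _ ≤ ENNReal.ofReal A * CG (b / 2) *
            (ENNReal.ofReal (1 + 1 / Real.sqrt (b / (4 * T1) * (t - s))) *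
              gau (-(gam b T1 s)) v) * h x v := by gcongr
        _ = _ := by ring
  have hm' : Measurable (Function.uncurry fun x v : Space3 => gau (-(gam b T1 s)) v * h x v) :=
    ((measurable_gau _).comp measurable_snd).mul hm
  rw [← phI_const_mul hm']
  exact lintegral_mono h3

/-- `L¹` exponential moment of the Picard iterates. The constant `μ` only depends on
`lam, A, b, T1`. -/
theorem L1_P (hΦ : AdmissiblePotential Φ) {lam A b T1 : ℝ} (hlam : 0 ≤ lam) (hA0 : 0 ≤ A)
    (hb : 0 < b) (hT1 : 0 < T1) {μ : ℝ} (hμ : 0 < μ)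
    (hker : ∫⁻ u in Ioi (0 : ℝ), ENNReal.ofReal (lam * A * (CG (b / 2)).toReal *
      (1 + 1 / Real.sqrt (b / (4 * T1) * u)) * Real.exp (-μ * u)) ≤ ENNReal.ofReal (1 / 2))
    {D : ℝ → ℝ → Space3 → Space3 → ℝ≥0∞} (hD : Meas4 D) (hD1 : ∀ s t x v, D s t x v ≤ 1)
    {f0 : Space3 → Space3 → ℝ≥0∞} (hf0 : Measurable fun p : Space3 × Space3 => f0 p.1 p.2)
    {T2 : ℝ} (hT2 : T2 ≤ T1)
    (hsup : ∀ n, ∀ t ∈ Icc 0 T2, ∀ x v, P (kapQ Φ) D f0 (ENNReal.ofReal lam) n t x v ≤
      ENNReal.ofReal A * gau b v)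
    (hini : phI (fun x v => gau (-(b / 2)) v * f0 x v) ≠ ∞) (n : ℕ) {t : ℝ} (ht : t ∈ Icc 0 T2) :
    phI (fun x v => gau (-(gam b T1 t)) v * P (kapQ Φ) D f0 (ENNReal.ofReal lam) n t x v) ≤
      ENNReal.ofReal (Real.exp (μ * t)) *
        (2 * phI (fun x v => gau (-(b / 2)) v * f0 x v)) := by
  refine gronwall_sing (φ := fun n t => phI (fun x v => gau (-(gam b T1 t)) v *
    P (kapQ Φ) D f0 (ENNReal.ofReal lam) n t x v)) hμ hker (by positivity) (T1 := T2) ?_ ?_ hini
    n t ht
  · intro t ht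
    show phI _ = 0
    unfold phI P; simp
  · intro n t ht
    have htT : t ∈ Icc 0 T1 := ⟨ht.1, ht.2.trans hT2⟩
    have hgt := gam_mem hb hT1 htT
    set Pn := P (kapQ Φ) D f0 (ENNReal.ofReal lam) n with hPn
    have hPm : Meas3 Pn := meas_P (kapQ Φ) hD hf0 _ n
    have hRm : Meas3 fun s x v => ENNReal.ofReal lam * Q (kapQ Φ) (Pn s x) (Pn s x) v :=
      meas_mul3 measurable_const (meas_Q _ hPm hPm)
    refine (phI_duh (g0 := f0) (R := fun s x v => ENNReal.ofReal lam *
      Q (kapQ Φ) (Pn s x) (Pn s x) v) (measurable_gau _) hf0 hRm t ?_).trans ?_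
    · intro x v
      have hstep : P (kapQ Φ) D f0 (ENNReal.ofReal lam) (n + 1) t x v =
        D 0 t x v * f0 (x - t • v) v + ∫⁻ s in Ioc 0 t, D s t x v *
          (ENNReal.ofReal lam * Q (kapQ Φ) (Pn s (x - (t - s) • v)) (Pn s (x - (t - s) • v)) v) :=
        rfl
      rw [hstep]
      refine add_le_add ?_ (lintegral_mono fun s => ?_)
      · calc D 0 t x v * f0 (x - t • v) v ≤ 1 * f0 (x - t • v) v := mul_le_mul' (hD1 _ _ _ _) le_rfl
          _ = _ := one_mul _
      · calc D s t x v * (ENNReal.ofReal lam * Q (kapQ Φ) (Pn s (x - (t - s) • v))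
              (Pn s (x - (t - s) • v)) v)
            ≤ 1 * (ENNReal.ofReal lam * Q (kapQ Φ) (Pn s (x - (t - s) • v))
              (Pn s (x - (t - s) • v)) v) := mul_le_mul' (hD1 _ _ _ _) le_rfl
          _ = _ := one_mul _
    · refine add_le_add ?_ (setLIntegral_mono' measurableSet_Ioo fun s hs => ?_)
      · refine phI_mono fun x v => mul_le_mul' (gau_antitone ?_ v) le_rfl
        linarith [hgt.2]
      · have hs' : s ∈ Icc 0 T2 := ⟨hs.1.le, hs.2.le.trans ht.2⟩
        have hsl : Measurable fun p : Space3 × Space3 => Pn s p.1 p.2 := meas3_uncurry hPm s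
        have hQm : Measurable (Function.uncurry fun x v : Space3 => gau (-(gam b T1 t)) v *
            Q (kapQ Φ) (Pn s x) (Pn s x) v) :=
          ((measurable_gau _).comp measurable_snd).mul (meas3_uncurry (meas_Q _ hPm hPm) s)
        have e1 : phI (fun x v => gau (-(gam b T1 t)) v * (ENNReal.ofReal lam *
            Q (kapQ Φ) (Pn s x) (Pn s x) v)) = ENNReal.ofReal lam *
            phI (fun x v => gau (-(gam b T1 t)) v * Q (kapQ Φ) (Pn s x) (Pn s x) v) := by
          rw [← phI_const_mul hQm]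
          congr 1
          funext x v
          ring
        rw [e1]
        have hCGt : CG (b / 2) = ENNReal.ofReal (CG (b / 2)).toReal :=
          (ENNReal.ofReal_toReal (CG_lt_top (by positivity)).ne).symm
        have h6 := gain_le hΦ hb hT1 hs.1.le hs.2 htT.2 hsl (fun x v => hsup n s hs' x v)
        refine (mul_le_mul' le_rfl h6).trans (le_of_eq ?_)
        rw [← mul_assoc]
        congr 1
        rw [hCGt, ← ENNReal.ofReal_mul (by positivity), ← ENNReal.ofReal_mul (by positivity),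
          ← ENNReal.ofReal_mul (by positivity)]
        congr 1
        simp only [ENNReal.toReal_ofReal ENNReal.toReal_nonneg]
        ring

end Crest.Agent.R122.KinL1
end
end

-- ▼ part R122/KinL1b_263
section

/-!
Row 122 (helper263): `x`-integrated (`L¹`) energy moments, part 2: `FS` (no damping on the
straight line of the root).
-/

set_option autoImplicit false
set_option linter.unusedSectionVars false
set_option maxHeartbeats 1000000

open MeasureTheory ProbabilityTheory Set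
open Crest.AnalysisR.Kinetic
open Crest.Agent.R122.Boltz814 Crest.Agent.R122.Kin416 Crest.Agent.R122.Kin796
  Crest.Agent.R122.Disc416 Crest.Agent.R122.Seg814
open scoped Classical ENNReal

noncomputable section

namespace Crest.Agent.R122.KinL1

open Kin796.CTree

section step

variable {E : Type*} [NormedAddCommGroup E] [NormedSpace ℝ E] [MeasurableSpace E] [BorelSpace E]
  [SecondCountableTopology E]

/-- finite sums of `FS` -/
def SFn (κ : Kernel E (E × E)) (D : ℝ → ℝ → E → E → ℝ≥0∞) (f0 : E → E → ℝ≥0∞) (L : ℝ≥0∞)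
    (n : ℕ) (t : ℝ) (x v : E) : ℝ≥0∞ := ∑ τ ∈ CTree.lt n, L ^ τ.size * FS κ D f0 τ t x v

theorem SFn_zero (κ : Kernel E (E × E)) (D : ℝ → ℝ → E → E → ℝ≥0∞) (f0 : E → E → ℝ≥0∞)
    (L : ℝ≥0∞) (t : ℝ) (x v : E) : SFn κ D f0 L 0 t x v = 0 := by
  simp [SFn, CTree.lt]

theorem meas_SFn {κ : Kernel E (E × E)} [IsSFiniteKernel κ] {D : ℝ → ℝ → E → E → ℝ≥0∞}
    {f0 : E → E → ℝ≥0∞} (hD : Meas4 D) (hf : Measurable fun p : E × E => f0 p.1 p.2)
    (L : ℝ≥0∞) (n : ℕ) : Meas3 (SFn κ D f0 L n) := by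
  have h1 : ∀ τ : CTree, Measurable fun p : ℝ × E × E =>
      L ^ τ.size * FS κ D f0 τ p.1 p.2.1 p.2.2 := fun τ =>
    Measurable.const_mul (f := fun p : ℝ × E × E => FS κ D f0 τ p.1 p.2.1 p.2.2)
      (meas_FS hD hf τ) _
  have h2 : Measurable fun p : ℝ × E × E => ∑ τ ∈ CTree.lt n,
      L ^ τ.size * FS κ D f0 τ p.1 p.2.1 p.2.2 := Finset.measurable_fun_sum _ fun τ _ => h1 τ
  exact h2

variable {κ : Kernel E (E × E)} {D : ℝ → ℝ → E → E → ℝ≥0∞} {f0 : E → E → ℝ≥0∞}
  {γ C C2 T : ℝ}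

/-- Recursive inequality of the finite sums of `FS`; `H` is a majorant of the full series of
`F`. -/
theorem SFn_succ_le (hC : 0 ≤ C) (hC2 : 0 ≤ C2) {L : ℝ≥0∞} (hL : L ≠ ∞)
    (hS1 : ∀ v, ∫⁻ p in {p : E × E | p.1 = v}, wG γ p.2 ∂(κ v) ≤ ENNReal.ofReal (C2 * (1 + ‖v‖)))
    (hS2 : ∀ v, ∫⁻ p in {p : E × E | p.2 = v}, wG γ p.1 ∂(κ v) ≤ ENNReal.ofReal (C2 * (1 + ‖v‖)))
    (hS3 : ∀ v, κ v {p : E × E | p.1 = v ∧ p.2 = v} = 0)
    {H : ℝ → E → E → ℝ≥0∞} (hHm : Meas3 H)
    (hPH : ∀ t ∈ Icc 0 T, ∀ x v, ∑' τ : CTree, L ^ τ.size * F κ D f0 τ t x v ≤ H t x v)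
    (hH : ∀ t ∈ Icc 0 T, ∀ x v, H t x v ≤ ENNReal.ofReal C * wG γ v) (n : ℕ)
    {t : ℝ} (ht : t ∈ Icc 0 T) (x v : E) :
    SFn κ D f0 L (n + 1) t x v ≤ f0 (x - t • v) v + ∫⁻ s in Ioc 0 t,
      L * (Q κ (H s (x - (t - s) • v)) (H s (x - (t - s) • v)) v +
        ENNReal.ofReal (2 * C * C2 * (1 + ‖v‖)) * SFn κ D f0 L n s (x - (t - s) • v) v) := by
  unfold SFn
  have hnot : leaf ∉ ((CTree.lt n ×ˢ CTree.lt n).image fun p => node p.1 p.2) := by simp
  have hinj : Set.InjOn (fun p : CTree × CTree => node p.1 p.2)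
      (CTree.lt n ×ˢ CTree.lt n : Finset (CTree × CTree)) := by
    intro p _ q _ h
    simp only [node.injEq] at h
    exact Prod.ext h.1 h.2
  rw [CTree.lt, Finset.sum_insert hnot, Finset.sum_image hinj]
  -- the two factors
  set a : CTree → ℝ → E × E → ℝ≥0∞ := fun l s p =>
    if p.1 = v then FS κ D f0 l s (x - (t - s) • v) p.1
      else F κ D f0 l s (x - (t - s) • v) p.1 with ha
  set b : CTree → ℝ → E × E → ℝ≥0∞ := fun r s p =>
    if p.2 = v then FS κ D f0 r s (x - (t - s) • v) p.2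
      else F κ D f0 r s (x - (t - s) • v) p.2 with hb
  set B : ℝ → ℝ≥0∞ := fun s =>
    ∑ τ ∈ CTree.lt n, L ^ τ.size * FS κ D f0 τ s (x - (t - s) • v) v with hB
  have hasum : ∀ s ∈ Ioc 0 t, ∀ p : E × E, ∑ l ∈ CTree.lt n, L ^ l.size * a l s p ≤
      if p.1 = v then B s else H s (x - (t - s) • v) p.1 := by
    intro s hs p
    have hs' : s ∈ Icc 0 T := ⟨hs.1.le, hs.2.trans ht.2⟩
    by_cases h : p.1 = v
    · simp only [ha, h, if_true]
      exact le_rfl
    · simp only [ha, h, if_false]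
      exact (ENNReal.sum_le_tsum _).trans (hPH s hs' _ _)
  have hbsum : ∀ s ∈ Ioc 0 t, ∀ p : E × E, ∑ r ∈ CTree.lt n, L ^ r.size * b r s p ≤
      if p.2 = v then B s else H s (x - (t - s) • v) p.2 := by
    intro s hs p
    have hs' : s ∈ Icc 0 T := ⟨hs.1.le, hs.2.trans ht.2⟩
    by_cases h : p.2 = v
    · simp only [hb, h, if_true]
      exact le_rfl
    · simp only [hb, h, if_false]
      exact (ENNReal.sum_le_tsum _).trans (hPH s hs' _ _)
  -- kernel integral of the product
  have hprod : ∀ s ∈ Ioc 0 t, ∫⁻ p, (∑ l ∈ CTree.lt n, L ^ l.size * a l s p) *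
      (∑ r ∈ CTree.lt n, L ^ r.size * b r s p) ∂(κ v) ≤
      Q κ (H s (x - (t - s) • v)) (H s (x - (t - s) • v)) v +
        ENNReal.ofReal (2 * C * C2 * (1 + ‖v‖)) * B s := by
    intro s hs
    have hs' : s ∈ Icc 0 T := ⟨hs.1.le, hs.2.trans ht.2⟩
    have hae : ∀ᵐ p ∂(κ v), ¬ (p.1 = v ∧ p.2 = v) := by
      rw [ae_iff]
      simpa using hS3 v
    have hm1 : MeasurableSet {p : E × E | p.1 = v} :=
      measurableSet_eq_fun measurable_fst measurable_const
    have hm2 : MeasurableSet {p : E × E | p.2 = v} :=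
      measurableSet_eq_fun measurable_snd measurable_const
    have hw1 : Measurable fun p : E × E => wG γ p.1 := (meas_wG γ).comp measurable_fst
    have hw2 : Measurable fun p : E × E => wG γ p.2 := (meas_wG γ).comp measurable_snd
    have hsl : Measurable (H s (x - (t - s) • v)) := by
      have hm : Measurable fun u : E => ((s, x - (t - s) • v, u) : ℝ × E × E) := by fun_prop
      have h2 := Measurable.comp hHm hm
      exact h2
    calc ∫⁻ p, (∑ l ∈ CTree.lt n, L ^ l.size * a l s p) *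
          (∑ r ∈ CTree.lt n, L ^ r.size * b r s p) ∂(κ v)
        ≤ ∫⁻ p, (H s (x - (t - s) • v) p.1 * H s (x - (t - s) • v) p.2 +
            (B s * ENNReal.ofReal C * ({p : E × E | p.1 = v}.indicator (fun p => wG γ p.2) p) +
            B s * ENNReal.ofReal C * ({p : E × E | p.2 = v}.indicator (fun p => wG γ p.1) p)))
            ∂(κ v) := by
          refine lintegral_mono_ae ?_
          filter_upwards [hae] with p hp
          refine (mul_le_mul' (hasum s hs p) (hbsum s hs p)).trans ?_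
          by_cases h1 : p.1 = v
          · have h2 : ¬ p.2 = v := fun h => hp ⟨h1, h⟩
            rw [if_pos h1, if_neg h2, indicator_of_mem (show p ∈ {p : E × E | p.1 = v} from h1),
              indicator_of_notMem (show p ∉ {p : E × E | p.2 = v} from h2), mul_zero, add_zero]
            refine le_trans ?_ le_add_self
            rw [mul_assoc]
            exact mul_le_mul' le_rfl (hH s hs' _ _)
          · rw [if_neg h1, indicator_of_notMem (show p ∉ {p : E × E | p.1 = v} from h1),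
              mul_zero, zero_add]
            by_cases h2 : p.2 = v
            · rw [if_pos h2, indicator_of_mem (show p ∈ {p : E × E | p.2 = v} from h2)]
              refine le_trans ?_ le_add_self
              rw [mul_comm, mul_assoc]
              exact mul_le_mul' le_rfl (hH s hs' _ _)
            · rw [if_neg h2, indicator_of_notMem (show p ∉ {p : E × E | p.2 = v} from h2),
                mul_zero, add_zero]
      _ = Q κ (H s (x - (t - s) • v)) (H s (x - (t - s) • v)) v +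
            (B s * ENNReal.ofReal C * ∫⁻ p in {p : E × E | p.1 = v}, wG γ p.2 ∂(κ v) +
            B s * ENNReal.ofReal C * ∫⁻ p in {p : E × E | p.2 = v}, wG γ p.1 ∂(κ v)) := by
          have hw12 : Measurable fun p : E × E =>
              H s (x - (t - s) • v) p.1 * H s (x - (t - s) • v) p.2 :=
            (hsl.comp measurable_fst).mul (hsl.comp measurable_snd)
          have hi1 : Measurable fun p : E × E =>
              {p : E × E | p.1 = v}.indicator (fun p => wG γ p.2) p := hw2.indicator hm1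
          have hi2 : Measurable fun p : E × E =>
              {p : E × E | p.2 = v}.indicator (fun p => wG γ p.1) p := hw1.indicator hm2
          rw [lintegral_add_left hw12, lintegral_add_left (hi1.const_mul _),
            lintegral_const_mul _ hi1, lintegral_const_mul _ hi2,
            lintegral_indicator hm1, lintegral_indicator hm2]
          rfl
      _ ≤ Q κ (H s (x - (t - s) • v)) (H s (x - (t - s) • v)) v +
            (B s * ENNReal.ofReal C * ENNReal.ofReal (C2 * (1 + ‖v‖)) +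
            B s * ENNReal.ofReal C * ENNReal.ofReal (C2 * (1 + ‖v‖))) := by
          gcongr
          · exact hS1 v
          · exact hS2 v
      _ = _ := by
          congr 1
          have hn : 0 ≤ 1 + ‖v‖ := by positivity
          rw [← mul_add, ← ENNReal.ofReal_add (by positivity) (by positivity), mul_assoc,
            ← ENNReal.ofReal_mul hC, mul_comm]
          congr 2
          ring
  -- sum over the pairs of trees
  have hpairs : ∑ p ∈ CTree.lt n ×ˢ CTree.lt n, L ^ (node p.1 p.2).size *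
      FS κ D f0 (node p.1 p.2) t x v ≤ ∫⁻ s in Ioc 0 t, L * ∫⁻ p,
        (∑ l ∈ CTree.lt n, L ^ l.size * a l s p) *
        (∑ r ∈ CTree.lt n, L ^ r.size * b r s p) ∂(κ v) := by
    have hterm : ∀ q : CTree × CTree, L ^ (node q.1 q.2).size *
        FS κ D f0 (node q.1 q.2) t x v ≤ ∫⁻ s in Ioc 0 t, L * ∫⁻ p,
          (L ^ q.1.size * a q.1 s p) * (L ^ q.2.size * b q.2 s p) ∂(κ v) := by
      intro q
      have h1 : FS κ D f0 (node q.1 q.2) t x v =
          ∫⁻ s in Ioc 0 t, ∫⁻ p, a q.1 s p * b q.2 s p ∂(κ v) := rfl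
      have hfin : L ^ (node q.1 q.2).size ≠ ∞ := ENNReal.pow_ne_top hL
      rw [h1, ← lintegral_const_mul' _ _ hfin]
      refine lintegral_mono fun s => ?_
      show L ^ (node q.1 q.2).size * _ ≤ _
      rw [← lintegral_const_mul' _ _ hfin, ← lintegral_const_mul' _ _ hL]
      refine lintegral_mono fun p => le_of_eq ?_
      simp only [CTree.size, pow_add, pow_one]
      ring
    refine (Finset.sum_le_sum fun q _ => hterm q).trans ?_
    have hsup : ∀ (S : Finset (CTree × CTree)) (g : CTree × CTree → ℝ → ℝ≥0∞),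
        ∑ q ∈ S, ∫⁻ s in Ioc 0 t, g q s ≤ ∫⁻ s in Ioc 0 t, ∑ q ∈ S, g q s := by
      intro S g
      induction S using Finset.induction_on with
      | empty => simp
      | insert q S hq ihS =>
        rw [Finset.sum_insert hq]
        refine (add_le_add le_rfl ihS).trans ?_
        refine (le_lintegral_add _ _).trans (le_of_eq ?_)
        refine lintegral_congr fun s => ?_
        rw [Finset.sum_insert hq]
    have hsup2 : ∀ (S : Finset (CTree × CTree)) (g : CTree × CTree → E × E → ℝ≥0∞),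
        ∑ q ∈ S, ∫⁻ p, g q p ∂(κ v) ≤ ∫⁻ p, ∑ q ∈ S, g q p ∂(κ v) := by
      intro S g
      induction S using Finset.induction_on with
      | empty => simp
      | insert q S hq ihS =>
        rw [Finset.sum_insert hq]
        refine (add_le_add le_rfl ihS).trans ?_
        refine (le_lintegral_add _ _).trans (le_of_eq ?_)
        refine lintegral_congr fun s => ?_
        rw [Finset.sum_insert hq]
    refine (hsup _ _).trans (lintegral_mono fun s => ?_)
    show ∑ q ∈ CTree.lt n ×ˢ CTree.lt n, L * ∫⁻ p,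
          (L ^ q.1.size * a q.1 s p) * (L ^ q.2.size * b q.2 s p) ∂(κ v) ≤ _
    rw [← Finset.mul_sum]
    refine mul_le_mul' le_rfl ((hsup2 _ _).trans (lintegral_mono fun p => le_of_eq ?_))
    rw [Finset.sum_mul_sum, Finset.sum_product]
  have h0 : L ^ leaf.size * FS κ D f0 leaf t x v = f0 (x - t • v) v := by
    have h1 : FS κ D f0 leaf t x v = f0 (x - t • v) v := rfl
    rw [h1]
    simp only [CTree.size, pow_zero, one_mul]
  rw [h0]
  refine add_le_add le_rfl (hpairs.trans (setLIntegral_mono' measurableSet_Ioc fun s hs => ?_))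
  exact mul_le_mul' le_rfl (hprod s hs)

end step

variable {Φ : Space3 → ℝ}

/-- `L¹` exponential moment of the finite sums of `FS`. -/
theorem L1_FS (hΦ : AdmissiblePotential Φ) {lam A b T1 : ℝ} (hlam : 0 ≤ lam) (hA0 : 0 ≤ A)
    (hb : 0 < b) (hT1 : 0 < T1) {μ : ℝ} (hμ : 0 < μ)
    (hker : ∫⁻ u in Ioi (0 : ℝ), ENNReal.ofReal (lam * A * (CG (b / 2)).toReal *
      (1 + 1 / Real.sqrt (b / (4 * T1) * u)) * Real.exp (-μ * u)) ≤ ENNReal.ofReal (1 / 2))
    {μ' : ℝ} (hμ' : 0 < μ')
    (hker' : ∫⁻ u in Ioi (0 : ℝ), ENNReal.ofReal (lam * (2 * A * (CG b).toReal) *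
      (1 + 1 / Real.sqrt (b / (4 * T1) * u)) * Real.exp (-μ' * u)) ≤ ENNReal.ofReal (1 / 2))
    {D : ℝ → ℝ → Space3 → Space3 → ℝ≥0∞} (hD : Meas4 D)
    {f0 : Space3 → Space3 → ℝ≥0∞} (hf0 : Measurable fun p : Space3 × Space3 => f0 p.1 p.2)
    {T2 : ℝ} (hT2 : T2 ≤ T1)
    {H : ℝ → Space3 → Space3 → ℝ≥0∞} (hHm : Meas3 H)
    (hPH : ∀ t ∈ Icc 0 T2, ∀ x v, ∑' τ : CTree, ENNReal.ofReal lam ^ τ.size *
      F (kapQ Φ) D f0 τ t x v ≤ H t x v)
    (hH : ∀ t ∈ Icc 0 T2, ∀ x v, H t x v ≤ ENNReal.ofReal A * gau b v)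
    {M : ℝ≥0∞} (hM : ∀ t ∈ Icc 0 T2, phI (fun x v => gau (-(gam b T1 t)) v * H t x v) ≤
      ENNReal.ofReal (Real.exp (μ * t)) * M) (hMt : M ≠ ∞)
    (hini : phI (fun x v => gau (-(b / 2)) v * f0 x v) ≠ ∞) (n : ℕ) {t : ℝ} (ht : t ∈ Icc 0 T2) :
    phI (fun x v => gau (-(gam b T1 t)) v * SFn (kapQ Φ) D f0 (ENNReal.ofReal lam) n t x v) ≤
      ENNReal.ofReal (Real.exp (μ' * t)) *
        (2 * (phI (fun x v => gau (-(b / 2)) v * f0 x v) +
          ENNReal.ofReal (Real.exp (μ * T1)) * M)) := by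
  have hS := Scat818.scatFacts hΦ
  have hT2' : (0:ℝ) ≤ T1 := hT1.le
  have hAt : phI (fun x v => gau (-(b / 2)) v * f0 x v) +
          ENNReal.ofReal (Real.exp (μ * T1)) * M ≠ ∞ :=
    ENNReal.add_ne_top.2 ⟨hini, ENNReal.mul_ne_top ENNReal.ofReal_ne_top hMt⟩
  refine gronwall_sing (φ := fun n t => phI (fun x v => gau (-(gam b T1 t)) v *
    SFn (kapQ Φ) D f0 (ENNReal.ofReal lam) n t x v)) hμ' hker' (by positivity) (T1 := T2) ?_ ?_
    hAt n t ht
  · intro t ht
    show phI _ = 0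
    simp only [SFn_zero, mul_zero]
    unfold phI; simp
  · intro n t ht
    have htT : t ∈ Icc 0 T1 := ⟨ht.1, ht.2.trans hT2⟩
    have hgt := gam_mem hb hT1 htT
    set Sn := SFn (kapQ Φ) D f0 (ENNReal.ofReal lam) n with hSn
    have hSm : Meas3 Sn := meas_SFn hD hf0 _ n
    have hn1 : Meas3 fun (_ : ℝ) (_ v : Space3) =>
        ENNReal.ofReal (2 * A * (CG b).toReal * (1 + ‖v‖)) := by
      unfold Meas3; fun_prop
    have hQm : Meas3 fun s x v => Q (kapQ Φ) (H s x) (H s x) v := meas_Q _ hHm hHm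
    have hRm : Meas3 fun s x v => ENNReal.ofReal lam * (Q (kapQ Φ) (H s x) (H s x) v +
        ENNReal.ofReal (2 * A * (CG b).toReal * (1 + ‖v‖)) * Sn s x v) :=
      meas_mul3 measurable_const (meas_add3 hQm (meas_mul3 hn1 hSm))
    have hCG : CG b = ENNReal.ofReal (CG b).toReal :=
      (ENNReal.ofReal_toReal (CG_lt_top hb).ne).symm
    refine (phI_duh (g0 := f0) (R := fun s x v => ENNReal.ofReal lam *
      (Q (kapQ Φ) (H s x) (H s x) v +
        ENNReal.ofReal (2 * A * (CG b).toReal * (1 + ‖v‖)) * Sn s x v))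
      (measurable_gau _) hf0 hRm t ?_).trans ?_
    · intro x v
      refine SFn_succ_le (κ := kapQ Φ) (γ := b) (T := T2) hA0 ENNReal.toReal_nonneg
        ENNReal.ofReal_ne_top ?_ ?_ (kapQ_diag hS) hHm hPH
        (fun t ht x v => by rw [wG_eq_gau]; exact hH t ht x v) n ht x v
      · intro v
        refine (kapQ_fst_le hS b v).trans (le_of_eq ?_)
        rw [ENNReal.ofReal_mul ENNReal.toReal_nonneg, ← hCG]
      · intro v
        refine (kapQ_snd_le hS b v).trans (le_of_eq ?_)
        rw [ENNReal.ofReal_mul ENNReal.toReal_nonneg, ← hCG]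
    · -- split
      have hQ2 : ∀ s, Measurable (Function.uncurry fun x v : Space3 => gau (-(gam b T1 t)) v *
            Q (kapQ Φ) (H s x) (H s x) v) := fun s =>
          ((measurable_gau _).comp measurable_snd).mul (meas3_uncurry hQm s)
      have hS2 : ∀ s, Measurable (Function.uncurry fun x v : Space3 => gau (-(gam b T1 s)) v *
            Sn s x v) := fun s =>
          ((measurable_gau _).comp measurable_snd).mul (meas3_uncurry hSm s)
      have hterm : ∀ s ∈ Ioo 0 t, phI (fun x v => gau (-(gam b T1 t)) v *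
          (ENNReal.ofReal lam * (Q (kapQ Φ) (H s x) (H s x) v +
          ENNReal.ofReal (2 * A * (CG b).toReal * (1 + ‖v‖)) * Sn s x v))) ≤
          ENNReal.ofReal (lam * A * (CG (b / 2)).toReal *
            (1 + 1 / Real.sqrt (b / (4 * T1) * (t - s))) * Real.exp (μ * s)) * M +
          ENNReal.ofReal (lam * (2 * A * (CG b).toReal) *
            (1 + 1 / Real.sqrt (b / (4 * T1) * (t - s)))) *
            phI (fun x v => gau (-(gam b T1 s)) v * Sn s x v) := by
        intro s hs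
        have hs' : s ∈ Icc 0 T2 := ⟨hs.1.le, hs.2.le.trans ht.2⟩
        have hk0 : 0 ≤ 1 + 1 / Real.sqrt (b / (4 * T1) * (t - s)) := by positivity
        have e1 : phI (fun x v => gau (-(gam b T1 t)) v *
            (ENNReal.ofReal lam * (Q (kapQ Φ) (H s x) (H s x) v +
            ENNReal.ofReal (2 * A * (CG b).toReal * (1 + ‖v‖)) * Sn s x v))) ≤
            phI (fun x v => ENNReal.ofReal lam * (gau (-(gam b T1 t)) v *
              Q (kapQ Φ) (H s x) (H s x) v) + ENNReal.ofReal (lam * (2 * A * (CG b).toReal) *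
            (1 + 1 / Real.sqrt (b / (4 * T1) * (t - s)))) * (gau (-(gam b T1 s)) v * Sn s x v)) := by
          refine phI_mono fun x v => ?_
          have h4 := weight_exchange hb hT1 hs.2 v
          calc gau (-(gam b T1 t)) v *
              (ENNReal.ofReal lam * (Q (kapQ Φ) (H s x) (H s x) v +
              ENNReal.ofReal (2 * A * (CG b).toReal * (1 + ‖v‖)) * Sn s x v))
              = ENNReal.ofReal lam * (gau (-(gam b T1 t)) v *
              Q (kapQ Φ) (H s x) (H s x) v) + ENNReal.ofReal lam *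
                ENNReal.ofReal (2 * A * (CG b).toReal) * (ENNReal.ofReal (1 + ‖v‖) *
                gau (-(gam b T1 t)) v) * Sn s x v := by
                rw [ENNReal.ofReal_mul (p := 2 * A * (CG b).toReal) (by positivity)]
                ring
            _ ≤ ENNReal.ofReal lam * (gau (-(gam b T1 t)) v *
              Q (kapQ Φ) (H s x) (H s x) v) + ENNReal.ofReal lam *
                ENNReal.ofReal (2 * A * (CG b).toReal) *
                (ENNReal.ofReal (1 + 1 / Real.sqrt (b / (4 * T1) * (t - s))) *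
                  gau (-(gam b T1 s)) v) * Sn s x v := by gcongr
            _ = _ := by
                rw [ENNReal.ofReal_mul (p := lam * (2 * A * (CG b).toReal)) (by positivity),
                  ENNReal.ofReal_mul (p := lam) hlam]
                ring
        refine e1.trans ?_
        rw [phI_add (by exact (hQ2 s).const_mul _), phI_const_mul (hQ2 s), phI_const_mul (hS2 s)]
        refine add_le_add ?_ le_rfl
        have hsl : Measurable fun p : Space3 × Space3 => H s p.1 p.2 := meas3_uncurry hHm s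
        have h6 := gain_le hΦ hb hT1 hs.1.le hs.2 htT.2 hsl (fun x v => hH s hs' x v)
        have hCGt : CG (b / 2) = ENNReal.ofReal (CG (b / 2)).toReal :=
          (ENNReal.ofReal_toReal (CG_lt_top (by positivity)).ne).symm
        calc ENNReal.ofReal lam * phI (fun x v => gau (-(gam b T1 t)) v *
              Q (kapQ Φ) (H s x) (H s x) v)
            ≤ ENNReal.ofReal lam * ((ENNReal.ofReal A * CG (b / 2) *
              ENNReal.ofReal (1 + 1 / Real.sqrt (b / (4 * T1) * (t - s)))) *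
              (ENNReal.ofReal (Real.exp (μ * s)) * M)) :=
              mul_le_mul' le_rfl (h6.trans (mul_le_mul' le_rfl (hM s hs')))
          _ = (ENNReal.ofReal lam * ENNReal.ofReal A * CG (b / 2) *
              ENNReal.ofReal (1 + 1 / Real.sqrt (b / (4 * T1) * (t - s))) *
              ENNReal.ofReal (Real.exp (μ * s))) * M := by ring
          _ = _ := by
              congr 1
              rw [hCGt, ← ENNReal.ofReal_mul hlam, ← ENNReal.ofReal_mul (by positivity),
                ← ENNReal.ofReal_mul (by positivity), ← ENNReal.ofReal_mul (by positivity)]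
              simp only [ENNReal.toReal_ofReal ENNReal.toReal_nonneg]
      have hadd : phI (fun x v => gau (-(gam b T1 t)) v * f0 x v) + ∫⁻ s in Ioo 0 t,
          phI (fun x v => gau (-(gam b T1 t)) v *
          (ENNReal.ofReal lam * (Q (kapQ Φ) (H s x) (H s x) v +
          ENNReal.ofReal (2 * A * (CG b).toReal * (1 + ‖v‖)) * Sn s x v))) ≤
          phI (fun x v => gau (-(b / 2)) v * f0 x v) + ((∫⁻ s in Ioo 0 t,
            ENNReal.ofReal (lam * A * (CG (b / 2)).toReal *
            (1 + 1 / Real.sqrt (b / (4 * T1) * (t - s))) * Real.exp (μ * s)) * M) +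
          ∫⁻ s in Ioo 0 t, ENNReal.ofReal (lam * (2 * A * (CG b).toReal) *
            (1 + 1 / Real.sqrt (b / (4 * T1) * (t - s)))) *
            phI (fun x v => gau (-(gam b T1 s)) v * Sn s x v)) := by
        refine add_le_add (phI_mono fun x v => mul_le_mul' (gau_antitone (by linarith [hgt.2]) v)
          le_rfl) ?_
        refine (setLIntegral_mono' measurableSet_Ioo hterm).trans (le_of_eq ?_)
        exact lintegral_add_left (by fun_prop) _
      refine hadd.trans ?_
      rw [← add_assoc]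
      refine add_le_add (add_le_add le_rfl ?_) le_rfl
      calc ∫⁻ s in Ioo 0 t, ENNReal.ofReal (lam * A * (CG (b / 2)).toReal *
            (1 + 1 / Real.sqrt (b / (4 * T1) * (t - s))) * Real.exp (μ * s)) * M
          ≤ ∫⁻ s in Ioc 0 t, ENNReal.ofReal (lam * A * (CG (b / 2)).toReal *
            (1 + 1 / Real.sqrt (b / (4 * T1) * (t - s))) * Real.exp (μ * s)) * M :=
            lintegral_mono_set Ioo_subset_Ioc_self
        _ = (∫⁻ s in Ioc 0 t, ENNReal.ofReal (lam * A * (CG (b / 2)).toReal *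
            (1 + 1 / Real.sqrt (b / (4 * T1) * (t - s))) * Real.exp (μ * s))) * M :=
            lintegral_mul_const' _ _ hMt
        _ ≤ (ENNReal.ofReal (Real.exp (μ * t)) * ENNReal.ofReal (1 / 2)) * M :=
            mul_le_mul' (lintegral_singular_le hker t) le_rfl
        _ ≤ (ENNReal.ofReal (Real.exp (μ * T1)) * 1) * M := by
            gcongr
            · exact htT.2
            · rw [← ENNReal.ofReal_one]
              exact ENNReal.ofReal_le_ofReal (by norm_num)
        _ = _ := by rw [mul_one]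

end Crest.Agent.R122.KinL1
end
end

-- ▼ part R122/KinL1_263

/-!
Row 122 (helper263): `x`-integrated (`L¹`) energy moments of the tree densities (L1M).

* `KinM Φ T f h₀ kap lam b M` : the constants; `exists_kinM` : they exist, with the size marker
  `lam` and the window length `h₀` of any `KinC` (helper814).
* `KinM.weight(S)`, `KinM.tail(S)` : the bounds for a general weight
  `phi ≤ M₁ * lam ^ size * exp (kap * eng)`, in the coordinates `(x, v)` at time `t`.
* `KinM.weight0(S)`, `KinM.tail0(S)` : the same in the coordinates of the root line at time `0`.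
-/

set_option autoImplicit false
set_option linter.unusedSectionVars false
set_option maxHeartbeats 1000000

open MeasureTheory ProbabilityTheory Set
open Crest.AnalysisR.Kinetic
open Crest.Agent.R122.Boltz814 Crest.Agent.R122.Kin416 Crest.Agent.R122.Kin796
  Crest.Agent.R122.Disc416 Crest.Agent.R122.Seg814 Crest.Agent.R122.Tree674
  Crest.Agent.R122.TreeF399
open scoped Classical ENNReal

noncomputable section

namespace Crest.Agent.R122.KinL1

/-! ### Monotonicity in the datum -/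

section mono

variable {E : Type*} [NormedAddCommGroup E] [NormedSpace ℝ E] [MeasurableSpace E] [BorelSpace E]
  [SecondCountableTopology E]

theorem F_mono₀ (κ : Kernel E (E × E)) (D : ℝ → ℝ → E → E → ℝ≥0∞) {f0 g0 : E → E → ℝ≥0∞}
    (h : ∀ x v, f0 x v ≤ g0 x v) (τ : CTree) (t : ℝ) (x v : E) :
    F κ D f0 τ t x v ≤ F κ D g0 τ t x v := by
  induction τ generalizing t x v with
  | leaf => exact mul_le_mul' le_rfl (h _ _)
  | node l r hl hr =>
    show (∫⁻ s in Ioc 0 t, D s t x v * Q κ (F κ D f0 l s (x - (t - s) • v))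
      (F κ D f0 r s (x - (t - s) • v)) v) ≤ ∫⁻ s in Ioc 0 t, D s t x v *
      Q κ (F κ D g0 l s (x - (t - s) • v)) (F κ D g0 r s (x - (t - s) • v)) v
    exact lintegral_mono fun s => mul_le_mul' le_rfl
      (Q_mono κ (fun u => hl s _ u) (fun u => hr s _ u) v)

theorem FS_mono₀ (κ : Kernel E (E × E)) (D : ℝ → ℝ → E → E → ℝ≥0∞) {f0 g0 : E → E → ℝ≥0∞}
    (h : ∀ x v, f0 x v ≤ g0 x v) (τ : CTree) (t : ℝ) (x v : E) :
    FS κ D f0 τ t x v ≤ FS κ D g0 τ t x v := by
  induction τ generalizing t x v with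
  | leaf => exact h _ _
  | node l r hl hr =>
    show (∫⁻ s in Ioc 0 t, ∫⁻ p : E × E,
      (if p.1 = v then FS κ D f0 l s (x - (t - s) • v) p.1
        else F κ D f0 l s (x - (t - s) • v) p.1) *
      (if p.2 = v then FS κ D f0 r s (x - (t - s) • v) p.2
        else F κ D f0 r s (x - (t - s) • v) p.2) ∂(κ v)) ≤ ∫⁻ s in Ioc 0 t, ∫⁻ p : E × E,
      (if p.1 = v then FS κ D g0 l s (x - (t - s) • v) p.1
        else F κ D g0 l s (x - (t - s) • v) p.1) *
      (if p.2 = v then FS κ D g0 r s (x - (t - s) • v) p.2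
        else F κ D g0 r s (x - (t - s) • v) p.2) ∂(κ v)
    refine lintegral_mono fun s => lintegral_mono fun p => mul_le_mul' ?_ ?_
    · split_ifs
      · exact hl _ _ _
      · exact F_mono₀ κ D h _ _ _ _
    · split_ifs
      · exact hr _ _ _
      · exact F_mono₀ κ D h _ _ _ _

end mono

variable {Φ : Space3 → ℝ} {β T : ℝ} {f₀ : PhasePoint → ℝ} {f : ℝ → PhasePoint → ℝ}

theorem fEn_mono {kap kap' : ℝ} (h : kap' ≤ kap) (x v : Space3) :
    fEn T f kap' x v ≤ fEn T f kap x v := by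
  unfold fEn
  refine mul_le_mul' (ENNReal.ofReal_le_ofReal (Real.exp_le_exp.2 ?_)) le_rfl
  exact mul_le_mul_of_nonneg_right h (sq_nonneg _)

/-- smaller energy weight and smaller Gaussian rate -/
theorem kinC_anti {h₀ kap lam C b kap' b' : ℝ} (hK : KinC Φ T f h₀ kap lam C b)
    (h1 : 0 < kap') (h2 : kap' ≤ kap) (h3 : 0 < b') (h4 : b' ≤ b) :
    KinC Φ T f h₀ kap' lam C b' := by
  refine ⟨hK.1, h1, hK.2.2.1, hK.2.2.2.1, h3, fun tw htw t ht x v => ⟨?_, ?_⟩⟩
  · refine le_trans (ENNReal.tsum_le_tsum fun τ => mul_le_mul' le_rfl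
      (F_mono₀ _ _ (fEn_mono h2) _ _ _ _)) (((hK.2.2.2.2.2 tw htw t ht x v).1).trans ?_)
    exact mul_le_mul' le_rfl (wG_anti h4 v)
  · refine le_trans (ENNReal.tsum_le_tsum fun τ => mul_le_mul' le_rfl
      (FS_mono₀ _ _ (fEn_mono h2) _ _ _ _)) (((hK.2.2.2.2.2 tw htw t ht x v).2).trans ?_)
    exact mul_le_mul' le_rfl (wG_anti h4 v)

/-- The constants of the `x`-integrated bounds. -/
def KinM (Φ : Space3 → ℝ) (T : ℝ) (f : ℝ → PhasePoint → ℝ) (h₀ kap lam b M : ℝ) : Prop :=
  0 < h₀ ∧ 0 < kap ∧ 1 < lam ∧ 0 < b ∧ 0 ≤ M ∧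
    ∀ tw ∈ Icc 0 T, ∀ t ∈ Icc 0 (tw + h₀),
      phI (fun x v => gau (-b) v * ∑' τ : CTree, ENNReal.ofReal lam ^ τ.size *
        F (kapQ Φ) (Dwin (damp T f) tw) (fEn T f kap) τ t x v) ≤ ENNReal.ofReal M ∧
      phI (fun x v => gau (-b) v * ∑' τ : CTree, ENNReal.ofReal lam ^ τ.size *
        FS (kapQ Φ) (Dwin (damp T f) tw) (fEn T f kap) τ t x v) ≤ ENNReal.ofReal M

theorem one_le_gau_neg {b : ℝ} (hb : 0 ≤ b) (v : Space3) : 1 ≤ gau (-b) v := by
  unfold gau
  rw [← ENNReal.ofReal_one]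
  refine ENNReal.ofReal_le_ofReal (Real.one_le_exp ?_)
  have := mul_nonneg hb (sq_nonneg ‖v‖)
  nlinarith

/-- smaller weights -/
theorem kinM_anti {h₀ kap lam b M kap' b' : ℝ} (hK : KinM Φ T f h₀ kap lam b M)
    (h1 : 0 < kap') (h2 : kap' ≤ kap) (h3 : 0 < b') (h4 : b' ≤ b) :
    KinM Φ T f h₀ kap' lam b' M := by
  refine ⟨hK.1, h1, hK.2.2.1, h3, hK.2.2.2.2.1, fun tw htw t ht => ⟨?_, ?_⟩⟩
  · refine le_trans (phI_mono fun x v => mul_le_mul' (gau_antitone (by linarith) v)
      (ENNReal.tsum_le_tsum fun τ => mul_le_mul' le_rfl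
      (F_mono₀ _ _ (fEn_mono h2) _ _ _ _))) (hK.2.2.2.2.2 tw htw t ht).1
  · refine le_trans (phI_mono fun x v => mul_le_mul' (gau_antitone (by linarith) v)
      (ENNReal.tsum_le_tsum fun τ => mul_le_mul' le_rfl
      (FS_mono₀ _ _ (fEn_mono h2) _ _ _ _))) (hK.2.2.2.2.2 tw htw t ht).2

/-- **(L1M)** `x`-integrated energy moments. -/
theorem exists_kinM (hβ : 0 < β) (hT : 0 < T) (hΦ : AdmissiblePotential Φ)
    (hf : IsRegularKineticSolution Φ β T f₀ f)
    (H : HasSummableGaussianBound (2 * β) (fun x v => f₀ (x, v)))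
    {h₀ kap lam C b : ℝ} (hK : KinC Φ T f h₀ kap lam C b) :
    ∃ kap' b' M : ℝ, kap' ≤ kap ∧ b' ≤ b ∧ KinM Φ T f h₀ kap' lam b' M := by
  have hK0 := hK
  obtain ⟨hh₀, hkap, hlam, hC, hb, -⟩ := hK
  have hlam0 : 0 ≤ lam := by linarith
  set kap' : ℝ := min kap (β / 2) with hkap'
  set bb : ℝ := min b β with hbb
  have hkap'0 : 0 < kap' := lt_min hkap (by positivity)
  have hbb0 : 0 < bb := lt_min hb hβ
  have hK' : KinC Φ T f h₀ kap' lam C bb :=
    kinC_anti hK0 hkap'0 (min_le_left _ _) hbb0 (min_le_left _ _)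
  set T1 : ℝ := T + h₀ with hT1
  have hT10 : 0 < T1 := by positivity
  obtain ⟨μ, hμ, hker⟩ := exists_kernel_small (C := lam * C * (CG (bb / 2)).toReal)
    (lam := bb / (4 * T1)) (by positivity) (by positivity) (ε := ENNReal.ofReal (1 / 2)) (by simp)
  obtain ⟨μ', hμ', hker'⟩ := exists_kernel_small (C := lam * (2 * C * (CG bb).toReal))
    (lam := bb / (4 * T1)) (by positivity) (by positivity) (ε := ENNReal.ofReal (1 / 2)) (by simp)
  set f0 : Space3 → Space3 → ℝ≥0∞ := fEn T f kap' with hf0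
  have hf0m : Measurable fun p : Space3 × Space3 => f0 p.1 p.2 := measurable_fEn hf kap'
  set A0 : ℝ≥0∞ := phI (fun x v => gau (-(bb / 2)) v * f0 x v) with hA0
  have hA0t : A0 ≠ ∞ := by
    have h1 : A0 = phI (fun x v => gau (-(bb / 2 + kap')) v * fE T f 0 x v) := by
      rw [hA0]
      congr 1
      funext x v
      rw [hf0]
      unfold fEn
      rw [← mul_assoc]
      congr 1
      unfold gau
      rw [← ENNReal.ofReal_mul (Real.exp_pos _).le, ← Real.exp_add]
      congr 2
      ring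
    rw [h1]
    refine (initial_moment hβ H hT hf ?_).ne
    have h2 : bb ≤ β := min_le_right _ _
    have h3 : kap' ≤ β / 2 := min_le_right _ _
    linarith
  -- bounds for a fixed window
  set M1 : ℝ≥0∞ := 2 * A0 with hM1
  have hM1t : M1 ≠ ∞ := ENNReal.mul_ne_top (by simp) hA0t
  set M2 : ℝ≥0∞ := 2 * (A0 + ENNReal.ofReal (Real.exp (μ * T1)) * M1) with hM2
  have hM2t : M2 ≠ ∞ := ENNReal.mul_ne_top (by simp) (ENNReal.add_ne_top.2
    ⟨hA0t, ENNReal.mul_ne_top ENNReal.ofReal_ne_top hM1t⟩)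
  have key : ∀ tw ∈ Icc 0 T, ∀ t ∈ Icc 0 (tw + h₀),
      phI (fun x v => gau (-(gam bb T1 t)) v * ∑' τ : CTree, ENNReal.ofReal lam ^ τ.size *
        F (kapQ Φ) (Dwin (damp T f) tw) f0 τ t x v) ≤ ENNReal.ofReal (Real.exp (μ * t)) * M1 ∧
      phI (fun x v => gau (-(gam bb T1 t)) v * ∑' τ : CTree, ENNReal.ofReal lam ^ τ.size *
        FS (kapQ Φ) (Dwin (damp T f) tw) f0 τ t x v) ≤ ENNReal.ofReal (Real.exp (μ' * t)) * M2 := by
    intro tw htw
    have hD : Meas4 (Dwin (damp T f) tw) := meas4_Dwin (meas4_damp hf) tw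
    have hT2 : tw + h₀ ≤ T1 := by rw [hT1]; linarith [htw.2]
    have hsup : ∀ n, ∀ t ∈ Icc 0 (tw + h₀), ∀ x v,
        P (kapQ Φ) (Dwin (damp T f) tw) f0 (ENNReal.ofReal lam) n t x v ≤
          ENNReal.ofReal C * gau bb v := by
      intro n t ht x v
      have h1 := (hK'.2.2.2.2.2 tw htw t ht x v).1
      rw [tsum_eq_iSup _ hD hf0m, wG_eq_gau] at h1
      exact (le_iSup (fun n => P (kapQ Φ) (Dwin (damp T f) tw) f0 (ENNReal.ofReal lam) n t x v)
        n).trans h1
    have hmP : ∀ t n, Measurable (Function.uncurry fun x v : Space3 => gau (-(gam bb T1 t)) v *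
        P (kapQ Φ) (Dwin (damp T f) tw) f0 (ENNReal.ofReal lam) n t x v) := fun t n =>
      ((measurable_gau _).comp measurable_snd).mul (meas3_uncurry
        (meas_P (kapQ Φ) hD hf0m _ n) t)
    have hPmono : ∀ t x v, Monotone fun n =>
        P (kapQ Φ) (Dwin (damp T f) tw) f0 (ENNReal.ofReal lam) n t x v := by
      intro t x v n m hnm
      show P (kapQ Φ) (Dwin (damp T f) tw) f0 (ENNReal.ofReal lam) n t x v ≤
        P (kapQ Φ) (Dwin (damp T f) tw) f0 (ENNReal.ofReal lam) m t x v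
      rw [P_eq_sum _ hD hf0m, P_eq_sum _ hD hf0m]
      exact Finset.sum_le_sum_of_subset (CTree.lt_mono hnm)
    -- first part
    have part1 : ∀ t ∈ Icc 0 (tw + h₀),
      phI (fun x v => gau (-(gam bb T1 t)) v * ∑' τ : CTree, ENNReal.ofReal lam ^ τ.size *
        F (kapQ Φ) (Dwin (damp T f) tw) f0 τ t x v) ≤
          ENNReal.ofReal (Real.exp (μ * t)) * M1 := by
      intro t ht
      have hpt : ∀ z : Space3 × Space3, gau (-(gam bb T1 t)) z.2 *
          ∑' τ : CTree, ENNReal.ofReal lam ^ τ.size *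
            F (kapQ Φ) (Dwin (damp T f) tw) f0 τ t z.1 z.2 =
          ⨆ n, gau (-(gam bb T1 t)) z.2 *
            P (kapQ Φ) (Dwin (damp T f) tw) f0 (ENNReal.ofReal lam) n t z.1 z.2 := by
        intro z
        rw [tsum_eq_iSup _ hD hf0m, ENNReal.mul_iSup]
      have hmeas : Measurable (Function.uncurry fun x v : Space3 => gau (-(gam bb T1 t)) v *
          ∑' τ : CTree, ENNReal.ofReal lam ^ τ.size *
            F (kapQ Φ) (Dwin (damp T f) tw) f0 τ t x v) := by
        refine ((measurable_gau _).comp measurable_snd).mul ?_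
        refine Measurable.tsum fun τ => ?_
        refine Measurable.const_mul ?_ _
        exact meas3_uncurry (meas_F (kapQ Φ) hD hf0m τ) t
      rw [phI_eq_prod hmeas]
      simp_rw [hpt]
      have hm' : ∀ n, Measurable fun z : Space3 × Space3 => gau (-(gam bb T1 t)) z.2 *
            P (kapQ Φ) (Dwin (damp T f) tw) f0 (ENNReal.ofReal lam) n t z.1 z.2 := hmP t
      rw [lintegral_iSup hm' (fun n m hnm z =>
        mul_le_mul' le_rfl (hPmono t z.1 z.2 hnm))]
      refine iSup_le fun n => ?_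
      rw [← phI_eq_prod (hmP t n)]
      exact L1_P hΦ hlam0 hC hbb0 hT10 hμ hker hD (Dwin_le_one damp_le_one tw) hf0m hT2 hsup hA0t n
        ht
    refine fun t ht => ⟨part1 t ht, ?_⟩
    -- second part
    set Hs : ℝ → Space3 → Space3 → ℝ≥0∞ := fun t x v => ∑' τ : CTree,
      ENNReal.ofReal lam ^ τ.size * F (kapQ Φ) (Dwin (damp T f) tw) f0 τ t x v with hHs
    have hHm : Meas3 Hs := by
      have h1 : ∀ τ : CTree, Measurable fun p : ℝ × Space3 × Space3 =>
          ENNReal.ofReal lam ^ τ.size *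
            F (kapQ Φ) (Dwin (damp T f) tw) f0 τ p.1 p.2.1 p.2.2 := fun τ =>
        Measurable.const_mul (f := fun p : ℝ × Space3 × Space3 =>
          F (kapQ Φ) (Dwin (damp T f) tw) f0 τ p.1 p.2.1 p.2.2) (meas_F (kapQ Φ) hD hf0m τ) _
      have h2 : Measurable fun p : ℝ × Space3 × Space3 => ∑' τ : CTree,
          ENNReal.ofReal lam ^ τ.size *
            F (kapQ Φ) (Dwin (damp T f) tw) f0 τ p.1 p.2.1 p.2.2 := Measurable.tsum h1
      exact h2
    have hmS : ∀ n, Measurable (Function.uncurry fun x v : Space3 => gau (-(gam bb T1 t)) v *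
        SFn (kapQ Φ) (Dwin (damp T f) tw) f0 (ENNReal.ofReal lam) n t x v) := fun n =>
      ((measurable_gau _).comp measurable_snd).mul (meas3_uncurry (meas_SFn hD hf0m _ n) t)
    have hpt : ∀ z : Space3 × Space3, gau (-(gam bb T1 t)) z.2 *
        ∑' τ : CTree, ENNReal.ofReal lam ^ τ.size *
          FS (kapQ Φ) (Dwin (damp T f) tw) f0 τ t z.1 z.2 =
        ⨆ n, gau (-(gam bb T1 t)) z.2 *
          SFn (kapQ Φ) (Dwin (damp T f) tw) f0 (ENNReal.ofReal lam) n t z.1 z.2 := by
      intro z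
      rw [ENNReal.tsum_eq_iSup_sum' CTree.lt CTree.exists_subset_lt, ENNReal.mul_iSup]
      rfl
    have hmeas : Measurable (Function.uncurry fun x v : Space3 => gau (-(gam bb T1 t)) v *
        ∑' τ : CTree, ENNReal.ofReal lam ^ τ.size *
          FS (kapQ Φ) (Dwin (damp T f) tw) f0 τ t x v) := by
      refine ((measurable_gau _).comp measurable_snd).mul ?_
      refine Measurable.tsum fun τ => ?_
      refine Measurable.const_mul ?_ _
      exact meas3_uncurry (meas_FS hD hf0m τ) t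
    rw [phI_eq_prod hmeas]
    simp_rw [hpt]
    have hm' : ∀ n, Measurable fun z : Space3 × Space3 => gau (-(gam bb T1 t)) z.2 *
          SFn (kapQ Φ) (Dwin (damp T f) tw) f0 (ENNReal.ofReal lam) n t z.1 z.2 := hmS
    rw [lintegral_iSup hm' (fun n m hnm z => mul_le_mul' le_rfl
      (Finset.sum_le_sum_of_subset (CTree.lt_mono hnm)))]
    refine iSup_le fun n => ?_
    rw [← phI_eq_prod (hmS n)]
    exact L1_FS hΦ hlam0 hC hbb0 hT10 hμ hker hμ' hker' hD hf0m hT2 hHm
      (fun t ht x v => le_rfl) (fun t ht x v => by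
        have := (hK'.2.2.2.2.2 tw htw t ht x v).1
        rwa [wG_eq_gau] at this) part1 hM1t hA0t n ht
  -- conclusion
  refine ⟨kap', bb / 4, (ENNReal.ofReal (Real.exp (μ * T1)) * M1).toReal +
    (ENNReal.ofReal (Real.exp (μ' * T1)) * M2).toReal, min_le_left _ _, ?_, hh₀, hkap'0, hlam,
    by positivity, by positivity, fun tw htw t ht => ?_⟩
  · have : bb ≤ b := min_le_left _ _
    linarith
  have htT : t ∈ Icc 0 T1 := ⟨ht.1, ht.2.trans (by rw [hT1]; linarith [htw.2])⟩
  have hgt := gam_mem hbb0 hT10 htT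
  have hw : ∀ v : Space3, gau (-(bb / 4)) v ≤ gau (-(gam bb T1 t)) v := fun v =>
    gau_antitone (by linarith [hgt.1]) v
  have hk := key tw htw t ht
  have ht1 : ENNReal.ofReal (Real.exp (μ * T1)) * M1 ≠ ∞ :=
    ENNReal.mul_ne_top ENNReal.ofReal_ne_top hM1t
  have ht2 : ENNReal.ofReal (Real.exp (μ' * T1)) * M2 ≠ ∞ :=
    ENNReal.mul_ne_top ENNReal.ofReal_ne_top hM2t
  rw [ENNReal.ofReal_add ENNReal.toReal_nonneg ENNReal.toReal_nonneg, ENNReal.ofReal_toReal ht1,
    ENNReal.ofReal_toReal ht2]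
  constructor
  · refine (phI_mono fun x v => mul_le_mul' (hw v) le_rfl).trans (hk.1.trans ?_)
    refine le_trans ?_ le_self_add
    gcongr
    exact htT.2
  · refine (phI_mono fun x v => mul_le_mul' (hw v) le_rfl).trans (hk.2.trans ?_)
    refine le_trans ?_ le_add_self
    gcongr
    exact htT.2

/-! ### Parameter forms -/

section bounds

variable {h₀ kap lam b M : ℝ}

/-- free transport of a phase space integral -/
theorem lintegral_transport {K : Space3 → Space3 → ℝ≥0∞}
    (hK : Measurable fun p : Space3 × Space3 => K p.1 p.2) (t : ℝ) :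
    ∫⁻ ℓ : PhasePoint, K (ℓ.1 + t • ℓ.2) ℓ.2 = phI K := by
  have h1 : Measurable (Function.uncurry fun x v : Space3 => K (x - (-t) • v) v) := by
    have hm : Measurable fun p : Space3 × Space3 => (p.1 - (-t) • p.2, p.2) := by fun_prop
    exact Measurable.comp (g := fun p : Space3 × Space3 => K p.1 p.2) hK hm
  have h2 := phI_transport (G := K) hK (-t)
  rw [← h2, phI_eq_prod h1]
  refine lintegral_congr fun z => ?_
  show K (z.1 + t • z.2) z.2 = K (z.1 - (-t) • z.2) z.2
  rw [neg_smul, sub_neg_eq_add]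

/-- abstract weighted bound: from the energy form to a general weight -/
theorem weight_aux {G : ∀ j : CTree, ℝ → Space3 → Space3 → ℝ≥0∞}
    {wX : ∀ j : CTree, ℝ → Space3 → Space3 → Par j → ℝ≥0∞}
    (hm : ∀ j t, Measurable fun p : Space3 × Space3 => G j t p.1 p.2)
    (hG : ∀ j t x v, G j t x v =
      ∫⁻ p : Par j, ENNReal.ofReal (Real.exp (kap * eng Φ j v p)) * wX j t x v p) {B : ℝ≥0∞}
    {t : ℝ} (hB : phI (fun x v => gau (-b) v * ∑' j : CTree, ENNReal.ofReal lam ^ j.size *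
      G j t x v) ≤ B)
    {phi : ∀ j : CTree, PhasePoint → Par j → ℝ≥0∞} {M₁ : ℝ≥0∞} (hM : M₁ ≠ ∞)
    (hphi : ∀ j ℓ p, phi j ℓ p ≤ M₁ * ENNReal.ofReal lam ^ j.size *
      ENNReal.ofReal (Real.exp (kap * eng Φ j ℓ.2 p))) :
    (∑' j : CTree, ∫⁻ z : PhasePoint, gau (-b) z.2 *
      ∫⁻ p : Par j, phi j z p * wX j t z.1 z.2 p ≤ M₁ * B) ∧
    (∑' j : CTree, ∫⁻ ℓ : PhasePoint, gau (-b) ℓ.2 *
      ∫⁻ p : Par j, phi j ℓ p * wX j t (ℓ.1 + t • ℓ.2) ℓ.2 p ≤ M₁ * B) := by
  have hpt : ∀ (j : CTree) (z : PhasePoint) (x : Space3), gau (-b) z.2 *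
      ∫⁻ p : Par j, phi j z p * wX j t x z.2 p ≤
      M₁ * (gau (-b) z.2 * (ENNReal.ofReal lam ^ j.size * G j t x z.2)) := by
    intro j z x
    have hfin : M₁ * ENNReal.ofReal lam ^ j.size ≠ ∞ :=
      ENNReal.mul_ne_top hM (ENNReal.pow_ne_top ENNReal.ofReal_ne_top)
    have h1 : ∫⁻ p : Par j, phi j z p * wX j t x z.2 p ≤
        M₁ * ENNReal.ofReal lam ^ j.size * G j t x z.2 := by
      rw [hG, ← lintegral_const_mul' _ _ hfin]
      refine lintegral_mono fun p => ?_
      rw [← mul_assoc]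
      exact mul_le_mul' (hphi j z p) le_rfl
    refine (mul_le_mul' le_rfl h1).trans (le_of_eq ?_)
    ring
  have hGm : ∀ j, Measurable fun p : Space3 × Space3 =>
      gau (-b) p.2 * (ENNReal.ofReal lam ^ j.size * G j t p.1 p.2) := fun j =>
    ((measurable_gau _).comp measurable_snd).mul ((hm j t).const_mul _)
  have hsum : ∑' j : CTree, phI (fun x v => gau (-b) v *
      (ENNReal.ofReal lam ^ j.size * G j t x v)) ≤ B := by
    refine le_trans (le_of_eq ?_) hB
    have hGm' : Measurable (Function.uncurry fun x v : Space3 =>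
        gau (-b) v * ∑' j : CTree, ENNReal.ofReal lam ^ j.size * G j t x v) :=
      ((measurable_gau _).comp measurable_snd).mul
        (Measurable.tsum fun j => (hm j t).const_mul _)
    rw [phI_eq_prod hGm']
    have h2 : ∀ z : Space3 × Space3, gau (-b) z.2 *
        ∑' j : CTree, ENNReal.ofReal lam ^ j.size * G j t z.1 z.2 =
        ∑' j : CTree, gau (-b) z.2 * (ENNReal.ofReal lam ^ j.size * G j t z.1 z.2) := fun z =>
      ENNReal.tsum_mul_left.symm
    simp_rw [h2]
    rw [lintegral_tsum fun j => (hGm j).aemeasurable]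
    refine tsum_congr fun j => ?_
    exact phI_eq_prod (hGm j)
  have hfin : ∀ (t' : ℝ) (_ : t' = 0 ∨ t' = t), ∑' j : CTree, ∫⁻ z : PhasePoint, gau (-b) z.2 *
      ∫⁻ p : Par j, phi j z p * wX j t (z.1 + t' • z.2) z.2 p ≤ M₁ * B := by
    intro t' _
    calc ∑' j : CTree, ∫⁻ z : PhasePoint, gau (-b) z.2 *
          ∫⁻ p : Par j, phi j z p * wX j t (z.1 + t' • z.2) z.2 p
        ≤ ∑' j : CTree, M₁ * phI (fun x v => gau (-b) v *
            (ENNReal.ofReal lam ^ j.size * G j t x v)) := by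
          refine ENNReal.tsum_le_tsum fun j => ?_
          refine (lintegral_mono fun z => hpt j z (z.1 + t' • z.2)).trans ?_
          rw [lintegral_const_mul' _ _ hM]
          refine mul_le_mul' le_rfl (le_of_eq ?_)
          exact lintegral_transport (K := fun x v => gau (-b) v *
            (ENNReal.ofReal lam ^ j.size * G j t x v)) (hGm j) t'
      _ = M₁ * ∑' j : CTree, phI (fun x v => gau (-b) v *
            (ENNReal.ofReal lam ^ j.size * G j t x v)) := ENNReal.tsum_mul_left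
      _ ≤ M₁ * B := mul_le_mul' le_rfl hsum
  refine ⟨?_, hfin t (Or.inr rfl)⟩
  have h0 := hfin 0 (Or.inl rfl)
  simpa only [zero_smul, add_zero] using h0

theorem measurable_F_slice (hf : IsRegularKineticSolution Φ β T f₀ f) (kap tw : ℝ) (j : CTree)
    (t : ℝ) : Measurable fun p : Space3 × Space3 =>
      F (kapQ Φ) (Dwin (damp T f) tw) (fEn T f kap) j t p.1 p.2 :=
  meas3_uncurry (meas_F (kapQ Φ) (meas4_Dwin (meas4_damp hf) tw) (measurable_fEn hf kap) j) t

theorem measurable_FS_slice (hf : IsRegularKineticSolution Φ β T f₀ f) (kap tw : ℝ) (j : CTree)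
    (t : ℝ) : Measurable fun p : Space3 × Space3 =>
      FS (kapQ Φ) (Dwin (damp T f) tw) (fEn T f kap) j t p.1 p.2 :=
  meas3_uncurry (meas_FS (meas4_Dwin (meas4_damp hf) tw) (measurable_fEn hf kap) j) t

/-- General weights, root damped. -/
theorem KinM.weight (hΦ : AdmissiblePotential Φ) (hf : IsRegularKineticSolution Φ β T f₀ f)
    (hK : KinM Φ T f h₀ kap lam b M) {phi : ∀ j : CTree, PhasePoint → Par j → ℝ≥0∞}
    {M₁ : ℝ≥0∞} (hM : M₁ ≠ ∞)
    (hphi : ∀ j ℓ p, phi j ℓ p ≤ M₁ * ENNReal.ofReal lam ^ j.size *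
      ENNReal.ofReal (Real.exp (kap * eng Φ j ℓ.2 p)))
    {tw : ℝ} (htw : tw ∈ Icc 0 T) {t : ℝ} (ht : t ∈ Icc 0 (tw + h₀)) :
    (∑' j : CTree, ∫⁻ z : PhasePoint, gau (-b) z.2 *
      ∫⁻ p : Par j, phi j z p * wD Φ T f tw j t z.1 z.2 p ≤ M₁ * ENNReal.ofReal M) ∧
    (∑' j : CTree, ∫⁻ ℓ : PhasePoint, gau (-b) ℓ.2 *
      ∫⁻ p : Par j, phi j ℓ p * wD Φ T f tw j t (ℓ.1 + t • ℓ.2) ℓ.2 p ≤ M₁ * ENNReal.ofReal M) :=
  weight_aux (Φ := Φ) (G := fun j t x v => F (kapQ Φ) (Dwin (damp T f) tw) (fEn T f kap) j t x v)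
    (wX := fun j t x v p => wD Φ T f tw j t x v p)
    (fun j t => measurable_F_slice hf kap tw j t) (fun j t x v => F_energy hΦ hf kap tw j t x v)
    (hK.2.2.2.2.2 tw htw t ht).1 hM hphi

/-- General weights, straight line of the root undamped. -/
theorem KinM.weightS (hΦ : AdmissiblePotential Φ) (hf : IsRegularKineticSolution Φ β T f₀ f)
    (hK : KinM Φ T f h₀ kap lam b M) {phi : ∀ j : CTree, PhasePoint → Par j → ℝ≥0∞}
    {M₁ : ℝ≥0∞} (hM : M₁ ≠ ∞)
    (hphi : ∀ j ℓ p, phi j ℓ p ≤ M₁ * ENNReal.ofReal lam ^ j.size *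
      ENNReal.ofReal (Real.exp (kap * eng Φ j ℓ.2 p)))
    {tw : ℝ} (htw : tw ∈ Icc 0 T) {t : ℝ} (ht : t ∈ Icc 0 (tw + h₀)) :
    (∑' j : CTree, ∫⁻ z : PhasePoint, gau (-b) z.2 *
      ∫⁻ p : Par j, phi j z p * wS Φ T f tw j t z.1 z.2 p ≤ M₁ * ENNReal.ofReal M) ∧
    (∑' j : CTree, ∫⁻ ℓ : PhasePoint, gau (-b) ℓ.2 *
      ∫⁻ p : Par j, phi j ℓ p * wS Φ T f tw j t (ℓ.1 + t • ℓ.2) ℓ.2 p ≤ M₁ * ENNReal.ofReal M) :=
  weight_aux (Φ := Φ) (G := fun j t x v => FS (kapQ Φ) (Dwin (damp T f) tw) (fEn T f kap) j t x v)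
    (wX := fun j t x v p => wS Φ T f tw j t x v p)
    (fun j t => measurable_FS_slice hf kap tw j t) (fun j t x v => FS_energy hΦ hf kap tw j t x v)
    (hK.2.2.2.2.2 tw htw t ht).2 hM hphi

/-- Size tails (trees with at least `m` collisions), both dampings, both coordinates. -/
theorem KinM.tail (hΦ : AdmissiblePotential Φ) (hf : IsRegularKineticSolution Φ β T f₀ f)
    (hK : KinM Φ T f h₀ kap lam b M) {phi : ∀ j : CTree, PhasePoint → Par j → ℝ≥0∞}
    {M₁ : ℝ≥0∞} (hM : M₁ ≠ ∞) {lam₁ : ℝ} (h1 : 0 < lam₁) (h2 : lam₁ ≤ lam)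
    (hphi : ∀ j ℓ p, phi j ℓ p ≤ M₁ * ENNReal.ofReal lam₁ ^ j.size *
      ENNReal.ofReal (Real.exp (kap * eng Φ j ℓ.2 p))) (m : ℕ)
    {tw : ℝ} (htw : tw ∈ Icc 0 T) {t : ℝ} (ht : t ∈ Icc 0 (tw + h₀)) :
    ((∑' j : CTree, ∫⁻ z : PhasePoint, gau (-b) z.2 *
      ∫⁻ p : Par j, (if m ≤ j.size then phi j z p else 0) * wD Φ T f tw j t z.1 z.2 p ≤
        M₁ * ENNReal.ofReal (lam₁ / lam) ^ m * ENNReal.ofReal M) ∧
    (∑' j : CTree, ∫⁻ ℓ : PhasePoint, gau (-b) ℓ.2 *
      ∫⁻ p : Par j, (if m ≤ j.size then phi j ℓ p else 0) *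
        wD Φ T f tw j t (ℓ.1 + t • ℓ.2) ℓ.2 p ≤
        M₁ * ENNReal.ofReal (lam₁ / lam) ^ m * ENNReal.ofReal M)) ∧
    ((∑' j : CTree, ∫⁻ z : PhasePoint, gau (-b) z.2 *
      ∫⁻ p : Par j, (if m ≤ j.size then phi j z p else 0) * wS Φ T f tw j t z.1 z.2 p ≤
        M₁ * ENNReal.ofReal (lam₁ / lam) ^ m * ENNReal.ofReal M) ∧
    (∑' j : CTree, ∫⁻ ℓ : PhasePoint, gau (-b) ℓ.2 *
      ∫⁻ p : Par j, (if m ≤ j.size then phi j ℓ p else 0) *
        wS Φ T f tw j t (ℓ.1 + t • ℓ.2) ℓ.2 p ≤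
        M₁ * ENNReal.ofReal (lam₁ / lam) ^ m * ENNReal.ofReal M)) := by
  have hM' : M₁ * ENNReal.ofReal (lam₁ / lam) ^ m ≠ ∞ :=
    ENNReal.mul_ne_top hM (ENNReal.pow_ne_top ENNReal.ofReal_ne_top)
  have hphi' : ∀ (j : CTree) (ℓ : PhasePoint) (p : Par j),
      (if m ≤ j.size then phi j ℓ p else 0) ≤
      (M₁ * ENNReal.ofReal (lam₁ / lam) ^ m) * ENNReal.ofReal lam ^ j.size *
      ENNReal.ofReal (Real.exp (kap * eng Φ j ℓ.2 p)) := by
    intro j ℓ p
    by_cases h : m ≤ j.size
    · simp only [if_pos h]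
      exact (hphi j ℓ p).trans (tail_weight h1 h2 h)
    · simp only [if_neg h]
      exact bot_le
  exact ⟨hK.weight hΦ hf (phi := fun j ℓ p => if m ≤ j.size then phi j ℓ p else 0) hM' hphi'
      htw ht,
    hK.weightS hΦ hf (phi := fun j ℓ p => if m ≤ j.size then phi j ℓ p else 0) hM' hphi' htw ht⟩

/-- the weight `exp (b ‖v‖²)` of the root velocity may be dropped -/
theorem drop_gau (hb : 0 ≤ b) {G : PhasePoint → ℝ≥0∞} :
    ∫⁻ z : PhasePoint, G z ≤ ∫⁻ z : PhasePoint, gau (-b) z.2 * G z := by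
  refine lintegral_mono fun z => ?_
  exact le_mul_of_one_le_left bot_le (one_le_gau_neg hb z.2)

end bounds

end Crest.Agent.R122.KinL1
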