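import Crest.Agent.R122.Mom_974
import Crest.Agent.R122.Master_566

/-!
# Row 122 (helper974): tightness of the gas in position, uniformly in `ε` and in time

`far_le` : expected mass of the particles with `2 R < ‖x_i(t)‖`.
`exists_far_le` : it is at most `δ` for some `R`, for all `ε ≤ 1` (`ε > 0`) and `t ∈ [0, T]`.
-/
namespace Crest.Agent.R122.Tight974
end Crest.Agent.R122.Tight974
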