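import Crest.Agent.R122.BoltzL1c_814
import Crest.Agent.R122.Band1_974
import Crest.Agent.R122.Tight_974
import Crest.Agent.R122.NEK_370
import Crest.Agent.R122.TreeLimX_974
import Crest.Agent.R122.KinL1_263
import Crest.Agent.R122.ToTree_335
import Crest.Agent.R122.EDefs_602

-- ▼ part R122/BoltzInv_814
section

/-!
Row 122, Boltzmann side (helper814): collision invariants and exact conservation laws of regular
solutions.
-/

set_option autoImplicit false

open MeasureTheory ProbabilityTheory Set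
open Crest.AnalysisR.Kinetic
open Crest.Agent.R122.Kin416 Crest.Agent.R122.Kin796
open scoped ENNReal

noncomputable section

namespace Crest.Agent.R122.Boltz814

variable {Φ : Space3 → ℝ} {β T : ℝ} {f₀ : PhasePoint → ℝ} {f : ℝ → PhasePoint → ℝ}





/-- Collision invariants. -/
structure CollInv (Φ : Space3 → ℝ) (φ : Space3 → ℝ≥0∞) : Prop where
  meas : Measurable φ
  inv : ∀ v w b : Space3, b ∈ impactDisc (v - w) → v - w ≠ 0 →
    φ (postVelocities Φ b v w).1 + φ (postVelocities Φ b v w).2 = φ v + φ w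






/-! ### Moments of the solution -/





end Crest.Agent.R122.Boltz814

end
end

-- ▼ part R122/Band2_974
section

/-!
# Row 122 (helper974), F7 part 2: the band bound

* `psiR R` : indicator of `‖x‖ ≤ R`.
* `BandUp Φ f₀ t` : the upper bound of the mass of particles with `K₁ < |bc| ≤ K` by the tree
  integrals `J ε P t`, up to a null error (output of the real side: Mecke, NG, RtG).
* `band_of_up` : `GIV t` and `BandUp t` imply `NEK370.Band` with a geometric tail.
* `nek_of_up` : together with `NE t` they imply `NEK t`.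
-/

set_option autoImplicit false

open MeasureTheory Set Filter
open scoped ENNReal Topology Classical NNReal
open Crest.AnalysisR.Kinetic Crest.Agent.R122.Kin796 Crest.Agent.R122.Disc416
  Crest.Agent.R122.Tree674 Crest.Agent.R122.TreeEps399 Crest.Agent.R122.TreeLim974
  Crest.Agent.R122.GIV566 Crest.Agent.R122.Boltz814 Crest.Agent.R122.Kin416
  Crest.Agent.R122.GC311 Crest.Agent.R122.Causal291 Crest.Agent.R122.Master566
  Crest.Agent.R122.NEK370 Crest.Agent.R122.EW370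

noncomputable section

namespace Crest.Agent.R122.Band974

open CTree

variable {Φ : Space3 → ℝ} {f₀ : PhasePoint → ℝ} {f : ℝ → PhasePoint → ℝ} {β T t : ℝ}




/-- trees with `K₁ < leaves ≤ K` -/
def bandT (K₁ K : ℕ) : Finset CTree := (CTree.lt K).filter fun P => K₁ < P.leaves ∧ P.leaves ≤ K

theorem mem_bandT {K₁ K : ℕ} {P : CTree} : P ∈ bandT K₁ K ↔ K₁ < P.leaves ∧ P.leaves ≤ K := by
  unfold bandT
  rw [Finset.mem_filter, CTree.mem_lt]
  constructor
  · exact fun h => h.2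
  · intro h
    refine ⟨?_, h⟩
    have h1 := CTree.height_le_size P
    have h2 := CTree.leaves_eq P
    omega







end Crest.Agent.R122.Band974
end
end

-- ▼ part R122/SizeX1_974

/-!
# Row 122 (helper974), size crossing (SX), part 1: two-time tree integrals

* `WtT Φ P z` : additive energy weight `∑ (1 + ‖v_i‖²)` of the lines of a tree.
* `JX Φ f₀ ε P tw T'` : tree integral at `ε`, horizon `T'`, protected tubes unhit up to `tw`,
  weight `WtT`; `JE κ` the same with the weight `exp (κ ∑ ‖v_i‖²)`.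
* `tendsto_JE` : `GIV tw` gives the limit of `JE` (all root positions).
* `sum_JX_le`, `JX_small` : geometric tails, uniform in `ε → 0`, for `tw ≤ T' ≤ tw + h₀`.
-/

set_option autoImplicit false

open MeasureTheory Set Filter
open scoped ENNReal Topology Classical NNReal
open Crest.AnalysisR.Kinetic Crest.Agent.R122.Kin796 Crest.Agent.R122.Disc416
  Crest.Agent.R122.Tree674 Crest.Agent.R122.TreeEps399 Crest.Agent.R122.TreeDom974
  Crest.Agent.R122.TreeLim974 Crest.Agent.R122.TreeLimX974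
  Crest.Agent.R122.GIV566 Crest.Agent.R122.GIVUse424
  Crest.Agent.R122.Hid424 Crest.Agent.R122.Boltz814 Crest.Agent.R122.Kin416
  Crest.Agent.R122.Band974
open Crest.Agent.R122.Quench815 (absd)
open Crest.Agent.R122.Seg814 (fEn eng KinC exists_kinC exists_additive_le)
open Crest.Agent.R122.KinL1 (KinM exists_kinM kinM_anti)

noncomputable section

namespace Crest.Agent.R122.SizeX974

open CTree

variable {Φ : Space3 → ℝ} {f₀ : PhasePoint → ℝ} {f : ℝ → PhasePoint → ℝ} {β T tw T' : ℝ}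

/-! ### Convergence of the avoidance probability, two times -/

/-- **`GIV tw` for the protected tubes of a generic tree with horizon `T'`.** -/
theorem conv_PT2 (hΦ : AdmissiblePotential Φ) (hGIV : GIV Φ f₀ f T tw) (hT' : 0 ≤ T')
    {P : CTree} {v : Space3} {p : Par P} (hV : Valid Φ 0 P T' v p) (hG : Gen Φ P (0, v) p) (R : ℝ) :
    Tendsto (fun ε => ∫⁻ x in Metric.closedBall (0 : Space3) R,
      absd (uG Φ f₀ ε (PT Φ ε P T' (x, v) p) tw) (dampG T f (PT Φ 0 P T' (x, v) p) tw)) L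
        (𝓝 0) := by
  have h := GIV.use hGIV hT' (l := L) tendsto_id (convE_PTc hΦ hT' hV hG) (generic_PT hG T') R
  refine h.congr' ?_
  filter_upwards [eventually_good hΦ hV hG] with ε hε
  refine lintegral_congr fun x => ?_
  have e : uG Φ f₀ ε (PT Φ ε P T' (x, v) p) tw = uG Φ f₀ ε (PTc Φ ε P T' (x, v) p) tw := by
    refine uG_congr rfl fun i s hs => ?_
    have hs1 : s ≤ T' := (hs.2.trans (min_le_left _ _)).trans
      (PathFlow968.prot_le le_rfl P T' v p hV.2 i)
    exact (curve_eq_path hΦ hε.1 hε.2.1 (hε.2.2 x) ⟨hs.1, hs1⟩ i).symm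
  rw [e, PTc_shift hΦ hε.1 P T' x v p, PT_shift 0 P T' x v p]
  rfl

theorem Lam_PT2 (hf : IsRegularKineticSolution Φ β T f₀ f) {P : CTree} {ℓ : PhasePoint}
    {p : Par P} (hV : Valid Φ 0 P T' ℓ.2 p) :
    Lam T f (PT Φ 0 P T' ℓ p) tw = LamP Φ (nuF T f) tw P T' ℓ p := by
  obtain ⟨X, v⟩ := ℓ
  rw [Lam_eq_sum hf fun i => (Hid424.continuous_path0 hV X i).continuousOn]
  unfold LamP legR
  refine Finset.sum_congr rfl fun i _ => ?_
  refine setLIntegral_congr_fun_ae measurableSet_Ioc ?_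
  have h0 : ∀ᵐ s : ℝ, NotTime P p s := by
    have := (finite_times P p).measure_zero (volume : Measure ℝ)
    rw [ae_iff]
    exact this
  filter_upwards [h0] with s hs _
  show nuF T f s (path Φ 0 P (X, v) p s i).1 (deriv (fun u => (path Φ 0 P (X, v) p u i).1) s) = _
  rw [(hasDerivAt_path0 hs X i).deriv]

theorem dampG_PT2 (hf : IsRegularKineticSolution Φ β T f₀ f) {P : CTree} {ℓ : PhasePoint}
    {p : Par P} (hV : Valid Φ 0 P T' ℓ.2 p) :
    dampG T f (PT Φ 0 P T' ℓ p) tw = eexp (LamP Φ (nuF T f) tw P T' ℓ p) := by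
  unfold dampG eexp
  rw [Lam_PT2 hf hV]

/-! ### Measurability -/

theorem measurable_dampG_PT2 (hΦ : AdmissiblePotential Φ)
    (hf : IsRegularKineticSolution Φ β T f₀ f) (P : CTree) (T' tw : ℝ) :
    Measurable ((good0 Φ P T').indicator fun z => dampG T f (PT Φ 0 P T' z.1 z.2) tw) := by
  have hnu : Measurable fun p : ℝ × Space3 × Space3 => nuF T f p.1 p.2.1 p.2.2 := measurable_nuF hf
  set LM : PhasePoint × Par P → ℝ≥0∞ := fun z => ∑ i : Idx P,
    ∫⁻ s : ℝ, (if 0 < s ∧ s ≤ min (prot P T' z.2 i) tw then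
      nuF T f s (pathM Φ 0 P s z.1 z.2 i).1 (pathM Φ 0 P s z.1 z.2 i).2 else 0) with hLM
  have hLMm : Measurable LM := by
    refine Finset.measurable_sum _ fun i _ => ?_
    have h1 := measurable_pathM' hΦ 0 P i
    have h2 : Measurable fun w : (PhasePoint × Par P) × ℝ =>
        nuF T f w.2 (pathM Φ 0 P w.2 w.1.1 w.1.2 i).1 (pathM Φ 0 P w.2 w.1.1 w.1.2 i).2 :=
      hnu.comp (f := fun w : (PhasePoint × Par P) × ℝ =>
        (w.2, (pathM Φ 0 P w.2 w.1.1 w.1.2 i).1, (pathM Φ 0 P w.2 w.1.1 w.1.2 i).2))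
        (measurable_snd.prodMk (h1.fst.prodMk h1.snd))
    have hb : Measurable fun w : (PhasePoint × Par P) × ℝ => min (prot P T' w.1.2 i) tw :=
      ((measurable_prot P i).comp (f := fun w : (PhasePoint × Par P) × ℝ => (T', w.1.2))
        (measurable_const.prodMk (measurable_snd.comp measurable_fst))).min measurable_const
    have h3 : Measurable fun w : (PhasePoint × Par P) × ℝ =>
        if 0 < w.2 ∧ w.2 ≤ min (prot P T' w.1.2 i) tw then
          nuF T f w.2 (pathM Φ 0 P w.2 w.1.1 w.1.2 i).1 (pathM Φ 0 P w.2 w.1.1 w.1.2 i).2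
        else 0 := by
      refine Measurable.ite ?_ h2 measurable_const
      exact (measurableSet_lt measurable_const measurable_snd).inter
        (measurableSet_le measurable_snd hb)
    exact h3.lintegral_prod_right'
  have hee : Measurable fun x : ℝ≥0∞ => eexp x := by
    unfold eexp
    fun_prop
  have h4 : ((good0 Φ P T').indicator fun z => dampG T f (PT Φ 0 P T' z.1 z.2) tw) =
      (good0 Φ P T').indicator fun z => eexp (LM z) := by
    funext z
    by_cases hz : z ∈ good0 Φ P T'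
    · have hz' : Valid Φ 0 P T' z.1.2 z.2 := hz
      rw [indicator_of_mem hz, indicator_of_mem hz, dampG_PT2 hf hz']
      congr 1
      unfold LamP legR
      refine Finset.sum_congr rfl fun i _ => ?_
      rw [← lintegral_indicator measurableSet_Ioc]
      refine lintegral_congr fun s => ?_
      rw [pathM_of_adm hΦ 0 s hz'.1]
      by_cases hs : s ∈ Ioc 0 (min (prot P T' z.2 i) tw)
      · rw [indicator_of_mem hs, if_pos (show 0 < s ∧ s ≤ _ from hs)]
      · rw [indicator_of_notMem hs, if_neg (show ¬ (0 < s ∧ s ≤ _) from hs)]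
    · rw [indicator_of_notMem hz, indicator_of_notMem hz]
  rw [h4]
  exact (hee.comp hLMm).indicator (measurableSet_good0 hΦ P T')

theorem measurable_uG_PT2 (hΦ : AdmissiblePotential Φ) (hfm : Measurable f₀) {ε : ℝ} (hε : 0 < ε)
    (P : CTree) (htw : 0 ≤ tw) (T' : ℝ) :
    Measurable ((goodS Φ ε P T').indicator fun z => uG Φ f₀ ε (PT Φ ε P T' z.1 z.2) tw) := by
  have hgm := measurableSet_goodS hΦ hε P T'
  set S : PhasePoint × Par P → Tubes (Idx P) := fun z =>
    ⟨fun i s => if z ∈ goodS Φ ε P T' then (pathM Φ ε P s z.1 z.2 i).1 else 0,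
      prot P T' z.2⟩ with hS
  have hm : Measurable fun z => uG Φ f₀ ε (S z) tw := by
    refine measurable_uG hfm hΦ hε (T := tw) htw (S := S) (fun z i => ?_) (fun i s => ?_)
      (fun i => ?_) measurable_const fun _ => le_rfl
    · by_cases hz : z ∈ goodS Φ ε P T'
      · have e : (S z).c i = fun s => (path Φ ε P z.1 z.2 s i).1 := by
          funext s
          simp only [hS, if_pos hz]
          rw [pathM_of_adm hΦ ε s hz.1.1]
        rw [e]
        have h := Tree674.continuous_path hΦ hε hz.1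
        exact (continuous_fst.comp ((continuous_apply i).comp h)).continuousOn
      · have e : (S z).c i = fun _ => 0 := by
          funext s
          simp only [hS, if_neg hz]
        rw [e]
        exact continuousOn_const
    · refine Measurable.ite hgm ?_ measurable_const
      exact ((measurable_pathM' hΦ ε P i).comp (measurable_id.prodMk measurable_const)).fst
    · exact (measurable_prot P i).comp (f := fun z : PhasePoint × Par P => (T', z.2))
        (measurable_const.prodMk measurable_snd)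
  have h4 : ((goodS Φ ε P T').indicator fun z => uG Φ f₀ ε (PT Φ ε P T' z.1 z.2) tw) =
      (goodS Φ ε P T').indicator fun z => uG Φ f₀ ε (S z) tw := by
    funext z
    by_cases hz : z ∈ goodS Φ ε P T'
    · rw [indicator_of_mem hz, indicator_of_mem hz]
      congr 1
      simp only [hS, if_pos hz, PT]
      congr 1
      funext i s
      rw [pathM_of_adm hΦ ε s hz.1.1]
    · rw [indicator_of_notMem hz, indicator_of_notMem hz]
  rw [h4]
  exact hm.indicator hgm

/-! ### Tree integrals with two times -/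

/-- additive energy weight of the lines of a tree -/
def WtT (Φ : Space3 → ℝ) (P : CTree) (z : PhasePoint × Par P) : ℝ≥0∞ :=
  ∑ i : Idx P, ENNReal.ofReal (1 + ‖vels Φ P z.1.2 z.2 i‖ ^ 2)

/-- tree integral at `ε`: horizon `T'`, protected tubes unhit up to `tw`, weight `WtT` -/
def JX (Φ : Space3 → ℝ) (f₀ : PhasePoint → ℝ) (ε : ℝ) (P : CTree) (tw T' : ℝ) : ℝ≥0∞ :=
  ∫⁻ z : PhasePoint × Par P, (goodS Φ ε P T').indicator (fun z => wt Φ P z.1.2 z.2 *
    (ToTree335.pf Φ f₀ ε P z * (WtT Φ P z * uG Φ f₀ ε (PT Φ ε P T' z.1 z.2) tw))) z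

/-- tree integral at `ε` with exponential energy weight -/
def JE (Φ : Space3 → ℝ) (f₀ : PhasePoint → ℝ) (κ ε : ℝ) (P : CTree) (tw T' : ℝ) : ℝ≥0∞ :=
  ∫⁻ z, gX Φ (kE f₀ κ) ε P T' (fun z => uG Φ f₀ ε (PT Φ ε P T' z.1 z.2) tw) z

theorem tA_kE (κ ε : ℝ) (P : CTree) (z : PhasePoint × Par P) :
    tA Φ (kE f₀ κ) ε P z = ENNReal.ofReal (Real.exp (κ * eng Φ P z.1.2 z.2)) *
      (wt Φ P z.1.2 z.2 * ToTree335.pf Φ f₀ ε P z) := by
  unfold tA kE ToTree335.pf
  rw [Finset.prod_mul_distrib]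
  have e1 : ∏ i : Idx P, ENNReal.ofReal (Real.exp (κ * ‖(lines Φ ε P z.1 z.2 i).2‖ ^ 2)) =
      ENNReal.ofReal (Real.exp (κ * eng Φ P z.1.2 z.2)) := by
    unfold Seg814.eng
    rw [Finset.mul_sum, Real.exp_sum, ENNReal.ofReal_prod_of_nonneg fun i _ => Real.exp_nonneg _]
    refine Finset.prod_congr rfl fun i _ => ?_
    rw [Hid424.lines_vel ε P z.1 z.2 i]
  rw [e1]
  ring

/-- additive weight against exponential weight -/
theorem JX_le_JE {lam κ M : ℝ}
    (hM : ∀ (P : CTree) (v : Space3) (p : Par P),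
      ∑ i : Idx P, ENNReal.ofReal (1 + ‖vels Φ P v p i‖ ^ 2) ≤
        ENNReal.ofReal M * ENNReal.ofReal lam ^ P.size *
          ENNReal.ofReal (Real.exp (κ * eng Φ P v p))) (ε : ℝ) (P : CTree) (tw T' : ℝ) :
    JX Φ f₀ ε P tw T' ≤ ENNReal.ofReal M * ENNReal.ofReal lam ^ P.size * JE Φ f₀ κ ε P tw T' := by
  unfold JX JE
  have hfin : ENNReal.ofReal M * ENNReal.ofReal lam ^ P.size ≠ ∞ :=
    ENNReal.mul_ne_top ENNReal.ofReal_ne_top (ENNReal.pow_ne_top ENNReal.ofReal_ne_top)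
  rw [← lintegral_const_mul' _ _ hfin]
  refine lintegral_mono fun z => ?_
  unfold gX
  by_cases hz : z ∈ goodS Φ ε P T'
  · rw [indicator_of_mem hz, indicator_of_mem hz, tA_kE]
    calc wt Φ P z.1.2 z.2 * (ToTree335.pf Φ f₀ ε P z *
          (WtT Φ P z * uG Φ f₀ ε (PT Φ ε P T' z.1 z.2) tw))
        ≤ wt Φ P z.1.2 z.2 * (ToTree335.pf Φ f₀ ε P z *
          ((ENNReal.ofReal M * ENNReal.ofReal lam ^ P.size *
          ENNReal.ofReal (Real.exp (κ * eng Φ P z.1.2 z.2))) *
            uG Φ f₀ ε (PT Φ ε P T' z.1 z.2) tw)) := by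
          gcongr
          exact hM P z.1.2 z.2
      _ = _ := by ring
  · rw [indicator_of_notMem hz, indicator_of_notMem hz, mul_zero]

theorem kE_eq_fEn (hT : 0 ≤ T) (hf : IsRegularKineticSolution Φ β T f₀ f) (κ : ℝ)
    (z : PhasePoint) : kE f₀ κ z = fEn T f κ z.1 z.2 := by
  unfold kE Seg814.fEn
  rw [fE_of_mem ⟨le_rfl, hT⟩, hf.initial]

/-- **Identification of the limit.** -/
theorem lintegral_gX0_eq (hΦ : AdmissiblePotential Φ) (hβ : 0 < β) (hT : 0 < T)
    (hf : IsRegularKineticSolution Φ β T f₀ f) (htw : 0 ≤ tw) (hT' : 0 ≤ T') (P : CTree) (κ : ℝ) :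
    ∫⁻ z, gX0 Φ (kE f₀ κ) P T' (fun z => dampG T f (PT Φ 0 P T' z.1 z.2) tw) z =
      ∫⁻ z : PhasePoint, F (kapQ Φ) (Seg814.Dwin (damp T f) tw) (fEn T f κ) P T' z.1 z.2 := by
  have hfm : Measurable fun p : Space3 × Space3 => fEn T f κ p.1 p.2 :=
    Seg814.measurable_fEn hf κ
  have e1 : ∀ z, gX0 Φ (kE f₀ κ) P T' (fun z => dampG T f (PT Φ 0 P T' z.1 z.2) tw) z =
      Forest399.tdens Φ (Hid424.Dwin (nuF T f) tw) (fEn T f κ) P T' z * (1 : ℝ≥0∞) := by
    intro z
    unfold gX0 Forest399.tdens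
    by_cases hz : z ∈ good0 Φ P T'
    · have hz' : Valid Φ 0 P T' z.1.2 z.2 := hz
      rw [indicator_of_mem hz, indicator_of_mem (show z ∈ {z : PhasePoint × Par P |
        Valid Φ 0 P T' z.1.2 z.2} from hz), mul_one]
      simp only
      rw [dampG_PT2 hf hz',
        dens_eq (finRate_nuF hβ hT hf) htw (fEn T f κ) hT' hz'.2]
      unfold tA
      simp only [kE_eq_fEn hT.le hf κ]
      ring
    · rw [indicator_of_notMem hz, indicator_of_notMem (show z ∉ {z : PhasePoint × Par P |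
        Valid Φ 0 P T' z.1.2 z.2} from hz), zero_mul]
  simp only [e1]
  have hS := Scat818.scatFacts hΦ
  have h2 := Forest399.lintegral_tdens hΦ (kapQ Φ) (fun v H hH => lintegral_kapQ hS v hH)
    (meas4_Dwin_nuF hf tw) hfm P hT' (φ := fun _ => (1 : ℝ≥0∞)) measurable_const
  rw [h2]
  refine lintegral_congr fun z => ?_
  rw [mul_one, Dwin_814' tw]

/-- **The limit of the two-time tree integrals.** -/
theorem tendsto_JE (hD : Master566.KData Φ β T f₀ f) (hGIV : GIV Φ f₀ f T tw) (htw : 0 ≤ tw)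
    (hT' : 0 ≤ T') (P : CTree) {κ : ℝ} (hκ : κ < 2 * β) :
    Tendsto (fun ε => JE Φ f₀ κ ε P tw T') L
      (𝓝 (∫⁻ z : PhasePoint, F (kapQ Φ) (Seg814.Dwin (damp T f) tw) (fEn T f κ) P T' z.1 z.2)) := by
  have hf := hD.sol
  have hfm : Measurable f₀ := hD.contDiff.continuous.measurable
  have h1 : ∫⁻ z, ENNReal.ofReal (f₀ z) ≤ 1 :=
    (FM167.lintegral_density_eq_one hD.nonneg hD.integrable hD.mass).le
  obtain ⟨m, C, hkb⟩ := exists_kb hκ hD.gaussian
  have hkc : Continuous (kE f₀ κ) := continuous_kE hD.contDiff.continuous κ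
  rw [← lintegral_gX0_eq hD.adm hD.beta_pos hD.T_pos hf htw hT' P κ]
  refine tree_limitX' hD.adm (F := L) (e := fun ε => ε) tendsto_id hkc hkb P T'
    (fun ε z => uG_le_one hfm h1) (fun z => dampG_le_one _) ?_ ?_ ?_
  · filter_upwards [eventually_pos] with ε hε
    exact measurable_uG_PT2 hD.adm hfm hε P htw T'
  · exact measurable_dampG_PT2 hD.adm hf P T' tw
  · exact Eventually.of_forall fun q hV hG R' => conv_PT2 hD.adm hGIV hT' hV hG R'

/-! ### Tails -/

/-- the constants of the tail bound -/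
structure TailC (Φ : Space3 → ℝ) (T : ℝ) (f : ℝ → PhasePoint → ℝ) (h₀ κ lam M : ℝ) : Prop where
  h₀_pos : 0 < h₀
  κ_pos : 0 < κ
  lam_gt : 1 < lam
  M_nonneg : 0 ≤ M
  bound : ∀ tw ∈ Icc 0 T, ∀ t ∈ Icc 0 (tw + h₀),
    ∑' P : CTree, ENNReal.ofReal lam ^ P.size *
      ∫⁻ z : PhasePoint, F (kapQ Φ) (Seg814.Dwin (damp T f) tw) (fEn T f κ) P t z.1 z.2 ≤
        ENNReal.ofReal M

theorem tailC_of_kinM (hf : IsRegularKineticSolution Φ β T f₀ f) {h₀ κ lam b M : ℝ}
    (hK : KinM Φ T f h₀ κ lam b M) : TailC Φ T f h₀ κ lam M where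
  h₀_pos := hK.1
  κ_pos := hK.2.1
  lam_gt := hK.2.2.1
  M_nonneg := hK.2.2.2.2.1
  bound tw htw t ht := by
    refine le_trans ?_ (hK.2.2.2.2.2 tw htw t ht).1
    have hm : ∀ P : CTree, Measurable fun z : Space3 × Space3 =>
        F (kapQ Φ) (Seg814.Dwin (damp T f) tw) (fEn T f κ) P t z.1 z.2 := fun P =>
      KinL1.measurable_F_slice hf κ tw P t
    have hmG : Measurable (Function.uncurry fun x v : Space3 => gau (-b) v *
        ∑' P : CTree, ENNReal.ofReal lam ^ P.size *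
          F (kapQ Φ) (Seg814.Dwin (damp T f) tw) (fEn T f κ) P t x v) := by
      refine ((measurable_gau _).comp measurable_snd).mul (Measurable.tsum fun P => ?_)
      exact (hm P).const_mul _
    rw [phI_eq_prod hmG]
    calc ∑' P : CTree, ENNReal.ofReal lam ^ P.size *
          ∫⁻ z : PhasePoint, F (kapQ Φ) (Seg814.Dwin (damp T f) tw) (fEn T f κ) P t z.1 z.2
        = ∑' P : CTree, ∫⁻ z : PhasePoint, ENNReal.ofReal lam ^ P.size *
            F (kapQ Φ) (Seg814.Dwin (damp T f) tw) (fEn T f κ) P t z.1 z.2 := by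
          refine tsum_congr fun P => ?_
          rw [lintegral_const_mul _ (hm P)]
      _ = ∫⁻ z : PhasePoint, ∑' P : CTree, ENNReal.ofReal lam ^ P.size *
            F (kapQ Φ) (Seg814.Dwin (damp T f) tw) (fEn T f κ) P t z.1 z.2 :=
          (lintegral_tsum fun P => ((hm P).const_mul _).aemeasurable).symm
      _ ≤ _ := by
          refine lintegral_mono fun z => ?_
          calc ∑' P : CTree, ENNReal.ofReal lam ^ P.size *
                F (kapQ Φ) (Seg814.Dwin (damp T f) tw) (fEn T f κ) P t z.1 z.2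
              = 1 * ∑' P : CTree, ENNReal.ofReal lam ^ P.size *
                F (kapQ Φ) (Seg814.Dwin (damp T f) tw) (fEn T f κ) P t z.1 z.2 := (one_mul _).symm
            _ ≤ _ := by
                gcongr
                exact KinL1.one_le_gau_neg hK.2.2.2.1.le z.2

/-- the constants exist, with `κ < 2 β` -/
theorem exists_tailC (hD : Master566.KData Φ β T f₀ f) :
    ∃ h₀ κ lam M : ℝ, κ < 2 * β ∧ TailC Φ T f h₀ κ lam M := by
  obtain ⟨h₀, kap, lam, C, b, hK⟩ := exists_kinC hD.beta_pos hD.T_pos hD.adm hD.sol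
  obtain ⟨kap', b', M, -, -, hM⟩ := exists_kinM hD.beta_pos hD.T_pos hD.adm hD.sol hD.gaussian hK
  have hβ := hD.beta_pos
  refine ⟨h₀, min kap' β, lam, M, ?_, tailC_of_kinM hD.sol
    (kinM_anti hM (lt_min hM.2.1 hβ) (min_le_left _ _) hM.2.2.2.1 le_rfl)⟩
  exact (min_le_right _ _).trans_lt (by linarith)

/-- **Geometric tails of the tree integrals**: additive weight, any geometric factor `lam₁ < lam`. -/
theorem sum_JX_le (hD : Master566.KData Φ β T f₀ f) {h₀ κ lam M : ℝ} (hκ : κ < 2 * β)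
    (hC : TailC Φ T f h₀ κ lam M) {lam₁ M₁ : ℝ} (h1 : 0 < lam₁) (h2 : lam₁ ≤ lam) (hM₁ : 0 ≤ M₁)
    (hadd : ∀ (P : CTree) (v : Space3) (p : Par P),
      ∑ i : Idx P, ENNReal.ofReal (1 + ‖vels Φ P v p i‖ ^ 2) ≤
        ENNReal.ofReal M₁ * ENNReal.ofReal lam₁ ^ P.size *
          ENNReal.ofReal (Real.exp (κ * eng Φ P v p)))
    (htw : tw ∈ Icc 0 T) (hT' : T' ∈ Icc 0 (tw + h₀)) (hG : GIV Φ f₀ f T tw)
    (K₁ K : ℕ) {δ : ℝ} (hδ : 0 < δ) :
    ∃ ε₀ : ℝ, 0 < ε₀ ∧ ∀ ε : ℝ, 0 < ε → ε < ε₀ →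
      ∑ P ∈ bandT K₁ K, JX Φ f₀ ε P tw T' ≤ ENNReal.ofReal (M₁ * M * (lam₁ / lam) ^ K₁ + δ) := by
  have hlam : 0 < lam := by linarith [hC.lam_gt]
  have hM := hC.M_nonneg
  set I : CTree → ℝ≥0∞ := fun P => ∫⁻ z : PhasePoint,
    F (kapQ Φ) (Seg814.Dwin (damp T f) tw) (fEn T f κ) P T' z.1 z.2 with hI
  have hlim : Tendsto (fun ε => ∑ P ∈ bandT K₁ K, ENNReal.ofReal M₁ * ENNReal.ofReal lam₁ ^ P.size *
      JE Φ f₀ κ ε P tw T') L (𝓝 (∑ P ∈ bandT K₁ K, ENNReal.ofReal M₁ *
        ENNReal.ofReal lam₁ ^ P.size * I P)) :=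
    tendsto_finsetSum _ fun P _ => ENNReal.Tendsto.const_mul
      (tendsto_JE hD hG htw.1 hT'.1 P hκ)
      (Or.inr (ENNReal.mul_ne_top ENNReal.ofReal_ne_top (ENNReal.pow_ne_top ENNReal.ofReal_ne_top)))
  have hle : ∑ P ∈ bandT K₁ K, ENNReal.ofReal M₁ * ENNReal.ofReal lam₁ ^ P.size * I P ≤
      ENNReal.ofReal (M₁ * M * (lam₁ / lam) ^ K₁) := by
    calc ∑ P ∈ bandT K₁ K, ENNReal.ofReal M₁ * ENNReal.ofReal lam₁ ^ P.size * I P
        ≤ ∑ P ∈ bandT K₁ K, (ENNReal.ofReal M₁ * ENNReal.ofReal (lam₁ / lam) ^ K₁) *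
            ENNReal.ofReal lam ^ P.size * I P := by
          refine Finset.sum_le_sum fun P hP => ?_
          have hs := mem_bandT.1 hP
          have hs2 := CTree.leaves_eq P
          exact Seg814.tail_weight h1 h2 (by omega)
      _ = (ENNReal.ofReal M₁ * ENNReal.ofReal (lam₁ / lam) ^ K₁) *
            ∑ P ∈ bandT K₁ K, ENNReal.ofReal lam ^ P.size * I P := by
          rw [Finset.mul_sum]
          refine Finset.sum_congr rfl fun P _ => ?_
          ring
      _ ≤ (ENNReal.ofReal M₁ * ENNReal.ofReal (lam₁ / lam) ^ K₁) * ENNReal.ofReal M := by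
          gcongr
          exact (ENNReal.sum_le_tsum _).trans (hC.bound tw htw T' hT')
      _ = _ := by
          rw [← ENNReal.ofReal_pow (by positivity), ← ENNReal.ofReal_mul hM₁,
            ← ENNReal.ofReal_mul (by positivity)]
          congr 1
          ring
  have hlt : ∑ P ∈ bandT K₁ K, ENNReal.ofReal M₁ * ENNReal.ofReal lam₁ ^ P.size * I P <
      ENNReal.ofReal (M₁ * M * (lam₁ / lam) ^ K₁ + δ) := by
    refine lt_of_le_of_lt hle ?_
    rw [ENNReal.ofReal_lt_ofReal_iff (by positivity)]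
    linarith
  have hev := hlim.eventually (gt_mem_nhds hlt)
  obtain ⟨ε₀, hε₀, h⟩ := mem_nhdsGT_iff_exists_Ioo_subset.1 hev
  refine ⟨ε₀, hε₀, fun ε hε hlt => ?_⟩
  refine le_trans (Finset.sum_le_sum fun P _ => JX_le_JE hadd ε P tw T') ?_
  exact (h ⟨hε, hlt⟩ : _ < _).le

/-- **(b)** geometric tails, all constants fixed once and for all. -/
theorem exists_JX_tail (hD : Master566.KData Φ β T f₀ f) :
    ∃ h₀ r C : ℝ, 0 < h₀ ∧ 0 < r ∧ r < 1 ∧ 0 ≤ C ∧ ∀ tw ∈ Icc 0 T, ∀ T' ∈ Icc 0 (tw + h₀),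
      GIV Φ f₀ f T tw → ∀ (K₁ K : ℕ) (δ : ℝ), 0 < δ →
        ∃ ε₀ : ℝ, 0 < ε₀ ∧ ∀ ε : ℝ, 0 < ε → ε < ε₀ →
          ∑ P ∈ bandT K₁ K, JX Φ f₀ ε P tw T' ≤ ENNReal.ofReal (r ^ K₁ * C + δ) := by
  obtain ⟨h₀, κ, lam, M, hκ, hC⟩ := exists_tailC hD
  have hlam := hC.lam_gt
  set lam₁ : ℝ := (1 + lam) / 2 with hlam₁
  obtain ⟨M₁, hM₁, hadd⟩ := exists_additive_le (Φ := Φ) (lam := lam₁) (kap := κ)
    (by rw [hlam₁]; linarith) hC.κ_pos
  refine ⟨h₀, lam₁ / lam, M₁ * M, hC.h₀_pos, by positivity, ?_, mul_nonneg hM₁.le hC.M_nonneg, ?_⟩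
  · rw [div_lt_one (by linarith), hlam₁]; linarith
  · intro tw htw T' hT' hG K₁ K δ hδ
    obtain ⟨ε₀, hε₀, h⟩ := sum_JX_le hD hκ hC (lam₁ := lam₁) (M₁ := M₁) (by positivity)
      (by rw [hlam₁]; linarith) hM₁.le hadd htw hT' hG K₁ K hδ
    refine ⟨ε₀, hε₀, fun ε h1 h2 => (h ε h1 h2).trans (ENNReal.ofReal_le_ofReal ?_)⟩
    have : M₁ * M * (lam₁ / lam) ^ K₁ = (lam₁ / lam) ^ K₁ * (M₁ * M) := by ring
    linarith

/-- **(b')** the tree integrals of the size crossing are small: any lower size `k₁ K → ∞`. -/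
theorem JX_small {h₀ r C : ℝ} (hr : 0 < r) (hr1 : r < 1) (hC : 0 ≤ C)
    (h : ∀ (K₁ K : ℕ) (δ : ℝ), 0 < δ →
        ∃ ε₀ : ℝ, 0 < ε₀ ∧ ∀ ε : ℝ, 0 < ε → ε < ε₀ →
          ∑ P ∈ bandT K₁ K, JX Φ f₀ ε P tw T' ≤ ENNReal.ofReal (r ^ K₁ * C + δ))
    {k₁ k₂ : ℕ → ℕ} (hk : Tendsto k₁ atTop atTop) :
    EDefs602.Small fun K ε => ∑ P ∈ bandT (k₁ K) (k₂ K), JX Φ f₀ ε P tw T' := by
  intro δ hδ
  have h1 : Tendsto (fun K : ℕ => r ^ (k₁ K) * C) atTop (𝓝 0) := by
    have := ((tendsto_pow_atTop_nhds_zero_of_lt_one hr.le hr1).comp hk).mul_const C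
    simpa using this
  obtain ⟨K₀, hK₀⟩ := eventually_atTop.1 (h1.eventually (gt_mem_nhds (half_pos hδ)))
  refine ⟨K₀, fun K hK => ?_⟩
  obtain ⟨ε₀, hε₀, h2⟩ := h (k₁ K) (k₂ K) (δ / 2) (half_pos hδ)
  refine ⟨ε₀, hε₀, fun ε h3 h4 => (h2 ε h3 h4).trans (ENNReal.ofReal_le_ofReal ?_)⟩
  have := hK₀ K hK
  linarith

end Crest.Agent.R122.SizeX974
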