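import Crest.Agent.R122.FluxPair_663
import Crest.Agent.R122.Scat3_818
import Crest.Agent.R122.Tube2_818
import Crest.Agent.R122.GIVChild_383
import Crest.Agent.R122.IDefs_317
import Crest.Agent.R122.HidMeas_424

-- ▼ part R122/Tube1_818
section

/-!
Row 122, block FT (helper818), part 1: lines entering a straight moving tube.

The centre of the tube is `c + s • V`, a line is `x + s • v`, `g = v - V`; the relative line is
`(x - c) + s • g`.  `sEnt ε (q, g)` is the entrance time of the relative line `q + s • g` in the ball of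
radius `ε`.
-/

set_option autoImplicit false
set_option maxHeartbeats 400000

open MeasureTheory Set Filter
open Crest.AnalysisR.Kinetic
open scoped ENNReal

noncomputable section

namespace Crest.Agent.R122.Tube818

open Disc416 Flux663

/-- Entrance time of the relative line `q + s • g` in the ball of radius `ε`. -/
def sEnt (ε : ℝ) (z : Space3 × Space3) : ℝ :=
  -tline z - Real.sqrt (ε ^ 2 - ‖bline z‖ ^ 2) / ‖z.2‖

/-- The relative line meets the open ball of radius `ε`. -/
def Meets (ε : ℝ) (z : Space3 × Space3) : Prop := z.2 ≠ 0 ∧ ‖bline z‖ < ε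

lemma measurable_sEnt (ε : ℝ) : Measurable (sEnt ε) := by
  unfold sEnt
  have h1 := measurable_tline
  have h2 := measurable_bline.norm
  have h3 : Measurable fun z : Space3 × Space3 => ‖z.2‖ := measurable_snd.norm
  exact h1.neg.sub (((h2.pow_const 2).const_sub (ε ^ 2)).sqrt.div h3)

lemma measurableSet_meets (ε : ℝ) : MeasurableSet {z : Space3 × Space3 | Meets ε z} := by
  have h1 : MeasurableSet {z : Space3 × Space3 | z.2 ≠ 0} :=
    (measurableSet_singleton (0 : Space3)).compl.preimage measurable_snd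
  exact h1.inter (measurableSet_lt measurable_bline.norm measurable_const)

/-- the relative position at time `s` -/
lemma rel_eq (z : Space3 × Space3) (s : ℝ) : z.1 + s • z.2 = bline z + (s + tline z) • z.2 := by
  unfold bline
  rw [add_smul]
  abel

lemma inner_bline (z : Space3 × Space3) : inner ℝ (bline z) z.2 = 0 := by
  unfold bline tline
  by_cases h : z.2 = 0
  · rw [h, inner_zero_right]
  · have hn : ‖z.2‖ ^ 2 ≠ 0 := by positivity
    rw [inner_sub_left, inner_smul_left, real_inner_self_eq_norm_sq]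
    simp only [conj_trivial]
    rw [div_mul_cancel₀ _ hn, sub_self]

lemma normSq_rel (z : Space3 × Space3) (s : ℝ) :
    ‖z.1 + s • z.2‖ ^ 2 = ‖bline z‖ ^ 2 + (s + tline z) ^ 2 * ‖z.2‖ ^ 2 := by
  rw [rel_eq, norm_add_sq_real, inner_smul_right, inner_bline, mul_zero, mul_zero, add_zero,
    norm_smul, mul_pow, Real.norm_eq_abs, sq_abs]

lemma norm_rel_sEnt {ε : ℝ} (hε : 0 < ε) {z : Space3 × Space3} (h : Meets ε z) :
    ‖z.1 + sEnt ε z • z.2‖ = ε := by
  have hn : ‖z.2‖ ≠ 0 := norm_ne_zero_iff.2 h.1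
  have h1 : 0 ≤ ε ^ 2 - ‖bline z‖ ^ 2 := by
    have := h.2
    have h0 := norm_nonneg (bline z)
    nlinarith
  have h2 : ‖z.1 + sEnt ε z • z.2‖ ^ 2 = ε ^ 2 := by
    rw [normSq_rel]
    unfold sEnt
    have : -tline z - Real.sqrt (ε ^ 2 - ‖bline z‖ ^ 2) / ‖z.2‖ + tline z =
        -(Real.sqrt (ε ^ 2 - ‖bline z‖ ^ 2) / ‖z.2‖) := by ring
    rw [this, neg_sq, div_pow, div_mul_cancel₀ _ (by positivity), Real.sq_sqrt h1]
    ring
  exact (pow_left_inj₀ (norm_nonneg _) hε.le two_ne_zero).1 h2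

/-- Before the entrance time the relative line is outside of the ball. -/
lemma lt_norm_of_lt {ε : ℝ} (hε : 0 < ε) {z : Space3 × Space3} (h : Meets ε z) {s : ℝ}
    (hs : s < sEnt ε z) : ε < ‖z.1 + s • z.2‖ := by
  have hn : 0 < ‖z.2‖ := norm_pos_iff.2 h.1
  have h1 : 0 < ε ^ 2 - ‖bline z‖ ^ 2 := by
    have := h.2
    have h0 := norm_nonneg (bline z)
    nlinarith
  have h2 : Real.sqrt (ε ^ 2 - ‖bline z‖ ^ 2) / ‖z.2‖ < -(s + tline z) := by
    unfold sEnt at hs
    linarith
  have h3 : Real.sqrt (ε ^ 2 - ‖bline z‖ ^ 2) < -(s + tline z) * ‖z.2‖ := by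
    rwa [div_lt_iff₀ hn] at h2
  have h4 : ε ^ 2 - ‖bline z‖ ^ 2 < (-(s + tline z) * ‖z.2‖) ^ 2 := by
    rw [← Real.sqrt_lt' (lt_of_le_of_lt (Real.sqrt_nonneg _) h3)]
    exact h3
  have h5 : ε ^ 2 < ‖z.1 + s • z.2‖ ^ 2 := by
    rw [normSq_rel]
    nlinarith
  exact lt_of_pow_lt_pow_left₀ 2 (norm_nonneg _) h5



/-- **Characterisation of the entrance**: at a time `σ` where the distance is `≤ ε` and `> ε` just
before, the line enters at time `σ`, unless it is tangent. -/
lemma eq_sEnt_of_first {ε : ℝ} (hε : 0 < ε) {z : Space3 × Space3} {σ α : ℝ} (hα : α < σ)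
    (h1 : ‖z.1 + σ • z.2‖ ≤ ε) (h2 : ∀ s ∈ Ioo α σ, ε < ‖z.1 + s • z.2‖) :
    ‖bline z‖ = ε ∨ (Meets ε z ∧ σ = sEnt ε z) := by
  -- the velocity is not zero
  have hz : z.2 ≠ 0 := by
    intro h0
    have h3 := h2 ((α + σ) / 2) ⟨by linarith, by linarith⟩
    rw [h0, smul_zero, add_zero] at h1 h3
    linarith
  have hn : 0 < ‖z.2‖ := norm_pos_iff.2 hz
  have hb : ‖bline z‖ ≤ ε := by
    have h3 : ‖bline z‖ ^ 2 ≤ ‖z.1 + σ • z.2‖ ^ 2 := by
      rw [normSq_rel]
      nlinarith [sq_nonneg (σ + tline z), sq_nonneg ‖z.2‖]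
    exact (pow_le_pow_left₀ (norm_nonneg _) (le_trans ((pow_le_pow_iff_left₀ (norm_nonneg _)
      (norm_nonneg _) two_ne_zero).1 h3) h1) 1 |> fun h => by simpa using h)
  rcases hb.eq_or_lt with h3 | h3
  · exact Or.inl h3
  · right
    have hm : Meets ε z := ⟨hz, h3⟩
    refine ⟨hm, ?_⟩
    rcases lt_trichotomy σ (sEnt ε z) with h4 | h4 | h4
    · exact absurd h1 (not_le.2 (lt_norm_of_lt hε hm h4))
    · exact h4
    · exfalso
      -- convexity: at times between the entrance and `σ` the distance is `≤ ε`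
      obtain ⟨s, hs1, hs2⟩ := exists_between (max_lt hα h4)
      have hs3 : α < s := lt_of_le_of_lt (le_max_left _ _) hs1
      have hs4 : sEnt ε z < s := lt_of_le_of_lt (le_max_right _ _) hs1
      have h5 := h2 s ⟨hs3, hs2⟩
      have h6 : ‖z.1 + s • z.2‖ ^ 2 ≤ ε ^ 2 := by
        have e1 : ‖z.1 + σ • z.2‖ ^ 2 ≤ ε ^ 2 := pow_le_pow_left₀ (norm_nonneg _) h1 2
        have e2 : ‖z.1 + sEnt ε z • z.2‖ ^ 2 = ε ^ 2 := by rw [norm_rel_sEnt hε hm]
        rw [normSq_rel] at e1 e2 ⊢
        have e3 : (s + tline z) ^ 2 ≤ max ((σ + tline z) ^ 2) ((sEnt ε z + tline z) ^ 2) := by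
          rcases le_total 0 (s + tline z) with h | h
          · refine le_trans ?_ (le_max_left _ _)
            nlinarith
          · refine le_trans ?_ (le_max_right _ _)
            nlinarith
        rcases le_max_iff.1 e3 with h | h
        · nlinarith [sq_nonneg ‖z.2‖]
        · nlinarith [sq_nonneg ‖z.2‖]
      have h7 : ‖z.1 + s • z.2‖ ≤ ε := by
        exact (pow_le_pow_iff_left₀ (norm_nonneg _) hε.le two_ne_zero).1 h6
      linarith

/-! ### Change of variables -/

/-- the relative position at time `0` of the line which enters at time `s` with impact parameter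
`frameMap g y` -/
def entRel (ε : ℝ) (g : Space3) (s : ℝ) (y : Plane) : Space3 :=
  ε • entrancePoint (frameMap g y) g - s • g

lemma measurable_entrancePoint : Measurable fun p : Space3 × Space3 => entrancePoint p.1 p.2 := by
  unfold entrancePoint
  fun_prop

lemma measurable_entRel (ε : ℝ) :
    Measurable fun p : Space3 × ℝ × Plane => entRel ε p.1 p.2.1 p.2.2 := by
  unfold entRel
  have h1 : Measurable fun p : Space3 × ℝ × Plane => frameMap p.1 p.2.2 :=
    measurable_frameMap.comp (measurable_fst.prodMk (measurable_snd.comp measurable_snd))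
  have h2 : Measurable fun p : Space3 × ℝ × Plane => entrancePoint (frameMap p.1 p.2.2) p.1 :=
    measurable_entrancePoint.comp (h1.prodMk measurable_fst)
  exact (h2.const_smul ε).sub ((measurable_fst.comp measurable_snd).smul measurable_fst)

/-- **Lines entering a straight tube**, fixed velocities: `x` is the position of the line at time `0`
relative to `c`. -/
theorem lintegral_entrance {ε : ℝ} (hε : 0 < ε) {g : Space3} (hg : g ≠ 0) (c : Space3)
    {F : ℝ → Space3 → ℝ≥0∞} (hF : Measurable (Function.uncurry F)) :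
    ∫⁻ x, (if ‖bline (x - c, g)‖ < ε then F (sEnt ε (x - c, g)) x else 0) =
      ENNReal.ofReal (ε ^ 2) * (ENNReal.ofReal ‖g‖ * ∫⁻ s : ℝ,
        ∫⁻ y in Metric.ball (0 : Plane) 1, F s (c + entRel ε g s y)) := by
  have hn : ‖g‖ ≠ 0 := norm_ne_zero_iff.2 hg
  have hfm : Measurable (fun y : Plane => frameMap g y) :=
    measurable_frameMap.comp (measurable_const.prodMk measurable_id)
  -- move `c` to the origin
  have h0 : ∫⁻ x, (if ‖bline (x - c, g)‖ < ε then F (sEnt ε (x - c, g)) x else 0) =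
      ∫⁻ q, (if ‖bline (q, g)‖ < ε then F (sEnt ε (q, g)) (c + q) else 0) := by
    have := (measurePreserving_sub_right (volume : Measure Space3) c).lintegral_comp_emb
      (MeasurableEquiv.subRight c).measurableEmbedding
      (fun q => (if ‖bline (q, g)‖ < ε then F (sEnt ε (q, g)) (c + q) else 0))
    rw [← this]
    simp only [add_sub_cancel]
  rw [h0]
  have hH : Measurable fun q : Space3 => F (sEnt ε (q, g)) (c + q) := by
    refine hF.comp (Measurable.prodMk ?_ ?_)
    · exact (measurable_sEnt ε).comp (measurable_id.prodMk measurable_const)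
    · exact measurable_id.const_add c
  rw [lintegral_cyl_eps hε hg hH]
  congr 2
  have hpar : Measurable fun p : ℝ × Plane => ((p.1, c + entRel ε g p.1 p.2) : ℝ × Space3) := by
    have h1 : Measurable fun p : ℝ × Plane => ((g, p.1, p.2) : Space3 × ℝ × Plane) := by fun_prop
    exact measurable_fst.prodMk (((measurable_entRel ε).comp h1).const_add c)
  have hmeas : Measurable fun p : ℝ × Plane => F p.1 (c + entRel ε g p.1 p.2) := hF.comp hpar
  have hmeas' : Measurable fun p : Plane × ℝ => F p.2 (c + entRel ε g p.2 p.1) :=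
    hmeas.comp measurable_swap
  have hsw : ∫⁻ y in Metric.ball (0 : Plane) 1, ∫⁻ s : ℝ, F s (c + entRel ε g s y) =
      ∫⁻ s : ℝ, ∫⁻ y in Metric.ball (0 : Plane) 1, F s (c + entRel ε g s y) :=
    lintegral_lintegral_swap hmeas'.aemeasurable
  rw [← hsw]
  refine setLIntegral_congr_fun measurableSet_ball fun y hy => ?_
  have hy' : ‖y‖ < 1 := by simpa using hy
  have hb : ‖frameMap g y‖ < 1 := by rwa [norm_frameMap hg]
  have hmem : (frameMap g y, g) ∈ FS := ⟨hg, inner_frameMap_self g y, hb⟩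
  set k : ℝ := ε * (Real.sqrt (1 - ‖frameMap g y‖ ^ 2) / ‖g‖) with hk
  -- entrance time of the parametrised line
  have hs : ∀ s : ℝ, sEnt ε (ε • frameMap g y + s • g, g) = -s - k := by
    intro s
    have ht : tline (ε • frameMap g y + s • g, g) = s := by
      unfold tline
      simp only [inner_add_left, inner_smul_left, real_inner_self_eq_norm_sq, inner_frameMap_self,
        conj_trivial, mul_zero, zero_add]
      exact mul_div_cancel_right₀ s (by positivity)
    have hbl : bline (ε • frameMap g y + s • g, g) = ε • frameMap g y := by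
      unfold bline
      rw [ht]
      simp
    unfold sEnt
    rw [ht, hbl, hk, norm_smul, Real.norm_eq_abs, abs_of_pos hε]
    have h1 : ε ^ 2 - (ε * ‖frameMap g y‖) ^ 2 = ε ^ 2 * (1 - ‖frameMap g y‖ ^ 2) := by ring
    have h2 : 0 ≤ ε ^ 2 := by positivity
    simp only
    rw [h1, Real.sqrt_mul h2, Real.sqrt_sq hε.le]
    ring
  simp only [hs]
  have h2 : Measurable fun s : ℝ => F s (c + entRel ε g s y) :=
    hmeas.comp (measurable_id.prodMk measurable_const)
  -- substitution `s ↦ -s - k`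
  have h3 : MeasurePreserving (fun s : ℝ => -s - k) (volume : Measure ℝ) volume :=
    (measurePreserving_sub_right (volume : Measure ℝ) k).comp
      (Measure.measurePreserving_neg (volume : Measure ℝ))
  rw [← h3.lintegral_comp h2]
  refine lintegral_congr fun s => ?_
  congr 2
  unfold entRel entrancePoint
  rw [smul_sub, smul_smul, ← hk]
  module

/-- **Lines entering a straight tube**: `ℓ = (x, v)` is the line `x + s • v`, the centre of the tube is
`c + s • V`. -/
theorem lintegral_enter {ε : ℝ} (hε : 0 < ε) (c V : Space3)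
    {F : ℝ → PhasePoint → ℝ≥0∞} (hF : Measurable (Function.uncurry F)) :
    ∫⁻ ℓ : PhasePoint, {ℓ : PhasePoint | Meets ε (ℓ.1 - c, ℓ.2 - V)}.indicator
        (fun ℓ => F (sEnt ε (ℓ.1 - c, ℓ.2 - V)) ℓ) ℓ =
      ENNReal.ofReal (ε ^ 2) * ∫⁻ s : ℝ, ∫⁻ v : Space3, ENNReal.ofReal ‖v - V‖ *
        ∫⁻ y in Metric.ball (0 : Plane) 1, F s (c + entRel ε (v - V) s y, v) := by
  have hrel : Measurable fun ℓ : PhasePoint => ((ℓ.1 - c, ℓ.2 - V) : Space3 × Space3) := by
    fun_prop
  have hms : MeasurableSet {ℓ : PhasePoint | Meets ε (ℓ.1 - c, ℓ.2 - V)} :=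
    hrel (measurableSet_meets ε)
  have hm : Measurable ({ℓ : PhasePoint | Meets ε (ℓ.1 - c, ℓ.2 - V)}.indicator
        (fun ℓ => F (sEnt ε (ℓ.1 - c, ℓ.2 - V)) ℓ)) := by
    refine Measurable.indicator ?_ hms
    exact hF.comp (((measurable_sEnt ε).comp hrel).prodMk measurable_id)
  have hG0 : Measurable fun p : (ℝ × Space3) × Plane =>
      ((p.1.1, (c + entRel ε (p.1.2 - V) p.1.1 p.2, p.1.2)) : ℝ × PhasePoint) := by
    have h1 : Measurable fun p : (ℝ × Space3) × Plane =>
        ((p.1.2 - V, p.1.1, p.2) : Space3 × ℝ × Plane) := by fun_prop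
    have h2 := ((measurable_entRel ε).comp h1).const_add c
    exact (measurable_fst.comp measurable_fst).prodMk
      (h2.prodMk (measurable_snd.comp measurable_fst))
  have hG : Measurable fun p : (ℝ × Space3) × Plane =>
      F p.1.1 (c + entRel ε (p.1.2 - V) p.1.1 p.2, p.1.2) := hF.comp hG0
  have hG1 : Measurable fun p : ℝ × Space3 =>
      ∫⁻ y in Metric.ball (0 : Plane) 1, F p.1 (c + entRel ε (p.2 - V) p.1 y, p.2) :=
    hG.lintegral_prod_right' (ν := volume.restrict (Metric.ball (0 : Plane) 1))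
  have hG2 : Measurable fun p : ℝ × Space3 => ENNReal.ofReal ‖p.2 - V‖ *
      ∫⁻ y in Metric.ball (0 : Plane) 1, F p.1 (c + entRel ε (p.2 - V) p.1 y, p.2) :=
    (measurable_snd.sub_const V).norm.ennreal_ofReal.mul hG1
  rw [Measure.volume_eq_prod, lintegral_prod_symm _ hm.aemeasurable]
  have hsw : ∫⁻ s : ℝ, ∫⁻ v : Space3, ENNReal.ofReal ‖v - V‖ *
        ∫⁻ y in Metric.ball (0 : Plane) 1, F s (c + entRel ε (v - V) s y, v) =
      ∫⁻ v : Space3, ∫⁻ s : ℝ, ENNReal.ofReal ‖v - V‖ *
        ∫⁻ y in Metric.ball (0 : Plane) 1, F s (c + entRel ε (v - V) s y, v) :=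
    lintegral_lintegral_swap hG2.aemeasurable
  rw [hsw]
  rw [← lintegral_const_mul' _ _ ENNReal.ofReal_ne_top]
  refine lintegral_congr_ae ?_
  filter_upwards [Measure.ae_ne volume V] with v hv
  have hg : v - V ≠ 0 := sub_ne_zero.2 hv
  have h1 := lintegral_entrance hε hg c (F := fun s x => F s (x, v))
    (hF.comp (measurable_fst.prodMk (measurable_snd.prodMk measurable_const)))
  rw [lintegral_const_mul' _ _ ENNReal.ofReal_ne_top, ← h1]
  refine lintegral_congr fun x => ?_
  by_cases hx : ‖bline (x - c, v - V)‖ < ε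
  · have hx' : (x, v) ∈ {ℓ : PhasePoint | Meets ε (ℓ.1 - c, ℓ.2 - V)} := ⟨hg, hx⟩
    rw [indicator_of_mem hx', if_pos hx]
  · have hx' : (x, v) ∉ {ℓ : PhasePoint | Meets ε (ℓ.1 - c, ℓ.2 - V)} := fun h => hx h.2
    rw [indicator_of_notMem hx', if_neg hx]

lemma bline_frame {g : Space3} (hg : g ≠ 0) (y : Plane) (r : ℝ) :
    bline (frameMap g y + r • dir g, g) = frameMap g y := by
  have h0 : ‖g‖ ≠ 0 := norm_ne_zero_iff.2 hg
  unfold bline tline
  simp only [inner_add_left, inner_frameMap_self, zero_add, dir, smul_smul, inner_smul_left,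
    real_inner_self_eq_norm_sq, conj_trivial]
  have : r * ‖g‖⁻¹ * ‖g‖ ^ 2 / ‖g‖ ^ 2 = r * ‖g‖⁻¹ := by field_simp
  rw [this]
  simp

/-- Tangent lines are negligible, fixed relative velocity. -/
theorem volume_tangent {ε : ℝ} (hε : 0 < ε) {g : Space3} (hg : g ≠ 0) :
    volume {q : Space3 | ‖bline (q, g)‖ = ε} = 0 := by
  have hms : MeasurableSet {q : Space3 | ‖bline (q, g)‖ = ε} :=
    measurableSet_eq_fun (measurable_bline.comp (measurable_id.prodMk measurable_const)).norm
      measurable_const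
  rw [← lintegral_indicator_one hms, lintegral_cylinder hg (measurable_one.indicator hms)]
  have h1 : ∀ p : Plane × ℝ, {q : Space3 | ‖bline (q, g)‖ = ε}.indicator (1 : Space3 → ℝ≥0∞)
      (frameMap g p.1 + p.2 • dir g) =
      (Metric.sphere (0 : Plane) ε ×ˢ (univ : Set ℝ)).indicator (1 : Plane × ℝ → ℝ≥0∞) p := by
    intro p
    simp only [indicator, mem_ofPred_eq, bline_frame hg, norm_frameMap hg, mem_prod,
      mem_sphere_iff_norm, sub_zero, mem_univ, and_true, Pi.one_apply]
  simp only [h1]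
  rw [lintegral_indicator_one (Metric.isClosed_sphere.measurableSet.prod MeasurableSet.univ),
    Measure.volume_eq_prod, Measure.prod_prod, Measure.addHaar_sphere_of_ne_zero _ _ hε.ne',
    zero_mul]

/-- Tangent lines are negligible. -/
theorem ae_not_tangent {ε : ℝ} (hε : 0 < ε) (c V : Space3) :
    ∀ᵐ ℓ : PhasePoint, ‖bline (ℓ.1 - c, ℓ.2 - V)‖ ≠ ε := by
  have hrel : Measurable fun ℓ : PhasePoint => ((ℓ.1 - c, ℓ.2 - V) : Space3 × Space3) := by
    fun_prop
  have hms : MeasurableSet {ℓ : PhasePoint | ‖bline (ℓ.1 - c, ℓ.2 - V)‖ = ε} :=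
    measurableSet_eq_fun (measurable_bline.comp hrel).norm measurable_const
  rw [ae_iff]
  have h0 : {ℓ : PhasePoint | ¬ ‖bline (ℓ.1 - c, ℓ.2 - V)‖ ≠ ε} =
      {ℓ : PhasePoint | ‖bline (ℓ.1 - c, ℓ.2 - V)‖ = ε} := by
    ext ℓ
    simp
  rw [h0, Measure.volume_eq_prod, Measure.prod_apply_symm hms]
  rw [← lintegral_zero]
  refine lintegral_congr_ae ?_
  filter_upwards [Measure.ae_ne volume V] with v hv
  have hg : v - V ≠ 0 := sub_ne_zero.2 hv
  have h1 : (fun x : Space3 => (x, v)) ⁻¹' {ℓ : PhasePoint | ‖bline (ℓ.1 - c, ℓ.2 - V)‖ = ε} =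
      (fun x : Space3 => x - c) ⁻¹' {q : Space3 | ‖bline (q, v - V)‖ = ε} := rfl
  have hms2 : MeasurableSet {q : Space3 | ‖bline (q, v - V)‖ = ε} :=
    measurableSet_eq_fun (measurable_bline.comp (measurable_id.prodMk measurable_const)).norm
      measurable_const
  rw [h1, (measurePreserving_sub_right (volume : Measure Space3) c).measure_preimage
    hms2.nullMeasurableSet, volume_tangent hε hg]

end Crest.Agent.R122.Tube818
end
end

-- ▼ part R122/Tube3_818

/-!
Row 122, block FT (helper818), part 3: first good hits, change of variables on trees, measurability.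

* `lintegral_enter_par` : lines entering a straight tube, with a tree attached (coordinates `HPar P`
  of helper383).
* `FirstAt.before`, `FirstAt.unique`.
* `measurableSet_firstAt` : joint measurability in the hitting time and the parameters.
* `uT`, `measurable_uT` : avoidance probability of the child family, jointly measurable.
* `Hgh_eq` : the mass of first good hits in coordinates relative to the translation.
-/

set_option autoImplicit false
set_option maxHeartbeats 400000

open MeasureTheory Set Filter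
open Crest.AnalysisR.Kinetic
open scoped ENNReal Classical Topology

noncomputable section

namespace Crest.Agent.R122.Tube818

open Disc416 Flux663 Tree674 Kin796 Kin796.CTree TreeEps399 GIV566 GIVStep383 Hid424
open Causal291 IStep317 GC311

variable {Φ : Space3 → ℝ} {f₀ : PhasePoint → ℝ} {ε : ℝ} {P : CTree} {ι : Type}

/-! ### Change of variables -/

/-- Tonelli on the parameters of a hit. -/
theorem lintegral_hpar {G : HPar P → ℝ≥0∞} (hG : Measurable G) :
    ∫⁻ θ : HPar P, G θ = ∫⁻ s : ℝ, ∫⁻ v : Space3, ∫⁻ y : Plane, ∫⁻ p : Par P, G (s, v, y, p) := by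
  have h1 : ∫⁻ θ : HPar P, G θ = ∫⁻ s : ℝ, ∫⁻ r : Space3 × Plane × Par P, G (s, r) := by
    rw [Measure.volume_eq_prod]
    exact lintegral_prod _ hG.aemeasurable
  rw [h1]
  refine lintegral_congr fun s => ?_
  have hs : Measurable fun r : Space3 × Plane × Par P => G (s, r) :=
    hG.comp (measurable_const.prodMk measurable_id)
  have h2 : ∫⁻ r : Space3 × Plane × Par P, G (s, r) =
      ∫⁻ v : Space3, ∫⁻ r : Plane × Par P, G (s, v, r) := by
    rw [Measure.volume_eq_prod]
    exact lintegral_prod _ hs.aemeasurable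
  rw [h2]
  refine lintegral_congr fun v => ?_
  have hv : Measurable fun r : Plane × Par P => G (s, v, r) :=
    hs.comp (measurable_const.prodMk measurable_id)
  rw [Measure.volume_eq_prod]
  exact lintegral_prod _ hv.aemeasurable

/-- **Lines with a tree entering a straight tube.** -/
theorem lintegral_enter_par (hε : 0 < ε) (c V : Space3)
    {F : ℝ → PhasePoint × Par P → ℝ≥0∞} (hF : Measurable (Function.uncurry F)) :
    ∫⁻ z : PhasePoint × Par P, {z : PhasePoint × Par P | Meets ε (z.1.1 - c, z.1.2 - V)}.indicator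
        (fun z => F (sEnt ε (z.1.1 - c, z.1.2 - V)) z) z =
      ENNReal.ofReal (ε ^ 2) * ∫⁻ θ : HPar P,
        {θ : HPar P | ‖θ.2.2.1‖ < 1}.indicator (fun θ => ENNReal.ofReal ‖θ.2.1 - V‖ *
          F θ.1 (rootL ε (c + θ.1 • V) V θ.1 θ.2.1 θ.2.2.1, θ.2.2.2)) θ := by
  have hroot : ∀ (s : ℝ) (v : Space3) (y : Plane),
      rootL ε (c + s • V) V s v y = (c + entRel ε (v - V) s y, v) := by
    intro s v y
    unfold rootL entRel
    refine Prod.ext ?_ rfl
    simp only [smul_sub]
    abel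
  have hrel : Measurable fun ℓ : PhasePoint => ((ℓ.1 - c, ℓ.2 - V) : Space3 × Space3) := by
    fun_prop
  have hms : MeasurableSet {ℓ : PhasePoint | Meets ε (ℓ.1 - c, ℓ.2 - V)} :=
    hrel (measurableSet_meets ε)
  have hm : Measurable ({z : PhasePoint × Par P | Meets ε (z.1.1 - c, z.1.2 - V)}.indicator
        (fun z => F (sEnt ε (z.1.1 - c, z.1.2 - V)) z)) := by
    refine Measurable.indicator ?_ (measurable_fst hms)
    exact hF.comp (((measurable_sEnt ε).comp (hrel.comp measurable_fst)).prodMk measurable_id)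
  -- the entering line
  have hpt : Measurable fun θ : HPar P => ((θ.2.1 - V, θ.1, θ.2.2.1) : Space3 × ℝ × Plane) := by
    fun_prop
  have hline : Measurable fun θ : HPar P =>
      (((c + entRel ε (θ.2.1 - V) θ.1 θ.2.2.1, θ.2.1), θ.2.2.2) : PhasePoint × Par P) := by
    have h1 := ((measurable_entRel ε).comp hpt).const_add c
    exact (h1.prodMk measurable_snd.fst).prodMk measurable_snd.snd.snd
  have hF1 : Measurable fun θ : HPar P =>
      F θ.1 ((c + entRel ε (θ.2.1 - V) θ.1 θ.2.2.1, θ.2.1), θ.2.2.2) :=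
    hF.comp (measurable_fst.prodMk hline)
  have hG : Measurable ({θ : HPar P | ‖θ.2.2.1‖ < 1}.indicator
      (fun θ => ENNReal.ofReal ‖θ.2.1 - V‖ *
          F θ.1 ((c + entRel ε (θ.2.1 - V) θ.1 θ.2.2.1, θ.2.1), θ.2.2.2))) := by
    refine Measurable.indicator ?_ (measurableSet_lt measurable_snd.snd.fst.norm measurable_const)
    exact (measurable_snd.fst.sub_const V).norm.ennreal_ofReal.mul hF1
  simp only [hroot]
  rw [lintegral_hpar hG]
  rw [Measure.volume_eq_prod, lintegral_prod_symm _ hm.aemeasurable]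
  -- for fixed node parameters
  have h1 : ∀ p : Par P, ∫⁻ ℓ : PhasePoint,
      {z : PhasePoint × Par P | Meets ε (z.1.1 - c, z.1.2 - V)}.indicator
        (fun z => F (sEnt ε (z.1.1 - c, z.1.2 - V)) z) (ℓ, p) =
      ENNReal.ofReal (ε ^ 2) * ∫⁻ s : ℝ, ∫⁻ v : Space3, ∫⁻ y : Plane,
        {θ : HPar P | ‖θ.2.2.1‖ < 1}.indicator (fun θ => ENNReal.ofReal ‖θ.2.1 - V‖ *
          F θ.1 ((c + entRel ε (θ.2.1 - V) θ.1 θ.2.2.1, θ.2.1), θ.2.2.2)) (s, v, y, p) := by
    intro p
    have h2 := lintegral_enter hε c V (F := fun s ℓ => F s (ℓ, p))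
      (hF.comp (measurable_fst.prodMk (measurable_snd.prodMk measurable_const)))
    have h3 : ∀ ℓ : PhasePoint, {z : PhasePoint × Par P | Meets ε (z.1.1 - c, z.1.2 - V)}.indicator
        (fun z => F (sEnt ε (z.1.1 - c, z.1.2 - V)) z) (ℓ, p) =
        {ℓ : PhasePoint | Meets ε (ℓ.1 - c, ℓ.2 - V)}.indicator
        (fun ℓ => F (sEnt ε (ℓ.1 - c, ℓ.2 - V)) (ℓ, p)) ℓ := fun ℓ => rfl
    simp only [h3]
    rw [h2]
    congr 1
    refine lintegral_congr fun s => lintegral_congr fun v => ?_
    rw [← lintegral_const_mul' _ _ ENNReal.ofReal_ne_top, ← lintegral_indicator measurableSet_ball]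
    refine lintegral_congr fun y => ?_
    by_cases hy : ‖y‖ < 1
    · rw [indicator_of_mem (show y ∈ Metric.ball (0 : Plane) 1 by simpa using hy)]
      rw [indicator_of_mem (show ((s, v, y, p) : HPar P) ∈ {θ : HPar P | ‖θ.2.2.1‖ < 1} from hy)]
    · rw [indicator_of_notMem (show y ∉ Metric.ball (0 : Plane) 1 by simpa using hy)]
      rw [indicator_of_notMem
        (show ((s, v, y, p) : HPar P) ∉ {θ : HPar P | ‖θ.2.2.1‖ < 1} from hy)]
  simp only [h1]
  generalize ({θ : HPar P | ‖θ.2.2.1‖ < 1}.indicator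
      (fun θ => ENNReal.ofReal ‖θ.2.1 - V‖ *
          F θ.1 ((c + entRel ε (θ.2.1 - V) θ.1 θ.2.2.1, θ.2.1), θ.2.2.2))) = G at hG
  rw [lintegral_const_mul' _ _ ENNReal.ofReal_ne_top]
  congr 1
  -- swap the integral over `p` inside
  have m1 : Measurable fun q : (Par P × ℝ × Space3) × Plane => G (q.1.2.1, q.1.2.2, q.2, q.1.1) :=
    hG.comp (measurable_fst.snd.fst.prodMk
      (measurable_fst.snd.snd.prodMk (measurable_snd.prodMk measurable_fst.fst)))
  have m2 : Measurable fun q : Par P × ℝ × Space3 => ∫⁻ y : Plane, G (q.2.1, q.2.2, y, q.1) :=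
    m1.lintegral_prod_right'
  have m2' : Measurable fun q : (Par P × ℝ) × Space3 => ∫⁻ y : Plane, G (q.1.2, q.2, y, q.1.1) :=
    m2.comp (measurable_fst.fst.prodMk (measurable_fst.snd.prodMk measurable_snd))
  have m3 : Measurable fun q : Par P × ℝ => ∫⁻ v : Space3, ∫⁻ y : Plane, G (q.2, v, y, q.1) :=
    m2'.lintegral_prod_right'
  rw [lintegral_lintegral_swap m3.aemeasurable]
  refine lintegral_congr fun s => ?_
  have m4 : Measurable fun q : Par P × Space3 => ∫⁻ y : Plane, G (s, q.2, y, q.1) :=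
    m2.comp (measurable_fst.prodMk (measurable_const.prodMk measurable_snd))
  rw [lintegral_lintegral_swap m4.aemeasurable]
  refine lintegral_congr fun v => ?_
  have m5 : Measurable fun q : Par P × Plane => G (s, v, q.2, q.1) :=
    hG.comp (measurable_const.prodMk
      (measurable_const.prodMk (measurable_snd.prodMk measurable_fst)))
  exact lintegral_lintegral_swap m5.aemeasurable

/-! ### First good hits -/

/-- Just before the hit the root line is outside of all active tubes. -/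
theorem FirstAt.before {S : Tubes ι} {z : PhasePoint × Par P} {σ : ℝ} (hε : 0 < ε) (hσ : 0 < σ)
    (h : FirstAt Φ ε P S z σ) : ∃ r < σ, ∀ u ∈ Ioo r σ, ∀ i, u ≤ S.b i →
      ε < dist (S.c i u) (onLine z.1 u).1 := by
  obtain ⟨κ, hκ, hT⟩ := exists_top (top_of_ord h.valid.2)
  refine ⟨max 0 (σ - κ), max_lt hσ (by linarith), fun u hu i hi => ?_⟩
  have hu0 : 0 ≤ u := ((le_max_left _ _).trans_lt hu.1).le
  have hu1 : σ - κ ≤ u := ((le_max_right _ _).trans_lt hu.1).le
  have h1 := h.first u ⟨hu0, hu.2⟩ (root P) (by rw [PathFlow968.prot_root]; exact hu.2.le) i hi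
  rwa [path_root hε.le (hT.mono hu1)] at h1

theorem FirstAt.unique {S : Tubes ι} {z : PhasePoint × Par P} {σ σ' : ℝ} (hε : 0 < ε)
    (hσ : 0 ≤ σ) (hσ' : 0 ≤ σ') (h : FirstAt Φ ε P S z σ) (h' : FirstAt Φ ε P S z σ') : σ = σ' := by
  rw [← h.sigHit_eq hε hσ, h'.sigHit_eq hε hσ']

/-- **Joint measurability of the first good hit** in the hitting time and the parameters. -/
theorem measurableSet_firstAt [Countable ι] (hΦ : AdmissiblePotential Φ) (hε : 0 < ε) {T : ℝ}
    (hT : 0 ≤ T) {S : Tubes ι} (hS : ∀ i, ContinuousOn (S.c i) (Icc 0 T)) :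
    MeasurableSet {q : ℝ × (PhasePoint × Par P) |
      (0 < q.1 ∧ q.1 ≤ T) ∧ FirstAt Φ ε P S q.2 q.1} := by
  -- curves frozen outside `[0, T]`
  obtain ⟨c, hc, hcS⟩ : ∃ c : ι → ℝ → Space3, (∀ i, Continuous (c i)) ∧
      ∀ i, ∀ u ∈ Icc 0 T, c i u = S.c i u := by
    refine ⟨fun i u => S.c i (projIcc 0 T hT u), fun i => ?_, fun i u hu => ?_⟩
    · exact (hS i).comp_continuous (continuous_subtype_val.comp continuous_projIcc)
        fun s => (projIcc 0 T hT s).2
    · show S.c i (projIcc 0 T hT u) = S.c i u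
      rw [projIcc_of_mem hT hu]
  set A : Set (ℝ × (PhasePoint × Par P)) := {q | (0 < q.1 ∧ q.1 ≤ T) ∧
    (Valid Φ ε P q.1 q.2.1.2 q.2.2 ∧ Sep Φ ε P q.1 q.2.1 q.2.2)} with hA
  have hAm : MeasurableSet A :=
    ((measurableSet_lt measurable_const measurable_fst).inter
      (measurableSet_le measurable_fst measurable_const)).inter
      (Relabel674.measurableSet_validSep2 hΦ hε P)
  set B : ι → Set (ℝ × (PhasePoint × Par P)) := fun i =>
    {q | q.1 ≤ S.b i ∧ dist (c i q.1) (onLine q.2.1 q.1).1 ≤ ε} with hB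
  have hBm : ∀ i, MeasurableSet (B i) := by
    intro i
    have h1 : Measurable fun q : ℝ × (PhasePoint × Par P) => c i q.1 :=
      (hc i).measurable.comp measurable_fst
    have h2 : Measurable fun q : ℝ × (PhasePoint × Par P) => (onLine q.2.1 q.1).1 :=
      (measurable_onLine2.comp (measurable_snd.fst.prodMk measurable_fst)).fst
    exact (measurableSet_le measurable_fst measurable_const).inter
      (measurableSet_le (h1.dist h2) measurable_const)
  set N : Idx P → ι → ℕ → Set (ℝ × (PhasePoint × Par P)) := fun m i n =>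
    {q | ∃ u ∈ Icc 0 (min (q.1 - 1 / ((n : ℝ) + 1)) (min (prot P q.1 q.2.2 m) (S.b i))),
      (if q ∈ A then dist (c i u) (pathM Φ ε P u q.2.1 q.2.2 m).1 else 0) ≤ ε} with hN
  have hNm : ∀ m i n, MeasurableSet (N m i n) := by
    intro m i n
    have hprot : Measurable fun q : ℝ × (PhasePoint × Par P) => prot P q.1 q.2.2 m :=
      (Tree674.measurable_prot P m).comp (measurable_fst.prodMk measurable_snd.snd)
    refine measurableSet_exists_Icc measurable_const
      ((measurable_fst.sub measurable_const).min (hprot.min measurable_const))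
      (g := fun q u => if q ∈ A then dist (c i u) (pathM Φ ε P u q.2.1 q.2.2 m).1 else 0)
      (fun q => ?_) (fun u => ?_) ε
    · by_cases hq : q ∈ A
      · simp only [if_pos hq]
        have h1 := continuous_path hΦ hε hq.2.1
        have h2 : Continuous fun u => pathM Φ ε P u q.2.1 q.2.2 := by
          have e : (fun u => pathM Φ ε P u q.2.1 q.2.2) = fun u => path Φ ε P q.2.1 q.2.2 u := by
            funext u
            exact pathM_of_adm hΦ ε u hq.2.1.1
          rw [e]
          exact h1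
        exact (hc i).dist ((continuous_apply m).comp h2).fst
      · simp only [if_neg hq]
        exact continuous_const
    · have h1 : Measurable fun q : ℝ × (PhasePoint × Par P) =>
          (pathM Φ ε P u q.2.1 q.2.2 m).1 :=
        ((measurable_pi_apply m).comp
          ((measurable_pathM hΦ ε P).comp (measurable_const.prodMk measurable_snd))).fst
      exact Measurable.ite hAm (measurable_const.dist h1) measurable_const
  have key : {q : ℝ × (PhasePoint × Par P) | (0 < q.1 ∧ q.1 ≤ T) ∧ FirstAt Φ ε P S q.2 q.1} =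
      A ∩ (⋃ i, B i) ∩ ⋂ m, ⋂ i, ⋂ n, (N m i n)ᶜ := by
    ext q
    simp only [mem_inter_iff, mem_iUnion, mem_iInter, mem_compl_iff, mem_ofPred_eq]
    constructor
    · rintro ⟨hq, h⟩
      have hqA : q ∈ A := ⟨hq, h.valid, h.sep⟩
      refine ⟨⟨hqA, ?_⟩, fun m i n => ?_⟩
      · obtain ⟨i, hi, hd⟩ := h.hit
        refine ⟨i, hi, ?_⟩
        rw [hcS i q.1 ⟨hq.1.le, hq.2⟩]
        exact hd
      · rintro ⟨u, hu, hd⟩
        rw [if_pos hqA, pathM_of_adm hΦ ε u h.valid.1] at hd
        have hn : (0 : ℝ) < 1 / ((n : ℝ) + 1) := by positivity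
        have h1 : u < q.1 := by
          have := hu.2.trans (min_le_left _ _)
          linarith
        have h2 : u ≤ prot P q.1 q.2.2 m := hu.2.trans ((min_le_right _ _).trans (min_le_left _ _))
        have h3 : u ≤ S.b i := hu.2.trans ((min_le_right _ _).trans (min_le_right _ _))
        rw [hcS i u ⟨hu.1, h1.le.trans hq.2⟩] at hd
        exact absurd (h.first u ⟨hu.1, h1⟩ m h2 i h3) (not_lt.2 hd)
    · rintro ⟨⟨hqA, i, hi, hd⟩, h⟩
      refine ⟨hqA.1, ⟨hqA.2.1, hqA.2.2, ⟨i, hi, ?_⟩, fun u hu m hm i hi => ?_⟩⟩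
      · rw [← hcS i q.1 ⟨hqA.1.1.le, hqA.1.2⟩]
        exact hd
      · by_contra hlt
        push Not at hlt
        obtain ⟨n, hn⟩ := exists_nat_one_div_lt (sub_pos.2 hu.2)
        refine h m i n ⟨u, ⟨hu.1, le_min (by linarith) (le_min hm hi)⟩, ?_⟩
        rw [if_pos hqA, pathM_of_adm hΦ ε u hqA.2.1.1, hcS i u ⟨hu.1, hu.2.le.trans hqA.1.2⟩]
        exact hlt
  rw [key]
  exact (hAm.inter (MeasurableSet.iUnion hBm)).inter
    (MeasurableSet.iInter fun m => MeasurableSet.iInter fun i => MeasurableSet.iInter fun n =>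
      (hNm m i n).compl)

/-! ### The avoidance probability of the family with the tubes of a tree -/

/-- avoidance probability of the family `S` with the protected tubes of a tree, translated -/
def uT (Φ : Space3 → ℝ) (f₀ : PhasePoint → ℝ) (ε : ℝ) (S : Tubes ι) (P : CTree)
    (σ : ℝ) (z : PhasePoint × Par P) (x : Space3) : ℝ≥0∞ :=
  uG Φ f₀ ε ((S.sum (treeT Φ ε P σ z.1 z.2)).shift x) σ

/-- measurable version of `uT` -/
def uTM (Φ : Space3 → ℝ) (f₀ : PhasePoint → ℝ) (ε T : ℝ) (S : Tubes ι) (P : CTree)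
    (q : (ℝ × (PhasePoint × Par P)) × Space3) : ℝ≥0∞ :=
  uG Φ f₀ ε ((S.sum (⟨fun j u => curveM Φ ε P q.1.2.1 q.1.2.2 j u, prot P q.1.1 q.1.2.2⟩ :
    Tubes (Idx P))).shift q.2) (min q.1.1 T)

theorem uTM_eq {T σ : ℝ} {S : Tubes ι} {z : PhasePoint × Par P} (hσ : σ ≤ T)
    (hz : Adm Φ P z.1.2 z.2) (x : Space3) : uTM Φ f₀ ε T S P ((σ, z), x) = uT Φ f₀ ε S P σ z x := by
  unfold uTM uT
  have h : (⟨fun j u => curveM Φ ε P z.1 z.2 j u, prot P σ z.2⟩ : Tubes (Idx P)) =
      treeT Φ ε P σ z.1 z.2 := by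
    unfold treeT
    congr 1
    funext j u
    rw [curveM_of_adm hz]
  simp only [min_eq_left hσ, h]


theorem uTM_le_one (hf : Measurable f₀) (h1 : ∫⁻ z, ENNReal.ofReal (f₀ z) ≤ 1) (T : ℝ)
    (S : Tubes ι) (q : (ℝ × (PhasePoint × Par P)) × Space3) : uTM Φ f₀ ε T S P q ≤ 1 :=
  uG_le_one hf h1

theorem measurable_uTM [Countable ι] (hf : Measurable f₀) (hΦ : AdmissiblePotential Φ)
    (hε : 0 < ε) {T : ℝ} (hT : 0 ≤ T) {S : Tubes ι} (hS : ∀ i, ContinuousOn (S.c i) (Icc 0 T)) :
    Measurable (uTM Φ f₀ ε T S P) := by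
  have : Countable (Idx P) := Finite.to_countable
  unfold uTM
  refine measurable_uG hf hΦ hε hT (S := fun q : (ℝ × (PhasePoint × Par P)) × Space3 =>
    (S.sum (⟨fun j u => curveM Φ ε P q.1.2.1 q.1.2.2 j u, prot P q.1.1 q.1.2.2⟩ :
    Tubes (Idx P))).shift q.2) (t := fun q => min q.1.1 T) ?_ ?_ ?_ ?_ ?_
  · rintro q (i | j)
    · exact (hS i).add continuousOn_const
    · exact (continuous_curveM hΦ hε P q.1.2.1 q.1.2.2 j).continuousOn.add continuousOn_const
  · rintro (i | j) s
    · exact measurable_const.add measurable_snd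
    · have h1 : Measurable fun q : (ℝ × (PhasePoint × Par P)) × Space3 =>
          curveM Φ ε P q.1.2.1 q.1.2.2 j s :=
        (measurable_curveM hΦ hε P j).comp (measurable_const.prodMk measurable_fst.snd)
      exact h1.add measurable_snd
  · rintro (i | j)
    · exact measurable_const
    · exact (Tree674.measurable_prot P j).comp (measurable_fst.fst.prodMk measurable_fst.snd.snd)
  · exact measurable_fst.fst.min measurable_const
  · exact fun q => min_le_right _ _

/-- for a first good hit, the tubes of helper317 can be replaced by the tubes of helper383 -/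
theorem uG_ptubes (hΦ : AdmissiblePotential Φ) (hε : 0 < ε) {S : Tubes ι}
    {z : PhasePoint × Par P} {σ : ℝ} (hV : Valid Φ ε P σ z.1.2 z.2) (hSep : Sep Φ ε P σ z.1 z.2) :
    uG Φ f₀ ε (S.sum (ptubes Φ ε P z.1 z.2 σ)) σ =
      uG Φ f₀ ε (S.sum (treeT Φ ε P σ z.1 z.2)) σ := by
  refine uG_congr_tubes (Equiv.refl _) ?_ ?_
  · rintro (i | j) <;> rfl
  · rintro (i | j) s hs
    · rfl
    · show (path Φ ε P z.1 z.2 s j).1 = curve Φ ε P z.1 z.2 j s
      exact (curve_eq_path hΦ hε (X := z.1.1) (v := z.1.2) hV hSep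
        ⟨hs.1, hs.2.trans (min_le_right _ _)⟩ j).symm

/-! ### Translation -/

theorem path_add (ε : ℝ) (P : CTree) (ℓ : PhasePoint) (p : Par P) (u : ℝ) (i : Idx P)
    (x : Space3) : path Φ ε P (ℓ.1 + x, ℓ.2) p u i =
      ((path Φ ε P ℓ p u i).1 + x, (path Φ ε P ℓ p u i).2) := by
  have h1 := path_shift (Φ := Φ) ε P (ℓ.1 + x) ℓ.2 p u i
  have h2 := path_shift (Φ := Φ) ε P ℓ.1 ℓ.2 p u i
  have h3 : path Φ ε P ℓ p u i = path Φ ε P (ℓ.1, ℓ.2) p u i := rfl
  rw [h1, h3, h2]
  simp only [add_assoc]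

theorem lines_add (ε : ℝ) (P : CTree) (ℓ : PhasePoint) (p : Par P) (i : Idx P)
    (x : Space3) : lines Φ ε P (ℓ.1 + x, ℓ.2) p i =
      ((lines Φ ε P ℓ p i).1 + x, (lines Φ ε P ℓ p i).2) := by
  have h1 := lines_shift (Φ := Φ) ε P (ℓ.1 + x) ℓ.2 p i
  have h2 := lines_shift (Φ := Φ) ε P ℓ.1 ℓ.2 p i
  have h3 : lines Φ ε P ℓ p i = lines Φ ε P (ℓ.1, ℓ.2) p i := rfl
  rw [h1, h3, h2]
  simp only [add_assoc]

theorem curve_add (hΦ : AdmissiblePotential Φ) (hε : 0 < ε) (P : CTree) (ℓ : PhasePoint)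
    (p : Par P) (i : Idx P) (s : ℝ) (x : Space3) :
    curve Φ ε P (ℓ.1 + x, ℓ.2) p i s = curve Φ ε P ℓ p i s + x := by
  have h1 := curve_shift hΦ hε P (ℓ.1 + x) ℓ.2 p i s
  have h2 := curve_shift hΦ hε P ℓ.1 ℓ.2 p i s
  have h3 : curve Φ ε P ℓ p i s = curve Φ ε P (ℓ.1, ℓ.2) p i s := rfl
  rw [h1, h3, h2, add_assoc]

theorem firstAt_add {S : Tubes ι} {z : PhasePoint × Par P} {σ : ℝ} (x : Space3) :
    FirstAt Φ ε P (S.shift x) ((z.1.1 + x, z.1.2), z.2) σ ↔ FirstAt Φ ε P S z σ := by
  have hd : ∀ i u m, dist ((S.shift x).c i u) (path Φ ε P (z.1.1 + x, z.1.2) z.2 u m).1 =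
      dist (S.c i u) (path Φ ε P z.1 z.2 u m).1 := by
    intro i u m
    rw [path_add]
    exact dist_add_right _ _ _
  have ho : ∀ i u, dist ((S.shift x).c i u) (onLine (z.1.1 + x, z.1.2) u).1 =
      dist (S.c i u) (onLine z.1 u).1 := by
    intro i u
    have : (onLine (z.1.1 + x, z.1.2) u).1 = (onLine z.1 u).1 + x :=
      add_right_comm z.1.1 x (u • z.1.2)
    rw [this]
    exact dist_add_right _ _ _
  have hs : Sep Φ ε P σ (z.1.1 + x, z.1.2) z.2 ↔ Sep Φ ε P σ z.1 z.2 := by
    have h1 := sep_shift (Φ := Φ) (ε := ε) (T := σ) (P := P) (v := z.1.2) (p := z.2) (z.1.1 + x)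
    have h2 := sep_shift (Φ := Φ) (ε := ε) (T := σ) (P := P) (v := z.1.2) (p := z.2) z.1.1
    exact h1.trans h2.symm
  constructor
  · rintro ⟨h1, h2, ⟨i, h3, h4⟩, h5⟩
    refine ⟨h1, hs.1 h2, ⟨i, h3, ?_⟩, fun u hu m hm i hi => ?_⟩
    · rw [← ho]; exact h4
    · rw [← hd]; exact h5 u hu m hm i hi
  · rintro ⟨h1, h2, ⟨i, h3, h4⟩, h5⟩
    refine ⟨h1, hs.2 h2, ⟨i, h3, ?_⟩, fun u hu m hm i hi => ?_⟩
    · rw [ho]; exact h4
    · rw [hd]; exact h5 u hu m hm i hi

theorem sigHit_add {S : Tubes ι} {z : PhasePoint × Par P} (x : Space3) :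
    sigHit Φ ε P (S.shift x) ((z.1.1 + x, z.1.2), z.2) = sigHit Φ ε P S z := by
  unfold sigHit
  congr 1
  ext s
  simp only [mem_ofPred_eq]
  refine and_congr_right fun _ => exists_congr fun i => and_congr_right fun _ => ?_
  rw [path_add]
  have : dist ((S.shift x).c i s) ((path Φ ε P z.1 z.2 s (root P)).1 + x,
      (path Φ ε P z.1 z.2 s (root P)).2).1 = dist (S.c i s) (path Φ ε P z.1 z.2 s (root P)).1 :=
    dist_add_right _ _ _
  rw [this]

/-- **The mass of first good hits** in coordinates relative to the translation. -/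
theorem Hgh_eq (hΦ : AdmissiblePotential Φ) (hε : 0 < ε) (S : Tubes ι) (tw t : ℝ) (x : Space3) :
    Hgh Φ f₀ ε P (S.shift x) tw t = activity ε * ∫⁻ z : PhasePoint × Par P,
      if sigHit Φ ε P S z ∈ Ico tw t ∧ 0 < sigHit Φ ε P S z ∧
        FirstAt Φ ε P S z (sigHit Φ ε P S z) then
      wt Φ P z.1.2 z.2 * ((∏ j, ENNReal.ofReal (f₀ ((lines Φ ε P z.1 z.2 j).1 + x,
        (lines Φ ε P z.1 z.2 j).2))) * uT Φ f₀ ε S P (sigHit Φ ε P S z) z x)
      else 0 := by
  unfold Hgh
  congr 1
  have hmp : MeasurePreserving (fun z : PhasePoint × Par P => ((z.1.1 + x, z.1.2), z.2)) :=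
    ((measurePreserving_add_right (volume : Measure Space3) x).prod
      (MeasurePreserving.id (volume : Measure Space3))).prod
      (MeasurePreserving.id (volume : Measure (Par P)))
  have hemb : MeasurableEmbedding (fun z : PhasePoint × Par P => ((z.1.1 + x, z.1.2), z.2)) :=
    (((MeasurableEquiv.addRight x).prodCongr (MeasurableEquiv.refl Space3)).prodCongr
      (MeasurableEquiv.refl (Par P))).measurableEmbedding
  rw [← hmp.lintegral_comp_emb hemb]
  refine lintegral_congr fun z => ?_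
  simp only [sigHit_add, firstAt_add]
  by_cases h : sigHit Φ ε P S z ∈ Ico tw t ∧ 0 < sigHit Φ ε P S z ∧
        FirstAt Φ ε P S z (sigHit Φ ε P S z)
  · rw [if_pos h, if_pos h]
    congr 1
    congr 1
    · refine Finset.prod_congr rfl fun j _ => ?_
      rw [lines_add]
    · have h1 := uG_ptubes (f₀ := f₀) hΦ hε (S := S.shift x)
        (z := ((z.1.1 + x, z.1.2), z.2)) ((firstAt_add x).2 h.2.2).valid
        ((firstAt_add x).2 h.2.2).sep
      refine h1.trans ?_
      unfold uT
      congr 1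
      have hc : ∀ j u, curve Φ ε P (z.1.1 + x, z.1.2) z.2 j u = curve Φ ε P z.1 z.2 j u + x :=
        fun j u => curve_add hΦ hε P z.1 z.2 j u x
      unfold Tubes.sum Tubes.shift treeT
      simp only [hc]
      congr 1
      funext k
      rcases k with i | j
      · rfl
      · rfl
  · rw [if_neg h, if_neg h]

end Crest.Agent.R122.Tube818
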