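import Crest.Agent.R122.TubeChild1_491
import Crest.Agent.R122.GIVDefs_566
import Crest.Agent.R122.GIVChild_383
import Crest.Agent.R122.IDefs_317
import Crest.Agent.R122.Tube3_818
import Crest.Agent.R122.TreeLim_974
import Crest.Agent.R122.Band1_974

-- ▼ part R122/TubeChild2_491
section

/-!
Row 122, block FT (helper491): children of a tube family, part 2 (null sets).

`a = (s, v, y)` are the glueing parameters, `p` the parameters of the tree; for almost every
`θ = (a, p)` the straight-line tree glued at `(s, x s)` with velocity `v` meets no line of a given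
countable family, except at the glueing point.
-/

set_option autoImplicit false

open MeasureTheory Set Filter
open scoped ENNReal Topology Classical RealInnerProductSpace
open Crest.AnalysisR.Kinetic

noncomputable section

namespace Crest.Agent.R122.TubeChild491

open Kin796 Kin796.CTree Disc416 Tree674 Boltz814 TreeEps399 Hid424 Generic491 GIV566

variable {Φ : Space3 → ℝ}

/-! ### Product null sets -/

/-- the root line through `x` at time `s` with velocity `v` meets `z` at another time, or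
`v = z.2` -/
def BadRoot (x : ℝ → Space3) (z : PhasePoint) (a : NodeP) : Prop :=
  Hit ((a.2.1 - z.2, -(z.1 + a.1 • z.2 - x a.1)) : PhasePoint)

lemma measurableSet_badRoot {x : ℝ → Space3} (hx : Measurable x) (z : PhasePoint) :
    MeasurableSet {a : NodeP | BadRoot x z a} := by
  have h1 : Measurable fun a : NodeP => (a.2.1 - z.2, -(z.1 + a.1 • z.2 - x a.1)) := by
    have hv : Measurable fun a : NodeP => a.2.1 := measurable_fst.comp measurable_snd
    have hs : Measurable fun a : NodeP => a.1 := measurable_fst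
    exact (hv.sub_const _).prodMk ((((hs.smul_const z.2).const_add z.1).sub (hx.comp hs)).neg)
  exact h1 measurableSet_hit

lemma ae_not_badRoot {x : ℝ → Space3} (hx : Measurable x) (z : PhasePoint) :
    ∀ᵐ a : NodeP, ¬ BadRoot x z a := by
  refine ae_prod_of_left (μ := (volume : Measure ℝ)) (ν := (volume : Measure (Space3 × Disc416.Plane)))
    (measurableSet_badRoot hx z).compl fun s => ?_
  have h : ∀ᵐ c : Space3 × Disc416.Plane, ∀ t : ℝ, c.1 ≠ z.2 + t • (z.1 + s • z.2 - x s) :=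
    (Measure.quasiMeasurePreserving_fst (μ := (volume : Measure Space3))
      (ν := (volume : Measure Disc416.Plane))).ae (ae_not_line _ _)
  filter_upwards [h] with c hc
  rintro ⟨t, ht⟩
  apply hc t
  simp only at ht
  have h1 : c.1 - z.2 = t • (z.1 + s • z.2 - x s) := by
    rw [smul_neg] at ht
    exact sub_eq_zero.1 (by rw [← ht]; abel)
  rw [← h1]; abel

lemma ne_of_not_badRoot {x : ℝ → Space3} {z : PhasePoint} {a : NodeP} (h : ¬ BadRoot x z a) :
    a.2.1 ≠ z.2 := by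
  intro h0
  apply h
  exact ⟨0, by simp [h0]⟩

lemma meet_of_not_badRoot {x : ℝ → Space3} {z : PhasePoint} {a : NodeP} (h : ¬ BadRoot x z a)
    {u : ℝ} (hu : (onLine (x a.1 - a.1 • a.2.1, a.2.1) u).1 = (onLine z u).1) : u = a.1 := by
  by_contra hne
  have hus : u - a.1 ≠ 0 := sub_ne_zero.2 hne
  apply h
  refine ⟨(u - a.1)⁻¹, ?_⟩
  simp only [onLine] at hu
  have h3 : (u - a.1) • (a.2.1 - z.2) = z.1 + a.1 • z.2 - x a.1 := by
    have : (u - a.1) • (a.2.1 - z.2) - (z.1 + a.1 • z.2 - x a.1) =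
        (x a.1 - a.1 • a.2.1 + u • a.2.1) - (z.1 + u • z.2) := by module
    rw [← sub_eq_zero, this, hu, sub_self]
  simp only
  rw [← h3, smul_neg, smul_smul, inv_mul_cancel₀ hus, one_smul, add_neg_cancel]

/-- the boost to the rest frame of the root, as a map on `NodeP × Par P` -/
def restMap (P : CTree) (θ : NodeP × Par P) : NodeP × Par P := (θ.1, boostP P (-θ.1.2.1) θ.2)

theorem measurePreserving_restMap (P : CTree) :
    MeasurePreserving (restMap P) ((volume : Measure NodeP).prod (volume : Measure (Par P)))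
      ((volume : Measure NodeP).prod (volume : Measure (Par P))) := by
  refine MeasurePreserving.skew_product (f := id) (MeasurePreserving.id _)
    (g := fun (a : NodeP) (q : Par P) => boostP P (-a.2.1) q) ?_ ?_
  · exact (measurable_boostP P).comp (f := fun z : NodeP × Par P => (-z.1.2.1, z.2))
      ((measurable_fst.comp (measurable_snd.comp measurable_fst)).neg.prodMk measurable_snd)
  · exact Filter.Eventually.of_forall fun a => (measurePreserving_boostP P _).map_eq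

/-- **Avoidance, one line.** -/
theorem ae_theta_line (hΦ : AdmissiblePotential Φ) (P : CTree) {x : ℝ → Space3}
    (hx : Measurable x) (z : PhasePoint) :
    ∀ᵐ θ : NodeP × Par P, Adm Φ P θ.1.2.1 θ.2 → θ.1.2.1 ≠ z.2 ∧
      ∀ (j : Idx P) (u : ℝ),
        (path Φ 0 P (x θ.1.1 - θ.1.1 • θ.1.2.1, θ.1.2.1) θ.2 u j).1 = (onLine z u).1 →
        u = θ.1.1 ∧ (onLine z θ.1.1).1 = x θ.1.1 := by
  have : Countable (Seg P) := Finite.to_countable
  have S := Scat818.scatFacts hΦ
  have hx1 : Measurable fun θ : NodeP × Par P => x θ.1.1 := hx.comp (measurable_fst.comp measurable_fst)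
  have hs : Measurable fun θ : NodeP × Par P => θ.1.1 := measurable_fst.comp measurable_fst
  have hv : Measurable fun θ : NodeP × Par P => θ.1.2.1 :=
    measurable_fst.comp (measurable_snd.comp measurable_fst)
  -- rest frame
  have h1 : ∀ k : Seg P, ∀ᵐ θ ∂((volume : Measure NodeP).prod (volume : Measure (Par P))),
      ¬ BadRoot x z θ.1 → ¬ StrM Φ P θ.2 k →
        ¬ Hit (segM Φ P θ.2 k - shL (-(x θ.1.1 - θ.1.1 • θ.1.2.1)) (-θ.1.2.1) z) := by
    intro k
    refine ae_prod_of_left ?_ fun a => ?_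
    · have m1 : MeasurableSet {θ : NodeP × Par P | BadRoot x z θ.1} :=
        measurable_fst (measurableSet_badRoot hx z)
      have m2 : MeasurableSet {θ : NodeP × Par P | StrM Φ P θ.2 k} :=
        measurable_snd (measurableSet_strM S P k)
      have hsh : Measurable fun θ : NodeP × Par P =>
          shL (-(x θ.1.1 - θ.1.1 • θ.1.2.1)) (-θ.1.2.1) z :=
        ((hx1.sub (hs.smul hv)).neg.const_add z.1).prodMk (hv.neg.const_add z.2)
      have m3 : MeasurableSet {θ : NodeP × Par P |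
          Hit (segM Φ P θ.2 k - shL (-(x θ.1.1 - θ.1.1 • θ.1.2.1)) (-θ.1.2.1) z)} :=
        (((measurable_segM S P k).comp measurable_snd).sub hsh) measurableSet_hit
      have hset : {θ : NodeP × Par P | ¬ BadRoot x z θ.1 → ¬ StrM Φ P θ.2 k →
          ¬ Hit (segM Φ P θ.2 k - shL (-(x θ.1.1 - θ.1.1 • θ.1.2.1)) (-θ.1.2.1) z)} =
          {θ | BadRoot x z θ.1} ∪ ({θ | StrM Φ P θ.2 k} ∪
            {θ | Hit (segM Φ P θ.2 k - shL (-(x θ.1.1 - θ.1.1 • θ.1.2.1)) (-θ.1.2.1) z)}ᶜ) := by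
        ext θ; simp only [mem_ofPred_eq, mem_union, mem_compl_iff]; tauto
      rw [hset]
      exact m1.union (m2.union m3.compl)
    · by_cases hb : BadRoot x z a
      · exact Filter.Eventually.of_forall fun q h => absurd hb h
      · have hz : shL (-(x a.1 - a.1 • a.2.1)) (-a.2.1) z ≠ 0 := by
          refine shL_ne_zero ?_
          rw [neg_neg, neg_neg]
          intro h
          exact ne_of_not_badRoot hb (by rw [h])
        filter_upwards [ae_segM_hit hΦ S P k hz] with q hq _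
        exact hq
  have h2 := (measurePreserving_restMap P).quasiMeasurePreserving.ae (ae_all_iff.2 h1)
  have h3 := (Measure.quasiMeasurePreserving_fst (μ := (volume : Measure NodeP))
    (ν := (volume : Measure (Par P)))).ae (ae_not_badRoot hx z)
  have h4 : (volume : Measure (NodeP × Par P)) =
      (volume : Measure NodeP).prod (volume : Measure (Par P)) := rfl
  rw [h4]
  filter_upwards [h2, h3] with θ a2 a3 hA
  refine ⟨ne_of_not_badRoot a3, fun j u hu => ?_⟩
  have hA1 : Adm Φ P 0 (boostP P (-θ.1.2.1) θ.2) := by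
    have := (adm_boost (Φ := Φ) P (-θ.1.2.1) θ.1.2.1 θ.2).2 hA
    rwa [add_neg_cancel] at this
  have hstr : Str Φ P θ.1.2.1 θ.2 (legOf P θ.2 u j) := by
    by_contra hn
    have hn' : ¬ StrM Φ P (boostP P (-θ.1.2.1) θ.2) (legOf P θ.2 u j) := by
      rwa [← strM_iff P _ hA1, ← str_rest]
    apply a2 (legOf P θ.2 u j) a3 hn'
    show Hit (segM Φ P (boostP P (-θ.1.2.1) θ.2) (legOf P θ.2 u j) -
      shL (-(x θ.1.1 - θ.1.1 • θ.1.2.1)) (-θ.1.2.1) z)
    rw [← segM_eq P _ hA1, ← hit_shL, ← seg_rest P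
      ((x θ.1.1 - θ.1.1 • θ.1.2.1, θ.1.2.1) : PhasePoint) θ.2, hit_sub_iff]
    rw [path_eq_seg] at hu
    exact ⟨u, hu⟩
  have hpos := path_of_str P ((x θ.1.1 - θ.1.1 • θ.1.2.1, θ.1.2.1) : PhasePoint) θ.2 j u hstr
  rw [hpos] at hu
  have hus : u = θ.1.1 := meet_of_not_badRoot a3 hu
  refine ⟨hus, ?_⟩
  rw [hus] at hu
  rw [← hu]
  simp [onLine]

/-- **Avoidance, countable family of lines.** -/
theorem ae_theta (hΦ : AdmissiblePotential Φ) (P : CTree) {x : ℝ → Space3}
    (hx : Measurable x) {A : Set PhasePoint} (hA : A.Countable) :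
    ∀ᵐ θ : NodeP × Par P, Adm Φ P θ.1.2.1 θ.2 → ∀ z ∈ A, θ.1.2.1 ≠ z.2 ∧
      ∀ (j : Idx P) (u : ℝ),
        (path Φ 0 P (x θ.1.1 - θ.1.1 • θ.1.2.1, θ.1.2.1) θ.2 u j).1 = (onLine z u).1 →
        u = θ.1.1 ∧ (onLine z θ.1.1).1 = x θ.1.1 := by
  have h := (ae_ball_iff hA (p := fun (θ : NodeP × Par P) (z : PhasePoint) (_ : z ∈ A) =>
    Adm Φ P θ.1.2.1 θ.2 → θ.1.2.1 ≠ z.2 ∧
      ∀ (j : Idx P) (u : ℝ),
        (path Φ 0 P (x θ.1.1 - θ.1.1 • θ.1.2.1, θ.1.2.1) θ.2 u j).1 = (onLine z u).1 →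
        u = θ.1.1 ∧ (onLine z θ.1.1).1 = x θ.1.1)).2 fun z _ => ae_theta_line hΦ P hx z
  filter_upwards [h] with θ hθ hAdm z hz
  exact hθ z hz hAdm

/-- Theorem C in the variables `(a, p)` -/
theorem ae_theta_gen (hΦ : AdmissiblePotential Φ) (P : CTree) (T : ℝ) :
    ∀ᵐ θ : NodeP × Par P, Valid Φ 0 P T θ.1.2.1 θ.2 → ∀ X : Space3, Gen Φ P (X, θ.1.2.1) θ.2 := by
  have h1 := (Measure.quasiMeasurePreserving_snd (μ := (volume : Measure NodeP))
    (ν := (volume : Measure (Par P)))).ae (gen_ae_rest hΦ (Scat818.scatFacts hΦ) P T)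
  have h2 := (measurePreserving_restMap P).quasiMeasurePreserving.ae h1
  have h4 : (volume : Measure (NodeP × Par P)) =
      (volume : Measure NodeP).prod (volume : Measure (Par P)) := rfl
  rw [h4]
  filter_upwards [h2] with θ hθ hV X
  rw [gen_rest]
  exact hθ ((valid_rest P T θ.1.2.1 θ.2).1 hV)

/-! ### Covering a tube family by countably many lines -/

variable {κ : Type}

/-- at every active time, every curve of the family is on a line of `A` -/
def Cover (A : Set PhasePoint) (S : Tubes κ) (T : ℝ) : Prop :=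
  ∀ i, ∀ u ∈ Icc 0 T, u ≤ S.b i → ∃ z ∈ A, S.c i u = (onLine z u).1

/-- a curve with constant velocity on a ball is on a line -/
lemma affine_of_hasDerivAt {c : ℝ → Space3} {V : Space3} {s δ : ℝ}
    (h : ∀ u ∈ Metric.ball s δ, HasDerivAt c V u) {u : ℝ} (hu : u ∈ Metric.ball s δ) :
    c u = c s + (u - s) • V := by
  have hδ : 0 < δ := by
    by_contra hn
    rw [Metric.ball_eq_empty.2 (not_lt.1 hn)] at hu
    exact hu
  have hd : ∀ w ∈ Metric.ball s δ, HasDerivAt (fun w => c w - (w - s) • V) 0 w := by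
    intro w hw
    have h2 : HasDerivAt (fun w : ℝ => (w - s) • V) ((1 : ℝ) • V) w :=
      ((hasDerivAt_id w).sub_const s).smul_const V
    have := (h w hw).sub h2
    rwa [one_smul, sub_self] at this
  have h3 := Metric.isOpen_ball.is_const_of_deriv_eq_zero
    ((convex_ball s δ).isPreconnected) (f := fun w => c w - (w - s) • V)
    (fun w hw => (hd w hw).differentiableAt.differentiableWithinAt)
    (fun w hw => (hd w hw).deriv) hu (Metric.mem_ball_self hδ)
  simp only [sub_self, zero_smul, sub_zero] at h3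
  rw [← h3]; abel

theorem exists_cover [Finite κ] {T : ℝ} {S : Tubes κ}
    (h : ∃ B : Set ℝ, B.Finite ∧ ∀ s ∈ Ioo 0 T, s ∉ B → ∀ i, s < S.b i →
      ∃ v : Space3, ∃ U ∈ 𝓝 s, ∀ u ∈ U, HasDerivAt (S.c i) v u) :
    ∃ A : Set PhasePoint, A.Countable ∧ Cover A S T := by
  obtain ⟨B, hB, h⟩ := h
  have : Countable κ := Finite.to_countable
  have key : ∀ i : κ, ∃ A : Set PhasePoint, A.Countable ∧
      ∀ u ∈ Icc 0 T, u ≤ S.b i → ∃ z ∈ A, S.c i u = (onLine z u).1 := by
    intro i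
    set D : Set ℝ := {u | u ∈ Ioo 0 T ∧ u ∉ B ∧ u < S.b i} with hD
    have hloc : ∀ u ∈ D, ∃ (δ : ℝ) (z : PhasePoint), 0 < δ ∧
        ∀ u' ∈ Metric.ball u δ, S.c i u' = (onLine z u').1 := by
      intro u hu
      obtain ⟨v, U, hU, hv⟩ := h u hu.1 hu.2.1 i hu.2.2
      obtain ⟨δ, hδ, hball⟩ := Metric.mem_nhds_iff.1 hU
      refine ⟨δ, (S.c i u - u • v, v), hδ, fun u' hu' => ?_⟩
      rw [affine_of_hasDerivAt (fun w hw => hv w (hball hw)) hu']
      simp only [onLine]; module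
    choose! δ z hδ hz using hloc
    obtain ⟨D', hD', hc, hcov⟩ := TopologicalSpace.countable_cover_nhdsWithin
      (f := fun u => Metric.ball u (δ u)) (s := D)
      (fun u hu => mem_nhdsWithin_of_mem_nhds (Metric.ball_mem_nhds u (hδ u hu)))
    set E : Set ℝ := B ∪ {0, T, S.b i} with hE
    have hEc : E.Countable := hB.countable.union (by simp)
    refine ⟨z '' D' ∪ (fun u => ((S.c i u, 0) : PhasePoint)) '' E,
      (hc.image z).union (hEc.image _), fun u hu hub => ?_⟩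
    by_cases huE : u ∈ E
    · exact ⟨(S.c i u, 0), Or.inr ⟨u, huE, rfl⟩, by simp [onLine]⟩
    · rw [hE, mem_union, not_or] at huE
      simp only [mem_insert_iff, mem_singleton_iff, not_or] at huE
      have huD : u ∈ D := ⟨⟨lt_of_le_of_ne hu.1 (Ne.symm huE.2.1), lt_of_le_of_ne hu.2 huE.2.2.1⟩,
        huE.1, lt_of_le_of_ne hub huE.2.2.2⟩
      obtain ⟨u1, hu1, hu2⟩ := mem_iUnion₂.1 (hcov huD)
      exact ⟨z u1, Or.inl ⟨u1, hu1, rfl⟩, hz u1 (hD' hu1) u hu2⟩
  choose A hA hcov using key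
  exact ⟨⋃ i, A i, countable_iUnion hA, fun i u hu hub => by
    obtain ⟨z, hz, e⟩ := hcov i u hu hub
    exact ⟨z, mem_iUnion.2 ⟨i, hz⟩, e⟩⟩

end Crest.Agent.R122.TubeChild491

end
end

-- ▼ part R122/TubeChild3_491
section

/-!
Row 122, block FT (helper491): children of a tube family, part 3: F3 and F4 on the tube families of
`GIVDefs_566`.

`child`: let `S_k → S` (`TubeConv`), `S` generic, `ε_k → 0+`.  For almost every `θ = (a, p)`,
`a = (s, v, y)`: if `0 < s < T`, `s < b i0`, `‖y‖ < 1`, and the straight-line tree `(P, v, p)` is valid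
at time `s`, then eventually the `ε_k`-tree glued to the tube `i0` at time `s` is valid, separated,
its entrance is the first good hit, and the families `S_k ∪ (protected tubes)` converge to
`S ∪ (protected tubes)`, which is generic.
-/

set_option autoImplicit false

open MeasureTheory Set Filter
open scoped ENNReal Topology Classical RealInnerProductSpace NNReal
open Crest.AnalysisR.Kinetic

noncomputable section

namespace Crest.Agent.R122.TubeChild491

open Kin796 Kin796.CTree Disc416 Tree674 Boltz814 TreeEps399 Hid424 Generic491 GIV566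

variable {Φ : Space3 → ℝ} {κ : Type}

/-- protected tubes of a tree with root line `ℓ`, up to time `s` -/
def ptubes (Φ : Space3 → ℝ) (ε : ℝ) (P : CTree) (ℓ : PhasePoint) (p : Par P) (s : ℝ) :
    Tubes (Idx P) := ⟨fun j u => (path Φ ε P ℓ p u j).1, prot P s p⟩

/-- no protected particle of the tree is within `ε` of an active curve of `S` before time `s` -/
def First (Φ : Space3 → ℝ) (ε : ℝ) (S : Tubes κ) (P : CTree) (ℓ : PhasePoint) (p : Par P)
    (s : ℝ) : Prop :=
  ∀ u ∈ Ico 0 s, ∀ j : Idx P, u ≤ prot P s p j → ∀ i, u ≤ S.b i →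
    ε < dist (path Φ ε P ℓ p u j).1 (S.c i u)

/-! ### Convergence and genericity of the children (deterministic) -/

/-- the union of convergent families with a convergent tree -/
theorem conv_child (hΦ : AdmissiblePotential Φ) {T s : ℝ} {Sk : ℕ → Tubes κ} {S : Tubes κ}
    {εk : ℕ → ℝ} (hε : Tendsto εk atTop TreeEps399.L) (hconv : TubeConv T Sk S) {P : CTree}
    {v : Space3} {p : Par P} (hs0 : 0 ≤ s) (hsT : s ≤ T) (hV : Valid Φ 0 P s v p)
    (hG : Gen Φ P (0, v) p) {X : ℕ → Space3} {X0 : Space3} (hX : Tendsto X atTop (𝓝 X0)) :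
    TubeConv T (fun k => (Sk k).sum (ptubes Φ (εk k) P (X k, v) p s))
      (S.sum (ptubes Φ 0 P (X0, v) p s)) := by
  have hT0 : 0 ≤ T := hs0.trans hsT
  have hVT : Valid Φ 0 P T v p := valid_mono P hsT v p hV
  obtain ⟨M, hM, hM0⟩ := pathlip hΦ hε hT0 hVT hG X
  refine ⟨?_, ?_, ?_, ?_⟩
  · obtain ⟨M1, h1, h2⟩ := hconv.lip
    refine ⟨max M1 M, ?_, ?_⟩
    · filter_upwards [h1, hM] with k a1 a2
      rintro (i | j)
      · exact (a1 i).weaken (le_max_left _ _)
      · exact (a2 j).weaken (le_max_right _ _)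
    · rintro (i | j)
      · exact (h2 i).weaken (le_max_left _ _)
      · exact (hM0 X0 j).weaken (le_max_right _ _)
  · rintro (i | j)
    · exact hconv.curves i
    · exact pathunif (l := atTop) hε hV hX (Icc 0 T) j
  · rintro (i | j)
    · exact hconv.active i
    · exact tendsto_const_nhds
  · obtain ⟨B, hB, hvel⟩ := hconv.vel
    refine ⟨B ∪ {u | ¬ NotTime P p u}, hB.union (finite_times P p), fun s' hs' hsB => ?_⟩
    rw [mem_union, not_or] at hsB
    rintro (i | j) hi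
    · obtain ⟨w, U, hU, h1, h2⟩ := hvel s' hs' hsB.1 i hi
      exact ⟨w, U, hU, h1, h2⟩
    · have hnt : NotTime P p s' := not_not.1 hsB.2
      obtain ⟨w, δ, hδ, h1, h2⟩ := pathvel (Φ := Φ) (l := atTop) hε (v := v) hnt X X0
      refine ⟨w j, Metric.ball s' δ, Metric.ball_mem_nhds s' hδ, h1 j, ?_⟩
      filter_upwards [h2] with k hk
      exact hk j

/-- the limit child is generic -/
theorem generic_child {T s : ℝ} {S : Tubes κ} (hgen : Generic T S) {A : Set PhasePoint}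
    (hcov : Cover A S T) {P : CTree} {v X0 : Space3} {p : Par P} (hG : Gen Φ P (X0, v) p)
    (hav : ∀ z ∈ A, ∀ (j : Idx P) (u : ℝ),
      (path Φ 0 P (X0, v) p u j).1 = (onLine z u).1 → u = s) :
    Generic T (S.sum (ptubes Φ 0 P (X0, v) p s)) := by
  have hmix : ∀ (i : κ) (j : Idx P), {u | u ∈ Icc 0 (min T (min (S.b i) (prot P s p j))) ∧
      S.c i u = (path Φ 0 P (X0, v) p u j).1}.Finite := by
    intro i j
    refine (finite_singleton s).subset ?_
    rintro u ⟨hu, he⟩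
    obtain ⟨z, hz, hz'⟩ := hcov i u ⟨hu.1, hu.2.trans (min_le_left _ _)⟩
      (hu.2.trans ((min_le_right _ _).trans (min_le_left _ _)))
    exact hav z hz j u (he.symm.trans hz')
  rintro (i | j) (i' | j') hne
  · exact hgen i i' fun h => hne (by rw [h])
  · exact hmix i j'
  · refine (hmix i' j).subset ?_
    rintro u ⟨hu, he⟩
    exact ⟨⟨hu.1, hu.2.trans (min_le_min_left _ (min_comm _ _).le)⟩, he.symm⟩
  · refine (finite_meet hG (i := j) (j := j') fun h => hne (by rw [h])).subset ?_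
    rintro u ⟨hu, he⟩
    exact ⟨hu.1, he⟩

/-! ### The theorem -/

lemma ae_time_notMem {F : Set ℝ} (hF : F.Countable) : ∀ᵐ a : NodeP, a.1 ∉ F :=
  (Measure.quasiMeasurePreserving_fst (μ := (volume : Measure ℝ))
    (ν := (volume : Measure (Space3 × Disc416.Plane)))).ae (hF.ae_notMem volume)

lemma ae_ne_deriv (c : ℝ → Space3) : ∀ᵐ a : NodeP, a.2.1 ≠ deriv c a.1 := by
  refine ae_prod_of_left (μ := (volume : Measure ℝ))
    (ν := (volume : Measure (Space3 × Disc416.Plane))) ?_ fun s => ?_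
  · exact (measurableSet_eq_fun (measurable_fst.comp measurable_snd)
      ((measurable_deriv c).comp measurable_fst)).compl
  · exact (Measure.quasiMeasurePreserving_fst (μ := (volume : Measure Space3))
      (ν := (volume : Measure Disc416.Plane))).ae
      (compl_mem_ae_iff.2 (MeasureTheory.measure_singleton (deriv c s)))

/-- **Children of a tube family** (F3 + F4). -/
theorem child [Fintype κ] (hΦ : AdmissiblePotential Φ) {T : ℝ} {Sk : ℕ → Tubes κ} {S : Tubes κ}
    {εk : ℕ → ℝ} (hε0 : ∀ k, 0 < εk k) (hlim : Tendsto εk atTop (𝓝 0))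
    (hconv : TubeConv T Sk S) (hgen : Generic T S) (i0 : κ) (P : CTree) :
    ∀ᵐ θ : NodeP × Par P, 0 < θ.1.1 → θ.1.1 < T → θ.1.1 < S.b i0 → ‖θ.1.2.2‖ < 1 →
      Valid Φ 0 P θ.1.1 θ.1.2.1 θ.2 →
      (∀ᶠ k in atTop, Valid Φ (εk k) P θ.1.1 θ.1.2.1 θ.2 ∧
        Sep Φ (εk k) P θ.1.1 (rootAt (εk k) ((Sk k).c i0 θ.1.1) (deriv (S.c i0) θ.1.1) θ.1.2.1
          θ.1.2.2 θ.1.1) θ.2 ∧
        First Φ (εk k) (Sk k) P (rootAt (εk k) ((Sk k).c i0 θ.1.1) (deriv (S.c i0) θ.1.1)
          θ.1.2.1 θ.1.2.2 θ.1.1) θ.2 θ.1.1) ∧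
      TubeConv T (fun k => (Sk k).sum (ptubes Φ (εk k) P
          (rootAt (εk k) ((Sk k).c i0 θ.1.1) (deriv (S.c i0) θ.1.1) θ.1.2.1 θ.1.2.2 θ.1.1)
          θ.2 θ.1.1))
        (S.sum (ptubes Φ 0 P (S.c i0 θ.1.1 - θ.1.1 • θ.1.2.1, θ.1.2.1) θ.2 θ.1.1)) ∧
      Generic T (S.sum (ptubes Φ 0 P (S.c i0 θ.1.1 - θ.1.1 • θ.1.2.1, θ.1.2.1) θ.2 θ.1.1)) := by
  by_cases hT : T ≤ 0
  · exact Filter.Eventually.of_forall fun θ h1 h2 => absurd (h1.trans h2) (not_lt.2 hT)
  push Not at hT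
  have hε : Tendsto εk atTop TreeEps399.L :=
    tendsto_nhdsWithin_iff.2 ⟨hlim, Eventually.of_forall hε0⟩
  obtain ⟨M1, hlipk, hlip⟩ := hconv.lip
  obtain ⟨B, hB, hvel⟩ := hconv.vel
  obtain ⟨A, hA, hcov⟩ := exists_cover (S := S) (T := T)
    ⟨B, hB, fun s hs hsB i hi => by
      obtain ⟨w, U, hU, h1, -⟩ := hvel s hs hsB i hi
      exact ⟨w, U, hU, h1⟩⟩
  -- the curve of the tube, measurable
  set x : ℝ → Space3 := fun s => S.c i0 (projIcc 0 T hT.le s) with hxdef
  have hxc : Continuous x := by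
    have h1 : ContinuousOn (S.c i0) (Icc 0 T) := (hlip i0).continuousOn
    exact h1.comp_continuous (continuous_subtype_val.comp continuous_projIcc)
      fun s => (projIcc 0 T hT.le s).2
  have hxe : ∀ s ∈ Icc 0 T, x s = S.c i0 s := fun s hs => by
    rw [hxdef]; simp only; rw [projIcc_of_mem hT.le hs]
  -- exceptional times
  set F : Set ℝ := B ∪ ⋃ i, {u | i ≠ i0 ∧ u ∈ Icc 0 (min T (min (S.b i) (S.b i0))) ∧
    S.c i u = S.c i0 u} with hF
  have hFc : F.Countable := by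
    refine hB.countable.union (countable_iUnion fun i => ?_)
    by_cases hi : i = i0
    · convert countable_empty
      ext u; simp [hi]
    · exact (hgen i i0 hi).countable.mono fun u hu => hu.2
  have e1 := (Measure.quasiMeasurePreserving_fst (μ := (volume : Measure NodeP))
    (ν := (volume : Measure (Par P)))).ae (ae_time_notMem hFc)
  have e2 := (Measure.quasiMeasurePreserving_fst (μ := (volume : Measure NodeP))
    (ν := (volume : Measure (Par P)))).ae (ae_ne_deriv (S.c i0))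
  have e3 := ae_theta hΦ P hxc.measurable hA
  have e4 := ae_theta_gen hΦ P T
  have h4 : (volume : Measure (NodeP × Par P)) =
      (volume : Measure NodeP).prod (volume : Measure (Par P)) := rfl
  rw [h4] at e3 e4 ⊢
  filter_upwards [e1, e2, e3, e4] with θ a1 a2 a3 a4 h0 hsT hsb hy hV
  obtain ⟨⟨s, v, y⟩, p⟩ := θ
  simp only at a1 a2 a3 a4 h0 hsT hsb hy hV ⊢
  have hsI : s ∈ Icc 0 T := ⟨h0.le, hsT.le⟩
  have hVT : Valid Φ 0 P T v p := valid_mono P hsT.le v p hV
  have hG := a4 hVT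
  rw [hxe s hsI] at a3
  have a5 := a3 hV.1
  have hBs : s ∉ B := fun h => a1 (Or.inl h)
  obtain ⟨w, U, hU, hd0, hdk⟩ := hvel s ⟨h0, hsT⟩ hBs i0 hsb
  have hw : deriv (S.c i0) s = w := (hd0 s (mem_of_mem_nhds hU)).deriv
  rw [hw] at a2 ⊢
  have hXk : Tendsto (fun k => (rootAt (εk k) ((Sk k).c i0 s) w v y s).1) atTop
      (𝓝 (S.c i0 s - s • v)) := by
    have h1 : Tendsto (fun k => εk k • entrancePoint (Disc416.frameMap (v - w) y) (v - w)) atTop
        (𝓝 0) := by
      have := hlim.smul_const (entrancePoint (Disc416.frameMap (v - w) y) (v - w))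
      rwa [zero_smul] at this
    have h2 : Tendsto (fun k => (Sk k).c i0 s) atTop (𝓝 (S.c i0 s)) :=
      (hconv.curves i0).tendsto_at hsI
    have h3 := (h2.add h1).sub_const (s • v)
    rw [add_zero] at h3
    exact h3
  refine ⟨?_, ?_, ?_⟩
  · -- first good hit
    have hcc : ∀ η > 0, ∀ᶠ k in atTop, ∀ i, ∀ u ∈ Icc 0 T,
        dist ((Sk k).c i u) (S.c i u) < η := by
      intro η hη
      rw [eventually_all]
      intro i
      have := Metric.tendstoUniformlyOn_iff.1 (hconv.curves i) η hη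
      filter_upwards [this] with k hk u hu
      rw [dist_comm]
      exact hk u hu
    have hloc : ∃ δ > 0, ∀ᶠ k in atTop, ∀ u, s - δ < u → u ≤ s → u ∈ Icc 0 T →
        (Sk k).c i0 u = (Sk k).c i0 s + (u - s) • w := by
      obtain ⟨δ, hδ, hball⟩ := Metric.mem_nhds_iff.1 hU
      refine ⟨δ, hδ, ?_⟩
      filter_upwards [hdk] with k hk u hu1 hu2 _
      refine affine_of_hasDerivAt (fun u' hu' => hk u' (hball hu')) ?_
      rw [Metric.mem_ball, Real.dist_eq, abs_lt]
      exact ⟨by linarith, by linarith⟩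
    have hne : ∀ (i : κ) (j : Idx P), ∀ u ∈ Icc 0 s, u ≤ S.b i → u ≤ prot P s p j →
        (path Φ 0 P (S.c i0 s - s • v, v) p u j).1 = S.c i u → i = i0 ∧ u = s := by
      intro i j u hu hub _ he
      obtain ⟨z, hz, hz'⟩ := hcov i u ⟨hu.1, hu.2.trans hsT.le⟩ hub
      obtain ⟨hus, hzs⟩ := (a5 z hz).2 j u (he.trans hz')
      refine ⟨?_, hus⟩
      by_contra hi
      apply a1
      refine Or.inr (mem_iUnion.2 ⟨i, hi, ⟨h0.le, ?_⟩, ?_⟩)
      · rw [hus] at hub
        exact le_min hsT.le (le_min hub hsb.le)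
      · rw [← hzs]
        rw [hus] at hz'
        exact hz'
    have hfirst := first_hit_eventually (Φ := Φ) hε hsT.le (c := fun k => (Sk k).c) (c0 := S.c)
      (b := fun k => (Sk k).b) (b0 := S.b) hcc (fun i => (hlip i).continuousOn) hconv.active i0
      hloc a2 hy h0.le hV hne
    have hgood := hε.eventually (eventually_good hΦ hV (hG 0))
    filter_upwards [hfirst, hgood] with k hk1 hk2
    exact ⟨hk2.2.1, hk2.2.2 _, hk1⟩
  · exact conv_child hΦ hε hconv h0.le hsT.le hV (hG 0) hXk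
  · exact generic_child hgen hcov (hG _) fun z hz j u hu => ((a5 z hz).2 j u hu).1

end Crest.Agent.R122.TubeChild491

end
end

-- ▼ part R122/GIVChildConv_491
section

/-!
Row 122, block F (helper491): the interface Prop `ChildConv` of `GIVChild_383`.
-/

set_option autoImplicit false

open MeasureTheory Set Filter
open scoped ENNReal Topology Classical RealInnerProductSpace NNReal
open Crest.AnalysisR.Kinetic

noncomputable section

namespace Crest.Agent.R122.TubeChild491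

open Kin796 Kin796.CTree Disc416 Tree674 TreeEps399 Hid424 Generic491 GIV566 GIVStep383

variable {Φ : Space3 → ℝ} {κ : Type}

/-- convergence of tube families only depends on the curves on `[0, T]`, for large `k` -/
theorem conv_congr {T : ℝ} {Sk Sk' : ℕ → Tubes κ} {S : Tubes κ} (h : TubeConv T Sk S)
    (hb : ∀ k, (Sk' k).b = (Sk k).b)
    (hc : ∀ᶠ k in atTop, ∀ i, EqOn ((Sk' k).c i) ((Sk k).c i) (Icc 0 T)) :
    TubeConv T Sk' S := by
  refine ⟨?_, fun i => ?_, fun i => ?_, ?_⟩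
  · obtain ⟨M, h1, h2⟩ := h.lip
    refine ⟨M, ?_, h2⟩
    filter_upwards [h1, hc] with k a1 a2 i
    intro x hx y hy
    rw [a2 i hx, a2 i hy]
    exact a1 i hx hy
  · refine (h.curves i).congr ?_
    filter_upwards [hc] with k hk
    exact (hk i).symm
  · have := h.active i
    simpa only [hb] using this
  · obtain ⟨B, hB, hvel⟩ := h.vel
    refine ⟨B, hB, fun s hs hsB i hi => ?_⟩
    obtain ⟨v, U, hU, h1, h2⟩ := hvel s hs hsB i hi
    refine ⟨v, U ∩ Ioo 0 T, inter_mem hU (isOpen_Ioo.mem_nhds hs), fun u hu => h1 u hu.1, ?_⟩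
    filter_upwards [h2, hc] with k a1 a2 u hu
    refine (a1 u hu.1).congr_of_eventuallyEq ?_
    filter_upwards [isOpen_Ioo.mem_nhds hu.2] with u' hu'
    exact a2 i (Ioo_subset_Icc_self hu')

/-- the rearrangement of the parameters -/
def asc (P : CTree) (θ : HPar P) : NodeP × Par P := ((θ.1, θ.2.1, θ.2.2.1), θ.2.2.2)

theorem measurePreserving_asc (P : CTree) :
    MeasurePreserving (asc P) (volume : Measure (HPar P))
      ((volume : Measure NodeP).prod (volume : Measure (Par P))) := by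
  have h1 : MeasurePreserving (MeasurableEquiv.prodAssoc (α := Space3) (β := Disc416.Plane)
      (γ := Par P)) (((volume : Measure Space3).prod (volume : Measure Disc416.Plane)).prod
        (volume : Measure (Par P)))
      ((volume : Measure Space3).prod ((volume : Measure Disc416.Plane).prod
        (volume : Measure (Par P)))) :=
    ⟨MeasurableEquiv.measurable _, Measure.prodAssoc_prod⟩
  have h2 : MeasurePreserving (MeasurableEquiv.prodAssoc (α := ℝ) (β := Space3 × Disc416.Plane)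
      (γ := Par P)) (((volume : Measure ℝ).prod ((volume : Measure Space3).prod
        (volume : Measure Disc416.Plane))).prod (volume : Measure (Par P)))
      ((volume : Measure ℝ).prod (((volume : Measure Space3).prod
        (volume : Measure Disc416.Plane)).prod (volume : Measure (Par P)))) :=
    ⟨MeasurableEquiv.measurable _, Measure.prodAssoc_prod⟩
  have h3 : MeasurePreserving (Prod.map (id : ℝ → ℝ)
      (MeasurableEquiv.prodAssoc (α := Space3) (β := Disc416.Plane) (γ := Par P)).symm)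
      ((volume : Measure ℝ).prod ((volume : Measure Space3).prod
        ((volume : Measure Disc416.Plane).prod (volume : Measure (Par P)))))
      ((volume : Measure ℝ).prod (((volume : Measure Space3).prod
        (volume : Measure Disc416.Plane)).prod (volume : Measure (Par P)))) :=
    (MeasurePreserving.id _).prod h1.symm
  exact h2.symm.comp h3

/-- **Children of convergent generic families are convergent and generic** (interface Prop of
`GIVChild_383`). -/
theorem childConv (hΦ : AdmissiblePotential Φ) (T : ℝ) : ChildConv Φ T := by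
  intro ι _ Sk S εk hε0 hlim hconv hgen i P
  have hε : Tendsto εk atTop TreeEps399.L :=
    tendsto_nhdsWithin_iff.2 ⟨hlim, Eventually.of_forall hε0⟩
  have e1 := child hΦ hε0 hlim hconv hgen i P
  have e2 := ae_theta_gen hΦ P T
  have e3 := (measurePreserving_asc P).quasiMeasurePreserving.ae (e1.and e2)
  filter_upwards [e3] with θ hθ hs hb hy hV
  obtain ⟨h1, h2⟩ := hθ
  obtain ⟨-, hc, hg⟩ := h1 hs.1 hs.2 hb hy hV
  have hVT : Valid Φ 0 P T θ.2.1 θ.2.2.2 := valid_mono P hs.2.le _ _ hV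
  have hG := h2 hVT
  refine ⟨fun k => childT Φ (εk k) (Sk k) S i θ, Eventually.of_forall fun _ => rfl, ?_, hg⟩
  refine conv_congr hc (fun _ => rfl) ?_
  have hgood := hε.eventually (eventually_good hΦ hVT (hG 0))
  filter_upwards [hgood] with k hk
  rintro (i' | j) u hu
  · rfl
  · exact curve_eq_path hΦ hk.1 hk.2.1 (hk.2.2 _) hu j

end Crest.Agent.R122.TubeChild491

end
end

-- ▼ part R122/FirstAt_491
section

/-!
Row 122, block F (helper491): for almost every parameter of a hit, the hit is a first good hit for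
large `k` (input of helper818 for (I2)).
-/

set_option autoImplicit false

open MeasureTheory Set Filter
open scoped ENNReal Topology Classical RealInnerProductSpace NNReal
open Crest.AnalysisR.Kinetic

noncomputable section

namespace Crest.Agent.R122.TubeChild491

open Kin796 Kin796.CTree Disc416 Tree674 TreeEps399 Hid424 Generic491 GIV566 GIVStep383 IStep317

variable {Φ : Space3 → ℝ} {κ : Type}

/-- the root line is at distance `ε` of the tube at the time of the hit -/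
theorem dist_rootL {ε : ℝ} (hε : 0 ≤ ε) (x : Space3) {V : Space3} (s : ℝ) {v : Space3}
    (hv : v ≠ V) {y : Disc416.Plane} (hy : ‖y‖ < 1) :
    dist x (onLine (rootL ε x V s v y) s).1 = ε := by
  have hg : v - V ≠ 0 := sub_ne_zero.2 hv
  have h1 : (onLine (rootL ε x V s v y) s).1 =
      x + ε • entrancePoint (Disc416.frameMap (v - V) y) (v - V) := by
    show x + ε • entrancePoint (Disc416.frameMap (v - V) y) (v - V) - s • v + s • v = _
    rw [sub_add_cancel]
  rw [h1, dist_eq_norm]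
  have h2 : x - (x + ε • entrancePoint (Disc416.frameMap (v - V) y) (v - V)) =
      -(ε • entrancePoint (Disc416.frameMap (v - V) y) (v - V)) := by abel
  have h3 : Disc416.frameMap (v - V) y ∈ impactDisc (v - V) :=
    ⟨inner_frameMap_self _ _, by rwa [norm_frameMap hg]⟩
  rw [h2, norm_neg, norm_smul, Real.norm_of_nonneg hε, Scat818.norm_entrance h3 hg, mul_one]

/-- **The hit is a first good hit for large `k`.** -/
theorem firstAt_eventually [Fintype κ] (hΦ : AdmissiblePotential Φ) {T : ℝ} {Sk : ℕ → Tubes κ}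
    {S : Tubes κ} {εk : ℕ → ℝ} (hε0 : ∀ k, 0 < εk k) (hlim : Tendsto εk atTop (𝓝 0))
    (hconv : TubeConv T Sk S) (hgen : Generic T S) (i : κ) (P : CTree) :
    ∀ᵐ θ : HPar P, θ.1 ∈ Ioo 0 T → θ.1 < S.b i → ‖θ.2.2.1‖ < 1 →
      Valid Φ 0 P θ.1 θ.2.1 θ.2.2.2 →
      ∀ᶠ k in atTop, FirstAt Φ (εk k) P (Sk k)
        (rootL (εk k) ((Sk k).c i θ.1) (deriv (S.c i) θ.1) θ.1 θ.2.1 θ.2.2.1, θ.2.2.2) θ.1 := by
  have e1 := child hΦ hε0 hlim hconv hgen i P
  have e2 := (Measure.quasiMeasurePreserving_fst (μ := (volume : Measure NodeP))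
    (ν := (volume : Measure (Par P)))).ae (ae_ne_deriv (S.c i))
  have e3 := (measurePreserving_asc P).quasiMeasurePreserving.ae (e1.and e2)
  filter_upwards [e3] with θ hθ hs hb hy hV
  obtain ⟨h1, hne⟩ := hθ
  obtain ⟨h2, -, -⟩ := h1 hs.1 hs.2 hb hy hV
  have hbk : ∀ᶠ k in atTop, θ.1 < (Sk k).b i := (hconv.active i).eventually (lt_mem_nhds hb)
  filter_upwards [h2, hbk] with k hk hbk
  refine ⟨hk.1, hk.2.1, ⟨i, hbk.le, ?_⟩, fun u hu m hm i' hi' => ?_⟩
  · exact (dist_rootL (hε0 k).le _ _ hne hy).le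
  · rw [dist_comm]
    exact hk.2.2 u hu m hm i' hi'

end Crest.Agent.R122.TubeChild491

end
end

-- ▼ part R122/FluxDCT_491
section

/-!
Row 122, block F (helper491): dominated convergence for the weights of the hitting trees
(second half of (I2); the first half, the change of variables, is due to helper818).

* `hL` : the root line of a hit at radius `ε`;
* `wE`, `w0` : weights of the hits in the sets `A`, at radius `ε` and in the limit;
* `wE_le`, `w0_le`, `domD` : domination, uniform in `ε`, `k` and the translation;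
* `tendsto_wE` : the limit.
-/

set_option autoImplicit false
set_option maxHeartbeats 400000

open MeasureTheory Set Filter
open scoped ENNReal Topology Classical RealInnerProductSpace NNReal
open Crest.AnalysisR.Kinetic

noncomputable section

namespace Crest.Agent.R122.FluxDCT491

open Kin796 Kin796.CTree Disc416 Tree674 TreeEps399 Hid424 Generic491 GIV566 GIVStep383 IStep317
  TubeChild491 Tube818 TreeDom974 TreeLim974
open Crest.Agent.R122.Quench815 (absd absd_comm absd_self le_add_absd le_add_absd' absd_le_add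
  absd_le_iff absd_triangle absd_mul_le measurable_absd absd_lintegral_le)

variable {Φ : Space3 → ℝ} {ι : Type} {P : CTree}

/-! ### Definitions -/

/-- the root line of a hit at radius `ε` -/
def hL (ε : ℝ) (Sk S : Tubes ι) (i : ι) (θ : HPar P) : PhasePoint :=
  rootL ε (Sk.c i θ.1) (deriv (S.c i) θ.1) θ.1 θ.2.1 θ.2.2.1

/-- weight of a hit -/
def wE (Φ : Space3 → ℝ) (k : PhasePoint → ℝ≥0∞) (ε : ℝ) (Sk S : Tubes ι) (i : ι)
    (A : Set (HPar P)) (θ : HPar P) (x : Space3) : ℝ≥0∞ :=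
  A.indicator (fun θ => ENNReal.ofReal ‖θ.2.1 - deriv (S.c i) θ.1‖ * (wt Φ P θ.2.1 θ.2.2.2 *
    ∏ j, k ((lines Φ ε P (hL ε Sk S i θ) θ.2.2.2 j).1 + x,
      (lines Φ ε P (hL ε Sk S i θ) θ.2.2.2 j).2))) θ

/-- box of the parameters -/
def Bx (T : ℝ) (P : CTree) : Set (HPar P) := {θ | θ.1 ∈ Icc 0 T ∧ ‖θ.2.2.1‖ < 1}

theorem measurableSet_Bx (T : ℝ) (P : CTree) : MeasurableSet (Bx T P) :=
  (measurable_fst measurableSet_Icc).inter
    (measurableSet_lt measurable_snd.snd.fst.norm measurable_const)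


theorem hL_zero (Sk S : Tubes ι) (i : ι) (θ : HPar P) :
    hL 0 Sk S i θ = (Sk.c i θ.1 - θ.1 • θ.2.1, θ.2.1) := rootL_zero _ _ _ _ _

/-- the limiting weight of helper383 -/
theorem wgt_eq (f₀ : PhasePoint → ℝ) (tw t : ℝ) (S : Tubes ι) (i : ι) (θ : HPar P) (x : Space3) :
    wgt Φ f₀ tw t S i θ x =
      wE Φ (fun z => ENNReal.ofReal (f₀ z)) 0 S S i {θ | HGood Φ tw t S i θ} θ x := by
  unfold wgt wE
  by_cases h : HGood Φ tw t S i θ
  · rw [if_pos h, indicator_of_mem (show θ ∈ {θ | HGood Φ tw t S i θ} from h)]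
    congr 2
    refine Finset.prod_congr rfl fun j _ => ?_
    congr 2
    have e : ((S.c i θ.1 + x - θ.1 • θ.2.1, θ.2.1) : PhasePoint) =
        ((hL 0 S S i θ).1 + x, (hL 0 S S i θ).2) := by
      rw [hL_zero]
      exact Prod.ext (by simp only; abel) rfl
    rw [e, lines_add]
  · rw [if_neg h, indicator_of_notMem (show θ ∉ {θ | HGood Φ tw t S i θ} from h)]

/-! ### Domination -/

/-- dominating function -/
def domD (C b T : ℝ) (P : CTree) (θ : HPar P) : ℝ≥0∞ :=
  (Bx T P).indicator (fun θ => domG C b T P θ.2.1 θ.2.2.2) θ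

theorem measurable_domD {C : ℝ} (hC : 0 ≤ C) (b T : ℝ) (P : CTree) :
    Measurable (domD C b T P) :=
  ((measurable_domG hC b T P).comp
    (measurable_snd.fst.prodMk measurable_snd.snd.snd)).indicator (measurableSet_Bx T P)

theorem lintegral_domD_ne_top {C b : ℝ} (hC : 0 ≤ C) (hb : 0 < b) (T : ℝ) (P : CTree) :
    ∫⁻ θ : HPar P, domD C b T P θ ≠ ∞ := by
  have hm := measurable_domG hC b T P
  rw [lintegral_hpar (measurable_domD hC b T P)]
  have e : ∀ (s : ℝ) (v : Space3) (y : Disc416.Plane) (p : Par P), domD C b T P (s, v, y, p) =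
      (Icc 0 T).indicator (1 : ℝ → ℝ≥0∞) s * ((Metric.ball (0 : Disc416.Plane) 1).indicator
        (1 : Disc416.Plane → ℝ≥0∞) y * domG C b T P v p) := by
    intro s v y p
    unfold domD
    by_cases hs : s ∈ Icc 0 T
    · by_cases hy : ‖y‖ < 1
      · rw [indicator_of_mem (show ((s, v, y, p) : HPar P) ∈ Bx T P from ⟨hs, hy⟩),
          indicator_of_mem hs, indicator_of_mem (by simpa using hy)]
        simp
      · rw [indicator_of_notMem (show ((s, v, y, p) : HPar P) ∉ Bx T P from fun h => hy h.2),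
          indicator_of_notMem (show y ∉ Metric.ball (0 : Disc416.Plane) 1 by simpa using hy)]
        simp
    · rw [indicator_of_notMem (show ((s, v, y, p) : HPar P) ∉ Bx T P from fun h => hs h.1),
        indicator_of_notMem hs]
      simp
  simp only [e]
  have m1 : ∀ v : Space3, Measurable fun p : Par P => domG C b T P v p := fun v =>
    hm.comp (measurable_const.prodMk measurable_id)
  have m2 : Measurable fun v : Space3 => ∫⁻ p : Par P, domG C b T P v p :=
    hm.lintegral_prod_right'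
  have e1 : ∀ (s : ℝ) (v : Space3) (y : Disc416.Plane), ∫⁻ p : Par P,
      (Icc 0 T).indicator (1 : ℝ → ℝ≥0∞) s * ((Metric.ball (0 : Disc416.Plane) 1).indicator
        (1 : Disc416.Plane → ℝ≥0∞) y * domG C b T P v p) =
      (Icc 0 T).indicator (1 : ℝ → ℝ≥0∞) s * ((Metric.ball (0 : Disc416.Plane) 1).indicator
        (1 : Disc416.Plane → ℝ≥0∞) y * ∫⁻ p : Par P, domG C b T P v p) := by
    intro s v y
    rw [lintegral_const_mul _ ((m1 v).const_mul _), lintegral_const_mul _ (m1 v)]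
  simp only [e1]
  have m3 : Measurable ((Metric.ball (0 : Disc416.Plane) 1).indicator
      (1 : Disc416.Plane → ℝ≥0∞)) := measurable_one.indicator measurableSet_ball
  have e2 : ∀ (s : ℝ) (v : Space3), ∫⁻ y : Disc416.Plane,
      (Icc 0 T).indicator (1 : ℝ → ℝ≥0∞) s * ((Metric.ball (0 : Disc416.Plane) 1).indicator
        (1 : Disc416.Plane → ℝ≥0∞) y * ∫⁻ p : Par P, domG C b T P v p) =
      (Icc 0 T).indicator (1 : ℝ → ℝ≥0∞) s * (volume (Metric.ball (0 : Disc416.Plane) 1) *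
        ∫⁻ p : Par P, domG C b T P v p) := by
    intro s v
    rw [lintegral_const_mul _ (m3.mul_const _), lintegral_mul_const _ m3,
      lintegral_indicator_one measurableSet_ball]
  simp only [e2]
  have e3 : ∀ (s : ℝ), ∫⁻ v : Space3,
      (Icc 0 T).indicator (1 : ℝ → ℝ≥0∞) s * (volume (Metric.ball (0 : Disc416.Plane) 1) *
        ∫⁻ p : Par P, domG C b T P v p) =
      (Icc 0 T).indicator (1 : ℝ → ℝ≥0∞) s * (volume (Metric.ball (0 : Disc416.Plane) 1) *
        ∫⁻ v : Space3, ∫⁻ p : Par P, domG C b T P v p) := by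
    intro s
    rw [lintegral_const_mul _ (m2.const_mul _), lintegral_const_mul _ m2]
  simp only [e3]
  rw [lintegral_mul_const _ (measurable_one.indicator measurableSet_Icc),
    lintegral_indicator_one measurableSet_Icc]
  refine ENNReal.mul_ne_top (by simp) (ENNReal.mul_ne_top measure_ball_lt_top.ne ?_)
  have h1 := lintegral_domG_ne_top hC hb T P
  rwa [show (∫⁻ z : Space3 × Par P, domG C b T P z.1 z.2) =
    ∫⁻ v : Space3, ∫⁻ p : Par P, domG C b T P v p from by
      rw [Measure.volume_eq_prod, lintegral_prod _ hm.aemeasurable]] at h1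

/-- one more factor `‖v - V‖` is absorbed by the Gaussian -/
theorem norm_mul_domG_le {C b b' M : ℝ} (hC : 0 ≤ C) (hM : 0 ≤ M) (hb : b' < b) (T : ℝ)
    (P : CTree) :
    ∃ C' : ℝ, 0 ≤ C' ∧ ∀ (v V : Space3) (p : Par P), ‖V‖ ≤ M →
      ENNReal.ofReal ‖v - V‖ * domG C b T P v p ≤ domG C' b' T P v p := by
  set δ := b - b' with hδdef
  have hδ : 0 < δ := sub_pos.2 hb
  refine ⟨(1 + M) * (1 / δ * Real.exp δ) * C, by positivity, fun v V p hV => ?_⟩
  set E := ‖v‖ ^ 2 + nodeE P p with hE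
  have hn := nodeE_nonneg P p
  have hE0 : 0 ≤ E := by positivity
  have h1 : ‖v - V‖ ≤ (1 + M) * (1 + E) := by
    have e1 : ‖v - V‖ ≤ ‖v‖ + ‖V‖ := norm_sub_le v V
    have e2 : ‖v‖ ≤ 1 + ‖v‖ ^ 2 := by nlinarith [sq_nonneg (‖v‖ - 1), sq_nonneg (‖v‖ - 1 / 2)]
    have e3 : ‖v‖ ^ 2 ≤ E := by rw [hE]; linarith
    nlinarith [mul_nonneg hM hE0]
  have h2 : 1 + E ≤ (1 / δ * Real.exp δ) * Real.exp (δ * E) := by
    have := one_add_pow_le hδ hE0 1
    simpa using this
  unfold domG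
  rw [← hE]
  calc ENNReal.ofReal ‖v - V‖ * (boxI T P p * ENNReal.ofReal (C * Real.exp (-b * E)))
      = boxI T P p * (ENNReal.ofReal ‖v - V‖ * ENNReal.ofReal (C * Real.exp (-b * E))) := by ring
    _ = boxI T P p * ENNReal.ofReal (‖v - V‖ * (C * Real.exp (-b * E))) := by
        rw [ENNReal.ofReal_mul (norm_nonneg _)]
    _ ≤ boxI T P p * ENNReal.ofReal ((1 + M) * (1 / δ * Real.exp δ) * C * Real.exp (-b' * E)) := by
        refine mul_le_mul' le_rfl (ENNReal.ofReal_le_ofReal ?_)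
        have h4 : Real.exp (-b' * E) = Real.exp (δ * E) * Real.exp (-b * E) := by
          rw [← Real.exp_add]; congr 1; rw [hδdef]; ring
        rw [h4]
        have h5 : ‖v - V‖ ≤ (1 + M) * ((1 / δ * Real.exp δ) * Real.exp (δ * E)) :=
          h1.trans (mul_le_mul_of_nonneg_left h2 (by positivity))
        calc ‖v - V‖ * (C * Real.exp (-b * E))
            ≤ ((1 + M) * ((1 / δ * Real.exp δ) * Real.exp (δ * E))) * (C * Real.exp (-b * E)) :=
              mul_le_mul_of_nonneg_right h5 (by positivity)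
          _ = _ := by ring

/-- **Domination of the weights**, uniform in `ε`, in the families and in the translation. -/
theorem wE_le_aux (hΦ : AdmissiblePotential Φ) {C b b' M : ℝ} (hC : 0 ≤ C) (hM : 0 ≤ M)
    (hb : b' < b) {k : PhasePoint → ℝ≥0∞}
    (hk : ∀ z, k z ≤ ENNReal.ofReal (C * Real.exp (-b * ‖z.2‖ ^ 2))) (T : ℝ) (P : CTree) :
    ∃ C' : ℝ, 0 ≤ C' ∧ ∀ (ε : ℝ) (ι : Type) (Sk S : Tubes ι) (i : ι) (A : Set (HPar P))
      (θ : HPar P) (x : Space3), 0 ≤ ε →
      (θ ∈ A → θ ∈ Bx T P ∧ Valid Φ ε P θ.1 θ.2.1 θ.2.2.2 ∧ ‖deriv (S.c i) θ.1‖ ≤ M) →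
      wE Φ k ε Sk S i A θ x ≤ domD C' b' T P θ := by
  set b1 := (b + b') / 2 with hb1
  have hb2 : b1 < b := by rw [hb1]; linarith
  have hb3 : b' < b1 := by rw [hb1]; linarith
  obtain ⟨C1, hC1, h1⟩ := le_domG hΦ hC hb2 hk P
  obtain ⟨C2, hC2, h2⟩ := norm_mul_domG_le hC1 hM hb3 T P
  refine ⟨C2, hC2, fun ε ι Sk S i A θ x hε hA => ?_⟩
  unfold wE
  by_cases h : θ ∈ A
  swap
  · rw [indicator_of_notMem h]; exact bot_le
  obtain ⟨hB, hV, hM'⟩ := hA h
  rw [indicator_of_mem h]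
  unfold domD
  rw [indicator_of_mem hB]
  refine le_trans ?_ (h2 θ.2.1 (deriv (S.c i) θ.1) θ.2.2.2 hM')
  refine mul_le_mul' le_rfl ?_
  have h3 := h1 ε T θ.1 ((hL ε Sk S i θ).1 + x, (hL ε Sk S i θ).2) θ.2.2.2 hε hB.1.2 hV
  refine le_trans (le_of_eq ?_) h3
  congr 1
  refine Finset.prod_congr rfl fun j _ => ?_
  rw [lines_add]

/-! ### Measurability -/

theorem measurable_rootL (ε : ℝ) :
    Measurable fun q : (Space3 × Space3) × (ℝ × Space3 × Disc416.Plane) =>
      rootL ε q.1.1 q.1.2 q.2.1 q.2.2.1 q.2.2.2 := by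
  have hg : Measurable fun q : (Space3 × Space3) × (ℝ × Space3 × Disc416.Plane) =>
      q.2.2.1 - q.1.2 := by fun_prop
  have h1 : Measurable fun q : (Space3 × Space3) × (ℝ × Space3 × Disc416.Plane) =>
      Disc416.frameMap (q.2.2.1 - q.1.2) q.2.2.2 :=
    measurable_frameMap.comp (hg.prodMk (by fun_prop))
  have h2 : Measurable fun q : (Space3 × Space3) × (ℝ × Space3 × Disc416.Plane) =>
      entrancePoint (Disc416.frameMap (q.2.2.1 - q.1.2) q.2.2.2) (q.2.2.1 - q.1.2) :=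
    measurable_entrancePoint.comp (h1.prodMk hg)
  unfold rootL
  refine Measurable.prodMk ?_ (by fun_prop)
  exact ((by fun_prop : Measurable fun q : (Space3 × Space3) × (ℝ × Space3 × Disc416.Plane) =>
    q.1.1).add (h2.const_smul ε)).sub ((by fun_prop :
      Measurable fun q : (Space3 × Space3) × (ℝ × Space3 × Disc416.Plane) => q.2.1).smul
      (by fun_prop : Measurable fun q : (Space3 × Space3) × (ℝ × Space3 × Disc416.Plane) =>
        q.2.2.1))

/-- a curve continuous on `[0, T]` is the restriction of a measurable one -/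
theorem exists_meas_curve {T : ℝ} (hT : 0 ≤ T) {c : ℝ → Space3} (hc : ContinuousOn c (Icc 0 T)) :
    ∃ x : ℝ → Space3, Continuous x ∧ ∀ s ∈ Icc 0 T, x s = c s := by
  refine ⟨fun s => c (projIcc 0 T hT s), ?_, fun s hs => ?_⟩
  · exact hc.comp_continuous (continuous_subtype_val.comp continuous_projIcc)
      fun s => (projIcc 0 T hT s).2
  · simp only
    rw [projIcc_of_mem hT hs]

/-- measurable version of `hL` -/
theorem exists_hL (ε : ℝ) {T : ℝ} (hT : 0 ≤ T) {Sk : Tubes ι} (S : Tubes ι) (i : ι)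
    (hc : ContinuousOn (Sk.c i) (Icc 0 T)) (P : CTree) :
    ∃ h : HPar P → PhasePoint, Measurable h ∧ (∀ θ, (h θ).2 = θ.2.1) ∧
      ∀ θ : HPar P, θ.1 ∈ Icc 0 T → h θ = hL ε Sk S i θ := by
  obtain ⟨x, hx, hxe⟩ := exists_meas_curve hT hc
  refine ⟨fun θ => rootL ε (x θ.1) (deriv (S.c i) θ.1) θ.1 θ.2.1 θ.2.2.1, ?_, fun θ => rfl,
    fun θ hθ => ?_⟩
  · have h1 : Measurable fun θ : HPar P =>
        (((x θ.1, deriv (S.c i) θ.1), (θ.1, θ.2.1, θ.2.2.1)) :
          (Space3 × Space3) × (ℝ × Space3 × Disc416.Plane)) :=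
      ((hx.measurable.comp measurable_fst).prodMk
        ((measurable_deriv (S.c i)).comp measurable_fst)).prodMk
        (measurable_fst.prodMk (measurable_snd.fst.prodMk measurable_snd.snd.fst))
    exact (measurable_rootL ε).comp h1
  · simp only [hL]
    rw [hxe θ.1 hθ]

theorem measurable_wE (hΦ : AdmissiblePotential Φ) {k : PhasePoint → ℝ≥0∞} (hk : Measurable k)
    (ε : ℝ) {T : ℝ} (hT : 0 ≤ T) {Sk S : Tubes ι} {i : ι} (hc : ContinuousOn (Sk.c i) (Icc 0 T))
    {A : Set (HPar P)} (hA : MeasurableSet A)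
    (hAd : ∀ θ ∈ A, θ.1 ∈ Icc 0 T ∧ Adm Φ P θ.2.1 θ.2.2.2) :
    Measurable fun q : Space3 × HPar P => wE Φ k ε Sk S i A q.2 q.1 := by
  obtain ⟨h, hm, h2, he⟩ := exists_hL ε hT S i hc P
  have hP : Measurable fun q : Space3 × HPar P => q.2.2.2.2 := measurable_snd.snd.snd.snd
  have hv : Measurable fun q : Space3 × HPar P => q.2.2.1 := measurable_snd.snd.fst
  have hl : Measurable fun q : Space3 × HPar P => linesM Φ ε P (h q.2) q.2.2.2.2 :=
    (measurable_linesM hΦ ε P).comp ((hm.comp measurable_snd).prodMk hP)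
  have hfun : Measurable fun q : Space3 × HPar P =>
      ENNReal.ofReal ‖q.2.2.1 - deriv (S.c i) q.2.1‖ * (wtM Φ P q.2.2.1 q.2.2.2.2 *
        ∏ j, k ((linesM Φ ε P (h q.2) q.2.2.2.2 j).1 + q.1,
          (linesM Φ ε P (h q.2) q.2.2.2.2 j).2)) := by
    refine Measurable.mul ?_ (Measurable.mul ?_ ?_)
    · exact (hv.sub ((measurable_deriv (S.c i)).comp measurable_snd.fst)).norm.ennreal_ofReal
    · exact (measurable_wtM hΦ P).comp (hv.prodMk hP)
    · refine Finset.measurable_prod _ fun j _ => hk.comp ?_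
      have hj := (measurable_pi_apply j).comp hl
      exact (hj.fst.add measurable_fst).prodMk hj.snd
  have e : (fun q : Space3 × HPar P => wE Φ k ε Sk S i A q.2 q.1) =
      (Prod.snd ⁻¹' A).indicator (fun q : Space3 × HPar P =>
      ENNReal.ofReal ‖q.2.2.1 - deriv (S.c i) q.2.1‖ * (wtM Φ P q.2.2.1 q.2.2.2.2 *
        ∏ j, k ((linesM Φ ε P (h q.2) q.2.2.2.2 j).1 + q.1,
          (linesM Φ ε P (h q.2) q.2.2.2.2 j).2))) := by
    funext q
    unfold wE
    by_cases hq : q.2 ∈ A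
    · rw [indicator_of_mem hq, indicator_of_mem (show q ∈ Prod.snd ⁻¹' A from hq)]
      obtain ⟨h3, h4⟩ := hAd _ hq
      rw [wtM_of_adm h4, linesM_of_adm ε (by rw [h2]; exact h4), he _ h3]
    · rw [indicator_of_notMem hq, indicator_of_notMem (show q ∉ Prod.snd ⁻¹' A from hq)]
  rw [e]
  exact hfun.indicator (measurable_snd hA)

/-! ### Pointwise limit -/

theorem tendsto_kprod {εk : ℕ → ℝ} (hε : Tendsto εk atTop TreeEps399.L)
    {k : PhasePoint → ℝ≥0∞} (hk : Continuous k) (hk1 : ∀ z, k z ≠ ∞) (P : CTree) (v : Space3)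
    (p : Par P) {X : ℕ → Space3} {X0 : Space3} (hX : Tendsto X atTop (𝓝 X0)) (x : Space3) :
    Tendsto (fun n => ∏ j, k ((lines Φ (εk n) P (X n, v) p j).1 + x,
      (lines Φ (εk n) P (X n, v) p j).2)) atTop
      (𝓝 (∏ j, k ((lines Φ 0 P (X0, v) p j).1 + x, (lines Φ 0 P (X0, v) p j).2))) := by
  have h1 : ∀ j : Idx P, Tendsto (fun n => k ((lines Φ (εk n) P (X n, v) p j).1 + x,
      (lines Φ (εk n) P (X n, v) p j).2)) atTop
      (𝓝 (k ((lines Φ 0 P (X0, v) p j).1 + x, (lines Φ 0 P (X0, v) p j).2))) := by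
    intro j
    obtain ⟨h2, h3⟩ := lines_close (Φ := Φ) P v p (fun _ => 0) 0 tendsto_const_nhds j
    have h4 : Tendsto (fun n => lines Φ (εk n) P (X n, v) p j) atTop
        (𝓝 (lines Φ 0 P (X0, v) p j)) := by
      have e1 : (fun n => lines Φ (εk n) P (X n, v) p j) = fun n =>
          ((lines Φ (εk n) P (0, v) p j).1 + X n, (lines Φ 0 P (0, v) p j).2) := by
        funext n
        rw [Hid424.lines_shift (εk n) P (X n) v p j]
        exact Prod.ext rfl (h3 _)
      rw [e1, Hid424.lines_shift 0 P X0 v p j]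
      exact ((h2.comp hε).add hX).prodMk_nhds tendsto_const_nhds
    have h5 : Tendsto (fun n => (((lines Φ (εk n) P (X n, v) p j).1 + x,
        (lines Φ (εk n) P (X n, v) p j).2) : PhasePoint)) atTop
        (𝓝 ((lines Φ 0 P (X0, v) p j).1 + x, (lines Φ 0 P (X0, v) p j).2)) := by
      have hc : Continuous fun z : PhasePoint => ((z.1 + x, z.2) : PhasePoint) := by fun_prop
      exact (hc.tendsto _).comp h4
    exact (hk.tendsto _).comp h5
  have h5 : ∀ s : Finset (Idx P), Tendsto (fun n => ∏ j ∈ s,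
      k ((lines Φ (εk n) P (X n, v) p j).1 + x, (lines Φ (εk n) P (X n, v) p j).2)) atTop
      (𝓝 (∏ j ∈ s, k ((lines Φ 0 P (X0, v) p j).1 + x, (lines Φ 0 P (X0, v) p j).2))) := by
    intro s
    induction s using Finset.induction_on with
    | empty => simp
    | insert i s hi ih =>
      simp only [Finset.prod_insert hi]
      exact ENNReal.Tendsto.mul (h1 i) (Or.inr (ENNReal.prod_ne_top fun j _ => hk1 _)) ih
        (Or.inr (hk1 _))
  exact h5 Finset.univ

/-- convergence of the root lines of the hits -/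
theorem tendsto_hL {T : ℝ} {εk : ℕ → ℝ} (hlim : Tendsto εk atTop (𝓝 0)) {Sk : ℕ → Tubes ι}
    {S : Tubes ι} (hconv : TubeConv T Sk S) (i : ι) {θ : HPar P} (hθ : θ.1 ∈ Icc 0 T) :
    Tendsto (fun n => (hL (εk n) (Sk n) S i θ).1) atTop (𝓝 (hL 0 S S i θ).1) := by
  have h1 : Tendsto (fun n => εk n • entrancePoint
      (Disc416.frameMap (θ.2.1 - deriv (S.c i) θ.1) θ.2.2.1) (θ.2.1 - deriv (S.c i) θ.1)) atTop
      (𝓝 0) := by
    have := hlim.smul_const (entrancePoint
      (Disc416.frameMap (θ.2.1 - deriv (S.c i) θ.1) θ.2.2.1) (θ.2.1 - deriv (S.c i) θ.1))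
    rwa [zero_smul] at this
  have h2 : Tendsto (fun n => (Sk n).c i θ.1) atTop (𝓝 (S.c i θ.1)) :=
    (hconv.curves i).tendsto_at hθ
  have h3 := (h2.add h1).sub_const (θ.1 • θ.2.1)
  rw [add_zero] at h3
  rw [hL_zero]
  exact h3

/-- **Pointwise limit of the weights.** -/
theorem tendsto_wE_pt {T : ℝ} {εk : ℕ → ℝ} (hε : Tendsto εk atTop TreeEps399.L)
    {k : PhasePoint → ℝ≥0∞} (hk : Continuous k) (hk1 : ∀ z, k z ≠ ∞) {Sk : ℕ → Tubes ι}
    {S : Tubes ι} (hconv : TubeConv T Sk S) (i : ι) {A : ℕ → Set (HPar P)} {A0 : Set (HPar P)}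
    {θ : HPar P} (hθ : θ ∈ A0 → θ.1 ∈ Icc 0 T) (h1 : θ ∈ A0 → ∀ᶠ n in atTop, θ ∈ A n)
    (h2 : θ ∉ A0 → ∀ᶠ n in atTop, θ ∉ A n) (x : Space3) :
    Tendsto (fun n => wE Φ k (εk n) (Sk n) S i (A n) θ x) atTop
      (𝓝 (wE Φ k 0 S S i A0 θ x)) := by
  by_cases h : θ ∈ A0
  · have h3 := tendsto_kprod (Φ := Φ) hε hk hk1 P θ.2.1 θ.2.2.2
      (tendsto_hL (hε.mono_right nhdsWithin_le_nhds) hconv i (hθ h)) x
    have h4 := ENNReal.Tendsto.const_mul (a := ENNReal.ofReal ‖θ.2.1 - deriv (S.c i) θ.1‖ *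
      wt Φ P θ.2.1 θ.2.2.2) h3 (Or.inr (ENNReal.mul_ne_top ENNReal.ofReal_ne_top
        (wt_ne_top P _ _)))
    have e0 : wE Φ k 0 S S i A0 θ x = ENNReal.ofReal ‖θ.2.1 - deriv (S.c i) θ.1‖ *
        wt Φ P θ.2.1 θ.2.2.2 * ∏ j, k ((lines Φ 0 P ((hL 0 S S i θ).1, θ.2.1) θ.2.2.2 j).1 + x,
          (lines Φ 0 P ((hL 0 S S i θ).1, θ.2.1) θ.2.2.2 j).2) := by
      unfold wE
      rw [indicator_of_mem h, mul_assoc]
      rfl
    rw [e0]
    refine h4.congr' ?_
    filter_upwards [h1 h] with n hn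
    unfold wE
    rw [indicator_of_mem hn, mul_assoc]
    rfl
  · have e0 : wE Φ k 0 S S i A0 θ x = 0 := indicator_of_notMem h _
    rw [e0]
    refine tendsto_const_nhds.congr' ?_
    filter_upwards [h2 h] with n hn
    exact (indicator_of_notMem hn _).symm

/-! ### Dominated convergence -/

/-- **Dominated convergence for the weights of the hits**, integrated in the translation against a
finite measure. -/
theorem tendsto_wE (hΦ : AdmissiblePotential Φ) {T : ℝ} (hT : 0 ≤ T) {εk : ℕ → ℝ}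
    (hε0 : ∀ n, 0 < εk n) (hlim : Tendsto εk atTop (𝓝 0))
    {C b : ℝ} (hC : 0 ≤ C) (hb : 0 < b) {k : PhasePoint → ℝ≥0∞} (hkc : Continuous k)
    (hk : ∀ z, k z ≤ ENNReal.ofReal (C * Real.exp (-b * ‖z.2‖ ^ 2))) {Sk : ℕ → Tubes ι}
    {S : Tubes ι} (hconv : TubeConv T Sk S) (i : ι) {A : ℕ → Set (HPar P)} {A0 : Set (HPar P)}
    (hAm : ∀ᶠ n in atTop, MeasurableSet (A n)) (hA0m : MeasurableSet A0)
    (hAV : ∀ᶠ n in atTop, ∀ θ ∈ A n, θ ∈ Bx T P ∧ Valid Φ (εk n) P θ.1 θ.2.1 θ.2.2.2)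
    (hA0V : ∀ θ ∈ A0, θ ∈ Bx T P ∧ Valid Φ 0 P θ.1 θ.2.1 θ.2.2.2)
    (h1 : ∀ᵐ θ : HPar P, θ ∈ A0 → ∀ᶠ n in atTop, θ ∈ A n)
    (h2 : ∀ᵐ θ : HPar P, θ ∉ A0 → ∀ᶠ n in atTop, θ ∉ A n)
    (μ : Measure Space3) [IsFiniteMeasure μ] :
    Tendsto (fun n => ∫⁻ x, (∫⁻ θ : HPar P, absd (wE Φ k (εk n) (Sk n) S i (A n) θ x)
      (wE Φ k 0 S S i A0 θ x)) ∂μ) atTop (𝓝 0) := by
  have hε : Tendsto εk atTop TreeEps399.L :=
    tendsto_nhdsWithin_iff.2 ⟨hlim, Eventually.of_forall hε0⟩
  obtain ⟨M, hlipk, hlip⟩ := hconv.lip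
  have hk1 : ∀ z, k z ≠ ∞ := fun z => ne_top_of_le_ne_top ENNReal.ofReal_ne_top (hk z)
  have hM0 : (0 : ℝ) ≤ M := M.2
  obtain ⟨C', hC', hdom⟩ := wE_le_aux hΦ hC hM0 (half_lt_self hb) hk T P
  have hcS : ContinuousOn (S.c i) (Icc 0 T) := (hlip i).continuousOn
  have hmeas0 : Measurable fun q : Space3 × HPar P => wE Φ k 0 S S i A0 q.2 q.1 :=
    measurable_wE hΦ hkc.measurable 0 hT hcS hA0m fun θ hθ =>
      ⟨(hA0V θ hθ).1.1, (hA0V θ hθ).2.1⟩
  have hmeas : ∀ᶠ n in atTop, Measurable fun q : Space3 × HPar P =>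
      absd (wE Φ k (εk n) (Sk n) S i (A n) q.2 q.1) (wE Φ k 0 S S i A0 q.2 q.1) := by
    filter_upwards [hAm, hAV, hlipk] with n a1 a2 a3
    exact measurable_absd (measurable_wE hΦ hkc.measurable (εk n) hT (a3 i).continuousOn a1
      fun θ hθ => ⟨(a2 θ hθ).1.1, (a2 θ hθ).2.1⟩) hmeas0
  have hsplit : ∀ᶠ n in atTop, ∫⁻ q : Space3 × HPar P,
      absd (wE Φ k (εk n) (Sk n) S i (A n) q.2 q.1) (wE Φ k 0 S S i A0 q.2 q.1)
        ∂(μ.prod (volume : Measure (HPar P))) =
      ∫⁻ x, (∫⁻ θ : HPar P, absd (wE Φ k (εk n) (Sk n) S i (A n) θ x)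
        (wE Φ k 0 S S i A0 θ x)) ∂μ := by
    filter_upwards [hmeas] with n hn
    exact lintegral_prod _ hn.aemeasurable
  refine Tendsto.congr' hsplit ?_
  -- almost every parameter
  have hIoo : ∀ᵐ θ : HPar P, θ.1 ≠ 0 ∧ θ.1 ≠ T := by
    have e0 : ∀ᵐ s : ℝ, s ≠ 0 := compl_mem_ae_iff.2 (measure_singleton (0 : ℝ))
    have eT : ∀ᵐ s : ℝ, s ≠ T := compl_mem_ae_iff.2 (measure_singleton T)
    have e1 : ∀ᵐ s : ℝ, s ≠ 0 ∧ s ≠ T := e0.and eT
    exact (Measure.quasiMeasurePreserving_fst (μ := (volume : Measure ℝ))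
      (ν := (volume : Measure (Space3 × Disc416.Plane × Par P)))).ae e1
  have hder : ∀ θ : HPar P, θ ∈ Bx T P → θ.1 ≠ 0 ∧ θ.1 ≠ T → ‖deriv (S.c i) θ.1‖ ≤ M := by
    intro θ hθ hne
    refine norm_deriv_le_of_lipschitzOn (s := Icc 0 T) ?_ (hlip i)
    exact Icc_mem_nhds (lt_of_le_of_ne hθ.1.1 (Ne.symm hne.1)) (lt_of_le_of_ne hθ.1.2 hne.2)
  have hdom0 : ∀ (θ : HPar P) (x : Space3), (θ.1 ≠ 0 ∧ θ.1 ≠ T) →
      wE Φ k 0 S S i A0 θ x ≤ domD C' (b / 2) T P θ := fun θ x hne =>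
    hdom 0 ι S S i A0 θ x le_rfl fun hθ =>
      ⟨(hA0V θ hθ).1, (hA0V θ hθ).2, hder θ (hA0V θ hθ).1 hne⟩
  have h0 : (0 : ℝ≥0∞) = ∫⁻ _q : Space3 × HPar P, (0 : ℝ≥0∞)
      ∂(μ.prod (volume : Measure (HPar P))) := by simp
  rw [h0]
  have hae : ∀ {p : HPar P → Prop}, (∀ᵐ θ : HPar P, p θ) →
      ∀ᵐ q : Space3 × HPar P ∂(μ.prod (volume : Measure (HPar P))), p q.2 := fun h =>
    (Measure.quasiMeasurePreserving_snd (μ := μ) (ν := (volume : Measure (HPar P)))).ae h
  refine tendsto_lintegral_filter_of_dominated_convergence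
    (fun q => domD C' (b / 2) T P q.2 + domD C' (b / 2) T P q.2) hmeas ?_ ?_ ?_
  · filter_upwards [hAV] with n hn
    filter_upwards [hae hIoo] with q hq
    refine (absd_le_add _ _).trans (add_le_add ?_ (hdom0 q.2 q.1 hq))
    exact hdom (εk n) ι (Sk n) S i (A n) q.2 q.1 (hε0 n).le fun hθ =>
      ⟨(hn _ hθ).1, (hn _ hθ).2, hder _ (hn _ hθ).1 hq⟩
  · have hmd := measurable_domD hC' (b / 2) T P
    have hmd2 : Measurable fun q : Space3 × HPar P => domD C' (b / 2) T P q.2 :=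
      hmd.comp measurable_snd
    rw [lintegral_add_left hmd2]
    have e1 : ∫⁻ q : Space3 × HPar P, domD C' (b / 2) T P q.2
        ∂(μ.prod (volume : Measure (HPar P))) = μ univ * ∫⁻ θ, domD C' (b / 2) T P θ := by
      rw [lintegral_prod _ hmd2.aemeasurable]
      simp only
      rw [lintegral_const, mul_comm]
    rw [e1]
    have e2 := ENNReal.mul_ne_top (measure_ne_top μ univ)
      (lintegral_domD_ne_top hC' (half_pos hb) T P)
    exact ENNReal.add_ne_top.2 ⟨e2, e2⟩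
  · filter_upwards [hae h1, hae h2, hae hIoo] with q a1 a2 a3
    refine tendsto_absd ?_ (tendsto_wE_pt hε hkc hk1 hconv i (fun hθ => (hA0V _ hθ).1.1) a1 a2 q.1)
    refine ne_top_of_le_ne_top ?_ (hdom0 q.2 q.1 a3)
    unfold domD
    by_cases hq : q.2 ∈ Bx T P
    · rw [indicator_of_mem hq]
      unfold domG
      refine ENNReal.mul_ne_top ?_ ENNReal.ofReal_ne_top
      have hbox : ∀ (Q : CTree) (p : Par Q), boxI T Q p ≠ ∞ := by
        intro Q
        induction Q with
        | leaf => intro p; simp [boxI]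
        | node l r hl hr =>
          intro p
          simp only [boxI]
          refine ENNReal.mul_ne_top ?_ (ENNReal.mul_ne_top (hl _) (hr _))
          unfold box1
          by_cases hp : p.1 ∈ {a : NodeP | a.1 ∈ Ioo 0 T ∧ ‖a.2.2‖ < 1}
          · rw [indicator_of_mem hp]; simp
          · rw [indicator_of_notMem hp]; simp
      exact hbox _ _
    · rw [indicator_of_notMem hq]; simp

end Crest.Agent.R122.FluxDCT491

end
end

-- ▼ part R122/FluxDCT2_491

/-!
Row 122, block F (helper491): limit of the weights of the first good hits (second half of (I2), in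
the literal form used by helper818).

* `wH` : weight of a first good hit at radius `ε`;
* `tendsto_wH` : `∫_{|x| ≤ R} ∫_θ adiff (wH ε) wgt → 0`;
* `tendsto_double` : hits where a second tube is touched at the same time are negligible.
-/

set_option autoImplicit false
set_option maxHeartbeats 400000

open MeasureTheory Set Filter
open scoped ENNReal Topology Classical RealInnerProductSpace NNReal
open Crest.AnalysisR.Kinetic

noncomputable section

namespace Crest.Agent.R122.FluxDCT491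

open Kin796 Kin796.CTree Disc416 Tree674 TreeEps399 Hid424 Generic491 GIV566 GIVStep383 IStep317
  TubeChild491 Tube818 TreeDom974 TreeLim974
open Crest.Agent.R122.Quench815 (absd absd_comm absd_self le_add_absd le_add_absd' absd_le_add
  absd_le_iff absd_triangle absd_mul_le measurable_absd absd_lintegral_le)

variable {Φ : Space3 → ℝ} {f₀ : PhasePoint → ℝ} {ι : Type} {P : CTree}

/-! ### The literal objects -/

/-- the hit `θ` of the tube `i` is a first good hit in `[tw, t)` -/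
def GoodH (Φ : Space3 → ℝ) (ε tw t : ℝ) (Sk S : Tubes ι) (i : ι) (θ : HPar P) : Prop :=
  tw ≤ θ.1 ∧ θ.1 < t ∧ θ.1 < S.b i ∧ ‖θ.2.2.1‖ < 1 ∧
    FirstAt Φ ε P Sk (rootL ε (Sk.c i θ.1) (deriv (S.c i) θ.1) θ.1 θ.2.1 θ.2.2.1, θ.2.2.2) θ.1

/-- weight of a first good hit at radius `ε` -/
def wH (Φ : Space3 → ℝ) (f₀ : PhasePoint → ℝ) (ε tw t : ℝ) (Sk S : Tubes ι) (i : ι)
    (θ : HPar P) (x : Space3) : ℝ≥0∞ :=
  if GoodH Φ ε tw t Sk S i θ then
    ENNReal.ofReal ‖θ.2.1 - deriv (S.c i) θ.1‖ * (wt Φ P θ.2.1 θ.2.2.2 *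
      ∏ j, ENNReal.ofReal (f₀ (lines Φ ε P
        ((rootL ε (Sk.c i θ.1) (deriv (S.c i) θ.1) θ.1 θ.2.1 θ.2.2.1).1 + x, θ.2.1) θ.2.2.2 j)))
  else 0

/-- another tube is touched at the same time -/
def Double (ε : ℝ) (Sk S : Tubes ι) (i : ι) (θ : HPar P) : Prop :=
  ∃ i', i' ≠ i ∧ θ.1 ≤ Sk.b i' ∧ dist (Sk.c i' θ.1)
    (onLine (rootL ε (Sk.c i θ.1) (deriv (S.c i) θ.1) θ.1 θ.2.1 θ.2.2.1) θ.1).1 ≤ ε

/-- first good hits at positive times -/
def AF (Φ : Space3 → ℝ) (ε tw t : ℝ) (Sk S : Tubes ι) (i : ι) (P : CTree) : Set (HPar P) :=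
  {θ | 0 < θ.1 ∧ GoodH Φ ε tw t Sk S i θ}

theorem wH_eq {ε tw t : ℝ} {Sk S : Tubes ι} {i : ι} {θ : HPar P} (hθ : 0 < θ.1) (x : Space3) :
    wH Φ f₀ ε tw t Sk S i θ x =
      wE Φ (fun z => ENNReal.ofReal (f₀ z)) ε Sk S i (AF Φ ε tw t Sk S i P) θ x := by
  unfold wH wE
  by_cases h : GoodH Φ ε tw t Sk S i θ
  · rw [if_pos h, indicator_of_mem (show θ ∈ AF Φ ε tw t Sk S i P from ⟨hθ, h⟩)]
    congr 2
    refine Finset.prod_congr rfl fun j _ => ?_
    congr 2
    exact lines_add ε P (hL ε Sk S i θ) θ.2.2.2 j x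
  · rw [if_neg h, indicator_of_notMem (show θ ∉ AF Φ ε tw t Sk S i P from fun h' => h h'.2)]

/-! ### Measurability of the sets -/

theorem measurableSet_AF [Countable ι] (hΦ : AdmissiblePotential Φ) {ε : ℝ} (hε : 0 < ε) {T : ℝ}
    (hT : 0 ≤ T) {tw t : ℝ} (htT : t ≤ T) {Sk : Tubes ι} (S : Tubes ι) (i : ι)
    (hS : ∀ i, ContinuousOn (Sk.c i) (Icc 0 T)) (P : CTree) :
    MeasurableSet (AF Φ ε tw t Sk S i P) := by
  obtain ⟨h, hm, h2, he⟩ := exists_hL ε hT S i (hS i) P
  have h1 : Measurable fun θ : HPar P => ((θ.1, (h θ, θ.2.2.2)) : ℝ × (PhasePoint × Par P)) :=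
    measurable_fst.prodMk (hm.prodMk measurable_snd.snd.snd)
  have hF := h1 (measurableSet_firstAt (P := P) hΦ hε hT hS)
  have hb : MeasurableSet {θ : HPar P | tw ≤ θ.1 ∧ θ.1 < t ∧ θ.1 < S.b i ∧ ‖θ.2.2.1‖ < 1} :=
    (measurableSet_le measurable_const measurable_fst).inter
      ((measurableSet_lt measurable_fst measurable_const).inter
        ((measurableSet_lt measurable_fst measurable_const).inter
          (measurableSet_lt measurable_snd.snd.fst.norm measurable_const)))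
  have e : AF Φ ε tw t Sk S i P = {θ : HPar P | tw ≤ θ.1 ∧ θ.1 < t ∧ θ.1 < S.b i ∧
      ‖θ.2.2.1‖ < 1} ∩ {θ : HPar P | (0 < θ.1 ∧ θ.1 ≤ T) ∧ FirstAt Φ ε P Sk (h θ, θ.2.2.2) θ.1} := by
    ext θ
    constructor
    · rintro ⟨h0, a1, a2, a3, a4, a5⟩
      have hI : θ.1 ∈ Icc 0 T := ⟨h0.le, (a2.trans_le htT).le⟩
      refine ⟨⟨a1, a2, a3, a4⟩, ⟨h0, hI.2⟩, ?_⟩
      rw [he θ hI]
      exact a5
    · rintro ⟨⟨a1, a2, a3, a4⟩, ⟨h0, hT'⟩, a5⟩
      have hI : θ.1 ∈ Icc 0 T := ⟨h0.le, hT'⟩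
      rw [he θ hI] at a5
      exact ⟨h0, a1, a2, a3, a4, a5⟩
  rw [e]
  exact hb.inter hF

theorem measurableSet_good0 (hΦ : AdmissiblePotential Φ) (tw t : ℝ) (S : Tubes ι) (i : ι)
    (P : CTree) : MeasurableSet {θ : HPar P | HGood Φ tw t S i θ} := by
  have h1 : MeasurableSet {θ : HPar P | Valid Φ 0 P θ.1 θ.2.1 θ.2.2.2} :=
    (measurable_fst.prodMk (measurable_snd.fst.prodMk measurable_snd.snd.snd))
      (measurableSet_valid3 hΦ 0 P)
  exact (measurable_fst measurableSet_Ioc).inter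
    ((measurableSet_lt measurable_fst measurable_const).inter
      ((measurableSet_lt measurable_snd.snd.fst.norm measurable_const).inter h1))

theorem measurableSet_double [Fintype ι] {ε : ℝ} {T : ℝ} (hT : 0 ≤ T) {Sk : Tubes ι} (S : Tubes ι)
    (i : ι) (hS : ∀ i, ContinuousOn (Sk.c i) (Icc 0 T)) (P : CTree) :
    MeasurableSet {θ : HPar P | θ.1 ∈ Icc 0 T ∧ Double ε Sk S i θ} := by
  obtain ⟨h, hm, h2, he⟩ := exists_hL ε hT S i (hS i) P
  choose x hx hxe using fun i' => exists_meas_curve hT (hS i')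
  have e : {θ : HPar P | θ.1 ∈ Icc 0 T ∧ Double ε Sk S i θ} = {θ : HPar P | θ.1 ∈ Icc 0 T} ∩
      ⋃ i' : ι, {θ : HPar P | i' ≠ i ∧ θ.1 ≤ Sk.b i' ∧
        dist (x i' θ.1) (onLine (h θ) θ.1).1 ≤ ε} := by
    ext θ
    simp only [mem_inter_iff, mem_iUnion, mem_ofPred_eq]
    refine and_congr_right fun hI => ?_
    unfold Double
    refine exists_congr fun i' => ?_
    rw [hxe i' θ.1 hI, he θ hI]
    rfl
  rw [e]
  refine (measurable_fst measurableSet_Icc).inter (MeasurableSet.iUnion fun i' => ?_)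
  have ho : Measurable fun θ : HPar P => (onLine (h θ) θ.1).1 :=
    (measurable_onLine2.comp (hm.prodMk measurable_fst)).fst
  refine MeasurableSet.inter (MeasurableSet.const _) (MeasurableSet.inter
    (measurableSet_le measurable_fst measurable_const) ?_)
  exact measurableSet_le (((hx i').measurable.comp measurable_fst).dist ho) measurable_const

/-! ### Almost every parameter -/

theorem ae_time_ne (P : CTree) (c : ℝ) : ∀ᵐ θ : HPar P, θ.1 ≠ c := by
  have e0 : ∀ᵐ s : ℝ, s ≠ c := compl_mem_ae_iff.2 (measure_singleton c)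
  exact (Measure.quasiMeasurePreserving_fst (μ := (volume : Measure ℝ))
    (ν := (volume : Measure (Space3 × Disc416.Plane × Par P)))).ae e0

theorem ae_time_notMem' (P : CTree) {F : Set ℝ} (hF : F.Countable) :
    ∀ᵐ θ : HPar P, θ.1 ∉ F :=
  (Measure.quasiMeasurePreserving_fst (μ := (volume : Measure ℝ))
    (ν := (volume : Measure (Space3 × Disc416.Plane × Par P)))).ae (hF.ae_notMem volume)

/-- for almost every parameter no other tube is touched -/
theorem ae_not_double [Fintype ι] {T : ℝ} {εk : ℕ → ℝ} (hlim : Tendsto εk atTop (𝓝 0))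
    {Sk : ℕ → Tubes ι} {S : Tubes ι} (hconv : TubeConv T Sk S) (hgen : Generic T S) (i : ι)
    (P : CTree) : ∀ᵐ θ : HPar P, θ.1 ∈ Ioo 0 T → θ.1 < S.b i →
      ∀ᶠ n in atTop, ¬ Double (εk n) (Sk n) S i θ := by
  have hF : ∀ i', i' ≠ i → {s | s ∈ Icc 0 (min T (min (S.b i') (S.b i))) ∧
      S.c i' s = S.c i s}.Countable := fun i' hi' => (hgen i' i hi').countable
  have e1 : ∀ᵐ θ : HPar P, ∀ i', i' ≠ i → θ.1 ∉ {s | s ∈ Icc 0 (min T (min (S.b i') (S.b i))) ∧
      S.c i' s = S.c i s} := by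
    rw [ae_all_iff]
    intro i'
    by_cases hi : i' = i
    · exact Eventually.of_forall fun θ h => absurd hi h
    · filter_upwards [ae_time_notMem' P (hF i' hi)] with θ hθ _
      exact hθ
  have e2 : ∀ᵐ θ : HPar P, ∀ i', θ.1 ≠ S.b i' := by
    rw [ae_all_iff]
    exact fun i' => ae_time_ne P (S.b i')
  filter_upwards [e1, e2] with θ a1 a2 hI hb
  have hall : ∀ i', ∀ᶠ n in atTop, ¬ (i' ≠ i ∧ θ.1 ≤ (Sk n).b i' ∧ dist ((Sk n).c i' θ.1)
      (onLine (rootL (εk n) ((Sk n).c i θ.1) (deriv (S.c i) θ.1) θ.1 θ.2.1 θ.2.2.1) θ.1).1 ≤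
        εk n) := by
    intro i'
    by_cases hi : i' = i
    · exact Eventually.of_forall fun n h => h.1 hi
    rcases lt_or_gt_of_ne (a2 i') with hlt | hgt
    · -- active
      have hne : S.c i' θ.1 ≠ S.c i θ.1 := fun he =>
        a1 i' hi ⟨⟨hI.1.le, le_min hI.2.le (le_min hlt.le hb.le)⟩, he⟩
      have hI' : θ.1 ∈ Icc 0 T := ⟨hI.1.le, hI.2.le⟩
      have h2 : Tendsto (fun n => (Sk n).c i' θ.1) atTop (𝓝 (S.c i' θ.1)) :=
        (hconv.curves i').tendsto_at hI'
      have h3 : Tendsto (fun n => (onLine (rootL (εk n) ((Sk n).c i θ.1) (deriv (S.c i) θ.1) θ.1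
          θ.2.1 θ.2.2.1) θ.1).1) atTop (𝓝 (S.c i θ.1)) := by
        have h4 := tendsto_hL hlim hconv i hI'
        have h5 : Tendsto (fun n => (hL (εk n) (Sk n) S i θ).1 + θ.1 • θ.2.1) atTop
            (𝓝 ((hL 0 S S i θ).1 + θ.1 • θ.2.1)) := h4.add_const _
        rw [hL_zero] at h5
        simp only [sub_add_cancel] at h5
        exact h5
      have h6 : Tendsto (fun n => dist ((Sk n).c i' θ.1) (onLine (rootL (εk n) ((Sk n).c i θ.1)
          (deriv (S.c i) θ.1) θ.1 θ.2.1 θ.2.2.1) θ.1).1 - εk n) atTop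
          (𝓝 (dist (S.c i' θ.1) (S.c i θ.1) - 0)) := (h2.dist h3).sub hlim
      rw [sub_zero] at h6
      filter_upwards [h6.eventually (lt_mem_nhds (dist_pos.2 hne))] with n hn h
      linarith [h.2.2]
    · filter_upwards [(hconv.active i').eventually (gt_mem_nhds hgt)] with n hn h
      exact absurd h.2.1 (not_le.2 hn)
  filter_upwards [eventually_all.2 hall] with n hn hD
  obtain ⟨i', h1, h2, h3⟩ := hD
  exact hn i' ⟨h1, h2, h3⟩

/-! ### The limits -/

/-- first good hits are admissible straight-line trees -/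
theorem hgood_of_goodH {ε tw t : ℝ} (hε : 0 ≤ ε) {Sk S : Tubes ι} {i : ι} {θ : HPar P}
    (h : GoodH Φ ε tw t Sk S i θ) (hne : θ.1 ≠ tw) : HGood Φ tw t S i θ := by
  obtain ⟨a1, a2, a3, a4, a5⟩ := h
  exact ⟨⟨lt_of_le_of_ne a1 (Ne.symm hne), a2.le⟩, a3, a4, valid_zero hε a5.valid⟩

/-- the conditions of `tendsto_wE` for the first good hits -/
theorem ae_AF [Fintype ι] (hΦ : AdmissiblePotential Φ) {T : ℝ} {εk : ℕ → ℝ}
    (hε0 : ∀ n, 0 < εk n) (hlim : Tendsto εk atTop (𝓝 0)) {Sk : ℕ → Tubes ι} {S : Tubes ι}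
    (hconv : TubeConv T Sk S) (hgen : Generic T S) {tw t : ℝ} (htw : 0 ≤ tw) (htT : t ≤ T)
    (i : ι) (P : CTree) :
    (∀ᵐ θ : HPar P, θ ∈ {θ : HPar P | HGood Φ tw t S i θ} →
      ∀ᶠ n in atTop, θ ∈ AF Φ (εk n) tw t (Sk n) S i P) ∧
    (∀ᵐ θ : HPar P, θ ∉ {θ : HPar P | HGood Φ tw t S i θ} →
      ∀ n, θ ∉ AF Φ (εk n) tw t (Sk n) S i P) := by
  constructor
  · filter_upwards [firstAt_eventually hΦ hε0 hlim hconv hgen i P, ae_time_ne P t,
      ae_time_ne P T] with θ a1 a2 a3 hG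
    obtain ⟨h1, h2, h3, h4⟩ := hG
    have h0 : 0 < θ.1 := htw.trans_lt h1.1
    have h5 := a1 ⟨h0, lt_of_le_of_ne (h1.2.trans htT) a3⟩ h2 h3 h4
    filter_upwards [h5] with n hn
    exact ⟨h0, h1.1.le, lt_of_le_of_ne h1.2 a2, h2, h3, hn⟩
  · filter_upwards [ae_time_ne P tw] with θ a1 hG n hn
    exact hG (hgood_of_goodH (hε0 n).le hn.2 a1)

theorem AF_box {εk tw t T : ℝ} (htT : t ≤ T) {Sk S : Tubes ι} {i : ι} :
    ∀ θ ∈ AF Φ εk tw t Sk S i P, θ ∈ Bx T P ∧ Valid Φ εk P θ.1 θ.2.1 θ.2.2.2 := by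
  rintro θ ⟨h0, a1, a2, a3, a4, a5⟩
  exact ⟨⟨⟨h0.le, (a2.trans_le htT).le⟩, a4⟩, a5.valid⟩

theorem HGood_box {tw t T : ℝ} (htw : 0 ≤ tw) (htT : t ≤ T) {S : Tubes ι} {i : ι} :
    ∀ θ ∈ {θ : HPar P | HGood Φ tw t S i θ}, θ ∈ Bx T P ∧ Valid Φ 0 P θ.1 θ.2.1 θ.2.2.2 := by
  rintro θ ⟨h1, h2, h3, h4⟩
  exact ⟨⟨⟨htw.trans h1.1.le, h1.2.trans htT⟩, h3⟩, h4⟩

theorem continuous_k (hf : Continuous f₀) :
    Continuous fun z : PhasePoint => ENNReal.ofReal (f₀ z) :=
  ENNReal.continuous_ofReal.comp hf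

/-- **(C)** the weights of the first good hits converge. -/
theorem tendsto_wH_of_bound [Fintype ι] (hΦ : AdmissiblePotential Φ) {T : ℝ} (hT : 0 ≤ T)
    (hf : Continuous f₀) {C b : ℝ} (hC : 0 ≤ C) (hb : 0 < b)
    (hk : ∀ z : PhasePoint, ENNReal.ofReal (f₀ z) ≤ ENNReal.ofReal (C * Real.exp (-b * ‖z.2‖ ^ 2)))
    {εk : ℕ → ℝ} (hε0 : ∀ n, 0 < εk n) (hlim : Tendsto εk atTop (𝓝 0)) {Sk : ℕ → Tubes ι}
    {S : Tubes ι} (hconv : TubeConv T Sk S) (hgen : Generic T S) {tw t : ℝ} (htw : 0 ≤ tw)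
    (htT : t ≤ T) (i : ι) (P : CTree) (R : ℝ) :
    Tendsto (fun n => ∫⁻ x in Metric.closedBall (0 : Space3) R, ∫⁻ θ : HPar P,
      adiff (wH Φ f₀ (εk n) tw t (Sk n) S i θ x) (wgt Φ f₀ tw t S i θ x)) atTop (𝓝 0) := by
  obtain ⟨M, hlipk, hlip⟩ := hconv.lip
  obtain ⟨h1, h2⟩ := ae_AF hΦ hε0 hlim hconv hgen htw htT i P
  have hfin : IsFiniteMeasure (volume.restrict (Metric.closedBall (0 : Space3) R)) :=
    ⟨by rw [Measure.restrict_apply_univ]; exact (isCompact_closedBall _ _).measure_lt_top⟩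
  have hmain := tendsto_wE (P := P) hΦ hT hε0 hlim hC hb (continuous_k hf) hk hconv i
    (A := fun n => AF Φ (εk n) tw t (Sk n) S i P) (A0 := {θ : HPar P | HGood Φ tw t S i θ})
    (by
      filter_upwards [hlipk] with n hn
      exact measurableSet_AF hΦ (hε0 n) hT htT S i (fun i => (hn i).continuousOn) P)
    (measurableSet_good0 hΦ tw t S i P) (Eventually.of_forall fun n => AF_box htT)
    (HGood_box htw htT) h1 (h2.mono fun θ h hθ => Eventually.of_forall (h hθ))
    (volume.restrict (Metric.closedBall (0 : Space3) R))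
  refine hmain.congr fun n => ?_
  refine lintegral_congr fun x => ?_
  refine lintegral_congr_ae ?_
  have hneg : ∀ᵐ θ : HPar P, θ.1 ≠ 0 := ae_time_ne P 0
  filter_upwards [hneg] with θ hθ
  rw [← wgt_eq]
  rcases lt_or_gt_of_ne hθ with hlt | hgt
  · have e1 : wE Φ (fun z => ENNReal.ofReal (f₀ z)) (εk n) (Sk n) S i
        (AF Φ (εk n) tw t (Sk n) S i P) θ x = 0 :=
      indicator_of_notMem (fun h => absurd h.1 (not_lt.2 hlt.le)) _
    have e2 : wH Φ f₀ (εk n) tw t (Sk n) S i θ x = 0 := by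
      unfold wH
      rw [if_neg]
      exact fun h => absurd (htw.trans h.1) (not_le.2 hlt)
    rw [e1, e2]
    rfl
  · rw [wH_eq hgt]
    rfl

/-- **(D)** double touches are negligible. -/
theorem tendsto_double_of_bound [Fintype ι] (hΦ : AdmissiblePotential Φ) {T : ℝ} (hT : 0 ≤ T)
    (hf : Continuous f₀) {C b : ℝ} (hC : 0 ≤ C) (hb : 0 < b)
    (hk : ∀ z : PhasePoint, ENNReal.ofReal (f₀ z) ≤ ENNReal.ofReal (C * Real.exp (-b * ‖z.2‖ ^ 2)))
    {εk : ℕ → ℝ} (hε0 : ∀ n, 0 < εk n) (hlim : Tendsto εk atTop (𝓝 0)) {Sk : ℕ → Tubes ι}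
    {S : Tubes ι} (hconv : TubeConv T Sk S) (hgen : Generic T S) {tw t : ℝ} (htw : 0 ≤ tw)
    (htT : t ≤ T) (i : ι) (P : CTree) (R : ℝ) :
    Tendsto (fun n => ∫⁻ x in Metric.closedBall (0 : Space3) R, ∫⁻ θ : HPar P,
      if ∃ i', i' ≠ i ∧ θ.1 ≤ (Sk n).b i' ∧ dist ((Sk n).c i' θ.1)
        (onLine (rootL (εk n) ((Sk n).c i θ.1) (deriv (S.c i) θ.1) θ.1 θ.2.1 θ.2.2.1) θ.1).1 ≤ εk n
      then wH Φ f₀ (εk n) tw t (Sk n) S i θ x else 0) atTop (𝓝 0) := by
  obtain ⟨M, hlipk, hlip⟩ := hconv.lip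
  have hfin : IsFiniteMeasure (volume.restrict (Metric.closedBall (0 : Space3) R)) :=
    ⟨by rw [Measure.restrict_apply_univ]; exact (isCompact_closedBall _ _).measure_lt_top⟩
  set A : ℕ → Set (HPar P) := fun n => AF Φ (εk n) tw t (Sk n) S i P ∩
    {θ : HPar P | θ.1 ∈ Icc 0 T ∧ Double (εk n) (Sk n) S i θ} with hA
  have hAm : ∀ᶠ n in atTop, MeasurableSet (A n) := by
    filter_upwards [hlipk] with n hn
    exact (measurableSet_AF hΦ (hε0 n) hT htT S i (fun i => (hn i).continuousOn) P).inter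
      (measurableSet_double hT S i (fun i => (hn i).continuousOn) P)
  have h2 : ∀ᵐ θ : HPar P, θ ∉ (∅ : Set (HPar P)) → ∀ᶠ n in atTop, θ ∉ A n := by
    filter_upwards [ae_not_double hlim hconv hgen i P, ae_time_ne P t, ae_time_ne P T]
      with θ a1 a2 a3 _
    by_cases hI : θ.1 ∈ Ioo 0 T ∧ θ.1 < S.b i
    · filter_upwards [a1 hI.1 hI.2] with n hn h
      exact hn h.2.2
    · refine Eventually.of_forall fun n h => hI ?_
      obtain ⟨⟨h0, b1, b2, b3, b4, b5⟩, -⟩ := h
      exact ⟨⟨h0, b2.trans_le htT⟩, b3⟩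
  have hmain := tendsto_wE (P := P) hΦ hT hε0 hlim hC hb (continuous_k hf) hk hconv i
    (A := A) (A0 := ∅) hAm MeasurableSet.empty
    (Eventually.of_forall fun n θ hθ => AF_box htT θ hθ.1)
    (fun θ hθ => absurd hθ (notMem_empty _)) (Eventually.of_forall fun θ hθ => absurd hθ
      (notMem_empty _)) h2 (volume.restrict (Metric.closedBall (0 : Space3) R))
  refine hmain.congr fun n => ?_
  refine lintegral_congr fun x => ?_
  refine lintegral_congr_ae ?_
  have hneg : ∀ᵐ θ : HPar P, θ.1 ≠ 0 := ae_time_ne P 0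
  filter_upwards [hneg] with θ hθ
  have e0 : wE Φ (fun z => ENNReal.ofReal (f₀ z)) 0 S S i (∅ : Set (HPar P)) θ x = 0 :=
    indicator_of_notMem (notMem_empty _) _
  rw [e0]
  have e1 : ∀ c : ℝ≥0∞, absd c 0 = c := fun c => by simp [absd]
  rw [e1]
  by_cases hD : ∃ i', i' ≠ i ∧ θ.1 ≤ (Sk n).b i' ∧ dist ((Sk n).c i' θ.1)
      (onLine (rootL (εk n) ((Sk n).c i θ.1) (deriv (S.c i) θ.1) θ.1 θ.2.1 θ.2.2.1) θ.1).1 ≤ εk n
  · rw [if_pos hD]
    by_cases hG : 0 < θ.1 ∧ GoodH Φ (εk n) tw t (Sk n) S i θ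
    · have hI : θ.1 ∈ Icc 0 T := ⟨hG.1.le, (hG.2.2.1.trans_le htT).le⟩
      rw [wH_eq hG.1]
      unfold wE
      rw [indicator_of_mem (show θ ∈ A n from ⟨hG, hI, hD⟩),
        indicator_of_mem (show θ ∈ AF Φ (εk n) tw t (Sk n) S i P from hG)]
    · have e2 : wH Φ f₀ (εk n) tw t (Sk n) S i θ x = 0 := by
        unfold wH
        rw [if_neg]
        exact fun h => hG ⟨lt_of_le_of_ne (htw.trans h.1) (Ne.symm hθ), h⟩
      rw [e2]
      exact indicator_of_notMem (fun h => hG h.1) _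
  · rw [if_neg hD]
    exact indicator_of_notMem (fun h => hD h.2.2) _

/-- Gaussian bound of the initial density -/
theorem exists_bound {β T : ℝ} {f : ℝ → PhasePoint → ℝ} (hD : Master566.KData Φ β T f₀ f) :
    ∃ C : ℝ, 0 ≤ C ∧ ∀ z : PhasePoint, ENNReal.ofReal (f₀ z) ≤
      ENNReal.ofReal (C * Real.exp (-(2 * β) * ‖z.2‖ ^ 2)) := by
  obtain ⟨C, hC, h⟩ := Boltz814.exists_gauss_bound hD.T_pos hD.sol
  refine ⟨C, hC, fun z => ENNReal.ofReal_le_ofReal ?_⟩
  have := h 0 ⟨le_rfl, hD.T_pos.le⟩ z.1 z.2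
  rw [hD.sol.initial] at this
  exact this

/-- **(C)** the weights of the first good hits converge. -/
theorem tendsto_wH [Fintype ι] {β T : ℝ} {f : ℝ → PhasePoint → ℝ}
    (hD : Master566.KData Φ β T f₀ f) {εk : ℕ → ℝ} (hε0 : ∀ n, 0 < εk n)
    (hlim : Tendsto εk atTop (𝓝 0)) {Sk : ℕ → Tubes ι} {S : Tubes ι} (hconv : TubeConv T Sk S)
    (hgen : Generic T S) {tw t : ℝ} (htw : 0 ≤ tw) (htT : t ≤ T) (i : ι) (P : CTree) (R : ℝ) :
    Tendsto (fun n => ∫⁻ x in Metric.closedBall (0 : Space3) R, ∫⁻ θ : HPar P,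
      adiff (wH Φ f₀ (εk n) tw t (Sk n) S i θ x) (wgt Φ f₀ tw t S i θ x)) atTop (𝓝 0) := by
  obtain ⟨C, hC, hk⟩ := exists_bound hD
  exact tendsto_wH_of_bound hD.adm hD.T_pos.le hD.contDiff.continuous hC
    (by have := hD.beta_pos; positivity) hk hε0 hlim hconv hgen htw htT i P R

/-- **(D)** double touches are negligible. -/
theorem tendsto_double [Fintype ι] {β T : ℝ} {f : ℝ → PhasePoint → ℝ}
    (hD : Master566.KData Φ β T f₀ f) {εk : ℕ → ℝ} (hε0 : ∀ n, 0 < εk n)
    (hlim : Tendsto εk atTop (𝓝 0)) {Sk : ℕ → Tubes ι} {S : Tubes ι} (hconv : TubeConv T Sk S)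
    (hgen : Generic T S) {tw t : ℝ} (htw : 0 ≤ tw) (htT : t ≤ T) (i : ι) (P : CTree) (R : ℝ) :
    Tendsto (fun n => ∫⁻ x in Metric.closedBall (0 : Space3) R, ∫⁻ θ : HPar P,
      if ∃ i', i' ≠ i ∧ θ.1 ≤ (Sk n).b i' ∧ dist ((Sk n).c i' θ.1)
        (onLine (rootL (εk n) ((Sk n).c i θ.1) (deriv (S.c i) θ.1) θ.1 θ.2.1 θ.2.2.1) θ.1).1 ≤ εk n
      then wH Φ f₀ (εk n) tw t (Sk n) S i θ x else 0) atTop (𝓝 0) := by
  obtain ⟨C, hC, hk⟩ := exists_bound hD
  exact tendsto_double_of_bound hD.adm hD.T_pos.le hD.contDiff.continuous hC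
    (by have := hD.beta_pos; positivity) hk hε0 hlim hconv hgen htw htT i P R

/-! ### Measurability of the integrands -/


/-- joint measurability of the limiting weight -/
theorem measurable_wgt (hΦ : AdmissiblePotential Φ) (hf : Measurable f₀) {T : ℝ} (hT : 0 ≤ T)
    {tw t : ℝ} (htw : 0 ≤ tw) (htT : t ≤ T) {S : Tubes ι} {i : ι}
    (hS : ContinuousOn (S.c i) (Icc 0 T)) (P : CTree) :
    Measurable fun q : Space3 × HPar P => wgt Φ f₀ tw t S i q.2 q.1 := by
  have h := measurable_wE (P := P) (S := S) hΦ hf.ennreal_ofReal 0 hT hS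
    (measurableSet_good0 hΦ tw t S i P)
    fun θ hθ => ⟨(HGood_box (T := T) htw htT θ hθ).1.1, (HGood_box (T := T) htw htT θ hθ).2.1⟩
  have e : (fun q : Space3 × HPar P => wgt Φ f₀ tw t S i q.2 q.1) =
      fun q : Space3 × HPar P => wE Φ (fun z => ENNReal.ofReal (f₀ z)) 0 S S i
        {θ | HGood Φ tw t S i θ} q.2 q.1 := by
    funext q
    exact wgt_eq f₀ tw t S i q.2 q.1
  rw [e]
  exact h

end Crest.Agent.R122.FluxDCT491

end
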