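import Crest.Agent.R122.FluxDCT2_491
import Mathlib.MeasureTheory.Constructions.Polish.Basic

/-!
Row 122, block F (helper491): measurability in the translation of the mass of the first good hits
and of the gain term (for `FluxLim` of helper317).

* `measurable_gain` : `x ↦ gain Φ f₀ ε tw t Sk S P x`;
* `measurable_Hgh_shift` : `x ↦ Hgh Φ f₀ ε P (S.shift x) tw t`.
-/

set_option autoImplicit false
set_option maxHeartbeats 400000

open MeasureTheory Set Filter
open scoped ENNReal Topology Classical RealInnerProductSpace NNReal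
open Crest.AnalysisR.Kinetic

noncomputable section

namespace Crest.Agent.R122.FluxDCT491

open Kin796 Kin796.CTree Disc416 Tree674 TreeEps399 Hid424 Generic491 GIV566 GIVStep383 IStep317
  TubeChild491 Tube818 TreeDom974 TreeLim974
open Crest.Agent.R122.Quench815 (absd absd_comm absd_self le_add_absd le_add_absd' absd_le_add
  absd_le_iff absd_triangle absd_mul_le measurable_absd absd_lintegral_le)

variable {Φ : Space3 → ℝ} {f₀ : PhasePoint → ℝ} {ι : Type} {P : CTree}


/-! ### The gain term -/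

theorem measurable_wgt_uG [Countable ι] (hΦ : AdmissiblePotential Φ) (hf : Measurable f₀) {ε : ℝ}
    (hε : 0 < ε) {T : ℝ} (hT : 0 ≤ T) {tw t : ℝ} (htw : 0 ≤ tw) (htT : t ≤ T) {Sk S : Tubes ι}
    (hSk : ∀ i, ContinuousOn (Sk.c i) (Icc 0 T)) (i : ι) (hS : ContinuousOn (S.c i) (Icc 0 T))
    (P : CTree) :
    Measurable fun q : Space3 × HPar P => wgt Φ f₀ tw t S i q.2 q.1 *
      uG Φ f₀ ε ((childT Φ ε Sk S i q.2).shift q.1) q.2.1 := by
  obtain ⟨h, hm, h2, he⟩ := exists_hL ε hT S i (hSk i) P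
  have h1 := measurable_wgt (P := P) (i := i) hΦ hf hT htw htT hS
  have h3 : Measurable fun q : Space3 × HPar P =>
      uTM Φ f₀ ε T Sk P ((q.2.1, (h q.2, q.2.2.2.2)), q.1) := by
    refine (measurable_uTM hf hΦ hε hT hSk).comp ?_
    exact (measurable_snd.fst.prodMk ((hm.comp measurable_snd).prodMk
      measurable_snd.snd.snd.snd)).prodMk measurable_fst
  have e : (fun q : Space3 × HPar P => wgt Φ f₀ tw t S i q.2 q.1 *
      uG Φ f₀ ε ((childT Φ ε Sk S i q.2).shift q.1) q.2.1) =
      fun q : Space3 × HPar P => wgt Φ f₀ tw t S i q.2 q.1 *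
        uTM Φ f₀ ε T Sk P ((q.2.1, (h q.2, q.2.2.2.2)), q.1) := by
    funext q
    by_cases hG : HGood Φ tw t S i q.2
    · obtain ⟨a1, a2, a3, a4⟩ := hG
      have hI : q.2.1 ∈ Icc 0 T := ⟨htw.trans a1.1.le, a1.2.trans htT⟩
      have e1 := uTM_eq (Φ := Φ) (f₀ := f₀) (ε := ε) (P := P) (S := Sk) (T := T)
        (z := (h q.2, q.2.2.2.2)) hI.2 (by rw [h2]; exact a4.1) q.1
      rw [e1, he _ hI]
      rfl
    · have e0 : wgt Φ f₀ tw t S i q.2 q.1 = 0 := by
        unfold wgt
        rw [if_neg hG]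
      rw [e0, zero_mul, zero_mul]
  rw [e]
  exact h1.mul h3


/-! ### The mass of the first good hits -/







end Crest.Agent.R122.FluxDCT491

end
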