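import Crest.Agent.R122.UnwF_410

/-!
# Finiteness of the unknowns of section E (row 122)

* `gcE_Y1_le` : `E Y1 ≤ 1 + E Y1²`.
* `XI_le`, `exists_XI_le` : `XI ≤ C` uniformly in `ε ≤ 1`, in `K`.
* `aE_le`, `aE_ne_top` : `aE ≤ μ E Y1²`, finite for every `ε`.
* `JE_le`, `JE_ne_top`; `tnMass_le`, `tnMass_ne_top`.
* `PE_le`, `PE_ne_top` : pairs with a marginal dominated by a measure on lines.
-/

set_option autoImplicit false
set_option linter.unusedSectionVars false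

open MeasureTheory Set Filter Topology
open scoped ENNReal
open Crest.AnalysisR.Kinetic
open Crest.Agent.R122.Flow671 Crest.Agent.R122.Loc45 Crest.Agent.R122.Causal291
open Crest.Agent.R122.Ins45
open Crest.Agent.R122.Inf879 Crest.Agent.R122.GC311 Crest.Agent.R122.Master566
open Crest.Agent.R122.Energy410 Crest.Agent.R122.EDefs602 Crest.Agent.R122.EW370
open Crest.Agent.R122.Mom974 Crest.Agent.R122.MeasE416

namespace Crest.Agent.R122.Unw410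

noncomputable section

variable {Φ : Space3 → ℝ} {f₀ : PhasePoint → ℝ} {ε : ℝ} {K : ℕ}

theorem c1_ne_top : c1 Φ ≠ ∞ := ENNReal.ofReal_ne_top

/-- `E Y1 ≤ 1 + E Y1²`. -/
theorem gcE_Y1_le (hf : Measurable f₀) (h1 : ∫⁻ z, ENNReal.ofReal (f₀ z) ≤ 1) (ε : ℝ) :
    gcE f₀ ε (fun _ w => Y1 ε w) ≤ 1 + sqY f₀ ε := by
  unfold sqY
  rw [← gcE_one f₀ ε hf h1, ← gcE_add hf ε (F := fun _ _ => 1) (fun n => measurable_const)]
  refine gcE_mono f₀ ε fun n w _ => ?_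
  rcases le_or_gt (Y1 ε w) 1 with h | h
  · exact h.trans le_self_add
  · refine le_trans ?_ le_add_self
    calc Y1 ε w = Y1 ε w * 1 := (mul_one _).symm
      _ ≤ Y1 ε w * Y1 ε w := by gcongr
      _ = _ := (sq _).symm

theorem XI_le (hΦ : AdmissiblePotential Φ) (hf : Measurable f₀) (hε : 0 < ε) (hε1 : ε ≤ 1)
    {P : EPar} (hL : 0 ≤ P.L) (hte : 0 ≤ P.te) {γ₀ : ℝ}
    (hγm : Measurable P.γ) (hγ : ∀ τ ∈ Ioc 0 P.te, γ₀ ≤ P.γ τ) (hρ : P.ρ < 1) (hγ0 : 0 < γ₀) :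
    XI Φ f₀ ε K P ≤ cX γ₀ P.ρ P.te * c1 Φ * gcE f₀ ε (fun _ w => Y1 ε w) := by
  rw [EBasic602.XI_eq hf hγm (fun n => measurable_touchW_cfg hΦ hε K P n),
    ← gcE_const_mul f₀ ε (ENNReal.mul_ne_top (cX_lt_top hγ0 hρ _).ne c1_ne_top)]
  refine gcE_mono f₀ ε fun n w hw => ?_
  refine le_trans ?_ (X_le_Y1 (K := K) hΦ hε hε1 hw hte hγm hγ le_rfl)
  have hθm : Measurable fun l : ML => (MW.cfg w).thetaL Φ ε K P.te l :=
    (MeasW.const (MW.cfg w)).thetaL hΦ hε measurable_id K measurable_const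
  have hSm : MeasurableSet {l : ML | (MW.cfg w).thetaL Φ ε K P.te l ≤ P.te} :=
    measurableSet_le hθm measurable_const
  calc ∫⁻ l, (MW.cfg w).touchW Φ ε K P l ∂lineM P.γ P.ρ K P.te
      ≤ ∫⁻ l, {l : ML | (MW.cfg w).thetaL Φ ε K P.te l ≤ P.te}.indicator (fun _ => (1 : ℝ≥0∞)) l
          ∂lineM P.γ P.ρ K P.te := by
        refine lintegral_mono fun l => ?_
        by_cases h : (MW.cfg w).thetaL Φ ε K P.te l ≤ P.te
        · rw [indicator_of_mem (show l ∈ {l : ML | (MW.cfg w).thetaL Φ ε K P.te l ≤ P.te} from h)]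
          exact EBasic602.touchW_le_one hL l
        · have h0 : (MW.cfg w).touchW Φ ε K P l = 0 := by
            unfold MW.touchW
            exact if_neg fun h' => h h'.2
          rw [h0]
          exact zero_le
    _ = (MW.cfg w).X Φ ε K P P.te := by
        rw [lintegral_indicator_const hSm, one_mul]
        rfl

/-- The total energy weight of the gas bounds the joins. -/
theorem aW_le {n : ℕ} (w : Config n) {P : EPar} {V : ℝ → ℝ≥0∞} (hV : ∀ s, V s ≤ 1) :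
    aW Φ ε K P w V ≤ (∑ i, ENNReal.ofReal (1 + ‖(w i).2‖ ^ 2)) ^ 2 := by
  have h1 : (n : ℝ≥0∞) ≤ ∑ i, ENNReal.ofReal (1 + ‖(w i).2‖ ^ 2) := by
    calc (n : ℝ≥0∞) = ∑ _i : Fin n, (1 : ℝ≥0∞) := by simp
      _ ≤ _ := Finset.sum_le_sum fun i _ => by
        rw [← ENNReal.ofReal_one]
        exact ENNReal.ofReal_le_ofReal (by nlinarith [sq_nonneg ‖(w i).2‖])
  unfold aW
  calc _ ≤ ∑ _q : Fin n, ∑ i, ENNReal.ofReal (1 + ‖(w i).2‖ ^ 2) := by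
        refine Finset.sum_le_sum fun q _ => ?_
        split_ifs
        · calc _ ≤ eW w (preC Φ ε w (iTime Φ ε K P.te w q) q) * 1 := by gcongr; exact hV _
            _ = eW w (preC Φ ε w (iTime Φ ε K P.te w q) q) := mul_one _
            _ ≤ _ := Finset.sum_le_sum_of_subset (Finset.subset_univ _)
        · exact zero_le
    _ = n * ∑ i, ENNReal.ofReal (1 + ‖(w i).2‖ ^ 2) := by simp
    _ ≤ (∑ i, ENNReal.ofReal (1 + ‖(w i).2‖ ^ 2)) * ∑ i, ENNReal.ofReal (1 + ‖(w i).2‖ ^ 2) := by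
        gcongr
    _ = _ := (sq _).symm

theorem aE_le (hε : 0 < ε) {P : EPar} (hL : 0 ≤ P.L) :
    aE Φ f₀ ε K P ≤ activity ε * sqY f₀ ε := by
  rw [aE_eq]
  unfold sqY
  rw [← gcE_const_mul f₀ ε (activity_ne_top ε)]
  refine gcE_mono f₀ ε fun n w hw => ?_
  have h := aW_le (Φ := Φ) (ε := ε) (K := K) w (P := P) (V := (MW.cfg w).Wm Φ ε K P)
    fun s => EBasic602.Wm_le_one hL s
  calc (activity ε)⁻¹ * aW Φ ε K P w ((MW.cfg w).Wm Φ ε K P)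
      ≤ (activity ε)⁻¹ * (∑ i, ENNReal.ofReal (1 + ‖(w i).2‖ ^ 2)) ^ 2 := by gcongr
    _ = 1 * ((activity ε)⁻¹ * (∑ i, ENNReal.ofReal (1 + ‖(w i).2‖ ^ 2)) ^ 2) := (one_mul _).symm
    _ = activity ε * (activity ε)⁻¹ *
        ((activity ε)⁻¹ * (∑ i, ENNReal.ofReal (1 + ‖(w i).2‖ ^ 2)) ^ 2) := by
        rw [ENNReal.mul_inv_cancel (activity_ne_zero hε) (activity_ne_top ε)]
    _ = _ := by unfold Y1; ring



/-- Pairs of lines whose first marginal is dominated by a measure on lines. -/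
theorem PE_le (hΦ : AdmissiblePotential Φ) (hε : 0 < ε) (hε1 : ε ≤ 1)
    {P : EPar} (hL : 0 ≤ P.L) (hte : 0 ≤ P.te) {γ₀ : ℝ} {γ : ℝ → ℝ} {ρ : ℝ≥0∞}
    (hγm : Measurable γ) (hγ : ∀ τ ∈ Ioc 0 P.te, γ₀ ≤ γ τ) (hρ : ρ < 1) (hγ0 : 0 < γ₀)
    {ν : Measure (ML × ML)} {c : ℝ≥0∞} (hc : c ≠ ∞)
    (hν : ∀ F : ML → ℝ≥0∞, Measurable F → ∫⁻ p, F p.1 ∂ν ≤ c * ∫⁻ d, F d ∂lineM γ ρ K P.te) :
    PE Φ f₀ ε K P ν ≤ c * (cX γ₀ ρ P.te * c1 Φ) * gcE f₀ ε (fun _ w => Y1 ε w) := by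
  unfold PE
  rw [← gcE_const_mul f₀ ε (ENNReal.mul_ne_top hc (ENNReal.mul_ne_top (cX_lt_top hγ0 hρ _).ne
    c1_ne_top))]
  refine gcE_mono f₀ ε fun n w hw => ?_
  have hθm : Measurable fun l : ML => (MW.cfg w).thetaL Φ ε K P.te l :=
    (MeasW.const (MW.cfg w)).thetaL hΦ hε measurable_id K measurable_const
  have hSm : MeasurableSet {l : ML | (MW.cfg w).thetaL Φ ε K P.te l ≤ P.te} :=
    measurableSet_le hθm measurable_const
  calc ∫⁻ p, (MW.cfg w).touchP Φ ε K P p.1 p.2 ∂ν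
      ≤ ∫⁻ p : ML × ML, {l : ML | (MW.cfg w).thetaL Φ ε K P.te l ≤ P.te}.indicator
          (fun _ => (1 : ℝ≥0∞)) p.1 ∂ν := by
        refine lintegral_mono fun p => ?_
        by_cases h : (MW.cfg w).thetaL Φ ε K P.te p.1 ≤ P.te
        · rw [indicator_of_mem
            (show p.1 ∈ {l : ML | (MW.cfg w).thetaL Φ ε K P.te l ≤ P.te} from h)]
          exact EBasic602.touchP_le_one hL _ _
        · have h0 : (MW.cfg w).touchP Φ ε K P p.1 p.2 = 0 := by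
            unfold MW.touchP
            exact if_neg fun h' => h (h'.2.1.trans h'.2.2)
          rw [h0]
          exact zero_le
    _ ≤ c * ∫⁻ l, {l : ML | (MW.cfg w).thetaL Φ ε K P.te l ≤ P.te}.indicator
          (fun _ => (1 : ℝ≥0∞)) l ∂lineM γ ρ K P.te := hν _ (measurable_const.indicator hSm)
    _ = c * lineM γ ρ K P.te {l : ML | (MW.cfg w).thetaL Φ ε K P.te l ≤ P.te} := by
        rw [lintegral_indicator_const hSm, one_mul]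
    _ ≤ c * (cX γ₀ ρ P.te * Yf Φ ε w) := by
        gcongr
        exact lineM_theta_le hΦ hε hε1 hw hte hγm hγ ρ le_rfl
    _ ≤ c * (cX γ₀ ρ P.te * (c1 Φ * Y1 ε w)) := by gcongr; exact Yf_le hε w
    _ = _ := by ring

/-! ## Finiteness -/

section fin

variable {g : ℝ} (hΦ : AdmissiblePotential Φ) (hf : Measurable f₀)
  (h1 : ∫⁻ z, ENNReal.ofReal (f₀ z) ≤ 1) (hg : 0 < g)
  (hb : HasSummableGaussianBound g (fun x v => f₀ (x, v)))
include hf h1 hg hb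

/-- The second moment of `Y1` is finite for every `ε > 0`. -/
theorem sqY_ne_top (hε : 0 < ε) : sqY f₀ ε ≠ ∞ := by
  obtain ⟨h2, h3⟩ := lintegral_f0_weight_ne_top hg hb
  have h4 := gcE_sq_le hf h1 hε (fun z => ENNReal.ofReal (1 + ‖z.2‖ ^ 2)) (by fun_prop)
  refine ne_top_of_le_ne_top ?_ h4
  exact ENNReal.add_ne_top.2 ⟨ENNReal.pow_ne_top h2,
    ENNReal.mul_ne_top (ENNReal.inv_ne_top.2 (activity_ne_zero hε)) h3⟩

theorem gcE_Y1_ne_top (hε : 0 < ε) : gcE f₀ ε (fun _ w => Y1 ε w) ≠ ∞ :=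
  ne_top_of_le_ne_top (ENNReal.add_ne_top.2 ⟨ENNReal.one_ne_top, sqY_ne_top hf h1 hg hb hε⟩)
    (gcE_Y1_le hf h1 ε)


theorem aE_ne_top (hε : 0 < ε) {P : EPar} (hL : 0 ≤ P.L) : aE Φ f₀ ε K P ≠ ∞ :=
  ne_top_of_le_ne_top (ENNReal.mul_ne_top (activity_ne_top ε) (sqY_ne_top hf h1 hg hb hε))
    (aE_le hε hL)

include hΦ


theorem XI_ne_top (hε : 0 < ε) (hε1 : ε ≤ 1) {P : EPar} (hP : PGood P) : XI Φ f₀ ε K P ≠ ∞ := by
  obtain ⟨γ₀, hγ0, hγ⟩ := hP.gam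
  exact ne_top_of_le_ne_top (ENNReal.mul_ne_top (ENNReal.mul_ne_top (cX_lt_top hγ0 hP.rho _).ne
    c1_ne_top) (gcE_Y1_ne_top hf h1 hg hb hε))
    (XI_le hΦ hf hε hε1 hP.L (hP.tw.trans hP.te) hP.meas hγ hP.rho hγ0)



theorem PE_ne_top (hε : 0 < ε) (hε1 : ε ≤ 1) {P : EPar} (hL : 0 ≤ P.L) (hte : 0 ≤ P.te) {γ₀ : ℝ}
    {γ : ℝ → ℝ} {ρ : ℝ≥0∞} (hγm : Measurable γ) (hγ : ∀ τ ∈ Ioc 0 P.te, γ₀ ≤ γ τ) (hρ : ρ < 1)
    (hγ0 : 0 < γ₀) {ν : Measure (ML × ML)} {c : ℝ≥0∞} (hc : c ≠ ∞)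
    (hν : ∀ F : ML → ℝ≥0∞, Measurable F → ∫⁻ p, F p.1 ∂ν ≤ c * ∫⁻ d, F d ∂lineM γ ρ K P.te) :
    PE Φ f₀ ε K P ν ≠ ∞ :=
  ne_top_of_le_ne_top (ENNReal.mul_ne_top (ENNReal.mul_ne_top hc
    (ENNReal.mul_ne_top (cX_lt_top hγ0 hρ _).ne c1_ne_top))
    (gcE_Y1_ne_top hf h1 hg hb hε)) (PE_le hΦ hε hε1 hL hte hγm hγ hρ hγ0 hc hν)

end fin

end

end Crest.Agent.R122.Unw410
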