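import Crest.Agent.R122.TopDefs_602
import Crest.Agent.R122.UnwF_410
import Crest.Agent.R122.EMDefs_602
import Crest.Agent.R122.Fin_410

-- ▼ part R122/Top_602
section

/-!
# Row 122: the top skeleton

`ih_of_steps` : induction over windows.
`result_of_steps` : the statement of S0162 from `EStep`, `FStep`, `FinStep`.
-/

set_option autoImplicit false

open MeasureTheory Set Filter Topology
open scoped ENNReal
open Crest.AnalysisR.Kinetic
open Crest.Agent.R122.Master566 Crest.Agent.R122.EDefs602 Crest.Agent.R122.GIV566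

namespace Crest.Agent.R122.Top602

noncomputable section

section base

variable {Φ : Space3 → ℝ} {β T : ℝ} {f₀ : PhasePoint → ℝ} {f : ℝ → PhasePoint → ℝ} {γ : ℝ → ℝ}
  {ρ : ℝ≥0∞}

/-- `JSup` at time `0`. -/
theorem JSup_zero (hΦ : AdmissiblePotential Φ) : JSup Φ f₀ 0 := by
  intro δ _
  refine ⟨1, fun K hK => ⟨1, one_pos, fun ε hε _ => ?_⟩⟩
  refine iSup₂_le fun s hs => ?_
  have h0 : s = 0 := le_antisymm hs.2 hs.1
  subst h0
  exact (EBasic602.JE_zero hΦ hε hK).le.trans zero_le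

theorem JSup.mono {t t' : ℝ} (h : t ≤ t') (ht : JSup Φ f₀ t') : JSup Φ f₀ t :=
  Small.mono ht fun _ _ _ => iSup₂_le fun s hs =>
    le_iSup₂_of_le (f := fun (s : ℝ) (_ : s ∈ Icc 0 t') => JE Φ f₀ _ _ s) s
      ⟨hs.1, hs.2.trans h⟩ le_rfl

theorem JSup.je {s t : ℝ} (ht : JSup Φ f₀ t) (hs : s ∈ Icc 0 t) : JS Φ f₀ s :=
  Small.mono ht fun _ _ _ =>
    le_iSup₂_of_le (f := fun (s : ℝ) (_ : s ∈ Icc 0 t) => JE Φ f₀ _ _ s) s hs le_rfl

/-- The base case. -/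
theorem IH_zero (hD : KData Φ β T f₀ f) : IH Φ f₀ f T γ ρ 0 :=
  ⟨JSup_zero hD.adm, EBasic602.TN_zero, GIV_zero hD⟩

/-- Induction over windows. -/
theorem ih_of_steps (hD : KData Φ β T f₀ f) (hE : EStep Φ f₀ f T γ ρ)
    (hF : FStep Φ f₀ f T γ ρ) : IH Φ f₀ f T γ ρ T := by
  obtain ⟨h₁, hh₁, hE⟩ := hE
  obtain ⟨h₂, hh₂, hF⟩ := hF
  set h := min h₁ h₂ with hh
  have hpos : 0 < h := lt_min hh₁ hh₂
  have hT := hD.T_pos
  have step : ∀ tw te : ℝ, Win h T tw te → IH Φ f₀ f T γ ρ tw → IH Φ f₀ f T γ ρ te := by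
    intro tw te hw hI
    have w₁ : Win h₁ T tw te := ⟨hw.nonneg, hw.le, hw.le_T,
      hw.short.trans (by linarith [min_le_left h₁ h₂])⟩
    have w₂ : Win h₂ T tw te := ⟨hw.nonneg, hw.le, hw.le_T,
      hw.short.trans (by linarith [min_le_right h₁ h₂])⟩
    obtain ⟨h1, h2⟩ := hE tw te w₁ hI
    exact ⟨h1, h2, hF tw te w₂ hI h1 h2⟩
  obtain ⟨N, hN⟩ := exists_nat_gt (T / h)
  have key : ∀ m : ℕ, IH Φ f₀ f T γ ρ (min (m * h) T) := by
    intro m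
    induction m with
    | zero =>
      have : min ((0 : ℕ) * h) T = 0 := by simp [hT.le]
      rw [this]
      exact IH_zero hD
    | succ m ih =>
      refine step _ _ ⟨le_min (by positivity) hT.le, ?_, min_le_right _ _, ?_⟩ ih
      · refine min_le_min_right _ ?_
        push_cast
        nlinarith
      · rcases le_total (m * h) T with h1 | h1
        · rw [min_eq_left h1]
          refine (min_le_left _ _).trans ?_
          push_cast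
          linarith
        · rw [min_eq_right h1]
          exact (min_le_right _ _).trans (by linarith)
  have h3 := key N
  rwa [min_eq_right] at h3
  rw [div_lt_iff₀ hpos] at hN
  exact hN.le

end base

/-- **The statement of S0162 from the three steps.** -/
theorem result_of_steps
    (H : ∀ (Φ : Space3 → ℝ) (β T : ℝ) (f₀ : PhasePoint → ℝ) (f : ℝ → PhasePoint → ℝ),
      KData Φ β T f₀ f → ∃ (γ : ℝ → ℝ) (ρ : ℝ≥0∞),
        EStep Φ f₀ f T γ ρ ∧ FStep Φ f₀ f T γ ρ ∧ FinStep Φ f₀ f T γ ρ)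
    (Φ : Space3 → ℝ) (hΦ : AdmissiblePotential Φ) (β : ℝ) (hβ : 0 < β) (T : ℝ) (hT : 0 < T)
    (f₀ : PhasePoint → ℝ) (hf₀ : ∀ z, 0 ≤ f₀ z) (hf₀d : ContDiff ℝ 1 f₀)
    (hf₀i : Integrable f₀) (hf₀m : ∫ z, f₀ z = 1)
    (hf₀b : HasSummableGaussianBound (2 * β) (fun x v => f₀ (x, v)))
    (hf₀g : HasSummableGaussianBound (2 * β) (fun x v => fderiv ℝ (fun y => f₀ (y, v)) x))
    (f : ℝ → PhasePoint → ℝ) (hf : IsRegularKineticSolution Φ β T f₀ f)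
    (Ψ : ℝ → (n : ℕ) → ℝ → Config n → Config n)
    (hΨ : ∀ ε : ℝ, 0 < ε → IsNewtonianEvolution Φ ε (Ψ ε))
    (s : ℕ) (hs : 1 ≤ s) (δ : ℝ) (hδ : 0 < δ) :
    ∃ ε₀ : ℝ, 0 < ε₀ ∧ ∀ ε : ℝ, 0 < ε → ε < ε₀ → ∀ t ∈ Set.Icc 0 T,
      ∀ A : Set (Config s), MeasurableSet A →
        factorialMarginal f₀ ε (Ψ ε) s t A ≤
            (∫⁻ Z in A, ∏ k, ENNReal.ofReal (f t (Z k))) + ENNReal.ofReal δ ∧
          (∫⁻ Z in A, ∏ k, ENNReal.ofReal (f t (Z k))) ≤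
            factorialMarginal f₀ ε (Ψ ε) s t A + ENNReal.ofReal δ := by
  have hD : KData Φ β T f₀ f := ⟨hΦ, hβ, hT, hf₀, hf₀d, hf₀i, hf₀m, hf₀b, hf₀g, hf⟩
  obtain ⟨γ, ρ, hE, hF, hFin⟩ := H Φ β T f₀ f hD
  have hI := ih_of_steps hD hE hF
  have hL : FM167.LowerTV f₀ f T Ψ s := lowerTV_congr hΦ hΨ (hFin hI s hs)
  exact FM167.conclusion_of_lowerTV Φ β T f₀ hf₀ hf₀d hf₀i hf₀m f hf Ψ hΨ s hL δ hδ

end

end Crest.Agent.R122.Top602
end

-- ▼ part R122/UnwSup_984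
section

/-!
# Unweighting, uniformly in time (row 122)

* `JE_le` : `JE s ≤ JE tw + C e^{LM} aE + C / M` for every `s ∈ [tw, te]` (horizon `te` of `aE`).
* `JSup_te` : the version for `Top602.JSup`, as consumed by `Top602.EStep`.
* `JSup_TN_te` : both conclusions of `EStep` from `IH tw`, `Small aE`, `Small XI`.
-/

set_option autoImplicit false
set_option linter.unusedSectionVars false

open MeasureTheory Set Filter Topology
open scoped ENNReal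
open Crest.AnalysisR.Kinetic
open Crest.Agent.R122.Flow671 Crest.Agent.R122.Loc45 Crest.Agent.R122.Causal291
open Crest.Agent.R122.Ins45
open Crest.Agent.R122.Inf879 Crest.Agent.R122.GC311 Crest.Agent.R122.Master566
open Crest.Agent.R122.Energy410 Crest.Agent.R122.EDefs602 Crest.Agent.R122.EW370
open Crest.Agent.R122.Mom974 Crest.Agent.R122.MeasE416 Crest.Agent.R122.Unw410

namespace Crest.Agent.R122.Unw984

noncomputable section

variable {Φ : Space3 → ℝ} {f₀ : PhasePoint → ℝ} {ε : ℝ} {K : ℕ}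

/-- **(U4)** at every time of the window: the energy of the infected family. -/
theorem JE_le (hΦ : AdmissiblePotential Φ) (hf : Measurable f₀) (hε : 0 < ε) (hε1 : ε ≤ 1)
    {P : EPar} (hL : 0 ≤ P.L) (htw : 0 ≤ P.tw) {s : ℝ} (hs1 : P.tw ≤ s) (hs2 : s ≤ P.te)
    {γ₀ : ℝ} (hγm : Measurable P.γ) (hγ : ∀ τ ∈ Ioc 0 P.te, γ₀ ≤ P.γ τ) {M : ℝ} (hM : 0 < M)
    (hρ : P.ρ < 1) (hγ0 : 0 < γ₀) :
    JE Φ f₀ ε K s ≤ JE Φ f₀ ε K P.tw +
      ENNReal.ofReal (cB Φ) * ENNReal.ofReal (Real.exp (P.L * M)) * aE Φ f₀ ε K P +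
      (c1 Φ * (cX γ₀ P.ρ P.te * c1 Φ)) / ENNReal.ofReal M * sqY f₀ ε := by
  have hte : P.tw ≤ P.te := hs1.trans hs2
  have hcX : cX γ₀ P.ρ P.te ≠ ∞ := (cX_lt_top hγ0 hρ _).ne
  have hc1 : c1 Φ ≠ ∞ := ENNReal.ofReal_ne_top
  have hMt : (c1 Φ * (cX γ₀ P.ρ P.te * c1 Φ)) / ENNReal.ofReal M ≠ ∞ :=
    ENNReal.div_ne_top (ENNReal.mul_ne_top hc1 (ENNReal.mul_ne_top hcX hc1)) (by simpa using hM)
  have hpt : ∀ n, ∀ w ∈ PairExcluded ε n, (activity ε)⁻¹ *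
      ENNReal.ofReal (Jeng Φ ε (bad Φ ε K (w : Config n) s) (flow Φ ε s w)) ≤
      (activity ε)⁻¹ *
        ENNReal.ofReal (Jeng Φ ε (bad Φ ε K (w : Config n) P.tw) (flow Φ ε P.tw w)) +
      ENNReal.ofReal (cB Φ) * ENNReal.ofReal (Real.exp (P.L * M)) * ((activity ε)⁻¹ *
        aW Φ ε K P (w : Config n) ((MW.cfg w).Wm Φ ε K P)) +
      (c1 Φ * (cX γ₀ P.ρ P.te * c1 Φ)) / ENNReal.ofReal M * Y1 ε w ^ 2 := by
    intro n w hw
    rcases le_or_gt ((MW.cfg w).X Φ ε K P P.te) (ENNReal.ofReal M) with hX | hX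
    · refine le_trans ?_ (le_self_add)
      have h1 := ofReal_Jeng_bad_le (K := K) hΦ hε hw htw hs1 hs2
      have h2 : ∑ p ∈ bad Φ ε K w s \ bad Φ ε K w P.tw,
          eW w (preC Φ ε w (iTime Φ ε K P.te w p) p) ≤ ENNReal.ofReal (Real.exp (P.L * M)) *
            aW Φ ε K P w ((MW.cfg w).Wm Φ ε K P) := by
        refine le_exp_mul (sum_window_le hΦ hε w htw hs1 hs2 fun p hp => ?_)
        exact Wm_ge hL hM.le hX ((mem_window hΦ hε w htw hs1 hs2 hp).2.trans hs2)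
      calc _ ≤ (activity ε)⁻¹ *
            (ENNReal.ofReal (Jeng Φ ε (bad Φ ε K w P.tw) (flow Φ ε P.tw w)) +
              ENNReal.ofReal (cB Φ) * (ENNReal.ofReal (Real.exp (P.L * M)) *
            aW Φ ε K P w ((MW.cfg w).Wm Φ ε K P))) := by
            gcongr
            exact h1.trans (by gcongr)
        _ = _ := by ring
    · refine le_trans ?_ (le_add_self)
      have h1 : ENNReal.ofReal (Jeng Φ ε (bad Φ ε K w s) (flow Φ ε s w)) ≤
          ENNReal.ofReal (totE Φ w) := ENNReal.ofReal_le_ofReal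
        (Jeng_le_total hΦ hε (far_of_mem hw) (htw.trans hs1)
          fun i hi j hj => (bad_iso w s i hi j hj).le)
      have h2 := one_le_of_lt hM hX (X_le_Y1 hΦ hε hε1 hw (htw.trans hte) hγm hγ le_rfl)
      calc _ ≤ (activity ε)⁻¹ * ENNReal.ofReal (totE Φ w) := by gcongr
        _ ≤ c1 Φ * Y1 ε w := act_totE_le w
        _ ≤ c1 Φ * Y1 ε w * (cX γ₀ P.ρ P.te * c1 Φ * Y1 ε w / ENNReal.ofReal M) :=
            le_mul_of_one_le_right' h2
        _ = _ := by simp only [div_eq_mul_inv]; ring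
  have hm1 : ∀ n, Measurable fun w : Config n => (activity ε)⁻¹ *
        ENNReal.ofReal (Jeng Φ ε (bad Φ ε K (w : Config n) P.tw) (flow Φ ε P.tw w)) := fun n =>
    (measurable_Jeng_bad hΦ hε n P.tw).ennreal_ofReal.const_mul _
  have hm2 : ∀ n, Measurable fun w : Config n => (activity ε)⁻¹ *
        aW Φ ε K P (w : Config n) ((MW.cfg w).Wm Φ ε K P) := fun n =>
    measurable_aE_integrand hΦ hε K P n
  calc JE Φ f₀ ε K s ≤ gcE f₀ ε (fun n w => ((activity ε)⁻¹ *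
        ENNReal.ofReal (Jeng Φ ε (bad Φ ε K (w : Config n) P.tw) (flow Φ ε P.tw w)) +
      ENNReal.ofReal (cB Φ) * ENNReal.ofReal (Real.exp (P.L * M)) * ((activity ε)⁻¹ *
        aW Φ ε K P (w : Config n) ((MW.cfg w).Wm Φ ε K P))) +
      (c1 Φ * (cX γ₀ P.ρ P.te * c1 Φ)) / ENNReal.ofReal M * Y1 ε w ^ 2) := by
        rw [JE_eq]
        exact gcE_mono f₀ ε hpt
    _ = _ := by
        rw [gcE_add hf ε (F := fun n w => (activity ε)⁻¹ *
        ENNReal.ofReal (Jeng Φ ε (bad Φ ε K (w : Config n) P.tw) (flow Φ ε P.tw w)) +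
      ENNReal.ofReal (cB Φ) * ENNReal.ofReal (Real.exp (P.L * M)) * ((activity ε)⁻¹ *
        aW Φ ε K P (w : Config n) ((MW.cfg w).Wm Φ ε K P)))
          (fun n => (hm1 n).add ((hm2 n).const_mul _)), gcE_add hf ε hm1,
          gcE_const_mul f₀ ε (ENNReal.mul_ne_top ENNReal.ofReal_ne_top ENNReal.ofReal_ne_top),
          gcE_const_mul f₀ ε hMt]
        rfl

/-- **The energy-weighted no-escape property, uniformly in time, propagates through the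
window.** -/
theorem JSup_te (hΦ : AdmissiblePotential Φ) (hf : Measurable f₀)
    (h1 : ∫⁻ z, ENNReal.ofReal (f₀ z) ≤ 1) {g : ℝ} (hg : 0 < g)
    (hb : HasSummableGaussianBound g (fun x v => f₀ (x, v))) {P : EPar} (hP : PGood P)
    (hJ : Top602.JSup Φ f₀ P.tw) (ha : Small fun K ε => aE Φ f₀ ε K P) :
    Top602.JSup Φ f₀ P.te := by
  obtain ⟨γ₀, hγ0, hγ⟩ := hP.gam
  obtain ⟨C, hC, hCε⟩ := exists_sqY_le hg hf h1 hb
  have hc : c1 Φ * (cX γ₀ P.ρ P.te * c1 Φ) ≠ ∞ :=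
    ENNReal.mul_ne_top ENNReal.ofReal_ne_top
      (ENNReal.mul_ne_top (cX_lt_top hγ0 hP.rho _).ne ENNReal.ofReal_ne_top)
  choose M hM hMle using fun (δ : ℝ) (hδ : 0 < δ) => exists_M_le hc hC hδ
  refine Small.of_forall_le (Q := fun δ K ε => (⨆ s ∈ Icc 0 P.tw, JE Φ f₀ ε K s) +
    ENNReal.ofReal (cB Φ) *
    ENNReal.ofReal (Real.exp (P.L * if hδ : 0 < δ then M δ hδ else 0)) * aE Φ f₀ ε K P) ?_ ?_
  · intro δ hδ
    exact Small.add hJ (ha.const_mul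
      (ENNReal.mul_ne_top ENNReal.ofReal_ne_top ENNReal.ofReal_ne_top))
  · intro δ hδ
    refine (EvK.of_eps one_pos fun K ε hε hε1 => ?_).ev
    rw [dif_pos hδ]
    refine iSup₂_le fun s hs => ?_
    rcases le_total s P.tw with h | h
    · refine le_trans ?_ (le_add_self)
      refine le_trans ?_ (le_self_add)
      exact le_iSup₂_of_le (f := fun (s : ℝ) (_ : s ∈ Icc 0 P.tw) => JE Φ f₀ ε K s) s
        ⟨hs.1, h⟩ le_rfl
    refine (JE_le hΦ hf hε hε1.le hP.L hP.tw h hs.2 hP.meas hγ (hM δ hδ) hP.rho hγ0).trans ?_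
    rw [add_comm (ENNReal.ofReal δ)]
    refine add_le_add (add_le_add ?_ le_rfl) ?_
    · exact le_iSup₂_of_le (f := fun (s : ℝ) (_ : s ∈ Icc 0 P.tw) => JE Φ f₀ ε K s) P.tw
        ⟨hP.tw, le_rfl⟩ le_rfl
    · refine le_trans ?_ (hMle δ hδ)
      gcongr
      exact hCε ε hε hε1.le

/-- Both conclusions of `EStep` from the induction hypothesis at `tw` and the smallness of the two
unknowns. -/
theorem JSup_TN_te {β T : ℝ} {f : ℝ → PhasePoint → ℝ} (hD : KData Φ β T f₀ f) {P : EPar}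
    (hP : PGood P) (hIH : Top602.IH Φ f₀ f T P.γ P.ρ P.tw)
    (ha : Small fun K ε => aE Φ f₀ ε K P) (hx : Small fun K ε => XI Φ f₀ ε K P) :
    Top602.JSup Φ f₀ P.te ∧ TN Φ f₀ P.γ P.ρ P.te := by
  have hfm : Measurable f₀ := hD.contDiff.continuous.measurable
  have hf1 : ∫⁻ z, ENNReal.ofReal (f₀ z) ≤ 1 :=
    (FM167.lintegral_density_eq_one hD.nonneg hD.integrable hD.mass).le
  have hβ : 0 < 2 * β := by linarith [hD.beta_pos]
  exact ⟨JSup_te hD.adm hfm hf1 hβ hD.gaussian hP hIH.je ha,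
    TN_te hD.adm hfm hf1 hβ hD.gaussian hP hIH.tn hx⟩

end

end Crest.Agent.R122.Unw984
end

-- ▼ part R122/EMaster_602

/-!
# Row 122: closing of section E (helper602)

`eStep_of_ineqs` : the window step `EStep` from the three inequalities.
-/

set_option autoImplicit false

open MeasureTheory Set Filter Topology
open scoped ENNReal
open Crest.AnalysisR.Kinetic
open Crest.Agent.R122.Master566 Crest.Agent.R122.EDefs602 Crest.Agent.R122.GIV566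
open Crest.Agent.R122.Unw410

namespace Crest.Agent.R122.Top602

noncomputable section

variable {Φ : Space3 → ℝ} {β T : ℝ} {f₀ : PhasePoint → ℝ} {f : ℝ → PhasePoint → ℝ} {γ : ℝ → ℝ}
  {ρ : ℝ≥0∞}

theorem pGood_epar {g1 : ℝ} {r1 : ℝ≥0∞} (hl : LinePar g1 r1 T γ ρ) {L tw te : ℝ} (hL : 0 ≤ L)
    (h0 : 0 ≤ tw) (h1 : tw ≤ te) (h2 : te ≤ T) : PGood (epar γ ρ L tw te) := by
  obtain ⟨γ₀, hγ0, hγ⟩ := hl.lower
  exact ⟨hL, h0, h1, hl.measurable, hl.hi, γ₀, hγ0, fun τ hτ => hγ τ (hτ.2.trans h2)⟩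

/-- the arithmetic of the closing -/
theorem cols {tau C β' α o1 o2 s : ℝ≥0∞} (hτ : tau ≤ 8⁻¹) (h1 : o1 ≤ 8⁻¹) (h1' : o1 ≤ α * 8⁻¹)
    (hα : α * C ≤ 8⁻¹) (h2 : o2 ≤ 8⁻¹) (h3 : β' * s ≤ 8⁻¹) (h3' : β' * s ≤ α * 8⁻¹)
    {C' : ℝ≥0∞} (hC' : C' ≤ β' * 4⁻¹) (hs : s ≤ 4⁻¹) :
    ((tau + o1) + α * C + β' * s ≤ 1 / 2) ∧ (o1 + α * o2 + β' * s ≤ α / 2) ∧
      (C' + α * 0 + β' * s ≤ β' / 2) := by
  have e8 : (8⁻¹ : ℝ≥0∞) + 8⁻¹ = 4⁻¹ := by
    rw [← two_mul, show (8 : ℝ≥0∞) = 2 * 4 by norm_num, ENNReal.mul_inv (by norm_num) (by norm_num),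
      ← mul_assoc, ENNReal.mul_inv_cancel (by norm_num) (by norm_num), one_mul]
  have e4 : (4⁻¹ : ℝ≥0∞) + 4⁻¹ = 1 / 2 := by
    rw [← two_mul, show (4 : ℝ≥0∞) = 2 * 2 by norm_num, ENNReal.mul_inv (by norm_num) (by norm_num),
      ← mul_assoc, ENNReal.mul_inv_cancel (by norm_num) (by norm_num), one_mul, one_div]
  refine ⟨?_, ?_, ?_⟩
  · calc (tau + o1) + α * C + β' * s ≤ (8⁻¹ + 8⁻¹) + 8⁻¹ + 8⁻¹ := by gcongr
      _ = (8⁻¹ + 8⁻¹) + (8⁻¹ + 8⁻¹) := by ring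
      _ = 1 / 2 := by rw [e8, e4]
  · calc o1 + α * o2 + β' * s ≤ α * 8⁻¹ + α * 8⁻¹ + α * 8⁻¹ := by gcongr
      _ ≤ α * 8⁻¹ + α * 8⁻¹ + α * 8⁻¹ + α * 8⁻¹ := le_self_add
      _ = α * ((8⁻¹ + 8⁻¹) + (8⁻¹ + 8⁻¹)) := by ring
      _ = α / 2 := by rw [e8, e4, mul_div, mul_one]
  · calc C' + α * 0 + β' * s ≤ β' * 4⁻¹ + 0 + β' * 4⁻¹ := by
          rw [mul_zero]
          gcongr
      _ = β' * (4⁻¹ + 4⁻¹) := by ring
      _ = β' / 2 := by rw [e4, mul_div, mul_one]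

/-- **The window step of section E from the three inequalities.** -/
theorem eStep_of_ineqs (hD : KData Φ β T f₀ f) {g1 : ℝ} {r1 : ℝ≥0∞} (hl : LinePar g1 r1 T γ ρ)
    {PM : PMass} (hI1 : Ineq1 Φ f₀ f T γ ρ PM) (hI2 : Ineq2 Φ f₀ f T γ ρ)
    (hI3 : Ineq3 Φ f₀ f T γ ρ PM) (hF : FinPM Φ f₀ f T γ ρ PM) : EStep Φ f₀ f T γ ρ := by
  -- the constants
  obtain ⟨τ, hτ, hI1⟩ := hI1
  have h8 : (0 : ℝ≥0∞) < 8⁻¹ := by simp
  obtain ⟨m, hm⟩ : ∃ m, τ m ≤ 8⁻¹ := ((hτ.eventually (gt_mem_nhds h8)).exists).imp fun _ h => h.le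
  obtain ⟨C1, hC1, o1, ho1, hI1⟩ := hI1 m
  obtain ⟨C2, hC2, o2, ho2, hI2⟩ := hI2
  have hC2' : C2 + 1 ≠ ∞ := by simpa using hC2
  set α : ℝ≥0∞ := (8 * (C2 + 1))⁻¹ with hα
  have hα0 : α ≠ 0 := by
    rw [hα, Ne, ENNReal.inv_eq_zero]
    exact ENNReal.mul_ne_top (by norm_num) hC2'
  have hαt : α ≠ ∞ := by
    rw [hα, Ne, ENNReal.inv_eq_top]
    simp
  have hαC : α * C2 ≤ 8⁻¹ := by
    rw [hα, ENNReal.mul_inv (by norm_num) (by norm_num)]
    calc 8⁻¹ * (C2 + 1)⁻¹ * C2 ≤ 8⁻¹ * (C2 + 1)⁻¹ * (C2 + 1) := by gcongr; exact le_self_add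
      _ = 8⁻¹ := by rw [mul_assoc, ENNReal.inv_mul_cancel (by simp) hC2', mul_one]
  set β' : ℝ≥0∞ := 4 * C1 + 1 with hβ'
  have hβt : β' ≠ ∞ := by
    rw [hβ']
    exact ENNReal.add_ne_top.2 ⟨ENNReal.mul_ne_top (by norm_num) hC1, by norm_num⟩
  have hβ0 : β' ≠ 0 := by simp [hβ']
  have hC1β : C1 ≤ β' * 4⁻¹ := by
    rw [hβ', add_mul, mul_comm 4 C1, mul_assoc, ENNReal.mul_inv_cancel (by norm_num) (by norm_num),
      mul_one]
    exact le_self_add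
  -- the bound for the coefficients of the third inequality
  set η : ℝ≥0∞ := min (8⁻¹ / β') (min (α * 8⁻¹ / β') 4⁻¹) / 2 with hη
  have hη0 : 0 < η := by
    refine ENNReal.div_pos (ne_of_gt ?_) (by norm_num)
    refine lt_min (ENNReal.div_pos h8.ne' hβt) (lt_min (ENNReal.div_pos ?_ hβt) (by simp))
    exact mul_ne_zero hα0 h8.ne'
  have hs : ∀ s : ℝ≥0∞, s ≤ η + η → β' * s ≤ 8⁻¹ ∧ β' * s ≤ α * 8⁻¹ ∧ s ≤ 4⁻¹ := by
    intro s hs
    have h2 : s ≤ min (8⁻¹ / β') (min (α * 8⁻¹ / β') 4⁻¹) := by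
      rwa [hη, ENNReal.add_halves] at hs
    refine ⟨?_, ?_, h2.trans ((min_le_right _ _).trans (min_le_right _ _))⟩
    · calc β' * s ≤ β' * (8⁻¹ / β') := by gcongr; exact h2.trans (min_le_left _ _)
        _ = 8⁻¹ := ENNReal.mul_div_cancel hβ0 hβt
    · calc β' * s ≤ β' * (α * 8⁻¹ / β') := by
            gcongr
            exact h2.trans ((min_le_right _ _).trans (min_le_left _ _))
        _ = α * 8⁻¹ := ENNReal.mul_div_cancel hβ0 hβt
  obtain ⟨σ, hσ, hI3⟩ := hI3 m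
  obtain ⟨r, hr0, hr1, hσr⟩ : ∃ r : ℝ, 0 < r ∧ r ≤ 1 ∧ σ r ≤ η := by
    have h1 : ∀ᶠ r in 𝓝[>] (0 : ℝ), σ r < η := hσ.eventually (gt_mem_nhds hη0)
    have h2 : ∀ᶠ r in 𝓝[>] (0 : ℝ), r ∈ Ioc (0 : ℝ) 1 := Ioc_mem_nhdsGT one_pos
    obtain ⟨r, h1, h2⟩ := (h1.and h2).exists
    exact ⟨r, h2.1, h2.2, h1.le⟩
  obtain ⟨o3, ho3, hI3⟩ := hI3 r hr0 hr1
  obtain ⟨h₁, hh₁, L₁, hI⟩ := ((hI1.and hI2).and hI3).and (hF m)
  have hηα : 0 < α * 8⁻¹ := pos_iff_ne_zero.2 (mul_ne_zero hα0 h8.ne')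
  obtain ⟨ha, ha0, La, hLa⟩ := ho1 (min 8⁻¹ (α * 8⁻¹)) (lt_min h8 hηα)
  obtain ⟨hb, hb0, Lb, hLb⟩ := ho2 8⁻¹ h8
  obtain ⟨hc, hc0, Lc, hLc⟩ := ho3 η hη0
  set h : ℝ := min h₁ (min ha (min hb hc)) with hh
  have hpos : 0 < h := lt_min hh₁ (lt_min ha0 (lt_min hb0 hc0))
  set L : ℝ := max (max 1 L₁) (max La (max Lb Lc)) with hL
  have hL1 : 1 ≤ L := (le_max_left _ _).trans (le_max_left _ _)
  have hL2 : L₁ ≤ L := (le_max_right _ _).trans (le_max_left _ _)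
  have hh1 : h ≤ h₁ := min_le_left _ _
  have k1 := hLa h L hpos ((min_le_right _ _).trans (min_le_left _ _))
    ((le_max_left _ _).trans (le_max_right _ _))
  have k2 := hLb h L hpos ((min_le_right _ _).trans ((min_le_right _ _).trans (min_le_left _ _)))
    ((le_max_left _ _).trans ((le_max_right _ _).trans (le_max_right _ _)))
  have k3 := hLc h L hpos ((min_le_right _ _).trans ((min_le_right _ _).trans (min_le_right _ _)))
    ((le_max_right _ _).trans ((le_max_right _ _).trans (le_max_right _ _)))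
  obtain ⟨s1, s2, s3⟩ := hs (σ r + o3 h L) (add_le_add hσr k3)
  obtain ⟨c1, c2, c3⟩ := cols hm (k1.trans (min_le_left _ _)) (k1.trans (min_le_right _ _)) hαC k2
    s1 s2 hC1β s3
  refine ⟨h, hpos, fun tw te hw hIH => ?_⟩
  obtain ⟨⟨⟨hi1, hi2⟩, hi3⟩, hi4⟩ := hI h L tw te hpos hh1 hL2 hL1 hw
  obtain ⟨S1, hS1, hE1⟩ := hi1 hIH
  obtain ⟨S2, hS2, hE2⟩ := hi2 hIH
  obtain ⟨S3, hS3, hE3⟩ := hi3 hIH
  have hP : PGood (epar γ ρ L tw te) :=
    pGood_epar hl (zero_le_one.trans hL1) hw.nonneg hw.le hw.le_T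
  have hf : Measurable f₀ := hD.contDiff.continuous.measurable
  have hmass : ∫⁻ z, ENNReal.ofReal (f₀ z) ≤ 1 :=
    (FM167.lintegral_density_eq_one hD.nonneg hD.integrable hD.mass).le
  have hg : 0 < 2 * β := by linarith [hD.beta_pos]
  have hfinX : Ev fun K ε => XI Φ f₀ ε K (epar γ ρ L tw te) ≠ ∞ :=
    (EvK.of_eps one_pos fun K ε hε hε1 =>
      XI_ne_top hD.adm hf hmass hg hD.gaussian hε hε1.le hP).ev
  have hfinA : Ev fun K ε => aE Φ f₀ ε K (epar γ ρ L tw te) ≠ ∞ :=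
    Ev.of_forall fun K ε hε => aE_ne_top hf hmass hg hD.gaussian hε hP.L
  have hfinP := hi4 hIH
  have hSs : Small fun K ε => 2 * (S1 K ε + α * S2 K ε + β' * S3 K ε) :=
    ((hS1.add (hS2.const_mul hαt)).add (hS3.const_mul hβt)).const_mul (by norm_num)
  have key : Ev fun K ε => XI Φ f₀ ε K (epar γ ρ L tw te) +
      α * aE Φ f₀ ε K (epar γ ρ L tw te) + β' * PM m L tw te K ε ≤
        2 * (S1 K ε + α * S2 K ε + β' * S3 K ε) := by
    refine ((((hE1.and hE2).and hE3).and (hfinX.and hfinA)).and hfinP).mono ?_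
    rintro K ε - ⟨⟨⟨⟨h1, h2⟩, h3⟩, hx, ha⟩, hp⟩
    refine column_bound (c11 := τ m + o1 h L) (c12 := o1 h L) (c13 := C1) (c21 := C2)
      (c22 := o2 h L) (c23 := 0) (c31 := σ r + o3 h L) (c32 := σ r + o3 h L)
      (c33 := σ r + o3 h L) hx ha hp hαt hβt h1 ?_ ?_ c1 c2 c3
    · rw [zero_mul, add_zero]
      exact h2
    · rw [← mul_add, ← mul_add]
      exact h3
  have hX : Small fun K ε => XI Φ f₀ ε K (epar γ ρ L tw te) :=
    hSs.of_ev_le (key.mono fun K ε _ hk => (le_self_add.trans le_self_add).trans hk)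
  have hA : Small fun K ε => aE Φ f₀ ε K (epar γ ρ L tw te) := by
    have h1 : Small fun K ε => α * aE Φ f₀ ε K (epar γ ρ L tw te) :=
      hSs.of_ev_le (key.mono fun K ε _ hk => (le_add_self.trans le_self_add).trans hk)
    have h2 := h1.const_mul (ENNReal.inv_ne_top.2 hα0)
    refine h2.mono fun K ε _ => ?_
    rw [← mul_assoc, ENNReal.inv_mul_cancel hα0 hαt, one_mul]
  exact Unw984.JSup_TN_te hD hP hIH hA hX

/-- **Section E.** -/
theorem eStep_of_eIn (hD : KData Φ β T f₀ f) (h : EIn Φ f₀ f T) :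
    ∃ g1 : ℝ, 0 < g1 ∧ ∃ r1 : ℝ≥0∞, r1 < 1 ∧ ∀ (γ : ℝ → ℝ) (ρ : ℝ≥0∞), LinePar g1 r1 T γ ρ →
      EStep Φ f₀ f T γ ρ := by
  obtain ⟨g1, hg, r1, hr, h⟩ := h
  refine ⟨g1, hg, r1, hr, fun γ ρ hl => ?_⟩
  obtain ⟨PM, h1, h2, h3, h4⟩ := h γ ρ hl
  exact eStep_of_ineqs hD hl h1 h2 h3 h4

end

end Crest.Agent.R122.Top602
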