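import Crest.Agent.R122.IdentLim_399
import Crest.Agent.R122.FinalH_973
import Crest.Agent.R122.TopDefs_602
import Crest.Agent.R122.EMaster_602

-- ▼ part R122/FinStep_399
section

/-!
Row 122, block I1 (helper399): the final passage from `RetNull` and the induction hypothesis.
-/

set_option autoImplicit false

open MeasureTheory Set Filter Topology Crest.AnalysisR.Kinetic
open scoped Classical ENNReal NNReal

noncomputable section

namespace Crest.Agent.R122.Forest399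

open Kin796 Kin796.CTree Disc416 Tree674 TreeEps399 Hid424 GIV566 GIVUse424 Master566 Top602
open Final973 (FT RetNull froots)

variable {Φ : Space3 → ℝ} {s : ℕ} {β T : ℝ} {f₀ : PhasePoint → ℝ} {f : ℝ → PhasePoint → ℝ}

/-- the Newton curves and the explicit paths give the same avoidance probability -/
theorem uG_FT (hΦ : AdmissiblePotential Φ) {ε : ℝ} (hε : 0 < ε) {Ps : Fin s → CTree} {t : ℝ}
    {q : FPar Ps} (hq : q ∈ FVS Φ ε Ps t) :
    uG Φ f₀ ε (FT Φ ε Ps t q) t = uG Φ f₀ ε (ftubes Φ ε Ps t q) t := by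
  refine uG_congr rfl fun k u hu => ?_
  exact curve_eq_path hΦ hε (X := (q k.1).1.1) (v := (q k.1).1.2) (hq.1 k.1) (hq.2.1 k.1)
    ⟨hu.1, hu.2.trans (min_le_right _ _)⟩ k.2

/-- **Forest lower bound from `RetNull`.** -/
theorem forestLower_of_retNull (hΦ : AdmissiblePotential Φ) (hf₀ : Measurable f₀)
    (hR : RetNull Φ f₀ T) : ForestLower Φ f₀ T s := by
  intro Fs e τ t₀ A he he0 hτ hτ0 hA
  obtain ⟨r, hr, h⟩ := Final973.H973 (s := s) hf₀ hΦ hR Fs he he0 hτ hτ0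
  refine ⟨r, hr, fun n => le_trans (le_of_eq ?_) (h n (A n) (hA n))⟩
  refine Finset.sum_congr rfl fun Ps _ => lintegral_congr fun q => ?_
  unfold hE
  by_cases hq : q ∈ FVS Φ (e n) Ps (τ n)
  · rw [indicator_of_mem hq, indicator_of_mem hq, uG_FT hΦ (he n) hq]
    congr 1
  · rw [indicator_of_notMem hq, indicator_of_notMem hq, zero_mul]

/-- **The final passage.** -/
theorem finStep_of_retNull {γ : ℝ → ℝ} {ρ : ℝ≥0∞} (hD : KData Φ β T f₀ f)
    (hR : IH Φ f₀ f T γ ρ T → RetNull Φ f₀ T) : FinStep Φ f₀ f T γ ρ := fun hIH _ _ =>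
  lowerTV_of_forests hD hIH.giv (forestLower_of_retNull hD.adm hD.contDiff.continuous.measurable
    (hR hIH))

end Crest.Agent.R122.Forest399

end
end

-- ▼ part R122/TopR_602

/-!
# Row 122: the top skeleton, inputs of the sections (helper602)

`result_of_inputs` : the statement of S0162 from the inputs `EIn` (section E), `FIn` (section F) and
`RetIn` (final passage).
-/

set_option autoImplicit false

open MeasureTheory Set Filter Topology
open scoped ENNReal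
open Crest.AnalysisR.Kinetic
open Crest.Agent.R122.Master566 Crest.Agent.R122.EDefs602 Crest.Agent.R122.GIV566

namespace Crest.Agent.R122.Top602

noncomputable section

/-- The input `RetIn` from `RetNull`. -/
theorem retIn_of_retNull {Φ : Space3 → ℝ} {β T : ℝ} {f₀ : PhasePoint → ℝ}
    {f : ℝ → PhasePoint → ℝ} (hD : KData Φ β T f₀ f)
    (h : ∃ g1 : ℝ, 0 < g1 ∧ ∃ r1 : ℝ≥0∞, r1 < 1 ∧ ∀ (γ : ℝ → ℝ) (ρ : ℝ≥0∞),
      LinePar g1 r1 T γ ρ → IH Φ f₀ f T γ ρ T → Final973.RetNull Φ f₀ T) : RetIn Φ f₀ f T := by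
  obtain ⟨g1, hg, r1, hr, h⟩ := h
  exact ⟨g1, hg, r1, hr, fun γ ρ hl => Forest399.finStep_of_retNull hD (h γ ρ hl)⟩

/-- Common parameters for the three inputs. -/
theorem steps_of_inputs {Φ : Space3 → ℝ} {β T : ℝ} {f₀ : PhasePoint → ℝ}
    {f : ℝ → PhasePoint → ℝ} (hD : KData Φ β T f₀ f) (hE : EIn Φ f₀ f T) (hF : FIn Φ f₀ f T)
    (hR : RetIn Φ f₀ f T) : ∃ (γ : ℝ → ℝ) (ρ : ℝ≥0∞),
      EStep Φ f₀ f T γ ρ ∧ FStep Φ f₀ f T γ ρ ∧ FinStep Φ f₀ f T γ ρ := by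
  obtain ⟨g1, hg1, r1, hr1, hE⟩ := eStep_of_eIn hD hE
  obtain ⟨g2, hg2, r2, hr2, hF⟩ := hF
  obtain ⟨g3, hg3, r3, hr3, hR⟩ := hR
  obtain ⟨γ, ρ, hl⟩ := exists_linePar (g1 := min g1 (min g2 g3)) (lt_min hg1 (lt_min hg2 hg3))
    (r1 := max r1 (max r2 r3)) (max_lt hr1 (max_lt hr2 hr3)) hD.T_pos
  refine ⟨γ, ρ, hE γ ρ (hl.mono (min_le_left _ _) (le_max_left _ _)),
    hF γ ρ (hl.mono ((min_le_right _ _).trans (min_le_left _ _))
      ((le_max_left _ _).trans (le_max_right _ _))),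
    hR γ ρ (hl.mono ((min_le_right _ _).trans (min_le_right _ _))
      ((le_max_right _ _).trans (le_max_right _ _)))⟩

/-- **The statement of S0162 from the inputs of the sections.** -/
theorem result_of_inputs
    (HE : ∀ (Φ : Space3 → ℝ) (β T : ℝ) (f₀ : PhasePoint → ℝ) (f : ℝ → PhasePoint → ℝ),
      KData Φ β T f₀ f → EIn Φ f₀ f T)
    (HF : ∀ (Φ : Space3 → ℝ) (β T : ℝ) (f₀ : PhasePoint → ℝ) (f : ℝ → PhasePoint → ℝ),
      KData Φ β T f₀ f → FIn Φ f₀ f T)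
    (HR : ∀ (Φ : Space3 → ℝ) (β T : ℝ) (f₀ : PhasePoint → ℝ) (f : ℝ → PhasePoint → ℝ),
      KData Φ β T f₀ f → RetIn Φ f₀ f T)
    (Φ : Space3 → ℝ) (hΦ : AdmissiblePotential Φ) (β : ℝ) (hβ : 0 < β) (T : ℝ) (hT : 0 < T)
    (f₀ : PhasePoint → ℝ) (hf₀ : ∀ z, 0 ≤ f₀ z) (hf₀d : ContDiff ℝ 1 f₀)
    (hf₀i : Integrable f₀) (hf₀m : ∫ z, f₀ z = 1)
    (hf₀b : HasSummableGaussianBound (2 * β) (fun x v => f₀ (x, v)))
    (hf₀g : HasSummableGaussianBound (2 * β) (fun x v => fderiv ℝ (fun y => f₀ (y, v)) x))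
    (f : ℝ → PhasePoint → ℝ) (hf : IsRegularKineticSolution Φ β T f₀ f)
    (Ψ : ℝ → (n : ℕ) → ℝ → Config n → Config n)
    (hΨ : ∀ ε : ℝ, 0 < ε → IsNewtonianEvolution Φ ε (Ψ ε))
    (s : ℕ) (hs : 1 ≤ s) (δ : ℝ) (hδ : 0 < δ) :
    ∃ ε₀ : ℝ, 0 < ε₀ ∧ ∀ ε : ℝ, 0 < ε → ε < ε₀ → ∀ t ∈ Set.Icc 0 T,
      ∀ A : Set (Config s), MeasurableSet A →
        factorialMarginal f₀ ε (Ψ ε) s t A ≤
            (∫⁻ Z in A, ∏ k, ENNReal.ofReal (f t (Z k))) + ENNReal.ofReal δ ∧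
          (∫⁻ Z in A, ∏ k, ENNReal.ofReal (f t (Z k))) ≤
            factorialMarginal f₀ ε (Ψ ε) s t A + ENNReal.ofReal δ :=
  result_of_steps (fun Φ β T f₀ f hD => steps_of_inputs hD (HE Φ β T f₀ f hD) (HF Φ β T f₀ f hD)
    (HR Φ β T f₀ f hD)) Φ hΦ β hβ T hT f₀ hf₀ hf₀d hf₀i hf₀m hf₀b hf₀g f hf Ψ hΨ s hs δ hδ

end

end Crest.Agent.R122.Top602
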