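import Crest.Agent.R122.IStep3_317
import Crest.Agent.R122.Tube3_818
import Crest.Agent.R122.Quench2_815
import Crest.Agent.R122.TreeDom_974
import Crest.Agent.R122.Sweep_815
import Crest.Agent.R122.FluxDCT2_491
import Crest.Agent.R122.FluxMeas_491
import Crest.Agent.R122.TopR_602

-- ▼ part R122/FluxAsm_317
section

/-!
# Assembly of the flux step (row 122, helper317)

* `FluxLim` : (I2), the flux limit for one tree shape (owners 818, 491);
* `fluxStep_of` : `BadSmall`, `ErrSmall` and `FluxLim` imply `FluxStep`.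
-/

set_option autoImplicit false

open MeasureTheory Set Filter
open scoped Classical ENNReal Topology NNReal
open Crest.AnalysisR.Kinetic

noncomputable section

namespace Crest.Agent.R122.IStep317

open Kin796 Kin796.CTree Tree674 Flow671 Loc45 Causal291 PathFlow968 Hit167 GC311 GIV566
  TreeHit317 Relabel674

variable {Φ : Space3 → ℝ} {f₀ : PhasePoint → ℝ} {ε : ℝ} {ι : Type} {S : Tubes ι} {T tw t : ℝ}

/-- **(I2)** the flux limit for one tree shape. -/
def FluxLim (Φ : Space3 → ℝ) (f₀ : PhasePoint → ℝ) (T tw t : ℝ) : Prop :=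
  ∀ (ι : Type) [Fintype ι] (Sk : ℕ → Tubes ι) (S : Tubes ι) (εk : ℕ → ℝ),
    (∀ k, 0 < εk k) → Tendsto εk atTop (𝓝 0) → TubeConv T Sk S → Generic T S →
    ∀ (P : CTree) (R : ℝ),
      (∀ᶠ k in atTop, AEMeasurable (fun x => adiff (Hgh Φ f₀ (εk k) P ((Sk k).shift x) tw t)
        (GIVStep383.gain Φ f₀ (εk k) tw t (Sk k) S P x))
        (volume.restrict (Metric.closedBall (0 : Space3) R))) ∧
      Tendsto (fun k => ∫⁻ x in Metric.closedBall (0 : Space3) R,
        adiff (Hgh Φ f₀ (εk k) P ((Sk k).shift x) tw t)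
          (GIVStep383.gain Φ f₀ (εk k) tw t (Sk k) S P x)) atTop (𝓝 0)

/-- **(I2)** in majorant form (818's literal form). -/
def FluxLimM (Φ : Space3 → ℝ) (f₀ : PhasePoint → ℝ) (T tw t : ℝ) : Prop :=
  ∀ (ι : Type) [Fintype ι] (Sk : ℕ → Tubes ι) (S : Tubes ι) (εk : ℕ → ℝ),
    (∀ k, 0 < εk k) → Tendsto εk atTop (𝓝 0) → TubeConv T Sk S → Generic T S →
    ∀ (P : CTree) (R δ : ℝ), 0 < δ → ∀ᶠ k in atTop, ∃ m : Space3 → ℝ≥0∞, Measurable m ∧
      (∀ x, adiff (Hgh Φ f₀ (εk k) P ((Sk k).shift x) tw t)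
        (GIVStep383.gain Φ f₀ (εk k) tw t (Sk k) S P x) ≤ m x) ∧
      ∫⁻ x in Metric.closedBall (0 : Space3) R, m x ≤ ENNReal.ofReal δ

/-- The measurable form implies the majorant form. -/
theorem FluxLim.maj (h : FluxLim Φ f₀ T tw t) : FluxLimM Φ f₀ T tw t := by
  intro ι _ Sk S εk hεk hlim hc hg P R δ hδ
  obtain ⟨h1, h2⟩ := h ι Sk S εk hεk hlim hc hg P R
  have h3 := h2.eventually_lt_const (show (0 : ℝ≥0∞) < ENNReal.ofReal (δ / 2) by
    simpa using (by positivity : 0 < δ / 2))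
  filter_upwards [h1, h3] with k hk1 hk2
  set F : Space3 → ℝ≥0∞ := fun x => adiff (Hgh Φ f₀ (εk k) P ((Sk k).shift x) tw t)
    (GIVStep383.gain Φ f₀ (εk k) tw t (Sk k) S P x) with hF
  -- a measurable function above `F` everywhere, equal a.e. on the ball
  obtain ⟨g, hg1, hg2⟩ := hk1
  obtain ⟨N, hN1, hN2, hN3⟩ := exists_measurable_superset_of_null
    (show (volume.restrict (Metric.closedBall (0 : Space3) R)) {x | ¬ F x = g x} = 0 from hg2)
  refine ⟨fun x => (N ∪ (Metric.closedBall (0 : Space3) R)ᶜ).indicator (fun _ => ∞) x + g x,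
    (measurable_const.indicator (hN2.union measurableSet_closedBall.compl)).add hg1,
    fun x => ?_, ?_⟩
  · show F x ≤ (N ∪ (Metric.closedBall (0 : Space3) R)ᶜ).indicator (fun _ => (∞ : ℝ≥0∞)) x + g x
    by_cases hx : x ∈ N ∪ (Metric.closedBall (0 : Space3) R)ᶜ
    · rw [indicator_of_mem hx, top_add]; exact le_top
    · rw [indicator_of_notMem hx, zero_add]
      have hx' : x ∉ {x | ¬ F x = g x} := fun h => hx (Or.inl (hN1 h))
      simp only [mem_ofPred_eq, not_not] at hx'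
      exact hx'.le
  · rw [lintegral_add_left (measurable_const.indicator
      (hN2.union measurableSet_closedBall.compl)), lintegral_indicator
      (hN2.union measurableSet_closedBall.compl), lintegral_const]
    have h4 : (volume.restrict (Metric.closedBall (0 : Space3) R)).restrict
        (N ∪ (Metric.closedBall (0 : Space3) R)ᶜ) univ = 0 := by
      rw [Measure.restrict_apply_univ]
      refine le_antisymm ((measure_union_le _ _).trans ?_) bot_le
      rw [hN3, zero_add, Measure.restrict_apply measurableSet_closedBall.compl,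
        compl_inter_self, measure_empty]
    rw [h4, mul_zero, zero_add]
    calc ∫⁻ x in Metric.closedBall (0 : Space3) R, g x
        = ∫⁻ x in Metric.closedBall (0 : Space3) R, F x := (lintegral_congr_ae hg2).symm
      _ ≤ ENNReal.ofReal (δ / 2) := hk2.le
      _ ≤ ENNReal.ofReal δ := ENNReal.ofReal_le_ofReal (by linarith)

theorem adiff_add_le (a b c d : ℝ≥0∞) : adiff (a + b) (c + d) ≤ adiff a c + adiff b d := by
  refine (adiff_triangle _ (c + b) _).trans (add_le_add (adiff_add_right_le _ _ _) ?_)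
  exact adiff_add_left_le _ _ _

theorem adiff_sum_le {α : Type*} (s : Finset α) (g h : α → ℝ≥0∞) :
    adiff (∑ a ∈ s, g a) (∑ a ∈ s, h a) ≤ ∑ a ∈ s, adiff (g a) (h a) := by
  induction s using Finset.induction_on with
  | empty => simp [adiff]
  | insert a s ha ih =>
    rw [Finset.sum_insert ha, Finset.sum_insert ha, Finset.sum_insert ha]
    exact (adiff_add_le _ _ _ _).trans (add_le_add le_rfl ih)

/-- **The flux step from its three inputs.** -/
theorem fluxStep_of (hΦ : AdmissiblePotential Φ) (hf : Measurable f₀)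
    (h1 : ∫⁻ z, ENNReal.ofReal (f₀ z) ≤ 1) {Q : ℝ≥0∞} (hQ : Q ≠ ∞)
    (hQb : ∀ x : Space3, ∫⁻ v : Space3, ENNReal.ofReal (f₀ (x, v)) ≤ Q)
    {t' : ℝ} (htw : 0 ≤ tw) (htT : t' ≤ T)
    (hB : ∀ t ∈ Icc tw t', BadSmall Φ f₀ T tw t) (hE : ∀ t ∈ Icc tw t', ErrSmall Φ f₀ T tw t)
    (hF : ∀ t ∈ Icc tw t', FluxLimM Φ f₀ T tw t) : GIVStep383.FluxStep Φ f₀ T tw t' := by
  intro ι _ Sk S εk hεk hlim hc hg t ht R δ hδ
  obtain ⟨K₀, hK₀⟩ := first_hit_maj hΦ hf h1 hQ hQb htw ht.1 (ht.2.trans htT) (hB t ht) (hE t ht)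
    ι hεk hlim hc hg R (δ := δ / 2) (by positivity)
  refine ⟨K₀, fun K hK => ?_⟩
  set N : ℝ := ((GIVStep383.trees K).card : ℝ) + 1 with hN
  have hN0 : 0 < N := by positivity
  have hev : ∀ᶠ k in atTop, ∀ P ∈ GIVStep383.trees K, ∃ m : Space3 → ℝ≥0∞, Measurable m ∧
      (∀ x, adiff (Hgh Φ f₀ (εk k) P ((Sk k).shift x) tw t)
        (GIVStep383.gain Φ f₀ (εk k) tw t (Sk k) S P x) ≤ m x) ∧
      ∫⁻ x in Metric.closedBall (0 : Space3) R, m x ≤ ENNReal.ofReal (δ / (2 * N)) := by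
    rw [Finset.eventually_all]
    intro P _
    exact hF t ht ι Sk S εk hεk hlim hc hg P R _ (by positivity)
  refine limsup_le_of_le (by isBoundedDefault) ?_
  filter_upwards [hK₀ K hK, hev] with k hk1 hk2
  obtain ⟨maj, hm, hm1, hm2⟩ := hk1
  choose! m hmm hml hmi using hk2
  calc ∫⁻ x in Metric.closedBall (0 : Space3) R,
        adiff (uG Φ f₀ (εk k) ((Sk k).shift x) t +
          ∑ P ∈ GIVStep383.trees K, GIVStep383.gain Φ f₀ (εk k) tw t (Sk k) S P x)
          (uG Φ f₀ (εk k) ((Sk k).shift x) tw)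
      ≤ ∫⁻ x in Metric.closedBall (0 : Space3) R,
          (maj x + ∑ P ∈ GIVStep383.trees K, m P x) := by
        refine lintegral_mono fun x => ?_
        refine (adiff_triangle _ (uG Φ f₀ (εk k) ((Sk k).shift x) t +
          ∑ P ∈ GIVStep383.trees K, Hgh Φ f₀ (εk k) P ((Sk k).shift x) tw t) _).trans ?_
        rw [add_comm (maj x)]
        refine add_le_add ((adiff_add_left_le _ _ _).trans ?_) (hm1 x)
        refine (adiff_sum_le _ _ _).trans (Finset.sum_le_sum fun P hP => ?_)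
        rw [adiff_comm]
        exact hml P hP x
    _ = (∫⁻ x in Metric.closedBall (0 : Space3) R, maj x) + ∑ P ∈ GIVStep383.trees K,
          ∫⁻ x in Metric.closedBall (0 : Space3) R, m P x := by
        rw [lintegral_add_left hm, lintegral_finsetSum _ hmm]
    _ ≤ ENNReal.ofReal (δ / 2) + ∑ _P ∈ GIVStep383.trees K, ENNReal.ofReal (δ / (2 * N)) :=
        add_le_add hm2 (Finset.sum_le_sum hmi)
    _ ≤ ENNReal.ofReal (δ / 2) + ENNReal.ofReal (δ / 2) := by
        refine add_le_add le_rfl ?_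
        rw [Finset.sum_const, nsmul_eq_mul, ← ENNReal.ofReal_natCast,
          ← ENNReal.ofReal_mul (Nat.cast_nonneg _)]
        refine ENNReal.ofReal_le_ofReal ?_
        rw [mul_div_assoc', div_le_div_iff₀ (by positivity) (by positivity)]
        have : ((GIVStep383.trees K).card : ℝ) ≤ N := by rw [hN]; linarith
        nlinarith
    _ = ENNReal.ofReal δ := by
        rw [← ENNReal.ofReal_add (by positivity) (by positivity), add_halves]

end Crest.Agent.R122.IStep317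
end
end

-- ▼ part R122/Tube4_818
section

/-!
Row 122, block FT (helper818), part 4: for one `ε`, first good hits against entrances.

`Subdiv` : straight pieces of the curves on good intervals.  `EA` : the line enters a straight piece
and this is a first good hit.  `claim1`, `claim2` : pointwise comparison; `absd_hits_le` : integrated,
in entrance coordinates.
-/

set_option autoImplicit false
set_option maxHeartbeats 400000

open MeasureTheory Set Filter
open Crest.AnalysisR.Kinetic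
open scoped ENNReal Classical Topology

noncomputable section

namespace Crest.Agent.R122.Tube818

open Disc416 Flux663 Tree674 Kin796 Kin796.CTree TreeEps399 GIV566 GIVStep383 Hid424
open Causal291 IStep317 GC311 Quench815

variable {Φ : Space3 → ℝ} {f₀ : PhasePoint → ℝ} {ε : ℝ} {P : CTree} {ι : Type}

/-- A subdivision of `[tw, t]`: good open intervals `J`, bad points `F` (neighbourhoods of radius
`η`), active pairs `K` (interval, tube) on which the curve is the straight line `C a + u • V a`. -/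
structure Subdiv (tw t : ℝ) (S : Tubes ι) (J : Finset (ℝ × ℝ)) (F : Finset ℝ) (η : ℝ)
    (K : Finset ((ℝ × ℝ) × ι)) (V C : (ℝ × ℝ) × ι → Space3) : Prop where
  cov : ∀ σ ∈ Icc tw t, (∃ j ∈ J, σ ∈ Ioo j.1 j.2) ∨ ∃ f ∈ F, |σ - f| ≤ η
  sub : ∀ j ∈ J, Ioo j.1 j.2 ⊆ Ioo tw t
  disj : ∀ j ∈ J, ∀ j' ∈ J, ∀ σ, σ ∈ Ioo j.1 j.2 → σ ∈ Ioo j'.1 j'.2 → j = j'
  memK : ∀ a ∈ K, a.1 ∈ J
  act : ∀ a ∈ K, ∀ u ∈ Ioo a.1.1 a.1.2, u < S.b a.2 ∧ S.c a.2 u = C a + u • V a
  inact : ∀ j ∈ J, ∀ i, (j, i) ∉ K → ∀ u ∈ Ioo j.1 j.2, S.b i < u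

/-- entrance time in the straight piece `a` -/
def sA (ε : ℝ) (V C : (ℝ × ℝ) × ι → Space3) (a : (ℝ × ℝ) × ι) (z : PhasePoint × Par P) : ℝ :=
  sEnt ε (z.1.1 - C a, z.1.2 - V a)

/-- the entrance in the straight piece `a` is a first good hit -/
def EA (Φ : Space3 → ℝ) (ε : ℝ) (S : Tubes ι) (V C : (ℝ × ℝ) × ι → Space3) (a : (ℝ × ℝ) × ι)
    (z : PhasePoint × Par P) : Prop :=
  Meets ε (z.1.1 - C a, z.1.2 - V a) ∧ sA ε V C a z ∈ Ioo a.1.1 a.1.2 ∧
    FirstAt Φ ε P S z (sA ε V C a z)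

/-- at time `s` the line is also in another straight piece -/
def DA (ε : ℝ) (K : Finset ((ℝ × ℝ) × ι)) (V C : (ℝ × ℝ) × ι → Space3) (a : (ℝ × ℝ) × ι)
    (s : ℝ) (ℓ : PhasePoint) : Prop :=
  ∃ i, i ≠ a.2 ∧ (a.1, i) ∈ K ∧ dist (C (a.1, i) + s • V (a.1, i)) (ℓ.1 + s • ℓ.2) ≤ ε

/-- the line meets a curve during a bad interval -/
def Bad (ε T : ℝ) (S : Tubes ι) (F : Finset ℝ) (η : ℝ) (ℓ : PhasePoint) : Prop :=
  ∃ f ∈ F, ∃ i, ∃ u ∈ Icc (max 0 (f - η)) (min T (f + η)), dist (S.c i u) (ℓ.1 + u • ℓ.2) ≤ ε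

/-- integrand of the first good hits -/
def hI (Φ : Space3 → ℝ) (ε : ℝ) (S : Tubes ι) (tw t : ℝ) (U : ℝ → PhasePoint × Par P → ℝ≥0∞)
    (z : PhasePoint × Par P) : ℝ≥0∞ :=
  if sigHit Φ ε P S z ∈ Ico tw t ∧ 0 < sigHit Φ ε P S z ∧
    FirstAt Φ ε P S z (sigHit Φ ε P S z) then U (sigHit Φ ε P S z) z else 0

section pointwise

variable {tw t : ℝ} {S : Tubes ι} {J : Finset (ℝ × ℝ)} {F : Finset ℝ} {η : ℝ}
  {K : Finset ((ℝ × ℝ) × ι)} {V C : (ℝ × ℝ) × ι → Space3}
  {U : ℝ → PhasePoint × Par P → ℝ≥0∞} {z : PhasePoint × Par P}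

theorem dist_rel (c ℓ1 ℓ2 V : Space3) (u : ℝ) :
    dist (c + u • V) (ℓ1 + u • ℓ2) = ‖(ℓ1 - c) + u • (ℓ2 - V)‖ := by
  rw [dist_comm, dist_eq_norm]
  congr 1
  rw [smul_sub]
  abel

/-- a first good hit in a good interval, if the line is not tangent, is an entrance -/
theorem exists_EA (hε : 0 < ε) (h : Subdiv tw t S J F η K V C) {σ : ℝ} (hσ : 0 < σ)
    (hF : FirstAt Φ ε P S z σ) {j : ℝ × ℝ} (hj : j ∈ J) (hσj : σ ∈ Ioo j.1 j.2)
    (hnt : ∀ a ∈ K, ‖bline (z.1.1 - C a, z.1.2 - V a)‖ ≠ ε) :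
    ∃ a ∈ K, EA Φ ε S V C a z ∧ sA ε V C a z = σ := by
  obtain ⟨i, hi, hd⟩ := hF.hit
  have hK : (j, i) ∈ K := by
    by_contra hn
    exact absurd (h.inact j hj i hn σ hσj) (not_lt.2 hi)
  obtain ⟨r, hr, hr'⟩ := FirstAt.before hε hσ hF
  have hac := h.act (j, i) hK
  have h1 : ‖(z.1.1 - C (j, i), z.1.2 - V (j, i)).1 + σ • (z.1.1 - C (j, i), z.1.2 - V (j, i)).2‖
      ≤ ε := by
    show ‖z.1.1 - C (j, i) + σ • (z.1.2 - V (j, i))‖ ≤ ε
    rw [← dist_rel, ← (hac σ hσj).2]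
    exact hd
  have h2 : ∀ s ∈ Ioo (max r j.1) σ,
      ε < ‖(z.1.1 - C (j, i), z.1.2 - V (j, i)).1 + s • (z.1.1 - C (j, i), z.1.2 - V (j, i)).2‖ := by
    intro s hs
    have hsj : s ∈ Ioo j.1 j.2 := ⟨(le_max_right _ _).trans_lt hs.1, hs.2.trans hσj.2⟩
    show ε < ‖z.1.1 - C (j, i) + s • (z.1.2 - V (j, i))‖
    rw [← dist_rel, ← (hac s hsj).2]
    exact hr' s ⟨(le_max_left _ _).trans_lt hs.1, hs.2⟩ i (hac s hsj).1.le
  rcases eq_sEnt_of_first hε (max_lt hr hσj.1) h1 h2 with h3 | ⟨h3, h4⟩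
  · exact absurd h3 (hnt _ hK)
  · refine ⟨(j, i), hK, ⟨h3, ?_, ?_⟩, h4.symm⟩
    · show sEnt ε _ ∈ _
      rw [← h4]; exact hσj
    · show FirstAt Φ ε P S z (sEnt ε _)
      rw [← h4]; exact hF

theorem claim1 [Fintype ι] (hε : 0 < ε) {T : ℝ} (htT : t ≤ T) (h : Subdiv tw t S J F η K V C)
    (hU : ∀ σ z, U σ z ≤ 1) (hnt : ∀ a ∈ K, ‖bline (z.1.1 - C a, z.1.2 - V a)‖ ≠ ε) :
    hI Φ ε S tw t U z ≤ (∑ a ∈ K, if EA Φ ε S V C a z then U (sA ε V C a z) z else 0) +
      if Bad ε T S F η z.1 then 1 else 0 := by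
  unfold hI
  split_ifs with hc hb
  · exact le_add_left (hU _ _)
  · set σ := sigHit Φ ε P S z with hσdef
    obtain ⟨hσ, hσ0, hF⟩ := hc
    rw [add_zero]
    rcases h.cov σ ⟨hσ.1, hσ.2.le⟩ with ⟨j, hj, hσj⟩ | ⟨f, hf, hd⟩
    · obtain ⟨a, ha, hE, hs⟩ := exists_EA hε h hσ0 hF hj hσj hnt
      refine le_trans ?_ (Finset.single_le_sum
        (f := fun a => if EA Φ ε S V C a z then U (sA ε V C a z) z else 0)
        (fun _ _ => bot_le) ha)
      rw [if_pos hE, hs]
    · exfalso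
      apply hb
      obtain ⟨i, hi, hdi⟩ := hF.hit
      rw [abs_le] at hd
      refine ⟨f, hf, i, σ, ⟨max_le hσ0.le (by linarith), le_min (hσ.2.le.trans htT) (by linarith)⟩,
        hdi⟩
  · exact bot_le
  · exact bot_le

theorem claim2 (hε : 0 < ε) (htw : 0 ≤ tw) (h : Subdiv tw t S J F η K V C)
    (hU : ∀ σ z, U σ z ≤ 1) :
    (∑ a ∈ K, if EA Φ ε S V C a z then U (sA ε V C a z) z else 0) ≤
      hI Φ ε S tw t U z +
        ∑ a ∈ K, if EA Φ ε S V C a z ∧ DA ε K V C a (sA ε V C a z) z.1 then 1 else 0 := by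
  have hpos : ∀ a ∈ K, EA Φ ε S V C a z → 0 < sA ε V C a z := fun a ha hE =>
    htw.trans_lt (h.sub a.1 (h.memK a ha) hE.2.1).1
  by_cases hex : ∃ a ∈ K, EA Φ ε S V C a z ∧ ¬ DA ε K V C a (sA ε V C a z) z.1
  · obtain ⟨a, ha, hE, hD⟩ := hex
    refine le_add_right ?_
    have huni : ∀ a' ∈ K, a' ≠ a → (if EA Φ ε S V C a' z then U (sA ε V C a' z) z else 0) = 0 := by
      intro a' ha' hne
      rw [if_neg]
      intro hE'
      have hs : sA ε V C a z = sA ε V C a' z :=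
        FirstAt.unique hε (hpos a ha hE).le (hpos a' ha' hE').le hE.2.2 hE'.2.2
      have hj : a.1 = a'.1 := h.disj _ (h.memK a ha) _ (h.memK a' ha') _ hE.2.1
        (by rw [hs]; exact hE'.2.1)
      have hi : a'.2 ≠ a.2 := fun hi => hne (Prod.ext hj.symm hi)
      apply hD
      have ha'' : (a.1, a'.2) = a' := by rw [hj]
      refine ⟨a'.2, hi, by rw [ha'']; exact ha', ?_⟩
      rw [ha'', dist_rel, hs]
      exact (norm_rel_sEnt hε hE'.1).le
    rw [Finset.sum_eq_single_of_mem a ha huni, if_pos hE]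
    have hsig : sigHit Φ ε P S z = sA ε V C a z := hE.2.2.sigHit_eq hε (hpos a ha hE).le
    unfold hI
    rw [hsig, if_pos]
    have hm := h.sub a.1 (h.memK a ha) hE.2.1
    exact ⟨⟨hm.1.le, hm.2⟩, hpos a ha hE, hE.2.2⟩
  · push Not at hex
    refine le_add_left (Finset.sum_le_sum fun a ha => ?_)
    by_cases hE : EA Φ ε S V C a z
    · rw [if_pos hE, if_pos ⟨hE, hex a ha hE⟩]
      exact hU _ _
    · rw [if_neg hE]
      exact bot_le

end pointwise

/-! ### Measurability -/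

section meas

variable {tw t T : ℝ} {S : Tubes ι} {J : Finset (ℝ × ℝ)} {F : Finset ℝ} {η : ℝ}
  {K : Finset ((ℝ × ℝ) × ι)} {V C : (ℝ × ℝ) × ι → Space3}

/-- first good hits at times in the interval of `a` -/
def FA (Φ : Space3 → ℝ) (ε : ℝ) (S : Tubes ι) (P : CTree) (a : (ℝ × ℝ) × ι) :
    Set (ℝ × (PhasePoint × Par P)) := {q | q.1 ∈ Ioo a.1.1 a.1.2 ∧ FirstAt Φ ε P S q.2 q.1}

theorem measurableSet_FA [Countable ι] (hΦ : AdmissiblePotential Φ) (hε : 0 < ε) (htw : 0 ≤ tw)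
    (htwt : tw ≤ t) (htT : t ≤ T) (hS : ∀ i, ContinuousOn (S.c i) (Icc 0 T))
    (h : Subdiv tw t S J F η K V C) {a : (ℝ × ℝ) × ι} (ha : a ∈ K) :
    MeasurableSet (FA Φ ε S P a) := by
  have h1 := measurableSet_firstAt (P := P) hΦ hε (htw.trans (htwt.trans htT)) hS
  have h2 : FA Φ ε S P a = {q : ℝ × (PhasePoint × Par P) | q.1 ∈ Ioo a.1.1 a.1.2} ∩
      {q : ℝ × (PhasePoint × Par P) | (0 < q.1 ∧ q.1 ≤ T) ∧ FirstAt Φ ε P S q.2 q.1} := by
    ext q
    constructor
    · rintro ⟨h3, h4⟩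
      have h5 := h.sub a.1 (h.memK a ha) h3
      exact ⟨h3, ⟨htw.trans_lt h5.1, (h5.2.le.trans htT)⟩, h4⟩
    · rintro ⟨h3, h4⟩
      exact ⟨h3, h4.2⟩
  rw [h2]
  exact (measurable_fst measurableSet_Ioo).inter h1

theorem measurableSet_DA [Countable ι] (ε : ℝ) (K : Finset ((ℝ × ℝ) × ι))
    (V C : (ℝ × ℝ) × ι → Space3) (a : (ℝ × ℝ) × ι) :
    MeasurableSet {q : ℝ × PhasePoint | DA ε K V C a q.1 q.2} := by
  have h1 : {q : ℝ × PhasePoint | DA ε K V C a q.1 q.2} = ⋃ i, {q : ℝ × PhasePoint |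
      i ≠ a.2 ∧ (a.1, i) ∈ K ∧
        dist (C (a.1, i) + q.1 • V (a.1, i)) (q.2.1 + q.1 • q.2.2) ≤ ε} := by
    ext q
    simp [DA]
  rw [h1]
  refine MeasurableSet.iUnion fun i => ?_
  refine (MeasurableSet.const _).inter ((MeasurableSet.const _).inter ?_)
  have h2 : Measurable fun q : ℝ × PhasePoint =>
      dist (C (a.1, i) + q.1 • V (a.1, i)) (q.2.1 + q.1 • q.2.2) := by fun_prop
  exact measurableSet_le h2 measurable_const

theorem measurableSet_bad [Countable ι] (ε : ℝ) (hT : 0 ≤ T)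
    (hS : ∀ i, ContinuousOn (S.c i) (Icc 0 T)) (F : Finset ℝ) (η : ℝ) :
    MeasurableSet {ℓ : PhasePoint | Bad ε T S F η ℓ} := by
  have h1 : {ℓ : PhasePoint | Bad ε T S F η ℓ} = ⋃ f ∈ F, ⋃ i, {ℓ : PhasePoint |
      ∃ u ∈ Icc (max 0 (f - η)) (min T (f + η)),
        dist (S.c i (projIcc 0 T hT u)) (ℓ.1 + u • ℓ.2) ≤ ε} := by
    ext ℓ
    simp only [Bad, mem_iUnion, mem_ofPred_eq, exists_prop]
    refine exists_congr fun f => and_congr_right fun _ => exists_congr fun i =>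
      exists_congr fun u => and_congr_right fun hu => ?_
    rw [projIcc_of_mem hT ⟨(le_max_left _ _).trans hu.1, hu.2.trans (min_le_left _ _)⟩]
  rw [h1]
  refine Finset.measurableSet_biUnion _ fun f _ => MeasurableSet.iUnion fun i => ?_
  refine measurableSet_exists_Icc measurable_const measurable_const
    (g := fun (ℓ : PhasePoint) u => dist (S.c i (projIcc 0 T hT u)) (ℓ.1 + u • ℓ.2))
    (fun ℓ => ?_) (fun u => ?_) ε
  · have h2 : Continuous fun u => S.c i (projIcc 0 T hT u) :=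
      (hS i).comp_continuous (continuous_subtype_val.comp continuous_projIcc)
        fun s => (projIcc 0 T hT s).2
    exact h2.dist (by fun_prop)
  · fun_prop

/-- density of the entrances, in entrance coordinates -/
def dA (Φ : Space3 → ℝ) (ε : ℝ) (S : Tubes ι) (P : CTree) (V C : (ℝ × ℝ) × ι → Space3)
    (a : (ℝ × ℝ) × ι) (G : ℝ → PhasePoint × Par P → ℝ≥0∞) (θ : HPar P) : ℝ≥0∞ :=
  {θ : HPar P | ‖θ.2.2.1‖ < 1}.indicator (fun θ => ENNReal.ofReal ‖θ.2.1 - V a‖ *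
    (FA Φ ε S P a).indicator (fun q => G q.1 q.2)
      (θ.1, (rootL ε (C a + θ.1 • V a) (V a) θ.1 θ.2.1 θ.2.2.1, θ.2.2.2))) θ

theorem lintegral_EA [Countable ι] (hΦ : AdmissiblePotential Φ) (hε : 0 < ε) (htw : 0 ≤ tw)
    (htwt : tw ≤ t) (htT : t ≤ T) (hS : ∀ i, ContinuousOn (S.c i) (Icc 0 T))
    (h : Subdiv tw t S J F η K V C) {a : (ℝ × ℝ) × ι} (ha : a ∈ K)
    {G : ℝ → PhasePoint × Par P → ℝ≥0∞} (hG : Measurable (Function.uncurry G)) :
    ∫⁻ z : PhasePoint × Par P, (if EA Φ ε S V C a z then G (sA ε V C a z) z else 0) =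
      ENNReal.ofReal (ε ^ 2) * ∫⁻ θ : HPar P, dA Φ ε S P V C a G θ := by
  have hFA := measurableSet_FA (P := P) hΦ hε htw htwt htT hS h ha
  have hm : Measurable (Function.uncurry fun (s : ℝ) (z : PhasePoint × Par P) =>
      (FA Φ ε S P a).indicator (fun q => G q.1 q.2) (s, z)) := by
    have e : (Function.uncurry fun (s : ℝ) (z : PhasePoint × Par P) =>
      (FA Φ ε S P a).indicator (fun q => G q.1 q.2) (s, z)) =
        (FA Φ ε S P a).indicator (Function.uncurry G) := rfl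
    rw [e]
    exact hG.indicator hFA
  have h1 := lintegral_enter_par (P := P) hε (C a) (V a) hm
  unfold dA
  rw [← h1]
  refine lintegral_congr fun z => ?_
  by_cases hE : EA Φ ε S V C a z
  · rw [if_pos hE, indicator_of_mem (show z ∈ {z : PhasePoint × Par P |
      Meets ε (z.1.1 - C a, z.1.2 - V a)} from hE.1)]
    exact (indicator_of_mem (show (sEnt ε (z.1.1 - C a, z.1.2 - V a), z) ∈ FA Φ ε S P a from
      ⟨hE.2.1, hE.2.2⟩) (fun q => G q.1 q.2)).symm
  · rw [if_neg hE]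
    by_cases hM : z ∈ {z : PhasePoint × Par P | Meets ε (z.1.1 - C a, z.1.2 - V a)}
    · rw [indicator_of_mem hM]
      refine (indicator_of_notMem ?_ _).symm
      rintro ⟨h2, h3⟩
      exact hE ⟨hM, h2, h3⟩
    · rw [indicator_of_notMem hM]

/-- the set `EA` is measurable -/
theorem measurable_EA [Countable ι] (hΦ : AdmissiblePotential Φ) (hε : 0 < ε) (htw : 0 ≤ tw)
    (htwt : tw ≤ t) (htT : t ≤ T) (hS : ∀ i, ContinuousOn (S.c i) (Icc 0 T))
    (h : Subdiv tw t S J F η K V C) {a : (ℝ × ℝ) × ι} (ha : a ∈ K)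
    {G : ℝ → PhasePoint × Par P → ℝ≥0∞} (hG : Measurable (Function.uncurry G)) :
    Measurable fun z : PhasePoint × Par P =>
      (if EA Φ ε S V C a z then G (sA ε V C a z) z else 0) := by
  have hFA := measurableSet_FA (P := P) hΦ hε htw htwt htT hS h ha
  have hrel : Measurable fun z : PhasePoint × Par P =>
      ((z.1.1 - C a, z.1.2 - V a) : Space3 × Space3) := by fun_prop
  have hs : Measurable fun z : PhasePoint × Par P => sA ε V C a z :=
    (measurable_sEnt ε).comp hrel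
  have hz : Measurable fun z : PhasePoint × Par P => (sA ε V C a z, z) :=
    hs.prodMk measurable_id
  refine Measurable.ite ?_ (hG.comp hz) measurable_const
  exact (hrel (measurableSet_meets ε)).inter (hz hFA)

end meas

/-! ### Integrated comparison -/

section integrated

variable {tw t T : ℝ} {S : Tubes ι} {J : Finset (ℝ × ℝ)} {F : Finset ℝ} {η : ℝ}
  {K : Finset ((ℝ × ℝ) × ι)} {V C : (ℝ × ℝ) × ι → Space3}

theorem ae_nt (hε : 0 < ε) (K : Finset ((ℝ × ℝ) × ι)) (V C : (ℝ × ℝ) × ι → Space3) :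
    ∀ᵐ z : PhasePoint × Par P, ∀ a ∈ K, ‖bline (z.1.1 - C a, z.1.2 - V a)‖ ≠ ε := by
  rw [Filter.eventually_all_finset K]
  intro a _
  have h1 := ae_not_tangent hε (C a) (V a)
  exact (Measure.quasiMeasurePreserving_fst (μ := (volume : Measure PhasePoint))
    (ν := (volume : Measure (Par P)))).ae h1

/-- **First good hits against entrances**, integrated. -/
theorem absd_hits_le [Fintype ι] (hΦ : AdmissiblePotential Φ) (hε : 0 < ε) (htw : 0 ≤ tw)
    (htwt : tw ≤ t) (htT : t ≤ T) (hS : ∀ i, ContinuousOn (S.c i) (Icc 0 T))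
    (h : Subdiv tw t S J F η K V C) {U : ℝ → PhasePoint × Par P → ℝ≥0∞}
    (hUm : Measurable (Function.uncurry U)) (hU : ∀ σ z, U σ z ≤ 1)
    {q : PhasePoint × Par P → ℝ≥0∞} (hq : Measurable q) :
    absd (activity ε * ∫⁻ z, hI Φ ε S tw t U z * q z)
      (∑ a ∈ K, ∫⁻ θ : HPar P, dA Φ ε S P V C a (fun s z => U s z * q z) θ) ≤
      activity ε * (∫⁻ z : PhasePoint × Par P, if Bad ε T S F η z.1 then q z else 0) +
        ∑ a ∈ K, ∫⁻ θ : HPar P,
          dA Φ ε S P V C a (fun s z => if DA ε K V C a s z.1 then q z else 0) θ := by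
  have hact : ∀ x : ℝ≥0∞, activity ε * (ENNReal.ofReal (ε ^ 2) * x) = x := by
    intro x
    rw [← mul_assoc, Relabel674.activity_mul hε, one_mul]
  have hGm : Measurable (Function.uncurry fun (s : ℝ) (z : PhasePoint × Par P) => U s z * q z) :=
    hUm.mul (hq.comp measurable_snd)
  have hDm : ∀ a, Measurable (Function.uncurry fun (s : ℝ) (z : PhasePoint × Par P) =>
      if DA ε K V C a s z.1 then q z else 0) := by
    intro a
    have h1 : MeasurableSet {p : ℝ × (PhasePoint × Par P) | DA ε K V C a p.1 p.2.1} :=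
      (measurable_fst.prodMk measurable_snd.fst) (measurableSet_DA ε K V C a)
    exact Measurable.ite h1 (hq.comp measurable_snd) measurable_const
  -- entrances
  have e1 : ∑ a ∈ K, ∫⁻ θ : HPar P, dA Φ ε S P V C a (fun s z => U s z * q z) θ =
      activity ε * ∫⁻ z : PhasePoint × Par P,
        (∑ a ∈ K, if EA Φ ε S V C a z then U (sA ε V C a z) z else 0) * q z := by
    have h1 : ∀ z : PhasePoint × Par P,
        (∑ a ∈ K, if EA Φ ε S V C a z then U (sA ε V C a z) z else 0) * q z =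
        ∑ a ∈ K, if EA Φ ε S V C a z then U (sA ε V C a z) z * q z else 0 := by
      intro z
      rw [Finset.sum_mul]
      refine Finset.sum_congr rfl fun a _ => ?_
      split_ifs <;> simp
    simp only [h1]
    rw [lintegral_finsetSum' _ fun a ha =>
      (measurable_EA (P := P) hΦ hε htw htwt htT hS h ha hGm).aemeasurable, Finset.mul_sum]
    refine Finset.sum_congr rfl fun a ha => ?_
    rw [lintegral_EA (P := P) hΦ hε htw htwt htT hS h ha hGm, hact]
  have e2 : ∑ a ∈ K, ∫⁻ θ : HPar P,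
          dA Φ ε S P V C a (fun s z => if DA ε K V C a s z.1 then q z else 0) θ =
      activity ε * ∫⁻ z : PhasePoint × Par P,
        (∑ a ∈ K, if EA Φ ε S V C a z ∧ DA ε K V C a (sA ε V C a z) z.1 then 1 else 0) * q z := by
    have h1 : ∀ z : PhasePoint × Par P,
        (∑ a ∈ K, if EA Φ ε S V C a z ∧ DA ε K V C a (sA ε V C a z) z.1 then 1 else 0) * q z =
        ∑ a ∈ K, if EA Φ ε S V C a z then
          (if DA ε K V C a (sA ε V C a z) z.1 then q z else 0) else 0 := by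
      intro z
      rw [Finset.sum_mul]
      refine Finset.sum_congr rfl fun a _ => ?_
      by_cases h2 : EA Φ ε S V C a z <;> by_cases h3 : DA ε K V C a (sA ε V C a z) z.1 <;>
        simp [h2, h3]
    simp only [h1]
    rw [lintegral_finsetSum' _ fun a ha =>
      (measurable_EA (P := P) hΦ hε htw htwt htT hS h ha (hDm a)).aemeasurable, Finset.mul_sum]
    refine Finset.sum_congr rfl fun a ha => ?_
    rw [lintegral_EA (P := P) hΦ hε htw htwt htT hS h ha (hDm a), hact]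
  -- measurability
  have mE : Measurable fun z : PhasePoint × Par P =>
      (∑ a ∈ K, if EA Φ ε S V C a z then U (sA ε V C a z) z else 0) * q z :=
    (Finset.measurable_sum _ fun a ha =>
      measurable_EA (P := P) hΦ hε htw htwt htT hS h ha hUm).mul hq
  have mD : Measurable fun z : PhasePoint × Par P =>
      (∑ a ∈ K, if EA Φ ε S V C a z ∧ DA ε K V C a (sA ε V C a z) z.1 then (1 : ℝ≥0∞) else 0) *
        q z := by
    refine (Finset.measurable_sum _ fun a ha => ?_).mul hq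
    have h1 : ∀ z : PhasePoint × Par P,
        (if EA Φ ε S V C a z ∧ DA ε K V C a (sA ε V C a z) z.1 then (1 : ℝ≥0∞) else 0) =
        if EA Φ ε S V C a z then (if DA ε K V C a (sA ε V C a z) z.1 then 1 else 0) else 0 := by
      intro z
      by_cases h2 : EA Φ ε S V C a z <;> by_cases h3 : DA ε K V C a (sA ε V C a z) z.1 <;>
        simp [h2, h3]
    simp only [h1]
    refine measurable_EA (P := P) hΦ hε htw htwt htT hS h ha
      (G := fun s z => if DA ε K V C a s z.1 then 1 else 0) ?_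
    have h2 : MeasurableSet {p : ℝ × (PhasePoint × Par P) | DA ε K V C a p.1 p.2.1} :=
      (measurable_fst.prodMk measurable_snd.fst) (measurableSet_DA ε K V C a)
    exact Measurable.ite h2 measurable_const measurable_const
  rw [e1, e2, ← mul_add, absd_le_iff, ← mul_add, ← mul_add]
  constructor
  · refine mul_le_mul' le_rfl ?_
    calc ∫⁻ z, hI Φ ε S tw t U z * q z
        ≤ ∫⁻ z : PhasePoint × Par P,
          ((∑ a ∈ K, if EA Φ ε S V C a z then U (sA ε V C a z) z else 0) * q z +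
            if Bad ε T S F η z.1 then q z else 0) := by
          refine lintegral_mono_ae ?_
          filter_upwards [ae_nt (P := P) hε K V C] with z hz
          refine (mul_le_mul' (claim1 hε htT h hU hz) le_rfl).trans (le_of_eq ?_)
          rw [add_mul]
          congr 1
          split_ifs <;> simp
      _ = (∫⁻ z : PhasePoint × Par P,
          (∑ a ∈ K, if EA Φ ε S V C a z then U (sA ε V C a z) z else 0) * q z) +
            ∫⁻ z : PhasePoint × Par P, if Bad ε T S F η z.1 then q z else 0 :=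
          lintegral_add_left mE _
      _ ≤ _ := add_le_add le_rfl (le_add_right le_rfl)
  · refine mul_le_mul' le_rfl ?_
    calc ∫⁻ z : PhasePoint × Par P,
          (∑ a ∈ K, if EA Φ ε S V C a z then U (sA ε V C a z) z else 0) * q z
        ≤ ∫⁻ z : PhasePoint × Par P, (hI Φ ε S tw t U z * q z +
          (∑ a ∈ K, if EA Φ ε S V C a z ∧ DA ε K V C a (sA ε V C a z) z.1 then (1 : ℝ≥0∞)
            else 0) * q z) := by
          refine lintegral_mono fun z => ?_
          rw [← add_mul]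
          exact mul_le_mul' (claim2 hε htw h hU) le_rfl
      _ = (∫⁻ z : PhasePoint × Par P, hI Φ ε S tw t U z * q z) +
          ∫⁻ z : PhasePoint × Par P,
            (∑ a ∈ K, if EA Φ ε S V C a z ∧ DA ε K V C a (sA ε V C a z) z.1 then (1 : ℝ≥0∞)
              else 0) * q z := lintegral_add_right _ mD
      _ ≤ _ := add_le_add le_rfl (le_add_left le_rfl)

end integrated

end Crest.Agent.R122.Tube818
end
end

-- ▼ part R122/Tube5_818
section

/-!
Row 122, block FT (helper818), part 5: bounds for the bad intervals.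
-/

set_option autoImplicit false
set_option maxHeartbeats 400000

open MeasureTheory Set Filter
open Crest.AnalysisR.Kinetic
open scoped ENNReal Classical Topology NNReal

noncomputable section

namespace Crest.Agent.R122.Tube818

open Disc416 Flux663 Tree674 Kin796 Kin796.CTree TreeEps399 GIV566 GIVStep383 Hid424
open Causal291 IStep317 GC311 Quench815 TreeDom974

variable {Φ : Space3 → ℝ} {f₀ : PhasePoint → ℝ} {ε : ℝ} {P : CTree} {ι : Type}

/-- **Volume of a tube** around a Lipschitz curve. -/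
theorem volume_tube_le {α β L : ℝ} (hε : 0 < ε) (hL : 0 < L) {γ : ℝ → Space3}
    (hγ : ∀ s ∈ Icc α β, ∀ u ∈ Icc α β, dist (γ s) (γ u) ≤ L * |s - u|) :
    volume {X : Space3 | ∃ u ∈ Icc α β, dist (γ u) X ≤ ε} ≤
      ENNReal.ofReal ((β - α) * L / ε + 2) * (ENNReal.ofReal (2 * ε) ^ 3 * Sweep815.c3) := by
  rcases lt_or_ge β α with hlt | hle
  · have : {X : Space3 | ∃ u ∈ Icc α β, dist (γ u) X ≤ ε} = ∅ := by
      ext X
      simp only [mem_ofPred_eq, mem_empty_iff_false, iff_false, not_exists, not_and]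
      intro u hu
      exact absurd (hu.1.trans hu.2) (not_le.2 hlt)
    rw [this, measure_empty]
    exact bot_le
  · set n := ⌊(β - α) * L / ε⌋₊ with hn
    have hpos : 0 ≤ (β - α) * L / ε := by
      have : 0 ≤ β - α := sub_nonneg.2 hle
      positivity
    have hnle : (n : ℝ) ≤ (β - α) * L / ε := Nat.floor_le hpos
    have hsub : {X : Space3 | ∃ u ∈ Icc α β, dist (γ u) X ≤ ε} ⊆
        ⋃ i ∈ Finset.range (n + 1), Metric.closedBall (γ (α + i * (ε / L))) (2 * ε) := by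
      rintro X ⟨u, hu, hd⟩
      have hu0 : 0 ≤ (u - α) * L / ε := by
        have : 0 ≤ u - α := sub_nonneg.2 hu.1
        positivity
      set i := ⌊(u - α) * L / ε⌋₊ with hi
      have h1 : (i : ℝ) ≤ (u - α) * L / ε := Nat.floor_le hu0
      have h2 : (u - α) * L / ε < i + 1 := Nat.lt_floor_add_one _
      have hin : i < n + 1 := by
        rw [Nat.lt_succ_iff]
        refine Nat.floor_le_floor ?_
        have : u - α ≤ β - α := by linarith [hu.2]
        gcongr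
      have h3 : (i : ℝ) * (ε / L) ≤ u - α := by
        rw [le_div_iff₀ hε] at h1
        rw [mul_div_assoc', div_le_iff₀ hL]
        exact h1
      have h4 : u - α < (i + 1) * (ε / L) := by
        rw [div_lt_iff₀ hε] at h2
        rw [mul_div_assoc', lt_div_iff₀ hL]
        exact h2
      simp only [mem_iUnion, Finset.mem_range, exists_prop]
      refine ⟨i, hin, ?_⟩
      rw [Metric.mem_closedBall, dist_comm]
      have hg : α + i * (ε / L) ∈ Icc α β := by
        have : 0 ≤ (i : ℝ) * (ε / L) := by positivity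
        exact ⟨by linarith, by linarith [hu.2]⟩
      have h5 := hγ (α + i * (ε / L)) hg u hu
      have h6 : |α + i * (ε / L) - u| ≤ ε / L := by
        rw [abs_le]
        constructor <;> nlinarith
      calc dist (γ (α + i * (ε / L))) X ≤ dist (γ (α + i * (ε / L))) (γ u) + dist (γ u) X :=
            dist_triangle _ _ _
        _ ≤ L * |α + i * (ε / L) - u| + ε := add_le_add h5 hd
        _ ≤ L * (ε / L) + ε := by gcongr
        _ = 2 * ε := by field_simp; ring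
    calc volume {X : Space3 | ∃ u ∈ Icc α β, dist (γ u) X ≤ ε}
        ≤ volume (⋃ i ∈ Finset.range (n + 1),
            Metric.closedBall (γ (α + i * (ε / L))) (2 * ε)) := measure_mono hsub
      _ ≤ ∑ i ∈ Finset.range (n + 1), volume (Metric.closedBall (γ (α + i * (ε / L))) (2 * ε)) :=
          measure_biUnion_finset_le _ _
      _ = ((n + 1 : ℕ) : ℝ≥0∞) * (ENNReal.ofReal (2 * ε) ^ 3 * Sweep815.c3) := by
          simp only [Sweep815.vol_closedBall, Finset.sum_const, Finset.card_range, nsmul_eq_mul]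
      _ ≤ _ := by
          refine mul_le_mul' ?_ le_rfl
          rw [← ENNReal.ofReal_natCast]
          refine ENNReal.ofReal_le_ofReal ?_
          push_cast
          linarith

/-- Gaussian in the velocity -/
def gv (C b : ℝ) (v : Space3) : ℝ≥0∞ := ENNReal.ofReal (C * Real.exp (-b * ‖v‖ ^ 2))

theorem measurable_gv (C b : ℝ) : Measurable (gv C b) := by
  unfold gv
  fun_prop

/-- first moment -/
def mom (C b L : ℝ) : ℝ≥0∞ := ∫⁻ v : Space3, gv C b v * ENNReal.ofReal (‖v‖ + L)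

theorem mom_ne_top {C b L : ℝ} (hC : 0 ≤ C) (hb : 0 < b) (hL : 0 ≤ L) : mom C b L ≠ ∞ := by
  have hδ : 0 < b / 2 := by positivity
  set D : ℝ := (1 + L) * ((Nat.factorial 1 : ℝ) / (b / 2) ^ 1 * Real.exp (b / 2)) with hD
  have hD0 : 0 ≤ D := by positivity
  have hle : ∀ v : Space3, gv C b v * ENNReal.ofReal (‖v‖ + L) ≤
      ENNReal.ofReal (C * D * Real.exp (-(b / 2) * ‖v‖ ^ 2)) := by
    intro v
    unfold gv
    rw [← ENNReal.ofReal_mul (by positivity)]
    refine ENNReal.ofReal_le_ofReal ?_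
    have h1 := one_add_pow_le hδ (sq_nonneg ‖v‖) 1
    have h2 : ‖v‖ + L ≤ (1 + L) * (1 + ‖v‖ ^ 2) ^ 1 := by
      nlinarith [sq_nonneg (‖v‖ - 1), norm_nonneg v, mul_nonneg hL (sq_nonneg ‖v‖)]
    have h3 : Real.exp (-b * ‖v‖ ^ 2) * Real.exp (b / 2 * ‖v‖ ^ 2) =
        Real.exp (-(b / 2) * ‖v‖ ^ 2) := by
      rw [← Real.exp_add]
      congr 1
      ring
    calc C * Real.exp (-b * ‖v‖ ^ 2) * (‖v‖ + L)
        ≤ C * Real.exp (-b * ‖v‖ ^ 2) * ((1 + L) * (((Nat.factorial 1 : ℝ) / (b / 2) ^ 1 *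
            Real.exp (b / 2)) * Real.exp (b / 2 * ‖v‖ ^ 2))) := by
          gcongr
          exact h2.trans (by gcongr)
      _ = C * D * (Real.exp (-b * ‖v‖ ^ 2) * Real.exp (b / 2 * ‖v‖ ^ 2)) := by
          rw [hD]; ring
      _ = _ := by rw [h3]
  refine ne_top_of_le_ne_top ?_ (lintegral_mono hle)
  exact ((Boltz814.integrable_gauss hδ).const_mul (C * D)).lintegral_lt_top.ne

/-- **Lines meeting a Lipschitz tube** in a short time interval. -/
theorem bad_lines_le {T α β η : ℝ} {M : ℝ≥0} (hε : 0 < ε) (hη : 0 ≤ η) {c : ℝ → Space3}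
    (hc : LipschitzOnWith M c (Icc 0 T)) (hα : 0 ≤ α) (hβ : β ≤ T) (hαβ : β - α ≤ 2 * η)
    (C b : ℝ) :
    activity ε * ∫⁻ ℓ : PhasePoint,
      (if ∃ u ∈ Icc α β, dist (c u) (ℓ.1 + u • ℓ.2) ≤ ε then gv C b ℓ.2 else 0) ≤
      ENNReal.ofReal (16 * (η + ε)) * (Sweep815.c3 * mom C b (M + 1)) := by
  have hsub : Icc α β ⊆ Icc 0 T := Icc_subset_Icc hα hβ
  -- closedness in the position and velocity
  have hms : MeasurableSet {ℓ : PhasePoint | ∃ u ∈ Icc α β, dist (c u) (ℓ.1 + u • ℓ.2) ≤ ε} := by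
    rcases le_or_gt α β with h | h
    · have h0 : (0 : ℝ) ≤ T := hα.trans (h.trans hβ)
      have e : {ℓ : PhasePoint | ∃ u ∈ Icc α β, dist (c u) (ℓ.1 + u • ℓ.2) ≤ ε} =
          {ℓ : PhasePoint | ∃ u ∈ Icc α β,
            dist (c (projIcc 0 T h0 u)) (ℓ.1 + u • ℓ.2) ≤ ε} := by
        ext ℓ
        refine exists_congr fun u => and_congr_right fun hu => ?_
        rw [projIcc_of_mem h0 (hsub hu)]
      rw [e]
      refine measurableSet_exists_Icc measurable_const measurable_const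
        (g := fun (ℓ : PhasePoint) u => dist (c (projIcc 0 T h0 u)) (ℓ.1 + u • ℓ.2))
        (fun ℓ => ?_) (fun u => ?_) ε
      · have h2 : Continuous fun u => c (projIcc 0 T h0 u) :=
          hc.continuousOn.comp_continuous (continuous_subtype_val.comp continuous_projIcc)
            fun s => (projIcc 0 T h0 s).2
        exact h2.dist (by fun_prop)
      · fun_prop
    · have e : {ℓ : PhasePoint | ∃ u ∈ Icc α β, dist (c u) (ℓ.1 + u • ℓ.2) ≤ ε} = ∅ := by
        ext ℓ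
        simp only [mem_ofPred_eq, mem_empty_iff_false, iff_false, not_exists, not_and]
        intro u hu
        exact absurd (hu.1.trans hu.2) (not_le.2 h)
      rw [e]
      exact MeasurableSet.empty
  have hm : Measurable fun ℓ : PhasePoint =>
      (if ∃ u ∈ Icc α β, dist (c u) (ℓ.1 + u • ℓ.2) ≤ ε then gv C b ℓ.2 else 0) :=
    Measurable.ite hms ((measurable_gv C b).comp measurable_snd) measurable_const
  have hvel : ∀ v : Space3, ∫⁻ x : Space3,
      (if ∃ u ∈ Icc α β, dist (c u) (x + u • v) ≤ ε then gv C b v else 0) ≤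
      gv C b v * (ENNReal.ofReal ((β - α) * (M + ‖v‖ + 1) / ε + 2) *
        (ENNReal.ofReal (2 * ε) ^ 3 * Sweep815.c3)) := by
    intro v
    have hmv : MeasurableSet {x : Space3 | ∃ u ∈ Icc α β, dist (c u) (x + u • v) ≤ ε} :=
      (measurable_id.prodMk measurable_const) hms
    have e1 : ∀ x : Space3, (if ∃ u ∈ Icc α β, dist (c u) (x + u • v) ≤ ε then gv C b v else 0) =
        {x : Space3 | ∃ u ∈ Icc α β, dist (c u) (x + u • v) ≤ ε}.indicator
          (fun _ => gv C b v) x := by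
      intro x
      by_cases hx : ∃ u ∈ Icc α β, dist (c u) (x + u • v) ≤ ε
      · rw [if_pos hx, indicator_of_mem (show x ∈ {x : Space3 | ∃ u ∈ Icc α β,
          dist (c u) (x + u • v) ≤ ε} from hx)]
      · rw [if_neg hx, indicator_of_notMem (show x ∉ {x : Space3 | ∃ u ∈ Icc α β,
          dist (c u) (x + u • v) ≤ ε} from hx)]
    simp only [e1]
    rw [lintegral_indicator_const hmv]
    refine mul_le_mul' le_rfl ?_
    have e2 : {x : Space3 | ∃ u ∈ Icc α β, dist (c u) (x + u • v) ≤ ε} =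
        {X : Space3 | ∃ u ∈ Icc α β, dist (c u - u • v) X ≤ ε} := by
      ext x
      refine exists_congr fun u => and_congr_right fun _ => ?_
      rw [dist_eq_norm, dist_eq_norm]
      have : c u - (x + u • v) = c u - u • v - x := by abel
      rw [this]
    rw [e2]
    refine volume_tube_le hε (by positivity) fun s hs u hu => ?_
    have h1 : dist (c s) (c u) ≤ M * dist s u := hc.dist_le_mul s (hsub hs) u (hsub hu)
    rw [Real.dist_eq] at h1
    have h2 : c s - s • v - (c u - u • v) = (c s - c u) - (s - u) • v := by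
      rw [sub_smul]; abel
    rw [dist_eq_norm, h2]
    calc ‖c s - c u - (s - u) • v‖ ≤ ‖c s - c u‖ + ‖(s - u) • v‖ := norm_sub_le _ _
      _ ≤ M * |s - u| + |s - u| * ‖v‖ := by
          rw [norm_smul, Real.norm_eq_abs, ← dist_eq_norm]
          gcongr
      _ ≤ (M + ‖v‖ + 1) * |s - u| := by nlinarith [abs_nonneg (s - u)]
  -- the constant
  have hconst : ∀ v : Space3, activity ε * (ENNReal.ofReal ((β - α) * (M + ‖v‖ + 1) / ε + 2) *
        (ENNReal.ofReal (2 * ε) ^ 3 * Sweep815.c3)) ≤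
      ENNReal.ofReal (16 * (η + ε)) * (Sweep815.c3 * ENNReal.ofReal (‖v‖ + (M + 1))) := by
    intro v
    have hM : (0 : ℝ) ≤ M := M.2
    have h1 : ENNReal.ofReal ((β - α) * (M + ‖v‖ + 1) / ε + 2) ≤
        ENNReal.ofReal ((2 * η * (M + ‖v‖ + 1) + 2 * ε) / ε) := by
      refine ENNReal.ofReal_le_ofReal ?_
      have : (2 * η * (M + ‖v‖ + 1) + 2 * ε) / ε = 2 * η * (M + ‖v‖ + 1) / ε + 2 := by
        field_simp
      rw [this]
      gcongr
    have h2 : ENNReal.ofReal ((2 * η * (M + ‖v‖ + 1) + 2 * ε) / ε) * ENNReal.ofReal (2 * ε) ^ 3 =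
        ENNReal.ofReal (ε ^ 2) * ENNReal.ofReal (8 * (2 * η * (M + ‖v‖ + 1) + 2 * ε)) := by
      rw [← ENNReal.ofReal_pow (by positivity), ← ENNReal.ofReal_mul (by positivity),
        ← ENNReal.ofReal_mul (by positivity)]
      congr 1
      field_simp
      ring
    have h3 : ENNReal.ofReal (8 * (2 * η * (M + ‖v‖ + 1) + 2 * ε)) ≤
        ENNReal.ofReal (16 * (η + ε)) * ENNReal.ofReal (‖v‖ + (M + 1)) := by
      rw [← ENNReal.ofReal_mul (by positivity)]
      refine ENNReal.ofReal_le_ofReal ?_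
      have h4 : ε ≤ ε * (‖v‖ + (M + 1)) := by
        nlinarith [norm_nonneg v]
      nlinarith
    calc activity ε * (ENNReal.ofReal ((β - α) * (M + ‖v‖ + 1) / ε + 2) *
          (ENNReal.ofReal (2 * ε) ^ 3 * Sweep815.c3))
        ≤ activity ε * (ENNReal.ofReal ((2 * η * (M + ‖v‖ + 1) + 2 * ε) / ε) *
          (ENNReal.ofReal (2 * ε) ^ 3 * Sweep815.c3)) := by gcongr
      _ = (activity ε * ENNReal.ofReal (ε ^ 2)) *
          ENNReal.ofReal (8 * (2 * η * (M + ‖v‖ + 1) + 2 * ε)) * Sweep815.c3 := by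
          rw [← mul_assoc (ENNReal.ofReal ((2 * η * (M + ‖v‖ + 1) + 2 * ε) / ε)), h2]
          ring
      _ ≤ 1 * (ENNReal.ofReal (16 * (η + ε)) * ENNReal.ofReal (‖v‖ + (M + 1))) *
          Sweep815.c3 := by
          rw [Relabel674.activity_mul hε]
          gcongr
      _ = _ := by ring
  have hact : activity ε ≠ ∞ := ENNReal.ofReal_ne_top
  rw [Measure.volume_eq_prod, lintegral_prod_symm _ hm.aemeasurable]
  calc activity ε * ∫⁻ v : Space3, ∫⁻ x : Space3,
        (if ∃ u ∈ Icc α β, dist (c u) (x + u • v) ≤ ε then gv C b v else 0)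
      ≤ activity ε * ∫⁻ v : Space3, gv C b v *
        (ENNReal.ofReal ((β - α) * (M + ‖v‖ + 1) / ε + 2) *
        (ENNReal.ofReal (2 * ε) ^ 3 * Sweep815.c3)) := by
        gcongr with v
        exact hvel v
    _ = ∫⁻ v : Space3, activity ε * (gv C b v *
        (ENNReal.ofReal ((β - α) * (M + ‖v‖ + 1) / ε + 2) *
        (ENNReal.ofReal (2 * ε) ^ 3 * Sweep815.c3))) := (lintegral_const_mul' _ _ hact).symm
    _ ≤ ∫⁻ v : Space3, (ENNReal.ofReal (16 * (η + ε)) * Sweep815.c3) *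
          (gv C b v * ENNReal.ofReal (‖v‖ + (M + 1))) := by
        refine lintegral_mono fun v => ?_
        calc _ = gv C b v * (activity ε * (ENNReal.ofReal ((β - α) * (M + ‖v‖ + 1) / ε + 2) *
              (ENNReal.ofReal (2 * ε) ^ 3 * Sweep815.c3))) := by ring
          _ ≤ gv C b v * (ENNReal.ofReal (16 * (η + ε)) *
              (Sweep815.c3 * ENNReal.ofReal (‖v‖ + (M + 1)))) := mul_le_mul' le_rfl (hconst v)
          _ = _ := by ring
    _ = _ := by
        rw [lintegral_const_mul' _ _ (ENNReal.mul_ne_top ENNReal.ofReal_ne_top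
          (by unfold Sweep815.c3; exact ENNReal.ofReal_ne_top))]
        unfold mom
        ring

/-- **Bad intervals, particle side.** -/
theorem bad_le [Fintype ι] {T η : ℝ} {M : ℝ≥0} (hε : 0 < ε) (hη : 0 ≤ η) (hT : 0 ≤ T)
    {S : Tubes ι} (hS : ∀ i, LipschitzOnWith M (S.c i) (Icc 0 T)) {C b : ℝ} (hC : 0 ≤ C)
    (F : Finset ℝ) {q : PhasePoint × Par P → ℝ≥0∞} (hq : ∀ z, q z ≤ domG C b T P z.1.2 z.2) :
    activity ε * (∫⁻ z : PhasePoint × Par P, if Bad ε T S F η z.1 then q z else 0) ≤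
      ENNReal.ofReal (16 * (η + ε)) * (F.card * (Fintype.card ι *
        (Sweep815.c3 * mom C b (M + 1)) * ∫⁻ p : Par P, domP b T P p)) := by
  set B : ℝ → ι → PhasePoint → ℝ≥0∞ := fun f i ℓ =>
    if ∃ u ∈ Icc (max 0 (f - η)) (min T (f + η)), dist (S.c i u) (ℓ.1 + u • ℓ.2) ≤ ε
    then gv C b ℓ.2 else 0 with hB
  have hBm : ∀ f i, Measurable (B f i) := by
    intro f i
    have h1 := measurableSet_bad (S := (⟨fun _ => S.c i, fun _ => 0⟩ : Tubes Unit)) ε hT
      (fun _ => (hS i).continuousOn) {f} η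
    refine Measurable.ite ?_ ((measurable_gv C b).comp measurable_snd) measurable_const
    convert h1 using 1
    ext ℓ
    simp [Bad]
  have hpt : ∀ z : PhasePoint × Par P, (if Bad ε T S F η z.1 then q z else 0) ≤
      (∑ f ∈ F, ∑ i, B f i z.1) * domP b T P z.2 := by
    intro z
    split_ifs with h
    · obtain ⟨f, hf, i, hu⟩ := h
      refine (hq z).trans ?_
      rw [domG_eq hC]
      refine mul_le_mul' ?_ le_rfl
      have h1 : B f i z.1 = gv C b z.1.2 := if_pos hu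
      calc gv C b z.1.2 = B f i z.1 := h1.symm
        _ ≤ ∑ i, B f i z.1 := Finset.single_le_sum (f := fun i => B f i z.1)
            (fun _ _ => bot_le) (Finset.mem_univ i)
        _ ≤ _ := Finset.single_le_sum (f := fun f => ∑ i, B f i z.1) (fun _ _ => bot_le) hf
    · exact bot_le
  have hsm : Measurable fun ℓ : PhasePoint => ∑ f ∈ F, ∑ i, B f i ℓ :=
    Finset.measurable_sum _ fun f _ => Finset.measurable_sum _ fun i _ => hBm f i
  have hlin : ∫⁻ ℓ : PhasePoint, ∑ f ∈ F, ∑ i, B f i ℓ = ∑ f ∈ F, ∑ i, ∫⁻ ℓ, B f i ℓ := by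
    rw [lintegral_finsetSum _ fun f _ => Finset.measurable_sum _ fun i _ => hBm f i]
    refine Finset.sum_congr rfl fun f _ => ?_
    rw [lintegral_finsetSum _ fun i _ => hBm f i]
  calc activity ε * (∫⁻ z : PhasePoint × Par P, if Bad ε T S F η z.1 then q z else 0)
      ≤ activity ε * ∫⁻ z : PhasePoint × Par P, (∑ f ∈ F, ∑ i, B f i z.1) * domP b T P z.2 := by
        gcongr with z
        exact hpt z
    _ = activity ε * ((∫⁻ ℓ : PhasePoint, ∑ f ∈ F, ∑ i, B f i ℓ) *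
          ∫⁻ p : Par P, domP b T P p) := by
        congr 1
        exact lintegral_prod_mul (f := fun ℓ : PhasePoint => ∑ f ∈ F, ∑ i, B f i ℓ)
          (g := fun p : Par P => domP b T P p) hsm.aemeasurable (measurable_domP b T P).aemeasurable
    _ = (∑ f ∈ F, ∑ i, activity ε * ∫⁻ ℓ, B f i ℓ) * ∫⁻ p : Par P, domP b T P p := by
        rw [hlin, ← mul_assoc]
        congr 1
        rw [Finset.mul_sum]
        refine Finset.sum_congr rfl fun f _ => ?_
        rw [Finset.mul_sum]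
    _ ≤ (∑ _f ∈ F, ∑ _i : ι, ENNReal.ofReal (16 * (η + ε)) *
          (Sweep815.c3 * mom C b (M + 1))) * ∫⁻ p : Par P, domP b T P p := by
        refine mul_le_mul' (Finset.sum_le_sum fun f _ => Finset.sum_le_sum fun i _ => ?_) le_rfl
        refine bad_lines_le hε hη (hS i) (le_max_left _ _) (min_le_left _ _) ?_ C b
        have h1 : f - η ≤ max 0 (f - η) := le_max_right _ _
        have h2 : min T (f + η) ≤ f + η := min_le_right _ _
        linarith
    _ = _ := by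
        simp only [Finset.sum_const, Finset.card_univ, nsmul_eq_mul]
        ring

/-- Product integrals over the hit parameters. -/
theorem lintegral_hpar_mul {A : ℝ → ℝ≥0∞} {B : Space3 → ℝ≥0∞} {Y : Plane → ℝ≥0∞}
    {D : Par P → ℝ≥0∞} (hA : Measurable A) (hB : Measurable B) (hY : Measurable Y)
    (hD : Measurable D) :
    ∫⁻ θ : HPar P, A θ.1 * (B θ.2.1 * (Y θ.2.2.1 * D θ.2.2.2)) =
      (∫⁻ s, A s) * ((∫⁻ v, B v) * ((∫⁻ y, Y y) * ∫⁻ p, D p)) := by
  have m1 : Measurable fun r : Plane × Par P => Y r.1 * D r.2 :=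
    (hY.comp measurable_fst).mul (hD.comp measurable_snd)
  have m2 : Measurable fun r : Space3 × Plane × Par P => B r.1 * (Y r.2.1 * D r.2.2) :=
    (hB.comp measurable_fst).mul (m1.comp measurable_snd)
  have h1 : ∫⁻ θ : HPar P, A θ.1 * (B θ.2.1 * (Y θ.2.2.1 * D θ.2.2.2)) =
      (∫⁻ s, A s) * ∫⁻ r : Space3 × Plane × Par P, B r.1 * (Y r.2.1 * D r.2.2) :=
    lintegral_prod_mul (f := A) (g := fun r : Space3 × Plane × Par P => B r.1 * (Y r.2.1 * D r.2.2))
      hA.aemeasurable m2.aemeasurable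
  have h2 : ∫⁻ r : Space3 × Plane × Par P, B r.1 * (Y r.2.1 * D r.2.2) =
      (∫⁻ v, B v) * ∫⁻ r : Plane × Par P, Y r.1 * D r.2 :=
    lintegral_prod_mul (f := B) (g := fun r : Plane × Par P => Y r.1 * D r.2)
      hB.aemeasurable m1.aemeasurable
  have h3 : ∫⁻ r : Plane × Par P, Y r.1 * D r.2 = (∫⁻ y, Y y) * ∫⁻ p, D p :=
    lintegral_prod_mul (f := Y) (g := D) hY.aemeasurable hD.aemeasurable
  rw [h1, h2, h3]

/-- majorant of the entrance densities -/
def majH (C b T L : ℝ) (P : CTree) (A : Set ℝ) (θ : HPar P) : ℝ≥0∞ :=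
  A.indicator 1 θ.1 * ((gv C b θ.2.1 * ENNReal.ofReal (‖θ.2.1‖ + L)) *
    ((Metric.ball (0 : Plane) 1).indicator 1 θ.2.2.1 * domP b T P θ.2.2.2))

theorem lintegral_majH (C b T L : ℝ) (P : CTree) {A : Set ℝ} (hA : MeasurableSet A) :
    ∫⁻ θ : HPar P, majH C b T L P A θ =
      volume A * (mom C b L * (volume (Metric.ball (0 : Plane) 1) * ∫⁻ p : Par P, domP b T P p)) := by
  unfold majH
  have hB : Measurable fun v : Space3 => gv C b v * ENNReal.ofReal (‖v‖ + L) :=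
    (measurable_gv C b).mul (by fun_prop)
  have h1 := lintegral_hpar_mul (P := P) (A := A.indicator 1)
    (B := fun v : Space3 => gv C b v * ENNReal.ofReal (‖v‖ + L))
    (Y := (Metric.ball (0 : Plane) 1).indicator 1) (D := domP b T P)
    (measurable_one.indicator hA) hB (measurable_one.indicator measurableSet_ball)
    (measurable_domP b T P)
  refine h1.trans ?_
  rw [lintegral_indicator_one hA, lintegral_indicator_one measurableSet_ball]
  rfl


end Crest.Agent.R122.Tube818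
end
end

-- ▼ part R122/Tube6_818
section

/-!
Row 122, block FT (helper818), part 6: subdivisions of a convergent tube family.
-/

set_option autoImplicit false
set_option maxHeartbeats 400000

open MeasureTheory Set Filter
open Crest.AnalysisR.Kinetic
open scoped ENNReal Classical Topology NNReal

noncomputable section

namespace Crest.Agent.R122.Tube818

open Disc416 Flux663 Tree674 Kin796 Kin796.CTree TreeEps399 GIV566 GIVStep383 Hid424
open Causal291 IStep317 GC311 Quench815 TreeDom974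

variable {ι : Type}

theorem affine_of_deriv {c : ℝ → Space3} {V : Space3} {lo hi : ℝ}
    (h : ∀ u ∈ Icc lo hi, HasDerivAt c V u) :
    ∀ u ∈ Icc lo hi, c u = (c lo - lo • V) + u • V := by
  have h1 : ∀ u ∈ Icc lo hi, HasDerivAt (fun u => c u - u • V) 0 u := by
    intro u hu
    have h2 : HasDerivAt (fun u : ℝ => u • V) V u := by
      have := (hasDerivAt_id u).smul_const V
      rwa [one_smul] at this
    have h3 := (h u hu).fun_sub h2
    rwa [sub_self] at h3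
  have h3 := constant_of_has_deriv_right_zero (f := fun u => c u - u • V) (a := lo) (b := hi)
    (fun u hu => (h1 u hu).continuousAt.continuousWithinAt)
    (fun u hu => (h1 u (Ico_subset_Icc_self hu)).hasDerivWithinAt)
  intro u hu
  have h4 : c u - u • V = c lo - lo • V := h3 u hu
  rw [← h4, sub_add_cancel]

/-- a locally constant derivative is constant -/
theorem deriv_const {c : ℝ → Space3} {a b : ℝ}
    (h : ∀ s ∈ Ioo a b, ∃ v : Space3, ∃ U ∈ 𝓝 s, ∀ u ∈ U, HasDerivAt c v u) :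
    ∀ s ∈ Ioo a b, ∀ s' ∈ Ioo a b, deriv c s = deriv c s' := by
  have h1 : ∀ s ∈ Ioo a b, HasDerivAt (deriv c) 0 s := by
    intro s hs
    obtain ⟨v, U, hU, hd⟩ := h s hs
    have h2 : deriv c =ᶠ[𝓝 s] fun _ => v := by
      filter_upwards [hU] with u hu
      exact (hd u hu).deriv
    exact (hasDerivAt_const s v).congr_of_eventuallyEq h2
  have key : ∀ s ∈ Ioo a b, ∀ s' ∈ Ioo a b, s ≤ s' → deriv c s = deriv c s' := by
    intro s hs s' hs' hle
    have hsub : Icc s s' ⊆ Ioo a b := fun u hu => ⟨hs.1.trans_le hu.1, hu.2.trans_lt hs'.2⟩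
    have h3 := constant_of_has_deriv_right_zero (f := deriv c) (a := s) (b := s')
      (fun u hu => (h1 u (hsub hu)).continuousAt.continuousWithinAt)
      (fun u hu => (h1 u (hsub (Ico_subset_Icc_self hu))).hasDerivWithinAt)
    exact (h3 s' ⟨hle, le_rfl⟩).symm
  intro s hs s' hs'
  rcases le_total s s' with h2 | h2
  · exact key s hs s' hs' h2
  · exact (key s' hs' s hs h2).symm

/-- intercept of the straight piece `a` -/
def cA (V : (ℝ × ℝ) × ι → Space3) (S : Tubes ι) (a : (ℝ × ℝ) × ι) : Space3 :=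
  S.c a.2 a.1.1 - a.1.1 • V a

/-- velocity of the straight piece `a` -/
def vA (S : Tubes ι) (a : (ℝ × ℝ) × ι) : Space3 := deriv (S.c a.2) ((a.1.1 + a.1.2) / 2)

/-- consecutive points of a finite set -/
def cons (F : Finset ℝ) : Finset (ℝ × ℝ) :=
  (F ×ˢ F).filter fun p => p.1 < p.2 ∧ ∀ f ∈ F, ¬ (p.1 < f ∧ f < p.2)

/-- good intervals -/
def goodJ (F : Finset ℝ) (η : ℝ) : Finset (ℝ × ℝ) :=
  (cons F).image fun p => (p.1 + η, p.2 - η)

theorem mem_cons {F : Finset ℝ} {p : ℝ × ℝ} : p ∈ cons F ↔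
    (p.1 ∈ F ∧ p.2 ∈ F) ∧ p.1 < p.2 ∧ ∀ f ∈ F, ¬ (p.1 < f ∧ f < p.2) := by
  unfold cons
  rw [Finset.mem_filter, Finset.mem_product]

theorem mem_goodJ {F : Finset ℝ} {η : ℝ} {j : ℝ × ℝ} :
    j ∈ goodJ F η ↔ (j.1 - η, j.2 + η) ∈ cons F := by
  unfold goodJ
  rw [Finset.mem_image]
  constructor
  · rintro ⟨p, hp, rfl⟩
    simpa using hp
  · intro h
    exact ⟨_, h, by simp⟩

theorem cov_goodJ {F : Finset ℝ} {tw t η : ℝ} (hη : 0 < η) (h1 : tw ∈ F) (h2 : t ∈ F) {σ : ℝ}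
    (hσ : σ ∈ Icc tw t) : (∃ j ∈ goodJ F η, σ ∈ Ioo j.1 j.2) ∨ ∃ f ∈ F, |σ - f| ≤ η := by
  by_cases hn : ∃ f ∈ F, |σ - f| ≤ η
  · exact Or.inr hn
  push Not at hn
  left
  have hne1 : (F.filter fun f => f ≤ σ).Nonempty := ⟨tw, Finset.mem_filter.2 ⟨h1, hσ.1⟩⟩
  have hne2 : (F.filter fun f => σ ≤ f).Nonempty := ⟨t, Finset.mem_filter.2 ⟨h2, hσ.2⟩⟩
  obtain ⟨a, haF, hamax⟩ : ∃ a, (a ∈ F ∧ a ≤ σ) ∧ ∀ f ∈ F, f ≤ σ → f ≤ a := by
    refine ⟨(F.filter fun f => f ≤ σ).max' hne1, ?_, fun f hf hfσ => ?_⟩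
    · exact Finset.mem_filter.1 (Finset.max'_mem _ hne1)
    · exact Finset.le_max' _ _ (Finset.mem_filter.2 ⟨hf, hfσ⟩)
  obtain ⟨b, hbF, hbmin⟩ : ∃ b, (b ∈ F ∧ σ ≤ b) ∧ ∀ f ∈ F, σ ≤ f → b ≤ f := by
    refine ⟨(F.filter fun f => σ ≤ f).min' hne2, ?_, fun f hf hfσ => ?_⟩
    · exact Finset.mem_filter.1 (Finset.min'_mem _ hne2)
    · exact Finset.min'_le _ _ (Finset.mem_filter.2 ⟨hf, hfσ⟩)
  have ha' := hn a haF.1
  have hb' := hn b hbF.1
  rw [abs_of_nonneg (sub_nonneg.2 haF.2)] at ha'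
  rw [abs_of_nonpos (sub_nonpos.2 hbF.2)] at hb'
  refine ⟨(a + η, b - η), ?_, ⟨by linarith, by linarith⟩⟩
  rw [mem_goodJ, mem_cons]
  refine ⟨⟨by simpa using haF.1, by simpa using hbF.1⟩, by simp; linarith, ?_⟩
  rintro f hf ⟨hf1, hf2⟩
  simp only [add_sub_cancel_right, sub_add_cancel] at hf1 hf2
  rcases le_total f σ with h | h
  · exact absurd (hamax f hf h) (not_le.2 hf1)
  · exact absurd (hbmin f hf h) (not_le.2 hf2)

theorem disj_cons {F : Finset ℝ} {p p' : ℝ × ℝ} (hp : p ∈ cons F) (hp' : p' ∈ cons F) {σ : ℝ}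
    (h : σ ∈ Ioo p.1 p.2) (h' : σ ∈ Ioo p'.1 p'.2) : p = p' := by
  rw [mem_cons] at hp hp'
  have e1 : p.1 = p'.1 := by
    rcases lt_trichotomy p.1 p'.1 with h1 | h1 | h1
    · exact absurd ⟨h1, h'.1.trans h.2⟩ (hp.2.2 _ hp'.1.1)
    · exact h1
    · exact absurd ⟨h1, h.1.trans h'.2⟩ (hp'.2.2 _ hp.1.1)
  have e2 : p.2 = p'.2 := by
    rcases lt_trichotomy p.2 p'.2 with h1 | h1 | h1
    · exact absurd ⟨h'.1.trans h.2, h1⟩ (hp'.2.2 _ hp.1.2)
    · exact h1
    · exact absurd ⟨h.1.trans h'.2, h1⟩ (hp.2.2 _ hp'.1.2)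
  exact Prod.ext e1 e2

/-- active pairs -/
def goodK [Fintype ι] (S : Tubes ι) (F : Finset ℝ) (η : ℝ) : Finset ((ℝ × ℝ) × ι) :=
  (goodJ F η ×ˢ Finset.univ).filter fun q => q.1.2 + η ≤ S.b q.2

theorem mem_goodK [Fintype ι] {S : Tubes ι} {F : Finset ℝ} {η : ℝ} {q : (ℝ × ℝ) × ι} :
    q ∈ goodK S F η ↔ q.1 ∈ goodJ F η ∧ q.1.2 + η ≤ S.b q.2 := by
  unfold goodK
  rw [Finset.mem_filter, Finset.mem_product]
  simp

/-- **Subdivision of a convergent tube family.** -/
theorem exists_subdiv [Fintype ι] {T tw t : ℝ} {Sk : ℕ → Tubes ι} {S : Tubes ι}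
    (hconv : TubeConv T Sk S) (htw : 0 ≤ tw) (htwt : tw ≤ t) (htT : t ≤ T) :
    ∃ F : Finset ℝ, ∀ η : ℝ, 0 < η → ∃ (J : Finset (ℝ × ℝ)) (K : Finset ((ℝ × ℝ) × ι))
      (V : (ℝ × ℝ) × ι → Space3), Subdiv tw t S J F η K V (cA V S) ∧
        (∀ᶠ k in atTop, Subdiv tw t (Sk k) J F η K V (cA V (Sk k))) ∧
        ∀ a ∈ K, ∀ u ∈ Ioo a.1.1 a.1.2, deriv (S.c a.2) u = V a := by
  obtain ⟨B, hBf, hB⟩ := hconv.vel
  set F0 : Finset ℝ := hBf.toFinset ∪ Finset.univ.image S.b ∪ {tw, t} with hF0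
  set F : Finset ℝ := F0.filter fun f => f ∈ Icc tw t with hF
  have htwF : tw ∈ F := by
    rw [hF, Finset.mem_filter]
    exact ⟨by rw [hF0]; simp, le_rfl, htwt⟩
  have htF : t ∈ F := by
    rw [hF, Finset.mem_filter]
    exact ⟨by rw [hF0]; simp, htwt, le_rfl⟩
  have hBF : ∀ s ∈ B, s ∈ Icc tw t → s ∈ F := by
    intro s hs hs'
    rw [hF, Finset.mem_filter]
    refine ⟨?_, hs'⟩
    rw [hF0]
    simp [hs]
  have hbF : ∀ i, S.b i ∈ Icc tw t → S.b i ∈ F := by
    intro i hi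
    rw [hF, Finset.mem_filter]
    refine ⟨?_, hi⟩
    rw [hF0]
    simp
  have hFI : ∀ f ∈ F, f ∈ Icc tw t := fun f hf => (Finset.mem_filter.1 hf).2
  refine ⟨F, fun η hη => ⟨goodJ F η, goodK S F η, vA S, ?_⟩⟩
  -- the interval around a good interval
  have hcons : ∀ j ∈ goodJ F η, (j.1 - η ∈ F ∧ j.2 + η ∈ F) ∧ j.1 - η < j.2 + η ∧
      ∀ f ∈ F, ¬ (j.1 - η < f ∧ f < j.2 + η) := fun j hj => mem_cons.1 (mem_goodJ.1 hj)
  have hbig : ∀ j ∈ goodJ F η, Ioo (j.1 - η) (j.2 + η) ⊆ Ioo tw t := by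
    intro j hj u hu
    have h1 := hcons j hj
    exact ⟨(hFI _ h1.1.1).1.trans_lt hu.1, hu.2.trans_le (hFI _ h1.1.2).2⟩
  have hsub : ∀ j ∈ goodJ F η, Ioo j.1 j.2 ⊆ Ioo tw t := fun j hj =>
    (Ioo_subset_Ioo (by linarith) (by linarith)).trans (hbig j hj)
  have hdisj : ∀ j ∈ goodJ F η, ∀ j' ∈ goodJ F η, ∀ σ, σ ∈ Ioo j.1 j.2 →
      σ ∈ Ioo j'.1 j'.2 → j = j' := by
    intro j hj j' hj' σ h1 h2
    have h3 := disj_cons (mem_goodJ.1 hj) (mem_goodJ.1 hj') (σ := σ)
      ⟨by linarith [h1.1], by linarith [h1.2]⟩ ⟨by linarith [h2.1], by linarith [h2.2]⟩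
    have h4 := congrArg Prod.fst h3
    have h5 := congrArg Prod.snd h3
    simp only at h4 h5
    exact Prod.ext (by linarith) (by linarith)
  -- derivatives
  have hvel : ∀ a ∈ goodK S F η, ∀ s ∈ Ioo (a.1.1 - η) (a.1.2 + η), ∃ v : Space3, ∃ U ∈ 𝓝 s,
      (∀ u ∈ U, HasDerivAt (S.c a.2) v u) ∧
        ∀ᶠ k in atTop, ∀ u ∈ U, HasDerivAt ((Sk k).c a.2) v u := by
    intro a ha s hs
    rw [mem_goodK] at ha
    have h1 := hbig a.1 ha.1 hs
    refine hB s ⟨htw.trans_lt h1.1, h1.2.trans_le htT⟩ (fun hsB => ?_) a.2 (hs.2.trans_le ha.2)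
    exact (hcons a.1 ha.1).2.2 s (hBF s hsB (Ioo_subset_Icc_self h1)) hs
  have hder : ∀ a ∈ goodK S F η, a.1.1 < a.1.2 → ∀ s ∈ Ioo (a.1.1 - η) (a.1.2 + η),
      deriv (S.c a.2) s = vA S a := by
    intro a ha hlt s hs
    refine deriv_const (fun s hs => ?_) s hs _ ?_
    · obtain ⟨v, U, hU, h1, -⟩ := hvel a ha s hs
      exact ⟨v, U, hU, h1⟩
    · constructor <;> linarith
  have hall : ∀ a ∈ goodK S F η, a.1.1 < a.1.2 → ∀ u ∈ Icc a.1.1 a.1.2,
      HasDerivAt (S.c a.2) (vA S a) u := by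
    intro a ha hlt u hu
    have hu' : u ∈ Ioo (a.1.1 - η) (a.1.2 + η) := ⟨by linarith [hu.1], by linarith [hu.2]⟩
    obtain ⟨v, U, hU, h1, -⟩ := hvel a ha u hu'
    have h2 := h1 u (mem_of_mem_nhds hU)
    have h3 : v = vA S a := h2.deriv.symm.trans (hder a ha hlt u hu')
    rw [← h3]
    exact h2
  have hallk : ∀ a ∈ goodK S F η, a.1.1 < a.1.2 → ∀ᶠ k in atTop, ∀ u ∈ Icc a.1.1 a.1.2,
      HasDerivAt ((Sk k).c a.2) (vA S a) u := by
    intro a ha hlt
    have hne : ∀ s ∈ Icc a.1.1 a.1.2, ∃ U ∈ 𝓝 s, ∀ᶠ k in atTop, ∀ u ∈ U,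
        HasDerivAt ((Sk k).c a.2) (vA S a) u := by
      intro s hs
      have hs' : s ∈ Ioo (a.1.1 - η) (a.1.2 + η) := ⟨by linarith [hs.1], by linarith [hs.2]⟩
      obtain ⟨v, U, hU, h1, h2⟩ := hvel a ha s hs'
      have h3 : v = vA S a := (h1 s (mem_of_mem_nhds hU)).deriv.symm.trans (hder a ha hlt s hs')
      exact ⟨U, hU, h3 ▸ h2⟩
    choose! U hU hU' using hne
    obtain ⟨s, hs, hcov⟩ := (isCompact_Icc (a := a.1.1) (b := a.1.2)).elim_nhds_subcover U hU
    have h4 : ∀ᶠ k in atTop, ∀ x ∈ s, ∀ u ∈ U x, HasDerivAt ((Sk k).c a.2) (vA S a) u := by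
      rw [Filter.eventually_all_finset s]
      exact fun x hx => hU' x (hs x hx)
    filter_upwards [h4] with k hk u hu
    have h5 := hcov hu
    simp only [mem_iUnion, exists_prop] at h5
    obtain ⟨x, hx, hux⟩ := h5
    exact hk x hx u hux
  have hin : ∀ j ∈ goodJ F η, ∀ i, (j, i) ∉ goodK S F η → S.b i ≤ j.1 - η := by
    intro j hj i hi
    have h1 : S.b i < j.2 + η := by
      by_contra h
      exact hi (mem_goodK.2 ⟨hj, not_lt.1 h⟩)
    by_contra h2
    push Not at h2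
    have h3 := hbig j hj ⟨h2, h1⟩
    exact (hcons j hj).2.2 _ (hbF i (Ioo_subset_Icc_self h3)) ⟨h2, h1⟩
  have haff : ∀ (S' : Tubes ι) (a : (ℝ × ℝ) × ι),
      (a.1.1 < a.1.2 → ∀ u ∈ Icc a.1.1 a.1.2, HasDerivAt (S'.c a.2) (vA S a) u) →
      ∀ u ∈ Ioo a.1.1 a.1.2, S'.c a.2 u = cA (vA S) S' a + u • vA S a := fun S' a h u hu =>
    affine_of_deriv (h (hu.1.trans hu.2)) u (Ioo_subset_Icc_self hu)
  refine ⟨⟨fun σ hσ => cov_goodJ hη htwF htF hσ, hsub, hdisj, fun a ha => (mem_goodK.1 ha).1,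
    fun a ha u hu => ⟨?_, haff S a (fun hlt => hall a ha hlt) u hu⟩, fun j hj i hi u hu => ?_⟩,
    ?_, fun a ha u hu => ?_⟩
  · have := (mem_goodK.1 ha).2
    linarith [hu.2]
  · have := hin j hj i hi
    linarith [hu.1]
  · have e1 : ∀ᶠ k in atTop, ∀ i, S.b i - η < (Sk k).b i ∧ (Sk k).b i < S.b i + η := by
      rw [Filter.eventually_all]
      intro i
      exact (hconv.active i).eventually (Ioo_mem_nhds (by linarith) (by linarith))
    have e2 : ∀ᶠ k in atTop, ∀ a ∈ goodK S F η, a.1.1 < a.1.2 → ∀ u ∈ Icc a.1.1 a.1.2,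
        HasDerivAt ((Sk k).c a.2) (vA S a) u := by
      rw [Filter.eventually_all_finset]
      intro a ha
      by_cases hlt : a.1.1 < a.1.2
      · filter_upwards [hallk a ha hlt] with k hk _
        exact hk
      · exact Filter.Eventually.of_forall fun k h => absurd h hlt
    filter_upwards [e1, e2] with k h1 h2
    refine ⟨fun σ hσ => cov_goodJ hη htwF htF hσ, hsub, hdisj, fun a ha => (mem_goodK.1 ha).1,
      fun a ha u hu => ⟨?_, haff (Sk k) a (h2 a ha) u hu⟩, fun j hj i hi u hu => ?_⟩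
    · have h3 := (mem_goodK.1 ha).2
      have h4 := (h1 a.2).1
      linarith [hu.2]
    · have h3 := hin j hj i hi
      have h4 := (h1 i).2
      linarith [hu.1]
  · exact hder a ha (hu.1.trans hu.2) u ⟨by linarith [hu.1], by linarith [hu.2]⟩

end Crest.Agent.R122.Tube818
end
end

-- ▼ part R122/Tube7_818
section

/-!
Row 122, block FT (helper818), part 7: densities of the hits in the coordinates of the hit,
measurability, comparison of the entrance densities with them.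
-/

set_option autoImplicit false
set_option maxHeartbeats 400000

open MeasureTheory Set Filter
open Crest.AnalysisR.Kinetic
open scoped ENNReal Classical Topology NNReal

noncomputable section

namespace Crest.Agent.R122.Tube818

open Disc416 Flux663 Tree674 Kin796 Kin796.CTree TreeEps399 GIV566 GIVStep383 Hid424
open Causal291 IStep317 GC311 Quench815 TreeDom974

variable {Φ : Space3 → ℝ} {f₀ : PhasePoint → ℝ} {ε tw t T : ℝ} {P : CTree} {ι : Type}

/-- the line entering the tube `i` -/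
def eL (ε : ℝ) (Sk S : Tubes ι) (i : ι) (θ : HPar P) : PhasePoint :=
  rootL ε (Sk.c i θ.1) (deriv (S.c i) θ.1) θ.1 θ.2.1 θ.2.2.1

/-- density of the first good hits at `ε`, in the parameters of the hit -/
def wE (Φ : Space3 → ℝ) (f₀ : PhasePoint → ℝ) (ε tw t : ℝ) (Sk S : Tubes ι) (i : ι) (θ : HPar P)
    (x : Space3) : ℝ≥0∞ :=
  if tw < θ.1 ∧ θ.1 < t ∧ θ.1 < S.b i ∧ ‖θ.2.2.1‖ < 1 ∧
      FirstAt Φ ε P Sk (eL ε Sk S i θ, θ.2.2.2) θ.1 then
    ENNReal.ofReal ‖θ.2.1 - deriv (S.c i) θ.1‖ * (wt Φ P θ.2.1 θ.2.2.2 *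
      ∏ j, ENNReal.ofReal (f₀ (lines Φ ε P ((eL ε Sk S i θ).1 + x, θ.2.1) θ.2.2.2 j)))
  else 0

/-- the hitting line is also in another tube -/
def Touch (ε : ℝ) (Sk S : Tubes ι) (i : ι) (θ : HPar P) : Prop :=
  ∃ i', i' ≠ i ∧ θ.1 ≤ Sk.b i' ∧ dist (Sk.c i' θ.1) (onLine (eL ε Sk S i θ) θ.1).1 ≤ ε

/-! ### Measurability -/

theorem exists_frozen {S : Tubes ι} (hT : 0 ≤ T) (hS : ∀ i, ContinuousOn (S.c i) (Icc 0 T)) :
    ∃ c : ι → ℝ → Space3, (∀ i, Continuous (c i)) ∧ ∀ i, ∀ u ∈ Icc 0 T, S.c i u = c i u := by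
  refine ⟨fun i u => S.c i (projIcc 0 T hT u), fun i => ?_, fun i u hu => ?_⟩
  · exact (hS i).comp_continuous (continuous_subtype_val.comp continuous_projIcc)
      fun s => (projIcc 0 T hT s).2
  · show S.c i u = S.c i (projIcc 0 T hT u)
    rw [projIcc_of_mem hT hu]

theorem measurable_rootL (ε : ℝ) {α : Type*} [MeasurableSpace α] {x V v : α → Space3} {s : α → ℝ}
    {y : α → Plane} (hx : Measurable x) (hV : Measurable V) (hs : Measurable s)
    (hv : Measurable v) (hy : Measurable y) :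
    Measurable fun a => rootL ε (x a) (V a) (s a) (v a) (y a) := by
  unfold rootL
  have h1 : Measurable fun a => v a - V a := hv.sub hV
  have h2 : Measurable fun a => frameMap (v a - V a) (y a) :=
    measurable_frameMap.comp (h1.prodMk hy)
  have h3 : Measurable fun a => entrancePoint (frameMap (v a - V a) (y a)) (v a - V a) :=
    measurable_entrancePoint.comp (h2.prodMk h1)
  exact ((hx.add (h3.const_smul ε)).sub (hs.smul hv)).prodMk hv

/-- `wgt` is jointly measurable -/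
theorem measurable_wgt (hΦ : AdmissiblePotential Φ) (hf : Measurable f₀) (htw : 0 ≤ tw)
    (htT : t ≤ T) (hT : 0 ≤ T) {S : Tubes ι} (hS : ∀ i, ContinuousOn (S.c i) (Icc 0 T)) (i : ι) :
    Measurable fun q : HPar P × Space3 => wgt Φ f₀ tw t S i q.1 q.2 := by
  obtain ⟨c, hc, hcS⟩ := exists_frozen hT hS
  have hset : MeasurableSet {θ : HPar P | HGood Φ tw t S i θ} := by
    have h1 : MeasurableSet {θ : HPar P | θ.1 ∈ Ioc tw t} := measurable_fst measurableSet_Ioc
    have h2 : MeasurableSet {θ : HPar P | θ.1 < S.b i} :=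
      measurableSet_lt measurable_fst measurable_const
    have h3 : MeasurableSet {θ : HPar P | ‖θ.2.2.1‖ < 1} :=
      measurableSet_lt measurable_snd.snd.fst.norm measurable_const
    have h4 : MeasurableSet {θ : HPar P | Valid Φ 0 P θ.1 θ.2.1 θ.2.2.2} :=
      (measurable_fst.prodMk (measurable_snd.fst.prodMk measurable_snd.snd.snd))
        (measurableSet_valid3 hΦ 0 P)
    exact h1.inter (h2.inter (h3.inter h4))
  have hd : Measurable fun q : HPar P × Space3 =>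
      ENNReal.ofReal ‖q.1.2.1 - deriv (S.c i) q.1.1‖ :=
    (measurable_fst.snd.fst.sub ((measurable_deriv (S.c i)).comp
      measurable_fst.fst)).norm.ennreal_ofReal
  have hw : Measurable fun q : HPar P × Space3 => wtM Φ P q.1.2.1 q.1.2.2.2 :=
    (measurable_wtM hΦ P).comp (measurable_fst.snd.fst.prodMk measurable_fst.snd.snd.snd)
  have hℓ : Measurable fun q : HPar P × Space3 =>
      ((c i q.1.1 + q.2 - q.1.1 • q.1.2.1, q.1.2.1) : PhasePoint) := by
    have h1 : Measurable fun q : HPar P × Space3 => c i q.1.1 :=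
      (hc i).measurable.comp measurable_fst.fst
    have h2 : Measurable fun q : HPar P × Space3 => q.1.1 • q.1.2.1 :=
      measurable_fst.fst.smul measurable_fst.snd.fst
    exact ((h1.add measurable_snd).sub h2).prodMk measurable_fst.snd.fst
  have hlin : Measurable fun q : HPar P × Space3 =>
      linesM Φ 0 P (c i q.1.1 + q.2 - q.1.1 • q.1.2.1, q.1.2.1) q.1.2.2.2 :=
    (measurable_linesM hΦ 0 P).comp (hℓ.prodMk measurable_fst.snd.snd.snd)
  have hprod : Measurable fun q : HPar P × Space3 => ∏ j, ENNReal.ofReal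
      (f₀ (linesM Φ 0 P (c i q.1.1 + q.2 - q.1.1 • q.1.2.1, q.1.2.1) q.1.2.2.2 j)) :=
    Finset.measurable_prod _ fun j _ =>
      (hf.comp ((measurable_pi_apply j).comp hlin)).ennreal_ofReal
  have key : (fun q : HPar P × Space3 => wgt Φ f₀ tw t S i q.1 q.2) = fun q =>
      if q.1 ∈ {θ : HPar P | HGood Φ tw t S i θ} then
        ENNReal.ofReal ‖q.1.2.1 - deriv (S.c i) q.1.1‖ * (wtM Φ P q.1.2.1 q.1.2.2.2 *
          ∏ j, ENNReal.ofReal
            (f₀ (linesM Φ 0 P (c i q.1.1 + q.2 - q.1.1 • q.1.2.1, q.1.2.1) q.1.2.2.2 j)))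
      else 0 := by
    funext q
    unfold wgt
    by_cases h : HGood Φ tw t S i q.1
    · rw [if_pos h, if_pos (show q.1 ∈ {θ : HPar P | HGood Φ tw t S i θ} from h)]
      have hadm : Adm Φ P q.1.2.1 q.1.2.2.2 := h.2.2.2.1
      rw [wtM_of_adm hadm, ← hcS i q.1.1 ⟨htw.trans h.1.1.le, h.1.2.trans htT⟩,
        linesM_of_adm 0 (ℓ := (S.c i q.1.1 + q.2 - q.1.1 • q.1.2.1, q.1.2.1)) hadm]
    · rw [if_neg h, if_neg (show q.1 ∉ {θ : HPar P | HGood Φ tw t S i θ} from h)]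
  rw [key]
  exact Measurable.ite (measurable_fst hset) (hd.mul (hw.mul hprod)) measurable_const

/-- `wE` is jointly measurable -/
theorem measurable_wE [Countable ι] (hΦ : AdmissiblePotential Φ) (hε : 0 < ε) (hf : Measurable f₀)
    (htw : 0 ≤ tw) (htT : t ≤ T) (hT : 0 ≤ T) {Sk S : Tubes ι}
    (hS : ∀ i, ContinuousOn (Sk.c i) (Icc 0 T)) (i : ι) :
    Measurable fun q : HPar P × Space3 => wE Φ f₀ ε tw t Sk S i q.1 q.2 := by
  obtain ⟨c, hc, hcS⟩ := exists_frozen hT hS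
  have hel : Measurable fun θ : HPar P =>
      rootL ε (c i θ.1) (deriv (S.c i) θ.1) θ.1 θ.2.1 θ.2.2.1 :=
    measurable_rootL ε ((hc i).measurable.comp measurable_fst)
      ((measurable_deriv (S.c i)).comp measurable_fst) measurable_fst measurable_snd.fst
      measurable_snd.snd.fst
  have hset : MeasurableSet {θ : HPar P | (tw < θ.1 ∧ θ.1 < t ∧ θ.1 < S.b i ∧ ‖θ.2.2.1‖ < 1) ∧
      ((0 < θ.1 ∧ θ.1 ≤ T) ∧ FirstAt Φ ε P Sk
        (rootL ε (c i θ.1) (deriv (S.c i) θ.1) θ.1 θ.2.1 θ.2.2.1, θ.2.2.2) θ.1)} := by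
    have h1 : MeasurableSet {θ : HPar P | tw < θ.1} :=
      measurableSet_lt measurable_const measurable_fst
    have h2 : MeasurableSet {θ : HPar P | θ.1 < t} :=
      measurableSet_lt measurable_fst measurable_const
    have h3 : MeasurableSet {θ : HPar P | θ.1 < S.b i} :=
      measurableSet_lt measurable_fst measurable_const
    have h4 : MeasurableSet {θ : HPar P | ‖θ.2.2.1‖ < 1} :=
      measurableSet_lt measurable_snd.snd.fst.norm measurable_const
    have h5 := (measurable_fst.prodMk (hel.prodMk measurable_snd.snd.snd))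
      (measurableSet_firstAt (P := P) hΦ hε hT hS)
    exact (h1.inter (h2.inter (h3.inter h4))).inter h5
  have hd : Measurable fun q : HPar P × Space3 =>
      ENNReal.ofReal ‖q.1.2.1 - deriv (S.c i) q.1.1‖ :=
    (measurable_fst.snd.fst.sub ((measurable_deriv (S.c i)).comp
      measurable_fst.fst)).norm.ennreal_ofReal
  have hw : Measurable fun q : HPar P × Space3 => wtM Φ P q.1.2.1 q.1.2.2.2 :=
    (measurable_wtM hΦ P).comp (measurable_fst.snd.fst.prodMk measurable_fst.snd.snd.snd)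
  have hℓ : Measurable fun q : HPar P × Space3 =>
      (((rootL ε (c i q.1.1) (deriv (S.c i) q.1.1) q.1.1 q.1.2.1 q.1.2.2.1).1 + q.2, q.1.2.1) :
        PhasePoint) :=
    (((hel.comp measurable_fst).fst).add measurable_snd).prodMk measurable_fst.snd.fst
  have hlin : Measurable fun q : HPar P × Space3 =>
      linesM Φ ε P ((rootL ε (c i q.1.1) (deriv (S.c i) q.1.1) q.1.1 q.1.2.1 q.1.2.2.1).1 + q.2,
        q.1.2.1) q.1.2.2.2 :=
    (measurable_linesM hΦ ε P).comp (hℓ.prodMk measurable_fst.snd.snd.snd)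
  have hprod : Measurable fun q : HPar P × Space3 => ∏ j, ENNReal.ofReal
      (f₀ (linesM Φ ε P ((rootL ε (c i q.1.1) (deriv (S.c i) q.1.1) q.1.1 q.1.2.1 q.1.2.2.1).1 +
        q.2, q.1.2.1) q.1.2.2.2 j)) :=
    Finset.measurable_prod _ fun j _ =>
      (hf.comp ((measurable_pi_apply j).comp hlin)).ennreal_ofReal
  have key : (fun q : HPar P × Space3 => wE Φ f₀ ε tw t Sk S i q.1 q.2) = fun q =>
      if q.1 ∈ {θ : HPar P | (tw < θ.1 ∧ θ.1 < t ∧ θ.1 < S.b i ∧ ‖θ.2.2.1‖ < 1) ∧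
          ((0 < θ.1 ∧ θ.1 ≤ T) ∧ FirstAt Φ ε P Sk
            (rootL ε (c i θ.1) (deriv (S.c i) θ.1) θ.1 θ.2.1 θ.2.2.1, θ.2.2.2) θ.1)} then
        ENNReal.ofReal ‖q.1.2.1 - deriv (S.c i) q.1.1‖ * (wtM Φ P q.1.2.1 q.1.2.2.2 *
          ∏ j, ENNReal.ofReal (f₀ (linesM Φ ε P ((rootL ε (c i q.1.1) (deriv (S.c i) q.1.1)
            q.1.1 q.1.2.1 q.1.2.2.1).1 + q.2, q.1.2.1) q.1.2.2.2 j)))
      else 0 := by
    funext q
    unfold wE eL
    by_cases h : tw < q.1.1 ∧ q.1.1 < t ∧ q.1.1 < S.b i ∧ ‖q.1.2.2.1‖ < 1 ∧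
      FirstAt Φ ε P Sk (rootL ε (Sk.c i q.1.1) (deriv (S.c i) q.1.1) q.1.1 q.1.2.1 q.1.2.2.1,
        q.1.2.2.2) q.1.1
    · have hm : q.1.1 ∈ Icc 0 T := ⟨htw.trans h.1.le, h.2.1.le.trans htT⟩
      have hadm : Adm Φ P q.1.2.1 q.1.2.2.2 := h.2.2.2.2.valid.1
      rw [if_pos h, if_pos, ← hcS i q.1.1 hm, wtM_of_adm hadm, linesM_of_adm ε
        (ℓ := ((rootL ε (Sk.c i q.1.1) (deriv (S.c i) q.1.1) q.1.1 q.1.2.1 q.1.2.2.1).1 + q.2,
          q.1.2.1)) hadm]
      rw [mem_ofPred_eq, ← hcS i q.1.1 hm]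
      exact ⟨⟨h.1, h.2.1, h.2.2.1, h.2.2.2.1⟩, ⟨htw.trans_lt h.1, hm.2⟩, h.2.2.2.2⟩
    · rw [if_neg h, if_neg]
      rintro ⟨h1, h2, h3⟩
      rw [← hcS i q.1.1 ⟨h2.1.le, h2.2⟩] at h3
      exact h ⟨h1.1, h1.2.1, h1.2.2.1, h1.2.2.2, h3⟩
  rw [key]
  exact Measurable.ite (measurable_fst hset) (hd.mul (hw.mul hprod)) measurable_const

/-- double touches, jointly measurable -/
theorem measurable_touch [Countable ι] (hΦ : AdmissiblePotential Φ) (hε : 0 < ε)
    (hf : Measurable f₀) (htw : 0 ≤ tw) (htT : t ≤ T) (hT : 0 ≤ T) {Sk S : Tubes ι}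
    (hS : ∀ i, ContinuousOn (Sk.c i) (Icc 0 T)) (i : ι) :
    Measurable fun q : HPar P × Space3 =>
      if Touch ε Sk S i q.1 then wE Φ f₀ ε tw t Sk S i q.1 q.2 else 0 := by
  obtain ⟨c, hc, hcS⟩ := exists_frozen hT hS
  have hel : Measurable fun θ : HPar P =>
      rootL ε (c i θ.1) (deriv (S.c i) θ.1) θ.1 θ.2.1 θ.2.2.1 :=
    measurable_rootL ε ((hc i).measurable.comp measurable_fst)
      ((measurable_deriv (S.c i)).comp measurable_fst) measurable_fst measurable_snd.fst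
      measurable_snd.snd.fst
  have hset : MeasurableSet {θ : HPar P | ∃ i', i' ≠ i ∧ θ.1 ≤ Sk.b i' ∧ dist (c i' θ.1)
      (onLine (rootL ε (c i θ.1) (deriv (S.c i) θ.1) θ.1 θ.2.1 θ.2.2.1) θ.1).1 ≤ ε} := by
    have e : {θ : HPar P | ∃ i', i' ≠ i ∧ θ.1 ≤ Sk.b i' ∧ dist (c i' θ.1)
      (onLine (rootL ε (c i θ.1) (deriv (S.c i) θ.1) θ.1 θ.2.1 θ.2.2.1) θ.1).1 ≤ ε} =
      ⋃ i', {θ : HPar P | i' ≠ i ∧ θ.1 ≤ Sk.b i' ∧ dist (c i' θ.1)
      (onLine (rootL ε (c i θ.1) (deriv (S.c i) θ.1) θ.1 θ.2.1 θ.2.2.1) θ.1).1 ≤ ε} := by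
      ext θ
      simp
    rw [e]
    refine MeasurableSet.iUnion fun i' => ?_
    refine (MeasurableSet.const _).inter ((measurableSet_le measurable_fst
      measurable_const).inter ?_)
    exact measurableSet_le (((hc i').measurable.comp measurable_fst).dist
      (measurable_onLine2.comp (hel.prodMk measurable_fst)).fst) measurable_const
  have key : (fun q : HPar P × Space3 =>
      if Touch ε Sk S i q.1 then wE Φ f₀ ε tw t Sk S i q.1 q.2 else 0) = fun q =>
      if q.1 ∈ {θ : HPar P | ∃ i', i' ≠ i ∧ θ.1 ≤ Sk.b i' ∧ dist (c i' θ.1)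
        (onLine (rootL ε (c i θ.1) (deriv (S.c i) θ.1) θ.1 θ.2.1 θ.2.2.1) θ.1).1 ≤ ε} then
        wE Φ f₀ ε tw t Sk S i q.1 q.2 else 0 := by
    funext q
    by_cases h : tw < q.1.1 ∧ q.1.1 < t
    · have hm : q.1.1 ∈ Icc 0 T := ⟨htw.trans h.1.le, h.2.le.trans htT⟩
      have h2 : Touch ε Sk S i q.1 ↔ q.1 ∈ {θ : HPar P | ∃ i', i' ≠ i ∧ θ.1 ≤ Sk.b i' ∧
          dist (c i' θ.1)
        (onLine (rootL ε (c i θ.1) (deriv (S.c i) θ.1) θ.1 θ.2.1 θ.2.2.1) θ.1).1 ≤ ε} := by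
        unfold Touch eL
        rw [mem_ofPred_eq, ← hcS i q.1.1 hm]
        refine exists_congr fun i' => ?_
        rw [← hcS i' q.1.1 hm]
      by_cases h3 : Touch ε Sk S i q.1
      · rw [if_pos h3, if_pos (h2.1 h3)]
      · rw [if_neg h3, if_neg (fun h4 => h3 (h2.2 h4))]
    · have h2 : wE Φ f₀ ε tw t Sk S i q.1 q.2 = 0 := by
        unfold wE
        rw [if_neg]
        exact fun h3 => h ⟨h3.1, h3.2.1⟩
      rw [h2, ite_self, ite_self]
  rw [key]
  exact Measurable.ite (measurable_fst hset) (measurable_wE hΦ hε hf htw htT hT hS i)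
    measurable_const

end Crest.Agent.R122.Tube818
end
end

-- ▼ part R122/Tube8_818
section

/-!
Row 122, block FT (helper818), part 8: the flux limit (I2).
-/

set_option autoImplicit false
set_option maxHeartbeats 400000

open MeasureTheory Set Filter
open Crest.AnalysisR.Kinetic
open scoped ENNReal Classical Topology NNReal

noncomputable section

namespace Crest.Agent.R122.Tube818

open Disc416 Flux663 Tree674 Kin796 Kin796.CTree TreeEps399 GIV566 GIVStep383 Hid424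
open Causal291 IStep317 GC311 Quench815 TreeDom974

variable {Φ : Space3 → ℝ} {f₀ : PhasePoint → ℝ} {ε tw t T : ℝ} {P : CTree} {ι : Type}

/-- weight in particle coordinates -/
def qT (Φ : Space3 → ℝ) (f₀ : PhasePoint → ℝ) (ε T : ℝ) (x : Space3) (z : PhasePoint × Par P) :
    ℝ≥0∞ :=
  vw Φ ε P T z * ∏ j, ENNReal.ofReal (f₀ ((linesM Φ ε P z.1 z.2 j).1 + x,
    (linesM Φ ε P z.1 z.2 j).2))

theorem measurable_qT (hΦ : AdmissiblePotential Φ) (hf : Measurable f₀) (ε T : ℝ) (x : Space3) :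
    Measurable (qT Φ f₀ ε T x : PhasePoint × Par P → ℝ≥0∞) := by
  have hlin : Measurable fun z : PhasePoint × Par P => linesM Φ ε P z.1 z.2 :=
    measurable_linesM hΦ ε P
  have hj : ∀ j, Measurable fun z : PhasePoint × Par P => linesM Φ ε P z.1 z.2 j := fun j =>
    (measurable_pi_apply j).comp hlin
  unfold qT
  refine (measurable_vw hΦ ε P T).mul (Finset.measurable_prod _ fun j _ => ?_)
  have h1 : Measurable fun z : PhasePoint × Par P =>
      (((linesM Φ ε P z.1 z.2 j).1 + x, (linesM Φ ε P z.1 z.2 j).2) : PhasePoint) :=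
    ((hj j).fst.add_const x).prodMk (hj j).snd
  exact (hf.comp h1).ennreal_ofReal

theorem qT_of_valid {σ : ℝ} (hσ : σ ≤ T) {z : PhasePoint × Par P}
    (hV : Valid Φ ε P σ z.1.2 z.2) (x : Space3) : qT Φ f₀ ε T x z =
      wt Φ P z.1.2 z.2 * ∏ j, ENNReal.ofReal (f₀ (lines Φ ε P (z.1.1 + x, z.1.2) z.2 j)) := by
  unfold qT
  rw [vw_of_valid ((valid_iff_top hσ).1 hV).1, linesM_of_adm ε hV.1]
  congr 1
  refine Finset.prod_congr rfl fun j _ => ?_
  rw [lines_add]

theorem qT_of_not_valid {z : PhasePoint × Par P} (hV : ¬ Valid Φ ε P T z.1.2 z.2) (x : Space3) :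
    qT Φ f₀ ε T x z = 0 := by
  unfold qT
  rw [vw_of_not_valid hV, zero_mul]

/-- first good hits with the weight `qT` -/
theorem Hgh_qT (hΦ : AdmissiblePotential Φ) (hε : 0 < ε) (htT : t ≤ T) (S : Tubes ι)
    (x : Space3) :
    Hgh Φ f₀ ε P (S.shift x) tw t = activity ε * ∫⁻ z : PhasePoint × Par P,
      hI Φ ε S tw t (fun σ z => uTM Φ f₀ ε T S P ((σ, z), x)) z * qT Φ f₀ ε T x z := by
  rw [Hgh_eq hΦ hε]
  congr 1
  refine lintegral_congr fun z => ?_
  unfold hI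
  by_cases h : sigHit Φ ε P S z ∈ Ico tw t ∧ 0 < sigHit Φ ε P S z ∧
        FirstAt Φ ε P S z (sigHit Φ ε P S z)
  · rw [if_pos h, if_pos h]
    have hσ : sigHit Φ ε P S z ≤ T := h.1.2.le.trans htT
    have e1 := uTM_eq (f₀ := f₀) (ε := ε) (S := S) hσ h.2.2.valid.1 x
    simp only [e1]
    rw [qT_of_valid hσ h.2.2.valid x]
    have e : ∀ j, lines Φ ε P (z.1.1 + x, z.1.2) z.2 j =
      ((lines Φ ε P z.1 z.2 j).1 + x, (lines Φ ε P z.1 z.2 j).2) := fun j => lines_add ε P z.1 z.2 j x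
    simp only [e]
    ring
  · rw [if_neg h, if_neg h, zero_mul]

/-- the child family in our notation -/
theorem uG_childT (Sk S : Tubes ι) (i : ι) (θ : HPar P) (x : Space3) :
    uG Φ f₀ ε ((childT Φ ε Sk S i θ).shift x) θ.1 =
      uT Φ f₀ ε Sk P θ.1 (eL ε Sk S i θ, θ.2.2.2) x := rfl

section fixed

variable {Sk S : Tubes ι} {J : Finset (ℝ × ℝ)} {F : Finset ℝ} {η : ℝ}
  {K : Finset ((ℝ × ℝ) × ι)} {V : (ℝ × ℝ) × ι → Space3}

/-- the density of the entrances is the density of the hits -/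
theorem dA_eq (htT : t ≤ T) (hSk : Subdiv tw t Sk J F η K V (cA V Sk))
    {C' : (ℝ × ℝ) × ι → Space3} (hS : Subdiv tw t S J F η K V C')
    (hV : ∀ a ∈ K, ∀ u ∈ Ioo a.1.1 a.1.2, deriv (S.c a.2) u = V a) {a : (ℝ × ℝ) × ι}
    (ha : a ∈ K) (G : ℝ → PhasePoint × Par P → ℝ≥0∞) (x : Space3) (θ : HPar P) :
    dA Φ ε Sk P V (cA V Sk) a (fun s z => G s z * qT Φ f₀ ε T x z) θ =
      if θ.1 ∈ Ioo a.1.1 a.1.2 then
        wE Φ f₀ ε tw t Sk S a.2 θ x * G θ.1 (eL ε Sk S a.2 θ, θ.2.2.2) else 0 := by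
  unfold dA
  by_cases hs : θ.1 ∈ Ioo a.1.1 a.1.2
  · rw [if_pos hs]
    have hind : ∀ z0 : HPar P → PhasePoint × Par P,
        z0 θ = (eL ε Sk S a.2 θ, θ.2.2.2) →
        {θ : HPar P | ‖θ.2.2.1‖ < 1}.indicator (fun θ => ENNReal.ofReal ‖θ.2.1 - V a‖ *
          (FA Φ ε Sk P a).indicator (fun q => G q.1 q.2 * qT Φ f₀ ε T x q.2) (θ.1, z0 θ)) θ =
        if ‖θ.2.2.1‖ < 1 then ENNReal.ofReal ‖θ.2.1 - V a‖ *
          (FA Φ ε Sk P a).indicator (fun q => G q.1 q.2 * qT Φ f₀ ε T x q.2)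
            (θ.1, (eL ε Sk S a.2 θ, θ.2.2.2)) else 0 := by
      intro z0 hz0
      by_cases hy : ‖θ.2.2.1‖ < 1
      · rw [indicator_of_mem (show θ ∈ {θ : HPar P | ‖θ.2.2.1‖ < 1} from hy), if_pos hy, hz0]
      · rw [indicator_of_notMem (show θ ∉ {θ : HPar P | ‖θ.2.2.1‖ < 1} from hy), if_neg hy]
    have hst := hSk.sub a.1 (hSk.memK a ha) hs
    have hb : θ.1 < S.b a.2 := (hS.act a ha θ.1 hs).1
    have hc : cA V Sk a + θ.1 • V a = Sk.c a.2 θ.1 := ((hSk.act a ha θ.1 hs).2).symm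
    have hVa : V a = deriv (S.c a.2) θ.1 := (hV a ha θ.1 hs).symm
    have hel : rootL ε (Sk.c a.2 θ.1) (V a) θ.1 θ.2.1 θ.2.2.1 = eL ε Sk S a.2 θ := by
      unfold eL
      rw [hVa]
    refine (hind (fun θ => (rootL ε (cA V Sk a + θ.1 • V a) (V a) θ.1 θ.2.1 θ.2.2.1, θ.2.2.2))
      (by simp only [hc, hel])).trans ?_
    rw [hVa]
    unfold wE
    by_cases hy : ‖θ.2.2.1‖ < 1
    · rw [if_pos hy]
      by_cases hF : FirstAt Φ ε P Sk (eL ε Sk S a.2 θ, θ.2.2.2) θ.1
      · rw [if_pos ⟨hst.1, hst.2, hb, hy, hF⟩,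
          indicator_of_mem (show (θ.1, (eL ε Sk S a.2 θ, θ.2.2.2)) ∈ FA Φ ε Sk P a from ⟨hs, hF⟩)]
        have hq := qT_of_valid (f₀ := f₀) (z := (eL ε Sk S a.2 θ, θ.2.2.2))
          (hst.2.le.trans htT) hF.valid x
        simp only at hq
        rw [hq]
        have e2 : (eL ε Sk S a.2 θ).2 = θ.2.1 := rfl
        rw [e2]
        ring
      · rw [if_neg (fun h => hF h.2.2.2.2),
          indicator_of_notMem (show (θ.1, (eL ε Sk S a.2 θ, θ.2.2.2)) ∉ FA Φ ε Sk P a from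
            fun h => hF h.2), mul_zero, zero_mul]
    · rw [if_neg hy, if_neg (fun h => hy h.2.2.2.1), zero_mul]
  · rw [if_neg hs]
    by_cases hy : ‖θ.2.2.1‖ < 1
    · rw [indicator_of_mem (show θ ∈ {θ : HPar P | ‖θ.2.2.1‖ < 1} from hy),
        indicator_of_notMem (fun h => hs h.1), mul_zero]
    · rw [indicator_of_notMem (show θ ∉ {θ : HPar P | ‖θ.2.2.1‖ < 1} from hy)]

/-- double touches -/
theorem dD_le (htT : t ≤ T) (hSk : Subdiv tw t Sk J F η K V (cA V Sk))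
    {C' : (ℝ × ℝ) × ι → Space3} (hS : Subdiv tw t S J F η K V C')
    (hV : ∀ a ∈ K, ∀ u ∈ Ioo a.1.1 a.1.2, deriv (S.c a.2) u = V a) {a : (ℝ × ℝ) × ι}
    (ha : a ∈ K) (x : Space3) (θ : HPar P) :
    dA Φ ε Sk P V (cA V Sk) a
      (fun s z => if DA ε K V (cA V Sk) a s z.1 then qT Φ f₀ ε T x z else 0) θ ≤
      if Touch ε Sk S a.2 θ then wE Φ f₀ ε tw t Sk S a.2 θ x else 0 := by
  have h1 : (fun (s : ℝ) (z : PhasePoint × Par P) =>
      if DA ε K V (cA V Sk) a s z.1 then qT Φ f₀ ε T x z else 0) =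
      fun s z => (if DA ε K V (cA V Sk) a s z.1 then 1 else 0) * qT Φ f₀ ε T x z := by
    funext s z
    split_ifs <;> simp
  rw [h1, dA_eq htT hSk hS hV ha]
  by_cases hs : θ.1 ∈ Ioo a.1.1 a.1.2
  · rw [if_pos hs]
    by_cases hD : DA ε K V (cA V Sk) a θ.1 (eL ε Sk S a.2 θ, θ.2.2.2).1
    · have hT : Touch ε Sk S a.2 θ := by
        obtain ⟨i', hi', hK, hd⟩ := hD
        have h2 := hSk.act (a.1, i') hK θ.1 hs
        refine ⟨i', hi', h2.1.le, ?_⟩
        rw [h2.2]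
        exact hd
      rw [if_pos hD, if_pos hT, mul_one]
    · rw [if_neg hD, mul_zero]
      exact bot_le
  · rw [if_neg hs]
    exact bot_le

/-- sum over the active pairs at a time of a good interval -/
theorem sum_active [Fintype ι] {C' : (ℝ × ℝ) × ι → Space3} (hS : Subdiv tw t S J F η K V C')
    {j : ℝ × ℝ} (hj : j ∈ J) {s : ℝ} (hs : s ∈ Ioo j.1 j.2) (X : ι → ℝ≥0∞) :
    (∑ a ∈ K, if s ∈ Ioo a.1.1 a.1.2 then X a.2 else 0) =
      ∑ i, if (j, i) ∈ K then X i else 0 := by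
  have h1 : ∀ a ∈ K, (if s ∈ Ioo a.1.1 a.1.2 then X a.2 else 0) =
      if a.1 = j then X a.2 else 0 := by
    intro a ha
    by_cases h : a.1 = j
    · rw [if_pos h, if_pos (by rw [h]; exact hs)]
    · rw [if_neg h, if_neg (fun h2 => h (hS.disj _ (hS.memK a ha) _ hj s h2 hs))]
  rw [Finset.sum_congr rfl h1, ← Finset.sum_filter, ← Finset.sum_filter]
  refine Finset.sum_nbij' (fun a => a.2) (fun i => (j, i)) ?_ ?_ ?_ ?_ ?_
  · intro a ha
    rw [Finset.mem_filter] at ha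
    simp only [Finset.mem_filter, Finset.mem_univ, true_and]
    have : (j, a.2) = a := by rw [← ha.2]
    rw [this]
    exact ha.1
  · intro i hi
    rw [Finset.mem_filter] at hi
    rw [Finset.mem_filter]
    exact ⟨hi.2, rfl⟩
  · intro a ha
    rw [Finset.mem_filter] at ha
    show (j, a.2) = a
    rw [← ha.2]
  · intro i _
    rfl
  · intro a _
    rfl

theorem absd_mul_right_le (a b c : ℝ≥0∞) (hc : c ≤ 1) : absd (a * c) (b * c) ≤ absd a b := by
  rw [mul_comm a, mul_comm b]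
  refine (absd_mul_le c a b).trans ?_
  calc c * absd a b ≤ 1 * absd a b := mul_le_mul' hc le_rfl
    _ = absd a b := one_mul _

/-- comparison of the entrance densities with the limiting weights -/
theorem absd_dens_le [Fintype ι] (htT : t ≤ T) (hSk : Subdiv tw t Sk J F η K V (cA V Sk))
    {C' : (ℝ × ℝ) × ι → Space3} (hS : Subdiv tw t S J F η K V C')
    (hV : ∀ a ∈ K, ∀ u ∈ Ioo a.1.1 a.1.2, deriv (S.c a.2) u = V a)
    {G : ℝ → PhasePoint × Par P → ℝ≥0∞} (hG : ∀ s z, G s z ≤ 1) (x : Space3) (θ : HPar P) :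
    absd (∑ a ∈ K, dA Φ ε Sk P V (cA V Sk) a (fun s z => G s z * qT Φ f₀ ε T x z) θ)
      (∑ i, wgt Φ f₀ tw t S i θ x * G θ.1 (eL ε Sk S i θ, θ.2.2.2)) ≤
      ∑ i, (absd (wE Φ f₀ ε tw t Sk S i θ x) (wgt Φ f₀ tw t S i θ x) +
        if ∃ f ∈ F, |θ.1 - f| ≤ η then wgt Φ f₀ tw t S i θ x else 0) := by
  rw [Finset.sum_congr rfl fun a ha => dA_eq htT hSk hS hV ha G x θ]
  by_cases hj : ∃ j ∈ J, θ.1 ∈ Ioo j.1 j.2
  · obtain ⟨j, hj, hs⟩ := hj
    rw [sum_active hS hj hs (fun i => wE Φ f₀ ε tw t Sk S i θ x * G θ.1 (eL ε Sk S i θ, θ.2.2.2))]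
    refine (absd_sum_le _ _ _).trans (Finset.sum_le_sum fun i _ => ?_)
    by_cases hi : (j, i) ∈ K
    · rw [if_pos hi]
      exact (absd_mul_right_le _ _ _ (hG _ _)).trans (le_add_right le_rfl)
    · rw [if_neg hi]
      have hw : wgt Φ f₀ tw t S i θ x = 0 := by
        unfold wgt
        rw [if_neg]
        intro h
        exact absurd (hS.inact j hj i hi θ.1 hs) (not_lt.2 h.2.1.le)
      rw [hw, zero_mul]
      simp
  · have h0 : (∑ a ∈ K, if θ.1 ∈ Ioo a.1.1 a.1.2 then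
        wE Φ f₀ ε tw t Sk S a.2 θ x * G θ.1 (eL ε Sk S a.2 θ, θ.2.2.2) else 0) = 0 := by
      refine Finset.sum_eq_zero fun a ha => ?_
      rw [if_neg]
      exact fun h => hj ⟨a.1, hS.memK a ha, h⟩
    rw [h0, absd_eq_tsub' (show (0 : ℝ≥0∞) ≤ _ from bot_le)]
    refine tsub_le_self.trans (Finset.sum_le_sum fun i _ => ?_)
    refine le_add_left ?_
    by_cases hF : ∃ f ∈ F, |θ.1 - f| ≤ η
    · rw [if_pos hF]
      calc wgt Φ f₀ tw t S i θ x * G θ.1 (eL ε Sk S i θ, θ.2.2.2)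
          ≤ wgt Φ f₀ tw t S i θ x * 1 := mul_le_mul' le_rfl (hG _ _)
        _ = _ := mul_one _
    · have hw : wgt Φ f₀ tw t S i θ x = 0 := by
        unfold wgt
        rw [if_neg]
        intro h
        rcases hS.cov θ.1 ⟨h.1.1.le, h.1.2⟩ with h1 | h1
        · exact hj h1
        · exact hF h1
      rw [hw, zero_mul]
      exact bot_le

end fixed

/-! ### The limiting weight near the bad times -/

theorem norm_deriv_le {c : ℝ → Space3} {M : ℝ≥0} (hc : LipschitzOnWith M c (Icc 0 T)) {s : ℝ}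
    (hs : s ∈ Ioo 0 T) : ‖deriv c s‖ ≤ M := by
  refine norm_deriv_le_of_lip' M.2 ?_
  filter_upwards [Ioo_mem_nhds hs.1 hs.2] with u hu
  have h1 := hc.dist_le_mul u (Ioo_subset_Icc_self hu) s (Ioo_subset_Icc_self hs)
  rwa [dist_eq_norm, dist_eq_norm] at h1

theorem wgt_le {C b : ℝ} (hC : 0 ≤ C)
    (hdom : ∀ (ε T T' : ℝ) (ℓ : PhasePoint) (p : Par P), 0 ≤ ε → T' ≤ T →
      Valid Φ ε P T' ℓ.2 p →
      wt Φ P ℓ.2 p * ∏ i, ENNReal.ofReal (f₀ (lines Φ ε P ℓ p i)) ≤ domG C b T P ℓ.2 p)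
    (htw : 0 ≤ tw) (htT : t ≤ T) {S : Tubes ι} {M : ℝ≥0} {i : ι}
    (hS : LipschitzOnWith M (S.c i) (Icc 0 T)) {θ : HPar P} (hθ : θ.1 ≠ T) (x : Space3)
    (A : Set ℝ) (hA : θ.1 ∈ A) : wgt Φ f₀ tw t S i θ x ≤ majH C b T M P A θ := by
  unfold wgt
  split_ifs with h
  · have hs : θ.1 ∈ Ioo 0 T :=
      ⟨htw.trans_lt h.1.1, lt_of_le_of_ne (h.1.2.trans htT) hθ⟩
    have h1 := hdom 0 T θ.1 (S.c i θ.1 + x - θ.1 • θ.2.1, θ.2.1) θ.2.2.2 le_rfl hs.2.le h.2.2.2
    have h2 : ‖θ.2.1 - deriv (S.c i) θ.1‖ ≤ ‖θ.2.1‖ + M :=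
      (norm_sub_le _ _).trans (add_le_add le_rfl (norm_deriv_le hS hs))
    unfold majH
    rw [indicator_of_mem hA, indicator_of_mem (show θ.2.2.1 ∈ Metric.ball (0 : Plane) 1 by
      simpa using h.2.2.1)]
    rw [domG_eq hC] at h1
    calc ENNReal.ofReal ‖θ.2.1 - deriv (S.c i) θ.1‖ * (wt Φ P θ.2.1 θ.2.2.2 *
          ∏ j, ENNReal.ofReal (f₀ (lines Φ 0 P (S.c i θ.1 + x - θ.1 • θ.2.1, θ.2.1) θ.2.2.2 j)))
        ≤ ENNReal.ofReal (‖θ.2.1‖ + M) * (ENNReal.ofReal (C * Real.exp (-b * ‖θ.2.1‖ ^ 2)) *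
          domP b T P θ.2.2.2) := mul_le_mul' (ENNReal.ofReal_le_ofReal h2) h1
      _ = _ := by
          unfold gv
          simp only [Pi.one_apply]
          ring
  · exact bot_le

/-- measurability in the parameters of a hit -/
theorem measurable_wgtU [Countable ι] (hΦ : AdmissiblePotential Φ) (hε : 0 < ε)
    (hf : Measurable f₀) (htw : 0 ≤ tw) (htT : t ≤ T) (hT : 0 ≤ T) {Sk S : Tubes ι}
    (hSk : ∀ i, ContinuousOn (Sk.c i) (Icc 0 T)) (hS : ∀ i, ContinuousOn (S.c i) (Icc 0 T))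
    (i : ι) (x : Space3) : Measurable fun θ : HPar P => wgt Φ f₀ tw t S i θ x *
      uTM Φ f₀ ε T Sk P ((θ.1, (eL ε Sk S i θ, θ.2.2.2)), x) := by
  obtain ⟨c, hc, hcS⟩ := exists_frozen hT hSk
  have hel : Measurable fun θ : HPar P =>
      rootL ε (c i θ.1) (deriv (S.c i) θ.1) θ.1 θ.2.1 θ.2.2.1 :=
    measurable_rootL ε ((hc i).measurable.comp measurable_fst)
      ((measurable_deriv (S.c i)).comp measurable_fst) measurable_fst measurable_snd.fst
      measurable_snd.snd.fst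
  have h1 : Measurable fun θ : HPar P => wgt Φ f₀ tw t S i θ x :=
    (measurable_wgt hΦ hf htw htT hT hS i).comp (measurable_id.prodMk measurable_const)
  have h2 : Measurable fun θ : HPar P => uTM Φ f₀ ε T Sk P
      ((θ.1, (rootL ε (c i θ.1) (deriv (S.c i) θ.1) θ.1 θ.2.1 θ.2.2.1, θ.2.2.2)), x) :=
    (measurable_uTM (P := P) hf hΦ hε hT hSk).comp
      ((measurable_fst.prodMk (hel.prodMk measurable_snd.snd.snd)).prodMk measurable_const)
  have e : (fun θ : HPar P => wgt Φ f₀ tw t S i θ x *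
      uTM Φ f₀ ε T Sk P ((θ.1, (eL ε Sk S i θ, θ.2.2.2)), x)) = fun θ =>
      wgt Φ f₀ tw t S i θ x * uTM Φ f₀ ε T Sk P
      ((θ.1, (rootL ε (c i θ.1) (deriv (S.c i) θ.1) θ.1 θ.2.1 θ.2.2.1, θ.2.2.2)), x) := by
    funext θ
    by_cases h : HGood Φ tw t S i θ
    · unfold eL
      rw [hcS i θ.1 ⟨htw.trans h.1.1.le, h.1.2.trans htT⟩]
    · have : wgt Φ f₀ tw t S i θ x = 0 := by
        unfold wgt
        rw [if_neg h]
      rw [this, zero_mul, zero_mul]
  rw [e]
  exact h1.mul h2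

/-- majorant of the flux error at translation `x` -/
def mF (Φ : Space3 → ℝ) (f₀ : PhasePoint → ℝ) (ε tw t : ℝ) [Fintype ι] (Sk S : Tubes ι)
    (P : CTree) (n : ℕ) (c : ℝ≥0∞) (x : Space3) : ℝ≥0∞ :=
  c + n * (∑ i, ∫⁻ θ : HPar P, if Touch ε Sk S i θ then wE Φ f₀ ε tw t Sk S i θ x else 0) +
    ∑ i, ∫⁻ θ : HPar P, absd (wE Φ f₀ ε tw t Sk S i θ x) (wgt Φ f₀ tw t S i θ x)

theorem measurable_mF [Fintype ι] (hΦ : AdmissiblePotential Φ) (hε : 0 < ε)
    (hf : Measurable f₀) (htw : 0 ≤ tw) (htT : t ≤ T) (hT : 0 ≤ T) {Sk S : Tubes ι}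
    (hSk : ∀ i, ContinuousOn (Sk.c i) (Icc 0 T)) (hS : ∀ i, ContinuousOn (S.c i) (Icc 0 T))
    (P : CTree) (n : ℕ) (c : ℝ≥0∞) : Measurable (mF Φ f₀ ε tw t Sk S P n c) := by
  unfold mF
  refine (measurable_const.add (measurable_const.mul ?_)).add ?_
  · refine Finset.measurable_sum _ fun i _ => ?_
    exact (measurable_touch (P := P) (S := S) hΦ hε hf htw htT hT hSk i).lintegral_prod_left'
  · refine Finset.measurable_sum _ fun i _ => ?_
    exact (measurable_absd (measurable_wE (P := P) (S := S) hΦ hε hf htw htT hT hSk i)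
      (measurable_wgt (P := P) hΦ hf htw htT hT hS i)).lintegral_prod_left'

end Crest.Agent.R122.Tube818
end
end

-- ▼ part R122/Tube9_818
section

/-!
Row 122, block FT (helper818), part 9: **the flux limit (I2)**.

`flux_majorant` : for every tree shape `P`, the mass of the first good hits of the translated family
and the gain term of helper383 are close, with a measurable majorant.
-/

set_option autoImplicit false
set_option maxHeartbeats 400000

open MeasureTheory Set Filter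
open Crest.AnalysisR.Kinetic
open scoped ENNReal Classical Topology NNReal

noncomputable section

namespace Crest.Agent.R122.Tube818

open Disc416 Flux663 Tree674 Kin796 Kin796.CTree TreeEps399 GIV566 GIVStep383 Hid424
open Causal291 IStep317 GC311 Quench815 TreeDom974

variable {Φ : Space3 → ℝ} {f₀ : PhasePoint → ℝ} {ε tw t T : ℝ} {P : CTree} {ι : Type}

section fixed

variable {Sk S : Tubes ι} {J : Finset (ℝ × ℝ)} {F : Finset ℝ} {η : ℝ}
  {K : Finset ((ℝ × ℝ) × ι)} {V C' : (ℝ × ℝ) × ι → Space3}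

theorem measurable_dA [Countable ι] (hΦ : AdmissiblePotential Φ) (hε : 0 < ε) (htw : 0 ≤ tw)
    (htwt : tw ≤ t) (htT : t ≤ T) (hS : ∀ i, ContinuousOn (Sk.c i) (Icc 0 T))
    (h : Subdiv tw t Sk J F η K V C') {a : (ℝ × ℝ) × ι} (ha : a ∈ K)
    {G : ℝ → PhasePoint × Par P → ℝ≥0∞} (hG : Measurable (Function.uncurry G)) :
    Measurable (dA Φ ε Sk P V C' a G) := by
  have hFA := measurableSet_FA (P := P) hΦ hε htw htwt htT hS h ha
  have hel : Measurable fun θ : HPar P =>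
      rootL ε (C' a + θ.1 • V a) (V a) θ.1 θ.2.1 θ.2.2.1 :=
    measurable_rootL ε (measurable_const.add (measurable_fst.smul measurable_const))
      measurable_const measurable_fst measurable_snd.fst measurable_snd.snd.fst
  have hz : Measurable fun θ : HPar P =>
      ((θ.1, (rootL ε (C' a + θ.1 • V a) (V a) θ.1 θ.2.1 θ.2.2.1, θ.2.2.2)) :
        ℝ × (PhasePoint × Par P)) := measurable_fst.prodMk (hel.prodMk measurable_snd.snd.snd)
  have h1 : Measurable ((FA Φ ε Sk P a).indicator (fun q => G q.1 q.2)) := by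
    have e : (FA Φ ε Sk P a).indicator (fun q => G q.1 q.2) =
        (FA Φ ε Sk P a).indicator (Function.uncurry G) := rfl
    rw [e]
    exact hG.indicator hFA
  unfold dA
  refine Measurable.indicator ?_ (measurableSet_lt measurable_snd.snd.fst.norm measurable_const)
  exact (measurable_snd.fst.sub_const (V a)).norm.ennreal_ofReal.mul (h1.comp hz)

/-- volume of the neighbourhood of the bad times -/
theorem volume_near_le (F : Finset ℝ) (η : ℝ) :
    volume (⋃ f ∈ F, Icc (f - η) (f + η)) ≤ F.card * ENNReal.ofReal (2 * η) := by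
  refine (measure_biUnion_finset_le _ _).trans ?_
  have h1 : ∀ f : ℝ, f + η - (f - η) = 2 * η := fun f => by ring
  simp only [Real.volume_Icc, h1, Finset.sum_const, nsmul_eq_mul]
  exact le_rfl

/-- the limiting weight near the bad times -/
theorem lintegral_near_le {C b : ℝ} (hC : 0 ≤ C)
    (hdom : ∀ (ε T T' : ℝ) (ℓ : PhasePoint) (p : Par P), 0 ≤ ε → T' ≤ T →
      Valid Φ ε P T' ℓ.2 p →
      wt Φ P ℓ.2 p * ∏ i, ENNReal.ofReal (f₀ (lines Φ ε P ℓ p i)) ≤ domG C b T P ℓ.2 p)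
    (htw : 0 ≤ tw) (htT : t ≤ T) {S : Tubes ι} {M : ℝ≥0} {i : ι}
    (hS : LipschitzOnWith M (S.c i) (Icc 0 T)) (F : Finset ℝ) (η : ℝ) (x : Space3) :
    ∫⁻ θ : HPar P, (if ∃ f ∈ F, |θ.1 - f| ≤ η then wgt Φ f₀ tw t S i θ x else 0) ≤
      F.card * ENNReal.ofReal (2 * η) * (mom C b M * (volume (Metric.ball (0 : Plane) 1) *
        ∫⁻ p : Par P, domP b T P p)) := by
  set A : Set ℝ := ⋃ f ∈ F, Icc (f - η) (f + η) with hA
  have hAm : MeasurableSet A := Finset.measurableSet_biUnion _ fun f _ => measurableSet_Icc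
  calc ∫⁻ θ : HPar P, (if ∃ f ∈ F, |θ.1 - f| ≤ η then wgt Φ f₀ tw t S i θ x else 0)
      ≤ ∫⁻ θ : HPar P, majH C b T M P A θ := by
        refine lintegral_mono_ae ?_
        filter_upwards [FluxDCT491.ae_time_ne P T] with θ hθ
        split_ifs with h
        · refine wgt_le hC hdom htw htT hS hθ x A ?_
          obtain ⟨f, hf, hd⟩ := h
          rw [hA]
          simp only [mem_iUnion, exists_prop]
          rw [abs_le] at hd
          exact ⟨f, hf, by linarith, by linarith⟩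
        · exact bot_le
    _ = volume A * (mom C b M * (volume (Metric.ball (0 : Plane) 1) *
          ∫⁻ p : Par P, domP b T P p)) := lintegral_majH C b T M P hAm
    _ ≤ _ := mul_le_mul' (volume_near_le F η) le_rfl

/-- **Flux estimate for one `ε`.** -/
theorem flux_le [Fintype ι] (hΦ : AdmissiblePotential Φ) (hε : 0 < ε) (hf : Measurable f₀)
    (h1 : ∫⁻ z, ENNReal.ofReal (f₀ z) ≤ 1) {C b : ℝ} (hC : 0 ≤ C)
    (hdom : ∀ (ε T T' : ℝ) (ℓ : PhasePoint) (p : Par P), 0 ≤ ε → T' ≤ T →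
      Valid Φ ε P T' ℓ.2 p →
      wt Φ P ℓ.2 p * ∏ i, ENNReal.ofReal (f₀ (lines Φ ε P ℓ p i)) ≤ domG C b T P ℓ.2 p)
    (htw : 0 ≤ tw) (htwt : tw ≤ t) (htT : t ≤ T) {M : ℝ≥0}
    (hSkL : ∀ i, LipschitzOnWith M (Sk.c i) (Icc 0 T))
    (hSL : ∀ i, LipschitzOnWith M (S.c i) (Icc 0 T)) (hη : 0 < η)
    (hSk : Subdiv tw t Sk J F η K V (cA V Sk)) (hS : Subdiv tw t S J F η K V C')
    (hV : ∀ a ∈ K, ∀ u ∈ Ioo a.1.1 a.1.2, deriv (S.c a.2) u = V a) (x : Space3) :
    absd (Hgh Φ f₀ ε P (Sk.shift x) tw t) (gain Φ f₀ ε tw t Sk S P x) ≤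
      mF Φ f₀ ε tw t Sk S P K.card
        (ENNReal.ofReal (16 * (η + ε)) * (F.card * (Fintype.card ι *
          (Sweep815.c3 * mom C b (M + 1)) * ∫⁻ p : Par P, domP b T P p)) +
          Fintype.card ι * (F.card * ENNReal.ofReal (2 * η) * (mom C b M *
            (volume (Metric.ball (0 : Plane) 1) * ∫⁻ p : Par P, domP b T P p)))) x := by
  have hT : 0 ≤ T := htw.trans (htwt.trans htT)
  have hSkc : ∀ i, ContinuousOn (Sk.c i) (Icc 0 T) := fun i => (hSkL i).continuousOn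
  have hSc : ∀ i, ContinuousOn (S.c i) (Icc 0 T) := fun i => (hSL i).continuousOn
  set U : ℝ → PhasePoint × Par P → ℝ≥0∞ := fun σ z => uTM Φ f₀ ε T Sk P ((σ, z), x) with hU
  have hUm : Measurable (Function.uncurry U) :=
    (measurable_uTM (P := P) hf hΦ hε hT hSkc).comp (measurable_id.prodMk measurable_const)
  have hU1 : ∀ σ z, U σ z ≤ 1 := fun σ z => uTM_le_one hf h1 T Sk _
  have hqm := measurable_qT (P := P) hΦ hf ε T x
  have hGm : Measurable (Function.uncurry fun (s : ℝ) (z : PhasePoint × Par P) =>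
      U s z * qT Φ f₀ ε T x z) := hUm.mul (hqm.comp measurable_snd)
  -- domination of `qT`
  have hq : ∀ z : PhasePoint × Par P, qT Φ f₀ ε T x z ≤ domG C b T P z.1.2 z.2 := by
    intro z
    by_cases hVz : Valid Φ ε P T z.1.2 z.2
    · rw [qT_of_valid le_rfl hVz]
      exact hdom ε T T (z.1.1 + x, z.1.2) z.2 hε.le le_rfl hVz
    · rw [qT_of_not_valid hVz]
      exact bot_le
  set A : ℝ≥0∞ := ∑ a ∈ K, ∫⁻ θ : HPar P,
    dA Φ ε Sk P V (cA V Sk) a (fun s z => U s z * qT Φ f₀ ε T x z) θ with hA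
  -- hits against entrances
  have e1 : absd (Hgh Φ f₀ ε P (Sk.shift x) tw t) A ≤
      ENNReal.ofReal (16 * (η + ε)) * (F.card * (Fintype.card ι *
          (Sweep815.c3 * mom C b (M + 1)) * ∫⁻ p : Par P, domP b T P p)) +
      K.card * ∑ i, ∫⁻ θ : HPar P, if Touch ε Sk S i θ then wE Φ f₀ ε tw t Sk S i θ x else 0 := by
    rw [Hgh_qT hΦ hε htT]
    refine (absd_hits_le hΦ hε htw htwt htT hSkc hSk hUm hU1 hqm).trans (add_le_add ?_ ?_)
    · exact bad_le hε hη.le hT hSkL hC F hq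
    · calc ∑ a ∈ K, ∫⁻ θ : HPar P, dA Φ ε Sk P V (cA V Sk) a
            (fun s z => if DA ε K V (cA V Sk) a s z.1 then qT Φ f₀ ε T x z else 0) θ
          ≤ ∑ a ∈ K, ∑ i, ∫⁻ θ : HPar P,
              if Touch ε Sk S i θ then wE Φ f₀ ε tw t Sk S i θ x else 0 := by
            refine Finset.sum_le_sum fun a ha => ?_
            refine (lintegral_mono fun θ => dD_le htT hSk hS hV ha x θ).trans ?_
            exact Finset.single_le_sum (f := fun i => ∫⁻ θ : HPar P,
              if Touch ε Sk S i θ then wE Φ f₀ ε tw t Sk S i θ x else 0)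
              (fun _ _ => bot_le) (Finset.mem_univ a.2)
        _ = _ := by rw [Finset.sum_const, nsmul_eq_mul]
  -- entrances against the limiting weights
  have e2 : absd A (gain Φ f₀ ε tw t Sk S P x) ≤
      (∑ i, ∫⁻ θ : HPar P, absd (wE Φ f₀ ε tw t Sk S i θ x) (wgt Φ f₀ tw t S i θ x)) +
      Fintype.card ι * (F.card * ENNReal.ofReal (2 * η) * (mom C b M *
            (volume (Metric.ball (0 : Plane) 1) * ∫⁻ p : Par P, domP b T P p))) := by
    have hAi : A = ∫⁻ θ : HPar P, ∑ a ∈ K,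
        dA Φ ε Sk P V (cA V Sk) a (fun s z => U s z * qT Φ f₀ ε T x z) θ := by
      rw [lintegral_finsetSum' _ fun a ha =>
        (measurable_dA (P := P) hΦ hε htw htwt htT hSkc hSk ha hGm).aemeasurable]
    have hwm : ∀ i, Measurable fun θ : HPar P => wgt Φ f₀ tw t S i θ x *
        U θ.1 (eL ε Sk S i θ, θ.2.2.2) := fun i =>
      measurable_wgtU hΦ hε hf htw htT hT hSkc hSc i x
    have hgi : gain Φ f₀ ε tw t Sk S P x = ∫⁻ θ : HPar P, ∑ i,
        wgt Φ f₀ tw t S i θ x * U θ.1 (eL ε Sk S i θ, θ.2.2.2) := by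
      rw [lintegral_finsetSum _ fun i _ => hwm i]
      unfold gain
      refine Finset.sum_congr rfl fun i _ => lintegral_congr fun θ => ?_
      rw [uG_childT]
      by_cases h : HGood Φ tw t S i θ
      · congr 1
        exact (uTM_eq (z := (eL ε Sk S i θ, θ.2.2.2)) (h.1.2.trans htT) h.2.2.2.1 x).symm
      · have hw : wgt Φ f₀ tw t S i θ x = 0 := by
          unfold wgt
          rw [if_neg h]
        rw [hw, zero_mul, zero_mul]
    have hm1 : Measurable fun θ : HPar P => ∑ a ∈ K,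
        dA Φ ε Sk P V (cA V Sk) a (fun s z => U s z * qT Φ f₀ ε T x z) θ :=
      Finset.measurable_sum _ fun a ha =>
        measurable_dA (P := P) hΦ hε htw htwt htT hSkc hSk ha hGm
    have hm2 : Measurable fun θ : HPar P => ∑ i,
        wgt Φ f₀ tw t S i θ x * U θ.1 (eL ε Sk S i θ, θ.2.2.2) :=
      Finset.measurable_sum _ fun i _ => hwm i
    have hm3 : ∀ i, Measurable fun θ : HPar P =>
        absd (wE Φ f₀ ε tw t Sk S i θ x) (wgt Φ f₀ tw t S i θ x) := fun i =>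
      (measurable_absd (measurable_wE (P := P) (S := S) hΦ hε hf htw htT hT hSkc i)
        (measurable_wgt (P := P) hΦ hf htw htT hT hSc i)).comp
        (measurable_id.prodMk measurable_const)
    have hm4 : ∀ i, Measurable fun θ : HPar P =>
        (if ∃ f ∈ F, |θ.1 - f| ≤ η then wgt Φ f₀ tw t S i θ x else 0) := by
      intro i
      have hs : MeasurableSet {θ : HPar P | ∃ f ∈ F, |θ.1 - f| ≤ η} := by
        have e : {θ : HPar P | ∃ f ∈ F, |θ.1 - f| ≤ η} =
            ⋃ f ∈ F, {θ : HPar P | |θ.1 - f| ≤ η} := by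
          ext θ
          simp
        rw [e]
        refine Finset.measurableSet_biUnion _ fun f _ => ?_
        have h2 : Measurable fun θ : HPar P => |θ.1 - f| := by
          have h3 : Measurable fun θ : HPar P => ‖θ.1 - f‖ := (measurable_fst.sub_const f).norm
          simpa [Real.norm_eq_abs] using h3
        exact measurableSet_le h2 measurable_const
      exact Measurable.ite hs ((measurable_wgt (P := P) hΦ hf htw htT hT hSc i).comp
        (measurable_id.prodMk measurable_const)) measurable_const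
    rw [hAi, hgi]
    refine (absd_lintegral_le _ hm1 hm2).trans ?_
    calc ∫⁻ θ : HPar P, absd (∑ a ∈ K,
          dA Φ ε Sk P V (cA V Sk) a (fun s z => U s z * qT Φ f₀ ε T x z) θ)
          (∑ i, wgt Φ f₀ tw t S i θ x * U θ.1 (eL ε Sk S i θ, θ.2.2.2))
        ≤ ∫⁻ θ : HPar P, ∑ i, (absd (wE Φ f₀ ε tw t Sk S i θ x) (wgt Φ f₀ tw t S i θ x) +
            if ∃ f ∈ F, |θ.1 - f| ≤ η then wgt Φ f₀ tw t S i θ x else 0) :=
          lintegral_mono fun θ => absd_dens_le htT hSk hS hV hU1 x θ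
      _ = ∑ i, ((∫⁻ θ : HPar P, absd (wE Φ f₀ ε tw t Sk S i θ x) (wgt Φ f₀ tw t S i θ x)) +
            ∫⁻ θ : HPar P, if ∃ f ∈ F, |θ.1 - f| ≤ η then wgt Φ f₀ tw t S i θ x else 0) := by
          have hm34 : ∀ i, Measurable fun θ : HPar P =>
              absd (wE Φ f₀ ε tw t Sk S i θ x) (wgt Φ f₀ tw t S i θ x) +
              (if ∃ f ∈ F, |θ.1 - f| ≤ η then wgt Φ f₀ tw t S i θ x else 0) :=
            fun i => (hm3 i).add (hm4 i)
          rw [lintegral_finsetSum _ fun i _ => hm34 i]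
          refine Finset.sum_congr rfl fun i _ => ?_
          rw [lintegral_add_left (hm3 i)]
      _ ≤ (∑ i, ∫⁻ θ : HPar P, absd (wE Φ f₀ ε tw t Sk S i θ x) (wgt Φ f₀ tw t S i θ x)) +
            ∑ _i : ι, F.card * ENNReal.ofReal (2 * η) * (mom C b M *
              (volume (Metric.ball (0 : Plane) 1) * ∫⁻ p : Par P, domP b T P p)) := by
          rw [Finset.sum_add_distrib]
          refine add_le_add le_rfl (Finset.sum_le_sum fun i _ => ?_)
          exact lintegral_near_le hC hdom htw htT (hSL i) F η x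
      _ = _ := by rw [Finset.sum_const, Finset.card_univ, nsmul_eq_mul]
  refine (absd_triangle _ A _).trans ((add_le_add e1 e2).trans (le_of_eq ?_))
  unfold mF
  ring

end fixed

/-! ### The limit -/

theorem wE_eq_wH {Sk S : Tubes ι} {i : ι} {θ : HPar P} (hθ : θ.1 ≠ tw) (x : Space3) :
    wE Φ f₀ ε tw t Sk S i θ x = FluxDCT491.wH Φ f₀ ε tw t Sk S i θ x := by
  unfold wE FluxDCT491.wH FluxDCT491.GoodH eL
  have h1 : tw < θ.1 ↔ tw ≤ θ.1 := ⟨fun h => h.le, fun h => lt_of_le_of_ne h (Ne.symm hθ)⟩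
  by_cases h : tw < θ.1 ∧ θ.1 < t ∧ θ.1 < S.b i ∧ ‖θ.2.2.1‖ < 1 ∧
      FirstAt Φ ε P Sk (rootL ε (Sk.c i θ.1) (deriv (S.c i) θ.1) θ.1 θ.2.1 θ.2.2.1, θ.2.2.2) θ.1
  · rw [if_pos h, if_pos ⟨h.1.le, h.2⟩]
  · rw [if_neg h, if_neg (fun h2 => h ⟨h1.2 h2.1, h2.2⟩)]

/-- **The flux limit (I2)**, with a measurable majorant. -/
theorem flux_majorant [Fintype ι] {β T : ℝ} {f : ℝ → PhasePoint → ℝ}
    (hD : Master566.KData Φ β T f₀ f) {εk : ℕ → ℝ} (hε0 : ∀ n, 0 < εk n)
    (hlim : Tendsto εk atTop (𝓝 0)) {Sk : ℕ → Tubes ι} {S : Tubes ι} (hconv : TubeConv T Sk S)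
    (hgen : Generic T S) {tw t : ℝ} (htw : 0 ≤ tw) (htwt : tw ≤ t) (htT : t ≤ T) (P : CTree)
    (R : ℝ) {δ : ℝ} (hδ : 0 < δ) :
    ∀ᶠ k in atTop, ∃ m : Space3 → ℝ≥0∞, Measurable m ∧
      (∀ x, adiff (Hgh Φ f₀ (εk k) P ((Sk k).shift x) tw t)
        (gain Φ f₀ (εk k) tw t (Sk k) S P x) ≤ m x) ∧
      ∫⁻ x in Metric.closedBall (0 : Space3) R, m x ≤ ENNReal.ofReal δ := by
  have hΦ := hD.adm
  have hf : Measurable f₀ := hD.contDiff.continuous.measurable
  have h1 : ∫⁻ z, ENNReal.ofReal (f₀ z) ≤ 1 :=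
    (FM167.lintegral_density_eq_one hD.nonneg hD.integrable hD.mass).le
  have hβ := hD.beta_pos
  obtain ⟨C0, hC0, hk⟩ := FluxDCT491.exists_bound hD
  obtain ⟨C, hC, hdom⟩ := le_domG hΦ hC0 (show β < 2 * β by linarith) hk P
  obtain ⟨M, hlipk, hlip⟩ := hconv.lip
  obtain ⟨F, hF⟩ := exists_subdiv hconv htw htwt htT
  set B : Set Space3 := Metric.closedBall (0 : Space3) R with hB
  have hvB : volume B ≠ ∞ := (isCompact_closedBall _ _).measure_lt_top.ne
  have hdP : ∫⁻ p : Par P, domP β T P p ≠ ∞ := lintegral_domP_ne_top hβ T P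
  have hm1 : mom C β (M + 1) ≠ ∞ := mom_ne_top hC hβ (by positivity)
  have hm2 : mom C β M ≠ ∞ := mom_ne_top hC hβ M.2
  set c1 : ℝ≥0∞ := F.card * (Fintype.card ι *
    (Sweep815.c3 * mom C β (M + 1)) * ∫⁻ p : Par P, domP β T P p) with hc1
  set c2 : ℝ≥0∞ := Fintype.card ι * (F.card * (mom C β M *
    (volume (Metric.ball (0 : Plane) 1) * ∫⁻ p : Par P, domP β T P p))) with hc2
  have hc1t : c1 ≠ ∞ := by
    refine ENNReal.mul_ne_top (ENNReal.natCast_ne_top _) (ENNReal.mul_ne_top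
      (ENNReal.mul_ne_top (ENNReal.natCast_ne_top _) (ENNReal.mul_ne_top ?_ hm1)) hdP)
    unfold Sweep815.c3
    exact ENNReal.ofReal_ne_top
  have hc2t : c2 ≠ ∞ :=
    ENNReal.mul_ne_top (ENNReal.natCast_ne_top _) (ENNReal.mul_ne_top (ENNReal.natCast_ne_top _)
      (ENNReal.mul_ne_top hm2 (ENNReal.mul_ne_top measure_ball_lt_top.ne hdP)))
  -- choice of `η`
  set L : ℝ≥0∞ := (32 * c1 + 2 * c2) * volume B with hL
  have hLt : L ≠ ∞ := by
    refine ENNReal.mul_ne_top (ENNReal.add_ne_top.2 ⟨?_, ?_⟩) hvB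
    · exact ENNReal.mul_ne_top (by simp) hc1t
    · exact ENNReal.mul_ne_top (by simp) hc2t
  set η : ℝ := δ / 3 / (L.toReal + 1) with hη
  have hL0 : 0 ≤ L.toReal := ENNReal.toReal_nonneg
  have hη0 : 0 < η := by positivity
  have hηL : ENNReal.ofReal η * L ≤ ENNReal.ofReal (δ / 3) := by
    rw [← ENNReal.ofReal_toReal hLt, ← ENNReal.ofReal_mul hη0.le]
    refine ENNReal.ofReal_le_ofReal ?_
    rw [hη, div_mul_eq_mul_div, div_le_iff₀ (by positivity)]
    nlinarith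
  obtain ⟨J, K, V, hS, hSk, hV⟩ := hF η hη0
  -- the two limits
  have t1 : Tendsto (fun k => ∫⁻ x in B, (K.card : ℝ≥0∞) * ∑ i, ∫⁻ θ : HPar P,
      if Touch (εk k) (Sk k) S i θ then wE Φ f₀ (εk k) tw t (Sk k) S i θ x else 0) atTop
      (𝓝 0) := by
    have h2 : ∀ᶠ k in atTop, ∫⁻ x in B, (K.card : ℝ≥0∞) * ∑ i, ∫⁻ θ : HPar P,
        (if Touch (εk k) (Sk k) S i θ then wE Φ f₀ (εk k) tw t (Sk k) S i θ x else 0) =
        K.card * ∑ i, ∫⁻ x in B, ∫⁻ θ : HPar P, (if ∃ i', i' ≠ i ∧ θ.1 ≤ (Sk k).b i' ∧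
          dist ((Sk k).c i' θ.1) (onLine (rootL (εk k) ((Sk k).c i θ.1) (deriv (S.c i) θ.1) θ.1
          θ.2.1 θ.2.2.1) θ.1).1 ≤ εk k
          then FluxDCT491.wH Φ f₀ (εk k) tw t (Sk k) S i θ x else 0) := by
      filter_upwards [hlipk] with k hk
      have hSkc : ∀ i, ContinuousOn ((Sk k).c i) (Icc 0 T) := fun i => (hk i).continuousOn
      have hmt : ∀ i, Measurable fun x : Space3 => ∫⁻ θ : HPar P,
          (if Touch (εk k) (Sk k) S i θ then wE Φ f₀ (εk k) tw t (Sk k) S i θ x else 0) :=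
        fun i => (measurable_touch (P := P) (S := S) hΦ (hε0 k) hf htw htT hD.T_pos.le hSkc
          i).lintegral_prod_left'
      rw [lintegral_const_mul _ (Finset.measurable_sum _ fun i _ => hmt i),
        lintegral_finsetSum _ fun i _ => hmt i]
      congr 1
      refine Finset.sum_congr rfl fun i _ => lintegral_congr fun x => ?_
      refine lintegral_congr_ae ?_
      filter_upwards [FluxDCT491.ae_time_ne P tw] with θ hθ
      rw [wE_eq_wH hθ]
      by_cases hTo : Touch (εk k) (Sk k) S i θ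
      · rw [if_pos hTo]
        exact (if_pos hTo).symm
      · rw [if_neg hTo]
        exact (if_neg hTo).symm
    refine Tendsto.congr' (EventuallyEq.symm h2) ?_
    have h3 : Tendsto (fun k => (K.card : ℝ≥0∞) * ∑ i, ∫⁻ x in B, ∫⁻ θ : HPar P,
        (if ∃ i', i' ≠ i ∧ θ.1 ≤ (Sk k).b i' ∧
          dist ((Sk k).c i' θ.1) (onLine (rootL (εk k) ((Sk k).c i θ.1) (deriv (S.c i) θ.1) θ.1
          θ.2.1 θ.2.2.1) θ.1).1 ≤ εk k
          then FluxDCT491.wH Φ f₀ (εk k) tw t (Sk k) S i θ x else 0)) atTop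
        (𝓝 ((K.card : ℝ≥0∞) * ∑ _i : ι, 0)) := by
      refine ENNReal.Tendsto.const_mul ?_ (Or.inr (ENNReal.natCast_ne_top _))
      refine tendsto_finsetSum _ fun i _ => ?_
      exact FluxDCT491.tendsto_double hD hε0 hlim hconv hgen htw htT i P R
    simpa using h3
  have t2 : Tendsto (fun k => ∫⁻ x in B, ∑ i, ∫⁻ θ : HPar P,
      absd (wE Φ f₀ (εk k) tw t (Sk k) S i θ x) (wgt Φ f₀ tw t S i θ x)) atTop (𝓝 0) := by
    have h2 : ∀ᶠ k in atTop, ∫⁻ x in B, ∑ i, ∫⁻ θ : HPar P,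
        absd (wE Φ f₀ (εk k) tw t (Sk k) S i θ x) (wgt Φ f₀ tw t S i θ x) =
        ∑ i, ∫⁻ x in B, ∫⁻ θ : HPar P,
          adiff (FluxDCT491.wH Φ f₀ (εk k) tw t (Sk k) S i θ x) (wgt Φ f₀ tw t S i θ x) := by
      filter_upwards [hlipk] with k hk
      have hSkc : ∀ i, ContinuousOn ((Sk k).c i) (Icc 0 T) := fun i => (hk i).continuousOn
      have hmt : ∀ i, Measurable fun x : Space3 => ∫⁻ θ : HPar P,
          absd (wE Φ f₀ (εk k) tw t (Sk k) S i θ x) (wgt Φ f₀ tw t S i θ x) := fun i =>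
        (measurable_absd (measurable_wE (P := P) (S := S) hΦ (hε0 k) hf htw htT hD.T_pos.le
          hSkc i) (measurable_wgt (P := P) hΦ hf htw htT hD.T_pos.le
          (fun i => (hlip i).continuousOn) i)).lintegral_prod_left'
      rw [lintegral_finsetSum _ fun i _ => hmt i]
      refine Finset.sum_congr rfl fun i _ => lintegral_congr fun x => ?_
      refine lintegral_congr_ae ?_
      filter_upwards [FluxDCT491.ae_time_ne P tw] with θ hθ
      rw [wE_eq_wH hθ]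
      rfl
    refine Tendsto.congr' (EventuallyEq.symm h2) ?_
    have h3 : Tendsto (fun k => ∑ i, ∫⁻ x in B, ∫⁻ θ : HPar P,
          adiff (FluxDCT491.wH Φ f₀ (εk k) tw t (Sk k) S i θ x) (wgt Φ f₀ tw t S i θ x)) atTop
        (𝓝 (∑ _i : ι, 0)) := by
      refine tendsto_finsetSum _ fun i _ => ?_
      exact FluxDCT491.tendsto_wH hD hε0 hlim hconv hgen htw htT i P R
    simpa using h3
  have hδ3 : (0 : ℝ≥0∞) < ENNReal.ofReal (δ / 3) := by
    rw [ENNReal.ofReal_pos]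
    positivity
  filter_upwards [hSk, hlipk, hlim.eventually (gt_mem_nhds hη0),
    t1.eventually (gt_mem_nhds hδ3), t2.eventually (gt_mem_nhds hδ3)] with k k1 k2 k3 k4 k5
  have hSkc : ∀ i, ContinuousOn ((Sk k).c i) (Icc 0 T) := fun i => (k2 i).continuousOn
  set c : ℝ≥0∞ := ENNReal.ofReal (16 * (η + εk k)) * c1 +
    Fintype.card ι * (F.card * ENNReal.ofReal (2 * η) * (mom C β M *
      (volume (Metric.ball (0 : Plane) 1) * ∫⁻ p : Par P, domP β T P p))) with hc
  refine ⟨mF Φ f₀ (εk k) tw t (Sk k) S P K.card c, ?_, fun x => ?_, ?_⟩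
  · exact measurable_mF hΦ (hε0 k) hf htw htT hD.T_pos.le hSkc
      (fun i => (hlip i).continuousOn) P _ _
  · exact flux_le hΦ (hε0 k) hf h1 hC hdom htw htwt htT k2 hlip hη0 k1 hS hV x
  · have hcle : c * volume B ≤ ENNReal.ofReal (δ / 3) := by
      refine le_trans ?_ hηL
      rw [hL, ← mul_assoc]
      refine mul_le_mul' ?_ le_rfl
      have e1 : ENNReal.ofReal (16 * (η + εk k)) ≤ ENNReal.ofReal η * 32 := by
        have e3 : (32 : ℝ≥0∞) = ENNReal.ofReal 32 := by simp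
        rw [e3, ← ENNReal.ofReal_mul hη0.le]
        exact ENNReal.ofReal_le_ofReal (by linarith)
      have e2 : ENNReal.ofReal (2 * η) = 2 * ENNReal.ofReal η := by
        rw [ENNReal.ofReal_mul (by norm_num)]
        simp
      rw [hc, hc2, e2]
      calc ENNReal.ofReal (16 * (η + εk k)) * c1 + Fintype.card ι * (F.card *
            (2 * ENNReal.ofReal η) * (mom C β M *
            (volume (Metric.ball (0 : Plane) 1) * ∫⁻ p : Par P, domP β T P p)))
          ≤ ENNReal.ofReal η * 32 * c1 + Fintype.card ι * (F.card *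
            (2 * ENNReal.ofReal η) * (mom C β M *
            (volume (Metric.ball (0 : Plane) 1) * ∫⁻ p : Par P, domP β T P p))) :=
            add_le_add (mul_le_mul' e1 le_rfl) le_rfl
        _ = _ := by ring
    have hma : Measurable fun x : Space3 => (K.card : ℝ≥0∞) * ∑ i, ∫⁻ θ : HPar P,
        (if Touch (εk k) (Sk k) S i θ then wE Φ f₀ (εk k) tw t (Sk k) S i θ x else 0) :=
      measurable_const.mul (Finset.measurable_sum _ fun i _ =>
        (measurable_touch (P := P) (S := S) hΦ (hε0 k) hf htw htT hD.T_pos.le hSkc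
          i).lintegral_prod_left')
    have hmb : Measurable fun x : Space3 => c + (K.card : ℝ≥0∞) * ∑ i, ∫⁻ θ : HPar P,
        (if Touch (εk k) (Sk k) S i θ then wE Φ f₀ (εk k) tw t (Sk k) S i θ x else 0) :=
      measurable_const.add hma
    unfold mF
    rw [lintegral_add_left hmb, lintegral_add_left measurable_const, setLIntegral_const]
    have e4 : ENNReal.ofReal δ =
        ENNReal.ofReal (δ / 3) + ENNReal.ofReal (δ / 3) + ENNReal.ofReal (δ / 3) := by
      rw [← ENNReal.ofReal_add (by positivity) (by positivity),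
        ← ENNReal.ofReal_add (by positivity) (by positivity)]
      congr 1
      ring
    rw [e4]
    exact add_le_add (add_le_add hcle k4.le) k5.le


end Crest.Agent.R122.Tube818
end
end

-- ▼ part R122/TubeLim_818
section

/-!
Row 122, block FT (helper818): the flux limit in the literal forms of helper317.
-/

set_option autoImplicit false
set_option maxHeartbeats 400000

open MeasureTheory Set Filter
open Crest.AnalysisR.Kinetic
open scoped ENNReal Classical Topology NNReal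

noncomputable section

namespace Crest.Agent.R122.Tube818

variable {Φ : Space3 → ℝ} {f₀ : PhasePoint → ℝ} {f : ℝ → PhasePoint → ℝ} {β T tw t : ℝ}

/-- **(I2)**, majorant form. -/
theorem fluxLimM (hD : Master566.KData Φ β T f₀ f) (htw : 0 ≤ tw) (htwt : tw ≤ t) (htT : t ≤ T) :
    IStep317.FluxLimM Φ f₀ T tw t := by
  intro ι _ Sk S εk hε0 hlim hconv hgen P R δ hδ
  exact flux_majorant hD hε0 hlim hconv hgen htw htwt htT P R hδ


end Crest.Agent.R122.Tube818
end
end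

-- ▼ part R122/TopF_602

/-!
# Row 122: the top skeleton, inputs of section F (helper602)

* `InL T Q` : `Q γ ρ` for all admissible line parameters with `g0 ≤ g1`, `r1 ≤ ρ`.
* `InW T Q` : `Q tw te` for all windows of length at most `h`, for some `h > 0`.
* `FluxIn`, `BadIn`, `ErrIn`, `FluxLimIn`, `GIVStepIn` : inputs of section F.
* `fIn_of_flux`, `fluxIn_of` : assembly.
-/

set_option autoImplicit false

open MeasureTheory Set Filter Topology
open scoped ENNReal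
open Crest.AnalysisR.Kinetic
open Crest.Agent.R122.Master566 Crest.Agent.R122.EDefs602 Crest.Agent.R122.GIV566

namespace Crest.Agent.R122.Top602

noncomputable section

/-- For all line parameters which are small and close to one enough. -/
def InL (T : ℝ) (Q : (ℝ → ℝ) → ℝ≥0∞ → Prop) : Prop :=
  ∃ g1 : ℝ, 0 < g1 ∧ ∃ r1 : ℝ≥0∞, r1 < 1 ∧ ∀ (γ : ℝ → ℝ) (ρ : ℝ≥0∞), LinePar g1 r1 T γ ρ → Q γ ρ

theorem InL.of_forall {T : ℝ} {Q : (ℝ → ℝ) → ℝ≥0∞ → Prop} (h : ∀ γ ρ, Q γ ρ) : InL T Q :=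
  ⟨1, one_pos, 0, zero_lt_one, fun γ ρ _ => h γ ρ⟩

theorem InL.and {T : ℝ} {Q Q' : (ℝ → ℝ) → ℝ≥0∞ → Prop} (h : InL T Q) (h' : InL T Q') :
    InL T fun γ ρ => Q γ ρ ∧ Q' γ ρ := by
  obtain ⟨g1, hg1, r1, hr1, h⟩ := h
  obtain ⟨g2, hg2, r2, hr2, h'⟩ := h'
  exact ⟨min g1 g2, lt_min hg1 hg2, max r1 r2, max_lt hr1 hr2, fun γ ρ hl =>
    ⟨h γ ρ (hl.mono (min_le_left _ _) (le_max_left _ _)),
      h' γ ρ (hl.mono (min_le_right _ _) (le_max_right _ _))⟩⟩

theorem InL.mono {T : ℝ} {Q Q' : (ℝ → ℝ) → ℝ≥0∞ → Prop} (h : InL T Q)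
    (hq : ∀ γ ρ, (∃ g1 r1, LinePar g1 r1 T γ ρ) → Q γ ρ → Q' γ ρ) : InL T Q' := by
  obtain ⟨g1, hg1, r1, hr1, h⟩ := h
  exact ⟨g1, hg1, r1, hr1, fun γ ρ hl => hq γ ρ ⟨g1, r1, hl⟩ (h γ ρ hl)⟩

/-- For all windows which are short enough. -/
def InW (T : ℝ) (Q : ℝ → ℝ → Prop) : Prop :=
  ∃ h : ℝ, 0 < h ∧ ∀ tw te : ℝ, Win h T tw te → Q tw te

theorem Win.mono {h h' T tw te : ℝ} (hw : Win h T tw te) (hh : h ≤ h') : Win h' T tw te :=
  ⟨hw.nonneg, hw.le, hw.le_T, hw.short.trans (by linarith)⟩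

theorem InW.of_forall {T : ℝ} {Q : ℝ → ℝ → Prop}
    (h : ∀ tw te : ℝ, 0 ≤ tw → tw ≤ te → te ≤ T → Q tw te) : InW T Q :=
  ⟨1, one_pos, fun tw te hw => h tw te hw.nonneg hw.le hw.le_T⟩

theorem InW.and {T : ℝ} {Q Q' : ℝ → ℝ → Prop} (h : InW T Q) (h' : InW T Q') :
    InW T fun tw te => Q tw te ∧ Q' tw te := by
  obtain ⟨a, ha, h⟩ := h
  obtain ⟨b, hb, h'⟩ := h'
  exact ⟨min a b, lt_min ha hb, fun tw te hw =>
    ⟨h tw te (hw.mono (min_le_left _ _)), h' tw te (hw.mono (min_le_right _ _))⟩⟩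

theorem InW.mono {T : ℝ} {Q Q' : ℝ → ℝ → Prop} (h : InW T Q)
    (hq : ∀ tw te : ℝ, 0 ≤ tw → tw ≤ te → te ≤ T → Q tw te → Q' tw te) : InW T Q' := by
  obtain ⟨a, ha, h⟩ := h
  exact ⟨a, ha, fun tw te hw => hq tw te hw.nonneg hw.le hw.le_T (h tw te hw)⟩

/-- The information available in section F on the window `(tw, te]`: the induction hypothesis at
`tw` and the conclusions of section E at `te`. -/
structure FHyp (Φ : Space3 → ℝ) (f₀ : PhasePoint → ℝ) (f : ℝ → PhasePoint → ℝ) (T : ℝ) (γ : ℝ → ℝ)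
    (ρ : ℝ≥0∞) (tw te : ℝ) : Prop where
  ih : IH Φ f₀ f T γ ρ tw
  je : JSup Φ f₀ te
  tn : TN Φ f₀ γ ρ te

/-- Flux step, for all short windows. -/
def FluxIn (Φ : Space3 → ℝ) (f₀ : PhasePoint → ℝ) (f : ℝ → PhasePoint → ℝ) (T : ℝ) : Prop :=
  InL T fun γ ρ => InW T fun tw te => FHyp Φ f₀ f T γ ρ tw te →
    GIVStep383.FluxStep Φ f₀ T tw te

/-- (A) bad first hits are rare. -/
def BadIn (Φ : Space3 → ℝ) (f₀ : PhasePoint → ℝ) (f : ℝ → PhasePoint → ℝ) (T : ℝ) : Prop :=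
  InL T fun γ ρ => InW T fun tw te => FHyp Φ f₀ f T γ ρ tw te →
    ∀ t ∈ Icc tw te, IStep317.BadSmall Φ f₀ T tw t

/-- (B) real and ghost avoidance probabilities agree at the first hits. -/
def ErrIn (Φ : Space3 → ℝ) (f₀ : PhasePoint → ℝ) (f : ℝ → PhasePoint → ℝ) (T : ℝ) : Prop :=
  InL T fun γ ρ => InW T fun tw te => FHyp Φ f₀ f T γ ρ tw te →
    ∀ t ∈ Icc tw te, IStep317.ErrSmall Φ f₀ T tw t

/-- (C) the limit of the flux of trees. -/
def FluxLimIn (Φ : Space3 → ℝ) (f₀ : PhasePoint → ℝ) (T : ℝ) : Prop :=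
  ∀ tw t : ℝ, 0 ≤ tw → tw ≤ t → t ≤ T → IStep317.FluxLimM Φ f₀ T tw t

/-- The window step of the ghost avoidance identification from the flux step. -/
def GIVStepIn (Φ : Space3 → ℝ) (f₀ : PhasePoint → ℝ) (f : ℝ → PhasePoint → ℝ) (T : ℝ) : Prop :=
  InW T fun tw te => GIV Φ f₀ f T tw → GIVStep383.FluxStep Φ f₀ T tw te → GIV Φ f₀ f T te

variable {Φ : Space3 → ℝ} {β T : ℝ} {f₀ : PhasePoint → ℝ} {f : ℝ → PhasePoint → ℝ}

theorem fIn_of_flux (hG : GIVStepIn Φ f₀ f T) (hF : FluxIn Φ f₀ f T) : FIn Φ f₀ f T := by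
  refine InL.mono hF fun γ ρ _ h => ?_
  obtain ⟨a, ha, h⟩ := h.and hG
  exact ⟨a, ha, fun tw te hw hI hJ hT => (h tw te hw).2 hI.giv ((h tw te hw).1 ⟨hI, hJ, hT⟩)⟩

/-- (C) is proved (818, 491). -/
theorem fluxLimIn_of (hD : KData Φ β T f₀ f) : FluxLimIn Φ f₀ T :=
  fun _ _ h0 hle hT => Tube818.fluxLimM hD h0 hle hT

theorem fluxIn_of (hD : KData Φ β T f₀ f) (hB : BadIn Φ f₀ f T) (hE : ErrIn Φ f₀ f T) :
    FluxIn Φ f₀ f T := by
  have hC := fluxLimIn_of hD
  obtain ⟨Q, hQ0, hQ⟩ := GC311.exists_position_density_bound hD.beta_pos hD.gaussian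
  refine InL.mono (hB.and hE) fun γ ρ _ h => ?_
  refine InW.mono (h.1.and h.2) fun tw te h0 hle hT hh hyp => ?_
  have hmass : ∫⁻ z, ENNReal.ofReal (f₀ z) ≤ 1 :=
    (FM167.lintegral_density_eq_one hD.nonneg hD.integrable hD.mass).le
  exact IStep317.fluxStep_of hD.adm hD.contDiff.continuous.measurable hmass
    hQ0 hQ h0 hT (hh.1 hyp) (hh.2 hyp)
    fun t ht => hC tw t h0 ht.1 (ht.2.trans hT)

end

end Crest.Agent.R122.Top602
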