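import Crest.Agent.R122.RealMeas_674
import Crest.Agent.R122.ToTree_335
import Crest.Agent.R122.SizeX1_974
import Crest.Agent.R122.InEq2Defs_311
import Crest.Agent.R122.UnwJ_410
import Crest.Agent.R122.NEK_370
import Crest.Agent.R122.InEq2V_263
import Crest.Agent.R122.TopDefs_602
import Crest.Agent.R122.HitSwG_167
import Crest.Agent.R122.RealTree_674
import Crest.Agent.R122.IDefs_317
import Crest.Agent.R122.IStep3_317
import Crest.Agent.R122.TopF_602
import Crest.Agent.R122.Mid2_317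
import Crest.Agent.R122.ChainFam_726

-- ▼ part R122/BandUp_674
section

/-!
Row 122, F7 (helper674): **upper bound for the mass of the clusters of given sizes** by the
integrals over tree parameters, damped by the avoidance probability of the protected tubes.
-/

set_option autoImplicit false
set_option synthInstance.maxSize 1024

open MeasureTheory Set Filter Topology
open Crest.AnalysisR.Kinetic
open scoped ENNReal Classical

noncomputable section

namespace Crest.Agent.R122.BandUp674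

open Kin796 Kin796.CTree Disc416 Scat818 Flow671 Flux663 Tree674 Final973 Causal291 GC311
  Relabel674 Master566 GIV566 RealTree674 Band974 TreeLim974

variable {Φ : Space3 → ℝ} {ε t : ℝ} {f₀ : PhasePoint → ℝ}

/-! ### The cluster and the rest -/




/-! ### Masses -/

/-- mass of the particles with cluster size in `S`, test function `φ` -/
def sizeMass (Φ : Space3 → ℝ) (f₀ : PhasePoint → ℝ) (ε t : ℝ) (S : Set ℕ)
    (φ : PhasePoint → ℝ≥0∞) : ℝ≥0∞ :=
  (activity ε)⁻¹ * gcE f₀ ε fun _ Z => ∑ i, if (bc Φ ε Z t i).ncard ∈ S then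
    φ (pth Φ ε Z t i) else 0







/-! ### The tree term -/





/-! ### The inequality -/


end Crest.Agent.R122.BandUp674

end
end

-- ▼ part R122/SizeX2_974
section

/-!
# Row 122 (helper974), size crossing (SX), part 2: real clusters seen at a later time

* `bandX ε K₁ K s` : gas mass at time `s` of the particles with `K₁ < |bc| ≤ K`, weight
  `eW (bc)` (energy weight of the cluster).
* `NGC`, `RGC` : the two inputs at gas level (D5 and H12), Mecke form, uniform in `s`.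
* `BandUpX` : the upper bound by the two-time tree integrals; `bandUpX_of : NGC → RGC → BandUpX`.
* `ofReal_speed_le` : `1 + |v_i(s)|²` is at most `(2 B + 2) eW (bc (i, s))`.
* `exists_bandX`, `SX`, `SX_speed` : geometric bound and smallness, uniform in `s ∈ [tw, te]`.
-/

set_option autoImplicit false

open MeasureTheory Set Filter
open scoped ENNReal Topology Classical NNReal
open Crest.AnalysisR.Kinetic Crest.Agent.R122.Kin796 Crest.Agent.R122.Disc416
  Crest.Agent.R122.Tree674 Crest.Agent.R122.TreeLim974 Crest.Agent.R122.GIV566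
  Crest.Agent.R122.Band974 Crest.Agent.R122.GC311 Crest.Agent.R122.Causal291
  Crest.Agent.R122.Master566 Crest.Agent.R122.Relabel674 Crest.Agent.R122.EDefs602
  Crest.Agent.R122.InEq2 Crest.Agent.R122.RealTree674

noncomputable section

namespace Crest.Agent.R122.SizeX974

open CTree

variable {Φ : Space3 → ℝ} {f₀ : PhasePoint → ℝ} {f : ℝ → PhasePoint → ℝ} {β T tw te T' ε : ℝ}

/-! ### Definitions -/

/-- mass at time `s` of the particles with `K₁ < |bc| ≤ K`, weight `eW` of the cluster -/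
def bandX (Φ : Space3 → ℝ) (f₀ : PhasePoint → ℝ) (ε : ℝ) (K₁ K : ℕ) (s : ℝ) : ℝ≥0∞ :=
  gcE f₀ ε fun n Z => (activity ε)⁻¹ * ∑ i : Fin n,
    if (bc Φ ε Z s i).toFinset.card ∈ Ioc K₁ K then eW Z (bc Φ ε Z s i).toFinset else 0

/-- **D5 at gas level**: up to a small majorant every real cluster of at most `K` particles, seen
at any time `s ≤ te`, is a valid and separated tree at the horizon `T'`. -/
def NGC (Φ : Space3 → ℝ) (f₀ : PhasePoint → ℝ) (te T' : ℝ) : Prop :=
  ∀ (K : ℕ) (δ : ℝ), 0 < δ → ∃ ε₀ : ℝ, 0 < ε₀ ∧ ∀ ε : ℝ, 0 < ε → ε < ε₀ →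
    ∃ B : (k m : ℕ) → Config k → Config m → Fin k → ℝ≥0∞, MeasMS B ∧
      MS f₀ ε B ≤ activity ε * ENNReal.ofReal δ ∧
      ∀ (k m : ℕ) (V : Config k) (w : Config m) (j : Fin k), k ≤ K → V ∈ PairExcluded ε k →
        w ∈ PairExcluded ε m → Perp ε V w → ∀ s ∈ Icc 0 te,
        (bc Φ ε (Fin.append V w) s (Fin.castAdd m j)).toFinset = block k m →
        (∃ P ℓ p e, HTreeC Φ ε T' s (Fin.append V w : Config (k + m)) (Fin.castAdd m j) P ℓ p e) ∨
          eW (Fin.append V w : Config (k + m)) (block k m) ≤ B k m V w j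

/-- **H12 at gas level**: up to a small majorant, a real tree seen at a time `s ∈ [tw, te]` has its
protected tubes unhit up to `tw` by the rest of the gas alone. -/
def RGC (Φ : Space3 → ℝ) (f₀ : PhasePoint → ℝ) (tw te T' : ℝ) : Prop :=
  ∀ (K : ℕ) (δ : ℝ), 0 < δ → ∃ ε₀ : ℝ, 0 < ε₀ ∧ ∀ ε : ℝ, 0 < ε → ε < ε₀ →
    ∃ B : (k m : ℕ) → Config k → Config m → Fin k → ℝ≥0∞, MeasMS B ∧
      MS f₀ ε B ≤ activity ε * ENNReal.ofReal δ ∧
      ∀ (k m : ℕ) (V : Config k) (w : Config m) (j : Fin k), k ≤ K → V ∈ PairExcluded ε k →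
        w ∈ PairExcluded ε m → Perp ε V w → ∀ s ∈ Icc tw te,
        (bc Φ ε (Fin.append V w) s (Fin.castAdd m j)).toFinset = block k m →
        ∀ (P : CTree) (ℓ : PhasePoint) (p : Par P) (e : Idx P → Fin (k + m)),
        HTreeC Φ ε T' s (Fin.append V w : Config (k + m)) (Fin.castAdd m j) P ℓ p e →
        ¬ unhit Φ ε (PT Φ ε P T' ℓ p) tw w →
          eW (Fin.append V w : Config (k + m)) (block k m) ≤ B k m V w j

/-- the upper bound of the size band by the two-time tree integrals, uniform in `s ∈ [tw, te]` -/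
def BandUpX (Φ : Space3 → ℝ) (f₀ : PhasePoint → ℝ) (tw te T' : ℝ) : Prop :=
  ∀ (K₁ K : ℕ) (δ : ℝ), 0 < δ → ∃ ε₀ : ℝ, 0 < ε₀ ∧ ∀ ε : ℝ, 0 < ε → ε < ε₀ →
    ∀ s ∈ Icc tw te,
      bandX Φ f₀ ε K₁ K s ≤ ∑ P ∈ bandT K₁ K, JX Φ f₀ ε P tw T' + ENNReal.ofReal δ

/-! ### The tree functional -/

/-- the functional of the tree coordinates and the rest -/
def HX (Φ : Space3 → ℝ) (ε tw T' : ℝ) (K₁ K : ℕ) (P : CTree)
    (z : PhasePoint × Par P) (m : ℕ) (w : Config m) : ℝ≥0∞ :=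
  if (z ∈ goodS Φ ε P T' ∧ P.leaves ∈ Ioc K₁ K) ∧ unhit Φ ε (PTm Φ ε P T' z.1 z.2) tw w then
    wQ Φ ε P z else 0

theorem measurable_HX (hΦ : AdmissiblePotential Φ) (hε : 0 < ε) (tw T' : ℝ) (K₁ K : ℕ) :
    MeasTS (HX Φ ε tw T' K₁ K) := by
  intro P m
  unfold HX
  refine Measurable.ite ?_ ((measurable_wQ hΦ P).comp measurable_fst) measurable_const
  have h1 : MeasurableSet {q : (PhasePoint × Par P) × Config m |
      q.1 ∈ goodS Φ ε P T' ∧ P.leaves ∈ Ioc K₁ K} := by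
    by_cases hS : P.leaves ∈ Ioc K₁ K
    · simp only [hS, and_true]
      exact measurable_fst (measurableSet_goodS hΦ hε P T')
    · simp only [hS, and_false]
      exact MeasurableSet.const False
  refine h1.inter ?_
  exact measurableSet_unhit' hΦ hε (w := fun q : (PhasePoint × Par P) × Config m => q.2)
    measurable_snd
    (S := fun q : (PhasePoint × Par P) × Config m => PTm Φ ε P T' q.1.1 q.1.2)
    (fun q i => Hid424.continuous_curveM hΦ hε P q.1.1 q.1.2 i)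
    (fun i s => (Hid424.measurable_curveM hΦ hε P i).comp
      (f := fun q : (PhasePoint × Par P) × Config m => (s, q.1))
      (measurable_const.prodMk measurable_fst))
    (fun i => (measurable_prot P i).comp (f := fun q : (PhasePoint × Par P) × Config m =>
      (T', q.1.2)) (measurable_const.prodMk measurable_fst.snd)) measurable_const

/-- `unhit` for the protected tubes and their measurable version, two times -/
theorem unhit_PT2_iff (hΦ : AdmissiblePotential Φ) (hε : 0 < ε) {P : CTree} {ℓ : PhasePoint}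
    {p : Par P} (hv : Valid Φ ε P T' ℓ.2 p) (hs : Sep Φ ε P T' ℓ p) {ι : Type*}
    [Fintype ι] (w : ι → PhasePoint) : unhit Φ ε (PT Φ ε P T' ℓ p) tw w ↔
      unhit Φ ε (PTm Φ ε P T' ℓ p) tw w := by
  refine GIVUse424.unhit_congr rfl fun i s hs' => ?_
  show (path Φ ε P ℓ p s i).1 = Hid424.curveM Φ ε P ℓ p i s
  rw [Hid424.curveM_of_adm (ℓ := ℓ) hv.1]
  obtain ⟨X, v⟩ := ℓ
  have h1 : s ≤ T' := (hs'.2.trans (min_le_left _ _)).trans
    (PathFlow968.prot_le hε.le P T' v p hv.2 i)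
  exact (Hid424.curve_eq_path hΦ hε hv hs ⟨hs'.1, h1⟩ i).symm

theorem wQ_eq_WtT {P : CTree} {z : PhasePoint × Par P} (h : Adm Φ P z.1.2 z.2) :
    wQ Φ ε P z = WtT Φ P z := by
  rw [wQ_eq h]
  unfold WtT
  refine Finset.sum_congr rfl fun i _ => ?_
  rw [Hid424.lines_vel ε P z.1 z.2 i]

theorem WtT_ne_top (P : CTree) (z : PhasePoint × Par P) : WtT Φ P z ≠ ∞ := by
  unfold WtT
  exact ENNReal.sum_ne_top.2 fun i _ => ENNReal.ofReal_ne_top

theorem gcE_HX (hΦ : AdmissiblePotential Φ) (hε : 0 < ε) (K₁ K : ℕ) (P : CTree)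
    (z : PhasePoint × Par P) :
    gcE f₀ ε (fun m w => HX Φ ε tw T' K₁ K P z m w) =
      if z ∈ goodS Φ ε P T' ∧ P.leaves ∈ Ioc K₁ K then
        WtT Φ P z * uG Φ f₀ ε (PT Φ ε P T' z.1 z.2) tw else 0 := by
  by_cases h : z ∈ goodS Φ ε P T' ∧ P.leaves ∈ Ioc K₁ K
  · rw [if_pos h]
    unfold uG
    rw [← gcE_const_mul f₀ ε (WtT_ne_top P z)]
    refine gcE_congr f₀ ε fun m w _ => ?_
    unfold HX unhitInd
    have h2 := unhit_PT2_iff (tw := tw) hΦ hε h.1.1 h.1.2 w
    by_cases hu : unhit Φ ε (PT Φ ε P T' z.1 z.2) tw w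
    · rw [if_pos ⟨h, h2.1 hu⟩, if_pos hu, mul_one, wQ_eq_WtT h.1.1.1]
    · rw [if_neg fun h' => hu (h2.2 h'.2), if_neg hu, mul_zero]
  · rw [if_neg h]
    have e : (fun (m : ℕ) (w : Config m) => HX Φ ε tw T' K₁ K P z m w) = fun _ _ => 0 := by
      funext m w
      unfold HX
      exact if_neg fun h' => h h'.1
    rw [e, gcE_zero]

theorem TS_HX (hΦ : AdmissiblePotential Φ) (hε : 0 < ε) (K₁ K : ℕ) :
    TS Φ f₀ ε T' (HX Φ ε tw T' K₁ K) = ∑ P ∈ bandT K₁ K, JX Φ f₀ ε P tw T' := by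
  have h1 : ∀ P : CTree, ∫⁻ z : PhasePoint × Par P,
      {z : PhasePoint × Par P | Valid Φ ε P T' z.1.2 z.2}.indicator
        (fun z => wt Φ P z.1.2 z.2 * (ToTree335.pf Φ f₀ ε P z *
          gcE f₀ ε fun m w => HX Φ ε tw T' K₁ K P z m w)) z =
      if P ∈ bandT K₁ K then JX Φ f₀ ε P tw T' else 0 := by
    intro P
    by_cases hP : P ∈ bandT K₁ K
    · rw [if_pos hP]
      have hl : P.leaves ∈ Ioc K₁ K := mem_bandT.1 hP
      unfold JX
      refine lintegral_congr fun z => ?_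
      by_cases hz : z ∈ goodS Φ ε P T'
      · rw [indicator_of_mem hz, indicator_of_mem (show z ∈ {z : PhasePoint × Par P |
          Valid Φ ε P T' z.1.2 z.2} from hz.1), gcE_HX hΦ hε, if_pos ⟨hz, hl⟩]
      · rw [indicator_of_notMem hz]
        by_cases hz' : z ∈ {z : PhasePoint × Par P | Valid Φ ε P T' z.1.2 z.2}
        · rw [indicator_of_mem hz', gcE_HX hΦ hε, if_neg fun h => hz h.1, mul_zero, mul_zero]
        · rw [indicator_of_notMem hz']
    · rw [if_neg hP]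
      have hl : ¬ P.leaves ∈ Ioc K₁ K := fun h => hP (mem_bandT.2 h)
      have h0 : ∀ z : PhasePoint × Par P,
          {z : PhasePoint × Par P | Valid Φ ε P T' z.1.2 z.2}.indicator
            (fun z => wt Φ P z.1.2 z.2 * (ToTree335.pf Φ f₀ ε P z *
              gcE f₀ ε fun m w => HX Φ ε tw T' K₁ K P z m w)) z = 0 := by
        intro z
        by_cases hz' : z ∈ {z : PhasePoint × Par P | Valid Φ ε P T' z.1.2 z.2}
        · rw [indicator_of_mem hz', gcE_HX hΦ hε, if_neg fun h => hl h.2, mul_zero, mul_zero]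
        · rw [indicator_of_notMem hz']
      simp only [h0, lintegral_zero]
  unfold InEq2.TS
  simp only [h1]
  rw [tsum_eq_sum (s := bandT K₁ K) fun P hP => if_neg hP]
  exact Finset.sum_congr rfl fun P hP => if_pos hP

/-- In the world `V ++ w`: a tree history of the cluster `V` is labelled by `V`. -/
theorem hTreeC_append {k m : ℕ} {V : Config k} {w : Config m} {j : Fin k} {s : ℝ}
    (hε : 0 < ε) (hT' : 0 ≤ T') (hs : 0 ≤ s)
    (hb : (bc Φ ε (Fin.append V w) s (Fin.castAdd m j)).toFinset = block k m)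
    {P : CTree} {ℓ : PhasePoint} {p : Par P} {e₀ : Idx P → Fin (k + m)}
    (h : HTreeC Φ ε T' s (Fin.append V w) (Fin.castAdd m j) P ℓ p e₀) :
    ∃ e : Idx P ≃ Fin k, e (Tree674.root P) = j ∧ (fun x => Fin.castAdd m (e x)) = e₀ := by
  have hr : ∀ a : Fin (k + m), a ∈ range e₀ ↔ ∃ j : Fin k, Fin.castAdd m j = a := by
    intro a
    rw [h.range_eq hε hT' hs, ← mem_block, ← hb, Set.mem_toFinset]
    rfl
  have h1 : ∀ x, ∃ j : Fin k, Fin.castAdd m j = e₀ x := fun x => (hr _).1 (mem_range_self x)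
  choose e1 he1 using h1
  have hinj : Function.Injective e1 := by
    intro x y hxy
    apply h.inj
    rw [← he1 x, ← he1 y, hxy]
  have hsurj : Function.Surjective e1 := by
    intro j'
    obtain ⟨x, hx⟩ := (hr (Fin.castAdd m j')).2 ⟨j', rfl⟩
    refine ⟨x, Fin.castAdd_injective k m ?_⟩
    rw [he1 x, hx]
  refine ⟨Equiv.ofBijective e1 ⟨hinj, hsurj⟩, ?_, funext he1⟩
  apply Fin.castAdd_injective k m
  show Fin.castAdd m (e1 (Tree674.root P)) = _
  rw [he1, h.root]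

/-- Mecke formula for the size band. -/
theorem bandX_eq (hf : Measurable f₀) (hΦ : AdmissiblePotential Φ) (hε : 0 < ε) {s : ℝ}
    (hs : 0 ≤ s) (K₁ K : ℕ) : bandX Φ f₀ ε K₁ K s = (activity ε)⁻¹ * MS f₀ ε fun k m V w j =>
      if (bc Φ ε (Fin.append V w) s (Fin.castAdd m j)).toFinset = block k m then
        (if k ∈ Ioc K₁ K then eW (Fin.append V w : Config (k + m)) (block k m) else 0) else 0 := by
  have hM1 := bc_mecke hf hΦ hε hs
    (F := fun n i B Z => if B.card ∈ Ioc K₁ K then eW Z B else 0)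
    (fun n σ i B Z _ => by
      rw [Finset.card_map, eW_equiv])
    (fun n i B => by
      by_cases hB : B.card ∈ Ioc K₁ K
      · simp only [if_pos hB]; exact measurable_eW B
      · simp only [if_neg hB]; exact measurable_const)
  have ha' : (activity ε)⁻¹ ≠ ∞ := ENNReal.inv_ne_top.2 (FM167.activity_ne_zero hε)
  unfold bandX
  rw [gcE_const_mul f₀ ε ha', hM1]
  unfold MS
  simp only [card_block]

/-- **The real side of SX.** -/
theorem bandUpX_of (hf : Measurable f₀) (hΦ : AdmissiblePotential Φ) (htw : 0 ≤ tw)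
    (hT' : 0 ≤ T') (hN : NGC Φ f₀ te T') (hR : RGC Φ f₀ tw te T') :
    BandUpX Φ f₀ tw te T' := by
  intro K₁ K δ hδ
  obtain ⟨ε₁, hε₁, h1⟩ := hN K (δ / 2) (half_pos hδ)
  obtain ⟨ε₂, hε₂, h2⟩ := hR K (δ / 2) (half_pos hδ)
  refine ⟨min ε₁ ε₂, lt_min hε₁ hε₂, fun ε hε hlt s hs => ?_⟩
  obtain ⟨B1, hB1m, hB1, hB1p⟩ := h1 ε hε (hlt.trans_le (min_le_left _ _))
  obtain ⟨B2, hB2m, hB2, hB2p⟩ := h2 ε hε (hlt.trans_le (min_le_right _ _))
  have hs0 : 0 ≤ s := htw.trans hs.1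
  rw [bandX_eq hf hΦ hε hs0 K₁ K]
  have ha := FM167.activity_ne_zero hε
  have ha' := FM167.activity_ne_top ε
  have hT := to_tree1 (f₀ := f₀) hΦ hf hε (T := T') (H := HX Φ ε tw T' K₁ K)
    (measurable_HX hΦ hε tw T' K₁ K)
    (F := fun k m V w j =>
      if (bc Φ ε (Fin.append V w) s (Fin.castAdd m j)).toFinset = block k m then
        (if k ∈ Ioc K₁ K then eW (Fin.append V w : Config (k + m)) (block k m) else 0) else 0)
    (B := fun k m V w j => B1 k m V w j + B2 k m V w j)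
    (fun k m j => (hB1m k m j).add (hB2m k m j))
    (fun k m V w j hV hw hp => by
      by_cases hb : (bc Φ ε (Fin.append V w) s (Fin.castAdd m j)).toFinset = block k m
      swap
      · simp only [if_neg hb]; exact zero_le
      by_cases hk : k ∈ Ioc K₁ K
      swap
      · simp only [if_pos hb, if_neg hk]; exact zero_le
      simp only [if_pos hb, if_pos hk]
      rcases hB1p k m V w j hk.2 hV hw hp s ⟨hs0, hs.2⟩ hb with h | h
      swap
      · exact h.trans ((le_add_right le_rfl).trans le_add_self)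
      obtain ⟨P, ℓ, p, e₀, h⟩ := h
      by_cases hu : unhit Φ ε (PT Φ ε P T' ℓ p) tw w
      swap
      · exact (hB2p k m V w j hk.2 hV hw hp s hs hb P ℓ p e₀ h hu).trans
          (le_add_self.trans le_add_self)
      obtain ⟨e, he, he₀⟩ := hTreeC_append hε hT' hs0 hb h
      subst he₀
      have hlk : P.leaves = k := by
        have := Fintype.card_congr e
        rwa [card_idx, Fintype.card_fin] at this
      have hlin : ∀ x, V (e x) = lines Φ ε P ℓ p x := by
        intro x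
        have h3 := h.lines_eq hΦ hε hT' hs0 x
        rw [Fin.append_left] at h3
        exact h3
      refine le_trans ?_ (le_add_right (TreeBound335.le_ways hΦ hε
        (G := fun P z => HX Φ ε tw T' K₁ K P z m w) he h.valid hlin))
      show _ ≤ HX Φ ε tw T' K₁ K P (ℓ, p) m w
      unfold HX
      rw [if_pos ⟨⟨⟨h.valid, h.sep⟩, by rw [hlk]; exact hk⟩,
        (unhit_PT2_iff hΦ hε h.valid h.sep w).1 hu⟩, ← eW_block (z := (ℓ, p)) e h.valid.1 hlin])
  rw [TS_HX hΦ hε, MS_add hf hB2m] at hT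
  calc (activity ε)⁻¹ * MS f₀ ε _ ≤ (activity ε)⁻¹ *
        (activity ε * ∑ P ∈ bandT K₁ K, JX Φ f₀ ε P tw T' + (MS f₀ ε B1 + MS f₀ ε B2)) := by
        gcongr
    _ ≤ (activity ε)⁻¹ * (activity ε * ∑ P ∈ bandT K₁ K, JX Φ f₀ ε P tw T' +
        (activity ε * ENNReal.ofReal (δ / 2) + activity ε * ENNReal.ofReal (δ / 2))) := by
        gcongr
    _ = ((activity ε)⁻¹ * activity ε) * (∑ P ∈ bandT K₁ K, JX Φ f₀ ε P tw T' +
        (ENNReal.ofReal (δ / 2) + ENNReal.ofReal (δ / 2))) := by ring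
    _ = ∑ P ∈ bandT K₁ K, JX Φ f₀ ε P tw T' + ENNReal.ofReal δ := by
        rw [ENNReal.inv_mul_cancel ha ha', one_mul,
          ← ENNReal.ofReal_add (by positivity) (by positivity), add_halves]

/-! ### Speeds -/



/-! ### Smallness -/

/-- geometric bound of the size band, uniform in `s ∈ [tw, te]` -/
def SXB (Φ : Space3 → ℝ) (f₀ : PhasePoint → ℝ) (r C tw te : ℝ) : Prop :=
  ∀ (K₁ K : ℕ) (δ : ℝ), 0 < δ → ∃ ε₀ : ℝ, 0 < ε₀ ∧ ∀ ε : ℝ, 0 < ε → ε < ε₀ →
    ∀ s ∈ Icc tw te, bandX Φ f₀ ε K₁ K s ≤ ENNReal.ofReal (r ^ K₁ * C + δ)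

/-- **(SX)**: constants once and for all. -/
theorem exists_bandX (hD : KData Φ β T f₀ f) :
    ∃ h₀ r C : ℝ, 0 < h₀ ∧ 0 < r ∧ r < 1 ∧ 0 ≤ C ∧ ∀ tw ∈ Icc 0 T, ∀ te T' : ℝ,
      T' ∈ Icc 0 (tw + h₀) → GIV Φ f₀ f T tw → NGC Φ f₀ te T' → RGC Φ f₀ tw te T' →
        SXB Φ f₀ r C tw te := by
  obtain ⟨h₀, r, C, hh₀, hr, hr1, hC, h⟩ := exists_JX_tail hD
  refine ⟨h₀, r, C, hh₀, hr, hr1, hC, fun tw htw te T' hT' hG hN hR K₁ K δ hδ => ?_⟩
  have hfm : Measurable f₀ := hD.contDiff.continuous.measurable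
  obtain ⟨ε₁, hε₁, h1⟩ := bandUpX_of hfm hD.adm htw.1 hT'.1 hN hR K₁ K (δ / 2) (half_pos hδ)
  obtain ⟨ε₂, hε₂, h2⟩ := h tw htw T' hT' hG K₁ K (δ / 2) (half_pos hδ)
  refine ⟨min ε₁ ε₂, lt_min hε₁ hε₂, fun ε hε hlt s hs => ?_⟩
  calc bandX Φ f₀ ε K₁ K s ≤ ∑ P ∈ bandT K₁ K, JX Φ f₀ ε P tw T' + ENNReal.ofReal (δ / 2) :=
        h1 ε hε (hlt.trans_le (min_le_left _ _)) s hs
    _ ≤ ENNReal.ofReal (r ^ K₁ * C + δ / 2) + ENNReal.ofReal (δ / 2) := by
        gcongr
        exact h2 ε hε (hlt.trans_le (min_le_right _ _))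
    _ = ENNReal.ofReal (r ^ K₁ * C + δ) := by
        rw [← ENNReal.ofReal_add (by positivity) (by positivity)]
        congr 1
        ring

/-- the size band with any lower size `k₁ K → ∞` is small, uniformly in `s ∈ [tw, te]` -/
theorem SXB.small {r C : ℝ} (hr : 0 < r) (hr1 : r < 1) (h : SXB Φ f₀ r C tw te)
    {k₁ k₂ : ℕ → ℕ} (hk : Tendsto k₁ atTop atTop) :
    Small fun K ε => ⨆ s ∈ Icc tw te, bandX Φ f₀ ε (k₁ K) (k₂ K) s := by
  intro δ hδ
  have h1 : Tendsto (fun K : ℕ => r ^ (k₁ K) * C) atTop (𝓝 0) := by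
    have := ((tendsto_pow_atTop_nhds_zero_of_lt_one hr.le hr1).comp hk).mul_const C
    simpa using this
  obtain ⟨K₀, hK₀⟩ := eventually_atTop.1 (h1.eventually (gt_mem_nhds (half_pos hδ)))
  refine ⟨K₀, fun K hK => ?_⟩
  obtain ⟨ε₀, hε₀, h2⟩ := h (k₁ K) (k₂ K) (δ / 2) (half_pos hδ)
  refine ⟨ε₀, hε₀, fun ε h3 h4 => iSup₂_le fun s hs => (h2 ε h3 h4 s hs).trans
    (ENNReal.ofReal_le_ofReal ?_)⟩
  have h5 : r ^ k₁ K * C < δ / 2 := hK₀ K hK
  linarith



end Crest.Agent.R122.SizeX974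
end
end

-- ▼ part R122/NEK_602
section

/-!
# Row 122: first-moment no escape at the end of the window (helper602)

* `escMass_le_JE`, `NE_of_JS` : energy-weighted no escape gives no escape of mass.
* `bandMass_le_bandX` : band mass against the weighted band mass of `SizeX2_974`.
* `nek_of_sxb` : `NEK` at every time of the window from `JS` and the geometric bound `SXB`
  (which only uses the identification at the beginning of the window).
-/

set_option autoImplicit false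

open MeasureTheory Set Filter
open scoped ENNReal Topology Classical
open Crest.AnalysisR.Kinetic Crest.Agent.R122.GC311 Crest.Agent.R122.Causal291
  Crest.Agent.R122.Master566 Crest.Agent.R122.EDefs602 Crest.Agent.R122.SizeX974
  Crest.Agent.R122.NEK370 Crest.Agent.R122.EW370 Crest.Agent.R122.Energy410

noncomputable section

namespace Crest.Agent.R122.NEK602

variable {Φ : Space3 → ℝ} {β T : ℝ} {f₀ : PhasePoint → ℝ} {f : ℝ → PhasePoint → ℝ} {ε : ℝ}
  {K : ℕ} {t : ℝ}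

/-- The escaping mass is bounded by the energy of the escaping family. -/
theorem escMass_le_JE (hΦ : AdmissiblePotential Φ) (hε : 0 < ε) (ht : 0 ≤ t) :
    escMass Φ f₀ ε K t ≤ JE Φ f₀ ε K t := by
  rw [Unw410.JE_eq]
  unfold escMass
  refine gcE_mono f₀ ε fun n Z hZ => ?_
  refine mul_le_mul_right ?_ _
  have hfar : ∀ i j : Fin n, i ≠ j → ε ≤ dist (Z i).1 (Z j).1 := fun i j hij =>
    (hZ i j hij).le
  have h1 := speed_le_Jeng hΦ hε hfar ht (bad Φ ε K Z t)
  have h2 : ((Finset.univ.filter fun i : Fin n => K < (bc Φ ε Z t i).ncard).card : ℝ) ≤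
      ∑ i ∈ bad Φ ε K Z t, (1 + ‖(Flow671.flow Φ ε t Z i).2‖) := by
    calc ((Finset.univ.filter fun i : Fin n => K < (bc Φ ε Z t i).ncard).card : ℝ)
        = ∑ _i ∈ bad Φ ε K Z t, (1 : ℝ) := by
          rw [Finset.sum_const, nsmul_eq_mul, mul_one]
          rfl
      _ ≤ _ := Finset.sum_le_sum fun i _ => by
          have := norm_nonneg (Flow671.flow Φ ε t Z i).2
          linarith
  calc ((Finset.univ.filter fun i : Fin n => K < (bc Φ ε Z t i).ncard).card : ℝ≥0∞)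
      = ENNReal.ofReal
        ((Finset.univ.filter fun i : Fin n => K < (bc Φ ε Z t i).ncard).card : ℝ) := by
        rw [ENNReal.ofReal_natCast]
    _ ≤ _ := ENNReal.ofReal_le_ofReal (h2.trans h1)

/-- Energy-weighted no escape gives no escape of mass. -/
theorem NE_of_JS (hΦ : AdmissiblePotential Φ) (ht : 0 ≤ t) (h : JS Φ f₀ t) : NE Φ f₀ t := by
  intro δ hδ
  obtain ⟨K₀, hK₀⟩ := h δ hδ
  obtain ⟨ε₀, hε₀, h1⟩ := hK₀ K₀ le_rfl
  exact ⟨K₀, ε₀, hε₀, fun ε hε hlt => (escMass_le_JE hΦ hε ht).trans (h1 ε hε hlt)⟩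

/-- The band mass is at most the weighted band mass. -/
theorem bandMass_le_bandX (ht : 0 ≤ t) (K₁ K : ℕ) :
    bandMass Φ f₀ ε K₁ K t ≤ bandX Φ f₀ ε K₁ K t := by
  unfold bandMass sizeMass bandX
  refine gcE_mono f₀ ε fun n Z _ => ?_
  refine mul_le_mul_right ?_ _
  rw [cnt_eq]
  refine Finset.sum_le_sum fun i _ => ?_
  have hcard : (bc Φ ε Z t i).toFinset.card = (bc Φ ε Z t i).ncard := by
    rw [Set.ncard_eq_toFinset_card']
  by_cases h : (bc Φ ε Z t i).ncard ∈ Ioc K₁ K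
  · rw [indicator_of_mem h, if_pos (by rw [hcard]; exact h)]
    refine InEq2U263.one_le_eW Z (q := i) ?_
    rw [Set.mem_toFinset]
    exact root_mem_BC ht
  · rw [indicator_of_notMem h]
    exact zero_le

/-- The geometric band bound at a time of the window. -/
theorem band_of_sxb {r C tw te : ℝ} (h0 : 0 ≤ tw) (h : SXB Φ f₀ r C tw te) {s : ℝ}
    (hs : s ∈ Icc tw te) : Band Φ f₀ s fun K => r ^ K * C := by
  intro K₁ K δ hδ
  obtain ⟨ε₀, hε₀, h1⟩ := h K₁ K δ hδ
  exact ⟨ε₀, hε₀, fun ε hε hlt =>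
    (bandMass_le_bandX (h0.trans hs.1) K₁ K).trans (h1 ε hε hlt s hs)⟩

/-- **`NEK` at the times of the window.** -/
theorem nek_of_sxb (hΦ : AdmissiblePotential Φ) (hf : Measurable f₀) {r C tw te : ℝ} (hr : 0 < r)
    (hr1 : r < 1) (hC : 0 ≤ C) (h0 : 0 ≤ tw) (h : SXB Φ f₀ r C tw te) {s : ℝ}
    (hs : s ∈ Icc tw te) (hJ : JS Φ f₀ s) : NEK Φ f₀ s :=
  NEK_of_geometric hΦ hf (NE_of_JS hΦ (h0.trans hs.1) hJ) hr.le hr1 hC (band_of_sxb h0 h hs)

/-- **`NEK` at the end of the window from the inputs `NGC` (D5) and `RGC` (H12).** -/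
theorem exists_nek (hD : KData Φ β T f₀ f) :
    ∃ h₀ : ℝ, 0 < h₀ ∧ ∀ tw ∈ Icc 0 T, ∀ te T' : ℝ, tw ≤ te → te ≤ T' → T' ≤ tw + h₀ →
      GIV566.GIV Φ f₀ f T tw → NGC Φ f₀ te T' → RGC Φ f₀ tw te T' → Top602.JSup Φ f₀ te →
        NEK Φ f₀ te := by
  obtain ⟨h₀, r, C, hh₀, hr, hr1, hC, h⟩ := exists_bandX hD
  refine ⟨h₀, hh₀, fun tw htw te T' h1 h2 h3 hG hN hR hJ => ?_⟩
  have hte : 0 ≤ te := htw.1.trans h1
  refine nek_of_sxb hD.adm hD.contDiff.continuous.measurable hr hr1 hC htw.1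
    (h tw htw te T' ⟨hte.trans h2, h3⟩ hG hN hR) (right_mem_Icc.2 h1) ?_
  exact Small.mono hJ fun _ _ _ =>
    le_iSup₂_of_le (f := fun (s : ℝ) (_ : s ∈ Icc 0 te) => JE Φ f₀ _ _ s) te
      ⟨hte, le_rfl⟩ le_rfl

end Crest.Agent.R122.NEK602
end
end

-- ▼ part R122/HitBad_167
section

/-!
# The bad first hits (row 122, helper167)

`lintegral_badR_le`: the translation average of the probability of a bad first hit (hitter whose
backward cluster is not `K`-good) is at most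
`|α| kap (ε + 7 ε² ∫ ds E ∑_i 1[not GoodD K i s] (M + |v_i(s)|))`.
-/

set_option autoImplicit false

open Set Filter Topology MeasureTheory
open scoped Classical ENNReal NNReal
open Crest.AnalysisR.Kinetic

namespace Crest.Agent.R122.Hit167

open Causal291 Flow671 Loc45 GC311 Vol365

section dict

variable {β ι : Type} [Finite β] [Finite ι]
variable {z : ℝ → ι → PhasePoint} {zB : ℝ → β → PhasePoint} {f : β → ι}
variable {ε T : ℝ} {j : β} {σ : ℝ}

/-- Real family in the isolated world versus isolated family in the real world. -/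
theorem full_iff (hzB : ∀ j, ContinuousOn (fun s => zB s j) (Icc 0 T))
    (hz : ∀ j, ContinuousOn (fun s => z s j) (Icc 0 T))
    (hloc : LocUniq ε T zB z) (hf : Function.Injective f) (h0 : ∀ i, zB 0 i = z 0 (f i))
    (hσpos : 0 < σ) (hσT : σ ≤ T) :
    (preAct z ε (f j) σ 0 = range f ∧ Iso zB ε (fun s => f ⁻¹' preAct z ε (f j) σ s) σ) ↔
      (preAct zB ε j σ 0 = univ ∧ Iso z ε (fun s => f '' preAct zB ε j σ s) σ) := by
  constructor
  · rintro ⟨hfull, hI⟩
    have hsub : ∀ s ∈ Ico 0 σ, preAct z ε (f j) σ s ⊆ range f := by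
      intro s hs
      rw [← hfull]
      exact preAct_anti 0 s le_rfl hs.1 hs.2.le
    have himg : ∀ s ∈ Ico 0 σ, f '' (f ⁻¹' preAct z ε (f j) σ s) = preAct z ε (f j) σ s :=
      fun s hs => image_preimage_eq_of_subset (hsub s hs)
    have hI2 : Iso z ε (fun s => f '' (f ⁻¹' preAct z ε (f j) σ s)) σ :=
      iso_preAct.congr fun s hs => (himg s hs).symm
    have hanti : Anti (fun s => f ⁻¹' preAct z ε (f j) σ s) σ :=
      fun s s' h0 h1 h2 => preimage_mono (preAct_anti s s' h0 h1 h2)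
    have hag : ∀ s ∈ Icc 0 σ, ∀ k ∈ f ⁻¹' preAct z ε (f j) σ s, zB s k = z s (f k) :=
      Iso.agree hzB hz hloc hf hσT hanti (fun k _ => h0 k) hI hI2
    have hj : ∀ s ∈ Ico 0 σ, j ∈ f ⁻¹' preAct z ε (f j) σ s := fun s hs =>
      mem_preAct_self (j := f j) hs.2
    have hpre : ∀ s ∈ Ico 0 σ, preAct zB ε j σ s = f ⁻¹' preAct z ε (f j) σ s := by
      intro s hs
      have h1 : preAct z ε (f j) σ s = f '' preAct zB ε j σ s :=
        preAct_eq hf hanti hI hI2 hag le_rfl hj hs.1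
      rw [h1, preimage_image_eq _ hf]
    refine ⟨?_, ?_⟩
    · rw [hpre 0 ⟨le_rfl, hσpos⟩, hfull, preimage_range]
    · refine (iso_preAct (z := z) (j := f j)).congr fun s hs => ?_
      rw [hpre s hs, himg s hs]
  · rintro ⟨hfull, hI⟩
    have hag : ∀ s ∈ Icc 0 σ, ∀ k ∈ preAct zB ε j σ s, zB s k = z s (f k) :=
      Iso.agree hzB hz hloc hf hσT preAct_anti (fun k _ => h0 k) iso_preAct hI
    have hj : ∀ s ∈ Ico 0 σ, j ∈ preAct zB ε j σ s := fun s hs => mem_preAct_self hs.2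
    have hpre : ∀ s ∈ Ico 0 σ, preAct z ε (f j) σ s = f '' preAct zB ε j σ s := by
      intro s hs
      exact preAct_eq hf preAct_anti iso_preAct hI hag le_rfl hj hs.1
    have hpre' : ∀ s ∈ Ico 0 σ, preAct zB ε j σ s = f ⁻¹' preAct z ε (f j) σ s := by
      intro s hs
      rw [hpre s hs, preimage_image_eq _ hf]
    refine ⟨?_, (iso_preAct (z := zB) (j := j)).congr hpre'⟩
    rw [hpre 0 ⟨le_rfl, hσpos⟩, hfull, image_univ]

end dict

section defs

variable (Φ : Space3 → ℝ) (ε : ℝ) (𝒢 : Cls)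

/-- `GoodR` in the coordinates cluster / real world (measurable form). -/
def GoodD (K : ℕ) {n : ℕ} (Z : Config n) (i : Fin n) (σ : ℝ) : Prop :=
  ∃ (k : ℕ) (f : Fin k ↪ Fin n) (j : Fin k), k ≤ K ∧ f j = i ∧
    preAct (pth Φ ε (fun l => Z (f l))) ε j σ 0 = univ ∧
    Iso (pth Φ ε Z) ε (fun s => f '' fam (tauPre (pth Φ ε fun l => Z (f l)) ε j σ) s) σ ∧
    AloneAt (pth Φ ε (fun l => Z (f l))) ε j σ ∧ 𝒢 k (fun l => Z (f l)) j σ

end defs

section main

variable {f₀ : PhasePoint → ℝ} {Φ : Space3 → ℝ} {ε : ℝ} {α : Type}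
  {c : α → ℝ → Space3} {θ : α → ℝ} {𝒢 : Cls} {t₀ t : ℝ}

theorem goodR_iff_goodD (hΦ : AdmissiblePotential Φ) (hε : 0 < ε) {K n : ℕ} {Z : Config n}
    (hZ : Z ∈ Dom Φ (Fin n)) {i : Fin n} {σ : ℝ} (hσ : 0 < σ) :
    GoodR Φ ε 𝒢 K Z i σ ↔ GoodD Φ ε 𝒢 K Z i σ := by
  have key : ∀ (k : ℕ) (f : Fin k ↪ Fin n) (j : Fin k), f j = i →
      AloneAt (pth Φ ε (fun l => Z (f l))) ε j σ →
      ((preAct (pth Φ ε Z) ε i σ 0 = range f ∧
        Iso (pth Φ ε (fun l => Z (f l))) ε (fun s => f ⁻¹' preAct (pth Φ ε Z) ε i σ s) σ) ↔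
      (preAct (pth Φ ε (fun l => Z (f l))) ε j σ 0 = univ ∧
        Iso (pth Φ ε Z) ε (fun s => f '' fam (tauPre (pth Φ ε fun l => Z (f l)) ε j σ) s) σ)) := by
    intro k f j hj hal
    subst hj
    have hZf : (fun l => Z (f l)) ∈ Dom Φ (Fin k) := Dom_comp f hZ
    have hzB : ∀ l, Continuous fun s => pth Φ ε (fun l => Z (f l)) s l := continuous_pth hΦ hε _
    have hz : ∀ l, Continuous fun s => pth Φ ε Z s l := continuous_pth hΦ hε _
    have h0 : ∀ l, pth Φ ε (fun l => Z (f l)) 0 l = pth Φ ε Z 0 (f l) := by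
      intro l
      simp only [pth]
      rw [flow_zero hΦ hε, flow_zero hΦ hε]
    have h1 := full_iff (j := j) (σ := σ) (T := σ) (fun l => (hzB l).continuousOn)
      (fun l => (hz l).continuousOn) (locUniq_pth hΦ hε σ hZf hZ) f.injective h0 hσ le_rfl
    rw [h1]
    constructor
    · rintro ⟨ha, hb⟩
      refine ⟨ha, hb.congr fun s hs => ?_⟩
      rw [preAct_eq_fam hzB hσ ha hal hs]
    · rintro ⟨ha, hb⟩
      refine ⟨ha, hb.congr fun s hs => ?_⟩
      rw [preAct_eq_fam hzB hσ ha hal hs]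
  constructor
  · rintro ⟨k, f, j, hk, hj, h1, h2, h3, h4⟩
    obtain ⟨h5, h6⟩ := (key k f j hj h3).1 ⟨h1, h2⟩
    exact ⟨k, f, j, hk, hj, h5, h6, h3, h4⟩
  · rintro ⟨k, f, j, hk, hj, h1, h2, h3, h4⟩
    obtain ⟨h5, h6⟩ := (key k f j hj h3).2 ⟨h1, h2⟩
    exact ⟨k, f, j, hk, hj, h5, h6, h3, h4⟩

theorem measurableSet_goodD (hΦ : AdmissiblePotential Φ) (hε : 0 < ε) (h𝒢 : 𝒢.Meas) (K n : ℕ)
    (i : Fin n) : MeasurableSet {p : Config n × ℝ | GoodD Φ ε 𝒢 K p.1 i p.2} := by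
  have key : {p : Config n × ℝ | GoodD Φ ε 𝒢 K p.1 i p.2} =
      ⋃ k : ℕ, ⋃ f : Fin k ↪ Fin n, ⋃ j : Fin k, ({_p : Config n × ℝ | k ≤ K ∧ f j = i} ∩
        ((⋂ l : Fin k, {p : Config n × ℝ |
            l ∈ preAct (pth Φ ε (fun l => p.1 (f l))) ε j p.2 0}) ∩
        ({p : Config n × ℝ | Iso (pth Φ ε p.1) ε
          (fun s => f '' fam (tauPre (pth Φ ε fun l => p.1 (f l)) ε j p.2) s) p.2} ∩
        ({p : Config n × ℝ | AloneAt (pth Φ ε (fun l => p.1 (f l))) ε j p.2} ∩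
          {p : Config n × ℝ | 𝒢 k (fun l => p.1 (f l)) j p.2})))) := by
    ext p
    simp only [GoodD, mem_iUnion, mem_inter_iff, mem_iInter, mem_ofPred_eq]
    constructor
    · rintro ⟨k, f, j, hk, hj, h1, h2, h3, h4⟩
      exact ⟨k, f, j, ⟨hk, hj⟩, fun l => by rw [h1]; exact mem_univ l, h2, h3, h4⟩
    · rintro ⟨k, f, j, ⟨hk, hj⟩, h1, h2, h3, h4⟩
      exact ⟨k, f, j, hk, hj, eq_univ_of_forall h1, h2, h3, h4⟩
  rw [key]
  refine MeasurableSet.iUnion fun k => MeasurableSet.iUnion fun f => MeasurableSet.iUnion fun j => ?_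
  have hXf : Measurable fun p : Config n × ℝ => (fun l => p.1 (f l) : Config k) :=
    measurable_pi_iff.2 fun l => (measurable_pi_apply (f l)).comp measurable_fst
  have hx : ∀ (p : Config n × ℝ) l, Continuous fun s => pth Φ ε p.1 s l :=
    fun p => continuous_pth hΦ hε _
  have hm : ∀ s l, Measurable fun p : Config n × ℝ => pth Φ ε p.1 s l :=
    fun s l => (measurable_pth_id hΦ hε s l).comp measurable_fst
  have hx' : ∀ (p : Config n × ℝ) l, Continuous fun s => pth Φ ε (fun l => p.1 (f l)) s l :=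
    fun p => continuous_pth hΦ hε _
  have hm' : ∀ s l, Measurable fun p : Config n × ℝ => pth Φ ε (fun l => p.1 (f l)) s l :=
    fun s l => (measurable_pth_id hΦ hε s l).comp hXf
  refine (MeasurableSet.const _).inter ((MeasurableSet.iInter fun l =>
    measurableSet_preAct hx' hm' j l measurable_snd measurable_const).inter
    ((measurableSet_iso_fam hx hm f.injective
      (fun b => measurable_tauPre hx' hm' j b measurable_snd) measurable_snd).inter
    ((measurableSet_aloneAt hx' hm' measurable_snd j).inter ?_)))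
  exact (hXf.prodMk measurable_snd) (h𝒢 k j)

/-- Hit at time `0`. -/
def Hit0 (ε : ℝ) (c : α → ℝ → Space3) {n : ℕ} (Z : Config n) : Prop :=
  ∃ a i, dist (c a 0) (Z i).1 ≤ ε

theorem BadR.cases (hΦ : AdmissiblePotential Φ) (hε : 0 < ε) (ht₀ : 0 ≤ t₀) {K n : ℕ}
    {Z : Config n} (hZ : Z ∈ PairExcluded ε n) (h : BadR Φ ε c θ 𝒢 t₀ t K Z) :
    Hit0 ε c Z ∨ QHit Φ ε c θ t₀ t (fun Z i s => ¬ GoodD Φ ε 𝒢 K Z i s) Z := by
  obtain ⟨σ, hσ, hU, i, hi, hg⟩ := h
  rcases (ht₀.trans hσ.1).lt_or_eq with h1 | h1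
  · refine Or.inr ⟨σ, hσ, h1, hU, i, hi, ?_⟩
    rwa [goodR_iff_goodD hΦ hε (pairExcluded_subset_Dom hε n hZ) h1] at hg
  · left
    obtain ⟨a, ha, hd⟩ := hi
    rw [← h1] at hd
    refine ⟨a, i, ?_⟩
    simpa only [pth, flow_zero hΦ hε] using hd

variable [Fintype α]

/-- Translation average of the hits at time `0`. -/
theorem lintegral_hit0_le (hf : Measurable f₀) (h1 : ∫⁻ z, ENNReal.ofReal (f₀ z) ≤ 1)
    (hε : 0 < ε) :
    ∫⁻ x : Space3, gcE f₀ ε (fun _ Z => ind (Hit0 ε (shiftC c x) Z)) ≤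
      Fintype.card α * (ENNReal.ofReal ε * kap) := by
  set F : (n : ℕ) → Space3 → Config n → ℝ≥0∞ := fun n x Z =>
    ∑ a : α, ∑ i : Fin n, ind (x ∈ Metric.closedBall ((Z i).1 - c a 0) ε) with hF
  have hFm : ∀ n, Measurable (Function.uncurry (F n)) := by
    intro n
    refine Finset.measurable_sum _ fun a _ => Finset.measurable_sum _ fun i _ => measurable_ind ?_
    have : {p : Space3 × Config n | p.1 ∈ Metric.closedBall ((p.2 i).1 - c a 0) ε} =
        {p : Space3 × Config n | dist p.1 ((p.2 i).1 - c a 0) ≤ ε} := rfl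
    rw [this]
    exact (isClosed_le (by fun_prop) continuous_const).measurableSet
  have h2 : ∀ x : Space3, gcE f₀ ε (fun _ Z => ind (Hit0 ε (shiftC c x) Z)) ≤
      gcE f₀ ε (fun n Z => F n x Z) := by
    intro x
    refine gcE_mono f₀ ε fun n Z _ => ?_
    by_cases h : Hit0 ε (shiftC c x) Z
    · obtain ⟨a, i, hd⟩ := h
      have hx : x ∈ Metric.closedBall ((Z i).1 - c a 0) ε := by
        rw [Metric.mem_closedBall, dist_eq_norm]
        unfold shiftC at hd
        rw [dist_eq_norm] at hd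
        convert hd using 2
        abel
      have h3 : ind (x ∈ Metric.closedBall ((Z i).1 - c a 0) ε) ≤
          ∑ i : Fin n, ind (x ∈ Metric.closedBall ((Z i).1 - c a 0) ε) :=
        Finset.single_le_sum (f := fun i : Fin n => ind (x ∈ Metric.closedBall
          ((Z i).1 - c a 0) ε)) (fun _ _ => zero_le) (Finset.mem_univ i)
      have h4 : ∑ i : Fin n, ind (x ∈ Metric.closedBall ((Z i).1 - c a 0) ε) ≤ F n x Z :=
        Finset.single_le_sum (f := fun a : α => ∑ i : Fin n,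
          ind (x ∈ Metric.closedBall ((Z i).1 - c a 0) ε)) (fun _ _ => zero_le)
          (Finset.mem_univ a)
      rw [ind_true hx] at h3
      exact (ind_le_one _).trans (h3.trans h4)
    · rw [ind_false h]; exact zero_le
  have h3 : ∀ n (Z : Config n), ∫⁻ x : Space3, F n x Z =
      Fintype.card α * (ENNReal.ofReal ε ^ 3 * kap) * ∑ _i : Fin n, 1 := by
    intro n Z
    have hmi : ∀ (a : α) (i : Fin n), Measurable fun x : Space3 =>
        ind (x ∈ Metric.closedBall ((Z i).1 - c a 0) ε) := fun a i =>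
      measurable_ind (p := fun x : Space3 => x ∈ Metric.closedBall ((Z i).1 - c a 0) ε)
        Metric.isClosed_closedBall.measurableSet
    simp only [hF]
    rw [lintegral_finsetSum _ fun a _ => Finset.measurable_sum _ fun i _ => hmi a i]
    have h5 : ∀ a : α, ∫⁻ x : Space3, ∑ i : Fin n,
        ind (x ∈ Metric.closedBall ((Z i).1 - c a 0) ε) = ∑ _i : Fin n,
          (ENNReal.ofReal ε ^ 3 * kap) := by
      intro a
      rw [lintegral_finsetSum _ fun i _ => hmi a i]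
      refine Finset.sum_congr rfl fun i _ => ?_
      rw [lintegral_ind_mem _ Metric.isClosed_closedBall.measurableSet,
        Vol365.vol_closedBall _ hε.le]
    simp only [h5, Finset.sum_const, Finset.card_univ, nsmul_eq_mul, Fintype.card_fin]
    ring
  have h6 : gcE f₀ ε (fun n _ => ∑ _i : Fin n, (1 : ℝ≥0∞)) ≤ activity ε := by
    have := gcE_sum_le hf h1 ε (fun _ => 1) measurable_const
    refine this.trans ?_
    simp only [mul_one]
    exact mul_le_of_le_one_right' h1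
  calc ∫⁻ x : Space3, gcE f₀ ε (fun _ Z => ind (Hit0 ε (shiftC c x) Z))
      ≤ ∫⁻ x : Space3, gcE f₀ ε (fun n Z => F n x Z) := lintegral_mono h2
    _ = gcE f₀ ε (fun n Z => ∫⁻ x : Space3, F n x Z) := BadHit370.lintegral_gcE hf ε volume hFm
    _ = gcE f₀ ε (fun n Z => Fintype.card α * (ENNReal.ofReal ε ^ 3 * kap) *
          ∑ _i : Fin n, 1) := gcE_congr f₀ ε fun n Z _ => h3 n Z
    _ = Fintype.card α * (ENNReal.ofReal ε ^ 3 * kap) *
          gcE f₀ ε (fun n _ => ∑ _i : Fin n, (1 : ℝ≥0∞)) := by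
        refine gcE_const_mul f₀ ε ?_ _
        exact ENNReal.mul_ne_top (ENNReal.natCast_ne_top _)
          (ENNReal.mul_ne_top (ENNReal.pow_ne_top ENNReal.ofReal_ne_top) kap_ne_top)
    _ ≤ Fintype.card α * (ENNReal.ofReal ε ^ 3 * kap) * activity ε := mul_le_mul_right h6 _
    _ = Fintype.card α * (ENNReal.ofReal ε * kap) := by
        have h7 : ENNReal.ofReal ε ^ 2 * activity ε = 1 := by
          rw [← BadHit370.inv_activity_eq hε]
          exact ENNReal.inv_mul_cancel (activity_ne_zero hε) (activity_ne_top ε)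
        calc (Fintype.card α : ℝ≥0∞) * (ENNReal.ofReal ε ^ 3 * kap) * activity ε
            = Fintype.card α * (ENNReal.ofReal ε * kap) * (ENNReal.ofReal ε ^ 2 * activity ε) := by
              ring
          _ = _ := by rw [h7, mul_one]

theorem measurable_gcE_hit0 (hf : Measurable f₀) :
    Measurable fun x : Space3 => gcE f₀ ε (fun _ Z => ind (Hit0 ε (shiftC c x) Z)) := by
  refine BadHit370.measurable_gcE_param hf ε (F := fun n x Z => ind (Hit0 ε (shiftC c x) Z))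
    fun n => measurable_ind (p := fun p : Space3 × Config n => Hit0 ε (shiftC c p.1) p.2) ?_
  have : {p : Space3 × Config n | Hit0 ε (shiftC c p.1) p.2} =
      ⋃ a : α, ⋃ i : Fin n, {p : Space3 × Config n | dist (c a 0 + p.1) (p.2 i).1 ≤ ε} := by
    ext p
    simp only [Hit0, shiftC, mem_iUnion, mem_ofPred_eq]
  rw [this]
  exact MeasurableSet.iUnion fun a => MeasurableSet.iUnion fun i =>
    (isClosed_le (by fun_prop) continuous_const).measurableSet

theorem gcE_badR_le (hf : Measurable f₀) (hΦ : AdmissiblePotential Φ) (hε : 0 < ε)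
    (ht₀ : 0 ≤ t₀) (K : ℕ) (x : Space3) :
    gcE f₀ ε (fun _ Z => ind (BadR Φ ε (shiftC c x) θ 𝒢 t₀ t K Z)) ≤
      gcE f₀ ε (fun _ Z => ind (Hit0 ε (shiftC c x) Z)) +
      gcE f₀ ε (fun n Z => majQ Φ ε c t₀ t
        (fun (Z : Config n) i s => ¬ GoodD Φ ε 𝒢 K Z i s) x Z) := by
  have hm0 : ∀ n, Measurable fun Z : Config n => ind (Hit0 ε (shiftC c x) Z) := by
    intro n
    refine measurable_ind ?_
    have : {Z : Config n | Hit0 ε (shiftC c x) Z} =
        ⋃ a : α, ⋃ i : Fin n, {Z : Config n | dist (shiftC c x a 0) (Z i).1 ≤ ε} := by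
      ext Z
      simp only [Hit0, mem_iUnion, mem_ofPred_eq]
    rw [this]
    exact MeasurableSet.iUnion fun a => MeasurableSet.iUnion fun i =>
      (isClosed_le (by fun_prop) continuous_const).measurableSet
  rw [← gcE_add hf ε hm0]
  refine gcE_mono f₀ ε fun n Z hZ => ?_
  by_cases h : BadR Φ ε (shiftC c x) θ 𝒢 t₀ t K Z
  · rw [ind_true h]
    rcases h.cases hΦ hε ht₀ hZ with h5 | h5
    · rw [ind_true h5]; exact le_self_add
    · have h6 := ind_qHit_le (fun (Z : Config n) i s => ¬ GoodD Φ ε 𝒢 K Z i s) x Z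
        (Φ := Φ) (ε := ε) (c := c) (θ := θ) (t₀ := t₀) (t := t)
      rw [ind_true h5] at h6
      exact h6.trans le_add_self
  · rw [ind_false h]; exact zero_le

/-- **Bad first hits, majorant form.** -/
theorem exists_badR_maj (hf : Measurable f₀) (h1 : ∫⁻ z, ENNReal.ofReal (f₀ z) ≤ 1)
    (hΦ : AdmissiblePotential Φ) (hε : 0 < ε) (hc : ∀ a, Continuous (c a)) {M : ℝ≥0}
    (hcM : ∀ a, LipschitzOnWith M (c a) (Icc 0 t)) (h𝒢 : 𝒢.Meas) (ht₀ : 0 ≤ t₀) (K : ℕ) :
    ∃ maj : Space3 → ℝ≥0∞, Measurable maj ∧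
      (∀ x, gcE f₀ ε (fun _ Z => ind (BadR Φ ε (shiftC c x) θ 𝒢 t₀ t K Z)) ≤ maj x) ∧
      ∫⁻ x, maj x ≤ Fintype.card α * (ENNReal.ofReal ε * kap) +
        ENNReal.ofReal (7 * ε ^ 2) * kap * Fintype.card α *
          ∫⁻ s in Ioo t₀ t, gcE f₀ ε (fun _ Z =>
            ∑ i, ind (¬ GoodD Φ ε 𝒢 K Z i s) * spdW Φ ε M Z i s) := by
  have hQ : ∀ n i, MeasurableSet {p : Config n × ℝ | ¬ GoodD Φ ε 𝒢 K p.1 i p.2} :=
    fun n i => (measurableSet_goodD hΦ hε h𝒢 K n i).compl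
  refine ⟨_, (measurable_gcE_hit0 (c := c) hf).add (measurable_gcE_majQ (t₀ := t₀) (t := t)
    (Q := fun _ Z i s => ¬ GoodD Φ ε 𝒢 K Z i s) hf hΦ hε hc hQ),
    fun x => gcE_badR_le hf hΦ hε ht₀ K x, ?_⟩
  have h2 := lintegral_hit0_le (c := c) hf h1 hε
  have h3 := lintegral_gcE_majQ_le (t₀ := t₀) (t := t) hf hΦ hε hc hcM
    (Q := fun _ Z i s => ¬ GoodD Φ ε 𝒢 K Z i s) hQ ht₀
  simp only [Pi.add_apply]
  rw [lintegral_add_left (measurable_gcE_hit0 (c := c) hf)]
  exact add_le_add h2 h3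


end main

end Crest.Agent.R122.Hit167
end

-- ▼ part R122/GoodBad_167
section

/-!
# Real trees are good hitters; `BadSmall` (row 122, helper167)

* `goodR_of_realTree` : a real history which is a tree (`RealTree_674`) gives `GoodR`.
* `NGq` : real clusters of bounded size which are not trees have small mass (input, D5).
* `badSmall_of` : `NEK`, `NGq` imply `BadSmall` of `IStep3_317`.
-/

set_option autoImplicit false

open Set Filter Topology MeasureTheory
open scoped Classical ENNReal NNReal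
open Crest.AnalysisR.Kinetic

namespace Crest.Agent.R122.Hit167

open Causal291 Flow671 Loc45 GC311 Vol365 Kin796 Kin796.CTree Tree674 PathFlow968 TreeHit317
  Relabel674 RealTree674 Master566

section det

variable {Φ : Space3 → ℝ} {ε : ℝ}

/-- Explorations with a closed quiet interval. -/
theorem past_of_quiet_closed {ι : Type*} {z : ℝ → ι → PhasePoint} {j : ι} {r s u : ℝ} {k : ι}
    (hq : ∀ u ∈ Icc r s, ∀ i, i ≠ j → ¬ Ct z ε u j i) (h : Past (Ct z ε) s j u k) :
    (u ≤ r → Past (Ct z ε) r j u k) ∧ (r < u → k = j) := by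
  induction h with
  | root h => exact ⟨fun hs => .root hs, fun _ => rfl⟩
  | @step s' u l k hp hc hsu ih =>
    have hu : u ≤ s := hp.le
    rcases le_or_gt u r with hur | hur
    · exact ⟨fun _ => .step (ih.1 hur) hc hsu, fun hrs => absurd (hsu.trans hur) (not_le.2 hrs)⟩
    · have hl : l = j := ih.2 hur
      subst hl
      have hk : k = l := by
        by_contra hne
        exact hq u ⟨hur.le, hu⟩ k hne hc
      subst hk
      exact ⟨fun hs => .root hs, fun _ => rfl⟩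

variable {κ : Type} [Fintype κ] {Z : κ → PhasePoint} {i : κ} {P : CTree} {ℓ : PhasePoint}
  {p : Par P} {e : Idx P → κ} {s : ℝ}

/-- Before the final time the root of a real tree is quiet. -/
theorem exists_quiet_realTree (hε : 0 < ε) (hs : 0 < s) (h : RealTree Φ ε s Z i P ℓ p e) :
    ∃ r ∈ Ioo 0 s, ∀ u ∈ Icc r s, ∀ j, j ≠ i → ¬ Ct (pth Φ ε Z) ε u i j := by
  obtain ⟨r, hr, hv⟩ := exists_earlier h.valid hs
  refine ⟨(r + s) / 2, ⟨by linarith [hr.1, hr.2], by linarith [hr.2]⟩, fun u hu j hj hc => ?_⟩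
  have hru : r < u := by linarith [hr.2, hu.1]
  have hu0 : 0 ≤ u := (hr.1.trans hru).le
  have h1 : Past (Ct (pth Φ ε Z) ε) s i u i := .root hu.2
  obtain ⟨m, hm, hm2⟩ := (h.past u ⟨hu0, hu.2⟩ j).1 (h1.contact hc)
  by_cases hmr : m = Tree674.root P
  · subst hmr
    rw [h.root] at hm
    exact hj hm.symm
  · have h2 : prot P s p m ≤ r := by
      rw [PathFlow968.prot_eq_of_ne P s r p hmr]
      exact PathFlow968.prot_le hε.le P r ℓ.2 p hv.2 m
    linarith

/-- The exploration of `(i, s⁻)` in a real tree. -/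
theorem mem_preAct_realTree (hε : 0 < ε) (hs : 0 < s) (h : RealTree Φ ε s Z i P ℓ p e) {u : ℝ}
    (hu : u ∈ Ico 0 s) {k : κ} :
    k ∈ preAct (pth Φ ε Z) ε i s u ↔ ∃ m, e m = k ∧ u ≤ prot P s p m := by
  constructor
  · rintro ⟨s', hs', hp⟩
    exact (h.past u ⟨hu.1, hu.2.le⟩ k).1 (Past.extend hs'.2.le hp)
  · intro hk
    have hp := (h.past u ⟨hu.1, hu.2.le⟩ k).2 hk
    obtain ⟨r, hr, hq⟩ := exists_quiet_realTree hε hs h
    obtain ⟨h1, h2⟩ := past_of_quiet_closed hq hp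
    rcases le_or_gt u r with hur | hur
    · exact ⟨r, ⟨hur, hr.2⟩, h1 hur⟩
    · rw [h2 hur]
      exact mem_preAct_self hu.2

/-- **Real trees are good.** -/
theorem goodR_of_realTree {n : ℕ} {Z : Config n} {i : Fin n} {e : Idx P → Fin n}
    (hΦ : AdmissiblePotential Φ) (hε : 0 < ε) (hs : 0 < s) (h : RealTree Φ ε s Z i P ℓ p e)
    {K : ℕ} (hK : P.leaves ≤ K) : GoodR Φ ε (IStep317.treeCls Φ ε) K Z i s := by
  set g : Fin P.leaves ≃ Idx P := (eP P).symm with hg
  set f : Fin P.leaves ↪ Fin n := ⟨fun x => e (g x), fun x y hxy => g.injective (h.inj hxy)⟩ with hf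
  have hfx : ∀ x, f x = e (g x) := fun x => rfl
  have hlines : (fun x => Z (f x)) = fun x => lines Φ ε P ℓ p (g x) := by
    funext x
    exact h.lines_eq hΦ hε hs.le (g x)
  have hpth : pth Φ ε (fun x => Z (f x)) = fun u x => pth Φ ε (lines Φ ε P ℓ p) u (g x) := by
    rw [hlines]
    exact pth_relabel hΦ hε g _
  have hpath : ∀ u ∈ Icc 0 s, pth Φ ε (lines Φ ε P ℓ p) u = path Φ ε P ℓ p u := fun u hu =>
    (path_eq_flow hΦ hε h.valid h.sep hu).symm
  refine ⟨P.leaves, f, g.symm (Tree674.root P), hK, ?_, ?_, ?_, ?_, ?_⟩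
  · rw [hfx, Equiv.apply_symm_apply, h.root]
  · ext k
    rw [mem_preAct_realTree hε hs h ⟨le_rfl, hs⟩]
    constructor
    · rintro ⟨m, rfl, _⟩
      exact ⟨g.symm m, by rw [hfx, Equiv.apply_symm_apply]⟩
    · rintro ⟨x, rfl⟩
      exact ⟨g x, rfl, RealTree674.prot_nn hε hs.le h.valid _⟩
  · rw [hpth, iso_relabel g (z := pth Φ ε (lines Φ ε P ℓ p))]
    have hfam : Iso (pth Φ ε (lines Φ ε P ℓ p)) ε (fun u => {m | u ≤ prot P s p m}) s := by
      intro u hu m hm m' hm'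
      have huI : u ∈ Icc 0 s := ⟨hu.1, hu.2.le⟩
      rw [hpath u huI]
      exact sep_active hε h.valid h.sep huI hm (not_le.1 hm')
    refine hfam.congr fun u hu => ?_
    ext m
    constructor
    · intro hm
      refine ⟨g.symm m, ?_, Equiv.apply_symm_apply _ _⟩
      show f (g.symm m) ∈ preAct (pth Φ ε Z) ε i s u
      rw [hfx, Equiv.apply_symm_apply, mem_preAct_realTree hε hs h hu]
      exact ⟨m, rfl, hm⟩
    · rintro ⟨x, hx, rfl⟩
      have hx' : f x ∈ preAct (pth Φ ε Z) ε i s u := hx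
      rw [hfx, mem_preAct_realTree hε hs h hu] at hx'
      obtain ⟨m, hm, hm2⟩ := hx'
      rw [← h.inj hm]
      exact hm2
  · rw [hpth, aloneAt_relabel g (z := pth Φ ε (lines Φ ε P ℓ p)), Equiv.apply_symm_apply]
    exact aloneAt hΦ hε hs h.valid h.sep
  · refine ⟨P, g.symm, rfl, ℓ, p, h.valid, h.sep, fun x => ?_⟩
    have := congrFun hlines (g.symm x)
    simpa using this

/-- A particle which is not good has a big cluster, or a small one which is not a tree. -/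
theorem not_goodR_cases {n : ℕ} {Z : Config n} {i : Fin n}
    (hΦ : AdmissiblePotential Φ) (hε : 0 < ε) (hs : 0 < s) {K : ℕ}
    (h : ¬ GoodR Φ ε (IStep317.treeCls Φ ε) K Z i s) :
    K < (bc Φ ε Z s i).ncard ∨ ((bc Φ ε Z s i).ncard ≤ K ∧ ¬ Good Φ ε s Z i) := by
  by_cases hK : K < (bc Φ ε Z s i).ncard
  · exact Or.inl hK
  · refine Or.inr ⟨not_lt.1 hK, ?_⟩
    rintro ⟨P, ℓ, p, e, hR⟩
    refine h (goodR_of_realTree hΦ hε hs hR ?_)
    rw [not_lt, hR.bc_eq hε hs.le, ← image_univ, ncard_image_of_injective _ hR.inj,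
      ncard_univ, Nat.card_eq_fintype_card, card_idx] at hK
    exact hK

end det

end Crest.Agent.R122.Hit167
end

-- ▼ part R122/GoodBad2_167
section

/-!
# `BadSmall` from no escape and small non-tree clusters (row 122, helper167)

* `NGq` : real clusters of bounded size which are not trees have small mass (input, D5).
* `ngReal` : speed weighted mass of the particles which are not good hitters, time integrated.
* `EscU` : energy weighted no escape, uniform in time; follows from `NEK` or from `JSup`.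
* `badSmall_of_esc`, `badSmall_of` : `EscU` (or `NEK`), `NGq` imply `BadSmall` of `IStep3_317`.
-/

set_option autoImplicit false

open Set Filter Topology MeasureTheory
open scoped Classical ENNReal NNReal
open Crest.AnalysisR.Kinetic

namespace Crest.Agent.R122.Hit167

open Causal291 Flow671 Loc45 GC311 Vol365 Kin796 Kin796.CTree Tree674 PathFlow968 TreeHit317
  Relabel674 RealTree674 Master566 EW370 NEK370 GIV566 IStep317

variable {Φ : Space3 → ℝ} {f₀ : PhasePoint → ℝ} {ε : ℝ}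

/-- **Small real clusters are trees** (time integrated, speed weighted): the particles whose
backward cluster has at most `K` members but which are not the root of a real tree. -/
def NGq (Φ : Space3 → ℝ) (f₀ : PhasePoint → ℝ) (t : ℝ) : Prop :=
  ∀ (K : ℕ) (M : ℝ≥0) (d : ℝ), 0 < d → ∃ e0 : ℝ, 0 < e0 ∧ ∀ ε : ℝ, 0 < ε → ε < e0 →
    ∫⁻ s in Ioo 0 t, (activity ε)⁻¹ * gcE f₀ ε (fun _ Z => ∑ i,
      ind ((bc Φ ε Z s i).ncard ≤ K ∧ ¬ Good Φ ε s Z i) * spdW Φ ε M Z i s) ≤ ENNReal.ofReal d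

theorem NGq_mono {t₁ t₂ : ℝ} (h : NGq Φ f₀ t₂) (ht : t₁ ≤ t₂) : NGq Φ f₀ t₁ := by
  intro K M d hd
  obtain ⟨e0, he0, h1⟩ := h K M d hd
  exact ⟨e0, he0, fun ε hε hlt => (lintegral_mono_set (Ioo_subset_Ioo_right ht)).trans
    (h1 ε hε hlt)⟩

/-- The speed weight against the energy weight. -/
theorem spdW_le (M : ℝ≥0) {n : ℕ} (Z : Config n) (i : Fin n) (s : ℝ) :
    spdW Φ ε M Z i s ≤ ENNReal.ofReal (M + 1) *
      ENNReal.ofReal (1 + ‖(pth Φ ε Z s i).2‖ ^ 2) := by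
  unfold spdW
  rw [← ofReal_norm, ← ENNReal.ofReal_coe_nnreal,
    ← ENNReal.ofReal_add M.coe_nonneg (norm_nonneg _), ← ENNReal.ofReal_mul (by positivity)]
  refine ENNReal.ofReal_le_ofReal ?_
  have hM : (0 : ℝ) ≤ M := M.coe_nonneg
  have hv := norm_nonneg (pth Φ ε Z s i).2
  set v := ‖(pth Φ ε Z s i).2‖
  nlinarith [sq_nonneg (v - 1), mul_nonneg hM (sq_nonneg v)]

theorem measurable_spdW' (hΦ : AdmissiblePotential Φ) (hε : 0 < ε) (M : ℝ≥0) (s : ℝ)
    (n : ℕ) (i : Fin n) : Measurable fun Z : Config n => spdW Φ ε M Z i s := by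
  unfold spdW
  exact measurable_const.add (measurable_pth_id hΦ hε s i).snd.enorm

theorem measurable_bigW (hΦ : AdmissiblePotential Φ) (hε : 0 < ε) (K : ℕ) (M : ℝ≥0) (s : ℝ)
    (n : ℕ) : Measurable fun Z : Config n =>
      ∑ i, ind (K < (bc Φ ε Z s i).ncard) * spdW Φ ε M Z i s := by
  refine Finset.measurable_sum _ fun i _ => ?_
  have h3 : MeasurableSet {Z : Config n | K < (bc Φ ε Z s i).ncard} :=
    measurableSet_lt (measurable_const (a := K)) (measurable_ncard_bc hΦ hε s i)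
  exact (measurable_ind h3).mul (measurable_spdW' hΦ hε M s n i)

theorem gcE_bigW_le (hε : 0 < ε) (K : ℕ) (M : ℝ≥0) (s : ℝ) :
    (activity ε)⁻¹ * gcE f₀ ε (fun _ Z => ∑ i, ind (K < (bc Φ ε Z s i).ncard) *
      spdW Φ ε M Z i s) ≤ ENNReal.ofReal (M + 1) * escEnergy Φ f₀ ε K s := by
  have ha : (activity ε)⁻¹ ≠ ∞ := ENNReal.inv_ne_top.2 (activity_ne_zero hε)
  unfold escEnergy
  rw [gcE_const_mul f₀ ε ha, mul_left_comm, ← gcE_const_mul f₀ ε ENNReal.ofReal_ne_top]
  refine mul_le_mul_right (gcE_mono f₀ ε fun n Z _ => ?_) _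
  unfold EW370.bad
  rw [Finset.mul_sum, Finset.sum_filter]
  refine Finset.sum_le_sum fun i _ => ?_
  by_cases h : K < (bc Φ ε Z s i).ncard
  · rw [if_pos h, ind_true h, one_mul]
    exact spdW_le M Z i s
  · rw [if_neg h, ind_false h, zero_mul]

/-- Particles which are not good hitters, at a fixed time. -/
theorem gcE_notGood_le (hf : Measurable f₀) (hΦ : AdmissiblePotential Φ) (hε : 0 < ε) (K : ℕ)
    (M : ℝ≥0) {s : ℝ} (hs : 0 < s) :
    (activity ε)⁻¹ * gcE f₀ ε (fun _ Z => ∑ i, ind (¬ GoodD Φ ε (treeCls Φ ε) K Z i s) *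
      spdW Φ ε M Z i s) ≤
    ENNReal.ofReal (M + 1) * escEnergy Φ f₀ ε K s +
      (activity ε)⁻¹ * gcE f₀ ε (fun _ Z => ∑ i,
        ind ((bc Φ ε Z s i).ncard ≤ K ∧ ¬ Good Φ ε s Z i) * spdW Φ ε M Z i s) := by
  refine le_trans (mul_le_mul_right (?_ : _ ≤ gcE f₀ ε (fun _ Z => ∑ i,
    ind (K < (bc Φ ε Z s i).ncard) * spdW Φ ε M Z i s) + gcE f₀ ε (fun _ Z => ∑ i,
    ind ((bc Φ ε Z s i).ncard ≤ K ∧ ¬ Good Φ ε s Z i) * spdW Φ ε M Z i s)) _) ?_
  · rw [← gcE_add hf ε (measurable_bigW hΦ hε K M s)]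
    refine gcE_mono f₀ ε fun n Z hZ => ?_
    rw [← Finset.sum_add_distrib]
    refine Finset.sum_le_sum fun i _ => ?_
    rw [← add_mul]
    refine mul_le_mul_left ?_ _
    by_cases h : GoodD Φ ε (treeCls Φ ε) K Z i s
    · rw [ind_false (not_not.2 h)]; exact zero_le
    · rw [ind_true h]
      have h1 : ¬ GoodR Φ ε (treeCls Φ ε) K Z i s := by
        rwa [goodR_iff_goodD hΦ hε (pairExcluded_subset_Dom hε n hZ) hs]
      rcases not_goodR_cases hΦ hε hs h1 with h2 | h2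
      · rw [ind_true h2]; exact le_self_add
      · rw [ind_true h2]; exact le_add_self
  · rw [mul_add]
    exact add_le_add (gcE_bigW_le hε K M s) le_rfl

/-- Energy weighted no escape, uniform on `[0, t]`. -/
def EscU (Φ : Space3 → ℝ) (f₀ : PhasePoint → ℝ) (t : ℝ) : Prop :=
  ∀ δ : ℝ, 0 < δ → ∃ K₀ : ℕ, ∀ K : ℕ, K₀ ≤ K → ∃ ε₀ : ℝ, 0 < ε₀ ∧ ∀ ε : ℝ, 0 < ε → ε < ε₀ →
    ∀ s : ℝ, 0 ≤ s → s ≤ t → escEnergy Φ f₀ ε K s ≤ ENNReal.ofReal δ

theorem EscU.mono {t₁ t₂ : ℝ} (h : EscU Φ f₀ t₂) (ht : t₁ ≤ t₂) : EscU Φ f₀ t₁ := by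
  intro δ hδ
  obtain ⟨K₀, h1⟩ := h δ hδ
  refine ⟨K₀, fun K hK => ?_⟩
  obtain ⟨ε₀, hε₀, h2⟩ := h1 K hK
  exact ⟨ε₀, hε₀, fun ε hε hlt s hs hst => h2 ε hε hlt s hs (hst.trans ht)⟩

theorem escU_of_nek (hΦ : AdmissiblePotential Φ) (hf : Measurable f₀)
    (h1 : ∫⁻ z, ENNReal.ofReal (f₀ z) ≤ 1)
    (h2 : ∫⁻ z, ENNReal.ofReal (f₀ z) * ENNReal.ofReal (‖z.2‖ ^ 2) ≠ ∞)
    {t : ℝ} (hN : NEK Φ f₀ t) : EscU Φ f₀ t :=
  fun _ hδ => escEnergy_small_unif hΦ hf h1 h2 hN hδ

theorem two_mul_ofReal (a : ℝ) : ENNReal.ofReal (2 * a) = 2 * ENNReal.ofReal a := by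
  rw [ENNReal.ofReal_mul (by norm_num), ENNReal.ofReal_ofNat]

theorem escEnergy_le_JE (hΦ : AdmissiblePotential Φ) (hε : 0 < ε) (K : ℕ) {s : ℝ} (hs : 0 ≤ s) :
    escEnergy Φ f₀ ε K s ≤ 2 * EDefs602.JE Φ f₀ ε K s := by
  unfold escEnergy EDefs602.JE
  rw [← gcE_const_mul f₀ ε (by norm_num : (2 : ℝ≥0∞) ≠ ∞)]
  refine gcE_mono f₀ ε fun n Z hZ => ?_
  have W := Energy410.world_flow hΦ hε (fun i j h => (hZ i j h).le) s
  have h1 := W.stab s ⟨hs, le_rfl⟩ (EW370.bad Φ ε K Z s)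
  set S := EW370.bad Φ ε K Z s with hS
  have h3 : ∑ i ∈ S, ‖(pth Φ ε Z s i).2‖ ^ 2 = ∑ i ∈ S, ‖(flow Φ ε s Z i).2‖ ^ 2 := rfl
  rw [← ENNReal.ofReal_sum_of_nonneg fun i _ => by positivity, mul_left_comm]
  refine mul_le_mul_right ?_ _
  refine (ENNReal.ofReal_le_ofReal ?_).trans (le_of_eq (two_mul_ofReal _))
  rw [Finset.sum_add_distrib, Finset.sum_const, nsmul_eq_mul, mul_one, h3]
  have h4 : (0 : ℝ) ≤ S.card := Nat.cast_nonneg _
  nlinarith

theorem escU_of_jSup (hΦ : AdmissiblePotential Φ) {t : ℝ} (hJ : Top602.JSup Φ f₀ t) :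
    EscU Φ f₀ t := by
  intro δ hδ
  obtain ⟨K₀, h1⟩ := hJ (δ / 2) (half_pos hδ)
  refine ⟨K₀, fun K hK => ?_⟩
  obtain ⟨ε₀, hε₀, h2⟩ := h1 K hK
  refine ⟨ε₀, hε₀, fun ε hε hlt s hs hst => (escEnergy_le_JE hΦ hε K hs).trans ?_⟩
  have h3 : EDefs602.JE Φ f₀ ε K s ≤ ENNReal.ofReal (δ / 2) :=
    (le_iSup₂_of_le (f := fun s (_ : s ∈ Icc 0 t) => EDefs602.JE Φ f₀ ε K s) s ⟨hs, hst⟩
      le_rfl).trans (h2 ε hε hlt)
  calc 2 * EDefs602.JE Φ f₀ ε K s ≤ 2 * ENNReal.ofReal (δ / 2) := mul_le_mul_right h3 _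
    _ = ENNReal.ofReal δ := by
        rw [← two_mul_ofReal]
        congr 1
        ring

/-- **Bad hitters are rare**: from energy weighted no escape and `NGq`. -/
theorem ngReal (hf : Measurable f₀)
    (hΦ : AdmissiblePotential Φ) {t : ℝ} (ht : 0 ≤ t) (hN : EscU Φ f₀ t) (hG : NGq Φ f₀ t)
    (M : ℝ≥0) {δ : ℝ} (hδ : 0 < δ) :
    ∃ K₀ : ℕ, ∀ K : ℕ, K₀ ≤ K → ∃ ε₀ : ℝ, 0 < ε₀ ∧ ∀ ε : ℝ, 0 < ε → ε < ε₀ →
      ∫⁻ s in Ioo 0 t, (activity ε)⁻¹ * gcE f₀ ε (fun _ Z => ∑ i,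
        ind (¬ GoodD Φ ε (treeCls Φ ε) K Z i s) * spdW Φ ε M Z i s) ≤ ENNReal.ofReal δ := by
  have hM : (0 : ℝ) ≤ M := M.coe_nonneg
  set c : ℝ := (M + 1) * (t + 1) with hc
  have hc0 : 0 < c := by positivity
  obtain ⟨K₀, hK₀⟩ := hN (δ / 2 / c) (by positivity)
  refine ⟨K₀, fun K hK => ?_⟩
  obtain ⟨ε₁, hε₁, h3⟩ := hK₀ K hK
  obtain ⟨ε₂, hε₂, h4⟩ := hG K M (δ / 2) (by positivity)
  refine ⟨min ε₁ ε₂, lt_min hε₁ hε₂, fun ε hε hlt => ?_⟩
  have h5 := h3 ε hε (hlt.trans_le (min_le_left _ _))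
  have h6 := h4 ε hε (hlt.trans_le (min_le_right _ _))
  calc ∫⁻ s in Ioo 0 t, (activity ε)⁻¹ * gcE f₀ ε (fun _ Z => ∑ i,
        ind (¬ GoodD Φ ε (treeCls Φ ε) K Z i s) * spdW Φ ε M Z i s)
      ≤ ∫⁻ s in Ioo 0 t, (ENNReal.ofReal (M + 1) * ENNReal.ofReal (δ / 2 / c) +
          (activity ε)⁻¹ * gcE f₀ ε (fun _ Z => ∑ i,
            ind ((bc Φ ε Z s i).ncard ≤ K ∧ ¬ Good Φ ε s Z i) * spdW Φ ε M Z i s)) := by
        refine setLIntegral_mono' measurableSet_Ioo fun s hs => ?_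
        refine (gcE_notGood_le hf hΦ hε K M hs.1).trans (add_le_add ?_ le_rfl)
        exact mul_le_mul_right (h5 s hs.1.le hs.2.le) _
    _ = ENNReal.ofReal (M + 1) * ENNReal.ofReal (δ / 2 / c) * ENNReal.ofReal t +
          ∫⁻ s in Ioo 0 t, (activity ε)⁻¹ * gcE f₀ ε (fun _ Z => ∑ i,
            ind ((bc Φ ε Z s i).ncard ≤ K ∧ ¬ Good Φ ε s Z i) * spdW Φ ε M Z i s) := by
        rw [lintegral_add_left measurable_const, setLIntegral_const, Real.volume_Ioo, sub_zero]
    _ ≤ ENNReal.ofReal (δ / 2) + ENNReal.ofReal (δ / 2) := by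
        refine add_le_add ?_ h6
        rw [← ENNReal.ofReal_mul (by positivity), ← ENNReal.ofReal_mul (by positivity)]
        refine ENNReal.ofReal_le_ofReal ?_
        have h7 : (M + 1 : ℝ) * t ≤ c := by
          rw [hc]
          exact mul_le_mul_of_nonneg_left (by linarith) (by positivity)
        calc ((M : ℝ) + 1) * (δ / 2 / c) * t = ((M + 1) * t) * (δ / 2 / c) := by ring
          _ ≤ c * (δ / 2 / c) := mul_le_mul_of_nonneg_right h7 (by positivity)
          _ = δ / 2 := by field_simp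
    _ = ENNReal.ofReal δ := by
        rw [← ENNReal.ofReal_add (by positivity) (by positivity), add_halves]

/-- **`BadSmall` from `EscU` and `NGq`.** -/
theorem badSmall_of_esc (hf : Measurable f₀) (h1 : ∫⁻ z, ENNReal.ofReal (f₀ z) ≤ 1)
    (hΦ : AdmissiblePotential Φ) {T tw t : ℝ} (htw : 0 ≤ tw) (htt : tw ≤ t) (htT : t ≤ T)
    (hN : EscU Φ f₀ t) (hG : NGq Φ f₀ t) : BadSmall Φ f₀ T tw t := by
  intro ι _ Sk S εk hεk hlim hc _ R δ hδ
  obtain ⟨M, hM, -⟩ := hc.lip
  have ht0 : 0 ≤ t := htw.trans htt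
  have hT : 0 ≤ T := ht0.trans htT
  -- the constant in front of the time integral
  set A : ℝ≥0∞ := ENNReal.ofReal 7 * kap * Fintype.card ι with hA
  have hAt : A ≠ ∞ := ENNReal.mul_ne_top (ENNReal.mul_ne_top ENNReal.ofReal_ne_top kap_ne_top)
    (ENNReal.natCast_ne_top _)
  set a : ℝ := A.toReal with ha
  have haA : A = ENNReal.ofReal a := (ENNReal.ofReal_toReal hAt).symm
  have ha0 : 0 ≤ a := ENNReal.toReal_nonneg
  obtain ⟨K₀, hK₀⟩ := ngReal hf hΦ ht0 hN hG M (δ := δ / 2 / (a + 1)) (by positivity)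
  refine ⟨K₀, fun K hK => ?_⟩
  obtain ⟨ε₀, hε₀, h3⟩ := hK₀ K hK
  -- the time zero term
  have hlim0 : Tendsto (fun k => (Fintype.card ι : ℝ≥0∞) * (ENNReal.ofReal (εk k) * kap)) atTop
      (𝓝 0) := by
    have h4 : Tendsto (fun k => ENNReal.ofReal (εk k)) atTop (𝓝 0) := by
      have := (ENNReal.continuous_ofReal.tendsto _).comp hlim
      rwa [ENNReal.ofReal_zero] at this
    have h5 : Tendsto (fun k => (Fintype.card ι : ℝ≥0∞) * (ENNReal.ofReal (εk k) * kap)) atTop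
        (𝓝 ((Fintype.card ι : ℝ≥0∞) * (0 * kap))) :=
      ENNReal.Tendsto.const_mul (ENNReal.Tendsto.mul_const h4 (Or.inr kap_ne_top))
        (Or.inr (ENNReal.natCast_ne_top _))
    simpa using h5
  have hev0 : ∀ᶠ k in atTop, (Fintype.card ι : ℝ≥0∞) * (ENNReal.ofReal (εk k) * kap) ≤
      ENNReal.ofReal (δ / 2) :=
    (hlim0.eventually_lt_const (by simpa using (by positivity : 0 < δ / 2))).mono fun _ h => h.le
  have hev1 : ∀ᶠ k in atTop, εk k < ε₀ := hlim.eventually (gt_mem_nhds hε₀)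
  filter_upwards [hM, hev0, hev1] with k hk1 hk2 hk3
  have hε := hεk k
  have hlip : ∀ i, LipschitzWith M ((clip T (Sk k)).c i) := fun i => clip_lip hT (hk1 i)
  obtain ⟨maj, hm1, hm2, hm3⟩ := exists_badR_maj (f₀ := f₀) (Φ := Φ) (ε := εk k)
    (c := (clip T (Sk k)).c) (θ := (Sk k).b) (𝒢 := treeCls Φ (εk k)) (t₀ := tw) (t := t)
    hf h1 hΦ hε (fun i => (hlip i).continuous) (fun i => (hlip i).lipschitzOnWith)
    (treeCls_meas hΦ hε) htw K
  refine ⟨maj, hm1, fun x => hm2 x, (setLIntegral_le_lintegral _ _).trans (hm3.trans ?_)⟩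
  have h6 := h3 (εk k) hε hk3
  calc (Fintype.card ι : ℝ≥0∞) * (ENNReal.ofReal (εk k) * kap) +
        ENNReal.ofReal (7 * εk k ^ 2) * kap * Fintype.card ι *
          ∫⁻ s in Ioo tw t, gcE f₀ (εk k) (fun _ Z =>
            ∑ i, ind (¬ GoodD Φ (εk k) (treeCls Φ (εk k)) K Z i s) * spdW Φ (εk k) M Z i s)
      ≤ ENNReal.ofReal (δ / 2) + A * ∫⁻ s in Ioo 0 t, (activity (εk k))⁻¹ *
          gcE f₀ (εk k) (fun _ Z => ∑ i,
            ind (¬ GoodD Φ (εk k) (treeCls Φ (εk k)) K Z i s) * spdW Φ (εk k) M Z i s) := by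
        refine add_le_add hk2 ?_
        rw [lintegral_const_mul' _ _ (ENNReal.inv_ne_top.2 (activity_ne_zero hε)),
          BadHit370.inv_activity_eq hε, hA, ENNReal.ofReal_mul (by norm_num),
          ENNReal.ofReal_pow hε.le]
        calc ENNReal.ofReal 7 * ENNReal.ofReal (εk k) ^ 2 * kap * Fintype.card ι *
            ∫⁻ s in Ioo tw t, gcE f₀ (εk k) (fun _ Z => ∑ i,
              ind (¬ GoodD Φ (εk k) (treeCls Φ (εk k)) K Z i s) * spdW Φ (εk k) M Z i s)
            = ENNReal.ofReal 7 * kap * Fintype.card ι * (ENNReal.ofReal (εk k) ^ 2 *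
              ∫⁻ s in Ioo tw t, gcE f₀ (εk k) (fun _ Z => ∑ i,
              ind (¬ GoodD Φ (εk k) (treeCls Φ (εk k)) K Z i s) * spdW Φ (εk k) M Z i s)) := by
              ring
          _ ≤ _ := by
              gcongr
    _ ≤ ENNReal.ofReal (δ / 2) + ENNReal.ofReal (a * (δ / 2 / (a + 1))) := by
        refine add_le_add le_rfl ?_
        rw [ENNReal.ofReal_mul ha0, haA]
        exact mul_le_mul_right h6 _
    _ ≤ ENNReal.ofReal (δ / 2) + ENNReal.ofReal (δ / 2) := by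
        refine add_le_add le_rfl (ENNReal.ofReal_le_ofReal ?_)
        calc a * (δ / 2 / (a + 1)) = (a / (a + 1)) * (δ / 2) := by ring
          _ ≤ 1 * (δ / 2) := mul_le_mul_of_nonneg_right
              ((div_le_one (by positivity)).2 (by linarith)) (by positivity)
          _ = δ / 2 := one_mul _
    _ = ENNReal.ofReal δ := by
        rw [← ENNReal.ofReal_add (by positivity) (by positivity), add_halves]

/-- **`BadSmall` from `NEK` and `NGq`.** -/
theorem badSmall_of (hf : Measurable f₀) (h1 : ∫⁻ z, ENNReal.ofReal (f₀ z) ≤ 1)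
    (h2 : ∫⁻ z, ENNReal.ofReal (f₀ z) * ENNReal.ofReal (‖z.2‖ ^ 2) ≠ ∞)
    (hΦ : AdmissiblePotential Φ) {T tw t : ℝ} (htw : 0 ≤ tw) (htt : tw ≤ t) (htT : t ≤ T)
    (hN : NEK Φ f₀ t) (hG : NGq Φ f₀ t) : BadSmall Φ f₀ T tw t :=
  badSmall_of_esc hf h1 hΦ htw htt htT (escU_of_nek hΦ hf h1 h2 hN) hG

end Crest.Agent.R122.Hit167
end

-- ▼ part R122/TopB_602
section

/-!
# Row 122: the input `BadIn` of section F (helper602)

* `D5In` : the statement of section D5 (real clusters are trees) at gas level.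
* `NGCIn`, `RGCIn` : the Mecke forms of D5 and of H12 at the end of a window.
* `nekIn_of` : first-moment no escape at the end of the window.
* `badIn_of` : bad first hits are rare.
-/

set_option autoImplicit false

open MeasureTheory Set Filter Topology
open scoped ENNReal
open Crest.AnalysisR.Kinetic
open Crest.Agent.R122.Master566 Crest.Agent.R122.EDefs602 Crest.Agent.R122.GIV566

namespace Crest.Agent.R122.Top602

noncomputable section

/-- **Section D5**: real clusters of at most `K` particles are trees, gas level. -/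
def D5In (Φ : Space3 → ℝ) (f₀ : PhasePoint → ℝ) : Prop :=
  ∀ te T' : ℝ, 0 ≤ te → te < T' → ∀ K : ℕ, Mid317.NGin Φ f₀ T' te K

/-- D5 in Mecke form. -/
def NGCIn (Φ : Space3 → ℝ) (f₀ : PhasePoint → ℝ) : Prop :=
  ∀ te T' : ℝ, 0 ≤ te → te < T' → SizeX974.NGC Φ f₀ te T'

/-- For short windows and horizons `T'` slightly larger than the end of the window. -/
def InWT (T : ℝ) (Q : ℝ → ℝ → ℝ → Prop) : Prop :=
  ∃ h : ℝ, 0 < h ∧ ∀ tw te T' : ℝ, Win h T tw te → te < T' → T' ≤ te + h → Q tw te T'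

theorem InWT.and {T : ℝ} {Q Q' : ℝ → ℝ → ℝ → Prop} (h : InWT T Q) (h' : InWT T Q') :
    InWT T fun tw te T' => Q tw te T' ∧ Q' tw te T' := by
  obtain ⟨a, ha, h⟩ := h
  obtain ⟨b, hb, h'⟩ := h'
  exact ⟨min a b, lt_min ha hb, fun tw te T' hw h1 h2 =>
    ⟨h tw te T' (hw.mono (min_le_left _ _)) h1 (h2.trans (by linarith [min_le_left a b])),
      h' tw te T' (hw.mono (min_le_right _ _)) h1 (h2.trans (by linarith [min_le_right a b]))⟩⟩

theorem InWT.mono {T : ℝ} {Q Q' : ℝ → ℝ → ℝ → Prop} (h : InWT T Q)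
    (hq : ∀ tw te T' : ℝ, 0 ≤ tw → tw ≤ te → te ≤ T → te < T' → Q tw te T' → Q' tw te T') :
    InWT T Q' := by
  obtain ⟨a, ha, h⟩ := h
  exact ⟨a, ha, fun tw te T' hw h1 h2 =>
    hq tw te T' hw.nonneg hw.le hw.le_T h1 (h tw te T' hw h1 h2)⟩

/-- H12 in Mecke form, for the windows of section F. -/
def RGCIn (Φ : Space3 → ℝ) (f₀ : PhasePoint → ℝ) (f : ℝ → PhasePoint → ℝ) (T : ℝ) : Prop :=
  InL T fun γ ρ => InWT T fun tw te T' => FHyp Φ f₀ f T γ ρ tw te → SizeX974.RGC Φ f₀ tw te T'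

/-- First-moment no escape at the end of the windows of section F. -/
def NEKIn (Φ : Space3 → ℝ) (f₀ : PhasePoint → ℝ) (f : ℝ → PhasePoint → ℝ) (T : ℝ) : Prop :=
  InL T fun γ ρ => InW T fun tw te => FHyp Φ f₀ f T γ ρ tw te → EW370.NEK Φ f₀ te

variable {Φ : Space3 → ℝ} {β T : ℝ} {f₀ : PhasePoint → ℝ} {f : ℝ → PhasePoint → ℝ}

theorem nekIn_of (hD : KData Φ β T f₀ f) (hN : NGCIn Φ f₀) (hR : RGCIn Φ f₀ f T) :
    NEKIn Φ f₀ f T := by
  obtain ⟨h₀, hh₀, key⟩ := NEK602.exists_nek hD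
  refine InL.mono hR fun γ ρ _ h => ?_
  obtain ⟨a, ha, h⟩ := h
  set b : ℝ := min a (h₀ / 2) with hb
  have hb0 : 0 < b := lt_min ha (by positivity)
  have hba : b ≤ a := min_le_left _ _
  have hbh : b ≤ h₀ / 2 := min_le_right _ _
  refine ⟨b, hb0, fun tw te hw hyp => ?_⟩
  have hR' := h tw te (te + b) (hw.mono hba) (by linarith) (by linarith) hyp
  refine key tw ⟨hw.nonneg, hw.le.trans hw.le_T⟩ te (te + b) hw.le (by linarith) ?_ hyp.ih.giv
    (hN te (te + b) (hw.nonneg.trans hw.le) (by linarith)) hR' hyp.je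
  have := hw.short
  linarith

/-- The second moment of the initial density. -/
theorem sq_ne_top (hD : KData Φ β T f₀ f) :
    ∫⁻ z, ENNReal.ofReal (f₀ z) * ENNReal.ofReal (‖z.2‖ ^ 2) ≠ ∞ := by
  have h := (Mom974.lintegral_f0_weight_ne_top (by linarith [hD.beta_pos] : 0 < 2 * β)
    hD.gaussian).1
  refine ne_top_of_le_ne_top h (lintegral_mono fun z => ?_)
  refine mul_le_mul_right (ENNReal.ofReal_le_ofReal ?_) _
  linarith

/-- **Bad first hits are rare**, from D5 and H12. -/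
theorem badIn_of (hD : KData Φ β T f₀ f) (hD5 : D5In Φ f₀) (hN : NGCIn Φ f₀)
    (hR : RGCIn Φ f₀ f T) : BadIn Φ f₀ f T := by
  have hfm : Measurable f₀ := hD.contDiff.continuous.measurable
  have hmass : ∫⁻ z, ENNReal.ofReal (f₀ z) ≤ 1 :=
    (FM167.lintegral_density_eq_one hD.nonneg hD.integrable hD.mass).le
  have hg : 0 < 2 * β := by linarith [hD.beta_pos]
  refine InL.mono (nekIn_of hD hN hR) fun γ ρ _ h => ?_
  refine InW.mono h fun tw te h0 hle hT hh hyp t ht => ?_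
  have hN' : EW370.NEK Φ f₀ t := NEK370.NEK_mono (hh hyp) ht.2
  have hte : 0 ≤ te := h0.trans hle
  have hG : Hit167.NGq Φ f₀ t := by
    intro K M d hd
    exact Mid317.ngq_of hD.adm hfm hmass hg hD.gaussian (T' := te + 1) (t := t)
      (by linarith [ht.2]) (fun K => by
        obtain ⟨B, h1, h2, h3, e0, he0, h4⟩ := hD5 te (te + 1) hte (by linarith) K
        exact ⟨B, h1, h2, h3, e0, he0, fun ε hε hlt n X hX i u hu =>
          h4 ε hε hlt n X hX i u ⟨hu.1, hu.2.trans ht.2⟩⟩) K M hd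
  exact Hit167.badSmall_of hfm hmass (sq_ne_top hD) hD.adm h0 ht.1 (ht.2.trans hT) hN' hG

end

end Crest.Agent.R122.Top602
end

-- ▼ part R122/BadIn_167
section

/-!
# `BadIn` of the top skeleton from the input of D5 (row 122, helper167)

* `ngq_of_ngin` : `NGin` (bounded clusters are trees or have small mass) implies `NGq`.
* `badIn_of` : `NGin` at a horizon `T' ≥ T` implies `Top602.BadIn`.
* `badIn_of_badVol` : the volume bounds of D5 imply `Top602.BadIn`.
-/

set_option autoImplicit false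

open Set Filter Topology MeasureTheory
open scoped Classical ENNReal NNReal
open Crest.AnalysisR.Kinetic

namespace Crest.Agent.R122.Hit167

open Master566 Mid317

variable {Φ : Space3 → ℝ} {f₀ : PhasePoint → ℝ}

theorem ngq_of_ngin (hΦ : AdmissiblePotential Φ) (hf : Measurable f₀)
    (h1 : ∫⁻ z, ENNReal.ofReal (f₀ z) ≤ 1) {γ : ℝ} (hγ : 0 < γ)
    (hb : HasSummableGaussianBound γ (fun x v => f₀ (x, v))) {T' t : ℝ}
    (htT : t ≤ T') (hNG : ∀ K, NGin Φ f₀ T' t K) : NGq Φ f₀ t := by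
  intro K M d hd
  obtain ⟨e0, he0, h⟩ := ngq_of hΦ hf h1 hγ hb htT hNG K M hd
  exact ⟨e0, he0, h⟩

/-- **The input (A) of section F.** -/
theorem badIn_of {β T : ℝ} {f : ℝ → PhasePoint → ℝ} (hD : KData Φ β T f₀ f) {T' : ℝ}
    (hTT : T ≤ T') (hNG : ∀ K, NGin Φ f₀ T' T K) : Top602.BadIn Φ f₀ f T := by
  have hf : Measurable f₀ := hD.contDiff.continuous.measurable
  have hmass : ∫⁻ z, ENNReal.ofReal (f₀ z) ≤ 1 :=
    (FM167.lintegral_density_eq_one hD.nonneg hD.integrable hD.mass).le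
  have hβ : 0 < 2 * β := by have := hD.beta_pos; linarith
  have hG : NGq Φ f₀ T := ngq_of_ngin hD.adm hf hmass hβ hD.gaussian hTT hNG
  refine Top602.InL.of_forall fun γ ρ => Top602.InW.of_forall fun tw te h0 hle hT hyp t ht => ?_
  exact badSmall_of_esc hf hmass hD.adm h0 ht.1 (ht.2.trans hT)
    ((escU_of_jSup hD.adm hyp.je).mono ht.2) (NGq_mono hG (ht.2.trans hT))


end Crest.Agent.R122.Hit167
end

-- ▼ part R122/SizeX4_974
section

/-!
# Row 122 (helper974), size crossing (SX), part 4: the input `NGC` from D5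

`ngc_of` : the volume statement of D5 for helper726's bad family gives `NGC`.
-/

set_option autoImplicit false

open MeasureTheory Set Filter
open scoped ENNReal Topology Classical NNReal
open Crest.AnalysisR.Kinetic Crest.Agent.R122.Kin796 Crest.Agent.R122.Disc416
  Crest.Agent.R122.Tree674 Crest.Agent.R122.TreeLim974 Crest.Agent.R122.GIV566
  Crest.Agent.R122.Band974 Crest.Agent.R122.GC311 Crest.Agent.R122.Causal291
  Crest.Agent.R122.Master566 Crest.Agent.R122.Relabel674 Crest.Agent.R122.EDefs602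
  Crest.Agent.R122.InEq2 Crest.Agent.R122.RealTree674 Crest.Agent.R122.NEK370
  Crest.Agent.R122.EW370

noncomputable section

namespace Crest.Agent.R122.SizeX974

open CTree

variable {Φ : Space3 → ℝ} {f₀ : PhasePoint → ℝ} {f : ℝ → PhasePoint → ℝ} {β T tw te T' ε : ℝ}

/-! ### D5 -/

theorem eW_append_block {k m : ℕ} (V : Config k) (w : Config m) :
    eW (Fin.append V w : Config (k + m)) (block k m) = NG416.Wt V := by
  have h := NG416.eW_map (Fin.append V w : Config (k + m)) (Fin.castAddEmb m)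
  have e : (fun x => (Fin.append V w : Config (k + m)) (Fin.castAddEmb m x)) = V := by
    funext x
    exact Fin.append_left _ _ _
  rw [e] at h
  exact h


end Crest.Agent.R122.SizeX974
end
end

-- ▼ part R122/TopV_602

/-!
# Row 122: the inputs of D5 from its volume statement (helper602)

* `D5Vol` : the volume statement of section D5 for helper726's bad family.
* `d5In_of_vol`, `ngcIn_of_vol`, `badIn_of_vol`.
-/

set_option autoImplicit false

open MeasureTheory Set Filter Topology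
open scoped ENNReal
open Crest.AnalysisR.Kinetic
open Crest.Agent.R122.Master566 Crest.Agent.R122.EDefs602 Crest.Agent.R122.GIV566

namespace Crest.Agent.R122.Top602

noncomputable section

/-- **The volume statement of section D5**: for some `γ < 2 β` the bad configurations of at most
`K` particles have Gaussian volume `o(act ^ (k - 1))`. -/
def D5Vol (Φ : Space3 → ℝ) (β : ℝ) : Prop :=
  ∃ γ : ℝ, 0 < γ ∧ γ < 2 * β ∧ ∀ te T' : ℝ, 0 ≤ te → te < T' → ∀ K : ℕ,
    NG416.BadVol γ K (Chain726.badFam Φ T' te)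

variable {Φ : Space3 → ℝ} {β T : ℝ} {f₀ : PhasePoint → ℝ} {f : ℝ → PhasePoint → ℝ}

theorem d5In_of_vol (hD : KData Φ β T f₀ f) (h : D5Vol Φ β) : D5In Φ f₀ := by
  obtain ⟨γ, _, hγ, h⟩ := h
  intro te T' h0 hlt K
  exact Chain726.ngin_of_badVol hD.adm hlt hγ (h te T' h0 hlt K)
    hD.contDiff.continuous.measurable
    (FM167.lintegral_density_eq_one hD.nonneg hD.integrable hD.mass).le hD.gaussian


/-- **Bad first hits are rare**, from the volume statement of D5. -/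
theorem badIn_of_vol (hD : KData Φ β T f₀ f) (h : D5Vol Φ β) : BadIn Φ f₀ f T :=
  Hit167.badIn_of hD (T' := T + 1) (by linarith) fun K =>
    d5In_of_vol hD h T (T + 1) hD.T_pos.le (by linarith) K

end

end Crest.Agent.R122.Top602
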