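import Crest.Agent.R122.StrG_491
import Crest.Agent.R122.RealOne_796
import Crest.Agent.R122.PairDefs_292
import Crest.Agent.R122.UnwE_410

/-!
# Row 122, LN1 (helper491): pair structures and the structure of inequality 3

* `Str.tree`, `Str.single` : a tree, a single label.
* `Pair M c Z R π cl bD x y d e` : a structure with two exits `x` (line `d`) and `y` (line `e`).
* `Pair.outL`, `Pair.outC'`, `Pair.outC` : the three outputs of an encounter of the second line with an
  exit of a second structure (the kernel `K₃` of inequality 3 when the second structure is a single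
  fresh particle).
* `PTree` : a pair structure whose second line meets the root of a tree (contact set of helper423);
  `PTree.str0` (families `lineML`, `d`), `PTree.str6` (family exits, `e'`, `c'`, `d`), the admissible
  labels of helper442.
* `nb_of_birth`, `Pair.gd_e` : the glued world of `(cfg w).ins e`.
-/

set_option autoImplicit false
set_option linter.unusedSectionVars false

open MeasureTheory Set Filter Topology
open scoped NNReal ENNReal
open Crest.AnalysisR.Kinetic
open Crest.Agent.R122.Flow671 hiding rel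
open Crest.Agent.R122.Loc45 Crest.Agent.R122.Ins45
open Crest.Agent.R122.VL581 Crest.Agent.R122.VL581.VSys Crest.Agent.R122.VLInst442
open Crest.Agent.R122.LNInst491 Crest.Agent.R122.LN304 Crest.Agent.R122.LNg410
open Crest.Agent.R122.Kin796 Crest.Agent.R122.Kin796.CTree Crest.Agent.R122.Tree674
open Crest.Agent.R122.PathFlow968 Crest.Agent.R122.TreeLines335 Crest.Agent.R122.EDefs602
open Crest.Agent.R122.LNTree410 Crest.Agent.R122.PWGlue491 Crest.Agent.R122.Inf879
open Crest.Agent.R122.LNGraft410 Crest.Agent.R122.LNEv968 Crest.Agent.R122.PWInst442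
open Crest.Agent.R122.OCout796 Crest.Agent.R122.Scat818
open Crest.Agent.R122.OneC285 (cT cB cD cX)
open scoped Classical

noncomputable section

namespace Crest.Agent.R122.StrG491

variable {J κ : Type} [Fintype J] {M : VSys J κ} {Z : J → PhasePoint}
variable {c : ℝ} {R R₁ R₂ : ℝ → J → J → Prop} {π π₁ π₂ S : Finset J} {cl cl₁ cl₂ : J → Finset J}
  {bD : J → ℝ} {E E₁ E₂ : Finset J} {x y a : J} {s ℓ ς : ℝ}

/-! ### Basic structures -/

section basic

variable [Nonempty κ] (hC : 1 ≤ c) (hε : 0 < M.ε)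
include hC hε

/-- A tree. -/
theorem Str.tree (hΦ : AdmissiblePotential M.Φ) (hT : 0 < M.T) {P : CTree}
    {z : PhasePoint × Par P} {eP : Idx P ↪ J} (h : TreeIn M Z M.T P z.1 z.2 eP)
    (hb : ∀ i, bD (eP i) = rel P z.2 i) :
    Str M c Z (RC M Z (part eP)) (part eP) (clOf (part eP)) bD (part eP) :=
  Str.of_cls hC hε (Cls.of_tree hΦ hε hT h hb)

/-- A single label. -/
theorem Str.single {l : J} (ho : M.o ≠ some l) (hb : bD l = M.bb l) :
    Str M c Z (RC M Z {l}) {l} (clOf {l}) bD {l} :=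
  Str.of_cls hC hε (Cls.single ho hb)

end basic

/-! ### Pair structures -/

/-- A structure with two exits `x`, `y`, on the lines `d`, `e` after the times `d.1`, `e.1`. -/
structure Pair (M : VSys J κ) (c : ℝ) (Z : J → PhasePoint) (R : ℝ → J → J → Prop) (π : Finset J)
    (cl : J → Finset J) (bD : J → ℝ) (x y : J) (d e : ℝ × PhasePoint) : Prop where
  str : Str M c Z R π cl bD {x, y}
  ne : x ≠ y
  bx : d.1 = bD x
  bY : bD y ≤ e.1
  lx : d.1 ≤ M.T → M.st (cl x) d.1 Z x = d.2
  ly : e.1 ≤ M.T → M.st (cl y) e.1 Z y = e.2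

variable {d e : ℝ × PhasePoint} {p : Space3} {q : CD}

namespace Pair

theorem hx (_h : Pair M c Z R π cl bD x y d e) : x ∈ ({x, y} : Finset J) :=
  Finset.mem_insert_self x _

theorem hy (_h : Pair M c Z R π cl bD x y d e) : y ∈ ({x, y} : Finset J) :=
  Finset.mem_insert_of_mem (Finset.mem_singleton_self y)

theorem xπ (h : Pair M c Z R π cl bD x y d e) : x ∈ π := h.str.mem_π h.hx

theorem yπ (h : Pair M c Z R π cl bD x y d e) : y ∈ π := h.str.mem_π h.hy

theorem d_nonneg (h : Pair M c Z R π cl bD x y d e) : 0 ≤ d.1 := by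
  rw [h.bx]
  exact h.str.bD_nonneg h.hx

theorem e_nonneg (h : Pair M c Z R π cl bD x y d e) : 0 ≤ e.1 :=
  (h.str.bD_nonneg h.hy).trans h.bY


/-- The path of `y` after the birth of `e`. -/
theorem line_y (h : Pair M c Z R π cl bD x y d e) (hΦ : AdmissiblePotential M.Φ) (hε : 0 < M.ε)
    {t : ℝ} (ht : e.1 ≤ t) (htT : t ≤ M.T) : M.st (cl y) t Z y = lineAt e.1 e.2 t := by
  rw [h.str.line hΦ hε h.hy h.bY ht htT, h.ly (ht.trans htT)]

theorem congr (h : Pair M c Z R π cl bD x y d e) {bD' : J → ℝ} (hb : ∀ i ∈ π, bD' i = bD i) :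
    Pair M c Z R π cl bD' x y d e where
  str := h.str.congr hb
  ne := h.ne
  bx := by rw [hb x h.xπ]; exact h.bx
  bY := by rw [hb y h.yπ]; exact h.bY
  lx := h.lx
  ly := h.ly

/-- The line `d` is admissible. -/
theorem lab_x (h : Pair M c Z R π cl bD x y d e) : Lab M Z cl x d.1 (back d) :=
  h.str.lab_line h.hx h.bx h.lx


/-- The line `e` is admissible, if it is born at the exit time of its class. -/
theorem lab_y (h : Pair M c Z R π cl bD x y d e) (hb : e.1 = bD y) : Lab M Z cl y e.1 (back e) :=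
  h.str.lab_line h.hy hb h.ly

/-- Data of the encounter of the second line with the exit `a` of a second structure. -/
structure Hit (M : VSys J κ) (c : ℝ) (Z : J → PhasePoint) (R R₂ : ℝ → J → J → Prop)
    (π π₂ : Finset J) (cl cl₂ : J → Finset J) (bD : J → ℝ) (E₂ : Finset J) (x y a : J)
    (d e : ℝ × PhasePoint) (s : ℝ) (p : Space3) (q : CD) : Prop where
  pr : Pair M c Z R π cl bD x y d e
  s₂ : Str M c Z R₂ π₂ cl₂ bD E₂
  dj : Disjoint π π₂
  ha : a ∈ E₂
  lte : e.1 < s
  lta : bD a < s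
  cd : CDok q
  se : lineAt e.1 e.2 s = (p + M.ε • entrancePoint (relB q).1 (relB q).2, q.1)
  sa : M.st (cl₂ a) s Z a = (p, q.2.1)
  lt_T : s < M.T

namespace Hit

variable (h : Hit M c Z R R₂ π π₂ cl cl₂ bD E₂ x y a d e s p q)
include h

theorem xa : x ≠ a := fun h' =>
  Finset.disjoint_left.1 h.dj h.pr.xπ (h' ▸ h.s₂.mem_π h.ha)

theorem enc (hΦ : AdmissiblePotential M.Φ) (hε : 0 < M.ε) :
    Enc M c Z R R₂ π π₂ cl cl₂ bD {x, y} E₂ y a s p q where
  s₁ := h.pr.str
  s₂ := h.s₂
  dj := h.dj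
  hy := h.pr.hy
  ha := h.ha
  lty := h.pr.bY.trans_lt h.lte
  lta := h.lta
  cd := h.cd
  sy := by rw [h.pr.line_y hΦ hε h.lte.le h.lt_T.le, h.se]
  sa := h.sa
  lt_T := h.lt_T

variable [Nonempty κ] (hC : 1 ≤ c) (hΦ : AdmissiblePotential M.Φ) (hε : 0 < M.ε)
include hC hΦ hε

/-- Output `lineC`: the hit particle, undeflected, reborn at the end of the encounter. -/
theorem outC (hp : CDpass M.Φ q) :
    Pair M c Z (joinR R R₂ y a s) (π ∪ π₂) (clSep cl cl₂) bD x a d (lineC M.Φ M.ε s p q) := by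
  have hen := h.enc hΦ hε
  have hm := hen.meet hε
  have hya : y ∉ ({x, a} : Finset J) := by
    rw [Finset.mem_insert, Finset.mem_singleton]
    rintro (h1 | h1)
    · exact h.pr.ne h1.symm
    · exact hm.ne h1
  have hpos := hp.outT_pos hε
  refine ⟨hm.join hC hε (E := {x, a}) (fun k hk => ?_) (fun h' => hya h'.1), h.xa, h.pr.bx, ?_, ?_,
    ?_⟩
  · rcases Finset.mem_insert.1 hk with rfl | hk
    · exact Finset.mem_union_left _ h.pr.hx
    · rw [Finset.mem_singleton.1 hk]
      exact Finset.mem_union_right _ h.ha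
  · exact (h.lta.trans (lt_add_of_pos_right s hpos)).le
  · intro ht
    rw [hm.cl₁_of h.pr.xπ]
    exact h.pr.lx ht
  · intro ht
    rw [hm.cl₂_of hm.aπ]
    have h1 : s ≤ s + outT M.Φ M.ε q := (lt_add_of_pos_right s hpos).le
    change M.st (cl₂ a) (s + outT M.Φ M.ε q) Z a = (p + outT M.Φ M.ε q • q.2.1, q.2.1)
    rw [h.s₂.line hΦ hε h.ha h.lta.le h1 ht, h.sa]
    unfold lineAt
    simp

variable (hT : TL M c ℓ ς (π ∪ π₂) Z) (hℓς : 2 * ℓ ≤ ς) (hp : CDpass M.Φ q)
  (hle : s + outT M.Φ M.ε q ≤ M.T)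
include hT hℓς hp hle

theorem graft : Str M c Z (joinR R R₂ y a s) (π ∪ π₂) (clMrg cl cl₂ y a)
    (grafted M.Φ M.ε bD y a s q) ({x, y} ∪ E₂) :=
  (h.enc hΦ hε).graft hC hΦ hε hT hℓς hp hle

/-- Output `lineL'`: the deflected second line. -/
theorem outL : Pair M c Z (joinR R R₂ y a s) (π ∪ π₂) (clMrg cl cl₂ y a)
    (grafted M.Φ M.ε bD y a s q) x y d (lineL' M.Φ M.ε s p q) where
  str := (h.graft hC hΦ hε hT hℓς hp hle).mono Finset.subset_union_left
  ne := h.pr.ne
  bx := by
    rw [Enc.grafted_of_ne h.pr.ne h.xa]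
    exact h.pr.bx
  bY := (if_pos (Or.inl rfl)).le
  lx ht := by
    rw [(h.enc hΦ hε).st₁ hC hΦ hε hT hℓς h.pr.xπ h.pr.ne ht]
    exact h.pr.lx ht
  ly ht := by
    change M.st (clMrg cl cl₂ y a y) (s + outT M.Φ M.ε q) Z y = _
    rw [(h.enc hΦ hε).line_y hC hΦ hε hT hℓς hp hle le_rfl hle, lineAt_self]

/-- Output `lineC'`: the hit particle, deflected. -/
theorem outC' : Pair M c Z (joinR R R₂ y a s) (π ∪ π₂) (clMrg cl cl₂ y a)
    (grafted M.Φ M.ε bD y a s q) x a d (lineC' M.Φ M.ε s p q) where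
  str := (h.graft hC hΦ hε hT hℓς hp hle).mono fun k hk => by
    rcases Finset.mem_insert.1 hk with rfl | hk
    · exact Finset.mem_union_left _ h.pr.hx
    · rw [Finset.mem_singleton.1 hk]
      exact Finset.mem_union_right _ h.ha
  ne := h.xa
  bx := by
    rw [Enc.grafted_of_ne h.pr.ne h.xa]
    exact h.pr.bx
  bY := (if_pos (Or.inr rfl)).le
  lx ht := by
    rw [(h.enc hΦ hε).st₁ hC hΦ hε hT hℓς h.pr.xπ h.pr.ne ht]
    exact h.pr.lx ht
  ly ht := by
    change M.st (clMrg cl cl₂ y a a) (s + outT M.Φ M.ε q) Z a = _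
    rw [(h.enc hΦ hε).line_a hC hΦ hε hT hℓς hp hle le_rfl hle, lineAt_self]

end Hit

end Pair

/-! ### The second line meets the root of a tree -/

/-- A pair structure whose second line meets the root of the tree `(P, z)` (labels `eP`). -/
structure PTree (M : VSys J κ) (c : ℝ) (Z : J → PhasePoint) (R : ℝ → J → J → Prop) (π : Finset J)
    (cl : J → Finset J) (bD : J → ℝ) (x y : J) (d : ℝ × PhasePoint) (e : ML) (te : ℝ)
    (P : CTree) (z : PhasePoint × Par P) (eP : Idx P ↪ J) : Prop where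
  pr : Pair M c Z R π cl bD x y d e.1
  tree : TreeIn M Z M.T P z.1 z.2 eP
  dj : Disjoint π (part eP)
  bP : ∀ i, bD (eP i) = rel P z.2 i
  ct : (z, e.1) ∈ OneC423.ctSet M.Φ M.ε te P
  te_lt : te < M.T
  cd : CDok (cD M.ε z e)

namespace PTree

variable {e : ML} {te : ℝ} {P : CTree} {z : PhasePoint × Par P} {eP : Idx P ↪ J}
variable (h : PTree M c Z R π cl bD x y d e te P z eP)
include h

theorem lt_cT : e.1.1 < cT M.ε z e := h.ct.2.2.1

theorem cT_le : cT M.ε z e ≤ te := h.ct.2.2.2.1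

theorem cT_lt : cT M.ε z e < M.T := h.cT_le.trans_lt h.te_lt

theorem cT_pos : 0 < cT M.ε z e := h.pr.e_nonneg.trans_lt h.lt_cT

theorem T_pos : 0 < M.T := h.cT_pos.trans h.cT_lt

theorem rel_lt (hε : 0 < M.ε) (i : Idx P) : rel P z.2 i < cT M.ε z e :=
  TreeLines335.rel_lt hε.le h.cT_pos h.ct.2.2.2.2.2 i

variable [Nonempty κ] (hC : 1 ≤ c) (hΦ : AdmissiblePotential M.Φ) (hε : 0 < M.ε)
include hC hΦ hε

/-- The encounter. -/
theorem hit : Pair.Hit M c Z R (RC M Z (part eP)) π (part eP) cl (clOf (part eP)) bD (part eP)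
    x y (eP (root P)) d e.1 (cT M.ε z e) (cX M.ε z e) (cD M.ε z e) where
  pr := h.pr
  s₂ := Str.tree hC hε hΦ h.T_pos h.tree h.bP
  dj := h.dj
  ha := mem_part_self _
  lte := h.lt_cT
  lta := by
    rw [h.bP]
    exact h.rel_lt hε _
  cd := h.cd
  se := One796.state_l hε z e
  sa := by
    rw [clOf_mem (mem_part_self (root P)), h.tree.line_tree hΦ hε (root P) (h.rel_lt hε _).le
      h.cT_lt.le, fin_root]
    rfl
  lt_T := h.cT_lt

omit hC in
/-- State of a particle of the tree at its release time. -/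
theorem st_rel (i : Idx P) :
    M.st (part eP) (lineML M.Φ M.ε P z i).1.1 Z (eP i) = (lineML M.Φ M.ε P z i).1.2 :=
  h.tree.line_tree hΦ hε i le_rfl ((h.rel_lt hε i).trans h.cT_lt).le

/-- The structure of the families `lineML`, `d`. -/
theorem str0 : Str M c Z (joinR R (RC M Z (part eP)) y (eP (root P)) (cT M.ε z e)) (π ∪ part eP)
    (clSep cl (clOf (part eP))) bD ({x} ∪ part eP) := by
  have hh := h.hit hC hΦ hε
  have hm := (hh.enc hΦ hε).meet hε
  refine hm.join hC hε (fun k hk => ?_) fun h' => ?_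
  · rcases Finset.mem_union.1 hk with hk | hk
    · rw [Finset.mem_singleton.1 hk]
      exact Finset.mem_union_left _ h.pr.hx
    · exact Finset.mem_union_right _ hk
  · rcases Finset.mem_union.1 h'.1 with hk | hk
    · exact h.pr.ne (Finset.mem_singleton.1 hk).symm
    · exact Finset.disjoint_left.1 h.dj h.pr.yπ hk


/-- The first line, separate classes. -/
theorem lab0_d : Lab M Z (clSep cl (clOf (part eP))) x d.1 (back d) := by
  have hh := h.hit hC hΦ hε
  have hm := (hh.enc hΦ hε).meet hε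
  refine (h.str0 hC hΦ hε).lab_line (Finset.mem_union_left _ (Finset.mem_singleton_self x)) h.pr.bx
    fun ht => ?_
  rw [hm.cl₁_of h.pr.xπ]
  exact h.pr.lx ht

variable (hT : TL M c ℓ ς (π ∪ part eP) Z) (hℓς : 2 * ℓ ≤ ς) (hp : CDpass M.Φ (cD M.ε z e))
  (hle : cT M.ε z e + outT M.Φ M.ε (cD M.ε z e) ≤ M.T)
include hT hℓς hp hle

/-- The structure of the family exits, `e'`, `c'`, and `d`. -/
theorem str6 : Str M c Z (joinR R (RC M Z (part eP)) y (eP (root P)) (cT M.ε z e)) (π ∪ part eP)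
    (clMrg cl (clOf (part eP)) y (eP (root P)))
    (grafted M.Φ M.ε bD y (eP (root P)) (cT M.ε z e) (cD M.ε z e)) ({x, y} ∪ part eP) :=
  (h.hit hC hΦ hε).graft hC hΦ hε hT hℓς hp hle

/-- The exits of the tree, merged classes. -/
theorem lab6 {i : Idx P} (hi : i ≠ root P) :
    Lab M Z (clMrg cl (clOf (part eP)) y (eP (root P))) (eP i)
      (lineML M.Φ M.ε P z i).1.1 (back (lineML M.Φ M.ε P z i).1) := by
  have hh := h.hit hC hΦ hε
  have hn1 : eP i ≠ y := fun h' =>
    Finset.disjoint_left.1 h.dj h.pr.yπ (h' ▸ mem_part_self i)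
  have hn2 : eP i ≠ eP (root P) := fun h' => hi (eP.injective h')
  refine (h.str6 hC hΦ hε hT hℓς hp hle).lab_line (Finset.mem_union_right _ (mem_part_self i)) ?_
    fun ht => ?_
  · rw [Enc.grafted_of_ne hn1 hn2, h.bP]
    rfl
  · rw [(hh.enc hΦ hε).st₂ hC hΦ hε hT hℓς (mem_part_self i) hn2 ht, clOf_mem (mem_part_self i)]
    exact h.st_rel hΦ hε i

/-- The first line, merged classes. -/
theorem lab6_d : Lab M Z (clMrg cl (clOf (part eP)) y (eP (root P))) x d.1 (back d) :=
  ((h.hit hC hΦ hε).outL hC hΦ hε hT hℓς hp hle).lab_x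

/-- The line `e'`. -/
theorem lab6_e : Lab M Z (clMrg cl (clOf (part eP)) y (eP (root P))) y
    (PairD292.outL6 M.Φ M.ε P z e (some false)).1.1
    (back (PairD292.outL6 M.Φ M.ε P z e (some false)).1) :=
  ((h.hit hC hΦ hε).outL hC hΦ hε hT hℓς hp hle).lab_y (if_pos (Or.inl rfl)).symm

/-- The line `c'`. -/
theorem lab6_c : Lab M Z (clMrg cl (clOf (part eP)) y (eP (root P))) (eP (root P))
    (PairD292.outL6 M.Φ M.ε P z e (some true)).1.1
    (back (PairD292.outL6 M.Φ M.ε P z e (some true)).1) :=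
  ((h.hit hC hΦ hε).outC' hC hΦ hε hT hℓς hp hle).lab_y (if_pos (Or.inr rfl)).symm

end PTree

end Crest.Agent.R122.StrG491

end
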