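import Crest.Agent.R122.LNExit_968
import Crest.Agent.R122.PWInst2_442

/-!
# Row 122, LN1, events (helper968), part 3: two exits of one part, in terms of marked worlds

A base world `W : MW ι` with labels `f : ι ↪ J`, two lines `la`, `lb` with labels `a`, `b` of one
part.  `h3_lab` : in the worlds `W.ins la`, `W.ins lb` (glued over one virtual system) the two lines
do not meet, both alive, one strictly: this is the hypothesis `h3` of `LNEv818.pairNL_of_reach`.
`ret_lab` : the line `la` near the isolated path of a non-exit member of its part.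
`one_lab` : two exits inside one world `W` do not meet.
-/

set_option autoImplicit false
set_option linter.unusedSectionVars false

open MeasureTheory Set Filter Topology
open Crest.AnalysisR.Kinetic
open Crest.Agent.R122.Flow671 Crest.Agent.R122.Loc45 Crest.Agent.R122.Ins45
open Crest.Agent.R122.EDefs602 Crest.Agent.R122.VL581 Crest.Agent.R122.LNg410
open Crest.Agent.R122.VL581.VSys Crest.Agent.R122.VLInst442 Crest.Agent.R122.PWInst442
open Crest.Agent.R122.Causal291 Crest.Agent.R122.LN304 Crest.Agent.R122.PWGlue491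
open scoped Classical

noncomputable section

namespace Crest.Agent.R122.LNEv968

variable {J κ ι : Type} [Fintype J] [Fintype ι] {M : VSys J κ} {c ℓ ς : ℝ} {Z : J → PhasePoint}
  {Λ : Finset (Finset J)} {π : Finset J} {a b i j k : J} {N n : ℕ} {s u v : ℝ}
  {cl : J → Finset J} {W : MW ι} {f : ι ↪ J} {la lb : ML}

/-- Glued world of the marked world `W`. -/
abbrev GW (M : VSys J κ) (Z : J → PhasePoint) (cl : J → Finset J) (W : MW ι) (f : ι ↪ J) : Prop :=
  GD M Z cl (bD W f) (labs f) (XD W f M.Φ M.ε)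

/-- States of the glued world of `W`. -/
abbrev XW (M : VSys J κ) (Z : J → PhasePoint) (cl : J → Finset J) (W : MW ι) (f : ι ↪ J) :
    ℝ → J → PhasePoint :=
  XG M Z cl (bD W f) (labs f) (XD W f M.Φ M.ε)

/-- Contacts of the glued world of `W`. -/
abbrev CW (M : VSys J κ) (Z : J → PhasePoint) (cl : J → Finset J) (W : MW ι) (f : ι ↪ J) :
    ℝ → J → J → Prop :=
  CG M Z cl (bD W f) (labs f) (XD W f M.Φ M.ε)

theorem card_union_le {A B U : Finset J} (hA : (A ∪ U).card ≤ n) (hB : (B ∪ U).card ≤ n) :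
    (A ∪ B ∪ U).card ≤ n + n := by
  have h1 : A ∪ B ∪ U ⊆ (A ∪ U) ∪ (B ∪ U) := by
    intro z hz
    simp only [Finset.mem_union] at hz ⊢
    tauto
  exact (Finset.card_le_card h1).trans ((Finset.card_union_le _ _).trans (add_le_add hA hB))

/-- **Two lines of one part do not meet**, in the worlds `W.ins la`, `W.ins lb`. -/
theorem h3_lab [Nonempty κ] (hX : Ctx M c ℓ ς Z Λ N) (ha : ∀ i, f i ≠ a) (hb : ∀ i, f i ≠ b)
    (hab : a ≠ b) (H : GW M Z cl (W.ins la) (insF f a ha))
    (hW : Wd M c ℓ ς Z (XW M Z cl (W.ins la) (insF f a ha)) (CW M Z cl (W.ins la) (insF f a ha)) Λ N)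
    (H' : GW M Z cl (W.ins lb) (insF f b hb))
    (hW' : Wd M c ℓ ς Z (XW M Z cl (W.ins lb) (insF f b hb)) (CW M Z cl (W.ins lb) (insF f b hb))
      Λ N)
    (hπ : π ∈ Λ) (haπ : a ∈ π) (hbπ : b ∈ π) {R : ℝ → J → J → Prop} (hF : Fam M c Z π R)
    (hold : ∀ r, R r a b → b ∈ cl a ∧ r ≤ la.1.1 ∧ r ≤ lb.1.1) (hs : s ≤ M.T)
    (hsa : la.1.1 ≤ s) (hsb : lb.1.1 ≤ s) (hlt : la.1.1 < s ∨ lb.1.1 < s)
    (hcard : (preF (CW M Z cl (W.ins la) (insF f a ha)) a s ∪
      preF (CW M Z cl (W.ins lb) (insF f b hb)) b s ∪ uni Λ).card ≤ N) :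
    M.ε < dist ((W.add (MW.line la)).path M.Φ M.ε s (Sum.inr ())).1
      ((W.add (MW.line lb)).path M.Φ M.ε s (Sum.inr ())).1 := by
  by_contra hcon
  rw [not_lt] at hcon
  have ea : bD (W.ins la) (insF f a ha) a = la.1.1 :=
    bD_apply (W.ins la) (insF f a ha) (Sum.inr ())
  have eb : bD (W.ins lb) (insF f b hb) b = lb.1.1 :=
    bD_apply (W.ins lb) (insF f b hb) (Sum.inr ())
  have xa : XD (W.ins la) (insF f a ha) M.Φ M.ε s a = (W.ins la).path M.Φ M.ε s (Sum.inr ()) :=
    XD_apply (W.ins la) (insF f a ha) M.Φ M.ε s (Sum.inr ())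
  have xb : XD (W.ins lb) (insF f b hb) M.Φ M.ε s b = (W.ins lb).path M.Φ M.ε s (Sum.inr ()) :=
    XD_apply (W.ins lb) (insF f b hb) M.Φ M.ε s (Sum.inr ())
  have hsub : ∀ r, R r a b → b ∈ cl a ∧ a ∈ cl b := by
    intro r hr
    have h1 := (hold r hr).1
    refine ⟨h1, ?_⟩
    rw [H.eq a b h1]
    exact H.mem a ⟨b, h1⟩
  refine exit_pair hX H hW H' hW' hπ haπ hbπ hab ((mem_labs _).2 ⟨Sum.inr (), rfl⟩)
    ((mem_labs _).2 ⟨Sum.inr (), rfl⟩) ?_ ?_ hF ?_ ?_ hs (by rw [ea]; exact hsa)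
    (by rw [eb]; exact hsb) (by rw [ea, eb]; exact hlt) hcard ?_
  · intro h
    obtain ⟨i, hi⟩ := (mem_labs _).1 h
    rcases i with i | i
    · exact hb i hi
    · exact hab hi
  · intro h
    obtain ⟨i, hi⟩ := (mem_labs _).1 h
    rcases i with i | i
    · exact ha i hi
    · exact hab hi.symm
  · intro r hr
    rw [ea]
    exact ⟨(hsub r hr).1, (hold r hr).2.1⟩
  · intro r hr
    have hr' := hF.symm r b a hr
    rw [eb]
    exact ⟨(hsub r hr').2, (hold r hr').2.2⟩
  · rw [xa, xb]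
    exact hcon





end Crest.Agent.R122.LNEv968

end
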