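import Crest.Agent.R122.StrG_491
import Crest.Agent.R122.PWInst3_442
import Crest.Agent.R122.LNH3_968
import Crest.Agent.R122.UnwE_410

/-!
# Row 122, LN1 (helper968): glued worlds of a structure with marked lines on its exits

Labels `J = Fin n ⊕ σ` (gas, structure); `Str` is helper491's structure.

* `SB` : a structure over the gas `w`; `Car` : the marked line `l` is carried by the exit `x` from a
  time after its exit time on; `NB` : nobody of the marked world is close to the particle at its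
  birth (needed for reborn lines only).
* `SB.gd0`, `SB.gd1`, `SB.gd2` : the data `GD` of `cfg w`, `(cfg w).ins a`, `((cfg w).ins d).ins a`.
* `Car.old` : contacts of two exits are contacts of their class before both births.
* `nb_cfg` : `NB` for one line over the gas.
* `car_sep₁`, `car_sep₂`, `car_reborn` : lines after an encounter with separate classes;
  `car₁`, `car₂`, `car_y`, `car_a` : lines after an encounter with merged classes.
-/

set_option autoImplicit false
set_option linter.unusedSectionVars false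

open MeasureTheory Set Filter Topology
open Crest.AnalysisR.Kinetic
open Crest.Agent.R122.Flow671 hiding rel
open Crest.Agent.R122.Loc45 Crest.Agent.R122.Ins45
open Crest.Agent.R122.EDefs602 Crest.Agent.R122.VL581 Crest.Agent.R122.LNg410
open Crest.Agent.R122.VL581.VSys Crest.Agent.R122.VLInst442 Crest.Agent.R122.PWInst442
open Crest.Agent.R122.Causal291 Crest.Agent.R122.LN304 Crest.Agent.R122.PWGlue491
open Crest.Agent.R122.StrG491 Crest.Agent.R122.LNEv968 Crest.Agent.R122.LNGraft410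
open Crest.Agent.R122.OCout796 Crest.Agent.R122.Scat818
open scoped Classical

noncomputable section

namespace Crest.Agent.R122.LNS968

variable {σ κ ι μ : Type} [Fintype σ] [Fintype ι] {n : ℕ}

/-! ### General marked worlds over a structure -/

section general

variable {J : Type} [Fintype J] {M : VSys J κ} {c : ℝ} {Z : J → PhasePoint}
  {R : ℝ → J → J → Prop} {π : Finset J} {cl : J → Finset J} {β : J → ℝ} {E : Finset J}
  {W : MW ι} {f : ι ↪ J} {x y : J} {l l' : ML}

/-- Nobody of the marked world is close to the particle `i` at its birth. -/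
def NB (Φ : Space3 → ℝ) (ε : ℝ) (W : MW ι) (i : ι) : Prop :=
  ∀ j, j ≠ i → W.b j ≤ W.b i → ε < dist (W.path Φ ε (W.b i) i).1 (W.path Φ ε (W.b i) j).1

/-- The marked line `l` is carried by the exit `x` of the structure. -/
structure Car (M : VSys J κ) (Z : J → PhasePoint) (cl : J → Finset J) (β : J → ℝ) (E : Finset J)
    (x : J) (l : ML) : Prop where
  mem : x ∈ E
  le : β x ≤ l.1.1
  st : l.1.1 ≤ M.T → M.st (cl x) l.1.1 Z x = l.1.2

theorem Car.mono {E' : Finset J} (h : Car M Z cl β E x l) (hx : x ∈ E') : Car M Z cl β E' x l :=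
  ⟨hx, h.le, h.st⟩

/-- A line on the path of the exit after its exit time. -/
theorem Car.of_le (hΦ : AdmissiblePotential M.Φ) (hε : 0 < M.ε) (h : Str M c Z R π cl β E)
    (hx : x ∈ E) {t : ℝ} (hβ : β x ≤ t) (hl : l.1.1 = t)
    (hs : t ≤ M.T → l.1.2 = lineAt (β x) (M.st (cl x) (β x) Z x) t) : Car M Z cl β E x l where
  mem := hx
  le := by rw [hl]; exact hβ
  st hT := by
    rw [hl] at hT ⊢
    rw [h.line hΦ hε hx le_rfl hβ hT, hs hT]

theorem Car.exit0 (h : Str M c Z R π cl β E) (hc : Car M Z cl β E x l) :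
    Exit0 M Z cl x l.1.1 (back l.1) := h.exit0_line hc.mem hc.le hc.st

/-- Contacts of two exits are contacts of their class, before both births. -/
theorem Car.old (h : Str M c Z R π cl β E) (hc : Car M Z cl β E x l) (hc' : Car M Z cl β E y l')
    (hxy : x ≠ y) (r : ℝ) (hr : R r x y) : y ∈ cl x ∧ r ≤ l.1.1 ∧ r ≤ l'.1.1 := by
  have h1 := h.old x hc.mem y hc'.mem hxy r hr
  have h2 := h.old y hc'.mem x hc.mem hxy.symm r (h.fam.symm r x y hr)
  exact ⟨h1.1, h1.2.trans hc.le, h2.2.trans hc'.le⟩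

/-- **The data of the glued world** of a marked world whose particles are gas particles and lines on
exits. -/
theorem gd_of_str (hΦ : AdmissiblePotential M.Φ) (hε : 0 < M.ε) (h : Str M c Z R π cl β E)
    (hW : W.Ok M.Φ M.ε) (hL : ∀ i, Gas M Z cl (f i) (W.b i) (W.z i) ∨
      (Exit0 M Z cl (f i) (W.b i) (W.z i) ∧ f i ∈ E ∧ (W.b i = β (f i) ∨ NB M.Φ M.ε W i))) :
    GW M Z cl W f := by
  refine gd_of_lab' hΦ hε h.cov hW fun i => (hL i).imp id fun ⟨h1, h2, h3⟩ => ⟨h1, fun hT => ?_⟩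
  rcases h3 with h3 | h3
  · have h4 := h.last h2 (by rw [← h3]; exact hT)
    rw [← h3] at h4
    exact h4.imp id fun h5 => Or.inl h5
  · exact Or.inr (Or.inr h3)

end general

/-! ### Lines after an encounter -/

section enc

variable {J : Type} [Fintype J] {M : VSys J κ} {c ℓ ς : ℝ} {Z : J → PhasePoint}
  {R₁ R₂ : ℝ → J → J → Prop} {π₁ π₂ : Finset J} {cl₁ cl₂ : J → Finset J} {bD : J → ℝ}
  {E E₁ E₂ : Finset J} {x y a : J} {s : ℝ} {p : Space3} {q : CD} {l : ML}

section sep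

variable (h : Meet M c Z R₁ R₂ π₁ π₂ cl₁ cl₂ bD E₁ E₂ y a s)
include h



end sep

variable (h : Enc M c Z R₁ R₂ π₁ π₂ cl₁ cl₂ bD E₁ E₂ y a s p q)
include h


variable [Nonempty κ] (hC : 1 ≤ c) (hΦ : AdmissiblePotential M.Φ) (hε : 0 < M.ε)
  (hT : TL M c ℓ ς (π₁ ∪ π₂) Z) (hℓς : 2 * ℓ ≤ ς)
include hC hΦ hε hT hℓς



variable (hp : CDpass M.Φ q)
  (hle : s + outT M.Φ M.ε q ≤ M.T)
include hp hle

/-- The outgoing line of `y`. -/
theorem car_y (hl : l.1 = lineL' M.Φ M.ε s p q) :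
    Car M Z (clMrg cl₁ cl₂ y a) (grafted M.Φ M.ε bD y a s q) (E₁ ∪ E₂) y l where
  mem := Finset.mem_union_left _ h.hy
  le := by
    rw [hl]
    exact (if_pos (Or.inl rfl)).le
  st hT' := by
    rw [hl] at hT' ⊢
    exact (h.line_y hC hΦ hε hT hℓς hp hle le_rfl hT').trans (lineAt_self _ _)


end enc

/-! ### Structure over a gas -/

section gas

variable {M : VSys (Fin n ⊕ σ) κ} {c : ℝ} {w : Config n} {V : σ → PhasePoint}
  {R : ℝ → Fin n ⊕ σ → Fin n ⊕ σ → Prop} {π : Finset (Fin n ⊕ σ)}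
  {cl : Fin n ⊕ σ → Finset (Fin n ⊕ σ)} {β : Fin n ⊕ σ → ℝ} {E : Finset (Fin n ⊕ σ)}
  {x y : σ} {l d : ML}

/-- A structure over the gas `w`. -/
structure SB (M : VSys (Fin n ⊕ σ) κ) (c : ℝ) (w : Config n) (V : σ → PhasePoint)
    (R : ℝ → Fin n ⊕ σ → Fin n ⊕ σ → Prop) (π : Finset (Fin n ⊕ σ))
    (cl : Fin n ⊕ σ → Finset (Fin n ⊕ σ)) (β : Fin n ⊕ σ → ℝ) (E : Finset (Fin n ⊕ σ)) :
    Prop where
  str : Str M c (Sum.elim w V) R π cl β E
  gas : ∀ i, Sum.inl i ∉ π
  go : ∀ i, M.o ≠ some (Sum.inl i)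
  gb : ∀ i, M.b (Sum.inl i) ≤ 0

namespace SB

variable (h : SB M c w V R π cl β E)
include h

theorem base : Base M w V cl where
  gas_b := h.gb
  gas_o := h.go
  gas_cl i := h.str.cl_empty (h.gas i)
  cover := h.str.cov

theorem lab_gas (i : Fin n) : Gas M (Sum.elim w V) cl (gasE n σ i) ((MW.cfg w).b i)
    ((MW.cfg w).z i) where
  cl := h.str.cl_empty (h.gas i)
  o := h.go i
  b := max_eq_right (h.gb i)
  z := rfl

theorem mono {E' : Finset (Fin n ⊕ σ)} (hE : E' ⊆ E) : SB M c w V R π cl β E' where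
  str := h.str.mono hE
  gas := h.gas
  go := h.go
  gb := h.gb

variable (hΦ : AdmissiblePotential M.Φ) (hε : 0 < M.ε)
include hΦ hε

theorem gd0 (hW : (MW.cfg w).Ok M.Φ M.ε) : GW M (Sum.elim w V) cl (MW.cfg w) (gasE n σ) :=
  gd_of_str hΦ hε h.str hW fun i => Or.inl (h.lab_gas i)

theorem gd1 (hl : Car M (Sum.elim w V) cl β E (Sum.inr x) l)
    (hW : ((MW.cfg w).ins l).Ok M.Φ M.ε)
    (hN : l.1.1 = β (Sum.inr x) ∨ NB M.Φ M.ε ((MW.cfg w).ins l) (Sum.inr ())) :
    GW M (Sum.elim w V) cl ((MW.cfg w).ins l) (lab1 n x) := by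
  refine gd_of_str hΦ hε h.str hW fun i => ?_
  rcases i with i | i
  · exact Or.inl (h.lab_gas i)
  · exact Or.inr ⟨hl.exit0 h.str, hl.mem, hN⟩

theorem gd2 (hxy : x ≠ y) (hd : Car M (Sum.elim w V) cl β E (Sum.inr x) d)
    (hl : Car M (Sum.elim w V) cl β E (Sum.inr y) l)
    (hW : (((MW.cfg w).ins d).ins l).Ok M.Φ M.ε)
    (hNd : d.1.1 = β (Sum.inr x) ∨
      NB M.Φ M.ε (((MW.cfg w).ins d).ins l) (Sum.inl (Sum.inr ())))
    (hNl : l.1.1 = β (Sum.inr y) ∨ NB M.Φ M.ε (((MW.cfg w).ins d).ins l) (Sum.inr ())) :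
    GW M (Sum.elim w V) cl (((MW.cfg w).ins d).ins l) (lab2 n x y hxy) := by
  refine gd_of_str hΦ hε h.str hW fun i => ?_
  rcases i with (i | i) | i
  · exact Or.inl (h.lab_gas i)
  · exact Or.inr ⟨hd.exit0 h.str, hd.mem, hNd⟩
  · exact Or.inr ⟨hl.exit0 h.str, hl.mem, hNl⟩

end SB

end gas

/-! ### Reborn lines -/

/-- Nobody of the gas is close to the birth point: `NB` for the line over the gas. -/
theorem nb_cfg {Φ : Space3 → ℝ} {ε : ℝ} (hΦ : AdmissiblePotential Φ) (hε : 0 < ε) {w : Config n}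
    {l : ML} (hl : 0 < l.1.1) (h : ∀ i, ε < dist (flow Φ ε l.1.1 w i).1 l.1.2.1) :
    NB Φ ε ((MW.cfg w).ins l) (Sum.inr ()) := by
  intro j hj _
  rcases j with j | j
  · have h1 : ((MW.cfg w).ins l).b (Sum.inr ()) = l.1.1 := rfl
    rw [h1, Unw410.path_ins_birth Φ ε w hl le_rfl, Unw410.path_ins_of_le hΦ hε w hl le_rfl,
      sub_self, zero_smul, add_zero, dist_comm]
    exact h j
  · exact absurd rfl hj

end Crest.Agent.R122.LNS968

end
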