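import Crest.Agent.R122.TouchFlux_494
import Crest.Agent.R122.PairSplit_292
import Crest.Agent.R122.UnwE_410
import Crest.Agent.R122.Decomp3E_811

/-!
# Row 122, LN2 (helper494): a touch is a near passage

The first touch of a marked line happens while the line is free: `thetaL ≤ te` implies `Near … 1 te`
(`near_of_thetaL_le`); in particular the events `T1` (pairs, 292) and `touch1` (811).
-/

set_option autoImplicit false

open MeasureTheory Set
open scoped ENNReal Classical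
open Crest.AnalysisR.Kinetic

noncomputable section

namespace Crest.Agent.R122.TouchFlux494

open Crest.Agent.R122.GC311 Crest.Agent.R122.EDefs602 Crest.Agent.R122.PairD292
open Crest.Agent.R122.Decomp811 (touch1)
open Crest.Agent.R122.Boost969 (LSt posAt)
open Crest.Agent.R122.Pair292 (Lab shL)
open Crest.Agent.R122.OneC285 (lpos)

variable {Φ : Space3 → ℝ} {ε T : ℝ} {K n : ℕ} {w : Config n} {l : ML}

theorem lpos_eq_posAt (l : ML) (s : ℝ) : lpos l s = posAt s l.1 := by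
  have h := Direct658.fpos_eq l s
  unfold Direct658.fpos at h
  unfold lpos posAt
  exact h

/-- **A touch in `[0, T]` forces a near passage of the free line** (`R = 1`). -/
theorem near_of_thetaL_le (hΦ : AdmissiblePotential Φ) (hε : 0 < ε) (hZ : (MW.cfg w).Ok Φ ε)
    (hZl : ((MW.cfg w).ins l).Ok Φ ε) (hb : 0 ≤ l.1.1) (hm : l.2 ≤ K) (hT0 : 0 ≤ T)
    (h : (MW.cfg w).thetaL Φ ε K T l ≤ T) : Near Φ ε 1 T w l.1 := by
  have h1 : mT2 Φ ε T (MW.cfg w) l ≤ T := by
    by_contra hlt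
    push Not at hlt
    exact absurd h (not_le.2 (lt_thetaL_of_lt_mT2 hΦ hε hZ hZl hb hm hT0 hlt))
  by_cases hex : ∃ s ∈ Icc l.1.1 T, ∃ i, CtL Φ ε (MW.cfg w) l s i
  · obtain ⟨s, hs, i, hc⟩ := hex
    refine ⟨i, s, hs, ?_⟩
    rw [one_mul, ← lpos_eq_posAt]
    exact hc.2.2.2
  · exfalso
    unfold mT2 MeasE416.first at h1
    rw [if_neg hex] at h1
    linarith

/-- The world `w` is good if `w` is admissible. -/
theorem near_of_thetaL_le' (hΦ : AdmissiblePotential Φ) (hε : 0 < ε) (hw : w ∈ PairExcluded ε n)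
    (hZl : ((MW.cfg w).ins l).Ok Φ ε) (hb : 0 ≤ l.1.1) (hm : l.2 ≤ K) (hT0 : 0 ≤ T)
    (h : (MW.cfg w).thetaL Φ ε K T l ≤ T) : Near Φ ε 1 T w l.1 :=
  near_of_thetaL_le hΦ hε (Unw410.cfg_ok hΦ hε hw) hZl hb hm hT0 h

/-- (S3), the event `T1` of the pair functional. -/
theorem near_of_T1 (hΦ : AdmissiblePotential Φ) (hε : 0 < ε) {Q : EPar} (hQ : 0 ≤ Q.te)
    (hw : w ∈ PairExcluded ε n) {θ : Lab × LSt} (hL : OkL K θ) (hW : OkW Φ ε w θ)
    (h : T1 Φ ε K Q w θ) : Near Φ ε 1 Q.te w (dL θ).1 :=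
  near_of_thetaL_le' hΦ hε hw hW.1 hL.d0.le hL.dK hQ h.2



end Crest.Agent.R122.TouchFlux494

end
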