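import Crest.Agent.R122.LN2Inst2_473
import Crest.Agent.R122.VLInstC_442
import Crest.Agent.R122.TouchFlux2_494

/-!
# Row 122, LN2Touch (helper494)

Bad events of a translation invariant structure (no localisation) which is touched by the gas.

* `shZ`, `TInv m b z l` : the law of the structure (births, time-0 states, marked line) is
  translation invariant.
* `transport` : mass transport `(∫ χ) ∫ H dm = ∫ χ(anchor) (∫ H(shifted by a) da) dm`.
* `invc E` : invariant closure of a measurable set; null difference.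
* `ln2_touch` : `E_w ∫ 1[BadGas with all anchors] · near touch dm ≤ δ`.
-/

set_option autoImplicit false
set_option linter.unusedSectionVars false
open MeasureTheory Set
open scoped Classical ENNReal
open Crest.AnalysisR.Kinetic
noncomputable section

namespace Crest.Agent.R122.TouchFlux494

open Crest.Agent.R122.GC311 Crest.Agent.R122.VL581 Crest.Agent.R122.LN2
open Crest.Agent.R122.Kin796
open Crest.Agent.R122.VLMeas973 (TLP)
open Crest.Agent.R122.VLInst442 (ok_vadd VCt_vadd Conn_vadd)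
open Crest.Agent.R122.Boost969 (LSt posAt)
open Crest.Agent.R122.Pair292 (shL)

/-! ## Translations -/

section shift

variable {κ : Type}

/-- Translation of a configuration. -/
def shZ (a : Space3) (z : κ → PhasePoint) : κ → PhasePoint := fun i => ((z i).1 + a, (z i).2)




theorem measurable_shZ : Measurable fun p : Space3 × (κ → PhasePoint) => shZ p.1 p.2 := by
  unfold shZ
  refine measurable_pi_iff.2 fun i => ?_
  exact (((measurable_pi_apply i).comp measurable_snd).fst.add measurable_fst).prodMk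
    ((measurable_pi_apply i).comp measurable_snd).snd

theorem measurable_shL : Measurable fun p : Space3 × LSt => shL p.1 p.2 := by
  unfold shL
  fun_prop

variable [Fintype κ]


end shift

/-! ## Invariant structures and mass transport -/

section transport

variable {κ : Type} {Θ : Type} [MeasurableSpace Θ]

/-- The law of `(b, z, l)` is translation invariant. -/
structure TInv (m : Measure Θ) (b : Θ → κ → ℝ) (z : Θ → κ → PhasePoint) (l : Θ → LSt) : Prop where
  ml : Measurable l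
  inv : ∀ (a : Space3) (F : (κ → ℝ) × (κ → PhasePoint) × LSt → ℝ≥0∞), Measurable F →
    ∫⁻ θ, F (b θ, shZ a (z θ), shL a (l θ)) ∂m = ∫⁻ θ, F (b θ, z θ, l θ) ∂m

/-- **Mass transport.** -/
theorem transport {m : Measure Θ} [SFinite m] {b : Θ → κ → ℝ} {z : Θ → κ → PhasePoint}
    {l : Θ → LSt} (hb : Measurable b) (hz : Measurable z) (h : TInv m b z l)
    {H : (κ → ℝ) × (κ → PhasePoint) × LSt → ℝ≥0∞} (hH : Measurable H) {χ : Space3 → ℝ≥0∞}
    (hχ : Measurable χ) (i₀ : κ) :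
    (∫⁻ a, χ a) * ∫⁻ θ, H (b θ, z θ, l θ) ∂m =
      ∫⁻ θ, χ (z θ i₀).1 * (∫⁻ a : Space3, H (b θ, shZ a (z θ), shL a (l θ))) ∂m := by
  have hzi : Measurable fun θ => (z θ i₀).1 := ((measurable_pi_apply i₀).comp hz).fst
  have hm1 : Measurable fun p : Θ × Space3 => H (b p.1, shZ p.2 (z p.1), shL p.2 (l p.1)) :=
    hH.comp ((hb.comp measurable_fst).prodMk
      ((measurable_shZ.comp (measurable_snd.prodMk (hz.comp measurable_fst))).prodMk
        (measurable_shL.comp (measurable_snd.prodMk (h.ml.comp measurable_fst)))))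
  have hm2 : Measurable fun p : Θ × Space3 =>
      χ (z p.1 i₀).1 * H (b p.1, shZ p.2 (z p.1), shL p.2 (l p.1)) :=
    (hχ.comp (hzi.comp measurable_fst)).mul hm1
  have hm3 : Measurable fun p : Θ × Space3 => χ ((z p.1 i₀).1 - p.2) * H (b p.1, z p.1, l p.1) :=
    (hχ.comp ((hzi.comp measurable_fst).sub measurable_snd)).mul
      (hH.comp ((hb.comp measurable_fst).prodMk ((hz.comp measurable_fst).prodMk
        (h.ml.comp measurable_fst))))
  have e1 : ∫⁻ θ, χ (z θ i₀).1 * (∫⁻ a : Space3, H (b θ, shZ a (z θ), shL a (l θ))) ∂m =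
      ∫⁻ θ, (∫⁻ a : Space3, χ (z θ i₀).1 * H (b θ, shZ a (z θ), shL a (l θ))) ∂m := by
    refine lintegral_congr fun θ => ?_
    rw [lintegral_const_mul]
    exact hm1.comp (measurable_const.prodMk measurable_id)
  rw [e1, lintegral_lintegral_swap hm2.aemeasurable]
  have e2 : ∀ a : Space3, ∫⁻ θ, χ (z θ i₀).1 * H (b θ, shZ a (z θ), shL a (l θ)) ∂m =
      ∫⁻ θ, χ ((z θ i₀).1 - a) * H (b θ, z θ, l θ) ∂m := by
    intro a
    have h1 := h.inv a (fun p => χ ((p.2.1 i₀).1 - a) * H p)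
      ((hχ.comp (((measurable_pi_apply i₀).comp measurable_snd.fst).fst.sub measurable_const)).mul
        hH)
    rw [← h1]
    refine lintegral_congr fun θ => ?_
    simp only [shZ, add_sub_cancel_right]
  simp only [e2]
  rw [← lintegral_lintegral_swap hm3.aemeasurable]
  have e3 : ∀ θ, ∫⁻ a : Space3, χ ((z θ i₀).1 - a) * H (b θ, z θ, l θ) =
      (∫⁻ a, χ a) * H (b θ, z θ, l θ) := by
    intro θ
    have hc1 : Measurable fun a : Space3 => χ ((z θ i₀).1 - a) :=
      hχ.comp (measurable_const.sub measurable_id)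
    rw [lintegral_mul_const _ hc1, lintegral_sub_left_eq_self χ]
  simp only [e3]
  have hc2 : Measurable fun θ => H (b θ, z θ, l θ) := hH.comp (hb.prodMk (hz.prodMk h.ml))
  rw [lintegral_const_mul _ hc2]

/-- Invariant weights. -/
theorem TInv.withDensity {m : Measure Θ} {b : Θ → κ → ℝ} {z : Θ → κ → PhasePoint} {l : Θ → LSt}
    (hb : Measurable b) (hz : Measurable z) (h : TInv m b z l)
    {g : (κ → ℝ) × (κ → PhasePoint) × LSt → ℝ≥0∞} (hg : Measurable g)
    (hgi : ∀ a p, g (p.1, shZ a p.2.1, shL a p.2.2) = g p) :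
    TInv (m.withDensity fun θ => g (b θ, z θ, l θ)) b z l where
  ml := h.ml
  inv a F hF := by
    have hg' : Measurable fun θ => g (b θ, z θ, l θ) := hg.comp (hb.prodMk (hz.prodMk h.ml))
    have hs : Measurable fun θ => (b θ, shZ a (z θ), shL a (l θ)) :=
      hb.prodMk ((measurable_shZ.comp (measurable_const.prodMk hz)).prodMk
        (measurable_shL.comp (measurable_const.prodMk h.ml)))
    have hF1 : Measurable fun θ => F (b θ, shZ a (z θ), shL a (l θ)) := hF.comp hs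
    have hF2 : Measurable fun θ => F (b θ, z θ, l θ) := hF.comp (hb.prodMk (hz.prodMk h.ml))
    rw [lintegral_withDensity_eq_lintegral_mul _ hg' hF1,
      lintegral_withDensity_eq_lintegral_mul _ hg' hF2]
    have h1 := h.inv a (fun p => g p * F p) (hg.mul hF)
    simp only [Pi.mul_apply]
    rw [← h1]
    refine lintegral_congr fun θ => ?_
    rw [← hgi a (b θ, z θ, l θ)]

end transport

/-! ## Invariant closure -/

section invc

variable {κ : Type}

/-- Invariant closure (almost all translates are in `E`). -/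
def invc (E : Set ((κ → ℝ) × (κ → PhasePoint))) : Set ((κ → ℝ) × (κ → PhasePoint)) :=
  {p | volume {a : Space3 | (p.1, shZ a p.2) ∉ E} = 0}




variable [Fintype κ]



end invc

/-! ## Covariance of the bad partitions -/

section cov

variable {J κ' : Type} [Fintype J] {M : VSys J κ'}




end cov

/-! ## The near touch of an invariant structure -/


/-! ## Weights -/

section weights

variable {κ : Type} [Fintype κ]

theorem expW_ne_top (a : ℝ) (z : κ → PhasePoint) : expW a z ≠ ∞ := by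
  unfold expW
  exact ENNReal.prod_ne_top fun j _ => ENNReal.ofReal_ne_top


theorem expW_add (a a' : ℝ) (z : κ → PhasePoint) : expW a z * expW a' z = expW (a + a') z := by
  unfold expW
  rw [← Finset.prod_mul_distrib]
  refine Finset.prod_congr rfl fun j _ => ?_
  rw [← ENNReal.ofReal_mul (Real.exp_pos _).le, ← Real.exp_add]
  congr 2
  ring

theorem expW_eq (a : ℝ) (z : κ → PhasePoint) :
    expW a z = ENNReal.ofReal (Real.exp (a * ∑ j, ‖(z j).2‖ ^ 2)) := by
  unfold expW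
  rw [← ENNReal.ofReal_prod_of_nonneg fun j _ => (Real.exp_pos _).le, ← Real.exp_sum,
    Finset.mul_sum]

/-- Polynomial weights are absorbed by exponential ones. -/
theorem exists_one_add_le_expW {a : ℝ} (ha : 0 < a) (B : ℝ) :
    ∃ c : ℝ≥0∞, c ≠ ∞ ∧ ∀ (z : κ → PhasePoint) (v : ℝ), v ≤ B * (1 + ∑ i, ‖(z i).2‖) →
      ENNReal.ofReal (1 + v) ≤ c * expW a z := by
  refine ⟨ENNReal.ofReal ((1 + |B|) * Real.exp (Fintype.card κ * (1 / (4 * a)))),
    ENNReal.ofReal_ne_top, ?_⟩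
  intro z v hv
  rw [expW_eq, ← ENNReal.ofReal_mul (by positivity)]
  refine ENNReal.ofReal_le_ofReal ?_
  have hS : 0 ≤ ∑ i, ‖(z i).2‖ := Finset.sum_nonneg fun i _ => norm_nonneg _
  have h1 : 1 + v ≤ (1 + |B|) * (1 + ∑ i, ‖(z i).2‖) := by
    have h2 : B * (1 + ∑ i, ‖(z i).2‖) ≤ |B| * (1 + ∑ i, ‖(z i).2‖) :=
      mul_le_mul_of_nonneg_right (le_abs_self B) (by linarith)
    nlinarith
  have h2 : 1 + ∑ i, ‖(z i).2‖ ≤ Real.exp (∑ i, ‖(z i).2‖) := by
    have := Real.add_one_le_exp (∑ i, ‖(z i).2‖)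
    linarith
  have h3 : ∑ i, ‖(z i).2‖ ≤ Fintype.card κ * (1 / (4 * a)) + a * ∑ j, ‖(z j).2‖ ^ 2 := by
    have h4 : ∀ i, ‖(z i).2‖ ≤ 1 / (4 * a) + a * ‖(z i).2‖ ^ 2 := by
      intro i
      have h5 : 0 ≤ a * (‖(z i).2‖ - 1 / (2 * a)) ^ 2 := by positivity
      have h6 : a * (‖(z i).2‖ - 1 / (2 * a)) ^ 2 =
          a * ‖(z i).2‖ ^ 2 - ‖(z i).2‖ + 1 / (4 * a) := by
        field_simp
        ring
      linarith
    calc ∑ i, ‖(z i).2‖ ≤ ∑ i, (1 / (4 * a) + a * ‖(z i).2‖ ^ 2) :=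
          Finset.sum_le_sum fun i _ => h4 i
      _ = _ := by
        rw [Finset.sum_add_distrib, Finset.sum_const, Finset.card_univ, nsmul_eq_mul,
          Finset.mul_sum]
  calc 1 + v ≤ (1 + |B|) * (1 + ∑ i, ‖(z i).2‖) := h1
    _ ≤ (1 + |B|) * Real.exp (Fintype.card κ * (1 / (4 * a)) + a * ∑ j, ‖(z j).2‖ ^ 2) := by
        refine mul_le_mul_of_nonneg_left (h2.trans (Real.exp_le_exp.2 h3)) (by positivity)
    _ = (1 + |B|) * Real.exp (Fintype.card κ * (1 / (4 * a))) *
        Real.exp (a * ∑ j, ‖(z j).2‖ ^ 2) := by rw [Real.exp_add]; ring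

theorem env_anti {f₀ : PhasePoint → ℝ} {γ γ' : ℝ} {ρ : Space3 → ℝ≥0∞} {C₀ : ℝ≥0∞}
    (he : Env f₀ γ ρ C₀) (h : γ' ≤ γ) : Env f₀ γ' ρ C₀ where
  meas := he.meas
  le_one := he.le_one
  int := he.int
  fin := he.fin
  le z := (he.le z).trans (mul_le_mul_right (mul_le_mul_right (wG_anti h _) _) _)

/-- Second velocity moment. -/
theorem moment_of_env {f₀ : PhasePoint → ℝ} {γ : ℝ} (hγ : 0 < γ) {ρ : Space3 → ℝ≥0∞}
    {C₀ : ℝ≥0∞} (he : Env f₀ γ ρ C₀) :
    ∫⁻ z, ENNReal.ofReal (f₀ z) * ENNReal.ofReal (1 + ‖z.2‖ ^ 2) ≠ ∞ := by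
  set K : ℝ≥0∞ := ENNReal.ofReal (1 + 2 / γ) with hK
  have h1 : ∀ v : Space3, wG γ v * ENNReal.ofReal (1 + ‖v‖ ^ 2) ≤
      K * ENNReal.ofReal (Real.exp (-(γ / 2 * ‖v‖ ^ 2))) := by
    intro v
    unfold wG
    rw [hK, ← ENNReal.ofReal_mul (Real.exp_pos _).le, ← ENNReal.ofReal_mul (by positivity)]
    refine ENNReal.ofReal_le_ofReal ?_
    have h2 : 1 + ‖v‖ ^ 2 ≤ (1 + 2 / γ) * Real.exp (γ / 2 * ‖v‖ ^ 2) := by
      have h3 := Real.add_one_le_exp (γ / 2 * ‖v‖ ^ 2)
      have h4 : (1 + 2 / γ) * (γ / 2 * ‖v‖ ^ 2 + 1) =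
          γ / 2 * ‖v‖ ^ 2 + 1 + ‖v‖ ^ 2 + 2 / γ := by
        field_simp
        ring
      have h5 : (1 + 2 / γ) * (γ / 2 * ‖v‖ ^ 2 + 1) ≤
          (1 + 2 / γ) * Real.exp (γ / 2 * ‖v‖ ^ 2) :=
        mul_le_mul_of_nonneg_left h3 (by positivity)
      have h6 : 0 ≤ γ / 2 * ‖v‖ ^ 2 := by positivity
      have h7 : 0 ≤ 2 / γ := by positivity
      linarith
    have h8 : Real.exp (-(γ * ‖v‖ ^ 2)) * Real.exp (γ / 2 * ‖v‖ ^ 2) =
        Real.exp (-(γ / 2 * ‖v‖ ^ 2)) := by
      rw [← Real.exp_add]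
      congr 1
      ring
    calc Real.exp (-(γ * ‖v‖ ^ 2)) * (1 + ‖v‖ ^ 2)
        ≤ Real.exp (-(γ * ‖v‖ ^ 2)) * ((1 + 2 / γ) * Real.exp (γ / 2 * ‖v‖ ^ 2)) :=
          mul_le_mul_of_nonneg_left h2 (Real.exp_pos _).le
      _ = (1 + 2 / γ) * (Real.exp (-(γ * ‖v‖ ^ 2)) * Real.exp (γ / 2 * ‖v‖ ^ 2)) := by ring
      _ = _ := by rw [h8]
  have hgm : Measurable fun v : Space3 =>
      K * ENNReal.ofReal (Real.exp (-(γ / 2 * ‖v‖ ^ 2))) := by fun_prop
  have h2 : ∫⁻ z, ENNReal.ofReal (f₀ z) * ENNReal.ofReal (1 + ‖z.2‖ ^ 2) ≤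
      C₀ * ((∫⁻ x, ρ x) * ∫⁻ v : Space3, K * ENNReal.ofReal (Real.exp (-(γ / 2 * ‖v‖ ^ 2)))) := by
    calc ∫⁻ z, ENNReal.ofReal (f₀ z) * ENNReal.ofReal (1 + ‖z.2‖ ^ 2)
        ≤ ∫⁻ z : PhasePoint, C₀ * (ρ z.1 *
          (K * ENNReal.ofReal (Real.exp (-(γ / 2 * ‖z.2‖ ^ 2))))) := by
          refine lintegral_mono fun z => ?_
          calc ENNReal.ofReal (f₀ z) * ENNReal.ofReal (1 + ‖z.2‖ ^ 2)
              ≤ C₀ * (ρ z.1 * wG γ z.2) * ENNReal.ofReal (1 + ‖z.2‖ ^ 2) :=
                mul_le_mul_left (he.le z) _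
            _ = C₀ * (ρ z.1 * (wG γ z.2 * ENNReal.ofReal (1 + ‖z.2‖ ^ 2))) := by ring
            _ ≤ _ := mul_le_mul_right (mul_le_mul_right (h1 z.2) _) _
      _ = _ := by
          rw [lintegral_const_mul' _ _ he.fin]
          congr 1
          exact lintegral_prod_mul (μ := (volume : Measure Space3))
            (ν := (volume : Measure Space3)) (f := ρ)
            (g := fun v => K * ENNReal.ofReal (Real.exp (-(γ / 2 * ‖v‖ ^ 2))))
            he.meas.aemeasurable hgm.aemeasurable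
  refine ne_top_of_le_ne_top ?_ h2
  refine ENNReal.mul_ne_top he.fin (ENNReal.mul_ne_top he.int.ne ?_)
  rw [lintegral_const_mul' _ _ ENNReal.ofReal_ne_top]
  exact ENNReal.mul_ne_top ENNReal.ofReal_ne_top
    (lintegral_gaussian_lt_top (by positivity)).ne

end weights

/-! ## Core estimate -/


/-! ## Main theorem -/

section main

variable {Φ : Space3 → ℝ} {f₀ : PhasePoint → ℝ} {T γ : ℝ} {ρ : Space3 → ℝ≥0∞} {C₀ : ℝ≥0∞}
variable {κ : Type} [Fintype κ]

/-- The localisation function: indicator of the unit ball. -/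
def chi (x : Space3) : ℝ≥0∞ := (Metric.closedBall (0 : Space3) 1).indicator 1 x

theorem measurable_chi : Measurable chi := measurable_one.indicator measurableSet_closedBall









end main

end Crest.Agent.R122.TouchFlux494

end
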