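import Crest.Agent.R122.StrN_998
import Crest.Agent.R122.LN2Touch_494

-- ▼ part R122/MargStep_494
section

/-!
# Row 122, block H4 (helper494): integrating out a fresh step

* `step_mass` : mass of the contacts of a free line with a fresh Gaussian particle, with an
  exponential velocity weight, is at most `C (1 + |v|)`, uniformly in `ε`.
* `step_marg` : one step of `marg_le`.
-/

set_option autoImplicit false
set_option linter.unusedSectionVars false

open MeasureTheory ProbabilityTheory Set Filter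
open scoped ENNReal Classical Topology
open Crest.AnalysisR.Kinetic

noncomputable section

namespace Crest.Agent.R122.Marg494

open Crest.Agent.R122.GC311
open Crest.Agent.R122.Boost969 (LSt posAt)
open Crest.Agent.R122.Kin416 (gau measurable_gau lintegral_gau_lt_top)
open Crest.Agent.R122.Pair292 hiding ML
open Crest.Agent.R122.PairReal998 Crest.Agent.R122.LN2 Crest.Agent.R122.TouchFlux494

theorem gau_mul_exp (b a : ℝ) (v : Space3) :
    gau b v * ENNReal.ofReal (Real.exp (a * ‖v‖ ^ 2)) = gau (b - a) v := by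
  unfold Kin416.gau
  rw [← ENNReal.ofReal_mul (Real.exp_pos _).le, ← Real.exp_add]
  congr 2
  ring

/-- Total mass of the contact density. -/
theorem lintegral_dens_le {b₀ : ℝ} (hb : 0 < b₀) (te : ℝ) :
    ∃ C : ℝ≥0∞, C ≠ ∞ ∧ ∀ z : LSt,
      ∫⁻ c, dens b₀ z c ∂mC te ≤ C * ENNReal.ofReal (1 + ‖z.2.2‖) := by
  set B : ℝ≥0∞ := (volume (Metric.ball (0 : Disc416.Plane) 1)) with hB
  have hBt : B ≠ ∞ := measure_ball_lt_top.ne
  set M : ℝ≥0∞ := ∫⁻ u : Space3, ENNReal.ofReal (1 + ‖u‖) * gau b₀ u with hM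
  have hMt : M ≠ ∞ := by
    have h1 : ∀ u : Space3, ENNReal.ofReal (1 + ‖u‖) * gau b₀ u ≤
        ENNReal.ofReal (Real.exp (1 / (2 * b₀))) * gau (b₀ / 2) u := by
      intro u
      unfold Kin416.gau
      rw [← ENNReal.ofReal_mul (by positivity), ← ENNReal.ofReal_mul (by positivity)]
      refine ENNReal.ofReal_le_ofReal ?_
      have h2 : 1 + ‖u‖ ≤ Real.exp ‖u‖ := by
        have := Real.add_one_le_exp ‖u‖
        linarith
      have h3 : ‖u‖ ≤ 1 / (2 * b₀) + b₀ / 2 * ‖u‖ ^ 2 := by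
        have h5 : 0 ≤ b₀ / 2 * (‖u‖ - 1 / b₀) ^ 2 := by positivity
        have h6 : b₀ / 2 * (‖u‖ - 1 / b₀) ^ 2 = b₀ / 2 * ‖u‖ ^ 2 - ‖u‖ + 1 / (2 * b₀) := by
          field_simp
          ring
        linarith
      calc (1 + ‖u‖) * Real.exp (-b₀ * ‖u‖ ^ 2)
          ≤ Real.exp (1 / (2 * b₀) + b₀ / 2 * ‖u‖ ^ 2) * Real.exp (-b₀ * ‖u‖ ^ 2) := by
            refine mul_le_mul_of_nonneg_right (h2.trans (Real.exp_le_exp.2 h3))
              (Real.exp_pos _).le
        _ = Real.exp (1 / (2 * b₀)) * Real.exp (-(b₀ / 2) * ‖u‖ ^ 2) := by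
            rw [← Real.exp_add, ← Real.exp_add]
            congr 1
            ring
    refine ne_top_of_le_ne_top ?_ (lintegral_mono h1)
    rw [lintegral_const_mul' _ _ ENNReal.ofReal_ne_top]
    exact ENNReal.mul_ne_top ENNReal.ofReal_ne_top (lintegral_gau_lt_top (by positivity)).ne
  refine ⟨ENNReal.ofReal te * (M * B), ENNReal.mul_ne_top ENNReal.ofReal_ne_top
    (ENNReal.mul_ne_top hMt hBt), fun z => ?_⟩
  have hpt : ∀ c : CDat, dens b₀ z c ≤ ENNReal.ofReal (1 + ‖z.2.2‖) *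
      (ENNReal.ofReal (1 + ‖c.2.1‖) * gau b₀ c.2.1) := by
    intro c
    unfold dens rate
    rw [← mul_assoc]
    refine mul_le_mul_left ?_ _
    split_ifs
    · rw [← ENNReal.ofReal_mul (by positivity)]
      refine ENNReal.ofReal_le_ofReal ?_
      have h1 := norm_sub_le z.2.2 c.2.1
      nlinarith [norm_nonneg z.2.2, norm_nonneg c.2.1, mul_nonneg (norm_nonneg z.2.2)
        (norm_nonneg c.2.1)]
    · exact zero_le
  have hgm : Measurable fun u : Space3 => ENNReal.ofReal (1 + ‖u‖) * gau b₀ u :=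
    (by fun_prop : Measurable fun u : Space3 => ENNReal.ofReal (1 + ‖u‖)).mul (measurable_gau b₀)
  have hm : Measurable fun c : CDat => ENNReal.ofReal (1 + ‖c.2.1‖) * gau b₀ c.2.1 :=
    hgm.comp measurable_snd.fst
  calc ∫⁻ c, dens b₀ z c ∂mC te
      ≤ ∫⁻ c, ENNReal.ofReal (1 + ‖z.2.2‖) *
        (ENNReal.ofReal (1 + ‖c.2.1‖) * gau b₀ c.2.1) ∂mC te := lintegral_mono hpt
    _ = ENNReal.ofReal (1 + ‖z.2.2‖) *
        ∫⁻ c, ENNReal.ofReal (1 + ‖c.2.1‖) * gau b₀ c.2.1 ∂mC te :=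
      lintegral_const_mul' _ _ ENNReal.ofReal_ne_top
    _ = ENNReal.ofReal (1 + ‖z.2.2‖) * (ENNReal.ofReal te * (M * B)) := by
      congr 1
      unfold mC
      rw [lintegral_prod _ hm.aemeasurable]
      have h2 : ∫⁻ q : Space3 × Disc416.Plane,
          ENNReal.ofReal (1 + ‖q.1‖) * gau b₀ q.1
            ∂((volume : Measure Space3).prod (volume.restrict (Metric.ball (0 : Disc416.Plane) 1))) =
          M * B := by
        have h3 := lintegral_prod_mul (μ := (volume : Measure Space3))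
          (ν := (volume : Measure Disc416.Plane).restrict (Metric.ball (0 : Disc416.Plane) 1))
          (f := fun u : Space3 => ENNReal.ofReal (1 + ‖u‖) * gau b₀ u)
          (g := fun _ => 1) hgm.aemeasurable aemeasurable_const
        simp only [mul_one, lintegral_const, Measure.restrict_apply MeasurableSet.univ,
          univ_inter, one_mul] at h3
        exact h3
      simp only [lintegral_const, Measure.restrict_apply MeasurableSet.univ, univ_inter,
        Real.volume_Ioc, sub_zero]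
      rw [mul_comm]
      congr 1
    _ = _ := by rw [mul_comm]

/-- **Mass of one fresh step**, with an exponential velocity weight. -/
theorem step_mass {Φ : Space3 → ℝ} (hΦ : AdmissiblePotential Φ) {b₀ a : ℝ} (ha : a < b₀)
    (te : ℝ) : ∃ C : ℝ≥0∞, C ≠ ∞ ∧ ∀ ε : ℝ, 0 < ε → ∀ z : LSt,
      activity ε * ∫⁻ c : PhasePoint, (hitS ε te).indicator
        (fun x => gau b₀ x.1.2 * ENNReal.ofReal (Real.exp (a * ‖x.1.2‖ ^ 2))) (c, z) ≤
      C * ENNReal.ofReal (1 + ‖z.2.2‖) := by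
  obtain ⟨C, hC, h⟩ := lintegral_dens_le (sub_pos.2 ha) te
  refine ⟨C, hC, fun ε hε z => ?_⟩
  have hout := outMap_outK hΦ ε none
  have h1 := lintegral_kO_hit (b₀ := b₀ - a) (te := te) hΦ hε hout z
    (F := fun _ => 1) measurable_const
  have h2 := lintegral_kO hout ε (b₀ - a) te z (F := fun _ => 1) measurable_const
  simp only [mul_one] at h1 h2
  simp only [gau_mul_exp]
  rw [← h1, h2]
  exact h z

/-- **One step of `marg_le`.** If the new structure measure is dominated by the old one times the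
contact density of the fresh particle, functionals of the old structure with an exponential weight in
all velocities are dominated by the old ones, with a slightly larger weight. -/
theorem step_marg {Φ : Space3 → ℝ} (hΦ : AdmissiblePotential Φ) {b₀ a a' : ℝ} (ha : a < b₀)
    (haa : a < a') (te B : ℝ) (κ : Type) [Fintype κ] :
    ∃ C : ℝ≥0∞, C ≠ ∞ ∧ ∀ ε : ℝ, 0 < ε → ∀ (Θ Θ' : Type) [MeasurableSpace Θ] [MeasurableSpace Θ']
      (m : Measure Θ) (m' : Measure Θ') (pr : Θ' → Θ) (cc : Θ' → PhasePoint)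
      (z : Θ → κ → PhasePoint) (e : Θ → LSt) (Q : ℝ≥0∞), Measurable e → Measurable z →
      (∀ᵐ θ ∂m, ‖(e θ).2.2‖ ≤ B * (1 + ∑ i, ‖(z θ i).2‖)) →
      (∀ G : Θ × PhasePoint → ℝ≥0∞, Measurable G →
        ∫⁻ x, G (pr x, cc x) ∂m' ≤ Q * ∫⁻ θ, activity ε * (∫⁻ c : PhasePoint,
          (hitS ε te).indicator (fun x => gau b₀ x.1.2 * G (θ, x.1)) (c, e θ)) ∂m) →
      ∀ F : Θ → ℝ≥0∞, Measurable F →
        ∫⁻ x, F (pr x) * (expW a (z (pr x)) * ENNReal.ofReal (Real.exp (a * ‖(cc x).2‖ ^ 2))) ∂m' ≤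
          C * Q * ∫⁻ θ, F θ * expW a' (z θ) ∂m := by
  obtain ⟨C₁, hC₁, h1⟩ := step_mass hΦ ha te
  obtain ⟨C₂, hC₂, h2⟩ := exists_one_add_le_expW (κ := κ) (sub_pos.2 haa) B
  refine ⟨C₁ * C₂, ENNReal.mul_ne_top hC₁ hC₂, ?_⟩
  intro ε hε Θ Θ' _ _ m m' pr cc z e Q he hz hv hle F hF
  have hzm : Measurable fun θ => expW a (z θ) := (measurable_expW a).comp hz
  have hGm : Measurable fun p : Θ × PhasePoint =>
      F p.1 * (expW a (z p.1) * ENNReal.ofReal (Real.exp (a * ‖p.2.2‖ ^ 2))) :=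
    (hF.comp measurable_fst).mul ((hzm.comp measurable_fst).mul
      (by fun_prop : Measurable fun p : Θ × PhasePoint =>
        ENNReal.ofReal (Real.exp (a * ‖p.2.2‖ ^ 2))))
  have h3 := hle _ hGm
  have hpt : ∀ᵐ θ ∂m, activity ε * ∫⁻ c : PhasePoint, (hitS ε te).indicator
      (fun x => gau b₀ x.1.2 * (F θ * (expW a (z θ) *
        ENNReal.ofReal (Real.exp (a * ‖x.1.2‖ ^ 2))))) (c, e θ) ≤
      C₁ * C₂ * (F θ * expW a' (z θ)) := by
    filter_upwards [hv] with θ hθ
    have e1 : ∀ c : PhasePoint, (hitS ε te).indicator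
        (fun x : PhasePoint × LSt => gau b₀ x.1.2 * (F θ * (expW a (z θ) *
          ENNReal.ofReal (Real.exp (a * ‖x.1.2‖ ^ 2))))) (c, e θ) =
        F θ * expW a (z θ) * (hitS ε te).indicator
          (fun x : PhasePoint × LSt => gau b₀ x.1.2 *
            ENNReal.ofReal (Real.exp (a * ‖x.1.2‖ ^ 2))) (c, e θ) := by
      intro c
      by_cases hc : (c, e θ) ∈ hitS ε te
      · rw [indicator_of_mem hc, indicator_of_mem hc]
        ring
      · rw [indicator_of_notMem hc, indicator_of_notMem hc, mul_zero]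
    simp only [e1]
    have hmm : Measurable fun c : PhasePoint => (hitS ε te).indicator
          (fun x : PhasePoint × LSt => gau b₀ x.1.2 *
            ENNReal.ofReal (Real.exp (a * ‖x.1.2‖ ^ 2))) (c, e θ) := by
      have hb : Measurable fun x : PhasePoint × LSt => gau b₀ x.1.2 *
            ENNReal.ofReal (Real.exp (a * ‖x.1.2‖ ^ 2)) :=
        ((measurable_gau b₀).comp measurable_fst.snd).mul (by fun_prop)
      exact (hb.indicator (measurableSet_hitS hΦ ε te)).comp
        (measurable_id.prodMk measurable_const)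
    rw [lintegral_const_mul _ hmm]
    calc activity ε * (F θ * expW a (z θ) * ∫⁻ c : PhasePoint, (hitS ε te).indicator
          (fun x : PhasePoint × LSt => gau b₀ x.1.2 *
            ENNReal.ofReal (Real.exp (a * ‖x.1.2‖ ^ 2))) (c, e θ))
        = F θ * expW a (z θ) * (activity ε * ∫⁻ c : PhasePoint, (hitS ε te).indicator
          (fun x : PhasePoint × LSt => gau b₀ x.1.2 *
            ENNReal.ofReal (Real.exp (a * ‖x.1.2‖ ^ 2))) (c, e θ)) := by ring
      _ ≤ F θ * expW a (z θ) * (C₁ * (C₂ * expW (a' - a) (z θ))) := by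
          refine mul_le_mul_right ((h1 ε hε (e θ)).trans (mul_le_mul_right ?_ _)) _
          exact h2 _ _ hθ
      _ = C₁ * C₂ * (F θ * (expW a (z θ) * expW (a' - a) (z θ))) := by ring
      _ = _ := by
          rw [expW_add, show a + (a' - a) = a' by ring]
  calc ∫⁻ x, F (pr x) * (expW a (z (pr x)) * ENNReal.ofReal (Real.exp (a * ‖(cc x).2‖ ^ 2))) ∂m'
      ≤ Q * ∫⁻ θ, activity ε * (∫⁻ c : PhasePoint, (hitS ε te).indicator
          (fun x => gau b₀ x.1.2 * (F θ * (expW a (z θ) *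
            ENNReal.ofReal (Real.exp (a * ‖x.1.2‖ ^ 2))))) (c, e θ)) ∂m := h3
    _ ≤ Q * ∫⁻ θ, C₁ * C₂ * (F θ * expW a' (z θ)) ∂m :=
        mul_le_mul_right (lintegral_mono_ae hpt) _
    _ = _ := by
        rw [lintegral_const_mul' _ _ (ENNReal.mul_ne_top hC₁ hC₂)]
        ring

end Crest.Agent.R122.Marg494

end
end

-- ▼ part R122/Marg_494

/-!
# Row 122, block H4 (helper494): lower levels of the structures `S^(j)`

* `marg_step`, `marg_iter` : **marg_le** : `∫ G (prj x) expW a (z_{k+i} x) dm_{k+i} ≤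
  C ∫ G expW a' (z_k) dm_k`, `a < a' ≤ b₀`, uniformly in `ε`.
* `gle_pull` : null events of the lower level are null events of the upper level.
* `TouchHyp.weight` : weights.
-/

set_option autoImplicit false
set_option linter.unusedSectionVars false

open MeasureTheory ProbabilityTheory Set Filter
open scoped ENNReal Classical Topology
open Crest.AnalysisR.Kinetic

noncomputable section

namespace Crest.Agent.R122.Marg494

open Crest.Agent.R122.GC311
open Crest.Agent.R122.Boost969 (LSt posAt)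
open Crest.Agent.R122.Kin416 (gau measurable_gau lintegral_gau_lt_top)
open Crest.Agent.R122.Pair292 hiding ML
open Crest.Agent.R122.PairReal998 Crest.Agent.R122.LN2 Crest.Agent.R122.StrN998
open Crest.Agent.R122.TouchFlux494 (expW_ne_top expW_add exists_one_add_le_expW expW_eq)
open Crest.Agent.R122.Gate424

/-! ## Levels -/

section levels

variable {Φ : Space3 → ℝ} {ε te b₀ : ℝ} {q : ℕ → ℝ≥0∞}
variable {Θ κ : Type} [MeasurableSpace Θ] [Fintype κ]

/-- The second line is controlled by the velocities of the structure. -/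
def VelE (S : SD Θ κ) (B : ℝ) : Prop :=
  ∀ᵐ θ ∂S.m, ‖(S.pr θ).2.2.2‖ ≤ B * (1 + ∑ i, ‖(S.z θ i).2‖)

theorem expW_mono {a a' : ℝ} (h : a ≤ a') (z : κ → PhasePoint) : expW a z ≤ expW a' z := by
  unfold expW
  refine Finset.prod_le_prod' fun j _ => ENNReal.ofReal_le_ofReal (Real.exp_le_exp.2 ?_)
  exact mul_le_mul_of_nonneg_right h (sq_nonneg _)

theorem expW_zero (z : κ → PhasePoint) : expW 0 z = 1 := by
  unfold expW
  simp

theorem expW_step (a : ℝ) (S : SD Θ κ) (x : Θ × Fr) : expW a ((S.step Φ ε b₀ te q).z x) =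
    expW a (S.z x.1) * ENNReal.ofReal (Real.exp (a * ‖x.2.1.2‖ ^ 2)) := by
  unfold expW
  rw [Fintype.prod_sum_type, Fintype.prod_unique (ι := Unit)]
  rfl

/-- Functionals of the old structure and of the fresh particle. -/
theorem lintegral_step_fst {S : SD Θ κ} [SFinite S.m] (hΦ : AdmissiblePotential Φ)
    (h : Measurable S.pr) {G : Θ × PhasePoint → ℝ≥0∞} (hG : Measurable G) :
    ∫⁻ x, G (x.1, x.2.1) ∂(S.step Φ ε b₀ te q).m = (3 * ∑' m, q m) *
      ∫⁻ θ, activity ε * (∫⁻ c : PhasePoint, (hitS ε te).indicator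
        (fun x => gau b₀ x.1.2 * G (θ, x.1)) (c, (S.pr θ).2)) ∂S.m := by
  have hF : Measurable fun x : Θ × Fr => G (x.1, x.2.1) :=
    hG.comp (measurable_fst.prodMk measurable_snd.fst)
  rw [lintegral_step hΦ h hF]
  have hs := measurable_hit (S := S) hΦ h ε te
  have hFi := hF.indicator hs
  have e1 : ∀ θ, ∫⁻ r, (S.hit ε te).indicator (fun x : Θ × Fr => G (x.1, x.2.1)) (θ, r)
      ∂frM b₀ q = (3 * ∑' m, q m) * ∫⁻ c : PhasePoint, (hitS ε te).indicator
        (fun x => gau b₀ x.1.2 * G (θ, x.1)) (c, (S.pr θ).2) := by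
    intro θ
    rw [lintegral_frM (F := fun r => (S.hit ε te).indicator
      (fun x : Θ × Fr => G (x.1, x.2.1)) (θ, r)) (hFi.comp (measurable_const.prodMk measurable_id))]
    have e2 : ∀ (m : ℕ) (k : Option Bool), ∫⁻ c : PhasePoint, gau b₀ c.2 *
        (S.hit ε te).indicator (fun x : Θ × Fr => G (x.1, x.2.1)) (θ, (c, (m, k))) =
        ∫⁻ c : PhasePoint, (hitS ε te).indicator
          (fun x => gau b₀ x.1.2 * G (θ, x.1)) (c, (S.pr θ).2) := by
      intro m k
      refine lintegral_congr fun c => ?_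
      by_cases hc : (c, (S.pr θ).2) ∈ hitS ε te
      · rw [indicator_of_mem hc,
          indicator_of_mem (show ((θ, (c, (m, k))) : Θ × Fr) ∈ S.hit ε te from hc)]
      · rw [indicator_of_notMem hc,
          indicator_of_notMem (show ((θ, (c, (m, k))) : Θ × Fr) ∉ S.hit ε te from hc), mul_zero]
    simp only [e2, ENNReal.tsum_mul_right, Finset.sum_const, Finset.card_univ,
      Fintype.card_option, Fintype.card_bool, nsmul_eq_mul]
    rw [mul_assoc]
    norm_num
  simp only [e1]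
  have hm : Measurable fun θ => ∫⁻ c : PhasePoint, (hitS ε te).indicator
        (fun x => gau b₀ x.1.2 * G (θ, x.1)) (c, (S.pr θ).2) := by
    have hs2 : MeasurableSet {p : Θ × PhasePoint | (p.2, (S.pr p.1).2) ∈ hitS ε te} := by
      have h1 : Measurable fun p : Θ × PhasePoint => ((p.2, (S.pr p.1).2) : PhasePoint × LSt) :=
        measurable_snd.prodMk (h.comp measurable_fst).snd
      exact h1 (measurableSet_hitS hΦ ε te)
    have h2 : Measurable fun p : Θ × PhasePoint => (hitS ε te).indicator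
        (fun x => gau b₀ x.1.2 * G (p.1, x.1)) (p.2, (S.pr p.1).2) := by
      have h3 : (fun p : Θ × PhasePoint => (hitS ε te).indicator
          (fun x => gau b₀ x.1.2 * G (p.1, x.1)) (p.2, (S.pr p.1).2)) =
          {p : Θ × PhasePoint | (p.2, (S.pr p.1).2) ∈ hitS ε te}.indicator
            (fun p => gau b₀ p.2.2 * G p) := by
        funext p
        by_cases hp : (p.2, (S.pr p.1).2) ∈ hitS ε te
        · rw [indicator_of_mem hp, indicator_of_mem (show p ∈ {p : Θ × PhasePoint |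
            (p.2, (S.pr p.1).2) ∈ hitS ε te} from hp)]
        · rw [indicator_of_notMem hp, indicator_of_notMem (show p ∉ {p : Θ × PhasePoint |
            (p.2, (S.pr p.1).2) ∈ hitS ε te} from hp)]
      rw [h3]
      exact ((((measurable_gau b₀).comp measurable_snd.snd)).mul hG).indicator hs2
    exact h2.lintegral_prod_right'
  rw [lintegral_const_mul _ hm, lintegral_const_mul _ hm]
  ring

/-- **One level.** -/
theorem marg_step (hΦ : AdmissiblePotential Φ) {a a' : ℝ} (ha : a < b₀) (haa : a < a')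
    (te B : ℝ) (κ : Type) [Fintype κ] :
    ∃ C : ℝ≥0∞, C ≠ ∞ ∧ ∀ ε : ℝ, 0 < ε → ∀ (q : ℕ → ℝ≥0∞) (Θ : Type) [MeasurableSpace Θ]
      (S : SD Θ κ), S.Ok → VelE S B → ∀ G : Θ → ℝ≥0∞, Measurable G →
        ∫⁻ x, G x.1 * expW a ((S.step Φ ε b₀ te q).z x) ∂(S.step Φ ε b₀ te q).m ≤
          C * (3 * ∑' m, q m) * ∫⁻ θ, G θ * expW a' (S.z θ) ∂S.m := by
  obtain ⟨C, hC, h⟩ := step_marg hΦ ha haa te B κ
  refine ⟨C, hC, fun ε hε q Θ _ S hS hv G hG => ?_⟩
  have := hS.sf
  have h1 := h ε hε Θ (Θ × Fr) S.m (S.step Φ ε b₀ te q).m Prod.fst (fun x => x.2.1) S.z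
    (fun θ => (S.pr θ).2) (3 * ∑' m, q m) hS.mpr.snd hS.mz hv
    (fun G hG => (lintegral_step_fst hΦ hS.mpr hG).le) G hG
  simp only [expW_step]
  exact h1

/-- Projection to a lower level. -/
def prj (Θ : Type) (k : ℕ) : (i : ℕ) → Th Θ (k + i) → Th Θ k
  | 0 => fun x => x
  | i + 1 => fun x => prj Θ k i x.1

theorem measurable_prj (k i : ℕ) : Measurable (prj Θ k i) := by
  induction i with
  | zero => exact measurable_id
  | succ i ih => exact ih.comp measurable_fst

/-- **marg_le.** -/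
theorem marg_iter (hΦ : AdmissiblePotential Φ) (te B : ℝ) {Q : ℝ≥0∞} (hQ : Q ≠ ∞) (k i : ℕ) :
    ∀ {a a' : ℝ}, a < a' → a' ≤ b₀ → ∃ C : ℝ≥0∞, C ≠ ∞ ∧ ∀ ε : ℝ, 0 < ε →
      ∀ (q : ℕ → ℝ≥0∞), ∑' m, q m ≤ Q → ∀ (S : SD Θ κ), S.Ok →
        (∀ l, VelE (S.iter Φ ε b₀ te q l) B) → ∀ G : Th Θ k → ℝ≥0∞, Measurable G →
        ∫⁻ x, G (prj Θ k i x) * expW a ((S.iter Φ ε b₀ te q (k + i)).z x)
            ∂(S.iter Φ ε b₀ te q (k + i)).m ≤
          C * ∫⁻ θ, G θ * expW a' ((S.iter Φ ε b₀ te q k).z θ) ∂(S.iter Φ ε b₀ te q k).m := by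
  induction i with
  | zero =>
    intro a a' haa _
    refine ⟨1, ENNReal.one_ne_top, fun ε hε q hq S hS hv G hG => ?_⟩
    rw [one_mul]
    exact lintegral_mono fun θ => mul_le_mul_right (expW_mono haa.le _) _
  | succ i ih =>
    intro a a' haa hb
    have h1 : a < (a + a') / 2 := by linarith
    have h2 : (a + a') / 2 < a' := by linarith
    obtain ⟨C₁, hC₁, hstep⟩ := marg_step (b₀ := b₀) hΦ (haa.trans_le hb) h1 te B (Ka κ (k + i))
    obtain ⟨C₂, hC₂, hih⟩ := ih h2 hb
    refine ⟨C₁ * (3 * Q) * C₂, ENNReal.mul_ne_top (ENNReal.mul_ne_top hC₁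
      (ENNReal.mul_ne_top (by simp) hQ)) hC₂, fun ε hε q hq S hS hv G hG => ?_⟩
    have hok : (S.iter Φ ε b₀ te q (k + i)).Ok := hS.iter hΦ (k + i)
    calc ∫⁻ x, G (prj Θ k (i + 1) x) * expW a ((S.iter Φ ε b₀ te q (k + (i + 1))).z x)
            ∂(S.iter Φ ε b₀ te q (k + (i + 1))).m
        ≤ C₁ * (3 * ∑' m, q m) * ∫⁻ θ, G (prj Θ k i θ) *
          expW ((a + a') / 2) ((S.iter Φ ε b₀ te q (k + i)).z θ)
            ∂(S.iter Φ ε b₀ te q (k + i)).m :=
          hstep ε hε q (Th Θ (k + i)) (S.iter Φ ε b₀ te q (k + i)) hok (hv (k + i))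
            (fun x => G (prj Θ k i x)) (hG.comp (measurable_prj k i))
      _ ≤ C₁ * (3 * Q) * (C₂ * ∫⁻ θ, G θ * expW a' ((S.iter Φ ε b₀ te q k).z θ)
            ∂(S.iter Φ ε b₀ te q k).m) :=
          mul_le_mul' (mul_le_mul_right (mul_le_mul_right hq _) _) (hih ε hε q hq S hS hv G hG)
      _ = _ := by ring


end levels

/-! ## Null events of lower levels -/

section pull

variable {f₀ : PhasePoint → ℝ} {I Θ Θ' : Type} [MeasurableSpace Θ] [MeasurableSpace Θ']
  {m : ℝ → I → Measure Θ} {m' : ℝ → I → Measure Θ'} {pr : ℝ → I → Θ' → Θ}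
  {E : ℝ → I → (n : ℕ) → Θ → Config n → Prop} {C δ : ℝ≥0∞}

/-- Pull-back of null events. -/
theorem gle_pull (hf : Measurable f₀) (hpr : ∀ ε i, 0 < ε → Measurable (pr ε i))
    (hm : ∀ ε i, 0 < ε → ∀ F : Θ → ℝ≥0∞, Measurable F →
      ∫⁻ x, F (pr ε i x) ∂m' ε i ≤ C * ∫⁻ θ, F θ ∂m ε i) (h : GLe f₀ m E δ) :
    GLe f₀ m' (fun ε i n x w => E ε i n (pr ε i x) w) (C * δ) := by
  obtain ⟨ε₀, h0, h⟩ := h
  refine ⟨ε₀, h0, fun ε hε hlt i => ?_⟩
  obtain ⟨G, hGm, hG, hGi⟩ := h ε hε hlt i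
  refine ⟨fun n p => G n (pr ε i p.1, p.2), fun n => ?_, ?_, ?_⟩
  · exact (hGm n).comp (((hpr ε i hε).comp measurable_fst).prodMk measurable_snd)
  · intro n x w hw hE
    exact hG n _ w hw hE
  · have hgm : Measurable fun θ => gcE f₀ ε (fun n w => G n (θ, w)) :=
      BadHit370.measurable_gcE_param hf ε (F := fun n θ w => G n (θ, w)) fun n => hGm n
    exact (hm ε i hε _ hgm).trans (mul_le_mul_right hGi _)


end pull

/-! ## Weights -/

section weight

variable {T γ a : ℝ} {ρ : Space3 → ℝ≥0∞} {c cv : ℝ≥0∞} {I Θ κ : Type} [MeasurableSpace Θ]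
  [Fintype κ] {m : ℝ → I → Measure Θ} {b : ℝ → I → Θ → κ → ℝ} {z : ℝ → I → Θ → κ → PhasePoint}
  {Tr : ℝ → I → Space3 → Θ → Θ} {d : ℝ → I → Θ → LSt} {te : I → ℝ}
  {Λ : Measure (κ → ℝ)}

theorem tinvS_weight {m : Measure Θ} {Tr : Space3 → Θ → Θ} {b : Θ → κ → ℝ}
    {z : Θ → κ → PhasePoint} {d : Θ → LSt} (h : TInvS m Tr b z d) {W : Θ → ℝ≥0∞}
    (hW : Measurable W) (hWi : ∀ a θ, W (Tr a θ) = W θ) :
    TInvS (m.withDensity W) Tr b z d where
  mT := h.mT
  inv a := by
    have hTa : Measurable (Tr a) := h.mT.comp (measurable_const.prodMk measurable_id)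
    refine Measure.ext_of_lintegral _ fun F hF => ?_
    have hFT : Measurable fun x => F (Tr a x) := hF.comp hTa
    rw [lintegral_map hF hTa, lintegral_withDensity_eq_lintegral_mul _ hW hFT,
      lintegral_withDensity_eq_lintegral_mul _ hW hF]
    conv_rhs => rw [← h.inv a]
    rw [lintegral_map (hW.mul hF) hTa]
    refine lintegral_congr fun θ => ?_
    simp only [Pi.mul_apply, Function.comp_apply, hWi]
  mb := h.mb
  mz := h.mz
  md := h.md
  b_tr := h.b_tr
  z_tr := h.z_tr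
  d_tr := h.d_tr

/-- Invariant weights below an exponential of the velocities. -/
theorem _root_.Crest.Agent.R122.LN2.TouchHyp.weight (H : TouchHyp T γ a ρ c cv Λ m b z Tr d te)
    {W : ℝ → I → Θ → ℝ≥0∞} {a' : ℝ} {c' : ℝ≥0∞} (hc' : c' ≠ ∞) (ha : a < γ - a')
    (hW : ∀ ε i, Measurable (W ε i)) (hWi : ∀ ε i, 0 < ε → ∀ x θ, W ε i (Tr ε i x θ) = W ε i θ)
    (hle : ∀ ε i θ, W ε i θ ≤ c' * expW a' (z ε i θ)) :
    TouchHyp T (γ - a') a ρ (c' * c) cv Λ (fun ε i => (m ε i).withDensity (W ε i)) b z Tr d te where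
  sf ε i := by
    have := H.sf ε i
    infer_instance
  dom ε i hε := (H.dom ε i hε).weight a' (hW ε i) (hle ε i) hc'
  tr ε i hε := tinvS_weight (H.tr ε i hε) (hW ε i) (hWi ε i hε)
  birth ε i hε := (withDensity_absolutelyContinuous _ _).ae_le (H.birth ε i hε)
  vel ε i hε := (withDensity_absolutelyContinuous _ _).ae_le (H.vel ε i hε)
  hor := H.hor
  cf := ENNReal.mul_ne_top hc' H.cf
  cvf := H.cvf
  aγ := ha

end weight

end Crest.Agent.R122.Marg494

end
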