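import Crest.Agent.R122.NuHit_969
import Crest.Agent.R122.ShpOkN_998

/-!
# Row 122, S^(j) (helper969): almost sure facts of the continued shapes

* `HitS S Φ b₀ te q ε j x` : `HitAll` for the shape `itS S Φ b₀ te q j`, recursive on the level.
* `ae_itS` : the facts of the base and the contact facts of all steps.
* `AllLv P j x` : the property `P` holds at all levels `k ≤ j`; `ae_allLv`.
-/

set_option autoImplicit false
set_option linter.unusedSectionVars false

open MeasureTheory ProbabilityTheory Set Filter Topology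
open scoped ENNReal
open Crest.AnalysisR.Kinetic
open Crest.Agent.R122.Kin796 Crest.Agent.R122.EDefs602
open Crest.Agent.R122.Boost969 (LSt)
open Crest.Agent.R122.Pair292 (Lab)
open Crest.Agent.R122.PairReal998 Crest.Agent.R122.StrN998
open Crest.Agent.R122.PairRep581 (Shp ShpOk)

noncomputable section

namespace Crest.Agent.R122.NuHit969

variable {Φ : Space3 → ℝ} {ε te b₀ : ℝ} {q : ℕ → ℝ≥0∞}

/-- **The contact facts of all steps**, for the continuations of a shape. -/
def HitS (S : Shp) (Φ : Space3 → ℝ) (b₀ te : ℝ) (q : ℕ → ℝ≥0∞) (ε : ℝ) :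
    (j : ℕ) → Th S.Θ j → Prop
  | 0, _ => True
  | j + 1, x => HitS S Φ b₀ te q ε j x.1 ∧
      HitD Φ ε te x.2.1 ((itS S Φ b₀ te q j).th ε x.1).2

theorem hitS_iff (S : Shp) (j : ℕ) (x : Th S.Θ j) :
    HitS S Φ b₀ te q ε j x ↔ HitAll (ofShp S ε) Φ ε b₀ te q j x := by
  induction j with
  | zero => exact Iff.rfl
  | succ j ih => exact and_congr (ih x.1) Iff.rfl


theorem itS_b_succ (S : Shp) (j : ℕ) (x : Th S.Θ (j + 1)) :
    (itS S Φ b₀ te q (j + 1)).b ε x =
      (Sum.elim ((itS S Φ b₀ te q j).b ε x.1) (fun _ => 0) : Ka S.κ j ⊕ Unit → ℝ) := rfl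



section shp

variable {γ β : ℝ} {ρ : Space3 → ℝ≥0∞} {S : Shp}

/-- **Almost sure facts of the continued shapes.** -/
theorem ae_itS (h : ShpOk γ β ρ S) (hΦ : AdmissiblePotential Φ) (hε : 0 < ε) {p : S.Θ → Prop}
    (hp : ∀ᵐ θ ∂(S.m ε), p θ) (j : ℕ) :
    ∀ᵐ x ∂((itS S Φ b₀ te q j).m ε), p (bas S.Θ j x) ∧ HitS S Φ b₀ te q ε j x := by
  have hok := ShpOk.sd_ok h hε
  filter_upwards [ae_bas (b₀ := b₀) (te := te) (q := q) hok hΦ hp j,
    ae_hitAll (b₀ := b₀) (te := te) (q := q) hok hΦ hε j] with x h1 h2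
  exact ⟨h1, (hitS_iff S j x).2 h2⟩


end shp

end Crest.Agent.R122.NuHit969

end
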