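import Crest.Agent.R122.PairRoot_292

/-!
# Realisation of the continuation kernels (row 122, block H4), helper998

* `hitS`, `hitO` : contact of a free line with a fresh free particle `c`, outgoing line.
* `lintegral_kO_hit`, `lintegral_stO_hit` : the continuation kernels of helper292 are integrals over the
  time-`0` data of a fresh Gaussian particle.
* `outK`, `fK`, `K3` : the three outputs; `lintegral_K3_hit`.
* `PX.mono` : pair laws below a pair law of the class.
-/

set_option autoImplicit false
set_option linter.unusedSectionVars false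
set_option maxHeartbeats 400000

open MeasureTheory ProbabilityTheory Set Filter
open scoped ENNReal Classical Topology
open Crest.AnalysisR.Kinetic
open Crest.Agent.R122.Kin796 Crest.Agent.R122.Kin796.CTree Crest.Agent.R122.Tree674
open Crest.Agent.R122.GC311
open Crest.Agent.R122.EDefs602
open Crest.Agent.R122.Boost969 (LSt posAt SprL)
open Crest.Agent.R122.Kin416 (gau measurable_gau)
open Crest.Agent.R122.Pair292 hiding ML
open Crest.Agent.R122.PairD292
open Crest.Agent.R122.OneC285 (cfT rt cT cB cD cX lpos uI ptube RF MeasRF rfl4)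
open Crest.Agent.R122.Disc416 Crest.Agent.R122.Flux663

noncomputable section

namespace Crest.Agent.R122.PairReal998

variable {Φ : Space3 → ℝ} {ε te b₀ : ℝ} {out : ℝ → Space3 → OCout796.CD → LSt}

/-! ## Contact with a fresh free particle -/

/-- The free line `z` enters the ball around the fresh free particle `c` (time-`0` data) at a positive
time `≤ te`, after its birth. -/
def hitS (ε te : ℝ) : Set (PhasePoint × LSt) :=
  {q | (OneC423.relL q.1 q.2).2 ≠ 0 ∧ ‖bline (OneC423.relL q.1 q.2)‖ ≤ ε ∧
    q.2.1 < OC663.entT ε (OneC423.relL q.1 q.2) ∧ OC663.entT ε (OneC423.relL q.1 q.2) ≤ te ∧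
    0 < OC663.entT ε (OneC423.relL q.1 q.2)}

/-- Output line. -/
def hitO (out : ℝ → Space3 → OCout796.CD → LSt) (ε : ℝ) (c : PhasePoint) (z : LSt) : LSt :=
  out (cT (P := leaf) ε (c, ()) (z, 0)) (cX (P := leaf) ε (c, ()) (z, 0))
    (cD (P := leaf) ε (c, ()) (z, 0))

theorem valid_leaf (s : ℝ) (u : Space3) (p : Par leaf) : Valid Φ ε leaf s u p := ⟨trivial, trivial⟩

theorem mem_hitS {c : PhasePoint} {z : LSt} : (c, z) ∈ hitS ε te ↔
    ((((c, ()) : PhasePoint × Par leaf), z) ∈ OneC423.ctSet Φ ε te leaf ∧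
      0 < cT (P := leaf) ε (c, ()) (z, 0)) := by
  constructor
  · rintro ⟨h1, h2, h3, h4, h5⟩
    exact ⟨⟨h1, h2, h3, h4, valid_leaf _ _ _⟩, h5⟩
  · rintro ⟨⟨h1, h2, h3, h4, -⟩, h5⟩
    exact ⟨h1, h2, h3, h4, h5⟩

theorem measurableSet_hitS (hΦ : AdmissiblePotential Φ) (ε te : ℝ) :
    MeasurableSet (hitS ε te) := by
  have hi : Measurable fun q : PhasePoint × LSt =>
      ((((q.1, ()) : PhasePoint × Par leaf), q.2) : (PhasePoint × Par leaf) × LSt) :=
    (measurable_fst.prodMk measurable_const).prodMk measurable_snd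
  have h1 : MeasurableSet {q : PhasePoint × LSt |
      (((q.1, ()) : PhasePoint × Par leaf), q.2) ∈ OneC423.ctSet Φ ε te leaf} :=
    hi (OneC423.measurableSet_ctSet hΦ ε te leaf)
  have h2 : MeasurableSet {q : PhasePoint × LSt | 0 < OC663.entT ε (OneC423.relL q.1 q.2)} :=
    measurableSet_lt measurable_const ((OC663.measurable_entT ε).comp OneC423.measurable_relL)
  have h3 : hitS ε te = {q : PhasePoint × LSt |
      (((q.1, ()) : PhasePoint × Par leaf), q.2) ∈ OneC423.ctSet Φ ε te leaf} ∩
      {q : PhasePoint × LSt | 0 < OC663.entT ε (OneC423.relL q.1 q.2)} := by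
    ext ⟨c, z⟩
    exact mem_hitS (Φ := Φ)
  rw [h3]
  exact h1.inter h2

theorem measurable_hitO (h : OutMap out) (ε : ℝ) :
    Measurable fun q : PhasePoint × LSt => hitO out ε q.1 q.2 := by
  unfold hitO cT cX cD cB
  have hr : Measurable fun q : PhasePoint × LSt => OneC423.relL q.1 q.2 := OneC423.measurable_relL
  have hT : Measurable fun q : PhasePoint × LSt => OC663.entT ε (OneC423.relL q.1 q.2) :=
    (OC663.measurable_entT ε).comp hr
  have hB : Measurable fun q : PhasePoint × LSt => OC663.entB ε (OneC423.relL q.1 q.2) :=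
    (OC663.measurable_entB ε).comp hr
  have hX : Measurable fun q : PhasePoint × LSt =>
      q.1.1 + OC663.entT ε (OneC423.relL q.1 q.2) • q.1.2 :=
    measurable_fst.fst.add (hT.smul measurable_fst.snd)
  have hD : Measurable fun q : PhasePoint × LSt =>
      ((q.2.2.2, q.1.2, OC663.entB ε (OneC423.relL q.1 q.2)) : OCout796.CD) :=
    measurable_snd.snd.snd.prodMk (measurable_fst.snd.prodMk hB)
  exact h.meas.comp (hT.prodMk (hX.prodMk hD))

/-- In root coordinates. -/
theorem hitO_rootL (hε : 0 < ε) {z : LSt} {c : CDat} (hg : z.2.2 - c.2.1 ≠ 0)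
    (hy : ‖c.2.2‖ < 1) : hitO out ε (rootL ε z c) z = outC out ε z c := by
  unfold hitO outC
  have e1 : cT (P := leaf) ε (rootL ε z c, ()) (z, 0) = c.1 :=
    cT_rootL (P := leaf) (p := ()) (e := ((z, 0) : ML)) hε hg hy
  have e2 : cX (P := leaf) ε (rootL ε z c, ()) (z, 0) = xC ε z c :=
    cX_rootL (P := leaf) (p := ()) (e := ((z, 0) : ML)) hε hg hy
  have e3 : cD (P := leaf) ε (rootL ε z c, ()) (z, 0) = cdC z c :=
    cD_rootL (P := leaf) (p := ()) (e := ((z, 0) : ML)) hε hg hy
  rw [e1, e2, e3]

/-- Integrals over the parameters of a leaf. -/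
theorem lintegral_leaf (F : PhasePoint × Par leaf → ℝ≥0∞) (hF : Measurable F) :
    ∫⁻ q : PhasePoint × Par leaf, F q = ∫⁻ c : PhasePoint, F (c, ()) := by
  rw [Measure.volume_eq_prod, lintegral_prod _ hF.aemeasurable]
  refine lintegral_congr fun c => ?_
  exact lintegral_dirac (() : Unit) fun p => F (c, p)

/-- **The continuation kernel as a contact with a fresh Gaussian particle.** -/
theorem lintegral_kO_hit (hΦ : AdmissiblePotential Φ) (hε : 0 < ε) (h : OutMap out) (z : LSt)
    {F : LSt → ℝ≥0∞} (hF : Measurable F) :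
    ∫⁻ z', F z' ∂kO ε b₀ te out z = activity ε * ∫⁻ c : PhasePoint,
      (hitS ε te).indicator (fun q => gau b₀ q.1.2 * F (hitO out ε q.1 q.2)) (c, z) := by
  rw [lintegral_kO h ε b₀ te z hF]
  -- the functional on the leaf trees
  set F' : PhasePoint × Par leaf → ℝ≥0∞ := fun q =>
    if 0 < OC663.entT ε (OneC423.relL q.1 z) then gau b₀ q.1.2 * F (hitO out ε q.1 z) else 0
    with hF'
  have hFm : Measurable F' := by
    refine Measurable.ite ?_ ?_ measurable_const
    · have h1 : Measurable fun q : PhasePoint × Par leaf => OneC423.relL q.1 z :=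
        OneC423.measurable_relL.comp (f := fun q : PhasePoint × Par leaf => (q.1, z))
          (measurable_fst.prodMk measurable_const)
      exact measurableSet_lt measurable_const ((OC663.measurable_entT ε).comp h1)
    · have h1 : Measurable fun q : PhasePoint × Par leaf => hitO out ε q.1 z :=
        (measurable_hitO h ε).comp (f := fun q : PhasePoint × Par leaf => (q.1, z))
          (measurable_fst.prodMk measurable_const)
      exact ((measurable_gau b₀).comp (measurable_snd.comp measurable_fst)).mul (hF.comp h1)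
  have hct : MeasurableSet {q : PhasePoint × Par leaf | (q, z) ∈ OneC423.ctSet Φ ε te leaf} :=
    (measurable_id.prodMk (measurable_const (a := z))) (OneC423.measurableSet_ctSet hΦ ε te leaf)
  have e1 : ∫⁻ c : PhasePoint, (hitS ε te).indicator
      (fun q => gau b₀ q.1.2 * F (hitO out ε q.1 q.2)) (c, z) =
      ∫⁻ q : PhasePoint × Par leaf, {q | (q, z) ∈ OneC423.ctSet Φ ε te leaf}.indicator F' q := by
    rw [lintegral_leaf _ (hFm.indicator hct)]
    refine lintegral_congr fun c => ?_
    by_cases hc : (c, z) ∈ hitS ε te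
    · rw [indicator_of_mem hc]
      have hc' := (mem_hitS (Φ := Φ)).1 hc
      rw [indicator_of_mem (show ((c, ()) : PhasePoint × Par leaf) ∈
        {q : PhasePoint × Par leaf | (q, z) ∈ OneC423.ctSet Φ ε te leaf} from hc'.1)]
      simp only [hF']
      rw [if_pos hc.2.2.2.2]
    · rw [indicator_of_notMem hc]
      by_cases hd : ((c, ()) : PhasePoint × Par leaf) ∈
          {q : PhasePoint × Par leaf | (q, z) ∈ OneC423.ctSet Φ ε te leaf}
      · rw [indicator_of_mem hd]
        simp only [hF']
        rw [if_neg]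
        intro h0
        exact hc ((mem_hitS (Φ := Φ)).2 ⟨hd, h0⟩)
      · rw [indicator_of_notMem hd]
  rw [e1, OneC423.lintegral_ct_root hΦ hε z hFm, ← mul_assoc, act_mul_sq hε, one_mul]
  -- planar coordinates
  set A : CDat → ℝ≥0∞ := fun c => ENNReal.ofReal ‖z.2.2 - c.2.1‖ *
    (gau b₀ c.2.1 * F (outC out ε z c)) with hA
  have hAm : Measurable A := by
    refine Measurable.mul ?_ (((measurable_gau b₀).comp (by fun_prop)).mul
      (hF.comp ((measurable_outC h ε).comp (measurable_const.prodMk measurable_id))))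
    exact (by fun_prop : Measurable fun c : CDat => ‖z.2.2 - c.2.1‖).ennreal_ofReal
  have hvalid : ∀ (s : ℝ) (u : Space3), {p : Par leaf | Valid Φ ε leaf s u p} = univ := by
    intro s u
    ext p
    exact ⟨fun _ => trivial, fun _ => valid_leaf _ _ _⟩
  have e2 : ∀ (s : ℝ) (u : Space3), ENNReal.ofReal ‖z.2.2 - u‖ *
      ∫⁻ b in impactDisc (z.2.2 - u), (∫⁻ p : Par leaf,
        {p | Valid Φ ε leaf s u p}.indicator (fun p => F' (OneC423.rootAt ε s z u b, p)) p) ∂μHE[2] =
      if 0 < s then ∫⁻ y in Metric.ball (0 : Disc416.Plane) 1, A (s, (u, y)) else 0 := by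
    intro s u
    have h1 : ∀ b : Space3, (∫⁻ p : Par leaf, {p | Valid Φ ε leaf s u p}.indicator
        (fun p => F' (OneC423.rootAt ε s z u b, p)) p) = F' (OneC423.rootAt ε s z u b, ()) := by
      intro b
      rw [hvalid]
      simp only [indicator_univ]
      exact lintegral_dirac (() : Unit) fun p => F' (OneC423.rootAt ε s z u b, p)
    simp only [h1]
    rw [norm_mul_lintegral_impactDisc (z.2.2 - u) (fun b => F' (OneC423.rootAt ε s z u b, ())),
      ← lintegral_const_mul' _ _ ENNReal.ofReal_ne_top]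
    by_cases hg : z.2.2 - u = 0
    · simp only [hg, norm_zero, ENNReal.ofReal_zero, zero_mul, lintegral_zero, hA, ite_self]
    have h2 : ∀ y ∈ Metric.ball (0 : Disc416.Plane) 1, ENNReal.ofReal ‖z.2.2 - u‖ *
        F' (OneC423.rootAt ε s z u (frameMap (z.2.2 - u) y), ()) =
        if 0 < s then A (s, (u, y)) else 0 := by
      intro y hy
      have hy' : ‖y‖ < 1 := by simpa using hy
      have e0 : OneC423.rootAt ε s z u (frameMap (z.2.2 - u) y) = rootL ε z (s, (u, y)) :=
        (rootL_eq_rootAt ε z (s, (u, y))).symm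
      have e1 : OC663.entT ε (OneC423.relL (rootL ε z (s, (u, y))) z) = s :=
        cT_rootL (P := leaf) (p := ()) (e := ((z, 0) : ML)) (c := (s, (u, y))) hε hg hy'
      rw [e0]
      simp only [hF', hA]
      rw [e1]
      split_ifs with hs
      · rw [hitO_rootL hε (c := (s, (u, y))) hg hy', rootL_snd]
      · rw [mul_zero]
    rw [setLIntegral_congr_fun Metric.isOpen_ball.measurableSet h2]
    split_ifs
    · rfl
    · simp
  simp only [e2]
  -- the left-hand side
  have hAs : Measurable fun s : ℝ => ∫⁻ u : Space3,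
      ∫⁻ y in Metric.ball (0 : Disc416.Plane) 1, A (s, (u, y)) := by
    have h3 : Measurable fun q : ℝ × Space3 =>
        ∫⁻ y in Metric.ball (0 : Disc416.Plane) 1, A (q.1, (q.2, y)) := by
      refine Measurable.lintegral_prod_right'
        (f := fun q : (ℝ × Space3) × Disc416.Plane => A (q.1.1, (q.1.2, q.2))) ?_
      exact hAm.comp (by fun_prop)
    exact h3.lintegral_prod_right'
  have hL : ∫⁻ c, dens b₀ z c * F (outC out ε z c) ∂mC te =
      ∫⁻ s in Ioc 0 te, if z.1 < s then (∫⁻ u : Space3,
        ∫⁻ y in Metric.ball (0 : Disc416.Plane) 1, A (s, (u, y))) else 0 := by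
    have hm : Measurable fun c : CDat => dens b₀ z c * F (outC out ε z c) :=
      ((measurable_dens b₀).comp (measurable_const.prodMk measurable_id)).mul
        (hF.comp ((measurable_outC h ε).comp (measurable_const.prodMk measurable_id)))
    unfold mC
    rw [lintegral_prod _ hm.aemeasurable]
    refine lintegral_congr fun s => ?_
    have hms : Measurable fun q : Space3 × Disc416.Plane =>
        dens b₀ z (s, q) * F (outC out ε z (s, q)) := hm.comp (measurable_const.prodMk measurable_id)
    rw [lintegral_prod _ hms.aemeasurable]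
    split_ifs with hs
    · refine lintegral_congr fun u => lintegral_congr fun y => ?_
      simp only [hA]
      unfold Pair292.dens rate
      simp only [if_pos hs]
      ring
    · refine (lintegral_congr fun u => ?_).trans lintegral_zero
      refine (lintegral_congr fun y => ?_).trans lintegral_zero
      unfold Pair292.dens rate
      simp only [if_neg hs, zero_mul]
  rw [hL, ← lintegral_indicator measurableSet_Ioc, ← lintegral_indicator measurableSet_Ioc]
  refine lintegral_congr fun s => ?_
  by_cases h0 : 0 < s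
  · by_cases h1 : z.1 < s
    · by_cases h2 : s ≤ te
      · rw [indicator_of_mem (show s ∈ Ioc 0 te from ⟨h0, h2⟩),
          indicator_of_mem (show s ∈ Ioc z.1 te from ⟨h1, h2⟩), if_pos h1]
        simp only [if_pos h0]
      · rw [indicator_of_notMem (show s ∉ Ioc 0 te from fun h => h2 h.2),
          indicator_of_notMem (show s ∉ Ioc z.1 te from fun h => h2 h.2)]
    · rw [indicator_of_notMem (show s ∉ Ioc z.1 te from fun h => h1 h.1)]
      by_cases h2 : s ≤ te
      · rw [indicator_of_mem (show s ∈ Ioc 0 te from ⟨h0, h2⟩), if_neg h1]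
      · rw [indicator_of_notMem (show s ∉ Ioc 0 te from fun h => h2 h.2)]
  · rw [indicator_of_notMem (show s ∉ Ioc 0 te from fun h => h0 h.1)]
    by_cases h1 : s ∈ Ioc z.1 te
    · rw [indicator_of_mem h1]
      simp only [if_neg h0, lintegral_zero]
    · rw [indicator_of_notMem h1]

/-- **One continuation step with mark and output map.** -/
theorem lintegral_stO_hit (hΦ : AdmissiblePotential Φ) (hε : 0 < ε) (h : OutMap out)
    (f : ℕ → ℕ → ℕ) {q : ℕ → ℝ≥0∞} (hq : ∀ m, q m ≠ ∞) (p : Lab × LSt) {F : Lab × LSt → ℝ≥0∞}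
    (hF : Measurable F) :
    ∫⁻ p', F p' ∂stO ε b₀ te out f q p = activity ε * ∑' m, q m * ∫⁻ c : PhasePoint,
      (hitS ε te).indicator (fun x => gau b₀ x.1.2 * F (incM f m p.1, hitO out ε x.1 x.2))
        (c, p.2) := by
  unfold stO
  rw [lintegral_mkK f hq _ p hF, ← ENNReal.tsum_mul_left]
  refine tsum_congr fun m => ?_
  rw [lintegral_kO_hit hΦ hε h p.2 (F := fun z' => F (incM f m p.1, z'))
    (hF.comp (measurable_const.prodMk measurable_id)), ← mul_assoc, ← mul_assoc,
    mul_comm (q m)]

/-! ## The three outputs -/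

/-- Output maps: `none` = the fresh particle, reborn; `some false` = `e'`, `some true` = `c'`. -/
def outK (Φ : Space3 → ℝ) (ε : ℝ) : Option Bool → ℝ → Space3 → OCout796.CD → LSt
  | none => OCout796.lineC Φ ε
  | some false => OCout796.lineL' Φ ε
  | some true => OCout796.lineC' Φ ε

/-- Mark rules: the mark `m` of the fresh cluster, the mark `n` of the second line. -/
def fK : Option Bool → ℕ → ℕ → ℕ
  | none => fun m _ => m
  | some _ => fun m n => n + m

theorem outMap_outK (hΦ : AdmissiblePotential Φ) (ε : ℝ) : ∀ k, OutMap (outK Φ ε k)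
  | none => outMap_C hΦ ε
  | some false => outMap_L' hΦ ε
  | some true => outMap_C' hΦ ε


/-- The continuation kernel: sum over the three outputs. -/
def K3 (Φ : Space3 → ℝ) (ε b₀ te : ℝ) (q : ℕ → ℝ≥0∞) : Kernel (Lab × LSt) (Lab × LSt) :=
  stO ε b₀ te (outK Φ ε (some false)) (fK (some false)) q +
    stO ε b₀ te (outK Φ ε (some true)) (fK (some true)) q +
    stO ε b₀ te (outK Φ ε none) (fK none) q

theorem lintegral_K3 (q : ℕ → ℝ≥0∞) (p : Lab × LSt) (F : Lab × LSt → ℝ≥0∞) :
    ∫⁻ p', F p' ∂K3 Φ ε b₀ te q p =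
      ∑ k : Option Bool, ∫⁻ p', F p' ∂stO ε b₀ te (outK Φ ε k) (fK k) q p := by
  unfold K3
  rw [show (stO ε b₀ te (outK Φ ε (some false)) (fK (some false)) q +
      stO ε b₀ te (outK Φ ε (some true)) (fK (some true)) q +
      stO ε b₀ te (outK Φ ε none) (fK none) q) p =
      stO ε b₀ te (outK Φ ε (some false)) (fK (some false)) q p +
      stO ε b₀ te (outK Φ ε (some true)) (fK (some true)) q p +
      stO ε b₀ te (outK Φ ε none) (fK none) q p from rfl,
    lintegral_add_measure, lintegral_add_measure, Fintype.sum_option, Fintype.sum_bool]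
  ring

/-- **Hit form of the continuation kernel.** -/
theorem lintegral_K3_hit (hΦ : AdmissiblePotential Φ) (hε : 0 < ε) {q : ℕ → ℝ≥0∞}
    (hq : ∀ m, q m ≠ ∞) (p : Lab × LSt) {F : Lab × LSt → ℝ≥0∞} (hF : Measurable F) :
    ∫⁻ p', F p' ∂K3 Φ ε b₀ te q p = activity ε * ∑ k : Option Bool, ∑' m, q m *
      ∫⁻ c : PhasePoint, (hitS ε te).indicator (fun x => gau b₀ x.1.2 *
        F (incM (fK k) m p.1, hitO (outK Φ ε k) ε x.1 x.2)) (c, p.2) := by
  rw [lintegral_K3, Finset.mul_sum]
  refine Finset.sum_congr rfl fun k _ => ?_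
  exact lintegral_stO_hit hΦ hε (outMap_outK hΦ ε k) (fK k) hq p hF


/-! ## Monotonicity of the class -/

/-- **A translation invariant measure below a pair law of the class is in the class.** -/
theorem PX.mono {P : PPar} {Ξ ν ν' : Measure (Lab × LSt)} {c : ℝ≥0∞} (h : PX P Ξ ν c)
    (hle : ν' ≤ ν) (hs : SFinite ν') (htr : ∀ a : Space3, ν'.map (shP a) = ν') :
    PX P Ξ ν' c where
  sfν := hs
  sfΞ := h.sfΞ
  spr := h.spr.mono le_rfl hle
  marg := h.marg
  trans := htr

end Crest.Agent.R122.PairReal998

end
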