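import Crest.Agent.R122.Mark6_307
import Crest.Agent.R122.CollLeg_969

-- ▼ part R122/Mark7_307
section

/-!
Row 122, block H7b (helper307), part 7: **flipped nodes**.

`nodeL`, `nodeR` : a tree integral over `node l r` in the parameters (tree of the followed incoming
particle; fresh incoming partner and its tree).
-/

set_option autoImplicit false
set_option synthInstance.maxSize 1024

open MeasureTheory Set Filter Topology
open Crest.AnalysisR.Kinetic
open scoped ENNReal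

noncomputable section

namespace Crest.Agent.R122.Mark307

open Kin796 Kin796.CTree Disc416 Scat818 Flow671 Flux663 Tree674 TreeDom974
open scoped Classical

variable {Φ : Space3 → ℝ}

/-- weight of the fresh side of a flipped node, first orientation -/
def fL (Φ : Space3 → ℝ) (ε T : ℝ) (l r : CTree) (z1 : PhasePoint × Par l) (z2 : NodeP × Par r) :
    ℝ≥0∞ :=
  gL Φ ε T (z1.1, z2.1) * ENNReal.ofReal ‖z1.1.2 - z2.1.2.1‖ * topI l (z2.1.1, z1.2) *
    (topI r (z2.1.1, z2.2) * vw Φ ε r T (inLine ε z1.1 z2.1, z2.2))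

/-- weight of the fresh side of a flipped node, second orientation -/
def fR (Φ : Space3 → ℝ) (ε T : ℝ) (l r : CTree) (z1 : PhasePoint × Par r) (z2 : NodeP × Par l) :
    ℝ≥0∞ :=
  gR Φ ε T (z1.1, z2.1) * ENNReal.ofReal ‖z1.1.2 - z2.1.2.1‖ * topI r (z2.1.1, z1.2) *
    (topI l (z2.1.1, z2.2) * vw Φ ε l T (inLine ε z1.1 z2.1, z2.2))

/-- **Flipped node, first orientation.** -/
theorem nodeL (hΦ : AdmissiblePotential Φ) {ε : ℝ} (hε : 0 < ε) (T : ℝ) (l r : CTree)
    {H : PhasePoint × Par (node l r) → ℝ≥0∞} (hH : Measurable H) :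
    ∫⁻ z : PhasePoint × Par (node l r), vw Φ ε (node l r) T z * H z =
      ∫⁻ z1 : PhasePoint × Par l, vw Φ ε l T z1 * ∫⁻ z2 : NodeP × Par r,
        fL Φ ε T l r z1 z2 * H ((outD Φ ε T (z1.1, inLine ε z1.1 z2.1)).1,
            (((outD Φ ε T (z1.1, inLine ε z1.1 z2.1)).2, (z1.2, z2.2)) : Par (node l r))) := by
  have mo := measurable_outD hΦ hε T
  have ms := measurable_sinM hΦ ε
  have mvl := measurable_vw hΦ ε l T
  have mvr := measurable_vw hΦ ε r T
  have hF : Measurable fun z : PhasePoint × Par (node l r) => vw Φ ε (node l r) T z * H z :=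
    (measurable_vw hΦ ε (node l r) T).mul hH
  -- the function `L`
  set L : ((PhasePoint × NodeP) × (PhasePoint × PhasePoint)) × (Par l × Par r) → ℝ≥0∞ :=
    fun w => (topI l (sinM Φ ε w.1.1, w.2.1) * vw Φ ε l T (w.1.2.1, w.2.1)) *
      (topI r (sinM Φ ε w.1.1, w.2.2) * vw Φ ε r T (w.1.2.2, w.2.2)) *
      H (w.1.1.1, ((w.1.1.2, w.2) : Par (node l r))) with hLdef
  have m11 : Measurable fun w : ((PhasePoint × NodeP) × (PhasePoint × PhasePoint)) ×
      (Par l × Par r) => w.1.1 := measurable_fst.fst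
  have m121 : Measurable fun w : ((PhasePoint × NodeP) × (PhasePoint × PhasePoint)) ×
      (Par l × Par r) => w.1.2.1 := measurable_fst.snd.fst
  have m122 : Measurable fun w : ((PhasePoint × NodeP) × (PhasePoint × PhasePoint)) ×
      (Par l × Par r) => w.1.2.2 := measurable_fst.snd.snd
  have m21 : Measurable fun w : ((PhasePoint × NodeP) × (PhasePoint × PhasePoint)) ×
      (Par l × Par r) => w.2.1 := measurable_snd.fst
  have m22 : Measurable fun w : ((PhasePoint × NodeP) × (PhasePoint × PhasePoint)) ×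
      (Par l × Par r) => w.2.2 := measurable_snd.snd
  have mp : Measurable fun w : ((PhasePoint × NodeP) × (PhasePoint × PhasePoint)) ×
      (Par l × Par r) => ((w.1.1.2, w.2) : Par (node l r)) :=
    (measurable_parMk l r).comp (m11.snd.prodMk measurable_snd)
  have hL : Measurable L := by
    refine Measurable.mul (Measurable.mul ?_ ?_) ?_
    · exact ((measurable_topI l).comp ((ms.comp m11).prodMk m21)).mul
        (mvl.comp (m121.prodMk m21))
    · exact ((measurable_topI r).comp ((ms.comp m11).prodMk m22)).mul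
        (mvr.comp (m122.prodMk m22))
    · exact hH.comp (m11.fst.prodMk mp)
  set K : (PhasePoint × NodeP) × (PhasePoint × PhasePoint) → ℝ≥0∞ :=
    fun w => ∫⁻ y : Par l × Par r, L (w, y) with hKdef
  have hK : Measurable K := hL.lintegral_prod_right'
  -- Step 1
  have step1 : ∫⁻ z : PhasePoint × Par (node l r), vw Φ ε (node l r) T z * H z =
      ∫⁻ z : PhasePoint × NodeP, (Vset Φ ε T).indicator
        (fun z => ENNReal.ofReal ‖z.1.2 - z.2.2.1‖ * K (z, inMap Φ ε z.1 z.2)) z := by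
    have hin : ∀ z : PhasePoint × NodeP, (Vset Φ ε T).indicator
        (fun z => ENNReal.ofReal ‖z.1.2 - z.2.2.1‖ * K (z, inMap Φ ε z.1 z.2)) z =
        vI Φ ε T z * (ENNReal.ofReal ‖z.1.2 - z.2.2.1‖ * K (z, inM Φ ε z)) := by
      intro z
      unfold vI
      by_cases hz : z ∈ Vset Φ ε T
      · rw [indicator_of_mem hz, indicator_of_mem hz, inM_of_adm hz.1, Pi.one_apply, one_mul]
      · rw [indicator_of_notMem hz, indicator_of_notMem hz, zero_mul]
    simp only [hin]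
    have hmz : Measurable fun z : PhasePoint × NodeP =>
        vI Φ ε T z * (ENNReal.ofReal ‖z.1.2 - z.2.2.1‖ * K (z, inM Φ ε z)) := by
      have h1 : Measurable fun z : PhasePoint × NodeP => ENNReal.ofReal ‖z.1.2 - z.2.2.1‖ := by
        fun_prop
      exact (measurable_vI hΦ ε T).mul
        (h1.mul (hK.comp (measurable_id.prodMk (measurable_inM hΦ ε))))
    rw [Tree674.lintegral_pair hF, Tree674.lintegral_pair hmz]
    refine lintegral_congr fun ℓ => ?_
    have hFℓ : Measurable fun y : Par (node l r) => vw Φ ε (node l r) T (ℓ, y) * H (ℓ, y) :=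
      hF.comp (measurable_const.prodMk measurable_id)
    rw [lintegral_par_node l r hFℓ]
    refine lintegral_congr fun a => ?_
    have hLa : Measurable fun y : Par l × Par r => L (((ℓ, a), inM Φ ε (ℓ, a)), y) :=
      hL.comp (measurable_const.prodMk measurable_id)
    simp only [hKdef]
    rw [← lintegral_const_mul _ hLa, ← lintegral_const_mul _ (hLa.const_mul _)]
    refine lintegral_congr fun y => ?_
    have hv := vw_node hε (Φ := Φ) (l := l) (r := r) (T := T) ℓ a y.1 y.2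
    have hv' : vw Φ ε (node l r) T (ℓ, ((a, y) : Par (node l r))) = _ := hv
    rw [hv']
    simp only [hLdef]
    ring
  -- Step 2: flip
  have step2 := flipL hΦ hε T hK
  -- Step 3: reorder
  set G : (PhasePoint × Par l) × (NodeP × Par r) → ℝ≥0∞ := fun w =>
    (gL Φ ε T (w.1.1, w.2.1) * ENNReal.ofReal ‖w.1.1.2 - w.2.1.2.1‖ *
      topI l (w.2.1.1, w.1.2) *
      (topI r (w.2.1.1, w.2.2) * vw Φ ε r T (inLine ε w.1.1 w.2.1, w.2.2))) *
      H ((outD Φ ε T (w.1.1, inLine ε w.1.1 w.2.1)).1,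
        (((outD Φ ε T (w.1.1, inLine ε w.1.1 w.2.1)).2, (w.1.2, w.2.2)) : Par (node l r)))
    with hGdef
  have hG : Measurable G := by
    have n11 : Measurable fun w : (PhasePoint × Par l) × (NodeP × Par r) => w.1.1 :=
      measurable_fst.fst
    have n12 : Measurable fun w : (PhasePoint × Par l) × (NodeP × Par r) => w.1.2 :=
      measurable_fst.snd
    have n21 : Measurable fun w : (PhasePoint × Par l) × (NodeP × Par r) => w.2.1 :=
      measurable_snd.fst
    have n22 : Measurable fun w : (PhasePoint × Par l) × (NodeP × Par r) => w.2.2 :=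
      measurable_snd.snd
    have ho := mo.comp ((measurable_pairL ε).comp (n11.prodMk n21))
    refine Measurable.mul (Measurable.mul (Measurable.mul (Measurable.mul ?_ ?_) ?_)
      (Measurable.mul ?_ ?_)) ?_
    · exact (measurable_gL hΦ hε T).comp (n11.prodMk n21)
    · exact (n11.snd.sub n21.snd.fst).norm.ennreal_ofReal
    · exact (measurable_topI l).comp (n21.fst.prodMk n12)
    · exact (measurable_topI r).comp (n21.fst.prodMk n22)
    · exact mvr.comp (((measurable_inLine ε).comp (n11.prodMk n21)).prodMk n22)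
    · exact hH.comp (ho.fst.prodMk ((measurable_parMk l r).comp
        (ho.snd.prodMk (n12.prodMk n22))))
  have step3 : ∫⁻ z : PhasePoint × NodeP, (GoodL Φ ε T).indicator
      (fun z => ENNReal.ofReal ‖z.1.2 - z.2.2.1‖ *
        K (outD Φ ε T (z.1, inLine ε z.1 z.2), (z.1, inLine ε z.1 z.2))) z =
      ∫⁻ z1 : PhasePoint × Par l, vw Φ ε l T z1 * ∫⁻ z2 : NodeP × Par r, G (z1, z2) := by
    have hin : ∀ z : PhasePoint × NodeP, (GoodL Φ ε T).indicator
      (fun z => ENNReal.ofReal ‖z.1.2 - z.2.2.1‖ *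
        K (outD Φ ε T (z.1, inLine ε z.1 z.2), (z.1, inLine ε z.1 z.2))) z =
        ∫⁻ y : Par l × Par r, vw Φ ε l T (z.1, y.1) * G ((z.1, y.1), (z.2, y.2)) := by
      intro z
      by_cases hz : z ∈ GoodL Φ ε T
      · rw [indicator_of_mem hz]
        have hLa : Measurable fun y : Par l × Par r =>
            L ((outD Φ ε T (z.1, inLine ε z.1 z.2), (z.1, inLine ε z.1 z.2)), y) :=
          hL.comp (measurable_const.prodMk measurable_id)
        simp only [hKdef]
        rw [← lintegral_const_mul _ hLa]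
        refine lintegral_congr fun y => ?_
        have hsin : sinM Φ ε (outD Φ ε T (z.1, inLine ε z.1 z.2)) = z.2.1 := by
          rw [sinM_of_adm hz.2.1]
          exact sin_of_mem_GoodL hΦ hε hz
        have hg : gL Φ ε T (z.1, z.2) = 1 := by
          unfold gL
          rw [indicator_of_mem (show (z.1, z.2) ∈ GoodL Φ ε T from hz)]
          rfl
        simp only [hLdef, hGdef, hsin, hg]
        ring
      · rw [indicator_of_notMem hz]
        have hg : gL Φ ε T (z.1, z.2) = 0 := by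
          unfold gL
          exact indicator_of_notMem (show (z.1, z.2) ∉ GoodL Φ ε T from hz) _
        simp only [hGdef, hg]
        simp
    simp only [hin]
    have hL2 : Measurable fun w : (PhasePoint × NodeP) × (Par l × Par r) =>
        vw Φ ε l T (w.1.1, w.2.1) * G ((w.1.1, w.2.1), (w.1.2, w.2.2)) := by
      have k1 : Measurable fun w : (PhasePoint × NodeP) × (Par l × Par r) => (w.1.1, w.2.1) :=
        measurable_fst.fst.prodMk measurable_snd.fst
      have k2 : Measurable fun w : (PhasePoint × NodeP) × (Par l × Par r) => (w.1.2, w.2.2) :=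
        measurable_fst.snd.prodMk measurable_snd.snd
      exact (mvl.comp k1).mul (hG.comp (k1.prodMk k2))
    have h4 := lintegral_four (volume : Measure PhasePoint) (volume : Measure NodeP)
      (volume : Measure (Par l)) (volume : Measure (Par r)) hL2
    rw [← Measure.volume_eq_prod, ← Measure.volume_eq_prod, ← Measure.volume_eq_prod,
      ← Measure.volume_eq_prod] at h4
    rw [h4]
    refine lintegral_congr fun z1 => ?_
    have hGz : Measurable fun z2 : NodeP × Par r => G (z1, z2) :=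
      hG.comp (measurable_const.prodMk measurable_id)
    rw [← lintegral_const_mul _ hGz]
  rw [step1, step2, step3]
  rfl

/-- **Flipped node, second orientation.** -/
theorem nodeR (hΦ : AdmissiblePotential Φ) {ε : ℝ} (hε : 0 < ε) (T : ℝ) (l r : CTree)
    {H : PhasePoint × Par (node l r) → ℝ≥0∞} (hH : Measurable H) :
    ∫⁻ z : PhasePoint × Par (node l r), vw Φ ε (node l r) T z * H z =
      ∫⁻ z1 : PhasePoint × Par r, vw Φ ε r T z1 * ∫⁻ z2 : NodeP × Par l,
        fR Φ ε T l r z1 z2 * H ((outD Φ ε T (inLine ε z1.1 z2.1, z1.1)).1,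
            (((outD Φ ε T (inLine ε z1.1 z2.1, z1.1)).2, (z2.2, z1.2)) : Par (node l r))) := by
  have mo := measurable_outD hΦ hε T
  have ms := measurable_sinM hΦ ε
  have mvl := measurable_vw hΦ ε l T
  have mvr := measurable_vw hΦ ε r T
  have hF : Measurable fun z : PhasePoint × Par (node l r) => vw Φ ε (node l r) T z * H z :=
    (measurable_vw hΦ ε (node l r) T).mul hH
  -- the function `L`
  set L : ((PhasePoint × NodeP) × (PhasePoint × PhasePoint)) × (Par r × Par l) → ℝ≥0∞ :=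
    fun w => (topI r (sinM Φ ε w.1.1, w.2.1) * vw Φ ε r T (w.1.2.2, w.2.1)) *
      (topI l (sinM Φ ε w.1.1, w.2.2) * vw Φ ε l T (w.1.2.1, w.2.2)) *
      H (w.1.1.1, ((w.1.1.2, (w.2.2, w.2.1)) : Par (node l r))) with hLdef
  have m11 : Measurable fun w : ((PhasePoint × NodeP) × (PhasePoint × PhasePoint)) ×
      (Par r × Par l) => w.1.1 := measurable_fst.fst
  have m121 : Measurable fun w : ((PhasePoint × NodeP) × (PhasePoint × PhasePoint)) ×
      (Par r × Par l) => w.1.2.1 := measurable_fst.snd.fst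
  have m122 : Measurable fun w : ((PhasePoint × NodeP) × (PhasePoint × PhasePoint)) ×
      (Par r × Par l) => w.1.2.2 := measurable_fst.snd.snd
  have m21 : Measurable fun w : ((PhasePoint × NodeP) × (PhasePoint × PhasePoint)) ×
      (Par r × Par l) => w.2.1 := measurable_snd.fst
  have m22 : Measurable fun w : ((PhasePoint × NodeP) × (PhasePoint × PhasePoint)) ×
      (Par r × Par l) => w.2.2 := measurable_snd.snd
  have mp : Measurable fun w : ((PhasePoint × NodeP) × (PhasePoint × PhasePoint)) ×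
      (Par r × Par l) => ((w.1.1.2, (w.2.2, w.2.1)) : Par (node l r)) :=
    (measurable_parMk l r).comp (m11.snd.prodMk (m22.prodMk m21))
  have hL : Measurable L := by
    refine Measurable.mul (Measurable.mul ?_ ?_) ?_
    · exact ((measurable_topI r).comp ((ms.comp m11).prodMk m21)).mul
        (mvr.comp (m122.prodMk m21))
    · exact ((measurable_topI l).comp ((ms.comp m11).prodMk m22)).mul
        (mvl.comp (m121.prodMk m22))
    · exact hH.comp (m11.fst.prodMk mp)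
  set K : (PhasePoint × NodeP) × (PhasePoint × PhasePoint) → ℝ≥0∞ :=
    fun w => ∫⁻ y : Par r × Par l, L (w, y) with hKdef
  have hK : Measurable K := hL.lintegral_prod_right'
  -- Step 1
  have step1 : ∫⁻ z : PhasePoint × Par (node l r), vw Φ ε (node l r) T z * H z =
      ∫⁻ z : PhasePoint × NodeP, (Vset Φ ε T).indicator
        (fun z => ENNReal.ofReal ‖z.1.2 - z.2.2.1‖ * K (z, inMap Φ ε z.1 z.2)) z := by
    have hin : ∀ z : PhasePoint × NodeP, (Vset Φ ε T).indicator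
        (fun z => ENNReal.ofReal ‖z.1.2 - z.2.2.1‖ * K (z, inMap Φ ε z.1 z.2)) z =
        vI Φ ε T z * (ENNReal.ofReal ‖z.1.2 - z.2.2.1‖ * K (z, inM Φ ε z)) := by
      intro z
      unfold vI
      by_cases hz : z ∈ Vset Φ ε T
      · rw [indicator_of_mem hz, indicator_of_mem hz, inM_of_adm hz.1, Pi.one_apply, one_mul]
      · rw [indicator_of_notMem hz, indicator_of_notMem hz, zero_mul]
    simp only [hin]
    have hmz : Measurable fun z : PhasePoint × NodeP =>
        vI Φ ε T z * (ENNReal.ofReal ‖z.1.2 - z.2.2.1‖ * K (z, inM Φ ε z)) := by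
      have h1 : Measurable fun z : PhasePoint × NodeP => ENNReal.ofReal ‖z.1.2 - z.2.2.1‖ := by
        fun_prop
      exact (measurable_vI hΦ ε T).mul
        (h1.mul (hK.comp (measurable_id.prodMk (measurable_inM hΦ ε))))
    rw [Tree674.lintegral_pair hF, Tree674.lintegral_pair hmz]
    refine lintegral_congr fun ℓ => ?_
    have hFℓ : Measurable fun y : Par (node l r) => vw Φ ε (node l r) T (ℓ, y) * H (ℓ, y) :=
      hF.comp (measurable_const.prodMk measurable_id)
    rw [lintegral_par_node l r hFℓ]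
    refine lintegral_congr fun a => ?_
    have hLa : Measurable fun y : Par r × Par l => L (((ℓ, a), inM Φ ε (ℓ, a)), y) :=
      hL.comp (measurable_const.prodMk measurable_id)
    have hsw : ∫⁻ y : Par l × Par r, vw Φ ε (node l r) T (ℓ, ((a, y) : Par (node l r))) *
          H (ℓ, ((a, y) : Par (node l r))) =
        ∫⁻ y : Par r × Par l, vw Φ ε (node l r) T (ℓ, ((a, y.swap) : Par (node l r))) *
          H (ℓ, ((a, y.swap) : Par (node l r))) := by
      have hm : Measurable fun y : Par l × Par r =>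
          vw Φ ε (node l r) T (ℓ, ((a, y) : Par (node l r))) *
          H (ℓ, ((a, y) : Par (node l r))) :=
        hFℓ.comp ((measurable_parMk l r).comp (measurable_const.prodMk measurable_id))
      exact ((Measure.measurePreserving_swap (μ := (volume : Measure (Par r)))
        (ν := (volume : Measure (Par l)))).lintegral_comp hm).symm
    rw [hsw]
    simp only [hKdef]
    rw [← lintegral_const_mul _ hLa, ← lintegral_const_mul _ (hLa.const_mul _)]
    refine lintegral_congr fun y => ?_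
    have hv := vw_node hε (Φ := Φ) (l := l) (r := r) (T := T) ℓ a y.2 y.1
    have hv' : vw Φ ε (node l r) T (ℓ, ((a, y.swap) : Par (node l r))) = _ := hv
    rw [hv']
    simp only [hLdef, Prod.swap]
    ring
  -- Step 2: flip
  have step2 := flipR hΦ hε T hK
  -- Step 3: reorder
  set G : (PhasePoint × Par r) × (NodeP × Par l) → ℝ≥0∞ := fun w =>
    (gR Φ ε T (w.1.1, w.2.1) * ENNReal.ofReal ‖w.1.1.2 - w.2.1.2.1‖ *
      topI r (w.2.1.1, w.1.2) *
      (topI l (w.2.1.1, w.2.2) * vw Φ ε l T (inLine ε w.1.1 w.2.1, w.2.2))) *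
      H ((outD Φ ε T (inLine ε w.1.1 w.2.1, w.1.1)).1,
        (((outD Φ ε T (inLine ε w.1.1 w.2.1, w.1.1)).2, (w.2.2, w.1.2)) : Par (node l r)))
    with hGdef
  have hG : Measurable G := by
    have n11 : Measurable fun w : (PhasePoint × Par r) × (NodeP × Par l) => w.1.1 :=
      measurable_fst.fst
    have n12 : Measurable fun w : (PhasePoint × Par r) × (NodeP × Par l) => w.1.2 :=
      measurable_fst.snd
    have n21 : Measurable fun w : (PhasePoint × Par r) × (NodeP × Par l) => w.2.1 :=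
      measurable_snd.fst
    have n22 : Measurable fun w : (PhasePoint × Par r) × (NodeP × Par l) => w.2.2 :=
      measurable_snd.snd
    have ho := mo.comp ((measurable_pairR ε).comp (n11.prodMk n21))
    refine Measurable.mul (Measurable.mul (Measurable.mul (Measurable.mul ?_ ?_) ?_)
      (Measurable.mul ?_ ?_)) ?_
    · exact (measurable_gR hΦ hε T).comp (n11.prodMk n21)
    · exact (n11.snd.sub n21.snd.fst).norm.ennreal_ofReal
    · exact (measurable_topI r).comp (n21.fst.prodMk n12)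
    · exact (measurable_topI l).comp (n21.fst.prodMk n22)
    · exact mvl.comp (((measurable_inLine ε).comp (n11.prodMk n21)).prodMk n22)
    · exact hH.comp (ho.fst.prodMk ((measurable_parMk l r).comp
        (ho.snd.prodMk (n22.prodMk n12))))
  have step3 : ∫⁻ z : PhasePoint × NodeP, (GoodR Φ ε T).indicator
      (fun z => ENNReal.ofReal ‖z.1.2 - z.2.2.1‖ *
        K (outD Φ ε T (inLine ε z.1 z.2, z.1), (inLine ε z.1 z.2, z.1))) z =
      ∫⁻ z1 : PhasePoint × Par r, vw Φ ε r T z1 * ∫⁻ z2 : NodeP × Par l, G (z1, z2) := by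
    have hin : ∀ z : PhasePoint × NodeP, (GoodR Φ ε T).indicator
      (fun z => ENNReal.ofReal ‖z.1.2 - z.2.2.1‖ *
        K (outD Φ ε T (inLine ε z.1 z.2, z.1), (inLine ε z.1 z.2, z.1))) z =
        ∫⁻ y : Par r × Par l, vw Φ ε r T (z.1, y.1) * G ((z.1, y.1), (z.2, y.2)) := by
      intro z
      by_cases hz : z ∈ GoodR Φ ε T
      · rw [indicator_of_mem hz]
        have hLa : Measurable fun y : Par r × Par l =>
            L ((outD Φ ε T (inLine ε z.1 z.2, z.1), (inLine ε z.1 z.2, z.1)), y) :=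
          hL.comp (measurable_const.prodMk measurable_id)
        simp only [hKdef]
        rw [← lintegral_const_mul _ hLa]
        refine lintegral_congr fun y => ?_
        have hsin : sinM Φ ε (outD Φ ε T (inLine ε z.1 z.2, z.1)) = z.2.1 := by
          rw [sinM_of_adm hz.2.1]
          exact sin_of_mem_GoodR hΦ hε hz
        have hg : gR Φ ε T (z.1, z.2) = 1 := by
          unfold gR
          rw [indicator_of_mem (show (z.1, z.2) ∈ GoodR Φ ε T from hz)]
          rfl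
        simp only [hLdef, hGdef, hsin, hg]
        ring
      · rw [indicator_of_notMem hz]
        have hg : gR Φ ε T (z.1, z.2) = 0 := by
          unfold gR
          exact indicator_of_notMem (show (z.1, z.2) ∉ GoodR Φ ε T from hz) _
        simp only [hGdef, hg]
        simp
    simp only [hin]
    have hL2 : Measurable fun w : (PhasePoint × NodeP) × (Par r × Par l) =>
        vw Φ ε r T (w.1.1, w.2.1) * G ((w.1.1, w.2.1), (w.1.2, w.2.2)) := by
      have k1 : Measurable fun w : (PhasePoint × NodeP) × (Par r × Par l) => (w.1.1, w.2.1) :=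
        measurable_fst.fst.prodMk measurable_snd.fst
      have k2 : Measurable fun w : (PhasePoint × NodeP) × (Par r × Par l) => (w.1.2, w.2.2) :=
        measurable_fst.snd.prodMk measurable_snd.snd
      exact (mvr.comp k1).mul (hG.comp (k1.prodMk k2))
    have h4 := lintegral_four (volume : Measure PhasePoint) (volume : Measure NodeP)
      (volume : Measure (Par r)) (volume : Measure (Par l)) hL2
    rw [← Measure.volume_eq_prod, ← Measure.volume_eq_prod, ← Measure.volume_eq_prod,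
      ← Measure.volume_eq_prod] at h4
    rw [h4]
    refine lintegral_congr fun z1 => ?_
    have hGz : Measurable fun z2 : NodeP × Par l => G (z1, z2) :=
      hG.comp (measurable_const.prodMk measurable_id)
    rw [← lintegral_const_mul _ hGz]
  rw [step1, step2, step3]
  rfl

end Crest.Agent.R122.Mark307

end
end

-- ▼ part R122/Mark8_307
section

/-!
Row 122, block H7b (helper307), part 8: **Gaussian tree weights and reductions**.

* `gw b P z = exp (-b * total energy)`.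
* `W0`, `I0` : the weight `vw * gw b` is dominated by a product; integral over the parameters.
* `node_fix` : node identity at a fixed root line, with the Gaussian weights of the branches.
* `NL`, `NR` : integration of the fresh branch of a flipped node.
* `subL`, `subR` : reduction of functionals of one branch to this branch.
* `N0` : integration of both branches of a node.
-/

set_option autoImplicit false
set_option synthInstance.maxSize 1024

open MeasureTheory Set Filter Topology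
open Crest.AnalysisR.Kinetic
open scoped ENNReal

noncomputable section

namespace Crest.Agent.R122.Mark307

open Kin796 Kin796.CTree Disc416 Scat818 Flow671 Flux663 Tree674 TreeDom974
open scoped Classical

variable {Φ : Space3 → ℝ}

/-! ### Gaussian weights -/

/-- Gaussian weight of a tree -/
def gw (b : ℝ) (P : CTree) (z : PhasePoint × Par P) : ℝ≥0∞ :=
  ENNReal.ofReal (Real.exp (-b * (‖z.1.2‖ ^ 2 + nodeE P z.2)))

theorem measurable_nodeE : ∀ P : CTree, Measurable (nodeE P)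
  | leaf => measurable_const
  | node l r => by
      have h1 : Measurable fun p : Par (node l r) => ‖p.1.2.1‖ ^ 2 :=
        ((measurable_par1 l r).snd.fst).norm.pow_const 2
      have h2 := (measurable_nodeE l).comp (measurable_parL l r)
      have h3 := (measurable_nodeE r).comp (measurable_parR l r)
      exact h1.add (h2.add h3)

theorem measurable_gw (b : ℝ) (P : CTree) : Measurable (gw b P) := by
  unfold gw
  have h1 : Measurable fun z : PhasePoint × Par P => nodeE P z.2 :=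
    (measurable_nodeE P).comp measurable_snd
  have h2 : Measurable fun z : PhasePoint × Par P => ‖z.1.2‖ ^ 2 :=
    (measurable_fst.snd.norm).pow_const 2
  exact ((h2.add h1).const_mul (-b)).exp.ennreal_ofReal

theorem energy_nonneg (P : CTree) (z : PhasePoint × Par P) : 0 ≤ ‖z.1.2‖ ^ 2 + nodeE P z.2 := by
  have := nodeE_nonneg P z.2
  positivity

theorem gw_mono {b' b : ℝ} (h : b' ≤ b) (P : CTree) (z : PhasePoint × Par P) :
    gw b P z ≤ gw b' P z := by
  unfold gw
  refine ENNReal.ofReal_le_ofReal (Real.exp_le_exp.2 ?_)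
  have := energy_nonneg P z
  nlinarith

theorem gE_mono {b' b : ℝ} (h : b' ≤ b) (v : Space3) : gE b v ≤ gE b' v := by
  unfold gE
  refine ENNReal.ofReal_le_ofReal (Real.exp_le_exp.2 ?_)
  have : 0 ≤ ‖v‖ ^ 2 := by positivity
  nlinarith

theorem gE_ne_top (b : ℝ) (v : Space3) : gE b v ≠ ∞ := ENNReal.ofReal_ne_top

/-- the Gaussian weight at a node, in the incoming lines -/
theorem gw_node (hΦ : AdmissiblePotential Φ) {ε : ℝ} {l r : CTree} {o : PhasePoint × NodeP}
    (ho : Adm1 Φ o.1.2 o.2) {q : PhasePoint × PhasePoint} (hq : inMap Φ ε o.1 o.2 = q) (b : ℝ)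
    (pl : Par l) (pr : Par r) :
    gw b (node l r) (o.1, ((o.2, (pl, pr)) : Par (node l r))) =
      gw b l (q.1, pl) * gw b r (q.2, pr) := by
  have h := energy_flip hΦ ho hq
  unfold gw
  rw [← gE_add]
  congr 3
  show ‖o.1.2‖ ^ 2 + (‖o.2.2.1‖ ^ 2 + (nodeE l pl + nodeE r pr)) =
    ‖q.1.2‖ ^ 2 + nodeE l pl + (‖q.2.2‖ ^ 2 + nodeE r pr)
  linarith

/-- the Gaussians at a node -/
theorem gE_node (hΦ : AdmissiblePotential Φ) {ε : ℝ} {o : PhasePoint × NodeP}
    (ho : Adm1 Φ o.1.2 o.2) {q : PhasePoint × PhasePoint} (hq : inMap Φ ε o.1 o.2 = q) (b : ℝ) :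
    gE b q.1.2 * gE b q.2.2 = gE b o.1.2 * gE b o.2.2.1 := by
  have h := energy_flip hΦ ho hq
  unfold gE
  rw [← gE_add, ← gE_add, h]

/-- one polynomial factor is absorbed by the Gaussian -/
theorem one_add_gE {b b' : ℝ} (hb : b' < b) : ∃ C : ℝ≥0∞, C ≠ ∞ ∧ ∀ v : Space3,
    ENNReal.ofReal (1 + ‖v‖) * gE b v ≤ C * gE b' v := by
  set δ := b - b' with hδ
  have hδ0 : 0 < δ := sub_pos.2 hb
  refine ⟨ENNReal.ofReal (1 + 1 / (4 * δ)), ENNReal.ofReal_ne_top, fun v => ?_⟩
  unfold gE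
  rw [← ENNReal.ofReal_mul (by positivity), ← ENNReal.ofReal_mul (by positivity)]
  refine ENNReal.ofReal_le_ofReal ?_
  have h1 := CollLeg969.one_add_le_exp hδ0 ‖v‖
  have h2 : Real.exp (-b' * ‖v‖ ^ 2) = Real.exp (δ * ‖v‖ ^ 2) * Real.exp (-b * ‖v‖ ^ 2) := by
    rw [← Real.exp_add]; congr 1; rw [hδ]; ring
  rw [h2, ← mul_assoc]
  exact mul_le_mul_of_nonneg_right h1 (Real.exp_pos _).le

theorem one_add_gw {b b' : ℝ} (hb : b' < b) : ∃ C : ℝ≥0∞, C ≠ ∞ ∧ ∀ (P : CTree)
    (z : PhasePoint × Par P), ENNReal.ofReal (1 + ‖z.1.2‖) * gw b P z ≤ C * gw b' P z := by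
  set δ := b - b' with hδ
  have hδ0 : 0 < δ := sub_pos.2 hb
  refine ⟨ENNReal.ofReal (1 + 1 / (4 * δ)), ENNReal.ofReal_ne_top, fun P z => ?_⟩
  unfold gw
  rw [← ENNReal.ofReal_mul (by positivity), ← ENNReal.ofReal_mul (by positivity)]
  refine ENNReal.ofReal_le_ofReal ?_
  have h1 := CollLeg969.one_add_le_exp hδ0 ‖z.1.2‖
  have hn := nodeE_nonneg P z.2
  have h3 : Real.exp (δ * ‖z.1.2‖ ^ 2) ≤ Real.exp (δ * (‖z.1.2‖ ^ 2 + nodeE P z.2)) := by
    refine Real.exp_le_exp.2 (mul_le_mul_of_nonneg_left ?_ hδ0.le)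
    linarith
  have h2 : Real.exp (-b' * (‖z.1.2‖ ^ 2 + nodeE P z.2)) =
      Real.exp (δ * (‖z.1.2‖ ^ 2 + nodeE P z.2)) *
        Real.exp (-b * (‖z.1.2‖ ^ 2 + nodeE P z.2)) := by
    rw [← Real.exp_add]; congr 1; rw [hδ]; ring
  rw [h2, ← mul_assoc]
  refine mul_le_mul_of_nonneg_right (h1.trans ?_) (Real.exp_pos _).le
  exact mul_le_mul_of_nonneg_left h3 (by positivity)

/-! ### Domination of the weight -/

theorem W0 (hΦ : AdmissiblePotential Φ) {b b' : ℝ} (hb : b' < b) (P : CTree) (T : ℝ) :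
    ∃ C : ℝ≥0∞, C ≠ ∞ ∧ ∀ (ε T' : ℝ), 0 ≤ ε → T' ≤ T → ∀ z : PhasePoint × Par P,
      vw Φ ε P T' z * gw b P z ≤ C * (gE b' z.1.2 * domP b' T P z.2) := by
  set δ := b - b' with hδdef
  have hδ : 0 < δ := sub_pos.2 hb
  refine ⟨ENNReal.ofReal (P.size.factorial / δ ^ P.size * Real.exp δ), ENNReal.ofReal_ne_top,
    fun ε T' hε hT z => ?_⟩
  by_cases hz : vw Φ ε P T' z = 0
  · rw [hz, zero_mul]; exact bot_le
  have hV := valid_of_vw hz
  rw [vw_of_valid hV]
  set E := ‖z.1.2‖ ^ 2 + nodeE P z.2 with hE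
  have hE0 : 0 ≤ E := energy_nonneg P z
  have h1 := wt_le hΦ (E := E) hV.1 le_rfl
  have h3 := one_add_pow_le hδ hE0 P.size
  have h4 : Real.exp (-b' * E) = Real.exp (δ * E) * Real.exp (-b * E) := by
    rw [← Real.exp_add]; congr 1; rw [hδdef]; ring
  have h5 : gE b' z.1.2 * domP b' T P z.2 = ENNReal.ofReal (Real.exp (-b' * E)) := by
    rw [domP_eq, boxI_of_valid hε hV hT, one_mul, gE, hE, gE_add]
  rw [h5, ← ENNReal.ofReal_mul (by positivity), h4]
  unfold gw
  calc wt Φ P z.1.2 z.2 * ENNReal.ofReal (Real.exp (-b * E))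
      ≤ ENNReal.ofReal ((1 + E) ^ P.size) * ENNReal.ofReal (Real.exp (-b * E)) :=
        mul_le_mul_left h1 _
    _ = ENNReal.ofReal ((1 + E) ^ P.size * Real.exp (-b * E)) := by
        rw [← ENNReal.ofReal_mul (by positivity)]
    _ ≤ _ := by
        refine ENNReal.ofReal_le_ofReal ?_
        calc (1 + E) ^ P.size * Real.exp (-b * E)
            ≤ ((P.size.factorial / δ ^ P.size * Real.exp δ) * Real.exp (δ * E)) *
              Real.exp (-b * E) := by gcongr
          _ = _ := by ring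

/-- integral over the parameters at a fixed root line -/
theorem I0 (hΦ : AdmissiblePotential Φ) {b b' : ℝ} (hb' : 0 < b') (hb : b' < b) (P : CTree)
    (T : ℝ) : ∃ C : ℝ≥0∞, C ≠ ∞ ∧ ∀ (ε T' : ℝ), 0 ≤ ε → T' ≤ T → ∀ ℓ : PhasePoint,
      ∫⁻ p : Par P, vw Φ ε P T' (ℓ, p) * gw b P (ℓ, p) ≤ C * gE b' ℓ.2 := by
  obtain ⟨C, hC, H⟩ := W0 hΦ hb P T
  refine ⟨C * ∫⁻ p, domP b' T P p, ENNReal.mul_ne_top hC (lintegral_domP_ne_top hb' T P),
    fun ε T' hε hT ℓ => ?_⟩
  calc ∫⁻ p : Par P, vw Φ ε P T' (ℓ, p) * gw b P (ℓ, p)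
      ≤ ∫⁻ p : Par P, (C * gE b' ℓ.2) * domP b' T P p := by
        refine lintegral_mono fun p => (H ε T' hε hT (ℓ, p)).trans (le_of_eq ?_)
        rw [mul_assoc]
    _ = (C * gE b' ℓ.2) * ∫⁻ p, domP b' T P p := lintegral_const_mul _ (measurable_domP b' T P)
    _ = _ := by ring

/-! ### Node at a fixed root line -/

/-- weight of a branch, with its Gaussian -/
def br (Φ : Space3 → ℝ) (ε T b : ℝ) (P : CTree) (s : ℝ) (z : PhasePoint × Par P) : ℝ≥0∞ :=
  topI P (s, z.2) * (vw Φ ε P T z * gw b P z)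

theorem measurable_br (hΦ : AdmissiblePotential Φ) (ε T b : ℝ) (P : CTree) :
    Measurable fun q : ℝ × (PhasePoint × Par P) => br Φ ε T b P q.1 q.2 := by
  unfold br
  exact ((measurable_topI P).comp (measurable_fst.prodMk measurable_snd.snd)).mul
    (((measurable_vw hΦ ε P T).comp measurable_snd).mul ((measurable_gw b P).comp measurable_snd))

theorem topI_le_one (P : CTree) (q : ℝ × Par P) : topI P q ≤ 1 := by
  unfold topI
  exact Set.indicator_le_self' (fun _ _ => zero_le_one) q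

theorem br_le (ε T b : ℝ) (P : CTree) (s : ℝ) (z : PhasePoint × Par P) :
    br Φ ε T b P s z ≤ vw Φ ε P T z * gw b P z := by
  unfold br
  calc _ ≤ 1 * (vw Φ ε P T z * gw b P z) := mul_le_mul_left (topI_le_one _ _) _
    _ = _ := one_mul _

theorem vw_gw_node (hΦ : AdmissiblePotential Φ) {ε : ℝ} (hε : 0 < ε) (T b : ℝ) (l r : CTree)
    (ℓ : PhasePoint) (a : NodeP) (pl : Par l) (pr : Par r) :
    vw Φ ε (node l r) T (ℓ, ((a, (pl, pr)) : Par (node l r))) *
      gw b (node l r) (ℓ, ((a, (pl, pr)) : Par (node l r))) =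
    (vI Φ ε T (ℓ, a) * ENNReal.ofReal ‖ℓ.2 - a.2.1‖) *
      (br Φ ε T b l (sinM Φ ε (ℓ, a)) ((inM Φ ε (ℓ, a)).1, pl) *
        br Φ ε T b r (sinM Φ ε (ℓ, a)) ((inM Φ ε (ℓ, a)).2, pr)) := by
  rw [vw_node hε]
  by_cases hz : ((ℓ, a) : PhasePoint × NodeP) ∈ Vset Φ ε T
  · have h1 : Adm1 Φ ℓ.2 a := hz.1
    have h2 : gw b (node l r) (ℓ, ((a, (pl, pr)) : Par (node l r))) =
        gw b l ((inM Φ ε (ℓ, a)).1, pl) * gw b r ((inM Φ ε (ℓ, a)).2, pr) := by
      rw [inM_of_adm (z := (ℓ, a)) h1]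
      exact gw_node hΦ (o := (ℓ, a)) h1 rfl b pl pr
    rw [h2]
    unfold br
    ring
  · have h0 : vI Φ ε T (ℓ, a) = 0 := indicator_of_notMem hz _
    rw [h0, zero_mul, zero_mul, zero_mul, zero_mul]

/-- **Node identity at a fixed root line.** -/
theorem node_fix (hΦ : AdmissiblePotential Φ) {ε : ℝ} (hε : 0 < ε) (T b : ℝ) (l r : CTree)
    (ℓ : PhasePoint) {H : Par (node l r) → ℝ≥0∞} (hH : Measurable H) :
    ∫⁻ p : Par (node l r), vw Φ ε (node l r) T (ℓ, p) * (gw b (node l r) (ℓ, p) * H p) =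
      ∫⁻ a : NodeP, (vI Φ ε T (ℓ, a) * ENNReal.ofReal ‖ℓ.2 - a.2.1‖) *
        ∫⁻ pl : Par l, br Φ ε T b l (sinM Φ ε (ℓ, a)) ((inM Φ ε (ℓ, a)).1, pl) *
          ∫⁻ pr : Par r, br Φ ε T b r (sinM Φ ε (ℓ, a)) ((inM Φ ε (ℓ, a)).2, pr) *
            H ((a, (pl, pr)) : Par (node l r)) := by
  have hvm : Measurable fun p : Par (node l r) => vw Φ ε (node l r) T (ℓ, p) *
      (gw b (node l r) (ℓ, p) * H p) :=
    ((measurable_vw hΦ ε (node l r) T).comp (measurable_const.prodMk measurable_id)).mul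
      (((measurable_gw b (node l r)).comp (measurable_const.prodMk measurable_id)).mul hH)
  rw [lintegral_par_node l r hvm]
  refine lintegral_congr fun a => ?_
  have hHa : Measurable fun y : Par l × Par r => H ((a, y) : Par (node l r)) :=
    hH.comp ((measurable_parMk l r).comp (measurable_const.prodMk measurable_id))
  have hbl : Measurable fun pl : Par l =>
      br Φ ε T b l (sinM Φ ε (ℓ, a)) ((inM Φ ε (ℓ, a)).1, pl) :=
    (measurable_br hΦ ε T b l).comp (measurable_const.prodMk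
      (measurable_const.prodMk measurable_id))
  have hbr : Measurable fun pr : Par r =>
      br Φ ε T b r (sinM Φ ε (ℓ, a)) ((inM Φ ε (ℓ, a)).2, pr) :=
    (measurable_br hΦ ε T b r).comp (measurable_const.prodMk
      (measurable_const.prodMk measurable_id))
  have e1 : ∀ y : Par l × Par r, vw Φ ε (node l r) T (ℓ, ((a, y) : Par (node l r))) *
      (gw b (node l r) (ℓ, ((a, y) : Par (node l r))) * H ((a, y) : Par (node l r))) =
      (vI Φ ε T (ℓ, a) * ENNReal.ofReal ‖ℓ.2 - a.2.1‖) *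
        (br Φ ε T b l (sinM Φ ε (ℓ, a)) ((inM Φ ε (ℓ, a)).1, y.1) *
          (br Φ ε T b r (sinM Φ ε (ℓ, a)) ((inM Φ ε (ℓ, a)).2, y.2) *
            H ((a, y) : Par (node l r)))) := by
    intro y
    have h := vw_gw_node hΦ hε T b l r ℓ a y.1 y.2
    have h' : vw Φ ε (node l r) T (ℓ, ((a, y) : Par (node l r))) *
        gw b (node l r) (ℓ, ((a, y) : Par (node l r))) = _ := h
    rw [← mul_assoc, h']
    ring
  simp only [e1]
  have hm : Measurable fun y : Par l × Par r =>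
      br Φ ε T b l (sinM Φ ε (ℓ, a)) ((inM Φ ε (ℓ, a)).1, y.1) *
          (br Φ ε T b r (sinM Φ ε (ℓ, a)) ((inM Φ ε (ℓ, a)).2, y.2) *
            H ((a, y) : Par (node l r))) :=
    (hbl.comp measurable_fst).mul ((hbr.comp measurable_snd).mul hHa)
  rw [lintegral_const_mul _ hm, Tree674.lintegral_pair hm]
  congr 1
  refine lintegral_congr fun pl => ?_
  have hHp : Measurable fun pr : Par r => H ((a, (pl, pr)) : Par (node l r)) :=
    hHa.comp (measurable_const.prodMk measurable_id)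
  have hfin : Measurable fun pr : Par r =>
      br Φ ε T b r (sinM Φ ε (ℓ, a)) ((inM Φ ε (ℓ, a)).2, pr) *
        H ((a, (pl, pr)) : Par (node l r)) := hbr.mul hHp
  exact lintegral_const_mul (μ := (volume : Measure (Par r)))
    (br Φ ε T b l (sinM Φ ε (ℓ, a)) ((inM Φ ε (ℓ, a)).1, pl)) hfin

/-! ### Integration of the fresh branch of a flipped node -/

theorem measurable_inD (hΦ : AdmissiblePotential Φ) {ε : ℝ} (l r : CTree) :
    Measurable fun z : PhasePoint × Par (node l r) => inM Φ ε (z.1, z.2.1) :=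
  (measurable_inM hΦ ε).comp
    (measurable_fst.prodMk ((measurable_par1 l r).comp measurable_snd))

/-- **Integration of the fresh branch, first orientation.** -/
theorem NL (hΦ : AdmissiblePotential Φ) {b b' : ℝ} (hb' : 0 < b') (hb : b' < b) (T : ℝ)
    (l r : CTree) : ∃ C : ℝ≥0∞, C ≠ ∞ ∧ ∀ (ε T' : ℝ), 0 < ε → T' ≤ T →
      ∀ H : (PhasePoint × Par l) × (PhasePoint × NodeP) → ℝ≥0∞, Measurable H →
      ∫⁻ z : PhasePoint × Par (node l r), vw Φ ε (node l r) T' z * (gw b (node l r) z *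
        H (((inM Φ ε (z.1, z.2.1)).1, z.2.2.1), (z.1, z.2.1))) ≤
      C * ∫⁻ z1 : PhasePoint × Par l, vw Φ ε l T' z1 * (gw b l z1 * ∫⁻ a : NodeP,
        (gL Φ ε T' (z1.1, a) * topI l (a.1, z1.2) *
          (ENNReal.ofReal ‖z1.1.2 - a.2.1‖ * gE b' a.2.1)) *
          H (z1, outD Φ ε T' (z1.1, inLine ε z1.1 a))) := by
  obtain ⟨C, hC, hI⟩ := I0 hΦ hb' hb r T
  refine ⟨C, hC, fun ε T' hε hT H hH => ?_⟩
  have mo := measurable_outD hΦ hε T'
  have hHm : Measurable fun z : PhasePoint × Par (node l r) => gw b (node l r) z *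
      H (((inM Φ ε (z.1, z.2.1)).1, z.2.2.1), (z.1, z.2.1)) := by
    refine (measurable_gw b (node l r)).mul (hH.comp ?_)
    refine ((measurable_inD hΦ l r).fst.prodMk
      ((measurable_parL l r).comp measurable_snd)).prodMk
      (measurable_fst.prodMk ((measurable_par1 l r).comp measurable_snd))
  rw [nodeL hΦ hε T' l r hHm, ← lintegral_const_mul' _ _ hC]
  refine lintegral_mono fun z1 => ?_
  rw [← mul_assoc, mul_comm C, mul_assoc]
  refine mul_le_mul_right ?_ _
  -- the fresh side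
  set A : NodeP → ℝ≥0∞ := fun a => gw b l z1 * ((gL Φ ε T' (z1.1, a) *
    ENNReal.ofReal ‖z1.1.2 - a.2.1‖ * topI l (a.1, z1.2)) *
    H (z1, outD Φ ε T' (z1.1, inLine ε z1.1 a))) with hA
  have hAm : Measurable A := by
    have m1 : Measurable fun a : NodeP => (z1.1, a) := measurable_const.prodMk measurable_id
    have m2 := (measurable_gL hΦ hε T').comp m1
    have m3 : Measurable fun a : NodeP => ENNReal.ofReal ‖z1.1.2 - a.2.1‖ := by fun_prop
    have m4 : Measurable fun a : NodeP => topI l (a.1, z1.2) :=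
      (measurable_topI l).comp (measurable_fst.prodMk measurable_const)
    have m5 : Measurable fun a : NodeP => H (z1, outD Φ ε T' (z1.1, inLine ε z1.1 a)) :=
      hH.comp (measurable_const.prodMk (mo.comp ((measurable_pairL ε).comp m1)))
    exact (((m2.mul m3).mul m4).mul m5).const_mul _
  set B : NodeP × Par r → ℝ≥0∞ := fun z2 => vw Φ ε r T' (inLine ε z1.1 z2.1, z2.2) *
    gw b r (inLine ε z1.1 z2.1, z2.2) with hB
  have hBm : Measurable B := by
    have m1 : Measurable fun z2 : NodeP × Par r => (inLine ε z1.1 z2.1, z2.2) :=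
      ((measurable_inLine ε).comp (measurable_const.prodMk measurable_fst)).prodMk measurable_snd
    exact ((measurable_vw hΦ ε r T').comp m1).mul ((measurable_gw b r).comp m1)
  have hpt : ∀ z2 : NodeP × Par r, fL Φ ε T' l r z1 z2 * (gw b (node l r)
      ((outD Φ ε T' (z1.1, inLine ε z1.1 z2.1)).1,
        (((outD Φ ε T' (z1.1, inLine ε z1.1 z2.1)).2, (z1.2, z2.2)) : Par (node l r))) *
      H (((inM Φ ε ((outD Φ ε T' (z1.1, inLine ε z1.1 z2.1)).1,
        (outD Φ ε T' (z1.1, inLine ε z1.1 z2.1)).2)).1, z1.2),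
        ((outD Φ ε T' (z1.1, inLine ε z1.1 z2.1)).1,
          (outD Φ ε T' (z1.1, inLine ε z1.1 z2.1)).2))) ≤ A z2.1 * B z2 := by
    intro z2
    by_cases hg : gL Φ ε T' (z1.1, z2.1) = 0
    · unfold fL
      rw [hg, zero_mul, zero_mul, zero_mul, zero_mul]
      exact bot_le
    obtain ⟨o, ho⟩ : ∃ o, outD Φ ε T' (z1.1, inLine ε z1.1 z2.1) = o := ⟨_, rfl⟩
    obtain ⟨g1, g2, g3, -⟩ := goodL_spec hΦ hε (mem_GoodL_of_gL hg) ho
    have hgw := gw_node hΦ (l := l) (r := r) (o := o) g1.1 g2 b z1.2 z2.2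
    simp only [ho, hA, hB, Prod.mk.eta, g3]
    rw [hgw]
    unfold fL
    calc _ = (gw b l z1 * ((gL Φ ε T' (z1.1, z2.1) * ENNReal.ofReal ‖z1.1.2 - z2.1.2.1‖ *
            topI l (z2.1.1, z1.2)) * H (z1, o))) *
          (topI r (z2.1.1, z2.2) * (vw Φ ε r T' (inLine ε z1.1 z2.1, z2.2) *
            gw b r (inLine ε z1.1 z2.1, z2.2))) := by ring
      _ ≤ (gw b l z1 * ((gL Φ ε T' (z1.1, z2.1) * ENNReal.ofReal ‖z1.1.2 - z2.1.2.1‖ *
            topI l (z2.1.1, z1.2)) * H (z1, o))) *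
          (1 * (vw Φ ε r T' (inLine ε z1.1 z2.1, z2.2) *
            gw b r (inLine ε z1.1 z2.1, z2.2))) := by
          gcongr
          exact topI_le_one _ _
      _ = _ := by ring
  refine (lintegral_mono hpt).trans ?_
  have hAB : Measurable fun z2 : NodeP × Par r => A z2.1 * B z2 :=
    (hAm.comp measurable_fst).mul hBm
  rw [Tree674.lintegral_pair hAB]
  have hs : ∀ a : NodeP, ∫⁻ pr : Par r, A a * B (a, pr) ≤ A a * (C * gE b' a.2.1) := by
    intro a
    have hBa : Measurable fun pr : Par r => B (a, pr) :=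
      hBm.comp (measurable_const.prodMk measurable_id)
    rw [lintegral_const_mul _ hBa]
    exact mul_le_mul_right (hI ε T' hε.le hT (inLine ε z1.1 a)) _
  refine (lintegral_mono hs).trans (le_of_eq ?_)
  rw [← lintegral_const_mul' _ _ (show gw b l z1 ≠ ∞ from ENNReal.ofReal_ne_top),
    ← lintegral_const_mul' _ _ hC]
  refine lintegral_congr fun a => ?_
  simp only [hA]
  ring

/-- **Integration of the fresh branch, second orientation.** -/
theorem NR (hΦ : AdmissiblePotential Φ) {b b' : ℝ} (hb' : 0 < b') (hb : b' < b) (T : ℝ)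
    (l r : CTree) : ∃ C : ℝ≥0∞, C ≠ ∞ ∧ ∀ (ε T' : ℝ), 0 < ε → T' ≤ T →
      ∀ H : (PhasePoint × Par r) × (PhasePoint × NodeP) → ℝ≥0∞, Measurable H →
      ∫⁻ z : PhasePoint × Par (node l r), vw Φ ε (node l r) T' z * (gw b (node l r) z *
        H (((inM Φ ε (z.1, z.2.1)).2, z.2.2.2), (z.1, z.2.1))) ≤
      C * ∫⁻ z1 : PhasePoint × Par r, vw Φ ε r T' z1 * (gw b r z1 * ∫⁻ a : NodeP,
        (gR Φ ε T' (z1.1, a) * topI r (a.1, z1.2) *
          (ENNReal.ofReal ‖z1.1.2 - a.2.1‖ * gE b' a.2.1)) *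
          H (z1, outD Φ ε T' (inLine ε z1.1 a, z1.1))) := by
  obtain ⟨C, hC, hI⟩ := I0 hΦ hb' hb l T
  refine ⟨C, hC, fun ε T' hε hT H hH => ?_⟩
  have mo := measurable_outD hΦ hε T'
  have hHm : Measurable fun z : PhasePoint × Par (node l r) => gw b (node l r) z *
      H (((inM Φ ε (z.1, z.2.1)).2, z.2.2.2), (z.1, z.2.1)) := by
    refine (measurable_gw b (node l r)).mul (hH.comp ?_)
    refine ((measurable_inD hΦ l r).snd.prodMk
      ((measurable_parR l r).comp measurable_snd)).prodMk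
      (measurable_fst.prodMk ((measurable_par1 l r).comp measurable_snd))
  rw [nodeR hΦ hε T' l r hHm, ← lintegral_const_mul' _ _ hC]
  refine lintegral_mono fun z1 => ?_
  rw [← mul_assoc, mul_comm C, mul_assoc]
  refine mul_le_mul_right ?_ _
  -- the fresh side
  set A : NodeP → ℝ≥0∞ := fun a => gw b r z1 * ((gR Φ ε T' (z1.1, a) *
    ENNReal.ofReal ‖z1.1.2 - a.2.1‖ * topI r (a.1, z1.2)) *
    H (z1, outD Φ ε T' (inLine ε z1.1 a, z1.1))) with hA
  have hAm : Measurable A := by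
    have m1 : Measurable fun a : NodeP => (z1.1, a) := measurable_const.prodMk measurable_id
    have m2 := (measurable_gR hΦ hε T').comp m1
    have m3 : Measurable fun a : NodeP => ENNReal.ofReal ‖z1.1.2 - a.2.1‖ := by fun_prop
    have m4 : Measurable fun a : NodeP => topI r (a.1, z1.2) :=
      (measurable_topI r).comp (measurable_fst.prodMk measurable_const)
    have m8 : Measurable fun a : NodeP => inLine ε z1.1 a := measurable_inLine_right ε z1.1
    have m6 : Measurable fun a : NodeP => (inLine ε z1.1 a, z1.1) := m8.prodMk measurable_const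
    have m7 : Measurable fun a : NodeP => outD Φ ε T' (inLine ε z1.1 a, z1.1) := mo.comp m6
    have m5 : Measurable fun a : NodeP => H (z1, outD Φ ε T' (inLine ε z1.1 a, z1.1)) :=
      hH.comp (measurable_const.prodMk m7)
    exact (((m2.mul m3).mul m4).mul m5).const_mul _
  set B : NodeP × Par l → ℝ≥0∞ := fun z2 => vw Φ ε l T' (inLine ε z1.1 z2.1, z2.2) *
    gw b l (inLine ε z1.1 z2.1, z2.2) with hB
  have hBm : Measurable B := by
    have m1 : Measurable fun z2 : NodeP × Par l => (inLine ε z1.1 z2.1, z2.2) :=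
      ((measurable_inLine ε).comp (measurable_const.prodMk measurable_fst)).prodMk measurable_snd
    exact ((measurable_vw hΦ ε l T').comp m1).mul ((measurable_gw b l).comp m1)
  have hpt : ∀ z2 : NodeP × Par l, fR Φ ε T' l r z1 z2 * (gw b (node l r)
      ((outD Φ ε T' (inLine ε z1.1 z2.1, z1.1)).1,
        (((outD Φ ε T' (inLine ε z1.1 z2.1, z1.1)).2, (z2.2, z1.2)) : Par (node l r))) *
      H (((inM Φ ε ((outD Φ ε T' (inLine ε z1.1 z2.1, z1.1)).1,
        (outD Φ ε T' (inLine ε z1.1 z2.1, z1.1)).2)).2, z1.2),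
        ((outD Φ ε T' (inLine ε z1.1 z2.1, z1.1)).1,
          (outD Φ ε T' (inLine ε z1.1 z2.1, z1.1)).2))) ≤ A z2.1 * B z2 := by
    intro z2
    by_cases hg : gR Φ ε T' (z1.1, z2.1) = 0
    · unfold fR
      rw [hg, zero_mul, zero_mul, zero_mul, zero_mul]
      exact bot_le
    obtain ⟨o, ho⟩ : ∃ o, outD Φ ε T' (inLine ε z1.1 z2.1, z1.1) = o := ⟨_, rfl⟩
    obtain ⟨g1, g2, g3, -⟩ := goodR_spec hΦ hε (mem_GoodR_of_gR hg) ho
    have hgw := gw_node hΦ (l := l) (r := r) (o := o) g1.1 g2 b z2.2 z1.2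
    simp only [ho, hA, hB, Prod.mk.eta, g3]
    rw [hgw]
    unfold fR
    calc _ = (gw b r z1 * ((gR Φ ε T' (z1.1, z2.1) * ENNReal.ofReal ‖z1.1.2 - z2.1.2.1‖ *
            topI r (z2.1.1, z1.2)) * H (z1, o))) *
          (topI l (z2.1.1, z2.2) * (vw Φ ε l T' (inLine ε z1.1 z2.1, z2.2) *
            gw b l (inLine ε z1.1 z2.1, z2.2))) := by ring
      _ ≤ (gw b r z1 * ((gR Φ ε T' (z1.1, z2.1) * ENNReal.ofReal ‖z1.1.2 - z2.1.2.1‖ *
            topI r (z2.1.1, z1.2)) * H (z1, o))) *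
          (1 * (vw Φ ε l T' (inLine ε z1.1 z2.1, z2.2) *
            gw b l (inLine ε z1.1 z2.1, z2.2))) := by
          gcongr
          exact topI_le_one _ _
      _ = _ := by ring
  refine (lintegral_mono hpt).trans ?_
  have hAB : Measurable fun z2 : NodeP × Par l => A z2.1 * B z2 :=
    (hAm.comp measurable_fst).mul hBm
  rw [Tree674.lintegral_pair hAB]
  have hs : ∀ a : NodeP, ∫⁻ pr : Par l, A a * B (a, pr) ≤ A a * (C * gE b' a.2.1) := by
    intro a
    have hBa : Measurable fun pr : Par l => B (a, pr) :=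
      hBm.comp (measurable_const.prodMk measurable_id)
    rw [lintegral_const_mul _ hBa]
    exact mul_le_mul_right (hI ε T' hε.le hT (inLine ε z1.1 a)) _
  refine (lintegral_mono hs).trans (le_of_eq ?_)
  rw [← lintegral_const_mul' _ _ (show gw b r z1 ≠ ∞ from ENNReal.ofReal_ne_top),
    ← lintegral_const_mul' _ _ hC]
  refine lintegral_congr fun a => ?_
  simp only [hA]
  ring

/-! ### Boxes -/

theorem gL_le_box (hΦ : AdmissiblePotential Φ) {ε : ℝ} (hε : 0 < ε) {T T' : ℝ} (hT : T' ≤ T)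
    (ℓ : PhasePoint) (a : NodeP) : gL Φ ε T' (ℓ, a) ≤ box1 T a := by
  by_cases hg : gL Φ ε T' (ℓ, a) = 0
  · rw [hg]; exact bot_le
  obtain ⟨g1, -, -, g4, -, -, g7, -⟩ := goodL_spec hΦ hε (mem_GoodL_of_gL hg) rfl
  have ha0 : 0 < a.1 := by rw [← g4]; exact g1.2.2
  have ha1 : a.1 < T' := by
    rw [← g4]
    exact (PathFlow968.sin_le hε.le _ _).trans_lt g1.2.1
  rw [box1_of ⟨ha0, ha1.trans_le hT⟩ g7]
  exact Set.indicator_le_self' (fun _ _ => zero_le_one) _

theorem gR_le_box (hΦ : AdmissiblePotential Φ) {ε : ℝ} (hε : 0 < ε) {T T' : ℝ} (hT : T' ≤ T)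
    (ℓ : PhasePoint) (a : NodeP) : gR Φ ε T' (ℓ, a) ≤ box1 T a := by
  by_cases hg : gR Φ ε T' (ℓ, a) = 0
  · rw [hg]; exact bot_le
  obtain ⟨g1, -, -, g4, -, -, g7, -⟩ := goodR_spec hΦ hε (mem_GoodR_of_gR hg) rfl
  have ha0 : 0 < a.1 := by rw [← g4]; exact g1.2.2
  have ha1 : a.1 < T' := by
    rw [← g4]
    exact (PathFlow968.sin_le hε.le _ _).trans_lt g1.2.1
  rw [box1_of ⟨ha0, ha1.trans_le hT⟩ g7]
  exact Set.indicator_le_self' (fun _ _ => zero_le_one) _

theorem vI_le_box {ε : ℝ} (hε : 0 ≤ ε) {T T' : ℝ} (hT : T' ≤ T)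
    (ℓ : PhasePoint) (a : NodeP) : vI Φ ε T' (ℓ, a) ≤ box1 T a := by
  by_cases hz : ((ℓ, a) : PhasePoint × NodeP) ∈ Vset Φ ε T'
  · have h0 : 0 < a.1 := lt_of_lt_of_le hz.2.2 (PathFlow968.sin_le hε _ _)
    have h1 : a.1 < T' := hz.2.1
    rw [box1_of ⟨h0, h1.trans_le hT⟩ hz.1.1]
    exact Set.indicator_le_self' (fun _ _ => zero_le_one) _
  · have h0 : vI Φ ε T' (ℓ, a) = 0 := indicator_of_notMem hz _
    rw [h0]; exact bot_le

theorem norm_sub_le_mul (v w : Space3) :
    ENNReal.ofReal ‖v - w‖ ≤ ENNReal.ofReal (1 + ‖v‖) * ENNReal.ofReal (1 + ‖w‖) := by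
  rw [← ENNReal.ofReal_mul (by positivity)]
  refine ENNReal.ofReal_le_ofReal ?_
  have := norm_sub_le v w
  nlinarith [norm_nonneg v, norm_nonneg w]

theorem box_flux {b : ℝ} (hb : 0 < b) (T : ℝ) : ∃ C : ℝ≥0∞, C ≠ ∞ ∧ ∀ v : Space3,
    ∫⁻ a : NodeP, box1 T a * (ENNReal.ofReal ‖v - a.2.1‖ * gE b a.2.1) ≤
      C * ENNReal.ofReal (1 + ‖v‖) := by
  obtain ⟨C, hC, h⟩ := one_add_gE (b := b) (b' := b / 2) (by linarith)
  have hfin : ∫⁻ a : NodeP, box1 T a * gE (b / 2) a.2.1 ≠ ∞ :=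
    lintegral_box_ne_top (half_pos hb) T
  have hm : Measurable fun a : NodeP => box1 T a * gE (b / 2) a.2.1 :=
    (measurable_box1 T).mul ((measurable_gE (b / 2)).comp measurable_snd.fst)
  refine ⟨C * ∫⁻ a : NodeP, box1 T a * gE (b / 2) a.2.1, ENNReal.mul_ne_top hC hfin,
    fun v => ?_⟩
  calc ∫⁻ a : NodeP, box1 T a * (ENNReal.ofReal ‖v - a.2.1‖ * gE b a.2.1)
      ≤ ∫⁻ a : NodeP, (C * ENNReal.ofReal (1 + ‖v‖)) * (box1 T a * gE (b / 2) a.2.1) := by
        refine lintegral_mono fun a => ?_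
        calc _ ≤ box1 T a * ((ENNReal.ofReal (1 + ‖v‖) * ENNReal.ofReal (1 + ‖a.2.1‖)) *
              gE b a.2.1) := by
              gcongr
              exact norm_sub_le_mul v a.2.1
          _ = box1 T a * (ENNReal.ofReal (1 + ‖v‖) *
                (ENNReal.ofReal (1 + ‖a.2.1‖) * gE b a.2.1)) := by ring
          _ ≤ box1 T a * (ENNReal.ofReal (1 + ‖v‖) * (C * gE (b / 2) a.2.1)) :=
              mul_le_mul_right (mul_le_mul_right (h _) _) _
          _ = _ := by ring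
    _ = _ := by rw [lintegral_const_mul _ hm]; ring

/-! ### Reduction to one branch -/

/-- **Reduction to the first branch.** -/
theorem subL (hΦ : AdmissiblePotential Φ) {b b' : ℝ} (hb' : 0 < b') (hb : b' < b) (T : ℝ)
    (l r : CTree) : ∃ C : ℝ≥0∞, C ≠ ∞ ∧ ∀ (ε T' : ℝ), 0 < ε → T' ≤ T →
      ∀ G : PhasePoint × Par l → ℝ≥0∞, Measurable G →
      ∫⁻ z : PhasePoint × Par (node l r), vw Φ ε (node l r) T' z * (gw b (node l r) z *
        G ((inM Φ ε (z.1, z.2.1)).1, z.2.2.1)) ≤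
      C * ∫⁻ z1 : PhasePoint × Par l, vw Φ ε l T' z1 * (gw b' l z1 * G z1) := by
  obtain ⟨C, hC, H⟩ := NL hΦ hb' hb T l r
  obtain ⟨C1, hC1, h1⟩ := box_flux hb' T
  obtain ⟨C2, hC2, h2⟩ := one_add_gw hb
  refine ⟨C * (C1 * C2), ENNReal.mul_ne_top hC (ENNReal.mul_ne_top hC1 hC2),
    fun ε T' hε hT G hG => ?_⟩
  refine (H ε T' hε hT (fun w => G w.1) (hG.comp measurable_fst)).trans ?_
  rw [mul_assoc, ← lintegral_const_mul' _ _ (ENNReal.mul_ne_top hC1 hC2)]
  refine mul_le_mul_right (lintegral_mono fun z1 => ?_) _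
  have h3 : ∫⁻ a : NodeP, (gL Φ ε T' (z1.1, a) * topI l (a.1, z1.2) *
      (ENNReal.ofReal ‖z1.1.2 - a.2.1‖ * gE b' a.2.1)) * G z1 ≤
      (C1 * ENNReal.ofReal (1 + ‖z1.1.2‖)) * G z1 := by
    have hm : Measurable fun a : NodeP => box1 T a *
        (ENNReal.ofReal ‖z1.1.2 - a.2.1‖ * gE b' a.2.1) := by
      have m1 : Measurable fun a : NodeP => ENNReal.ofReal ‖z1.1.2 - a.2.1‖ := by fun_prop
      exact (measurable_box1 T).mul (m1.mul ((measurable_gE b').comp measurable_snd.fst))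
    calc _ ≤ ∫⁻ a : NodeP, (box1 T a *
          (ENNReal.ofReal ‖z1.1.2 - a.2.1‖ * gE b' a.2.1)) * G z1 := by
          refine lintegral_mono fun a => ?_
          have h4 := gL_le_box hΦ hε hT z1.1 a
          have h5 := topI_le_one l (a.1, z1.2)
          calc _ ≤ (box1 T a * 1 * (ENNReal.ofReal ‖z1.1.2 - a.2.1‖ * gE b' a.2.1)) * G z1 := by
                gcongr
            _ = _ := by rw [mul_one]
      _ = (∫⁻ a : NodeP, box1 T a *
          (ENNReal.ofReal ‖z1.1.2 - a.2.1‖ * gE b' a.2.1)) * G z1 := lintegral_mul_const _ hm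
      _ ≤ _ := mul_le_mul_left (h1 _) _
  calc _ ≤ vw Φ ε l T' z1 * (gw b l z1 * ((C1 * ENNReal.ofReal (1 + ‖z1.1.2‖)) * G z1)) := by
        gcongr
    _ = vw Φ ε l T' z1 * (C1 * (ENNReal.ofReal (1 + ‖z1.1.2‖) * gw b l z1) * G z1) := by ring
    _ ≤ vw Φ ε l T' z1 * (C1 * (C2 * gw b' l z1) * G z1) :=
        mul_le_mul_right (mul_le_mul_left (mul_le_mul_right (h2 l z1) _) _) _
    _ = _ := by ring

/-- **Reduction to the second branch.** -/
theorem subR (hΦ : AdmissiblePotential Φ) {b b' : ℝ} (hb' : 0 < b') (hb : b' < b) (T : ℝ)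
    (l r : CTree) : ∃ C : ℝ≥0∞, C ≠ ∞ ∧ ∀ (ε T' : ℝ), 0 < ε → T' ≤ T →
      ∀ G : PhasePoint × Par r → ℝ≥0∞, Measurable G →
      ∫⁻ z : PhasePoint × Par (node l r), vw Φ ε (node l r) T' z * (gw b (node l r) z *
        G ((inM Φ ε (z.1, z.2.1)).2, z.2.2.2)) ≤
      C * ∫⁻ z1 : PhasePoint × Par r, vw Φ ε r T' z1 * (gw b' r z1 * G z1) := by
  obtain ⟨C, hC, H⟩ := NR hΦ hb' hb T l r
  obtain ⟨C1, hC1, h1⟩ := box_flux hb' T
  obtain ⟨C2, hC2, h2⟩ := one_add_gw hb
  refine ⟨C * (C1 * C2), ENNReal.mul_ne_top hC (ENNReal.mul_ne_top hC1 hC2),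
    fun ε T' hε hT G hG => ?_⟩
  refine (H ε T' hε hT (fun w => G w.1) (hG.comp measurable_fst)).trans ?_
  rw [mul_assoc, ← lintegral_const_mul' _ _ (ENNReal.mul_ne_top hC1 hC2)]
  refine mul_le_mul_right (lintegral_mono fun z1 => ?_) _
  have h3 : ∫⁻ a : NodeP, (gR Φ ε T' (z1.1, a) * topI r (a.1, z1.2) *
      (ENNReal.ofReal ‖z1.1.2 - a.2.1‖ * gE b' a.2.1)) * G z1 ≤
      (C1 * ENNReal.ofReal (1 + ‖z1.1.2‖)) * G z1 := by
    have hm : Measurable fun a : NodeP => box1 T a *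
        (ENNReal.ofReal ‖z1.1.2 - a.2.1‖ * gE b' a.2.1) := by
      have m1 : Measurable fun a : NodeP => ENNReal.ofReal ‖z1.1.2 - a.2.1‖ := by fun_prop
      exact (measurable_box1 T).mul (m1.mul ((measurable_gE b').comp measurable_snd.fst))
    calc _ ≤ ∫⁻ a : NodeP, (box1 T a *
          (ENNReal.ofReal ‖z1.1.2 - a.2.1‖ * gE b' a.2.1)) * G z1 := by
          refine lintegral_mono fun a => ?_
          have h4 := gR_le_box hΦ hε hT z1.1 a
          have h5 := topI_le_one r (a.1, z1.2)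
          calc _ ≤ (box1 T a * 1 * (ENNReal.ofReal ‖z1.1.2 - a.2.1‖ * gE b' a.2.1)) * G z1 := by
                gcongr
            _ = _ := by rw [mul_one]
      _ = (∫⁻ a : NodeP, box1 T a *
          (ENNReal.ofReal ‖z1.1.2 - a.2.1‖ * gE b' a.2.1)) * G z1 := lintegral_mul_const _ hm
      _ ≤ _ := mul_le_mul_left (h1 _) _
  calc _ ≤ vw Φ ε r T' z1 * (gw b r z1 * ((C1 * ENNReal.ofReal (1 + ‖z1.1.2‖)) * G z1)) := by
        gcongr
    _ = vw Φ ε r T' z1 * (C1 * (ENNReal.ofReal (1 + ‖z1.1.2‖) * gw b r z1) * G z1) := by ring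
    _ ≤ vw Φ ε r T' z1 * (C1 * (C2 * gw b' r z1) * G z1) :=
        mul_le_mul_right (mul_le_mul_left (mul_le_mul_right (h2 r z1) _) _) _
    _ = _ := by ring

/-! ### Integration of both branches -/

/-- integral of a branch -/
theorem lintegral_br_le {ε T b : ℝ} {P : CTree} {C : ℝ≥0∞} {b' : ℝ} {ℓ : PhasePoint} (s : ℝ)
    (h : ∫⁻ p : Par P, vw Φ ε P T (ℓ, p) * gw b P (ℓ, p) ≤ C * gE b' ℓ.2) :
    ∫⁻ p : Par P, br Φ ε T b P s (ℓ, p) ≤ C * gE b' ℓ.2 :=
  (lintegral_mono fun _ => br_le _ _ _ _ _ _).trans h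

/-- **Integration of both branches** at a fixed root line. -/
theorem N0 (hΦ : AdmissiblePotential Φ) {b b' : ℝ} (hb' : 0 < b') (hb : b' < b) (T : ℝ)
    (l r : CTree) : ∃ C : ℝ≥0∞, C ≠ ∞ ∧ ∀ (ε T' : ℝ), 0 < ε → T' ≤ T → ∀ ℓ : PhasePoint,
      ∀ H : NodeP → ℝ≥0∞, Measurable H →
      ∫⁻ p : Par (node l r), vw Φ ε (node l r) T' (ℓ, p) * (gw b (node l r) (ℓ, p) * H p.1) ≤
      C * ∫⁻ a : NodeP, (vI Φ ε T' (ℓ, a) * ENNReal.ofReal ‖ℓ.2 - a.2.1‖) *
        ((gE b' ℓ.2 * gE b' a.2.1) * H a) := by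
  obtain ⟨C1, hC1, h1⟩ := I0 hΦ hb' hb l T
  obtain ⟨C2, hC2, h2⟩ := I0 hΦ hb' hb r T
  refine ⟨C1 * C2, ENNReal.mul_ne_top hC1 hC2, fun ε T' hε hT ℓ H hH => ?_⟩
  rw [node_fix hΦ hε T' b l r ℓ (H := fun p => H p.1) (hH.comp (measurable_par1 l r)),
    ← lintegral_const_mul' _ _ (ENNReal.mul_ne_top hC1 hC2)]
  refine lintegral_mono fun a => ?_
  by_cases hz : ((ℓ, a) : PhasePoint × NodeP) ∈ Vset Φ ε T'
  · have hA : Adm1 Φ ℓ.2 a := hz.1
    have hbr : Measurable fun pr : Par r =>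
        br Φ ε T' b r (sinM Φ ε (ℓ, a)) ((inM Φ ε (ℓ, a)).2, pr) :=
      (measurable_br hΦ ε T' b r).comp (measurable_const.prodMk
        (measurable_const.prodMk measurable_id))
    have hbl : Measurable fun pl : Par l =>
        br Φ ε T' b l (sinM Φ ε (ℓ, a)) ((inM Φ ε (ℓ, a)).1, pl) :=
      (measurable_br hΦ ε T' b l).comp (measurable_const.prodMk
        (measurable_const.prodMk measurable_id))
    have e1 : ∀ pl : Par l, ∫⁻ pr : Par r, br Φ ε T' b r (sinM Φ ε (ℓ, a))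
        ((inM Φ ε (ℓ, a)).2, pr) * H a =
        (∫⁻ pr : Par r, br Φ ε T' b r (sinM Φ ε (ℓ, a)) ((inM Φ ε (ℓ, a)).2, pr)) * H a :=
      fun pl => lintegral_mul_const (μ := (volume : Measure (Par r))) (H a) hbr
    have i1 := lintegral_br_le (sinM Φ ε (ℓ, a)) (h1 ε T' hε.le hT (inM Φ ε (ℓ, a)).1)
    have i2 := lintegral_br_le (sinM Φ ε (ℓ, a)) (h2 ε T' hε.le hT (inM Φ ε (ℓ, a)).2)
    have e2 : gE b' (inM Φ ε (ℓ, a)).1.2 * gE b' (inM Φ ε (ℓ, a)).2.2 =
        gE b' ℓ.2 * gE b' a.2.1 := by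
      rw [inM_of_adm (z := (ℓ, a)) hA]
      exact gE_node hΦ (o := (ℓ, a)) hA rfl b'
    have e3 : ∫⁻ pl : Par l, br Φ ε T' b l (sinM Φ ε (ℓ, a)) ((inM Φ ε (ℓ, a)).1, pl) *
          ∫⁻ pr : Par r, br Φ ε T' b r (sinM Φ ε (ℓ, a)) ((inM Φ ε (ℓ, a)).2, pr) * H a =
        (∫⁻ pl : Par l, br Φ ε T' b l (sinM Φ ε (ℓ, a)) ((inM Φ ε (ℓ, a)).1, pl)) *
          ((∫⁻ pr : Par r, br Φ ε T' b r (sinM Φ ε (ℓ, a)) ((inM Φ ε (ℓ, a)).2, pr)) * H a) := by
      refine (lintegral_congr fun pl => ?_).trans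
        (lintegral_mul_const (μ := (volume : Measure (Par l))) _ hbl)
      exact congrArg _ (e1 pl)
    refine (mul_le_mul_right e3.le _).trans ?_
    calc _ ≤ (vI Φ ε T' (ℓ, a) * ENNReal.ofReal ‖ℓ.2 - a.2.1‖) *
          ((C1 * gE b' (inM Φ ε (ℓ, a)).1.2) * ((C2 * gE b' (inM Φ ε (ℓ, a)).2.2) * H a)) := by
          gcongr
      _ = (vI Φ ε T' (ℓ, a) * ENNReal.ofReal ‖ℓ.2 - a.2.1‖) *
          ((C1 * C2) * ((gE b' (inM Φ ε (ℓ, a)).1.2 * gE b' (inM Φ ε (ℓ, a)).2.2) * H a)) := by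
          ring
      _ = _ := by rw [e2]; ring
  · have h0 : vI Φ ε T' (ℓ, a) = 0 := indicator_of_notMem hz _
    rw [h0]
    simp

end Crest.Agent.R122.Mark307

end
end

-- ▼ part R122/Mark9_307
section

/-!
Row 122, block H7b (helper307), part 9: **the outgoing lines of a flipped node are collision legs**.

* parity of the passage data (`tauM_neg`, `exitM_neg`, `passSet_neg`).
* `rev_node` : the reversed passage at a node.
* `out_L`, `out_R` : for good incoming parameters, the root line at the exit time and the exit line of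
  the node are `legL'`, `legC'` (followed particle = first input), resp. `legC'`, `legL'` (followed
  particle = second input) of helper969.
-/

set_option autoImplicit false
set_option synthInstance.maxSize 1024

open MeasureTheory Set Filter Topology
open Crest.AnalysisR.Kinetic
open scoped ENNReal

noncomputable section

namespace Crest.Agent.R122.Mark307

open Kin796 Kin796.CTree Disc416 Scat818 Flow671 Flux663 Tree674 TreeDom974
open scoped Classical

variable {Φ : Space3 → ℝ}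

/-! ### Parity -/

theorem entrancePoint_neg (b g : Space3) : entrancePoint (-b) (-g) = -entrancePoint b g :=
  entrancePoint_isometry (LinearIsometryEquiv.neg ℝ) b g

theorem inc_neg (b g : Space3) : inc (-b) (-g) = -inc b g := by
  unfold inc
  rw [entrancePoint_neg]
  rfl

theorem gincid_neg {p : Space3 × Space3} : -p ∈ gincid ↔ p ∈ gincid := by
  unfold gincid
  have h1 := mem_impactDisc_isometry (LinearIsometryEquiv.neg ℝ) (b := p.1) (g := p.2)
  have h2 : (-p).1 ∈ impactDisc (-p).2 ↔ p.1 ∈ impactDisc p.2 := h1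
  have h3 : (-p).2 ≠ 0 ↔ p.2 ≠ 0 := by
    show -p.2 ≠ 0 ↔ p.2 ≠ 0
    exact neg_ne_zero
  exact and_congr h2 h3

theorem hasExit_neg (hΦ : AdmissiblePotential Φ) {p : Space3 × Space3} (hp : p ∈ gincid) {τ : ℝ} :
    HasExit Φ (inc (-p).1 (-p).2) τ ↔ HasExit Φ (inc p.1 p.2) τ :=
  hasExit_isometry hΦ (LinearIsometryEquiv.neg ℝ) hp.1 hp.2

theorem passSet_neg (hΦ : AdmissiblePotential Φ) {p : Space3 × Space3} :
    -p ∈ passSet Φ ↔ p ∈ passSet Φ := by
  constructor
  · rintro ⟨h1, τ, h2⟩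
    have h3 := gincid_neg.1 h1
    exact ⟨h3, τ, (hasExit_neg hΦ h3).1 h2⟩
  · rintro ⟨h1, τ, h2⟩
    exact ⟨gincid_neg.2 h1, τ, (hasExit_neg hΦ h1).2 h2⟩

theorem tauM_neg (hΦ : AdmissiblePotential Φ) (p : Space3 × Space3) :
    tauM Φ (-p) = tauM Φ p := by
  by_cases hp : p ∈ passSet Φ
  · rw [tauM_of_mem ((passSet_neg hΦ).2 hp), tauM_of_mem hp]
    exact exitTime_eq ((hasExit_neg hΦ hp.1).2 hp.2.hasExit)
  · rw [tauM_of_not (fun h => hp ((passSet_neg hΦ).1 h)), tauM_of_not hp]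

theorem exitM_neg (hΦ : AdmissiblePotential Φ) (p : Space3 × Space3) :
    exitM Φ (-p) = -exitM Φ p := by
  by_cases hp : p ∈ passSet Φ
  · unfold exitM
    rw [tauM_neg hΦ]
    have hz : Reg Φ (inc p.1 p.2).1 := reg_entrance Φ hp.1.1 hp.1.2
    have h1 := relFlow_isometry hΦ (LinearIsometryEquiv.neg ℝ) hz (tauM Φ p)
    have h2 : inc (-p).1 (-p).2 = (LinearIsometryEquiv.neg ℝ (inc p.1 p.2).1,
        LinearIsometryEquiv.neg ℝ (inc p.1 p.2).2) := inc_neg p.1 p.2
    rw [h2, h1]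
    rfl
  · rw [exitM_of_not hΦ (fun h => hp ((passSet_neg hΦ).1 h)), exitM_of_not hΦ hp]
    exact inc_neg p.1 p.2

/-! ### The reversed passage at a node -/

/-- reversed passage data at a node -/
def rvn (Φ : Space3 → ℝ) (v : Space3) (a : NodeP) : Space3 × Space3 :=
  (exitImpact Φ (nb v a) (ng v a), -exitVelocity Φ (nb v a) (ng v a))

theorem rev_node (hΦ : AdmissiblePotential Φ) {v : Space3} {a : NodeP} (ha : Adm1 Φ v a) :
    tauM Φ (rvn Φ v a) = tau Φ (nb v a) (ng v a) ∧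
      exitM Φ (rvn Φ v a) = (entrancePoint (nb v a) (ng v a), -ng v a) ∧
      entrancePoint (rvn Φ v a).1 (rvn Φ v a).2 = qx Φ (nb v a) (ng v a) := by
  have hb := ha.nb_mem
  have hg := ha.ng_ne
  have hE := hasExit_tau hΦ hb hg ha.nt
  obtain ⟨h1, h2⟩ := hE.reverse hΦ hb hg
  have hm : rvn Φ v a ∈ passSet Φ :=
    ⟨⟨mem_impactDisc_neg.2 (exitImpact_mem hΦ hb hg),
      neg_ne_zero.2 (exitVelocity_ne_zero hΦ hb hg)⟩, ⟨_, h1⟩⟩
  have ht : tauM Φ (rvn Φ v a) = tau Φ (nb v a) (ng v a) := by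
    rw [tauM_of_mem hm]
    exact exitTime_eq h1
  refine ⟨ht, ?_, ?_⟩
  · unfold exitM
    rw [ht]
    exact h2
  · rw [qx_eq_impact hΦ hb hg ha.nt]
    unfold rvn entrancePoint
    simp only
    rw [norm_exitImpact hΦ hb hg, norm_neg, norm_exitVelocity hΦ hb hg, smul_neg, sub_neg_eq_add]

theorem frameMap_neg (g : Space3) (y : Plane) : frameMap g (-y) = -frameMap g y := by
  have h := frameMap_smul g (-1) y
  rw [neg_one_smul, neg_one_smul] at h
  exact h

/-- impact data of the incoming pair of a node -/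
theorem bO_inMap (hΦ : AdmissiblePotential Φ) {ε : ℝ} (hε : 0 < ε) {z : PhasePoint × NodeP}
    (hz : Adm1 Φ z.1.2 z.2) :
    bO ε (inMap Φ ε z.1 z.2) = exitImpact Φ (nb z.1.2 z.2) (ng z.1.2 z.2) := by
  have hbm := hz.nb_mem
  have hg0 := hz.ng_ne
  have hg' := exitVelocity_ne_zero hΦ hbm hg0
  have hb' := inner_exitImpact hΦ hbm hg0
  have hb1 : inner ℝ (ε • exitImpact Φ (nb z.1.2 z.2) (ng z.1.2 z.2))
      (exitVelocity Φ (nb z.1.2 z.2) (ng z.1.2 z.2)) = 0 := by
    rw [inner_smul_left, hb', mul_zero]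
  obtain ⟨h1, -⟩ := bline_frame hg' hb1 (Tree674.sin Φ ε z.1.2 z.2 +
    ε * (Real.sqrt (1 - ‖nb z.1.2 z.2‖ ^ 2) / ‖ng z.1.2 z.2‖))
  have hp := inMap_pos_sub hΦ ε hz
  have hv := inMap_vel_sub (Φ := Φ) ε z.1 z.2
  unfold bO
  rw [hp, hv, h1, smul_smul, one_div_mul_cancel hε.ne', one_smul]

theorem bO_inLine {ε : ℝ} (hε : 0 < ε) {ℓ : PhasePoint} {a : NodeP} (ha : ℓ.2 ≠ a.2.1) :
    bO ε (ℓ, inLine ε ℓ a) = nb ℓ.2 a := by
  have hg : ng ℓ.2 a ≠ 0 := sub_ne_zero.2 ha
  have hb0 : inner ℝ (nb ℓ.2 a) (ng ℓ.2 a) = 0 := inner_frameMap_self _ _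
  have hb1 : inner ℝ (ε • nb ℓ.2 a) (ng ℓ.2 a) = 0 := by rw [inner_smul_left, hb0, mul_zero]
  obtain ⟨h1, -⟩ := bline_frame hg hb1
    (a.1 + ε * (Real.sqrt (1 - ‖nb ℓ.2 a‖ ^ 2) / ‖ng ℓ.2 a‖))
  simp only [bO]
  rw [inLine_fst_sub, show ℓ.2 - (inLine ε ℓ a).2 = ng ℓ.2 a from rfl, h1, smul_smul,
    one_div_mul_cancel hε.ne', one_smul]

/-- relative data of the followed line at a flipped node -/
def eN (ℓ : PhasePoint) (a : NodeP) : CollLeg969.EC := (ℓ.2 - a.2.1, -a.2.2)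

theorem bg_eN (ℓ : PhasePoint) (a : NodeP) :
    CollLeg969.bg (eN ℓ a) = (-nb ℓ.2 a, ng ℓ.2 a) := by
  unfold CollLeg969.bg eN
  simp only
  rw [frameMap_neg]
  rfl

/-! ### Outgoing lines -/

/-- **Outgoing lines of a flipped node, first orientation.** -/
theorem out_L (hΦ : AdmissiblePotential Φ) {ε : ℝ} (hε : 0 < ε) {T : ℝ} {ℓ : PhasePoint}
    {a : NodeP} (h : (ℓ, a) ∈ GoodL Φ ε T) {o : PhasePoint × NodeP}
    (ho : outD Φ ε T (ℓ, inLine ε ℓ a) = o) (s₀ : ℝ) :
    ((o.2.1, onLine o.1 o.2.1) : BLine) =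
      (CollLeg969.legL' hΦ ε).out ((s₀, onLine ℓ s₀), (a.1, eN ℓ a)) ∧
    topX ε o = (CollLeg969.legC' hΦ ε).out ((s₀, onLine ℓ s₀), (a.1, eN ℓ a)) := by
  obtain ⟨g1, g2, -, g4, -, -, -, g8⟩ := goodL_spec hΦ hε h ho
  have hA := g1.1
  obtain ⟨r1, r2, r3⟩ := rev_node hΦ hA
  -- identification of the data
  have e1 : nb ℓ.2 a = exitImpact Φ (nb o.1.2 o.2) (ng o.1.2 o.2) := by
    rw [← bO_inLine hε g8, ← g2]
    exact bO_inMap hΦ hε hA
  have e2 : ng ℓ.2 a = exitVelocity Φ (nb o.1.2 o.2) (ng o.1.2 o.2) := by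
    rw [← inMap_vel_sub (Φ := Φ) ε o.1 o.2, g2]
    rfl
  have e3 : CollLeg969.bg (eN ℓ a) = -rvn Φ o.1.2 o.2 := by
    rw [bg_eN, e1, e2]
    unfold rvn
    refine Prod.ext rfl ?_
    simp
  set τ := tau Φ (nb o.1.2 o.2) (ng o.1.2 o.2) with hτ
  have d1 : CollLeg969.dtE Φ ε (eN ℓ a) = ε * τ := by
    unfold CollLeg969.dtE
    rw [e3, tauM_neg hΦ, r1]
  have d2 : CollLeg969.entE (eN ℓ a) = -qx Φ (nb o.1.2 o.2) (ng o.1.2 o.2) := by
    unfold CollLeg969.entE
    rw [e3]
    show entrancePoint (-(rvn Φ o.1.2 o.2).1) (-(rvn Φ o.1.2 o.2).2) = _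
    rw [entrancePoint_neg, r3]
  have d3 : CollLeg969.exE Φ (eN ℓ a) =
      (-entrancePoint (nb o.1.2 o.2) (ng o.1.2 o.2), ng o.1.2 o.2) := by
    unfold CollLeg969.exE
    rw [e3, exitM_neg hΦ, r2]
    refine Prod.ext rfl ?_
    simp
  have hs : o.2.1 = a.1 + ε * τ := by
    have : Tree674.sin Φ ε o.1.2 o.2 = o.2.1 - ε * τ := rfl
    rw [this] at g4
    linarith
  have hl : ℓ = (inMap Φ ε o.1 o.2).1 := by rw [g2]
  have hv : ℓ.2 = cmv o.1.2 o.2 + (1 / 2 : ℝ) • ng ℓ.2 a := by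
    conv_lhs => rw [hl]
    show (preV Φ o.1.2 o.2).1 = _
    rw [preV_eq, e2]
  have hx : ℓ.1 = cms ε o.1 o.2 - (ε * τ) • cmv o.1.2 o.2
      - (ε / 2) • qx Φ (nb o.1.2 o.2) (ng o.1.2 o.2) - a.1 • ℓ.2 := by
    have h1 : ℓ.1 = (xin Φ ε o.1 o.2).1 - Tree674.sin Φ ε o.1.2 o.2 • (preV Φ o.1.2 o.2).1 := by
      conv_lhs => rw [hl]
      rfl
    have h2 : (preV Φ o.1.2 o.2).1 = ℓ.2 := by
      conv_rhs => rw [hl]
      rfl
    rw [h1, g4, h2]
    rfl
  have hge : (eN ℓ a).1 = ng ℓ.2 a := rfl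
  have hcm : cmv o.1.2 o.2 = (1 / 2 : ℝ) • (o.1.2 + o.2.2.1) := rfl
  have hng : ng o.1.2 o.2 = o.1.2 - o.2.2.1 := rfl
  set G := ng ℓ.2 a with hG
  constructor
  · unfold Boost969.Leg.out CollLeg969.legL' onLine
    simp only
    rw [d1, d2, d3, hge]
    refine Prod.ext hs (Prod.ext ?_ ?_)
    · simp only
      have h3 : ℓ.1 + s₀ • ℓ.2 + (a.1 - s₀ + ε * τ) • ℓ.2 +
          (-((ε / 2) • -qx Φ (nb o.1.2 o.2) (ng o.1.2 o.2)) - (ε * τ / 2) • G +
            (ε / 2) • -entrancePoint (nb o.1.2 o.2) (ng o.1.2 o.2)) =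
          (ℓ.1 + a.1 • ℓ.2 + (ε / 2) • qx Φ (nb o.1.2 o.2) (ng o.1.2 o.2)) +
            (ε * τ) • (ℓ.2 - (1 / 2 : ℝ) • G) -
            (ε / 2) • entrancePoint (nb o.1.2 o.2) (ng o.1.2 o.2) := by module
      have h4 : ℓ.2 - (1 / 2 : ℝ) • G = cmv o.1.2 o.2 := by
        rw [eq_comm, eq_sub_iff_add_eq]; exact hv.symm
      have h5 : ℓ.1 + a.1 • ℓ.2 + (ε / 2) • qx Φ (nb o.1.2 o.2) (ng o.1.2 o.2) =
          cms ε o.1 o.2 - (ε * τ) • cmv o.1.2 o.2 := by
        rw [hx]; abel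
      rw [h3, h4, h5]
      unfold cms
      module
    · simp only
      have h4 : ℓ.2 = cmv o.1.2 o.2 + (1 / 2 : ℝ) • G := hv
      rw [h4, hng, hcm]
      module
  · unfold topX Boost969.Leg.out CollLeg969.legC' onLine outLine
    simp only
    rw [d1, d2, d3, hge]
    refine Prod.ext hs (Prod.ext ?_ ?_)
    · simp only
      have h3 : ℓ.1 + s₀ • ℓ.2 + (a.1 - s₀ + ε * τ) • ℓ.2 +
          (-((ε / 2) • -qx Φ (nb o.1.2 o.2) (ng o.1.2 o.2)) - (ε * τ / 2) • G -
            (ε / 2) • -entrancePoint (nb o.1.2 o.2) (ng o.1.2 o.2)) =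
          (ℓ.1 + a.1 • ℓ.2 + (ε / 2) • qx Φ (nb o.1.2 o.2) (ng o.1.2 o.2)) +
            (ε * τ) • (ℓ.2 - (1 / 2 : ℝ) • G) +
            (ε / 2) • entrancePoint (nb o.1.2 o.2) (ng o.1.2 o.2) := by module
      have h4 : ℓ.2 - (1 / 2 : ℝ) • G = cmv o.1.2 o.2 := by
        rw [eq_comm, eq_sub_iff_add_eq]; exact hv.symm
      have h5 : ℓ.1 + a.1 • ℓ.2 + (ε / 2) • qx Φ (nb o.1.2 o.2) (ng o.1.2 o.2) =
          cms ε o.1 o.2 - (ε * τ) • cmv o.1.2 o.2 := by
        rw [hx]; abel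
      rw [h3, h4, h5]
      unfold cms
      module
    · simp only
      have h4 : ℓ.2 = cmv o.1.2 o.2 + (1 / 2 : ℝ) • G := hv
      rw [h4, hng, hcm]
      module

/-- **Outgoing lines of a flipped node, second orientation.** -/
theorem out_R (hΦ : AdmissiblePotential Φ) {ε : ℝ} (hε : 0 < ε) {T : ℝ} {ℓ : PhasePoint}
    {a : NodeP} (h : (ℓ, a) ∈ GoodR Φ ε T) {o : PhasePoint × NodeP}
    (ho : outD Φ ε T (inLine ε ℓ a, ℓ) = o) (s₀ : ℝ) :
    ((o.2.1, onLine o.1 o.2.1) : BLine) =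
      (CollLeg969.legC' hΦ ε).out ((s₀, onLine ℓ s₀), (a.1, eN ℓ a)) ∧
    topX ε o = (CollLeg969.legL' hΦ ε).out ((s₀, onLine ℓ s₀), (a.1, eN ℓ a)) := by
  obtain ⟨g1, g2, -, g4, -, -, -, g8⟩ := goodR_spec hΦ hε h ho
  have hA := g1.1
  obtain ⟨r1, r2, r3⟩ := rev_node hΦ hA
  have e0 : bO ε (ℓ, inLine ε ℓ a) = -bO ε (inLine ε ℓ a, ℓ) := by
    have := bO_swap ε (inLine ε ℓ a, ℓ)
    exact this
  have e1 : nb ℓ.2 a = -exitImpact Φ (nb o.1.2 o.2) (ng o.1.2 o.2) := by
    rw [← bO_inLine hε g8, e0, ← g2]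
    rw [bO_inMap hΦ hε hA]
  have e2 : ng ℓ.2 a = -exitVelocity Φ (nb o.1.2 o.2) (ng o.1.2 o.2) := by
    rw [← inMap_vel_sub (Φ := Φ) ε o.1 o.2, g2]
    show ℓ.2 - a.2.1 = -(a.2.1 - ℓ.2)
    abel
  have e3 : CollLeg969.bg (eN ℓ a) = rvn Φ o.1.2 o.2 := by
    rw [bg_eN, e1, e2, neg_neg]
    rfl
  set τ := tau Φ (nb o.1.2 o.2) (ng o.1.2 o.2) with hτ
  have d1 : CollLeg969.dtE Φ ε (eN ℓ a) = ε * τ := by
    unfold CollLeg969.dtE
    rw [e3, r1]
  have d2 : CollLeg969.entE (eN ℓ a) = qx Φ (nb o.1.2 o.2) (ng o.1.2 o.2) := by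
    unfold CollLeg969.entE
    rw [e3, r3]
  have d3 : CollLeg969.exE Φ (eN ℓ a) =
      (entrancePoint (nb o.1.2 o.2) (ng o.1.2 o.2), -ng o.1.2 o.2) := by
    unfold CollLeg969.exE
    rw [e3, r2]
  have hs : o.2.1 = a.1 + ε * τ := by
    have : Tree674.sin Φ ε o.1.2 o.2 = o.2.1 - ε * τ := rfl
    rw [this] at g4
    linarith
  have hl : ℓ = (inMap Φ ε o.1 o.2).2 := by rw [g2]
  have hv : ℓ.2 = cmv o.1.2 o.2 + (1 / 2 : ℝ) • ng ℓ.2 a := by
    conv_lhs => rw [hl]
    show (preV Φ o.1.2 o.2).2 = _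
    rw [preV_eq, e2]
    module
  have hx : ℓ.1 = cms ε o.1 o.2 - (ε * τ) • cmv o.1.2 o.2
      + (ε / 2) • qx Φ (nb o.1.2 o.2) (ng o.1.2 o.2) - a.1 • ℓ.2 := by
    have h1 : ℓ.1 = (xin Φ ε o.1 o.2).2 - Tree674.sin Φ ε o.1.2 o.2 • (preV Φ o.1.2 o.2).2 := by
      conv_lhs => rw [hl]
      rfl
    have h2 : (preV Φ o.1.2 o.2).2 = ℓ.2 := by
      conv_rhs => rw [hl]
      rfl
    rw [h1, g4, h2]
    rfl
  have hge : (eN ℓ a).1 = ng ℓ.2 a := rfl
  have hcm : cmv o.1.2 o.2 = (1 / 2 : ℝ) • (o.1.2 + o.2.2.1) := rfl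
  have hng : ng o.1.2 o.2 = o.1.2 - o.2.2.1 := rfl
  set G := ng ℓ.2 a with hG
  have h4 : ℓ.2 - (1 / 2 : ℝ) • G = cmv o.1.2 o.2 := by
    rw [eq_comm, eq_sub_iff_add_eq]; exact hv.symm
  have h5 : ℓ.1 + a.1 • ℓ.2 - (ε / 2) • qx Φ (nb o.1.2 o.2) (ng o.1.2 o.2) =
      cms ε o.1 o.2 - (ε * τ) • cmv o.1.2 o.2 := by
    rw [hx]; abel
  constructor
  · unfold Boost969.Leg.out CollLeg969.legC' onLine
    simp only
    rw [d1, d2, d3, hge]
    refine Prod.ext hs (Prod.ext ?_ ?_)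
    · simp only
      have h3 : ℓ.1 + s₀ • ℓ.2 + (a.1 - s₀ + ε * τ) • ℓ.2 +
          (-((ε / 2) • qx Φ (nb o.1.2 o.2) (ng o.1.2 o.2)) - (ε * τ / 2) • G -
            (ε / 2) • entrancePoint (nb o.1.2 o.2) (ng o.1.2 o.2)) =
          (ℓ.1 + a.1 • ℓ.2 - (ε / 2) • qx Φ (nb o.1.2 o.2) (ng o.1.2 o.2)) +
            (ε * τ) • (ℓ.2 - (1 / 2 : ℝ) • G) -
            (ε / 2) • entrancePoint (nb o.1.2 o.2) (ng o.1.2 o.2) := by module
      rw [h3, h4, h5]
      unfold cms
      module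
    · simp only
      rw [hv, hng, hcm]
      module
  · unfold topX Boost969.Leg.out CollLeg969.legL' onLine outLine
    simp only
    rw [d1, d2, d3, hge]
    refine Prod.ext hs (Prod.ext ?_ ?_)
    · simp only
      have h3 : ℓ.1 + s₀ • ℓ.2 + (a.1 - s₀ + ε * τ) • ℓ.2 +
          (-((ε / 2) • qx Φ (nb o.1.2 o.2) (ng o.1.2 o.2)) - (ε * τ / 2) • G +
            (ε / 2) • entrancePoint (nb o.1.2 o.2) (ng o.1.2 o.2)) =
          (ℓ.1 + a.1 • ℓ.2 - (ε / 2) • qx Φ (nb o.1.2 o.2) (ng o.1.2 o.2)) +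
            (ε * τ) • (ℓ.2 - (1 / 2 : ℝ) • G) +
            (ε / 2) • entrancePoint (nb o.1.2 o.2) (ng o.1.2 o.2) := by module
      rw [h3, h4, h5]
      unfold cms
      module
    · simp only
      rw [hv, hng, hcm]
      module

end Crest.Agent.R122.Mark307

end
end

-- ▼ part R122/PairSrc_969
section

/-!
Row 122, block H7, helper969: building blocks of pair laws in the class `PX` of `PairC_292`.

* `srcN`, `PX.src` : point sources with Gaussian velocity densities, translation covariant family;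
* `stepK_fwd` : forward collision steps with a fresh partner (any admissible leg);
* `PX.add`, `PX.smul`, `PX.zero`, `PX.finsum` ;
* `ae_sig_src`, `ae_sig_mkK` : the second line is born after the turning time.
-/

set_option autoImplicit false

open MeasureTheory ProbabilityTheory Set
open Crest.AnalysisR.Kinetic
open Crest.Agent.R122.Boost969 Crest.Agent.R122.Kin416 Crest.Agent.R122.Pair292
open Crest.Agent.R122.CollLeg969
open scoped ENNReal

noncomputable section

namespace Crest.Agent.R122.PairSrc969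

variable {P : PPar} {Ξ Ξ' ν ν' : Measure (Lab × LSt)} {c c' : ℝ≥0∞}

/-! ### Algebra of the class -/

theorem PX.zero : PX P 0 0 0 := by
  refine ⟨inferInstance, inferInstance, fun F _ => by simp, fun F _ => by simp, fun a => by simp⟩

theorem PX.add (h : PX P Ξ ν c) (h' : PX P Ξ' ν' c') : PX P (Ξ + Ξ') (ν + ν') (c + c') := by
  have := h.sfν
  have := h.sfΞ
  have := h'.sfν
  have := h'.sfΞ
  refine ⟨inferInstance, inferInstance, h.spr.add h'.spr, fun F hF => ?_, fun a => ?_⟩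
  · rw [lintegral_add_measure, add_mul]
    exact add_le_add (h.marg F hF) (h'.marg F hF)
  · rw [Measure.map_add _ _ (measurable_shP a), h.trans a, h'.trans a]

theorem PX.smul (h : PX P Ξ ν c) (k : ℝ≥0∞) : PX P (k • Ξ) (k • ν) (k * c) := by
  have := h.sfν
  have := h.sfΞ
  have hw : ∀ m : Measure (Lab × LSt), k • m = m.withDensity fun _ => k := fun m =>
    (withDensity_const k).symm
  refine ⟨by rw [hw]; infer_instance, by rw [hw]; infer_instance, h.spr.smul k,
    fun F hF => ?_, fun a => ?_⟩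
  · rw [lintegral_smul_measure, smul_eq_mul, mul_assoc]
    exact mul_le_mul_right (h.marg F hF) _
  · rw [Measure.map_smul, h.trans a]

theorem PX.finsum {ι : Type*} (s : Finset ι) {Ξ ν : ι → Measure (Lab × LSt)} {c : ι → ℝ≥0∞}
    (h : ∀ i ∈ s, PX P (Ξ i) (ν i) (c i)) :
    PX P (∑ i ∈ s, Ξ i) (∑ i ∈ s, ν i) (∑ i ∈ s, c i) := by
  classical
  induction s using Finset.induction_on with
  | empty => simpa using PX.zero
  | insert a s ha ih =>
    rw [Finset.sum_insert ha, Finset.sum_insert ha, Finset.sum_insert ha]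
    exact PX.add (h a (by simp)) (ih fun i hi => h i (by simp [hi]))

/-! ### Sources -/

section src

variable {Q : Type*} [MeasurableSpace Q]

/-- The law of a pair whose second line is born at the space-time point `(S q, Y q)` with velocity
density `G (q, ·)`, `q ~ μ`. -/
def srcN (μ : Measure Q) (D : Q → ML) (S : Q → ℝ) (N : Q → ℕ) (Y : Q → Space3)
    (G : Q × Space3 → ℝ≥0∞) : Measure (Lab × LSt) :=
  ((μ.prod (volume : Measure Space3)).withDensity G).map
    (fun p => ((D p.1, (S p.1, N p.1)), (S p.1, (Y p.1, p.2))))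

variable {μ : Measure Q} [SFinite μ] {D : Q → ML} {S : Q → ℝ} {N : Q → ℕ} {Y : Q → Space3}
  {G : Q × Space3 → ℝ≥0∞}

instance : SFinite (srcN μ D S N Y G) := by
  unfold srcN
  infer_instance

omit [SFinite μ] in
lemma measurable_srcmap (hD : Measurable D) (hS : Measurable S) (hN : Measurable N)
    (hY : Measurable Y) : Measurable (fun p : Q × Space3 =>
      (((D p.1, (S p.1, N p.1)), (S p.1, (Y p.1, p.2))) : Lab × LSt)) := by
  have h1 : Measurable (fun p : Q × Space3 => D p.1) := hD.comp measurable_fst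
  have h2 : Measurable (fun p : Q × Space3 => S p.1) := hS.comp measurable_fst
  have h3 : Measurable (fun p : Q × Space3 => N p.1) := hN.comp measurable_fst
  have h4 : Measurable (fun p : Q × Space3 => Y p.1) := hY.comp measurable_fst
  exact (h1.prodMk (h2.prodMk h3)).prodMk (h2.prodMk (h4.prodMk measurable_snd))

lemma lintegral_srcN (hD : Measurable D) (hS : Measurable S) (hN : Measurable N)
    (hY : Measurable Y) (hG : Measurable G) {F : Lab × LSt → ℝ≥0∞} (hF : Measurable F) :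
    ∫⁻ p, F p ∂srcN μ D S N Y G =
      ∫⁻ q, (∫⁻ v, G (q, v) * F ((D q, (S q, N q)), (S q, (Y q, v)))) ∂μ := by
  have hm := measurable_srcmap hD hS hN hY
  have hGF : Measurable (fun p : Q × Space3 => G p *
      F ((D p.1, (S p.1, N p.1)), (S p.1, (Y p.1, p.2)))) := hG.mul (hF.comp hm)
  unfold srcN
  rw [lintegral_map hF hm]
  refine (lintegral_withDensity_eq_lintegral_mul _ hG (hF.comp hm)).trans ?_
  exact lintegral_prod _ hGF.aemeasurable

/-- profile density of a source -/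
def prD (A : Q → ℝ≥0∞) (b : ℝ) (p : Q × Space3) : ℝ≥0∞ :=
  A p.1 * cB * ENNReal.ofReal (Real.exp b) * gau (b / 2) p.2

omit [SFinite μ] in
lemma measurable_prD {A : Q → ℝ≥0∞} (hA : Measurable A) (b : ℝ) : Measurable (prD A b) := by
  unfold prD
  exact (((hA.comp measurable_fst).mul_const _).mul_const _).mul
    ((measurable_gau _).comp measurable_snd)

/-- **Sources are in the class.** -/
theorem PX.src {b₀ te η : ℝ} {lam AW : ℝ≥0∞} {W : LSt → ℝ≥0∞} (hWP : WPack b₀ te η lam W AW)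
    (hPW : P.W = W) (hD : Measurable D) (hS : Measurable S) (hN : Measurable N)
    (hY : Measurable Y) (hG : Measurable G) {A : Q → ℝ≥0∞} (hA : Measurable A) {b : ℝ}
    (hb : 0 ≤ b) (hGA : ∀ q v, G (q, v) ≤ A q * gau b v) (hS0 : ∀ q, A q ≠ 0 → 0 ≤ S q)
    (T : Space3 → Q → Q) (hT : ∀ a, Measurable (T a)) (hTμ : ∀ a, μ.map (T a) = μ)
    (hTD : ∀ a q, D (T a q) = shM a (D q)) (hTS : ∀ a q, S (T a q) = S q)
    (hTN : ∀ a q, N (T a q) = N q) (hTY : ∀ a q, Y (T a q) = Y q + a)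
    (hTG : ∀ a q v, G (T a q, v) = G (q, v)) {c : ℝ≥0∞}
    (hmarg : ∀ F : ML × ℝ → ℝ≥0∞, Measurable F →
      ∫⁻ q, F (D q, S q) * (P.lam₁ ^ N q * A q) ∂μ ≤ c * P.rhs F) :
    PX P (srcN μ D S N Y (prD A b)) (srcN μ D S N Y G)
      (c * (cB * ENNReal.ofReal (Real.exp b) * (AW * ∫⁻ v, gau (b / 2 - η) v))) := by
  refine ⟨inferInstance, inferInstance, fun F hF => ?_, fun F hF => ?_, fun a => ?_⟩
  · rw [lintegral_srcN hD hS hN hY hG hF,
      lintegral_srcN hD hS hN hY (measurable_prD hA b) (measurable_avgL measurable_sig hF)]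
    refine lintegral_mono fun q => ?_
    have hGq : Measurable (fun v : Space3 => G (q, v)) :=
      hG.comp (measurable_const.prodMk measurable_id)
    have h1 := Spr.src (S q) (Y q) hb hGq (fun v => hGA q v)
    have hFq : Measurable (fun z : LSt => F ((D q, (S q, N q)), z)) :=
      hF.comp (measurable_const.prodMk measurable_id)
    have h2 := h1 _ hFq
    rw [lintegral_srcM _ _ hGq hFq, lintegral_srcM _ _ ((measurable_gau _).const_mul _)
      (measurable_avg _ hFq)] at h2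
    exact h2
  · have hlm : Measurable (fun n : ℕ => P.lam₁ ^ n) := Measurable.of_discrete
    have hW := P.hW
    have hm : Measurable (fun p : Lab × LSt =>
        F (p.1.1, p.1.2.1) * (P.lam₁ ^ p.1.2.2 * P.W p.2)) := by
      refine (hF.comp (by fun_prop)).mul (Measurable.mul ?_ (hW.comp measurable_snd))
      exact hlm.comp (by fun_prop)
    rw [lintegral_srcN hD hS hN hY (measurable_prD hA b) hm]
    set K : ℝ≥0∞ := cB * ENNReal.ofReal (Real.exp b) * (AW * ∫⁻ v, gau (b / 2 - η) v) with hK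
    have key : ∀ q, ∫⁻ v, prD A b (q, v) * (F (D q, S q) * (P.lam₁ ^ N q *
        P.W (S q, (Y q, v)))) ≤ K * (F (D q, S q) * (P.lam₁ ^ N q * A q)) := by
      intro q
      by_cases hA0 : A q = 0
      · have h0 : ∀ v, prD A b (q, v) = 0 := by
          intro v
          unfold prD
          rw [hA0]
          simp
        simp [h0]
      have hs := hS0 q hA0
      have h3 := hWP.init (γ := b / 2) (S q) hs (Y q)
      have hWq : Measurable (fun v : Space3 => gau (b / 2) v * W (S q, (Y q, v))) :=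
        (measurable_gau _).mul (hWP.meas.comp (by fun_prop))
      calc ∫⁻ v, prD A b (q, v) * (F (D q, S q) * (P.lam₁ ^ N q * P.W (S q, (Y q, v))))
          = ∫⁻ v, (A q * cB * ENNReal.ofReal (Real.exp b) * (F (D q, S q) * P.lam₁ ^ N q)) *
              (gau (b / 2) v * W (S q, (Y q, v))) := by
            refine lintegral_congr fun v => ?_
            unfold prD
            rw [hPW]
            ring
        _ = (A q * cB * ENNReal.ofReal (Real.exp b) * (F (D q, S q) * P.lam₁ ^ N q)) *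
              ∫⁻ v, gau (b / 2) v * W (S q, (Y q, v)) := lintegral_const_mul _ hWq
        _ ≤ (A q * cB * ENNReal.ofReal (Real.exp b) * (F (D q, S q) * P.lam₁ ^ N q)) *
              (AW * ∫⁻ v, gau (b / 2 - η) v) := mul_le_mul_right h3 _
        _ = _ := by rw [hK]; ring
    have hmq : Measurable (fun q => F (D q, S q) * (P.lam₁ ^ N q * A q)) :=
      (hF.comp (hD.prodMk hS)).mul ((hlm.comp hN).mul hA)
    calc ∫⁻ q, (∫⁻ v, prD A b (q, v) * (F (D q, S q) * (P.lam₁ ^ N q *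
          P.W (S q, (Y q, v))))) ∂μ
        ≤ ∫⁻ q, K * (F (D q, S q) * (P.lam₁ ^ N q * A q)) ∂μ := lintegral_mono key
      _ = K * ∫⁻ q, F (D q, S q) * (P.lam₁ ^ N q * A q) ∂μ := lintegral_const_mul _ hmq
      _ ≤ K * (c * P.rhs F) := mul_le_mul_right (hmarg F hF) _
      _ = _ := by ring
  · refine Measure.ext_of_lintegral _ fun F hF => ?_
    rw [lintegral_map hF (measurable_shP a), lintegral_srcN hD hS hN hY hG hF]
    refine (lintegral_srcN hD hS hN hY hG (hF.comp (measurable_shP a))).trans ?_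
    conv_rhs => rw [← hTμ a]
    have hm := measurable_srcmap hD hS hN hY
    have hGF : Measurable (fun p : Q × Space3 => G p *
        F ((D p.1, (S p.1, N p.1)), (S p.1, (Y p.1, p.2)))) := hG.mul (hF.comp hm)
    have hI : Measurable (fun q : Q => ∫⁻ v, G (q, v) *
        F ((D q, (S q, N q)), (S q, (Y q, v)))) := hGF.lintegral_prod_right'
    rw [lintegral_map hI (hT a)]
    refine lintegral_congr fun q => lintegral_congr fun v => ?_
    rw [hTG, hTD, hTS, hTN, hTY]
    rfl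


end src

/-! ### Forward steps -/

lemma trK_fwd {μ : Measure EC} [SFinite μ] (L : Leg EC) (M b₀ : ℝ) :
    TrK (fwdK μ L gE M b₀) := by
  intro a z F hF
  exact TrCov.fwd (μ := μ) L measurable_gE (M := M) (β := b₀) a z F hF

instance {μ : Measure EC} [SFinite μ] (L : Leg EC) (M b₀ : ℝ) :
    IsSFiniteKernel (fwdK μ L gE M b₀) := by
  unfold fwdK
  exact isSFiniteKernel_stepK L (Nf_ne_top _ _ gE)

/-- **Forward collision steps.** -/
theorem stepK_fwd {b₀ te η : ℝ} {lam A : ℝ≥0∞} {W : LSt → ℝ≥0∞} (h : WPack b₀ te η lam W A)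
    (hPW : P.W = W) (hb : 0 ≤ b₀) {L : Leg EC} (hL : CLeg L) {f : ℕ → ℕ → ℕ}
    (hf : ∀ m n, f m n ≤ n + m) {q : ℕ → ℝ≥0∞} (hq : ∀ m, q m ≠ ∞) :
    StepK P (mkK f q (fwdK collM L gE 1 b₀)) (mkK f q (domK L b₀))
      (lam * ∑' m, P.lam₁ ^ m * q m) := by
  refine stepK_mkK hf hq (galDom_domK L hb) (trK_fwd L 1 b₀) ?_
  intro z
  rw [hPW]
  exact h.step L hL z


/-- births increase along the kernel -/
def UpK (κ : Kernel LSt LSt) : Prop := ∀ z, ∀ᵐ z' ∂κ z, z.1 ≤ z'.1

lemma UpK.mono {κ κ' : Kernel LSt LSt} (h : UpK κ') (hle : ∀ z, κ z ≤ κ' z) : UpK κ := fun z =>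
  (Measure.absolutelyContinuous_of_le (hle z)).ae_le (h z)

lemma UpK.fwd {μ : Measure EC} [SFinite μ] {L : Leg EC} (hL : CLeg L) (M b₀ : ℝ) :
    UpK (fwdK μ L gE M b₀) := by
  intro z
  have hS : MeasurableSet {z' : LSt | ¬ z.1 ≤ z'.1} :=
    (measurableSet_le measurable_const measurable_fst).compl
  have hF : Measurable ({z' : LSt | ¬ z.1 ≤ z'.1}.indicator (1 : LSt → ℝ≥0∞)) :=
    measurable_one.indicator hS
  rw [ae_iff, ← lintegral_indicator_one hS]
  unfold fwdK
  rw [lintegral_stepK L (measurable_Nf M b₀ measurable_gE) (Nf_ne_top M b₀ gE) hF]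
  refine (lintegral_congr fun q => ?_).trans lintegral_zero
  by_cases h : z.1 < q.1
  · rw [indicator_of_notMem, mul_zero]
    intro h1
    refine h1 ?_
    have h2 := hL.dt0 q.2
    change z.1 ≤ q.1 + L.dt q.2
    linarith
  · unfold Nf
    rw [if_neg h, zero_mul]



end Crest.Agent.R122.PairSrc969
end
end

-- ▼ part R122/PairB_307

/-!
# Base pair laws (row 122, block H7b), helper307: definitions

* `BPar`, `BPar.Ok` : parameters (weight of 969, Gaussian rates, mark factor).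
* `IsPP B te K Pp` : `Pp` are the class parameters with the line measure at horizon `te`.
* `Aux ε ν` : almost sure facts (births after the turning time, no atoms, separated siblings).
* `DomP` : the law of two exits of a tree is dominated by a spread pair law.
* `rootB`, `DomR` : the same for an exit and the root reborn at its last encounter.
-/

set_option autoImplicit false
set_option maxHeartbeats 400000
set_option linter.unusedSectionVars false

open MeasureTheory ProbabilityTheory Set Filter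
open scoped ENNReal Topology Classical
open Crest.AnalysisR.Kinetic
open Crest.Agent.R122.Kin796 Crest.Agent.R122.Kin796.CTree Crest.Agent.R122.Tree674
open Crest.Agent.R122.Disc416 Crest.Agent.R122.EDefs602
open Crest.Agent.R122.Boost969 Crest.Agent.R122.Kin416
open Crest.Agent.R122.Pair292 hiding ML
open Crest.Agent.R122.CollLeg969 (WPack CLeg EC collM domK)
open Crest.Agent.R122.PairSrc969

noncomputable section

namespace Crest.Agent.R122.Mark307

/-! ### Parameters -/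

/-- Parameters of the base pair laws. -/
structure BPar where
  /-- horizon -/
  T : ℝ
  /-- Gaussian rate of fresh partners -/
  b₀ : ℝ
  /-- upper bound of the Gaussian rates of the line measure -/
  bs : ℝ
  /-- growth of the weight -/
  η : ℝ
  lam : ℝ≥0∞
  A : ℝ≥0∞
  /-- forward weight -/
  W : LSt → ℝ≥0∞
  /-- mark weight -/
  lam₁ : ℝ≥0∞
  /-- Gaussian rate of the line measure -/
  γ : ℝ → ℝ
  /-- mark factor of the line measure -/
  ρ : ℝ≥0∞

/-- Admissible parameters. -/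
structure BPar.Ok (B : BPar) : Prop where
  T0 : 0 < B.T
  wp : WPack B.b₀ B.T B.η B.lam B.W B.A
  lamt : B.lam ≠ ∞
  b0 : 0 < B.b₀
  b0s : B.b₀ ≤ B.bs
  ηs : B.η < B.bs / 2
  l1 : 1 ≤ B.lam₁
  lt : B.lam₁ ≠ ∞
  γm : Measurable B.γ
  γs : ∀ τ ∈ Ioc 0 B.T, B.γ τ ≤ B.bs
  ρ0 : B.ρ ≠ 0
  ρ1 : B.ρ ≤ 1

/-- `Pp` = the class parameters of `B` with the line measure at horizon `te` (969's `lineP`). -/
structure IsPP (B : BPar) (te : ℝ) (K : ℕ) (Pp : PPar) : Prop where
  w : Pp.W = B.W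
  l : Pp.lam₁ = B.lam₁
  ell : Pp.ℓ = lineM B.γ B.ρ K te
  hor : Pp.t' = te

theorem BPar.Ok.bs0 {B : BPar} (h : B.Ok) : 0 < B.bs := h.b0.trans_le h.b0s

/-! ### Almost sure facts -/

/-- The two lines, born at the same time, are separated or touch and separate. -/
def SibSepD (ε : ℝ) (θ : Lab × LSt) : Prop :=
  ε ≤ dist θ.1.1.1.2.1 θ.2.2.1 ∧ (dist θ.1.1.1.2.1 θ.2.2.1 = ε →
    0 < inner ℝ (θ.1.1.1.2.1 - θ.2.2.1) (θ.1.1.1.2.2 - θ.2.2.2))

/-- Almost sure facts of a base pair law: the turning time is nonnegative and before the birth of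
the second line; a second line born at its turning time, after the first line, has no atom in
position; lines born at the same time are separated. -/
structure Aux (ε : ℝ) (ν : Measure (Lab × LSt)) : Prop where
  sg : ∀ᵐ θ ∂ν, 0 ≤ θ.1.2.1 ∧ θ.1.2.1 ≤ θ.2.1
  na : ∀ Z : ML × ℝ → Space3, Measurable Z → ∀ᵐ θ ∂ν, θ.1.1.1.1 < θ.1.2.1 → θ.2.1 = θ.1.2.1 →
    θ.2.2.1 ≠ Z (θ.1.1, θ.1.2.1)
  sb : ∀ᵐ θ ∂ν, θ.1.1.1.1 = θ.2.1 → SibSepD ε θ

/-- Almost sure facts of a law of (exit, root reborn): turning time = birth of the exit. -/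
structure AuxF (ε : ℝ) (ν : Measure (Lab × LSt)) : Prop where
  sg : ∀ᵐ θ ∂ν, 0 ≤ θ.1.2.1 ∧ θ.1.2.1 = θ.1.1.1.1 ∧ θ.1.1.1.1 ≤ θ.2.1
  sb : ∀ᵐ θ ∂ν, θ.1.1.1.1 = θ.2.1 → SibSepD ε θ

variable {ε : ℝ} {ν ν' : Measure (Lab × LSt)}

theorem AuxF.aux (h : AuxF ε ν) : Aux ε ν where
  sg := by
    filter_upwards [h.sg] with θ hθ
    exact ⟨hθ.1, hθ.2.1.trans_le hθ.2.2⟩
  na := by
    intro Z _
    filter_upwards [h.sg] with θ hθ h1 _
    exact absurd h1 (by rw [hθ.2.1]; exact lt_irrefl _)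
  sb := h.sb

theorem Aux.mono (h : Aux ε ν) (hle : ν' ≪ ν) : Aux ε ν' :=
  ⟨hle.ae_le h.sg, fun Z hZ => hle.ae_le (h.na Z hZ), hle.ae_le h.sb⟩

theorem AuxF.mono (h : AuxF ε ν) (hle : ν' ≪ ν) : AuxF ε ν' :=
  ⟨hle.ae_le h.sg, hle.ae_le h.sb⟩

theorem ae_add_measure' {p : Lab × LSt → Prop} (h : ∀ᵐ θ ∂ν, p θ) (h' : ∀ᵐ θ ∂ν', p θ) :
    ∀ᵐ θ ∂(ν + ν'), p θ := ae_add_measure_iff.2 ⟨h, h'⟩

theorem Aux.add (h : Aux ε ν) (h' : Aux ε ν') : Aux ε (ν + ν') :=
  ⟨ae_add_measure' h.sg h'.sg, fun Z hZ => ae_add_measure' (h.na Z hZ) (h'.na Z hZ),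
    ae_add_measure' h.sb h'.sb⟩

theorem Aux.zero : Aux ε 0 := ⟨by simp, fun _ _ => by simp, by simp⟩

theorem Aux.smul (h : Aux ε ν) (k : ℝ≥0∞) : Aux ε (k • ν) :=
  h.mono (Measure.AbsolutelyContinuous.rfl.smul_left k)

theorem AuxF.smul (h : AuxF ε ν) (k : ℝ≥0∞) : AuxF ε (k • ν) :=
  h.mono (Measure.AbsolutelyContinuous.rfl.smul_left k)

theorem Aux.finsum {ι : Type*} (s : Finset ι) {ν : ι → Measure (Lab × LSt)}
    (h : ∀ i ∈ s, Aux ε (ν i)) : Aux ε (∑ i ∈ s, ν i) := by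
  classical
  induction s using Finset.induction_on with
  | empty => simpa using Aux.zero
  | insert a s ha ih =>
    rw [Finset.sum_insert ha]
    exact Aux.add (h a (by simp)) (ih fun i hi => h i (by simp [hi]))

/-! ### Domination of two exits -/

/-- `m'` is on the forward path of `m`: the node `m'` is above the node `m`. -/
def fwd : {P : CTree} → Mk P → Mk P → Bool
  | _, .top _ _, _ => false
  | _, .inl _ _, .top _ _ => true
  | _, .inl m _, .inl m' _ => fwd m m'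
  | _, .inl _ _, .inr _ _ => false
  | _, .inr _ _, .top _ _ => true
  | _, .inr _ _, .inl _ _ => false
  | _, .inr _ m, .inr _ m' => fwd m m'

/-- Turning time of the ordered pair of exits `(m, m')`: birth of the exit `m` if `m'` is on the
forward path of `m`, birth of the exit `m'` otherwise. -/
def sgT (Φ : Space3 → ℝ) (ε : ℝ) {P : CTree} (m m' : Mk P) (z : PhasePoint × Par P) : ℝ :=
  if fwd m m' then (exM Φ ε m z).1 else (exM Φ ε m' z).1

/-- label and second line of the ordered pair of exits `(m, m')` -/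
def pairT (Φ : Space3 → ℝ) (ε : ℝ) {P : CTree} (m m' : Mk P) (z : PhasePoint × Par P) : Lab × LSt :=
  (((exM Φ ε m z, mkN m), (sgT Φ ε m m' z, mkN m')), exM Φ ε m' z)

/-- **Domination of the labelled law of two exits** `m`, `m'` of the tree `P`, uniform in `ε`, the
horizons and the cut-off. -/
def DomP (Φ : Space3 → ℝ) (B : BPar) (b : ℝ) (P : CTree) (m m' : Mk P) : Prop :=
  ∃ c : ℝ≥0∞, c ≠ ∞ ∧ ∀ ε T' te : ℝ, 0 < ε → ε ≤ 1 → 0 < te → te ≤ T' → T' ≤ B.T →
    ∀ K : ℕ, P.leaves ≤ K → ∀ Pp : PPar, IsPP B te K Pp →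
    ∃ Ξ ν : Measure (Lab × LSt), PX Pp Ξ ν c ∧ Aux ε ν ∧
      ∀ F : Lab × LSt → ℝ≥0∞, Measurable F →
        (∀ p, ¬ (p.1.1.1.1 ≤ te ∧ p.2.1 ≤ te) → F p = 0) →
        ∫⁻ z : PhasePoint × Par P, vw Φ ε P T' z * (gw b P z * F (pairT Φ ε m m' z)) ≤
        ∫⁻ p, F p ∂ν

/-- Birth of the root: exit time of the last encounter (`0` for a leaf). -/
def topT : ∀ P : CTree, Par P → ℝ
  | leaf => fun _ => 0
  | node _ _ => fun p => p.1.1

/-- The root line, reborn at the exit time of its last encounter. -/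
def rootB (P : CTree) (z : PhasePoint × Par P) : BLine := (topT P z.2, onLine z.1 (topT P z.2))

/-- **Domination of the law of (exit, root reborn).** -/
def DomR (Φ : Space3 → ℝ) (B : BPar) (b : ℝ) (P : CTree) (m : Mk P) : Prop :=
  ∃ c : ℝ≥0∞, c ≠ ∞ ∧ ∀ ε T' te : ℝ, 0 < ε → ε ≤ 1 → 0 < te → te ≤ T' → T' ≤ B.T →
    ∀ K : ℕ, P.leaves ≤ K → ∀ Pp : PPar, IsPP B te K Pp →
    ∃ Ξ ν : Measure (Lab × LSt), PX Pp Ξ ν c ∧ AuxF ε ν ∧
      ∀ F : Lab × LSt → ℝ≥0∞, Measurable F → (∀ p, ¬ p.1.1.1.1 ≤ te → F p = 0) →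
        ∫⁻ z : PhasePoint × Par P, vw Φ ε P T' z * (gw b P z *
          F (((exM Φ ε m z, mkN m), ((exM Φ ε m z).1, P.leaves)), rootB P z)) ≤
        ∫⁻ p, F p ∂ν

end Crest.Agent.R122.Mark307

end
private theorem rz_ccb2d90d67 : type_of% @_root_.Crest.Agent.R122.Mark307.fwd.eq_def := @_root_.Crest.Agent.R122.Mark307.fwd.eq_def -- L145
private theorem rz_e006f07112 : type_of% @_root_.Crest.Agent.R122.Mark307.fwd.eq_1 := @_root_.Crest.Agent.R122.Mark307.fwd.eq_1 -- L145
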