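import Crest.Agent.R122.PairB_307
import Crest.Agent.R122.Omega_969
import Crest.Agent.R122.PairBC_307
import Crest.Agent.R122.Mark10_307
import Crest.Agent.R122.BaseDom_307
import Crest.Agent.R122.PMBind_85
import Crest.Agent.R122.PairStepK_85
import Crest.Agent.R122.GIVChild_383
import Crest.Agent.R122.PairReal_998
import Crest.Agent.R122.NuSepDef_85
import Crest.Agent.R122.NuL_735

-- ▼ part R122/PairOff1_969
section

/-!
Row 122, block H7, helper969: exits OFF the forward path of the first marked particle, part 1.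

* `denK` : kernels given by a density and a map;
* `sphM_singleton` : the surface measure of the sphere has no atoms;
* `lintegral_NodeP_le` : integration over the parameters of one node in the form
  (time, velocity, direction of the released particle).
* translations: `shZ`, `inM_sh`, `vw_sh`, `gw_sh`, `exM_sh`.
-/

set_option autoImplicit false
set_option synthInstance.maxSize 1024

open MeasureTheory ProbabilityTheory Set
open Crest.AnalysisR.Kinetic
open Crest.Agent.R122.Boost969 Crest.Agent.R122.Kin416 Crest.Agent.R122.Pair292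
open Crest.Agent.R122.CollLeg969 (EC WPack)
open Crest.Agent.R122.PairSrc969 Crest.Agent.R122.Omega969
open Crest.Agent.R122.Kin796 Crest.Agent.R122.Kin796.CTree Crest.Agent.R122.Tree674
open Crest.Agent.R122.Mark307 Crest.Agent.R122.TreeDom974 Crest.Agent.R122.Disc416
open Crest.Agent.R122.Scat818 Crest.Agent.R122.Flow671 Crest.Agent.R122.Flux663
open scoped ENNReal

noncomputable section

namespace Crest.Agent.R122.PairOff969

/-! ### Kernels with a density -/

section denK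

variable {A X Y : Type*} [MeasurableSpace A] [MeasurableSpace X] [MeasurableSpace Y]

/-- From `a` choose `x ~ g (a, x) μ(dx)`, go to `f (a, x)`. -/
def denK (μ : Measure X) [SFinite μ] (g : A × X → ℝ≥0∞) (f : A × X → Y) : Kernel A Y :=
  (Kernel.id ×ₖ (Kernel.withDensity (Kernel.const A μ) fun a x => g (a, x))).map f

variable {μ : Measure X} [SFinite μ] {g : A × X → ℝ≥0∞} {f : A × X → Y}

lemma isSFiniteKernel_denK (hg : ∀ p, g p ≠ ∞) : IsSFiniteKernel (denK μ g f) := by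
  have := Kernel.IsSFiniteKernel.withDensity (Kernel.const A μ) (f := fun a x => g (a, x))
    (fun a x => hg (a, x))
  unfold denK
  infer_instance

lemma lintegral_denK (hgm : Measurable g) (hg : ∀ p, g p ≠ ∞) (hf : Measurable f)
    {F : Y → ℝ≥0∞} (hF : Measurable F) (a : A) :
    ∫⁻ y, F y ∂denK μ g f a = ∫⁻ x, g (a, x) * F (f (a, x)) ∂μ := by
  have := Kernel.IsSFiniteKernel.withDensity (Kernel.const A μ) (f := fun a x => g (a, x))
    (fun a x => hg (a, x))
  have hFo : Measurable (fun p => F (f p)) := hF.comp hf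
  have hgm' : Measurable (Function.uncurry fun (a : A) (x : X) => g (a, x)) := hgm
  unfold denK
  rw [Kernel.lintegral_map _ hf _ hF, Kernel.lintegral_id_prod hFo,
    Kernel.lintegral_withDensity _ hgm']
  · simp only [Kernel.const_apply]
  · exact hFo.comp (measurable_const.prodMk measurable_id)

end denK

/-! ### The sphere has no atoms -/

lemma sphM_singleton (w₀ : Space3) : sphM {w₀} = 0 := by
  unfold sphM
  rw [Measure.smul_apply, Measure.map_apply measurable_rproj (measurableSet_singleton w₀)]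
  have hsub : rproj ⁻¹' {w₀} ∩ ann ⊆ (Submodule.span ℝ {w₀} : Set Space3) := by
    rintro x ⟨hx, hx2⟩
    have h0 : (0 : ℝ) < ‖x‖ := by linarith [hx2.1]
    have h1 : rproj x = w₀ := hx
    have h2 : x = ‖x‖ • w₀ := by
      rw [← h1]
      unfold rproj
      rw [smul_smul, mul_inv_cancel₀ h0.ne', one_smul]
    rw [h2]
    exact Submodule.smul_mem _ _ (Submodule.mem_span_singleton_self w₀)
  have hne : Submodule.span ℝ {w₀} ≠ (⊤ : Submodule ℝ Space3) := by
    intro h
    have h1 := finrank_span_finset_le_card (R := ℝ) ({w₀} : Finset Space3)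
    rw [Finset.coe_singleton, Set.finrank, h, finrank_top, Finset.card_singleton] at h1
    have h2 : Module.finrank ℝ Space3 = 3 := by simp
    omega
  have h0 : volume (rproj ⁻¹' {w₀} ∩ ann) = 0 :=
    measure_mono_null hsub (Measure.addHaar_submodule volume _ hne)
  rw [Measure.restrict_apply (measurable_rproj (measurableSet_singleton w₀)), h0, smul_zero]

/-! ### One node: time, velocity and direction of the released particle -/

lemma topX_eq (ε : ℝ) (ℓ : PhasePoint) (a : NodeP) :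
    topX ε (ℓ, a) = (a.1, (ℓ.1 + a.1 • ℓ.2 + ε • entrancePoint (nb ℓ.2 a) (ng ℓ.2 a), a.2.1)) := by
  unfold topX onLine outLine
  simp only [sub_add_cancel]

/-- integral over the impact parameter -/
lemma disc_le (v w : Space3) {ψ : Space3 → ℝ≥0∞} (hψ : Measurable ψ) :
    ENNReal.ofReal ‖v - w‖ * ∫⁻ y in Metric.ball (0 : Plane) 1,
        ψ (entrancePoint (frameMap (v - w) y) (v - w)) ≤
      ENNReal.ofReal ‖v - w‖ * ∫⁻ ω, ψ ω ∂sphM := by
  by_cases hg : v - w = 0
  · rw [hg]; simp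
  · rw [omega_disc hg hψ, ← lintegral_const_mul _ hψ]
    refine lintegral_mono_ae ?_
    filter_upwards [ae_norm_sphM] with ω hω
    refine mul_le_mul_left (ENNReal.ofReal_le_ofReal ?_) _
    have h1 := abs_real_inner_le_norm (v - w) ω
    rw [hω, mul_one] at h1
    linarith [neg_abs_le (inner ℝ (v - w) ω)]

theorem node_omega {ε T' : ℝ} {b : ℝ} (hε : 0 ≤ ε) {Φ : Space3 → ℝ} (ℓ : PhasePoint)
    {F : BLine → ℝ≥0∞} (hF : Measurable F) :
    ∫⁻ a : NodeP, (vI Φ ε T' (ℓ, a) * ENNReal.ofReal ‖ℓ.2 - a.2.1‖) *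
        (gE b a.2.1 * F (topX ε (ℓ, a))) ≤
      ∫⁻ s in Ioo 0 T', (∫⁻ w, ENNReal.ofReal ‖ℓ.2 - w‖ * (gE b w *
        ∫⁻ ω, F (s, (ℓ.1 + s • ℓ.2 + ε • ω, w)) ∂sphM)) := by
  have hnb : Measurable fun a : NodeP => (nb ℓ.2 a, ng ℓ.2 a) :=
    measurable_nbng.comp (measurable_const.prodMk measurable_id)
  have hent : Measurable fun a : NodeP => entrancePoint (nb ℓ.2 a) (ng ℓ.2 a) :=
    measurable_entrancePoint.comp hnb
  have hX : Measurable fun a : NodeP => ((a.1, (ℓ.1 + a.1 • ℓ.2 + ε •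
      entrancePoint (nb ℓ.2 a) (ng ℓ.2 a), a.2.1)) : BLine) := by
    have h1 : Measurable fun a : NodeP => a.1 := measurable_fst
    have h2 : Measurable fun a : NodeP => ℓ.1 + a.1 • ℓ.2 := by fun_prop
    have h3 : Measurable fun a : NodeP => a.2.1 := by fun_prop
    exact h1.prodMk ((h2.add (hent.const_smul ε)).prodMk h3)
  have hn : Measurable fun a : NodeP => ENNReal.ofReal ‖ℓ.2 - a.2.1‖ := by fun_prop
  have hge : Measurable fun a : NodeP => gE b a.2.1 := (measurable_gE b).comp measurable_snd.fst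
  have hm : Measurable fun a : NodeP => (box1 T' a * ENNReal.ofReal ‖ℓ.2 - a.2.1‖) *
      (gE b a.2.1 * F (a.1, (ℓ.1 + a.1 • ℓ.2 + ε •
        entrancePoint (nb ℓ.2 a) (ng ℓ.2 a), a.2.1))) :=
    ((measurable_box1 T').mul hn).mul (hge.mul (hF.comp hX))
  have h1 : ∫⁻ a : NodeP, (vI Φ ε T' (ℓ, a) * ENNReal.ofReal ‖ℓ.2 - a.2.1‖) *
        (gE b a.2.1 * F (topX ε (ℓ, a))) ≤
      ∫⁻ a : NodeP, (box1 T' a * ENNReal.ofReal ‖ℓ.2 - a.2.1‖) *
      (gE b a.2.1 * F (a.1, (ℓ.1 + a.1 • ℓ.2 + ε •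
        entrancePoint (nb ℓ.2 a) (ng ℓ.2 a), a.2.1))) := by
    refine lintegral_mono fun a => ?_
    rw [topX_eq]
    exact mul_le_mul_left (mul_le_mul_left (vI_le_box hε le_rfl ℓ a) _) _
  refine h1.trans ?_
  have e1 : ∫⁻ a : NodeP, (box1 T' a * ENNReal.ofReal ‖ℓ.2 - a.2.1‖) *
      (gE b a.2.1 * F (a.1, (ℓ.1 + a.1 • ℓ.2 + ε •
        entrancePoint (nb ℓ.2 a) (ng ℓ.2 a), a.2.1))) =
      ∫⁻ s : ℝ, ∫⁻ w : Space3, ∫⁻ y : Plane, (box1 T' (s, (w, y)) *
        ENNReal.ofReal ‖ℓ.2 - w‖) * (gE b w * F (s, (ℓ.1 + s • ℓ.2 + ε •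
        entrancePoint (nb ℓ.2 (s, (w, y))) (ng ℓ.2 (s, (w, y))), w))) := by
    rw [Tree674.lintegral_pair hm]
    refine lintegral_congr fun s => ?_
    exact Tree674.lintegral_pair (hm.comp (measurable_const.prodMk measurable_id))
  rw [e1, ← lintegral_indicator measurableSet_Ioo]
  refine lintegral_mono fun s => ?_
  by_cases hs : s ∈ Ioo 0 T'
  · rw [indicator_of_mem hs]
    refine lintegral_mono fun w => ?_
    have hFw : Measurable fun ω : Space3 => F (s, (ℓ.1 + s • ℓ.2 + ε • ω, w)) :=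
      hF.comp (by fun_prop)
    have h2 := disc_le ℓ.2 w hFw
    have hFy : Measurable fun y : Plane => F (s, (ℓ.1 + s • ℓ.2 + ε •
        entrancePoint (frameMap (ℓ.2 - w) y) (ℓ.2 - w), w)) :=
      hFw.comp (measurable_entrance (ℓ.2 - w))
    calc ∫⁻ y : Plane, (box1 T' (s, (w, y)) *
        ENNReal.ofReal ‖ℓ.2 - w‖) * (gE b w * F (s, (ℓ.1 + s • ℓ.2 + ε •
        entrancePoint (nb ℓ.2 (s, (w, y))) (ng ℓ.2 (s, (w, y))), w)))
        = ∫⁻ y : Plane, (Metric.ball (0 : Plane) 1).indicator (fun y => gE b w *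
            (ENNReal.ofReal ‖ℓ.2 - w‖ * F (s, (ℓ.1 + s • ℓ.2 + ε •
              entrancePoint (frameMap (ℓ.2 - w) y) (ℓ.2 - w), w)))) y := by
          refine lintegral_congr fun y => ?_
          by_cases hy : ‖y‖ < 1
          · rw [indicator_of_mem (by simpa using hy), box1_of (a := (s, (w, y))) hs hy, one_mul]
            unfold nb ng
            ring
          · rw [indicator_of_notMem (by simpa using hy)]
            unfold box1
            rw [indicator_of_notMem (fun h => hy h.2), zero_mul, zero_mul]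
      _ = gE b w * (ENNReal.ofReal ‖ℓ.2 - w‖ * ∫⁻ y in Metric.ball (0 : Plane) 1,
            F (s, (ℓ.1 + s • ℓ.2 + ε •
              entrancePoint (frameMap (ℓ.2 - w) y) (ℓ.2 - w), w))) := by
          rw [lintegral_indicator measurableSet_ball, lintegral_const_mul _ (hFy.const_mul _),
            lintegral_const_mul _ hFy]
      _ ≤ gE b w * (ENNReal.ofReal ‖ℓ.2 - w‖ *
            ∫⁻ ω, F (s, (ℓ.1 + s • ℓ.2 + ε • ω, w)) ∂sphM) := mul_le_mul_right h2 _
      _ = _ := by ring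
  · rw [indicator_of_notMem hs]
    refine le_of_eq ?_
    refine (lintegral_congr fun w => ?_).trans lintegral_zero
    refine (lintegral_congr fun y => ?_).trans lintegral_zero
    unfold box1
    rw [indicator_of_notMem (fun h => hs h.1), zero_mul, zero_mul]

/-! ### Translations -/

/-- translation of a line -/
def shx (x : Space3) (ℓ : PhasePoint) : PhasePoint := (ℓ.1 + x, ℓ.2)

/-- translation of a tree -/
def shZ (x : Space3) {P : CTree} (z : PhasePoint × Par P) : PhasePoint × Par P := (shx x z.1, z.2)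

lemma measurable_shx (x : Space3) : Measurable (shx x) := by
  unfold shx; fun_prop

lemma measurable_shZ (x : Space3) {P : CTree} : Measurable (shZ x (P := P)) :=
  ((measurable_shx x).comp measurable_fst).prodMk measurable_snd

lemma mp_shx (x : Space3) : MeasurePreserving (shx x) := by
  have h := (measurePreserving_add_right (volume : Measure Space3) x).prod
    (MeasurePreserving.id (volume : Measure Space3))
  exact h

lemma mp_shZ (x : Space3) (P : CTree) : MeasurePreserving (shZ x (P := P)) := by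
  have h := (mp_shx x).prod (MeasurePreserving.id (volume : Measure (Par P)))
  exact h

variable {Φ : Space3 → ℝ}

lemma inMap_sh (ε : ℝ) (x : Space3) (ℓ : PhasePoint) (a : NodeP) :
    inMap Φ ε (shx x ℓ) a = (shx x (inMap Φ ε ℓ a).1, shx x (inMap Φ ε ℓ a).2) := by
  unfold inMap xin cms shx
  refine Prod.ext (Prod.ext ?_ rfl) (Prod.ext ?_ rfl)
  · simp only
    abel
  · simp only
    abel

lemma inM_sh {ε : ℝ} (x : Space3) {ℓ : PhasePoint} {a : NodeP} (h : Adm1 Φ ℓ.2 a) :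
    inM Φ ε (shx x ℓ, a) = (shx x (inM Φ ε (ℓ, a)).1, shx x (inM Φ ε (ℓ, a)).2) := by
  rw [inM_of_adm (z := (ℓ, a)) h, inM_of_adm (z := (shx x ℓ, a)) h]
  exact inMap_sh ε x ℓ a

lemma exl_sh (ε : ℝ) (x : Space3) : {P : CTree} → (m : Mk P) → (ℓ : PhasePoint) → (p : Par P) →
    exl Φ ε m (shx x ℓ) p = shL x (exl Φ ε m ℓ p)
  | _, .top l r, ℓ, p => by
      unfold exl onLine outLine shx shL
      refine Prod.ext rfl (Prod.ext ?_ rfl)
      simp only
      abel
  | _, .inl m r, ℓ, p => by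
      simp only [exl]
      rw [inMap_sh]
      exact exl_sh ε x m _ _
  | _, .inr l m, ℓ, p => by
      simp only [exl]
      rw [inMap_sh]
      exact exl_sh ε x m _ _

lemma exM_sh {ε : ℝ} (x : Space3) {P : CTree} (m : Mk P) {z : PhasePoint × Par P}
    (h : Adm Φ P z.1.2 z.2) : exM Φ ε m (shZ x z) = shL x (exM Φ ε m z) := by
  rw [exM_eq m h, exM_eq m (z := shZ x z) h]
  exact exl_sh ε x m z.1 z.2

lemma vw_sh {ε T : ℝ} (x : Space3) {P : CTree} (z : PhasePoint × Par P) :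
    vw Φ ε P T (shZ x z) = vw Φ ε P T z := rfl

lemma vI_sh {ε T : ℝ} (x : Space3) (ℓ : PhasePoint) (a : NodeP) :
    vI Φ ε T (shx x ℓ, a) = vI Φ ε T (ℓ, a) := rfl


end Crest.Agent.R122.PairOff969

end
end

-- ▼ part R122/PairOff2_969
section

/-!
Row 122, block H7, helper969: exits OFF the forward path of the first marked particle, part 2:
**the source kernel of an exit of a fresh tree**.

`exists_pos` : for the exit `m` of the tree of a fresh line `ℓ` (Gaussian tree weight `gw b`) there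
is a kernel `κ ℓ (dt, dx)` such that the exit line is dominated by `κ ℓ (dt, dx) gE b' (w) dw`
(born at `(t, x)` with velocity `w`), with time marginal below Lebesgue, translation covariant and
without atoms in `x`.
-/

set_option autoImplicit false
set_option synthInstance.maxSize 1024

open MeasureTheory ProbabilityTheory Set
open Crest.AnalysisR.Kinetic
open Crest.Agent.R122.Boost969 Crest.Agent.R122.Kin416 Crest.Agent.R122.Pair292
open Crest.Agent.R122.CollLeg969 (EC WPack)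
open Crest.Agent.R122.PairSrc969 Crest.Agent.R122.Omega969
open Crest.Agent.R122.Kin796 Crest.Agent.R122.Kin796.CTree Crest.Agent.R122.Tree674
open Crest.Agent.R122.Mark307 Crest.Agent.R122.TreeDom974 Crest.Agent.R122.Disc416
open Crest.Agent.R122.Scat818 Crest.Agent.R122.Flow671 Crest.Agent.R122.Flux663
open scoped ENNReal

noncomputable section

namespace Crest.Agent.R122.PairOff969

variable {Φ : Space3 → ℝ}

/-- Source kernel of the exit `m`. -/
structure PosK (Φ : Space3 → ℝ) (ε T' b b' : ℝ) (C : ℝ≥0∞) {P : CTree} (m : Mk P)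
    (κ : Kernel PhasePoint (ℝ × Space3)) : Prop where
  sf : IsSFiniteKernel κ
  dom : ∀ F : BLine → ℝ≥0∞, Measurable F → ∀ ℓ : PhasePoint,
    ∫⁻ p : Par P, vw Φ ε P T' (ℓ, p) * (gw b P (ℓ, p) * F (exM Φ ε m (ℓ, p))) ≤
      ∫⁻ q, (∫⁻ w, gE b' w * F (q.1, (q.2, w))) ∂κ ℓ
  mass : ∀ φ : ℝ → ℝ≥0∞, Measurable φ → ∀ ℓ : PhasePoint,
    ∫⁻ q, φ q.1 ∂κ ℓ ≤ (C * gE b' ℓ.2) * ∫⁻ s in Ioo 0 T', φ s
  trans : ∀ (x : Space3) (F : ℝ × Space3 → ℝ≥0∞), Measurable F → ∀ ℓ : PhasePoint,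
    ∫⁻ q, F q ∂κ (shx x ℓ) = ∫⁻ q, F (q.1, q.2 + x) ∂κ ℓ
  na : ∀ Z : ℝ → Space3, Measurable Z → ∀ ℓ : PhasePoint, κ ℓ {q | q.2 = Z q.1} = 0

/-! ### The marked node -/

/-- the point source of a node of the line `ℓ` -/
def posT (ε T' b' : ℝ) (C : ℝ≥0∞) : Kernel PhasePoint (ℝ × Space3) :=
  denK (((volume : Measure ℝ).restrict (Ioo 0 T')).prod sphM) (fun p => C * gE b' p.1.2)
    (fun p => (p.2.1, p.1.1 + p.2.1 • p.1.2 + ε • p.2.2))

section top

variable {ε T' b' : ℝ} {C : ℝ≥0∞}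

lemma lintegral_posT (hC : C ≠ ∞) {F : ℝ × Space3 → ℝ≥0∞} (hF : Measurable F) (ℓ : PhasePoint) :
    ∫⁻ q, F q ∂posT ε T' b' C ℓ = (C * gE b' ℓ.2) * ∫⁻ s in Ioo 0 T', (∫⁻ ω,
      F (s, ℓ.1 + s • ℓ.2 + ε • ω) ∂sphM) := by
  have hg : Measurable fun p : PhasePoint × (ℝ × Space3) => C * gE b' p.1.2 :=
    ((measurable_gE b').comp measurable_fst.snd).const_mul C
  have hf : Measurable fun p : PhasePoint × (ℝ × Space3) =>
      ((p.2.1, p.1.1 + p.2.1 • p.1.2 + ε • p.2.2) : ℝ × Space3) := by fun_prop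
  have hFf : Measurable fun x : ℝ × Space3 => F (x.1, ℓ.1 + x.1 • ℓ.2 + ε • x.2) :=
    hF.comp (by fun_prop)
  unfold posT
  rw [lintegral_denK hg (fun p => ENNReal.mul_ne_top hC (gE_ne_top _ _)) hf hF ℓ]
  simp only
  rw [lintegral_const_mul _ hFf, lintegral_prod _ hFf.aemeasurable]

lemma posK_top (hΦ : AdmissiblePotential Φ) {b : ℝ} (hb' : 0 < b') (hb : b' < b) (T : ℝ)
    (l r : CTree) : ∃ C : ℝ≥0∞, C ≠ ∞ ∧ ∀ ε T' : ℝ, 0 < ε → T' ≤ T →
      ∃ κ, PosK Φ ε T' b b' C (Mk.top l r) κ := by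
  set b₁ : ℝ := (b + b') / 2 with hb₁
  have h1 : b' < b₁ := by rw [hb₁]; linarith
  have h2 : b₁ < b := by rw [hb₁]; linarith
  obtain ⟨C₀, hC₀, H₀⟩ := N0 hΦ (hb'.trans h1) h2 T l r
  obtain ⟨C₁, hC₁, H₁⟩ := one_add_gE h1
  have hCt : C₀ * (C₁ * C₁) ≠ ∞ := ENNReal.mul_ne_top hC₀ (ENNReal.mul_ne_top hC₁ hC₁)
  refine ⟨C₀ * (C₁ * C₁) * sphM univ, ENNReal.mul_ne_top hCt (measure_ne_top _ _),
    fun ε T' hε hT => ⟨posT ε T' b' (C₀ * (C₁ * C₁)), ?_, ?_, ?_, ?_, ?_⟩⟩
  · exact isSFiniteKernel_denK fun p => ENNReal.mul_ne_top hCt (gE_ne_top _ _)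
  · intro F hF ℓ
    have hH : Measurable fun a : NodeP => F (topX ε (ℓ, a)) :=
      hF.comp ((measurable_topX ε).comp (measurable_const.prodMk measurable_id))
    have hN := H₀ ε T' hε hT ℓ _ hH
    have hFw : Measurable fun q : (ℝ × Space3) × Space3 => gE b' q.2 * F (q.1.1, (q.1.2, q.2)) :=
      ((measurable_gE b').comp measurable_snd).mul (hF.comp (by fun_prop))
    have hI : Measurable fun q : ℝ × Space3 => ∫⁻ w, gE b' w * F (q.1, (q.2, w)) :=
      hFw.lintegral_prod_right'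
    rw [lintegral_posT hCt hI ℓ]
    have hvI : Measurable fun a : NodeP => vI Φ ε T' (ℓ, a) * ENNReal.ofReal ‖ℓ.2 - a.2.1‖ := by
      have m1 : Measurable fun a : NodeP => ENNReal.ofReal ‖ℓ.2 - a.2.1‖ := by fun_prop
      exact ((measurable_vI hΦ ε T').comp (measurable_const.prodMk measurable_id)).mul m1
    have hge : Measurable fun a : NodeP => gE b₁ a.2.1 := (measurable_gE b₁).comp measurable_snd.fst
    calc ∫⁻ p : Par (node l r), vw Φ ε (node l r) T' (ℓ, p) *
          (gw b (node l r) (ℓ, p) * F (exM Φ ε (Mk.top l r) (ℓ, p)))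
        ≤ C₀ * ∫⁻ a : NodeP, (vI Φ ε T' (ℓ, a) * ENNReal.ofReal ‖ℓ.2 - a.2.1‖) *
            ((gE b₁ ℓ.2 * gE b₁ a.2.1) * F (topX ε (ℓ, a))) := hN
      _ = C₀ * (gE b₁ ℓ.2 * ∫⁻ a : NodeP, (vI Φ ε T' (ℓ, a) * ENNReal.ofReal ‖ℓ.2 - a.2.1‖) *
            (gE b₁ a.2.1 * F (topX ε (ℓ, a)))) := by
          have hmm : Measurable fun a : NodeP => (vI Φ ε T' (ℓ, a) *
              ENNReal.ofReal ‖ℓ.2 - a.2.1‖) * (gE b₁ a.2.1 * F (topX ε (ℓ, a))) :=
            hvI.mul (hge.mul hH)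
          rw [← lintegral_const_mul _ hmm]
          congr 1
          refine lintegral_congr fun a => ?_
          ring
      _ ≤ C₀ * (gE b₁ ℓ.2 * ∫⁻ s in Ioo 0 T', (∫⁻ w, ENNReal.ofReal ‖ℓ.2 - w‖ * (gE b₁ w *
            ∫⁻ ω, F (s, (ℓ.1 + s • ℓ.2 + ε • ω, w)) ∂sphM))) :=
          mul_le_mul_right (mul_le_mul_right (node_omega hε.le ℓ hF) _) _
      _ ≤ C₀ * (gE b₁ ℓ.2 * ∫⁻ s in Ioo 0 T', ((ENNReal.ofReal (1 + ‖ℓ.2‖) * C₁) *
            ∫⁻ w, (gE b' w * ∫⁻ ω, F (s, (ℓ.1 + s • ℓ.2 + ε • ω, w)) ∂sphM))) := by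
          refine mul_le_mul_right (mul_le_mul_right (lintegral_mono fun s => ?_) _) _
          simp only
          have hm : Measurable fun w : Space3 =>
              gE b' w * ∫⁻ ω, F (s, (ℓ.1 + s • ℓ.2 + ε • ω, w)) ∂sphM := by
            have hm2 : Measurable fun q : Space3 × Space3 =>
                F (s, (ℓ.1 + s • ℓ.2 + ε • q.2, q.1)) := hF.comp (by fun_prop)
            exact (measurable_gE b').mul hm2.lintegral_prod_right'
          rw [← lintegral_const_mul _ hm]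
          refine lintegral_mono fun w => ?_
          calc ENNReal.ofReal ‖ℓ.2 - w‖ * (gE b₁ w *
                ∫⁻ ω, F (s, (ℓ.1 + s • ℓ.2 + ε • ω, w)) ∂sphM)
              ≤ (ENNReal.ofReal (1 + ‖ℓ.2‖) * ENNReal.ofReal (1 + ‖w‖)) * (gE b₁ w *
                ∫⁻ ω, F (s, (ℓ.1 + s • ℓ.2 + ε • ω, w)) ∂sphM) :=
                mul_le_mul_left (norm_sub_le_mul _ _) _
            _ = ENNReal.ofReal (1 + ‖ℓ.2‖) * ((ENNReal.ofReal (1 + ‖w‖) * gE b₁ w) *
                ∫⁻ ω, F (s, (ℓ.1 + s • ℓ.2 + ε • ω, w)) ∂sphM) := by ring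
            _ ≤ ENNReal.ofReal (1 + ‖ℓ.2‖) * ((C₁ * gE b' w) *
                ∫⁻ ω, F (s, (ℓ.1 + s • ℓ.2 + ε • ω, w)) ∂sphM) :=
                mul_le_mul_right (mul_le_mul_left (H₁ w) _) _
            _ = _ := by ring
      _ = (C₀ * C₁ * (ENNReal.ofReal (1 + ‖ℓ.2‖) * gE b₁ ℓ.2)) * ∫⁻ s in Ioo 0 T', (∫⁻ ω,
            (∫⁻ w, gE b' w * F (s, (ℓ.1 + s • ℓ.2 + ε • ω, w))) ∂sphM) := by
          have hsw : ∀ s : ℝ, ∫⁻ w, (gE b' w *
              ∫⁻ ω, F (s, (ℓ.1 + s • ℓ.2 + ε • ω, w)) ∂sphM) = ∫⁻ ω,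
            (∫⁻ w, gE b' w * F (s, (ℓ.1 + s • ℓ.2 + ε • ω, w))) ∂sphM := by
            intro s
            have hm3 : Measurable fun q : Space3 × Space3 =>
                gE b' q.1 * F (s, (ℓ.1 + s • ℓ.2 + ε • q.2, q.1)) :=
              ((measurable_gE b').comp measurable_fst).mul (hF.comp (by fun_prop))
            have e1 : ∀ w : Space3, (gE b' w *
                ∫⁻ ω, F (s, (ℓ.1 + s • ℓ.2 + ε • ω, w)) ∂sphM) =
                ∫⁻ ω, gE b' w * F (s, (ℓ.1 + s • ℓ.2 + ε • ω, w)) ∂sphM := fun w =>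
              (lintegral_const_mul _ (hF.comp (by fun_prop))).symm
            simp only [e1]
            exact lintegral_lintegral_swap hm3.aemeasurable
          simp only [hsw]
          rw [lintegral_const_mul]
          · ring
          · have hm4 : Measurable fun q : (ℝ × Space3) × Space3 =>
                gE b' q.2 * F (q.1.1, (ℓ.1 + q.1.1 • ℓ.2 + ε • q.1.2, q.2)) :=
              ((measurable_gE b').comp measurable_snd).mul (hF.comp (by fun_prop))
            exact hm4.lintegral_prod_right'.lintegral_prod_right'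
      _ ≤ (C₀ * C₁ * (C₁ * gE b' ℓ.2)) * ∫⁻ s in Ioo 0 T', (∫⁻ ω,
            (∫⁻ w, gE b' w * F (s, (ℓ.1 + s • ℓ.2 + ε • ω, w))) ∂sphM) :=
          mul_le_mul_left (mul_le_mul_right (H₁ ℓ.2) _) _
      _ = _ := by ring
  · intro φ hφ ℓ
    rw [lintegral_posT hCt (F := fun q : ℝ × Space3 => φ q.1) (hφ.comp measurable_fst) ℓ]
    simp only [lintegral_const]
    rw [lintegral_mul_const _ hφ]
    exact le_of_eq (by ring)
  · intro x F hF ℓ
    rw [lintegral_posT hCt hF (shx x ℓ)]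
    have h3 := lintegral_posT (ε := ε) (T' := T') (b' := b') hCt
      (F := fun q => F (q.1, q.2 + x)) (hF.comp (by fun_prop)) ℓ
    rw [h3]
    congr 1
    refine lintegral_congr fun s => lintegral_congr fun ω => ?_
    congr 2
    unfold shx
    simp only
    abel
  · intro Z hZ ℓ
    have hS : MeasurableSet {q : ℝ × Space3 | q.2 = Z q.1} :=
      measurableSet_eq_fun measurable_snd (hZ.comp measurable_fst)
    rw [← lintegral_indicator_one hS, lintegral_posT hCt (measurable_one.indicator hS) ℓ]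
    have h0 : ∀ s : ℝ, ∫⁻ ω, {q : ℝ × Space3 | q.2 = Z q.1}.indicator (1 : ℝ × Space3 → ℝ≥0∞)
        (s, ℓ.1 + s • ℓ.2 + ε • ω) ∂sphM = 0 := by
      intro s
      have hne : ∀ᵐ ω ∂sphM, ω ≠ ε⁻¹ • (Z s - (ℓ.1 + s • ℓ.2)) := by
        rw [ae_iff]
        simpa using sphM_singleton (ε⁻¹ • (Z s - (ℓ.1 + s • ℓ.2)))
      refine (lintegral_congr_ae ?_).trans lintegral_zero
      filter_upwards [hne] with ω hω
      rw [indicator_of_notMem]
      intro h
      have h' : ℓ.1 + s • ℓ.2 + ε • ω = Z s := h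
      refine hω ?_
      rw [← h', add_sub_cancel_left, smul_smul, inv_mul_cancel₀ hε.ne', one_smul]
    simp only [h0, lintegral_zero, mul_zero]

end top

/-! ### One level up -/

/-- the weight of a node whose branch `o` is integrated -/
def nodeW (Φ : Space3 → ℝ) (ε T' b₁ : ℝ) (Cr : ℝ≥0∞) (o : PhasePoint × NodeP → PhasePoint)
    (z : PhasePoint × NodeP) : ℝ≥0∞ :=
  (vI Φ ε T' z * ENNReal.ofReal ‖z.1.2 - z.2.2.1‖) * (Cr * gE b₁ (o z).2)

/-- the source kernel of the branch `f` of a node -/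
def liftPos (Φ : Space3 → ℝ) (ε T' b₁ : ℝ) (Cr : ℝ≥0∞) (f o : PhasePoint × NodeP → PhasePoint)
    (κ : Kernel PhasePoint (ℝ × Space3)) : Kernel PhasePoint (ℝ × Space3) :=
  κ ∘ₖ denK (volume : Measure NodeP) (nodeW Φ ε T' b₁ Cr o) f

section lift

variable {ε T' b b' b₁ : ℝ} {C Cr : ℝ≥0∞} {f o : PhasePoint × NodeP → PhasePoint}
  {κ : Kernel PhasePoint (ℝ × Space3)}

lemma measurable_nodeW (hΦ : AdmissiblePotential Φ) (ho : Measurable o) :
    Measurable (nodeW Φ ε T' b₁ Cr o) := by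
  have m1 : Measurable fun z : PhasePoint × NodeP => ENNReal.ofReal ‖z.1.2 - z.2.2.1‖ := by
    fun_prop
  exact ((measurable_vI hΦ ε T').mul m1).mul
    (((measurable_gE b₁).comp (measurable_snd.comp ho)).const_mul Cr)

lemma vI_ne_top (z : PhasePoint × NodeP) : vI Φ ε T' z ≠ ∞ := by
  have h : vI Φ ε T' z ≤ 1 := Set.indicator_le_self' (fun _ _ => zero_le_one) z
  exact (h.trans_lt ENNReal.one_lt_top).ne

lemma nodeW_ne_top (hCr : Cr ≠ ∞) (z : PhasePoint × NodeP) : nodeW Φ ε T' b₁ Cr o z ≠ ∞ :=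
  ENNReal.mul_ne_top (ENNReal.mul_ne_top (vI_ne_top z) ENNReal.ofReal_ne_top)
    (ENNReal.mul_ne_top hCr (gE_ne_top _ _))

lemma lintegral_liftPos (hΦ : AdmissiblePotential Φ) (hf : Measurable f) (ho : Measurable o)
    (hCr : Cr ≠ ∞) [IsSFiniteKernel κ] {F : ℝ × Space3 → ℝ≥0∞} (hF : Measurable F)
    (ℓ : PhasePoint) : ∫⁻ q, F q ∂liftPos Φ ε T' b₁ Cr f o κ ℓ =
      ∫⁻ a : NodeP, nodeW Φ ε T' b₁ Cr o (ℓ, a) * ∫⁻ q, F q ∂κ (f (ℓ, a)) := by
  have := isSFiniteKernel_denK (μ := (volume : Measure NodeP)) (f := f)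
    (nodeW_ne_top (Φ := Φ) (ε := ε) (T' := T') (b₁ := b₁) (o := o) hCr)
  unfold liftPos
  rw [Kernel.lintegral_comp _ _ _ hF]
  exact lintegral_denK (measurable_nodeW hΦ ho) (nodeW_ne_top hCr) hf hF.lintegral_kernel ℓ

lemma mem_of_vI {z : PhasePoint × NodeP} (h : vI Φ ε T' z ≠ 0) : z ∈ Vset Φ ε T' := by
  by_contra hc
  exact h (indicator_of_notMem hc _)

theorem posK_lift (hΦ : AdmissiblePotential Φ) {P P' : CTree} {m : Mk P} {m' : Mk P'}
    (hκ : PosK Φ ε T' b b₁ C m κ) (hε : 0 < ε) (hf : Measurable f) (ho : Measurable o)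
    (hCr : Cr ≠ ∞) (hE : ∀ z : PhasePoint × NodeP, Adm1 Φ z.1.2 z.2 →
      gE b₁ (f z).2 * gE b₁ (o z).2 = gE b₁ z.1.2 * gE b₁ z.2.2.1)
    (hfs : ∀ (x : Space3) (ℓ : PhasePoint) (a : NodeP), Adm1 Φ ℓ.2 a →
      f (shx x ℓ, a) = shx x (f (ℓ, a)))
    (hos : ∀ (x : Space3) (ℓ : PhasePoint) (a : NodeP), Adm1 Φ ℓ.2 a →
      (o (shx x ℓ, a)).2 = (o (ℓ, a)).2) {Cb C1 : ℝ≥0∞}
    (hbox : ∀ v : Space3, ∫⁻ a : NodeP, box1 T' a * (ENNReal.ofReal ‖v - a.2.1‖ * gE b₁ a.2.1) ≤
      Cb * ENNReal.ofReal (1 + ‖v‖))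
    (hone : ∀ v : Space3, ENNReal.ofReal (1 + ‖v‖) * gE b₁ v ≤ C1 * gE b' v)
    (hdom : ∀ F : BLine → ℝ≥0∞, Measurable F → ∀ ℓ : PhasePoint,
      ∫⁻ p : Par P', vw Φ ε P' T' (ℓ, p) * (gw b P' (ℓ, p) * F (exM Φ ε m' (ℓ, p))) ≤
      ∫⁻ a : NodeP, nodeW Φ ε T' b₁ Cr o (ℓ, a) *
        ∫⁻ q, (∫⁻ w, gE b₁ w * F (q.1, (q.2, w))) ∂κ (f (ℓ, a))) (hb : b' ≤ b₁) :
    PosK Φ ε T' b b' (Cr * C * (Cb * C1)) m' (liftPos Φ ε T' b₁ Cr f o κ) := by
  have := hκ.sf
  have hsd := isSFiniteKernel_denK (μ := (volume : Measure NodeP)) (f := f)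
    (nodeW_ne_top (Φ := Φ) (ε := ε) (T' := T') (b₁ := b₁) (o := o) hCr)
  refine ⟨by unfold liftPos; infer_instance, ?_, ?_, ?_, ?_⟩
  · intro F hF ℓ
    have hFw : ∀ β : ℝ, Measurable fun q : ℝ × Space3 => ∫⁻ w, gE β w * F (q.1, (q.2, w)) := by
      intro β
      have h1 : Measurable fun q : (ℝ × Space3) × Space3 => gE β q.2 * F (q.1.1, (q.1.2, q.2)) :=
        ((measurable_gE β).comp measurable_snd).mul (hF.comp (by fun_prop))
      exact h1.lintegral_prod_right'
    refine (hdom F hF ℓ).trans ?_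
    rw [lintegral_liftPos hΦ hf ho hCr (hFw b') ℓ]
    refine lintegral_mono fun a => mul_le_mul_right (lintegral_mono fun q => ?_) _
    exact lintegral_mono fun w => mul_le_mul_left (gE_mono hb w) _
  · intro φ hφ ℓ
    rw [lintegral_liftPos hΦ hf ho hCr (F := fun q : ℝ × Space3 => φ q.1)
      (hφ.comp measurable_fst) ℓ]
    have hbm : Measurable fun a : NodeP => box1 T' a *
        (ENNReal.ofReal ‖ℓ.2 - a.2.1‖ * gE b₁ a.2.1) := by
      have m1 : Measurable fun a : NodeP => ENNReal.ofReal ‖ℓ.2 - a.2.1‖ := by fun_prop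
      exact (measurable_box1 T').mul (m1.mul ((measurable_gE b₁).comp measurable_snd.fst))
    set I : ℝ≥0∞ := ∫⁻ s in Ioo 0 T', φ s with hI
    calc ∫⁻ a : NodeP, nodeW Φ ε T' b₁ Cr o (ℓ, a) * ∫⁻ q, φ q.1 ∂κ (f (ℓ, a))
        ≤ ∫⁻ a : NodeP, (Cr * C * gE b₁ ℓ.2 * I) *
            (box1 T' a * (ENNReal.ofReal ‖ℓ.2 - a.2.1‖ * gE b₁ a.2.1)) := by
          refine lintegral_mono fun a => ?_
          by_cases hz : vI Φ ε T' (ℓ, a) = 0
          · unfold nodeW
            rw [hz, zero_mul, zero_mul, zero_mul]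
            exact bot_le
          have hA : Adm1 Φ ℓ.2 a := (mem_of_vI hz).1
          have h1 := hE (ℓ, a) hA
          calc nodeW Φ ε T' b₁ Cr o (ℓ, a) * ∫⁻ q, φ q.1 ∂κ (f (ℓ, a))
              ≤ nodeW Φ ε T' b₁ Cr o (ℓ, a) * ((C * gE b₁ (f (ℓ, a)).2) * I) :=
                mul_le_mul_right (hκ.mass φ hφ _) _
            _ = (Cr * C * I) * (vI Φ ε T' (ℓ, a) * (ENNReal.ofReal ‖ℓ.2 - a.2.1‖ *
                  (gE b₁ (f (ℓ, a)).2 * gE b₁ (o (ℓ, a)).2))) := by
                unfold nodeW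
                ring
            _ ≤ (Cr * C * I) * (box1 T' a * (ENNReal.ofReal ‖ℓ.2 - a.2.1‖ *
                  (gE b₁ (f (ℓ, a)).2 * gE b₁ (o (ℓ, a)).2))) :=
                mul_le_mul_right (mul_le_mul_left (vI_le_box hε.le le_rfl ℓ a) _) _
            _ = _ := by
                rw [h1]
                ring
      _ = (Cr * C * gE b₁ ℓ.2 * I) * ∫⁻ a : NodeP,
            (box1 T' a * (ENNReal.ofReal ‖ℓ.2 - a.2.1‖ * gE b₁ a.2.1)) :=
          lintegral_const_mul _ hbm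
      _ ≤ (Cr * C * gE b₁ ℓ.2 * I) * (Cb * ENNReal.ofReal (1 + ‖ℓ.2‖)) :=
          mul_le_mul_right (hbox ℓ.2) _
      _ = (Cr * C * Cb * I) * (ENNReal.ofReal (1 + ‖ℓ.2‖) * gE b₁ ℓ.2) := by ring
      _ ≤ (Cr * C * Cb * I) * (C1 * gE b' ℓ.2) := mul_le_mul_right (hone ℓ.2) _
      _ = _ := by ring
  · intro x F hF ℓ
    have hFx : Measurable fun q : ℝ × Space3 => F (q.1, q.2 + x) := hF.comp (by fun_prop)
    rw [lintegral_liftPos hΦ hf ho hCr hF (shx x ℓ), lintegral_liftPos hΦ hf ho hCr hFx ℓ]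
    refine lintegral_congr fun a => ?_
    by_cases hz : vI Φ ε T' (ℓ, a) = 0
    · have hz' : vI Φ ε T' (shx x ℓ, a) = 0 := by rw [vI_sh]; exact hz
      simp only [nodeW, hz, hz', zero_mul]
    have hA : Adm1 Φ ℓ.2 a := (mem_of_vI hz).1
    rw [hfs x ℓ a hA, hκ.trans x F hF]
    unfold nodeW
    rw [hos x ℓ a hA, vI_sh]
    rfl
  · intro Z hZ ℓ
    have hS : MeasurableSet {q : ℝ × Space3 | q.2 = Z q.1} :=
      measurableSet_eq_fun measurable_snd (hZ.comp measurable_fst)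
    rw [← lintegral_indicator_one hS, lintegral_liftPos hΦ hf ho hCr
      (measurable_one.indicator hS) ℓ]
    refine (lintegral_congr fun a => ?_).trans lintegral_zero
    rw [lintegral_indicator_one hS, hκ.na Z hZ, mul_zero]

end lift

lemma box1_mono {T T' : ℝ} (h : T' ≤ T) (a : NodeP) : box1 T' a ≤ box1 T a := by
  unfold box1
  refine Set.indicator_le_indicator_of_subset ?_ (fun _ => bot_le) a
  intro a ha
  exact ⟨⟨ha.1.1, ha.1.2.trans_le h⟩, ha.2⟩

/-- **Existence of the source kernel**, uniformly in `ε` and `T' ≤ T`. -/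
theorem exists_pos (hΦ : AdmissiblePotential Φ) (T : ℝ) {P : CTree} (m : Mk P) :
    ∀ {b b' : ℝ}, 0 < b' → b' < b → ∃ C : ℝ≥0∞, C ≠ ∞ ∧ ∀ ε T' : ℝ, 0 < ε → T' ≤ T →
      ∃ κ, PosK Φ ε T' b b' C m κ := by
  induction m with
  | top l r =>
      intro b b' hb' hb
      exact posK_top hΦ hb' hb T l r
  | @inl l m r ih =>
      intro b b' hb' hb
      set b₁ : ℝ := (b + b') / 2 with hb₁
      have h1 : b' < b₁ := by rw [hb₁]; linarith
      have h2 : b₁ < b := by rw [hb₁]; linarith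
      obtain ⟨C, hC, H⟩ := ih (hb'.trans h1) h2
      obtain ⟨Cr, hCr, HI⟩ := I0 hΦ (hb'.trans h1) h2 r T
      obtain ⟨Cb, hCb, Hb⟩ := box_flux (hb'.trans h1) T
      obtain ⟨C1, hC1, H1⟩ := one_add_gE h1
      refine ⟨Cr * C * (Cb * C1), ENNReal.mul_ne_top (ENNReal.mul_ne_top hCr hC)
        (ENNReal.mul_ne_top hCb hC1), fun ε T' hε hT => ?_⟩
      obtain ⟨κ, hκ⟩ := H ε T' hε hT
      refine ⟨_, posK_lift hΦ (m' := Mk.inl m r) hκ hε (measurable_inM hΦ ε).fst
        (measurable_inM hΦ ε).snd hCr ?_ ?_ ?_ (Cb := Cb) (C1 := C1) ?_ H1 ?_ h1.le⟩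
      · intro z hz
        rw [inM_of_adm hz]
        exact gE_node hΦ hz rfl b₁
      · intro x ℓ a ha
        rw [inM_sh x ha]
      · intro x ℓ a ha
        rw [inM_sh x ha]
        rfl
      · intro v
        exact (lintegral_mono fun a => mul_le_mul_left (box1_mono hT a) _).trans (Hb v)
      · intro F hF ℓ
        have hH : Measurable fun p : Par (node l r) => F (exM Φ ε (Mk.inl m r) (ℓ, p)) :=
          hF.comp ((measurable_exM hΦ ε (Mk.inl m r)).comp
            (measurable_const.prodMk measurable_id))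
        rw [node_fix hΦ hε T' b l r ℓ hH]
        refine lintegral_mono fun a => ?_
        have hbr : Measurable fun pr : Par r =>
            br Φ ε T' b r (sinM Φ ε (ℓ, a)) ((inM Φ ε (ℓ, a)).2, pr) :=
          (measurable_br hΦ ε T' b r).comp (measurable_const.prodMk
            (measurable_const.prodMk measurable_id))
        have i2 := lintegral_br_le (sinM Φ ε (ℓ, a)) (HI ε T' hε.le hT (inM Φ ε (ℓ, a)).2)
        have hm2 : Measurable fun pl : Par l => vw Φ ε l T' ((inM Φ ε (ℓ, a)).1, pl) *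
            (gw b l ((inM Φ ε (ℓ, a)).1, pl) * F (exM Φ ε m ((inM Φ ε (ℓ, a)).1, pl))) := by
          have m0 : Measurable fun pl : Par l => ((inM Φ ε (ℓ, a)).1, pl) :=
            measurable_const.prodMk measurable_id
          exact ((measurable_vw hΦ ε l T').comp m0).mul (((measurable_gw b l).comp m0).mul
            (hF.comp ((measurable_exM hΦ ε m).comp m0)))
        calc (vI Φ ε T' (ℓ, a) * ENNReal.ofReal ‖ℓ.2 - a.2.1‖) *
              ∫⁻ pl : Par l, br Φ ε T' b l (sinM Φ ε (ℓ, a)) ((inM Φ ε (ℓ, a)).1, pl) *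
                ∫⁻ pr : Par r, br Φ ε T' b r (sinM Φ ε (ℓ, a)) ((inM Φ ε (ℓ, a)).2, pr) *
                  F (exM Φ ε (Mk.inl m r) (ℓ, ((a, (pl, pr)) : Par (node l r))))
            ≤ (vI Φ ε T' (ℓ, a) * ENNReal.ofReal ‖ℓ.2 - a.2.1‖) *
              ∫⁻ pl : Par l, (Cr * gE b₁ (inM Φ ε (ℓ, a)).2.2) *
                (vw Φ ε l T' ((inM Φ ε (ℓ, a)).1, pl) * (gw b l ((inM Φ ε (ℓ, a)).1, pl) *
                  F (exM Φ ε m ((inM Φ ε (ℓ, a)).1, pl)))) := by
              refine mul_le_mul_right (lintegral_mono fun pl => ?_) _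
              have e1 : ∫⁻ pr : Par r, br Φ ε T' b r (sinM Φ ε (ℓ, a)) ((inM Φ ε (ℓ, a)).2, pr) *
                  F (exM Φ ε (Mk.inl m r) (ℓ, ((a, (pl, pr)) : Par (node l r)))) =
                  (∫⁻ pr : Par r, br Φ ε T' b r (sinM Φ ε (ℓ, a)) ((inM Φ ε (ℓ, a)).2, pr)) *
                  F (exM Φ ε m ((inM Φ ε (ℓ, a)).1, pl)) :=
                lintegral_mul_const (μ := (volume : Measure (Par r)))
                  (F (exM Φ ε m ((inM Φ ε (ℓ, a)).1, pl))) hbr
              simp only [e1]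
              calc _ ≤ (vw Φ ε l T' ((inM Φ ε (ℓ, a)).1, pl) *
                    gw b l ((inM Φ ε (ℓ, a)).1, pl)) * ((Cr * gE b₁ (inM Φ ε (ℓ, a)).2.2) *
                    F (exM Φ ε m ((inM Φ ε (ℓ, a)).1, pl))) :=
                    mul_le_mul' (br_le _ _ _ _ _ _) (mul_le_mul_left i2 _)
                _ = _ := by ring
          _ = nodeW Φ ε T' b₁ Cr (fun z => (inM Φ ε z).2) (ℓ, a) *
              ∫⁻ pl : Par l, vw Φ ε l T' ((inM Φ ε (ℓ, a)).1, pl) *
                (gw b l ((inM Φ ε (ℓ, a)).1, pl) *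
                  F (exM Φ ε m ((inM Φ ε (ℓ, a)).1, pl))) := by
              have e2 : ∫⁻ pl : Par l, (Cr * gE b₁ (inM Φ ε (ℓ, a)).2.2) *
                (vw Φ ε l T' ((inM Φ ε (ℓ, a)).1, pl) * (gw b l ((inM Φ ε (ℓ, a)).1, pl) *
                  F (exM Φ ε m ((inM Φ ε (ℓ, a)).1, pl)))) =
                (Cr * gE b₁ (inM Φ ε (ℓ, a)).2.2) * ∫⁻ pl : Par l,
                (vw Φ ε l T' ((inM Φ ε (ℓ, a)).1, pl) * (gw b l ((inM Φ ε (ℓ, a)).1, pl) *
                  F (exM Φ ε m ((inM Φ ε (ℓ, a)).1, pl)))) :=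
                lintegral_const_mul (μ := (volume : Measure (Par l))) _ hm2
              rw [e2]
              unfold nodeW
              ring
          _ ≤ _ := mul_le_mul_right (hκ.dom F hF (inM Φ ε (ℓ, a)).1) _
  | @inr l r m ih =>
      intro b b' hb' hb
      set b₁ : ℝ := (b + b') / 2 with hb₁
      have h1 : b' < b₁ := by rw [hb₁]; linarith
      have h2 : b₁ < b := by rw [hb₁]; linarith
      obtain ⟨C, hC, H⟩ := ih (hb'.trans h1) h2
      obtain ⟨Cr, hCr, HI⟩ := I0 hΦ (hb'.trans h1) h2 l T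
      obtain ⟨Cb, hCb, Hb⟩ := box_flux (hb'.trans h1) T
      obtain ⟨C1, hC1, H1⟩ := one_add_gE h1
      refine ⟨Cr * C * (Cb * C1), ENNReal.mul_ne_top (ENNReal.mul_ne_top hCr hC)
        (ENNReal.mul_ne_top hCb hC1), fun ε T' hε hT => ?_⟩
      obtain ⟨κ, hκ⟩ := H ε T' hε hT
      refine ⟨_, posK_lift hΦ (m' := Mk.inr l m) hκ hε (measurable_inM hΦ ε).snd
        (measurable_inM hΦ ε).fst hCr ?_ ?_ ?_ (Cb := Cb) (C1 := C1) ?_ H1 ?_ h1.le⟩
      · intro z hz
        rw [inM_of_adm hz, mul_comm]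
        exact gE_node hΦ hz rfl b₁
      · intro x ℓ a ha
        rw [inM_sh x ha]
      · intro x ℓ a ha
        rw [inM_sh x ha]
        rfl
      · intro v
        exact (lintegral_mono fun a => mul_le_mul_left (box1_mono hT a) _).trans (Hb v)
      · intro F hF ℓ
        have hH : Measurable fun p : Par (node l r) => F (exM Φ ε (Mk.inr l m) (ℓ, p)) :=
          hF.comp ((measurable_exM hΦ ε (Mk.inr l m)).comp
            (measurable_const.prodMk measurable_id))
        rw [node_fix hΦ hε T' b l r ℓ hH]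
        refine lintegral_mono fun a => ?_
        have hbl : Measurable fun pl : Par l =>
            br Φ ε T' b l (sinM Φ ε (ℓ, a)) ((inM Φ ε (ℓ, a)).1, pl) :=
          (measurable_br hΦ ε T' b l).comp (measurable_const.prodMk
            (measurable_const.prodMk measurable_id))
        have i2 := lintegral_br_le (sinM Φ ε (ℓ, a)) (HI ε T' hε.le hT (inM Φ ε (ℓ, a)).1)
        have hk : ∫⁻ pr : Par r, br Φ ε T' b r (sinM Φ ε (ℓ, a)) ((inM Φ ε (ℓ, a)).2, pr) *
              F (exM Φ ε m ((inM Φ ε (ℓ, a)).2, pr)) ≤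
            ∫⁻ q, (∫⁻ w, gE b₁ w * F (q.1, (q.2, w))) ∂κ (inM Φ ε (ℓ, a)).2 := by
          refine (lintegral_mono fun pr => ?_).trans (hκ.dom F hF (inM Φ ε (ℓ, a)).2)
          rw [← mul_assoc]
          exact mul_le_mul_left (br_le _ _ _ _ _ _) _
        calc (vI Φ ε T' (ℓ, a) * ENNReal.ofReal ‖ℓ.2 - a.2.1‖) *
              ∫⁻ pl : Par l, br Φ ε T' b l (sinM Φ ε (ℓ, a)) ((inM Φ ε (ℓ, a)).1, pl) *
                ∫⁻ pr : Par r, br Φ ε T' b r (sinM Φ ε (ℓ, a)) ((inM Φ ε (ℓ, a)).2, pr) *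
                  F (exM Φ ε (Mk.inr l m) (ℓ, ((a, (pl, pr)) : Par (node l r))))
            ≤ (vI Φ ε T' (ℓ, a) * ENNReal.ofReal ‖ℓ.2 - a.2.1‖) *
              ∫⁻ pl : Par l, br Φ ε T' b l (sinM Φ ε (ℓ, a)) ((inM Φ ε (ℓ, a)).1, pl) *
                ∫⁻ q, (∫⁻ w, gE b₁ w * F (q.1, (q.2, w))) ∂κ (inM Φ ε (ℓ, a)).2 := by
              refine mul_le_mul_right (lintegral_mono fun pl => mul_le_mul_right ?_ _) _
              exact hk
          _ = (vI Φ ε T' (ℓ, a) * ENNReal.ofReal ‖ℓ.2 - a.2.1‖) *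
              ((∫⁻ pl : Par l, br Φ ε T' b l (sinM Φ ε (ℓ, a)) ((inM Φ ε (ℓ, a)).1, pl)) *
                ∫⁻ q, (∫⁻ w, gE b₁ w * F (q.1, (q.2, w))) ∂κ (inM Φ ε (ℓ, a)).2) := by
              congr 1
              exact lintegral_mul_const (μ := (volume : Measure (Par l))) _ hbl
          _ ≤ (vI Φ ε T' (ℓ, a) * ENNReal.ofReal ‖ℓ.2 - a.2.1‖) *
              ((Cr * gE b₁ (inM Φ ε (ℓ, a)).1.2) *
                ∫⁻ q, (∫⁻ w, gE b₁ w * F (q.1, (q.2, w))) ∂κ (inM Φ ε (ℓ, a)).2) :=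
              mul_le_mul_right (mul_le_mul_left i2 _) _
          _ = _ := by
              unfold nodeW
              ring

end Crest.Agent.R122.PairOff969

end
end

-- ▼ part R122/PairOff3_969
section

/-!
Row 122, block H7, helper969: exits OFF the forward path of the first marked particle, part 3:
**from a source kernel to a pair law in the class**.

`offAbs` : base space `z ~ μ` with a first line `D z` and a fresh line `Λ z`, second line born at
`(t, x) ~ κ (Λ z)` with Gaussian velocity.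
-/

set_option autoImplicit false
set_option synthInstance.maxSize 1024

open MeasureTheory ProbabilityTheory Set
open Crest.AnalysisR.Kinetic
open Crest.Agent.R122.Boost969 Crest.Agent.R122.Kin416 Crest.Agent.R122.Pair292
open Crest.Agent.R122.CollLeg969 (EC WPack)
open Crest.Agent.R122.PairSrc969 Crest.Agent.R122.Omega969
open Crest.Agent.R122.Kin796 Crest.Agent.R122.Kin796.CTree Crest.Agent.R122.Tree674
open Crest.Agent.R122.Mark307 Crest.Agent.R122.TreeDom974 Crest.Agent.R122.Disc416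
open Crest.Agent.R122.Scat818 Crest.Agent.R122.Flow671 Crest.Agent.R122.Flux663
open Crest.Agent.R122.EDefs602 (lineM markW)
open scoped ENNReal

noncomputable section

namespace Crest.Agent.R122.PairOff969

variable {Φ : Space3 → ℝ}

/-- coordinates of a source: first line, time, mark, point -/
abbrev SQ : Type := ML × (ℝ × (ℕ × Space3))

/-- translation of a source -/
def shQ (x : Space3) (q : SQ) : SQ := (shM x q.1, (q.2.1, (q.2.2.1, q.2.2.2 + x)))

lemma measurable_shQ (x : Space3) : Measurable (shQ x) := by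
  unfold shQ
  exact ((measurable_shM x).comp measurable_fst).prodMk (by fun_prop)

section base

variable {Z : Type*} [MeasurableSpace Z]

/-- admissible pairs: births of both lines before `te`, source time `≥ 0` -/
def okS (te : ℝ) (D : Z → BLine) : Set (Z × (ℝ × Space3)) :=
  {p | (D p.1).1 ≤ te ∧ p.2.1 ≤ te ∧ 0 ≤ p.2.1}

/-- the base measure -/
def baseM (μ : Measure Z) (D : Z → BLine) (Λ : Z → PhasePoint) (hΛ : Measurable Λ)
    (κ : Kernel PhasePoint (ℝ × Space3)) (n n' : ℕ) (te : ℝ) : Measure SQ :=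
  ((μ ⊗ₘ (κ.comap Λ hΛ)).restrict (okS te D)).map
    (fun p => ((D p.1, n), (p.2.1, (n', p.2.2))))

variable {μ : Measure Z} [SFinite μ] {D : Z → BLine} {Λ : Z → PhasePoint} {hΛ : Measurable Λ}
  {κ : Kernel PhasePoint (ℝ × Space3)} [IsSFiniteKernel κ] {n n' : ℕ} {te : ℝ}

omit [SFinite μ] [IsSFiniteKernel κ] in
lemma measurableSet_okS (hD : Measurable D) : MeasurableSet (okS te D) := by
  have h1 : Measurable fun p : Z × (ℝ × Space3) => (D p.1).1 :=
    measurable_fst.comp (hD.comp measurable_fst)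
  have h2 : Measurable fun p : Z × (ℝ × Space3) => p.2.1 := by fun_prop
  exact (measurableSet_le h1 measurable_const).inter
    ((measurableSet_le h2 measurable_const).inter (measurableSet_le measurable_const h2))

instance : SFinite (baseM μ D Λ hΛ κ n n' te) := by
  unfold baseM
  infer_instance

omit [SFinite μ] [IsSFiniteKernel κ] in
lemma measurable_mapS (hD : Measurable D) : Measurable (fun p : Z × (ℝ × Space3) =>
    (((D p.1, n), (p.2.1, (n', p.2.2))) : SQ)) := by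
  have h1 : Measurable fun p : Z × (ℝ × Space3) => D p.1 := hD.comp measurable_fst
  exact (h1.prodMk measurable_const).prodMk (by fun_prop)

lemma lintegral_baseM (hD : Measurable D) {F : SQ → ℝ≥0∞} (hF : Measurable F) :
    ∫⁻ q, F q ∂baseM μ D Λ hΛ κ n n' te =
      ∫⁻ z, (∫⁻ q, (okS te D).indicator (1 : Z × (ℝ × Space3) → ℝ≥0∞) (z, q) *
        F ((D z, n), (q.1, (n', q.2))) ∂κ (Λ z)) ∂μ := by
  have hm := measurable_mapS (n := n) (n' := n') hD
  have hS := measurableSet_okS (te := te) hD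
  unfold baseM
  rw [lintegral_map hF hm, ← lintegral_indicator hS]
  have hi : Measurable ((okS te D).indicator fun p : Z × (ℝ × Space3) =>
      F ((D p.1, n), (p.2.1, (n', p.2.2)))) := (hF.comp hm).indicator hS
  rw [Measure.lintegral_compProd hi]
  refine lintegral_congr fun z => ?_
  rw [Kernel.comap_apply]
  refine lintegral_congr fun q => ?_
  by_cases h : ((z, q) : Z × (ℝ × Space3)) ∈ okS te D
  · rw [indicator_of_mem h, indicator_of_mem h, Pi.one_apply, one_mul]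
  · rw [indicator_of_notMem h, indicator_of_notMem h, zero_mul]

/-- covariant base -/
structure BaseCov (μ : Measure Z) (D : Z → BLine) (Λ : Z → PhasePoint) (sh : Space3 → Z → Z) :
    Prop where
  m : ∀ x, Measurable (sh x)
  inv : ∀ x, μ.map (sh x) = μ
  cov : ∀ x, ∀ᵐ z ∂μ, D (sh x z) = shL x (D z) ∧ Λ (sh x z) = shx x (Λ z)

lemma map_baseM (hD : Measurable D) {sh : Space3 → Z → Z} (hsh : BaseCov μ D Λ sh)
    (htr : ∀ (x : Space3) (F : ℝ × Space3 → ℝ≥0∞), Measurable F → ∀ ℓ : PhasePoint,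
      ∫⁻ q, F q ∂κ (shx x ℓ) = ∫⁻ q, F (q.1, q.2 + x) ∂κ ℓ) (x : Space3) :
    (baseM μ D Λ hΛ κ n n' te).map (shQ x) = baseM μ D Λ hΛ κ n n' te := by
  refine Measure.ext_of_lintegral _ fun F hF => ?_
  have hS := measurableSet_okS (te := te) hD
  have hm := measurable_mapS (n := n) (n' := n') hD
  have hi : Measurable fun p : Z × (ℝ × Space3) =>
      (okS te D).indicator (1 : Z × (ℝ × Space3) → ℝ≥0∞) p *
        F ((D p.1, n), (p.2.1, (n', p.2.2))) :=
    (measurable_one.indicator hS).mul (hF.comp hm)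
  have hI : Measurable fun z : Z => ∫⁻ q, (okS te D).indicator (1 : Z × (ℝ × Space3) → ℝ≥0∞)
      (z, q) * F ((D z, n), (q.1, (n', q.2))) ∂κ (Λ z) :=
    Measurable.lintegral_kernel_prod_right' (κ := κ.comap Λ hΛ) hi
  rw [lintegral_map hF (measurable_shQ x),
    lintegral_baseM hD (F := fun q => F (shQ x q)) (hF.comp (measurable_shQ x)),
    lintegral_baseM hD hF]
  conv_rhs => rw [← hsh.inv x]
  rw [lintegral_map hI (hsh.m x)]
  refine lintegral_congr_ae ?_
  filter_upwards [hsh.cov x] with z hz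
  have hFz : Measurable fun q : ℝ × Space3 => (okS te D).indicator
      (1 : Z × (ℝ × Space3) → ℝ≥0∞) (sh x z, q) * F ((D (sh x z), n), (q.1, (n', q.2))) :=
    hi.comp (measurable_const.prodMk measurable_id)
  rw [hz.2, htr x _ hFz]
  refine lintegral_congr fun q => ?_
  have h1 : (okS te D).indicator (1 : Z × (ℝ × Space3) → ℝ≥0∞) (sh x z, (q.1, q.2 + x)) =
      (okS te D).indicator (1 : Z × (ℝ × Space3) → ℝ≥0∞) (z, q) := by
    have h2 : ((sh x z, (q.1, q.2 + x)) : Z × (ℝ × Space3)) ∈ okS te D ↔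
        ((z, q) : Z × (ℝ × Space3)) ∈ okS te D := by
      have h3 : (D (sh x z)).1 = (D z).1 := by rw [hz.1]; rfl
      unfold okS
      simp only [mem_ofPred_eq, h3]
    by_cases h : ((z, q) : Z × (ℝ × Space3)) ∈ okS te D
    · rw [indicator_of_mem h, indicator_of_mem (h2.2 h)]
      rfl
    · rw [indicator_of_notMem h, indicator_of_notMem (fun h' => h (h2.1 h'))]
  rw [h1, hz.1]
  rfl

/-- indicator of non negative times -/
def posA (q : SQ) : ℝ≥0∞ := {q : SQ | 0 ≤ q.2.1}.indicator 1 q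

omit [SFinite μ] [IsSFiniteKernel κ] in
lemma measurable_posA : Measurable posA :=
  measurable_one.indicator (measurableSet_le measurable_const (by fun_prop))

/-- the pair law of a source -/
def offN (μ : Measure Z) (D : Z → BLine) (Λ : Z → PhasePoint) (hΛ : Measurable Λ)
    (κ : Kernel PhasePoint (ℝ × Space3)) (n n' : ℕ) (te b : ℝ) : Measure (Lab × LSt) :=
  srcN (baseM μ D Λ hΛ κ n n' te) (fun q : SQ => q.1) (fun q : SQ => q.2.1)
    (fun q : SQ => q.2.2.1) (fun q : SQ => q.2.2.2) (fun p : SQ × Space3 => posA p.1 * gau b p.2)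

lemma measurable_offG (b : ℝ) : Measurable (fun p : SQ × Space3 => posA p.1 * gau b p.2) :=
  (measurable_posA.comp measurable_fst).mul ((measurable_gau _).comp measurable_snd)

lemma lintegral_offN (hD : Measurable D) {b : ℝ} {F : Lab × LSt → ℝ≥0∞} (hF : Measurable F) :
    ∫⁻ p, F p ∂offN μ D Λ hΛ κ n n' te b =
      ∫⁻ z, (∫⁻ q, (okS te D).indicator (1 : Z × (ℝ × Space3) → ℝ≥0∞) (z, q) *
        (∫⁻ v, gE b v * F (((D z, n), (q.1, n')), (q.1, (q.2, v)))) ∂κ (Λ z)) ∂μ := by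
  have hFm : Measurable fun p : SQ × Space3 => (posA p.1 * gau b p.2) *
      F ((p.1.1, (p.1.2.1, p.1.2.2.1)), (p.1.2.1, (p.1.2.2.2, p.2))) :=
    (measurable_offG b).mul (hF.comp (by fun_prop))
  have hI : Measurable fun q : SQ => ∫⁻ v, (posA q * gau b v) *
      F ((q.1, (q.2.1, q.2.2.1)), (q.2.1, (q.2.2.2, v))) := hFm.lintegral_prod_right'
  unfold offN
  rw [lintegral_srcN measurable_fst (by fun_prop) (by fun_prop) (by fun_prop)
    (measurable_offG b) hF]
  refine (lintegral_baseM hD hI).trans ?_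
  refine lintegral_congr fun z => lintegral_congr fun q => ?_
  by_cases h : ((z, q) : Z × (ℝ × Space3)) ∈ okS te D
  · congr 1
    refine lintegral_congr fun v => ?_
    have h1 : posA ((D z, n), (q.1, (n', q.2))) = 1 := by
      unfold posA
      rw [indicator_of_mem (show ((D z, n), (q.1, (n', q.2))) ∈ {q : SQ | 0 ≤ q.2.1} from h.2.2)]
      rfl
    simp only
    rw [h1, one_mul]
    rfl
  · rw [indicator_of_notMem h, zero_mul, zero_mul]

/-! ### The marginal bound -/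

lemma ae_birth_ne (te : ℝ) : ∀ᵐ d : BLine, d.1 ≠ te := by
  have h1 : ∀ᵐ t : ℝ, t ≠ te := Measure.ae_ne volume te
  have h2 : Measure.QuasiMeasurePreserving (Prod.fst : ℝ × PhasePoint → ℝ)
      (volume : Measure (ℝ × PhasePoint)) volume := by
    rw [Measure.volume_eq_prod]
    exact Measure.quasiMeasurePreserving_fst
  exact h2.ae h1

lemma offAbs_marg {B : BPar} (hB : B.Ok) {K : ℕ} {Pp : PPar} (hP : IsPP B te K Pp)
    (hD : Measurable D) {T' b' : ℝ} {C C₁ : ℝ≥0∞} (hte1 : te ≤ T') (hT : T' ≤ B.T)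
    (hmass : ∀ φ : ℝ → ℝ≥0∞, Measurable φ → ∀ ℓ : PhasePoint,
      ∫⁻ q, φ q.1 ∂κ ℓ ≤ (C * gE b' ℓ.2) * ∫⁻ s in Ioo 0 T', φ s)
    (hcr : ∀ φ : BLine → ℝ≥0∞, Measurable φ → ∫⁻ z, gE b' (Λ z).2 * φ (D z) ∂μ ≤
      C₁ * ∫⁻ d : BLine, (Ioo 0 T').indicator 1 d.1 * gE B.bs d.2.2 * φ d)
    {N : ℕ} (hn : 1 ≤ n) (hnK : n ≤ K) (hnN : n ≤ N)
    {F : ML × ℝ → ℝ≥0∞} (hF : Measurable F) :
    ∫⁻ q : SQ, F (q.1, q.2.1) * (Pp.lam₁ ^ q.2.2.1 * posA q)
        ∂baseM μ D Λ hΛ κ n n' te ≤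
      (B.lam₁ ^ n' * (C * C₁) * (B.ρ ^ N)⁻¹) * Pp.rhs F := by
  obtain ⟨T, b₀, bs, η, lam, A, W, lam₁, γ, ρ⟩ := B
  simp only at *
  rw [hP.l]
  have hlm : Measurable (fun n : ℕ => lam₁ ^ n) := Measurable.of_discrete
  have hm1 : Measurable fun q : SQ => F (q.1, q.2.1) * (lam₁ ^ q.2.2.1 * posA q) :=
    (hF.comp (by fun_prop)).mul ((hlm.comp (by fun_prop)).mul measurable_posA)
  rw [lintegral_baseM hD hm1]
  -- the inner integral
  set φ : BLine → ℝ≥0∞ := fun d => {d : BLine | d.1 ≤ te}.indicator 1 d *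
    ∫⁻ s in Icc 0 te, F ((d, n), s) with hφ
  have hset : MeasurableSet {d : BLine | d.1 ≤ te} := measurableSet_le (by fun_prop) measurable_const
  have hFI : Measurable fun l : ML => ∫⁻ s in Icc 0 te, F (l, s) := hF.lintegral_prod_right'
  have hφm : Measurable φ := (measurable_one.indicator hset).mul
    (hFI.comp (measurable_id.prodMk measurable_const))
  have h1 : ∀ z, ∫⁻ q, (okS te D).indicator (1 : Z × (ℝ × Space3) → ℝ≥0∞) (z, q) *
      (F (((D z, n), (q.1, (n', q.2))).1, ((D z, n), (q.1, (n', q.2))).2.1) *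
        (lam₁ ^ ((((D z, n), (q.1, (n', q.2))) : SQ)).2.2.1 *
          posA ((D z, n), (q.1, (n', q.2))))) ∂κ (Λ z) ≤
      (lam₁ ^ n' * C) * (gE b' (Λ z).2 * φ (D z)) := by
    intro z
    have hmz : Measurable fun s : ℝ => (Icc 0 te).indicator (fun s => F ((D z, n), s)) s :=
      (hF.comp (measurable_const.prodMk measurable_id)).indicator measurableSet_Icc
    have h2 : ∀ q : ℝ × Space3, (okS te D).indicator (1 : Z × (ℝ × Space3) → ℝ≥0∞) (z, q) *
      (F (((D z, n), (q.1, (n', q.2))).1, ((D z, n), (q.1, (n', q.2))).2.1) *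
        (lam₁ ^ ((((D z, n), (q.1, (n', q.2))) : SQ)).2.2.1 *
          posA ((D z, n), (q.1, (n', q.2))))) ≤
        ({d : BLine | d.1 ≤ te}.indicator 1 (D z) * lam₁ ^ n') *
          (Icc 0 te).indicator (fun s => F ((D z, n), s)) q.1 := by
      intro q
      by_cases h : ((z, q) : Z × (ℝ × Space3)) ∈ okS te D
      · have h3 : posA ((D z, n), (q.1, (n', q.2))) ≤ 1 :=
          Set.indicator_le_self' (fun _ _ => zero_le_one) _
        rw [indicator_of_mem h, Pi.one_apply, one_mul,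
          indicator_of_mem (show D z ∈ {d : BLine | d.1 ≤ te} from h.1), Pi.one_apply, one_mul,
          indicator_of_mem (show q.1 ∈ Icc 0 te from ⟨h.2.2, h.2.1⟩)]
        calc F ((D z, n), q.1) * (lam₁ ^ n' * posA ((D z, n), (q.1, (n', q.2))))
            ≤ F ((D z, n), q.1) * (lam₁ ^ n' * 1) :=
              mul_le_mul_right (mul_le_mul_right h3 _) _
          _ = _ := by ring
      · rw [indicator_of_notMem h, zero_mul]
        exact bot_le
    refine (lintegral_mono h2).trans ?_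
    have hmq : Measurable fun q : ℝ × Space3 => (Icc 0 te).indicator (fun s => F ((D z, n), s)) q.1 :=
      hmz.comp measurable_fst
    rw [lintegral_const_mul _ hmq]
    have h4 := hmass _ hmz (Λ z)
    have h5 : ∫⁻ s in Ioo 0 T', (Icc 0 te).indicator (fun s => F ((D z, n), s)) s ≤
        ∫⁻ s in Icc 0 te, F ((D z, n), s) := by
      rw [← lintegral_indicator measurableSet_Icc]
      exact lintegral_mono' Measure.restrict_le_self le_rfl
    calc ({d : BLine | d.1 ≤ te}.indicator 1 (D z) * lam₁ ^ n') *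
          ∫⁻ q, (Icc 0 te).indicator (fun s => F ((D z, n), s)) q.1 ∂κ (Λ z)
        ≤ ({d : BLine | d.1 ≤ te}.indicator 1 (D z) * lam₁ ^ n') *
          ((C * gE b' (Λ z).2) * ∫⁻ s in Icc 0 te, F ((D z, n), s)) :=
          mul_le_mul_right (h4.trans (mul_le_mul_right h5 _)) _
      _ = _ := by rw [hφ]; ring
  have hgm : Measurable fun z => gE b' (Λ z).2 * φ (D z) :=
    ((measurable_gE b').comp (measurable_snd.comp hΛ)).mul (hφm.comp hD)
  refine (lintegral_mono h1).trans ?_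
  rw [lintegral_const_mul _ hgm]
  refine (mul_le_mul_right (hcr φ hφm) _).trans ?_
  -- the line measure
  have h6 : ∫⁻ d : BLine, (Ioo 0 T').indicator 1 d.1 * gE bs d.2.2 * φ d ≤
      ∫⁻ d : BLine, (Ioo 0 te).indicator 1 d.1 * gE bs d.2.2 *
        ∫⁻ s in Icc 0 te, F ((d, n), s) := by
    refine lintegral_mono_ae ?_
    filter_upwards [ae_birth_ne te] with d hd
    by_cases h7 : d.1 ∈ Ioo 0 T'
    · by_cases h8 : d.1 ≤ te
      · rw [hφ]
        simp only
        rw [indicator_of_mem (show d ∈ {d : BLine | d.1 ≤ te} from h8),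
          indicator_of_mem (show d.1 ∈ Ioo 0 te from ⟨h7.1, lt_of_le_of_ne h8 hd⟩),
          indicator_of_mem h7]
        simp only [Pi.one_apply, one_mul, le_refl]
      · rw [hφ]
        simp only
        rw [indicator_of_notMem (show d ∉ {d : BLine | d.1 ≤ te} from h8), zero_mul, mul_zero]
        exact bot_le
    · rw [indicator_of_notMem h7, zero_mul, zero_mul]
      exact bot_le
  have hρt : ρ ≠ ∞ := (hB.ρ1.trans_lt ENNReal.one_lt_top).ne
  have hp0 : ρ ^ N ≠ 0 := pow_ne_zero _ hB.ρ0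
  have hpt : ρ ^ N ≠ ∞ := ENNReal.pow_ne_top hρt
  have h9 := lineM_ge (γ := γ) hB.γm hB.ρ1 (K := K) (N := N) hn hnK hnN
    (T := te) (b' := bs) (fun τ hτ => hB.γs τ ⟨hτ.1, hτ.2.trans (hte1.trans hT)⟩) hFI
  have h10 : ∫⁻ d : BLine, (Ioo 0 te).indicator 1 d.1 * gE bs d.2.2 *
        ∫⁻ s in Icc 0 te, F ((d, n), s) ≤
      (ρ ^ N)⁻¹ * ∫⁻ l, (∫⁻ s in Icc 0 te, F (l, s)) ∂lineM γ ρ K te := by
    rw [← ENNReal.mul_le_iff_le_inv hp0 hpt]
    exact h9
  have h11 : ∫⁻ l, (∫⁻ s in Icc 0 te, F (l, s)) ∂lineM γ ρ K te ≤ Pp.rhs F := by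
    unfold PPar.rhs
    rw [hP.ell, hP.hor]
    exact le_add_self
  calc lam₁ ^ n' * C * (C₁ * ∫⁻ d : BLine, (Ioo 0 T').indicator 1 d.1 * gE bs d.2.2 * φ d)
      ≤ lam₁ ^ n' * C * (C₁ * ((ρ ^ N)⁻¹ * Pp.rhs F)) :=
        mul_le_mul_right (mul_le_mul_right (h6.trans (h10.trans (mul_le_mul_right h11 _))) _) _
    _ = _ := by ring

/-! ### The a.e. facts -/

lemma ae_offN (hD : Measurable D) {b : ℝ} {p : Lab × LSt → Prop}
    (hp : MeasurableSet {θ | p θ}) (h : ∀ z : Z, κ (Λ z) {q : ℝ × Space3 |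
      (okS te D).indicator (1 : Z × (ℝ × Space3) → ℝ≥0∞) (z, q) ≠ 0 ∧
      ¬ ∀ v, p (((D z, n), (q.1, n')), (q.1, (q.2, v)))} = 0) :
    ∀ᵐ θ ∂offN μ D Λ hΛ κ n n' te b, p θ := by
  have hS : MeasurableSet {θ : Lab × LSt | ¬ p θ} := hp.compl
  rw [ae_iff, ← lintegral_indicator_one hS, lintegral_offN hD (measurable_one.indicator hS)]
  refine (lintegral_congr fun z => ?_).trans lintegral_zero
  refine (lintegral_congr_ae ?_).trans lintegral_zero
  have h1 : ∀ᵐ q ∂κ (Λ z), ¬ ((okS te D).indicator (1 : Z × (ℝ × Space3) → ℝ≥0∞) (z, q) ≠ 0 ∧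
      ¬ ∀ v, p (((D z, n), (q.1, n')), (q.1, (q.2, v)))) := by
    rw [ae_iff]
    simpa only [not_not] using h z
  filter_upwards [h1] with q hq
  by_cases h2 : (okS te D).indicator (1 : Z × (ℝ × Space3) → ℝ≥0∞) (z, q) = 0
  · rw [h2, zero_mul]
  · have h3 : ∀ v, p (((D z, n), (q.1, n')), (q.1, (q.2, v))) := by
      by_contra hc
      exact hq ⟨h2, hc⟩
    have h4 : ∀ v, gE b v * {θ : Lab × LSt | ¬ p θ}.indicator (1 : Lab × LSt → ℝ≥0∞)
        (((D z, n), (q.1, n')), (q.1, (q.2, v))) = 0 := by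
      intro v
      rw [indicator_of_notMem (show (((D z, n), (q.1, n')), (q.1, (q.2, v))) ∉
        {θ : Lab × LSt | ¬ p θ} from fun h => h (h3 v)), mul_zero]
    simp only [h4, lintegral_zero, mul_zero]

theorem aux_offN (hD : Measurable D) {b ε T' b' : ℝ} {C : ℝ≥0∞}
    (hmass : ∀ φ : ℝ → ℝ≥0∞, Measurable φ → ∀ ℓ : PhasePoint,
      ∫⁻ q, φ q.1 ∂κ ℓ ≤ (C * gE b' ℓ.2) * ∫⁻ s in Ioo 0 T', φ s)
    (hna : ∀ Z : ℝ → Space3, Measurable Z → ∀ ℓ : PhasePoint, κ ℓ {q | q.2 = Z q.1} = 0) :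
    Aux ε (offN μ D Λ hΛ κ n n' te b) := by
  refine ⟨?_, fun Y hY => ?_, ?_⟩
  · have hS : MeasurableSet {θ : Lab × LSt | 0 ≤ θ.1.2.1 ∧ θ.1.2.1 ≤ θ.2.1} :=
      (measurableSet_le measurable_const (measurable_sig.comp measurable_fst)).inter
        (measurableSet_le (measurable_sig.comp measurable_fst)
          (measurable_fst.comp measurable_snd))
    refine ae_offN hD hS fun z => ?_
    refine measure_mono_null (t := ∅) ?_ measure_empty
    rintro q ⟨h1, h2⟩
    have h3 : ((z, q) : Z × (ℝ × Space3)) ∈ okS te D := by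
      by_contra hc
      exact h1 (indicator_of_notMem hc _)
    exact h2 fun v => ⟨h3.2.2, le_rfl⟩
  · have m1 : Measurable fun θ : Lab × LSt => Y (θ.1.1, sig θ.1) :=
      hY.comp ((measurable_fst.comp measurable_fst).prodMk (measurable_sig.comp measurable_fst))
    have m2 : Measurable fun θ : Lab × LSt => θ.2.2.1 := by fun_prop
    have hS : MeasurableSet {θ : Lab × LSt | θ.2.2.1 ≠ Y (θ.1.1, sig θ.1)} :=
      (measurableSet_eq_fun m2 m1).compl
    have h := ae_offN (μ := μ) (D := D) (Λ := Λ) (hΛ := hΛ) (κ := κ) (n := n) (n' := n')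
      (te := te) (b := b) (p := fun θ => θ.2.2.1 ≠ Y (θ.1.1, sig θ.1)) hD hS fun z => ?_
    · filter_upwards [h] with θ hθ _ _
      exact hθ
    · refine measure_mono_null ?_ (hna (fun s => Y ((D z, n), s))
        (hY.comp (measurable_const.prodMk measurable_id)) (Λ z))
      rintro q ⟨-, h2⟩
      by_contra hc
      exact h2 fun v => hc
  · have m1 : Measurable fun θ : Lab × LSt => θ.1.1.1.1 := by fun_prop
    have m2 : Measurable fun θ : Lab × LSt => θ.2.1 := by fun_prop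
    have hS : MeasurableSet {θ : Lab × LSt | θ.1.1.1.1 ≠ θ.2.1} :=
      (measurableSet_eq_fun m1 m2).compl
    have h := ae_offN (μ := μ) (D := D) (Λ := Λ) (hΛ := hΛ) (κ := κ) (n := n) (n' := n')
      (te := te) (b := b) (p := fun θ => θ.1.1.1.1 ≠ θ.2.1) hD hS fun z => ?_
    · filter_upwards [h] with θ hθ hc
      exact absurd hc hθ
    · have h3 : κ (Λ z) {q : ℝ × Space3 | q.1 = (D z).1} = 0 := by
        have hm : MeasurableSet {s : ℝ | s = (D z).1} := measurableSet_singleton _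
        have h4 := hmass ({s : ℝ | s = (D z).1}.indicator 1) (measurable_one.indicator hm) (Λ z)
        have h5 : ∫⁻ s in Ioo 0 T', ({s : ℝ | s = (D z).1}.indicator (1 : ℝ → ℝ≥0∞)) s = 0 := by
          rw [lintegral_indicator_one hm]
          have h6 : (volume : Measure ℝ) {s : ℝ | s = (D z).1} = 0 := by simp
          exact measure_mono_null (le_refl _)
            (Measure.absolutelyContinuous_of_le Measure.restrict_le_self h6)
        rw [h5, mul_zero] at h4
        have hm2 : MeasurableSet {q : ℝ × Space3 | q.1 = (D z).1} := measurable_fst hm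
        rw [← lintegral_indicator_one hm2]
        refine le_antisymm ?_ bot_le
        refine le_trans (le_of_eq ?_) h4
        rfl
      refine measure_mono_null ?_ h3
      rintro q ⟨-, h2⟩
      by_contra hc
      exact h2 fun v => fun h7 => hc h7.symm

/-! ### The class -/

/-- constant of a source law -/
def cstO (b' η : ℝ) (lam₁ ρ C C₁ A : ℝ≥0∞) (n' N : ℕ) : ℝ≥0∞ :=
  (lam₁ ^ n' * (C * C₁) * (ρ ^ N)⁻¹) *
    (cB * ENNReal.ofReal (Real.exp b') * (A * ∫⁻ v, gau (b' / 2 - η) v))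

lemma cstO_ne_top {B : BPar} (hB : B.Ok) {b' : ℝ} (hb' : B.bs ≤ b')
    {C C₁ : ℝ≥0∞} (hCt : C ≠ ∞) (hC₁ : C₁ ≠ ∞) (n' N : ℕ) :
    cstO b' B.η B.lam₁ B.ρ C C₁ B.A n' N ≠ ∞ := by
  unfold cstO
  have h1 : (B.ρ ^ N)⁻¹ ≠ ∞ := ENNReal.inv_ne_top.2 (pow_ne_zero _ hB.ρ0)
  have h2 : ∫⁻ v, gau (b' / 2 - B.η) v ≠ ∞ :=
    lintegral_gE_ne_top (b := b' / 2 - B.η) (by have := hB.ηs; linarith)
  exact ENNReal.mul_ne_top (ENNReal.mul_ne_top (ENNReal.mul_ne_top (ENNReal.pow_ne_top hB.lt)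
    (ENNReal.mul_ne_top hCt hC₁)) h1) (ENNReal.mul_ne_top (ENNReal.mul_ne_top cB_ne_top
      ENNReal.ofReal_ne_top) (ENNReal.mul_ne_top hB.wp.Atop h2))

theorem px_offN {B : BPar} (hB : B.Ok) {K : ℕ} {Pp : PPar} (hP : IsPP B te K Pp)
    (hD : Measurable D) {sh : Space3 → Z → Z} (hsh : BaseCov μ D Λ sh)
    {T' b' : ℝ} (hb' : B.bs ≤ b') {C C₁ : ℝ≥0∞} (hte1 : te ≤ T') (hT : T' ≤ B.T)
    (hmass : ∀ φ : ℝ → ℝ≥0∞, Measurable φ → ∀ ℓ : PhasePoint,
      ∫⁻ q, φ q.1 ∂κ ℓ ≤ (C * gE b' ℓ.2) * ∫⁻ s in Ioo 0 T', φ s)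
    (htr : ∀ (x : Space3) (F : ℝ × Space3 → ℝ≥0∞), Measurable F → ∀ ℓ : PhasePoint,
      ∫⁻ q, F q ∂κ (shx x ℓ) = ∫⁻ q, F (q.1, q.2 + x) ∂κ ℓ)
    (hcr : ∀ φ : BLine → ℝ≥0∞, Measurable φ → ∫⁻ z, gE b' (Λ z).2 * φ (D z) ∂μ ≤
      C₁ * ∫⁻ d : BLine, (Ioo 0 T').indicator 1 d.1 * gE B.bs d.2.2 * φ d)
    {N : ℕ} (hn : 1 ≤ n) (hnK : n ≤ K) (hnN : n ≤ N) :
    ∃ Ξ, PX Pp Ξ (offN μ D Λ hΛ κ n n' te b') (cstO b' B.η B.lam₁ B.ρ C C₁ B.A n' N) := by
  have hb0 : 0 ≤ b' := hB.bs0.le.trans hb'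
  refine ⟨_, PX.src hB.wp hP.w measurable_fst (by fun_prop) (by fun_prop) (by fun_prop)
    (measurable_offG b') measurable_posA hb0 (fun q v => le_rfl) ?_ shQ measurable_shQ
    (map_baseM hD hsh htr) (fun a q => rfl) (fun a q => rfl) (fun a q => rfl) (fun a q => rfl)
    (fun a q v => rfl) ?_⟩
  · intro q hq
    by_contra hc
    exact hq (indicator_of_notMem (show q ∉ {q : SQ | 0 ≤ q.2.1} from hc) _)
  · intro F hF
    exact offAbs_marg hB hP hD hte1 hT hmass hcr hn hnK hnN hF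

theorem offDom (hD : Measurable D) {T' b' : ℝ} {C : ℝ≥0∞}
    (hmass : ∀ φ : ℝ → ℝ≥0∞, Measurable φ → ∀ ℓ : PhasePoint,
      ∫⁻ q, φ q.1 ∂κ ℓ ≤ (C * gE b' ℓ.2) * ∫⁻ s in Ioo 0 T', φ s)
    {F : Lab × LSt → ℝ≥0∞} (hF : Measurable F)
    (hF0 : ∀ q : Lab × LSt, ¬ (q.1.1.1.1 ≤ te ∧ q.2.1 ≤ te) → F q = 0) :
    ∫⁻ z, (∫⁻ q, (∫⁻ w, gE b' w * F (((D z, n), (q.1, n')), (q.1, (q.2, w)))) ∂κ (Λ z)) ∂μ ≤
      ∫⁻ θ, F θ ∂offN μ D Λ hΛ κ n n' te b' := by
  rw [lintegral_offN hD hF]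
  refine lintegral_mono fun z => lintegral_mono_ae ?_
  have hpos : ∀ᵐ q ∂κ (Λ z), 0 ≤ q.1 := by
    have hm : MeasurableSet {s : ℝ | ¬ 0 ≤ s} := (measurableSet_le measurable_const measurable_id).compl
    have h4 := hmass ({s : ℝ | ¬ 0 ≤ s}.indicator 1) (measurable_one.indicator hm) (Λ z)
    have h5 : ∫⁻ s in Ioo 0 T', ({s : ℝ | ¬ 0 ≤ s}.indicator (1 : ℝ → ℝ≥0∞)) s = 0 := by
      refine (setLIntegral_congr_fun measurableSet_Ioo (g := fun _ => 0) fun s hs => ?_).trans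
        lintegral_zero
      exact indicator_of_notMem (show s ∉ {s : ℝ | ¬ 0 ≤ s} from fun h => h hs.1.le) _
    rw [h5, mul_zero] at h4
    have hm2 : MeasurableSet {q : ℝ × Space3 | ¬ 0 ≤ q.1} := measurable_fst hm
    rw [ae_iff, ← lintegral_indicator_one hm2]
    exact le_antisymm h4 bot_le
  filter_upwards [hpos] with q hq
  by_cases h : (D z).1 ≤ te ∧ q.1 ≤ te
  · rw [indicator_of_mem (show ((z, q) : Z × (ℝ × Space3)) ∈ okS te D from ⟨h.1, h.2, hq⟩),
      Pi.one_apply, one_mul]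
  · have h0 : ∀ w, F (((D z, n), (q.1, n')), (q.1, (q.2, w))) = 0 := fun w => hF0 _ h
    simp only [h0, mul_zero, lintegral_zero]
    exact bot_le

end base

end Crest.Agent.R122.PairOff969

end
end

-- ▼ part R122/PairOff4_969
section

/-!
Row 122, block H7, helper969: exits OFF the forward path of the first marked particle, part 4:
**domination of the pairs of exits**.

`domP_off : OffP m m' → DomP Φ T b PP P m m'` : the second exit `m'` is not on the forward path of the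
first exit `m` (that is, `m'` is not an ancestor of `m`).
-/

set_option autoImplicit false
set_option synthInstance.maxSize 1024

open MeasureTheory ProbabilityTheory Set
open Crest.AnalysisR.Kinetic
open Crest.Agent.R122.Boost969 Crest.Agent.R122.Kin416 Crest.Agent.R122.Pair292
open Crest.Agent.R122.CollLeg969 (EC WPack)
open Crest.Agent.R122.PairSrc969 Crest.Agent.R122.Omega969
open Crest.Agent.R122.Kin796 Crest.Agent.R122.Kin796.CTree Crest.Agent.R122.Tree674
open Crest.Agent.R122.Mark307 Crest.Agent.R122.TreeDom974 Crest.Agent.R122.Disc416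
open Crest.Agent.R122.Scat818 Crest.Agent.R122.Flow671 Crest.Agent.R122.Flux663
open Crest.Agent.R122.EDefs602 (lineM markW)
open Crest.Agent.R122.TreeLines335
open scoped ENNReal

noncomputable section

namespace Crest.Agent.R122.PairOff969

variable {Φ : Space3 → ℝ}

/-! ### The crude bound with the Gaussian tree weight -/

lemma prod_gE_lines (hΦ : AdmissiblePotential Φ) (b ε : ℝ) {P : CTree} {z : PhasePoint × Par P}
    (hA : Adm Φ P z.1.2 z.2) : ∏ i, gE b (lines Φ ε P z.1 z.2 i).2 = gw b P z := by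
  unfold gw
  rw [← sum_vels_sq hΦ hA, Finset.mul_sum, Real.exp_sum,
    ENNReal.ofReal_prod_of_nonneg fun i _ => (Real.exp_pos _).le]
  refine Finset.prod_congr rfl fun i _ => ?_
  rw [← Hid424.lines_vel ε P z.1 z.2 i]
  rfl

theorem crude_gw (hΦ : AdmissiblePotential Φ) {b b' : ℝ} (hb' : 0 < b') (hb : b' < b) (P : CTree)
    (T : ℝ) : ∃ C : ℝ≥0∞, C ≠ ∞ ∧ ∀ (ε T' : ℝ), 0 < ε → T' ≤ T → ∀ (m : Mk P) (φ : BLine → ℝ≥0∞),
      Measurable φ →
      ∫⁻ z : PhasePoint × Par P, vw Φ ε P T' z * (gw b P z * φ (exM Φ ε m z)) ≤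
        C * ∫⁻ d : BLine, (Ioo 0 T').indicator 1 d.1 * gE b' d.2.2 * φ d := by
  obtain ⟨C, hC, H⟩ := crude_exit hΦ (C := 1) zero_le_one hb' hb
    (k := fun z : PhasePoint => gE b z.2) ((measurable_gE b).comp measurable_snd)
    (fun z => by rw [one_mul]; exact le_rfl) P T
  refine ⟨C, hC, fun ε T' hε hT m φ hφ => le_trans (le_of_eq ?_) (H ε T' hε hT m φ hφ)⟩
  refine lintegral_congr fun z => ?_
  by_cases hz : vw Φ ε P T' z = 0
  · rw [hz, zero_mul, zero_mul]
  · have hV := valid_of_vw hz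
    rw [prod_gE_lines hΦ b ε hV.1, exM_eq m hV.1]

/-! ### The common part -/

theorem domP_of_side (hΦ : AdmissiblePotential Φ) {B₀ : BPar} (hB : B₀.Ok)
    {b : ℝ} (hb : B₀.bs < b) {P Q B : CTree} {m m' : Mk P} {mt : Mk B} {m2 : Mk Q}
    (hfw : fwd m m' = false)
    (w : ℝ → ℝ → PhasePoint × Par B → ℝ≥0∞) (Λ : ℝ → PhasePoint × Par B → PhasePoint)
    (hw : ∀ ε T', Measurable (w ε T')) (hΛ : ∀ ε, Measurable (Λ ε))
    (hws : ∀ ε T' x z, w ε T' (shZ x z) = w ε T' z)
    (hv : ∀ ε T' z, w ε T' z ≠ 0 → Valid Φ ε B T' z.1.2 z.2)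
    (hΛs : ∀ ε T' x z, w ε T' z ≠ 0 → Λ ε (shZ x z) = shx x (Λ ε z))
    (hg : ∀ b' ε T' z, b' ≤ b → w ε T' z * gE b' (Λ ε z).2 ≤ vw Φ ε B T' z * gw b' B z)
    (hdom : ∀ (b' ε T' : ℝ) (C : ℝ≥0∞) (κ : Kernel PhasePoint (ℝ × Space3)), 0 < ε →
      PosK Φ ε T' b b' C m2 κ → ∀ F : BLine × BLine → ℝ≥0∞, Measurable F →
      ∫⁻ z : PhasePoint × Par P, vw Φ ε P T' z * (gw b P z * F (exM Φ ε m z, exM Φ ε m' z)) ≤
        ∫⁻ z, w ε T' z * ∫⁻ q, (∫⁻ v, gE b' v * F (exM Φ ε mt z, (q.1, (q.2, v)))) ∂κ (Λ ε z)) :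
    DomP Φ B₀ b P m m' := by
  set b' : ℝ := (b + B₀.bs) / 2 with hb'
  have h1 : B₀.bs < b' := by rw [hb']; linarith
  have h2 : b' < b := by rw [hb']; linarith
  have hb'0 : 0 < b' := hB.bs0.trans h1
  obtain ⟨C, hCt, H⟩ := exists_pos hΦ B₀.T m2 hb'0 h2
  obtain ⟨C₁, hC₁, H₁⟩ := crude_gw hΦ hB.bs0 h1 B B₀.T
  refine ⟨cstO b' B₀.η B₀.lam₁ B₀.ρ C C₁ B₀.A (mkN m') P.leaves,
    cstO_ne_top hB h1.le hCt hC₁ _ _, fun ε T' te hε hε1 hte hte1 hT K hK Pp hPp => ?_⟩
  obtain ⟨κ, hκ⟩ := H ε T' hε hT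
  have hsf := hκ.sf
  have hD := measurable_exM hΦ ε mt
  set μ : Measure (PhasePoint × Par B) := volume.withDensity (w ε T') with hμ
  have hsh : BaseCov μ (exM Φ ε mt) (Λ ε) (fun x => shZ x) := by
    refine ⟨fun x => measurable_shZ x, fun x => ?_, fun x => ?_⟩
    · refine Measure.ext_of_lintegral _ fun F hF => ?_
      have hFs : Measurable fun z : PhasePoint × Par B => F (shZ x z) := hF.comp (measurable_shZ x)
      rw [lintegral_map hF (measurable_shZ x), hμ]
      refine (lintegral_withDensity_eq_lintegral_mul _ (hw ε T') hFs).trans ?_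
      refine Eq.trans ?_ (lintegral_withDensity_eq_lintegral_mul _ (hw ε T') hF).symm
      rw [← (mp_shZ x B).lintegral_comp ((hw ε T').mul hF)]
      refine lintegral_congr fun z => ?_
      simp only [Pi.mul_apply]
      rw [hws]
    · rw [hμ, ae_withDensity_iff (hw ε T')]
      refine Filter.Eventually.of_forall fun z hz => ⟨?_, hΛs ε T' x z hz⟩
      exact exM_sh x mt (hv ε T' z hz).1
  have hcr : ∀ φ : BLine → ℝ≥0∞, Measurable φ → ∫⁻ z, gE b' (Λ ε z).2 * φ (exM Φ ε mt z) ∂μ ≤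
      C₁ * ∫⁻ d : BLine, (Ioo 0 T').indicator 1 d.1 * gE B₀.bs d.2.2 * φ d := by
    intro φ hφ
    have hm : Measurable fun z : PhasePoint × Par B => gE b' (Λ ε z).2 * φ (exM Φ ε mt z) :=
      ((measurable_gE b').comp (measurable_snd.comp (hΛ ε))).mul (hφ.comp hD)
    rw [hμ]
    refine (le_of_eq (lintegral_withDensity_eq_lintegral_mul _ (hw ε T') hm)).trans ?_
    refine le_trans (lintegral_mono fun z => ?_) (H₁ ε T' hε hT mt φ hφ)
    simp only [Pi.mul_apply]
    rw [← mul_assoc, ← mul_assoc]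
    exact mul_le_mul_left (hg b' ε T' z h2.le) _
  have hmk : mkN m ≤ P.leaves := by rw [← mk_exIdx]; exact mk_le P _
  have hmk1 : 1 ≤ mkN m := by rw [← mk_exIdx]; exact one_le_mk P _
  obtain ⟨Ξ, hΞ⟩ := px_offN (μ := μ) (D := exM Φ ε mt) (Λ := Λ ε) (hΛ := hΛ ε) (κ := κ)
    (n := mkN m) (n' := mkN m') (te := te) hB hPp hD hsh h1.le hte1 hT hκ.mass hκ.trans hcr
    hmk1 (hmk.trans hK) hmk
  refine ⟨Ξ, _, hΞ, aux_offN hD hκ.mass hκ.na, fun F hF hF0 => ?_⟩
  have hF' : Measurable fun q : BLine × BLine =>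
      F (((q.1, mkN m), (q.2.1, mkN m')), q.2) := hF.comp (by fun_prop)
  have e0 : ∀ z : PhasePoint × Par P, pairT Φ ε m m' z =
      (((exM Φ ε m z, mkN m), ((exM Φ ε m' z).1, mkN m')), exM Φ ε m' z) := by
    intro z
    unfold pairT sgT
    rw [hfw]
    rfl
  simp only [e0]
  refine (hdom b' ε T' C κ hε hκ _ hF').trans ?_
  refine le_trans (le_of_eq ?_) (offDom hD hκ.mass hF hF0)
  have hI : Measurable fun z : PhasePoint × Par B => ∫⁻ q, (∫⁻ v, gE b' v *
      F (((exM Φ ε mt z, mkN m), (q.1, mkN m')), (q.1, (q.2, v)))) ∂κ (Λ ε z) := by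
    have h3 : Measurable fun p : ((PhasePoint × Par B) × (ℝ × Space3)) × Space3 =>
        gE b' p.2 * F (((exM Φ ε mt p.1.1, mkN m), (p.1.2.1, mkN m')),
          (p.1.2.1, (p.1.2.2, p.2))) := by
      have h4 : Measurable fun p : ((PhasePoint × Par B) × (ℝ × Space3)) × Space3 =>
        exM Φ ε mt p.1.1 := hD.comp measurable_fst.fst
      refine ((measurable_gE b').comp measurable_snd).mul (hF.comp ?_)
      exact ((h4.prodMk measurable_const).prodMk (by fun_prop)).prodMk (by fun_prop)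
    have h5 : Measurable fun p : (PhasePoint × Par B) × (ℝ × Space3) => ∫⁻ v, gE b' v *
        F (((exM Φ ε mt p.1, mkN m), (p.2.1, mkN m')), (p.2.1, (p.2.2, v))) :=
      h3.lintegral_prod_right'
    exact Measurable.lintegral_kernel_prod_right' (κ := κ.comap (Λ ε) (hΛ ε)) h5
  rw [hμ]
  exact (lintegral_withDensity_eq_lintegral_mul _ (hw ε T') hI).symm

/-! ### The second exit in the second branch -/

/-- the leaf parameter -/
def lf : Par leaf := ()

/-- weight of the base tree: the first branch is kept -/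
def wR (Φ : Space3 → ℝ) (b : ℝ) (l : CTree) (ε T' : ℝ) (z : PhasePoint × Par (node l leaf)) :
    ℝ≥0∞ :=
  vw Φ ε (node l leaf) T' z * gw b l ((inM Φ ε (z.1, z.2.1)).1, z.2.2.1)

/-- weight of the base tree: the second branch is kept -/
def wL (Φ : Space3 → ℝ) (b : ℝ) (r : CTree) (ε T' : ℝ) (z : PhasePoint × Par (node leaf r)) :
    ℝ≥0∞ :=
  vw Φ ε (node leaf r) T' z * gw b r ((inM Φ ε (z.1, z.2.1)).2, z.2.2.2)

lemma topI_leaf (s : ℝ) (p : Par leaf) : topI leaf (s, p) = 1 := by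
  unfold topI
  rw [indicator_of_mem (show (s, p) ∈ {q : ℝ × Par leaf | TopLt leaf q.1 q.2} from trivial)]
  rfl

lemma vw_leaf (ε T' : ℝ) (z : PhasePoint × Par leaf) : vw Φ ε leaf T' z = 1 :=
  vw_of_valid (z := z) valid_leaf

lemma gw_leaf (b : ℝ) (z : PhasePoint × Par leaf) : gw b leaf z = gE b z.1.2 := by
  unfold gw gE nodeE
  rw [add_zero]

lemma wR_node {ε : ℝ} (hε : 0 < ε) (b T' : ℝ) (l : CTree) (ℓ : PhasePoint) (a : NodeP)
    (pl : Par l) (pr : Par leaf) :
    wR Φ b l ε T' (ℓ, ((a, (pl, pr)) : Par (node l leaf))) =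
      (vI Φ ε T' (ℓ, a) * ENNReal.ofReal ‖ℓ.2 - a.2.1‖) *
        br Φ ε T' b l (sinM Φ ε (ℓ, a)) ((inM Φ ε (ℓ, a)).1, pl) := by
  have h := vw_node hε (Φ := Φ) (T := T') (r := leaf) ℓ a pl pr
  unfold wR
  have h' : vw Φ ε (node l leaf) T' (ℓ, ((a, (pl, pr)) : Par (node l leaf))) = _ := h
  rw [h', topI_leaf, vw_leaf]
  unfold br
  simp only
  ring

lemma wL_node {ε : ℝ} (hε : 0 < ε) (b T' : ℝ) (r : CTree) (ℓ : PhasePoint) (a : NodeP)
    (pl : Par leaf) (pr : Par r) :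
    wL Φ b r ε T' (ℓ, ((a, (pl, pr)) : Par (node leaf r))) =
      (vI Φ ε T' (ℓ, a) * ENNReal.ofReal ‖ℓ.2 - a.2.1‖) *
        br Φ ε T' b r (sinM Φ ε (ℓ, a)) ((inM Φ ε (ℓ, a)).2, pr) := by
  have h := vw_node hε (Φ := Φ) (T := T') (l := leaf) ℓ a pl pr
  unfold wL
  have h' : vw Φ ε (node leaf r) T' (ℓ, ((a, (pl, pr)) : Par (node leaf r))) = _ := h
  rw [h', topI_leaf, vw_leaf]
  unfold br
  simp only
  ring

lemma measurable_wR (hΦ : AdmissiblePotential Φ) (b : ℝ) (l : CTree) (ε T' : ℝ) :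
    Measurable (wR Φ b l ε T') :=
  (measurable_vw hΦ ε (node l leaf) T').mul ((measurable_gw b l).comp
    ((measurable_inD hΦ l leaf).fst.prodMk ((measurable_parL l leaf).comp measurable_snd)))

lemma measurable_wL (hΦ : AdmissiblePotential Φ) (b : ℝ) (r : CTree) (ε T' : ℝ) :
    Measurable (wL Φ b r ε T') :=
  (measurable_vw hΦ ε (node leaf r) T').mul ((measurable_gw b r).comp
    ((measurable_inD hΦ leaf r).snd.prodMk ((measurable_parR leaf r).comp measurable_snd)))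

lemma adm1_of_vw {ε T' : ℝ} {l r : CTree} {z : PhasePoint × Par (node l r)}
    (h : vw Φ ε (node l r) T' z ≠ 0) : Adm1 Φ z.1.2 z.2.1 := (valid_of_vw h).1.1

/-- the truncated tree, first branch kept -/
def trR (l r : CTree) (p : Par (node l r)) : Par (node l leaf) := (p.1, (p.2.1, lf))

/-- the truncated tree, second branch kept -/
def trL (l r : CTree) (p : Par (node l r)) : Par (node leaf r) := (p.1, (lf, p.2.2))

theorem domP_R (hΦ : AdmissiblePotential Φ) {B : BPar} (hB : B.Ok)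
    {b : ℝ} (hb : B.bs < b) {l r : CTree} (m : Mk (node l r)) (m2 : Mk r) (mt : Mk (node l leaf))
    (hfw : fwd m (Mk.inr l m2) = false)
    (hm : ∀ (ε : ℝ) (z : PhasePoint × Par (node l r)),
      exM Φ ε m z = exM Φ ε mt (z.1, trR l r z.2)) :
    DomP Φ B b (node l r) m (Mk.inr l m2) := by
  refine domP_of_side hΦ hB hb (mt := mt) (m2 := m2) hfw (wR Φ b l)
    (fun ε z => (inM Φ ε (z.1, z.2.1)).2) (fun ε T' => measurable_wR hΦ b l ε T')
    (fun ε => (measurable_inD hΦ l leaf).snd) ?_ ?_ ?_ ?_ ?_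
  · intro ε T' x z
    by_cases hz : vw Φ ε (node l leaf) T' z = 0
    · unfold wR
      rw [vw_sh, hz, zero_mul, zero_mul]
    · have hA := adm1_of_vw hz
      unfold wR
      rw [vw_sh]
      have h1 : inM Φ ε ((shZ x z).1, (shZ x z).2.1) =
          (shx x (inM Φ ε (z.1, z.2.1)).1, shx x (inM Φ ε (z.1, z.2.1)).2) := inM_sh x hA
      rw [h1]
      rfl
  · intro ε T' z hz
    refine valid_of_vw (fun h => hz ?_)
    unfold wR
    rw [h, zero_mul]
  · intro ε T' x z hz
    have hv : vw Φ ε (node l leaf) T' z ≠ 0 := fun h => hz (by unfold wR; rw [h, zero_mul])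
    have h1 : inM Φ ε ((shZ x z).1, (shZ x z).2.1) =
          (shx x (inM Φ ε (z.1, z.2.1)).1, shx x (inM Φ ε (z.1, z.2.1)).2) :=
      inM_sh x (adm1_of_vw hv)
    simp only [h1]
  · intro b' ε T' z hb'
    by_cases hz : vw Φ ε (node l leaf) T' z = 0
    · unfold wR
      rw [hz, zero_mul, zero_mul, zero_mul]
    · have hA := adm1_of_vw hz
      have h1 : gw b' (node l leaf) z = gw b' l ((inM Φ ε (z.1, z.2.1)).1, z.2.2.1) *
          gw b' leaf ((inM Φ ε (z.1, z.2.1)).2, z.2.2.2) := by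
        rw [inM_of_adm (z := (z.1, z.2.1)) hA]
        exact gw_node hΦ (l := l) (r := leaf) (o := (z.1, z.2.1)) hA rfl b' z.2.2.1 z.2.2.2
      unfold wR
      rw [h1, gw_leaf, mul_assoc]
      exact mul_le_mul_right (mul_le_mul_left (gw_mono hb' l _) _) _
  · intro b' ε T' C κ hε hκ F hF
    have hsf := hκ.sf
    have hF1 : Measurable fun z : PhasePoint × Par (node l r) =>
        F (exM Φ ε m z, exM Φ ε (Mk.inr l m2) z) :=
      hF.comp ((measurable_exM hΦ ε m).prodMk (measurable_exM hΦ ε (Mk.inr l m2)))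
    have hL : Measurable fun z : PhasePoint × Par (node l r) => vw Φ ε (node l r) T' z *
        (gw b (node l r) z * F (exM Φ ε m z, exM Φ ε (Mk.inr l m2) z)) :=
      (measurable_vw hΦ ε (node l r) T').mul ((measurable_gw b (node l r)).mul hF1)
    -- the right side
    set G : PhasePoint × Par (node l leaf) → ℝ≥0∞ := fun z =>
      ∫⁻ q, (∫⁻ v, gE b' v * F (exM Φ ε mt z, (q.1, (q.2, v)))) ∂κ (inM Φ ε (z.1, z.2.1)).2 with hG
    have hGm : Measurable G := by
      have h3 : Measurable fun p : ((PhasePoint × Par (node l leaf)) × (ℝ × Space3)) × Space3 =>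
          gE b' p.2 * F (exM Φ ε mt p.1.1, (p.1.2.1, (p.1.2.2, p.2))) := by
        have h4 : Measurable fun p : ((PhasePoint × Par (node l leaf)) × (ℝ × Space3)) × Space3 =>
          exM Φ ε mt p.1.1 := (measurable_exM hΦ ε mt).comp measurable_fst.fst
        exact ((measurable_gE b').comp measurable_snd).mul (hF.comp (h4.prodMk (by fun_prop)))
      have h5 : Measurable fun p : (PhasePoint × Par (node l leaf)) × (ℝ × Space3) =>
          ∫⁻ v, gE b' v * F (exM Φ ε mt p.1, (p.2.1, (p.2.2, v))) := h3.lintegral_prod_right'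
      exact Measurable.lintegral_kernel_prod_right'
        (κ := κ.comap (fun z : PhasePoint × Par (node l leaf) => (inM Φ ε (z.1, z.2.1)).2)
          (measurable_inD hΦ l leaf).snd) h5
    have hR : Measurable fun z : PhasePoint × Par (node l leaf) => wR Φ b l ε T' z * G z :=
      (measurable_wR hΦ b l ε T').mul hGm
    rw [Tree674.lintegral_pair hL, Tree674.lintegral_pair hR]
    refine lintegral_mono fun ℓ => ?_
    have hH : Measurable fun p : Par (node l r) => F (exM Φ ε m (ℓ, p),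
        exM Φ ε (Mk.inr l m2) (ℓ, p)) := hF1.comp (measurable_const.prodMk measurable_id)
    have hRℓ : Measurable fun p : Par (node l leaf) => wR Φ b l ε T' (ℓ, p) * G (ℓ, p) :=
      hR.comp (measurable_const.prodMk measurable_id)
    simp only
    rw [node_fix hΦ hε T' b l r ℓ hH, lintegral_par_node l leaf hRℓ]
    refine lintegral_mono fun a => ?_
    have hRa : Measurable fun y : Par l × Par leaf => wR Φ b l ε T' (ℓ, ((a, y) :
        Par (node l leaf))) * G (ℓ, ((a, y) : Par (node l leaf))) :=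
      hRℓ.comp ((measurable_parMk l leaf).comp (measurable_const.prodMk measurable_id))
    rw [Tree674.lintegral_pair hRa]
    have e1 : ∀ pl : Par l, ∫⁻ y : Par leaf, wR Φ b l ε T' (ℓ, ((a, (pl, y)) :
        Par (node l leaf))) * G (ℓ, ((a, (pl, y)) : Par (node l leaf))) =
        wR Φ b l ε T' (ℓ, ((a, (pl, lf)) : Par (node l leaf))) *
          G (ℓ, ((a, (pl, lf)) : Par (node l leaf))) := fun pl => lintegral_par_leaf _
    simp only [e1]
    have hbl : Measurable fun pl : Par l =>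
        br Φ ε T' b l (sinM Φ ε (ℓ, a)) ((inM Φ ε (ℓ, a)).1, pl) :=
      (measurable_br hΦ ε T' b l).comp (measurable_const.prodMk
        (measurable_const.prodMk measurable_id))
    have hGa : Measurable fun pl : Par l => G (ℓ, ((a, (pl, lf)) : Par (node l leaf))) :=
      hGm.comp (measurable_const.prodMk ((measurable_parMk l leaf).comp
        (measurable_const.prodMk (measurable_id.prodMk measurable_const))))
    have hbG : Measurable fun pl : Par l =>
        br Φ ε T' b l (sinM Φ ε (ℓ, a)) ((inM Φ ε (ℓ, a)).1, pl) *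
          G (ℓ, ((a, (pl, lf)) : Par (node l leaf))) := hbl.mul hGa
    have e2 : ∀ pl : Par l, wR Φ b l ε T' (ℓ, ((a, (pl, lf)) : Par (node l leaf))) *
          G (ℓ, ((a, (pl, lf)) : Par (node l leaf))) =
        (vI Φ ε T' (ℓ, a) * ENNReal.ofReal ‖ℓ.2 - a.2.1‖) *
          (br Φ ε T' b l (sinM Φ ε (ℓ, a)) ((inM Φ ε (ℓ, a)).1, pl) *
            G (ℓ, ((a, (pl, lf)) : Par (node l leaf)))) := by
      intro pl
      have h := wR_node (Φ := Φ) hε b T' l ℓ a pl lf
      rw [h]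
      ring
    simp only [e2]
    rw [lintegral_const_mul _ hbG]
    refine mul_le_mul_right (lintegral_mono fun pl => mul_le_mul_right ?_ _) _
    -- the fresh branch
    have hFp : Measurable fun x : BLine =>
        F (exM Φ ε mt (ℓ, ((a, (pl, lf)) : Par (node l leaf))), x) :=
      hF.comp (measurable_const.prodMk measurable_id)
    refine le_trans (lintegral_mono fun pr => ?_) (hκ.dom _ hFp (inM Φ ε (ℓ, a)).2)
    have h1 := hm ε (ℓ, ((a, (pl, pr)) : Par (node l r)))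
    have h2 : exM Φ ε m (ℓ, ((a, (pl, pr)) : Par (node l r))) =
        exM Φ ε mt (ℓ, ((a, (pl, lf)) : Par (node l leaf))) := h1
    rw [h2, ← mul_assoc]
    exact mul_le_mul_left (br_le _ _ _ _ _ _) _

theorem domP_L (hΦ : AdmissiblePotential Φ) {B : BPar} (hB : B.Ok)
    {b : ℝ} (hb : B.bs < b) {l r : CTree} (m : Mk (node l r)) (m2 : Mk l) (mt : Mk (node leaf r))
    (hfw : fwd m (Mk.inl m2 r) = false)
    (hm : ∀ (ε : ℝ) (z : PhasePoint × Par (node l r)),
      exM Φ ε m z = exM Φ ε mt (z.1, trL l r z.2)) :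
    DomP Φ B b (node l r) m (Mk.inl m2 r) := by
  refine domP_of_side hΦ hB hb (mt := mt) (m2 := m2) hfw (wL Φ b r)
    (fun ε z => (inM Φ ε (z.1, z.2.1)).1) (fun ε T' => measurable_wL hΦ b r ε T')
    (fun ε => (measurable_inD hΦ leaf r).fst) ?_ ?_ ?_ ?_ ?_
  · intro ε T' x z
    by_cases hz : vw Φ ε (node leaf r) T' z = 0
    · unfold wL
      rw [vw_sh, hz, zero_mul, zero_mul]
    · have hA := adm1_of_vw hz
      unfold wL
      rw [vw_sh]
      have h1 : inM Φ ε ((shZ x z).1, (shZ x z).2.1) =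
          (shx x (inM Φ ε (z.1, z.2.1)).1, shx x (inM Φ ε (z.1, z.2.1)).2) := inM_sh x hA
      rw [h1]
      rfl
  · intro ε T' z hz
    refine valid_of_vw (fun h => hz ?_)
    unfold wL
    rw [h, zero_mul]
  · intro ε T' x z hz
    have hv : vw Φ ε (node leaf r) T' z ≠ 0 := fun h => hz (by unfold wL; rw [h, zero_mul])
    have h1 : inM Φ ε ((shZ x z).1, (shZ x z).2.1) =
          (shx x (inM Φ ε (z.1, z.2.1)).1, shx x (inM Φ ε (z.1, z.2.1)).2) :=
      inM_sh x (adm1_of_vw hv)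
    simp only [h1]
  · intro b' ε T' z hb'
    by_cases hz : vw Φ ε (node leaf r) T' z = 0
    · unfold wL
      rw [hz, zero_mul, zero_mul, zero_mul]
    · have hA := adm1_of_vw hz
      have h1 : gw b' (node leaf r) z = gw b' leaf ((inM Φ ε (z.1, z.2.1)).1, z.2.2.1) *
          gw b' r ((inM Φ ε (z.1, z.2.1)).2, z.2.2.2) := by
        rw [inM_of_adm (z := (z.1, z.2.1)) hA]
        exact gw_node hΦ (l := leaf) (r := r) (o := (z.1, z.2.1)) hA rfl b' z.2.2.1 z.2.2.2
      unfold wL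
      rw [h1, gw_leaf, mul_assoc, mul_comm (gE b' _)]
      exact mul_le_mul_right (mul_le_mul_left (gw_mono hb' r _) _) _
  · intro b' ε T' C κ hε hκ F hF
    have hsf := hκ.sf
    have hF1 : Measurable fun z : PhasePoint × Par (node l r) =>
        F (exM Φ ε m z, exM Φ ε (Mk.inl m2 r) z) :=
      hF.comp ((measurable_exM hΦ ε m).prodMk (measurable_exM hΦ ε (Mk.inl m2 r)))
    have hL : Measurable fun z : PhasePoint × Par (node l r) => vw Φ ε (node l r) T' z *
        (gw b (node l r) z * F (exM Φ ε m z, exM Φ ε (Mk.inl m2 r) z)) :=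
      (measurable_vw hΦ ε (node l r) T').mul ((measurable_gw b (node l r)).mul hF1)
    -- the right side
    set G : PhasePoint × Par (node leaf r) → ℝ≥0∞ := fun z =>
      ∫⁻ q, (∫⁻ v, gE b' v * F (exM Φ ε mt z, (q.1, (q.2, v)))) ∂κ (inM Φ ε (z.1, z.2.1)).1 with hG
    have hGm : Measurable G := by
      have h3 : Measurable fun p : ((PhasePoint × Par (node leaf r)) × (ℝ × Space3)) × Space3 =>
          gE b' p.2 * F (exM Φ ε mt p.1.1, (p.1.2.1, (p.1.2.2, p.2))) := by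
        have h4 : Measurable fun p : ((PhasePoint × Par (node leaf r)) × (ℝ × Space3)) × Space3 =>
          exM Φ ε mt p.1.1 := (measurable_exM hΦ ε mt).comp measurable_fst.fst
        exact ((measurable_gE b').comp measurable_snd).mul (hF.comp (h4.prodMk (by fun_prop)))
      have h5 : Measurable fun p : (PhasePoint × Par (node leaf r)) × (ℝ × Space3) =>
          ∫⁻ v, gE b' v * F (exM Φ ε mt p.1, (p.2.1, (p.2.2, v))) := h3.lintegral_prod_right'
      exact Measurable.lintegral_kernel_prod_right'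
        (κ := κ.comap (fun z : PhasePoint × Par (node leaf r) => (inM Φ ε (z.1, z.2.1)).1)
          (measurable_inD hΦ leaf r).fst) h5
    have hR : Measurable fun z : PhasePoint × Par (node leaf r) => wL Φ b r ε T' z * G z :=
      (measurable_wL hΦ b r ε T').mul hGm
    rw [Tree674.lintegral_pair hL, Tree674.lintegral_pair hR]
    refine lintegral_mono fun ℓ => ?_
    have hH : Measurable fun p : Par (node l r) => F (exM Φ ε m (ℓ, p),
        exM Φ ε (Mk.inl m2 r) (ℓ, p)) := hF1.comp (measurable_const.prodMk measurable_id)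
    have hRℓ : Measurable fun p : Par (node leaf r) => wL Φ b r ε T' (ℓ, p) * G (ℓ, p) :=
      hR.comp (measurable_const.prodMk measurable_id)
    simp only
    rw [node_fix hΦ hε T' b l r ℓ hH, lintegral_par_node leaf r hRℓ]
    refine lintegral_mono fun a => ?_
    have hRa : Measurable fun y : Par leaf × Par r => wL Φ b r ε T' (ℓ, ((a, y) :
        Par (node leaf r))) * G (ℓ, ((a, y) : Par (node leaf r))) :=
      hRℓ.comp ((measurable_parMk leaf r).comp (measurable_const.prodMk measurable_id))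
    rw [Tree674.lintegral_pair hRa, lintegral_par_leaf]
    have hbr : Measurable fun pr : Par r =>
        br Φ ε T' b r (sinM Φ ε (ℓ, a)) ((inM Φ ε (ℓ, a)).2, pr) :=
      (measurable_br hΦ ε T' b r).comp (measurable_const.prodMk
        (measurable_const.prodMk measurable_id))
    have hbl : Measurable fun pl : Par l =>
        br Φ ε T' b l (sinM Φ ε (ℓ, a)) ((inM Φ ε (ℓ, a)).1, pl) :=
      (measurable_br hΦ ε T' b l).comp (measurable_const.prodMk
        (measurable_const.prodMk measurable_id))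
    have hGa : Measurable fun pr : Par r => G (ℓ, ((a, (lf, pr)) : Par (node leaf r))) :=
      hGm.comp (measurable_const.prodMk ((measurable_parMk leaf r).comp
        (measurable_const.prodMk (measurable_const.prodMk measurable_id))))
    have hbG : Measurable fun pr : Par r =>
        br Φ ε T' b r (sinM Φ ε (ℓ, a)) ((inM Φ ε (ℓ, a)).2, pr) *
          G (ℓ, ((a, (lf, pr)) : Par (node leaf r))) := hbr.mul hGa
    have e2 : ∀ pr : Par r, wL Φ b r ε T' (ℓ, ((a, (lf, pr)) : Par (node leaf r))) *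
          G (ℓ, ((a, (lf, pr)) : Par (node leaf r))) =
        (vI Φ ε T' (ℓ, a) * ENNReal.ofReal ‖ℓ.2 - a.2.1‖) *
          (br Φ ε T' b r (sinM Φ ε (ℓ, a)) ((inM Φ ε (ℓ, a)).2, pr) *
            G (ℓ, ((a, (lf, pr)) : Par (node leaf r)))) := by
      intro pr
      have h := wL_node (Φ := Φ) hε b T' r ℓ a lf pr
      rw [h]
      ring
    have e3 : ∫⁻ pr : Par r, wL Φ b r ε T' (ℓ, ((a, ((), pr)) : Par (node leaf r))) *
          G (ℓ, ((a, ((), pr)) : Par (node leaf r))) =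
        (vI Φ ε T' (ℓ, a) * ENNReal.ofReal ‖ℓ.2 - a.2.1‖) * ∫⁻ pr : Par r,
          (br Φ ε T' b r (sinM Φ ε (ℓ, a)) ((inM Φ ε (ℓ, a)).2, pr) *
            G (ℓ, ((a, (lf, pr)) : Par (node leaf r)))) :=
      (lintegral_congr e2).trans (lintegral_const_mul _ hbG)
    rw [e3]
    refine mul_le_mul_right ?_ _
    -- exchange of the branches
    set F2 : Par l × Par r → ℝ≥0∞ := fun y =>
      br Φ ε T' b l (sinM Φ ε (ℓ, a)) ((inM Φ ε (ℓ, a)).1, y.1) *
        (br Φ ε T' b r (sinM Φ ε (ℓ, a)) ((inM Φ ε (ℓ, a)).2, y.2) *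
          F (exM Φ ε m (ℓ, ((a, y) : Par (node l r))),
            exM Φ ε (Mk.inl m2 r) (ℓ, ((a, y) : Par (node l r))))) with hF2
    have hFy : Measurable fun y : Par l × Par r =>
        F (exM Φ ε m (ℓ, ((a, y) : Par (node l r))),
            exM Φ ε (Mk.inl m2 r) (ℓ, ((a, y) : Par (node l r)))) :=
      hF1.comp (measurable_const.prodMk ((measurable_parMk l r).comp
        (measurable_const.prodMk measurable_id)))
    have hF2m : Measurable F2 :=
      (hbl.comp measurable_fst).mul ((hbr.comp measurable_snd).mul hFy)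
    have e4 : ∫⁻ pl : Par l, br Φ ε T' b l (sinM Φ ε (ℓ, a)) ((inM Φ ε (ℓ, a)).1, pl) *
        ∫⁻ pr : Par r, br Φ ε T' b r (sinM Φ ε (ℓ, a)) ((inM Φ ε (ℓ, a)).2, pr) *
          F (exM Φ ε m (ℓ, ((a, (pl, pr)) : Par (node l r))),
            exM Φ ε (Mk.inl m2 r) (ℓ, ((a, (pl, pr)) : Par (node l r)))) =
        ∫⁻ pr : Par r, ∫⁻ pl : Par l, F2 (pl, pr) := by
      rw [← lintegral_lintegral_swap (f := fun (pl : Par l) (pr : Par r) => F2 (pl, pr))
        hF2m.aemeasurable]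
      refine lintegral_congr fun pl => ?_
      have hin : Measurable fun pr : Par r =>
          br Φ ε T' b r (sinM Φ ε (ℓ, a)) ((inM Φ ε (ℓ, a)).2, pr) *
          F (exM Φ ε m (ℓ, ((a, (pl, pr)) : Par (node l r))),
            exM Φ ε (Mk.inl m2 r) (ℓ, ((a, (pl, pr)) : Par (node l r)))) :=
        hbr.mul (hFy.comp (measurable_const.prodMk measurable_id))
      exact (lintegral_const_mul (μ := (volume : Measure (Par r))) _ hin).symm
    rw [e4]
    refine lintegral_mono fun pr => ?_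
    -- the fresh branch
    have hFp : Measurable fun x : BLine =>
        F (exM Φ ε mt (ℓ, ((a, (lf, pr)) : Par (node leaf r))), x) :=
      hF.comp (measurable_const.prodMk measurable_id)
    have hq : Measurable fun pl : Par l => br Φ ε T' b l (sinM Φ ε (ℓ, a))
        ((inM Φ ε (ℓ, a)).1, pl) * F (exM Φ ε mt (ℓ, ((a, (lf, pr)) : Par (node leaf r))),
          exM Φ ε m2 ((inM Φ ε (ℓ, a)).1, pl)) :=
      hbl.mul (hFp.comp ((measurable_exM hΦ ε m2).comp (measurable_const.prodMk measurable_id)))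
    have e5 : ∫⁻ pl : Par l, F2 (pl, pr) =
        br Φ ε T' b r (sinM Φ ε (ℓ, a)) ((inM Φ ε (ℓ, a)).2, pr) * ∫⁻ pl : Par l,
          br Φ ε T' b l (sinM Φ ε (ℓ, a)) ((inM Φ ε (ℓ, a)).1, pl) *
          F (exM Φ ε mt (ℓ, ((a, (lf, pr)) : Par (node leaf r))),
            exM Φ ε m2 ((inM Φ ε (ℓ, a)).1, pl)) := by
      rw [← lintegral_const_mul _ hq]
      refine lintegral_congr fun pl => ?_
      have h1 := hm ε (ℓ, ((a, (pl, pr)) : Par (node l r)))
      have h2 : exM Φ ε m (ℓ, ((a, (pl, pr)) : Par (node l r))) =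
          exM Φ ε mt (ℓ, ((a, (lf, pr)) : Par (node leaf r))) := h1
      simp only [hF2]
      rw [h2]
      have h3 : exM Φ ε (Mk.inl m2 r) (ℓ, ((a, (pl, pr)) : Par (node l r))) =
        exM Φ ε m2 ((inM Φ ε (ℓ, a)).1, pl) := rfl
      rw [h3]
      ring
    rw [e5]
    refine mul_le_mul_right ?_ _
    refine le_trans (lintegral_mono fun pl => ?_) (hκ.dom _ hFp (inM Φ ε (ℓ, a)).1)
    rw [← mul_assoc]
    exact mul_le_mul_left (br_le _ _ _ _ _ _) _

/-! ### All pairs off the forward path -/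

/-- `m'` is not on the forward path of `m` (it is not an ancestor of `m`), `m' ≠ m` -/
def OffP : {P : CTree} → Mk P → Mk P → Prop
  | _, .top _ _, .top _ _ => False
  | _, .top _ _, .inl _ _ => True
  | _, .top _ _, .inr _ _ => True
  | _, .inl _ _, .top _ _ => False
  | _, .inl m _, .inl m' _ => OffP m m'
  | _, .inl _ _, .inr _ _ => True
  | _, .inr _ _, .top _ _ => False
  | _, .inr _ _, .inl _ _ => True
  | _, .inr _ m, .inr _ m' => OffP m m'

theorem measurable_pairT (hΦ : AdmissiblePotential Φ) (ε : ℝ) {P : CTree} (m m' : Mk P) :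
    Measurable (pairT Φ ε m m') := by
  have h1 := measurable_exM hΦ ε m
  have h2 := measurable_exM hΦ ε m'
  have h3 : Measurable (sgT Φ ε m m') := by
    unfold sgT
    by_cases h : fwd m m' = true
    · simp only [h, if_true]
      exact h1.fst
    · simp only [h]
      exact h2.fst
  exact ((h1.prodMk measurable_const).prodMk (h3.prodMk measurable_const)).prodMk h2

/-- reduction to the first branch -/
theorem domP_subL (hΦ : AdmissiblePotential Φ) {B : BPar} (hB : B.Ok)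
    {l : CTree} {m m' : Mk l} (r : CTree)
    (h : ∀ b : ℝ, B.bs < b → DomP Φ B b l m m') {b : ℝ} (hb : B.bs < b) :
    DomP Φ B b (node l r) (Mk.inl m r) (Mk.inl m' r) := by
  set b' : ℝ := (b + B.bs) / 2 with hb'
  have h1 : B.bs < b' := by rw [hb']; linarith
  have h2 : b' < b := by rw [hb']; linarith
  obtain ⟨c, hc, H⟩ := h b' h1
  obtain ⟨C, hC, HC⟩ := subL hΦ (hB.bs0.trans h1) h2 B.T l r
  refine ⟨C * c, ENNReal.mul_ne_top hC hc, fun ε T' te hε hε1 hte hte1 hT K hK Pp hPp => ?_⟩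
  have hlK : l.leaves ≤ K := le_trans (by simp only [leaves]; omega) hK
  obtain ⟨Ξ, ν, hP, hA, hF⟩ := H ε T' te hε hε1 hte hte1 hT K hlK Pp hPp
  refine ⟨C • Ξ, C • ν, PX.smul hP C, hA.smul C, fun F hFm hF0 => ?_⟩
  have hm : Measurable fun z : PhasePoint × Par l => F (pairT Φ ε m m' z) :=
    hFm.comp (measurable_pairT hΦ ε m m')
  rw [lintegral_smul_measure, smul_eq_mul]
  exact (HC ε T' hε hT _ hm).trans (mul_le_mul_right (hF F hFm hF0) _)

/-- reduction to the second branch -/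
theorem domP_subR (hΦ : AdmissiblePotential Φ) {B : BPar} (hB : B.Ok)
    (l : CTree) {r : CTree} {m m' : Mk r}
    (h : ∀ b : ℝ, B.bs < b → DomP Φ B b r m m') {b : ℝ} (hb : B.bs < b) :
    DomP Φ B b (node l r) (Mk.inr l m) (Mk.inr l m') := by
  set b' : ℝ := (b + B.bs) / 2 with hb'
  have h1 : B.bs < b' := by rw [hb']; linarith
  have h2 : b' < b := by rw [hb']; linarith
  obtain ⟨c, hc, H⟩ := h b' h1
  obtain ⟨C, hC, HC⟩ := subR hΦ (hB.bs0.trans h1) h2 B.T l r
  refine ⟨C * c, ENNReal.mul_ne_top hC hc, fun ε T' te hε hε1 hte hte1 hT K hK Pp hPp => ?_⟩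
  have hrK : r.leaves ≤ K := le_trans (by simp only [leaves]; omega) hK
  obtain ⟨Ξ, ν, hP, hA, hF⟩ := H ε T' te hε hε1 hte hte1 hT K hrK Pp hPp
  refine ⟨C • Ξ, C • ν, PX.smul hP C, hA.smul C, fun F hFm hF0 => ?_⟩
  have hm : Measurable fun z : PhasePoint × Par r => F (pairT Φ ε m m' z) :=
    hFm.comp (measurable_pairT hΦ ε m m')
  rw [lintegral_smul_measure, smul_eq_mul]
  exact (HC ε T' hε hT _ hm).trans (mul_le_mul_right (hF F hFm hF0) _)


theorem offP_of_fwd : {P : CTree} → (m m' : Mk P) → m ≠ m' → fwd m m' = false → OffP m m'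
  | _, .top _ _, .top _ _, h, _ => absurd rfl h
  | _, .top _ _, .inl _ _, _, _ => trivial
  | _, .top _ _, .inr _ _, _, _ => trivial
  | _, .inl _ _, .top _ _, _, h => absurd h (by simp [fwd])
  | _, .inl m _, .inl m' _, h, h' => offP_of_fwd m m' (fun e => h (by rw [e])) h'
  | _, .inl _ _, .inr _ _, _, _ => trivial
  | _, .inr _ _, .top _ _, _, h => absurd h (by simp [fwd])
  | _, .inr _ _, .inl _ _, _, _ => trivial
  | _, .inr _ m, .inr _ m', h, h' => offP_of_fwd m m' (fun e => h (by rw [e])) h'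

/-- **Domination of the pairs of exits whose second exit is off the forward path of the first.** -/
theorem domP_off (hΦ : AdmissiblePotential Φ) {B : BPar} (hB : B.Ok) :
    {P : CTree} → (m m' : Mk P) → OffP m m' → ∀ {b : ℝ}, B.bs < b → DomP Φ B b P m m'
  | _, .top l r, .top _ _, h => absurd h (by simp [OffP])
  | _, .top l r, .inl m' _, _ => fun hb =>
      domP_L hΦ hB hb (Mk.top l r) m' (Mk.top leaf r) rfl fun ε z => rfl
  | _, .top l r, .inr _ m', _ => fun hb =>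
      domP_R hΦ hB hb (Mk.top l r) m' (Mk.top l leaf) rfl fun ε z => rfl
  | _, .inl m r, .top _ _, h => absurd h (by simp [OffP])
  | _, .inl m r, .inl m' _, h => fun hb =>
      domP_subL hΦ hB r (fun b hb => domP_off hΦ hB m m' h hb) hb
  | _, .inl m r, .inr _ m', _ => fun hb =>
      domP_R hΦ hB hb (Mk.inl m r) m' (Mk.inl m leaf) rfl fun ε z => rfl
  | _, .inr l m, .top _ _, h => absurd h (by simp [OffP])
  | _, .inr l m, .inl m' _, _ => fun hb =>
      domP_L hΦ hB hb (Mk.inr l m) m' (Mk.inr leaf m) rfl fun ε z => rfl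
  | _, .inr l m, .inr _ m', h => fun hb =>
      domP_subR hΦ hB l (fun b hb => domP_off hΦ hB m m' h hb) hb

end Crest.Agent.R122.PairOff969

end
private theorem rz_71290b46c1 : type_of% @_root_.Crest.Agent.R122.PairOff969.OffP.eq_def := @_root_.Crest.Agent.R122.PairOff969.OffP.eq_def -- L505
private theorem rz_07a33ee1b6 : type_of% @_root_.Crest.Agent.R122.PairOff969.OffP.eq_1 := @_root_.Crest.Agent.R122.PairOff969.OffP.eq_1 -- L505
end

-- ▼ part R122/MarkC_350
section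

/-!
# Base pair laws (row 122, block H7b), helper350: the last contact

* `SwapLeg`, `swap_C`, `swap_L'`, `swap_C'` : lines of a contact seen from the followed line.
* `contact_le` : contact integral of the followed line with its fresh partner, below the forward
  kernel.
* `domC` : `DomC` at `inl (root P)`, `inr false`, `inr true`, from `DomR`.
-/

set_option autoImplicit false
set_option maxHeartbeats 400000
set_option linter.unusedSectionVars false
set_option linter.unusedVariables false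

open MeasureTheory ProbabilityTheory Set Filter
open scoped ENNReal Topology Classical
open Crest.AnalysisR.Kinetic
open Crest.Agent.R122.Kin796 Crest.Agent.R122.Kin796.CTree Crest.Agent.R122.Tree674
open Crest.Agent.R122.Disc416 Crest.Agent.R122.EDefs602
open Crest.Agent.R122.Boost969 Crest.Agent.R122.Kin416
open Crest.Agent.R122.Pair292 hiding ML
open Crest.Agent.R122.CollLeg969 (WPack CLeg EC collM domK)
open Crest.Agent.R122.PairSrc969 Crest.Agent.R122.Scat818
open Crest.Agent.R122.Nu0566 (fluxI oneD)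
open Crest.Agent.R122.Mark307

noncomputable section

namespace Crest.Agent.R122.MarkC350

variable {Φ : Space3 → ℝ}

/-! ### The disc seen from the other particle -/

lemma impactDisc_neg (g : Space3) : impactDisc (-g) = impactDisc g := by
  ext b
  unfold impactDisc
  show (inner ℝ b (-g) = 0 ∧ ‖b‖ < 1) ↔ (inner ℝ b g = 0 ∧ ‖b‖ < 1)
  rw [inner_neg_right, neg_eq_zero]

lemma flux_disc (u v : Space3) (Ψ : Space3 → ℝ≥0∞) :
    ENNReal.ofReal ‖v - u‖ * ∫⁻ b in impactDisc (v - u), Ψ b ∂μHE[2] =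
      ENNReal.ofReal ‖u - v‖ * ∫⁻ y in Metric.ball (0 : Plane) 1, Ψ (-frameMap (u - v) y) := by
  have h1 : v - u = -(u - v) := by abel
  rw [h1, norm_neg, impactDisc_neg, norm_mul_lintegral_impactDisc]
  congr 1
  rw [← lintegral_indicator measurableSet_ball, ← lintegral_indicator measurableSet_ball,
    ← lintegral_neg_eq_self (μ := (volume : Measure Plane))]
  refine lintegral_congr fun y => ?_
  by_cases hy : y ∈ Metric.ball (0 : Plane) 1
  · have hy' : -y ∈ Metric.ball (0 : Plane) 1 := by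
      rw [mem_ball_zero_iff, norm_neg]; exact mem_ball_zero_iff.1 hy
    rw [indicator_of_mem hy, indicator_of_mem hy', frameMap_neg]
  · have hy' : -y ∉ Metric.ball (0 : Plane) 1 := by
      rw [mem_ball_zero_iff, norm_neg]; exact fun h => hy (mem_ball_zero_iff.2 h)
    rw [indicator_of_notMem hy, indicator_of_notMem hy']

/-! ### Lines of a contact seen from the followed line -/

/-- `line` is the leg `L` of the followed line of a contact. -/
def SwapLeg (line : ℝ → Space3 → OCout796.CD → LSt) (L : Leg EC) : Prop :=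
  ∀ (z : LSt) (s : ℝ) (g : Space3) (y : Plane),
    line s (posAt s z) (z.2.2 - g, z.2.2, -frameMap g y) = L.out (z, (s, (g, y)))

lemma relB_swap (u g b : Space3) : OCout796.relB (u - g, u, -b) = -(b, g) := by
  unfold OCout796.relB
  refine Prod.ext rfl ?_
  simp only [Prod.snd_neg]
  abel

theorem swap_C (hΦ : AdmissiblePotential Φ) (ε : ℝ) :
    SwapLeg (OCout796.lineC Φ ε) (CollLeg969.legL hΦ ε) := by
  intro z s g y
  have hr := relB_swap z.2.2 g (frameMap g y)
  unfold OCout796.lineC OCout796.outT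
  rw [hr, tauM_neg hΦ]
  have hτ : ε * tauM Φ (frameMap g y, g) = CollLeg969.dtE Φ ε (g, y) := rfl
  simp only [hτ]
  unfold Leg.out CollLeg969.legL posAt
  simp only
  refine Prod.ext rfl (Prod.ext ?_ ?_)
  · simp only; module
  · simp only; module

theorem swap_L' (hΦ : AdmissiblePotential Φ) (ε : ℝ) :
    SwapLeg (OCout796.lineL' Φ ε) (CollLeg969.legC' hΦ ε) := by
  intro z s g y
  have hr := relB_swap z.2.2 g (frameMap g y)
  unfold OCout796.lineL' OCout796.outCM OCout796.outT OCout796.cmvel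
  rw [hr, tauM_neg hΦ, exitM_neg hΦ]
  have hτ : ε * tauM Φ (frameMap g y, g) = CollLeg969.dtE Φ ε (g, y) := rfl
  have hx : Scat818.exitM Φ (frameMap g y, g) = CollLeg969.exE Φ (g, y) := rfl
  have he : entrancePoint (-(frameMap g y, g)).1 (-(frameMap g y, g)).2 =
      -CollLeg969.entE (g, y) := entrancePoint_neg _ _
  simp only [hτ, hx, he]
  unfold Leg.out CollLeg969.legC' posAt
  simp only [Prod.fst_neg, Prod.snd_neg]
  refine Prod.ext rfl (Prod.ext ?_ ?_)
  · simp only; module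
  · simp only; module

theorem swap_C' (hΦ : AdmissiblePotential Φ) (ε : ℝ) :
    SwapLeg (OCout796.lineC' Φ ε) (CollLeg969.legL' hΦ ε) := by
  intro z s g y
  have hr := relB_swap z.2.2 g (frameMap g y)
  unfold OCout796.lineC' OCout796.outCM OCout796.outT OCout796.cmvel
  rw [hr, tauM_neg hΦ, exitM_neg hΦ]
  have hτ : ε * tauM Φ (frameMap g y, g) = CollLeg969.dtE Φ ε (g, y) := rfl
  have hx : Scat818.exitM Φ (frameMap g y, g) = CollLeg969.exE Φ (g, y) := rfl
  have he : entrancePoint (-(frameMap g y, g)).1 (-(frameMap g y, g)).2 =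
      -CollLeg969.entE (g, y) := entrancePoint_neg _ _
  simp only [hτ, hx, he]
  unfold Leg.out CollLeg969.legL' posAt
  simp only [Prod.fst_neg, Prod.snd_neg]
  refine Prod.ext rfl (Prod.ext ?_ ?_)
  · simp only; module
  · simp only; module

/-! ### Contact integral of the followed line -/

/-- integrand of the forward kernel in relative coordinates -/
lemma measurable_fwJ (L : Leg EC) (b₀ : ℝ) (z : LSt) {F : LSt → ℝ≥0∞} (hF : Measurable F) :
    Measurable fun q : ℝ × EC => Nf 1 b₀ CollLeg969.gE z q * F (L.out (z, q)) := by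
  have h1 : Measurable fun q : ℝ × EC => Nf 1 b₀ CollLeg969.gE z q :=
    (measurable_Nf 1 b₀ CollLeg969.measurable_gE).comp (measurable_const.prodMk measurable_id)
  have h2 : Measurable fun q : ℝ × EC => F (L.out (z, q)) :=
    hF.comp (L.measurable_out.comp (measurable_const.prodMk measurable_id))
  exact h1.mul h2

/-- **Contact integral at a fixed time.** -/
lemma contact_le {line : ℝ → Space3 → OCout796.CD → LSt} {L : Leg EC} (h : SwapLeg line L)
    {b₀ g : ℝ} (hg : b₀ ≤ g) (z : LSt) {s : ℝ} (hs : z.1 < s) {F : LSt → ℝ≥0∞}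
    (hF : Measurable F) :
    ∫⁻ v : Space3, ENNReal.ofReal ‖v - z.2.2‖ * (wG g v *
      ∫⁻ b in impactDisc (v - z.2.2), F (line s (posAt s z) (v, z.2.2, b)) ∂μHE[2]) ≤
    ∫⁻ e, Nf 1 b₀ CollLeg969.gE z (s, e) * F (L.out (z, (s, e))) ∂collM := by
  have hm : Measurable fun e : EC => Nf 1 b₀ CollLeg969.gE z (s, e) * F (L.out (z, (s, e))) :=
    (measurable_fwJ L b₀ z hF).comp (measurable_const.prodMk measurable_id)
  rw [CollLeg969.lintegral_collM hm, ← lintegral_sub_left_eq_self (fun v : Space3 =>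
    ENNReal.ofReal ‖v - z.2.2‖ * (wG g v *
      ∫⁻ b in impactDisc (v - z.2.2), F (line s (posAt s z) (v, z.2.2, b)) ∂μHE[2])) z.2.2]
  refine lintegral_mono fun w => ?_
  have e1 : ENNReal.ofReal ‖(z.2.2 - w) - z.2.2‖ * (wG g (z.2.2 - w) *
      ∫⁻ b in impactDisc ((z.2.2 - w) - z.2.2),
        F (line s (posAt s z) (z.2.2 - w, z.2.2, b)) ∂μHE[2]) =
      ENNReal.ofReal ‖w‖ * (wG g (z.2.2 - w) *
        ∫⁻ y in Metric.ball (0 : Plane) 1, F (L.out (z, (s, (w, y))))) := by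
    have e2 := flux_disc z.2.2 (z.2.2 - w)
      (fun b => F (line s (posAt s z) (z.2.2 - w, z.2.2, b)))
    have e3 : z.2.2 - (z.2.2 - w) = w := by abel
    rw [e3] at e2
    have e4 : ∀ y : Plane, F (line s (posAt s z) (z.2.2 - w, z.2.2, -frameMap w y)) =
        F (L.out (z, (s, (w, y)))) := fun y => by rw [h z s w y]
    simp only [e4] at e2
    calc _ = wG g (z.2.2 - w) * (ENNReal.ofReal ‖(z.2.2 - w) - z.2.2‖ *
        ∫⁻ b in impactDisc ((z.2.2 - w) - z.2.2),
          F (line s (posAt s z) (z.2.2 - w, z.2.2, b)) ∂μHE[2]) := by ring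
      _ = _ := by rw [e2]; ring
  rw [e1]
  refine mul_le_mul' le_rfl ?_
  have hm2 : Measurable fun y : Plane => F (L.out (z, (s, (w, y)))) :=
    hF.comp (L.measurable_out.comp (measurable_const.prodMk
      (measurable_const.prodMk (measurable_const.prodMk measurable_id))))
  rw [← lintegral_const_mul _ hm2]
  refine lintegral_mono fun y => mul_le_mul' ?_ le_rfl
  unfold Nf
  rw [if_pos hs, ENNReal.ofReal_one, one_mul]
  have e5 : z.2.2 - CollLeg969.gE (s, (w, y)).2 = z.2.2 - w := rfl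
  have e6 : wG g (z.2.2 - w) = gE g (z.2.2 - w) := by
    unfold wG Mark307.gE
    rw [neg_mul]
  rw [e5, e6]
  exact gE_mono hg (z.2.2 - w)

/-- **The flux integral of the followed line is below the marked forward kernel.** -/
lemma flux_le {line : ℝ → Space3 → OCout796.CD → LSt} {L : Leg EC} (h : SwapLeg line L)
    {b₀ g : ℝ} (hg : b₀ ≤ g) (p : Lab × LSt) (f : ℕ → ℕ → ℕ) {q : ℕ → ℝ≥0∞}
    (hq : ∀ n, q n ≠ ∞) {J : Set ℝ} {te : ℝ} (hJ : ∀ s ∈ Ioc 0 te, s ∈ J → p.2.1 < s)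
    {w : ℕ → ℝ≥0∞} (hw : ∀ n, w n ≤ q n) {F : Lab × LSt → ℝ≥0∞} (hF : Measurable F) :
    ∫⁻ s in Ioc 0 te, J.indicator (fun s => ∑' n, w n *
      ∫⁻ v : Space3, ENNReal.ofReal ‖v - p.2.2.2‖ * (wG g v *
        ∫⁻ b in impactDisc (v - p.2.2.2),
          F (incM f n p.1, line s (posAt s p.2) (v, p.2.2.2, b)) ∂μHE[2])) s ≤
      ∫⁻ p', F p' ∂mkK f q (fwdK collM L CollLeg969.gE 1 b₀) p := by
  have : IsSFiniteKernel (fwdK collM L CollLeg969.gE 1 b₀) :=
    isSFiniteKernel_stepK L (Nf_ne_top 1 b₀ CollLeg969.gE)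
  have hFn : ∀ n, Measurable fun x : LSt => F (incM f n p.1, x) := fun n =>
    hF.comp (measurable_const.prodMk measurable_id)
  rw [lintegral_mkK f hq _ p hF]
  have e1 : ∀ n, ∫⁻ z', F (incM f n p.1, z') ∂fwdK collM L CollLeg969.gE 1 b₀ p.2 =
      ∫⁻ s : ℝ, ∫⁻ e, Nf 1 b₀ CollLeg969.gE p.2 (s, e) *
        F (incM f n p.1, L.out (p.2, (s, e))) ∂collM := by
    intro n
    unfold fwdK
    rw [lintegral_stepK L (measurable_Nf 1 b₀ CollLeg969.measurable_gE)
      (Nf_ne_top 1 b₀ CollLeg969.gE) (hFn n),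
      lintegral_prod _ (measurable_fwJ L b₀ p.2 (hFn n)).aemeasurable]
  simp only [e1]
  have hms : ∀ n, Measurable fun s : ℝ => ∫⁻ e, Nf 1 b₀ CollLeg969.gE p.2 (s, e) *
        F (incM f n p.1, L.out (p.2, (s, e))) ∂collM := fun n =>
    (measurable_fwJ L b₀ p.2 (hFn n)).lintegral_prod_right'
  have e2 : ∀ n, q n * ∫⁻ s : ℝ, ∫⁻ e, Nf 1 b₀ CollLeg969.gE p.2 (s, e) *
        F (incM f n p.1, L.out (p.2, (s, e))) ∂collM =
      ∫⁻ s : ℝ, q n * ∫⁻ e, Nf 1 b₀ CollLeg969.gE p.2 (s, e) *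
        F (incM f n p.1, L.out (p.2, (s, e))) ∂collM := fun n =>
    (lintegral_const_mul _ (hms n)).symm
  simp only [e2]
  rw [← lintegral_tsum fun n => ((hms n).const_mul _).aemeasurable]
  refine (lintegral_mono_ae ?_).trans (setLIntegral_le_lintegral (Ioc 0 te) _)
  refine (ae_restrict_iff' measurableSet_Ioc).2 (Eventually.of_forall fun s hs => ?_)
  by_cases hsJ : s ∈ J
  · rw [indicator_of_mem hsJ]
    refine ENNReal.tsum_le_tsum fun n => mul_le_mul' (hw n) ?_
    exact contact_le h hg p.2 (hJ s hs hsJ) (hFn n)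
  · rw [indicator_of_notMem hsJ]
    exact zero_le

/-! ### Lines of the structure at the last contact -/

lemma topT_lt_of_valid {ε : ℝ} {P : CTree} {z : PhasePoint × Par P} {s : ℝ} (h0 : 0 < s)
    (h : Valid Φ ε P s z.1.2 z.2) : (rootB P z).1 < s := by
  cases P with
  | leaf => exact h0
  | node l r => exact h.2.1

lemma posAt_rootB (P : CTree) (z : PhasePoint × Par P) (s : ℝ) :
    posAt s (rootB P z) = z.1.1 + s • z.1.2 := by
  unfold posAt rootB onLine
  simp only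
  module

lemma oneD_exit {ε : ℝ} {P : CTree} (m : Mk P) {z : PhasePoint × Par P} {s : ℝ}
    (h : Adm Φ P z.1.2 z.2) (c : OCout796.CD) (n : ℕ) :
    oneD Φ ε P z s c n (Sum.inl (exIdx m)) = (exM Φ ε m z, mkN m) := by
  simp only [oneD, if_neg (exIdx_ne_root m)]
  rw [lineML_exIdx, exM_eq m h]

/-- **Domination at the last contact**, abstract form: the line `y` is a leg of the root. -/
theorem domC_of {B : BPar} (hB : B.Ok) (hρ : B.ρ * B.lam₁ < 1) {b : ℝ} {P : CTree} {m : Mk P}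
    (hR : DomR Φ B b P m) (y : Idx P ⊕ Bool) (line : ℝ → ℝ → Space3 → OCout796.CD → LSt)
    (L : ℝ → Leg EC) (hL : ∀ ε, 0 < ε → CLeg (L ε)) (hs : ∀ ε, SwapLeg (line ε) (L ε))
    (f : ℕ → ℕ → ℕ) (hf : ∀ m n, f m n ≤ n + m)
    (hy : ∀ (ε : ℝ) (z : PhasePoint × Par P) (s : ℝ) (c : OCout796.CD) (n : ℕ),
      oneD Φ ε P z s c n y = (line ε s (z.1.1 + s • z.1.2) c, f n P.leaves)) :
    DomC Φ B b P m y := by
  obtain ⟨c, hc, hR⟩ := hR
  have hq : ∀ n : ℕ, B.ρ ^ n ≠ ∞ := fun n =>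
    ENNReal.pow_ne_top (ne_top_of_le_ne_top ENNReal.one_ne_top hB.ρ1)
  refine ⟨(B.lam * ∑' n, B.lam₁ ^ n * B.ρ ^ n) * c, ?_, ?_⟩
  · refine ENNReal.mul_ne_top (ENNReal.mul_ne_top hB.lamt ?_) hc
    have h1 : ∀ n : ℕ, B.lam₁ ^ n * B.ρ ^ n = (B.ρ * B.lam₁) ^ n := fun n => by
      rw [mul_pow, mul_comm]
    simp only [h1]
    rw [ENNReal.tsum_geometric]
    exact ENNReal.inv_ne_top.2 (tsub_pos_of_lt hρ).ne'
  intro ε T' te hε hε1 hte hteT hT K hK Pp hPp g hg
  obtain ⟨Ξ, ν, hX, hA, hdom⟩ := hR ε T' te hε hε1 hte hteT hT K hK Pp hPp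
  have hst : StepK Pp (mkK f (fun n => B.ρ ^ n) (fwdK collM (L ε) CollLeg969.gE 1 B.b₀))
      (mkK f (fun n => B.ρ ^ n) (domK (L ε) B.b₀))
      (B.lam * ∑' n, Pp.lam₁ ^ n * B.ρ ^ n) :=
    stepK_fwd hB.wp hPp.w hB.b0.le (hL ε hε) hf hq
  have hX2 := hX.bind hst
  rw [hPp.l] at hX2
  refine ⟨_, _, hX2, hA.bind (hL ε hε) B.b₀ hq, ?_⟩
  intro F hF hF0
  have hsf := hst.sf
  set κ := mkK f (fun n => B.ρ ^ n) (fwdK collM (L ε) CollLeg969.gE 1 B.b₀) with hκ
  have hF' : Measurable fun p : Lab × LSt => ∫⁻ p', F p' ∂κ p := hF.lintegral_kernel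
  have : IsSFiniteKernel (fwdK collM (L ε) CollLeg969.gE 1 B.b₀) :=
    isSFiniteKernel_stepK (L ε) (Nf_ne_top 1 B.b₀ CollLeg969.gE)
  have h0 := hdom (fun p => ∫⁻ p', F p' ∂κ p) hF' (by
    intro p hp
    show ∫⁻ p', F p' ∂κ p = 0
    rw [hκ, lintegral_mkK f hq _ p hF]
    refine ENNReal.tsum_eq_zero.2 fun n => ?_
    rw [mul_eq_zero]
    right
    refine (lintegral_congr fun z' => ?_).trans lintegral_zero
    exact hF0 _ fun h => hp h.1)
  rw [Measure.lintegral_bind (Kernel.aemeasurable _) hF.aemeasurable]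
  refine le_trans (lintegral_mono fun z => ?_) h0
  refine mul_le_mul' le_rfl (mul_le_mul' le_rfl ?_)
  refine le_trans ?_ (flux_le (hs ε) hg
    (((exM Φ ε m z, mkN m), ((exM Φ ε m z).1, P.leaves)), rootB P z) f hq
    (J := {s | s ≤ te ∧ Valid Φ ε P s z.1.2 z.2}) (te := te)
    (fun s h1 h2 => topT_lt_of_valid h1.1 h2.2)
    (w := fun n => markW B.ρ K n * (if n + P.leaves ≤ K then 1 else 0)) (fun n => ?_) hF)
  · refine lintegral_mono fun s => ?_
    by_cases hsJ : s ∈ {s | s ≤ te ∧ Valid Φ ε P s z.1.2 z.2}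
    swap
    · rw [indicator_of_notMem hsJ]
      exact zero_le
    rw [indicator_of_mem hsJ, indicator_of_mem hsJ]
    unfold fluxI
    refine le_of_eq (tsum_congr fun n => ?_)
    congr 1
    refine lintegral_congr fun v => ?_
    congr 2
    refine lintegral_congr fun b => ?_
    have e1 := oneD_exit (ε := ε) (s := s) m hsJ.2.1 (v, z.1.2, b) n
    have e2 := hy ε z s (v, z.1.2, b) n
    unfold pairC
    show F ((oneD Φ ε P z s (v, z.1.2, b) n (Sum.inl (exIdx m)),
        ((oneD Φ ε P z s (v, z.1.2, b) n (Sum.inl (exIdx m))).1.1,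
          (oneD Φ ε P z s (v, z.1.2, b) n y).2)), (oneD Φ ε P z s (v, z.1.2, b) n y).1) =
      F (incM f n ((exM Φ ε m z, mkN m), ((exM Φ ε m z).1, P.leaves)),
        line ε s (posAt s (rootB P z)) (v, z.1.2, b))
    rw [e1, e2, posAt_rootB]
    rfl
  · unfold markW
    split_ifs
    · rw [mul_one]
    · rw [mul_zero]; exact zero_le
    · rw [zero_mul]; exact zero_le
    · rw [zero_mul]; exact zero_le

/-- **The undeflected root at the last contact.** -/
theorem domC_root (hΦ : AdmissiblePotential Φ) {B : BPar} (hB : B.Ok) (hρ : B.ρ * B.lam₁ < 1)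
    {b : ℝ} {P : CTree} {m : Mk P} (hR : DomR Φ B b P m) :
    DomC Φ B b P m (Sum.inl (root P)) := by
  refine domC_of hB hρ hR _ (fun ε => OCout796.lineC Φ ε) (CollLeg969.legL hΦ)
    (fun ε hε => CLeg.legL hΦ hε.le) (swap_C hΦ) (fun _ n => n) (fun m n => Nat.le_add_right _ _)
    fun ε z s c n => ?_
  simp only [oneD, if_true]

/-- **The deflected fresh line at the last contact.** -/
theorem domC_L' (hΦ : AdmissiblePotential Φ) {B : BPar} (hB : B.Ok) (hρ : B.ρ * B.lam₁ < 1)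
    {b : ℝ} {P : CTree} {m : Mk P} (hR : DomR Φ B b P m) :
    DomC Φ B b P m (Sum.inr false) :=
  domC_of hB hρ hR _ (fun ε => OCout796.lineL' Φ ε) (CollLeg969.legC' hΦ)
    (fun ε hε => CLeg.legC' hΦ hε.le) (swap_L' hΦ) (fun m n => m + n)
    (fun m n => (Nat.add_comm _ _).le) fun ε z s c n => rfl

/-- **The deflected root at the last contact.** -/
theorem domC_C' (hΦ : AdmissiblePotential Φ) {B : BPar} (hB : B.Ok) (hρ : B.ρ * B.lam₁ < 1)
    {b : ℝ} {P : CTree} {m : Mk P} (hR : DomR Φ B b P m) :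
    DomC Φ B b P m (Sum.inr true) :=
  domC_of hB hρ hR _ (fun ε => OCout796.lineC' Φ ε) (CollLeg969.legL' hΦ)
    (fun ε hε => CLeg.legL' hΦ hε.le) (swap_C' hΦ) (fun m n => m + n)
    (fun m n => (Nat.add_comm _ _).le) fun ε z s c n => rfl

/-- **The three new lines at the last contact.** -/
theorem domC (hΦ : AdmissiblePotential Φ) {B : BPar} (hB : B.Ok) (hρ : B.ρ * B.lam₁ < 1)
    {b : ℝ} {P : CTree} {m : Mk P} (hR : DomR Φ B b P m) {y : Idx P ⊕ Bool}
    (hy : y = Sum.inl (root P) ∨ ∃ a, y = Sum.inr a) : DomC Φ B b P m y := by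
  rcases hy with rfl | ⟨a, rfl⟩
  · exact domC_root hΦ hB hρ hR
  · cases a
    · exact domC_L' hΦ hB hρ hR
    · exact domC_C' hΦ hB hρ hR

end Crest.Agent.R122.MarkC350

end
end

-- ▼ part R122/BaseAll_350
section

/-!
# Base pair laws (row 122, block H7b), helper350: domination of all pairs of a structure

`base_dom` : `DomS Φ B b Cf P x y` for every exit `x` and every line `y ≠ x`, unconditional
(307's `base_dom_of`, `domR`, `domP_fwd`; 969's `domP_off`; 350's `domC`).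
-/

set_option autoImplicit false

open MeasureTheory ProbabilityTheory Set Filter
open scoped ENNReal Topology Classical
open Crest.AnalysisR.Kinetic
open Crest.Agent.R122.Kin796 Crest.Agent.R122.Kin796.CTree Crest.Agent.R122.Tree674
open Crest.Agent.R122.OneC285 (exS)
open Crest.Agent.R122.Mark307

noncomputable section

namespace Crest.Agent.R122.BaseAll350

variable {Φ : Space3 → ℝ}

/-- **Domination of all ordered pairs of exits of a tree.** -/
theorem domP_all (hΦ : AdmissiblePotential Φ) {B : BPar} (hB : B.Ok) {P : CTree} {m m' : Mk P}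
    (hm : m ≠ m') {b : ℝ} (hb : B.bs < b) : DomP Φ B b P m m' := by
  by_cases hf : fwd m m' = true
  · exact domP_fwd hΦ hB m m' hf hb
  · exact PairOff969.domP_off hΦ hB m m'
      (PairOff969.offP_of_fwd m m' hm (by simpa using hf)) hb

/-- The parameters allow all marks. -/
theorem rho_lt_one {B : BPar} (hB : B.Ok) (hρ : B.ρ * B.lam₁ < 1) : B.ρ < 1 :=
  lt_of_le_of_lt (le_mul_of_one_le_right' hB.l1) hρ

/-- **Domination of the labelled law of all pairs (exit, other line) of a structure.** -/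
theorem base_dom (hΦ : AdmissiblePotential Φ) {B : BPar} (hB : B.Ok) (hρ : B.ρ * B.lam₁ < 1)
    {b : ℝ} (hb : B.bs < b) (Cf : ℝ) {P : CTree} {x y : Idx P ⊕ Bool} (hx : x ∈ exS P)
    (hy : y ≠ x) : DomS Φ B b Cf P x y :=
  base_dom_of hΦ hB (rho_lt_one hB hρ) hb Cf
    (fun _ _ hm _ _ hb' => domP_all hΦ hB hm hb')
    (fun m _ hy => MarkC350.domC hΦ hB hρ (domR hΦ hB hb m) hy) hx hy

end Crest.Agent.R122.BaseAll350

end
end

-- ▼ part R122/NuLBase_85
section

/-!
# Row 122, inequality 3 (helper85): the base law is in the class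

* `sumP m₀ a` : sum over the trees with at most `m₀` leaves and the ordered pairs (exit, other line).
* `px_base` : a translation invariant law on labels which is below the sum of the structure
  integrals `strI` (helper307) of the pairs born before `te` is in the class, with a constant which
  depends on `m₀` only (from `base_dom` of helper350).
-/

set_option autoImplicit false
set_option linter.unusedSectionVars false

open MeasureTheory ProbabilityTheory Set Filter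
open scoped ENNReal Classical Topology
open Crest.AnalysisR.Kinetic
open Crest.Agent.R122.Kin796 Crest.Agent.R122.Kin796.CTree Crest.Agent.R122.Tree674
open Crest.Agent.R122.GC311 Crest.Agent.R122.EDefs602 Crest.Agent.R122.TreeLines335
open Crest.Agent.R122.OneC285 Crest.Agent.R122.Nu0566
open Crest.Agent.R122.Boost969 (LSt)
open Crest.Agent.R122.Pair292 (Lab PPar PX shP)
open Crest.Agent.R122.Mark307 (BPar IsPP Aux DomS strI thL sigB)

noncomputable section

namespace Crest.Agent.R122.NuLBase85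

variable {Φ : Space3 → ℝ} {f₀ : PhasePoint → ℝ} {ε te T' : ℝ} {K : ℕ} {P : CTree}

/-- No structures with more than `K` leaves. -/
theorem strI_eq_zero {g : ℝ} {ρ : ℝ≥0∞} (hK : K < P.leaves)
    (h : (Idx P ⊕ Bool → ML) → ℝ≥0∞) : strI Φ f₀ ε K g ρ te T' P h = 0 := by
  have h0 : ∀ l : ML, smI K P l = 0 := fun l => if_neg (by omega)
  unfold strI
  refine mul_eq_zero_of_right (activity ε) ?_
  refine (lintegral_congr (g := fun _ => (0 : ℝ≥0∞)) fun z => ?_).trans lintegral_zero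
  by_cases hz : Valid Φ ε P T' z.1.2 z.2
  · rw [indicator_of_mem (show z ∈ {z : PhasePoint × Par P | Valid Φ ε P T' z.1.2 z.2} from hz)]
    simp [h0]
  · exact indicator_of_notMem
      (show z ∉ {z : PhasePoint × Par P | Valid Φ ε P T' z.1.2 z.2} from hz) _

/-- pairs born before `te` -/
def early (te : ℝ) : Set (Lab × LSt) := {p | p.1.1.1.1 ≤ te ∧ p.2.1 ≤ te}

theorem measurableSet_early (te : ℝ) : MeasurableSet (early te) := by
  have h1 : MeasurableSet {p : Lab × LSt | p.1.1.1.1 ≤ te} :=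
    measurableSet_le (by fun_prop) measurable_const
  have h2 : MeasurableSet {p : Lab × LSt | p.2.1 ≤ te} :=
    measurableSet_le (by fun_prop) measurable_const
  exact h1.inter h2

/-- Sum over the trees with at most `m₀` leaves and the ordered pairs (exit, other line). -/
def sumP {α : Type} [AddCommMonoid α] (m₀ : ℕ)
    (a : ∀ P : CTree, Idx P ⊕ Bool → Idx P ⊕ Bool → α) : α :=
  ∑ P ∈ GIVStep383.trees m₀, ∑ x ∈ exS P, ∑ y ∈ Finset.univ.erase x, a P x y

theorem px_sumP {Pp : PPar} {m₀ : ℕ}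
    {Ξ ν : ∀ P : CTree, Idx P ⊕ Bool → Idx P ⊕ Bool → Measure (Lab × LSt)}
    {c : ∀ P : CTree, Idx P ⊕ Bool → Idx P ⊕ Bool → ℝ≥0∞} (h : ∀ P x y, PX Pp (Ξ P x y) (ν P x y)
      (c P x y)) : PX Pp (sumP m₀ Ξ) (sumP m₀ ν) (sumP m₀ c) :=
  PairSrc969.PX.finsum _ fun P _ => PairSrc969.PX.finsum _ fun x _ =>
    PairSrc969.PX.finsum _ fun y _ => h P x y

theorem aux_sumP {m₀ : ℕ} {ν : ∀ P : CTree, Idx P ⊕ Bool → Idx P ⊕ Bool → Measure (Lab × LSt)}
    (h : ∀ P x y, Aux ε (ν P x y)) : Aux ε (sumP m₀ ν) :=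
  Aux.finsum _ fun P _ => Aux.finsum _ fun x _ => Aux.finsum _ fun y _ => h P x y

theorem lintegral_sumP {m₀ : ℕ}
    (ν : ∀ P : CTree, Idx P ⊕ Bool → Idx P ⊕ Bool → Measure (Lab × LSt)) (F : Lab × LSt → ℝ≥0∞) :
    ∫⁻ p, F p ∂(sumP m₀ ν) = sumP m₀ fun P x y => ∫⁻ p, F p ∂(ν P x y) := by
  unfold sumP
  rw [lintegral_finsetSum_measure]
  refine Finset.sum_congr rfl fun P _ => ?_
  rw [lintegral_finsetSum_measure]
  refine Finset.sum_congr rfl fun x _ => ?_
  rw [lintegral_finsetSum_measure]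

theorem sumP_ne_top {m₀ : ℕ} {c : ∀ P : CTree, Idx P ⊕ Bool → Idx P ⊕ Bool → ℝ≥0∞}
    (h : ∀ P x y, c P x y ≠ ∞) : sumP m₀ c ≠ ∞ :=
  ENNReal.sum_ne_top.2 fun P _ => ENNReal.sum_ne_top.2 fun x _ => ENNReal.sum_ne_top.2 fun y _ =>
    h P x y

/-- Integrals of a measure dominated on all functions. -/
theorem le_of_lintegral_le {α : Type*} [MeasurableSpace α] {μ ν : Measure α}
    (h : ∀ F : α → ℝ≥0∞, Measurable F → ∫⁻ x, F x ∂μ ≤ ∫⁻ x, F x ∂ν) : μ ≤ ν := by
  refine Measure.le_intro fun s hs _ => ?_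
  have := h (s.indicator 1) (measurable_one.indicator hs)
  rwa [lintegral_indicator_one hs, lintegral_indicator_one hs] at this

/-- **The base law is in the class**, with a constant which depends on `m₀` only. -/
theorem px_base (hΦ : AdmissiblePotential Φ) {B : BPar} (hB : B.Ok) (hρ : B.ρ * B.lam₁ < 1)
    {b : ℝ} (hb : B.bs < b) (Cf : ℝ) (m₀ : ℕ) : ∃ c₀ : ℝ≥0∞, c₀ ≠ ∞ ∧
      ∀ ε T' te : ℝ, 0 < ε → ε ≤ 1 → 0 < te → te ≤ T' →
      T' ≤ B.T → ∀ K : ℕ, ∀ Pp : PPar, IsPP B te K Pp → ∀ g : ℝ, B.b₀ ≤ g →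
      ∀ f₀ : PhasePoint → ℝ, (∀ z, f₀ z ≤ Cf * Real.exp (-(b * ‖z.2‖ ^ 2))) →
      ∀ nuL : Measure (Lab × LSt), SFinite nuL → (∀ a : Space3, nuL.map (shP a) = nuL) →
      (∀ F : Lab × LSt → ℝ≥0∞, Measurable F → ∫⁻ p, F p ∂nuL ≤
        sumP m₀ fun P x y => strI Φ f₀ ε K g B.ρ te T' P fun L =>
          (early te).indicator F (thL P x y L)) →
      ∃ Ξ : Measure (Lab × LSt), PX Pp Ξ nuL c₀ ∧ Aux ε nuL := by
  have hBD' : ∀ (P : CTree) (x y : Idx P ⊕ Bool), ∃ c : ℝ≥0∞, c ≠ ∞ ∧ (x ∈ exS P → y ≠ x →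
      ∀ ε T' te : ℝ, 0 < ε → ε ≤ 1 → 0 < te → te ≤ T' → T' ≤ B.T →
      ∀ K : ℕ, P.leaves ≤ K → ∀ Pp : PPar, IsPP B te K Pp → ∀ g : ℝ, B.b₀ ≤ g →
      ∀ f₀ : PhasePoint → ℝ, (∀ z, f₀ z ≤ Cf * Real.exp (-(b * ‖z.2‖ ^ 2))) →
      ∃ Ξ ν : Measure (Lab × LSt), PX Pp Ξ ν c ∧ Aux ε ν ∧
        ∀ F : Lab × LSt → ℝ≥0∞, Measurable F →
          (∀ p, ¬ (p.1.1.1.1 ≤ te ∧ p.2.1 ≤ te) → F p = 0) →
          strI Φ f₀ ε K g B.ρ te T' P (fun L => F (thL P x y L)) ≤ ∫⁻ p, F p ∂ν) := by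
    intro P x y
    by_cases hxy : x ∈ exS P ∧ y ≠ x
    · obtain ⟨c, hc, h⟩ := BaseAll350.base_dom hΦ hB hρ hb Cf hxy.1 hxy.2
      exact ⟨c, hc, fun _ _ => h⟩
    · exact ⟨0, ENNReal.zero_ne_top, fun h h' => absurd ⟨h, h'⟩ hxy⟩
  choose c hc hD using hBD'
  refine ⟨sumP m₀ c, sumP_ne_top hc, ?_⟩
  intro ε T' te hε hε1 hte hT' hTB K Pp hPp g hg f₀ hf₀ nuL hs htr hle
  have key : ∀ (P : CTree) (x y : Idx P ⊕ Bool), ∃ Ξ ν : Measure (Lab × LSt),
      PX Pp Ξ ν (c P x y) ∧ Aux ε ν ∧ (x ∈ exS P → y ≠ x → ∀ F : Lab × LSt → ℝ≥0∞,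
        Measurable F → (∀ p, ¬ (p.1.1.1.1 ≤ te ∧ p.2.1 ≤ te) → F p = 0) →
        strI Φ f₀ ε K g B.ρ te T' P (fun L => F (thL P x y L)) ≤ ∫⁻ p, F p ∂ν) := by
    intro P x y
    by_cases hxy : x ∈ exS P ∧ y ≠ x ∧ P.leaves ≤ K
    · obtain ⟨Ξ, ν, h1, h2, h3⟩ := hD P x y hxy.1 hxy.2.1 ε T' te hε hε1 hte hT' hTB K hxy.2.2 Pp
        hPp g hg f₀ hf₀
      exact ⟨Ξ, ν, h1, h2, fun _ _ => h3⟩
    · refine ⟨0, 0, PairSrc969.PX.zero.mono_c zero_le, Aux.zero, fun hx hy F _ _ => ?_⟩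
      have hK : K < P.leaves := by
        by_contra hc
        exact hxy ⟨hx, hy, not_lt.1 hc⟩
      rw [strI_eq_zero hK]
      exact zero_le
  choose Ξ ν hX hA hF using key
  have hle' : nuL ≤ sumP m₀ ν := by
    refine le_of_lintegral_le fun F hFm => (hle F hFm).trans ?_
    rw [lintegral_sumP]
    unfold sumP
    refine Finset.sum_le_sum fun P _ => Finset.sum_le_sum fun x hx => Finset.sum_le_sum
      fun y hy => ?_
    have h1 := hF P x y hx (Finset.ne_of_mem_erase hy) ((early te).indicator F)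
      (hFm.indicator (measurableSet_early te))
      fun p hp => indicator_of_notMem (show p ∉ early te from hp) _
    exact h1.trans (lintegral_mono fun p => indicator_le_self _ _ p)
  exact ⟨sumP m₀ Ξ, PairReal998.PX.mono (px_sumP hX) hle' hs htr,
    (aux_sumP hA).mono (Measure.absolutelyContinuous_of_le hle')⟩

end Crest.Agent.R122.NuLBase85

end
end

-- ▼ part R122/NuLBind_85

/-!
# Row 122, inequality 3 (helper85): the base pair law of helper735

* `lintegral_nuP_strM`, `lintegral_nuL_strM` : integrals against 735's `nuP`, `nuL` as integrals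
  against the structure measure of 566; `lintegral_nuL_strI` : at most structure integrals of 307.
* `nuL_px` : `nuL` is in the class, with a constant depending on `m₀` only, and `Aux`.
* `nuL_dom` : `nuL` dominates `nu0S`; `pe_nu0S_le_nuL` : `PE nu0S ≤ PELK nuL`.
-/

set_option autoImplicit false
set_option linter.unusedSectionVars false

open MeasureTheory ProbabilityTheory Set Filter
open scoped ENNReal Classical Topology
open Crest.AnalysisR.Kinetic
open Crest.Agent.R122.Kin796 Crest.Agent.R122.Kin796.CTree Crest.Agent.R122.Tree674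
open Crest.Agent.R122.GC311 Crest.Agent.R122.EDefs602 Crest.Agent.R122.TreeLines335
open Crest.Agent.R122.OneC285 Crest.Agent.R122.Nu0566 Crest.Agent.R122.PairD292
open Crest.Agent.R122.Boost969 (LSt)
open Crest.Agent.R122.Pair292 (Lab PPar PX shP)
open Crest.Agent.R122.Mark307 (BPar IsPP Aux DomS strI thL sigB)
open Crest.Agent.R122.NuL735 (NPar nuL Th lnO oneE thE gP refM dS mS mP bdE)
open Crest.Agent.R122.NuLBase85 Crest.Agent.R122.PMBind85 Crest.Agent.R122.NuSep85

noncomputable section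

namespace Crest.Agent.R122.NuLBind85

variable {Φ : Space3 → ℝ} {f₀ : PhasePoint → ℝ} {ε : ℝ} {K : ℕ} {P : CTree} {N : NPar}

/-! ### The reference measure -/

theorem map_lnO : ((volume : Measure PhasePoint).prod (Measure.count : Measure ℕ)).map lnO =
    OneC423.baseM (Measure.dirac 0) := by
  unfold OneC423.baseM
  rw [Measure.dirac_prod]
  have h1 := Measure.map_prod_map (volume : Measure PhasePoint) (Measure.count : Measure ℕ)
    (f := Prod.mk (0 : ℝ)) (g := id) measurable_prodMk_left measurable_id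
  rw [Measure.map_id] at h1
  rw [h1]
  rfl

/-- Structures in 566's coordinates. -/
def toS (q : Th P) : (PhasePoint × Par P) × ML := (q.1, lnO q.2)

theorem measurable_toS : Measurable (toS : Th P → (PhasePoint × Par P) × ML) :=
  measurable_fst.prodMk (NuL735.measurable_lnO.comp measurable_snd)

theorem map_toS : (refM P).map toS =
    (volume : Measure (PhasePoint × Par P)).prod (OneC423.baseM (Measure.dirac 0)) := by
  have h1 := Measure.map_prod_map (volume : Measure (PhasePoint × Par P))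
    ((volume : Measure PhasePoint).prod (Measure.count : Measure ℕ))
    (f := id) (g := lnO) measurable_id NuL735.measurable_lnO
  rw [Measure.map_id, map_lnO] at h1
  rw [h1]
  rfl

theorem lintegral_mS_toS (hΦ : AdmissiblePotential Φ) (N : NPar)
    {H : (PhasePoint × Par P) × ML → ℝ≥0∞} (hH : Measurable H) :
    ∫⁻ q, H (toS q) ∂(mS Φ ε K N P) = activity ε *
      ∫⁻ q, H q ∂(strM Φ (gP N.Cf N.b) ε K (fun _ => N.γe) N.ρ N.te N.T' (Measure.dirac 0) P) := by
  have hD : Measurable (strD Φ (gP N.Cf N.b) ε K (fun _ => N.γe) N.ρ N.te N.T' P) :=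
    measurable_strD hΦ (NuL735.measurable_gP _ _) ε K measurable_const N.ρ N.te N.T' P
  rw [NuL735.lintegral_mS hΦ N (F := fun q => H (toS q)) (hH.comp measurable_toS)]
  congr 1
  unfold strM
  rw [lintegral_withDensity_eq_lintegral_mul _ hD hH, ← map_toS,
    lintegral_map (hD.mul hH) measurable_toS]
  rfl

/-! ### Integrals against the base law -/

/-- the labelled pair of lines of 735 in terms of the lines -/
def thσ (σ : Bool) (x y : Idx P ⊕ Bool) (L : Idx P ⊕ Bool → ML) : Lab × LSt :=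
  ((L x, ((if σ then (L x).1.1 else (L y).1.1), (L y).2)), (L y).1)


theorem measurable_thσ (hΦ : AdmissiblePotential Φ) (ε : ℝ) (σ : Bool) (x y : Idx P ⊕ Bool) :
    Measurable fun q : (PhasePoint × Par P) × ML => thσ σ x y (oneLsM Φ ε P q.1 q.2) := by
  have hx := measurable_oneLsM hΦ ε P x
  have hy := measurable_oneLsM hΦ ε P y
  unfold thσ
  refine (hx.prodMk (Measurable.prodMk ?_ hy.snd)).prodMk hy.fst
  cases σ
  · exact hy.fst.fst
  · exact hx.fst.fst

/-- **Integrals against 735's pair laws**, structure measure of 566. -/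
theorem lintegral_nuP_strM (hΦ : AdmissiblePotential Φ) (hε : 0 < ε) (N : NPar)
    (x y : Idx P ⊕ Bool) {F : Lab × LSt → ℝ≥0∞} (hF : Measurable F) :
    ∫⁻ p, F p ∂(NuL735.nuP Φ ε K N P x y) = activity ε *
      ∫⁻ q, (sepT Φ ε N.T' P).indicator
        (fun q => (early N.te).indicator F (thσ (N.σ P x y) x y (oneLsM Φ ε P q.1 q.2))) q
        ∂(strM Φ (gP N.Cf N.b) ε K (fun _ => N.γe) N.ρ N.te N.T' (Measure.dirac 0) P) := by
  have hFe : Measurable ((early N.te).indicator F) := hF.indicator (measurableSet_early N.te)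
  have hth := measurable_thσ (P := P) hΦ ε (N.σ P x y) x y
  have hH : Measurable ((sepT Φ ε N.T' P).indicator
      (fun q => (early N.te).indicator F (thσ (N.σ P x y) x y (oneLsM Φ ε P q.1 q.2)))) :=
    (hFe.comp hth).indicator (measurableSet_sepT hΦ hε N.T' P)
  rw [NuL735.lintegral_nuP hΦ N x y hF]
  unfold mP
  rw [← lintegral_indicator ((NuL735.measurableSet_bdE hΦ ε N.te x y).inter
    (NuL735.measurableSet_sepE hΦ ε N.T' P)), ← lintegral_mS_toS hΦ N hH]
  have hthE := NuL735.measurable_thE (P := P) hΦ ε (N.σ P x y) x y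
  have hL : Measurable ((bdE Φ ε N.te x y ∩ NuL735.sepE Φ ε N.T' P).indicator
      (fun q : Th P => F (thE Φ ε (N.σ P x y) x y q))) :=
    (hF.comp hthE).indicator ((NuL735.measurableSet_bdE hΦ ε N.te x y).inter
      (NuL735.measurableSet_sepE hΦ ε N.T' P))
  rw [NuL735.lintegral_mS hΦ N hL, NuL735.lintegral_mS hΦ N
    (F := fun q => (sepT Φ ε N.T' P).indicator (fun q => (early N.te).indicator F
      (thσ (N.σ P x y) x y (oneLsM Φ ε P q.1 q.2))) (toS q)) (hH.comp measurable_toS)]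
  congr 1
  refine lintegral_congr fun q => ?_
  by_cases hq : (q.1, lnO q.2) ∈ goodS Φ ε N.te N.T' K P
  · congr 1
    have h3 : thE Φ ε (N.σ P x y) x y q =
        thσ (N.σ P x y) x y (oneLsM Φ ε P (toS q).1 (toS q).2) := by
      unfold thE thσ
      rw [NuL735.oneE_of_adm' hq.1.1, NuL735.oneE_of_adm' hq.1.1]
      rfl
    have h4 : q ∈ bdE Φ ε N.te x y ↔
        thσ (N.σ P x y) x y (oneLsM Φ ε P (toS q).1 (toS q).2) ∈ early N.te := by
      rw [← h3]
      exact Iff.rfl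
    by_cases h5 : q ∈ NuL735.sepE Φ ε N.T' P
    · have h6 : toS q ∈ sepT Φ ε N.T' P := h5 hε
      rw [indicator_of_mem h6]
      by_cases h7 : q ∈ bdE Φ ε N.te x y
      · rw [indicator_of_mem (show q ∈ bdE Φ ε N.te x y ∩ NuL735.sepE Φ ε N.T' P from ⟨h7, h5⟩),
          indicator_of_mem (h4.1 h7), h3]
      · rw [indicator_of_notMem (fun h => h7 h.1), indicator_of_notMem fun h => h7 (h4.2 h)]
    · have h6 : toS q ∉ sepT Φ ε N.T' P := fun h => h5 fun _ => h
      rw [indicator_of_notMem h6, indicator_of_notMem fun h => h5 h.2]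
  · have h3 : dS Φ ε K N P q = 0 := by
      unfold dS strD
      exact indicator_of_notMem hq _
    rw [h3, zero_mul, zero_mul]

/-- **Integrals against 735's pair laws** are at most the structure integrals of 307. -/
theorem lintegral_nuP_strI (hΦ : AdmissiblePotential Φ) (hε : 0 < ε) (N : NPar)
    (x y : Idx P ⊕ Bool) {F : Lab × LSt → ℝ≥0∞} (hF : Measurable F) :
    ∫⁻ p, F p ∂(NuL735.nuP Φ ε K N P x y) ≤
      strI Φ (gP N.Cf N.b) ε K N.γe N.ρ N.te N.T' P fun L =>
        (early N.te).indicator F (thσ (N.σ P x y) x y L) := by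
  have hFe : Measurable ((early N.te).indicator F) := hF.indicator (measurableSet_early N.te)
  have hth := measurable_thσ (P := P) hΦ ε (N.σ P x y) x y
  have hH : Measurable fun q : (PhasePoint × Par P) × ML =>
      (early N.te).indicator F (thσ (N.σ P x y) x y (oneLsM Φ ε P q.1 q.2)) := hFe.comp hth
  rw [lintegral_nuP_strM hΦ hε N x y hF]
  refine (mul_le_mul_right (lintegral_mono fun q => indicator_le_self' (fun _ _ => zero_le) q)
    _).trans (le_of_eq ?_)
  rw [lintegral_strM hΦ (NuL735.measurable_gP _ _)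
    measurable_const N.ρ N.te N.T' (Measure.dirac 0) hH]
  unfold strI
  congr 1
  refine lintegral_congr fun z => ?_
  by_cases hz : Valid Φ ε P N.T' z.1.2 z.2
  · rw [indicator_of_mem (show z ∈ {z : PhasePoint × Par P | Valid Φ ε P N.T' z.1.2 z.2} from hz),
      indicator_of_mem (show z ∈ {z : PhasePoint × Par P | Valid Φ ε P N.T' z.1.2 z.2} from hz)]
    have h4 : ∀ l : ML, oneLsM Φ ε P z l = oneLs Φ ε P z l := fun l =>
      funext fun x => oneLsM_of_adm hz.1 l x
    simp only [h4]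
  · rw [indicator_of_notMem (show z ∉ {z : PhasePoint × Par P | Valid Φ ε P N.T' z.1.2 z.2}
      from hz), indicator_of_notMem (show z ∉ {z : PhasePoint × Par P |
        Valid Φ ε P N.T' z.1.2 z.2} from hz)]

/-- A sum over the trees with at most `m₀` leaves. -/
theorem tsum_trees (m₀ : ℕ) (a : CTree → ℝ≥0∞) :
    (∑' P : CTree, if P.leaves ≤ m₀ then a P else 0) = ∑ P ∈ GIVStep383.trees m₀, a P := by
  rw [tsum_eq_sum (s := GIVStep383.trees m₀)]
  · exact Finset.sum_congr rfl fun P hP => if_pos (GIVStep383.mem_trees.1 hP)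
  · exact fun P hP => if_neg fun h => hP (GIVStep383.mem_trees.2 h)

/-- **Integrals against 735's base law.** -/
theorem lintegral_nuL_strM (hΦ : AdmissiblePotential Φ) (hε : 0 < ε) (N : NPar)
    {F : Lab × LSt → ℝ≥0∞} (hF : Measurable F) :
    ∫⁻ p, F p ∂(nuL Φ ε K N) = activity ε * ∑' P : CTree, if P.leaves ≤ N.m₀ then
      ∑ x ∈ exS P, ∑ y ∈ Finset.univ.erase x, ∫⁻ q, (sepT Φ ε N.T' P).indicator
        (fun q => (early N.te).indicator F (thσ (N.σ P x y) x y (oneLsM Φ ε P q.1 q.2))) q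
        ∂(strM Φ (gP N.Cf N.b) ε K (fun _ => N.γe) N.ρ N.te N.T' (Measure.dirac 0) P) else 0 := by
  rw [NuL735.lintegral_nuL, ← ENNReal.tsum_mul_left]
  refine tsum_congr fun P => ?_
  split_ifs
  · rw [Finset.mul_sum]
    refine Finset.sum_congr rfl fun x _ => ?_
    rw [Finset.mul_sum]
    exact Finset.sum_congr rfl fun y _ => lintegral_nuP_strM hΦ hε N x y hF
  · exact (mul_zero _).symm

theorem lintegral_nuL_strI (hΦ : AdmissiblePotential Φ) (hε : 0 < ε) (N : NPar)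
    {F : Lab × LSt → ℝ≥0∞}
    (hF : Measurable F) : ∫⁻ p, F p ∂(nuL Φ ε K N) ≤ sumP N.m₀ fun P x y =>
      strI Φ (gP N.Cf N.b) ε K N.γe N.ρ N.te N.T' P fun L =>
        (early N.te).indicator F (thσ (N.σ P x y) x y L) := by
  rw [NuL735.lintegral_nuL, tsum_trees N.m₀ fun P => ∑ x ∈ exS P, ∑ y ∈ Finset.univ.erase x,
    ∫⁻ p, F p ∂(NuL735.nuP Φ ε K N P x y)]
  unfold sumP
  exact Finset.sum_le_sum fun P _ => Finset.sum_le_sum fun x _ => Finset.sum_le_sum
    fun y _ => lintegral_nuP_strI hΦ hε N x y hF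

/-! ### Class -/

/-- The parameters of the base law. -/
def npar (Cf b g : ℝ) (ρ : ℝ≥0∞) (te T' : ℝ) (m₀ : ℕ) : NPar :=
  ⟨Cf, b, g, ρ, te, T', m₀, sigB⟩

/-- **The base law of helper735 is in the class**, with a constant which depends on `m₀` only. -/
theorem nuL_px (hΦ : AdmissiblePotential Φ) {B : BPar} (hB : B.Ok) (hρ : B.ρ * B.lam₁ < 1)
    {b : ℝ} (hb : B.bs < b) (Cf : ℝ) (m₀ : ℕ) : ∃ c₀ : ℝ≥0∞, c₀ ≠ ∞ ∧
      ∀ ε T' te : ℝ, 0 < ε → ε ≤ 1 → 0 < te → te ≤ T' → T' ≤ B.T →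
      ∀ K : ℕ, ∀ Pp : PPar, IsPP B te K Pp → ∀ g : ℝ, B.b₀ ≤ g →
      ∃ Ξ : Measure (Lab × LSt), PX Pp Ξ (nuL Φ ε K (npar Cf b g B.ρ te T' m₀)) c₀ ∧
        Aux ε (nuL Φ ε K (npar Cf b g B.ρ te T' m₀)) := by
  obtain ⟨c₀, hc, h⟩ := px_base hΦ hB hρ hb Cf m₀
  refine ⟨c₀, hc, fun ε T' te hε hε1 hte hT' hTB K Pp hPp g hg => ?_⟩
  refine h ε T' te hε hε1 hte hT' hTB K Pp hPp g hg (gP Cf b) (fun _ => le_rfl) _ inferInstance
    (fun a => NuL735.nuL_tr hΦ _ a) fun F hF => ?_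
  exact lintegral_nuL_strI hΦ hε (npar Cf b g B.ρ te T' m₀) hF

/-! ### Domination of `nu0S` -/

theorem lineD_anti {γ γ' : ℝ → ℝ} (h : ∀ τ, γ' τ ≤ γ τ) (ρ : ℝ≥0∞) (K : ℕ) (l : ML) :
    lineD γ ρ K l ≤ lineD γ' ρ K l := mul_le_mul_left (LN2.wG_anti (h _) _) _

theorem strM_anti {γ γ' : ℝ → ℝ} (h : ∀ τ, γ' τ ≤ γ τ) (ρ : ℝ≥0∞) (te T' : ℝ) (κ : Measure ℝ) :
    strM Φ f₀ ε K γ ρ te T' κ P ≤ strM Φ f₀ ε K γ' ρ te T' κ P := by
  refine withDensity_mono (ae_of_all _ fun q => ?_)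
  unfold strD
  refine indicator_le_indicator ?_
  gcongr
  exact lineD_anti h ρ K q.2

/-- **The base law dominates the pair measure of the separated structures**, every rate `g` of the
test line below the rate at `te`. -/
theorem nuL_dom (hΦ : AdmissiblePotential Φ) (hε : 0 < ε) (Cf b : ℝ) (Q : EPar) {g : ℝ}
    (hg : g ≤ Q.γ Q.te) (T' : ℝ) (m₀ : ℕ) : Dominates Q (nu0S Φ (gP Cf b) ε K Q T' m₀)
      (nuL Φ ε K (npar Cf b g Q.ρ Q.te T' m₀)) := by
  intro F hF h0
  have hF' : Measurable fun θ : Lab × LSt => F (dL θ, eL θ) :=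
    hF.comp (measurable_dL.prodMk measurable_eL)
  unfold nu0S
  rw [lintegral_nuL_strM hΦ hε _ hF', lintegral_nu0R]
  refine mul_le_mul_right (ENNReal.tsum_le_tsum fun P => ?_) _
  by_cases hP : P.leaves ≤ m₀
  swap
  · rw [if_neg hP]
    exact zero_le
  rw [if_pos hP, if_pos (show P.leaves ≤ (npar Cf b g Q.ρ Q.te T' m₀).m₀ from hP)]
  refine Finset.sum_le_sum fun x _ => Finset.sum_le_sum fun y _ => ?_
  rw [lintegral_nuPR hΦ (measurableSet_sepT hΦ hε T' P) x y hF]
  refine lintegral_mono' (strM_anti (fun _ => hg) _ _ _ _) fun q =>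
    indicator_le_indicator (le_of_eq ?_)
  change F (oneLsM Φ ε P q.1 q.2 x, oneLsM Φ ε P q.1 q.2 y) =
    (early Q.te).indicator (fun θ : Lab × LSt => F (dL θ, eL θ))
      (thσ (sigB P x y) x y (oneLsM Φ ε P q.1 q.2))
  by_cases hL : (oneLsM Φ ε P q.1 q.2 x).1.1 ≤ Q.te ∧ (oneLsM Φ ε P q.1 q.2 y).1.1 ≤ Q.te
  · rw [indicator_of_mem (show thσ (sigB P x y) x y (oneLsM Φ ε P q.1 q.2) ∈ early Q.te from hL)]
    rfl
  · rw [indicator_of_notMem (show thσ (sigB P x y) x y (oneLsM Φ ε P q.1 q.2) ∉ early Q.te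
      from hL)]
    exact h0 _ hL

/-- **The pair mass of the separated structures is at most the pair functional of the base
law.** -/
theorem pe_nu0S_le_nuL (hΦ : AdmissiblePotential Φ) (hε : 0 < ε) (hf : Measurable f₀) {Cf b : ℝ}
    (hC : ∀ z, f₀ z ≤ Cf * Real.exp (-(b * ‖z.2‖ ^ 2))) (Q : EPar) {g : ℝ}
    (hg : g ≤ Q.γ Q.te) (T' : ℝ) (m₀ : ℕ) :
    PE Φ f₀ ε K Q (nu0S Φ f₀ ε K Q T' m₀) ≤
      PELK Φ f₀ ε K Q (nuL Φ ε K (npar Cf b g Q.ρ Q.te T' m₀)) :=
  pe_nu0R_le hΦ hε hf (dominates_of_mono hΦ hC (nuL_dom hΦ hε Cf b Q hg T' m₀))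

/-- The pair mass is the sum of the two parts. -/
theorem pe_nu0_eq (hΦ : AdmissiblePotential Φ) (hε : 0 < ε) (hf : Measurable f₀) (Q : EPar)
    (T' : ℝ) (m₀ : ℕ) : PE Φ f₀ ε K Q (nu0 Φ f₀ ε K Q T' m₀) =
      PE Φ f₀ ε K Q (nu0S Φ f₀ ε K Q T' m₀) + PE Φ f₀ ε K Q (nu0N Φ f₀ ε K Q T' m₀) := by
  unfold PE
  rw [← gcE_add hf ε]
  · congr 1
    funext n w
    rw [nu0_eq hΦ hε, lintegral_add_measure]
  · exact fun n => (MeasE416.measurable_touchP_cfg hΦ hε K Q n).lintegral_prod_right'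

/-- **The pair mass of `nu0`**: the pair functional of the base law and the pair mass of the
structures whose tree is not separated. -/
theorem pe_nu0_le_nuL (hΦ : AdmissiblePotential Φ) (hε : 0 < ε) (hf : Measurable f₀) {Cf b : ℝ}
    (hC : ∀ z, f₀ z ≤ Cf * Real.exp (-(b * ‖z.2‖ ^ 2))) (Q : EPar) {g : ℝ}
    (hg : g ≤ Q.γ Q.te) (T' : ℝ) (m₀ : ℕ) :
    PE Φ f₀ ε K Q (nu0 Φ f₀ ε K Q T' m₀) ≤
      PELK Φ f₀ ε K Q (nuL Φ ε K (npar Cf b g Q.ρ Q.te T' m₀)) +
        PE Φ f₀ ε K Q (nu0N Φ f₀ ε K Q T' m₀) := by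
  rw [pe_nu0_eq hΦ hε hf]
  gcongr
  exact pe_nu0S_le_nuL hΦ hε hf hC Q hg T' m₀

end Crest.Agent.R122.NuLBind85

end
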