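import Crest.Agent.R122.NuPhys_998
import Crest.Agent.R122.ShpOkN_998
import Crest.Agent.R122.NuR_735
import Crest.Agent.R122.StdB_495

-- ▼ part R122/NuPin_998
section

/-!
# Base pair law: pinned exponential moment (row 122, block H4), helper998

`pin_mP` : `∫ chi (time-0 position of the test line) * expW β (zE) dmP ≤ M`, uniformly in `ε > 0`.
-/

set_option autoImplicit false
set_option linter.unusedSectionVars false
set_option maxHeartbeats 400000

open MeasureTheory Set Filter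
open scoped ENNReal Classical Topology
open Crest.AnalysisR.Kinetic
open Crest.Agent.R122.Kin796 Crest.Agent.R122.Kin796.CTree Crest.Agent.R122.Tree674
open Crest.Agent.R122.GC311 Crest.Agent.R122.EDefs602 Crest.Agent.R122.TreeLines335
open Crest.Agent.R122.OneC285 Crest.Agent.R122.Disc416
open Crest.Agent.R122.Boost969 (LSt)
open Crest.Agent.R122.Pair292 (Lab shL shM shP)
open Crest.Agent.R122.Nu0566 (oneLsM oneLsM_of_adm measurable_oneLsM strD measurable_strD strM goodS)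
open Crest.Agent.R122.LN2 (expW chi measurable_chi lintegral_chi measurable_expW)
open Crest.Agent.R122.TreeDom974 (domG le_domG lintegral_domG_ne_top measurable_domG)

noncomputable section

namespace Crest.Agent.R122.NuL735

variable {Φ : Space3 → ℝ} {ε : ℝ} {K : ℕ} {P : CTree}

theorem wG_mul (γ β : ℝ) (v : Space3) :
    wG γ v * ENNReal.ofReal (Real.exp (β * ‖v‖ ^ 2)) = wG (γ - β) v := by
  unfold wG
  rw [← ENNReal.ofReal_mul (Real.exp_pos _).le, ← Real.exp_add]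
  congr 2
  ring

/-- Velocity weights of a good structure. -/
theorem dS_expW_le (hΦ : AdmissiblePotential Φ) (N : NPar) {β : ℝ} (hβ : β < N.b) (P : CTree) :
    ∃ (M : ℝ≥0∞) (C b' : ℝ), M ≠ ∞ ∧ 0 ≤ C ∧ 0 < b' ∧ ∀ (ε : ℝ) (K : ℕ) (q : Th P), 0 ≤ ε →
      dS Φ ε K N P q * expW β (zE Φ ε q) * ENNReal.ofReal (1 + ‖q.1.1.2‖) ≤
        {q : Th P | (q.1, (lnO q.2).1) ∈ OneC423.ctSet Φ ε N.te P}.indicator (fun q =>
          M * (domG C b' N.T' P q.1.1.2 q.1.2 *
            (wG (N.γe - β) q.2.1.2 * markW N.ρ K q.2.2))) q := by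
  set δ : ℝ := (N.b - β) / 3 with hδ
  have hδ0 : 0 < δ := by
    rw [hδ]
    linarith
  set k : PhasePoint → ℝ≥0∞ := fun z => ENNReal.ofReal (gP N.Cf N.b z) *
    (ENNReal.ofReal (Real.exp (β * ‖z.2‖ ^ 2)) * ENNReal.ofReal (Real.exp (δ * ‖z.2‖ ^ 2))) with hk
  have hkb : ∀ z, k z ≤ ENNReal.ofReal (max N.Cf 0 * Real.exp (-(2 * δ) * ‖z.2‖ ^ 2)) := by
    intro z
    rw [hk]
    simp only
    rw [← ENNReal.ofReal_mul (Real.exp_pos _).le, ← ENNReal.ofReal_mul' (by positivity)]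
    refine ENNReal.ofReal_le_ofReal ?_
    unfold gP
    have e1 : N.Cf * Real.exp (-(N.b * ‖z.2‖ ^ 2)) *
        (Real.exp (β * ‖z.2‖ ^ 2) * Real.exp (δ * ‖z.2‖ ^ 2)) =
        N.Cf * Real.exp (-(2 * δ) * ‖z.2‖ ^ 2) := by
      rw [mul_assoc, ← Real.exp_add, ← Real.exp_add]
      congr 2
      rw [hδ]
      ring
    rw [e1]
    exact mul_le_mul_of_nonneg_right (le_max_left _ _) (Real.exp_pos _).le
  obtain ⟨C, hC, hdom⟩ := le_domG hΦ (le_max_right N.Cf 0) (show δ < 2 * δ by linarith) hkb P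
  refine ⟨ENNReal.ofReal (2 * Real.exp (1 / δ)), C, δ, ENNReal.ofReal_ne_top, hC, hδ0,
    fun ε K q hε => ?_⟩
  by_cases hg : (q.1, lnO q.2) ∈ goodS Φ ε N.te N.T' K P
  swap
  · rw [dS_of_not_good hg, zero_mul, zero_mul]
    exact zero_le
  have hA : Adm Φ P q.1.1.2 q.1.2 := hg.1.1
  rw [indicator_of_mem (show q ∈ {q : Th P | (q.1, (lnO q.2).1) ∈ OneC423.ctSet Φ ε N.te P}
    from hg.2.1)]
  have hd := hdom ε N.T' N.T' q.1.1 q.1.2 hε le_rfl hg.1
  have e1 : dS Φ ε K N P q = wt Φ P q.1.1.2 q.1.2 *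
      ((∏ i, ENNReal.ofReal (gP N.Cf N.b (lines Φ ε P q.1.1 q.1.2 i))) *
        (wG N.γe q.2.1.2 * markW N.ρ K q.2.2)) := by
    unfold dS strD
    rw [indicator_of_mem hg, wtM_of_adm hA, ToTree335.pfM_of_adm hA]
    rfl
  have e2 : expW β (zE Φ ε q) =
      (∏ i, ENNReal.ofReal (Real.exp (β * ‖(lines Φ ε P q.1.1 q.1.2 i).2‖ ^ 2))) *
        ENNReal.ofReal (Real.exp (β * ‖q.2.1.2‖ ^ 2)) := by
    unfold expW
    rw [Fintype.prod_sum_type, Fintype.prod_unique (ι := Unit)]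
    congr 1
    refine Finset.prod_congr rfl fun i _ => ?_
    show ENNReal.ofReal (Real.exp (β * ‖(linesE Φ ε q.1 i).2‖ ^ 2)) = _
    rw [linesE_of_adm hA]
  have e3 : ENNReal.ofReal (1 + ‖q.1.1.2‖) ≤ ENNReal.ofReal (2 * Real.exp (1 / δ)) *
      ∏ i, ENNReal.ofReal (Real.exp (δ * ‖(lines Φ ε P q.1.1 q.1.2 i).2‖ ^ 2)) := by
    refine PairRep581.one_add_le_expW hδ0 ?_
    have h3 := DomForest998.fin_sq_le (Φ := Φ) hΦ ε (ℓ := q.1.1) hA (root P)
    rwa [PathFlow968.fin_root] at h3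
  have e4 : (∏ i, k (lines Φ ε P q.1.1 q.1.2 i)) =
      (∏ i, ENNReal.ofReal (gP N.Cf N.b (lines Φ ε P q.1.1 q.1.2 i))) *
      ((∏ i, ENNReal.ofReal (Real.exp (β * ‖(lines Φ ε P q.1.1 q.1.2 i).2‖ ^ 2))) *
        ∏ i, ENNReal.ofReal (Real.exp (δ * ‖(lines Φ ε P q.1.1 q.1.2 i).2‖ ^ 2))) := by
    rw [← Finset.prod_mul_distrib, ← Finset.prod_mul_distrib]
  rw [e1, e2]
  set A := ∏ i, ENNReal.ofReal (gP N.Cf N.b (lines Φ ε P q.1.1 q.1.2 i))
  set B := ∏ i, ENNReal.ofReal (Real.exp (β * ‖(lines Φ ε P q.1.1 q.1.2 i).2‖ ^ 2))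
  set D := ∏ i, ENNReal.ofReal (Real.exp (δ * ‖(lines Φ ε P q.1.1 q.1.2 i).2‖ ^ 2))
  calc wt Φ P q.1.1.2 q.1.2 * (A * (wG N.γe q.2.1.2 * markW N.ρ K q.2.2)) *
        (B * ENNReal.ofReal (Real.exp (β * ‖q.2.1.2‖ ^ 2))) * ENNReal.ofReal (1 + ‖q.1.1.2‖)
      ≤ wt Φ P q.1.1.2 q.1.2 * (A * (wG N.γe q.2.1.2 * markW N.ρ K q.2.2)) *
        (B * ENNReal.ofReal (Real.exp (β * ‖q.2.1.2‖ ^ 2))) *
        (ENNReal.ofReal (2 * Real.exp (1 / δ)) * D) := mul_le_mul_right e3 _
    _ = ENNReal.ofReal (2 * Real.exp (1 / δ)) * ((wt Φ P q.1.1.2 q.1.2 * (A * (B * D))) *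
        ((wG N.γe q.2.1.2 * ENNReal.ofReal (Real.exp (β * ‖q.2.1.2‖ ^ 2))) *
          markW N.ρ K q.2.2)) := by ring
    _ ≤ _ := by
        rw [wG_mul, ← e4]
        gcongr

/-- The contact condition depends on the relative position only. -/
theorem ct_shift (te : ℝ) (P : CTree) (x y : Space3) (u v : Space3) (p : Par P) (n : ℕ) :
    ((((x, u), p), (lnO ((y, v), n)).1) : (PhasePoint × Par P) × (ℝ × PhasePoint)) ∈
        OneC423.ctSet Φ ε te P ↔
      ((((0, u), p), shL (y - x) ((0, (0, v)) : LSt)) :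
        (PhasePoint × Par P) × (ℝ × PhasePoint)) ∈ OneC423.ctSet Φ ε te P := by
  have h1 : OneC423.relL (x, u) (lnO ((y, v), n)).1 =
      OneC423.relL ((0, u) : PhasePoint) (shL (y - x) ((0, (0, v)) : LSt)) := by
    unfold OneC423.relL lnO shL back
    refine Prod.ext ?_ rfl
    simp
  unfold OneC423.ctSet
  show (_ ∧ _ ∧ _ ∧ _ ∧ _) ↔ (_ ∧ _ ∧ _ ∧ _ ∧ _)
  simp only [h1]
  rfl

/-- Volume of the positions of the root with contact. -/
theorem ct_root_volume (hΦ : AdmissiblePotential Φ) (hε : 0 < ε) (te : ℝ) (P : CTree)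
    (y : Space3) (u v : Space3) (p : Par P) (n : ℕ) :
    ∫⁻ x : Space3, {q : Th P | (q.1, (lnO q.2).1) ∈ OneC423.ctSet Φ ε te P}.indicator
      (1 : Th P → ℝ≥0∞) (((x, u), p), ((y, v), n)) ≤
      ENNReal.ofReal (ε ^ 2) * (ENNReal.ofReal ‖v - u‖ * PairRep581.ctC te) := by
  have h0 := PairRep581.ct_volume (te := te) (P := P) hΦ hε (z := ((0, u), p))
    (e := ((0, (0, v)) : LSt)) le_rfl
  refine le_trans (le_of_eq ?_) h0
  rw [← lintegral_sub_left_eq_self (fun a : Space3 =>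
    {a : Space3 | ((((0, u), p) : PhasePoint × Par P), shL a ((0, (0, v)) : LSt)) ∈
      OneC423.ctSet Φ ε te P}.indicator (1 : Space3 → ℝ≥0∞) a) y]
  refine lintegral_congr fun x => ?_
  by_cases hc : ((((x, u), p), (lnO ((y, v), n)).1) :
      (PhasePoint × Par P) × (ℝ × PhasePoint)) ∈ OneC423.ctSet Φ ε te P
  · rw [indicator_of_mem (show (((x, u), p), ((y, v), n)) ∈
        {q : Th P | (q.1, (lnO q.2).1) ∈ OneC423.ctSet Φ ε te P} from hc),
      indicator_of_mem (show y - x ∈ {a : Space3 | ((((0, u), p) : PhasePoint × Par P),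
        shL a ((0, (0, v)) : LSt)) ∈ OneC423.ctSet Φ ε te P} from
        (ct_shift te P x y u v p n).1 hc)]
    rfl
  · rw [indicator_of_notMem (show (((x, u), p), ((y, v), n)) ∉
        {q : Th P | (q.1, (lnO q.2).1) ∈ OneC423.ctSet Φ ε te P} from hc),
      indicator_of_notMem (show y - x ∉ {a : Space3 | ((((0, u), p) : PhasePoint × Par P),
        shL a ((0, (0, v)) : LSt)) ∈ OneC423.ctSet Φ ε te P} from
        fun h => hc ((ct_shift te P x y u v p n).2 h))]

theorem measurableSet_ctT (hΦ : AdmissiblePotential Φ) (ε te : ℝ) (P : CTree) :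
    MeasurableSet {q : Th P | (q.1, (lnO q.2).1) ∈ OneC423.ctSet Φ ε te P} := by
  have h1 : Measurable fun q : Th P => (q.1, (lnO q.2).1) :=
    measurable_fst.prodMk ((measurable_lnO.comp measurable_snd).fst)
  exact h1 (OneC423.measurableSet_ctSet hΦ ε te P)

/-- **Mass of the contacts**, the test line fixed. -/
theorem ct_mass (hΦ : AdmissiblePotential Φ) (hε : 0 < ε) (te : ℝ) (P : CTree)
    {g : Space3 × Par P → ℝ≥0∞} (hg : Measurable g) (r : PhasePoint × ℕ) :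
    ∫⁻ z : PhasePoint × Par P, {q : Th P | (q.1, (lnO q.2).1) ∈ OneC423.ctSet Φ ε te P}.indicator
      (1 : Th P → ℝ≥0∞) (z, r) * (g (z.1.2, z.2) * (ENNReal.ofReal (1 + ‖z.1.2‖))⁻¹) ≤
      ENNReal.ofReal (ε ^ 2) * PairRep581.ctC te * ENNReal.ofReal (1 + ‖r.1.2‖) *
        ∫⁻ q : Space3 × Par P, g q := by
  obtain ⟨⟨y, v⟩, n⟩ := r
  have hct := measurableSet_ctT hΦ ε te P
  set I : Th P → ℝ≥0∞ :=
    {q : Th P | (q.1, (lnO q.2).1) ∈ OneC423.ctSet Φ ε te P}.indicator (1 : Th P → ℝ≥0∞) with hI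
  have hIm : Measurable I := measurable_one.indicator hct
  have hinv : Measurable fun q : Space3 × Par P => g q * (ENNReal.ofReal (1 + ‖q.1‖))⁻¹ :=
    hg.mul ((measurable_const.add measurable_fst.norm).ennreal_ofReal.inv)
  have hF : Measurable fun z : PhasePoint × Par P => I (z, ((y, v), n)) *
      (g (z.1.2, z.2) * (ENNReal.ofReal (1 + ‖z.1.2‖))⁻¹) :=
    (hIm.comp (measurable_id.prodMk measurable_const)).mul
      (hinv.comp (measurable_fst.snd.prodMk measurable_snd))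
  have hv1 : (volume : Measure (PhasePoint × Par P)) =
      (volume : Measure PhasePoint).prod (volume : Measure (Par P)) := rfl
  have hv2 : (volume : Measure (Space3 × Par P)) =
      (volume : Measure Space3).prod (volume : Measure (Par P)) := rfl
  rw [hv1, hv2, lintegral_prod_symm _ hF.aemeasurable, lintegral_prod_symm _ hg.aemeasurable]
  have hgp : Measurable fun p : Par P => ∫⁻ u : Space3, g (u, p) := hg.lintegral_prod_left'
  rw [← lintegral_const_mul _ hgp]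
  refine lintegral_mono fun p => ?_
  have hFp : Measurable fun ℓ : PhasePoint => I ((ℓ, p), ((y, v), n)) *
      (g (ℓ.2, p) * (ENNReal.ofReal (1 + ‖ℓ.2‖))⁻¹) :=
    hF.comp (measurable_id.prodMk measurable_const)
  show ∫⁻ ℓ : PhasePoint, I ((ℓ, p), ((y, v), n)) *
      (g (ℓ.2, p) * (ENNReal.ofReal (1 + ‖ℓ.2‖))⁻¹) ≤ _
  have hgu : Measurable fun u : Space3 => g (u, p) :=
    hg.comp (measurable_id.prodMk measurable_const)
  rw [Pair292.lintegral_phase hFp, ← lintegral_const_mul _ hgu]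
  refine lintegral_mono fun u => ?_
  have hIx : Measurable fun x : Space3 => I (((x, u), p), ((y, v), n)) :=
    hIm.comp (by fun_prop)
  show ∫⁻ x : Space3, I (((x, u), p), ((y, v), n)) *
      (g (u, p) * (ENNReal.ofReal (1 + ‖u‖))⁻¹) ≤ _
  rw [lintegral_mul_const _ hIx]
  have h0 : ENNReal.ofReal (1 + ‖u‖) ≠ 0 := by
    rw [Ne, ENNReal.ofReal_eq_zero, not_le]
    positivity
  calc (∫⁻ x : Space3, I (((x, u), p), ((y, v), n))) * (g (u, p) * (ENNReal.ofReal (1 + ‖u‖))⁻¹)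
      ≤ (ENNReal.ofReal (ε ^ 2) * (ENNReal.ofReal ‖v - u‖ * PairRep581.ctC te)) *
        (g (u, p) * (ENNReal.ofReal (1 + ‖u‖))⁻¹) :=
        mul_le_mul_left (ct_root_volume hΦ hε te P y u v p n) _
    _ ≤ (ENNReal.ofReal (ε ^ 2) * ((ENNReal.ofReal (1 + ‖v‖) * ENNReal.ofReal (1 + ‖u‖)) *
        PairRep581.ctC te)) * (g (u, p) * (ENNReal.ofReal (1 + ‖u‖))⁻¹) := by
        gcongr
        exact PairRep581.rel_le u v
    _ = ENNReal.ofReal (ε ^ 2) * PairRep581.ctC te * ENNReal.ofReal (1 + ‖v‖) *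
        g (u, p) * (ENNReal.ofReal (1 + ‖u‖) * (ENNReal.ofReal (1 + ‖u‖))⁻¹) := by ring
    _ = _ := by
        rw [ENNReal.mul_inv_cancel h0 ENNReal.ofReal_ne_top, mul_one]

/-- Integral of the weights of the test line. -/
theorem line_mass_ne_top {γ : ℝ} (hγ : 0 < γ) {ρ : ℝ≥0∞} (hρ : ρ ≠ ∞) (K : ℕ) :
    ∫⁻ r : PhasePoint × ℕ, chi r.1.1 * (wG γ r.1.2 * markW ρ K r.2) *
      ENNReal.ofReal (1 + ‖r.1.2‖) ∂((volume : Measure PhasePoint).prod Measure.count) ≠ ∞ := by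
  have hw : Measurable fun v : Space3 => wG γ v * ENNReal.ofReal (1 + ‖v‖) := by
    unfold wG
    fun_prop
  have e1 : ∀ r : PhasePoint × ℕ, chi r.1.1 * (wG γ r.1.2 * markW ρ K r.2) *
      ENNReal.ofReal (1 + ‖r.1.2‖) =
      (chi r.1.1 * (wG γ r.1.2 * ENNReal.ofReal (1 + ‖r.1.2‖))) * markW ρ K r.2 := by
    intro r
    ring
  simp only [e1]
  have hm : Measurable fun c : PhasePoint => chi c.1 * (wG γ c.2 * ENNReal.ofReal (1 + ‖c.2‖)) :=
    (measurable_chi.comp measurable_fst).mul (hw.comp measurable_snd)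
  rw [lintegral_prod_mul (f := fun c : PhasePoint =>
      chi c.1 * (wG γ c.2 * ENNReal.ofReal (1 + ‖c.2‖))) (g := fun n : ℕ => markW ρ K n)
    hm.aemeasurable (measurable_of_countable _).aemeasurable, lintegral_count]
  refine ENNReal.mul_ne_top ?_ (LN2.sum_markW_ne_top hρ K)
  have hv : (volume : Measure PhasePoint) =
      (volume : Measure Space3).prod (volume : Measure Space3) := rfl
  rw [hv, lintegral_prod_mul (f := chi) (g := fun v : Space3 =>
    wG γ v * ENNReal.ofReal (1 + ‖v‖)) measurable_chi.aemeasurable hw.aemeasurable,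
    lintegral_chi, one_mul]
  refine ne_top_of_le_ne_top (Unw410.gI_lt_top hγ).ne (lintegral_mono fun v => ?_)
  unfold wG
  refine mul_le_mul_right (le_of_eq ?_) _
  rw [ENNReal.ofReal_add zero_le_one (norm_nonneg _), ENNReal.ofReal_one]

/-- **Pinned exponential moment of the base law.** -/
theorem pin_mP (hΦ : AdmissiblePotential Φ) (K : ℕ) (N : NPar) {β : ℝ} (hβ : β < N.b)
    (hβγ : β < N.γe) (hρ : N.ρ ≠ ∞) (P : CTree) (x y : Idx P ⊕ Bool) :
    ∃ M : ℝ≥0∞, M ≠ ∞ ∧ ∀ ε : ℝ, 0 < ε →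
      ∫⁻ q, chi (zE Φ ε q (Sum.inr ())).1 * expW β (zE Φ ε q) ∂(mP Φ ε K N P x y) ≤ M := by
  obtain ⟨M₀, C, b', hM₀, hC, hb', hle⟩ := dS_expW_le hΦ N hβ P
  have hline := line_mass_ne_top (sub_pos.2 hβγ) hρ K
  set Ml := ∫⁻ r : PhasePoint × ℕ, chi r.1.1 * (wG (N.γe - β) r.1.2 * markW N.ρ K r.2) *
      ENNReal.ofReal (1 + ‖r.1.2‖) ∂((volume : Measure PhasePoint).prod Measure.count) with hMl
  have hdomG := lintegral_domG_ne_top hC hb' N.T' P
  have hmG := measurable_domG hC b' N.T' P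
  set G : ℝ≥0∞ := ∫⁻ z : Space3 × Par P, domG C b' N.T' P z.1 z.2 with hG
  refine ⟨M₀ * (PairRep581.ctC N.te * G * Ml), ENNReal.mul_ne_top hM₀ (ENNReal.mul_ne_top
    (ENNReal.mul_ne_top (PairRep581.ctC_ne_top _) hdomG) hline), fun ε hε => ?_⟩
  have hct := measurableSet_ctT hΦ ε N.te P
  set I : Th P → ℝ≥0∞ :=
    {q : Th P | (q.1, (lnO q.2).1) ∈ OneC423.ctSet Φ ε N.te P}.indicator (1 : Th P → ℝ≥0∞)
    with hI
  have hIm : Measurable I := measurable_one.indicator hct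
  have hmz := measurable_zE (P := P) hΦ ε
  have hexp : Measurable fun q : Th P => expW β (zE Φ ε q) := (measurable_expW β).comp hmz
  have hF : Measurable fun q : Th P => chi (zE Φ ε q (Sum.inr ())).1 * expW β (zE Φ ε q) :=
    (measurable_chi.comp ((measurable_pi_apply _).comp hmz).fst).mul hexp
  -- integrand
  have hpt : ∀ q : Th P, dS Φ ε K N P q * (chi (zE Φ ε q (Sum.inr ())).1 * expW β (zE Φ ε q)) ≤
      (M₀ * (chi q.2.1.1 * (wG (N.γe - β) q.2.1.2 * markW N.ρ K q.2.2))) *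
        (I q * (domG C b' N.T' P q.1.1.2 q.1.2 * (ENNReal.ofReal (1 + ‖q.1.1.2‖))⁻¹)) := by
    intro q
    have h0 : ENNReal.ofReal (1 + ‖q.1.1.2‖) ≠ 0 := by
      rw [Ne, ENNReal.ofReal_eq_zero, not_le]
      positivity
    have h1 := hle ε K q hε.le
    have h2 : dS Φ ε K N P q * expW β (zE Φ ε q) ≤
        ({q : Th P | (q.1, (lnO q.2).1) ∈ OneC423.ctSet Φ ε N.te P}.indicator (fun q =>
          M₀ * (domG C b' N.T' P q.1.1.2 q.1.2 *
            (wG (N.γe - β) q.2.1.2 * markW N.ρ K q.2.2))) q) *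
          (ENNReal.ofReal (1 + ‖q.1.1.2‖))⁻¹ := by
      rw [← div_eq_mul_inv, ENNReal.le_div_iff_mul_le (Or.inl h0) (Or.inl ENNReal.ofReal_ne_top)]
      exact h1
    have h3 : ({q : Th P | (q.1, (lnO q.2).1) ∈ OneC423.ctSet Φ ε N.te P}.indicator (fun q =>
          M₀ * (domG C b' N.T' P q.1.1.2 q.1.2 *
            (wG (N.γe - β) q.2.1.2 * markW N.ρ K q.2.2))) q) =
        I q * (M₀ * (domG C b' N.T' P q.1.1.2 q.1.2 *
            (wG (N.γe - β) q.2.1.2 * markW N.ρ K q.2.2))) := by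
      by_cases hq : q ∈ {q : Th P | (q.1, (lnO q.2).1) ∈ OneC423.ctSet Φ ε N.te P}
      · rw [hI, indicator_of_mem hq, indicator_of_mem hq, Pi.one_apply, one_mul]
      · rw [hI, indicator_of_notMem hq, indicator_of_notMem hq, zero_mul]
    rw [h3] at h2
    have e1 : zE Φ ε q (Sum.inr ()) = q.2.1 := rfl
    rw [e1]
    calc dS Φ ε K N P q * (chi q.2.1.1 * expW β (zE Φ ε q))
        = chi q.2.1.1 * (dS Φ ε K N P q * expW β (zE Φ ε q)) := by ring
      _ ≤ chi q.2.1.1 * (I q * (M₀ * (domG C b' N.T' P q.1.1.2 q.1.2 *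
            (wG (N.γe - β) q.2.1.2 * markW N.ρ K q.2.2))) *
            (ENNReal.ofReal (1 + ‖q.1.1.2‖))⁻¹) := mul_le_mul_right h2 _
      _ = _ := by ring
  have hwm : Measurable fun r : PhasePoint × ℕ =>
      M₀ * (chi r.1.1 * (wG (N.γe - β) r.1.2 * markW N.ρ K r.2)) := by
    refine Measurable.const_mul ?_ _
    refine (measurable_chi.comp measurable_fst.fst).mul ?_
    have h1 : Measurable fun v : Space3 => wG (N.γe - β) v := by
      unfold wG
      fun_prop
    exact (h1.comp measurable_fst.snd).mul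
      ((measurable_of_countable fun n : ℕ => markW N.ρ K n).comp measurable_snd)
  have hin : Measurable fun q : Th P => I q * (domG C b' N.T' P q.1.1.2 q.1.2 *
      (ENNReal.ofReal (1 + ‖q.1.1.2‖))⁻¹) := by
    refine hIm.mul ?_
    refine (hmG.comp (measurable_fst.fst.snd.prodMk measurable_fst.snd)).mul ?_
    exact ((measurable_const.add measurable_fst.fst.snd.norm).ennreal_ofReal.inv)
  calc ∫⁻ q, chi (zE Φ ε q (Sum.inr ())).1 * expW β (zE Φ ε q) ∂(mP Φ ε K N P x y)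
      ≤ ∫⁻ q, chi (zE Φ ε q (Sum.inr ())).1 * expW β (zE Φ ε q) ∂(mS Φ ε K N P) :=
        lintegral_mono' Measure.restrict_le_self le_rfl
    _ = activity ε * ∫⁻ q, dS Φ ε K N P q *
          (chi (zE Φ ε q (Sum.inr ())).1 * expW β (zE Φ ε q)) ∂(refM P) := lintegral_mS hΦ N hF
    _ ≤ activity ε * ∫⁻ q, (M₀ * (chi q.2.1.1 *
          (wG (N.γe - β) q.2.1.2 * markW N.ρ K q.2.2))) *
        (I q * (domG C b' N.T' P q.1.1.2 q.1.2 * (ENNReal.ofReal (1 + ‖q.1.1.2‖))⁻¹))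
          ∂(refM P) := mul_le_mul_right (lintegral_mono hpt) _
    _ = activity ε * ∫⁻ r : PhasePoint × ℕ, (M₀ * (chi r.1.1 *
          (wG (N.γe - β) r.1.2 * markW N.ρ K r.2))) *
        (∫⁻ z : PhasePoint × Par P, I (z, r) * (domG C b' N.T' P z.1.2 z.2 *
          (ENNReal.ofReal (1 + ‖z.1.2‖))⁻¹))
          ∂((volume : Measure PhasePoint).prod Measure.count) := by
        congr 1
        unfold refM
        have hm : Measurable fun q : Th P => (M₀ * (chi q.2.1.1 *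
            (wG (N.γe - β) q.2.1.2 * markW N.ρ K q.2.2))) *
            (I q * (domG C b' N.T' P q.1.1.2 q.1.2 * (ENNReal.ofReal (1 + ‖q.1.1.2‖))⁻¹)) :=
          (hwm.comp measurable_snd).mul hin
        rw [lintegral_prod_symm _ hm.aemeasurable]
        refine lintegral_congr fun r => ?_
        have hr : Measurable fun z : PhasePoint × Par P => I (z, r) *
            (domG C b' N.T' P z.1.2 z.2 * (ENNReal.ofReal (1 + ‖z.1.2‖))⁻¹) :=
          hin.comp (f := fun z : PhasePoint × Par P => (z, r))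
            (measurable_id.prodMk measurable_const)
        exact lintegral_const_mul
          (M₀ * (chi r.1.1 * (wG (N.γe - β) r.1.2 * markW N.ρ K r.2))) hr
    _ ≤ activity ε * ∫⁻ r : PhasePoint × ℕ, (M₀ * (chi r.1.1 *
          (wG (N.γe - β) r.1.2 * markW N.ρ K r.2))) *
        (ENNReal.ofReal (ε ^ 2) * PairRep581.ctC N.te * ENNReal.ofReal (1 + ‖r.1.2‖) * G)
          ∂((volume : Measure PhasePoint).prod Measure.count) := by
        refine mul_le_mul_right (lintegral_mono fun r => mul_le_mul_right ?_ _) _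
        exact ct_mass hΦ hε N.te P (g := fun z => domG C b' N.T' P z.1 z.2) hmG r
    _ = activity ε * ∫⁻ r : PhasePoint × ℕ, (M₀ * (ENNReal.ofReal (ε ^ 2) *
          PairRep581.ctC N.te * G)) * (chi r.1.1 * (wG (N.γe - β) r.1.2 * markW N.ρ K r.2) *
          ENNReal.ofReal (1 + ‖r.1.2‖)) ∂((volume : Measure PhasePoint).prod Measure.count) := by
        congr 1
        refine lintegral_congr fun r => ?_
        ring
    _ = (activity ε * ENNReal.ofReal (ε ^ 2)) * (M₀ * (PairRep581.ctC N.te * G * Ml)) := by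
        rw [lintegral_const_mul' _ _ (ENNReal.mul_ne_top hM₀ (ENNReal.mul_ne_top
          (ENNReal.mul_ne_top ENNReal.ofReal_ne_top (PairRep581.ctC_ne_top _)) hdomG)), ← hMl]
        ring
    _ = M₀ * (PairRep581.ctC N.te * G * Ml) := by
        rw [LN2.activity_mul hε, one_mul]

end Crest.Agent.R122.NuL735

end
end

-- ▼ part R122/NuShp_998
section

/-!
# Base pair law: admissibility of the base shapes from the domination (row 122, block H4), helper998
-/

set_option autoImplicit false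
set_option linter.unusedSectionVars false
set_option maxHeartbeats 400000

open MeasureTheory Set Filter
open scoped ENNReal Classical Topology
open Crest.AnalysisR.Kinetic
open Crest.Agent.R122.Kin796 Crest.Agent.R122.Kin796.CTree Crest.Agent.R122.Tree674
open Crest.Agent.R122.GC311 Crest.Agent.R122.EDefs602 Crest.Agent.R122.TreeLines335
open Crest.Agent.R122.OneC285 Crest.Agent.R122.Disc416
open Crest.Agent.R122.PairRep581 (Shp ShpOk)
open Crest.Agent.R122.Gate424 Crest.Agent.R122.Gate973 Crest.Agent.R122.LN2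

noncomputable section

namespace Crest.Agent.R122.NuL735

variable {Φ : Space3 → ℝ} {ε : ℝ} {K : ℕ} {P : CTree}

/-- **The base shapes are admissible** as soon as they are dominated. -/
theorem shpOk_of_dom (hΦ : AdmissiblePotential Φ) (K : ℕ) (N : NPar) {γ β : ℝ}
    {ρ : Space3 → ℝ≥0∞} (hβ : β < N.b) (hβγ : β < N.γe) (hρ : N.ρ ≠ ∞) (P : CTree)
    (x y : Idx P ⊕ Bool)
    (hdom : ∃ (c : ℝ≥0∞) (Λ : Measure (Idx P ⊕ Unit → ℝ)), c ≠ ∞ ∧ IsFiniteMeasure Λ ∧
      ∀ ε, 0 < ε → Dom γ ρ ε 1 ∅ c Λ (mP Φ ε K N P x y) (fun _ _ => 0) (zE Φ ε)) :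
    ShpOk γ β ρ (shpB Φ K N P x y) where
  sf _ := inferInstanceAs (SFinite (mP Φ _ K N P x y))
  mth ε _ := measurable_thE hΦ ε _ x y
  dom := hdom
  mT := measurable_TrS
  inv _ _ a := mP_tr hΦ N x y a
  b_tr _ _ _ _ := rfl
  z_tr ε _ a q := zE_tr ε a q
  th_tr ε _ a q := thE_tr ε _ x y a q
  birth ε hε := by
    filter_upwards [ae_birth hΦ hε.le N x y x, ae_birth hΦ hε.le N x y y] with q h1 h2
      using ⟨h1, h2⟩
  vel ε hε := by
    filter_upwards [ae_vel (ε := ε) hΦ N x y x, ae_vel (ε := ε) hΦ N x y y] with q h1 h2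
      using ⟨h1, h2⟩
  pin := by
    obtain ⟨M, hM, h⟩ := pin_mP hΦ K N hβ hβγ hρ P x y
    exact ⟨Sum.inr (), M, hM, h⟩

end Crest.Agent.R122.NuL735

end
end

-- ▼ part R122/NuOk_735

/-!
# Row 122 (helper735), the shapes of the base pair law and of its continuations are admissible

* `shpOk_base` : the shapes `famB` of the base law are admissible.
* `rep_ok_base` : representation and admissibility for all continuations.
* `rep_of_le` : a smaller law has the same representation; `stdB_base` : standard Borel spaces.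
-/

set_option autoImplicit false
set_option maxHeartbeats 400000
set_option linter.unusedSectionVars false

open MeasureTheory Set Filter
open scoped ENNReal Classical Topology
open Crest.AnalysisR.Kinetic
open Crest.Agent.R122.Kin796 Crest.Agent.R122.Kin796.CTree Crest.Agent.R122.Tree674
open Crest.Agent.R122.GC311 Crest.Agent.R122.EDefs602 Crest.Agent.R122.TreeLines335
open Crest.Agent.R122.OneC285
open Crest.Agent.R122.Boost969 (LSt)
open Crest.Agent.R122.Pair292 (Lab shL shM shP bindN)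
open Crest.Agent.R122.LN2 Crest.Agent.R122.StrN998 Crest.Agent.R122.PairRep581

noncomputable section

namespace Crest.Agent.R122.NuL735

variable {Φ : Space3 → ℝ} {ε : ℝ} {K : ℕ} {P : CTree}

/-- **The shapes of the base law are admissible.** -/
theorem shpOk_base (hΦ : AdmissiblePotential Φ) (K : ℕ) (N : NPar) {γ β : ℝ}
    {ρ : Space3 → ℝ≥0∞} (hγb : γ ≤ N.b) (hγe : γ ≤ N.γe) (hβ : β < N.b) (hβγ : β < N.γe)
    (hN : N.ρ ≠ ∞) (hρ : Measurable ρ) (s : Ix N.m₀) : ShpOk γ β ρ (famB Φ K N s) :=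
  shpOk_of_dom hΦ K N hβ hβγ hN _ _ _
    ⟨ENNReal.ofReal N.Cf ^ Fintype.card (Idx s.1.1) * mkC N.ρ K,
      prodΛ (Measure.dirac fun _ : Idx s.1.1 => (0 : ℝ)) (Measure.dirac fun _ : Unit => (0 : ℝ)),
      ENNReal.mul_ne_top (ENNReal.pow_ne_top ENNReal.ofReal_ne_top) (mkC_ne_top hN K),
      inferInstance, fun ε hε => dom_base hΦ N hγb hγe hρ hε _ _⟩

/-- **Representation and admissibility of the base law and of its continuations.** -/
theorem rep_ok_base (hΦ : AdmissiblePotential Φ) (K : ℕ) (N : NPar) {γ β β' b₀ te : ℝ}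
    {q : ℕ → ℝ≥0∞} {ρ : Space3 → ℝ≥0∞} (hγb : γ ≤ N.b) (hγe : γ ≤ N.γe) (hβ : β < N.b)
    (hβγ : β < N.γe) (hN : N.ρ ≠ ∞) (hρ : Measurable ρ) (hγ : γ ≤ b₀) (hβ' : β' < β)
    (hβb : β ≤ b₀) (hq : ∑' m, q m ≠ ∞) (j : ℕ) :
    Rep (fun ε => bindN (nuL Φ ε K N) (PairD292.K3 Φ ε b₀ te q) j)
        (fun s : Ix N.m₀ => itS (famB Φ K N s) Φ b₀ te q j) ∧
      ∀ s : Ix N.m₀, ShpOk γ β' ρ (itS (famB Φ K N s) Φ b₀ te q j) :=
  rep_ok_itS (rep_base hΦ N) (shpOk_base hΦ K N hγb hγe hβ hβγ hN hρ) hΦ hρ hγ hβ' hβb hq j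

/-- **A smaller law has the same representation.** -/
theorem rep_of_le {ι : Type} [Fintype ι] {ν ν' : ℝ → Measure (Lab × LSt)} {S : ι → Shp}
    (h : Rep ν S) (hle : ∀ ε, 0 < ε → ν' ε ≤ ν ε) : Rep ν' S where
  sf := h.sf
  mth := h.mth
  le ε hε F hF := (lintegral_mono' (hle ε hε) le_rfl).trans (h.le ε hε F hF)

/-- The structure spaces of the base law are standard Borel. -/
instance stdB_base (K : ℕ) (N : NPar) (s : Ix N.m₀) : StandardBorelSpace (famB Φ K N s).Θ :=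
  StdB495.standardBorel_base s.1.1

instance stdB_baseN (K : ℕ) (N : NPar) (s : Ix N.m₀) (b₀ te : ℝ) (q : ℕ → ℝ≥0∞) (j : ℕ) :
    StandardBorelSpace (itS (famB Φ K N s) Φ b₀ te q j).Θ :=
  StdB495.standardBorel_th j


end Crest.Agent.R122.NuL735

end
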