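import Crest.Agent.R122.OneCDefs_285
import Crest.Agent.R122.EquivE_416
import Crest.Agent.R122.MeasEDefs_416

/-!
# MeasOC: measurability and permutation covariance of the one-contact cluster map (row 122, H2)

* `measurable_sInf_rce` : first time (`sInf`) of a random closed event after a random time.
* `measurable_mT`, `measurableSet_meet`, `measurableSet_cmeet`, `measurableSet_dmeet`,
  `measurableSet_clM` : joint measurability in `(w, l)`, also along random configurations and lines.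
* `mT_perm`, `meet_perm`, `cmeet_perm`, `dmeet_perm`, `clM_perm` : permutation covariance.
* `pClusterMap_clM` : `OC285.PClusterMap ε (OneC285.clM Φ ε K te)`.
* `measurable_cT`, `measurable_cB`, `measurable_cD`, `measurable_cX` : contact data.
-/

set_option autoImplicit false
set_option linter.unusedSectionVars false

open MeasureTheory Set Filter
open scoped ENNReal Classical Topology
open Crest.AnalysisR.Kinetic
open Crest.Agent.R122.Kin796 Crest.Agent.R122.Kin796.CTree Crest.Agent.R122.Tree674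
open Crest.Agent.R122.GC311 Crest.Agent.R122.Flow671
open Crest.Agent.R122.EDefs602 Crest.Agent.R122.MeasE416 Crest.Agent.R122.OneC285

noncomputable section

namespace Crest.Agent.R122.MeasOC434

/-! ### First times as infima -/

section inf

variable {Ω : Type*} [MeasurableSpace Ω]

/-- A random closed event happens at some time after the random time `a`: a measurable event. -/
theorem measurableSet_ex_rce {E : Ω → ℝ → Prop} (hE : RCE E) {a : Ω → ℝ} (ha : Measurable a) :
    MeasurableSet {ω | {s | a ω ≤ s ∧ E ω s}.Nonempty} := by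
  have h : {ω | {s | a ω ≤ s ∧ E ω s}.Nonempty} = ⋃ n : ℕ, {ω | ∃ s ∈ Icc (a ω) (n : ℝ), E ω s} := by
    ext ω
    simp only [mem_ofPred_eq, mem_iUnion]
    constructor
    · rintro ⟨s, h1, h2⟩
      obtain ⟨n, hn⟩ := exists_nat_ge s
      exact ⟨n, s, ⟨h1, hn⟩, h2⟩
    · rintro ⟨n, s, h1, h2⟩
      exact ⟨s, h1.1, h2⟩
  rw [h]
  exact MeasurableSet.iUnion fun n => hE.existsIcc ha measurable_const

/-- Infimum of the times of a random closed event after a random time. -/
theorem measurable_sInf_rce {E : Ω → ℝ → Prop} (hE : RCE E) {a : Ω → ℝ} (ha : Measurable a) :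
    Measurable fun ω => sInf {s | a ω ≤ s ∧ E ω s} := by
  refine measurable_of_Iic fun c => ?_
  have key : (fun ω => sInf {s | a ω ≤ s ∧ E ω s}) ⁻¹' Iic c =
      {ω | ∃ s ∈ Icc (a ω) c, E ω s} ∪
        ({ω | {s | a ω ≤ s ∧ E ω s}.Nonempty}ᶜ ∩ {_ω | (0 : ℝ) ≤ c}) := by
    ext ω
    simp only [mem_preimage, mem_Iic, mem_union, mem_ofPred_eq, mem_inter_iff, mem_compl_iff]
    have hbd : BddBelow {s | a ω ≤ s ∧ E ω s} := ⟨a ω, fun s hs => hs.1⟩
    have hcl : IsClosed {s | a ω ≤ s ∧ E ω s} := isClosed_Ici.inter (hE.isClosed ω)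
    by_cases hex : {s | a ω ≤ s ∧ E ω s}.Nonempty
    · constructor
      · intro h
        have hmem := hcl.csInf_mem hex hbd
        exact Or.inl ⟨_, ⟨hmem.1, h⟩, hmem.2⟩
      · rintro (⟨r, hr, hEr⟩ | ⟨h, _⟩)
        · exact (csInf_le hbd ⟨hr.1, hEr⟩).trans hr.2
        · exact absurd hex h
    · rw [not_nonempty_iff_eq_empty.1 hex, Real.sInf_empty]
      constructor
      · intro h
        exact Or.inr ⟨not_nonempty_empty, h⟩
      · rintro (⟨r, hr, hEr⟩ | ⟨_, h⟩)
        · exact absurd ⟨r, hr.1, hEr⟩ hex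
        · exact h
  rw [key]
  exact (hE.existsIcc ha measurable_const).union
    ((measurableSet_ex_rce hE ha).compl.inter (MeasurableSet.const _))

end inf

/-! ### First contact of a line with the gas -/

section gas

variable {Φ : Space3 → ℝ} {ε : ℝ} {n : ℕ} {Ω : Type*} [MeasurableSpace Ω]

theorem measurable_lpos {l : Ω → ML} (hl : Measurable l) (s : ℝ) :
    Measurable fun ω => lpos (l ω) s := by
  unfold lpos
  have h := MeasW.measurable_back.comp hl.fst
  exact h.fst.add (h.snd.const_smul s)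

theorem continuous_lpos (l : ML) : Continuous fun s => lpos l s := by
  unfold lpos
  fun_prop

theorem cf0_dist (hΦ : AdmissiblePotential Φ) (hε : 0 < ε) {w : Ω → Config n} (hw : Measurable w)
    {l : Ω → ML} (hl : Measurable l) (i : Fin n) :
    CF0 fun ω s => dist (lpos (l ω) s) (flow Φ ε s (w ω) i).1 := by
  have h := CF0.dist_flow_path hΦ hε hw i (c := fun ω s => lpos (l ω) s)
    (fun ω => continuous_lpos (l ω)) (fun s => measurable_lpos hl s)
  refine ⟨fun ω => ?_, fun s => ?_⟩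
  · have h1 := h.cont ω
    simpa only [dist_comm] using h1
  · have h1 := h.meas s
    simpa only [dist_comm] using h1

theorem rce_dist (hΦ : AdmissiblePotential Φ) (hε : 0 < ε) {w : Ω → Config n} (hw : Measurable w)
    {l : Ω → ML} (hl : Measurable l) (i : Fin n) :
    RCE fun ω s => dist (lpos (l ω) s) (flow Φ ε s (w ω) i).1 ≤ ε :=
  RCE.of_le (cf0_dist hΦ hε hw hl i) ε

theorem rce_exdist (hΦ : AdmissiblePotential Φ) (hε : 0 < ε) {w : Ω → Config n}
    (hw : Measurable w) {l : Ω → ML} (hl : Measurable l) :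
    RCE fun ω s => ∃ i, dist (lpos (l ω) s) (flow Φ ε s (w ω) i).1 ≤ ε :=
  RCE.exists_finite fun i => rce_dist hΦ hε hw hl i

theorem measurable_mT_of (hΦ : AdmissiblePotential Φ) (hε : 0 < ε) {w : Ω → Config n}
    (hw : Measurable w) {l : Ω → ML} (hl : Measurable l) :
    Measurable fun ω => mT Φ ε (w ω) (l ω) :=
  measurable_sInf_rce (rce_exdist hΦ hε hw hl) hl.fst.fst

theorem measurableSet_mSet_of (hΦ : AdmissiblePotential Φ) (hε : 0 < ε) {w : Ω → Config n}
    (hw : Measurable w) {l : Ω → ML} (hl : Measurable l) :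
    MeasurableSet {ω | (mSet Φ ε (w ω) (l ω)).Nonempty} :=
  measurableSet_ex_rce (rce_exdist hΦ hε hw hl) hl.fst.fst

theorem measurableSet_meet_of (hΦ : AdmissiblePotential Φ) (hε : 0 < ε) (T : ℝ)
    {w : Ω → Config n} (hw : Measurable w) {l : Ω → ML} (hl : Measurable l) (i : Fin n) :
    MeasurableSet {ω | Meet Φ ε T (w ω) (l ω) i} := by
  have hm := measurable_mT_of hΦ hε hw hl
  have h1 := measurableSet_mSet_of hΦ hε hw hl
  have h2 : MeasurableSet {ω | (l ω).1.1 < mT Φ ε (w ω) (l ω)} := measurableSet_lt hl.fst.fst hm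
  have h3 : MeasurableSet {ω | mT Φ ε (w ω) (l ω) ≤ T} := measurableSet_le hm measurable_const
  have h4 : MeasurableSet {ω | dist (lpos (l ω) (mT Φ ε (w ω) (l ω)))
      (flow Φ ε (mT Φ ε (w ω) (l ω)) (w ω) i).1 ≤ ε} :=
    (rce_dist hΦ hε hw hl i).measurableSet_at hm
  have e : {ω | Meet Φ ε T (w ω) (l ω) i} =
      {ω | (mSet Φ ε (w ω) (l ω)).Nonempty} ∩ ({ω | (l ω).1.1 < mT Φ ε (w ω) (l ω)} ∩
        ({ω | mT Φ ε (w ω) (l ω) ≤ T} ∩ {ω | dist (lpos (l ω) (mT Φ ε (w ω) (l ω)))
      (flow Φ ε (mT Φ ε (w ω) (l ω)) (w ω) i).1 ≤ ε})) := by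
    ext ω
    constructor
    · rintro ⟨a, b, c, d⟩
      exact ⟨a, b, c, d⟩
    · rintro ⟨a, b, c, d⟩
      exact ⟨a, b, c, d⟩
  rw [e]
  exact h1.inter (h2.inter (h3.inter h4))

theorem measurableSet_inf_of (hΦ : AdmissiblePotential Φ) (hε : 0 < ε) (K : ℕ)
    {w : Ω → Config n} (hw : Measurable w) {l : Ω → ML} (hl : Measurable l) (i : Fin n) :
    MeasurableSet {ω | (MW.cfg (w ω)).Inf Φ ε K (mT Φ ε (w ω) (l ω)) i} :=
  ((MeasW.cfg hw).inf hΦ hε K i).measurableSet_at (measurable_mT_of hΦ hε hw hl)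

theorem measurableSet_cmeet_of (hΦ : AdmissiblePotential Φ) (hε : 0 < ε) (K : ℕ) (T : ℝ)
    {w : Ω → Config n} (hw : Measurable w) {l : Ω → ML} (hl : Measurable l) (i : Fin n) :
    MeasurableSet {ω | CMeet Φ ε K T (w ω) (l ω) i} :=
  (measurableSet_meet_of hΦ hε T hw hl i).inter (measurableSet_inf_of hΦ hε K hw hl i).compl


theorem measurableSet_preC_eq (hΦ : AdmissiblePotential Φ) (hε : 0 < ε) {w : Ω → Config n}
    (hw : Measurable w) {σ : Ω → ℝ} (hσ : Measurable σ) (q : Fin n) (B : Finset (Fin n)) :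
    MeasurableSet {ω | preC Φ ε (w ω) (σ ω) q = B} := by
  have e : {ω | preC Φ ε (w ω) (σ ω) q = B} =
      ⋂ k : Fin n, {ω | k ∈ preC Φ ε (w ω) (σ ω) q ↔ k ∈ B} := by
    ext ω
    simp only [mem_ofPred_eq, mem_iInter]
    exact Finset.ext_iff
  rw [e]
  refine MeasurableSet.iInter fun k => ?_
  by_cases hk : k ∈ B
  · have : {ω | k ∈ preC Φ ε (w ω) (σ ω) q ↔ k ∈ B} = {ω | k ∈ preC Φ ε (w ω) (σ ω) q} := by
      ext ω
      simp [hk]
    rw [this]
    exact measurableSet_mem_preC hΦ hε hw hσ q k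
  · have : {ω | k ∈ preC Φ ε (w ω) (σ ω) q ↔ k ∈ B} = {ω | k ∈ preC Φ ε (w ω) (σ ω) q}ᶜ := by
      ext ω
      simp [hk]
    rw [this]
    exact (measurableSet_mem_preC hΦ hε hw hσ q k).compl

/-- **The cluster map of the one-contact step is measurable**, jointly in the gas and the line (also
along random configurations and lines). -/
theorem measurableSet_clM_of (hΦ : AdmissiblePotential Φ) (hε : 0 < ε) (K : ℕ) (T : ℝ)
    {w : Ω → Config n} (hw : Measurable w) {l : Ω → ML} (hl : Measurable l) (i : Fin n)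
    (B : Finset (Fin n)) : MeasurableSet {ω | clM Φ ε K T n (w ω) i (l ω) = B} := by
  have h1 := measurableSet_cmeet_of hΦ hε K T hw hl i
  have h2 := measurableSet_preC_eq hΦ hε hw (measurable_mT_of hΦ hε hw hl) i B
  have e : {ω | clM Φ ε K T n (w ω) i (l ω) = B} =
      ({ω | CMeet Φ ε K T (w ω) (l ω) i} ∩ {ω | preC Φ ε (w ω) (mT Φ ε (w ω) (l ω)) i = B}) ∪
        ({ω | CMeet Φ ε K T (w ω) (l ω) i}ᶜ ∩ {_ω | ∅ = B}) := by
    ext ω
    simp only [mem_ofPred_eq, mem_union, mem_inter_iff, mem_compl_iff]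
    unfold clM
    by_cases h : CMeet Φ ε K T (w ω) (l ω) i
    · rw [if_pos h]
      simp [h]
    · rw [if_neg h]
      simp [h]
  rw [e]
  exact (h1.inter h2).union (h1.compl.inter (MeasurableSet.const _))

theorem measurable_mT (hΦ : AdmissiblePotential Φ) (hε : 0 < ε) (n : ℕ) :
    Measurable fun p : Config n × ML => mT Φ ε p.1 p.2 :=
  measurable_mT_of hΦ hε measurable_fst measurable_snd




theorem measurableSet_clM (hΦ : AdmissiblePotential Φ) (hε : 0 < ε) (K : ℕ) (T : ℝ) (n : ℕ)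
    (i : Fin n) (B : Finset (Fin n)) :
    MeasurableSet {p : Config n × ML | clM Φ ε K T n p.1 i p.2 = B} :=
  measurableSet_clM_of hΦ hε K T measurable_fst measurable_snd i B

end gas

/-! ### Permutation covariance -/

section perm

variable {Φ : Space3 → ℝ} {ε : ℝ} {n : ℕ}

theorem mSet_perm (hΦ : AdmissiblePotential Φ) (hε : 0 < ε) (w : Config n)
    (σ : Equiv.Perm (Fin n)) (l : ML) : mSet Φ ε (fun i => w (σ i)) l = mSet Φ ε w l := by
  ext s
  unfold mSet
  simp only [mem_ofPred_eq]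
  refine and_congr_right fun _ => ?_
  have h := Loc45.flow_equiv hΦ hε σ s w
  constructor
  · rintro ⟨i, hi⟩
    refine ⟨σ i, ?_⟩
    rwa [h] at hi
  · rintro ⟨i, hi⟩
    refine ⟨σ.symm i, ?_⟩
    rw [h]
    simpa using hi

theorem mT_perm (hΦ : AdmissiblePotential Φ) (hε : 0 < ε) (w : Config n)
    (σ : Equiv.Perm (Fin n)) (l : ML) : mT Φ ε (fun i => w (σ i)) l = mT Φ ε w l := by
  unfold mT
  rw [mSet_perm hΦ hε]

theorem meet_perm (hΦ : AdmissiblePotential Φ) (hε : 0 < ε) (T : ℝ) (w : Config n)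
    (σ : Equiv.Perm (Fin n)) (l : ML) (i : Fin n) :
    Meet Φ ε T (fun i => w (σ i)) l i ↔ Meet Φ ε T w l (σ i) := by
  have hm := mT_perm hΦ hε w σ l
  have hs := mSet_perm hΦ hε w σ l
  have h := Loc45.flow_equiv hΦ hε σ (mT Φ ε w l) w
  constructor
  · rintro ⟨a, b, c, d⟩
    rw [hs] at a
    rw [hm] at b c d
    rw [h] at d
    exact ⟨a, b, c, d⟩
  · rintro ⟨a, b, c, d⟩
    refine ⟨?_, ?_, ?_, ?_⟩
    · rw [hs]; exact a
    · rw [hm]; exact b
    · rw [hm]; exact c
    · rw [hm, h]; exact d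

theorem cmeet_perm (hΦ : AdmissiblePotential Φ) (hε : 0 < ε) (K : ℕ) (T : ℝ) (w : Config n)
    (σ : Equiv.Perm (Fin n)) (l : ML) (i : Fin n) :
    CMeet Φ ε K T (fun i => w (σ i)) l i ↔ CMeet Φ ε K T w l (σ i) := by
  unfold CMeet
  rw [meet_perm hΦ hε, mT_perm hΦ hε, EquivE416.inf_perm hΦ hε]


theorem clM_perm (hΦ : AdmissiblePotential Φ) (hε : 0 < ε) (K : ℕ) (T : ℝ) (w : Config n)
    (σ : Equiv.Perm (Fin n)) (l : ML) (i : Fin n) :
    clM Φ ε K T n w (σ i) l = (clM Φ ε K T n (fun i => w (σ i)) i l).map σ.toEmbedding := by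
  unfold clM
  by_cases h : CMeet Φ ε K T w l (σ i)
  · rw [if_pos h, if_pos ((cmeet_perm hΦ hε K T w σ l i).2 h), mT_perm hΦ hε]
    ext k
    rw [Finset.mem_map]
    constructor
    · intro hk
      refine ⟨σ.symm k, ?_, by simp⟩
      rw [EquivE416.mem_preC_perm hΦ hε]
      simpa using hk
    · rintro ⟨j, hj, rfl⟩
      exact (EquivE416.mem_preC_perm hΦ hε w σ _ i j).1 hj
  · rw [if_neg h, if_neg (fun h' => h ((cmeet_perm hΦ hε K T w σ l i).1 h'))]
    simp

theorem self_mem_preC (w : Config n) (u : ℝ) (q : Fin n) : q ∈ preC Φ ε w u q := by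
  unfold preC
  rw [Finset.mem_filter]
  exact ⟨Finset.mem_univ _, Or.inl rfl⟩

theorem self_mem_clM (K : ℕ) (T : ℝ) (w : Config n) (i : Fin n) (l : ML)
    (h : (clM Φ ε K T n w i l).Nonempty) : i ∈ clM Φ ε K T n w i l := by
  unfold clM at h ⊢
  by_cases hc : CMeet Φ ε K T w l i
  · rw [if_pos hc]
    exact self_mem_preC w _ i
  · rw [if_neg hc] at h
    exact absurd h Finset.not_nonempty_empty


/-- **The cluster map of the one-contact step.** -/
theorem pClusterMap_clM (hΦ : AdmissiblePotential Φ) (hε : 0 < ε) (K : ℕ) (T : ℝ) :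
    OC285.PClusterMap (α := ML) ε (clM Φ ε K T) where
  self_mem n Z i a _ h := self_mem_clM K T Z i a h
  equiv n σ Z i a _ := clM_perm hΦ hε K T Z σ a i
  meas n i B := measurableSet_clM hΦ hε K T n i B

end perm

/-! ### Contact data of a tree and a line -/

section data

variable {ε : ℝ} {P : CTree} {Ω : Type*} [MeasurableSpace Ω]

theorem measurable_relL_of {z : Ω → PhasePoint × Par P} (hz : Measurable z) {l : Ω → ML}
    (hl : Measurable l) : Measurable fun ω => OneC423.relL (z ω).1 (l ω).1 := by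
  have h0 : Measurable fun ω => (z ω).1 := measurable_fst.comp hz
  have h2 : Measurable fun ω => (l ω).1 := measurable_fst.comp hl
  exact OneC423.measurable_relL.comp (f := fun ω => ((z ω).1, (l ω).1)) (h0.prodMk h2)

theorem measurable_cT_of (ε : ℝ) {z : Ω → PhasePoint × Par P} (hz : Measurable z) {l : Ω → ML}
    (hl : Measurable l) : Measurable fun ω => cT ε (z ω) (l ω) :=
  (OC663.measurable_entT ε).comp (measurable_relL_of hz hl)

theorem measurable_cB_of (ε : ℝ) {z : Ω → PhasePoint × Par P} (hz : Measurable z) {l : Ω → ML}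
    (hl : Measurable l) : Measurable fun ω => cB ε (z ω) (l ω) :=
  (OC663.measurable_entB ε).comp (measurable_relL_of hz hl)

theorem measurable_cD_of (ε : ℝ) {z : Ω → PhasePoint × Par P} (hz : Measurable z) {l : Ω → ML}
    (hl : Measurable l) : Measurable fun ω => cD ε (z ω) (l ω) :=
  hl.fst.snd.snd.prodMk (hz.fst.snd.prodMk (measurable_cB_of ε hz hl))




theorem measurable_cD (ε : ℝ) (P : CTree) :
    Measurable fun q : (PhasePoint × Par P) × ML => cD ε q.1 q.2 :=
  measurable_cD_of ε measurable_fst measurable_snd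



end data

end Crest.Agent.R122.MeasOC434

end
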