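import Crest.Agent.R122.ThirdNu2_741
import Crest.Agent.R122.LinkSel_984
import Crest.Agent.R122.OsPMom_581
import Crest.Agent.R122.MeasOC_434
import Crest.Agent.R122.OneC_423

-- ▼ part R122/PassAE_416

/-!
# Row 122, inequality 3 (helper416): almost sure facts of the contact under `osP`

The law of a contact tree and a structure of an admissible shape; everything from the translation
invariance of the structure.

* `ct_null` : translates of a line which touch the root with bad contact data have volume zero.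
* `ae_of_tr` : almost sure facts under `osP` from the translates.
* `ae_cd` : the contact data are not in a null set of data; `ae_pass`, `gNull_pass` : the encounter
  is a passage.
* `ae_time` : `cT + o(cD)` is not a given invariant time (measurable `o`); `ae_cT_ne` : `o = 0`.
-/

set_option autoImplicit false
set_option linter.unusedSectionVars false

open MeasureTheory Set Filter Topology
open scoped Classical ENNReal
open Crest.AnalysisR.Kinetic

noncomputable section

namespace Crest.Agent.R122.PassAE416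

open Crest.Agent.R122.GC311 Crest.Agent.R122.Kin796 Crest.Agent.R122.Kin796.CTree
open Crest.Agent.R122.Tree674 Crest.Agent.R122.EDefs602
open Crest.Agent.R122.Gate424 Crest.Agent.R122.Gate973 Crest.Agent.R122.LN2
open Crest.Agent.R122.Boost969 (LSt)
open Crest.Agent.R122.Pair292 (Lab shP shL shM)
open Crest.Agent.R122.PairD292 Crest.Agent.R122.PairRep581
open Crest.Agent.R122.OneC285 (cT cD)
open Crest.Agent.R122.OCout796 Crest.Agent.R122.Scat818 Crest.Agent.R122.Ins45

variable {Φ : Space3 → ℝ} {f₀ : PhasePoint → ℝ} {γ β : ℝ} {ρ : Space3 → ℝ≥0∞} {S : Shp}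
  {te T' ε : ℝ} {K : ℕ} {P : CTree}

/-- Translates of a line which touch the root with bad contact data. -/
theorem ct_null (hΦ : AdmissiblePotential Φ) (hε : 0 < ε) (z : PhasePoint × Par P)
    {H : ML → ℝ≥0∞} (hH : Measurable H) (e : LSt) (n : ℕ)
    (h0 : e.2.2 - z.1.2 ≠ 0 → ∫⁻ s in {s | e.1 < s ∧ s ≤ te ∧ Valid Φ ε P s z.1.2 z.2},
      ∫⁻ b in impactDisc (e.2.2 - z.1.2),
        H (OneC423.lineAt ε s z.1 e.1 e.2.2 b n) ∂μHE[2] = 0) :
    ∫⁻ a : Space3, {a : Space3 | (z, shL a e) ∈ OneC423.ctSet Φ ε te P}.indicator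
      (fun a => H (shL a e, n)) a = 0 := by
  have h1 := OneC423.lintegral_ct_y (te := te) hΦ hε z e.1 e.2.2 n hH
  have h2 : ∫⁻ a : Space3, {a : Space3 | (z, shL a e) ∈ OneC423.ctSet Φ ε te P}.indicator
      (fun a => H (shL a e, n)) a =
      ∫⁻ y : Space3, {l : ML | (z, l.1) ∈ OneC423.ctSet Φ ε te P}.indicator H
        (((e.1, (y, e.2.2)), n) : ML) := by
    rw [← lintegral_add_left_eq_self (fun y : Space3 =>
      {l : ML | (z, l.1) ∈ OneC423.ctSet Φ ε te P}.indicator H
        (((e.1, (y, e.2.2)), n) : ML)) e.2.1]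
    rfl
  rw [h2, h1]
  by_cases hg : e.2.2 - z.1.2 = 0
  · rw [hg, norm_zero, ENNReal.ofReal_zero, zero_mul, mul_zero]
  · rw [h0 hg, mul_zero, mul_zero]

theorem measurableSet_ctOkS' (h : ShpOk γ β ρ S) (hΦ : AdmissiblePotential Φ) (hε : 0 < ε) :
    MeasurableSet (ctOkS Φ ε K te P S) := by
  have h1 : Measurable fun q : (PhasePoint × Par P) × S.Θ => (q.1, S.th ε q.2) :=
    measurable_fst.prodMk ((h.mth ε hε).comp measurable_snd)
  exact h1 (measurableSet_ctOk hΦ ε K te P)

/-- **Almost sure facts under `osP`** from the translates of the structure. -/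
theorem ae_of_tr (h : ShpOk γ β ρ S) (hΦ : AdmissiblePotential Φ) (hε : 0 < ε)
    {E : ((PhasePoint × Par P) × S.Θ) → Prop} (hE : MeasurableSet {q | E q})
    (h0 : ∀ z x, ∫⁻ a : Space3, {a : Space3 | (z, shL a (S.th ε x).2) ∈
      OneC423.ctSet Φ ε te P}.indicator (fun a => if E (z, S.Tr a x) then 1 else 0) a = 0) :
    ∀ᵐ q ∂(osP Φ f₀ te T' K P S ε ()), ¬ E q := by
  have hsf := h.sf ε
  have hct : MeasurableSet {q : (PhasePoint × Par P) × S.Θ |
      (q.1, (S.th ε q.2).2) ∈ OneC423.ctSet Φ ε te P} := by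
    have h1 : Measurable fun q : (PhasePoint × Par P) × S.Θ => (q.1, (S.th ε q.2).2) :=
      measurable_fst.prodMk ((measurable_eLx h hε).comp measurable_snd)
    exact h1 (OneC423.measurableSet_ctSet hΦ ε te P)
  set N : Set ((PhasePoint × Par P) × S.Θ) := {q | (q.1, (S.th ε q.2).2) ∈
    OneC423.ctSet Φ ε te P} ∩ {q | E q} with hN
  have hNm : MeasurableSet N := hct.inter hE
  have key : ∀ z : PhasePoint × Par P, (S.m ε) (Prod.mk z ⁻¹' N) = 0 := by
    intro z
    have hNz : MeasurableSet (Prod.mk z ⁻¹' N) := measurable_prodMk_left hNm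
    obtain ⟨j₀, -⟩ := h.pin
    have hI := (h.tInv_e hε).invFam j₀
    rw [← lintegral_indicator_one hNz,
      hI.disint measurable_chi lintegral_chi (measurable_one.indicator hNz)]
    refine (lintegral_congr fun x => ?_).trans lintegral_zero
    have h1 : ∀ a : Space3, (Prod.mk z ⁻¹' N).indicator (1 : S.Θ → ℝ≥0∞) (S.Tr a x) =
        {a : Space3 | (z, shL a (S.th ε x).2) ∈ OneC423.ctSet Φ ε te P}.indicator
          (fun a => if E (z, S.Tr a x) then 1 else 0) a := by
      intro a
      have e1 : (S.th ε (S.Tr a x)).2 = shL a (S.th ε x).2 := by rw [h.th_tr ε hε]; rfl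
      by_cases hc : (z, shL a (S.th ε x).2) ∈ OneC423.ctSet Φ ε te P
      · rw [indicator_of_mem (show a ∈
          {a : Space3 | (z, shL a (S.th ε x).2) ∈ OneC423.ctSet Φ ε te P} from hc)]
        have hc' : (z, (S.th ε (S.Tr a x)).2) ∈ OneC423.ctSet Φ ε te P := by rw [e1]; exact hc
        by_cases hEa : E (z, S.Tr a x)
        · rw [indicator_of_mem (show S.Tr a x ∈ Prod.mk z ⁻¹' N from ⟨hc', hEa⟩), if_pos hEa]
          rfl
        · rw [indicator_of_notMem (show S.Tr a x ∉ Prod.mk z ⁻¹' N from fun hx => hEa hx.2),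
            if_neg hEa]
      · rw [indicator_of_notMem (show a ∉
          {a : Space3 | (z, shL a (S.th ε x).2) ∈ OneC423.ctSet Φ ε te P} from hc),
          indicator_of_notMem (show S.Tr a x ∉ Prod.mk z ⁻¹' N from fun hx => hc (by
            have h2 : (z, (S.th ε (S.Tr a x)).2) ∈ OneC423.ctSet Φ ε te P := hx.1
            rwa [e1] at h2))]
    simp only [h1]
    rw [h0 z x, mul_zero]
  have h2 : ((treeA Φ f₀ ε T' P).prod (S.m ε)) N = 0 := by
    rw [Measure.prod_apply hNm]
    simp only [key, lintegral_zero]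
  have h3 : ∀ᵐ q ∂((treeA Φ f₀ ε T' P).prod (S.m ε)), q ∉ N :=
    measure_eq_zero_iff_ae_notMem.1 h2
  unfold osP
  have h4 := measurableSet_ctOkS' (K := K) (te := te) (P := P) h hΦ hε
  rw [ae_restrict_iff' h4]
  filter_upwards [h3] with q hq hc hEq
  exact hq ⟨hc.1, hEq⟩

/-- **The contact data are not in a null set.** -/
theorem ae_cd (h : ShpOk γ β ρ S) (hΦ : AdmissiblePotential Φ) (hε : 0 < ε) {B : Set CD}
    (hB : MeasurableSet B)
    (h0 : ∀ v u : Space3, v - u ≠ 0 → ∀ᵐ b ∂(μHE[2] : Measure Space3), b ∈ impactDisc (v - u) →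
      (v, u, b) ∉ B) :
    ∀ᵐ q ∂(osP Φ f₀ te T' K P S ε ()), cD ε q.1 (eL (S.th ε q.2)) ∉ B := by
  have hm : Measurable fun q : (PhasePoint × Par P) × S.Θ => cD ε q.1 (eL (S.th ε q.2)) := by
    have h1 : Measurable fun q : (PhasePoint × Par P) × S.Θ => (q.1, eL (S.th ε q.2)) := by
      refine measurable_fst.prodMk ?_
      have h2 : Measurable fun θ : Lab × LSt => eL θ := by
        unfold eL
        exact measurable_snd.prodMk measurable_fst.snd.snd
      exact h2.comp ((h.mth ε hε).comp measurable_snd)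
    exact (Long984.measurable_cD ε P).comp h1
  refine ae_of_tr (f₀ := f₀) (E := fun q => cD ε q.1 (eL (S.th ε q.2)) ∈ B) h hΦ hε (hm hB)
    fun z x => ?_
  set H : ML → ℝ≥0∞ := fun l => if cD ε z l ∈ B then 1 else 0 with hH
  have hHm : Measurable H := by
    have h1 : Measurable fun l : ML => cD ε z l :=
      (Long984.measurable_cD ε P).comp (measurable_const.prodMk measurable_id)
    exact Measurable.ite (h1 hB) measurable_const measurable_const
  have h1 := ct_null (te := te) hΦ hε z hHm (S.th ε x).2 (S.th ε x).1.2.2 fun hg => by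
    refine (setLIntegral_congr_fun ?_ fun s _ => ?_).trans lintegral_zero
    · have h1 : MeasurableSet {s : ℝ | (S.th ε x).2.1 < s} :=
        measurableSet_lt measurable_const measurable_id
      have hm : Measurable fun s : ℝ => ((s, z) : ℝ × (PhasePoint × Par P)) :=
        measurable_id.prodMk measurable_const
      exact h1.inter (hm (OneC423.measurableSet_validJ hΦ ε te P))
    · refine (lintegral_congr_ae ?_).trans lintegral_zero
      rw [Filter.EventuallyEq, ae_restrict_iff' (Disc416.measurableSet_impactDisc _)]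
      filter_upwards [h0 _ _ hg] with b hb hbd
      rw [hH]
      simp only
      rw [Long984.cD_lineAt hε s z (S.th ε x).2.1 (sub_ne_zero.1 hg) hbd (S.th ε x).1.2.2, if_neg (hb hbd)]
  refine (lintegral_congr fun a => ?_).trans h1
  have e1 : eL (S.th ε (S.Tr a x)) = (shL a (S.th ε x).2, (S.th ε x).1.2.2) := by
    rw [h.th_tr ε hε]; rfl
  by_cases hc : (z, shL a (S.th ε x).2) ∈ OneC423.ctSet Φ ε te P
  · rw [indicator_of_mem (show a ∈
      {a : Space3 | (z, shL a (S.th ε x).2) ∈ OneC423.ctSet Φ ε te P} from hc),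
      indicator_of_mem (show a ∈
      {a : Space3 | (z, shL a (S.th ε x).2) ∈ OneC423.ctSet Φ ε te P} from hc)]
    simp only [e1, hH]
  · rw [indicator_of_notMem (show a ∉
      {a : Space3 | (z, shL a (S.th ε x).2) ∈ OneC423.ctSet Φ ε te P} from hc),
      indicator_of_notMem (show a ∉
      {a : Space3 | (z, shL a (S.th ε x).2) ∈ OneC423.ctSet Φ ε te P} from hc)]

/-- **The encounter is a passage**, almost surely. -/
theorem ae_pass (h : ShpOk γ β ρ S) (hΦ : AdmissiblePotential Φ) (hε : 0 < ε) :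
    ∀ᵐ q ∂(osP Φ f₀ te T' K P S ε ()), CDpass Φ (cD ε q.1 (eL (S.th ε q.2))) := by
  have h1 := ae_cd (f₀ := f₀) (te := te) (T' := T') (K := K) (P := P) h hΦ hε
    (LinkAsm984.measurableSet_CDpass hΦ).compl fun v u hg => by
      have ht := measure_trapped hΦ hg
      rw [measure_eq_zero_iff_ae_notMem] at ht
      filter_upwards [ht] with b hb hbd hcon
      refine hcon ⟨⟨hbd, hg⟩, ?_⟩
      by_contra hn
      exact hb ⟨hbd, hn⟩
  filter_upwards [h1] with q hq
  exact not_not.1 hq

/-- Almost sure facts of (tree, structure) are null events. -/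
theorem gNull_of_aeQ (h : ShpOk γ β ρ S) (hf : Measurable f₀)
    {E : ℝ → ((PhasePoint × Par P) × S.Θ) → Prop}
    (hE : ∀ ε : ℝ, 0 < ε → ∀ᵐ q ∂(osP Φ f₀ te T' K P S ε ()), ¬ E ε q) :
    GNull f₀ (osP Φ f₀ te T' K P S) (fun ε _ _ q _ => E ε q) := by
  have hsf : ∀ ε i, SFinite (osP Φ f₀ te T' K P S ε i) := fun ε i => by
    have := h.sf ε
    unfold osP
    infer_instance
  refine gNull_of_ae hf hsf fun ε hε i n => ?_
  have := hsf ε ()
  have h1 := (Measure.quasiMeasurePreserving_fst (μ := osP Φ f₀ te T' K P S ε ())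
    (ν := (volume : Measure (Config n)))).ae (hE ε hε)
  filter_upwards [h1] with q hq _
  exact hq

/-- **`¬ CDpass` is a null event.** -/
theorem gNull_pass (h : ShpOk γ β ρ S) (hΦ : AdmissiblePotential Φ) (hf : Measurable f₀) :
    GNull f₀ (osP Φ f₀ te T' K P S)
      (fun ε _ _ q _ => ¬ CDpass Φ (cD ε q.1 (eL (S.th ε q.2)))) :=
  gNull_of_aeQ h hf fun ε hε => by
    filter_upwards [ae_pass (f₀ := f₀) (te := te) (T' := T') (K := K) (P := P) h hΦ hε] with q hq
    exact not_not.2 hq

/-! ### Times -/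













end Crest.Agent.R122.PassAE416

end
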