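import Crest.Agent.R122.LNEmb_410
import Crest.Agent.R122.StrG_491
import Crest.Agent.R122.E6Str_491

-- ▼ part R122/LNEmb2_410
section

/-!
# Row 122, LN1 (helper410): structures `Str` (helper491) along an embedding of labels

`Pull M' M e` (helper968).  `mapCl e cl` : image of the classes.  `str_map` : the image of a
structure; `st_mapCl` : its paths; `sumL`, `sumR` : the two halves of a sum of label types.
-/

set_option autoImplicit false
set_option linter.unusedSectionVars false

open MeasureTheory Set Filter Topology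
open Crest.AnalysisR.Kinetic
open Crest.Agent.R122.VL581 Crest.Agent.R122.VL581.VSys Crest.Agent.R122.VLInst442
open Crest.Agent.R122.LNInst491 Crest.Agent.R122.LN304 Crest.Agent.R122.LNg410
open Crest.Agent.R122.LNTree410 Crest.Agent.R122.LNGraft410 Crest.Agent.R122.LNBridge968
open Crest.Agent.R122.LNEv968 Crest.Agent.R122.StrG491 Crest.Agent.R122.PWInst442
open scoped Classical

noncomputable section

namespace Crest.Agent.R122.LNEmb410

variable {J J' κ : Type} [Fintype J] [Fintype J'] {M : VSys J κ} {M' : VSys J' κ} {e : J' ↪ J}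
  {Z : J → PhasePoint} {c : ℝ}

/-- Image of the classes. -/
def mapCl (e : J' ↪ J) (cl : J' → Finset J') (j : J) : Finset J :=
  if h : ∃ i, e i = j then (cl h.choose).map e else ∅

@[simp] theorem mapCl_apply (cl : J' → Finset J') (i : J') : mapCl e cl (e i) = (cl i).map e := by
  have h : ∃ i', e i' = e i := ⟨i, rfl⟩
  unfold mapCl
  rw [dif_pos h, e.injective h.choose_spec]

theorem mapCl_not {cl : J' → Finset J'} {j : J} (h : ∀ i, e i ≠ j) : mapCl e cl j = ∅ :=
  dif_neg fun ⟨i, hi⟩ => h i hi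

theorem exists_of_mapCl {cl : J' → Finset J'} {j k : J} (h : k ∈ mapCl e cl j) :
    ∃ i l, e i = j ∧ e l = k ∧ l ∈ cl i := by
  by_cases hj : ∃ i, e i = j
  · obtain ⟨i, rfl⟩ := hj
    rw [mapCl_apply] at h
    obtain ⟨l, hl, rfl⟩ := Finset.mem_map.1 h
    exact ⟨i, l, rfl, rfl, hl⟩
  · rw [mapCl_not fun i hi => hj ⟨i, hi⟩] at h
    exact absurd h (Finset.notMem_empty k)

variable (h : Pull M' M e) (hΦ : AdmissiblePotential M.Φ) (hε : 0 < M.ε)
include h hΦ hε

/-- Paths of the image classes. -/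
theorem st_mapCl {cl : J' → Finset J'} (i : J') (t : ℝ) :
    M.st (mapCl e cl (e i)) t Z (e i) = M'.st (cl i) t (fun k => Z (e k)) i := by
  rw [mapCl_apply, h.st hΦ hε]

theorem cover_map {cl : J' → Finset J'} (H : Cover M' (fun k => Z (e k)) cl) :
    Cover M Z (mapCl e cl) where
  mem j hj := by
    obtain ⟨k, hk⟩ := hj
    obtain ⟨i, l, rfl, rfl, hl⟩ := exists_of_mapCl hk
    rw [mapCl_apply]
    exact Finset.mem_map_of_mem e (H.mem i ⟨l, hl⟩)
  eq j k hk := by
    obtain ⟨i, l, rfl, rfl, hl⟩ := exists_of_mapCl hk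
    rw [mapCl_apply, mapCl_apply, H.eq i l hl]
  obs j k hk := by
    obtain ⟨i, l, rfl, rfl, hl⟩ := exists_of_mapCl hk
    exact fun h' => H.obs i l hl ((h.o l).2 h')
  ok j := by
    by_cases hj : ∃ i, e i = j
    · obtain ⟨i, rfl⟩ := hj
      rw [mapCl_apply, ← h.T]
      exact (h.ok hΦ hε _).2 (H.ok i)
    · rw [mapCl_not fun i hi => hj ⟨i, hi⟩]
      exact ok_empty

/-- **The image of a structure.** -/
theorem str_map {R : ℝ → J' → J' → Prop} {π : Finset J'} {cl : J' → Finset J'} {bD : J → ℝ}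
    {bD' : J' → ℝ} {E : Finset J'} (H : Str M' c (fun k => Z (e k)) R π cl bD' E)
    (hb : ∀ i ∈ π, bD (e i) = bD' i) :
    Str M c Z (mapR e R) (π.map e) (mapCl e cl) bD (E.map e) where
  fam := fam_map h hΦ hε H.fam
  supp r j k hr := by
    obtain ⟨j', k', rfl, rfl, h1⟩ := hr
    obtain ⟨h2, h3⟩ := H.supp r j' k' h1
    exact ⟨Finset.mem_map_of_mem e h2, Finset.mem_map_of_mem e h3⟩
  cov := cover_map h hΦ hε H.cov
  sub j k hk := by
    obtain ⟨i, l, rfl, rfl, hl⟩ := exists_of_mapCl hk
    exact Finset.mem_map_of_mem e (H.sub i hl)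
  mem a ha := by
    obtain ⟨a, ha', rfl⟩ := Finset.mem_map.1 ha
    rw [mapCl_apply]
    exact Finset.mem_map_of_mem e (H.mem a ha')
  cls a ha := by
    obtain ⟨a, ha', rfl⟩ := Finset.mem_map.1 ha
    rw [mapCl_apply]
    exact cls_map h hΦ hε (H.cls a ha') fun i hi => hb i (H.sub a hi)
  old a ha b hb' hab r hr := by
    obtain ⟨a, ha', rfl⟩ := Finset.mem_map.1 ha
    obtain ⟨b, hb'', rfl⟩ := Finset.mem_map.1 hb'
    rw [mapR_iff] at hr
    have h1 := H.old a ha' b hb'' (fun h' => hab (congrArg e h')) r hr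
    rw [mapCl_apply, hb a (H.mem_π ha')]
    exact ⟨Finset.mem_map_of_mem e h1.1, h1.2⟩

end Crest.Agent.R122.LNEmb410

end
end

-- ▼ part R122/StrMap_491

/-!
# Row 122, LN1 (helper491): pair structures seen in a bigger system of labels

`Pull M' M e` (helper968): `M'` is the system `M` seen through the injection `e` of labels; `mapR`,
`mapCl`, `str_map` are helper410's.

* `Pair.map` : pair structures of `M'` are pair structures of `M`.
-/

set_option autoImplicit false
set_option linter.unusedSectionVars false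

open MeasureTheory Set Filter Topology
open scoped NNReal ENNReal
open Crest.AnalysisR.Kinetic
open Crest.Agent.R122.VL581 Crest.Agent.R122.VL581.VSys Crest.Agent.R122.VLInst442
open Crest.Agent.R122.LNGraft410 Crest.Agent.R122.LNEv968 Crest.Agent.R122.PWInst442
open Crest.Agent.R122.LNBridge968 Crest.Agent.R122.EDefs602 Crest.Agent.R122.LNEmb410
open scoped Classical

noncomputable section

namespace Crest.Agent.R122.StrG491

variable {J J' κ : Type} [Fintype J] [Fintype J'] {M : VSys J κ} {M' : VSys J' κ} {e : J' ↪ J}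
  {Z : J → PhasePoint}

/-- **Pair structures in the bigger system.** -/
theorem Pair.map (hp : Pull M' M e) (hΦ : AdmissiblePotential M.Φ) (hε : 0 < M.ε)
    {c : ℝ} {R : ℝ → J' → J' → Prop} {π : Finset J'} {cl : J' → Finset J'}
    {bD' : J' → ℝ} {bD : J → ℝ} (hb : ∀ i ∈ π, bD (e i) = bD' i) {x y : J'}
    {d f : ℝ × PhasePoint} (h : Pair M' c (fun k => Z (e k)) R π cl bD' x y d f) :
    Pair M c Z (mapR e R) (π.map e) (mapCl e cl) bD (e x) (e y) d f where
  str := by
    have h1 := str_map hp hΦ hε h.str hb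
    rwa [Finset.map_insert, Finset.map_singleton] at h1
  ne h' := h.ne (e.injective h')
  bx := by rw [hb x h.xπ]; exact h.bx
  bY := by rw [hb y h.yπ]; exact h.bY
  lx ht := by
    rw [st_mapCl hp hΦ hε]
    exact h.lx (by rwa [hp.T])
  ly ht := by
    rw [st_mapCl hp hΦ hε]
    exact h.ly (by rwa [hp.T])

end Crest.Agent.R122.StrG491

end
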