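import Crest.Agent.R122.LNS3_674
import Crest.Agent.R122.E6Str_491
import Crest.Agent.R122.E6Facts_879
import Crest.Agent.R122.LNS1_674
import Crest.Agent.R122.StrMap_491
import Crest.Agent.R122.PTreeOf_331
import Crest.Agent.R122.LNCls_515
import Crest.Agent.R122.PWBirth_365
import Crest.Agent.R122.LNStr_968
import Crest.Agent.R122.XClean_547
import Crest.Agent.R122.LNReachGD_818
import Crest.Agent.R122.XDet_692
import Crest.Agent.R122.XMap_547
import Crest.Agent.R122.LNRetT_383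
import Crest.Agent.R122.LKok_416
import Crest.Agent.R122.OkInd_942
import Crest.Agent.R122.NuHitS_969
import Crest.Agent.R122.NuLBind_85
import Crest.Agent.R122.NuOk_735
import Crest.Agent.R122.PassAE_416

-- ▼ part R122/LNS3a_304
section

/-!
# Row 122, LN1 (helper304): the families `lineML`, `d` of inequality 3

* `cleanB_sep` : births are clean if no two labels of the derived world are in one class and all
  exits are in one tree-like part.
* `one_of_str` : one structure which is one part, from a `Str`.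
* `exits_cfg`, `exits_ins` : exits over `cfg w`, over `(cfg w).ins d`, from a `Str`.
* `one0`, `exits0`, `exits1` : the structure of inequality 3 (`PTree` of helper491), exits over
  `cfg w` (family `withD (lineML ..) d`) and over `(cfg w).ins d` (family `lineML`).
* `nl0_det`, `nl1_det` : the fields `nl₀`, `nl₁` of `E6Hyp` off the bad events.
-/

set_option autoImplicit false
set_option linter.unusedSectionVars false

open MeasureTheory Set Filter Topology
open scoped NNReal ENNReal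
open Crest.AnalysisR.Kinetic
open Crest.Agent.R122.Loc45 Crest.Agent.R122.Ins45 Crest.Agent.R122.EDefs602
open Crest.Agent.R122.VL581 Crest.Agent.R122.VL581.VSys Crest.Agent.R122.VLInst442
open Crest.Agent.R122.LN304 Crest.Agent.R122.LNg410 Crest.Agent.R122.LNEv968
open Crest.Agent.R122.PWGlue491 Crest.Agent.R122.PWInst442 Crest.Agent.R122.LNPart424
open Crest.Agent.R122.MWFam255 Crest.Agent.R122.LNEv818 Crest.Agent.R122.LNS674
open Crest.Agent.R122.Kin796 Crest.Agent.R122.Kin796.CTree Crest.Agent.R122.LNTree410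
open Crest.Agent.R122.TreeLines335 Crest.Agent.R122.E6Hyp879 Crest.Agent.R122.Tree674
open Crest.Agent.R122.PathFlow968
open Crest.Agent.R122.StrG491 (Str joinR clSep RC PTree Pair)
open Crest.Agent.R122.OneC285 (cT cB cD cX)
open scoped Classical

noncomputable section

namespace Crest.Agent.R122.LNS3a304

/-! ### Clean births -/

section cb

variable {J κ : Type} [Fintype J] {M : VSys J κ} {Z : J → PhasePoint} {Sp : J → Finset J}
  {bD : J → ℝ} {A : Finset J} {XD : ℝ → J → PhasePoint} {c ℓ ς : ℝ} {π : Finset J}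
  {R : ℝ → J → J → Prop}

/-- **Clean births**: no two labels of the derived world are in one class, all exits are in one
tree-like part. -/
theorem cleanB_sep [Nonempty κ] (H : GD M Z Sp bD A XD) (hc : 1 ≤ c) (hε : 0 < M.ε)
    (hℓς : 2 * ℓ ≤ ς) (hF : Fam M c Z π R) (hcn : M.Conn c π Z) (hT : TL M c ℓ ς π Z)
    (hgas : ∀ j ∈ A, Sp j = ∅ → bD j ≤ 0) (hsub : ∀ j ∈ A, (Sp j).Nonempty → Sp j ⊆ π)
    (hone : ∀ i ∈ A, ∀ j ∈ A, j ∈ Sp i → i = j)
    (hold : ∀ i ∈ A, ∀ j ∈ A, i ≠ j → i ∈ π → j ∈ π → ∀ r, R r i j → j ∈ Sp i)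
    {u : ℝ} (hu : u ≤ M.T) : PW365.CleanB M Z Sp bD A XD u := by
  refine PW365.cleanB_of H (fun y hy _ e he hey hne _ j _ => absurd (hone y hy e he hey).symm hne)
    ?_
  intro i hi hSi hbu hpos j hj hij hb hjS
  by_contra hcon
  rw [not_lt] at hcon
  have hSj : (Sp j).Nonempty := by
    by_contra hne
    rw [Finset.not_nonempty_iff_eq_empty] at hne
    exact absurd (hgas j hj hne) (not_le.2 (hb ▸ hpos))
  have hiS := H.mem i hSi
  have hjS' := H.mem j hSj
  have h1 : XD (bD i) i = M.st (Sp i) (bD i) Z i := H.hand i hi hSi (hbu.trans hu)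
  have h2 : XD (bD i) j = M.st (Sp j) (bD i) Z j := by
    rw [hb]
    exact H.hand j hj hSj (hb ▸ hbu.trans hu)
  rw [h1, h2] at hcon
  have hv : M.VCt c π i j (bD i) Z :=
    LNGraft410.vct_st hc hε (hsub i hi hSi) (hsub j hj hSj) hiS hjS'
      (ok_anti (hbu.trans hu) (H.ok i)) (ok_anti (hbu.trans hu) (H.ok j))
      (H.obsA i hi) (H.obsA j hj) hcon
  obtain ⟨r, _, hRr, _⟩ := window hF hT hcn subset_rfl hℓς (hsub i hi hSi hiS)
    (hsub j hj hSj hjS') (Ne.symm hij) ⟨hpos.le, hbu.trans hu⟩ hv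
  exact hjS (hold i hi j hj hij (hsub i hi hSi hiS) (hsub j hj hSj hjS') r hRr)

end cb

/-! ### One structure from a `Str` -/

section one

variable {σ ι μ : Type} [Fintype σ] [Fintype ι] [Fintype μ] {n : ℕ} {Φ : Space3 → ℝ} {T te ε c ℓ ς : ℝ}
  {b : σ → ℝ} {V : σ → PhasePoint} {w : Config n} {R : ℝ → Fin n ⊕ σ → Fin n ⊕ σ → Prop}
  {cl : Fin n ⊕ σ → Finset (Fin n ⊕ σ)} {bE : Fin n ⊕ σ → ℝ} {E : Finset (Fin n ⊕ σ)}

/-- One structure which is one part. -/
theorem one_of_str (hpe : w ∈ PairExcluded ε n)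
    (h : Str (gsys Φ T ε n b) c (Sum.elim w V) R (pS n σ) cl bE E) :
    One Φ T ε c b V w cl R where
  base :=
    { gas_b := fun _ => le_rfl
      gas_o := fun _ h => by cases h
      gas_cl := fun i => h.cl_empty (inl_not_mem_pS i)
      cover := h.cov }
  pe := hpe
  fam := h.fam

/-- Clean births from a `Str`, no two exits of one class. -/
theorem cb_of_str (h : Str (gsys Φ T ε n b) c (Sum.elim w V) R (pS n σ) cl bE E) (hc : 1 ≤ c)
    (hε : 0 < ε) (hℓς : 2 * ℓ ≤ ς) (hT : TL (gsys Φ T ε n b) c ℓ ς (pS n σ) (Sum.elim w V))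
    {W : MW ι} {f : ι ↪ Fin n ⊕ σ}
    (H : GD (gsys Φ T ε n b) (Sum.elim w V) cl (bD W f) (labs f) (XD W f Φ ε))
    (hb : ∀ i, f i ∉ pS n σ → W.b i ≤ 0) (hE : ∀ i, f i ∈ pS n σ → f i ∈ E)
    (hone : ∀ i j, f i ∈ E → f j ∈ cl (f i) → i = j) (hte : te ≤ T) :
    PW365.CleanB (gsys Φ T ε n b) (Sum.elim w V) cl (bD W f) (labs f) (XD W f Φ ε) te := by
  refine cleanB_sep (R := R) (π := pS n σ) H hc hε hℓς h.fam h.conn hT ?_ (fun j _ _ => h.sub j)
    ?_ ?_ hte
  · intro j hj hS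
    obtain ⟨i, rfl⟩ := (mem_labs f).1 hj
    rw [bD_apply]
    refine hb i fun hi => ?_
    have h1 := h.mem _ (hE i hi)
    rw [hS] at h1
    exact Finset.notMem_empty _ h1
  · intro j hj k hk hjk
    obtain ⟨i, rfl⟩ := (mem_labs f).1 hj
    obtain ⟨i', rfl⟩ := (mem_labs f).1 hk
    have h1 : f i ∈ pS n σ := h.sub _ (h.cov.mem _ ⟨_, hjk⟩)
    rw [hone i i' (hE i h1) hjk]
  · intro j hj k hk hjk hjπ hkπ r hr
    obtain ⟨i, rfl⟩ := (mem_labs f).1 hj
    obtain ⟨i', rfl⟩ := (mem_labs f).1 hk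
    exact (h.old _ (hE i hjπ) _ (hE i' hkπ) hjk r hr).1

/-- The line `l` is the exit with label `x` of the structure. -/
structure On (M : VSys (Fin n ⊕ σ) Unit) (Z : Fin n ⊕ σ → PhasePoint)
    (cl : Fin n ⊕ σ → Finset (Fin n ⊕ σ)) (bE : Fin n ⊕ σ → ℝ) (E : Finset (Fin n ⊕ σ)) (x : σ)
    (l : ML) : Prop where
  mem : Sum.inr x ∈ E
  b : l.1.1 = bE (Sum.inr x)
  st : l.1.1 ≤ M.T → M.st (cl (Sum.inr x)) l.1.1 Z (Sum.inr x) = l.1.2

variable {ls : μ → ML} {p : μ → σ}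

/-- **Exits over `cfg w`.** -/
theorem exits_cfg (h : Str (gsys Φ T ε n b) c (Sum.elim w V) R (pS n σ) cl bE E)
    (hpe : w ∈ PairExcluded ε n) (hΦ : AdmissiblePotential Φ) (hε : 0 < ε) (hc : 1 ≤ c)
    (hℓς : 2 * ℓ ≤ ς) (hT : TL (gsys Φ T ε n b) c ℓ ς (pS n σ) (Sum.elim w V)) (hte : te ≤ T)
    (hp : Function.Injective p)
    (hls : ∀ x, On (gsys Φ T ε n b) (Sum.elim w V) cl bE E (p x) (ls x))
    (hok : MW.OkFam Φ ε (MW.cfg w) ls) :
    Exits Φ T te ε b V w cl R (MW.cfg w) (gasE n σ) ls p := by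
  have h1 := one_of_str hpe h
  have hg1 : ∀ x, ((MW.cfg w).ins (ls x)).Ok Φ ε := fun x => hok.line hΦ hε x
  have g0 := h1.base.gd0 hΦ hε (hok.base hΦ hε)
  have g1 := fun x => h1.base.gd1 hΦ hε (h.lab_line (hls x).mem (hls x).b (hls x).st) (hg1 x)
  refine
    { inj := hp
      out := fun x i => Sum.inl_ne_inr
      mark := fun _ _ => le_rfl
      memC := fun x => h.mem _ (hls x).mem
      memB := fun i hi => absurd hi (inl_not_mem_pS i)
      ok0 := hok.base hΦ hε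
      ok1 := hg1
      gd0 := g0
      gd1 := g1
      cb0 := cb_of_str h hc hε hℓς hT g0 (fun _ _ => le_rfl) (fun i hi => absurd hi (inl_not_mem_pS i))
        (fun i j hi hj => absurd (h.mem_π hi) (inl_not_mem_pS i)) hte
      cb1 := fun x => cb_of_str h hc hε hℓς hT (g1 x) ?_ ?_ ?_ hte
      old := fun x y hxy r hr => ?_
      oldB := fun i j x y hx _ _ _ _ => by cases hx
      oldX := fun x i y hy _ _ => by cases hy }
  · rintro (i | i) hi
    · exact le_rfl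
    · exact absurd (inr_mem_pS _) hi
  · rintro (i | i) hi
    · exact absurd hi (inl_not_mem_pS i)
    · exact (hls x).mem
  · rintro (i | i) (j | j) hi hj
    · exact absurd (h.mem_π hi) (inl_not_mem_pS i)
    · exact absurd (h.mem_π hi) (inl_not_mem_pS i)
    · exact absurd (h.sub _ hj) (inl_not_mem_pS j)
    · rfl
  · have h2 := h.old _ (hls x).mem _ (hls y).mem (fun h' => hxy (hp (Sum.inr_injective h'))) r hr
    rw [(hls x).b]
    exact h2

/-- **Exits over `(cfg w).ins d`**; `d` is the exit with label `x₀`. -/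
theorem exits_ins (h : Str (gsys Φ T ε n b) c (Sum.elim w V) R (pS n σ) cl bE E)
    (hpe : w ∈ PairExcluded ε n) (hΦ : AdmissiblePotential Φ) (hε : 0 < ε) (hc : 1 ≤ c)
    (hℓς : 2 * ℓ ≤ ς) (hT : TL (gsys Φ T ε n b) c ℓ ς (pS n σ) (Sum.elim w V)) (hte : te ≤ T)
    (hp : Function.Injective p)
    (hls : ∀ x, On (gsys Φ T ε n b) (Sum.elim w V) cl bE E (p x) (ls x))
    {x₀ : σ} {d : ML} (hd : On (gsys Φ T ε n b) (Sum.elim w V) cl bE E x₀ d)
    (hx₀ : ∀ x, p x ≠ x₀) (hok : MW.OkFam Φ ε ((MW.cfg w).ins d) ls)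
    (hcb : ∀ x, GD (gsys Φ T ε n b) (Sum.elim w V) cl
        (bD (((MW.cfg w).ins d).ins (ls x)) (lab2 n x₀ (p x) (hx₀ x).symm))
        (labs (lab2 n x₀ (p x) (hx₀ x).symm))
        (XD (((MW.cfg w).ins d).ins (ls x)) (lab2 n x₀ (p x) (hx₀ x).symm) Φ ε) →
      PW365.CleanB (gsys Φ T ε n b) (Sum.elim w V) cl
        (bD (((MW.cfg w).ins d).ins (ls x)) (lab2 n x₀ (p x) (hx₀ x).symm))
        (labs (lab2 n x₀ (p x) (hx₀ x).symm))
        (XD (((MW.cfg w).ins d).ins (ls x)) (lab2 n x₀ (p x) (hx₀ x).symm) Φ ε) te) :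
    Exits Φ T te ε b V w cl R ((MW.cfg w).ins d) (lab1 n x₀) ls p := by
  have h1 := one_of_str hpe h
  have hg1 : ∀ x, (((MW.cfg w).ins d).ins (ls x)).Ok Φ ε := fun x => hok.line hΦ hε x
  have hlab := h.lab_line hd.mem hd.b hd.st
  have g0 := h1.base.gd1 hΦ hε hlab (hok.base hΦ hε)
  have g1 := fun x => h1.base.gd2 hΦ hε (hx₀ x).symm hlab
    (h.lab_line (hls x).mem (hls x).b (hls x).st) (hg1 x)
  refine
    { inj := hp
      out := fun x i => lab1_ne (hx₀ x).symm i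
      mark := ?_
      memC := fun x => h.mem _ (hls x).mem
      memB := ?_
      ok0 := hok.base hΦ hε
      ok1 := hg1
      gd0 := g0
      gd1 := g1
      cb0 := cb_of_str h hc hε hℓς hT g0 ?_ ?_ ?_ hte
      cb1 := fun x => hcb x (g1 x)
      old := fun x y hxy r hr => ?_
      oldB := ?_
      oldX := ?_ }
  · rintro (i | i) hi
    · exact le_rfl
    · exact absurd (inr_mem_pS _) hi
  · rintro (i | i) hi
    · exact absurd hi (inl_not_mem_pS i)
    · exact h.mem _ hd.mem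
  · rintro (i | i) hi
    · exact le_rfl
    · exact absurd (inr_mem_pS _) hi
  · rintro (i | i) hi
    · exact absurd hi (inl_not_mem_pS i)
    · exact hd.mem
  · rintro (i | i) (j | j) hi hj
    · exact absurd (h.mem_π hi) (inl_not_mem_pS i)
    · exact absurd (h.mem_π hi) (inl_not_mem_pS i)
    · exact absurd (h.sub _ hj) (inl_not_mem_pS j)
    · rfl
  · have h2 := h.old _ (hls x).mem _ (hls y).mem (fun h' => hxy (hp (Sum.inr_injective h'))) r hr
    rw [(hls x).b]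
    exact h2
  · rintro (i | i) (j | j) x y hx hy hij
    · cases hx
    · cases hx
    · cases hy
    · exact absurd rfl hij
  · rintro x (i | i) y hy r hr
    · cases hy
    · have hy' : y = x₀ := (Sum.inr_injective hy).symm
      subst hy'
      have hne : (Sum.inr (p x) : Fin n ⊕ σ) ≠ Sum.inr y := fun h' => hx₀ x (Sum.inr_injective h')
      have h2 := h.old _ (hls x).mem _ hd.mem hne r hr
      have h3 := h.old _ hd.mem _ (hls x).mem hne.symm r (h.fam.symm _ _ _ hr)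
      refine ⟨h2.1, ?_, ?_⟩
      · rw [(hls x).b]
        exact h2.2
      · change r ≤ d.1.1
        rw [hd.b]
        exact h3.2

/-- **Exits over `(cfg w).ins d`**, `d` in another class than the lines of the family. -/
theorem exits_ins_sep (h : Str (gsys Φ T ε n b) c (Sum.elim w V) R (pS n σ) cl bE E)
    (hpe : w ∈ PairExcluded ε n) (hΦ : AdmissiblePotential Φ) (hε : 0 < ε) (hc : 1 ≤ c)
    (hℓς : 2 * ℓ ≤ ς) (hT : TL (gsys Φ T ε n b) c ℓ ς (pS n σ) (Sum.elim w V)) (hte : te ≤ T)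
    (hp : Function.Injective p)
    (hls : ∀ x, On (gsys Φ T ε n b) (Sum.elim w V) cl bE E (p x) (ls x))
    {x₀ : σ} {d : ML} (hd : On (gsys Φ T ε n b) (Sum.elim w V) cl bE E x₀ d)
    (hx₀ : ∀ x, p x ≠ x₀) (hok : MW.OkFam Φ ε ((MW.cfg w).ins d) ls)
    (hsep : ∀ x, (Sum.inr x₀ : Fin n ⊕ σ) ∉ cl (Sum.inr (p x))) :
    Exits Φ T te ε b V w cl R ((MW.cfg w).ins d) (lab1 n x₀) ls p := by
  refine exits_ins h hpe hΦ hε hc hℓς hT hte hp hls hd hx₀ hok fun x hg =>
    cb_of_str h hc hε hℓς hT hg ?_ ?_ ?_ hte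
  · rintro ((i | i) | i) hi
    · exact le_rfl
    · exact absurd (inr_mem_pS _) hi
    · exact absurd (inr_mem_pS _) hi
  · rintro ((i | i) | i) hi
    · exact absurd hi (inl_not_mem_pS i)
    · exact hd.mem
    · exact (hls x).mem
  · have hsep' : (Sum.inr (p x) : Fin n ⊕ σ) ∉ cl (Sum.inr x₀) := fun h' =>
      hsep x (by rw [h.cov.eq _ _ h']; exact h.mem _ hd.mem)
    rintro ((i | i) | i) ((j | j) | j) hi hj
    · exact absurd (h.mem_π hi) (inl_not_mem_pS i)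
    · exact absurd (h.mem_π hi) (inl_not_mem_pS i)
    · exact absurd (h.mem_π hi) (inl_not_mem_pS i)
    · exact absurd (h.sub _ hj) (inl_not_mem_pS j)
    · rfl
    · exact absurd hj hsep'
    · exact absurd (h.sub _ hj) (inl_not_mem_pS j)
    · exact absurd hj (hsep x)
    · rfl

end one

/-! ### The structure of inequality 3 -/

section ptree

variable {σ : Type} [Fintype σ] {n : ℕ} {Φ : Space3 → ℝ} {T te tc ε c ℓ ς : ℝ} {b : σ → ℝ}
  {V : σ → PhasePoint} {w : Config n} {R : ℝ → Fin n ⊕ σ → Fin n ⊕ σ → Prop}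
  {cl : Fin n ⊕ σ → Finset (Fin n ⊕ σ)} {bE : Fin n ⊕ σ → ℝ} {π : Finset (Fin n ⊕ σ)}
  {x y : σ} {d e : ML} {P : CTree} {z : PhasePoint × Par P} {g : Idx P ↪ σ}

/-- The classes before the encounter. -/
abbrev clA (cl : Fin n ⊕ σ → Finset (Fin n ⊕ σ)) (g : Idx P ↪ σ) :
    Fin n ⊕ σ → Finset (Fin n ⊕ σ) :=
  clSep cl (StrG491.clOf (part (g.trans (strE n σ))))

/-- The connecting family. -/
abbrev RA (M : VSys (Fin n ⊕ σ) Unit) (Z : Fin n ⊕ σ → PhasePoint)
    (R : ℝ → Fin n ⊕ σ → Fin n ⊕ σ → Prop) (y : σ) (e : ML) (z : PhasePoint × Par P)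
    (g : Idx P ↪ σ) : ℝ → Fin n ⊕ σ → Fin n ⊕ σ → Prop :=
  joinR R (RC M Z (part (g.trans (strE n σ)))) (Sum.inr y) (Sum.inr (g (root P))) (cT M.ε z e)

/-- The exits before the encounter (union with the classical decidability). -/
abbrev EU {J : Type} (A B : Finset J) : Finset J := A ∪ B

/-- The exits before the encounter. -/
abbrev EA (n : ℕ) (x : σ) (g : Idx P ↪ σ) : Finset (Fin n ⊕ σ) :=
  EU {Sum.inr x} (part (g.trans (strE n σ)))

/-- The labels of the structure, from an equality of sets. -/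
theorem cover_of_union {inst : DecidableEq (Fin n ⊕ σ)}
    (h : @Union.union _ (@Finset.instUnion _ inst) π (part (g.trans (strE n σ))) = pS n σ)
    (j : Fin n ⊕ σ) : (j ∈ π ∨ j ∈ part (g.trans (strE n σ))) ↔ j ∈ pS n σ := by
  rw [← h, @Finset.mem_union _ inst]

section

variable (H : PTree (gsys Φ T ε n b) c (Sum.elim w V) R π cl bE (Sum.inr x) (Sum.inr y) d.1 e tc P
    z (g.trans (strE n σ)))
  (hπ : ∀ j : Fin n ⊕ σ, (j ∈ π ∨ j ∈ part (g.trans (strE n σ))) ↔ j ∈ pS n σ)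
include H

theorem x_ne (i : Idx P) : g i ≠ x := fun h =>
  Finset.disjoint_left.1 H.dj H.pr.xπ (h ▸ mem_part_self (e := g.trans (strE n σ)) i)

include hπ

/-- The structure before the encounter. -/
theorem strA (hΦ : AdmissiblePotential Φ) (hε : 0 < ε) (hc : 1 ≤ c) :
    Str (gsys Φ T ε n b) c (Sum.elim w V) (RA (gsys Φ T ε n b) (Sum.elim w V) R y e z g) (pS n σ)
      (clA cl g) bE (EA n x g) := by
  have h := H.str0 hc hΦ hε
  have h1 : EU π (part (g.trans (strE n σ))) = pS n σ := by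
    ext j
    rw [← hπ j]
    exact @Finset.mem_union _ (fun a b => Classical.propDecidable _) _ _ _
  rw [← h1]
  exact h

/-- **One** before the encounter. -/
theorem one0 (hpe : w ∈ PairExcluded ε n) (hΦ : AdmissiblePotential Φ) (hε : 0 < ε) (hc : 1 ≤ c) :
    One Φ T ε c b V w (clA cl g) (RA (gsys Φ T ε n b) (Sum.elim w V) R y e z g) :=
  one_of_str hpe (strA H hπ hΦ hε hc)

omit hπ in
theorem on_d (hΦ : AdmissiblePotential Φ) (hε : 0 < ε) (hc : 1 ≤ c) :
    On (gsys Φ T ε n b) (Sum.elim w V) (clA cl g) bE (EA n x g) x d where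
  mem := (@Finset.mem_union _ (fun a b => Classical.propDecidable _) _ _ _).2
    (Or.inl (Finset.mem_singleton_self _))
  b := H.pr.bx
  st ht := by
    have hm := ((H.hit hc hΦ hε).enc hΦ hε).meet hε
    unfold clA
    rw [hm.cl₁_of H.pr.xπ]
    exact H.pr.lx ht

omit hπ in
theorem on_tree (hΦ : AdmissiblePotential Φ) (hε : 0 < ε) (hc : 1 ≤ c) (i : Idx P) :
    On (gsys Φ T ε n b) (Sum.elim w V) (clA cl g) bE (EA n x g) (g i) (lineML Φ ε P z i) where
  mem := (@Finset.mem_union _ (fun a b => Classical.propDecidable _) _ _ _).2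
    (Or.inr (mem_part_self (e := g.trans (strE n σ)) i))
  b := (H.bP i).symm
  st _ := by
    have hm := ((H.hit hc hΦ hε).enc hΦ hε).meet hε
    have h1 : (Sum.inr (g i) : Fin n ⊕ σ) ∈ part (g.trans (strE n σ)) :=
      mem_part_self (e := g.trans (strE n σ)) i
    unfold clA
    rw [hm.cl₂_of h1, StrG491.clOf_mem h1]
    exact H.st_rel hΦ hε i

theorem inj0 : Function.Injective (Sum.elim g fun _ : Unit => x) := by
  rintro (i | i) (j | j) h
  · exact congrArg Sum.inl (g.injective h)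
  · exact absurd h (x_ne H i)
  · exact absurd h.symm (x_ne H j)
  · rfl

/-- **Exits over `cfg w`**: the lines of the tree (the root, too) and `d`. -/
theorem exits0 (hpe : w ∈ PairExcluded ε n) (hΦ : AdmissiblePotential Φ) (hε : 0 < ε)
    (hc : 1 ≤ c) (hℓς : 2 * ℓ ≤ ς)
    (hT : TL (gsys Φ T ε n b) c ℓ ς (pS n σ) (Sum.elim w V)) (hte : te ≤ T)
    (hok : MW.OkFam Φ ε (MW.cfg w) (withD (fun i => lineML Φ ε P z i) d)) :
    Exits Φ T te ε b V w (clA cl g) (RA (gsys Φ T ε n b) (Sum.elim w V) R y e z g) (MW.cfg w)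
      (gasE n σ) (withD (fun i => lineML Φ ε P z i) d) (Sum.elim g fun _ => x) := by
  refine exits_cfg (strA H hπ hΦ hε hc) hpe hΦ hε hc hℓς hT hte (inj0 H hπ) ?_ hok
  rintro (i | i)
  · exact on_tree H hΦ hε hc i
  · exact on_d H hΦ hε hc

/-- **Exits over `(cfg w).ins d`**: the lines of the tree (the root, too). -/
theorem exits1 (hpe : w ∈ PairExcluded ε n) (hΦ : AdmissiblePotential Φ) (hε : 0 < ε)
    (hc : 1 ≤ c) (hℓς : 2 * ℓ ≤ ς)
    (hT : TL (gsys Φ T ε n b) c ℓ ς (pS n σ) (Sum.elim w V)) (hte : te ≤ T)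
    (hok : MW.OkFam Φ ε (MW.cfg w) (withD (fun i => lineML Φ ε P z i) d)) :
    Exits Φ T te ε b V w (clA cl g) (RA (gsys Φ T ε n b) (Sum.elim w V) R y e z g)
      ((MW.cfg w).ins d) (lab1 n x) (fun i => lineML Φ ε P z i) g := by
  refine exits_ins_sep (strA H hπ hΦ hε hc) hpe hΦ hε hc hℓς hT hte g.injective
    (on_tree H hΦ hε hc) (on_d H hΦ hε hc) (x_ne H) ?_ ?_
  · intro S
    have h1 := ok_lines_add hΦ hε hok
      (⟨fun _ : Unit => Sum.inr (), fun _ _ _ => rfl⟩ : Unit ↪ Idx P ⊕ Unit)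
      (⟨fun i : S => Sum.inl i.1, fun i j h => Subtype.ext (Sum.inl_injective h)⟩ :
        S ↪ Idx P ⊕ Unit) (fun _ _ h => by cases h)
    exact h1
  · intro i hi
    have hm := ((H.hit hc hΦ hε).enc hΦ hε).meet hε
    have h1 : (Sum.inr (g i) : Fin n ⊕ σ) ∈ part (g.trans (strE n σ)) :=
      mem_part_self (e := g.trans (strE n σ)) i
    unfold clA at hi
    rw [hm.cl₂_of h1, StrG491.clOf_mem h1] at hi
    exact Finset.disjoint_left.1 H.dj H.pr.xπ hi

/-- Tree-likeness of the structure off the bad partitions. -/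
theorem tlA (hpe : w ∈ PairExcluded ε n) (hΦ : AdmissiblePotential Φ) (hε : 0 < ε) (hc : 1 ≤ c)
    {T' ρ : ℝ} (hT : T ≤ T') {N : ℕ} {A₀ : Finset σ} (hA : A₀.Nonempty)
    (hN : Fintype.card σ ≤ N) (hB : ¬ LN2.BadGas Φ T' c ρ ς ε N 1 A₀ b V w) :
    TL (gsys Φ T ε n b) c (ρ * ε) ς (pS n σ) (Sum.elim w V) := by
  have h := one0 H hπ hpe hΦ hε hc
  refine h.noBad_of hΦ hε hT hA hB (pS n σ) h.conn ⟨_, mem_LS.2 rfl, subset_rfl⟩ ?_
  refine (Finset.card_le_card (t := pS n σ) fun j hj => ?_).trans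
    ((Finset.card_map _).le.trans (Finset.card_univ.le.trans hN))
  rcases (@Finset.mem_union _ (fun a b => Classical.propDecidable _) _ _ _).1 hj with h1 | h1
  · exact h1
  · rwa [uni_LS] at h1

variable (hpe : w ∈ PairExcluded ε n) (hΦ : AdmissiblePotential Φ) (hε : 0 < ε)
  (hT0 : 0 ≤ T) (hte : te ≤ T) (hc : 1 ≤ c) {T' Te T₁ ρ : ℝ} (hρ : 2 * (ρ * ε) ≤ ς)
  (hT : T ≤ T') (hTe : T' ≤ Te) (hT₁ : Te < T₁) {K m N₁ : ℕ} {A₀ : Finset σ} (hA : A₀.Nonempty)
  (hN : (Fintype.card σ + 2 * K * (m + 2)) + (Fintype.card σ + 2 * K * (m + 2)) ≤ N₁)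
  (hB : ¬ LN2.BadGas Φ T' c ρ ς ε N₁ 1 A₀ b V w)
  (hBH : ¬ BH167.BadHitGas (BH167.bpos Φ T₁ Te) Φ T' c 1 ε N₁ N₁ 1 A₀ b V w)
  (hR : ¬ Gate424.RunS Φ ε T K m b V w)
  (hok : MW.OkFam Φ ε (MW.cfg w) (withD (fun i => lineML Φ ε P z i) d))
include hpe hΦ hε hT0 hte hc hρ hT hTe hT₁ hA hN hB hBH hR hok

/-- **Family `lineML`, `d` over `cfg w`** (field `nl₀` of helper879's `E6Hyp`). -/
theorem nl0_det : PairNL Φ ε K te (MW.cfg w) (withD (fun i => lineML Φ ε P z i) d) :=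
  (one0 H hπ hpe hΦ hε hc).pairNL
    (exits0 H hπ hpe hΦ hε hc hρ (tlA H hπ hpe hΦ hε hc hT hA (by omega) hB) hte hok)
    hΦ hε hT0 hte hc hρ hT hTe hT₁ hA hN hB hBH hR

/-- **Family `lineML` over `(cfg w).ins d`** (field `nl₁` of helper879's `E6Hyp`). -/
theorem nl1_det : PairNL Φ ε K te ((MW.cfg w).ins d) (fun i => lineML Φ ε P z i) :=
  (one0 H hπ hpe hΦ hε hc).pairNL
    (exits1 H hπ hpe hΦ hε hc hρ (tlA H hπ hpe hΦ hε hc hT hA (by omega) hB) hte hok)
    hΦ hε hT0 hte hc hρ hT hTe hT₁ hA hN hB hBH hR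

end

end ptree

end Crest.Agent.R122.LNS3a304

end
end

-- ▼ part R122/OneStr_491
section

/-!
# Row 122, LN1 (helper491): the gas and a structure realised on its isolated system

`Str` / `Pair` on the isolated system `vsys Φ T ε b` of the structure labels `σ` give helper674's
`One Φ T ε c b V w cl R` for every configuration `w` of the gas.

* `pull_str` : the isolated system is the system of the gas and the structure seen through `strE`.
* `bigR`, `bigCl`, `bigB` : family, classes and exit times with the gas labels.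
* `Str.big`, `Pair.big` : the structure inside the system of the gas.
* `One.of_str`, `One.of_pair`.
-/

set_option autoImplicit false
set_option linter.unusedSectionVars false

open MeasureTheory Set Filter Topology
open scoped NNReal ENNReal
open Crest.AnalysisR.Kinetic
open Crest.Agent.R122.Loc45 Crest.Agent.R122.Ins45
open Crest.Agent.R122.VL581 Crest.Agent.R122.VL581.VSys Crest.Agent.R122.VLInst442
open Crest.Agent.R122.LNGraft410 Crest.Agent.R122.LNEv968 Crest.Agent.R122.PWInst442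
open Crest.Agent.R122.LNBridge968 Crest.Agent.R122.EDefs602 Crest.Agent.R122.LNEmb410
open Crest.Agent.R122.LNPart424 Crest.Agent.R122.LNS674
open scoped Classical

noncomputable section

namespace Crest.Agent.R122.StrG491

variable {σ : Type} [Fintype σ] {n : ℕ} {Φ : Space3 → ℝ} {T ε c : ℝ} {b : σ → ℝ}
  {V : σ → PhasePoint} {w : Config n}

/-- The isolated system of the structure, seen in the system of the gas and the structure. -/
theorem pull_str (b : σ → ℝ) :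
    Pull (VLMeas973.vsys Φ T ε b) (gsys Φ T ε n b) (strE n σ) where
  Φ := rfl
  T := rfl
  ε := rfl
  b _ := rfl
  o i := by
    show (none : Option _) = _ ↔ (none : Option _) = _
    simp
  S := rfl

/-- The family with the gas labels. -/
abbrev bigR (n : ℕ) (R : ℝ → σ → σ → Prop) : ℝ → Fin n ⊕ σ → Fin n ⊕ σ → Prop :=
  mapR (strE n σ) R

/-- The classes with the gas labels. -/
abbrev bigCl (n : ℕ) (cl : σ → Finset σ) : Fin n ⊕ σ → Finset (Fin n ⊕ σ) := mapCl (strE n σ) cl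

/-- The exit times with the gas labels. -/
abbrev bigB (n : ℕ) (bD : σ → ℝ) : Fin n ⊕ σ → ℝ := Sum.elim (fun _ => 0) bD

variable {R : ℝ → σ → σ → Prop} {cl : σ → Finset σ} {bD : σ → ℝ} {π E : Finset σ}

@[simp] theorem bigCl_inl (i : Fin n) : bigCl n cl (Sum.inl i) = ∅ :=
  mapCl_not fun _ h => by cases h




/-- **The structure inside the system of the gas.** -/
theorem Str.big (H : Str (VLMeas973.vsys Φ T ε b) c V R π cl bD E)
    (hΦ : AdmissiblePotential Φ) (hε : 0 < ε) (w : Config n) :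
    Str (gsys Φ T ε n b) c (Sum.elim w V) (bigR n R) (π.map (strE n σ)) (bigCl n cl)
      (bigB n bD) (E.map (strE n σ)) :=
  str_map (M := gsys Φ T ε n b) (M' := VLMeas973.vsys Φ T ε b) (e := strE n σ)
    (Z := Sum.elim w V) (pull_str b) hΦ hε H fun _ _ => rfl

/-- **The pair inside the system of the gas.** -/
theorem Pair.big {x y : σ} {d e : ℝ × PhasePoint}
    (H : Pair (VLMeas973.vsys Φ T ε b) c V R π cl bD x y d e)
    (hΦ : AdmissiblePotential Φ) (hε : 0 < ε) (w : Config n) :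
    Pair (gsys Φ T ε n b) c (Sum.elim w V) (bigR n R) (π.map (strE n σ)) (bigCl n cl)
      (bigB n bD) (Sum.inr x) (Sum.inr y) d e :=
  Pair.map (M := gsys Φ T ε n b) (M' := VLMeas973.vsys Φ T ε b) (e := strE n σ)
    (Z := Sum.elim w V) (pull_str b) hΦ hε (fun _ _ => rfl) H



end Crest.Agent.R122.StrG491

end
namespace Crest.Agent.R122.StrG491.One
end Crest.Agent.R122.StrG491.One
end

-- ▼ part R122/PTreeG_331
section

/-!
# Row 122, LN3 of S^(j) (helper331): the pair structure and the contact tree over the gas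

* `treeIn_map`, `PTree.map` : contact trees and `PTree` in a bigger system of labels (968's `Pull`).
* `PTree.big` : from the system of the structure (`vsys`) to the system of gas and structure (`gsys`).
* `union_big` : if `π` and the tree are all labels, then their images are `pS`.
* `ptreeG_of`, `ptreeG_osP` : helper491's `PTree` over the gas, labels `Fin n ⊕ (Idx P ⊕ κ)`, from a
  pair structure.
-/

set_option autoImplicit false
set_option linter.unusedSectionVars false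

open MeasureTheory Set Filter Topology
open scoped NNReal ENNReal
open Crest.AnalysisR.Kinetic
open Crest.Agent.R122.Loc45 Crest.Agent.R122.Ins45
open Crest.Agent.R122.VL581 Crest.Agent.R122.VL581.VSys Crest.Agent.R122.VLInst442
open Crest.Agent.R122.Kin796 Crest.Agent.R122.Kin796.CTree Crest.Agent.R122.Tree674
open Crest.Agent.R122.TreeLines335 Crest.Agent.R122.EDefs602
open Crest.Agent.R122.LNTree410 Crest.Agent.R122.LNGraft410 Crest.Agent.R122.LNEv968
open Crest.Agent.R122.PWInst442 Crest.Agent.R122.LNBridge968 Crest.Agent.R122.LNEmb410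
open Crest.Agent.R122.StrG491 Crest.Agent.R122.OCout796 Crest.Agent.R122.LNPart424
open Crest.Agent.R122.LNS674
open Crest.Agent.R122.OneC285 (cT cB cD cX)
open Crest.Agent.R122.GateOsP424 (osB osZ)
open Crest.Agent.R122.PairRep581 (Shp ctOk ctOkS)
open Crest.Agent.R122.Boost969 (LSt)
open Crest.Agent.R122.Pair292 (Lab)
open Crest.Agent.R122.PairD292 (dL eL OkL)
open scoped Classical

noncomputable section

namespace Crest.Agent.R122.PTreeOf331

section map

variable {J J' κ : Type} [Fintype J] [Fintype J'] {M : VSys J κ} {M' : VSys J' κ} {e : J' ↪ J}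
  {Z : J → PhasePoint} {P : CTree} {eP : Idx P ↪ J'}

theorem part_trans : part (eP.trans e) = (part eP).map e := by
  ext j
  rw [mem_part, Finset.mem_map]
  constructor
  · rintro ⟨i, rfl⟩
    exact ⟨eP i, mem_part_self i, rfl⟩
  · rintro ⟨k, hk, rfl⟩
    obtain ⟨i, rfl⟩ := mem_part.1 hk
    exact ⟨i, rfl⟩

/-- **Trees in the bigger system.** -/
theorem treeIn_map (hp : Pull M' M e) {ℓ : PhasePoint} {p : Par P}
    (h : TreeIn M' (fun k => Z (e k)) M'.T P ℓ p eP) : TreeIn M Z M.T P ℓ p (eP.trans e) where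
  b i := by
    have h1 := h.b i
    rw [hp.b] at h1
    exact h1
  Z i := by
    have h1 := h.Z i
    rw [hp.Φ, hp.ε] at h1
    exact h1
  o i hi := h.o i ((hp.o _).2 hi)
  valid := by
    have h1 := h.valid
    rw [hp.Φ, hp.ε, hp.T] at h1
    exact h1
  sep := by
    have h1 := h.sep
    rw [hp.Φ, hp.ε, hp.T] at h1
    exact h1

/-- **`PTree` in the bigger system.** -/
theorem PTree.map (hp : Pull M' M e) (hΦ : AdmissiblePotential M.Φ) (hε : 0 < M.ε)
    {c : ℝ} {R : ℝ → J' → J' → Prop} {π : Finset J'} {cl : J' → Finset J'}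
    {bD' : J' → ℝ} {bD : J → ℝ} (hb : ∀ i, bD (e i) = bD' i) {x y : J'} {d : ℝ × PhasePoint}
    {f : ML} {te : ℝ} {z : PhasePoint × Par P}
    (h : PTree M' c (fun k => Z (e k)) R π cl bD' x y d f te P z eP) :
    PTree M c Z (mapR e R) (π.map e) (mapCl e cl) bD (e x) (e y) d f te P z (eP.trans e) where
  pr := Pair.map hp hΦ hε (fun i _ => hb i) h.pr
  tree := treeIn_map hp h.tree
  dj := by
    rw [part_trans, Finset.disjoint_map]
    exact h.dj
  bP i := by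
    change bD (e (eP i)) = _
    rw [hb]
    exact h.bP i
  ct := by
    have h1 := h.ct
    rw [hp.Φ, hp.ε] at h1
    exact h1
  te_lt := by
    have h1 := h.te_lt
    rw [hp.T] at h1
    exact h1
  cd := by
    have h1 := h.cd
    rw [hp.ε] at h1
    exact h1

end map

section big

variable {σ : Type} [Fintype σ] {n : ℕ} {Φ : Space3 → ℝ} {T ε c te : ℝ} {b : σ → ℝ}
  {V : σ → PhasePoint} {P : CTree} {z : PhasePoint × Par P} {g : Idx P ↪ σ}
  {R : ℝ → σ → σ → Prop} {cl : σ → Finset σ} {bD : σ → ℝ} {π : Finset σ} {x y : σ}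
  {d : ℝ × PhasePoint} {e : ML}

/-- **`PTree` inside the system of the gas.** -/
theorem PTree.big (H : PTree (VLMeas973.vsys Φ T ε b) c V R π cl bD x y d e te P z g)
    (hΦ : AdmissiblePotential Φ) (hε : 0 < ε) (w : Config n) :
    PTree (gsys Φ T ε n b) c (Sum.elim w V) (bigR n R) (π.map (strE n σ)) (bigCl n cl)
      (bigB n bD) (Sum.inr x) (Sum.inr y) d e te P z (g.trans (strE n σ)) :=
  PTree.map (M := gsys Φ T ε n b) (M' := VLMeas973.vsys Φ T ε b) (e := strE n σ)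
    (Z := Sum.elim w V) (pull_str b) hΦ hε (fun _ => rfl) H

/-- All labels of the structure. -/
theorem union_big [DecidableEq σ] [DecidableEq (Fin n ⊕ σ)] (h : π ∪ part g = Finset.univ) :
    π.map (strE n σ) ∪ part (g.trans (strE n σ)) = pS n σ := by
  rw [part_trans]
  have h1 : (π ∪ part g).map (strE n σ) = pS n σ := by rw [h]
  rw [← h1]
  ext j
  simp only [Finset.mem_union, Finset.mem_map]
  constructor
  · rintro (⟨k, hk, rfl⟩ | ⟨k, hk, rfl⟩)
    · exact ⟨k, Or.inl hk, rfl⟩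
    · exact ⟨k, Or.inr hk, rfl⟩
  · rintro ⟨k, hk | hk, rfl⟩
    · exact Or.inl ⟨k, hk, rfl⟩
    · exact Or.inr ⟨k, hk, rfl⟩

end big

variable {κ : Type} [Fintype κ] {P : CTree} {n : ℕ} {Φ : Space3 → ℝ} {T ε c te : ℝ} {b : κ → ℝ}
  {V : κ → PhasePoint} {z : PhasePoint × Par P} {R : ℝ → κ → κ → Prop} {cl : κ → Finset κ}
  {β : κ → ℝ} {x y : κ} {d : ℝ × PhasePoint} {e : ML}


/-- The labels of the structure and of the tree are all structure labels. -/
theorem unionG [DecidableEq (Fin n ⊕ (Idx P ⊕ κ))] :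
    (Finset.univ.map (iS P κ)).map (strE n (Idx P ⊕ κ)) ∪
      part ((iT P κ).trans (strE n (Idx P ⊕ κ))) = pS n (Idx P ⊕ κ) :=
  union_big union_eq

/-- The same for a shape: `osB`, `osZ` of helper424. -/
theorem ptreeG_osP {S : Shp} {q : (PhasePoint × Par P) × S.Θ} {R : ℝ → S.κ → S.κ → Prop}
    {cl : S.κ → Finset S.κ} {β : S.κ → ℝ} {x y : S.κ} (hΦ : AdmissiblePotential Φ) (hε : 0 < ε)
    (h : Pair (VLMeas973.vsys Φ T ε (S.b ε q.2)) c (S.z ε q.2) R Finset.univ cl β x y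
      (dL (S.th ε q.2)).1 (eL (S.th ε q.2)).1)
    (hV : Valid Φ ε P T q.1.1.2 q.1.2) (hS : Sep Φ ε P T q.1.1 q.1.2)
    (hct : (q.1, (S.th ε q.2).2) ∈ OneC423.ctSet Φ ε te P) (hte : te < T)
    (hcd : CDok (cD ε q.1 (eL (S.th ε q.2)))) (w : Config n) :
    PTree (gsys Φ T ε n (osB P S ε q)) c (Sum.elim w (osZ Φ P S ε q))
      (bigR n (mapR (iS P S.κ) R)) ((Finset.univ.map (iS P S.κ)).map (strE n (Idx P ⊕ S.κ)))
      (bigCl n (mapCl (iS P S.κ) cl)) (bigB n (bE P q.1 β)) (Sum.inr (Sum.inr x))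
      (Sum.inr (Sum.inr y)) (dL (S.th ε q.2)).1 (eL (S.th ε q.2)) te P q.1
      ((iT P S.κ).trans (strE n (Idx P ⊕ S.κ))) :=
  PTree.big (ptree_osP hΦ hε h hV hS hct hte hcd) hΦ hε w

end Crest.Agent.R122.PTreeOf331

end
end

-- ▼ part R122/LNS3b_968
section

/-!
# Row 122, LN1 (helper968): the family `nl₂` of `E6Hyp`

Structure: a pair structure `(x, y; d, e)` (helper491's `PTree`) whose second line `e` meets the root
of the tree `(P, z)` at time `cT`; merged classes `cl6`, exit times `bD6`, connecting family `R6`.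

* `In6` : the data over the gas `w`.
* `In6.one` : helper674's `One` for `cl6`, `R6`.
* `In6.exits` : helper674's `Exits` for the lines `e'`, `c'` over the base world `(cfg w).ins d`.
* `In6.nl2` : exits `lineML i`, `i ≠ root`, `e'`, `c'` are pairwise unlinked in `(cfg w).ins d`, from
  the reachability (`ReachAll`) of each of these lines.
-/

set_option autoImplicit false
set_option linter.unusedSectionVars false

open MeasureTheory Set Filter Topology
open Crest.AnalysisR.Kinetic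
open Crest.Agent.R122.Flow671 hiding rel
open Crest.Agent.R122.Loc45 Crest.Agent.R122.Ins45
open Crest.Agent.R122.VL581 Crest.Agent.R122.VL581.VSys Crest.Agent.R122.VLInst442
open Crest.Agent.R122.LN304 Crest.Agent.R122.LNg410 Crest.Agent.R122.LNPart424
open Crest.Agent.R122.Kin796 Crest.Agent.R122.Kin796.CTree Crest.Agent.R122.Tree674
open Crest.Agent.R122.PathFlow968 Crest.Agent.R122.TreeLines335 Crest.Agent.R122.EDefs602
open Crest.Agent.R122.LNTree410 Crest.Agent.R122.PWGlue491 Crest.Agent.R122.Inf879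
open Crest.Agent.R122.LNGraft410 Crest.Agent.R122.LNEv968 Crest.Agent.R122.PWInst442
open Crest.Agent.R122.OCout796 Crest.Agent.R122.Scat818 Crest.Agent.R122.StrG491
open Crest.Agent.R122.MWFam255 Crest.Agent.R122.LNEv818 Crest.Agent.R122.LNS674
open Crest.Agent.R122.OneC285 (cT cB cD cX)
open Crest.Agent.R122.E6Hyp879 (plus)
open Crest.Agent.R122.Decomp811 (exF)
open scoped Classical

noncomputable section

namespace Crest.Agent.R122.LNS968

variable {σ : Type} [Fintype σ] {n : ℕ}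

/-! ### Generic labels -/

section gen

variable {J κ : Type} [Fintype J] {M : VSys J κ} {Z : J → PhasePoint} {c ℓ ς : ℝ}
  {R : ℝ → J → J → Prop} {π Q : Finset J} {cl : J → Finset J} {bD : J → ℝ} {x y : J}
  {d : ℝ × PhasePoint} {e : ML} {te : ℝ} {P : CTree} {z : PhasePoint × Par P} {eP : Idx P ↪ J}

/-- All exits. -/
def E6 (x y : J) (eP : Idx P ↪ J) : Finset J := {x, y} ∪ part eP

theorem mem_E6 {j : J} : j ∈ E6 x y eP ↔ j = x ∨ j = y ∨ ∃ i, eP i = j := by
  unfold E6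
  rw [Finset.mem_union, Finset.mem_insert, Finset.mem_singleton, mem_part, or_assoc]

variable [Nonempty κ] (h : PTree M c Z R π cl bD x y d e te P z eP)
  (hC : 1 ≤ c) (hΦ : AdmissiblePotential M.Φ) (hε : 0 < M.ε)
  (hQ : ∀ j, j ∈ Q ↔ j ∈ π ∨ j ∈ part eP)
  (hT : TL M c ℓ ς Q Z) (hℓς : 2 * ℓ ≤ ς) (hp : CDpass M.Φ (cD M.ε z e))
  (hle : cT M.ε z e + outT M.Φ M.ε (cD M.ε z e) ≤ M.T)
include h hC hΦ hε hQ hT hℓς hp hle

theorem str6_of : Str M c Z (joinR R (StrG491.RC M Z (part eP)) y (eP (root P)) (cT M.ε z e)) Q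
    (clMrg cl (clOf (part eP)) y (eP (root P)))
    (grafted M.Φ M.ε bD y (eP (root P)) (cT M.ε z e) (cD M.ε z e)) (E6 x y eP) := by
  have hQ' : Q = π ∪ part eP := by
    ext j
    rw [Finset.mem_union]
    exact hQ j
  rw [hQ'] at hT ⊢
  exact h.str6 hC hΦ hε hT hℓς hp hle

theorem lab6_d_of : Lab M Z (clMrg cl (clOf (part eP)) y (eP (root P))) x d.1 (back d) := by
  have hQ' : Q = π ∪ part eP := by
    ext j
    rw [Finset.mem_union]
    exact hQ j
  rw [hQ'] at hT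
  exact h.lab6_d hC hΦ hε hT hℓς hp hle

theorem lab6_e_of : Lab M Z (clMrg cl (clOf (part eP)) y (eP (root P))) y
    (PairD292.outL6 M.Φ M.ε P z e (some false)).1.1
    (back (PairD292.outL6 M.Φ M.ε P z e (some false)).1) := by
  have hQ' : Q = π ∪ part eP := by
    ext j
    rw [Finset.mem_union]
    exact hQ j
  rw [hQ'] at hT
  exact h.lab6_e hC hΦ hε hT hℓς hp hle

theorem lab6_c_of : Lab M Z (clMrg cl (clOf (part eP)) y (eP (root P))) (eP (root P))
    (PairD292.outL6 M.Φ M.ε P z e (some true)).1.1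
    (back (PairD292.outL6 M.Φ M.ε P z e (some true)).1) := by
  have hQ' : Q = π ∪ part eP := by
    ext j
    rw [Finset.mem_union]
    exact hQ j
  rw [hQ'] at hT
  exact h.lab6_c hC hΦ hε hT hℓς hp hle

/-- The merged class. -/
theorem cls6_of : Cls M Z (clMrg cl (clOf (part eP)) y (eP (root P)) y)
    (grafted M.Φ M.ε bD y (eP (root P)) (cT M.ε z e) (cD M.ε z e)) ∧
    ∀ i, eP i ∈ clMrg cl (clOf (part eP)) y (eP (root P)) y := by
  have hs := str6_of h hC hΦ hε hQ hT hℓς hp hle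
  refine ⟨hs.cls y (mem_E6.2 (Or.inr (Or.inl rfl))), fun i => ?_⟩
  have hen := (h.hit hC hΦ hε).enc hΦ hε
  rw [hen.clMrg_mem (Finset.mem_union_left _ (hen.s₁.mem y hen.hy))]
  refine Finset.mem_union_right _ ?_
  rw [clOf_mem (mem_part_self (root P))]
  exact mem_part_self i

/-- The exits of the tree, merged classes. -/
theorem lab6_i_of {i : Idx P} (hi : i ≠ root P) :
    Lab M Z (clMrg cl (clOf (part eP)) y (eP (root P))) (eP i)
      (lineML M.Φ M.ε P z i).1.1 (back (lineML M.Φ M.ε P z i).1) := by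
  have hQ' : Q = π ∪ part eP := by
    ext j
    rw [Finset.mem_union]
    exact hQ j
  rw [hQ'] at hT
  exact h.lab6 hC hΦ hε hT hℓς hp hle hi

end gen

/-- The structure of `nl₂` over the gas `w`. -/
structure In6 (Φ : Space3 → ℝ) (T ε c ℓ ς : ℝ) (b : σ → ℝ) (V : σ → PhasePoint) (w : Config n)
    (R : ℝ → Fin n ⊕ σ → Fin n ⊕ σ → Prop) (π : Finset (Fin n ⊕ σ))
    (cl : Fin n ⊕ σ → Finset (Fin n ⊕ σ)) (bD : Fin n ⊕ σ → ℝ) (x y : σ) (d e : ML) (te : ℝ)
    (P : CTree) (z : PhasePoint × Par P) (iP : Idx P ↪ σ) : Prop where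
  hΦ : AdmissiblePotential Φ
  hε : 0 < ε
  hC : 1 ≤ c
  pt : PTree (gsys Φ T ε n b) c (Sum.elim w V) R π cl bD (Sum.inr x) (Sum.inr y) d.1 e te P z
    (iP.trans (strE n σ))
  full : ∀ j, j ∈ pS n σ ↔ j ∈ π ∨ j ∈ part (iP.trans (strE n σ))
  tl : TL (gsys Φ T ε n b) c ℓ ς (pS n σ) (Sum.elim w V)
  hℓς : 2 * ℓ ≤ ς
  pass : CDpass Φ (cD ε z e)
  le : cT ε z e + outT Φ ε (cD ε z e) ≤ T
  pe : w ∈ PairExcluded ε n

/-- The classes of `nl₂`. -/
def cl6 {n : ℕ} {σ : Type} (cl : Fin n ⊕ σ → Finset (Fin n ⊕ σ)) (y : σ) {P : CTree}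
    (iP : Idx P ↪ σ) : Fin n ⊕ σ → Finset (Fin n ⊕ σ) :=
  clMrg cl (clOf (part (iP.trans (strE n σ)))) (Sum.inr y) (Sum.inr (iP (root P)))

/-- The exit times of `nl₂`. -/
def bD6 {n : ℕ} {σ : Type} (Φ : Space3 → ℝ) (ε : ℝ) (bD : Fin n ⊕ σ → ℝ) (y : σ) {P : CTree}
    (iP : Idx P ↪ σ) (z : PhasePoint × Par P) (e : ML) : Fin n ⊕ σ → ℝ :=
  grafted Φ ε bD (Sum.inr y) (Sum.inr (iP (root P))) (cT ε z e) (cD ε z e)

/-- The connecting family of `nl₂`. -/
def R6 {n : ℕ} {σ : Type} [Fintype σ] (Φ : Space3 → ℝ) (T ε : ℝ) (b : σ → ℝ)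
    (V : σ → PhasePoint) (w : Config n) (R : ℝ → Fin n ⊕ σ → Fin n ⊕ σ → Prop) (y : σ) {P : CTree}
    (iP : Idx P ↪ σ) (z : PhasePoint × Par P) (e : ML) : ℝ → Fin n ⊕ σ → Fin n ⊕ σ → Prop :=
  joinR R (StrG491.RC (gsys Φ T ε n b) (Sum.elim w V) (part (iP.trans (strE n σ)))) (Sum.inr y)
    (Sum.inr (iP (root P))) (cT ε z e)

/-- The two outgoing lines: `true` = `e'`, `false` = `c'`. -/
def out6 (Φ : Space3 → ℝ) (ε : ℝ) (P : CTree) (z : PhasePoint × Par P) (e : ML) (k : Bool) : ML :=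
  cond k (PairD292.outL6 Φ ε P z e (some false)) (PairD292.outL6 Φ ε P z e (some true))

/-- The lines of the family. -/
def fam6 (Φ : Space3 → ℝ) (ε : ℝ) (P : CTree) (z : PhasePoint × Par P) (e : ML) :
    {i : Idx P // i ≠ root P} ⊕ Bool → ML :=
  plus (exF (lineML Φ ε P z) (root P)) (out6 Φ ε P z e true) (out6 Φ ε P z e false)

/-- Labels of the outgoing lines. -/
def lab6o {P : CTree} (y : σ) (iP : Idx P ↪ σ) (k : Bool) : σ := cond k y (iP (root P))

/-- Labels of the family. -/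
def lab6f {P : CTree} (y : σ) (iP : Idx P ↪ σ) : {i : Idx P // i ≠ root P} ⊕ Bool → σ :=
  Sum.elim (fun i => iP i.1) (lab6o y iP)

namespace In6

variable {Φ : Space3 → ℝ} {T ε c ℓ ς : ℝ} {b : σ → ℝ} {V : σ → PhasePoint} {w : Config n}
  {R : ℝ → Fin n ⊕ σ → Fin n ⊕ σ → Prop} {π : Finset (Fin n ⊕ σ)}
  {cl : Fin n ⊕ σ → Finset (Fin n ⊕ σ)} {bD : Fin n ⊕ σ → ℝ} {x y : σ} {d e : ML} {te : ℝ}
  {P : CTree} {z : PhasePoint × Par P} {iP : Idx P ↪ σ}
  (h : In6 Φ T ε c ℓ ς b V w R π cl bD x y d e te P z iP)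
include h

theorem xy : x ≠ y := fun h' => h.pt.pr.ne (congrArg Sum.inr h')

theorem x_ne (i : Idx P) : x ≠ iP i := fun h' =>
  Finset.disjoint_left.1 h.pt.dj h.pt.pr.xπ (mem_part.2 ⟨i, congrArg Sum.inr h'.symm⟩)

theorem y_ne (i : Idx P) : y ≠ iP i := fun h' =>
  Finset.disjoint_left.1 h.pt.dj h.pt.pr.yπ (mem_part.2 ⟨i, congrArg Sum.inr h'.symm⟩)

theorem T_pos : 0 < T := h.pt.T_pos

theorem str : Str (gsys Φ T ε n b) c (Sum.elim w V) (R6 Φ T ε b V w R y iP z e) (pS n σ)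
    (cl6 cl y iP) (bD6 Φ ε bD y iP z e) (E6 (Sum.inr x) (Sum.inr y) (iP.trans (strE n σ))) :=
  str6_of h.pt h.hC h.hΦ h.hε h.full h.tl h.hℓς h.pass h.le

theorem mem_x : (Sum.inr x : Fin n ⊕ σ) ∈ E6 (Sum.inr x) (Sum.inr y) (iP.trans (strE n σ)) :=
  mem_E6.2 (Or.inl rfl)

theorem mem_f (k : {i : Idx P // i ≠ root P} ⊕ Bool) : (Sum.inr (lab6f y iP k) : Fin n ⊕ σ) ∈
    E6 (Sum.inr x) (Sum.inr y) (iP.trans (strE n σ)) := by
  rcases k with i | k
  · exact mem_E6.2 (Or.inr (Or.inr ⟨i.1, rfl⟩))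
  · cases k
    · exact mem_E6.2 (Or.inr (Or.inr ⟨root P, rfl⟩))
    · exact mem_E6.2 (Or.inr (Or.inl rfl))

theorem lab_inj : Function.Injective (lab6f y iP) := by
  rintro (i | k) (j | k') hk
  · exact congrArg Sum.inl (Subtype.ext (iP.injective hk))
  · cases k'
    · exact absurd (iP.injective hk) i.2
    · exact absurd hk.symm (h.y_ne _)
  · cases k
    · exact absurd (iP.injective hk).symm j.2
    · exact absurd hk (h.y_ne _)
  · cases k <;> cases k'
    · rfl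
    · exact absurd hk.symm (h.y_ne _)
    · exact absurd hk (h.y_ne _)
    · rfl

theorem x_ne_lab (k : {i : Idx P // i ≠ root P} ⊕ Bool) : x ≠ lab6f y iP k := by
  rcases k with i | k
  · exact h.x_ne _
  · cases k
    · exact h.x_ne _
    · exact h.xy

/-- Births of the family. -/
theorem birth (k : {i : Idx P // i ≠ root P} ⊕ Bool) :
    (plus (exF (lineML Φ ε P z) (root P)) (out6 Φ ε P z e true) (out6 Φ ε P z e false) k).1.1 =
      bD6 Φ ε bD y iP z e (Sum.inr (lab6f y iP k)) := by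
  rcases k with i | k
  · have h1 : (Sum.inr (iP i.1) : Fin n ⊕ σ) ≠ Sum.inr y :=
      fun h' => h.y_ne i.1 (Sum.inr_injective h').symm
    have h2 : (Sum.inr (iP i.1) : Fin n ⊕ σ) ≠ Sum.inr (iP (root P)) :=
      fun h' => i.2 (iP.injective (Sum.inr_injective h'))
    refine (Eq.trans ?_ (if_neg (not_or.2 ⟨h1, h2⟩)).symm)
    exact (h.pt.bP i.1).symm
  · cases k
    · exact (if_pos (Or.inr rfl)).symm
    · exact (if_pos (Or.inl rfl)).symm

theorem birth_d : d.1.1 = bD6 Φ ε bD y iP z e (Sum.inr x) := by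
  rw [h.pt.pr.bx]
  refine (if_neg (not_or.2 ⟨h.pt.pr.ne, fun h' => ?_⟩)).symm
  exact h.x_ne _ (Sum.inr_injective h')

/-- The base of the instance. -/
theorem base : Base (gsys Φ T ε n b) w V (cl6 cl y iP) where
  gas_b _ := le_rfl
  gas_o _ h' := Option.some_ne_none _ h'.symm
  gas_cl i := h.str.cl_empty (inl_not_mem_pS i)
  cover := h.str.cov

theorem one : One Φ T ε c b V w (cl6 cl y iP) (R6 Φ T ε b V w R y iP z e) where
  base := h.base
  pe := h.pe
  fam := h.str.fam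

theorem lab_d : Lab (gsys Φ T ε n b) (Sum.elim w V) (cl6 cl y iP) (Sum.inr x) d.1.1
    (back d.1) :=
  lab6_d_of h.pt h.hC h.hΦ h.hε h.full h.tl h.hℓς h.pass h.le

theorem lab_out (k : Bool) : Lab (gsys Φ T ε n b) (Sum.elim w V) (cl6 cl y iP)
    (Sum.inr (lab6o y iP k)) (out6 Φ ε P z e k).1.1 (back (out6 Φ ε P z e k).1) := by
  cases k
  · exact lab6_c_of h.pt h.hC h.hΦ h.hε h.full h.tl h.hℓς h.pass h.le
  · exact lab6_e_of h.pt h.hC h.hΦ h.hε h.full h.tl h.hℓς h.pass h.le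

theorem x_ne_out (k : Bool) : x ≠ lab6o y iP k := h.x_ne_lab (Sum.inr k)

/-- Contacts of two exits in the connecting family. -/
theorem old {i j : Fin n ⊕ σ}
    (hi : i ∈ E6 (Sum.inr x) (Sum.inr y) (iP.trans (strE n σ)))
    (hj : j ∈ E6 (Sum.inr x) (Sum.inr y) (iP.trans (strE n σ)))
    (hij : i ≠ j) {r : ℝ} (hr : R6 Φ T ε b V w R y iP z e r i j) :
    j ∈ cl6 cl y iP i ∧ r ≤ bD6 Φ ε bD y iP z e i ∧ r ≤ bD6 Φ ε bD y iP z e j := by
  have h1 := h.str.old i hi j hj hij r hr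
  have h2 := h.str.old j hj i hi hij.symm r (h.str.fam.symm r i j hr)
  exact ⟨h1.1, h1.2, h2.2⟩

/-- Two exits of different classes are not close at the time of a simultaneous birth. -/
theorem far_birth {i j : Fin n ⊕ σ} {li lj : ML}
    (hi : i ∈ E6 (Sum.inr x) (Sum.inr y) (iP.trans (strE n σ)))
    (hj : j ∈ E6 (Sum.inr x) (Sum.inr y) (iP.trans (strE n σ)))
    (hij : i ≠ j) (hli : Lab (gsys Φ T ε n b) (Sum.elim w V) (cl6 cl y iP) i li.1.1 (back li.1))
    (hlj : Lab (gsys Φ T ε n b) (Sum.elim w V) (cl6 cl y iP) j lj.1.1 (back lj.1))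
    (hb : li.1.1 = lj.1.1) (hT : li.1.1 ≤ T) :
    j ∈ cl6 cl y iP i ∨ ε < dist li.1.2.1 lj.1.2.1 := by
  by_contra hcon
  push Not at hcon
  obtain ⟨hc, hd⟩ := hcon
  have key : ∀ {k : Fin n ⊕ σ} {l : ML},
      k ∈ E6 (Sum.inr x) (Sum.inr y) (iP.trans (strE n σ)) →
      Lab (gsys Φ T ε n b) (Sum.elim w V) (cl6 cl y iP) k l.1.1 (back l.1) → l.1.1 ≤ T →
      (gsys Φ T ε n b).st (cl6 cl y iP k) l.1.1 (Sum.elim w V) k = l.1.2 ∧ 0 ≤ l.1.1 := by
    intro k l hk hl hlT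
    rcases hl with hl | ⟨hl, _⟩
    · have h3 := h.str.mem k hk
      rw [hl.cl] at h3
      exact absurd h3 (Finset.notMem_empty _)
    · refine ⟨?_, (bb_nonneg _ k).trans hl.bb_le⟩
      have h3 := hl.hand hlT
      rw [← h3, Str.onLine_back]
  obtain ⟨s1, h0⟩ := key hi hli hT
  obtain ⟨s2, -⟩ := key hj hlj (by rw [← hb]; exact hT)
  rw [← hb] at s2
  have hv : (gsys Φ T ε n b).VCt c (pS n σ) i j li.1.1 (Sum.elim w V) := by
    refine vct_st h.hC h.hε (h.str.sub i) (h.str.sub j) (h.str.mem i hi) (h.str.mem j hj)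
      (ok_anti hT (h.str.cov.ok i)) (ok_anti hT (h.str.cov.ok j)) (h.str.obs hi) (h.str.obs hj) ?_
    rw [s1, s2]
    exact hd
  obtain ⟨r, hr, hRr, _⟩ := window h.str.fam h.tl h.str.conn subset_rfl h.hℓς
    (h.str.mem_π hi) (h.str.mem_π hj) hij.symm ⟨h0, hT⟩ hv
  exact hc (h.old hi hj hij hRr).1

/-- **The lines `e'`, `c'` as exits** over the base world `(cfg w).ins d`. -/
theorem exits {t₀ : ℝ} (ht₀ : t₀ ≤ T) (ok0 : ((MW.cfg w).ins d).Ok Φ ε)
    (okc : (MW.cfg w).Ok Φ ε) (ok1 : ∀ k, (((MW.cfg w).ins d).ins (out6 Φ ε P z e k)).Ok Φ ε)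
    (hBd : PW365.NoB Φ ε (MW.cfg w) d)
    (hBo : ∀ k, PW365.NoB Φ ε (MW.cfg w) (out6 Φ ε P z e k)) :
    Exits Φ T t₀ ε b V w (cl6 cl y iP) (R6 Φ T ε b V w R y iP z e) ((MW.cfg w).ins d)
      (lab1 n x) (out6 Φ ε P z e) (lab6o y iP) where
  inj k k' hk := by
    have := h.lab_inj (a₁ := Sum.inr k) (a₂ := Sum.inr k') hk
    exact Sum.inr_injective this
  out k i := lab1_ne (h.x_ne_out k) i
  mark i hi := by
    rcases i with i | i
    · exact le_rfl
    · exact absurd (inr_mem_pS x) hi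
  memC k := h.str.mem _ (h.mem_f (Sum.inr k))
  memB i hi := by
    rcases i with i | i
    · exact absurd hi (inl_not_mem_pS i)
    · exact h.str.mem _ h.mem_x
  ok0 := ok0
  ok1 := ok1
  gd0 := h.base.gd1 h.hΦ h.hε h.lab_d ok0
  gd1 k := h.base.gd2 h.hΦ h.hε (h.x_ne_out k) h.lab_d (h.lab_out k) (ok1 k)
  cb0 := by
    refine PW365.cleanB_ins (h.base.gd1 h.hΦ h.hε h.lab_d ok0) (fun i => h.base.gas_cl i)
      (fun i => le_rfl) t₀
  cb1 k := by
    refine PW365.cleanB_ins2 (h.base.gd2 h.hΦ h.hε (h.x_ne_out k) h.lab_d (h.lab_out k) (ok1 k))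
      h.hΦ h.hε okc ok0 (ok1 k) (fun i => h.base.gas_cl i) (fun i => le_rfl)
      (fun _ _ _ => hBd) (fun _ _ _ => hBo k) fun hb hu => ?_
    exact h.far_birth h.mem_x (h.mem_f (Sum.inr k))
      (fun h' => h.x_ne_out k (Sum.inr_injective h')) h.lab_d (h.lab_out k) hb (hu.trans ht₀)
  old k k' hk r hr := by
    have h1 := h.old (h.mem_f (Sum.inr k)) (h.mem_f (Sum.inr k'))
      (fun h' => hk (Sum.inr_injective (h.lab_inj (Sum.inr_injective h')))) hr
    refine ⟨h1.1, h1.2.1.trans (le_of_eq ?_)⟩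
    have h2 := h.birth (Sum.inr k)
    rw [← h2]
    cases k <;> rfl
  oldB i j x' y' hi hj hij := by
    rcases i with i | i
    · cases hi
    · rcases j with j | j
      · cases hj
      · exact absurd rfl hij
  oldX k i y' hi r hr := by
    rcases i with i | i
    · cases hi
    · have hxy' : x = y' := Sum.inr_injective hi
      subst hxy'
      have h1 := h.old (h.mem_f (Sum.inr k)) h.mem_x
        (fun h' => h.x_ne_out k (Sum.inr_injective h').symm) hr
      refine ⟨h1.1, h1.2.1.trans (le_of_eq ?_), h1.2.2.trans (le_of_eq ?_)⟩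
      · have h2 := h.birth (Sum.inr k)
        rw [← h2]
        cases k <;> rfl
      · exact h.birth_d.symm

theorem lab_f (k : {i : Idx P // i ≠ root P} ⊕ Bool) :
    Lab (gsys Φ T ε n b) (Sum.elim w V) (cl6 cl y iP) (Sum.inr (lab6f y iP k))
      (fam6 Φ ε P z e k).1.1 (back (fam6 Φ ε P z e k).1) := by
  rcases k with i | k
  · exact lab6_i_of h.pt h.hC h.hΦ h.hε h.full h.tl h.hℓς h.pass h.le i.2
  · cases k
    · exact h.lab_out false
    · exact h.lab_out true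

/-- State of an exit at its birth. -/
theorem st_birth {k : Fin n ⊕ σ} {l : ML}
    (hk : k ∈ E6 (Sum.inr x) (Sum.inr y) (iP.trans (strE n σ)))
    (hl : Lab (gsys Φ T ε n b) (Sum.elim w V) (cl6 cl y iP) k l.1.1 (back l.1)) (hT : l.1.1 ≤ T) :
    (gsys Φ T ε n b).st (cl6 cl y iP k) l.1.1 (Sum.elim w V) k = l.1.2 := by
  rcases hl with hl | ⟨hl, _⟩
  · have h3 := h.str.mem k hk
    rw [hl.cl] at h3
    exact absurd h3 (Finset.notMem_empty _)
  · have h3 := hl.hand hT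
    rw [← h3, Str.onLine_back]

/-- All members of the family are in the class of `y`. -/
theorem mem_S (k : {i : Idx P // i ≠ root P} ⊕ Bool) :
    (Sum.inr (lab6f y iP k) : Fin n ⊕ σ) ∈ cl6 cl y iP (Sum.inr y) := by
  have h1 := (cls6_of h.pt h.hC h.hΦ h.hε h.full h.tl h.hℓς h.pass h.le).2
  rcases k with i | k
  · exact h1 i.1
  · cases k
    · exact h1 (root P)
    · exact h.str.mem _ (mem_E6.2 (Or.inr (Or.inl rfl)))

/-- Path of a member of the family in the merged class. -/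
theorem line (k : {i : Idx P // i ≠ root P} ⊕ Bool) {t : ℝ}
    (ht : (fam6 Φ ε P z e k).1.1 ≤ t) (htT : t ≤ T) :
    (gsys Φ T ε n b).st (cl6 cl y iP (Sum.inr y)) t (Sum.elim w V) (Sum.inr (lab6f y iP k)) =
      lineAt (fam6 Φ ε P z e k).1.1 (fam6 Φ ε P z e k).1.2 t := by
  have h1 := h.str.cov.eq _ _ (h.mem_S k)
  rw [← h1, h.str.line h.hΦ h.hε (h.mem_f k) (u := (fam6 Φ ε P z e k).1.1) (h.birth k).ge ht htT,
    h.st_birth (h.mem_f k) (h.lab_f k) (ht.trans htT)]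

/-- **`nl₂` from reachability.** -/
theorem nl2 {t₀ : ℝ} (ht₀ : t₀ ≤ T) {K N N₁ : ℕ} (ok0 : ((MW.cfg w).ins d).Ok Φ ε)
    (ok1 : ∀ k, (((MW.cfg w).ins d).ins (fam6 Φ ε P z e k)).Ok Φ ε)
    (hNB : NoBad (gsys Φ T ε n b) c ℓ ς (Sum.elim w V) (LS n σ) N₁)
    (hN : N + N + (N + N) ≤ N₁)
    (hRA : ∀ k, ReachAll (Reach (gsys Φ T ε n b) c (Sum.elim w V) (LS n σ) (pS n σ)
      (Sum.inr (lab6f y iP k)) N) Φ ε K t₀ ((MW.cfg w).ins d) (lab1 n x) (fam6 Φ ε P z e k)
        (Sum.inr (lab6f y iP k))) :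
    PairNL Φ ε K t₀ ((MW.cfg w).ins d) (fam6 Φ ε P z e) := by
  have hS := (cls6_of h.pt h.hC h.hΦ h.hε h.full h.tl h.hℓς h.pass h.le).1
  have hR : Bind302.PartR (gsys Φ T ε n b) c (Sum.elim w V) (pS n σ)
      (R6 Φ T ε b V w R y iP z e) := ⟨h.str.fam.conn, h.str.fam.symm, h.str.fam.vct⟩
  have hne : ∀ {k k'}, k ≠ k' → (Sum.inr (lab6f y iP k) : Fin n ⊕ σ) ≠ Sum.inr (lab6f y iP k') :=
    fun hk h' => hk (h.lab_inj (Sum.inr_injective h'))
  have hlg : ∀ k i, lab1 n x i ≠ Sum.inr (lab6f y iP k) := fun k i => lab1_ne (h.x_ne_lab k) i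
  have hNB' := Bind302.noBad_mono hNB hN
  refine pairNL_of_reach h.hΦ h.hε (M := gsys Φ T ε n b) (c := c) (ℓ := ℓ) (ς := ς)
    (Zc := Sum.elim w V) (Λ := LS n σ) (N := N) rfl ht₀ h.hC h.one.parts.conn
    (Bind302.noBad_mono hNB' (Nat.le_add_right _ _)) (h.one.noTwo _) (lab1 n x).injective
    (P := fun _ => pS n σ) (p := fun k => Sum.inr (lab6f y iP k)) (fun _ => mem_LS.2 rfl)
    (fun k => inr_mem_pS _) (fun k k' h' => h.lab_inj (Sum.inr_injective h')) ?_ hRA ?_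
  · rintro k ⟨i, hi⟩
    exact hlg k i hi
  · intro k k' hk _ u hu hux huy hbx hby hb
    refine Bind302.exits_apart h.hΦ h.hε (M := gsys Φ T ε n b) (c := c) (ℓ := ℓ) (ς := ς) rfl
      ht₀ h.hC h.hℓς hR (mem_LS.2 rfl) ok0 (ok1 k) (ok1 k') (hRA k) (hRA k') (hlg k) (hlg k')
      hNB' (inr_mem_pS _) (inr_mem_pS _) (hne hk) (fun r _ hr => ?_) ?_ hu hux huy hbx hby hb
    · have h1 := h.old (h.mem_f k) (h.mem_f k') (hne hk) hr
      exact ⟨h1.2.1.trans (h.birth k).ge, h1.2.2.trans (h.birth k').ge⟩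
    · intro t ht h1 h2 h3
      have b1 : bD6 Φ ε bD y iP z e (Sum.inr (lab6f y iP k)) = (fam6 Φ ε P z e k).1.1 :=
        (h.birth k).symm
      have b2 : bD6 Φ ε bD y iP z e (Sum.inr (lab6f y iP k')) = (fam6 Φ ε P z e k').1.1 :=
        (h.birth k').symm
      rw [← h.line k h1 ht.2, ← h.line k' h2 ht.2]
      rcases h3 with h3 | h3
      · refine hS.exit _ (h.mem_S k) t (lt_of_eq_of_lt b1 h3) ht.2 _ (h.mem_S k') (hne hk).symm ?_
        exact (hS.bb_le _ (h.mem_S k')).trans (b2.le.trans h2)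
      · rw [dist_comm]
        refine hS.exit _ (h.mem_S k') t (lt_of_eq_of_lt b2 h3) ht.2 _ (h.mem_S k) (hne hk) ?_
        exact (hS.bb_le _ (h.mem_S k)).trans (b1.le.trans h1)

end In6

end Crest.Agent.R122.LNS968

end
end

-- ▼ part R122/LNS3d_968
section

/-!
# Row 122, LN1 (helper968): the family `nl₂` of `E6Hyp`, off the bad events

`nl2_det` : exits `lineML i`, `i ≠ root`, `e'`, `c'` are pairwise unlinked in `(cfg w).ins d`, off the
bad events of the gateway (`BadGas`, `BadHitGas`, `RunS`), and off the births close to the gas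
(`NoB` of `d`, `e'`, `c'`). The same hypotheses as `nl0_det`, `nl1_det` (helper304).
-/

set_option autoImplicit false
set_option linter.unusedSectionVars false

open MeasureTheory Set Filter Topology
open Crest.AnalysisR.Kinetic
open Crest.Agent.R122.Flow671 hiding rel
open Crest.Agent.R122.Loc45 Crest.Agent.R122.Ins45
open Crest.Agent.R122.VL581 Crest.Agent.R122.VL581.VSys Crest.Agent.R122.VLInst442
open Crest.Agent.R122.LN304 Crest.Agent.R122.LNg410 Crest.Agent.R122.LNPart424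
open Crest.Agent.R122.Kin796 Crest.Agent.R122.Kin796.CTree Crest.Agent.R122.Tree674
open Crest.Agent.R122.PathFlow968 Crest.Agent.R122.TreeLines335 Crest.Agent.R122.EDefs602
open Crest.Agent.R122.LNTree410 Crest.Agent.R122.PWGlue491 Crest.Agent.R122.Inf879
open Crest.Agent.R122.LNGraft410 Crest.Agent.R122.LNEv968 Crest.Agent.R122.PWInst442
open Crest.Agent.R122.OCout796 Crest.Agent.R122.Scat818 Crest.Agent.R122.StrG491
open Crest.Agent.R122.MWFam255 Crest.Agent.R122.LNEv818 Crest.Agent.R122.LNS674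
open Crest.Agent.R122.OneC285 (cT cB cD cX)
open Crest.Agent.R122.E6Hyp879 (plus withD)
open Crest.Agent.R122.Decomp811 (exF)
open scoped Classical

noncomputable section

namespace Crest.Agent.R122.LNS968

variable {σ : Type} [Fintype σ] {n : ℕ} {Φ : Space3 → ℝ} {T te tc ε c ℓ ς : ℝ} {b : σ → ℝ}
  {V : σ → PhasePoint} {w : Config n} {R : ℝ → Fin n ⊕ σ → Fin n ⊕ σ → Prop}
  {cl : Fin n ⊕ σ → Finset (Fin n ⊕ σ)} {bE : Fin n ⊕ σ → ℝ} {π : Finset (Fin n ⊕ σ)}
  {x y : σ} {d e : ML} {P : CTree} {z : PhasePoint × Par P} {g : Idx P ↪ σ}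

/-- The encounter ends, if it starts before `T - 2 ℓ`. -/
theorem pass_of (H : PTree (gsys Φ T ε n b) c (Sum.elim w V) R π cl bE (Sum.inr x) (Sum.inr y) d.1
      e tc P z (g.trans (strE n σ)))
    (hπ : ∀ j : Fin n ⊕ σ, (j ∈ π ∨ j ∈ part (g.trans (strE n σ))) ↔ j ∈ pS n σ)
    (hΦ : AdmissiblePotential Φ) (hε : 0 < ε) (hc : 1 ≤ c) (hℓς : 2 * ℓ ≤ ς)
    (hT : TL (gsys Φ T ε n b) c ℓ ς (pS n σ) (Sum.elim w V)) (hlT : cT ε z e + 2 * ℓ < T) :
    CDpass Φ (cD ε z e) ∧ cT ε z e + outT Φ ε (cD ε z e) ≤ T := by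
  have hen := (H.hit hc hΦ hε).enc hΦ hε
  have h1 : LNS3a304.EU π (part (g.trans (strE n σ))) = pS n σ := by
    ext j
    rw [← hπ j]
    exact @Finset.mem_union _ (fun a b => Classical.propDecidable _) _ _ _
  have hT' : TL (gsys Φ T ε n b) c ℓ ς (LNS3a304.EU π (part (g.trans (strE n σ))))
      (Sum.elim w V) := by
    rw [h1]
    exact hT
  obtain ⟨h2, h3⟩ := hen.pass_of hc hΦ hε hT' hℓς hlT
  exact ⟨h2, (add_le_add_right h3 _).trans hlT.le⟩

/-- The data of `nl₂`. -/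
theorem in6_of (H : PTree (gsys Φ T ε n b) c (Sum.elim w V) R π cl bE (Sum.inr x) (Sum.inr y) d.1
      e tc P z (g.trans (strE n σ)))
    (hπ : ∀ j : Fin n ⊕ σ, (j ∈ π ∨ j ∈ part (g.trans (strE n σ))) ↔ j ∈ pS n σ)
    (hpe : w ∈ PairExcluded ε n) (hΦ : AdmissiblePotential Φ) (hε : 0 < ε) (hc : 1 ≤ c)
    (hℓς : 2 * ℓ ≤ ς) (hT : TL (gsys Φ T ε n b) c ℓ ς (pS n σ) (Sum.elim w V))
    (hlT : cT ε z e + 2 * ℓ < T) : In6 Φ T ε c ℓ ς b V w R π cl bE x y d e tc P z g where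
  hΦ := hΦ
  hε := hε
  hC := hc
  pt := H
  full j := (hπ j).symm
  tl := hT
  hℓς := hℓς
  pass := (pass_of H hπ hΦ hε hc hℓς hT hlT).1
  le := (pass_of H hπ hΦ hε hc hℓς hT hlT).2
  pe := hpe

/-- **Family exits, `e'`, `c'` over `(cfg w).ins d`** (field `nl₂` of helper879's `E6Hyp`). -/
theorem nl2_det (H : PTree (gsys Φ T ε n b) c (Sum.elim w V) R π cl bE (Sum.inr x) (Sum.inr y) d.1
      e tc P z (g.trans (strE n σ)))
    (hπ : ∀ j : Fin n ⊕ σ, (j ∈ π ∨ j ∈ part (g.trans (strE n σ))) ↔ j ∈ pS n σ)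
    (hpe : w ∈ PairExcluded ε n) (hΦ : AdmissiblePotential Φ) (hε : 0 < ε)
    (hT0 : 0 ≤ T) (hte : te ≤ T) (hc : 1 ≤ c) {T' Te T₁ ρ : ℝ} (hρ : 2 * (ρ * ε) ≤ ς)
    (hT : T ≤ T') (hTe : T' ≤ Te) (hT₁ : Te < T₁) {K m N₁ : ℕ} {A₀ : Finset σ} (hA : A₀.Nonempty)
    (hN : 4 * (Fintype.card σ + 2 * K * (m + 2)) ≤ N₁)
    (hB : ¬ LN2.BadGas Φ T' c ρ ς ε N₁ 1 A₀ b V w)
    (hBH : ¬ BH167.BadHitGas (BH167.bpos Φ T₁ Te) Φ T' c 1 ε N₁ N₁ 1 A₀ b V w)
    (hR : ¬ Gate424.RunS Φ ε T K m b V w) (hlT : cT ε z e + 2 * (ρ * ε) < T)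
    (hok : MW.OkFam Φ ε (MW.cfg w) (withD (fun i => lineML Φ ε P z i) d))
    (hok2 : MW.OkFam Φ ε ((MW.cfg w).ins d) (fam6 Φ ε P z e))
    (hBd : PW365.NoB Φ ε (MW.cfg w) d)
    (hBo : ∀ k, PW365.NoB Φ ε (MW.cfg w) (out6 Φ ε P z e k)) :
    PairNL Φ ε K te ((MW.cfg w).ins d) (fam6 Φ ε P z e) := by
  have hTL := LNS3a304.tlA H hπ hpe hΦ hε hc hT hA (N := N₁) (by omega) hB
  have h6 := in6_of H hπ hpe hΦ hε hc hρ hTL hlT
  have h1 := LNS3a304.one0 H hπ hpe hΦ hε hc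
  have E1 := LNS3a304.exits1 H hπ hpe hΦ hε hc hρ hTL hte hok
  have E6' := h6.exits (t₀ := te) hte (hok2.base hΦ hε)
    (hok.base hΦ hε) (fun k => by
      have h3 := hok2.line hΦ hε (Sum.inr k)
      cases k <;> exact h3) hBd hBo
  have hX1 := h1.ctx hΦ hε hc hρ hT hA hB
  have hX6 := h6.one.ctx hΦ hε hc hρ hT hA hB
  refine h6.nl2 hte (N := Fintype.card σ + 2 * K * (m + 2)) (N₁ := N₁) (hok2.base hΦ hε)
    (fun k => hok2.line hΦ hε k) hX6.nb (by omega) fun k => ?_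
  rcases k with i | k
  · refine (h1.reachAll_or_run E1 hT0 hte hX1 i.1 (fun β => ?_) (by omega)).resolve_left hR
    cases β
    · exact (h1.wd hΦ hε hT0 hc hρ hT hTe hT₁ hA hBH E1.gd0).bh
    · exact (h1.wd hΦ hε hT0 hc hρ hT hTe hT₁ hA hBH (E1.gd1 i.1)).bh
  · have h2 := (h6.one.reachAll_or_run E6' hT0 hte hX6 k (fun β => by
      cases β
      · exact (h6.one.wd hΦ hε hT0 hc hρ hT hTe hT₁ hA hBH E6'.gd0).bh
      · exact (h6.one.wd hΦ hε hT0 hc hρ hT hTe hT₁ hA hBH (E6'.gd1 k)).bh)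
      (by omega)).resolve_left hR
    cases k <;> exact h2

end Crest.Agent.R122.LNS968

end
end

-- ▼ part R122/XRA_547
section

/-!
# Row 122, LN1 (helper547): everything cleanly influenced by an independent line is reached

* `GD2.reachAll_line` : (RA) for the part `{p}` (helper818's `reachAll_of_glue`; no exit data).
* `gd2_x0` : the glued worlds of `cfg w` and `cfg w + x` over the joint system; `gd2_xd` : of
  `cfg w + d` and `cfg w + d + x`, `d` an exit of the structure.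
* `reachAll_x0`, `reachAll_xd` : run of the line, or bad sets / hits of the joint system, or
  `ReachAll` of the line.
-/

set_option autoImplicit false
set_option linter.unusedSectionVars false
set_option maxHeartbeats 400000

open MeasureTheory Set Filter Topology
open scoped ENNReal
open Crest.AnalysisR.Kinetic
open Crest.Agent.R122.EDefs602 Crest.Agent.R122.GIV566 Crest.Agent.R122.Ins45
open Crest.Agent.R122.VL581 Crest.Agent.R122.VL581.VSys Crest.Agent.R122.VLInst442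
open Crest.Agent.R122.LNInst491 Crest.Agent.R122.LN304 Crest.Agent.R122.LNg410
open Crest.Agent.R122.LNBridge968 Crest.Agent.R122.LNPart424 Crest.Agent.R122.LNEv968
open Crest.Agent.R122.LNEv818
open Crest.Agent.R122.PWGlue491 Crest.Agent.R122.PWInst442 Crest.Agent.R122.PW365
open Crest.Agent.R122.Inf879 Crest.Agent.R122.Tree674
open scoped Classical

noncomputable section

namespace Crest.Agent.R122.XG547

section generic

variable {J κ ι : Type} [Fintype J] [Fintype ι] [Nonempty κ] {M : VSys J κ} {c ℓ ς : ℝ}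
  {Z : J → PhasePoint} {cl : J → Finset J} {W : MW ι} {x : ML} {f : ι ↪ J} {p : J}
  {hp : ∀ i, f i ≠ p} {π : Finset J} {N K m : ℕ} {T : ℝ}

/-- **(RA) for an independent line.** -/
theorem reachAll_line (G : GD2 M Z cl W x f p hp) (hΦ : AdmissiblePotential M.Φ) (hε : 0 < M.ε)
    (hT0 : 0 ≤ M.T) (hTM : T ≤ M.T) (hc : 1 ≤ c) (hℓς : 2 * ℓ ≤ ς)
    (hCB : CB2 M Z cl W x f p hp T) (hcl : ∀ j, cl j ⊆ π) (hm : ∀ k, 1 ≤ W.m k)
    (hP : Parts M c Z (X692.Lx π p)) (hNB : NoBad M c ℓ ς Z (X692.Lx π p) N)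
    (hNT : NoTwo M c Z (X692.Lx π p) N)
    (hBH : ∀ b, ¬ BadHit M c Z (Xb M Z cl W x f p hp b) (Cb M Z cl W x f p hp b)
      (X692.Lx π p) N) {n : ℕ}
    {w : Config n} {g : Fin n ↪ J} (hw : ∀ i, w i = Z (g i)) (hgb : ∀ i, M.b (g i) = 0)
    (hgo : ∀ i, M.o ≠ some (g i)) (hgas : ∀ i, i ∉ uni (X692.Lx π p) → i ∈ range g)
    (hgf : ∀ i, ∃ k, f k = g i) (m : ℕ) (hN : (uni (X692.Lx π p)).card + 2 * K * (m + 2) ≤ N)
    (hbp : M.b p = x.1.1) (hzp : Z p = back x.1) :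
    LinkM547.Run M.Φ M.ε M.T K m (MW.line x) () w ∨
      ReachAll (Reach M c Z (X692.Lx π p) {p} p N) M.Φ M.ε K T W f x p := by
  have hpx : p ∈ ({p} : Finset J) := Finset.mem_singleton_self p
  rcases G.reachAll_of_glue (K := K) hΦ hε hT0 hTM hc hℓς hCB
    (fun j => (hcl j).trans (sub_uni X692.pi_mem)) (fun k _ => hm k) hP hNB hNT hBH X692.p_mem hpx
    (fun _ => LNPartS291.partS_singleton p) (LNPartS291.partD_singleton p) hw hgb hgo hgas hgf m
    hN with h | h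
  · obtain ⟨D, hD, hpD, h⟩ := h
    have hDp : D = {p} := Finset.Subset.antisymm hD (Finset.singleton_subset_iff.2 hpD)
    refine Or.inl (h Unit (MW.line x) ⟨fun _ => p, fun _ _ _ => rfl⟩ () ?_ rfl)
    refine ⟨fun _ => hbp.symm, fun _ => hzp.symm, fun _ => G.obs, fun j => ?_, ?_⟩
    · rw [hDp, Finset.mem_singleton]
      exact ⟨fun h => ⟨(), h.symm⟩, fun ⟨_, h⟩ => h.symm⟩
    · rw [hDp]
      intro i hi ho b j hj hj' hji hbj
      rw [Finset.mem_singleton] at hi hj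
      exact absurd (hj.trans hi.symm) hji
  · right
    intro u hu hθ y hy hb
    obtain ⟨h1, h2⟩ := h u hu hθ y hy hb
    exact ⟨h1.mono hN, fun k hk => (h2 k hk).mono hN⟩

end generic

/-! ### The joint system -/

section joint

variable {Φ : Space3 → ℝ} {T t ε c ℓ ς : ℝ} {S : Type} [Fintype S] {n N K : ℕ} {b : S → ℝ}
  {z : S → PhasePoint} {w : Config n} {x d : ML} {s : S}
  {cl : Fin n ⊕ S → Finset (Fin n ⊕ S)}

/-- Labels of the gas and of the label `a`, with a new label `a'`. -/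
theorem lab1_x_ne (n : ℕ) (s : S) (i : Fin n ⊕ Unit) :
    lab1 n (Sum.inl s : S ⊕ Unit) i ≠ Sum.inr (Sum.inr ()) :=
  lab1_ne (d := (Sum.inl s : S ⊕ Unit)) (a := Sum.inr ()) (by simp) i

/-- The glued worlds of `cfg w` and `cfg w + x`. -/
theorem gd2_x0 (hΦ : AdmissiblePotential Φ) (hε : 0 < ε) (hB : Base (gsys Φ T ε n b) w z cl)
    (hx0 : 0 ≤ x.1.1) (hw : (MW.cfg w).Ok Φ ε) (hok : ((MW.cfg w).ins x).Ok Φ ε) :
    GD2 (Mx Φ T ε n b x) (Zx w z x) (clX n S cl) (MW.cfg w) x (gasE n (S ⊕ Unit))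
      (X692.px n S) (gasE_ne (Sum.inr () : S ⊕ Unit)) where
  g0 := (base_eS (y := back x.1) hΦ hε hB).gd0 (M := Mx Φ T ε n b x) hΦ hε hw
  g1 := (base_eS (y := back x.1) hΦ hε hB).gd1 (M := Mx Φ T ε n b x) hΦ hε (lab_px hx0) hok
  ok := hw
  okA := hok

/-- The glued worlds of `cfg w + d` and `cfg w + d + x`. -/
theorem gd2_xd (hΦ : AdmissiblePotential Φ) (hε : 0 < ε) (hB : Base (gsys Φ T ε n b) w z cl)
    (hd : Lab (gsys Φ T ε n b) (Sum.elim w z) cl (Sum.inr s) d.1.1 (back d.1))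
    (hx0 : 0 ≤ x.1.1) (hok : ((MW.cfg w).ins d).Ok Φ ε)
    (hokx : (((MW.cfg w).ins d).ins x).Ok Φ ε) :
    GD2 (Mx Φ T ε n b x) (Zx w z x) (clX n S cl) ((MW.cfg w).ins d) x
      (lab1 n (Sum.inl s : S ⊕ Unit)) (X692.px n S) (lab1_x_ne n s) where
  g0 := (base_eS (y := back x.1) hΦ hε hB).gd1 (M := Mx Φ T ε n b x) hΦ hε (lab_eS hΦ hε hd) hok
  g1 := (base_eS (y := back x.1) hΦ hε hB).gd2 (M := Mx Φ T ε n b x) hΦ hε (by simp)
    (lab_eS hΦ hε hd) (lab_px hx0) hokx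
  ok := hok
  okA := hokx

theorem none_ne (j : Fin n ⊕ (S ⊕ Unit)) : (Mx Φ T ε n b x).o ≠ some j := by
  intro h
  have h1 : (none : Option (Fin n ⊕ (S ⊕ Unit))) = some _ := h
  cases h1

/-- The parts of the joint system. -/
theorem parts_x (hcS : (Mx Φ T ε n b x).Conn c (X692.piS n S) (Zx w z x))
    (hw : w ∈ PairExcluded ε n) :
    Parts (Mx Φ T ε n b x) c (Zx w z x) (X692.Lx (X692.piS n S) (X692.px n S)) := by
  refine X692.parts_Lx hcS (fun j _ _ => none_ne j) (fun j h1 h2 => ?_) fun i j hi hi' hj hj' hij => ?_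
  · rcases j with i | i | i
    · exact le_rfl
    · exact absurd (X692.mem_piS.2 ⟨i, rfl⟩) h1
    · exact absurd rfl h2
  · rcases i with i | i | i
    · rcases j with j | j | j
      · exact hw i j fun h => hij (by rw [h])
      · exact absurd (X692.mem_piS.2 ⟨j, rfl⟩) hj
      · exact absurd rfl hj'
    · exact absurd (X692.mem_piS.2 ⟨i, rfl⟩) hi
    · exact absurd rfl hi'

theorem gas_x {j : Fin n ⊕ (S ⊕ Unit)}
    (hj : j ∉ uni (X692.Lx (X692.piS n S) (X692.px n S))) : ∃ i, j = Sum.inl i := by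
  rw [X692.mem_uni_Lx, not_or] at hj
  rcases j with i | i | i
  · exact ⟨i, rfl⟩
  · exact absurd (X692.mem_piS.2 ⟨i, rfl⟩) hj.1
  · exact absurd rfl hj.2

theorem card_uni_x : (uni (X692.Lx (X692.piS n S) (X692.px n S))).card = Fintype.card S + 1 := by
  have h1 : uni (X692.Lx (X692.piS n S) (X692.px n S)) =
      insert (X692.px n S) (X692.piS n S) := by
    ext j
    rw [X692.mem_uni_Lx, Finset.mem_insert, or_comm]
  rw [h1, Finset.card_insert_of_notMem X692.px_notMem_piS]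
  unfold X692.piS
  rw [Finset.card_map, Finset.card_univ]

/-- **The line, base `cfg w`.** -/
theorem reachAll_x0 (hΦ : AdmissiblePotential Φ) (hε : 0 < ε) (hT0 : 0 ≤ T) (htT : t ≤ T)
    (hc : 1 ≤ c) (hℓς : 2 * ℓ ≤ ς) (hB : Base (gsys Φ T ε n b) w z cl) (hx0 : 0 ≤ x.1.1)
    (hcS : (Mx Φ T ε n b x).Conn c (X692.piS n S) (Zx w z x)) (hw : w ∈ PairExcluded ε n)
    (hok : ((MW.cfg w).ins x).Ok Φ ε) (m : ℕ)
    (hN : Fintype.card S + 1 + 2 * K * (m + 2) ≤ N)
    (hNB : NoBad (Mx Φ T ε n b x) c ℓ ς (Zx w z x)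
      (X692.Lx (X692.piS n S) (X692.px n S)) N)
    (hNT : NoTwo (Mx Φ T ε n b x) c (Zx w z x) (X692.Lx (X692.piS n S) (X692.px n S)) N)
    (hBH : ∀ β, ¬ BadHit (Mx Φ T ε n b x) c (Zx w z x)
      (Xb (Mx Φ T ε n b x) (Zx w z x) (clX n S cl) (MW.cfg w) x (gasE n (S ⊕ Unit))
        (X692.px n S) (gasE_ne (Sum.inr () : S ⊕ Unit)) β)
      (Cb (Mx Φ T ε n b x) (Zx w z x) (clX n S cl) (MW.cfg w) x (gasE n (S ⊕ Unit))
        (X692.px n S) (gasE_ne (Sum.inr () : S ⊕ Unit)) β)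
      (X692.Lx (X692.piS n S) (X692.px n S)) N) :
    LinkM547.Run Φ ε T K m (MW.line x) () w ∨
      ReachAll (Reach (Mx Φ T ε n b x) c (Zx w z x)
        (X692.Lx (X692.piS n S) (X692.px n S)) {X692.px n S} (X692.px n S) N) Φ ε K t
        (MW.cfg w) Sum.inl x (X692.px n S) := by
  have hwok : (MW.cfg w).Ok Φ ε := Unw410.cfg_ok hΦ hε hw
  have G := gd2_x0 (T := T) (b := b) (z := z) (cl := cl) hΦ hε hB hx0 hwok hok
  exact reachAll_line (M := Mx Φ T ε n b x) (π := X692.piS n S) G hΦ hε hT0 htT hc hℓς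
    ⟨cleanB_x0 hB G.g0 t, cleanB_x1 hB G.g1 t⟩ (cl_sub_piS hB) (fun _ => le_rfl)
    (parts_x hcS hw) hNB hNT hBH (g := gasE n (S ⊕ Unit)) (fun _ => rfl) (fun _ => rfl)
    (fun _ => none_ne _) (fun j hj => by
      obtain ⟨i, rfl⟩ := gas_x hj
      exact ⟨i, rfl⟩) (fun i => ⟨i, rfl⟩) m (by rw [card_uni_x]; exact hN) rfl rfl

/-- **The line, base `cfg w + d`**, `d` an exit of the structure. -/
theorem reachAll_xd (hΦ : AdmissiblePotential Φ) (hε : 0 < ε) (hT0 : 0 ≤ T) (htT : t ≤ T)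
    (hc : 1 ≤ c) (hℓς : 2 * ℓ ≤ ς) (hB : Base (gsys Φ T ε n b) w z cl)
    (hd : Lab (gsys Φ T ε n b) (Sum.elim w z) cl (Sum.inr s) d.1.1 (back d.1))
    (hd0 : 0 ≤ d.1.1) (hx0 : 0 ≤ x.1.1) (hdm : 1 ≤ d.2)
    (hcS : (Mx Φ T ε n b x).Conn c (X692.piS n S) (Zx w z x)) (hw : w ∈ PairExcluded ε n)
    (hok : ((MW.cfg w).ins d).Ok Φ ε) (hokx : (((MW.cfg w).ins d).ins x).Ok Φ ε) (m : ℕ)
    (hN : Fintype.card S + 1 + 2 * K * (m + 2) ≤ N)
    (hNB : NoBad (Mx Φ T ε n b x) c ℓ ς (Zx w z x)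
      (X692.Lx (X692.piS n S) (X692.px n S)) N)
    (hJ : ¬ X692.Joint (Mx Φ T ε n b x) c (Zx w z x) (X692.piS n S) (X692.px n S) N)
    (hBH : ∀ β, ¬ BadHit (Mx Φ T ε n b x) c (Zx w z x)
      (Xb (Mx Φ T ε n b x) (Zx w z x) (clX n S cl) ((MW.cfg w).ins d) x
        (lab1 n (Sum.inl s : S ⊕ Unit)) (X692.px n S) (lab1_x_ne n s) β)
      (Cb (Mx Φ T ε n b x) (Zx w z x) (clX n S cl) ((MW.cfg w).ins d) x
        (lab1 n (Sum.inl s : S ⊕ Unit)) (X692.px n S) (lab1_x_ne n s) β)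
      (X692.Lx (X692.piS n S) (X692.px n S)) N) :
    LinkM547.Run Φ ε T K m (MW.line x) () w ∨
      ReachAll (Reach (Mx Φ T ε n b x) c (Zx w z x)
        (X692.Lx (X692.piS n S) (X692.px n S)) {X692.px n S} (X692.px n S) N) Φ ε K t
        ((MW.cfg w).ins d) (lab1 n (Sum.inl s : S ⊕ Unit)) x (X692.px n S) := by
  have hwok : (MW.cfg w).Ok Φ ε := Unw410.cfg_ok hΦ hε hw
  have G := gd2_xd (T := T) (b := b) (z := z) (cl := cl) hΦ hε hB hd hx0 hok hokx
  have hne : (Sum.inl s : S ⊕ Unit) ≠ Sum.inr () := by simp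
  have hcb := cleanB_xdx (c := c) (N := N) hΦ hε hc hB hd hd0 hx0 hcS hJ (by omega) hwok hok hokx
    hne G.g1 htT
  exact reachAll_line (M := Mx Φ T ε n b x) (π := X692.piS n S) G hΦ hε hT0 htT hc hℓς
    ⟨cleanB_xd hB G.g0 t, hcb⟩ (cl_sub_piS hB) (fun k => by
      rcases k with k | k
      · exact le_rfl
      · exact hdm)
    (parts_x hcS hw) hNB (noTwo_of_not_joint hcS hJ) hBH (g := gasE n (S ⊕ Unit)) (fun _ => rfl)
    (fun _ => rfl) (fun _ => none_ne _) (fun j hj => by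
      obtain ⟨i, rfl⟩ := gas_x hj
      exact ⟨i, rfl⟩) (fun i => ⟨Sum.inl i, rfl⟩) m (by rw [card_uni_x]; exact hN) rfl rfl

end joint

end Crest.Agent.R122.XG547

end
end

-- ▼ part R122/OneX_973
section

/-!
# Row 122, LN1 (helper973): an independent line and a structure which is one part

The structure: `One` + `Exits` (helper674), any label type `σ`. The independent line: `reachAll_x0`,
`reachAll_xd` (helper547). The split of the alternatives: helper692.

* `reachS` : everything influenced by an exit is reached in the joint system, off `SAlt`.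
* `reachX0`, `reachXd` : the same for the line, base `cfg w`, `cfg w + d`, or `XRes`.
* `tubeOf_map` : tubes of the structure in the joint system.
* `one_x0`, `one_xd` : **no link of an exit with the line and no return of the line, or
  `SAlt | XAlt | JAlt`**.
-/

set_option autoImplicit false
set_option linter.unusedSectionVars false

open MeasureTheory Set Filter Topology
open scoped NNReal ENNReal
open Crest.AnalysisR.Kinetic
open Crest.Agent.R122.Loc45 Crest.Agent.R122.Ins45 Crest.Agent.R122.EDefs602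
open Crest.Agent.R122.VL581 Crest.Agent.R122.VL581.VSys Crest.Agent.R122.VLInst442
open Crest.Agent.R122.LN304 Crest.Agent.R122.LNg410 Crest.Agent.R122.LNEv968
open Crest.Agent.R122.LNBridge968
open Crest.Agent.R122.PWGlue491 Crest.Agent.R122.PWInst442 Crest.Agent.R122.LNPart424
open Crest.Agent.R122.MWFam255 Crest.Agent.R122.LNEv818 Crest.Agent.R122.LNEv383
open Crest.Agent.R122.GIV566 Crest.Agent.R122.LNS674
open Crest.Agent.R122.X692 (SAlt XAlt JAlt XRes ReachS ReachX HitG)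
open scoped Classical

noncomputable section

namespace Crest.Agent.R122.OneX973

variable {σ : Type} [Fintype σ] {n : ℕ} {ι μ ξ : Type} [Fintype ι] {Φ : Space3 → ℝ}
  {T te T' T₁ ε c R ς : ℝ} {b : σ → ℝ} {V : σ → PhasePoint} {w : Config n}
  {cl : Fin n ⊕ σ → Finset (Fin n ⊕ σ)} {Rc : ℝ → Fin n ⊕ σ → Fin n ⊕ σ → Prop} {W : MW ι}
  {f : ι ↪ Fin n ⊕ σ} {ls : μ → ML} {p : μ → σ} {K N N' m : ℕ} {x d : ML} {s : σ}
  {A₀ : Finset σ} {O : Tubes ξ} {m₀ : ξ → Fin n ⊕ σ}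

/-- The size of the reached groups. -/
def sz (σ : Type) [Fintype σ] (K m : ℕ) : ℕ := Fintype.card σ + 1 + 2 * K * (m + 2)

/-- `ReachAll` with a larger size. -/
theorem reachAll_monoN {J κ ι : Type} [Fintype J] [Fintype ι] {M : VSys J κ} {Z : J → PhasePoint}
    {Λ : Finset (Finset J)} {π : Finset J} {a a' : J} {W : MW ι} {l : ML} {lab : ι → J} {T : ℝ}
    {N N' : ℕ} (hN : N ≤ N')
    (h : ReachAll (Reach M c Z Λ π a N) Φ ε K T W lab l a') :
    ReachAll (Reach M c Z Λ π a N') Φ ε K T W lab l a' := by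
  intro u hu hθ y hy hb
  obtain ⟨h1, h2⟩ := h u hu hθ y hy hb
  refine ⟨?_, fun k hk => ?_⟩
  · obtain ⟨Y, hY, h3⟩ := h1
    exact ⟨Y, hY.mono hN, h3⟩
  · obtain ⟨Y, hY, h3⟩ := h2 k hk
    exact ⟨Y, hY.mono hN, h3⟩

/-- **The exits in the joint system**, off the alternatives of the structure. -/
theorem reachS (h : One Φ T ε c b V w cl Rc) (E : Exits Φ T te ε b V w cl Rc W f ls p)
    (hΦ : AdmissiblePotential Φ) (hε : 0 < ε) (hT0 : 0 ≤ T) (hte : te ≤ T) (hc : 1 ≤ c)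
    (hς : 2 * (R * ε) ≤ ς) (hT : T ≤ T') (hT₁ : T' < T₁) (hA : A₀.Nonempty)
    (hN : sz σ K m ≤ N) (hS : ¬ SAlt Φ T' T₁ T c R ς ε K m N A₀ b V w) (i : μ) :
    ReachS Φ T c ε te K N b V w x W f (ls i) (p i) := by
  unfold SAlt at hS
  push Not at hS
  obtain ⟨hR, hB, hBH⟩ := hS
  unfold sz at hN
  have hX := h.ctx hΦ hε hc hς hT hA hB
  have hH : ∀ β, ¬ BadHit (gsys Φ T ε n b) c (Sum.elim w V) (E.X i β) (E.C i β) (LS n σ) N := by
    intro β
    cases β
    · exact (h.wd hΦ hε hT0 hc hς hT le_rfl hT₁ hA hBH E.gd0).bh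
    · exact (h.wd hΦ hε hT0 hc hς hT le_rfl hT₁ hA hBH (E.gd1 i)).bh
  have h1 := (h.reachAll_or_run E hT0 hte hX i hH (m := m) (by omega)).resolve_left hR
  have h2 := XG547.reachAll_eS (τ := x.1.1) (y := back x.1) hΦ hε (Λ' := LS n σ)
    (fun y => by rw [uni_LS]; exact inr_mem_pS y) (fun j => mem_pS)
    (lab' := fun i => X692.eS n σ (f i)) (fun _ => rfl) h1
  exact reachAll_monoN (by omega) h2

/-- The structure is connected in the joint system. -/
theorem conn_x (h : One Φ T ε c b V w cl Rc) (hΦ : AdmissiblePotential Φ) (hε : 0 < ε) (x : ML) :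
    (X692.Mx Φ T ε n b x).Conn c (X692.piS n σ) (X692.Zx w V x) :=
  X692.conn_x hΦ hε h.conn

/-- A hit of one of the two glued worlds of the line. -/
theorem hitG_of {ι : Type} [Fintype ι] {W : MW ι} {g : ι ↪ Fin n ⊕ (σ ⊕ Unit)}
    {hg : ∀ i, g i ≠ X692.px n σ} (h : One Φ T ε c b V w cl Rc)
    (G : GD2 (X692.Mx Φ T ε n b x) (X692.Zx w V x) (XG547.clX n σ cl) W x g (X692.px n σ) hg)
    (β : Bool)
    (hb : BadHit (X692.Mx Φ T ε n b x) c (X692.Zx w V x)
      (Xb (X692.Mx Φ T ε n b x) (X692.Zx w V x) (XG547.clX n σ cl) W x g (X692.px n σ) hg β)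
      (Cb (X692.Mx Φ T ε n b x) (X692.Zx w V x) (XG547.clX n σ cl) W x g (X692.px n σ) hg β)
      (X692.Lx (X692.piS n σ) (X692.px n σ)) N) : HitG Φ T c ε N b V w x := by
  cases β
  · exact ⟨_, _, _, _, G.g0, fun i => XG547.clX_inl h.base.gas_cl i, hb⟩
  · exact ⟨_, _, _, _, G.g1, fun i => XG547.clX_inl h.base.gas_cl i, hb⟩

/-- **The line**, base `cfg w`. -/
theorem reachX0 (h : One Φ T ε c b V w cl Rc) (hΦ : AdmissiblePotential Φ) (hε : 0 < ε)
    (hT0 : 0 ≤ T) (hte : te ≤ T) (hc : 1 ≤ c) (hς : 2 * (R * ε) ≤ ς) (hx0 : 0 ≤ x.1.1)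
    (hok : ((MW.cfg w).ins x).Ok Φ ε) (hN : sz σ K m ≤ N) :
    ReachX Φ T c ε te K N b V w x (MW.cfg w) (gasE n σ) ∨
      XRes Φ T c R ς ε K m N b V w x := by
  by_cases h1 : XRes Φ T c R ς ε K m N b V w x
  · exact Or.inr h1
  left
  unfold XRes at h1
  push Not at h1
  obtain ⟨hR, hNB, hNT, hH⟩ := h1
  have hwok : (MW.cfg w).Ok Φ ε := Unw410.cfg_ok hΦ hε h.pe
  have G := XG547.gd2_x0 (T := T) (b := b) (z := V) (cl := cl) hΦ hε h.base hx0 hwok hok
  exact (XG547.reachAll_x0 hΦ hε hT0 hte hc hς h.base hx0 (conn_x h hΦ hε x) h.pe hok m hN hNB hNT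
    fun β hb => hH (hitG_of h G β hb)).resolve_left hR

/-- **The line**, base `cfg w + d`. -/
theorem reachXd (h : One Φ T ε c b V w cl Rc) (hΦ : AdmissiblePotential Φ) (hε : 0 < ε)
    (hT0 : 0 ≤ T) (hte : te ≤ T) (hc : 1 ≤ c) (hς : 2 * (R * ε) ≤ ς)
    (hd : Lab (gsys Φ T ε n b) (Sum.elim w V) cl (Sum.inr s) d.1.1 (back d.1))
    (hd0 : 0 ≤ d.1.1) (hdm : 1 ≤ d.2) (hx0 : 0 ≤ x.1.1) (hokd : ((MW.cfg w).ins d).Ok Φ ε)
    (hok : (((MW.cfg w).ins d).ins x).Ok Φ ε) (hN : sz σ K m ≤ N)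
    (hJ : ¬ X692.Joint (X692.Mx Φ T ε n b x) c (X692.Zx w V x) (X692.piS n σ) (X692.px n σ) N) :
    ReachX Φ T c ε te K N b V w x ((MW.cfg w).ins d) (lab1 n s) ∨
      XRes Φ T c R ς ε K m N b V w x := by
  by_cases h1 : XRes Φ T c R ς ε K m N b V w x
  · exact Or.inr h1
  left
  unfold XRes at h1
  push Not at h1
  obtain ⟨hR, hNB, hNT, hH⟩ := h1
  have G := XG547.gd2_xd (T := T) (b := b) (z := V) (cl := cl) (s := s) hΦ hε h.base hd hx0 hokd
    hok
  have h2 := (XG547.reachAll_xd (K := K) hΦ hε hT0 hte hc hς h.base hd hd0 hx0 hdm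
    (conn_x h hΦ hε x) h.pe hokd hok m hN hNB hJ
    fun β hb => hH (hitG_of h G β hb)).resolve_left hR
  unfold ReachX
  have e1 : (fun i => X692.eS n σ (lab1 n s i)) = lab1 n (Sum.inl s : σ ⊕ Unit) := by
    funext i
    cases i <;> rfl
  rw [e1]
  exact h2

/-- Tubes of the structure in the joint system. -/
theorem tubeOf_map (hΦ : AdmissiblePotential Φ) (hε : 0 < ε)
    (hO : TubeOf (gsys Φ T ε n b) (Sum.elim w V) (LS n σ) O te (fun _ => pS n σ) m₀) (x : ML) :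
    TubeOf (X692.Mx Φ T ε n b x) (X692.Zx w V x) (X692.Lx (X692.piS n σ) (X692.px n σ)) O te
      (fun _ => X692.piS n σ) (fun k => X692.eS n σ (m₀ k)) where
  part _ := X692.pi_mem
  mem k := by
    rw [← XG547.map_eS_univ]
    exact Finset.mem_map_of_mem _ (hO.mem k)
  obs k h := by
    have h1 : (none : Option (Fin n ⊕ (σ ⊕ Unit))) = some _ := h
    cases h1
  path k v hv hvb := by
    obtain ⟨B, hB, hk, hok, hst⟩ := hO.path k v hv hvb
    have hpull := X692.pull_eS (Φ := Φ) (T := T) (ε := ε) (n := n) b x.1.1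
    refine ⟨B.map (X692.eS n σ), ?_, Finset.mem_map_of_mem _ hk, ?_, ?_⟩
    · rw [← XG547.map_eS_univ]
      exact Finset.map_subset_map.2 hB
    · refine (hpull.ok hΦ hε v).2 ?_
      rw [X692.elim_eS]
      exact hok
    · rw [hst, hpull.st hΦ hε, X692.elim_eS]

/-- Tubes whose parts are smaller. -/
theorem tubeOf_sup {J κ : Type} [Fintype J] {M : VSys J κ} {Z : J → PhasePoint}
    {Λ Λ' : Finset (Finset J)} {te : ℝ} {Q Q' : ξ → Finset J} {m₀ : ξ → J}
    (hO : TubeOf M Z Λ O te Q m₀) (hQ : ∀ k, Q k ⊆ Q' k) (hQ' : ∀ k, Q' k ∈ Λ') :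
    TubeOf M Z Λ' O te Q' m₀ where
  part := hQ'
  mem k := hQ k (hO.mem k)
  obs := hO.obs
  path k v hv hvb := by
    obtain ⟨B, hB, h⟩ := hO.path k v hv hvb
    exact ⟨B, hB.trans (hQ k), h⟩

section main

variable (hΦ : AdmissiblePotential Φ) (hε : 0 < ε) (hT0 : 0 ≤ T) (hte : te ≤ T) (hc : 1 ≤ c)
  (hς : 2 * (R * ε) ≤ ς) (hT : T ≤ T') (hT₁ : T' < T₁) (hA : A₀.Nonempty)
include hΦ hε hT0 hte hc hς hT hT₁ hA

/-- **An exit and an independent line**, base `cfg w`. -/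
theorem one_x0 (h : One Φ T ε c b V w cl Rc)
    (E : Exits Φ T te ε b V w cl Rc (MW.cfg w) (gasE n σ) ls p)
    (hO : TubeOf (gsys Φ T ε n b) (Sum.elim w V) (LS n σ) O te (fun _ => pS n σ) m₀)
    (hx0 : 0 ≤ x.1.1) (hok : ((MW.cfg w).ins x).Ok Φ ε) (hN : sz σ K m + sz σ K m ≤ N) :
    ((∀ i, MW.NoLink Φ ε K te (MW.cfg w) (MW.line (ls i)) (MW.line x)) ∧
        ¬ RetC Φ ε ε K te (MW.cfg w) x O) ∨
      SAlt Φ T' T₁ T c R ς ε K m N A₀ b V w ∨ XAlt Φ T' T₁ T c R ς ε K m N x w ∨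
        JAlt Φ T' c R ς ε N A₀ b V x w := by
  have hN1 : sz σ K m ≤ N := (Nat.le_add_right _ _).trans hN
  by_cases hJ : X692.Joint (X692.Mx Φ T ε n b x) c (X692.Zx w V x) (X692.piS n σ)
      (X692.px n σ) (sz σ K m + sz σ K m)
  · exact Or.inr (Or.inr (Or.inr (X692.jalt_of_joint hΦ hε hT hA (hJ.mono hN))))
  by_cases hS : SAlt Φ T' T₁ T c R ς ε K m (sz σ K m) A₀ b V w
  · exact Or.inr (Or.inl (X692.SAlt.mono hε.le hN1 hS))
  rcases reachX0 (te := te) (x := x) h hΦ hε hT0 hte hc hς hx0 hok le_rfl with hX | hX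
  · exact Or.inl (X692.x_good hΦ hε hte hc (conn_x h hΦ hε x) (gasE n σ).injective
      (fun i => reachS h E hΦ hε hT0 hte hc hς hT hT₁ hA le_rfl hS i) hX hJ
      (tubeOf_map hΦ hε hO x))
  · rcases hX.alt hΦ hε hT hT₁ hA (X692.parts_x h.pe (conn_x h hΦ hε x)) with h1 | h1 | h1
    · exact Or.inr (Or.inl (X692.SAlt.mono hε.le hN1 h1))
    · exact Or.inr (Or.inr (Or.inl (X692.XAlt.mono hε.le hN1 h1)))
    · exact Or.inr (Or.inr (Or.inr (X692.JAlt.mono hN1 h1)))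

/-- **An exit and an independent line**, base `cfg w + d`, `d` an exit of the structure. -/
theorem one_xd (h : One Φ T ε c b V w cl Rc)
    (E : Exits Φ T te ε b V w cl Rc ((MW.cfg w).ins d) (lab1 n s) ls p)
    (hO : TubeOf (gsys Φ T ε n b) (Sum.elim w V) (LS n σ) O te (fun _ => pS n σ) m₀)
    (hd : Lab (gsys Φ T ε n b) (Sum.elim w V) cl (Sum.inr s) d.1.1 (back d.1))
    (hd0 : 0 ≤ d.1.1) (hdm : 1 ≤ d.2) (hx0 : 0 ≤ x.1.1) (hokd : ((MW.cfg w).ins d).Ok Φ ε)
    (hok : (((MW.cfg w).ins d).ins x).Ok Φ ε) (hN : sz σ K m + sz σ K m ≤ N) :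
    ((∀ i, MW.NoLink Φ ε K te ((MW.cfg w).ins d) (MW.line (ls i)) (MW.line x)) ∧
        ¬ RetC Φ ε ε K te ((MW.cfg w).ins d) x O) ∨
      SAlt Φ T' T₁ T c R ς ε K m N A₀ b V w ∨ XAlt Φ T' T₁ T c R ς ε K m N x w ∨
        JAlt Φ T' c R ς ε N A₀ b V x w := by
  have hN1 : sz σ K m ≤ N := (Nat.le_add_right _ _).trans hN
  by_cases hJ : X692.Joint (X692.Mx Φ T ε n b x) c (X692.Zx w V x) (X692.piS n σ)
      (X692.px n σ) (sz σ K m + sz σ K m)
  · exact Or.inr (Or.inr (Or.inr (X692.jalt_of_joint hΦ hε hT hA (hJ.mono hN))))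
  by_cases hS : SAlt Φ T' T₁ T c R ς ε K m (sz σ K m) A₀ b V w
  · exact Or.inr (Or.inl (X692.SAlt.mono hε.le hN1 hS))
  rcases reachXd (te := te) (x := x) h hΦ hε hT0 hte hc hς hd hd0 hdm hx0 hokd hok le_rfl
    (fun h' => hJ (h'.mono (Nat.le_add_right _ _))) with hX | hX
  · exact Or.inl (X692.x_good hΦ hε hte hc (conn_x h hΦ hε x) (lab1 n s).injective
      (fun i => reachS h E hΦ hε hT0 hte hc hς hT hT₁ hA le_rfl hS i) hX hJ
      (tubeOf_map hΦ hε hO x))
  · rcases hX.alt hΦ hε hT hT₁ hA (X692.parts_x h.pe (conn_x h hΦ hε x)) with h1 | h1 | h1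
    · exact Or.inr (Or.inl (X692.SAlt.mono hε.le hN1 h1))
    · exact Or.inr (Or.inr (Or.inl (X692.XAlt.mono hε.le hN1 h1)))
    · exact Or.inr (Or.inr (Or.inr (X692.JAlt.mono hN1 h1)))

end main

end Crest.Agent.R122.OneX973

end
end

-- ▼ part R122/LkDet_974
section

/-!
# Row 122, LINK6 (S4), deterministic part (helper974)

The pair structure with the tree (helper491's `PTree`) on the labels `σ` over the gas, and an
independent line `x`.

* `TreeP.str`, `TreeP.one`, `TreeP.tl` : the structure of the tree lines and `d` is one part; it is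
  tree-like off the bad partitions.
* `TreeP.ex0`, `TreeP.ex1` : the exits over `cfg w`, `cfg w + d`; `TreeP.tube` : the tubes of the tree.
* `lk_det` : `x` is good over `cfg w` and over `cfg w + d`, or `SAlt | XAlt | JAlt`.
-/

set_option autoImplicit false
set_option linter.unusedSectionVars false

open MeasureTheory Set Filter Topology
open scoped NNReal ENNReal
open Crest.AnalysisR.Kinetic
open Crest.Agent.R122.Flow671 hiding rel
open Crest.Agent.R122.Loc45 Crest.Agent.R122.Ins45 Crest.Agent.R122.EDefs602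
open Crest.Agent.R122.VL581 Crest.Agent.R122.VL581.VSys Crest.Agent.R122.VLInst442
open Crest.Agent.R122.Kin796 Crest.Agent.R122.Kin796.CTree Crest.Agent.R122.Tree674
open Crest.Agent.R122.TreeLines335 Crest.Agent.R122.LNTree410
open Crest.Agent.R122.LN304 Crest.Agent.R122.LNg410 Crest.Agent.R122.LNEv968
open Crest.Agent.R122.LNBridge968
open Crest.Agent.R122.PWGlue491 Crest.Agent.R122.PWInst442 Crest.Agent.R122.LNPart424
open Crest.Agent.R122.MWFam255 Crest.Agent.R122.LNEv818 Crest.Agent.R122.LNEv383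
open Crest.Agent.R122.GIV566 Crest.Agent.R122.LNS674 Crest.Agent.R122.StrG491
open Crest.Agent.R122.LNS3a304 (On one_of_str exits_cfg exits_ins_sep)
open Crest.Agent.R122.E6Hyp879 (withD inlEmb)
open Crest.Agent.R122.X692 (SAlt XAlt JAlt)
open Crest.Agent.R122.OneC285 (cT cB cD cX ptube)
open Crest.Agent.R122.LKok416 (OkX6)
open scoped Classical

noncomputable section

namespace Crest.Agent.R122.LkDet974

/-- Equal sets. -/
theorem str_congr {J κ : Type} [Fintype J] {M : VSys J κ} {c : ℝ} {Z : J → PhasePoint}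
    {R : ℝ → J → J → Prop} {π π' : Finset J} {cl : J → Finset J} {bD : J → ℝ} {E E' : Finset J}
    (h : Str M c Z R π cl bD E) (hπ : ∀ j, j ∈ π' ↔ j ∈ π) (hE : ∀ j, j ∈ E ↔ j ∈ E') :
    Str M c Z R π' cl bD E' := by
  have h1 : π = π' := Finset.ext fun j => (hπ j).symm
  have h2 : E = E' := Finset.ext hE
  rw [← h1, ← h2]
  exact h

variable {σ : Type} [Fintype σ] {n : ℕ} {Φ : Space3 → ℝ} {T te T' T₁ ε c R ς : ℝ} {b : σ → ℝ}
  {V : σ → PhasePoint} {w : Config n} {K m N : ℕ} {d e x : ML} {P : CTree}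
  {z : PhasePoint × Par P} {A₀ : Finset σ}

/-- **The pair structure with the tree** on the labels `σ` over the gas. -/
structure TreeP (Φ : Space3 → ℝ) (T ε c : ℝ) (b : σ → ℝ) (V : σ → PhasePoint) (w : Config n)
    (R₀ : ℝ → Fin n ⊕ σ → Fin n ⊕ σ → Prop) (π : Finset (Fin n ⊕ σ))
    (cl : Fin n ⊕ σ → Finset (Fin n ⊕ σ)) (bD : Fin n ⊕ σ → ℝ) (x₀ y₀ : σ) (g : Idx P ↪ σ)
    (d : ℝ × PhasePoint) (e : ML) (te : ℝ) (z : PhasePoint × Par P) : Prop where
  pt : PTree (gsys Φ T ε n b) c (Sum.elim w V) R₀ π cl bD (Sum.inr x₀) (Sum.inr y₀) d e te P z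
    (g.trans (strE n σ))
  all : ∀ j, j ∈ pS n σ ↔ j ∈ π ∨ j ∈ part (g.trans (strE n σ))

variable {R₀ : ℝ → Fin n ⊕ σ → Fin n ⊕ σ → Prop} {π : Finset (Fin n ⊕ σ)}
  {cl : Fin n ⊕ σ → Finset (Fin n ⊕ σ)} {bD : Fin n ⊕ σ → ℝ} {x₀ y₀ : σ} {g : Idx P ↪ σ}

namespace TreeP

/-- Classes. -/
abbrev cl0 (n : ℕ) (g : Idx P ↪ σ) (cl : Fin n ⊕ σ → Finset (Fin n ⊕ σ)) :
    Fin n ⊕ σ → Finset (Fin n ⊕ σ) := clSep cl (clOf (part (g.trans (strE n σ))))

/-- Contacts. -/
abbrev R0 (Φ : Space3 → ℝ) (T ε : ℝ) (b : σ → ℝ) (V : σ → PhasePoint) (w : Config n)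
    (R₀ : ℝ → Fin n ⊕ σ → Fin n ⊕ σ → Prop) (y₀ : σ) (g : Idx P ↪ σ) (e : ML)
    (z : PhasePoint × Par P) : ℝ → Fin n ⊕ σ → Fin n ⊕ σ → Prop :=
  joinR R₀ (RC (gsys Φ T ε n b) (Sum.elim w V) (part (g.trans (strE n σ)))) (Sum.inr y₀)
    ((g.trans (strE n σ)) (root P)) (cT ε z e)

variable (h : TreeP Φ T ε c b V w R₀ π cl bD x₀ y₀ g d.1 e te z)
include h

theorem str (hc : 1 ≤ c) (hΦ : AdmissiblePotential Φ) (hε : 0 < ε) :
    Str (gsys Φ T ε n b) c (Sum.elim w V) (R0 Φ T ε b V w R₀ y₀ g e z) (pS n σ) (cl0 n g cl) bD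
      ({Sum.inr x₀} ∪ part (g.trans (strE n σ))) := by
  have h1 := h.pt.str0 hc hΦ hε
  refine str_congr h1 (fun j => ?_) fun j => ?_
  · rw [h.all j]
    exact (@Finset.mem_union _ (fun a b => Classical.propDecidable _) _ _ _).symm
  · exact (@Finset.mem_union _ (fun a b => Classical.propDecidable _) _ _ _).trans
      (Finset.mem_union (s := {Sum.inr x₀}) (t := part (g.trans (strE n σ)))).symm

theorem one (hc : 1 ≤ c) (hΦ : AdmissiblePotential Φ) (hε : 0 < ε) (hw : w ∈ PairExcluded ε n) :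
    One Φ T ε c b V w (cl0 n g cl) (R0 Φ T ε b V w R₀ y₀ g e z) :=
  one_of_str hw (h.str hc hΦ hε)

theorem onI (hc : 1 ≤ c) (hΦ : AdmissiblePotential Φ) (hε : 0 < ε) (i : Idx P) :
    On (gsys Φ T ε n b) (Sum.elim w V) (cl0 n g cl) bD
      ({Sum.inr x₀} ∪ part (g.trans (strE n σ))) (g i) (lineML Φ ε P z i) where
  mem := Finset.mem_union_right _ (mem_part_self (e := g.trans (strE n σ)) i)
  b := (h.pt.bP i).symm
  st _ := by
    have hm := ((h.pt.hit hc hΦ hε).enc hΦ hε).meet hε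
    have h1 : (Sum.inr (g i) : Fin n ⊕ σ) ∈ part (g.trans (strE n σ)) :=
      mem_part_self (e := g.trans (strE n σ)) i
    have h2 : cl0 n g cl (Sum.inr (g i)) = part (g.trans (strE n σ)) := by
      rw [cl0, hm.cl₂_of h1, clOf_mem h1]
    rw [h2]
    exact h.pt.st_rel hΦ hε i

theorem onD (hc : 1 ≤ c) (hΦ : AdmissiblePotential Φ) (hε : 0 < ε) :
    On (gsys Φ T ε n b) (Sum.elim w V) (cl0 n g cl) bD
      ({Sum.inr x₀} ∪ part (g.trans (strE n σ))) x₀ d where
  mem := Finset.mem_union_left _ (Finset.mem_singleton_self _)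
  b := h.pt.pr.bx
  st ht := by
    have hm := ((h.pt.hit hc hΦ hε).enc hΦ hε).meet hε
    have h2 : cl0 n g cl (Sum.inr x₀) = cl (Sum.inr x₀) := by
      rw [cl0, hm.cl₁_of h.pt.pr.xπ]
    rw [h2]
    exact h.pt.pr.lx ht

theorem ne (i : Idx P) : g i ≠ x₀ := fun h' =>
  Finset.disjoint_left.1 h.pt.dj h.pt.pr.xπ
    (h' ▸ mem_part_self (e := g.trans (strE n σ)) i : (Sum.inr x₀ : Fin n ⊕ σ) ∈ _)

theorem sep (hc : 1 ≤ c) (hΦ : AdmissiblePotential Φ) (hε : 0 < ε) (i : Idx P) :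
    (Sum.inr x₀ : Fin n ⊕ σ) ∉ cl0 n g cl (Sum.inr (g i)) := by
  have hm := ((h.pt.hit hc hΦ hε).enc hΦ hε).meet hε
  have h1 : (Sum.inr (g i) : Fin n ⊕ σ) ∈ part (g.trans (strE n σ)) :=
    mem_part_self (e := g.trans (strE n σ)) i
  have h2 : cl0 n g cl (Sum.inr (g i)) = part (g.trans (strE n σ)) := by
    rw [cl0, hm.cl₂_of h1, clOf_mem h1]
  rw [h2]
  exact fun h3 => Finset.disjoint_left.1 h.pt.dj h.pt.pr.xπ h3

/-- The whole structure is tree-like off the bad partitions. -/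
theorem tl (hc : 1 ≤ c) (hΦ : AdmissiblePotential Φ) (hε : 0 < ε) (hw : w ∈ PairExcluded ε n)
    (hς : 2 * (R * ε) ≤ ς) (hT : T ≤ T') (hA : A₀.Nonempty) (hN : Fintype.card σ ≤ N)
    (hB : ¬ LN2.BadGas Φ T' c R ς ε N 1 A₀ b V w) :
    TL (gsys Φ T ε n b) c (R * ε) ς (pS n σ) (Sum.elim w V) := by
  have h1 := h.one hc hΦ hε hw
  refine (h1.ctx hΦ hε hc hς hT hA hB).nb (pS n σ) h1.conn ⟨_, mem_LS.2 rfl, subset_rfl⟩ ?_
  refine (Finset.card_le_card (t := pS n σ) fun j hj => ?_).trans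
    ((Finset.card_map _).le.trans (Finset.card_univ.le.trans hN))
  rcases (@Finset.mem_union _ (fun a b => Classical.propDecidable _) _ _ _).1 hj with h1 | h1
  · exact h1
  · rwa [uni_LS] at h1

/-- The lines of the tree over `cfg w`. -/
theorem ex0 (hc : 1 ≤ c) (hΦ : AdmissiblePotential Φ) (hε : 0 < ε) (hw : w ∈ PairExcluded ε n)
    (hς : 2 * (R * ε) ≤ ς) (hTL : TL (gsys Φ T ε n b) c (R * ε) ς (pS n σ) (Sum.elim w V))
    (hok : MW.OkFam Φ ε (MW.cfg w) (withD (lineML Φ ε P z) d)) :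
    Exits Φ T te ε b V w (cl0 n g cl) (R0 Φ T ε b V w R₀ y₀ g e z) (MW.cfg w) (gasE n σ)
      (lineML Φ ε P z) g :=
  exits_cfg (h.str hc hΦ hε) hw hΦ hε hc hς hTL h.pt.te_lt.le g.injective (h.onI hc hΦ hε)
    (okFam_comp hΦ hε hok (inlEmb (Idx P) Unit))

/-- The lines of the tree over `cfg w + d`. -/
theorem ex1 (hc : 1 ≤ c) (hΦ : AdmissiblePotential Φ) (hε : 0 < ε) (hw : w ∈ PairExcluded ε n)
    (hς : 2 * (R * ε) ≤ ς) (hTL : TL (gsys Φ T ε n b) c (R * ε) ς (pS n σ) (Sum.elim w V))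
    (hok : MW.OkFam Φ ε (MW.cfg w) (withD (lineML Φ ε P z) d)) :
    Exits Φ T te ε b V w (cl0 n g cl) (R0 Φ T ε b V w R₀ y₀ g e z) ((MW.cfg w).ins d)
      (lab1 n x₀) (lineML Φ ε P z) g :=
  exits_ins_sep (h.str hc hΦ hε) hw hΦ hε hc hς hTL h.pt.te_lt.le g.injective (h.onI hc hΦ hε)
    (h.onD hc hΦ hε) h.ne (LKok416.okFam_insD hΦ hε hok) (h.sep hc hΦ hε)

/-- The tubes of the tree. -/
theorem tube (hΦ : AdmissiblePotential Φ) (hε : 0 < ε) :
    TubeOf (gsys Φ T ε n b) (Sum.elim w V) (LS n σ) (ptube Φ ε P z) te (fun _ => pS n σ)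
      (g.trans (strE n σ)) := by
  have h1 : TubeOf (gsys Φ T ε n b) (Sum.elim w V) {part (g.trans (strE n σ))}
      (ptube Φ ε P z) te (fun _ => part (g.trans (strE n σ))) (g.trans (strE n σ)) :=
    tubeOf_ptube (M := gsys Φ T ε n b) hΦ hε h.pt.tree (Finset.mem_singleton_self _)
      h.pt.te_lt.le
  exact OneX973.tubeOf_sup h1 (fun _ j hj => (h.all j).2 (Or.inr hj)) fun _ => mem_LS.2 rfl

end TreeP

/-- **The line `x` is good** over `cfg w` and over `cfg w + d`, or the alternatives. -/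
theorem lk_det (h : TreeP Φ T ε c b V w R₀ π cl bD x₀ y₀ g d.1 e te z)
    (hΦ : AdmissiblePotential Φ) (hε : 0 < ε) (hc : 1 ≤ c) (hς : 2 * (R * ε) ≤ ς) (hT : T ≤ T')
    (hT₁ : T' < T₁) (hA₀ : A₀.Nonempty) (hw : w ∈ PairExcluded ε n)
    (hok : MW.OkFam Φ ε (MW.cfg w) (withD (lineML Φ ε P z) d))
    (hx : OkX6 Φ ε (MW.cfg w) P z d x) (hx0 : 0 ≤ x.1.1) (hdm : 1 ≤ d.2)
    (hN : OneX973.sz σ K m + OneX973.sz σ K m ≤ N) :
    (BadX974.GoodXB Φ ε K te (MW.cfg w) P z x ∧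
        BadX974.GoodXB Φ ε K te ((MW.cfg w).ins d) P z x) ∨
      SAlt Φ T' T₁ T c R ς ε K m N A₀ b V w ∨ XAlt Φ T' T₁ T c R ς ε K m N x w ∨
        JAlt Φ T' c R ς ε N A₀ b V x w := by
  have hT0 : 0 ≤ T := h.pt.T_pos.le
  have hte : te ≤ T := h.pt.te_lt.le
  have hA : A₀.Nonempty := hA₀
  by_cases hS : SAlt Φ T' T₁ T c R ς ε K m N A₀ b V w
  · exact Or.inr (Or.inl hS)
  have hS' := hS
  unfold SAlt at hS'
  push Not at hS'
  have hcard : Fintype.card σ ≤ N := by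
    unfold OneX973.sz at hN
    omega
  have hTL := h.tl hc hΦ hε hw hς hT hA hcard hS'.2.1
  have h1 := h.one hc hΦ hε hw
  have hO := h.tube hΦ hε
  have hok1 : (((MW.cfg w).ins d).ins x).Ok Φ ε :=
    (LKok416.ok_swap hΦ hε).1 ((LKok416.okFam_insD hΦ hε hx.fam).base hΦ hε)
  have hok0 : ((MW.cfg w).ins x).Ok Φ ε := hx.fam.base hΦ hε
  have hokd : ((MW.cfg w).ins d).Ok Φ ε := (LKok416.okFam_insD hΦ hε hok).base hΦ hε
  rcases OneX973.one_x0 (x := x) (R := R) (ς := ς) (K := K) (m := m) (N := N) hΦ hε hT0 hte hc hς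
    hT hT₁ hA h1 (h.ex0 hc hΦ hε hw hς hTL hok) hO hx0 hok0 hN with h2 | h2
  swap
  · exact Or.inr h2
  have hlab : Lab (gsys Φ T ε n b) (Sum.elim w V) (TreeP.cl0 n g cl) (Sum.inr x₀) d.1.1
      (back d.1) := h.pt.lab0_d hc hΦ hε
  rcases OneX973.one_xd (x := x) (R := R) (ς := ς) (K := K) (m := m) (N := N) hΦ hε hT0 hte hc hς
    hT hT₁ hA h1 (h.ex1 hc hΦ hε hw hς hTL hok) hO hlab h.pt.pr.d_nonneg hdm hx0 hokd hok1 hN
    with h3 | h3
  swap
  · exact Or.inr h3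
  exact Or.inl ⟨LKok416.goodXB₁ hΦ hε hx hok h2.1 h2.2, LKok416.goodXB₂ hΦ hε hx hok h3.1 h3.2⟩

end Crest.Agent.R122.LkDet974

end
end

-- ▼ part R122/DLaw_416

/-!
# Row 122, inequality 3 (helper416): the law of the first line of a structure

* `DAC te S ε` : the law of the line `d` of the shape `S` is absolutely continuous w.r.t. `lineV te`.
* `dac_of_px`, `dac_base` : the shapes of the base pair law; `DAC.itS` : their continuations;
  `dac_itS_base` : both.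
* `qmp_osPX`, `qmp_osP` : from independent lines to (contact tree, structure, line, gas);
  `ae_osPX`, `ae_osP` : the almost sure facts.
-/

set_option autoImplicit false
set_option linter.unusedSectionVars false

open MeasureTheory Set Filter Topology
open scoped Classical ENNReal
open Crest.AnalysisR.Kinetic

noncomputable section

namespace Crest.Agent.R122.DLaw416

open Crest.Agent.R122.GC311 Crest.Agent.R122.Kin796 Crest.Agent.R122.Kin796.CTree
open Crest.Agent.R122.Tree674 Crest.Agent.R122.EDefs602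
open Crest.Agent.R122.Gate424 Crest.Agent.R122.LN2
open Crest.Agent.R122.Boost969 (LSt)
open Crest.Agent.R122.Pair292 (Lab PPar PX)
open Crest.Agent.R122.PairD292 Crest.Agent.R122.PairRep581
open Crest.Agent.R122.StrN998 (itS)
open Crest.Agent.R122.NuL735 (famB nuL NPar Ix)

variable {Φ : Space3 → ℝ} {f₀ : PhasePoint → ℝ} {γ β : ℝ} {ρ : Space3 → ℝ≥0∞} {S : Shp}
  {te T' ε : ℝ} {K : ℕ} {P : CTree}

/-- **The law of the line `d`** of the shape is absolutely continuous. -/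
def DAC (te : ℝ) (S : Shp) (ε : ℝ) : Prop :=
  Measure.QuasiMeasurePreserving (fun x => dL (S.th ε x)) (S.m ε) (lineV te)


theorem dac_of_ae (hm : Measurable fun x => dL (S.th ε x))
    (h : ∀ N : Set ML, MeasurableSet N → lineV te N = 0 → ∀ᵐ x ∂(S.m ε), dL (S.th ε x) ∉ N) :
    DAC te S ε := by
  refine ⟨hm, Measure.AbsolutelyContinuous.mk fun N hN h0 => ?_⟩
  rw [Measure.map_apply hm hN]
  exact measure_eq_zero_iff_ae_notMem.2 (h N hN h0)

theorem DAC.ae {te : ℝ} (h : DAC te S ε) {N : Set ML} (h0 : lineV te N = 0) :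
    ∀ᵐ x ∂(S.m ε), dL (S.th ε x) ∉ N :=
  Measure.QuasiMeasurePreserving.ae h (measure_eq_zero_iff_ae_notMem.1 h0)

/-! ### The base law -/


/-- The exit lines of almost every tree avoid a null set of lines. -/
theorem ae_exit (hΦ : AdmissiblePotential Φ) (hε : 0 < ε) (P : CTree) (T' : ℝ) {A : Set ML}
    (hA : MeasurableSet A) (h0 : lineV T' A = 0) :
    ∀ᵐ z : PhasePoint × Par P, vw Φ ε P T' z ≠ 0 → ∀ m : Mark307.Mk P,
      LineMeas994.lineMM Φ ε P z (Mark307.exIdx m) ∉ A := by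
  set k : PhasePoint → ℝ≥0∞ := fun z => ENNReal.ofReal (1 * Real.exp (-2 * ‖z.2‖ ^ 2)) with hk
  have hkm : Measurable k := by
    rw [hk]
    fun_prop
  have hk0 : ∀ z, k z ≠ 0 := fun z => by
    rw [hk]
    simp only [one_mul, ne_eq, ENNReal.ofReal_eq_zero, not_le]
    exact Real.exp_pos _
  obtain ⟨C', -, H⟩ := Mark307.crude_exit_lineM hΦ (C := 1) (b := 2) (b' := 1) zero_le_one
    one_pos one_lt_two hkm (fun z => le_rfl) P (T := T') (γ := fun _ => 1) measurable_const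
    (fun _ _ => le_rfl) (ρ := 1) one_ne_zero le_rfl
  set φ : ML → ℝ≥0∞ := A.indicator 1 with hφ
  have hφm : Measurable φ := measurable_one.indicator hA
  have h1 := H ε T' hε le_rfl P.leaves le_rfl φ hφm
  have h2 : ∫⁻ l, φ l ∂lineM (fun _ => 1) 1 P.leaves T' = 0 := by
    rw [hφ, lintegral_indicator_one hA]
    exact withDensity_absolutelyContinuous _ _ h0
  rw [h2, mul_zero, nonpos_iff_eq_zero] at h1
  have e : ∀ z : PhasePoint × Par P, vw Φ ε P T' z * ((∏ i, k (lines Φ ε P z.1 z.2 i)) *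
      ∑ m : Mark307.Mk P, φ (TreeLines335.lineML Φ ε P z (Mark307.exIdx m))) =
      vw Φ ε P T' z * ((∏ i, k (linesM Φ ε P z.1 z.2 i)) *
      ∑ m : Mark307.Mk P, φ (LineMeas994.lineMM Φ ε P z (Mark307.exIdx m))) := by
    intro z
    by_cases hz : vw Φ ε P T' z = 0
    · rw [hz, zero_mul, zero_mul]
    · have hV := Mark307.valid_of_vw hz
      rw [linesM_of_adm ε hV.1]
      congr 2
      refine Finset.sum_congr rfl fun m _ => ?_
      rw [LineMeas994.lineMM_of_adm ε hV.1]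
  rw [lintegral_congr e] at h1
  have hmeas : Measurable fun z : PhasePoint × Par P => vw Φ ε P T' z *
      ((∏ i, k (linesM Φ ε P z.1 z.2 i)) *
        ∑ m : Mark307.Mk P, φ (LineMeas994.lineMM Φ ε P z (Mark307.exIdx m))) := by
    refine (measurable_vw hΦ ε P T').mul (Measurable.mul ?_ ?_)
    · exact Finset.measurable_prod _ fun i _ => hkm.comp ((measurable_pi_apply i).comp
        (measurable_linesM hΦ ε P))
    · exact Finset.measurable_sum _ fun m _ => hφm.comp (LineMeas994.measurable_lineMM hΦ ε P _)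
  filter_upwards [(lintegral_eq_zero_iff hmeas).1 h1] with z hz hv m hmA
  have hz' : vw Φ ε P T' z * ((∏ i, k (linesM Φ ε P z.1 z.2 i)) *
      ∑ m : Mark307.Mk P, φ (LineMeas994.lineMM Φ ε P z (Mark307.exIdx m))) = 0 := hz
  rcases mul_eq_zero.1 hz' with h3 | h3
  · exact hv h3
  rcases mul_eq_zero.1 h3 with h4 | h4
  · obtain ⟨i, -, h5⟩ := Finset.prod_eq_zero_iff.1 h4
    exact hk0 _ h5
  · have h5 := Finset.sum_eq_zero_iff.1 h4 m (Finset.mem_univ m)
    rw [hφ, indicator_of_mem hmA] at h5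
    exact one_ne_zero h5

/-- **The shapes of the base law**, horizon `T'` of the trees, every `ε` and all parameters. -/
theorem dac_base (hΦ : AdmissiblePotential Φ) (N : NPar) (hε : 0 < ε) (s : Ix N.m₀) :
    DAC N.T' (famB Φ K N s) ε := by
  have hmth : Measurable fun x => dL ((famB Φ K N s).th ε x) := by
    have h1 : Measurable fun θ : Lab × LSt => dL θ := by
      unfold dL
      exact measurable_fst.fst
    exact h1.comp (NuL735.measurable_thE hΦ ε _ _ _)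
  refine dac_of_ae hmth fun A hA h0 => ?_
  obtain ⟨⟨P, hP⟩, ⟨⟨x, y⟩, hx, hy⟩⟩ := s
  change x ∈ OneC285.exS P at hx
  change ∀ᵐ q ∂(NuL735.mP Φ ε K N P x y), NuL735.oneE Φ ε q x ∉ A
  obtain ⟨i, hi, rfl⟩ := Finset.mem_map.1 hx
  obtain ⟨m, hm⟩ := Mark307.exIdx_surj P i (Finset.mem_filter.1 hi).2
  have h1 : ∀ᵐ q ∂(NuL735.refM P), vw Φ ε P N.T' q.1 ≠ 0 → ∀ m : Mark307.Mk P,
      LineMeas994.lineMM Φ ε P q.1 (Mark307.exIdx m) ∉ A :=
    Measure.quasiMeasurePreserving_fst.ae (ae_exit hΦ hε P N.T' hA h0)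
  have h2 : ∀ᵐ q ∂(NuL735.mS Φ ε K N P), NuL735.oneE Φ ε q (Sum.inl i) ∉ A := by
    unfold NuL735.mS
    refine Measure.ae_smul_measure ?_ _
    rw [ae_withDensity_iff (NuL735.measurable_dS hΦ ε K N P)]
    filter_upwards [h1] with q hq hd
    have h3 : (q.1, NuL735.lnO q.2) ∈ Nu0566.goodS Φ ε N.te N.T' K P := by
      by_contra hc
      refine hd ?_
      unfold NuL735.dS Nu0566.strD
      exact indicator_of_notMem hc _
    have h4 : vw Φ ε P N.T' q.1 ≠ 0 := by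
      intro hv
      refine hd ?_
      show Nu0566.strD Φ _ ε K _ N.ρ N.te N.T' P (q.1, NuL735.lnO q.2) = 0
      unfold Nu0566.strD
      rw [indicator_of_mem h3]
      rw [vw_of_valid h3.1] at hv
      show wtM Φ P q.1.1.2 q.1.2 * _ = 0
      rw [wtM_of_adm h3.1.1, hv, zero_mul]
    have h5 := hq h4 m
    rw [hm] at h5
    rw [NuL735.oneE_of_adm' h3.1.1]
    show ¬ (if i = root P then _ else LineMeas994.lineMM Φ ε P q.1 i) ∈ A
    rw [if_neg (Finset.mem_filter.1 hi).2]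
    exact h5
  exact ae_restrict_of_ae h2

/-- **The line `d` of the continuations** is the line `d` of the base. -/
theorem dL_itS (S : Shp) (Φ : Space3 → ℝ) (b₀ te : ℝ) (q : ℕ → ℝ≥0∞) (ε : ℝ) (j : ℕ)
    (x : StrN998.Th S.Θ j) :
    dL ((itS S Φ b₀ te q j).th ε x) = dL (S.th ε (NuHit969.bas S.Θ j x)) := by
  induction j with
  | zero => rfl
  | succ j ih => exact ih x.1

/-- **The continuations.** -/
theorem DAC.itS {te' b₀ : ℝ} {q : ℕ → ℝ≥0∞} (hd : DAC te S ε) (h : ShpOk γ β ρ S)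
    (hΦ : AdmissiblePotential Φ) (hε : 0 < ε) (j : ℕ) :
    DAC te (StrN998.itS S Φ b₀ te' q j) ε := by
  have hok := StrN998.ShpOk.sd_ok h hε
  have hokj : ((StrN998.ofShp S ε).iter Φ ε b₀ te' q j).Ok := hok.iter hΦ j
  have hm : Measurable fun x => dL ((StrN998.itS S Φ b₀ te' q j).th ε x) := by
    have h1 : Measurable fun θ : Lab × LSt => dL θ := by
      unfold dL
      exact measurable_fst.fst
    exact h1.comp hokj.mpr
  refine dac_of_ae hm fun N hN h0 => ?_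
  filter_upwards [NuHit969.ae_itS (b₀ := b₀) (te := te') (q := q) h hΦ hε (hd.ae h0) j]
    with x hx
  have h1 := dL_itS S Φ b₀ te' q ε j x
  show dL ((StrN998.itS S Φ b₀ te' q j).th ε x) ∉ N
  rw [h1]
  exact hx.1

/-- **All shapes of inequality 3.** -/
theorem dac_itS_base (hΦ : AdmissiblePotential Φ) (K : ℕ) (N : NPar) {b₀ te' : ℝ}
    {q : ℕ → ℝ≥0∞} (h : ∀ s : Ix N.m₀, ShpOk γ β ρ (famB Φ K N s)) (hε : 0 < ε) (s : Ix N.m₀)
    (j : ℕ) : DAC N.T' (StrN998.itS (famB Φ K N s) Φ b₀ te' q j) ε :=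
  (dac_base hΦ N hε s).itS (h s) hΦ hε j

/-! ### Transport -/

section transport

variable {n : ℕ} {te' : ℝ} {gl : ℝ → ℝ} {rm : ℝ≥0∞} {Km : ℕ}







end transport

end Crest.Agent.R122.DLaw416

end
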