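import Crest.Agent.R122.Direct1_658
import Crest.Agent.R122.OneCDefs_285
import Crest.Agent.R122.InEq2V_263
import Crest.Agent.R122.EBasic_602

/-!
# Row 122, section E, E4-direct (helper658)

The part of INEQUALITY 1 where the first contact of the test line is with an infected particle.

* `touchW_le_hitC` : deterministic: the weighted touch is at most the weight at a contact of the free
  line with the infected family.
* `dW4 K P w τ v` : integrand (all marks, all positions) of the direct touches.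
* `direct4_world` : one world; `direct4` : **E4-direct**, pointwise in the birth time `τ`.
* `birth4` : lines born in contact with a particle: mass `O(ε)`.
-/

set_option autoImplicit false
set_option linter.unusedSectionVars false

open MeasureTheory Set Filter Topology
open scoped ENNReal
open Crest.AnalysisR.Kinetic
open Crest.Agent.R122.Flow671 Crest.Agent.R122.Loc45 Crest.Agent.R122.Causal291
open Crest.Agent.R122.Inf879 Crest.Agent.R122.EDefs602 Crest.Agent.R122.Ins45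
open Crest.Agent.R122.GC311 Crest.Agent.R122.OneC285 Crest.Agent.R122.InEq2U263
open Crest.Agent.R122.FluxI263 Crest.Agent.R122.EW370 Crest.Agent.R122.Unw410
open Crest.Agent.R122.EBasic602

namespace Crest.Agent.R122.Direct658

noncomputable section

open scoped Classical

variable {Φ : Space3 → ℝ} {f₀ : PhasePoint → ℝ} {ε : ℝ} {K : ℕ} {P : EPar}


/-- Before its first contact the free line is far from the gas. -/
theorem far_of_lt_mT {n : ℕ} {w : Config n} {l : ML} {s : ℝ} (h1 : l.1.1 ≤ s)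
    (h2 : s < mT Φ ε w l) (i : Fin n) : ε < dist (fpos l s) (flow Φ ε s w i).1 := by
  by_contra h
  push Not at h
  have hs : s ∈ mSet Φ ε w l := ⟨h1, i, h⟩
  exact absurd (csInf_le ⟨l.1.1, fun r hr => hr.1⟩ hs) (not_le.2 h2)

/-- The touch time of a line whose first contact is dirty. -/
theorem thetaL_of_dmeet (hΦ : AdmissiblePotential Φ) (hε : 0 < ε) {n : ℕ} {w : Config n}
    (hw : w ∈ PairExcluded ε n) {T : ℝ} {l : ML} (hl : 0 < l.1.1) (hm : l.2 ≤ K)
    (hne : ∀ i, (flow Φ ε l.1.1 w i).1 ≠ l.1.2.1) {i : Fin n} (h : DMeet Φ ε K T w l i) :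
    (MW.cfg w).thetaL Φ ε K T l = mT Φ ε w l := by
  have hZ := cfg_ok hΦ hε hw
  have hZl := ins_ok hΦ hε hw hl hne
  have hpos : 0 < mT Φ ε w l := hl.trans h.1.lt
  refine theta_eq_of_dirty hΦ hε hZ hZl hl.le hm ?_ h.1.lt.le h.1.le (i := i) hpos.le
    (Or.inl hpos) ?_ h.2
  · intro s k h1 h2 _ _
    rw [path_cfg hΦ hε hw (hl.le.trans h1)]
    exact far_of_lt_mT h1 h2 k
  · rw [path_cfg hΦ hε hw hpos.le]
    exact h.1.dist

/-- **Direct touches, deterministic.** -/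
theorem touchW_le_hitC (hΦ : AdmissiblePotential Φ) (hε : 0 < ε) {n : ℕ} {w : Config n}
    (hw : w ∈ PairExcluded ε n) {l : ML} (hl : 0 < l.1.1) (hm : l.2 ≤ K)
    (hne : ∀ i, (flow Φ ε l.1.1 w i).1 ≠ l.1.2.1) {i : Fin n} (h : DMeet Φ ε K P.te w l i) :
    (MW.cfg w).touchW Φ ε K P l ≤ hitC (fun i s => (flow Φ ε s w i).1) ε (bad Φ ε K w)
      ((MW.cfg w).Wm Φ ε K P) P.tw P.te (back l.1) := by
  have hθ := thetaL_of_dmeet hΦ hε hw hl hm hne h
  unfold MW.touchW
  split_ifs with hc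
  · rw [hθ] at hc ⊢
    refine le_hitC (s := mT Φ ε w l) ⟨hc.1.le, hc.2⟩ (i := i) ?_ h.1.dist
    exact (cfg_inf_iff hΦ hε hw _ i).1 h.2
  · exact bot_le

/-- Direct part of the touch functional of the line `l`. -/
def dirW (Φ : Space3 → ℝ) (ε : ℝ) (K : ℕ) (P : EPar) {n : ℕ} (w : Config n) (l : ML) : ℝ≥0∞ :=
  if ∃ i, DMeet Φ ε K P.te w l i then (MW.cfg w).touchW Φ ε K P l else 0

/-- **E4-direct, one world.** -/
theorem direct4_world (hΦ : AdmissiblePotential Φ) (hε : 0 < ε) {n : ℕ} {w : Config n}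
    (hw : w ∈ PairExcluded ε n) (hL : 0 ≤ P.L) (htw : 0 ≤ P.tw) (hte : P.tw ≤ P.te) {τ : ℝ}
    (hτ : 0 < τ) {G : Space3 → ℝ≥0∞} (hG : Measurable G) (hG0 : ∀ v, G v ≠ 0)
    (hGt : ∀ v, G v ≠ ∞) :
    ∫⁻ v : Space3, G v * ∫⁻ y : Space3, ∑' m : ℕ, markW P.ρ K m *
        dirW Φ ε K P w ((τ, (y, v)), m) ≤
      (∑' m : ℕ, markW P.ρ K m) * (fluxC G ε * fluxR (bad Φ ε K w) ((MW.cfg w).Wm Φ ε K P)
        P.tw P.te ε (E0Q Φ ε K P w) (eQ Φ ε K P w)) := by
  have h := fam_bad (K := K) hΦ hε hw hL htw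
  have hcont : Continuous fun s => flow Φ ε s w := flow_continuous_time hΦ hε w
  obtain ⟨θ, hθ, hθ1, hle, hint⟩ := exists_majorant (c := fun i s => (flow Φ ε s w i).1)
    (c' := fun i s => (flow Φ ε s w i).2) hε hte
    (fun i s _ => ((hasDerivAt_pi.1 (flow_hasDerivAt hΦ hε
        (pairExcluded_subset_Dom hε n hw) s)) i).fst)
    (fun i => (continuous_snd.comp ((continuous_apply i).comp hcont)).continuousOn)
    (fun i => (continuous_fst.comp ((continuous_apply i).comp hcont)).measurable)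
    (fun i => (continuous_snd.comp ((continuous_apply i).comp hcont)).measurable)
    h.mono hG hG0 hGt h.anti h.meas h.le_one h.energy h.one_le h.card_le
  set S : ℝ≥0∞ := ∑' m : ℕ, markW P.ρ K m with hS
  have hθm : ∀ v : Space3, Measurable fun y : Space3 => θ (y - τ • v, v) := fun v =>
    hθ.comp ((measurable_id.sub_const _).prodMk measurable_const)
  have hθm' : ∀ v : Space3, Measurable fun y : Space3 => θ (y, v) := fun v =>
    hθ.comp (measurable_id.prodMk measurable_const)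
  -- for fixed velocity
  have h1 : ∀ v : Space3, ∫⁻ y : Space3, ∑' m : ℕ, markW P.ρ K m *
        dirW Φ ε K P w ((τ, (y, v)), m) ≤ S * ∫⁻ y : Space3, θ (y, v) := by
    intro v
    have h2 : ∫⁻ y : Space3, ∑' m : ℕ, markW P.ρ K m * dirW Φ ε K P w ((τ, (y, v)), m) ≤
        ∫⁻ y : Space3, S * θ (y - τ • v, v) := by
      have hae : ∀ᵐ y : Space3, ∀ i, (flow Φ ε τ w i).1 ≠ y := by
        rw [ae_all_iff]
        intro i
        have : {y : Space3 | ¬ (flow Φ ε τ w i).1 ≠ y} = {(flow Φ ε τ w i).1} := by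
          ext y
          simp only [ne_eq, not_not, mem_ofPred_eq, mem_singleton_iff]
          exact eq_comm
        rw [ae_iff, this]
        exact measure_singleton _
      refine lintegral_mono_ae ?_
      filter_upwards [hae] with y hy
      rw [hS, ← ENNReal.tsum_mul_right]
      refine ENNReal.tsum_le_tsum fun m => ?_
      by_cases hm : m ≤ K
      · refine mul_le_mul_right ?_ _
        unfold dirW
        split_ifs with hd
        · obtain ⟨i, hi⟩ := hd
          exact (touchW_le_hitC hΦ hε hw (l := ((τ, (y, v)), m)) hτ hm hy hi).trans (hle _)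
        · exact bot_le
      · have : markW P.ρ K m = 0 := by
          unfold markW
          exact if_neg fun h => hm h.2
        rw [this, zero_mul]
        exact bot_le
    refine h2.trans (le_of_eq ?_)
    rw [lintegral_const_mul _ (hθm v)]
    congr 1
    exact lintegral_sub_right_eq_self (fun y : Space3 => θ (y, v)) (τ • v)
  calc ∫⁻ v : Space3, G v * ∫⁻ y : Space3, ∑' m : ℕ, markW P.ρ K m *
        dirW Φ ε K P w ((τ, (y, v)), m)
      ≤ ∫⁻ v : Space3, S * (G v * ∫⁻ y : Space3, θ (y, v)) := by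
        refine lintegral_mono fun v => (mul_le_mul_right (h1 v) _).trans (le_of_eq ?_)
        ring
    _ = S * ∫⁻ v : Space3, ∫⁻ y : Space3, G v * θ (y, v) := by
        have h3 : Measurable fun q : Space3 × Space3 => G q.1 * θ (q.2, q.1) :=
          (hG.comp measurable_fst).mul (hθ.comp measurable_swap)
        rw [← lintegral_const_mul S h3.lintegral_prod_right']
        refine lintegral_congr fun v => ?_
        simp only
        rw [lintegral_const_mul _ (hθm' v)]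
    _ = S * ∫⁻ z : PhasePoint, G z.2 * θ z := by
        congr 1
        have h4 : Measurable fun z : PhasePoint => G z.2 * θ z := (hG.comp measurable_snd).mul hθ
        rw [Measure.volume_eq_prod, lintegral_prod_symm _ h4.aemeasurable]
    _ ≤ _ := mul_le_mul_right hint S

theorem wG_ne_zero (a : ℝ) (v : Space3) : Kin796.wG a v ≠ 0 := by
  unfold Kin796.wG
  simp only [ne_eq, ENNReal.ofReal_eq_zero, not_le]
  exact Real.exp_pos _

theorem wG_ne_top (a : ℝ) (v : Space3) : Kin796.wG a v ≠ ∞ := by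
  unfold Kin796.wG
  exact ENNReal.ofReal_ne_top

/-- **E4-direct** (any velocity density `G`). -/
theorem direct4_gen (hΦ : AdmissiblePotential Φ) (hf : Measurable f₀) (hε : 0 < ε)
    (hL : 0 ≤ P.L) (htw : 0 ≤ P.tw) (hte : P.tw ≤ P.te) {τ : ℝ} (hτ : 0 < τ)
    {G : Space3 → ℝ≥0∞} (hG : Measurable G) (hG0 : ∀ v, G v ≠ 0) (hGt : ∀ v, G v ≠ ∞)
    (hK : fluxK G ≠ ∞) (hρ : ∑' m : ℕ, markW P.ρ K m ≠ ∞) :
    gcE f₀ ε (fun _ w => ∫⁻ v : Space3, G v * ∫⁻ y : Space3, ∑' m : ℕ, markW P.ρ K m *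
        dirW Φ ε K P w ((τ, (y, v)), m)) ≤
      (∑' m : ℕ, markW P.ρ K m) * fluxK G * ENNReal.ofReal (ε + (P.te - P.tw)) *
        (JE Φ f₀ ε K P.tw + ENNReal.ofReal (cB Φ) * aE Φ f₀ ε K P) := by
  set S : ℝ≥0∞ := ∑' m : ℕ, markW P.ρ K m with hS
  have hact : (activity ε)⁻¹ ≠ ∞ := ENNReal.inv_ne_top.2 (activity_ne_zero hε)
  have h1 : gcE f₀ ε (fun _ w => ∫⁻ v : Space3, G v * ∫⁻ y : Space3, ∑' m : ℕ, markW P.ρ K m *
        dirW Φ ε K P w ((τ, (y, v)), m)) ≤
      gcE f₀ ε (fun n w => (S * fluxK G * ENNReal.ofReal (ε + (P.te - P.tw))) *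
        ((activity ε)⁻¹ * E0Q Φ ε K P w + (activity ε)⁻¹ *
          ∑ p ∈ bad Φ ε K (w : Config n) P.te \ bad Φ ε K w P.tw,
            (MW.cfg w).Wm Φ ε K P (entry P.tw P.te (bad Φ ε K w) p) * eQ Φ ε K P w p)) := by
    refine gcE_mono f₀ ε fun n w hw => ?_
    refine (direct4_world hΦ hε hw hL htw hte hτ hG hG0 hGt).trans ?_
    rw [fluxC_eq G hε]
    unfold fluxR
    rw [← hS]
    have h2 : (MW.cfg w).Wm Φ ε K P P.tw * E0Q Φ ε K P w ≤ E0Q Φ ε K P w :=
      mul_le_of_le_one_left bot_le (Weight984.W_le_one hL _)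
    calc _ ≤ S * (fluxK G * (activity ε)⁻¹ * (ENNReal.ofReal (ε + (P.te - P.tw)) *
          (E0Q Φ ε K P w + ∑ p ∈ bad Φ ε K (w : Config n) P.te \ bad Φ ε K w P.tw,
            (MW.cfg w).Wm Φ ε K P (entry P.tw P.te (bad Φ ε K w) p) * eQ Φ ε K P w p))) := by
          gcongr
      _ = _ := by ring
  refine h1.trans ?_
  rw [gcE_const_mul f₀ ε (ENNReal.mul_ne_top (ENNReal.mul_ne_top hρ hK) ENNReal.ofReal_ne_top)]
  refine mul_le_mul_right ?_ _
  rw [gcE_add hf ε (fun n => (measurable_E0Q hΦ hε P n).const_mul _)]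
  refine add_le_add le_rfl ?_
  unfold aE
  rw [← gcE_const_mul f₀ ε ENNReal.ofReal_ne_top]
  refine gcE_mono f₀ ε fun n w _ => ?_
  refine (mul_le_mul_right (sum_entry_le hΦ hε w htw hte) _).trans (le_of_eq ?_)
  ring

/-- **E4-direct**, pointwise in the birth time `τ`. -/
theorem direct4 (hΦ : AdmissiblePotential Φ) (hf : Measurable f₀) (hε : 0 < ε)
    (hL : 0 ≤ P.L) (htw : 0 ≤ P.tw) (hte : P.tw ≤ P.te) {τ : ℝ} (hτ : 0 < τ)
    (hK : fluxK (Kin796.wG (P.γ τ)) ≠ ∞) (hρ : ∑' m : ℕ, markW P.ρ K m ≠ ∞) :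
    gcE f₀ ε (fun _ w => ∫⁻ v : Space3, Kin796.wG (P.γ τ) v * ∫⁻ y : Space3,
        ∑' m : ℕ, markW P.ρ K m * dirW Φ ε K P w ((τ, (y, v)), m)) ≤
      (∑' m : ℕ, markW P.ρ K m) * fluxK (Kin796.wG (P.γ τ)) *
        ENNReal.ofReal (ε + (P.te - P.tw)) *
        (JE Φ f₀ ε K P.tw + ENNReal.ofReal (cB Φ) * aE Φ f₀ ε K P) :=
  direct4_gen hΦ hf hε hL htw hte hτ (Kin796.meas_wG _) (wG_ne_zero _) (wG_ne_top _) hK hρ

/-! ### Uniform constant -/

/-- Constant of E4-direct. -/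
def cD (γ₀ : ℝ) (ρ : ℝ≥0∞) : ℝ≥0∞ := rhoS ρ * (8 * Sweep815.c3 * gI γ₀)

theorem cD_ne_top {γ₀ : ℝ} (hγ : 0 < γ₀) {ρ : ℝ≥0∞} (hρ : ρ < 1) : cD γ₀ ρ ≠ ∞ := by
  refine ENNReal.mul_ne_top (rhoS_lt_top hρ).ne (ENNReal.mul_ne_top (ENNReal.mul_ne_top ?_ ?_)
    (gI_lt_top hγ).ne)
  · exact ENNReal.ofNat_ne_top
  · unfold Sweep815.c3
    exact ENNReal.ofReal_ne_top

theorem fluxK_eq_gI (γ : ℝ) : fluxK (Kin796.wG γ) = 8 * Sweep815.c3 * gI γ := rfl

theorem tsum_markW_le_rhoS (ρ : ℝ≥0∞) (K : ℕ) : ∑' m, markW ρ K m ≤ rhoS ρ :=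
  ENNReal.tsum_le_tsum fun n => markW_le K n

/-- **E4-direct, uniform constant.** -/
theorem direct4_unif (hΦ : AdmissiblePotential Φ) (hf : Measurable f₀) (hε : 0 < ε)
    (hL : 0 ≤ P.L) (htw : 0 ≤ P.tw) (hte : P.tw ≤ P.te) (hρ : P.ρ < 1) {γ₀ : ℝ} (hγ₀ : 0 < γ₀)
    {τ : ℝ} (hτ : 0 < τ) (hγ : γ₀ ≤ P.γ τ) :
    gcE f₀ ε (fun _ w => ∫⁻ v : Space3, Kin796.wG (P.γ τ) v * ∫⁻ y : Space3,
        ∑' m : ℕ, markW P.ρ K m * dirW Φ ε K P w ((τ, (y, v)), m)) ≤
      cD γ₀ P.ρ * ENNReal.ofReal (ε + (P.te - P.tw)) *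
        (JE Φ f₀ ε K P.tw + ENNReal.ofReal (cB Φ) * aE Φ f₀ ε K P) := by
  have h3 : Sweep815.c3 ≠ ∞ := by
    unfold Sweep815.c3
    exact ENNReal.ofReal_ne_top
  have hK : fluxK (Kin796.wG (P.γ τ)) ≠ ∞ := by
    rw [fluxK_eq_gI]
    exact ENNReal.mul_ne_top (ENNReal.mul_ne_top ENNReal.ofNat_ne_top h3)
      (gI_lt_top (hγ₀.trans_le hγ)).ne
  have hρ' : ∑' m : ℕ, markW P.ρ K m ≠ ∞ :=
    ne_top_of_le_ne_top (rhoS_lt_top hρ).ne (tsum_markW_le_rhoS _ _)
  refine (direct4 hΦ hf hε hL htw hte hτ hK hρ').trans ?_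
  unfold cD
  rw [fluxK_eq_gI]
  gcongr
  · exact tsum_markW_le_rhoS _ _
  · exact gI_anti hγ

/-! ### Lines born in contact with a particle -/

/-- Lines born in contact with the gas, one world. -/
theorem born4_world {n : ℕ} (w : Config n) (τ : ℝ) {G : Space3 → ℝ≥0∞} (hG : Measurable G)
    (ρ : ℝ≥0∞) :
    ∫⁻ v : Space3, G v * ∫⁻ y : Space3, ∑' m : ℕ, markW ρ K m *
        (if ∃ i, dist y (flow Φ ε τ w i).1 ≤ ε then 1 else 0) ≤
      (∑' m : ℕ, markW ρ K m) * (∫⁻ v : Space3, G v) *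
        (ENNReal.ofReal ε ^ 3 * Sweep815.c3 * n) := by
  set S : ℝ≥0∞ := ∑' m : ℕ, markW ρ K m with hS
  set A : Set Space3 := ⋃ i : Fin n, Metric.closedBall (flow Φ ε τ w i).1 ε with hA
  have hAm : MeasurableSet A := MeasurableSet.iUnion fun i =>
    Metric.isClosed_closedBall.measurableSet
  have hvol : volume A ≤ ENNReal.ofReal ε ^ 3 * Sweep815.c3 * n := by
    refine (measure_iUnion_le _).trans ?_
    rw [tsum_fintype]
    calc ∑ i : Fin n, volume (Metric.closedBall (flow Φ ε τ w i).1 ε)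
        = ∑ _i : Fin n, ENNReal.ofReal ε ^ 3 * Sweep815.c3 :=
          Finset.sum_congr rfl fun i _ => Sweep815.vol_closedBall _ _
      _ = _ := by
          rw [Finset.sum_const, Finset.card_univ, Fintype.card_fin, nsmul_eq_mul, mul_comm]
    exact le_rfl
  have hmem : ∀ y : Space3, y ∈ A ↔ ∃ i, dist y (flow Φ ε τ w i).1 ≤ ε := by
    intro y
    rw [hA, mem_iUnion]
    exact Iff.rfl
  have h1 : ∀ v : Space3, ∫⁻ y : Space3, ∑' m : ℕ, markW ρ K m *
        (if ∃ i, dist y (flow Φ ε τ w i).1 ≤ ε then 1 else 0) = S * volume A := by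
    intro v
    have h2 : ∀ y : Space3, ∑' m : ℕ, markW ρ K m *
        (if ∃ i, dist y (flow Φ ε τ w i).1 ≤ ε then (1 : ℝ≥0∞) else 0) =
        S * A.indicator 1 y := by
      intro y
      rw [ENNReal.tsum_mul_right, ← hS]
      congr 1
      by_cases hy : ∃ i, dist y (flow Φ ε τ w i).1 ≤ ε
      · rw [if_pos hy, indicator_of_mem]
        · rfl
        · exact (hmem y).2 hy
      · rw [if_neg hy, indicator_of_notMem]
        exact fun h => hy ((hmem y).1 h)
    rw [lintegral_congr h2, lintegral_const_mul _ (measurable_one.indicator hAm),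
      lintegral_indicator_one hAm]
  rw [lintegral_congr fun v => congrArg (G v * ·) (h1 v), lintegral_mul_const _ hG]
  calc (∫⁻ v : Space3, G v) * (S * volume A) = S * (∫⁻ v : Space3, G v) * volume A := by ring
    _ ≤ _ := mul_le_mul_right hvol _

/-- **Lines born in contact with the gas**: mass `O(ε)`. -/
theorem born4 (hf : Measurable f₀) (h1 : ∫⁻ z, ENNReal.ofReal (f₀ z) ≤ 1) (hε : 0 < ε) (τ : ℝ)
    {G : Space3 → ℝ≥0∞} (hG : Measurable G) (hGI : ∫⁻ v, G v ≠ ∞) {ρ : ℝ≥0∞}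
    (hρ : ∑' m : ℕ, markW ρ K m ≠ ∞) :
    gcE f₀ ε (fun n (w : Config n) => ∫⁻ v : Space3, G v * ∫⁻ y : Space3,
        ∑' m : ℕ, markW ρ K m * (if ∃ i, dist y (flow Φ ε τ w i).1 ≤ ε then 1 else 0)) ≤
      (∑' m : ℕ, markW ρ K m) * (∫⁻ v : Space3, G v) * (ENNReal.ofReal ε * Sweep815.c3) := by
  set S : ℝ≥0∞ := ∑' m : ℕ, markW ρ K m with hS
  have hc3 : Sweep815.c3 ≠ ∞ := by
    unfold Sweep815.c3
    exact ENNReal.ofReal_ne_top
  have h2 : gcE f₀ ε (fun n (_ : Config n) => (n : ℝ≥0∞)) ≤ activity ε := by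
    have h := gcE_sum_le hf h1 ε (fun _ => 1) measurable_const
    have e : (fun (n : ℕ) (Z : Config n) => ∑ j : Fin n, (1 : ℝ≥0∞)) =
        fun (n : ℕ) (_ : Config n) => (n : ℝ≥0∞) := by
      funext n Z
      simp
    rw [e] at h
    refine h.trans ?_
    simp only [mul_one]
    exact mul_le_of_le_one_right bot_le h1
  calc gcE f₀ ε (fun n (w : Config n) => ∫⁻ v : Space3, G v * ∫⁻ y : Space3,
        ∑' m : ℕ, markW ρ K m * (if ∃ i, dist y (flow Φ ε τ w i).1 ≤ ε then 1 else 0))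
      ≤ gcE f₀ ε (fun n (_ : Config n) => (S * (∫⁻ v : Space3, G v) *
          (ENNReal.ofReal ε ^ 3 * Sweep815.c3)) * n) := by
        refine gcE_mono f₀ ε fun n w _ => (born4_world w τ hG ρ).trans (le_of_eq ?_)
        ring
    _ = (S * (∫⁻ v : Space3, G v) * (ENNReal.ofReal ε ^ 3 * Sweep815.c3)) *
          gcE f₀ ε (fun n (_ : Config n) => (n : ℝ≥0∞)) :=
        gcE_const_mul f₀ ε (ENNReal.mul_ne_top (ENNReal.mul_ne_top hρ hGI)
          (ENNReal.mul_ne_top (ENNReal.pow_ne_top ENNReal.ofReal_ne_top) hc3)) _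
    _ ≤ (S * (∫⁻ v : Space3, G v) * (ENNReal.ofReal ε ^ 3 * Sweep815.c3)) * activity ε :=
        mul_le_mul_right h2 _
    _ = S * (∫⁻ v : Space3, G v) * (ENNReal.ofReal ε * Sweep815.c3) *
          (activity ε * ENNReal.ofReal ε ^ 2) := by ring
    _ = _ := by
        rw [← activity_inv hε, ENNReal.mul_inv_cancel (activity_ne_zero hε)
          (activity_ne_top ε), mul_one]

end

end Crest.Agent.R122.Direct658
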