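import Crest.Agent.R122.Direct1_658
import Crest.Agent.R122.MeasEDefs_416
import Crest.Agent.R122.PairC_292
import Crest.Agent.R122.Boost8_969
import Crest.Agent.R122.Conc_984
import Crest.Agent.R122.UnwF_410
import Crest.Agent.R122.Direct4_658
import Crest.Agent.R122.SmallNull_566

-- ▼ part R122/Direct2_658
section

/-!
# Row 122, section E, direct terms (helper658), part 2: the world with one inserted line

* `hasDerivAt_pos` : positions of a world with births are differentiable.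
* `sum_speed_ins` : energy bound of the world `w + d`, if `d` is not born in contact.
* `Dirty` : the first contact of the free line `e` with the world `Z` is with an infected particle.
* `touchP_le_of_dirty` : deterministic bound of `touchP` for a direct touch.
* measurability of the paths of `w + d` in `(d, s)`.
-/

set_option autoImplicit false
set_option linter.unusedSectionVars false

open MeasureTheory Set Filter Topology
open scoped ENNReal
open Crest.AnalysisR.Kinetic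
open Crest.Agent.R122.Flow671 Crest.Agent.R122.Loc45 Crest.Agent.R122.Causal291
open Crest.Agent.R122.Inf879 Crest.Agent.R122.EDefs602 Crest.Agent.R122.Ins45
open Crest.Agent.R122.GC311 Crest.Agent.R122.Unw410 Crest.Agent.R122.Energy410
open Crest.Agent.R122.MeasE416

namespace Crest.Agent.R122.Direct658

noncomputable section

open scoped Classical

/-! ### Positions are differentiable -/

section world

variable {ι : Type*} [Fintype ι] {Φ : Space3 → ℝ} {ε : ℝ} {b : ι → ℝ} {t₀ : ℝ}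
  {X : ℝ → ι → PhasePoint}

theorem hasDerivAt_pos (hX : BWorld Φ ε b t₀ X) {t : ℝ} (ht : t₀ < t) (i : ι) :
    HasDerivAt (fun s => (X s i).1) (X t i).2 t := by
  have hv : ContinuousOn (fun s => (X s i).2) (Ici t₀) := (hX.cont_apply i).snd
  have hx : ContinuousOn (fun s => (X s i).1) (Ici t₀) := hX.cont_pos i
  have hder : ∀ s, t₀ ≤ s → HasDerivWithinAt (fun s => (X s i).1) (X s i).2 (Ici s) s := by
    intro s hs
    have h2 : HasDerivWithinAt (fun s => X s i) (bf Φ ε b s (X s) i) (Ici s) s :=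
      (hasDerivWithinAt_pi.1 (hX.der s hs)) i
    exact (ContinuousLinearMap.fst ℝ Space3 Space3).hasFDerivAt.comp_hasDerivWithinAt s h2
  have hint : ∀ u, t₀ ≤ u → IntervalIntegrable (fun s => (X s i).2) volume t₀ u := by
    intro u hu
    refine ContinuousOn.intervalIntegrable (hv.mono ?_)
    rw [uIcc_of_le hu]
    exact fun s hs => hs.1
  have hF : ∀ u, t₀ ≤ u → (X u i).1 = (X t₀ i).1 + ∫ s in t₀..u, (X s i).2 := by
    intro u hu
    rw [intervalIntegral.integral_eq_sub_of_hasDeriv_right_of_le hu (hx.mono fun s hs => hs.1)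
      (fun s hs => (hder s hs.1.le).mono Ioi_subset_Ici_self) (hint u hu)]
    abel
  have hcont : ContinuousAt (fun s => (X s i).2) t := hv.continuousAt (Ici_mem_nhds ht)
  have hmeas : StronglyMeasurableAtFilter (fun s => (X s i).2) (𝓝 t) volume :=
    ContinuousOn.stronglyMeasurableAtFilter isOpen_Ioi (hv.mono Ioi_subset_Ici_self) t ht
  have h1 : HasDerivAt (fun u => (X t₀ i).1 + ∫ s in t₀..u, (X s i).2) (X t i).2 t :=
    (intervalIntegral.integral_hasDerivAt_right (hint t ht.le) hmeas hcont).const_add _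
  refine h1.congr_of_eventuallyEq ?_
  filter_upwards [Ioi_mem_nhds ht] with u hu
  exact hF u (le_of_lt hu)

end world

/-! ### The world `w + d` -/

variable {Φ : Space3 → ℝ} {f₀ : PhasePoint → ℝ} {ε : ℝ} {K : ℕ} {P : EPar}

/-- Lines not born in contact with the gas. -/
def goodB (Φ : Space3 → ℝ) (ε : ℝ) {n : ℕ} (w : Config n) : Set ML :=
  {d | 0 < d.1.1 ∧ ∀ i, ε < dist (flow Φ ε d.1.1 w i).1 d.1.2.1}

theorem measurableSet_goodB (hΦ : AdmissiblePotential Φ) (hε : 0 < ε) {n : ℕ} (w : Config n) :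
    MeasurableSet (goodB Φ ε w) := by
  have hcont : Continuous fun s => flow Φ ε s w := flow_continuous_time hΦ hε w
  have h1 : goodB Φ ε w = {d : ML | 0 < d.1.1} ∩
      ⋂ i : Fin n, {d : ML | ε < dist (flow Φ ε d.1.1 w i).1 d.1.2.1} := by
    ext d
    simp only [goodB, mem_ofPred_eq, mem_inter_iff, mem_iInter]
  rw [h1]
  refine (measurableSet_lt measurable_const (by fun_prop)).inter (MeasurableSet.iInter fun i => ?_)
  refine measurableSet_lt measurable_const (Measurable.dist ?_ (by fun_prop))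
  exact (((continuous_apply i).comp hcont).fst.measurable).comp (by fun_prop)

theorem ins_ok' (hΦ : AdmissiblePotential Φ) (hε : 0 < ε) {n : ℕ} {w : Config n}
    (hw : w ∈ PairExcluded ε n) {d : ML} (hd : d ∈ goodB Φ ε w) : ((MW.cfg w).ins d).Ok Φ ε := by
  refine ins_ok hΦ hε hw hd.1 fun i h => ?_
  have := hd.2 i
  rw [h, dist_self] at this
  linarith

/-- The births of `w + d` are separated. -/
theorem sepBirths_ins (hΦ : AdmissiblePotential Φ) (hε : 0 < ε) {n : ℕ} {w : Config n}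
    (hw : w ∈ PairExcluded ε n) {d : ML} (hd : d ∈ goodB Φ ε w) (T : ℝ) :
    SepBirths ε ((MW.cfg w).ins d).b T (((MW.cfg w).ins d).path Φ ε) where
  init := by
    rintro (i | x) (j | y) hij hi hj
    · rw [path_ins_of_le hΦ hε w hd.1 hd.1.le, path_ins_of_le hΦ hε w hd.1 hd.1.le,
        flow_zero hΦ hε]
      exact (hw i j fun h => hij (by rw [h])).le
    · exact absurd hj (not_le.2 hd.1)
    · exact absurd hi (not_le.2 hd.1)
    · exact absurd rfl hij
  birth := by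
    rintro (i | x) (j | y) hij h0 hT hj
    · exact absurd h0 (lt_irrefl _)
    · exact absurd h0 (lt_irrefl _)
    · have hb : ((MW.cfg w).ins d).b (Sum.inr x) = d.1.1 := rfl
      rw [hb, path_ins_of_le hΦ hε w hd.1 le_rfl, path_ins_birth Φ ε w hd.1 le_rfl]
      simp only [sub_self, zero_smul, add_zero]
      rw [dist_comm]
      exact (hd.2 j).le
    · exact absurd rfl hij

/-- **Energy of the world `w + d`**, if `d` is not born in contact. -/
theorem sum_speed_ins (hΦ : AdmissiblePotential Φ) (hε : 0 < ε) {n : ℕ} {w : Config n}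
    (hw : w ∈ PairExcluded ε n) {d : ML} (hd : d ∈ goodB Φ ε w) {s : ℝ} (hs : 0 ≤ s) :
    ∑ x : Fin n ⊕ Unit, (1 + ‖(((MW.cfg w).ins d).path Φ ε s x).2‖) ≤
      totE Φ w + ((1 / 2) * ‖d.1.2.2‖ ^ 2 + (stabB Φ + 3 / 2)) := by
  have hZ := ins_ok' hΦ hε hw hd
  have h1 := total_speed_leB hΦ hε hZ.bw (sepBirths_ins hΦ hε hw hd s) hs le_rfl
  refine h1.trans (le_of_eq ?_)
  rw [Fintype.sum_sum_type, MW.path_zero hΦ hε]
  unfold totE
  congr 1
  simp only [Finset.univ_unique, Finset.sum_singleton]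
  rfl

/-- Velocity weight of the line `d`. -/
def enD (Φ : Space3 → ℝ) (d : ML) : ℝ≥0∞ :=
  ENNReal.ofReal ((1 / 2) * ‖d.1.2.2‖ ^ 2 + (stabB Φ + 3 / 2))

theorem measurable_enD : Measurable (enD Φ) := by unfold enD; fun_prop

theorem totE_nonneg {n : ℕ} (w : Config n) : 0 ≤ totE Φ w := by
  have := stabB_nonneg Φ
  unfold totE
  exact Finset.sum_nonneg fun i _ => by positivity

theorem sum_speed_ins' (hΦ : AdmissiblePotential Φ) (hε : 0 < ε) {n : ℕ} {w : Config n}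
    (hw : w ∈ PairExcluded ε n) {d : ML} (hd : d ∈ goodB Φ ε w) {s : ℝ} (hs : 0 ≤ s) :
    ∑ x : Fin n ⊕ Unit, (1 + ENNReal.ofReal ‖(((MW.cfg w).ins d).path Φ ε s x).2‖) ≤
      ENNReal.ofReal (totE Φ w) + enD Φ d := by
  have hB := stabB_nonneg Φ
  unfold enD
  rw [← ENNReal.ofReal_add (totE_nonneg w) (by positivity)]
  refine le_trans (le_of_eq ?_) (ENNReal.ofReal_le_ofReal (sum_speed_ins hΦ hε hw hd hs))
  rw [ENNReal.ofReal_sum_of_nonneg fun i _ => by positivity]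
  refine Finset.sum_congr rfl fun i _ => ?_
  rw [ENNReal.ofReal_add zero_le_one (norm_nonneg _), ENNReal.ofReal_one]

/-! ### Dirty first contacts -/

/-- The first contact (before `T`) of the free line `e` with the world `Z` is with an infected
particle. -/
def Dirty (Φ : Space3 → ℝ) (ε : ℝ) (K : ℕ) (T : ℝ) {ι : Type} [Fintype ι] (Z : MW ι) (e : ML) :
    Prop :=
  ∃ (s : ℝ) (x : ι), e.1.1 ≤ s ∧ s ≤ T ∧ Z.b x ≤ s ∧ (Z.b x < s ∨ e.1.1 < s) ∧
    dist (fpos e s) (Z.path Φ ε s x).1 ≤ ε ∧ Z.Inf Φ ε K s x ∧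
    ∀ s' k, e.1.1 ≤ s' → s' < s → Z.b k ≤ s' → (Z.b k < s' ∨ e.1.1 < s') →
      ε < dist (fpos e s') (Z.path Φ ε s' k).1

/-- Weighted touch of the first line, inclusive weight. -/
def tW (Φ : Space3 → ℝ) (ε : ℝ) (K : ℕ) (P : EPar) {n : ℕ} (w : Config n) (d : ML) : ℝ≥0∞ :=
  if P.tw < (MW.cfg w).thetaL Φ ε K P.te d ∧ (MW.cfg w).thetaL Φ ε K P.te d ≤ P.te then
    (MW.cfg w).W Φ ε K P ((MW.cfg w).thetaL Φ ε K P.te d) else 0

theorem tW_le_one (hL : 0 ≤ P.L) {n : ℕ} (w : Config n) (d : ML) : tW Φ ε K P w d ≤ 1 := by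
  unfold tW
  split_ifs
  · exact Weight984.W_le_one hL _
  · exact bot_le

theorem tW_le_touchW (hL : 0 ≤ P.L) {n : ℕ} (w : Config n) (d : ML) :
    tW Φ ε K P w d ≤ (MW.cfg w).touchW Φ ε K P d := by
  unfold tW MW.touchW
  split_ifs
  · exact Weight984.W_anti hL (Weight984.XRm_le_XR _)
  · exact bot_le

theorem measurable_tW (hΦ : AdmissiblePotential Φ) (hε : 0 < ε) (K : ℕ) (P : EPar) (n : ℕ) :
    Measurable fun p : Config n × ML => tW Φ ε K P p.1 p.2 := by
  have h1 : Measurable fun p : Config n × ML => (MW.cfg p.1).thetaL Φ ε K P.te p.2 :=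
    measurable_thetaL_cfg hΦ hε K P.te n
  unfold tW
  refine Measurable.ite ?_ ((MeasW.cfg measurable_fst).W hΦ hε K P h1) measurable_const
  exact (measurableSet_lt measurable_const h1).inter (measurableSet_le h1 measurable_const)

/-- The free line `e` comes within `ε` of a particle of `w + d` at a time after the touch time of
`d` minus the slack `a`, and after its birth. -/
def NearT (Φ : Space3 → ℝ) (ε : ℝ) (K : ℕ) (T a : ℝ) {n : ℕ} (w : Config n) (d e : ML) : Prop :=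
  ∃ (s : ℝ) (x : Fin n ⊕ Unit), e.1.1 ≤ s ∧ (MW.cfg w).thetaL Φ ε K T d - a ≤ s ∧ s ≤ T ∧
    dist (fpos e s) (((MW.cfg w).ins d).path Φ ε s x).1 ≤ ε

/-- Bound of `touchP` if the free second line comes close to `w + d` after the touch of `d`. -/
theorem touchP_le_of_near {a : ℝ} {n : ℕ} {w : Config n} {d e : ML}
    (h : NearT Φ ε K P.te a w d e) :
    (MW.cfg w).touchP Φ ε K P d e ≤
      ⨆ x : Fin n ⊕ Unit, ⨆ s ∈ Icc ((MW.cfg w).thetaL Φ ε K P.te d - a) P.te,
        ⨆ (_ : dist (fpos e s) (((MW.cfg w).ins d).path Φ ε s x).1 ≤ ε), tW Φ ε K P w d := by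
  obtain ⟨s, x, h1, h2, h3, h4⟩ := h
  refine le_trans ?_ (le_iSup_of_le x (le_iSup₂_of_le s ⟨h2, h3⟩ (le_iSup_of_le h4 le_rfl)))
  unfold MW.touchP tW
  split_ifs with h5 h6 h6
  · exact min_le_left _ _
  · exact absurd ⟨h5.1, h5.2.1.trans h5.2.2⟩ h6
  · exact bot_le
  · exact le_rfl

/-- **Direct touches of a pair, deterministic.** -/
theorem touchP_le_of_dirty (hΦ : AdmissiblePotential Φ) (hε : 0 < ε) {a : ℝ} (ha : 0 ≤ a) {n : ℕ}
    {w : Config n} {d e : ML} (hd : ((MW.cfg w).ins d).Ok Φ ε)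
    (he : (((MW.cfg w).ins d).ins e).Ok Φ ε)
    (hb : 0 ≤ e.1.1) (hm : e.2 ≤ K) (h : Dirty Φ ε K P.te ((MW.cfg w).ins d) e) :
    (MW.cfg w).touchP Φ ε K P d e ≤
      ⨆ x : Fin n ⊕ Unit, ⨆ s ∈ Icc ((MW.cfg w).thetaL Φ ε K P.te d - a) P.te,
        ⨆ (_ : dist (fpos e s) (((MW.cfg w).ins d).path Φ ε s x).1 ≤ ε), tW Φ ε K P w d := by
  obtain ⟨s, x, h1, h2, h3, h4, h5, h6, h7⟩ := h
  have hθ : ((MW.cfg w).ins d).thetaL Φ ε K P.te e = s :=
    theta_eq_of_dirty hΦ hε hd he hb hm (fun s' k => h7 s' k) h1 h2 h3 h4 h5 h6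
  by_cases hc : P.tw < (MW.cfg w).thetaL Φ ε K P.te d ∧
      (MW.cfg w).thetaL Φ ε K P.te d ≤ s ∧ s ≤ P.te
  · exact touchP_le_of_near ⟨s, x, h1, (sub_le_self _ ha).trans hc.2.1, hc.2.2, h5⟩
  · unfold MW.touchP
    rw [hθ, if_neg hc]
    exact bot_le

theorem touchP_le_tW {n : ℕ} (w : Config n) (d e : ML) :
    (MW.cfg w).touchP Φ ε K P d e ≤ tW Φ ε K P w d := by
  unfold MW.touchP tW
  split_ifs with h1 h2 h2
  · exact min_le_left _ _
  · exact absurd ⟨h1.1, h1.2.1.trans h1.2.2⟩ h2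
  · exact bot_le
  · exact le_rfl

theorem touchP_eq_zero_of {n : ℕ} (w : Config n) {d e : ML} (h : tW Φ ε K P w d = 0) :
    (MW.cfg w).touchP Φ ε K P d e = 0 := by
  have := touchP_le_tW (Φ := Φ) (ε := ε) (K := K) (P := P) w d e
  rw [h] at this
  exact le_antisymm this bot_le

/-! ### Measurability of the paths of `w + d` -/

theorem measurable_path_ins (hΦ : AdmissiblePotential Φ) (hε : 0 < ε) {n : ℕ} (w : Config n)
    {Λ : Type*} [MeasurableSpace Λ] {d : Λ → ML} (hd : Measurable d) (x : Fin n ⊕ Unit) :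
    Measurable fun p : Λ × ℝ => ((MW.cfg w).ins (d p.1)).path Φ ε p.2 x := by
  have h1 : MeasW fun p : Λ × ℝ => (MW.cfg w).ins (d p.1) :=
    (MeasW.const (MW.cfg w)).ins (hd.comp measurable_fst)
  have h2 : Measurable fun p : Λ × ℝ => evo Φ ε ((MW.cfg w).ins (d p.1)).b 0 p.2
      ((MW.cfg w).ins (d p.1)).z :=
    measurable_evo hΦ hε h1.b measurable_const measurable_snd (measurable_pi_iff.2 h1.z)
  exact (measurable_pi_apply x).comp h2

end

end Crest.Agent.R122.Direct658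
end

-- ▼ part R122/Direct6_658
section

/-!
# Row 122, section E, E6-direct (helper658)

* `dirP` : functional of a pair `(d, e)`: direct touch of `e` in the world `w + d`.
* `direct6_world` : bound in one world, for a spread pair law (`PX` of helper292).
-/

set_option autoImplicit false
set_option linter.unusedSectionVars false

open MeasureTheory Set Filter Topology
open scoped ENNReal
open Crest.AnalysisR.Kinetic
open Crest.Agent.R122.Flow671 Crest.Agent.R122.Loc45 Crest.Agent.R122.Causal291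
open Crest.Agent.R122.Inf879 Crest.Agent.R122.EDefs602 Crest.Agent.R122.Ins45
open Crest.Agent.R122.GC311 Crest.Agent.R122.Unw410 Crest.Agent.R122.Energy410
open Crest.Agent.R122.MeasE416 Crest.Agent.R122.Boost969
open Crest.Agent.R122.Pair292 hiding ML

namespace Crest.Agent.R122.Direct658

noncomputable section

open scoped Classical

variable {Φ : Space3 → ℝ} {f₀ : PhasePoint → ℝ} {ε : ℝ} {K : ℕ} {P : EPar}

/-- Direct part of the pair functional: `d = p.1.1`, `e = (p.2, p.1.2.2)`. -/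
def dirP (Φ : Space3 → ℝ) (ε : ℝ) (K : ℕ) (P : EPar) (a : ℝ) {n : ℕ} (w : Config n)
    (p : Lab × LSt) : ℝ≥0∞ :=
  if ((MW.cfg w).ins p.1.1).Ok Φ ε ∧ (((MW.cfg w).ins p.1.1).ins (p.2, p.1.2.2)).Ok Φ ε ∧
      0 ≤ p.2.1 ∧ p.1.2.2 ≤ K ∧ (Dirty Φ ε K P.te ((MW.cfg w).ins p.1.1) (p.2, p.1.2.2) ∨
        NearT Φ ε K P.te a w p.1.1 (p.2, p.1.2.2)) then
    (MW.cfg w).touchP Φ ε K P p.1.1 (p.2, p.1.2.2) else 0

/-- Labels of the old part. -/
def oldL (Φ : Space3 → ℝ) (ε : ℝ) (K : ℕ) (P : EPar) (r : ℝ) {n : ℕ} (w : Config n) : Set Lab :=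
  {ℓ | (P.tw < (MW.cfg w).thetaL Φ ε K P.te ℓ.1 ∧ (MW.cfg w).thetaL Φ ε K P.te ℓ.1 ≤ P.te) ∧
    (0 ≤ sig ℓ ∧ sig ℓ + r ≤ P.tw) ∧ ℓ.1 ∈ goodB Φ ε w}

theorem measurable_thetaL_one (hΦ : AdmissiblePotential Φ) (hε : 0 < ε) (K : ℕ) (T : ℝ) {n : ℕ}
    (w : Config n) : Measurable fun l : ML => (MW.cfg w).thetaL Φ ε K T l :=
  (MeasW.const (MW.cfg w)).thetaL (l := fun l => l) (T := fun _ => T) hΦ hε measurable_id K
    measurable_const

theorem measurable_tW_one (hΦ : AdmissiblePotential Φ) (hε : 0 < ε) (K : ℕ) (P : EPar) {n : ℕ}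
    (w : Config n) : Measurable fun l : ML => tW Φ ε K P w l := by
  have h1 := measurable_thetaL_one hΦ hε K P.te w
  unfold tW
  refine Measurable.ite ?_ ((MeasW.const (MW.cfg w)).W hΦ hε K P h1) measurable_const
  exact (measurableSet_lt measurable_const h1).inter (measurableSet_le h1 measurable_const)

theorem measurableSet_oldL (hΦ : AdmissiblePotential Φ) (hε : 0 < ε) (K : ℕ) (P : EPar) (r : ℝ)
    {n : ℕ} (w : Config n) : MeasurableSet (oldL Φ ε K P r w) := by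
  have h1 : Measurable fun ℓ : Lab => (MW.cfg w).thetaL Φ ε K P.te ℓ.1 :=
    (measurable_thetaL_one hΦ hε K P.te w).comp measurable_fst
  refine ((measurableSet_lt measurable_const h1).inter
    (measurableSet_le h1 measurable_const)).inter
    (((measurableSet_le measurable_const measurable_sig).inter
      (measurableSet_le (measurable_sig.add_const r) measurable_const)).inter ?_)
  exact measurable_fst (measurableSet_goodB hΦ hε w)

/-- Young or badly born part of the bound: functional of `(d, turning time)`. -/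
def yF (Φ : Space3 → ℝ) (ε : ℝ) (K : ℕ) (P : EPar) (r : ℝ) {n : ℕ} (w : Config n)
    (q : ML × ℝ) : ℝ≥0∞ :=
  {q : ML × ℝ | P.tw - r < q.2}.indicator (fun q => tW Φ ε K P w q.1) q +
    ({q : ML × ℝ | q.1 ∉ goodB Φ ε w}.indicator 1 q +
      {q : ML × ℝ | q.2 < 0}.indicator (fun _ => ∞) q)

theorem measurable_yF (hΦ : AdmissiblePotential Φ) (hε : 0 < ε) (K : ℕ) (P : EPar) (r : ℝ)
    {n : ℕ} (w : Config n) : Measurable (yF Φ ε K P r w) := by
  unfold yF
  refine Measurable.add ?_ (Measurable.add ?_ ?_)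
  · refine ((measurable_tW_one hΦ hε K P w).comp measurable_fst).indicator ?_
    exact measurableSet_lt measurable_const measurable_snd
  · exact measurable_one.indicator (measurable_fst (measurableSet_goodB hΦ hε w).compl)
  · exact measurable_const.indicator (measurableSet_lt measurable_snd measurable_const)

theorem posAt_eq_fpos (z : LSt) (m : ℕ) (s : ℝ) : posAt s z = fpos (z, m) s := by
  rw [fpos_eq]
  rfl

theorem natCast_le_speed (hΦ : AdmissiblePotential Φ) (hε : 0 < ε) {n : ℕ} {w : Config n}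
    (hw : w ∈ PairExcluded ε n) {d : ML} (hd : d ∈ goodB Φ ε w) :
    ∑ _x : Fin n ⊕ Unit, (1 : ℝ≥0∞) ≤ ENNReal.ofReal (totE Φ w) + enD Φ d := by
  refine le_trans ?_ (sum_speed_ins' hΦ hε hw hd le_rfl)
  exact Finset.sum_le_sum fun x _ => le_self_add

set_option maxHeartbeats 1000000 in
/-- **E6-direct, one world, old part.** -/
theorem old_world (hΦ : AdmissiblePotential Φ) (hε : 0 < ε) {n : ℕ} {w : Config n}
    (hw : w ∈ PairExcluded ε n) {Q : PPar} {Ξ ν : Measure (Lab × LSt)} {c : ℝ≥0∞}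
    (h : PX Q Ξ ν c) (hQt : Q.t' = P.te)
    (hQW : ∀ z : LSt, z.1 ≤ Q.t' → ENNReal.ofReal (1 + ‖z.2.2‖) ≤ Q.W z) {r a : ℝ} (hr : 0 < r)
    (ha0 : 0 ≤ a) (har : a ≤ r / 2) (htw : 0 ≤ P.tw) :
    ∃ g : Lab × LSt → ℝ≥0∞, Measurable g ∧
      (∀ p : Lab × LSt, p.1 ∈ oldL Φ ε K P r w → p.2.1 ≤ P.te →
        (⨆ x : Fin n ⊕ Unit, ⨆ s ∈ Icc ((MW.cfg w).thetaL Φ ε K P.te p.1.1 - a) P.te,
          ⨆ (_ : dist (posAt s p.2) (((MW.cfg w).ins p.1.1).path Φ ε s x).1 ≤ ε),
            tW Φ ε K P w p.1.1) ≤ g p) ∧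
      ∫⁻ p, g p ∂ν ≤ 8 * ENNReal.ofReal ε ^ 2 * Sweep815.c3 * ENNReal.ofReal ((r / 2)⁻¹ ^ 3) *
        (2 * ENNReal.ofReal (ε + (a + (P.te - P.tw))) * (c * ((1 + ENNReal.ofReal P.te) *
          ∫⁻ l, tW Φ ε K P w l * (ENNReal.ofReal (totE Φ w) + enD Φ l) ∂Q.ℓ))) := by
  set Z : Lab → MW (Fin n ⊕ Unit) := fun ℓ => (MW.cfg w).ins ℓ.1 with hZ
  set θ : Lab → ℝ := fun ℓ => (MW.cfg w).thetaL Φ ε K P.te ℓ.1 - a with hθ
  have hθm : Measurable θ :=
    ((measurable_thetaL_one hΦ hε K P.te w).comp measurable_fst).sub_const a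
  have hθpos : ∀ ℓ ∈ oldL Φ ε K P r w, 0 < θ ℓ := by
    intro ℓ hℓ
    have h1 := hℓ.1.1
    have h2 := hℓ.2.1.1
    have h3 := hℓ.2.1.2
    simp only [hθ]
    linarith
  have hθsig : ∀ ℓ ∈ oldL Φ ε K P r w, sig ℓ + r / 2 ≤ θ ℓ := by
    intro ℓ hℓ
    have h1 := hℓ.1.1
    have h3 := hℓ.2.1.2
    simp only [hθ]
    linarith
  have hOm := measurableSet_oldL hΦ hε K P r w
  set aS : Fin n ⊕ Unit → Lab → ℝ := fun _ ℓ => if ℓ ∈ oldL Φ ε K P r w then θ ℓ else P.te + 1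
    with haS
  have haSm : ∀ x, Measurable (aS x) := fun x => Measurable.ite hOm hθm measurable_const
  have haS_iff : ∀ x ℓ, aS x ℓ ≤ P.te → ℓ ∈ oldL Φ ε K P r w ∧ aS x ℓ = θ ℓ := by
    intro x ℓ h1
    simp only [haS] at h1 ⊢
    by_cases h2 : ℓ ∈ oldL Φ ε K P r w
    · rw [if_pos h2] at h1 ⊢
      exact ⟨h2, rfl⟩
    · rw [if_neg h2] at h1
      linarith
  set ψ : Lab × (ℝ × Space3) → ℝ≥0∞ := fun q => if q.2.1 ≤ P.te then 1 else 0 with hψ
  set Ψ : Lab × (ℝ × Space3) → ℝ≥0∞ := fun q =>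
    if q.2.1 ≤ P.te then 2 + ENNReal.ofReal ‖q.2.2‖ else 0 with hΨ
  have hpm := fun x => measurable_path_ins hΦ hε w (Λ := Lab) measurable_fst x
  obtain ⟨g, hg, hle, hint⟩ := h.spr.fluxW (ι := Fin n ⊕ Unit) (half_pos hr) hε
    (c := fun x ℓ s => ((Z ℓ).path Φ ε s x).1) (c' := fun x ℓ s => ((Z ℓ).path Φ ε s x).2)
    (aS := aS) (bE := fun _ => P.te) (ω := fun ℓ _ => tW Φ ε K P w ℓ.1)
    haSm measurable_const
    (by
      have : Measurable fun p : Lab × ℝ => tW Φ ε K P w p.1.1 :=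
        (measurable_tW_one hΦ hε K P w).comp (measurable_fst.comp measurable_fst)
      exact this)
    (fun x => (hpm x).fst) (fun x => (hpm x).snd)
    (by
      intro x ℓ s hs
      obtain ⟨h1, h2⟩ := haS_iff x ℓ (hs.1.trans hs.2)
      have h3 : 0 < s := by
        have : θ ℓ ≤ s := h2 ▸ hs.1
        exact (hθpos ℓ h1).trans_le this
      exact hasDerivAt_pos (ins_ok' hΦ hε hw h1.2.2).bw h3 x)
    (by
      intro x ℓ
      by_cases h1 : ℓ ∈ oldL Φ ε K P r w
      · refine ((ins_ok' hΦ hε hw h1.2.2).bw.cont_apply x).snd.mono fun s hs => ?_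
        obtain ⟨h1, h2⟩ := haS_iff x ℓ (hs.1.trans hs.2)
        have : θ ℓ ≤ s := h2 ▸ hs.1
        exact ((hθpos ℓ h1).trans_le this).le
      · have : Icc (aS x ℓ) P.te = ∅ := by
          rw [Icc_eq_empty]
          exact fun h2 => h1 (haS_iff x ℓ h2).1
        simp only [this]
        exact continuousOn_empty _)
    (fun x ℓ => fun _ _ _ _ _ => le_rfl)
    (by
      intro x ℓ h1
      obtain ⟨h2, h3⟩ := haS_iff x ℓ h1
      rw [h3]
      exact hθsig ℓ h2)
    (ψ := ψ) (Ψ := Ψ)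
    (Measurable.ite (measurableSet_le (by fun_prop) measurable_const) measurable_const
      measurable_const)
    (Measurable.ite (measurableSet_le (by fun_prop) measurable_const) (by fun_prop)
      measurable_const)
    (by
      intro ℓ τ u v hu
      simp only [hψ, hΨ]
      split_ifs with h1
      · rw [one_mul]
        calc 1 + ENNReal.ofReal ‖v + u‖ ≤ 1 + ENNReal.ofReal (‖v‖ + 1) := by
              gcongr
              exact (norm_add_le v u).trans (by linarith)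
          _ = 2 + ENNReal.ofReal ‖v‖ := by
              rw [ENNReal.ofReal_add (norm_nonneg _) zero_le_one, ENNReal.ofReal_one,
                add_comm (ENNReal.ofReal ‖v‖), ← add_assoc, one_add_one_eq_two]
      · rw [zero_mul])
  refine ⟨g, hg, fun p hp hp2 => ?_, hint.trans ?_⟩
  · refine le_trans (le_of_eq ?_) (hle p)
    simp only [hψ, haS, if_pos hp, if_pos hp2, one_mul, hZ, hθ]
  -- the bound of the integral
  refine mul_le_mul_right ?_ _
  set F3 : ML × ℝ → ℝ≥0∞ := fun q =>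
    tW Φ ε K P w q.1 * (ENNReal.ofReal (totE Φ w) + enD Φ q.1) with hF3
  have hF3m : Measurable F3 := ((measurable_tW_one hΦ hε K P w).comp measurable_fst).mul
    (measurable_const.add (measurable_enD.comp measurable_fst))
  have key : ∀ ℓ : Lab, ∑ x, (ENNReal.ofReal ε * {ℓ | aS x ℓ ≤ P.te}.indicator
        (fun ℓ => tW Φ ε K P w ℓ.1) ℓ + ∫⁻ s in Icc (aS x ℓ) P.te,
          tW Φ ε K P w ℓ.1 * (1 + ENNReal.ofReal ‖((Z ℓ).path Φ ε s x).2‖)) ≤
      ENNReal.ofReal (ε + (a + (P.te - P.tw))) * F3 (ℓ.1, ℓ.2.1) := by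
    intro ℓ
    by_cases h1 : ℓ ∈ oldL Φ ε K P r w
    · have e1 : ∀ x, aS x ℓ = θ ℓ := fun x => by simp only [haS, if_pos h1]
      have h2 : θ ℓ ≤ P.te := (sub_le_self _ ha0).trans h1.1.2
      have hsp : ∀ x, Measurable fun s : ℝ => ((Z ℓ).path Φ ε s x).2 := fun x =>
        ((hpm x).snd).comp (measurable_const.prodMk measurable_id)
      have e2 : ∑ x, (ENNReal.ofReal ε * {ℓ | aS x ℓ ≤ P.te}.indicator
          (fun ℓ => tW Φ ε K P w ℓ.1) ℓ + ∫⁻ s in Icc (aS x ℓ) P.te,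
            tW Φ ε K P w ℓ.1 * (1 + ENNReal.ofReal ‖((Z ℓ).path Φ ε s x).2‖)) =
          ENNReal.ofReal ε * tW Φ ε K P w ℓ.1 * ∑ _x : Fin n ⊕ Unit, (1 : ℝ≥0∞) +
            tW Φ ε K P w ℓ.1 * ∫⁻ s in Icc (θ ℓ) P.te,
              ∑ x, (1 + ENNReal.ofReal ‖((Z ℓ).path Φ ε s x).2‖) := by
        have hspm : ∀ x, Measurable fun s : ℝ =>
            1 + ENNReal.ofReal ‖((Z ℓ).path Φ ε s x).2‖ := fun x =>
          measurable_const.add (hsp x).norm.ennreal_ofReal
        rw [Finset.sum_add_distrib, Finset.mul_sum,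
          lintegral_finsetSum _ (fun x _ => hspm x), Finset.mul_sum]
        congr 1
        · refine Finset.sum_congr rfl fun x _ => ?_
          rw [indicator_of_mem (show ℓ ∈ {ℓ | aS x ℓ ≤ P.te} from (e1 x).le.trans h2), mul_one]
        · refine Finset.sum_congr rfl fun x _ => ?_
          rw [e1 x, lintegral_const_mul _ (hspm x)]
      rw [e2]
      set E := ENNReal.ofReal (totE Φ w) + enD Φ ℓ.1 with hE
      have h3 : ∫⁻ s in Icc (θ ℓ) P.te,
              ∑ x, (1 + ENNReal.ofReal ‖((Z ℓ).path Φ ε s x).2‖) ≤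
          ENNReal.ofReal (a + (P.te - P.tw)) * E := by
        calc ∫⁻ s in Icc (θ ℓ) P.te,
              ∑ x, (1 + ENNReal.ofReal ‖((Z ℓ).path Φ ε s x).2‖)
            ≤ ∫⁻ _s in Icc (θ ℓ) P.te, E := by
              refine setLIntegral_mono' measurableSet_Icc fun s hs => ?_
              exact sum_speed_ins' hΦ hε hw h1.2.2 ((hθpos ℓ h1).le.trans hs.1)
          _ = ENNReal.ofReal (P.te - θ ℓ) * E := by
              rw [setLIntegral_const, Real.volume_Icc, mul_comm]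
          _ ≤ _ := by
              refine mul_le_mul_left (ENNReal.ofReal_le_ofReal ?_) _
              have h6 := h1.1.1
              simp only [hθ]
              linarith
      have h4 : ∑ _x : Fin n ⊕ Unit, (1 : ℝ≥0∞) ≤ E := natCast_le_speed hΦ hε hw h1.2.2
      have h5 : 0 ≤ a + (P.te - P.tw) := by
        have := h1.1.1.trans_le h1.1.2
        linarith
      rw [ENNReal.ofReal_add hε.le h5]
      calc _ ≤ ENNReal.ofReal ε * tW Φ ε K P w ℓ.1 * E +
            tW Φ ε K P w ℓ.1 * (ENNReal.ofReal (a + (P.te - P.tw)) * E) := by gcongr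
        _ = _ := by
            simp only [hF3]
            ring
    · have e1 : ∀ x, ¬ aS x ℓ ≤ P.te := fun x h2 => h1 (haS_iff x ℓ h2).1
      refine le_trans (le_of_eq (Finset.sum_eq_zero fun x _ => ?_)) bot_le
      rw [indicator_of_notMem (show ℓ ∉ {ℓ | aS x ℓ ≤ P.te} from e1 x), mul_zero, zero_add,
        Icc_eq_empty (e1 x), Measure.restrict_empty, lintegral_zero_measure]
  have hmF : Measurable fun p : Lab × LSt =>
      F3 (p.1.1, p.1.2.1) * (Q.lam₁ ^ p.1.2.2 * Q.W p.2) := by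
    refine (hF3m.comp (by fun_prop)).mul (Measurable.mul ?_ (Q.hW.comp measurable_snd))
    exact (Measurable.of_discrete (f := fun n : ℕ => Q.lam₁ ^ n)).comp (by fun_prop)
  calc ∫⁻ p : Lab × LSt, Ψ (p.1, (p.2.1, p.2.2.2)) *
        ∑ x, (ENNReal.ofReal ε * {ℓ | aS x ℓ ≤ P.te}.indicator
          (fun ℓ => tW Φ ε K P w ℓ.1) p.1 + ∫⁻ s in Icc (aS x p.1) P.te,
            tW Φ ε K P w p.1.1 * (1 + ENNReal.ofReal ‖((Z p.1).path Φ ε s x).2‖)) ∂Ξ
      ≤ ∫⁻ p : Lab × LSt, (2 * ENNReal.ofReal (ε + (a + (P.te - P.tw)))) *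
          (F3 (p.1.1, p.1.2.1) * (Q.lam₁ ^ p.1.2.2 * Q.W p.2)) ∂Ξ := by
        refine lintegral_mono fun p => ?_
        refine (mul_le_mul_right (key p.1) _).trans ?_
        have h6 : Ψ (p.1, (p.2.1, p.2.2.2)) ≤ 2 * (Q.lam₁ ^ p.1.2.2 * Q.W p.2) := by
          simp only [hΨ]
          split_ifs with h7
          · have h8 := hQW p.2 (hQt ▸ h7)
            calc 2 + ENNReal.ofReal ‖p.2.2.2‖ ≤ 2 * ENNReal.ofReal (1 + ‖p.2.2.2‖) := by
                  rw [ENNReal.ofReal_add zero_le_one (norm_nonneg _), ENNReal.ofReal_one, mul_add,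
                    mul_one]
                  gcongr
                  rw [two_mul]
                  exact le_self_add
              _ ≤ 2 * (1 * Q.W p.2) := by rw [one_mul]; gcongr
              _ ≤ _ := by
                  gcongr
                  exact one_le_pow_of_one_le' Q.hlam₁ _
          · exact bot_le
        calc _ ≤ 2 * (Q.lam₁ ^ p.1.2.2 * Q.W p.2) *
              (ENNReal.ofReal (ε + (a + (P.te - P.tw))) * F3 (p.1.1, p.1.2.1)) :=
              mul_le_mul_left h6 _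
          _ = _ := by ring
    _ = (2 * ENNReal.ofReal (ε + (a + (P.te - P.tw)))) *
          ∫⁻ p : Lab × LSt, F3 (p.1.1, p.1.2.1) * (Q.lam₁ ^ p.1.2.2 * Q.W p.2) ∂Ξ :=
        lintegral_const_mul _ hmF
    _ ≤ _ := by
        refine mul_le_mul_right ((h.marg F3 hF3m).trans (le_of_eq ?_)) _
        congr 1
        unfold PPar.rhs
        have e3 : ∀ l : Pair292.ML, ∫⁻ _s in Icc 0 Q.t', F3 (l, _s) = ENNReal.ofReal P.te *
            (tW Φ ε K P w l * (ENNReal.ofReal (totE Φ w) + enD Φ l)) := by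
          intro l
          simp only [hF3]
          rw [setLIntegral_const, Real.volume_Icc, sub_zero, hQt, mul_comm]
        have hm4 : Measurable fun l : Pair292.ML =>
            tW Φ ε K P w l * (ENNReal.ofReal (totE Φ w) + enD Φ l) :=
          (measurable_tW_one hΦ hε K P w).mul (measurable_const.add measurable_enD)
        rw [lintegral_congr e3, lintegral_const_mul _ hm4, add_mul, one_mul]

/-- The young part of the bound. -/
theorem rhs_yF_le (hΦ : AdmissiblePotential Φ) (hε : 0 < ε) {n : ℕ} (w : Config n) {Q : PPar}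
    (hQt : Q.t' = P.te) (hQ0 : Q.ℓ {l : ML | l.1.1 < 0} = 0) (r : ℝ) :
    Q.rhs (yF Φ ε K P r w) ≤
      ∫⁻ l, {l : ML | P.tw - r < l.1.1}.indicator (fun l => tW Φ ε K P w l) l ∂Q.ℓ +
        ENNReal.ofReal (r + (P.te - P.tw)) * ∫⁻ l, tW Φ ε K P w l ∂Q.ℓ +
        (1 + ENNReal.ofReal P.te) * Q.ℓ (goodB Φ ε w)ᶜ := by
  have htWm := measurable_tW_one hΦ hε K P w
  have hgm := measurableSet_goodB hΦ hε w
  have hyI : Measurable fun l : ML => {l : ML | P.tw - r < l.1.1}.indicator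
      (fun l => tW Φ ε K P w l) l :=
    htWm.indicator (measurableSet_lt measurable_const (by fun_prop))
  have h1 : ∀ l : ML, yF Φ ε K P r w (l, l.1.1) =
      {l : ML | P.tw - r < l.1.1}.indicator (fun l => tW Φ ε K P w l) l +
        ((goodB Φ ε w)ᶜ.indicator 1 l + {l : ML | l.1.1 < 0}.indicator (fun _ => ∞) l) := by
    intro l
    rfl
  have h2 : ∀ l : ML, ∫⁻ s in Icc 0 P.te, yF Φ ε K P r w (l, s) ≤
      ENNReal.ofReal (r + (P.te - P.tw)) * tW Φ ε K P w l +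
        ENNReal.ofReal P.te * (goodB Φ ε w)ᶜ.indicator 1 l := by
    intro l
    have e1 : ∀ s : ℝ, yF Φ ε K P r w (l, s) =
        (Ioi (P.tw - r)).indicator (fun _ => tW Φ ε K P w l) s +
          ((goodB Φ ε w)ᶜ.indicator 1 l + (Iio (0 : ℝ)).indicator (fun _ => ∞) s) := by
      intro s
      rfl
    have e2 : ∫⁻ s in Icc 0 P.te, yF Φ ε K P r w (l, s) = ∫⁻ s in Icc 0 P.te,
        ((Ioi (P.tw - r)).indicator (fun _ => tW Φ ε K P w l) s +
          (goodB Φ ε w)ᶜ.indicator 1 l) := by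
      refine setLIntegral_congr_fun measurableSet_Icc fun s hs => ?_
      simp only [e1]
      rw [indicator_of_notMem (show s ∉ Iio (0 : ℝ) from not_lt.2 hs.1), add_zero]
    rw [e2, lintegral_add_right _ measurable_const, setLIntegral_const, Real.volume_Icc, sub_zero,
      mul_comm ((goodB Φ ε w)ᶜ.indicator 1 l)]
    refine add_le_add ?_ le_rfl
    rw [lintegral_indicator measurableSet_Ioi, setLIntegral_const, mul_comm,
      Measure.restrict_apply measurableSet_Ioi]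
    refine mul_le_mul_left ?_ _
    calc volume (Ioi (P.tw - r) ∩ Icc 0 P.te) ≤ volume (Ioc (P.tw - r) P.te) :=
          measure_mono fun s hs => ⟨hs.1, hs.2.2⟩
      _ = _ := by
          rw [Real.volume_Ioc]
          congr 1
          ring
  unfold PPar.rhs
  rw [hQt]
  calc ∫⁻ l, yF Φ ε K P r w (l, l.1.1) ∂Q.ℓ + ∫⁻ l, (∫⁻ s in Icc 0 P.te, yF Φ ε K P r w (l, s)) ∂Q.ℓ
      ≤ ∫⁻ l, ({l : ML | P.tw - r < l.1.1}.indicator (fun l => tW Φ ε K P w l) l +
          ((goodB Φ ε w)ᶜ.indicator 1 l + {l : ML | l.1.1 < 0}.indicator (fun _ => ∞) l)) ∂Q.ℓ +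
        ∫⁻ l, (ENNReal.ofReal (r + (P.te - P.tw)) * tW Φ ε K P w l +
          ENNReal.ofReal P.te * (goodB Φ ε w)ᶜ.indicator 1 l) ∂Q.ℓ :=
        add_le_add (le_of_eq (lintegral_congr h1)) (lintegral_mono h2)
    _ = _ := by
        have h0 : ∫⁻ l, {l : ML | l.1.1 < 0}.indicator (fun _ => (∞ : ℝ≥0∞)) l ∂Q.ℓ = 0 := by
          rw [lintegral_indicator_const (measurableSet_lt (by fun_prop) measurable_const), hQ0,
            mul_zero]
        rw [lintegral_add_left hyI, lintegral_add_left (htWm.const_mul _),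
          lintegral_add_left (measurable_one.indicator hgm.compl), h0, add_zero,
          lintegral_const_mul _ htWm, lintegral_const_mul _ (measurable_one.indicator hgm.compl),
          lintegral_indicator_one hgm.compl]
        ring

set_option maxHeartbeats 1000000 in
/-- **E6-direct, one world.** -/
theorem direct6_world (hΦ : AdmissiblePotential Φ) (hε : 0 < ε) {n : ℕ} {w : Config n}
    (hw : w ∈ PairExcluded ε n) {Q : PPar} {Ξ ν : Measure (Lab × LSt)} {c : ℝ≥0∞}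
    (h : PX Q Ξ ν c) (hQt : Q.t' = P.te)
    (hQW : ∀ z : LSt, z.1 ≤ Q.t' → ENNReal.ofReal (1 + ‖z.2.2‖) ≤ Q.W z)
    (hQ0 : Q.ℓ {l : ML | l.1.1 < 0} = 0) {r a : ℝ} (hr : 0 < r)
    (ha0 : 0 ≤ a) (har : a ≤ r / 2) (hL : 0 ≤ P.L) (htw : 0 ≤ P.tw) :
    ∫⁻ p, dirP Φ ε K P a w p ∂ν ≤
      volume (Metric.ball (0 : Space3) 1) * (c *
        (∫⁻ l, {l : ML | P.tw - r < l.1.1}.indicator (fun l => tW Φ ε K P w l) l ∂Q.ℓ +
          ENNReal.ofReal (r + (P.te - P.tw)) * ∫⁻ l, tW Φ ε K P w l ∂Q.ℓ +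
          (1 + ENNReal.ofReal P.te) * Q.ℓ (goodB Φ ε w)ᶜ)) +
      8 * ENNReal.ofReal ε ^ 2 * Sweep815.c3 * ENNReal.ofReal ((r / 2)⁻¹ ^ 3) *
        (2 * ENNReal.ofReal (ε + (a + (P.te - P.tw))) * (c * ((1 + ENNReal.ofReal P.te) *
          ∫⁻ l, tW Φ ε K P w l * (ENNReal.ofReal (totE Φ w) + enD Φ l) ∂Q.ℓ))) := by
  obtain ⟨g, hg, hle, hint⟩ := old_world (K := K) (P := P) hΦ hε hw h hQt hQW hr ha0 har htw
  set G : Lab × LSt → ℝ≥0∞ := fun p => if p.2.1 ≤ Q.t' then yF Φ ε K P r w (p.1.1, p.1.2.1) else 0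
    with hG
  have hpt : ∀ p, dirP Φ ε K P a w p ≤ G p + g p := by
    intro p
    unfold dirP
    split_ifs with hc
    · obtain ⟨h1, h2, h3, h4, h5⟩ := hc
      have h6 : p.2.1 ≤ P.te := by
        rcases h5 with h5 | h5
        · obtain ⟨s, x, h6, h7, _⟩ := h5
          exact h6.trans h7
        · obtain ⟨s, x, h6, _, h7, _⟩ := h5
          exact h6.trans h7
      have hG1 : G p = yF Φ ε K P r w (p.1.1, p.1.2.1) := by
        simp only [hG]
        rw [if_pos (hQt ▸ h6)]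
      by_cases ha : P.tw - r < p.1.2.1
      · refine le_trans (touchP_le_tW w _ _) (le_trans ?_ le_self_add)
        rw [hG1]
        unfold yF
        rw [indicator_of_mem (show (p.1.1, p.1.2.1) ∈ {q : ML × ℝ | P.tw - r < q.2} from ha)]
        exact le_self_add
      · by_cases hb : p.1.1 ∈ goodB Φ ε w
        · by_cases ht : P.tw < (MW.cfg w).thetaL Φ ε K P.te p.1.1 ∧
              (MW.cfg w).thetaL Φ ε K P.te p.1.1 ≤ P.te
          · by_cases hs0 : p.1.2.1 < 0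
            · refine le_trans le_top (le_trans ?_ le_self_add)
              rw [hG1]
              unfold yF
              rw [indicator_of_mem (show (p.1.1, p.1.2.1) ∈ {q : ML × ℝ | q.2 < 0} from hs0),
                add_top, add_top]
            refine le_trans ?_ le_add_self
            refine le_trans (h5.elim (touchP_le_of_dirty hΦ hε ha0 h1 h2 h3 h4)
              touchP_le_of_near) ?_
            have ho : p.1 ∈ oldL Φ ε K P r w := by
              refine ⟨ht, ⟨not_lt.1 hs0, ?_⟩, hb⟩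
              have : ¬ P.tw - r < sig p.1 := ha
              linarith
            refine le_trans (le_of_eq ?_) (hle p ho h6)
            simp only [posAt_eq_fpos p.2 p.1.2.2]
          · have : tW Φ ε K P w p.1.1 = 0 := by
              unfold tW
              rw [if_neg ht]
            rw [touchP_eq_zero_of w this]
            exact bot_le
        · refine le_trans (touchP_le_tW w _ _) (le_trans ?_ le_self_add)
          rw [hG1]
          unfold yF
          rw [indicator_of_mem (show (p.1.1, p.1.2.1) ∈ {q : ML × ℝ | q.1 ∉ goodB Φ ε w} from hb)]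
          exact (tW_le_one hL w _).trans (le_self_add.trans le_add_self)
    · exact bot_le
  calc ∫⁻ p, dirP Φ ε K P a w p ∂ν ≤ ∫⁻ p, (G p + g p) ∂ν := lintegral_mono hpt
    _ = ∫⁻ p, G p ∂ν + ∫⁻ p, g p ∂ν := lintegral_add_right _ hg
    _ ≤ _ := by
        refine add_le_add ?_ hint
        refine (h.le_rhs (measurable_yF hΦ hε K P r w) (G := G) fun p => le_rfl).trans ?_
        gcongr
        exact rhs_yF_le hΦ hε w hQt hQ0 r

end

end Crest.Agent.R122.Direct658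
end

-- ▼ part R122/Direct6b_658

/-!
# Row 122, section E, E6-direct (helper658), gas level

* `direct6` : **E6-direct** for a spread pair law.
* `nul6`, `tendsto_nul6` : the null remainder.
-/

set_option autoImplicit false
set_option linter.unusedSectionVars false

open MeasureTheory Set Filter Topology
open scoped ENNReal
open Crest.AnalysisR.Kinetic
open Crest.Agent.R122.Flow671 Crest.Agent.R122.Loc45 Crest.Agent.R122.Causal291
open Crest.Agent.R122.Inf879 Crest.Agent.R122.EDefs602 Crest.Agent.R122.Ins45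
open Crest.Agent.R122.GC311 Crest.Agent.R122.Unw410 Crest.Agent.R122.Energy410
open Crest.Agent.R122.MeasE416 Crest.Agent.R122.Boost969 Crest.Agent.R122.EBasic602
open Crest.Agent.R122.Pair292 hiding ML
open Crest.Agent.R122.Conc984

namespace Crest.Agent.R122.Direct658

noncomputable section

open scoped Classical

variable {Φ : Space3 → ℝ} {f₀ : PhasePoint → ℝ} {ε : ℝ} {K : ℕ} {P : EPar}

/-! ### The four integrals -/

theorem measurable_int (hΦ : AdmissiblePotential Φ) (hε : 0 < ε) (K : ℕ) (P : EPar)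
    {ℓ : Measure ML} [SFinite ℓ] {F : ML → ℝ≥0∞} (hF : Measurable F) (n : ℕ) :
    Measurable fun w : Config n => ∫⁻ l, tW Φ ε K P w l * F l ∂ℓ := by
  have h1 : Measurable fun p : Config n × ML => tW Φ ε K P p.1 p.2 * F p.2 :=
    (measurable_tW hΦ hε K P n).mul (hF.comp measurable_snd)
  exact h1.lintegral_prod_right'

/-- Young lines. -/
theorem int1_le (hΦ : AdmissiblePotential Φ) (hf : Measurable f₀) (hε : 0 < ε) (hL : 0 ≤ P.L)
    (hγ : Measurable P.γ) (r : ℝ) :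
    gcE f₀ ε (fun _ w => ∫⁻ l, {l : ML | P.tw - r < l.1.1}.indicator
      (fun l => tW Φ ε K P w l) l ∂lineM P.γ P.ρ K P.te) ≤
      XJ Φ f₀ ε K P (Ioc (max 0 (P.tw - r)) P.te) := by
  rw [XJ_eq hf hγ (fun n => measurable_touchW_cfg hΦ hε K P n)]
  refine gcE_mono f₀ ε fun n w _ => ?_
  have htm : Measurable fun l : ML => (MW.cfg w).touchW Φ ε K P l :=
    (MeasW.const (MW.cfg w)).touchW hΦ hε measurable_id K P
  have hset : MeasurableSet {l : ML | P.tw - r < l.1.1} :=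
    measurableSet_lt measurable_const (by fun_prop)
  calc ∫⁻ l, {l : ML | P.tw - r < l.1.1}.indicator (fun l => tW Φ ε K P w l) l
        ∂lineM P.γ P.ρ K P.te
      ≤ ∫⁻ l, {l : ML | P.tw - r < l.1.1}.indicator
          (fun l => (MW.cfg w).touchW Φ ε K P l) l ∂lineM P.γ P.ρ K P.te := by
        refine lintegral_mono fun l => ?_
        exact indicator_le_indicator (tW_le_touchW hL w l)
    _ = ∫⁻ τ in Ioc (0 : ℝ) P.te, (Ioi (P.tw - r)).indicator (fun τ =>
          ∫⁻ v : Space3, Kin796.wG (P.γ τ) v * ∫⁻ y : Space3, ∑' n : ℕ, markW P.ρ K n *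
            (MW.cfg w).touchW Φ ε K P ((τ, (y, v)), n)) τ := by
        rw [lintegral_lineM hγ (htm.indicator hset)]
        refine lintegral_congr fun τ => ?_
        by_cases h : P.tw - r < τ
        · rw [indicator_of_mem (show τ ∈ Ioi (P.tw - r) from h)]
          refine lintegral_congr fun v => ?_
          congr 1
          refine lintegral_congr fun y => tsum_congr fun m => ?_
          rw [indicator_of_mem (show ((τ, (y, v)), m) ∈ {l : ML | P.tw - r < l.1.1} from h)]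
        · rw [indicator_of_notMem (show τ ∉ Ioi (P.tw - r) from h)]
          have e1 : ∀ (v y : Space3) (m : ℕ), {l : ML | P.tw - r < l.1.1}.indicator
              (fun l => (MW.cfg w).touchW Φ ε K P l) ((τ, (y, v)), m) = 0 := by
            intro v y m
            exact indicator_of_notMem
              (show ((τ, (y, v)), m) ∉ {l : ML | P.tw - r < l.1.1} from h) _
          simp [e1]
    _ = _ := by
        rw [lintegral_indicator measurableSet_Ioi, Measure.restrict_restrict measurableSet_Ioi]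
        have : Ioi (P.tw - r) ∩ Ioc 0 P.te = Ioc (max 0 (P.tw - r)) P.te := by
          ext τ
          simp only [mem_inter_iff, mem_Ioi, mem_Ioc, max_lt_iff]
          tauto
        rw [this]

/-- All lines. -/
theorem int2_le (hΦ : AdmissiblePotential Φ) (hf : Measurable f₀) (hε : 0 < ε) (hL : 0 ≤ P.L)
    (hγ : Measurable P.γ) :
    gcE f₀ ε (fun _ w => ∫⁻ l, tW Φ ε K P w l ∂lineM P.γ P.ρ K P.te) ≤ XI Φ f₀ ε K P := by
  rw [XI_eq hf hγ (fun n => measurable_touchW_cfg hΦ hε K P n)]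
  exact gcE_mono f₀ ε fun n w _ => lintegral_mono fun l => tW_le_touchW hL w l

/-- Quenched bound by `1 / L`. -/
theorem int2_quenched (hΦ : AdmissiblePotential Φ) (hε : 0 < ε) (hL : 0 < P.L) {n : ℕ}
    (w : Config n) :
    ∫⁻ l, tW Φ ε K P w l ∂lineM P.γ P.ρ K P.te ≤ ENNReal.ofReal (1 / P.L) := by
  have hθ := measurable_thetaL_one hΦ hε K P.te w
  have h := Weight984.stieltjes_lt hL (lineM P.γ P.ρ K P.te) hθ P.tw
  have hs : MeasurableSet {l : ML | P.tw < (MW.cfg w).thetaL Φ ε K P.te l} :=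
    measurableSet_lt measurable_const hθ
  calc ∫⁻ l, tW Φ ε K P w l ∂lineM P.γ P.ρ K P.te
      ≤ ∫⁻ l, {l : ML | P.tw < (MW.cfg w).thetaL Φ ε K P.te l}.indicator (fun l =>
          Weight984.W P.L (Weight984.XR (lineM P.γ P.ρ K P.te)
            (fun l => (MW.cfg w).thetaL Φ ε K P.te l) ((MW.cfg w).thetaL Φ ε K P.te l))) l
          ∂lineM P.γ P.ρ K P.te := by
        refine lintegral_mono fun l => ?_
        unfold tW
        split_ifs with h1
        · rw [indicator_of_mem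
            (show l ∈ {l : ML | P.tw < (MW.cfg w).thetaL Φ ε K P.te l} from h1.1)]
          exact le_rfl
        · exact bot_le
    _ = ∫⁻ l in {l : ML | P.tw < (MW.cfg w).thetaL Φ ε K P.te l},
          Weight984.W P.L (Weight984.XR (lineM P.γ P.ρ K P.te)
            (fun l => (MW.cfg w).thetaL Φ ε K P.te l) ((MW.cfg w).thetaL Φ ε K P.te l))
          ∂lineM P.γ P.ρ K P.te := lintegral_indicator hs _
    _ ≤ _ := h.trans (mul_le_of_le_one_right bot_le (Weight984.W_le_one hL.le _))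

/-- Lines born in contact, one world. -/
theorem int3_world {n : ℕ} (hΦ : AdmissiblePotential Φ) (hε : 0 < ε) (w : Config n) {γ₀ : ℝ}
    (hγ : Measurable P.γ) (hγ₀ : ∀ τ ∈ Ioc 0 P.te, γ₀ ≤ P.γ τ) :
    lineM P.γ P.ρ K P.te (goodB Φ ε w)ᶜ ≤
      ENNReal.ofReal P.te * (rhoS P.ρ * gI γ₀ * (ENNReal.ofReal ε ^ 3 * Sweep815.c3)) * n := by
  have hgm := (measurableSet_goodB hΦ hε w).compl
  rw [← lintegral_indicator_one hgm, lintegral_lineM hγ (measurable_one.indicator hgm)]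
  calc ∫⁻ τ in Ioc (0 : ℝ) P.te, ∫⁻ v : Space3, Kin796.wG (P.γ τ) v *
        ∫⁻ y : Space3, ∑' m : ℕ, markW P.ρ K m * (goodB Φ ε w)ᶜ.indicator 1 ((τ, (y, v)), m)
      ≤ ∫⁻ _τ in Ioc (0 : ℝ) P.te,
          rhoS P.ρ * gI γ₀ * (ENNReal.ofReal ε ^ 3 * Sweep815.c3) * n := by
        refine setLIntegral_mono' measurableSet_Ioc fun τ hτ => ?_
        have h1 : ∫⁻ v : Space3, Kin796.wG (P.γ τ) v * ∫⁻ y : Space3,
            ∑' m : ℕ, markW P.ρ K m * (goodB Φ ε w)ᶜ.indicator 1 ((τ, (y, v)), m) ≤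
            ∫⁻ v : Space3, Kin796.wG (P.γ τ) v * ∫⁻ y : Space3,
              ∑' m : ℕ, markW P.ρ K m *
                (if ∃ i, dist y (flow Φ ε τ w i).1 ≤ ε then 1 else 0) := by
          refine lintegral_mono fun v => mul_le_mul_right (lintegral_mono fun y =>
            ENNReal.tsum_le_tsum fun m => mul_le_mul_right ?_ _) _
          refine indicator_apply_le' (fun hc => ?_) (fun _ => bot_le)
          have : ∃ i, dist y (flow Φ ε τ w i).1 ≤ ε := by
            by_contra hno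
            push Not at hno
            exact hc ⟨hτ.1, fun i => by rw [dist_comm]; exact hno i⟩
          rw [if_pos this]
          exact le_rfl
        refine h1.trans ((born4_world w τ (Kin796.meas_wG _) P.ρ).trans ?_)
        calc (∑' m : ℕ, markW P.ρ K m) * (∫⁻ v : Space3, Kin796.wG (P.γ τ) v) *
              (ENNReal.ofReal ε ^ 3 * Sweep815.c3 * n)
            ≤ rhoS P.ρ * gI γ₀ * (ENNReal.ofReal ε ^ 3 * Sweep815.c3 * n) := by
              gcongr
              · exact tsum_markW_le_rhoS _ _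
              · refine le_trans ?_ (gI_anti (hγ₀ τ hτ))
                unfold gI
                refine lintegral_mono fun v => le_mul_of_one_le_right' le_self_add
          _ = _ := by ring
    _ = _ := by
        rw [setLIntegral_const, Real.volume_Ioc, sub_zero]
        ring

theorem gcE_card_le (hf : Measurable f₀) (h1 : ∫⁻ z, ENNReal.ofReal (f₀ z) ≤ 1) (ε : ℝ) :
    gcE f₀ ε (fun n (_ : Config n) => (n : ℝ≥0∞)) ≤ activity ε := by
  have h := gcE_sum_le hf h1 ε (fun _ => 1) measurable_const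
  have e : (fun (n : ℕ) (Z : Config n) => ∑ j : Fin n, (1 : ℝ≥0∞)) =
      fun (n : ℕ) (_ : Config n) => (n : ℝ≥0∞) := by
    funext n Z
    simp
  rw [e] at h
  refine h.trans ?_
  simp only [mul_one]
  exact mul_le_of_le_one_right bot_le h1

theorem c3_ne_top : Sweep815.c3 ≠ ∞ := by
  unfold Sweep815.c3
  exact ENNReal.ofReal_ne_top

theorem activity_mul_sq' (hε : 0 < ε) : activity ε * ENNReal.ofReal ε ^ 2 = 1 := by
  rw [← InEq2U263.activity_inv hε, ENNReal.mul_inv_cancel (activity_ne_zero hε)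
    (activity_ne_top ε)]

/-- Lines born in contact: mass `O(ε)`. -/
theorem int3_le (hΦ : AdmissiblePotential Φ) (hf : Measurable f₀)
    (h1 : ∫⁻ z, ENNReal.ofReal (f₀ z) ≤ 1) (hε : 0 < ε) {γ₀ : ℝ} (hγp : 0 < γ₀)
    (hγ : Measurable P.γ) (hγ₀ : ∀ τ ∈ Ioc 0 P.te, γ₀ ≤ P.γ τ) (hρ : P.ρ < 1) :
    gcE f₀ ε (fun _ w => lineM P.γ P.ρ K P.te (goodB Φ ε w)ᶜ) ≤
      ENNReal.ofReal P.te * (rhoS P.ρ * gI γ₀ * (ENNReal.ofReal ε * Sweep815.c3)) := by
  have hc : ENNReal.ofReal P.te * (rhoS P.ρ * gI γ₀ *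
      (ENNReal.ofReal ε ^ 3 * Sweep815.c3)) ≠ ∞ :=
    ENNReal.mul_ne_top ENNReal.ofReal_ne_top (ENNReal.mul_ne_top
      (ENNReal.mul_ne_top (rhoS_lt_top hρ).ne (gI_lt_top hγp).ne)
      (ENNReal.mul_ne_top (ENNReal.pow_ne_top ENNReal.ofReal_ne_top) c3_ne_top))
  calc gcE f₀ ε (fun _ w => lineM P.γ P.ρ K P.te (goodB Φ ε w)ᶜ)
      ≤ gcE f₀ ε (fun n (_ : Config n) => (ENNReal.ofReal P.te * (rhoS P.ρ * gI γ₀ *
          (ENNReal.ofReal ε ^ 3 * Sweep815.c3))) * n) :=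
        gcE_mono f₀ ε fun n w _ => int3_world hΦ hε w hγ hγ₀
    _ = (ENNReal.ofReal P.te * (rhoS P.ρ * gI γ₀ *
          (ENNReal.ofReal ε ^ 3 * Sweep815.c3))) * gcE f₀ ε (fun n (_ : Config n) => (n : ℝ≥0∞)) :=
        gcE_const_mul f₀ ε hc _
    _ ≤ (ENNReal.ofReal P.te * (rhoS P.ρ * gI γ₀ *
          (ENNReal.ofReal ε ^ 3 * Sweep815.c3))) * activity ε :=
        mul_le_mul_right (gcE_card_le hf h1 ε) _
    _ = ENNReal.ofReal P.te * (rhoS P.ρ * gI γ₀ * (ENNReal.ofReal ε * Sweep815.c3)) *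
          (activity ε * ENNReal.ofReal ε ^ 2) := by ring
    _ = _ := by rw [activity_mul_sq' hε, mul_one]

/-! ### Velocity weight -/

/-- Constant of the velocity weight. -/
def cV (Φ : Space3 → ℝ) (γ₀ : ℝ) : ℝ≥0∞ := ENNReal.ofReal (1 / γ₀ + (stabB Φ + 3 / 2))

theorem wG_mul_enD_le {γ₀ γ : ℝ} (hγ₀ : 0 < γ₀) (d : ML) :
    Kin796.wG γ d.1.2.2 * enD Φ d ≤ cV Φ γ₀ * Kin796.wG (γ - γ₀ / 2) d.1.2.2 := by
  have hB := stabB_nonneg Φ
  unfold Kin796.wG enD cV
  rw [← ENNReal.ofReal_mul (Real.exp_pos _).le, ← ENNReal.ofReal_mul (by positivity)]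
  refine ENNReal.ofReal_le_ofReal ?_
  set x := ‖d.1.2.2‖ ^ 2 with hx
  have hx0 : 0 ≤ x := sq_nonneg _
  have h1 : Real.exp (-(γ * x)) = Real.exp (-((γ - γ₀ / 2) * x)) * Real.exp (-(γ₀ / 2 * x)) := by
    rw [← Real.exp_add]
    congr 1
    ring
  have h2 : Real.exp (-(γ₀ / 2 * x)) ≤ 1 := Real.exp_le_one_iff.2 (by
    have : 0 ≤ γ₀ / 2 * x := by positivity
    linarith)
  have h3 : γ₀ / 2 * x * Real.exp (-(γ₀ / 2 * x)) ≤ 1 := by
    have h4 : γ₀ / 2 * x ≤ Real.exp (γ₀ / 2 * x) := by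
      have := Real.add_one_le_exp (γ₀ / 2 * x)
      linarith
    rw [Real.exp_neg]
    exact mul_inv_le_one_of_le₀ h4 (Real.exp_pos _).le
  have h5 : Real.exp (-(γ₀ / 2 * x)) * ((1 / 2) * x + (stabB Φ + 3 / 2)) ≤
      1 / γ₀ + (stabB Φ + 3 / 2) := by
    have h6 : Real.exp (-(γ₀ / 2 * x)) * ((1 / 2) * x) =
        (1 / γ₀) * (γ₀ / 2 * x * Real.exp (-(γ₀ / 2 * x))) := by
      field_simp
    have h7 : (1 / γ₀) * (γ₀ / 2 * x * Real.exp (-(γ₀ / 2 * x))) ≤ 1 / γ₀ :=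
      mul_le_of_le_one_right (by positivity) h3
    have h8 : Real.exp (-(γ₀ / 2 * x)) * (stabB Φ + 3 / 2) ≤ stabB Φ + 3 / 2 :=
      mul_le_of_le_one_left (by positivity) h2
    calc _ = Real.exp (-(γ₀ / 2 * x)) * ((1 / 2) * x) +
          Real.exp (-(γ₀ / 2 * x)) * (stabB Φ + 3 / 2) := by ring
      _ ≤ _ := by rw [h6]; exact add_le_add h7 h8
  rw [h1]
  calc Real.exp (-((γ - γ₀ / 2) * x)) * Real.exp (-(γ₀ / 2 * x)) *
        ((1 / 2) * x + (stabB Φ + 3 / 2))
      = Real.exp (-((γ - γ₀ / 2) * x)) *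
        (Real.exp (-(γ₀ / 2 * x)) * ((1 / 2) * x + (stabB Φ + 3 / 2))) := by ring
    _ ≤ Real.exp (-((γ - γ₀ / 2) * x)) * (1 / γ₀ + (stabB Φ + 3 / 2)) :=
        mul_le_mul_of_nonneg_left h5 (Real.exp_pos _).le
    _ = _ := by ring

/-- Velocity-weighted touched mass, quenched. -/
theorem int4_world (hΦ : AdmissiblePotential Φ) (hε : 0 < ε) (hε1 : ε ≤ 1) {n : ℕ}
    {w : Config n} (hw : w ∈ PairExcluded ε n) (hL : 0 ≤ P.L) (hte : 0 ≤ P.te) {γ₀ : ℝ}
    (hγp : 0 < γ₀) (hγ : Measurable P.γ) (hγ₀ : ∀ τ ∈ Ioc 0 P.te, γ₀ ≤ P.γ τ) :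
    ∫⁻ l, tW Φ ε K P w l * enD Φ l ∂lineM P.γ P.ρ K P.te ≤
      cV Φ γ₀ * (cX (γ₀ / 2) P.ρ P.te * Yf Φ ε w) := by
  have hθ := measurable_thetaL_one hΦ hε K P.te w
  have hs : MeasurableSet {l : ML | (MW.cfg w).thetaL Φ ε K P.te l ≤ P.te} :=
    measurableSet_le hθ measurable_const
  have hγ' : Measurable fun τ => P.γ τ - γ₀ / 2 := hγ.sub_const _
  have h1 : lineM (fun τ => P.γ τ - γ₀ / 2) P.ρ K P.te
      {l : ML | (MW.cfg w).thetaL Φ ε K P.te l ≤ P.te} ≤
      cX (γ₀ / 2) P.ρ P.te * Yf Φ ε w :=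
    lineM_theta_le hΦ hε hε1 hw hte hγ' (fun τ hτ => by
      have := hγ₀ τ hτ
      linarith) P.ρ le_rfl
  have hm : Measurable fun l : ML => {l : ML | (MW.cfg w).thetaL Φ ε K P.te l ≤ P.te}.indicator
      (fun l => enD Φ l) l := measurable_enD.indicator hs
  calc ∫⁻ l, tW Φ ε K P w l * enD Φ l ∂lineM P.γ P.ρ K P.te
      ≤ ∫⁻ l, {l : ML | (MW.cfg w).thetaL Φ ε K P.te l ≤ P.te}.indicator
          (fun l => enD Φ l) l ∂lineM P.γ P.ρ K P.te := by
        refine lintegral_mono fun l => ?_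
        by_cases hc : P.tw < (MW.cfg w).thetaL Φ ε K P.te l ∧
            (MW.cfg w).thetaL Φ ε K P.te l ≤ P.te
        · rw [indicator_of_mem
            (show l ∈ {l : ML | (MW.cfg w).thetaL Φ ε K P.te l ≤ P.te} from hc.2)]
          exact mul_le_of_le_one_left bot_le (tW_le_one hL w l)
        · have : tW Φ ε K P w l = 0 := by
            unfold tW
            rw [if_neg hc]
          rw [this, zero_mul]
          exact bot_le
    _ = ∫⁻ l, lineD P.γ P.ρ K l * {l : ML | (MW.cfg w).thetaL Φ ε K P.te l ≤ P.te}.indicator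
          (fun l => enD Φ l) l ∂lineV P.te := by
        unfold lineM
        rw [lintegral_withDensity_eq_lintegral_mul _ (EBasic602.measurable_lineD hγ) hm]
        rfl
    _ ≤ ∫⁻ l, cV Φ γ₀ * (lineD (fun τ => P.γ τ - γ₀ / 2) P.ρ K l *
          {l : ML | (MW.cfg w).thetaL Φ ε K P.te l ≤ P.te}.indicator 1 l) ∂lineV P.te := by
        refine lintegral_mono fun l => ?_
        by_cases hc : (MW.cfg w).thetaL Φ ε K P.te l ≤ P.te
        · rw [indicator_of_mem
            (show l ∈ {l : ML | (MW.cfg w).thetaL Φ ε K P.te l ≤ P.te} from hc),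
            indicator_of_mem
            (show l ∈ {l : ML | (MW.cfg w).thetaL Φ ε K P.te l ≤ P.te} from hc)]
          unfold lineD
          have h2 := wG_mul_enD_le (Φ := Φ) (γ := P.γ l.1.1) hγp l
          calc Kin796.wG (P.γ l.1.1) l.1.2.2 * markW P.ρ K l.2 * enD Φ l
              = (Kin796.wG (P.γ l.1.1) l.1.2.2 * enD Φ l) * markW P.ρ K l.2 := by ring
            _ ≤ (cV Φ γ₀ * Kin796.wG (P.γ l.1.1 - γ₀ / 2) l.1.2.2) * markW P.ρ K l.2 :=
                mul_le_mul_left h2 _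
            _ = _ := by
                simp only [Pi.one_apply, mul_one]
                ring
        · rw [indicator_of_notMem
            (show l ∉ {l : ML | (MW.cfg w).thetaL Φ ε K P.te l ≤ P.te} from hc), mul_zero]
          exact bot_le
    _ = cV Φ γ₀ * lineM (fun τ => P.γ τ - γ₀ / 2) P.ρ K P.te
          {l : ML | (MW.cfg w).thetaL Φ ε K P.te l ≤ P.te} := by
        have hmm : Measurable fun l : ML => lineD (fun τ => P.γ τ - γ₀ / 2) P.ρ K l *
            {l : ML | (MW.cfg w).thetaL Φ ε K P.te l ≤ P.te}.indicator (1 : ML → ℝ≥0∞) l :=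
          (EBasic602.measurable_lineD hγ').mul (measurable_one.indicator hs)
        rw [lintegral_const_mul _ hmm, ← lintegral_indicator_one hs]
        congr 1
        unfold lineM
        rw [lintegral_withDensity_eq_lintegral_mul _ (EBasic602.measurable_lineD hγ')
          (measurable_one.indicator hs)]
        rfl
    _ ≤ _ := mul_le_mul_right h1 _

theorem gcE_Y_le (hf : Measurable f₀) (h1 : ∫⁻ z, ENNReal.ofReal (f₀ z) ≤ 1) (hε : 0 < ε)
    {φ : PhasePoint → ℝ≥0∞} (hφ : Measurable φ) : gcE f₀ ε (Y ε φ) ≤ mean f₀ φ := by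
  have ha0 := activity_ne_zero hε
  have hat := activity_ne_top ε
  unfold Y
  rw [gcE_const_mul f₀ ε (ENNReal.inv_ne_top.2 ha0)]
  calc (activity ε)⁻¹ * gcE f₀ ε (fun n Z => ∑ j, φ (Z j))
      ≤ (activity ε)⁻¹ * (activity ε * ∫⁻ z, ENNReal.ofReal (f₀ z) * φ z) :=
        mul_le_mul_right (gcE_sum_le hf h1 ε φ hφ) _
    _ = _ := by
        rw [← mul_assoc, ENNReal.inv_mul_cancel ha0 hat, one_mul]
        rfl

/-- The energy-weighted touched mass. -/
theorem int4_le (hΦ : AdmissiblePotential Φ) (hf : Measurable f₀)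
    (h1 : ∫⁻ z, ENNReal.ofReal (f₀ z) ≤ 1) (hmean : mean f₀ en ≠ ∞) (hε : 0 < ε) (hε1 : ε ≤ 1)
    (hL : 0 < P.L) (hte : 0 ≤ P.te) {γ₀ : ℝ} (hγp : 0 < γ₀)
    (hγ : Measurable P.γ) (hγ₀ : ∀ τ ∈ Ioc 0 P.te, γ₀ ≤ P.γ τ) (hρ : P.ρ < 1) :
    gcE f₀ ε (fun _ w => ENNReal.ofReal ε ^ 2 * ∫⁻ l, tW Φ ε K P w l *
        (ENNReal.ofReal (totE Φ w) + enD Φ l) ∂lineM P.γ P.ρ K P.te) ≤
      c1 Φ * (mean f₀ en * XI Φ f₀ ε K P + ENNReal.ofReal (1 / P.L) * gcE f₀ ε (exc f₀ ε en)) +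
        ENNReal.ofReal ε ^ 2 * (cV Φ γ₀ * (cX (γ₀ / 2) P.ρ P.te * (c1 Φ * mean f₀ en))) := by
  have htW : ∀ (n : ℕ) (w : Config n), Measurable fun l : ML => tW Φ ε K P w l := fun n w =>
    measurable_tW_one hΦ hε K P w
  set C := ENNReal.ofReal ε ^ 2 * (cV Φ γ₀ * (cX (γ₀ / 2) P.ρ P.te * c1 Φ)) with hC
  have hCt : C ≠ ∞ := ENNReal.mul_ne_top (ENNReal.pow_ne_top ENNReal.ofReal_ne_top)
    (ENNReal.mul_ne_top ENNReal.ofReal_ne_top (ENNReal.mul_ne_top
      (cX_lt_top (half_pos hγp) hρ _).ne ENNReal.ofReal_ne_top))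
  have hI2m : ∀ n, Measurable fun w : Config n =>
      ∫⁻ l, tW Φ ε K P w l ∂lineM P.γ P.ρ K P.te := by
    intro n
    have := measurable_int hΦ hε K P (ℓ := lineM P.γ P.ρ K P.te) (F := fun _ => 1)
      measurable_const n
    simpa only [mul_one] using this
  have hYm : ∀ n, Measurable fun w : Config n => Y ε en n w *
      ∫⁻ l, tW Φ ε K P w l ∂lineM P.γ P.ρ K P.te := fun n =>
    (measurable_Y measurable_en n).mul (hI2m n)
  have hpt : ∀ n, ∀ w ∈ PairExcluded ε n, ENNReal.ofReal ε ^ 2 * ∫⁻ l, tW Φ ε K P w l *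
        (ENNReal.ofReal (totE Φ w) + enD Φ l) ∂lineM P.γ P.ρ K P.te ≤
      c1 Φ * (Y ε en n w * ∫⁻ l, tW Φ ε K P w l ∂lineM P.γ P.ρ K P.te) + C * Y ε en n w := by
    intro n w hw
    have e1 : ∫⁻ l, tW Φ ε K P w l * (ENNReal.ofReal (totE Φ w) + enD Φ l)
        ∂lineM P.γ P.ρ K P.te =
        ENNReal.ofReal (totE Φ w) * ∫⁻ l, tW Φ ε K P w l ∂lineM P.γ P.ρ K P.te +
          ∫⁻ l, tW Φ ε K P w l * enD Φ l ∂lineM P.γ P.ρ K P.te := by
      rw [← lintegral_const_mul _ (htW n w), ← lintegral_add_left ((htW n w).const_mul _)]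
      refine lintegral_congr fun l => ?_
      ring
    have e2 : Yf Φ ε w ≤ c1 Φ * Y ε en n w := Yf_le hε w
    have e3 := int4_world (K := K) hΦ hε hε1 hw hL.le hte hγp hγ hγ₀
    rw [e1, mul_add]
    refine add_le_add ?_ ?_
    · calc ENNReal.ofReal ε ^ 2 * (ENNReal.ofReal (totE Φ w) *
            ∫⁻ l, tW Φ ε K P w l ∂lineM P.γ P.ρ K P.te)
          = Yf Φ ε w * ∫⁻ l, tW Φ ε K P w l ∂lineM P.γ P.ρ K P.te := by
            unfold Yf
            ring
        _ ≤ (c1 Φ * Y ε en n w) * ∫⁻ l, tW Φ ε K P w l ∂lineM P.γ P.ρ K P.te :=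
            mul_le_mul_left e2 _
        _ = _ := by ring
    · calc ENNReal.ofReal ε ^ 2 * ∫⁻ l, tW Φ ε K P w l * enD Φ l ∂lineM P.γ P.ρ K P.te
          ≤ ENNReal.ofReal ε ^ 2 * (cV Φ γ₀ * (cX (γ₀ / 2) P.ρ P.te * (c1 Φ * Y ε en n w))) := by
            gcongr
            exact e3.trans (by gcongr)
        _ = _ := by rw [hC]; ring
  calc _ ≤ gcE f₀ ε (fun n w => c1 Φ * (Y ε en n w *
          ∫⁻ l, tW Φ ε K P w l ∂lineM P.γ P.ρ K P.te) + C * Y ε en n w) :=
        gcE_mono f₀ ε hpt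
    _ = c1 Φ * gcE f₀ ε (fun n w => Y ε en n w *
          ∫⁻ l, tW Φ ε K P w l ∂lineM P.γ P.ρ K P.te) + C * gcE f₀ ε (Y ε en) := by
        have hc1 : c1 Φ ≠ ∞ := ENNReal.ofReal_ne_top
        rw [gcE_add hf ε fun n => (hYm n).const_mul _]
        rw [gcE_const_mul f₀ ε hc1, gcE_const_mul f₀ ε hCt]
    _ ≤ c1 Φ * (mean f₀ en * XI Φ f₀ ε K P +
          ENNReal.ofReal (1 / P.L) * gcE f₀ ε (exc f₀ ε en)) + C * mean f₀ en := by
        gcongr
        · refine (gcE_mul_le hf measurable_en hmean ENNReal.ofReal_ne_top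
            fun n Z _ => int2_quenched hΦ hε hL Z).trans ?_
          gcongr
          exact int2_le hΦ hf hε hL.le hγ
        · exact gcE_Y_le hf h1 hε measurable_en
    _ = _ := by rw [hC]; ring

/-! ### The final bound -/

/-- Constant of the old part. -/
def cO (T r : ℝ) : ℝ≥0∞ :=
  16 * Sweep815.c3 * ENNReal.ofReal (r⁻¹ ^ 3) * (1 + ENNReal.ofReal T)

theorem cO_ne_top (T r : ℝ) : cO T r ≠ ∞ := by
  unfold cO
  refine ENNReal.mul_ne_top (ENNReal.mul_ne_top (ENNReal.mul_ne_top ENNReal.ofNat_ne_top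
    c3_ne_top) ENNReal.ofReal_ne_top) (ENNReal.add_ne_top.2 ⟨ENNReal.one_ne_top,
      ENNReal.ofReal_ne_top⟩)

/-- Volume of the unit ball. -/
def v1 : ℝ≥0∞ := volume (Metric.ball (0 : Space3) 1)

theorem v1_ne_top : v1 ≠ ∞ := measure_ball_lt_top.ne

/-- Null remainder of E6-direct. -/
def nul6 (Φ : Space3 → ℝ) (f₀ : PhasePoint → ℝ) (γ₀ : ℝ) (ρ : ℝ≥0∞) (L T r ε : ℝ) : ℝ≥0∞ :=
  v1 * ((1 + ENNReal.ofReal T) *
      (ENNReal.ofReal T * (rhoS ρ * gI γ₀ * (ENNReal.ofReal ε * Sweep815.c3)))) +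
    cO T (r / 2) * ENNReal.ofReal (ε + (T + T)) * (c1 Φ * (ENNReal.ofReal (1 / L) * gcE f₀ ε (exc f₀ ε en)) +
      ENNReal.ofReal ε ^ 2 * (cV Φ γ₀ * (cX (γ₀ / 2) ρ T * (c1 Φ * mean f₀ en))))

theorem cX_mono (γ₀ : ℝ) (ρ : ℝ≥0∞) {T T' : ℝ} (h : T ≤ T') : cX γ₀ ρ T ≤ cX γ₀ ρ T' := by
  unfold cX
  gcongr

set_option maxHeartbeats 1000000 in
theorem lineM_neg (γ : ℝ → ℝ) (ρ : ℝ≥0∞) (K : ℕ) (te : ℝ) :
    lineM γ ρ K te {l : ML | l.1.1 < 0} = 0 := by
  have h1 : lineV te {l : ML | l.1.1 < 0} = 0 := by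
    have hs : {l : ML | l.1.1 < 0} = ({z : LSt | z.1 < 0} ×ˢ (univ : Set ℕ)) := by
      ext l
      simp
    have hs2 : {z : LSt | z.1 < 0} = (Iio (0 : ℝ)) ×ˢ (univ : Set PhasePoint) := by
      ext z
      simp
    unfold lineV
    rw [hs]
    refine le_antisymm ?_ bot_le
    refine (Measure.prod_prod_le _ _).trans ?_
    rw [hs2]
    have h2 : ((volume.restrict (Ioc 0 te)).prod (volume : Measure PhasePoint))
        ((Iio (0 : ℝ)) ×ˢ (univ : Set PhasePoint)) = 0 := by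
      rw [Measure.prod_prod, Measure.restrict_apply measurableSet_Iio]
      have : Iio (0 : ℝ) ∩ Ioc 0 te = ∅ := by
        ext s
        simp only [mem_inter_iff, mem_Iio, mem_Ioc, mem_empty_iff_false, iff_false, not_and]
        intro h3 h4
        exact absurd h4 (not_lt.2 h3.le)
      rw [this, measure_empty, zero_mul]
    rw [h2, zero_mul]
  unfold lineM
  exact withDensity_absolutelyContinuous _ _ h1

/-- **E6-direct.** -/
theorem direct6 (hΦ : AdmissiblePotential Φ) (hf : Measurable f₀)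
    (h1 : ∫⁻ z, ENNReal.ofReal (f₀ z) ≤ 1) (hmean : mean f₀ en ≠ ∞) (hε : 0 < ε) (hε1 : ε ≤ 1)
    (hL : 0 < P.L) (htw : 0 ≤ P.tw) (hte : P.tw ≤ P.te) {T : ℝ} (hT : P.te ≤ T) {γ₀ : ℝ}
    (hγp : 0 < γ₀) (hγ : Measurable P.γ) (hγ₀ : ∀ τ ∈ Ioc 0 P.te, γ₀ ≤ P.γ τ) (hρ : P.ρ < 1)
    {Q : PPar} {Ξ ν : Measure (Lab × LSt)} {c : ℝ≥0∞} (hc : c ≠ ∞) (h : PX Q Ξ ν c)
    (hQℓ : Q.ℓ = lineM P.γ P.ρ K P.te) (hQt : Q.t' = P.te)
    (hQW : ∀ z : LSt, z.1 ≤ Q.t' → ENNReal.ofReal (1 + ‖z.2.2‖) ≤ Q.W z) {r a : ℝ} (hr : 0 < r)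
    (ha0 : 0 ≤ a) (har : a ≤ r / 2) (hah : a ≤ P.te - P.tw) :
    gcE f₀ ε (fun _ w => ∫⁻ p, dirP Φ ε K P a w p ∂ν) ≤
      c * (v1 * (XJ Φ f₀ ε K P (Ioc (max 0 (P.tw - r)) P.te) +
          ENNReal.ofReal (r + (P.te - P.tw)) * XI Φ f₀ ε K P) +
        cO T (r / 2) * (c1 Φ * mean f₀ en) * ENNReal.ofReal (ε + (a + (P.te - P.tw))) *
          XI Φ f₀ ε K P +
        nul6 Φ f₀ γ₀ P.ρ P.L T r ε) := by
  have hte0 : 0 ≤ P.te := htw.trans hte
  set ℓ := lineM P.γ P.ρ K P.te with hℓ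
  set h' := P.te - P.tw with hh'
  set m := 1 + ENNReal.ofReal P.te with hm
  have hmt : m ≠ ∞ := ENNReal.add_ne_top.2 ⟨ENNReal.one_ne_top, ENNReal.ofReal_ne_top⟩
  set C1 : ℝ≥0∞ := v1 * c with hC1
  have hC1t : C1 ≠ ∞ := ENNReal.mul_ne_top v1_ne_top hc
  set C2 : ℝ≥0∞ := 8 * Sweep815.c3 * ENNReal.ofReal ((r / 2)⁻¹ ^ 3) *
    (2 * ENNReal.ofReal (ε + (a + h')) * (c * m)) with hC2
  have hC2t : C2 ≠ ∞ := by
    refine ENNReal.mul_ne_top (ENNReal.mul_ne_top (ENNReal.mul_ne_top ENNReal.ofNat_ne_top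
      c3_ne_top) ENNReal.ofReal_ne_top) (ENNReal.mul_ne_top (ENNReal.mul_ne_top
        ENNReal.ofNat_ne_top ENNReal.ofReal_ne_top) (ENNReal.mul_ne_top hc hmt))
  -- the four functionals
  set I1 : (n : ℕ) → Config n → ℝ≥0∞ := fun _ w => ∫⁻ l, {l : ML | P.tw - r < l.1.1}.indicator
      (fun l => tW Φ ε K P w l) l ∂ℓ with hI1
  set I2 : (n : ℕ) → Config n → ℝ≥0∞ := fun _ w => ∫⁻ l, tW Φ ε K P w l ∂ℓ with hI2
  set I3 : (n : ℕ) → Config n → ℝ≥0∞ := fun _ w => ℓ (goodB Φ ε w)ᶜ with hI3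
  set I4 : (n : ℕ) → Config n → ℝ≥0∞ := fun _ w => ENNReal.ofReal ε ^ 2 *
      ∫⁻ l, tW Φ ε K P w l * (ENNReal.ofReal (totE Φ w) + enD Φ l) ∂ℓ with hI4
  have hset : MeasurableSet {l : ML | P.tw - r < l.1.1} :=
    measurableSet_lt measurable_const (by fun_prop)
  have hI1m : ∀ n, Measurable (I1 n) := by
    intro n
    have h2 := measurable_int hΦ hε K P (ℓ := ℓ)
      (F := {l : ML | P.tw - r < l.1.1}.indicator 1) (measurable_one.indicator hset) n
    have e : I1 n = fun w : Config n => ∫⁻ l, tW Φ ε K P w l *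
        {l : ML | P.tw - r < l.1.1}.indicator 1 l ∂ℓ := by
      funext w
      refine lintegral_congr fun l => ?_
      by_cases hl : l ∈ {l : ML | P.tw - r < l.1.1}
      · rw [indicator_of_mem hl, indicator_of_mem hl, Pi.one_apply, mul_one]
      · rw [indicator_of_notMem hl, indicator_of_notMem hl, mul_zero]
    rw [e]
    exact h2
  have hI2m : ∀ n, Measurable (I2 n) := by
    intro n
    have := measurable_int hΦ hε K P (ℓ := ℓ) (F := fun _ => 1) measurable_const n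
    simpa only [mul_one] using this
  have hI4m : ∀ n, Measurable (I4 n) := by
    intro n
    have h3 : Measurable fun p : Config n × ML => tW Φ ε K P p.1 p.2 *
        (ENNReal.ofReal (totE Φ p.1) + enD Φ p.2) := by
      refine (measurable_tW hΦ hε K P n).mul (Measurable.add ?_
        (measurable_enD.comp measurable_snd))
      unfold totE
      fun_prop
    exact (h3.lintegral_prod_right').const_mul _
  have hpt : ∀ n, ∀ w ∈ PairExcluded ε n, ∫⁻ p, dirP Φ ε K P a w p ∂ν ≤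
      C1 * I1 n w + (C1 * ENNReal.ofReal (r + h') * I2 n w + (C2 * I4 n w +
        C1 * m * I3 n w)) := by
    intro n w hw
    refine (direct6_world (K := K) (P := P) hΦ hε hw h hQt hQW
      (by rw [hQℓ]; exact lineM_neg _ _ _ _) hr ha0 har hL.le htw).trans (le_of_eq ?_)
    rw [hQℓ]
    simp only [hI1, hI2, hI3, hI4, hC1, hC2, hm, v1, hh']
    ring
  have hb1 := int1_le (K := K) hΦ hf hε hL.le hγ r
  have hb2 := int2_le (K := K) hΦ hf hε hL.le hγ
  have hb3 := int3_le (K := K) hΦ hf h1 hε hγp hγ hγ₀ hρ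
  have hb4 := int4_le (K := K) hΦ hf h1 hmean hε hε1 hL hte0 hγp hγ hγ₀ hρ
  have hC1r : C1 * ENNReal.ofReal (r + h') ≠ ∞ := ENNReal.mul_ne_top hC1t ENNReal.ofReal_ne_top
  have hC1m : C1 * m ≠ ∞ := ENNReal.mul_ne_top hC1t hmt
  calc gcE f₀ ε (fun _ w => ∫⁻ p, dirP Φ ε K P a w p ∂ν)
      ≤ gcE f₀ ε (fun n w => C1 * I1 n w + (C1 * ENNReal.ofReal (r + h') * I2 n w +
          (C2 * I4 n w + C1 * m * I3 n w))) := gcE_mono f₀ ε hpt
    _ = C1 * gcE f₀ ε I1 + (C1 * ENNReal.ofReal (r + h') * gcE f₀ ε I2 +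
          (C2 * gcE f₀ ε I4 + C1 * m * gcE f₀ ε I3)) := by
        rw [gcE_add hf ε fun n => (hI1m n).const_mul _,
          gcE_add hf ε fun n => (hI2m n).const_mul _,
          gcE_add hf ε fun n => (hI4m n).const_mul _,
          gcE_const_mul f₀ ε hC1t, gcE_const_mul f₀ ε hC1r, gcE_const_mul f₀ ε hC2t,
          gcE_const_mul f₀ ε hC1m]
    _ ≤ C1 * XJ Φ f₀ ε K P (Ioc (max 0 (P.tw - r)) P.te) +
          (C1 * ENNReal.ofReal (r + h') * XI Φ f₀ ε K P +
          (C2 * (c1 Φ * (mean f₀ en * XI Φ f₀ ε K P +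
            ENNReal.ofReal (1 / P.L) * gcE f₀ ε (exc f₀ ε en)) +
            ENNReal.ofReal ε ^ 2 * (cV Φ γ₀ * (cX (γ₀ / 2) P.ρ P.te * (c1 Φ * mean f₀ en)))) +
          C1 * m * (ENNReal.ofReal P.te * (rhoS P.ρ * gI γ₀ *
            (ENNReal.ofReal ε * Sweep815.c3))))) := by
        gcongr
    _ ≤ C1 * XJ Φ f₀ ε K P (Ioc (max 0 (P.tw - r)) P.te) +
          (C1 * ENNReal.ofReal (r + h') * XI Φ f₀ ε K P +
          (c * (cO T (r / 2) * ENNReal.ofReal (ε + (a + h')) * (c1 Φ * mean f₀ en) *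
              XI Φ f₀ ε K P) +
            c * (cO T (r / 2) * ENNReal.ofReal (ε + (T + T)) * (c1 Φ * (ENNReal.ofReal (1 / P.L) *
              gcE f₀ ε (exc f₀ ε en)) + ENNReal.ofReal ε ^ 2 *
                (cV Φ γ₀ * (cX (γ₀ / 2) P.ρ T * (c1 Φ * mean f₀ en))))) +
          C1 * (1 + ENNReal.ofReal T) * (ENNReal.ofReal T * (rhoS P.ρ * gI γ₀ *
            (ENNReal.ofReal ε * Sweep815.c3))))) := by
        have hmT : m ≤ 1 + ENNReal.ofReal T := by rw [hm]; gcongr
        have hC2le : C2 ≤ c * (cO T (r / 2) * ENNReal.ofReal (ε + (a + h'))) := by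
          rw [hC2]
          unfold cO
          calc 8 * Sweep815.c3 * ENNReal.ofReal ((r / 2)⁻¹ ^ 3) *
                (2 * ENNReal.ofReal (ε + (a + h')) * (c * m))
              ≤ 8 * Sweep815.c3 * ENNReal.ofReal ((r / 2)⁻¹ ^ 3) *
                (2 * ENNReal.ofReal (ε + (a + h')) * (c * (1 + ENNReal.ofReal T))) := by gcongr
            _ = (8 * 2) * (Sweep815.c3 * ENNReal.ofReal ((r / 2)⁻¹ ^ 3) *
                (ENNReal.ofReal (ε + (a + h')) * (c * (1 + ENNReal.ofReal T)))) := by ring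
            _ = 16 * (Sweep815.c3 * ENNReal.ofReal ((r / 2)⁻¹ ^ 3) *
                (ENNReal.ofReal (ε + (a + h')) * (c * (1 + ENNReal.ofReal T)))) := by norm_num
            _ = _ := by ring
        have hC2le' : C2 ≤ c * (cO T (r / 2) * ENNReal.ofReal (ε + (T + T))) := by
          refine hC2le.trans (mul_le_mul_right (mul_le_mul_right
            (ENNReal.ofReal_le_ofReal ?_) _) _)
          rw [hh']
          linarith
        have hcX := cX_mono (γ₀ / 2) P.ρ hT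
        have hteT : ENNReal.ofReal P.te ≤ ENNReal.ofReal T := ENNReal.ofReal_le_ofReal hT
        refine add_le_add le_rfl (add_le_add le_rfl (add_le_add ?_ ?_))
        · calc C2 * (c1 Φ * (mean f₀ en * XI Φ f₀ ε K P +
                ENNReal.ofReal (1 / P.L) * gcE f₀ ε (exc f₀ ε en)) +
                ENNReal.ofReal ε ^ 2 * (cV Φ γ₀ * (cX (γ₀ / 2) P.ρ P.te *
                  (c1 Φ * mean f₀ en))))
              = C2 * ((c1 Φ * mean f₀ en) * XI Φ f₀ ε K P) +
                C2 * (c1 Φ * (ENNReal.ofReal (1 / P.L) * gcE f₀ ε (exc f₀ ε en)) +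
                ENNReal.ofReal ε ^ 2 * (cV Φ γ₀ * (cX (γ₀ / 2) P.ρ P.te *
                  (c1 Φ * mean f₀ en)))) := by ring
            _ ≤ (c * (cO T (r / 2) * ENNReal.ofReal (ε + (a + h')))) * ((c1 Φ * mean f₀ en) *
                  XI Φ f₀ ε K P) +
                (c * (cO T (r / 2) * ENNReal.ofReal (ε + (T + T)))) *
                  (c1 Φ * (ENNReal.ofReal (1 / P.L) *
                  gcE f₀ ε (exc f₀ ε en)) +
                ENNReal.ofReal ε ^ 2 * (cV Φ γ₀ * (cX (γ₀ / 2) P.ρ T *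
                  (c1 Φ * mean f₀ en)))) := by gcongr
            _ = _ := by ring
        · gcongr
    _ = _ := by
        unfold nul6
        rw [hC1]
        ring

/-- The null remainder is null. -/
theorem tendsto_nul6 (hf : Measurable f₀) (h1 : ∫⁻ z, ENNReal.ofReal (f₀ z) ≤ 1) {R : ℝ≥0∞}
    (hRt : R ≠ ∞) (hR : ∀ x : Space3, ∫⁻ v : Space3, ENNReal.ofReal (f₀ (x, v)) ≤ R)
    (hmean : mean f₀ en ≠ ∞) (h2 : ∫⁻ z, ENNReal.ofReal (f₀ z) * en z ^ 2 ≠ ∞) {γ₀ : ℝ}
    (hγp : 0 < γ₀) {ρ : ℝ≥0∞} (hρ : ρ < 1) (L T r : ℝ) :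
    Tendsto (fun ε => nul6 Φ f₀ γ₀ ρ L T r ε) (𝓝[>] 0) (𝓝 0) := by
  have ht0 : Tendsto (fun ε : ℝ => ENNReal.ofReal ε) (𝓝[>] 0) (𝓝 0) := by
    have := (ENNReal.continuous_ofReal.tendsto 0).mono_left
      (nhdsWithin_le_nhds : (𝓝[>] (0 : ℝ)) ≤ 𝓝 0)
    rwa [ENNReal.ofReal_zero] at this
  have htT : Tendsto (fun ε : ℝ => ENNReal.ofReal (ε + (T + T))) (𝓝[>] 0)
      (𝓝 (ENNReal.ofReal (T + T))) := by
    have h3 : Tendsto (fun ε : ℝ => ε + (T + T)) (𝓝 0) (𝓝 (0 + (T + T))) :=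
      (continuous_id.add continuous_const).tendsto 0
    rw [zero_add] at h3
    exact (ENNReal.continuous_ofReal.tendsto (T + T)).comp (h3.mono_left nhdsWithin_le_nhds)
  have hexc := tendsto_gcE_exc hf h1 hRt hR measurable_en hmean h2
  have hA : Tendsto (fun ε : ℝ => v1 * ((1 + ENNReal.ofReal T) *
      (ENNReal.ofReal T * (rhoS ρ * gI γ₀ * (ENNReal.ofReal ε * Sweep815.c3)))))
      (𝓝[>] 0) (𝓝 0) := by
    have hk : v1 * (1 + ENNReal.ofReal T) * (ENNReal.ofReal T * (rhoS ρ * gI γ₀ *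
        Sweep815.c3)) ≠ ∞ :=
      ENNReal.mul_ne_top (ENNReal.mul_ne_top v1_ne_top
        (ENNReal.add_ne_top.2 ⟨ENNReal.one_ne_top, ENNReal.ofReal_ne_top⟩))
        (ENNReal.mul_ne_top ENNReal.ofReal_ne_top (ENNReal.mul_ne_top
          (ENNReal.mul_ne_top (rhoS_lt_top hρ).ne (gI_lt_top hγp).ne) c3_ne_top))
    have h3 := ENNReal.Tendsto.const_mul ht0 (Or.inr hk)
    rw [mul_zero] at h3
    refine h3.congr fun ε => ?_
    ring
  have hB1 : Tendsto (fun ε : ℝ => c1 Φ * (ENNReal.ofReal (1 / L) * gcE f₀ ε (exc f₀ ε en)))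
      (𝓝[>] 0) (𝓝 0) := by
    have hk : c1 Φ * ENNReal.ofReal (1 / L) ≠ ∞ :=
      ENNReal.mul_ne_top ENNReal.ofReal_ne_top ENNReal.ofReal_ne_top
    have h3 := ENNReal.Tendsto.const_mul hexc (Or.inr hk)
    rw [mul_zero] at h3
    refine h3.congr fun ε => ?_
    ring
  have hB2 : Tendsto (fun ε : ℝ => ENNReal.ofReal ε ^ 2 *
      (cV Φ γ₀ * (cX (γ₀ / 2) ρ T * (c1 Φ * mean f₀ en)))) (𝓝[>] 0) (𝓝 0) := by
    have hk : cV Φ γ₀ * (cX (γ₀ / 2) ρ T * (c1 Φ * mean f₀ en)) ≠ ∞ :=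
      ENNReal.mul_ne_top ENNReal.ofReal_ne_top (ENNReal.mul_ne_top
        (cX_lt_top (half_pos hγp) hρ _).ne (ENNReal.mul_ne_top ENNReal.ofReal_ne_top hmean))
    have h3 := ENNReal.Tendsto.mul_const (ENNReal.Tendsto.pow (n := 2) ht0) (Or.inr hk)
    rw [zero_pow two_ne_zero, zero_mul] at h3
    exact h3
  have hB := hB1.add hB2
  rw [add_zero] at hB
  have hC : Tendsto (fun ε : ℝ => cO T (r / 2) * ENNReal.ofReal (ε + (T + T))) (𝓝[>] 0)
      (𝓝 (cO T (r / 2) * ENNReal.ofReal (T + T))) :=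
    ENNReal.Tendsto.const_mul htT (Or.inr (cO_ne_top T (r / 2)))
  have hD := ENNReal.Tendsto.mul hC
    (Or.inr ENNReal.zero_ne_top) hB
    (Or.inr (ENNReal.mul_ne_top (cO_ne_top T (r / 2)) ENNReal.ofReal_ne_top))
  rw [mul_zero] at hD
  have hE := hA.add hD
  rw [add_zero] at hE
  exact hE

theorem null_nul6 (hf : Measurable f₀) (h1 : ∫⁻ z, ENNReal.ofReal (f₀ z) ≤ 1) {R : ℝ≥0∞}
    (hRt : R ≠ ∞) (hR : ∀ x : Space3, ∫⁻ v : Space3, ENNReal.ofReal (f₀ (x, v)) ≤ R)
    (hmean : mean f₀ en ≠ ∞) (h2 : ∫⁻ z, ENNReal.ofReal (f₀ z) * en z ^ 2 ≠ ∞) {γ₀ : ℝ}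
    (hγp : 0 < γ₀) {ρ : ℝ≥0∞} (hρ : ρ < 1) (L T r : ℝ) :
    Null fun _ ε => nul6 Φ f₀ γ₀ ρ L T r ε :=
  Null.of_tendsto (tendsto_nul6 hf h1 hRt hR hmean h2 hγp hρ L T r)

end

end Crest.Agent.R122.Direct658
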