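import Crest.Agent.R122.Direct6b_658
import Crest.Agent.R122.PairDefs_292
import Crest.Agent.R122.EMDefs_602
import Crest.Agent.R122.Q1Data_815

/-!
# Row 122, section E, E6-direct (helper658): `StmtDIR` of helper292

`stmtDIR` : literally `PairD292.StmtDIR` with explicit constants
`cDIR` (small with `r` and with the length of the window) and `v1`.
-/

set_option autoImplicit false
set_option linter.unusedSectionVars false

open MeasureTheory Set Filter Topology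
open scoped ENNReal
open Crest.AnalysisR.Kinetic
open Crest.Agent.R122.Flow671 Crest.Agent.R122.Loc45 Crest.Agent.R122.Causal291
open Crest.Agent.R122.Inf879 Crest.Agent.R122.EDefs602 Crest.Agent.R122.Ins45
open Crest.Agent.R122.GC311 Crest.Agent.R122.Unw410 Crest.Agent.R122.Energy410
open Crest.Agent.R122.MeasE416 Crest.Agent.R122.Boost969 Crest.Agent.R122.EBasic602
open Crest.Agent.R122.Pair292 hiding ML
open Crest.Agent.R122.Conc984 Crest.Agent.R122.PairD292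

namespace Crest.Agent.R122.Direct658

noncomputable section

open scoped Classical

variable {Φ : Space3 → ℝ} {f₀ : PhasePoint → ℝ} {ε : ℝ} {K : ℕ}

/-- A direct meeting in the sense of `PairDefs_292` is dirty. -/
theorem dirty_of_dMeet2 {ι : Type} [Fintype ι] {Z : MW ι} {l : ML} {T : ℝ}
    (h : DMeet2 Φ ε K T Z l) : Dirty Φ ε K T Z l := by
  obtain ⟨h1, i, h2, h3⟩ := h
  refine ⟨mT2 Φ ε T Z l, i, h2.2.1, h1, h2.1, h2.2.2.1, h2.2.2.2, h3, ?_⟩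
  intro s' k hs' hlt hk hk'
  by_contra hno
  push Not at hno
  have hE : ∃ s ∈ Icc l.1.1 T, ∃ i, CtL Φ ε Z l s i :=
    ⟨s', ⟨hs', hlt.le.trans h1⟩, k, hk, hs', hk', hno⟩
  have hle : mT2 Φ ε T Z l ≤ s' := by
    unfold mT2 MeasE416.first
    rw [if_pos hE]
    exact csInf_le ⟨l.1.1, fun s hs => hs.1.1⟩ ⟨⟨hs', hlt.le.trans h1⟩, k, hk, hs', hk', hno⟩
  exact absurd hle (not_le.2 hlt)

/-- Literal clause of `dirP` for a first contact after the touch time of the first line minus the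
slack `a`. -/
theorem nearT_of_le_tC {Q : EPar} {n : ℕ} {w : Config n} {θ : Lab × LSt} {a : ℝ}
    (hok : OkW Φ ε w θ) (h0 : 0 ≤ (eL θ).1.1) (hT : tC Φ ε Q.te w θ ≤ Q.te)
    (hθ : (MW.cfg w).thetaL Φ ε K Q.te (dL θ) ≤ tC Φ ε Q.te w θ + a) :
    NearT Φ ε K Q.te a w (dL θ) (eL θ) := by
  set Z : MW (Fin n ⊕ Unit) := Zd w θ with hZ
  set l : ML := eL θ with hl
  have hex : ∃ s ∈ Icc l.1.1 Q.te, ∃ i, CtL Φ ε Z l s i := by
    by_contra hno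
    have : tC Φ ε Q.te w θ = Q.te + 1 := by
      unfold tC mT2 MeasE416.first
      rw [if_neg hno]
    linarith
  set S : Set ℝ := {s | s ∈ Icc l.1.1 Q.te ∧ ∃ i, CtL Φ ε Z l s i} with hS
  have hSb : BddBelow S := ⟨l.1.1, fun s hs => hs.1.1⟩
  have hSne : S.Nonempty := by
    obtain ⟨s₁, hs₁, h₁⟩ := hex
    exact ⟨s₁, hs₁, h₁⟩
  have htC : tC Φ ε Q.te w θ = sInf S := by
    unfold tC mT2 MeasE416.first
    rw [if_pos hex]
  set S' : Set ℝ := ⋃ i : Fin n ⊕ Unit,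
    {s | s ∈ Icc l.1.1 Q.te ∧ dist (fpos l s) (Z.path Φ ε s i).1 ≤ ε} with hS'
  have hcl : IsClosed S' := by
    refine isClosed_iUnion_of_finite fun i => ?_
    have hc : ContinuousOn (fun s => dist (fpos l s) (Z.path Φ ε s i).1) (Icc l.1.1 Q.te) :=
      continuous_dist.comp_continuousOn ((continuous_fpos l).continuousOn.prodMk
        ((hok.1.bw.cont_pos i).mono fun s hs => h0.trans hs.1))
    have h3 := hc.preimage_isClosed_of_isClosed isClosed_Icc (isClosed_Iic (a := ε))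
    exact h3
  have hsub : S ⊆ S' := by
    rintro s ⟨hs, i, hi⟩
    exact mem_iUnion.2 ⟨i, hs, hi.2.2.2⟩
  have hmem : sInf S ∈ S' := hcl.closure_subset_iff.2 hsub (csInf_mem_closure hSne hSb)
  obtain ⟨i, h1, h2⟩ := mem_iUnion.1 hmem
  exact ⟨sInf S, i, h1.1, sub_le_iff_le_add.2 (htC ▸ hθ), h1.2, h2⟩

/-- The integrand of the direct term, with all first contacts after the touch time of the first line
minus the slack `a`. -/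
theorem dirA_le {Q : EPar} {n : ℕ} (a : ℝ) (w : Config n) (θ : Lab × LSt) :
    (if OkW Φ ε w θ ∧ (DMeet2 Φ ε K Q.te (Zd w θ) (eL θ) ∨ (tC Φ ε Q.te w θ ≤ Q.te ∧
      (MW.cfg w).thetaL Φ ε K Q.te (dL θ) ≤ tC Φ ε Q.te w θ + a)) then tPK Φ ε K Q w θ else 0) ≤
      dirP Φ ε K Q a w θ := by
  split_ifs with hc
  · unfold tPK
    by_cases hk : OkL K θ
    · rw [if_pos hk]
      unfold dirP
      rw [if_pos]
      · exact le_rfl
      · exact ⟨hc.1.1, hc.1.2, hk.e0.le, hk.eK, hc.2.imp dirty_of_dMeet2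
          fun h => nearT_of_le_tC hc.1 hk.e0.le h.1 h.2⟩
    · rw [if_neg hk]
      exact bot_le
  · exact bot_le

/-- Constant of `XI` in the direct term: tends to `0` as `h → 0`, then `r → 0`. -/
def cDIR (Φ : Space3 → ℝ) (f₀ : PhasePoint → ℝ) (T r h : ℝ) : ℝ≥0∞ :=
  v1 * ENNReal.ofReal (r + h) + cO T (r / 2) * (c1 Φ * mean f₀ en) * ENNReal.ofReal (3 * h)


/-- **E6-direct**, for every functional below `dirP` and every slack `a`. -/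
theorem stmtDIR_gen (hΦ : AdmissiblePotential Φ) (hf : Measurable f₀)
    (h1 : ∫⁻ z, ENNReal.ofReal (f₀ z) ≤ 1) {R : ℝ≥0∞} (hRt : R ≠ ∞)
    (hR : ∀ x : Space3, ∫⁻ v : Space3, ENNReal.ofReal (f₀ (x, v)) ≤ R)
    (hmean : mean f₀ en ≠ ∞) (h2 : ∫⁻ z, ENNReal.ofReal (f₀ z) * en z ^ 2 ≠ ∞)
    {Q : EPar} (hL : 0 < Q.L) (htw : 0 ≤ Q.tw) (hte : Q.tw ≤ Q.te) {γ₀ : ℝ} (hγp : 0 < γ₀)
    (hγ : Measurable Q.γ) (hγ₀ : ∀ τ ∈ Ioc 0 Q.te, γ₀ ≤ Q.γ τ) (hρ : Q.ρ < 1) {r : ℝ}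
    (hr : 0 < r) {PP : ℕ → PPar} (hPP : PPOk Q PP) :
    ∃ δ : ℕ → ℝ → ℝ≥0∞, Null δ ∧ ∀ (K : ℕ) (ε : ℝ), 0 < ε → ε ≤ 1 → ε ≤ Q.te - Q.tw →
      ∀ (Ξ ν : Measure (Lab × LSt)) (c : ℝ≥0∞), PX (PP K) Ξ ν c →
      ∀ (a : ℝ), 0 ≤ a → a ≤ r / 2 → a ≤ Q.te - Q.tw →
      ∀ g : (n : ℕ) → Config n → Lab × LSt → ℝ≥0∞,
      (∀ n (w : Config n) θ, g n w θ ≤ dirP Φ ε K Q a w θ) →
      gcE f₀ ε (fun n w => ∫⁻ θ, g n w θ ∂ν) ≤
        c * (cDIR Φ f₀ Q.te r (Q.te - Q.tw) * XI Φ f₀ ε K Q +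
          v1 * XJ Φ f₀ ε K Q (Ioc (max 0 (Q.tw - r)) Q.te) + δ K ε) := by
  have ht0 : Tendsto (fun ε : ℝ => ENNReal.ofReal ε) (𝓝[>] 0) (𝓝 0) := by
    have := (ENNReal.continuous_ofReal.tendsto 0).mono_left
      (nhdsWithin_le_nhds : (𝓝[>] (0 : ℝ)) ≤ 𝓝 0)
    rwa [ENNReal.ofReal_zero] at this
  refine ⟨fun _ ε => nul6 Φ f₀ γ₀ Q.ρ Q.L Q.te r ε + ENNReal.ofReal ε,
    (null_nul6 hf h1 hRt hR hmean h2 hγp hρ _ _ _).add (Null.of_tendsto ht0), ?_⟩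
  intro K ε hε hε1 hεh Ξ ν c hX a ha0 har hah g hg
  by_cases hc : c = ∞
  · have hne : cDIR Φ f₀ Q.te r (Q.te - Q.tw) * XI Φ f₀ ε K Q +
        v1 * XJ Φ f₀ ε K Q (Ioc (max 0 (Q.tw - r)) Q.te) +
        (nul6 Φ f₀ γ₀ Q.ρ Q.L Q.te r ε + ENNReal.ofReal ε) ≠ 0 := by
      intro h0
      have h3 := (add_eq_zero.1 (add_eq_zero.1 h0).2).2
      rw [ENNReal.ofReal_eq_zero] at h3
      linarith
    rw [hc, ENNReal.top_mul hne]
    exact le_top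
  have hb := direct6 (K := K) hΦ hf h1 hmean hε hε1 hL htw hte le_rfl hγp hγ hγ₀ hρ hc hX
    (hPP.ell K) (hPP.hor K) (fun z hz => hPP.vel K z (hPP.hor K ▸ hz)) hr ha0 har hah
  refine le_trans (gcE_mono f₀ ε fun n w _ => lintegral_mono fun θ => hg n w θ)
    (hb.trans ?_)
  refine mul_le_mul_right ?_ c
  have h4 : ENNReal.ofReal (ε + (a + (Q.te - Q.tw))) ≤ ENNReal.ofReal (3 * (Q.te - Q.tw)) :=
    ENNReal.ofReal_le_ofReal (by linarith)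
  unfold cDIR
  calc v1 * (XJ Φ f₀ ε K Q (Ioc (max 0 (Q.tw - r)) Q.te) +
          ENNReal.ofReal (r + (Q.te - Q.tw)) * XI Φ f₀ ε K Q) +
        cO Q.te (r / 2) * (c1 Φ * mean f₀ en) * ENNReal.ofReal (ε + (a + (Q.te - Q.tw))) *
          XI Φ f₀ ε K Q + nul6 Φ f₀ γ₀ Q.ρ Q.L Q.te r ε
      ≤ v1 * (XJ Φ f₀ ε K Q (Ioc (max 0 (Q.tw - r)) Q.te) +
          ENNReal.ofReal (r + (Q.te - Q.tw)) * XI Φ f₀ ε K Q) +
        cO Q.te (r / 2) * (c1 Φ * mean f₀ en) * ENNReal.ofReal (3 * (Q.te - Q.tw)) *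
          XI Φ f₀ ε K Q + (nul6 Φ f₀ γ₀ Q.ρ Q.L Q.te r ε + ENNReal.ofReal ε) := by
        gcongr
        exact le_self_add
    _ = _ := by ring

/-- For a pair law with constant `0` the functional vanishes. -/
theorem lintegral_dirP_eq_zero {Q : EPar} {P : PPar} {Ξ ν : Measure (Lab × LSt)} (h : PX P Ξ ν 0)
    (hP : P.t' = Q.te) (a : ℝ) {n : ℕ} (w : Config n) : ∫⁻ θ, dirP Φ ε K Q a w θ ∂ν = 0 := by
  refine le_antisymm ((h.le_rhs (F := fun _ => ∞) measurable_const fun p => ?_).trans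
    (by rw [zero_mul, mul_zero])) bot_le
  unfold dirP
  split_ifs with h1 h2
  · exact le_top
  · obtain ⟨-, -, -, -, h5⟩ := h1
    have h6 : p.2.1 ≤ Q.te := by
      rcases h5 with h5 | h5
      · obtain ⟨s, x, h6, h7, _⟩ := h5
        exact h6.trans h7
      · obtain ⟨s, x, h6, _, h7, _⟩ := h5
        exact h6.trans h7
    exact absurd (hP ▸ h6) h2
  · exact bot_le
  · exact bot_le

/-- **E6-direct**, with a slack `a ε → 0`. -/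
theorem stmtDIR_gen_slack (hΦ : AdmissiblePotential Φ) (hf : Measurable f₀)
    (h1 : ∫⁻ z, ENNReal.ofReal (f₀ z) ≤ 1) {R : ℝ≥0∞} (hRt : R ≠ ∞)
    (hR : ∀ x : Space3, ∫⁻ v : Space3, ENNReal.ofReal (f₀ (x, v)) ≤ R)
    (hmean : mean f₀ en ≠ ∞) (h2 : ∫⁻ z, ENNReal.ofReal (f₀ z) * en z ^ 2 ≠ ∞)
    {Q : EPar} (hL : 0 < Q.L) (htw : 0 ≤ Q.tw) (hte : Q.tw ≤ Q.te) {γ₀ : ℝ} (hγp : 0 < γ₀)
    (hγ : Measurable Q.γ) (hγ₀ : ∀ τ ∈ Ioc 0 Q.te, γ₀ ≤ Q.γ τ) (hρ : Q.ρ < 1) {r : ℝ}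
    (hr : 0 < r) {PP : ℕ → PPar} (hPP : PPOk Q PP) {a : ℝ → ℝ} (ha0 : ∀ ε, 0 ≤ a ε)
    (ha : Tendsto a (𝓝[>] 0) (𝓝 0)) :
    ∃ δ : ℕ → ℝ → ℝ≥0∞, Null δ ∧ ∀ (K : ℕ) (ε : ℝ), 0 < ε → ε ≤ 1 → ε ≤ Q.te - Q.tw →
      a ε ≤ Q.te - Q.tw → ∀ (Ξ ν : Measure (Lab × LSt)) (c : ℝ≥0∞), PX (PP K) Ξ ν c →
      ∀ g : (n : ℕ) → Config n → Lab × LSt → ℝ≥0∞,
      (∀ n (w : Config n) θ, g n w θ ≤ dirP Φ ε K Q (a ε) w θ) →
      gcE f₀ ε (fun n w => ∫⁻ θ, g n w θ ∂ν) ≤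
        c * (cDIR Φ f₀ Q.te r (Q.te - Q.tw) * XI Φ f₀ ε K Q +
          v1 * XJ Φ f₀ ε K Q (Ioc (max 0 (Q.tw - r)) Q.te) + δ K ε) := by
  obtain ⟨δ, hδ, h⟩ := stmtDIR_gen hΦ hf h1 hRt hR hmean h2 hL htw hte hγp hγ hγ₀ hρ hr hPP
  have hev : ∀ᶠ ε in 𝓝[>] (0 : ℝ), a ε ≤ r / 2 :=
    (ha.eventually (gt_mem_nhds (half_pos hr))).mono fun ε hε => hε.le
  have hn : Null fun (_ : ℕ) (ε : ℝ) => if a ε ≤ r / 2 then (0 : ℝ≥0∞) else ∞ := by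
    refine Null.of_tendsto (tendsto_const_nhds.congr' ?_)
    filter_upwards [hev] with ε hε
    rw [if_pos hε]
  refine ⟨fun K ε => δ K ε + if a ε ≤ r / 2 then (0 : ℝ≥0∞) else ∞, hδ.add hn, ?_⟩
  intro K ε hε hε1 hεh hah Ξ ν c hX g hg
  by_cases har : a ε ≤ r / 2
  · refine (h K ε hε hε1 hεh Ξ ν c hX (a ε) (ha0 ε) har hah g hg).trans ?_
    simp only [if_pos har, add_zero]
    exact le_rfl
  · by_cases hc : c = 0
    · subst hc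
      rw [zero_mul]
      refine (gcE_mono f₀ ε fun n w _ => lintegral_mono fun θ => hg n w θ).trans ?_
      simp only [lintegral_dirP_eq_zero hX (hPP.hor K)]
      exact (gcE_zero f₀ ε).le
    · simp only [if_neg har, add_top]
      rw [ENNReal.mul_top hc]
      exact le_top

theorem tendsto_slk : Tendsto slk (𝓝[>] 0) (𝓝 0) := by
  have h := (Real.continuous_sqrt.tendsto 0).mono_left
    (nhdsWithin_le_nhds : (𝓝[>] (0 : ℝ)) ≤ 𝓝 0)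
  rwa [Real.sqrt_zero] at h

theorem le_slk {ε : ℝ} (h0 : 0 ≤ ε) (h1 : ε ≤ 1) : ε ≤ slk ε := by
  unfold slk
  refine Real.le_sqrt_of_sq_le ?_
  nlinarith

/-- **E6-direct**, the literal slot of `PairDefs_292` (v4). -/
theorem stmtDIR (hΦ : AdmissiblePotential Φ) (hf : Measurable f₀)
    (h1 : ∫⁻ z, ENNReal.ofReal (f₀ z) ≤ 1) {R : ℝ≥0∞} (hRt : R ≠ ∞)
    (hR : ∀ x : Space3, ∫⁻ v : Space3, ENNReal.ofReal (f₀ (x, v)) ≤ R)
    (hmean : mean f₀ en ≠ ∞) (h2 : ∫⁻ z, ENNReal.ofReal (f₀ z) * en z ^ 2 ≠ ∞)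
    {Q : EPar} (hL : 0 < Q.L) (htw : 0 ≤ Q.tw) (hte : Q.tw ≤ Q.te) {γ₀ : ℝ} (hγp : 0 < γ₀)
    (hγ : Measurable Q.γ) (hγ₀ : ∀ τ ∈ Ioc 0 Q.te, γ₀ ≤ Q.γ τ) (hρ : Q.ρ < 1) {r : ℝ}
    (hr : 0 < r) (PP : ℕ → PPar) :
    StmtDIR Φ f₀ Q r PP (cDIR Φ f₀ Q.te r (Q.te - Q.tw)) v1 := by
  intro hPP
  obtain ⟨δ, hδ, h⟩ := stmtDIR_gen_slack hΦ hf h1 hRt hR hmean h2 hL htw hte hγp hγ hγ₀ hρ hr hPP
    (a := slk) (fun ε => Real.sqrt_nonneg ε) tendsto_slk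
  exact ⟨δ, hδ, fun K ε hε hε1 hεs Ξ ν c hX => h K ε hε hε1 ((le_slk hε.le hε1).trans hεs) hεs
    Ξ ν c hX _ fun n w θ => dirA_le (slk ε) w θ⟩

/-- Bounds of the line rate. -/
theorem exists_rate {g1 : ℝ} {r1 : ℝ≥0∞} {T : ℝ} {γ : ℝ → ℝ} {ρ : ℝ≥0∞}
    (hl : Top602.LinePar g1 r1 T γ ρ) : Measurable γ ∧ ∃ γ₀ : ℝ, 0 < γ₀ ∧ ∀ τ ≤ T, γ₀ ≤ γ τ := by
  obtain ⟨g0, κ, hκ, rfl, hpos, -⟩ := hl.lin
  refine ⟨by fun_prop, g0 - κ * T, hpos, fun τ hτ => ?_⟩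
  have := mul_le_mul_of_nonneg_left hτ hκ.le
  linarith


/-- **E6-direct** for the data of the theorem. -/
theorem stmtDIR_of_kdata {β T : ℝ} {f : ℝ → PhasePoint → ℝ} (hD : Master566.KData Φ β T f₀ f)
    {g1 : ℝ} {r1 : ℝ≥0∞} {γ : ℝ → ℝ} {ρ : ℝ≥0∞} (hl : Top602.LinePar g1 r1 T γ ρ)
    {L tw te h : ℝ} (hL : 0 < L) (hw : Top602.Win h T tw te) {r : ℝ} (hr : 0 < r)
    (PP : ℕ → PPar) :
    StmtDIR Φ f₀ (Top602.epar γ ρ L tw te) r PP (cDIR Φ f₀ te r (te - tw)) v1 := by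
  obtain ⟨hγ, γ₀, hγp, hγ₀⟩ := exists_rate hl
  have hβ : 0 < 2 * β := by linarith [hD.beta_pos]
  obtain ⟨R, hRt, hR⟩ := exists_position_density_bound hD.beta_pos hD.gaussian
  obtain ⟨hmean, h2⟩ := mean_en_ne_top hβ hD.gaussian
  exact stmtDIR hD.adm hD.contDiff.continuous.measurable (Q1815.lintegral_mass hD).le hRt hR
    hmean h2 (Q := Top602.epar γ ρ L tw te) hL hw.nonneg hw.le hγp hγ
    (fun τ hτ => hγ₀ τ (hτ.2.trans hw.le_T)) hl.hi hr PP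

theorem cO_mono {T T' : ℝ} (h : T ≤ T') (r : ℝ) : cO T r ≤ cO T' r := by
  unfold cO
  gcongr

/-- The window dependent part of `cDIR`. -/
def oDIR (Φ : Space3 → ℝ) (f₀ : PhasePoint → ℝ) (T r h : ℝ) : ℝ≥0∞ :=
  v1 * ENNReal.ofReal h + cO T (r / 2) * (c1 Φ * mean f₀ en) * ENNReal.ofReal (3 * h)

/-- `cDIR` splits in a part which vanishes with `r` and a part which vanishes with the length of the
window. -/
theorem cDIR_le {T te r h h' : ℝ} (hte : te ≤ T) (hr : 0 ≤ r) (hh : h' ≤ h) (hh0 : 0 ≤ h) :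
    cDIR Φ f₀ te r h' ≤ v1 * ENNReal.ofReal r + oDIR Φ f₀ T r h := by
  unfold cDIR oDIR
  rw [← add_assoc, ← mul_add, ← ENNReal.ofReal_add hr hh0]
  have h1 : ENNReal.ofReal (r + h') ≤ ENNReal.ofReal (r + h) :=
    ENNReal.ofReal_le_ofReal (by linarith)
  have h2 : ENNReal.ofReal (3 * h') ≤ ENNReal.ofReal (3 * h) :=
    ENNReal.ofReal_le_ofReal (by linarith)
  have h3 := cO_mono hte (r / 2)
  gcongr

theorem vanish_oDIR (hmean : mean f₀ en ≠ ∞) (T r : ℝ) :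
    Top602.Vanish fun h _ => oDIR Φ f₀ T r h := by
  unfold oDIR
  refine Top602.Vanish.add (Top602.Vanish.const_mul Top602.Vanish.length v1_ne_top) ?_
  refine Top602.Vanish.const_mul (Top602.Vanish.of_length ?_)
    (ENNReal.mul_ne_top (cO_ne_top T (r / 2)) (ENNReal.mul_ne_top ENNReal.ofReal_ne_top hmean))
  have h1 : Tendsto (fun x : ℝ => 3 * x) (𝓝 0) (𝓝 (3 * 0)) :=
    (continuous_const.mul continuous_id).tendsto 0
  rw [mul_zero] at h1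
  exact h1.mono_left nhdsWithin_le_nhds


end

end Crest.Agent.R122.Direct658
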