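import Crest.Agent.R122.RealA_811

-- ▼ part R122/NDE_811
section

/-!
# No double lines in the world in which `e` is inserted (row 122, E_FINAL (1.6')), helper811

`L : MW α` world with lines, `hit : Hit Φ ε L e c s₁ s₁'`, `e` meets first the line `c`;
`encW ≅ Z + lines ls` : the world after the encounter, `FamNL Φ ε K T Z ls s` : no touch before `s`
and no link. Then in `L + e` no clean particle has two of the lines `D` in its past up to `s`, where
`D` consists of lines of `ls` and `c`.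
-/

set_option autoImplicit false
set_option linter.unusedSectionVars false

open MeasureTheory Set Filter Topology
open scoped ENNReal
open Crest.AnalysisR.Kinetic
open Crest.Agent.R122.Flow671 Crest.Agent.R122.Loc45 Crest.Agent.R122.Ins45
open Crest.Agent.R122.Causal291 Crest.Agent.R122.Inf879 Crest.Agent.R122.EDefs602
open Crest.Agent.R122.Lines255 Crest.Agent.R122.MWAlg255
open Crest.Agent.R122.MWFam255 (FamNL)

namespace Crest.Agent.R122.RealL811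

noncomputable section

open scoped Classical

section bc

variable {α : Type} [Fintype α] {Φ : Space3 → ℝ} {ε s₁ s₁' t : ℝ} {L : MW α} {e : ML} {c : α}

/-- Backward clusters before the encounter of `e` and `c` is taken out. -/
theorem bc_enc (hit : Hit Φ ε L e c s₁ s₁') (hΦ : AdmissiblePotential Φ) (hε : 0 < ε)
    (hL : L.Ok Φ ε) (hLe : (L.ins e).Ok Φ ε) {x y : α ⊕ Unit} (hx : x ∈ encD c → s₁' ≤ t)
    (hy : y ∈ BC ((L.ins e).C Φ ε) t x) :
    (y ∉ encD c ∧ y ∈ BC ((encW Φ ε L e c s₁').C Φ ε) t x) ∨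
      (y ∈ encD c ∧ ∃ j ∈ encD c, j ∈ BC ((encW Φ ε L e c s₁').C Φ ε) t x) := by
  have h1 := Lines255.bc_eq (i := x) (t := t) (hit.closed hΦ hε hL hLe)
    (fun _ _ _ hc => MW.C_symm _ hc) (hit.lines hΦ hε hL hLe)
    (fun hx' => by rw [encB_of_mem hx']; exact hx hx') (fun j _ => hit.encB_nonneg j)
  rw [h1] at hy
  rcases hy with ⟨h2, h3⟩ | hy
  · exact Or.inl ⟨h3, h2⟩
  · right
    simp only [mem_iUnion, mem_inter_iff, exists_prop] at hy
    obtain ⟨j, ⟨h2, h3⟩, h4⟩ := hy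
    rw [encB_of_mem h3, hit.bc_eq hΦ hε hL hLe h3] at h4
    exact ⟨h4, j, h3, h2⟩

end bc

section nde

variable {α ι κ' : Type} [Fintype α] [Fintype ι] [Fintype κ'] {Φ : Space3 → ℝ}
  {ε T s v s₁ s₁' t : ℝ} {K : ℕ} {L : MW α} {e : ML} {c : α} {Z : MW ι} {ls : κ' → ML}
  {φ : ι ⊕ κ' ≃ α ⊕ Unit} {W : MW (α ⊕ Unit)} {D : Set (α ⊕ Unit)}

/-- In `L + e`, the lines of `D` in the past of `x` reduce to one if the past after the encounter
contains at most one line. -/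
theorem sub_of_unique (hit : Hit Φ ε L e c s₁ s₁') (hΦ : AdmissiblePotential Φ) (hε : 0 < ε)
    (hL : L.Ok Φ ε) (hLe : (L.ins e).Ok Φ ε)
    (hφ : (encW Φ ε L e c s₁').comap φ = Z.add (MW.lines ls))
    (henc : ∀ x ∈ encD c, φ.symm x ∈ range Sum.inr)
    (hD : ∀ x ∈ D, φ.symm x ∈ range Sum.inr) (hDe : ∀ x ∈ D, x ∈ encD c → x = Sum.inl c)
    {x : α ⊕ Unit} (hx : x ∈ encD c → s₁' ≤ t)
    (hu : (BC ((Z.add (MW.lines ls)).C Φ ε) t (φ.symm x) ∩ range Sum.inr).Subsingleton) :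
    (BC ((L.ins e).C Φ ε) t x ∩ D).Subsingleton := by
  have key : ∀ j, j ∈ BC ((encW Φ ε L e c s₁').C Φ ε) t x →
      φ.symm j ∈ BC ((Z.add (MW.lines ls)).C Φ ε) t (φ.symm x) := by
    intro j hj
    have h1 := EquivE416.past_comap hΦ hε (encW Φ ε L e c s₁') φ (t := t) (s := 0)
      (i := φ.symm x) (k := φ.symm j)
    rw [hφ, Equiv.apply_symm_apply, Equiv.apply_symm_apply] at h1
    exact h1.2 hj
  rintro y ⟨hy, hyD⟩ y' ⟨hy', hyD'⟩
  rcases bc_enc hit hΦ hε hL hLe hx hy with ⟨h1, h2⟩ | ⟨h1, j, hj, h2⟩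
  · rcases bc_enc hit hΦ hε hL hLe hx hy' with ⟨h1', h2'⟩ | ⟨h1', j', hj', h2'⟩
    · exact φ.symm.injective (hu ⟨key _ h2, hD y hyD⟩ ⟨key _ h2', hD y' hyD'⟩)
    · have h3 := φ.symm.injective (hu ⟨key _ h2, hD y hyD⟩ ⟨key _ h2', henc j' hj'⟩)
      exact absurd (h3 ▸ hj') h1
  · rcases bc_enc hit hΦ hε hL hLe hx hy' with ⟨h1', h2'⟩ | ⟨h1', j', hj', h2'⟩
    · have h3 := φ.symm.injective (hu ⟨key _ h2', hD y' hyD'⟩ ⟨key _ h2, henc j hj⟩)
      exact absurd (h3 ▸ hj) h1'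
    · rw [hDe y hyD h1, hDe y' hyD' h1']

/-- Infections before and after the encounter agree if there are no double lines. -/
theorem inf_enc_iff (hit : Hit Φ ε L e c s₁ s₁') (hΦ : AdmissiblePotential Φ) (hε : 0 < ε)
    (hL : L.Ok Φ ε) (hLe : (L.ins e).Ok Φ ε) (hK : e.2 + L.m c ≤ K)
    (hφ : (encW Φ ε L e c s₁').comap φ = Z.add (MW.lines ls))
    (henc : ∀ x ∈ encD c, φ.symm x ∈ range Sum.inr) {r : ℝ} {y : α ⊕ Unit}
    (hu : (BC ((Z.add (MW.lines ls)).C Φ ε) r (φ.symm y) ∩ range Sum.inr).Subsingleton) :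
    (L.ins e).Inf Φ ε K r y ↔ (Z.add (MW.lines ls)).Inf Φ ε K r (φ.symm y) := by
  have h0 : (Z.add (MW.lines ls)).Inf Φ ε K r (φ.symm y) ↔
      (encW Φ ε L e c s₁').Inf Φ ε K r y := by
    rw [← hφ, MWAlg255.Inf_comap hΦ hε, Equiv.apply_symm_apply]
  rw [h0]
  have hR := hit.repl hΦ hε hL hLe hK
  have h1 := Lines255.infd_iff_all (K := K) (i := y) (t := r) (m := (L.ins e).m) hR.closed
    hR.symm hR.lines hR.pos hR.clean (fun _ _ => ?_)
  · exact h1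
  · rintro j ⟨hj, hjD⟩ j' ⟨hj', hjD'⟩
    have key : ∀ j, j ∈ BC ((encW Φ ε L e c s₁').C Φ ε) r y →
        φ.symm j ∈ BC ((Z.add (MW.lines ls)).C Φ ε) r (φ.symm y) := by
      intro j hj
      have h1 := EquivE416.past_comap hΦ hε (encW Φ ε L e c s₁') φ (t := r) (s := 0)
        (i := φ.symm y) (k := φ.symm j)
      rw [hφ, Equiv.apply_symm_apply, Equiv.apply_symm_apply] at h1
      exact h1.2 hj
    exact φ.symm.injective (hu ⟨key _ hj, henc j hjD⟩ ⟨key _ hj', henc j' hjD'⟩)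

/-- **No double lines in `L + e`.** -/
theorem nde (hit : Hit Φ ε L e c s₁ s₁') (hΦ : AdmissiblePotential Φ) (hε : 0 < ε)
    (hL : L.Ok Φ ε) (hLe : (L.ins e).Ok Φ ε) (hK : e.2 + L.m c ≤ K)
    (h : FamNL Φ ε K T Z ls s)
    (hφ : (encW Φ ε L e c s₁').comap φ = Z.add (MW.lines ls))
    (henc : ∀ x ∈ encD c, φ.symm x ∈ range Sum.inr)
    (hR : RL Φ ε K W (L.ins e) D v) (hsv : s ≤ v)
    (hD : ∀ x ∈ D, φ.symm x ∈ range Sum.inr) (hDe : ∀ x ∈ D, x ∈ encD c → x = Sum.inl c)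
    (hm : ∀ x ∈ D, (L.ins e).b x ≤ v → msize (W.C Φ ε) W.m ((L.ins e).b x) x = (L.ins e).m x)
    (ht0 : 0 ≤ t) (ht : t ≤ s) : ND Φ ε K W (L.ins e) D t := by
  intro i hi hcl
  by_cases hie : i ∈ encD c → s₁' ≤ t
  swap
  · -- before the exit time the past of `c` and `e` stays in the encounter
    push Not at hie
    obtain ⟨hie, hlt⟩ := hie
    rintro y ⟨hy, hyD⟩ y' ⟨hy', hyD'⟩
    have key : ∀ q, q ∈ BC ((L.ins e).C Φ ε) t i → q ∈ encD c := fun q hq =>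
      (Lines255.own_past (hit.closed hΦ hε hL hLe) hie (s₀ := t)
        (by rw [encB_of_mem hie]; exact hlt.le) hq).1
    rw [hDe y hyD (key y hy), hDe y' hyD' (key y' hy')]
  refine sub_of_unique hit hΦ hε hL hLe hφ henc hD hDe hie ?_
  refine MWFam255.past_unique hΦ hε h ht0 ht ?_
  intro v' y hp hv0 r hr hrv hI
  have hrs : r < s := (hrv.trans_le hp.le).trans_le ht
  -- the infection in the world `L + e`
  have hy1 : (L.ins e).Inf Φ ε K r (φ y) := by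
    refine (inf_enc_iff hit hΦ hε hL hLe hK hφ henc ?_).2 ?_
    · exact MWFam255.past_unique_lt hΦ hε h hr hrs _
    · rwa [Equiv.symm_apply_apply]
  -- no double lines at time `r`
  have hnd : (φ y ∈ D → (L.ins e).b (φ y) ≤ r) → ¬ W.Inf Φ ε K r (φ y) →
      (BC ((L.ins e).C Φ ε) r (φ y) ∩ D).Subsingleton := by
    intro _ _
    by_cases hye : φ y ∈ encD c → s₁' ≤ r
    · exact sub_of_unique hit hΦ hε hL hLe hφ henc hD hDe hye
        (MWFam255.past_unique_lt hΦ hε h hr hrs _)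
    · push Not at hye
      obtain ⟨hye, hlt⟩ := hye
      rintro q ⟨hq, hqD⟩ q' ⟨hq', hqD'⟩
      have key : ∀ q, q ∈ BC ((L.ins e).C Φ ε) r (φ y) → q ∈ encD c := fun q hq =>
        (Lines255.own_past (hit.closed hΦ hε hL hLe) hye (s₀ := r)
          (by rw [encB_of_mem hye]; exact hlt.le) hq).1
      rw [hDe q hqD (key q hq), hDe q' hqD' (key q' hq')]
  have hreal : W.Inf Φ ε K r (φ y) := (hR.inf_iff hΦ hε hm (hrs.le.trans hsv) hnd).2 hy1
  have hvis : φ y ∈ D → (L.ins e).b (φ y) ≤ r :=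
    hR.born_of_inf hΦ hε (hrs.le.trans hsv) hy1
  -- the past in the world `L + e`
  have hp' : Past ((encW Φ ε L e c s₁').C Φ ε) t i r (φ y) := by
    have h1 := EquivE416.past_comap hΦ hε (encW Φ ε L e c s₁') φ (t := t) (s := r)
      (i := φ.symm i) (k := y)
    rw [hφ, Equiv.apply_symm_apply] at h1
    exact h1.1 (hp.mono hrv.le)
  have hp2 : Past ((L.ins e).C Φ ε) t i r (φ y) := hp'.mono_rel (hit.lines hΦ hε hL hLe).sub
  have hpast : Past (W.C Φ ε) t i r (φ y) := hR.past_real hΦ hε (ht.trans hsv) hi hp2 hvis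
  exact hcl (Infd.of_past hpast hreal)

end nde

end

end Crest.Agent.R122.RealL811
end

-- ▼ part R122/E6Real_811

/-!
# The deterministic facts of E6 for the real cluster (row 122), helper811

* `nd_fam` : `ND` from `FamNL` with arbitrary labels.
* `RealHit` : the world `w₂ + A + d (+ e)` is real, the lines `F` of the cluster `A`, `e` meets first
  the root line.
* `RealHit.one`, `RealHit.rev` : the one-contact inequality and its single time reverse form for the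
  real cluster.
* `E6Hyp.facts_real` : `E6FactsA` for the real cluster.
-/

set_option autoImplicit false
set_option linter.unusedSectionVars false

open MeasureTheory Set Filter Topology
open scoped ENNReal
open Crest.AnalysisR.Kinetic
open Crest.Agent.R122.Flow671 Crest.Agent.R122.Loc45 Crest.Agent.R122.Ins45
open Crest.Agent.R122.Causal291 Crest.Agent.R122.Inf879 Crest.Agent.R122.EDefs602
open Crest.Agent.R122.Lines255 Crest.Agent.R122.MWAlg255 Crest.Agent.R122.Decomp811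
open Crest.Agent.R122.MWFam255 (FamNL)
open Crest.Agent.R122.E6Hyp879 (E6Hyp plus)

namespace Crest.Agent.R122.RealL811

noncomputable section

open scoped Classical

section ndf

variable {α ι κ' : Type} [Fintype α] [Fintype ι] [Fintype κ'] {Φ : Space3 → ℝ}
  {ε T s v t : ℝ} {K : ℕ} {L W : MW α} {Z : MW ι} {ls : κ' → ML}
  {φ : ι ⊕ κ' ≃ α} {D : Set α}

/-- **No double lines from pairwise absence of links**, arbitrary labels. -/
theorem nd_fam (hΦ : AdmissiblePotential Φ) (hε : 0 < ε) (h : FamNL Φ ε K T Z ls s)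
    (hφ : L.comap φ = Z.add (MW.lines ls)) (hR : RL Φ ε K W L D v) (hsv : s ≤ v)
    (hD : ∀ x ∈ D, φ.symm x ∈ range Sum.inr)
    (hm : ∀ x ∈ D, L.b x ≤ v → msize (W.C Φ ε) W.m (L.b x) x = L.m x)
    (ht0 : 0 ≤ t) (ht : t ≤ s) : ND Φ ε K W L D t := by
  have key : ∀ (t : ℝ) (x : α), (BC ((Z.add (MW.lines ls)).C Φ ε) t (φ.symm x) ∩
      range Sum.inr).Subsingleton → (BC (L.C Φ ε) t x ∩ D).Subsingleton := by
    rintro t x hu j ⟨hj, hjD⟩ j' ⟨hj', hjD'⟩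
    have h1 : ∀ j, j ∈ BC (L.C Φ ε) t x →
        φ.symm j ∈ BC ((Z.add (MW.lines ls)).C Φ ε) t (φ.symm x) := by
      intro j hj
      have h1 := EquivE416.past_comap hΦ hε L φ (t := t) (s := 0)
        (i := φ.symm x) (k := φ.symm j)
      rw [hφ, Equiv.apply_symm_apply, Equiv.apply_symm_apply] at h1
      exact h1.2 hj
    exact φ.symm.injective (hu ⟨h1 _ hj, hD j hjD⟩ ⟨h1 _ hj', hD j' hjD'⟩)
  intro i hi hcl
  refine key t i (MWFam255.past_unique hΦ hε h ht0 ht ?_)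
  intro v' y hp hv0 r hr hrv hI
  have hrs : r < s := (hrv.trans_le hp.le).trans_le ht
  have hy1 : L.Inf Φ ε K r (φ y) := by
    have h0 := MWAlg255.Inf_comap hΦ hε K L φ r y
    rw [hφ] at h0
    exact h0.1 hI
  have hreal : W.Inf Φ ε K r (φ y) := (hR.inf_iff hΦ hε hm (hrs.le.trans hsv)
    fun _ _ => key r _ (MWFam255.past_unique_lt hΦ hε h hr hrs _)).2 hy1
  have hvis : φ y ∈ D → L.b (φ y) ≤ r := hR.born_of_inf hΦ hε (hrs.le.trans hsv) hy1
  have hp' : Past (L.C Φ ε) t i r (φ y) := by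
    have h1 := EquivE416.past_comap hΦ hε L φ (t := t) (s := r) (i := φ.symm i) (k := y)
    rw [hφ, Equiv.apply_symm_apply] at h1
    exact h1.1 (hp.mono hrv.le)
  have hpast : Past (W.C Φ ε) t i r (φ y) := hR.past_real hΦ hε (ht.trans hsv) hi hp' hvis
  exact hcl (Infd.of_past hpast hreal)

end ndf

/-! ### Insertion of a line in both worlds -/

theorem compat_ins {α : Type} [Fintype α] {Φ : Space3 → ℝ} {ε : ℝ} (hΦ : AdmissiblePotential Φ)
    (hε : 0 < ε) {W W' : MW α} {D : Set α} (e : ML) (hz : ∀ x, x ∉ D → W'.z x = W.z x) :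
    Compat (W.path Φ ε) (W'.path Φ ε) ((W.ins e).path Φ ε) ((W'.ins e).path Φ ε)
      (id : α → α) Sum.inl D ((Sum.inl : α → α ⊕ Unit) '' D) W'.b (W'.ins e).b where
  mem_iff k := by
    constructor
    · exact fun hk => ⟨k, hk, rfl⟩
    · rintro ⟨x, hx, hxk⟩
      exact Sum.inl_injective hxk ▸ hx
  exit k _ := rfl
  new₁ j _ hj := absurd ⟨j, rfl⟩ hj
  new₂ j hj hj' := by
    obtain ⟨x, _, rfl⟩ := hj
    exact absurd ⟨_, rfl⟩ hj'
  out₁ k hk := by
    rw [MW.path_zero hΦ hε, MW.path_zero hΦ hε]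
    exact hz k hk
  out₂ k hk := by
    rw [MW.path_zero hΦ hε, MW.path_zero hΦ hε]
    exact hz k fun hk' => hk ⟨k, hk', rfl⟩
  fam k _ := by
    rw [MW.path_zero hΦ hε, MW.path_zero hΦ hε]
    rfl
  fam' k _ := by
    rw [MW.path_zero hΦ hε, MW.path_zero hΦ hε]
    rfl

/-! ### The real cluster -/

section real

variable {ι κ : Type} [Fintype ι] [Fintype κ] {Φ : Space3 → ℝ} {ε T v s s₁ s₁' : ℝ} {K : ℕ}
  {w₂ : MW ι} {A : MW κ} {F : κ → ML} {r : κ} {d e e' c' : ML}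

/-- The lines `F` in the world `w₂ + F + d`. -/
def DF (ι κ : Type) : Set ((ι ⊕ κ) ⊕ Unit) := range fun k : κ => Sum.inl (Sum.inr k)


/-- The real world `w₂ + A + d (+ e)` and the world with lines; `e` meets first the root line. -/
structure RealHit (Φ : Space3 → ℝ) (ε : ℝ) (K : ℕ) (v : ℝ) (w₂ : MW ι) (A : MW κ) (F : κ → ML)
    (r : κ) (d e e' c' : ML) (s₁ s₁' : ℝ) : Prop where
  hit : Hit Φ ε ((w₂.add (MW.lines F)).ins d) e (Sum.inl (Sum.inr r)) s₁ s₁'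
  out_e : e' = outL Φ ε ((w₂.add (MW.lines F)).ins d) e (Sum.inl (Sum.inr r)) s₁'
  out_c : c' = outC Φ ε ((w₂.add (MW.lines F)).ins d) e (Sum.inl (Sum.inr r)) s₁'
  hK : e.2 + (F r).2 ≤ K
  rl₁ : RL Φ ε K ((w₂.add A).ins d) ((w₂.add (MW.lines F)).ins d) (DF ι κ) v
  rl₂ : RL Φ ε K (((w₂.add A).ins d).ins e) (((w₂.add (MW.lines F)).ins d).ins e)
    ((Sum.inl : (ι ⊕ κ) ⊕ Unit → _) '' DF ι κ) v
  m₁ : ∀ x ∈ DF ι κ, ((w₂.add (MW.lines F)).ins d).b x ≤ v →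
    msize (((w₂.add A).ins d).C Φ ε) ((w₂.add A).ins d).m
      (((w₂.add (MW.lines F)).ins d).b x) x = ((w₂.add (MW.lines F)).ins d).m x
  m₂ : ∀ x ∈ (Sum.inl : (ι ⊕ κ) ⊕ Unit → _) '' DF ι κ,
    (((w₂.add (MW.lines F)).ins d).ins e).b x ≤ v →
    msize ((((w₂.add A).ins d).ins e).C Φ ε) (((w₂.add A).ins d).ins e).m
      ((((w₂.add (MW.lines F)).ins d).ins e).b x) x = (((w₂.add (MW.lines F)).ins d).ins e).m x

/-- Labels of `w₂ + F + d`. -/
def phi1 (ι κ : Type) : (ι ⊕ Unit) ⊕ κ ≃ (ι ⊕ κ) ⊕ Unit where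
  toFun := Sum.elim (Sum.elim (fun i => Sum.inl (Sum.inl i)) Sum.inr) fun k => Sum.inl (Sum.inr k)
  invFun := Sum.elim (Sum.elim (fun i => Sum.inl (Sum.inl i)) Sum.inr) fun u => Sum.inl (Sum.inr u)
  left_inv := by rintro ((i | u) | k) <;> rfl
  right_inv := by rintro ((i | k) | u) <;> rfl

theorem comap_phi1 (w₂ : MW ι) (F : κ → ML) (d : ML) :
    ((w₂.add (MW.lines F)).ins d).comap (phi1 ι κ) = (w₂.ins d).add (MW.lines F) := by
  unfold MW.ins MW.add MW.comap MW.line MW.lines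
  congr 1 <;> · funext x; rcases x with (x | x) | x <;> rfl

/-- Labels of the world after the encounter. -/
def phi2 (ι κ : Type) (r : κ) :
    (ι ⊕ Unit) ⊕ ({k : κ // k ≠ r} ⊕ Bool) ≃ ((ι ⊕ κ) ⊕ Unit) ⊕ Unit where
  toFun := Sum.elim (Sum.elim (fun i => Sum.inl (Sum.inl (Sum.inl i))) fun u => Sum.inl (Sum.inr u))
    (Sum.elim (fun k => Sum.inl (Sum.inl (Sum.inr k.1)))
      fun b => cond b (Sum.inr ()) (Sum.inl (Sum.inl (Sum.inr r))))
  invFun := Sum.elim (Sum.elim (Sum.elim (fun i => Sum.inl (Sum.inl i))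
    (fun k => if hk : k = r then Sum.inr (Sum.inr false) else Sum.inr (Sum.inl ⟨k, hk⟩)))
      fun u => Sum.inl (Sum.inr u)) fun _ => Sum.inr (Sum.inr true)
  left_inv := by
    rintro ((i | u) | (⟨k, hk⟩ | b))
    · rfl
    · rfl
    · simp [hk]
    · cases b
      · simp
      · rfl
  right_inv := by
    rintro (((i | k) | u) | u)
    · rfl
    · by_cases hk : k = r
      · simp [hk]
      · simp [hk]
    · rfl
    · rfl

namespace RealHit

variable (h : RealHit Φ ε K v w₂ A F r d e e' c' s₁ s₁')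
  (hΦ : AdmissiblePotential Φ) (hε : 0 < ε)

include h hΦ hε in
/-- The world after the encounter. -/
theorem comap_phi2 : (encW Φ ε ((w₂.add (MW.lines F)).ins d) e (Sum.inl (Sum.inr r)) s₁').comap
    (phi2 ι κ r) = (w₂.ins d).add (MW.lines (plus (exF F r) e' c')) := by
  have h1 := OneRev291.comap_phi (a := famE ι κ r) h.hit hΦ hε h.rl₁.ok' h.rl₂.ok'
    (rest_fam w₂ F r d)
  let ψ : (ι ⊕ Unit) ⊕ ({k : κ // k ≠ r} ⊕ Bool) →
      (((ι ⊕ Unit) ⊕ {k : κ // k ≠ r}) ⊕ Unit) ⊕ Unit :=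
    Sum.elim (fun x => Sum.inl (Sum.inl (Sum.inl x)))
      (Sum.elim (fun k => Sum.inl (Sum.inl (Sum.inr k)))
        fun b => cond b (Sum.inl (Sum.inr ())) (Sum.inr ()))
  have h2 : (phi2 ι κ r : (ι ⊕ Unit) ⊕ ({k : κ // k ≠ r} ⊕ Bool) → ((ι ⊕ κ) ⊕ Unit) ⊕ Unit) =
      OneRev291.phi (famE ι κ r) ∘ ψ := by
    funext x
    rcases x with (i | u) | (k | b)
    · rfl
    · rfl
    · rfl
    · cases b <;> rfl
  rw [h2, ← OneRev291.comap_comap', h1]
  unfold OneRev291.WW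
  rw [← h.out_e, ← h.out_c]
  unfold MW.ins MW.add MW.comap MW.line MW.lines
  congr 1 <;> · funext x; rcases x with (i | u) | (k | (_ | _)) <;> rfl

include h hΦ hε in
/-- **The one-contact inequality for the real cluster** (horizon `T ≤ v`). -/
theorem one {T : ℝ} (hT : T ≤ v) (hR : (Z0 w₂ F r d).Ok Φ ε)
    (hRl : ((Z0 w₂ F r d).ins e').Ok Φ ε) (hz : ∀ x, x ∉ DF ι κ →
      ((w₂.add (MW.lines F)).ins d).z x = ((w₂.add A).ins d).z x) :
    min ((Z0 w₂ F r d).thetaL Φ ε K T (F r)) (min ((Z0 w₂ F r d).thetaL Φ ε K T e')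
      (((Z0 w₂ F r d).ins e').thetaL Φ ε K T c')) ≤ ((w₂.add A).ins d).thetaL Φ ε K T e := by
  have h1 : min ((Z0 w₂ F r d).thetaL Φ ε K T (F r)) (min ((Z0 w₂ F r d).thetaL Φ ε K T e')
      (((Z0 w₂ F r d).ins e').thetaL Φ ε K T c')) ≤
        ((w₂.add (MW.lines F)).ins d).thetaL Φ ε K T e := by
    have e1 := h.out_e
    have e2 := h.out_c
    subst e1 e2
    exact h.hit.one_fam hΦ hε h.rl₁.ok' h.rl₂.ok' rfl hR hRl h.hK T
  refine h1.trans (CausalGen291.theta_le_theta fun t ht htc => ?_)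
  exact touched_lines hΦ hε h.rl₁ h.rl₂ (compat_ins hΦ hε e hz) (ht.2.trans hT) htc

include h hΦ hε in
/-- **The reverse inequality for the real cluster**, single time form. -/
theorem rev {T : ℝ} (hT : 0 ≤ T) (hTv : T ≤ v) (hE : E6Hyp Φ ε K T w₂ F r d e' c')
    (hz : ∀ x, x ∉ DF ι κ → ((w₂.add (MW.lines F)).ins d).z x = ((w₂.add A).ins d).z x)
    {s : ℝ} (hs0 : 0 ≤ s) (hsT : s ≤ T) (hEx : s ≤ firstT Φ ε K T (w₂.ins d) (exF F r))
    (he : s ≤ (w₂.ins d).thetaL Φ ε K T e') (hc : s ≤ (w₂.ins d).thetaL Φ ε K T c')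
    (hs : (Z0 w₂ F r d).thetaL Φ ε K T e' ≤ s ∨ (Z0 w₂ F r d).thetaL Φ ε K T c' ≤ s) :
    ((w₂.add A).ins d).thetaL Φ ε K T e ≤ s ∨ (Z0 w₂ F r d).thetaL Φ ε K T (F r) ≤ s := by
  have hlk := hE.not_link_Z0 hΦ hε hs0 hsT hEx he hc
  rcases le_or_gt ((Z0 w₂ F r d).thetaL Φ ε K T (F r)) s with h0 | h0
  · exact Or.inr h0
  left
  have h1 := (OneRev291.le_of_out_le_fam h.hit hΦ hε h.rl₁.ok' h.rl₂.ok' rfl h.out_e h.out_c
    (hE.okZ0 hΦ hε) (hE.okZ0e hΦ hε) (hE.okZ0c' hΦ hε) h.hK hT hs hlk).resolve_right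
      (not_le.2 h0)
  -- the single line `F r` in `w₂ + d` has not touched before `s`
  have hbc : s ≤ (w₂.ins d).thetaL Φ ε K T (F r) := by
    by_contra hlt
    push Not at hlt
    have hE' : (w₂.ins d).thetaL Φ ε K T (F r) ≤
        (w₂.ins d).theta Φ ε K T (MW.lines (exF F r)) := by
      rw [hE.uE_eq hΦ hε hT]
      exact hlt.le.trans hEx
    have h2 := (hE.w_Ec hΦ hε hT).eq hE'
    have h3 : (Z0 w₂ F r d).thetaL Φ ε K T (F r) = (w₂.ins d).thetaL Φ ε K T (F r) := h2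
    rw [h3] at h0
    exact absurd h0 (not_lt.2 hlt.le)
  have hf1 : FamNL Φ ε K T (w₂.ins d) F s :=
    MWFam255.famNL_of_pair (hE.okE hΦ hε) hE.nl₁ hs0 hsT fun k => by
      by_cases hk : k = r
      · rw [hk]
        exact hbc
      · exact hEx.trans (firstT_le Φ ε K T (w₂.ins d) (exF F r) ⟨k, hk⟩)
  have hf2 : FamNL Φ ε K T (w₂.ins d) (plus (exF F r) e' c') s :=
    MWFam255.famNL_of_pair hE.ok₂ hE.nl₂ hs0 hsT fun k => by
      rcases k with k | b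
      · exact hEx.trans (firstT_le Φ ε K T (w₂.ins d) (exF F r) k)
      · cases b
        · exact hc
        · exact he
  have hT1 : ((w₂.add (MW.lines F)).ins d).Touched Φ ε K (MW.line e) s :=
    (MW.touched_iff hΦ hε h.rl₁.ok' h.rl₂.ok' ⟨hs0, hsT⟩).2 h1
  have hsv : s ≤ v := hsT.trans hTv
  have hN₁ : ND Φ ε K ((w₂.add A).ins d) ((w₂.add (MW.lines F)).ins d) (DF ι κ) s :=
    nd_fam hΦ hε hf1 (comap_phi1 w₂ F d) h.rl₁ hsv (by
      rintro _ ⟨k, rfl⟩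
      exact ⟨k, rfl⟩) h.m₁ hs0 le_rfl
  have hN₂ : ND Φ ε K (((w₂.add A).ins d).ins e) (((w₂.add (MW.lines F)).ins d).ins e)
      ((Sum.inl : (ι ⊕ κ) ⊕ Unit → _) '' DF ι κ) s := by
    have hrt : ∀ k, (phi2 ι κ r).symm (Sum.inl (Sum.inl (Sum.inr k))) ∈
        range (Sum.inr : {k : κ // k ≠ r} ⊕ Bool → _) := by
      intro k
      by_cases hk : k = r
      · exact ⟨Sum.inr false, by simp [phi2, hk]⟩
      · exact ⟨Sum.inl ⟨k, hk⟩, by simp [phi2, hk]⟩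
    refine nde h.hit hΦ hε h.rl₁.ok' h.rl₂.ok' h.hK hf2 (h.comap_phi2 hΦ hε) ?_ h.rl₂ hsv ?_ ?_
      h.m₂ hs0 le_rfl
    · rintro x (rfl | rfl)
      · exact ⟨Sum.inr true, rfl⟩
      · exact hrt r
    · rintro _ ⟨_, ⟨k, rfl⟩, rfl⟩
      exact hrt k
    · rintro _ ⟨_, ⟨k, rfl⟩, rfl⟩ hk
      exact congrArg Sum.inl (inl_mem_encD.1 hk)
  have hT2 : ((w₂.add A).ins d).Touched Φ ε K (MW.line e) s :=
    (touched_lines_iff hΦ hε h.rl₁ h.rl₂ (compat_ins hΦ hε e hz) hsv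
      (fun x => h.rl₁.inf_iff hΦ hε h.m₁ hsv (hN₁ x))
      (fun x => h.rl₂.inf_iff hΦ hε h.m₂ hsv (hN₂ x))).2 hT1
  exact (MW.touched_iff hΦ hε h.rl₁.ok h.rl₂.ok ⟨hs0, hsT⟩).1 hT2

end RealHit

/-- **The facts of E6 for the real cluster.** -/
theorem facts_real {T : ℝ} (h : RealHit Φ ε K v w₂ A F r d e e' c' s₁ s₁')
    (hΦ : AdmissiblePotential Φ) (hε : 0 < ε) (hT : 0 ≤ T) (hTv : T ≤ v)
    (hE : E6Hyp Φ ε K T w₂ F r d e' c')
    (hz : ∀ x, x ∉ DF ι κ → ((w₂.add (MW.lines F)).ins d).z x = ((w₂.add A).ins d).z x)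
    (w_Ld : W1 (firstT Φ ε K T w₂ F) (w₂.thetaL Φ ε K T d) ((w₂.add A).thetaL Φ ε K T d)) :
    E6FactsA Φ ε K T w₂ A F r d e e' c' where
  w_Ld := w_Ld
  w_dk := hE.w_dk hΦ hε hT
  w_Ec := hE.w_Ec hΦ hε hT
  w_Ee := hE.w_Ee hΦ hε hT
  w_Ec' := hE.w_Ec' hΦ hε hT
  w_ec' := hE.w_ec' hΦ hε hT
  fE := (hE.uE_eq hΦ hε hT).ge
  one := h.one hΦ hε hTv (hE.okZ0 hΦ hε) (hE.okZ0e hΦ hε) hz
  re h1 h2 := by
    rcases MW.theta_le_or (K := K) (T := T) hΦ hε (hE.okZ0 hΦ hε) (hE.okZ0e hΦ hε) with h3 | h3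
    · have h4 : (Z0 w₂ F r d).thetaL Φ ε K T e' ≤
          (w₂.ins d).theta Φ ε K T (MW.lines (exF F r)) := by
        rw [hE.uE_eq hΦ hε hT]
        exact h1
      have h5 : (w₂.ins d).thetaL Φ ε K T e' = (Z0 w₂ F r d).thetaL Φ ε K T e' := by
        have h6 := (hE.w_Ee hΦ hε hT).le_of_le h4
        exact ((hE.w_Ee hΦ hε hT).eq (h6.trans h4)).symm
      exact min_le_iff.2 (h.rev hΦ hε hT hTv hE hz (MW.theta_nonneg hT) h3 h1 h5.ge h2
        (Or.inl le_rfl))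
    · have h4 : (Z0 w₂ F r d).thetaL Φ ε K T e' = T + 1 := h3
      rw [h4]
      exact (min_le_left _ _).trans MW.theta_le
  rc' h1 h2 := by
    rcases MW.theta_le_or (K := K) (T := T) hΦ hε (hE.okZ0 hΦ hε) (hE.okZ0c' hΦ hε) with h3 | h3
    · have h4 : (Z0 w₂ F r d).thetaL Φ ε K T c' ≤
          (w₂.ins d).theta Φ ε K T (MW.lines (exF F r)) := by
        rw [hE.uE_eq hΦ hε hT]
        exact h1
      have h5 : (w₂.ins d).thetaL Φ ε K T c' = (Z0 w₂ F r d).thetaL Φ ε K T c' := by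
        have h6 := (hE.w_Ec' hΦ hε hT).le_of_le h4
        exact ((hE.w_Ec' hΦ hε hT).eq (h6.trans h4)).symm
      exact min_le_iff.2 (h.rev hΦ hε hT hTv hE hz (MW.theta_nonneg hT) h3 h1 h2 h5.ge
        (Or.inr le_rfl))
    · have h4 : (Z0 w₂ F r d).thetaL Φ ε K T c' = T + 1 := h3
      rw [h4]
      exact (min_le_left _ _).trans MW.theta_le

end real

end

end Crest.Agent.R122.RealL811
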