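import Crest.Agent.R122.Master_566
import Crest.Agent.R122.EnergyFlow_410
import Crest.Agent.R122.GCBounds_311

/-!
# Energy-weighted no-escape (row 122, helper370)

`bad Φ ε K Z t` : the particles whose backward cluster at time `t` has more than `K` members.
* `card_biUnion_bad_le` : the union of their backward clusters has at most `K * card bad` members
  (data pairwise excluded, `1 ≤ K`).
* `kin_bad_le` : deterministic bound of the kinetic energy of the bad set.
* `escEnergy_le` : the expected energy-weighted mass of the bad particles.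
* `escEnergy_small` : it tends to zero if `K * escMass` does.
-/

set_option autoImplicit false
open MeasureTheory Set
open scoped Classical ENNReal
open Crest.AnalysisR.Kinetic
open Crest.Agent.R122.GC311 Crest.Agent.R122.Causal291 Crest.Agent.R122.Master566
open Crest.Agent.R122.Energy410 Crest.Agent.R122.Flow671 Crest.Agent.R122.Loc45
noncomputable section

namespace Crest.Agent.R122.EW370

section abs

variable {ι : Type*} [Fintype ι] {C : ℝ → ι → ι → Prop} {K : ℕ}

/-- particles with a backward cluster of more than `K` members -/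
def badC (C : ℝ → ι → ι → Prop) (K : ℕ) (t : ℝ) : Finset ι :=
  Finset.univ.filter fun i => K < (BC C t i).ncard

theorem mem_badC {t : ℝ} {i : ι} : i ∈ badC C K t ↔ K < (BC C t i).ncard := by
  simp [badC]

omit [Fintype ι] in
theorem BC_mono_time (i : ι) {t₁ t₂ : ℝ} (h : t₁ ≤ t₂) : BC C t₁ i ⊆ BC C t₂ i := by
  intro k hk
  change Past C t₁ i 0 k at hk
  change Past C t₂ i 0 k
  generalize (0 : ℝ) = s at hk ⊢
  induction hk with
  | root hs => exact .root (hs.trans h)
  | step _ hc hs ih => exact .step ih hc hs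

theorem badC_mono {t₁ t₂ : ℝ} (h : t₁ ≤ t₂) : badC C K t₁ ⊆ badC C K t₂ := by
  intro i hi
  rw [mem_badC] at hi ⊢
  exact hi.trans_le (ncard_le_ncard (BC_mono_time i h) (toFinite _))

/-- the bad set is closed under contacts (symmetric contact relation) -/
theorem badC_contact {t : ℝ} (hsym : ∀ s j k, C s j k → C s k j) {i j : ι}
    (hi : i ∈ badC C K t) (hc : C t i j) : j ∈ badC C K t := by
  rw [mem_badC] at hi ⊢
  refine hi.trans_le (ncard_le_ncard ?_ (toFinite _))
  have h1 : i ∈ Act C t j t := Past.contact (.root le_rfl) (hsym _ _ _ hc)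
  exact BC_subset_of_mem h1

/-- A particle in the causal past of a bad one is bad at that time, or it lies in the backward
cluster of a particle before this particle became bad. -/
theorem past_bad {t : ℝ} (hsym : ∀ s j k, C s j k → C s k j) {i : ι}
    (hi : i ∈ badC C K t) {s : ℝ} (hs : 0 ≤ s) {k : ι} (h : Past C t i s k) :
    k ∈ badC C K s ∨ ∃ p ∈ badC C K t, ∃ s', s ≤ s' ∧ s' ≤ t ∧ p ∉ badC C K s' ∧
      Past C s' p s k := by
  induction h with
  | @root s h =>
    by_cases h1 : i ∈ badC C K s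
    · exact Or.inl h1
    · exact Or.inr ⟨i, hi, s, le_rfl, h, h1, .root le_rfl⟩
  | @step s s' j k h hc hs' ih =>
    have hst : s' ≤ t := h.le
    rcases ih (hs.trans hs') with h1 | ⟨p, hp, s'', h2, h3, h4, h5⟩
    · have hk : k ∈ badC C K s' := badC_contact hsym h1 hc
      by_cases hk' : k ∈ badC C K s
      · exact Or.inl hk'
      · exact Or.inr ⟨k, badC_mono hst hk, s, le_rfl, hs'.trans hst, hk', .root le_rfl⟩
    · exact Or.inr ⟨p, hp, s'', hs'.trans h2, h3, h4, .step h5 hc hs'⟩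

/-- The union of the clusters of `p` before it became bad has at most `K` members. -/
theorem ncard_before_le (p : ι) (t : ℝ) :
    (⋃ s' ∈ {s' : ℝ | s' ≤ t ∧ p ∉ badC C K s'}, BC C s' p).ncard ≤ K := by
  set D : Set ℝ := {s' : ℝ | s' ≤ t ∧ p ∉ badC C K s'} with hD
  by_cases hne : D.Nonempty
  · -- choose a time with the largest cluster
    have hfin : (Set.range fun s' : D => (BC C (s' : ℝ) p).ncard).Finite := by
      refine Set.Finite.subset (Set.finite_Iic (Fintype.card ι)) ?_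
      rintro _ ⟨s', rfl⟩
      simp only [Set.mem_Iic]
      calc (BC C (s' : ℝ) p).ncard ≤ (Set.univ : Set ι).ncard :=
            ncard_le_ncard (subset_univ _) (toFinite _)
        _ = Fintype.card ι := by rw [Set.ncard_univ, Nat.card_eq_fintype_card]
    obtain ⟨s0, hs0⟩ := hne
    have : (Set.range fun s' : D => (BC C (s' : ℝ) p).ncard).Nonempty := ⟨_, ⟨⟨s0, hs0⟩, rfl⟩⟩
    obtain ⟨m, ⟨⟨s1, hs1⟩, hm⟩, hmax⟩ := hfin.exists_maximal this
    have hsub : (⋃ s' ∈ D, BC C s' p) ⊆ BC C s1 p := by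
      intro k hk
      simp only [mem_iUnion, exists_prop] at hk
      obtain ⟨s', hs', hk⟩ := hk
      rcases le_total s' s1 with h1 | h1
      · exact BC_mono_time p h1 hk
      · have h2 := BC_mono_time (C := C) p h1
        have h3 : (BC C s' p).ncard ≤ (BC C s1 p).ncard := by
          have h4 := hmax (show (BC C s' p).ncard ∈ _ from ⟨⟨s', hs'⟩, rfl⟩)
          simp only at hm
          rw [hm]
          exact h4 (by rw [← hm]; exact ncard_le_ncard h2 (toFinite _))
        have h5 := eq_of_subset_of_ncard_le h2 h3 (toFinite _)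
        rw [h5]; exact hk
    refine (ncard_le_ncard hsub (toFinite _)).trans ?_
    have h6 := hs1.2
    rw [mem_badC, not_lt] at h6
    exact h6
  · rw [not_nonempty_iff_eq_empty] at hne
    rw [hne]
    simp

/-- **The causal past of the bad set is small.** -/
theorem ncard_biUnion_bad_le {t : ℝ} (hsym : ∀ s j k, C s j k → C s k j)
    (h0 : ∀ i, ¬ K < (BC C 0 i).ncard) :
    (⋃ p ∈ badC C K t, BC C t p).ncard ≤ K * (badC C K t).card := by
  have hsub : (⋃ p ∈ badC C K t, BC C t p) ⊆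
      ⋃ p ∈ badC C K t, ⋃ s' ∈ {s' : ℝ | s' ≤ t ∧ p ∉ badC C K s'}, BC C s' p := by
    intro k hk
    simp only [mem_iUnion, exists_prop] at hk ⊢
    obtain ⟨i, hi, hk⟩ := hk
    rcases past_bad hsym hi le_rfl hk with h1 | ⟨p, hp, s', _, h3, h4, h5⟩
    · exact absurd (mem_badC.1 h1) (h0 k)
    · exact ⟨p, hp, s', ⟨h3, h4⟩, h5⟩
  refine (ncard_le_ncard hsub (toFinite _)).trans ?_
  refine (Finset.set_ncard_biUnion_le (badC C K t) _).trans ?_
  calc ∑ p ∈ badC C K t, (⋃ s' ∈ {s' : ℝ | s' ≤ t ∧ p ∉ badC C K s'}, BC C s' p).ncard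
      ≤ ∑ _p ∈ badC C K t, K := Finset.sum_le_sum fun p _ => ncard_before_le p t
    _ = K * (badC C K t).card := by rw [Finset.sum_const, smul_eq_mul, mul_comm]

end abs

/-! ### The flow -/

section flow

variable {Φ : Space3 → ℝ} {f₀ : PhasePoint → ℝ} {ε : ℝ} {K : ℕ}

/-- The bad particles at time `t`: backward cluster with more than `K` members. -/
def bad {ι : Type*} [Fintype ι] (Φ : Space3 → ℝ) (ε : ℝ) (K : ℕ) (Z : ι → PhasePoint) (t : ℝ) :
    Finset ι := Finset.univ.filter fun i => K < (bc Φ ε Z t i).ncard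

theorem bad_eq {ι : Type*} [Fintype ι] (Z : ι → PhasePoint) (t : ℝ) :
    bad Φ ε K Z t = badC (Ct (pth Φ ε Z) ε) K t := rfl

/-- truncated kinetic energy at time `0` of one particle -/
def hot (R : ℝ) (z : PhasePoint) : ℝ := if R < ‖z.2‖ then ‖z.2‖ ^ 2 else 0

theorem hot_nonneg (R : ℝ) (z : PhasePoint) : 0 ≤ hot R z := by
  unfold hot; split_ifs <;> positivity

theorem sq_le_hot {R : ℝ} (_hR : 0 ≤ R) (z : PhasePoint) : ‖z.2‖ ^ 2 ≤ R ^ 2 + hot R z := by
  unfold hot
  split_ifs with h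
  · nlinarith [sq_nonneg R]
  · rw [not_lt] at h
    rw [add_zero]
    exact pow_le_pow_left₀ (norm_nonneg _) h 2

theorem measurable_hot (R : ℝ) : Measurable (hot R) := by
  unfold hot
  refine Measurable.ite ?_ ((measurable_snd.norm).pow_const 2) measurable_const
  exact measurableSet_lt measurable_const measurable_snd.norm

/-- A bad particle and a good one are more than `ε` apart. -/
theorem bad_isolated {ι : Type*} [Fintype ι] {Z : ι → PhasePoint} {t : ℝ} {i j : ι}
    (hi : i ∈ bad Φ ε K Z t) (hj : j ∉ bad Φ ε K Z t) :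
    ε < dist (pth Φ ε Z t i).1 (pth Φ ε Z t j).1 := by
  by_contra h
  rw [not_lt] at h
  rw [bad_eq] at hi hj
  have h2 : Ct (pth Φ ε Z) ε t i j := h
  exact hj (badC_contact (C := Ct (pth Φ ε Z) ε) (fun s j k h => Ct.symm h) hi h2)

/-- **Deterministic bound** of the kinetic energy of the bad set. -/
theorem kin_bad_le (hΦ : AdmissiblePotential Φ) (hε : 0 < ε) (hK : 1 ≤ K) {n : ℕ} {Z : Config n}
    (hZ : Z ∈ PairExcluded ε n) {t : ℝ} (ht : 0 ≤ t) {R : ℝ} (hR : 0 ≤ R) :
    ∑ i ∈ bad Φ ε K Z t, (1 + ‖(pth Φ ε Z t i).2‖ ^ 2) ≤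
      (1 + 2 * stabB Φ + K * (R ^ 2 + 2 * stabB Φ)) * ((bad Φ ε K Z t).card : ℝ) +
        ∑ i, hot R (Z i) := by
  have hB := stabB_nonneg Φ
  have hfar : ∀ i j : Fin n, i ≠ j → ε ≤ dist (Z i).1 (Z j).1 := fun i j h => (hZ i j h).le
  have W := world_flow hΦ hε hfar t
  set S := bad Φ ε K Z t with hS
  have hiso : Energy410.Iso ε S (flow Φ ε t Z) := fun i hi j hj => (bad_isolated hi hj).le
  have h1 := eng_root_le hΦ hε W ht le_rfl hiso
  have h2 := W.stab t ⟨ht, le_rfl⟩ S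
  set U : Set (Fin n) := ⋃ p ∈ S, BC (Ct (fun t => flow Φ ε t Z) ε) t p with hU
  have hUc : U.ncard ≤ K * S.card :=
    ncard_biUnion_bad_le (C := Ct (pth Φ ε Z) ε) (fun _ _ _ h => Ct.symm h) fun i => by
      have h3 : BC (Ct (pth Φ ε Z) ε) 0 i = {i} := bc_zero hΦ hε hZ i
      rw [h3, ncard_singleton]; omega
  have h3 : Wt (stabB Φ) (flow Φ ε 0 Z) U ≤
      (1 / 2) * ((R ^ 2 + 2 * stabB Φ) * (U.ncard : ℝ)) + (1 / 2) * ∑ i, hot R (Z i) := by
    rw [flow_zero hΦ hε]
    have hUf : U = ((U.toFinset : Finset (Fin n)) : Set (Fin n)) := by simp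
    rw [hUf, Wt_coe, Set.ncard_coe_finset]
    calc ∑ b ∈ U.toFinset, ((1 / 2) * ‖(Z b).2‖ ^ 2 + stabB Φ)
        ≤ ∑ b ∈ U.toFinset, ((1 / 2) * (R ^ 2 + 2 * stabB Φ) + (1 / 2) * hot R (Z b)) := by
          refine Finset.sum_le_sum fun b _ => ?_
          have := sq_le_hot hR (Z b)
          linarith
      _ = (1 / 2) * ((R ^ 2 + 2 * stabB Φ) * (U.toFinset.card : ℝ)) +
          (1 / 2) * ∑ b ∈ U.toFinset, hot R (Z b) := by
          rw [Finset.sum_add_distrib, Finset.sum_const, nsmul_eq_mul, Finset.mul_sum]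
          ring
      _ ≤ _ := by
          have h8 : ∑ b ∈ U.toFinset, hot R (Z b) ≤ ∑ i, hot R (Z i) :=
            Finset.sum_le_sum_of_subset_of_nonneg (Finset.subset_univ _)
              fun i _ _ => hot_nonneg R (Z i)
          linarith
  have h4 : (U.ncard : ℝ) ≤ K * (S.card : ℝ) := by exact_mod_cast hUc
  have h5 : (R ^ 2 + 2 * stabB Φ) * (U.ncard : ℝ) ≤ (R ^ 2 + 2 * stabB Φ) * (K * (S.card : ℝ)) :=
    mul_le_mul_of_nonneg_left h4 (by positivity)
  rw [Finset.sum_add_distrib, Finset.sum_const, nsmul_eq_mul, mul_one]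
  have h6 : ∑ i ∈ S, ‖(pth Φ ε Z t i).2‖ ^ 2 = ∑ i ∈ S, ‖(flow Φ ε t Z i).2‖ ^ 2 := rfl
  rw [h6]
  nlinarith

/-- Expected energy-weighted mass of the bad particles. -/
def escEnergy (Φ : Space3 → ℝ) (f₀ : PhasePoint → ℝ) (ε : ℝ) (K : ℕ) (t : ℝ) : ℝ≥0∞ :=
  gcE f₀ ε fun n Z => (activity ε)⁻¹ *
    ∑ i ∈ bad Φ ε K (Z : Config n) t, ENNReal.ofReal (1 + ‖(pth Φ ε Z t i).2‖ ^ 2)

theorem escMass_eq (t : ℝ) : escMass Φ f₀ ε K t =
    gcE f₀ ε fun n Z => (activity ε)⁻¹ * ((bad Φ ε K (Z : Config n) t).card : ℝ≥0∞) := rfl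

/-- `∫ f₀ |v|² 1[|v| > R]`. -/
def hotMass (f₀ : PhasePoint → ℝ) (R : ℝ) : ℝ≥0∞ :=
  ∫⁻ z, ENNReal.ofReal (f₀ z) * ENNReal.ofReal (hot R z)

theorem gcE_hot_le (hf : Measurable f₀) (h1 : ∫⁻ z, ENNReal.ofReal (f₀ z) ≤ 1) (hε : 0 < ε)
    (R : ℝ) :
    gcE f₀ ε (fun n Z => (activity ε)⁻¹ * ∑ i, ENNReal.ofReal (hot R ((Z : Config n) i))) ≤
      hotMass f₀ R := by
  have ha := activity_ne_zero hε
  have ha' := activity_ne_top ε
  rw [gcE_const_mul f₀ ε (ENNReal.inv_ne_top.2 ha)]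
  refine (mul_le_mul_right (gcE_sum_le hf h1 ε (fun z => ENNReal.ofReal (hot R z))
    (measurable_hot R).ennreal_ofReal) _).trans ?_
  rw [← mul_assoc, ENNReal.inv_mul_cancel ha ha', one_mul]
  exact le_rfl

/-- **Expected energy of the bad set.** -/
theorem escEnergy_le (hΦ : AdmissiblePotential Φ) (hf : Measurable f₀)
    (h1 : ∫⁻ z, ENNReal.ofReal (f₀ z) ≤ 1) (hε : 0 < ε) (hK : 1 ≤ K) {t : ℝ} (ht : 0 ≤ t)
    {R : ℝ} (hR : 0 ≤ R) :
    escEnergy Φ f₀ ε K t ≤
      hotMass f₀ R +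
        ENNReal.ofReal (1 + 2 * stabB Φ + K * (R ^ 2 + 2 * stabB Φ)) * escMass Φ f₀ ε K t := by
  have hB := stabB_nonneg Φ
  have ha := activity_ne_zero hε
  set c : ℝ := 1 + 2 * stabB Φ + K * (R ^ 2 + 2 * stabB Φ) with hc
  have hc0 : 0 ≤ c := by positivity
  calc escEnergy Φ f₀ ε K t
      ≤ gcE f₀ ε (fun n Z => (activity ε)⁻¹ * ∑ i, ENNReal.ofReal (hot R ((Z : Config n) i)) +
          ENNReal.ofReal c * ((activity ε)⁻¹ * ((bad Φ ε K (Z : Config n) t).card : ℝ≥0∞))) := by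
        refine gcE_mono f₀ ε fun n Z hZ => ?_
        rw [← ENNReal.ofReal_sum_of_nonneg fun i _ => by positivity,
          ← ENNReal.ofReal_sum_of_nonneg fun i _ => hot_nonneg R (Z i)]
        have h2 := kin_bad_le hΦ hε hK hZ ht hR
        calc (activity ε)⁻¹ * ENNReal.ofReal (∑ i ∈ bad Φ ε K Z t, (1 + ‖(pth Φ ε Z t i).2‖ ^ 2))
            ≤ (activity ε)⁻¹ * ENNReal.ofReal (c * ((bad Φ ε K Z t).card : ℝ) +
                ∑ i, hot R (Z i)) := by gcongr
          _ = (activity ε)⁻¹ * (ENNReal.ofReal c * ((bad Φ ε K Z t).card : ℝ≥0∞) +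
                ENNReal.ofReal (∑ i, hot R (Z i))) := by
              rw [ENNReal.ofReal_add (by positivity)
                (Finset.sum_nonneg fun i _ => hot_nonneg R (Z i)), ENNReal.ofReal_mul hc0,
                ENNReal.ofReal_natCast]
          _ = _ := by ring
    _ = gcE f₀ ε (fun n Z => (activity ε)⁻¹ * ∑ i, ENNReal.ofReal (hot R ((Z : Config n) i))) +
          ENNReal.ofReal c * escMass Φ f₀ ε K t := by
        rw [gcE_add hf ε (F := fun n Z => (activity ε)⁻¹ *
          ∑ i, ENNReal.ofReal (hot R ((Z : Config n) i))), gcE_const_mul f₀ ε ENNReal.ofReal_ne_top,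
          escMass_eq]
        intro n
        refine Measurable.const_mul (Finset.measurable_sum _ fun i _ => ?_) _
        exact ((measurable_hot R).comp (measurable_pi_apply i)).ennreal_ofReal
    _ ≤ _ := by
        gcongr
        exact gcE_hot_le hf h1 hε R

/-- The tail of the initial kinetic energy tends to zero. -/
theorem hotMass_tendsto (hf : Measurable f₀)
    (h2 : ∫⁻ z, ENNReal.ofReal (f₀ z) * ENNReal.ofReal (‖z.2‖ ^ 2) ≠ ∞) :
    Filter.Tendsto (fun R : ℕ => hotMass f₀ (R : ℝ)) Filter.atTop (nhds 0) := by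
  have h3 : (0 : ℝ≥0∞) = ∫⁻ z, (fun _ : PhasePoint => (0 : ℝ≥0∞)) z := by simp
  rw [h3]
  unfold hotMass
  refine tendsto_lintegral_of_dominated_convergence
    (fun z => ENNReal.ofReal (f₀ z) * ENNReal.ofReal (‖z.2‖ ^ 2)) ?_ ?_ h2 ?_
  · intro R
    exact (hf.ennreal_ofReal).mul (measurable_hot _).ennreal_ofReal
  · intro R
    refine Filter.Eventually.of_forall fun z => ?_
    refine mul_le_mul_right (ENNReal.ofReal_le_ofReal ?_) _
    unfold hot; split_ifs
    · exact le_rfl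
    · positivity
  · refine Filter.Eventually.of_forall fun z => ?_
    refine tendsto_const_nhds.congr' ?_
    obtain ⟨N, hN⟩ := exists_nat_gt ‖z.2‖
    filter_upwards [Filter.eventually_ge_atTop N] with R hR
    have h4 : ¬ ((R : ℝ) < ‖z.2‖) := by
      rw [not_lt]
      exact hN.le.trans (by exact_mod_cast hR)
    unfold hot
    rw [if_neg h4, ENNReal.ofReal_zero, mul_zero]

/-- First-moment form of no escape: `K * escMass → 0`. -/
def NEK (Φ : Space3 → ℝ) (f₀ : PhasePoint → ℝ) (t : ℝ) : Prop :=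
  ∀ δ : ℝ, 0 < δ → ∃ K₀ : ℕ, ∀ K : ℕ, K₀ ≤ K → ∃ ε₀ : ℝ, 0 < ε₀ ∧ ∀ ε : ℝ, 0 < ε → ε < ε₀ →
    (K : ℝ≥0∞) * escMass Φ f₀ ε K t ≤ ENNReal.ofReal δ


end flow

end Crest.Agent.R122.EW370
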