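import Crest.Agent.R122.PairRoot_292
import Crest.Agent.R122.OSCalc_495

/-!
# Calculus of the structure integrals `OS2` of inequality 3 (row 122, board H4)

* `OS2_mono_on`, `OS2_mono_ae`, `OS2_congr_on`, `OS2_const_mul`, `OS2_add`, `OS2_finset_sum`,
  `OS2_tsum`, `OS2_mono_measure`, `OS2_smul_measure`, `OS2_add_measure`.
* Measurability on valid trees: `uG`, `outP` (`outPM`), `tPK w (outP ..)`, `age`, `cT`.
-/

set_option autoImplicit false
set_option linter.unusedSectionVars false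

open MeasureTheory Set Filter
open scoped ENNReal Classical Topology
open Crest.AnalysisR.Kinetic
open Crest.Agent.R122.Kin796 Crest.Agent.R122.Kin796.CTree Crest.Agent.R122.Tree674
open Crest.Agent.R122.GC311 Crest.Agent.R122.EDefs602 Crest.Agent.R122.TreeLines335
open Crest.Agent.R122.MeasE416 Crest.Agent.R122.GSCalc495
open Crest.Agent.R122.Boost969 (LSt posAt)
open Crest.Agent.R122.Pair292 (Lab CDat PPar PX sig)
open Crest.Agent.R122.OneC285 (cfT rt cT cB cD cX lpos uI ptube RF MeasRF rfl4)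
open Crest.Agent.R122.PairD292

noncomputable section

namespace Crest.Agent.R122.OS2Calc495

variable {Φ : Space3 → ℝ} {f₀ : PhasePoint → ℝ} {ε : ℝ} {K : ℕ} {Q : EPar} {te T' : ℝ}
  {ν : Measure (Lab × LSt)} {P : CTree}

theorem MeasSF2.measV (hΦ : AdmissiblePotential Φ) {H : SF2} (h : MeasSF2 H) :
    MeasV Φ ε T' H := MeasV.of_measG hΦ h

/-! ## The structure integral -/

/-- Integrand in the pair. -/
def ctF2 (Φ : Space3 → ℝ) (ε te : ℝ) (H : SF2) : SF2 := fun P z m w θ =>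
  {θ : Lab × LSt | (z, θ.2) ∈ OneC423.ctSet Φ ε te P}.indicator (fun θ => H P z m w θ) θ

theorem OS2_eq_GS (H : SF2) : OS2 Φ f₀ ε te T' ν H = GS Φ f₀ ε T' ν (ctF2 Φ ε te H) := rfl

theorem ctF2_le {H H' : SF2} {P : CTree} {z : PhasePoint × Par P} {m : ℕ} {w : Config m}
    {θ : Lab × LSt} (h : (z, θ.2) ∈ OneC423.ctSet Φ ε te P → H P z m w θ ≤ H' P z m w θ) :
    ctF2 Φ ε te H P z m w θ ≤ ctF2 Φ ε te H' P z m w θ := by
  unfold ctF2
  by_cases hl : (z, θ.2) ∈ OneC423.ctSet Φ ε te P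
  · rw [indicator_of_mem
      (show θ ∈ {θ : Lab × LSt | (z, θ.2) ∈ OneC423.ctSet Φ ε te P} from hl),
      indicator_of_mem
      (show θ ∈ {θ : Lab × LSt | (z, θ.2) ∈ OneC423.ctSet Φ ε te P} from hl)]
    exact h hl
  · rw [indicator_of_notMem
      (show θ ∉ {θ : Lab × LSt | (z, θ.2) ∈ OneC423.ctSet Φ ε te P} from hl)]
    exact zero_le

theorem OS2_mono_on {H H' : SF2} (h : ∀ P z m w θ, Valid Φ ε P T' z.1.2 z.2 →
    w ∈ PairExcluded ε m → (z, θ.2) ∈ OneC423.ctSet Φ ε te P → H P z m w θ ≤ H' P z m w θ) :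
    OS2 Φ f₀ ε te T' ν H ≤ OS2 Φ f₀ ε te T' ν H' := by
  rw [OS2_eq_GS, OS2_eq_GS]
  exact GS_mono_on fun P z m w θ hz hw => ctF2_le (h P z m w θ hz hw)

theorem OS2_mono {H H' : SF2} (h : ∀ P z m w θ, H P z m w θ ≤ H' P z m w θ) :
    OS2 Φ f₀ ε te T' ν H ≤ OS2 Φ f₀ ε te T' ν H' :=
  OS2_mono_on fun P z m w θ _ _ _ => h P z m w θ





theorem ctF2_add (H H' : SF2) (P : CTree) (z : PhasePoint × Par P) (m : ℕ) (w : Config m)
    (θ : Lab × LSt) : ctF2 Φ ε te (fun P z m w θ => H P z m w θ + H' P z m w θ) P z m w θ =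
      ctF2 Φ ε te H P z m w θ + ctF2 Φ ε te H' P z m w θ := by
  unfold ctF2
  by_cases hl : (z, θ.2) ∈ OneC423.ctSet Φ ε te P
  · simp only [indicator_of_mem
      (show θ ∈ {θ : Lab × LSt | (z, θ.2) ∈ OneC423.ctSet Φ ε te P} from hl)]
  · simp only [indicator_of_notMem
      (show θ ∉ {θ : Lab × LSt | (z, θ.2) ∈ OneC423.ctSet Φ ε te P} from hl), add_zero]




/-! ### Measurability -/

theorem measurableSet_ct2 (hΦ : AdmissiblePotential Φ) (ε te : ℝ) (P : CTree) (m : ℕ) :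
    MeasurableSet {q : (PhasePoint × Par P) × (Config m × (Lab × LSt)) |
      (q.1, q.2.2.2) ∈ OneC423.ctSet Φ ε te P} := by
  have h1 : Measurable fun q : (PhasePoint × Par P) × (Config m × (Lab × LSt)) =>
      ((q.1, q.2.2.2) : (PhasePoint × Par P) × (ℝ × PhasePoint)) :=
    measurable_fst.prodMk measurable_snd.snd.snd
  exact h1 (OneC423.measurableSet_ctSet hΦ ε te P)

theorem measSF2_ctF2 (hΦ : AdmissiblePotential Φ) {H : SF2} (hH : MeasSF2 H) :
    MeasSF2 (ctF2 Φ ε te H) := fun P m => (hH P m).indicator (measurableSet_ct2 hΦ ε te P m)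

theorem measV_ctF2 (hΦ : AdmissiblePotential Φ) {H : SF2} (hH : MeasV Φ ε T' H) :
    MeasV Φ ε T' (ctF2 Φ ε te H) := by
  have h1 : MeasV Φ ε T' (ctF2 Φ ε te (cut Φ ε T' H)) :=
    MeasV.of_measG hΦ (measSF2_ctF2 hΦ hH.cut)
  refine h1.congr fun P z m w θ hz => ?_
  unfold ctF2 cut
  simp only [if_pos hz]

/-- **Additivity** (first functional measurable on valid trees, second one arbitrary). -/
theorem OS2_add (hΦ : AdmissiblePotential Φ) (hf : Measurable f₀) [SFinite ν] {H : SF2}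
    (hH : MeasV Φ ε T' H) (H' : SF2) :
    OS2 Φ f₀ ε te T' ν (fun P z m w θ => H P z m w θ + H' P z m w θ) =
      OS2 Φ f₀ ε te T' ν H + OS2 Φ f₀ ε te T' ν H' := by
  rw [OS2_eq_GS, OS2_eq_GS, OS2_eq_GS, ← GS_add hΦ hf (measV_ctF2 hΦ hH)]
  exact GS_congr_on fun P z m w l _ _ => ctF2_add H H' P z m w l



/-! ### The law of the pair -/



/-! ## Labels, ages, outgoing lines -/




/-- Outgoing lines: measurable in the tree parameters and the pair (no measurable version
needed). -/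
theorem measurable_outL6 (hΦ : AdmissiblePotential Φ) (ε : ℝ) (P : CTree) (k : Option Bool) :
    Measurable fun q : (PhasePoint × Par P) × ML => outL6 Φ ε P q.1 q.2 k := by
  have hd : Measurable fun q : (PhasePoint × Par P) × ML =>
      ((cT ε q.1 q.2, (cX ε q.1 q.2, cD ε q.1 q.2)) : ℝ × (Space3 × OCout796.CD)) :=
    (Nu0566.measurable_cT ε P).prodMk ((Nu0566.measurable_cX ε P).prodMk
      (Nu0566.measurable_cD ε P))
  have hn : Measurable fun q : (PhasePoint × Par P) × ML => q.2.2 + P.leaves :=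
    (measurable_snd.comp measurable_snd).add_const _
  rcases k with _ | b
  · simp only [outL6]
    exact ((Nu0566.measurable_lineC hΦ ε).comp hd).prodMk measurable_const
  · cases b
    · simp only [outL6]
      exact ((Nu0566.measurable_lineL' hΦ ε).comp hd).prodMk hn
    · simp only [outL6]
      exact ((Nu0566.measurable_lineC' hΦ ε).comp hd).prodMk hn


/-! ## Functionals -/





/-- Measurable version of `uG`. -/
def uGM (Φ : Space3 → ℝ) (ε tw : ℝ) (K : ℕ) (P : CTree) (z : PhasePoint × Par P) {m : ℕ}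
    (w : Config m) (θ : Lab × LSt) : ℝ≥0∞ :=
  if OkL K θ ∧ P.leaves ≤ K then OSCalc495.uIM Φ ε tw P z w else 0

theorem uGM_of_adm {z : PhasePoint × Par P} (h : Adm Φ P z.1.2 z.2) {tw : ℝ} {m : ℕ}
    {w : Config m} {θ : Lab × LSt} : uGM Φ ε tw K P z w θ = uG Φ ε tw K P z w θ := by
  unfold uGM uG
  rw [OSCalc495.uIM_of_adm h]

theorem measSF2_uGM (hΦ : AdmissiblePotential Φ) (hε : 0 < ε) (tw : ℝ) (K : ℕ) :
    MeasSF2 fun P z _ w θ => uGM Φ ε tw K P z w θ := fun P m => by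
  unfold uGM
  refine Measurable.ite ?_ ?_ measurable_const
  · have h1 : MeasurableSet {q : (PhasePoint × Par P) × (Config m × (Lab × LSt)) |
        OkL K q.2.2} := (measurableSet_okL K).preimage measurable_snd.snd
    exact h1.inter (MeasurableSet.const _)
  · exact (OSCalc495.measurable_uIM hΦ hε tw P m).comp
      (f := fun q : (PhasePoint × Par P) × (Config m × (Lab × LSt)) => (q.1, q.2.1))
      (measurable_fst.prodMk measurable_snd.fst)

theorem measV_uG (hΦ : AdmissiblePotential Φ) (hε : 0 < ε) (tw : ℝ) (K : ℕ) :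
    MeasV Φ ε T' (fun P z _ w (θ : Lab × LSt) => uG Φ ε tw K P z w θ) :=
  (MeasV.of_measG hΦ (measSF2_uGM hΦ hε tw K)).congr fun _ _ _ _ _ hz => (uGM_of_adm hz.1).symm

theorem uG_le_one {z : PhasePoint × Par P} {tw : ℝ} {m : ℕ} {w : Config m} {θ : Lab × LSt} :
    uG Φ ε tw K P z w θ ≤ 1 := by
  unfold uG
  split_ifs
  · exact OSCalc495.uI_le_one
  · exact zero_le_one






end Crest.Agent.R122.OS2Calc495

end
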