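import Crest.Agent.R122.ThirdD_741
import Crest.Agent.R122.EncFar6_45
import Crest.Agent.R122.OS2Calc_495
import Crest.Agent.R122.SmallNull_566

/-!
# The encounter event of inequality 3 (row 122, GAP-E, row 13f)

* `EncP` : the fields of `EncParts6` (helper45) outside the touch and LINK classes.
* `encM` : measurable majorant of the failure of `EncP`; `one_le_encM`.
* `encM_OS2_le` : its structure integral, uniform over the laws `PX`:
  `c * (D K * lamR R + δ K ε)`, `δ` null, `lamR R → 0` as `R → ∞`.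
-/

set_option autoImplicit false

open MeasureTheory Set Filter Topology
open scoped ENNReal
open Crest.AnalysisR.Kinetic
open Crest.Agent.R122.Kin796 Crest.Agent.R122.Kin796.CTree Crest.Agent.R122.Tree674
open Crest.Agent.R122.Disc416 Crest.Agent.R122.Flux663 Crest.Agent.R122.OC663 Crest.Agent.R122.EDefs602
open Crest.Agent.R122.GC311 Crest.Agent.R122.Flow671 Crest.Agent.R122.Loc45 Crest.Agent.R122.Mom974
open Crest.Agent.R122.OneC423 Crest.Agent.R122.TreeDom974 Crest.Agent.R122.OneC285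
open Crest.Agent.R122.Pair292 hiding ML
open Crest.Agent.R122.PairD292
open Crest.Agent.R122.Boost969 (LSt posAt)
open Crest.Agent.R122.Long984 (longI measurable_longI longI_le_one longI_eq_zero)
open Crest.Agent.R122.OCout796 Crest.Agent.R122.Scat818
open Crest.Agent.R122.ThirdV796 (memI MemM measurable_memI memI_le_one)
open Crest.Agent.R122.TreeLines335 (lineML)
open Crest.Agent.R122.Ins45 (CDpass)
open Crest.Agent.R122.PathFlow968

noncomputable section

namespace Crest.Agent.R122.Third741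

variable {Φ : Space3 → ℝ} {f₀ : PhasePoint → ℝ} {ε : ℝ}

/-! ### No passage -/

open scoped Classical in
/-- The encounter is not a passage. -/
def pasG (Φ : Space3 → ℝ) : CF := fun _P z _m _w _s v b => if CDpass Φ (v, z.1.2, b) then 0 else 1

theorem measCF_pasG (hΦ : AdmissiblePotential Φ) : MeasCF (pasG Φ) := by
  classical
  intro P m
  have h1 : Measurable fun q : ((PhasePoint × Par P) × Config m) × (ℝ × (Space3 × Space3)) =>
      ((q.2.2.1, q.1.1.1.2, q.2.2.2) : CD) := by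
    refine Measurable.prodMk ?_ (Measurable.prodMk ?_ ?_)
    · exact measurable_fst.comp (measurable_snd.comp measurable_snd)
    · exact measurable_snd.comp (measurable_fst.comp (measurable_fst.comp measurable_fst))
    · exact measurable_snd.comp (measurable_snd.comp measurable_snd)
  have h2 : MeasurableSet {q : CD | CDpass Φ q} := measurable_relB (measurableSet_passSet hΦ)
  exact Measurable.ite (h1 h2) measurable_const measurable_const

theorem fluxM_pas (hΦ : AdmissiblePotential Φ) (te : ℝ) (μ : Measure Space3) (P : CTree)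
    (z : PhasePoint × Par P) (m : ℕ) (w : Config m) : fluxM te μ (pasG Φ) P z m w = 0 := by
  unfold fluxM
  refine (setLIntegral_congr_fun measurableSet_Ioc fun s _ => ?_).trans lintegral_zero
  refine (lintegral_congr fun v => ?_).trans lintegral_zero
  by_cases hg : v - z.1.2 = 0
  · rw [hg, norm_zero, ENNReal.ofReal_zero, zero_mul]
  · have h0 : ∫⁻ b in impactDisc (v - z.1.2), pasG Φ P z m w s v b ∂μHE[2] = 0 := by
      have hd : MeasurableSet (impactDisc (v - z.1.2)) := Disc416.measurableSet_impactDisc _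
      refine (lintegral_congr_ae ?_).trans lintegral_zero
      rw [Filter.EventuallyEq, ae_restrict_iff' hd]
      have ht := measure_trapped hΦ hg
      rw [measure_eq_zero_iff_ae_notMem] at ht
      filter_upwards [ht] with b hb hbd
      unfold pasG
      rw [if_pos]
      refine ⟨⟨hbd, hg⟩, ?_⟩
      by_contra hn
      exact hb ⟨hbd, hn⟩
    rw [h0, mul_zero]

theorem pas_OS2 (hΦ : AdmissiblePotential Φ) (hε : 0 < ε) {K : ℕ} {te T' : ℝ}
    {ν : Measure (Lab × LSt)} (hν : InvFam shP (fun p : Lab × LSt => p.2) posD ν) :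
    OS2 Φ f₀ ε te T' ν (sf2Of ε K (pasG Φ)) = 0 := by
  refine le_antisymm ((OS2_le hΦ hε (K := K) hν (measCF_pasG hΦ)
    (fun _ _ _ _ _ _ => le_rfl)).trans (le_of_eq ?_)) zero_le
  refine Finset.sum_eq_zero fun P _ => ?_
  have h0 : ∀ z : PhasePoint × Par P, gcE f₀ ε (fun m w =>
      fluxM te (muV K te ν) (pasG Φ) P z m w) = 0 := by
    intro z
    simp only [fluxM_pas hΦ]
    exact gcE_zero f₀ ε
  simp only [h0, mul_zero, indicator_zero, lintegral_zero]

/-! ### Small contact times -/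

theorem fluxI_small {Q : EPar} {g0 : ℝ} (hQ : QOk Q g0) {PP : ℕ → PPar} (hP : PPOk Q PP)
    {Cv : ℝ≥0∞} (hV : Vel4 Q PP Cv) {K : ℕ} {Ξ ν : Measure (Lab × LSt)} {c : ℝ≥0∞}
    (h : PX (PP K) Ξ ν c) {G : Space3 → ℝ → Lab × LSt → ℝ≥0∞} {κ : ℝ≥0∞}
    (hG : ∀ u θ, ∫⁻ s in Ioc 0 Q.te, G u s θ ≤ κ) (u : Space3) :
    fluxI K Q.te ν G u ≤ (c * (ENNReal.ofReal Real.pi * (κ * Dm4 Q g0 Cv K))) *
      ENNReal.ofReal ((1 + ‖u‖) ^ 4) := by
  have hpm : Measurable fun v : Space3 => ENNReal.ofReal ((1 + ‖v‖) ^ 4) := by fun_prop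
  have hcm : Measurable fun θ : Lab × LSt =>
      chiV K Q.te θ * ENNReal.ofReal ((1 + ‖θ.2.2.2‖) ^ 4) :=
    (measurable_chiV K Q.te).mul (hpm.comp measurable_vel2)
  have hm4 : ∫⁻ θ, chiV K Q.te θ * ENNReal.ofReal ((1 + ‖θ.2.2.2‖) ^ 4) ∂ν ≤
      Dm4 Q g0 Cv K * c := by
    rw [← lintegral_muV K Q.te ν hpm]
    exact m4_muV_le hQ hP hV h
  have hu1 : (1 : ℝ) ≤ 1 + ‖u‖ := by linarith [norm_nonneg u]
  unfold fluxI
  calc ∫⁻ θ, chiV K Q.te θ * (ENNReal.ofReal Real.pi * (ENNReal.ofReal ‖θ.2.2.2 - u‖ *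
        ∫⁻ s in Ioc 0 Q.te, G u s θ)) ∂ν
      ≤ ∫⁻ θ, (ENNReal.ofReal Real.pi * κ * ENNReal.ofReal ((1 + ‖u‖) ^ 4)) *
        (chiV K Q.te θ * ENNReal.ofReal ((1 + ‖θ.2.2.2‖) ^ 4)) ∂ν := by
        refine lintegral_mono fun θ => ?_
        have hv1 : (1 : ℝ) ≤ 1 + ‖θ.2.2.2‖ := by linarith [norm_nonneg θ.2.2.2]
        have h1 : ENNReal.ofReal ‖θ.2.2.2 - u‖ ≤ ENNReal.ofReal ((1 + ‖θ.2.2.2‖) ^ 4) *
            ENNReal.ofReal ((1 + ‖u‖) ^ 4) := by
          rw [← ENNReal.ofReal_mul (by positivity)]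
          refine ENNReal.ofReal_le_ofReal ((norm_sub_le_mul θ.2.2.2 u).trans ?_)
          exact mul_le_mul (le_self_pow₀ hv1 (by norm_num)) (le_self_pow₀ hu1 (by norm_num))
            (by positivity) (by positivity)
        calc _ ≤ chiV K Q.te θ * (ENNReal.ofReal Real.pi * ((ENNReal.ofReal ((1 + ‖θ.2.2.2‖) ^ 4) *
            ENNReal.ofReal ((1 + ‖u‖) ^ 4)) * κ)) := by
              gcongr
              exact hG u θ
          _ = _ := by ring
    _ = (ENNReal.ofReal Real.pi * κ * ENNReal.ofReal ((1 + ‖u‖) ^ 4)) *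
        ∫⁻ θ, chiV K Q.te θ * ENNReal.ofReal ((1 + ‖θ.2.2.2‖) ^ 4) ∂ν :=
        lintegral_const_mul _ hcm
    _ ≤ (ENNReal.ofReal Real.pi * κ * ENNReal.ofReal ((1 + ‖u‖) ^ 4)) * (Dm4 Q g0 Cv K * c) :=
        mul_le_mul' le_rfl hm4
    _ = _ := by ring

open scoped Classical in
/-- Contact in the last `a` before the horizon. -/
def horG (te a : ℝ) (_u : Space3) (s : ℝ) (_θ : Lab × LSt) : ℝ≥0∞ := if te - a < s then 1 else 0

open scoped Classical in
/-- The first line is born at most `a` from the contact time. -/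
def bornG (a : ℝ) (_u : Space3) (s : ℝ) (θ : Lab × LSt) : ℝ≥0∞ :=
  if |s - θ.1.1.1.1| ≤ a then 1 else 0

theorem iFun_horG (te a : ℝ) : IFun (horG te a) := by
  classical
  constructor
  · unfold horG
    exact Measurable.ite (measurableSet_lt measurable_const (measurable_fst.comp measurable_snd))
      measurable_const measurable_const
  · intro _ _ _ _
    rfl

theorem iFun_bornG (a : ℝ) : IFun (bornG a) := by
  classical
  constructor
  · unfold bornG
    have h1 : Measurable fun q : Space3 × (ℝ × (Lab × LSt)) => |q.2.1 - q.2.2.1.1.1.1| := by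
      refine ((measurable_fst.comp measurable_snd).sub ?_).abs
      exact measurable_fst.comp (measurable_fst.comp (measurable_fst.comp (measurable_fst.comp
        (measurable_snd.comp measurable_snd))))
    exact Measurable.ite (measurableSet_le h1 measurable_const) measurable_const measurable_const
  · intro a' u s θ
    rfl

theorem lintegral_horG {te a : ℝ} (u : Space3) (θ : Lab × LSt) :
    ∫⁻ s in Ioc 0 te, horG te a u s θ ≤ ENNReal.ofReal a := by
  classical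
  calc ∫⁻ s in Ioc 0 te, horG te a u s θ
      ≤ ∫⁻ s in Ioc 0 te, (Ioc (te - a) te).indicator (fun _ => (1 : ℝ≥0∞)) s := by
        refine setLIntegral_mono' measurableSet_Ioc fun s hs => ?_
        unfold horG
        split_ifs with h
        · rw [indicator_of_mem (show s ∈ Ioc (te - a) te from ⟨h, hs.2⟩)]
        · exact zero_le
    _ ≤ ∫⁻ s : ℝ, (Ioc (te - a) te).indicator (fun _ => (1 : ℝ≥0∞)) s :=
        setLIntegral_le_lintegral _ _
    _ = _ := by
        rw [lintegral_indicator measurableSet_Ioc, setLIntegral_const, Real.volume_Ioc, one_mul]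
        congr 1
        ring

theorem lintegral_bornG {te a : ℝ} (u : Space3) (θ : Lab × LSt) :
    ∫⁻ s in Ioc 0 te, bornG a u s θ ≤ ENNReal.ofReal (2 * a) := by
  classical
  calc ∫⁻ s in Ioc 0 te, bornG a u s θ ≤ ∫⁻ s : ℝ, bornG a u s θ := setLIntegral_le_lintegral _ _
    _ = ∫⁻ s : ℝ, (Metric.closedBall θ.1.1.1.1 a).indicator (fun _ => (1 : ℝ≥0∞)) s := by
        refine lintegral_congr fun s => ?_
        unfold bornG
        split_ifs with h
        · rw [indicator_of_mem (show s ∈ Metric.closedBall θ.1.1.1.1 a from h)]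
        · rw [indicator_of_notMem (show s ∉ Metric.closedBall θ.1.1.1.1 a from h)]
    _ = _ := by
        rw [lintegral_indicator Metric.isClosed_closedBall.measurableSet, setLIntegral_const,
          Real.volume_closedBall, one_mul]

/-! ### The encounter event -/

/-- **The fields of `EncParts6` outside the touch and LINK classes.** -/
structure EncP (Φ : Space3 → ℝ) (ε R : ℝ) (te : ℝ) (P : CTree)
    (z : PhasePoint × Par P) {m : ℕ} (w : Config m) (d e : ML) : Prop where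
  pass : CDpass Φ (cD ε z e)
  tau : tauM Φ (relB (cD ε z e)) ≤ R
  disp : tauM Φ (relB (cD ε z e)) * ‖(relB (cD ε z e)).2‖ ≤ R
  hor : cT ε z e + ε * R ≤ te
  gas : ∀ t, cT ε z e ≤ t → t ≤ cT ε z e + ε * R → ∀ i : Fin m,
    (R + 2) * ε < dist ((MW.cfg w).path Φ ε t i).1 (z.1.1 + t • z.1.2)
  mem : ∀ t, cT ε z e ≤ t → t ≤ cT ε z e + ε * R → ∀ j, j ≠ root P →
    (R + 2) * ε < dist (lpos (lineML Φ ε P z j) t) (z.1.1 + t • z.1.2)
  memd : ∀ t, cT ε z e ≤ t → t ≤ cT ε z e + ε * R → d.1.1 ≤ t →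
    (R + 2) * ε < dist (lpos d t) (z.1.1 + t • z.1.2)
  nobd : d.1.1 ≠ cT ε z e + outT Φ ε (cD ε z e)


/-- **Measurable majorant** of the failure of `EncP`. -/
def encM (Φ : Space3 → ℝ) (R : ℝ) (K : ℕ) (te : ℝ) (ε : ℝ) : SF2 := fun P z m w θ =>
  sf2Of ε K (pasG Φ) P z m w θ + (sf2Of ε K (longG Φ R) P z m w θ +
    (sf2Of ε K (thirdG Φ ε ((R + 2) * ε)) P z m w θ +
      (sf2Of ε K (memG Φ te ((R + 2) * ε) ε) P z m w θ +
        (sfI ε K (nearD (2 * ((R + 2) * ε) + ε)) P z m w θ +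
          (sfI ε K (horG te (ε * R)) P z m w θ + sfI ε K (bornG (ε * R)) P z m w θ)))))

theorem MeasSF2.add' {H H' : SF2} (h : MeasSF2 H) (h' : MeasSF2 H') :
    MeasSF2 fun P z m w θ => H P z m w θ + H' P z m w θ := fun P m => (h P m).add (h' P m)

theorem measSF2_encM (hΦ : AdmissiblePotential Φ) (hε : 0 < ε) (R : ℝ) (K : ℕ) (te : ℝ) :
    MeasSF2 (encM Φ R K te ε) := by
  unfold encM
  exact MeasSF2.add' (measSF2_sf2Of ε K (measCF_pasG hΦ))
    (MeasSF2.add' (measSF2_sf2Of ε K (measCF_longG hΦ R))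
    (MeasSF2.add' (measSF2_sf2Of ε K (measCF_thirdG hΦ hε _))
    (MeasSF2.add' (measSF2_sf2Of ε K (measCF_memG hΦ te _ ε))
    (MeasSF2.add' (measSF2_sfI ε K (iFun_nearD _))
    (MeasSF2.add' (measSF2_sfI ε K (iFun_horG te _)) (measSF2_sfI ε K (iFun_bornG _)))))))

theorem lpos_lineML (ε : ℝ) (P : CTree) (z : PhasePoint × Par P) (j : Idx P) (t : ℝ) :
    lpos (lineML Φ ε P z j) t = (onLine (fin Φ ε P z.1 z.2 j) t).1 := by
  unfold lpos lineML back onLine
  simp only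
  rw [add_sub_cancel_right]

/-- **The majorant is at least `1` where `EncP` fails.** -/
theorem one_le_encM (hΦ : AdmissiblePotential Φ) (hε : 0 < ε) {R : ℝ} (hR : 0 ≤ R) {K : ℕ}
    {te : ℝ} {P : CTree} {z : PhasePoint × Par P} {m : ℕ} {w : Config m} {θ : Lab × LSt}
    (hw : w ∈ PairExcluded ε m) (hct : (z, θ.2) ∈ ctSet Φ ε te P) (hL : OkL K θ)
    (hP : P.leaves ≤ K) (h : ¬ EncP Φ ε R te P z w (dL θ) (eL θ)) :
    1 ≤ encM Φ R K te ε P z m w θ := by
  classical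
  have hs0 : 0 < cT ε z (eL θ) := hL.e0.trans hct.2.2.1
  have hste : cT ε z (eL θ) ≤ te := hct.2.2.2.1
  have hval : Valid Φ ε P (cT ε z (eL θ)) z.1.2 z.2 := hct.2.2.2.2
  have haR : 0 ≤ (R + 2) * ε := by positivity
  have hεR : ε * R ≤ (R + 2) * ε := by nlinarith
  have hu := norm_nonneg z.1.2
  have hv := norm_nonneg θ.2.2.2
  have hrad : (R + 2) * ε ≤ (R + 2) * ε * (1 + ‖θ.2.2.2‖ + ‖z.1.2‖) := by
    nlinarith [mul_nonneg haR hu, mul_nonneg haR hv]
  have hok : OkL K θ ∧ P.leaves ≤ K := ⟨hL, hP⟩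
  have hsf : ∀ g : CF, sf2Of ε K g P z m w θ =
      g P z m w (cT ε z (eL θ)) θ.2.2.2 (cB ε z (eL θ)) := fun g => if_pos hok
  have hsI : ∀ G : Space3 → ℝ → Lab × LSt → ℝ≥0∞, sfI ε K G P z m w θ =
      G z.1.2 (cT ε z (eL θ)) θ := fun G => if_pos hok
  unfold encM
  by_contra hlt
  rw [not_le] at hlt
  -- every term is below `1`
  set A1 := sf2Of ε K (pasG Φ) P z m w θ with hA1
  set A2 := sf2Of ε K (longG Φ R) P z m w θ with hA2
  set A3 := sf2Of ε K (thirdG Φ ε ((R + 2) * ε)) P z m w θ with hA3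
  set A4 := sf2Of ε K (memG Φ te ((R + 2) * ε) ε) P z m w θ with hA4
  set A5 := sfI ε K (nearD (2 * ((R + 2) * ε) + ε)) P z m w θ with hA5
  set A6 := sfI ε K (horG te (ε * R)) P z m w θ with hA6
  set A7 := sfI ε K (bornG (ε * R)) P z m w θ with hA7
  have l1 : A1 < 1 := lt_of_le_of_lt le_self_add hlt
  have r1 := lt_of_le_of_lt (le_add_self (a := A2 + (A3 + (A4 + (A5 + (A6 + A7))))) (b := A1)) hlt
  have l2 : A2 < 1 := lt_of_le_of_lt le_self_add r1
  have r2 := lt_of_le_of_lt (le_add_self (a := A3 + (A4 + (A5 + (A6 + A7)))) (b := A2)) r1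
  have l3 : A3 < 1 := lt_of_le_of_lt le_self_add r2
  have r3 := lt_of_le_of_lt (le_add_self (a := A4 + (A5 + (A6 + A7))) (b := A3)) r2
  have l4 : A4 < 1 := lt_of_le_of_lt le_self_add r3
  have r4 := lt_of_le_of_lt (le_add_self (a := A5 + (A6 + A7)) (b := A4)) r3
  have l5 : A5 < 1 := lt_of_le_of_lt le_self_add r4
  have r5 := lt_of_le_of_lt (le_add_self (a := A6 + A7) (b := A5)) r4
  have l6 : A6 < 1 := lt_of_le_of_lt le_self_add r5
  have l7 : A7 < 1 := lt_of_le_of_lt le_add_self r5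
  rw [hA1, hsf] at l1
  rw [hA2, hsf] at l2
  rw [hA3, hsf] at l3
  rw [hA4, hsf] at l4
  rw [hA5, hsI] at l5
  rw [hA6, hsI] at l6
  rw [hA7, hsI] at l7
  have hpass : CDpass Φ (cD ε z (eL θ)) := by
    by_contra hn
    have hn' : ¬ CDpass Φ (θ.2.2.2, z.1.2, cB ε z (eL θ)) := hn
    unfold pasG at l1
    rw [if_neg hn'] at l1
    exact lt_irrefl _ l1
  have hlong : tauM Φ (relB (cD ε z (eL θ))) ≤ R ∧
      tauM Φ (relB (cD ε z (eL θ))) * ‖(relB (cD ε z (eL θ))).2‖ ≤ R := by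
    have h0 : longI Φ R (cD ε z (eL θ)) = 0 := by
      by_contra hn
      have h1 : longI Φ R (cD ε z (eL θ)) = 1 := by
        have h2 := (longI_eq_zero (Φ := Φ) (R := R) (q := cD ε z (eL θ))).not.1 hn
        unfold Long984.longI
        rw [if_neg h2]
      have h3 : longG Φ R P z m w (cT ε z (eL θ)) θ.2.2.2 (cB ε z (eL θ)) = 1 := h1
      rw [h3] at l2
      exact lt_irrefl _ l2
    exact longI_eq_zero.1 h0
  refine h ⟨hpass, hlong.1, hlong.2, ?_, ?_, ?_, ?_, ?_⟩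
  · by_contra hn
    rw [not_le] at hn
    unfold horG at l6
    rw [if_pos (by linarith)] at l6
    exact lt_irrefl _ l6
  · intro t ht ht' i
    by_contra hn
    rw [not_lt] at hn
    have hp : ((MW.cfg w).path Φ ε t i) = flow Φ ε t w i :=
      congrFun (Unw410.path_cfg hΦ hε hw (hs0.le.trans ht)) i
    rw [hp] at hn
    have hd : dist (z.1.1 + cT ε z (eL θ) • z.1.2) (flow Φ ε t w i).1 ≤
        (R + 2) * ε * (1 + ‖θ.2.2.2‖ + ‖z.1.2‖) := by
      have h1 : dist (z.1.1 + cT ε z (eL θ) • z.1.2) (z.1.1 + t • z.1.2) ≤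
          (R + 2) * ε * ‖z.1.2‖ := by
        rw [dist_eq_norm, add_sub_add_left_eq_sub, ← sub_smul, norm_smul, Real.norm_eq_abs]
        refine mul_le_mul_of_nonneg_right ?_ hu
        rw [abs_sub_comm, abs_of_nonneg (by linarith)]
        linarith
      have h2 := dist_triangle (z.1.1 + cT ε z (eL θ) • z.1.2) (z.1.1 + t • z.1.2)
        (flow Φ ε t w i).1
      rw [dist_comm] at hn
      nlinarith [mul_nonneg haR hv]
    have hN : Near Φ ε w (cT ε z (eL θ)) ((R + 2) * ε)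
        ((R + 2) * ε * (1 + ‖θ.2.2.2‖ + ‖z.1.2‖)) (z.1.1 + cT ε z (eL θ) • z.1.2) :=
      ⟨i, t, ⟨by linarith, by linarith⟩, hd⟩
    have h3 : thirdG Φ ε ((R + 2) * ε) P z m w (cT ε z (eL θ)) θ.2.2.2 (cB ε z (eL θ)) = 1 :=
      nearI_of hN
    rw [h3] at l3
    exact lt_irrefl _ l3
  · intro t ht ht' j hj
    by_contra hn
    rw [not_lt, lpos_lineML] at hn
    have hM : MemM Φ te ((R + 2) * ε) ε P (z.1.2, z.2) (cT ε z (eL θ)) ‖θ.2.2.2‖ := by
      refine ThirdV796.memM_of_near hste hval (Or.inr ⟨j, hj, t, ?_, hn.trans hrad⟩)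
      rw [abs_of_nonneg (by linarith)]
      linarith
    have h3 : memG Φ te ((R + 2) * ε) ε P z m w (cT ε z (eL θ)) θ.2.2.2 (cB ε z (eL θ)) = 1 :=
      if_pos hM
    rw [h3] at l4
    exact lt_irrefl _ l4
  · intro t ht ht' _
    by_contra hn
    rw [not_lt] at hn
    have hD : DFree ε ((R + 2) * ε) z θ := by
      refine ⟨t, ?_, hn.trans hrad⟩
      rw [abs_of_nonneg (by linarith)]
      linarith
    rw [nearD_of_dfree hε haR hct hD] at l5
    exact lt_irrefl _ l5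
  · intro hn
    have h0 : 0 ≤ tauM Φ (relB (cD ε z (eL θ))) := hpass.hasExit.1.le
    have h1 : outT Φ ε (cD ε z (eL θ)) ≤ ε * R := mul_le_mul_of_nonneg_left hlong.1 hε.le
    have h2 : 0 ≤ outT Φ ε (cD ε z (eL θ)) := mul_nonneg hε.le h0
    unfold bornG at l7
    rw [if_pos] at l7
    · exact lt_irrefl _ l7
    · have h3 : θ.1.1.1.1 = cT ε z (eL θ) + outT Φ ε (cD ε z (eL θ)) := hn
      rw [h3, abs_sub_comm, add_sub_cancel_left, abs_of_nonneg h2]
      exact h1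

/-- **(13f)** Structure integral of the encounter event, uniform over the laws `PX`. -/
theorem encM_OS2_le (hΦ : AdmissiblePotential Φ) {A : Space3 → ℝ≥0∞} {C b g0 : ℝ}
    (hF : FOk f₀ A C b) {Q : EPar} (hQ : QOk Q g0) {PP : ℕ → PPar} (hP : PPOk Q PP) (T' : ℝ) :
    ∃ D : ℕ → ℝ≥0∞, (∀ K, D K ≠ ∞) ∧ ∀ R : ℝ, 0 ≤ R → ∃ δ : ℕ → ℝ → ℝ≥0∞, Null δ ∧
      ∀ (K : ℕ) (ε : ℝ), 0 < ε → ∀ (Ξ ν : Measure (Lab × LSt)) (c : ℝ≥0∞), c ≠ ∞ →
      PX (PP K) Ξ ν c →
      OS2 Φ f₀ ε Q.te T' ν (encM Φ R K Q.te ε) ≤ c * (D K * lamR Φ (b / 2) R + δ K ε) := by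
  obtain ⟨Cv, hCv, hCvle⟩ := hP.vel4
  have hV : Vel4 Q PP Cv := ⟨hCv, hCvle⟩
  choose D hD hDle using fun K : ℕ => long_OS2_le hΦ hF hQ hP hV K T'
  refine ⟨D, hD, fun R hR => ?_⟩
  have ha : Tendsto (fun ε : ℝ => (R + 2) * ε) (𝓝[>] 0) (𝓝 0) := by
    have h1 : Tendsto (fun ε : ℝ => (R + 2) * ε) (𝓝 0) (𝓝 ((R + 2) * 0)) :=
      tendsto_id.const_mul _
    rw [mul_zero] at h1
    exact h1.mono_left nhdsWithin_le_nhds
  have ha0 : ∀ ε : ℝ, 0 < ε → 0 ≤ (R + 2) * ε := fun ε hε => by positivity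
  choose D3 hD3 hD3le using fun K : ℕ => third_OS2_le hΦ hF hQ hP hV K T'
  obtain ⟨δ4, hδ4, hδ4le⟩ := mem_OS2_le hΦ hF hQ hP hV T' ha ha0
  choose DI hDI hDIle using fun K : ℕ => OS2_inv_le hΦ hF K T'
  set δ : ℕ → ℝ → ℝ≥0∞ := fun K ε =>
    D3 K * (activity ε * ENNReal.ofReal ((R + 2) * ε) ^ 3) + (δ4 K ε +
      (DI K * nearN Q g0 Cv K (2 * ((R + 2) * ε) + ε) +
        (DI K * (ENNReal.ofReal Real.pi * (ENNReal.ofReal (ε * R) * Dm4 Q g0 Cv K)) +
          DI K * (ENNReal.ofReal Real.pi *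
            (ENNReal.ofReal (2 * (ε * R)) * Dm4 Q g0 Cv K))))) with hδ
  refine ⟨δ, ?_, ?_⟩
  · rw [EDefs602.null_iff_tendsto]
    intro K
    have hDm := Dm4_ne_top hQ hCv K
    have t3 : Tendsto (fun ε : ℝ => D3 K * (activity ε * ENNReal.ofReal ((R + 2) * ε) ^ 3))
        (𝓝[>] 0) (𝓝 0) := by
      have h1 : Tendsto (fun ε : ℝ => D3 K * (ENNReal.ofReal ((R + 2) ^ 3) * ENNReal.ofReal ε))
          (𝓝[>] 0) (𝓝 0) := by
        have h2 : Tendsto (fun ε : ℝ => ENNReal.ofReal ε) (𝓝[>] 0) (𝓝 0) := by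
          have h3 : Tendsto (fun ε : ℝ => ε) (𝓝[>] 0) (𝓝 0) :=
            tendsto_nhdsWithin_of_tendsto_nhds tendsto_id
          have h4 := ENNReal.tendsto_ofReal h3
          rwa [ENNReal.ofReal_zero] at h4
        have h5 := ENNReal.Tendsto.const_mul (a := D3 K) (ENNReal.Tendsto.const_mul
          (a := ENNReal.ofReal ((R + 2) ^ 3)) h2 (Or.inr ENNReal.ofReal_ne_top)) (Or.inr (hD3 K))
        simpa using h5
      refine h1.congr' ?_
      filter_upwards [self_mem_nhdsWithin] with ε hε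
      have hε' : (0 : ℝ) < ε := hε
      have e1 : activity ε * ENNReal.ofReal ((R + 2) * ε) ^ 3 =
          (activity ε * ENNReal.ofReal ε ^ 2) * (ENNReal.ofReal ((R + 2) ^ 3) *
            ENNReal.ofReal ε) := by
        rw [ENNReal.ofReal_mul (by positivity), ENNReal.ofReal_pow (p := R + 2) (by positivity)]
        ring
      rw [e1, activity_mul_sq hε', one_mul]
    have hρ0 : Tendsto (fun ε : ℝ => 2 * ((R + 2) * ε) + ε) (𝓝[>] 0) (𝓝 0) := by
      have h1 : Tendsto (fun ε : ℝ => 2 * ((R + 2) * ε) + ε) (𝓝 0)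
          (𝓝 (2 * ((R + 2) * 0) + 0)) :=
        ((tendsto_id.const_mul (R + 2)).const_mul 2).add tendsto_id
      have h2 : (2 * ((R + 2) * 0) + 0 : ℝ) = 0 := by ring
      rw [h2] at h1
      exact h1.mono_left nhdsWithin_le_nhds
    have t5 : Tendsto (fun ε : ℝ => DI K * nearN Q g0 Cv K (2 * ((R + 2) * ε) + ε))
        (𝓝[>] 0) (𝓝 0) := by
      have h1 := ENNReal.Tendsto.const_mul ((tendsto_nearN hQ hCv K).comp hρ0)
        (Or.inr (hDI K))
      simpa using h1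
    have tk : ∀ k : ℝ, Tendsto (fun ε : ℝ => DI K * (ENNReal.ofReal Real.pi *
        (ENNReal.ofReal (k * (ε * R)) * Dm4 Q g0 Cv K))) (𝓝[>] 0) (𝓝 0) := by
      intro k
      have h1 : Tendsto (fun ε : ℝ => k * (ε * R)) (𝓝[>] 0) (𝓝 0) := by
        have h2 : Tendsto (fun ε : ℝ => k * (ε * R)) (𝓝 0) (𝓝 (k * (0 * R))) :=
          (tendsto_id.mul_const R).const_mul k
        have h3 : (k * (0 * R) : ℝ) = 0 := by ring
        rw [h3] at h2
        exact h2.mono_left nhdsWithin_le_nhds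
      have h4 := ENNReal.tendsto_ofReal h1
      rw [ENNReal.ofReal_zero] at h4
      have h5 := ENNReal.Tendsto.const_mul (a := DI K) (ENNReal.Tendsto.const_mul
        (a := ENNReal.ofReal Real.pi) (ENNReal.Tendsto.mul_const h4 (Or.inr hDm))
          (Or.inr ENNReal.ofReal_ne_top)) (Or.inr (hDI K))
      simpa using h5
    have t6 : Tendsto (fun ε : ℝ => DI K * (ENNReal.ofReal Real.pi *
        (ENNReal.ofReal (ε * R) * Dm4 Q g0 Cv K))) (𝓝[>] 0) (𝓝 0) := by
      have h1 := tk 1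
      simpa only [one_mul] using h1
    have h := t3.add ((hδ4 K).add (t5.add (t6.add (tk 2))))
    simpa [hδ] using h
  intro K ε hε Ξ ν c hc hPX
  have hν := hPX.invFam
  have := hPX.sfν
  have m1 := measSF2_sf2Of ε K (measCF_pasG hΦ)
  have m2 := measSF2_sf2Of ε K (measCF_longG hΦ R)
  have m3 := measSF2_sf2Of ε K (measCF_thirdG hΦ hε ((R + 2) * ε))
  have m4' := measSF2_sf2Of ε K (measCF_memG hΦ Q.te ((R + 2) * ε) ε)
  have m5 := measSF2_sfI ε K (iFun_nearD (2 * ((R + 2) * ε) + ε))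
  have m6 := measSF2_sfI ε K (iFun_horG Q.te (ε * R))
  have b1 : OS2 Φ f₀ ε Q.te T' ν (sf2Of ε K (pasG Φ)) = 0 := pas_OS2 hΦ hε hν
  have b2 := hDle K ε hε R Ξ ν c hc hPX (sf2Of ε K (longG Φ R)) (fun _ _ _ _ _ _ => le_rfl)
  have b3 := hD3le K ε hε ((R + 2) * ε) (by positivity) Ξ ν c hc hPX
    (sf2Of ε K (thirdG Φ ε ((R + 2) * ε))) (fun _ _ _ _ _ _ => le_rfl)
  have b4 := hδ4le K ε hε Ξ ν c hc hPX (sf2Of ε K (memG Φ Q.te ((R + 2) * ε) ε))
    (fun _ _ _ _ _ _ => le_rfl)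
  have hρ : 0 ≤ 2 * ((R + 2) * ε) + ε := by positivity
  have b5 : OS2 Φ f₀ ε Q.te T' ν (sfI ε K (nearD (2 * ((R + 2) * ε) + ε))) ≤
      c * (DI K * nearN Q g0 Cv K (2 * ((R + 2) * ε) + ε)) := by
    have hn : ∀ n : ℕ, OS2 Φ f₀ ε Q.te T' ν (sfI ε K (nearD (2 * ((R + 2) * ε) + ε))) ≤
        c * (DI K * LamD Q g0 Cv K (1 / ((n : ℝ) + 1)) n (2 * ((R + 2) * ε) + ε)) := by
      intro n
      have h1 := hDIle K ε Q.te hε ν hν (nearD (2 * ((R + 2) * ε) + ε)) (iFun_nearD _)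
        (c * LamD Q g0 Cv K (1 / ((n : ℝ) + 1)) n (2 * ((R + 2) * ε) + ε))
        (fun u => fluxI_nearD_le hQ hP hV hPX (by positivity) (Nat.cast_nonneg n) hρ u)
        (sfI ε K (nearD (2 * ((R + 2) * ε) + ε))) (fun _ _ _ _ _ _ => le_rfl)
      refine h1.trans (le_of_eq ?_)
      ring
    by_cases hc0 : c * DI K = 0
    · have h0 := hn 0
      rw [← mul_assoc c (DI K), hc0, zero_mul] at h0
      exact h0.trans zero_le
    · unfold nearN
      rw [← mul_assoc c (DI K), ENNReal.mul_iInf_of_ne hc0 (ENNReal.mul_ne_top hc (hDI K))]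
      refine le_iInf fun n => (hn n).trans (le_of_eq ?_)
      rw [mul_assoc]
  have b6 : OS2 Φ f₀ ε Q.te T' ν (sfI ε K (horG Q.te (ε * R))) ≤
      c * (DI K * (ENNReal.ofReal Real.pi * (ENNReal.ofReal (ε * R) * Dm4 Q g0 Cv K))) := by
    refine (hDIle K ε Q.te hε ν hν (horG Q.te (ε * R)) (iFun_horG _ _)
      (c * (ENNReal.ofReal Real.pi * (ENNReal.ofReal (ε * R) * Dm4 Q g0 Cv K)))
      (fun u => fluxI_small hQ hP hV hPX (fun u θ => lintegral_horG u θ) u)
      (sfI ε K (horG Q.te (ε * R))) (fun _ _ _ _ _ _ => le_rfl)).trans (le_of_eq ?_)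
    ring
  have b7 : OS2 Φ f₀ ε Q.te T' ν (sfI ε K (bornG (ε * R))) ≤
      c * (DI K * (ENNReal.ofReal Real.pi * (ENNReal.ofReal (2 * (ε * R)) * Dm4 Q g0 Cv K))) := by
    refine (hDIle K ε Q.te hε ν hν (bornG (ε * R)) (iFun_bornG _)
      (c * (ENNReal.ofReal Real.pi * (ENNReal.ofReal (2 * (ε * R)) * Dm4 Q g0 Cv K)))
      (fun u => fluxI_small hQ hP hV hPX (fun u θ => lintegral_bornG u θ) u)
      (sfI ε K (bornG (ε * R))) (fun _ _ _ _ _ _ => le_rfl)).trans (le_of_eq ?_)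
    ring
  unfold encM
  rw [OS2Calc495.OS2_add hΦ hF.meas (OS2Calc495.MeasSF2.measV hΦ m1),
    OS2Calc495.OS2_add hΦ hF.meas (OS2Calc495.MeasSF2.measV hΦ m2),
    OS2Calc495.OS2_add hΦ hF.meas (OS2Calc495.MeasSF2.measV hΦ m3),
    OS2Calc495.OS2_add hΦ hF.meas (OS2Calc495.MeasSF2.measV hΦ m4'),
    OS2Calc495.OS2_add hΦ hF.meas (OS2Calc495.MeasSF2.measV hΦ m5),
    OS2Calc495.OS2_add hΦ hF.meas (OS2Calc495.MeasSF2.measV hΦ m6), b1, zero_add]
  refine (add_le_add b2 (add_le_add b3 (add_le_add b4 (add_le_add b5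
    (add_le_add b6 b7))))).trans (le_of_eq ?_)
  rw [hδ]
  ring

end Crest.Agent.R122.Third741
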