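import Crest.Agent.R122.GateOS2_495
import Crest.Agent.R122.EncNull_741
import Crest.Agent.R122.Master_566

/-!
# Null facts of inequality 3 with a radius (row 122, E6, board 13f), helper741

* `FOk.of_kdata` : the standing hypotheses `FOk` from `KData`.
* `nullFacts_sel` : **selection over the radius.** For a countable family of pair laws, a family
  `F R` of arbitrary functionals null in the gateway for every fixed radius `R : ℕ`, and a family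
  `G R` of measurable functionals with `OS2 ≤ D K * η R + δ_R K ε`, `η R → 0`, one functional `bd`
  with the literal `NullFacts`, above everything which is below `F R + G R` for all
  `R` with `ε * R ≤ σ ε`.
* `nullFacts_enc` : the same with `G = encM`, the encounter event; `nullFacts_encB` : with one more
  measurable functional, null uniformly over the laws `PX`.
-/

set_option autoImplicit false
set_option linter.unusedSectionVars false

open MeasureTheory Set Filter Topology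
open scoped Classical ENNReal
open Crest.AnalysisR.Kinetic
open Crest.Agent.R122.GC311 Crest.Agent.R122.Kin796 Crest.Agent.R122.Kin796.CTree
open Crest.Agent.R122.Tree674 Crest.Agent.R122.EDefs602 Crest.Agent.R122.GSCalc495
open Crest.Agent.R122.Gate424 Crest.Agent.R122.Gate973 Crest.Agent.R122.OS2Calc495
open Crest.Agent.R122.Boost969 (LSt)
open Crest.Agent.R122.Pair292 (Lab PPar PX)
open Crest.Agent.R122.PairD292 Crest.Agent.R122.PairRep581 Crest.Agent.R122.GateOS2495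

noncomputable section

namespace Crest.Agent.R122.Third741

variable {Φ : Space3 → ℝ} {f₀ : PhasePoint → ℝ} {ε : ℝ}

/-! ### The initial density -/

/-- Finite moment of a majorized density. -/
theorem MajF.mom_ne_top {A : Space3 → ℝ≥0∞} {C b : ℝ} (h : MajF f₀ A C b) (hb : 0 < b) :
    ∫⁻ z, ENNReal.ofReal (f₀ z) * ENNReal.ofReal (1 + ‖z.2‖ ^ 2) ≠ ∞ := by
  have hm : Measurable fun v : Space3 => wG b v * ENNReal.ofReal ((1 + ‖v‖) ^ 4) :=
    (measurable_wG1 b).mul (by fun_prop)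
  have h1 : ∫⁻ z, ENNReal.ofReal (f₀ z) * ENNReal.ofReal (1 + ‖z.2‖ ^ 2) ≤
      ∫⁻ z : PhasePoint, A z.1 * (wG b z.2 * ENNReal.ofReal ((1 + ‖z.2‖) ^ 4)) := by
    refine lintegral_mono fun z => ?_
    have h2 : (1 : ℝ) + ‖z.2‖ ^ 2 ≤ (1 + ‖z.2‖) ^ 4 := by
      have h0 : 0 ≤ ‖z.2‖ := norm_nonneg _
      nlinarith [mul_nonneg h0 h0, mul_nonneg (mul_nonneg h0 h0) h0,
        mul_nonneg (mul_nonneg h0 h0) (mul_nonneg h0 h0)]
    refine (mul_le_mul' (h.le z) (ENNReal.ofReal_le_ofReal h2)).trans (le_of_eq ?_)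
    rw [mul_assoc]
    unfold wG
    rw [neg_mul]
  refine ne_top_of_le_ne_top ?_ h1
  have hvol : (volume : Measure PhasePoint) =
      (volume : Measure Space3).prod (volume : Measure Space3) := rfl
  rw [hvol, lintegral_prod_mul h.meas.aemeasurable hm.aemeasurable]
  exact ENNReal.mul_ne_top h.fin (mom4_wG_ne_top hb)

/-- **The standing hypotheses on the initial density from the data of S0162.** -/
theorem FOk.of_kdata {β T : ℝ} {f : ℝ → PhasePoint → ℝ}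
    (hD : Master566.KData Φ β T f₀ f) :
    ∃ (A : Space3 → ℝ≥0∞) (C : ℝ), FOk f₀ A C (2 * β) := by
  obtain ⟨A, C, hC, hA, hfin, hle, hmaj⟩ := exists_majorant hD.gaussian
  have hb : 0 < 2 * β := by linarith [hD.beta_pos]
  have hM : MajF f₀ A C (2 * β) := ⟨hC, hA, hfin, hle, hmaj⟩
  refine ⟨A, C, ⟨hD.contDiff.continuous.measurable, ?_, hb, hM, hM.mom_ne_top hb⟩⟩
  rw [← ofReal_integral_eq_lintegral_ofReal hD.integrable
    (Filter.Eventually.of_forall hD.nonneg), hD.mass, ENNReal.ofReal_one]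

/-! ### Selection -/

/-- A family of functionals with a radius whose structure integrals are small for large radius. -/
def RSlot (Φ : Space3 → ℝ) (f₀ : PhasePoint → ℝ) (Q : EPar) (T' : ℝ)
    (ν : ℕ → ℝ → Measure (Lab × LSt)) (G : ℕ → ℕ → ℝ → SF2) : Prop :=
  ∃ (D η : ℕ → ℝ≥0∞), (∀ K, D K ≠ ∞) ∧ Tendsto η atTop (𝓝 0) ∧
    ∀ R, ∃ δ : ℕ → ℝ → ℝ≥0∞, Null δ ∧ ∃ ε₁ : ℝ, 0 < ε₁ ∧ ∀ K ε, 0 < ε → ε < ε₁ →
      OS2 Φ f₀ ε Q.te T' (ν K ε) (fun P z m w θ =>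
        uG Φ ε Q.tw K P z w θ * G R K ε P z m w θ) ≤ D K * η R + δ K ε

/-- **Null facts with a radius.** -/
theorem nullFacts_sel (hΦ : AdmissiblePotential Φ) (hf : Measurable f₀) {Q : EPar} {T' : ℝ}
    {J : Type} [Countable J] {ι : J → ℕ → Type} [∀ j K, Fintype (ι j K)]
    {ν : J → ℕ → ℝ → Measure (Lab × LSt)} {S : ∀ j K, ι j K → Shp}
    (hR : ∀ j K, Rep (ν j K) (S j K)) (hB : ∀ j K s, StandardBorelSpace (S j K s).Θ)
    (hν : ∀ j K ε, 0 < ε → SFinite (ν j K ε)) {F G : ℕ → ℕ → ℝ → SF2}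
    (hF : ∀ (R : ℕ) j K P s, P.leaves ≤ K → FNull f₀ (osP Φ f₀ Q.te T' K P (S j K s))
      (pullS Φ Q.te T' K (F R K) P (S j K s)))
    (hGm : ∀ R K ε, 0 < ε → MeasSF2 (G R K ε))
    (hG : ∀ j, RSlot Φ f₀ Q T' (ν j) G)
    {σ : ℝ → ℝ} (hσ : ∀ R : ℕ, ∃ ε₀ : ℝ, 0 < ε₀ ∧ ∀ ε, 0 < ε → ε < ε₀ → ε * R ≤ σ ε)
    (hok : ∀ j K ε, 0 < ε → OkAE Φ ε K (ν j K ε))
    (hbad : ∀ j, Null fun K ε => BAD Φ f₀ ε K Q (ν j K ε)) :
    ∃ bd : ℕ → ℝ → SF2,
      (∀ (K : ℕ) (ε : ℝ), 0 < ε → ∀ P : CTree, P.leaves ≤ K →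
        ∀ z (m : ℕ) (w : Config m) (θ : Lab × LSt), w ∈ PairExcluded ε m →
          Valid Φ ε P T' z.1.2 z.2 → (z, θ.2) ∈ OneC423.ctSet Φ ε Q.te P → OkL K θ →
          ∀ c : ℝ≥0∞, (∀ R : ℕ, ε * R ≤ σ ε →
            c ≤ F R K ε P z m w θ + G R K ε P z m w θ) → c ≤ bd K ε P z m w θ) ∧
      ∀ j, NullFacts Φ f₀ Q T' bd (ν j) := by
  choose b hb1 hb2 using fun R : ℕ => nullFacts_fam hΦ hf hR hB (F := F R) (hF R) hok hbad
  refine ⟨fun K ε P z m w θ => ⨅ R : ℕ, if ε * (R : ℝ) ≤ σ ε then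
    b R K ε P z m w θ + G R K ε P z m w θ else ∞, ?_, fun j => ⟨hok j, hbad j, ?_, ?_⟩⟩
  · intro K ε hε P hP z m w θ hw hz hc hL c h
    refine le_iInf fun R => ?_
    split_ifs with h1
    · exact (h R h1).trans (add_le_add (hb1 R K ε hε P hP z m w θ hw hz hc hL) le_rfl)
    · exact le_top
  · intro K ε hε P m
    refine Measurable.iInf fun R => ?_
    by_cases h1 : ε * (R : ℝ) ≤ σ ε
    · simp only [if_pos h1]
      exact ((hb2 R j).meas K ε hε P m).add (hGm R K ε hε P m)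
    · simp only [if_neg h1]
      exact measurable_const
  · intro K δ hδ
    obtain ⟨D, η, hD, hη, hGle⟩ := hG j
    have h3 : 0 < δ / 3 := by positivity
    have hDη : Tendsto (fun R => D K * η R) atTop (𝓝 0) := by
      have h4 := ENNReal.Tendsto.const_mul (a := D K) hη (Or.inr (hD K))
      rwa [mul_zero] at h4
    have h5 : ∀ᶠ R in atTop, D K * η R ≤ ENNReal.ofReal (δ / 3) :=
      (ENNReal.tendsto_nhds_zero.1 hDη) _ (ENNReal.ofReal_pos.2 h3)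
    obtain ⟨R, hRle⟩ := h5.exists
    obtain ⟨δ', hδ', ε₁, hε₁, hle⟩ := hGle R
    obtain ⟨ε₂, hε₂, h2⟩ := hδ' K (δ / 3) h3
    obtain ⟨ε₃, hε₃, h3'⟩ := (hb2 R j).link K (δ / 3) h3
    obtain ⟨ε₄, hε₄, h4'⟩ := hσ R
    refine ⟨min (min ε₁ ε₂) (min ε₃ ε₄), by positivity, fun ε hε hlt => ?_⟩
    have l1 : ε < ε₁ := hlt.trans_le ((min_le_left _ _).trans (min_le_left _ _))
    have l2 : ε < ε₂ := hlt.trans_le ((min_le_left _ _).trans (min_le_right _ _))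
    have l3 : ε < ε₃ := hlt.trans_le ((min_le_right _ _).trans (min_le_left _ _))
    have l4 : ε < ε₄ := hlt.trans_le ((min_le_right _ _).trans (min_le_right _ _))
    have hs := hν j K ε hε
    calc OS2 Φ f₀ ε Q.te T' (ν j K ε) (fun P z m w θ => uG Φ ε Q.tw K P z w θ *
          ⨅ R : ℕ, if ε * (R : ℝ) ≤ σ ε then
            b R K ε P z m w θ + G R K ε P z m w θ else ∞)
        ≤ OS2 Φ f₀ ε Q.te T' (ν j K ε) (fun P z m w θ =>
            uG Φ ε Q.tw K P z w θ * b R K ε P z m w θ +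
              uG Φ ε Q.tw K P z w θ * G R K ε P z m w θ) := by
          refine OS2_mono fun P z m w θ => ?_
          rw [← mul_add]
          refine mul_le_mul' le_rfl ((iInf_le _ R).trans (le_of_eq ?_))
          exact if_pos (h4' ε hε l4)
      _ = OS2 Φ f₀ ε Q.te T' (ν j K ε) (fun P z m w θ =>
            uG Φ ε Q.tw K P z w θ * b R K ε P z m w θ) +
          OS2 Φ f₀ ε Q.te T' (ν j K ε) (fun P z m w θ =>
            uG Φ ε Q.tw K P z w θ * G R K ε P z m w θ) :=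
          OS2_add hΦ hf ((measV_uG hΦ hε Q.tw K).mul
            (MeasSF2.measV hΦ ((hb2 R j).meas K ε hε))) _
      _ ≤ ENNReal.ofReal (δ / 3) + (ENNReal.ofReal (δ / 3) + ENNReal.ofReal (δ / 3)) :=
          add_le_add (h3' ε hε l3) ((hle K ε hε l1).trans (add_le_add hRle (h2 ε hε l2)))
      _ = ENNReal.ofReal δ := by
          rw [← ENNReal.ofReal_add h3.le h3.le, ← ENNReal.ofReal_add h3.le (by positivity)]
          congr 1
          ring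

/-- The slack `√ε` allows every fixed radius. -/
theorem sqrt_slot (R : ℕ) : ∃ ε₀ : ℝ, 0 < ε₀ ∧ ∀ ε : ℝ, 0 < ε → ε < ε₀ → ε * R ≤ Real.sqrt ε := by
  have hR : (0 : ℝ) < (R : ℝ) + 1 := by positivity
  refine ⟨(((R : ℝ) + 1) ^ 2)⁻¹, by positivity, fun ε hε hlt => ?_⟩
  have hs := Real.sqrt_nonneg ε
  have h1 : Real.sqrt ε * Real.sqrt ε = ε := Real.mul_self_sqrt hε.le
  have h2 : Real.sqrt ε ≤ ((R : ℝ) + 1)⁻¹ := by
    rw [Real.sqrt_le_left (by positivity), inv_pow]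
    exact hlt.le
  have h3 : Real.sqrt ε * R ≤ 1 := by
    calc Real.sqrt ε * R ≤ ((R : ℝ) + 1)⁻¹ * ((R : ℝ) + 1) :=
          mul_le_mul h2 (by linarith) (Nat.cast_nonneg R) (by positivity)
      _ = 1 := inv_mul_cancel₀ hR.ne'
  calc ε * R = Real.sqrt ε * (Real.sqrt ε * R) := by rw [← mul_assoc, h1]
    _ ≤ Real.sqrt ε * 1 := mul_le_mul_of_nonneg_left h3 hs
    _ = Real.sqrt ε := mul_one _

/-- Sum of a functional with a radius and a null measurable functional. -/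
theorem RSlot.add_null (hΦ : AdmissiblePotential Φ) (hf : Measurable f₀) {Q : EPar} {T' : ℝ}
    {ν : ℕ → ℝ → Measure (Lab × LSt)} (hν : ∀ K ε, 0 < ε → SFinite (ν K ε))
    {G : ℕ → ℕ → ℝ → SF2} (hG : RSlot Φ f₀ Q T' ν G) {B : ℕ → ℝ → SF2}
    (hBm : ∀ K ε, 0 < ε → MeasSF2 (B K ε)) {δB : ℕ → ℝ → ℝ≥0∞} (hδB : Null δB) {ε₁ : ℝ}
    (hε₁ : 0 < ε₁)
    (hB : ∀ K ε, 0 < ε → ε < ε₁ → OS2 Φ f₀ ε Q.te T' (ν K ε) (B K ε) ≤ δB K ε) :
    RSlot Φ f₀ Q T' ν fun R K ε P z m w θ => B K ε P z m w θ + G R K ε P z m w θ := by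
  obtain ⟨D, η, hD, hη, h⟩ := hG
  refine ⟨D, η, hD, hη, fun R => ?_⟩
  obtain ⟨δ, hδ, ε₂, hε₂, h2⟩ := h R
  refine ⟨fun K ε => δB K ε + δ K ε, hδB.add hδ, min ε₁ ε₂, lt_min hε₁ hε₂,
    fun K ε hε hlt => ?_⟩
  have hs := hν K ε hε
  calc OS2 Φ f₀ ε Q.te T' (ν K ε) (fun P z m w θ => uG Φ ε Q.tw K P z w θ *
        (B K ε P z m w θ + G R K ε P z m w θ))
      = OS2 Φ f₀ ε Q.te T' (ν K ε) (fun P z m w θ => uG Φ ε Q.tw K P z w θ * B K ε P z m w θ) +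
        OS2 Φ f₀ ε Q.te T' (ν K ε) (fun P z m w θ =>
          uG Φ ε Q.tw K P z w θ * G R K ε P z m w θ) := by
        simp only [mul_add]
        exact OS2_add hΦ hf ((measV_uG hΦ hε Q.tw K).mul (MeasSF2.measV hΦ (hBm K ε hε))) _
    _ ≤ δB K ε + (D K * η R + δ K ε) := by
        refine add_le_add ?_ (h2 K ε hε (hlt.trans_le (min_le_right _ _)))
        exact (OS2_mono fun P z m w θ => mul_le_of_le_one_left bot_le uG_le_one).trans
          (hB K ε hε (hlt.trans_le (min_le_left _ _)))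
    _ = D K * η R + (δB K ε + δ K ε) := by ring

/-- The slot `hG` of `nullFacts_sel` for the encounter functional. -/
theorem encM_slot (hΦ : AdmissiblePotential Φ) {A : Space3 → ℝ≥0∞} {C b g0 : ℝ}
    (hF : FOk f₀ A C b) {Q : EPar} (hQ : QOk Q g0) {PP : ℕ → PPar} (hP : PPOk Q PP) (T' : ℝ)
    {ν Ξ : ℕ → ℝ → Measure (Lab × LSt)} {c : ℝ≥0∞} (hc : c ≠ ∞) {ε₁ : ℝ} (hε₁ : 0 < ε₁)
    (hPX : ∀ K ε, 0 < ε → ε < ε₁ → PX (PP K) (Ξ K ε) (ν K ε) c) :
    RSlot Φ f₀ Q T' ν fun R K ε => encM Φ (R : ℝ) K Q.te ε := by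
  obtain ⟨D, hD, h⟩ := encM_OS2_le hΦ hF hQ hP T'
  refine ⟨fun K => c * D K, fun R => lamR Φ (b / 2) (R : ℝ), fun K => ENNReal.mul_ne_top hc (hD K),
    (tendsto_lamR hΦ (half_pos hF.b_pos)).comp tendsto_natCast_atTop_atTop, fun R => ?_⟩
  obtain ⟨δ, hδ, hle⟩ := h R (Nat.cast_nonneg R)
  refine ⟨fun K ε => c * δ K ε, hδ.const_mul hc, ε₁, hε₁, fun K ε hε hlt => ?_⟩
  refine ((OS2_mono fun P z m w θ => mul_le_of_le_one_left bot_le uG_le_one).trans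
    (hle K ε hε _ _ c hc (hPX K ε hε hlt))).trans (le_of_eq ?_)
  rw [mul_add, mul_assoc]


/-- **Null facts of inequality 3, encounter event and one more measurable functional `B`, null
uniformly over the laws `PX`, included** (`B` : births near the gas). -/
theorem nullFacts_encB (hΦ : AdmissiblePotential Φ) {A : Space3 → ℝ≥0∞} {C b g0 : ℝ}
    (hF₀ : FOk f₀ A C b) {Q : EPar} (hQ : QOk Q g0) {PP : ℕ → PPar} (hP : PPOk Q PP) {T' : ℝ}
    {J : Type} [Countable J] {ι : J → ℕ → Type} [∀ j K, Fintype (ι j K)]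
    {ν Ξ : J → ℕ → ℝ → Measure (Lab × LSt)} {S : ∀ j K, ι j K → Shp}
    (hR : ∀ j K, Rep (ν j K) (S j K)) (hB : ∀ j K s, StandardBorelSpace (S j K s).Θ)
    (hν : ∀ j K ε, 0 < ε → SFinite (ν j K ε)) {c : J → ℝ≥0∞} (hc : ∀ j, c j ≠ ∞)
    {ε₁ : J → ℝ} (hε₁ : ∀ j, 0 < ε₁ j)
    (hPX : ∀ j K ε, 0 < ε → ε < ε₁ j → PX (PP K) (Ξ j K ε) (ν j K ε) (c j))
    {F : ℕ → ℕ → ℝ → SF2}
    (hF : ∀ (R : ℕ) j K P s, P.leaves ≤ K → FNull f₀ (osP Φ f₀ Q.te T' K P (S j K s))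
      (pullS Φ Q.te T' K (F R K) P (S j K s)))
    {B : ℕ → ℝ → SF2} (hBm : ∀ K ε, 0 < ε → MeasSF2 (B K ε)) {δB : ℕ → ℝ → ℝ≥0∞}
    (hδB : Null δB) (hBle : ∀ K ε, 0 < ε → ∀ (Ξ ν : Measure (Lab × LSt)) (c : ℝ≥0∞), c ≠ ∞ →
      PX (PP K) Ξ ν c → OS2 Φ f₀ ε Q.te T' ν (B K ε) ≤ c * δB K ε)
    {σ : ℝ → ℝ} (hσ : ∀ R : ℕ, ∃ ε₀ : ℝ, 0 < ε₀ ∧ ∀ ε, 0 < ε → ε < ε₀ → ε * R ≤ σ ε)
    (hok : ∀ j K ε, 0 < ε → OkAE Φ ε K (ν j K ε))
    (hbad : ∀ j, Null fun K ε => BAD Φ f₀ ε K Q (ν j K ε)) :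
    ∃ bd : ℕ → ℝ → SF2,
      (∀ (K : ℕ) (ε : ℝ), 0 < ε → ∀ P : CTree, P.leaves ≤ K →
        ∀ z (m : ℕ) (w : Config m) (θ : Lab × LSt), w ∈ PairExcluded ε m →
          Valid Φ ε P T' z.1.2 z.2 → (z, θ.2) ∈ OneC423.ctSet Φ ε Q.te P → OkL K θ →
          ∀ c : ℝ≥0∞, (∀ R : ℕ, ε * R ≤ σ ε →
            c ≤ F R K ε P z m w θ + (B K ε P z m w θ +
              encM Φ (R : ℝ) K Q.te ε P z m w θ)) →
            c ≤ bd K ε P z m w θ) ∧
      ∀ j, NullFacts Φ f₀ Q T' bd (ν j) :=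
  nullFacts_sel hΦ hF₀.meas hR hB hν (F := F)
    (G := fun R K ε P z m w θ => B K ε P z m w θ + encM Φ (R : ℝ) K Q.te ε P z m w θ) hF
    (fun R K ε hε => MeasSF2.add' (hBm K ε hε) (measSF2_encM hΦ hε (R : ℝ) K Q.te))
    (fun j => (encM_slot hΦ hF₀ hQ hP T' (hc j) (hε₁ j) (hPX j)).add_null hΦ hF₀.meas (hν j) hBm
      (hδB.const_mul (hc j)) (hε₁ j) fun K ε hε hlt => hBle K ε hε _ _ (c j) (hc j)
        (hPX j K ε hε hlt)) hσ hok hbad

end Crest.Agent.R122.Third741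

end
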