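import Crest.Agent.R122.GenericHid_491

-- ▼ part R122/GenericAvoid_491
section

/-!
Row 122 (helper491): the legs of a straight-line tree which are not on the root line never meet a
fixed moving point (line) other than the root line: for every root line `ℓ ≠ z` and almost every
parameter, no non-straight leg (extended to all times) is at the same place at the same time as `z`.
-/

set_option autoImplicit false

open MeasureTheory Crest.AnalysisR.Kinetic Set
open scoped Classical ENNReal RealInnerProductSpace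

noncomputable section

namespace Crest.Agent.R122.Generic491

open Kin796 Kin796.CTree Disc416 Tree674 Kin416 Boltz814 Hid424

variable {Φ : Space3 → ℝ} {l r : CTree}

/-- the relative motion `D.1 + u • D.2` vanishes at some time -/
def Hit (D : PhasePoint) : Prop := ∃ u : ℝ, D.1 + u • D.2 = 0

lemma hit_iff (D : PhasePoint) :
    Hit D ↔ (‖D.2‖ ^ 2) • D.1 = ⟪D.1, D.2⟫ • D.2 ∧ (D.2 = 0 → D.1 = 0) := by
  constructor
  · rintro ⟨u, hu⟩
    have h1 : D.1 = -(u • D.2) := eq_neg_of_add_eq_zero_left hu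
    constructor
    · rw [h1, inner_neg_left, inner_smul_left, real_inner_self_eq_norm_sq]
      simp only [conj_trivial]
      module
    · intro h; rw [h1, h]; simp
  · rintro ⟨h1, h2⟩
    by_cases h : D.2 = 0
    · exact ⟨0, by rw [h2 h, h]; simp⟩
    · have hn : ‖D.2‖ ^ 2 ≠ 0 := by
        simpa using h
      refine ⟨-(⟪D.1, D.2⟫ / ‖D.2‖ ^ 2), ?_⟩
      have : D.1 = (⟪D.1, D.2⟫ / ‖D.2‖ ^ 2) • D.2 := by
        rw [div_eq_inv_mul, mul_smul, ← h1, smul_smul, inv_mul_cancel₀ hn, one_smul]
      rw [neg_smul, ← this]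
      exact add_neg_cancel _

lemma measurableSet_hit : MeasurableSet {D : PhasePoint | Hit D} := by
  have h : {D : PhasePoint | Hit D} = {D : PhasePoint | (‖D.2‖ ^ 2) • D.1 = ⟪D.1, D.2⟫ • D.2} ∩
      ({D : PhasePoint | D.2 = 0}ᶜ ∪ {D : PhasePoint | D.1 = 0}) := by
    ext D
    simp only [mem_ofPred_eq, mem_inter_iff, mem_union, mem_compl_iff]
    rw [hit_iff]
    tauto
  rw [h]
  refine (measurableSet_eq_fun ?_ ?_).inter ?_
  · exact ((measurable_snd.norm).pow_const 2).smul measurable_fst
  · have h1 : Measurable fun D : Space3 × Space3 => ⟪D.1, D.2⟫ :=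
      (measurable_fst (α := Space3) (β := Space3)).inner (𝕜 := ℝ)
        (measurable_snd (α := Space3) (β := Space3))
    exact h1.smul measurable_snd
  · exact (measurable_snd (measurableSet_singleton 0)).compl.union
      (measurable_fst (measurableSet_singleton 0))

/-- two moving points meet -/
lemma hit_sub_iff (L z : PhasePoint) : Hit (L - z) ↔ ∃ u : ℝ, (onLine L u).1 = (onLine z u).1 := by
  unfold Hit onLine
  refine exists_congr fun u => ?_
  simp only [Prod.fst_sub, Prod.snd_sub]
  rw [← sub_eq_zero (a := L.1 + u • L.2)]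
  constructor
  · intro h; rw [← h]; module
  · intro h; rw [← h]; module

lemma hit_zero : Hit 0 := ⟨0, by simp⟩

lemma hit_shL (A c : Space3) (L z : PhasePoint) :
    Hit (shL A c L - z) ↔ Hit (L - shL (-A) (-c) z) := by
  have : shL A c L - z = L - shL (-A) (-c) z := by
    apply Prod.ext
    · simp; abel
    · simp; abel
  rw [this]

/-- a moving point through `0` at time `s` with velocity `v` meets `z`: then `v` is on a line -/
lemma hit_through {s : ℝ} {v : Space3} {z : PhasePoint} (h : Hit ((-(s • v), v) - z))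
    (hz : z.1 + s • z.2 ≠ 0) : ∃ t : ℝ, v = z.2 + t • (z.1 + s • z.2) := by
  obtain ⟨u, hu⟩ := h
  simp only [Prod.fst_sub, Prod.snd_sub] at hu
  have h1 : (u - s) • v = (z.1 + s • z.2) + (u - s) • z.2 := by
    have : (u - s) • v - ((z.1 + s • z.2) + (u - s) • z.2) = 0 := by rw [← hu]; module
    exact sub_eq_zero.1 this
  have hus : u - s ≠ 0 := by
    intro h0
    rw [h0] at h1
    apply hz
    simpa using h1.symm
  refine ⟨(u - s)⁻¹, ?_⟩
  have h2 : v = (u - s)⁻¹ • ((u - s) • v) := by rw [smul_smul, inv_mul_cancel₀ hus, one_smul]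
  rw [h2, h1, smul_add, smul_smul, inv_mul_cancel₀ hus, one_smul]
  abel

/-! ### Null lines -/

lemma ae_not_line (B C : Space3) : ∀ᵐ w : Space3, ∀ t : ℝ, w ≠ B + t • C := by
  have h1 : (volume : Measure Space3) (lineSet B C) = 0 :=
    measure_lineSet volume (fun R => R.measurePreserving.map_eq) B C
  have h2 : ∀ᵐ w : Space3, w ∉ lineSet B C := compl_mem_ae_iff.2 h1
  filter_upwards [h2, ae_ne_zero] with w h3 h4 t ht
  exact h3 ⟨h4, t, ht⟩

theorem ae_dl_line (hΦ : AdmissiblePotential Φ) (S : ScatFacts Φ) (α β : ℝ) (B C : Space3) :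
    ∀ᵐ p : Space3 × Plane, dl Φ α β p ≠ 0 → ∀ t : ℝ, dl Φ α β p ≠ B + t • C := by
  have h1 := ae_dl hΦ S α β B C
  have h2 : ∀ᵐ p : Space3 × Plane, p.1 ≠ 0 :=
    (Measure.quasiMeasurePreserving_fst (μ := (volume : Measure Space3))
      (ν := (volume : Measure Plane))).ae ae_ne_zero
  have h3 : ∀ᵐ p : Space3 × Plane, ∀ t : ℝ, p.1 ≠ (α + β)⁻¹ • B + t • ((α + β)⁻¹ • C) :=
    (Measure.quasiMeasurePreserving_fst (μ := (volume : Measure Space3))
      (ν := (volume : Measure Plane))).ae (ae_not_line _ _)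
  filter_upwards [h1, h2, h3] with p hp1 hp2 hp3 hne t
  by_cases hy : ‖p.2‖ < 1
  · exact hp1 hy hne t
  · have hnot : frameMap p.1 p.2 ∉ impactDisc p.1 := by
      intro hmem
      have h4 : ‖frameMap p.1 p.2‖ < 1 := hmem.2
      rw [norm_frameMap hp2] at h4
      exact hy h4
    have hval : dl Φ α β p = (α + β) • p.1 := by
      unfold dl exitM
      rw [if_neg hnot, add_smul]
    intro h
    rw [hval] at h hne
    have hab : α + β ≠ 0 := by
      intro h0
      rw [h0, zero_smul] at hne
      exact hne rfl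
    apply hp3 t
    have h5 : p.1 = (α + β)⁻¹ • ((α + β) • p.1) := by
      rw [smul_smul, inv_mul_cancel₀ hab, one_smul]
    rw [h5, h, smul_add, smul_comm t]

lemma ae_snd_of {p : Space3 × Plane → Prop} (h : ∀ᵐ c : Space3 × Plane, p c) :
    ∀ᵐ a : NodeP, p a.2 :=
  (Measure.quasiMeasurePreserving_snd (μ := (volume : Measure ℝ))
    (ν := (volume : Measure (Space3 × Plane)))).ae h

lemma ae_fst_ne (s : ℝ) : ∀ᵐ a : NodeP, a.1 ≠ s :=
  (Measure.quasiMeasurePreserving_fst (μ := (volume : Measure ℝ))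
    (ν := (volume : Measure (Space3 × Plane)))).ae
    (compl_mem_ae_iff.2 (MeasureTheory.measure_singleton s))

/-- for almost all times, the moving point `z ≠ 0` is not at the origin -/
lemma ae_time_ne {z : PhasePoint} (hz : z ≠ 0) : ∀ᵐ a : NodeP, z.1 + a.1 • z.2 ≠ 0 := by
  by_cases h : ∃ u : ℝ, z.1 + u • z.2 = 0
  · obtain ⟨u, hu⟩ := h
    filter_upwards [ae_fst_ne u] with a ha h2
    have h3 : (a.1 - u) • z.2 = 0 := by
      have : (a.1 - u) • z.2 = (z.1 + a.1 • z.2) - (z.1 + u • z.2) := by module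
      rw [this, h2, hu, sub_zero]
    have h4 : z.2 = 0 := (smul_eq_zero.1 h3).resolve_left (sub_ne_zero.2 ha)
    rw [h4, smul_zero, add_zero] at hu
    exact hz (Prod.ext hu h4)
  · push Not at h
    exact Filter.Eventually.of_forall fun a => h a.1

/-- velocity of a leg starting on the root line -/
theorem ae_node_line {f : NodeP → Space3} (hf : Measurable f)
    (h : ∀ B C : Space3, ∀ᵐ c : Space3 × Plane, ∀ s : ℝ, f (s, c) ≠ 0 → ∀ t : ℝ,
      f (s, c) ≠ B + t • C) {z : PhasePoint} (hz : z ≠ 0) :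
    ∀ᵐ a : NodeP, f a ≠ 0 → ¬ Hit ((-(a.1 • f a), f a) - z) := by
  have hm : MeasurableSet {a : NodeP | f a ≠ 0 → z.1 + a.1 • z.2 ≠ 0 →
      ¬ Hit ((-(a.1 • f a), f a) - z)} := by
    have m1 : MeasurableSet {a : NodeP | f a = 0} := hf (measurableSet_singleton 0)
    have m2 : MeasurableSet {a : NodeP | z.1 + a.1 • z.2 = 0} :=
      (((measurable_fst (α := ℝ) (β := Space3 × Plane)).smul_const z.2).const_add z.1)
        (measurableSet_singleton 0)
    have m3 : MeasurableSet {a : NodeP | Hit ((-(a.1 • f a), f a) - z)} :=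
      ((((measurable_fst.smul hf).neg.prodMk hf)).sub_const z) measurableSet_hit
    have : {a : NodeP | f a ≠ 0 → z.1 + a.1 • z.2 ≠ 0 → ¬ Hit ((-(a.1 • f a), f a) - z)} =
        {a : NodeP | f a = 0} ∪ ({a : NodeP | z.1 + a.1 • z.2 = 0} ∪
          {a : NodeP | Hit ((-(a.1 • f a), f a) - z)}ᶜ) := by
      ext a
      simp only [mem_ofPred_eq, mem_union, mem_compl_iff]
      tauto
    rw [this]
    exact m1.union (m2.union m3.compl)
  have h1 : ∀ᵐ a : NodeP, f a ≠ 0 → z.1 + a.1 • z.2 ≠ 0 → ¬ Hit ((-(a.1 • f a), f a) - z) := by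
    refine ae_prod_of_left (μ := (volume : Measure ℝ)) (ν := (volume : Measure (Space3 × Plane)))
      hm fun s => ?_
    filter_upwards [h z.2 (z.1 + s • z.2)] with c hc h2 h3 h4
    obtain ⟨t, ht⟩ := hit_through h4 h3
    exact hc s h2 t ht
  filter_upwards [h1, ae_time_ne hz] with a ha ha' h2
  exact ha h2 ha'

theorem ae_vM_hit (hΦ : AdmissiblePotential Φ) (S : ScatFacts Φ) {z : PhasePoint} (hz : z ≠ 0) :
    ∀ᵐ a : NodeP, vM Φ a ≠ 0 → ¬ Hit ((-(a.1 • vM Φ a), vM Φ a) - z) := by
  refine ae_node_line (measurable_vM S) (fun B C => ?_) hz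
  have hneg : MeasurePreserving (fun c : Space3 => 0 - c) (volume : Measure Space3) volume := by
    have := Measure.measurePreserving_neg (volume : Measure Space3)
    simpa only [zero_sub] using this
  have hqmp : MeasurePreserving (fun c : Space3 × Plane => (0 - c.1, c.2))
      (volume : Measure (Space3 × Plane)) volume :=
    hneg.prod (MeasurePreserving.id _)
  filter_upwards [hqmp.quasiMeasurePreserving.ae (ae_dl_line hΦ S (1 / 2) (-(1 / 2)) (-B) (-C))]
    with c hc s h2 t ht
  have e : dl Φ (1 / 2) (-(1 / 2)) (0 - c.1, c.2) = -vM Φ (s, c) := by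
    unfold vM gy; rw [neg_neg]
  refine hc (fun h => h2 ?_) t ?_
  · rw [e] at h; exact neg_eq_zero.1 h
  · rw [e, ht]; module

theorem ae_wM_hit (hΦ : AdmissiblePotential Φ) (S : ScatFacts Φ) {z : PhasePoint} (hz : z ≠ 0) :
    ∀ᵐ a : NodeP, wM Φ a ≠ 0 → ¬ Hit ((-(a.1 • wM Φ a), wM Φ a) - z) := by
  refine ae_node_line (measurable_wM S) (fun B C => ?_) hz
  have hneg : MeasurePreserving (fun c : Space3 => 0 - c) (volume : Measure Space3) volume := by
    have := Measure.measurePreserving_neg (volume : Measure Space3)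
    simpa only [zero_sub] using this
  have hqmp : MeasurePreserving (fun c : Space3 × Plane => (0 - c.1, c.2))
      (volume : Measure (Space3 × Plane)) volume :=
    hneg.prod (MeasurePreserving.id _)
  filter_upwards [hqmp.quasiMeasurePreserving.ae (ae_dl_line hΦ S (1 / 2) (1 / 2) (-B) (-C))]
    with c hc s h2 t ht
  have e : dl Φ (1 / 2) (1 / 2) (0 - c.1, c.2) = -wM Φ (s, c) := by
    unfold wM gy; rw [neg_neg]
  refine hc (fun h => h2 ?_) t ?_
  · rw [e] at h; exact neg_eq_zero.1 h
  · rw [e, ht]; module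

theorem ae_out_hit {z : PhasePoint} (hz : z ≠ 0) :
    ∀ᵐ a : NodeP, ¬ Hit ((-(a.1 • a.2.1), a.2.1) - z) := by
  have h1 := ae_node_line (f := fun a : NodeP => a.2.1) (measurable_fst.comp measurable_snd)
    (fun B C => by
      have h : ∀ᵐ c : Space3 × Plane, ∀ t : ℝ, c.1 ≠ B + t • C :=
        (Measure.quasiMeasurePreserving_fst (μ := (volume : Measure Space3))
          (ν := (volume : Measure Plane))).ae (ae_not_line B C)
      filter_upwards [h] with c hc s _ t
      exact hc t) hz
  have h2 : ∀ᵐ a : NodeP, a.2.1 ≠ 0 :=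
    ae_snd_of (p := fun c : Space3 × Plane => c.1 ≠ 0)
      ((Measure.quasiMeasurePreserving_fst (μ := (volume : Measure Space3))
        (ν := (volume : Measure Plane))).ae ae_ne_zero)
  filter_upwards [h1, h2] with a h1 h2
  exact h1 h2

/-! ### Legs never meet a fixed moving point -/

lemma shL_ne_zero {A c : Space3} {z : PhasePoint} (h : z ≠ (-A, -c)) : shL A c z ≠ 0 := by
  intro h0
  apply h
  have h1 := congrArg Prod.fst h0
  have h2 := congrArg Prod.snd h0
  simp only [shL_fst, shL_snd, Prod.fst_zero, Prod.snd_zero] at h1 h2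
  exact Prod.ext (eq_neg_of_add_eq_zero_left h1) (eq_neg_of_add_eq_zero_left h2)

theorem ae_segM_hit (hΦ : AdmissiblePotential Φ) (S : ScatFacts Φ) (P : CTree) (k : Seg P)
    {z : PhasePoint} (hz : z ≠ 0) : ∀ᵐ q : Par P, ¬ StrM Φ P q k → ¬ Hit (segM Φ P q k - z) := by
  induction P generalizing z with
  | leaf => exact Filter.Eventually.of_forall fun q h => absurd trivial h
  | node l r hl hr =>
    have hmp := measurePreserving_relM S l r
    have hfst : Measurable fun z : NodeP × (Par l × Par r) => z.1.1 :=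
      measurable_fst.comp measurable_fst
    have hv1 : Measurable fun z : NodeP × (Par l × Par r) => vM Φ z.1 :=
      (measurable_vM S).comp measurable_fst
    have hw1 : Measurable fun z : NodeP × (Par l × Par r) => wM Φ z.1 :=
      (measurable_wM S).comp measurable_fst
    rcases seg_cases k with ⟨k, rfl⟩ | ⟨k, rfl⟩ | rfl | rfl
    · -- left branch
      have hs : Measurable fun z : NodeP × (Par l × Par r) => segM Φ l z.2.1 k :=
        (measurable_segM S l k).comp (measurable_fst.comp measurable_snd)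
      have h1 : ∀ᵐ b ∂((volume : Measure NodeP).prod
          ((volume : Measure (Par l)).prod (volume : Measure (Par r)))),
          ¬ StrM Φ l b.2.1 k → z ≠ (-(b.1.1 • vM Φ b.1), vM Φ b.1) →
            ¬ Hit (shL (-(b.1.1 • vM Φ b.1)) (vM Φ b.1) (segM Φ l b.2.1 k) - z) := by
        refine ae_prod_of_left ?_ ?_
        · have m1 : MeasurableSet {b : NodeP × (Par l × Par r) | StrM Φ l b.2.1 k} :=
            (measurable_fst.comp measurable_snd) (measurableSet_strM S l k)
          have m2 : MeasurableSet {b : NodeP × (Par l × Par r) |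
              Hit (shL (-(b.1.1 • vM Φ b.1)) (vM Φ b.1) (segM Φ l b.2.1 k) - z)} :=
            ((((measurable_fst.comp hs).add (hfst.smul hv1).neg).prodMk
              ((measurable_snd.comp hs).add hv1)).sub_const z) measurableSet_hit
          have m3 : MeasurableSet {b : NodeP × (Par l × Par r) |
              z = (-(b.1.1 • vM Φ b.1), vM Φ b.1)} :=
            measurableSet_eq_fun measurable_const ((hfst.smul hv1).neg.prodMk hv1)
          have hset : {b : NodeP × (Par l × Par r) | ¬ StrM Φ l b.2.1 k →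
              z ≠ (-(b.1.1 • vM Φ b.1), vM Φ b.1) →
              ¬ Hit (shL (-(b.1.1 • vM Φ b.1)) (vM Φ b.1) (segM Φ l b.2.1 k) - z)} =
              {b | StrM Φ l b.2.1 k} ∪ ({b | z = (-(b.1.1 • vM Φ b.1), vM Φ b.1)} ∪
              {b | Hit (shL (-(b.1.1 • vM Φ b.1)) (vM Φ b.1) (segM Φ l b.2.1 k) - z)}ᶜ) := by
            ext b; simp only [mem_ofPred_eq, mem_union, mem_compl_iff]; tauto
          rw [hset]; exact m1.union (m3.union m2.compl)
        · intro a
          by_cases hza : z = (-(a.1 • vM Φ a), vM Φ a)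
          · exact Filter.Eventually.of_forall fun b _ h => absurd hza h
          · have hz' : shL (a.1 • vM Φ a) (-vM Φ a) z ≠ 0 := by
              refine shL_ne_zero ?_
              rwa [neg_neg]
            have h2 := (Measure.quasiMeasurePreserving_fst (μ := (volume : Measure (Par l)))
              (ν := (volume : Measure (Par r)))).ae (hl k hz')
            filter_upwards [h2] with b hb hn _
            rw [hit_shL, neg_neg]
            exact hb hn
      have h3 : ∀ᵐ b ∂((volume : Measure NodeP).prod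
          ((volume : Measure (Par l)).prod (volume : Measure (Par r)))),
          vM Φ b.1 ≠ 0 → ¬ Hit ((-(b.1.1 • vM Φ b.1), vM Φ b.1) - z) :=
        (Measure.quasiMeasurePreserving_fst (μ := (volume : Measure NodeP))
          (ν := (volume : Measure (Par l)).prod (volume : Measure (Par r)))).ae
          (ae_vM_hit hΦ S hz)
      have h1' := hmp.quasiMeasurePreserving.ae h1
      have h3' := hmp.quasiMeasurePreserving.ae h3
      filter_upwards [h1', h3'] with q f1 f3 hn
      obtain ⟨a, pl, pr, rfl⟩ := exists_mkP q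
      rw [relM_mkP] at f1 f3
      rw [strM_segL] at hn
      rw [segM_segL]
      by_cases hk : StrM Φ l (boostP l (-vM Φ a) pl) k
      · have hv : vM Φ a ≠ 0 := fun h => hn ⟨h, hk⟩
        rw [segM_of_strM l _ k hk]
        have e : shL (-(a.1 • vM Φ a)) (vM Φ a) (0 : PhasePoint) = (-(a.1 • vM Φ a), vM Φ a) := by
          apply Prod.ext <;> simp
        rw [e]
        exact f3 hv
      · refine f1 hk ?_
        by_cases hv : vM Φ a = 0
        · rintro rfl
          apply hz
          simp only [hv]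
          apply Prod.ext <;> simp
        · rintro rfl
          apply f3 hv
          rw [sub_self]; exact hit_zero
    · -- right branch
      have hs : Measurable fun z : NodeP × (Par l × Par r) => segM Φ r z.2.2 k :=
        (measurable_segM S r k).comp (measurable_snd.comp measurable_snd)
      have h1 : ∀ᵐ b ∂((volume : Measure NodeP).prod
          ((volume : Measure (Par l)).prod (volume : Measure (Par r)))),
          ¬ StrM Φ r b.2.2 k → z ≠ (-(b.1.1 • wM Φ b.1), wM Φ b.1) →
            ¬ Hit (shL (-(b.1.1 • wM Φ b.1)) (wM Φ b.1) (segM Φ r b.2.2 k) - z) := by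
        refine ae_prod_of_left ?_ ?_
        · have m1 : MeasurableSet {b : NodeP × (Par l × Par r) | StrM Φ r b.2.2 k} :=
            (measurable_snd.comp measurable_snd) (measurableSet_strM S r k)
          have m2 : MeasurableSet {b : NodeP × (Par l × Par r) |
              Hit (shL (-(b.1.1 • wM Φ b.1)) (wM Φ b.1) (segM Φ r b.2.2 k) - z)} :=
            ((((measurable_fst.comp hs).add (hfst.smul hw1).neg).prodMk
              ((measurable_snd.comp hs).add hw1)).sub_const z) measurableSet_hit
          have m3 : MeasurableSet {b : NodeP × (Par l × Par r) |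
              z = (-(b.1.1 • wM Φ b.1), wM Φ b.1)} :=
            measurableSet_eq_fun measurable_const ((hfst.smul hw1).neg.prodMk hw1)
          have hset : {b : NodeP × (Par l × Par r) | ¬ StrM Φ r b.2.2 k →
              z ≠ (-(b.1.1 • wM Φ b.1), wM Φ b.1) →
              ¬ Hit (shL (-(b.1.1 • wM Φ b.1)) (wM Φ b.1) (segM Φ r b.2.2 k) - z)} =
              {b | StrM Φ r b.2.2 k} ∪ ({b | z = (-(b.1.1 • wM Φ b.1), wM Φ b.1)} ∪
              {b | Hit (shL (-(b.1.1 • wM Φ b.1)) (wM Φ b.1) (segM Φ r b.2.2 k) - z)}ᶜ) := by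
            ext b; simp only [mem_ofPred_eq, mem_union, mem_compl_iff]; tauto
          rw [hset]; exact m1.union (m3.union m2.compl)
        · intro a
          by_cases hza : z = (-(a.1 • wM Φ a), wM Φ a)
          · exact Filter.Eventually.of_forall fun b _ h => absurd hza h
          · have hz' : shL (a.1 • wM Φ a) (-wM Φ a) z ≠ 0 := by
              refine shL_ne_zero ?_
              rwa [neg_neg]
            have h2 := (Measure.quasiMeasurePreserving_snd (μ := (volume : Measure (Par l)))
              (ν := (volume : Measure (Par r)))).ae (hr k hz')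
            filter_upwards [h2] with b hb hn _
            rw [hit_shL, neg_neg]
            exact hb hn
      have h3 : ∀ᵐ b ∂((volume : Measure NodeP).prod
          ((volume : Measure (Par l)).prod (volume : Measure (Par r)))),
          wM Φ b.1 ≠ 0 → ¬ Hit ((-(b.1.1 • wM Φ b.1), wM Φ b.1) - z) :=
        (Measure.quasiMeasurePreserving_fst (μ := (volume : Measure NodeP))
          (ν := (volume : Measure (Par l)).prod (volume : Measure (Par r)))).ae
          (ae_wM_hit hΦ S hz)
      have h1' := hmp.quasiMeasurePreserving.ae h1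
      have h3' := hmp.quasiMeasurePreserving.ae h3
      filter_upwards [h1', h3'] with q f1 f3 hn
      obtain ⟨a, pl, pr, rfl⟩ := exists_mkP q
      rw [relM_mkP] at f1 f3
      rw [strM_segR] at hn
      rw [segM_segR]
      by_cases hk : StrM Φ r (boostP r (-wM Φ a) pr) k
      · have hv : wM Φ a ≠ 0 := fun h => hn ⟨h, hk⟩
        rw [segM_of_strM r _ k hk]
        have e : shL (-(a.1 • wM Φ a)) (wM Φ a) (0 : PhasePoint) = (-(a.1 • wM Φ a), wM Φ a) := by
          apply Prod.ext <;> simp
        rw [e]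
        exact f3 hv
      · refine f1 hk ?_
        by_cases hv : wM Φ a = 0
        · rintro rfl
          apply hz
          simp only [hv]
          apply Prod.ext <;> simp
        · rintro rfl
          apply f3 hv
          rw [sub_self]; exact hit_zero
    · refine Filter.Eventually.of_forall fun q hn => absurd ?_ hn
      obtain ⟨a, pl, pr, rfl⟩ := exists_mkP q
      exact strM_segT _ _ _
    · have h2 : ∀ᵐ b ∂((volume : Measure NodeP).prod
          ((volume : Measure (Par l)).prod (volume : Measure (Par r)))),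
          ¬ Hit ((-(b.1.1 • b.1.2.1), b.1.2.1) - z) :=
        (Measure.quasiMeasurePreserving_fst (μ := (volume : Measure NodeP))
          (ν := (volume : Measure (Par l)).prod (volume : Measure (Par r)))).ae (ae_out_hit hz)
      filter_upwards [hmp.quasiMeasurePreserving.ae h2] with q hq _
      obtain ⟨a, pl, pr, rfl⟩ := exists_mkP q
      rw [relM_mkP] at hq
      rw [segM_segF]
      exact hq


/-! ### Consequences for paths -/


/-- on a straight leg the particle is on the root line -/
lemma path_of_str (P : CTree) (ℓ : PhasePoint) (p : Par P) (i : Idx P) (u : ℝ)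
    (h : Str Φ P ℓ.2 p (legOf P p u i)) : path Φ 0 P ℓ p u i = onLine ℓ u := by
  rw [path_eq_seg, seg_of_str P ℓ p _ h]




end Crest.Agent.R122.Generic491

end
end

-- ▼ part R122/TubeChild1_491


/-!
Row 122, block FT (helper491): children of a tube family, part 1 (deterministic).

A tree `P` is glued to the tube `i0` of a family of curves at the time `s`: its root line enters the
tube (impact parameter `y`, velocity `v`, velocity `V` of the tube).  If at `ε = 0` the tree meets the
curves of the family only at the glueing point, then for small `ε` no protected particle of the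
`ε`-tree is within `ε` of the curves before time `s`.
-/

set_option autoImplicit false

open MeasureTheory Set Filter
open scoped ENNReal Topology Classical RealInnerProductSpace
open Crest.AnalysisR.Kinetic

noncomputable section

namespace Crest.Agent.R122.TubeChild491

open Kin796 Kin796.CTree Disc416 Tree674 Boltz814 TreeEps399 Hid424 Generic491

variable {Φ : Space3 → ℝ}

/-! ### Generalities -/

/-- a statement which holds locally in time and eventually holds on compact time intervals
eventually -/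
theorem eventually_of_local' {ι : Type*} {l : Filter ι} {T : ℝ} {R : ι → ℝ → Prop}
    (h : ∀ s ∈ Icc 0 T, ∃ δ > 0, ∀ᶠ k in l, ∀ u : ℝ, |u - s| < δ → u ∈ Icc 0 T → R k u) :
    ∀ᶠ k in l, ∀ u ∈ Icc 0 T, R k u := by
  choose! δ hδ hev using h
  obtain ⟨t, ht, hcov⟩ := isCompact_Icc.elim_nhds_subcover (fun s => Metric.ball s (δ s))
    (fun s hs => Metric.ball_mem_nhds s (hδ s hs))
  have h1 : ∀ᶠ k in l, ∀ s ∈ t, ∀ u : ℝ, |u - s| < δ s → u ∈ Icc 0 T → R k u :=
    (Finset.eventually_all t).mpr fun s hs => hev s (ht s hs)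
  filter_upwards [h1] with k hk u hu
  obtain ⟨s, hs, hus⟩ := mem_iUnion₂.mp (hcov hu)
  exact hk s hs u (by rwa [Metric.mem_ball, Real.dist_eq] at hus) hu

/-- the protected times of the other particles are before the final time -/
theorem prot_lt : ∀ (P : CTree) (T : ℝ) (v : Space3) (p : Par P),
    Tree674.Ord Φ 0 P T v p → ∀ i, i ≠ root P → prot P T p i < T
  | leaf, _, _, _, _, i, h => absurd (Subsingleton.elim (α := Unit) i ()) h
  | node l r, T, v, p, h, i, hi => by
      have hs : Tree674.sin Φ 0 v p.1 = p.1.1 := sin_zero v p.1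
      have hT : p.1.1 < T := h.1
      have hl := h.2.2.1
      have hr := h.2.2.2
      rw [hs] at hl hr
      rcases i with i | i
      · have hi' : i ≠ root l := fun h' => hi (by rw [h']; rfl)
        have h2 : prot (node l r) T p (Sum.inl i) = prot l T p.2.1 i := rfl
        rw [h2, PathFlow968.prot_eq_of_ne l T p.1.1 p.2.1 hi']
        exact (PathFlow968.prot_le le_rfl l _ _ p.2.1 hl i).trans_lt hT
      · have h2 : prot (node l r) T p (Sum.inr i) = prot r p.1.1 p.2.2 i := rfl
        rw [h2]
        exact (PathFlow968.prot_le le_rfl r _ _ p.2.2 hr i).trans_lt hT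

/-- before the entrance the relative distance is `> ε` -/
theorem entrance_lt {ε t : ℝ} (hε : 0 < ε) {b g : Space3} (hb : ‖b‖ < 1) (hbg : ⟪b, g⟫ = 0)
    (hg : g ≠ 0) (ht : t < 0) : ε < ‖ε • entrancePoint b g + t • g‖ := by
  have hn : 0 < ‖g‖ := norm_pos_iff.2 hg
  have e1 : ε • entrancePoint b g + t • g =
      ε • b + (t - ε * (Real.sqrt (1 - ‖b‖ ^ 2) / ‖g‖)) • g := by
    unfold entrancePoint; module
  have h2 : ‖ε • entrancePoint b g + t • g‖ ^ 2 =
      ε ^ 2 * ‖b‖ ^ 2 + (t - ε * (Real.sqrt (1 - ‖b‖ ^ 2) / ‖g‖)) ^ 2 * ‖g‖ ^ 2 := by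
    rw [e1, norm_add_sq_real, inner_smul_left, inner_smul_right, hbg, norm_smul, norm_smul]
    simp only [Real.norm_eq_abs, mul_pow, sq_abs, conj_trivial]
    ring
  set r := Real.sqrt (1 - ‖b‖ ^ 2) with hr
  have hr0 : 0 ≤ r := Real.sqrt_nonneg _
  have hr2 : r ^ 2 = 1 - ‖b‖ ^ 2 := Real.sq_sqrt (by nlinarith [norm_nonneg b])
  have h3 : (t - ε * (r / ‖g‖)) ^ 2 * ‖g‖ ^ 2 = (t * ‖g‖ - ε * r) ^ 2 := by
    rw [← mul_pow]; congr 1; field_simp
  have h4 : ε ^ 2 < ‖ε • entrancePoint b g + t • g‖ ^ 2 := by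
    rw [h2, h3]
    have h5 : t * ‖g‖ < 0 := mul_neg_of_neg_of_pos ht hn
    have h6 : 0 ≤ ε * r := mul_nonneg hε.le hr0
    nlinarith [mul_nonneg h6 (neg_nonneg.2 h5.le), sq_nonneg (t * ‖g‖), mul_pos_of_neg_of_neg h5 h5]
  exact lt_of_pow_lt_pow_left₀ 2 (norm_nonneg _) h4

/-- root line entering at time `s` the tube which is at `x` at time `s`, with velocity `V` -/
def rootAt (ε : ℝ) (x V v : Space3) (y : Plane) (s : ℝ) : PhasePoint :=
  (x + ε • entrancePoint (frameMap (v - V) y) (v - V) - s • v, v)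


lemma onLine_rootAt (ε : ℝ) (x V v : Space3) (y : Plane) (s u : ℝ) :
    (onLine (rootAt ε x V v y s) u).1 =
      x + ε • entrancePoint (frameMap (v - V) y) (v - V) + (u - s) • v := by
  unfold onLine rootAt; module

/-- convergence of the trajectories with moving root positions, along any filter -/
theorem path_close' {ι : Type*} {l : Filter ι} {ε : ι → ℝ} (hε : Tendsto ε l TreeEps399.L)
    (P : CTree) (v : Space3) (p : Par P) (T : ℝ) (hV : Valid Φ 0 P T v p) {X : ι → Space3}
    {X0 : Space3} (hX : Tendsto X l (𝓝 X0)) {η : ℝ} (hη : 0 < η) :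
    ∀ᶠ k in l, ∀ (u : ℝ) (i : Idx P),
      dist (path Φ (ε k) P (X k, v) p u i).1 (path Φ 0 P (X0, v) p u i).1 < η := by
  have h1 := hε.eventually (path_close P v p T hV.1 hV.2 (fun _ => 0) 0 tendsto_const_nhds
    (η / 2) (half_pos hη))
  have h2 := (Metric.tendsto_nhds.1 hX) (η / 2) (half_pos hη)
  filter_upwards [h1, h2] with k a1 a2 u i
  have a3 := a1 u i
  rw [path_shift (ε k) P (X k), path_shift 0 P X0]
  simp only
  calc dist ((path Φ (ε k) P (0, v) p u i).1 + X k) ((path Φ 0 P (0, v) p u i).1 + X0)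
      ≤ dist (path Φ (ε k) P (0, v) p u i).1 (path Φ 0 P (0, v) p u i).1 + dist (X k) X0 :=
        dist_add_add_le _ _ _ _
    _ < η := by linarith

/-! ### Tubes of a tree: uniform Lipschitz bound, uniform convergence, velocities -/

/-- validity only improves with the final time -/
theorem valid_mono {ε : ℝ} : ∀ (P : CTree) {T T' : ℝ} (_ : T ≤ T') (v : Space3) (p : Par P),
    Valid Φ ε P T v p → Valid Φ ε P T' v p
  | leaf, _, _, _, _, _, h => h
  | node _ _, _, _, hT, _, _, h => ⟨h.1, h.2.1.trans_le hT, h.2.2⟩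

/-- one Lipschitz constant for the trajectories of the `ε`-trees, moving root positions -/
theorem pathlip (hΦ : AdmissiblePotential Φ) {ι : Type*} {l : Filter ι} {ε : ι → ℝ}
    (hε : Tendsto ε l TreeEps399.L) {P : CTree} {v : Space3} {p : Par P} {T : ℝ} (hT : 0 ≤ T)
    (hV : Valid Φ 0 P T v p) (hG : Gen Φ P (0, v) p) (X : ι → Space3) :
    ∃ M : NNReal, (∀ᶠ k in l, ∀ i : Idx P,
      LipschitzOnWith M (fun u => (path Φ (ε k) P (X k, v) p u i).1) (Icc 0 T)) ∧
      ∀ (X0 : Space3) (i : Idx P),
        LipschitzOnWith M (fun u => (path Φ 0 P (X0, v) p u i).1) (Icc 0 T) := by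
  obtain ⟨M, hM, hev⟩ := curve_lip hΦ hT hV hG
  obtain ⟨M', hM', h0⟩ := path0_lip hΦ hT hV hG
  refine ⟨Real.toNNReal (max M M'), ?_, fun X0 i => ?_⟩
  · filter_upwards [hε.eventually hev, hε.eventually (eventually_good hΦ hV hG)] with k h1 h2 i
    rw [lipschitzOnWith_iff_dist_le_mul]
    intro t ht s hs
    rw [← curve_eq_path hΦ h2.1 h2.2.1 (h2.2.2 (X k)) ht i,
      ← curve_eq_path hΦ h2.1 h2.2.1 (h2.2.2 (X k)) hs i, Real.dist_eq]
    refine (h1 (X k) s t i).trans ?_
    refine mul_le_mul_of_nonneg_right ?_ (abs_nonneg _)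
    exact (le_max_left M M').trans (Real.le_coe_toNNReal _)
  · rw [lipschitzOnWith_iff_dist_le_mul]
    intro t ht s hs
    rw [Real.dist_eq]
    refine (h0 X0 s hs t ht i).trans ?_
    refine mul_le_mul_of_nonneg_right ?_ (abs_nonneg _)
    exact (le_max_right M M').trans (Real.le_coe_toNNReal _)

/-- uniform convergence of the trajectories, moving root positions -/
theorem pathunif {ι : Type*} {l : Filter ι} {ε : ι → ℝ}
    (hε : Tendsto ε l TreeEps399.L) {P : CTree} {v : Space3} {p : Par P} {T : ℝ}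
    (hV : Valid Φ 0 P T v p) {X : ι → Space3} {X0 : Space3} (hX : Tendsto X l (𝓝 X0)) (A : Set ℝ)
    (i : Idx P) :
    TendstoUniformlyOn (fun k u => (path Φ (ε k) P (X k, v) p u i).1)
      (fun u => (path Φ 0 P (X0, v) p u i).1) l A := by
  rw [Metric.tendstoUniformlyOn_iff]
  intro η hη
  filter_upwards [path_close' hε P v p T hV hX hη] with k hk u _
  rw [dist_comm]
  exact hk u i

/-- velocities: near a time which is not a node time, all the trajectories are straight with the
velocities of the limit -/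
theorem pathvel {ι : Type*} {l : Filter ι} {ε : ι → ℝ}
    (hε : Tendsto ε l TreeEps399.L) {P : CTree} {v : Space3} {p : Par P} {s : ℝ}
    (hs : NotTime P p s) (X : ι → Space3) (X0 : Space3) :
    ∃ (w : Idx P → Space3) (δ : ℝ), 0 < δ ∧
      (∀ i, ∀ u ∈ Metric.ball s δ,
        HasDerivAt (fun u => (path Φ 0 P (X0, v) p u i).1) (w i) u) ∧
      ∀ᶠ k in l, ∀ i, ∀ u ∈ Metric.ball s δ,
        HasDerivAt (fun u => (path Φ (ε k) P (X k, v) p u i).1) (w i) u := by
  obtain ⟨w, δ, hδ, h0, hev⟩ := path_local (Φ := Φ) P v p s hs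
  have key : ∀ (ε' : ℝ) (Y : Space3), LocLine Φ ε' P v p s δ w → ∀ i, ∀ u ∈ Metric.ball s δ,
      HasDerivAt (fun u => (path Φ ε' P (Y, v) p u i).1) (w i) u := by
    intro ε' Y hL i u hu
    have h1 : (fun u => (path Φ ε' P (Y, v) p u i).1) =ᶠ[𝓝 u]
        fun u => (path Φ ε' P (Y, v) p s i).1 + (u - s) • w i := by
      filter_upwards [Metric.isOpen_ball.mem_nhds hu] with u' hu'
      rw [hL Y u' (by rwa [Metric.mem_ball, Real.dist_eq] at hu') i]
    refine HasDerivAt.congr_of_eventuallyEq ?_ h1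
    have h2 : HasDerivAt (fun u : ℝ => (u - s) • w i) ((1 : ℝ) • w i) u :=
      ((hasDerivAt_id u).sub_const s).smul_const (w i)
    rw [one_smul] at h2
    exact h2.const_add _
  refine ⟨w, δ, hδ, key 0 X0 h0, ?_⟩
  filter_upwards [hε.eventually hev] with k hk
  exact key (ε k) (X k) hk

variable {κ : Type} [Fintype κ]

/-- **F3 (deterministic)**: eventually the entrance of the root is the first good hit. -/
theorem first_hit_eventually {ι : Type*} {l : Filter ι} {ε : ι → ℝ}
    (hε : Tendsto ε l TreeEps399.L) {T s : ℝ} (hsT : s ≤ T)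
    {c : ι → κ → ℝ → Space3} {c0 : κ → ℝ → Space3} {b : ι → κ → ℝ} {b0 : κ → ℝ}
    (hcc : ∀ η > 0, ∀ᶠ k in l, ∀ i, ∀ u ∈ Icc 0 T, dist (c k i u) (c0 i u) < η)
    (hc0 : ∀ i, ContinuousOn (c0 i) (Icc 0 T))
    (hb : ∀ i, Tendsto (fun k => b k i) l (𝓝 (b0 i)))
    (i0 : κ) {V : Space3}
    (hloc : ∃ δ > 0, ∀ᶠ k in l, ∀ u, s - δ < u → u ≤ s → u ∈ Icc 0 T →
      c k i0 u = c k i0 s + (u - s) • V)
    {P : CTree} {v : Space3} {y : Plane} {p : Par P} (hvV : v ≠ V) (hy : ‖y‖ < 1)
    (hs0 : 0 ≤ s) (hV : Valid Φ 0 P s v p)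
    (hne : ∀ (i : κ) (j : Idx P), ∀ u ∈ Icc 0 s, u ≤ b0 i → u ≤ prot P s p j →
      (path Φ 0 P (c0 i0 s - s • v, v) p u j).1 = c0 i u → i = i0 ∧ u = s) :
    ∀ᶠ k in l, ∀ u ∈ Ico 0 s, ∀ j : Idx P, u ≤ prot P s p j → ∀ i, u ≤ b k i →
      ε k < dist (path Φ (ε k) P (rootAt (ε k) (c k i0 s) V v y s) p u j).1 (c k i u) := by
  have hε0 : Tendsto ε l (𝓝 0) := hε.mono_right nhdsWithin_le_nhds
  have hεp : ∀ᶠ k in l, 0 < ε k := hε.eventually eventually_pos
  have hxs : Tendsto (fun k => c k i0 s) l (𝓝 (c0 i0 s)) := by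
    rw [Metric.tendsto_nhds]
    intro η hη
    filter_upwards [hcc η hη] with k hk
    exact hk i0 s ⟨hs0, hsT⟩
  have hX : Tendsto (fun k => (rootAt (ε k) (c k i0 s) V v y s).1) l (𝓝 (c0 i0 s - s • v)) := by
    have h1 : Tendsto (fun k => ε k • entrancePoint (frameMap (v - V) y) (v - V)) l (𝓝 0) := by
      have := hε0.smul_const (entrancePoint (frameMap (v - V) y) (v - V))
      rwa [zero_smul] at this
    have h2 := (hxs.add h1).sub_const (s • v)
    rw [add_zero] at h2
    exact h2
  -- it suffices to treat one pair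
  suffices hpair : ∀ (i : κ) (j : Idx P), ∀ᶠ k in l, ∀ u ∈ Icc 0 s, u < s →
      u ≤ prot P s p j → u ≤ b k i →
      ε k < dist (path Φ (ε k) P (rootAt (ε k) (c k i0 s) V v y s) p u j).1 (c k i u) by
    have h1 := eventually_all.2 fun i : κ => eventually_all.2 fun j : Idx P => hpair i j
    filter_upwards [h1] with k hk u hu j hj i hi
    exact hk i j u ⟨hu.1, hu.2.le⟩ hu.2 hj hi
  intro i j
  refine eventually_of_local' fun u0 hu0 => ?_
  -- inactive tube
  by_cases hbi : b0 i < u0
  · refine ⟨(u0 - b0 i) / 2, by linarith, ?_⟩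
    have h1 : ∀ᶠ k in l, b k i < b0 i + (u0 - b0 i) / 2 :=
      (hb i).eventually (gt_mem_nhds (by linarith))
    filter_upwards [h1] with k hk u hu _ _ _ hu2
    have := (abs_lt.1 hu).1
    exfalso
    linarith
  -- inactive particle
  by_cases hpj : prot P s p j < u0
  · refine ⟨u0 - prot P s p j, by linarith, Eventually.of_forall fun k u hu _ _ hu2 _ => ?_⟩
    have := (abs_lt.1 hu).1
    exfalso
    linarith
  push Not at hbi hpj
  by_cases hd : (path Φ 0 P (c0 i0 s - s • v, v) p u0 j).1 = c0 i u0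
  · -- the glueing point
    obtain ⟨rfl, rfl⟩ := hne i j u0 hu0 hbi hpj hd
    have hj : j = root P := by
      by_contra hj
      exact absurd (prot_lt P u0 v p hV.2 j hj) (not_lt.2 hpj)
    subst hj
    obtain ⟨δ1, hδ1, hev⟩ := hloc
    obtain ⟨δ2, hδ2, htop⟩ := exists_top (top_of_ord hV.2)
    refine ⟨min δ1 δ2, lt_min hδ1 hδ2, ?_⟩
    filter_upwards [hev, hεp] with k h1 h2 u hu hu2 hu3 _ _
    have hu4 := (abs_lt.1 hu).1
    have hm1 := min_le_left δ1 δ2
    have hm2 := min_le_right δ1 δ2
    have hT : Top P p u := htop.mono (by linarith)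
    rw [path_root h2.le hT, onLine_rootAt, h1 u (by linarith) hu3.le ⟨hu2.1, hu2.2.trans hsT⟩,
      dist_eq_norm]
    have e : c k i u0 + ε k • entrancePoint (frameMap (v - V) y) (v - V) + (u - u0) • v -
        (c k i u0 + (u - u0) • V) =
        ε k • entrancePoint (frameMap (v - V) y) (v - V) + (u - u0) • (v - V) := by module
    rw [e]
    have hg : v - V ≠ 0 := sub_ne_zero.2 hvV
    refine entrance_lt h2 ?_ ?_ hg (by linarith)
    · rwa [norm_frameMap hg]
    · exact Disc416.inner_frameMap_self _ _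
  · -- distinct points
    set d := dist (path Φ 0 P (c0 i0 s - s • v, v) p u0 j).1 (c0 i u0) with hdd
    have hd0 : 0 < d := dist_pos.2 hd
    have hc1 : ContinuousWithinAt (fun u => dist (path Φ 0 P (c0 i0 s - s • v, v) p u j).1
        (c0 i u)) (Icc 0 T) u0 := by
      have hp : Continuous fun u => (path Φ 0 P (c0 i0 s - s • v, v) p u j).1 :=
        TreeEps399.continuous_path0 P (c0 i0 s - s • v, v) p s hV.2 j
      exact hp.continuousWithinAt.dist ((hc0 i) u0 ⟨hu0.1, hu0.2.trans hsT⟩)
    have hev : ∀ᶠ u in 𝓝[Icc 0 T] u0, d / 2 < dist (path Φ 0 P (c0 i0 s - s • v, v) p u j).1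
        (c0 i u) := hc1.eventually (lt_mem_nhds (by linarith))
    obtain ⟨δ, hδ, hball⟩ := Metric.mem_nhdsWithin_iff.1 hev
    refine ⟨δ, hδ, ?_⟩
    filter_upwards [path_close' hε P v p s hV hX (show 0 < d / 8 by linarith),
      hcc (d / 8) (by linarith), hε0.eventually (gt_mem_nhds (show 0 < d / 8 by linarith))]
      with k a1 a2 a3 u hu hu2 hu3 _ _
    have hu4 : u ∈ Icc 0 T := ⟨hu2.1, hu2.2.trans hsT⟩
    have a4 : d / 2 < dist (path Φ 0 P (c0 i0 s - s • v, v) p u j).1 (c0 i u) :=
      hball ⟨by rwa [Metric.mem_ball, Real.dist_eq], hu4⟩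
    have a5 : dist (path Φ (ε k) P (rootAt (ε k) (c k i0 s) V v y s) p u j).1
        (path Φ 0 P (c0 i0 s - s • v, v) p u j).1 < d / 8 := a1 u j
    have a6 := a2 i u hu4
    have a7 := dist_triangle4 (path Φ 0 P (c0 i0 s - s • v, v) p u j).1
      (path Φ (ε k) P (rootAt (ε k) (c k i0 s) V v y s) p u j).1 (c k i u) (c0 i u)
    rw [dist_comm] at a5
    linarith

end Crest.Agent.R122.TubeChild491

end
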