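import Crest.Agent.R122.BadHit_370
import Crest.Agent.R122.Mom_974
import Crest.Agent.R122.HitG4_167
import Crest.Agent.R122.GIVDefs_566
import Crest.Agent.R122.HitNull_167
import Crest.Agent.R122.IDefs_317
import Crest.Agent.R122.RtGDet_302
import Crest.Agent.R122.InEq2Defs_311
import Crest.Agent.R122.GIVChild_383
import Crest.Agent.R122.IStep3_317
import Crest.Agent.R122.TubeChild1_491

-- ▼ part R122/XAvg_370
section

/-!
# Translation average of the entrance of one cluster into a tube family (row 122, helper370)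

`RootHit Φ ε γ t x V j` : in the isolated world `V` the particle `j` comes within `ε` of a curve
`γ a + x` before `t`.
* `lintegral_rootHit_le` : for fixed `V` the volume of the translations with `RootHit` is at most
  `8 c₃ |α| ε² (ε + ∫₀ᵗ (M + |v_j|))`, through a jointly measurable majorant.
* `lintegral_root_le` : the configuration form. An `x`-dependent functional of `(V, j)` which is
  bounded by `1[RootHit] * E V j` integrates over `x` to at most
  `C ε² ∫ gcWeight V ∑_j Wt(V) E V j`.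
-/

set_option autoImplicit false
open MeasureTheory Set
open scoped Classical ENNReal
open Crest.AnalysisR.Kinetic
open Crest.Agent.R122.GC311 Crest.Agent.R122.Causal291 Crest.Agent.R122.Master566
open Crest.Agent.R122.EW370 Crest.Agent.R122.NEK370 Crest.Agent.R122.Sweep815
open Crest.Agent.R122.BadHit370
noncomputable section

namespace Crest.Agent.R122.XAvg370

variable {Φ : Space3 → ℝ} {f₀ : PhasePoint → ℝ} {ε : ℝ} {α : Type*}

/-- In the isolated world `V` the particle `j` meets the translated family before `t`. -/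
def RootHit (Φ : Space3 → ℝ) (ε : ℝ) (γ : α → ℝ → Space3) (t : ℝ) (x : Space3) {k : ℕ}
    (V : Config k) (j : Fin k) : Prop :=
  ∃ s ∈ Icc 0 t, ∃ a, dist (γ a s + x) (pth Φ ε V s j).1 ≤ ε

/-- occupation indicator -/
def hocc (Φ : Space3 → ℝ) (ε : ℝ) (γ : α → ℝ → Space3) (x : Space3) {k : ℕ}
    (V : Config k) (u : ℝ) (a : α) (j : Fin k) : ℝ≥0∞ :=
  if dist (γ a u + x) (pth Φ ε V u j).1 ≤ 2 * ε then 1 else 0

/-- The majorant of the indicator of `RootHit`. -/
def hmaj [Fintype α] (Φ : Space3 → ℝ) (ε : ℝ) (γ : α → ℝ → Space3) (M t : ℝ) (x : Space3) {k : ℕ}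
    (V : Config k) (j : Fin k) : ℝ≥0∞ :=
  ∑ a, (hocc Φ ε γ x V t a j + (ENNReal.ofReal ε)⁻¹ * ∫⁻ u in Icc 0 t,
    hocc Φ ε γ x V u a j * spd Φ ε M V u j)

theorem rootHit_le_hmaj [Fintype α] (hΦ : AdmissiblePotential Φ) (hε : 0 < ε)
    {γ : α → ℝ → Space3} {M t : ℝ}
    (hM : 0 ≤ M) (hγ : ∀ a, ∀ s ∈ Icc 0 t, ∀ s' ∈ Icc 0 t, dist (γ a s) (γ a s') ≤ M * |s - s'|)
    (x : Space3) {k : ℕ} {V : Config k} (hV : V ∈ PairExcluded ε k) (j : Fin k) :
    (if RootHit Φ ε γ t x V j then (1 : ℝ≥0∞) else 0) ≤ hmaj Φ ε γ M t x V j := by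
  split_ifs with h
  swap
  · exact bot_le
  obtain ⟨s0, hs0, a, hd⟩ := h
  have hfar : ∀ i j : Fin k, i ≠ j → ε ≤ dist (V i).1 (V j).1 := fun i j h => (hV i j h).le
  have hDom : V ∈ Flow671.Dom Φ (Fin k) := Loc45.Dom_of_far hε hfar
  have hcont : Continuous fun s => Flow671.flow Φ ε s V := Flow671.flow_continuous_time hΦ hε V
  have hder : ∀ s, HasDerivAt (fun s => (Flow671.flow Φ ε s V j).1)
      (Flow671.flow Φ ε s V j).2 s := by
    intro s
    have h1 := (hasDerivAt_pi.1 (Flow671.flow_hasDerivAt hΦ hε hDom s)) j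
    exact h1.fst
  have hc2 : Continuous fun s => (Flow671.flow Φ ε s V j).2 :=
    (((continuous_apply j).comp hcont)).snd
  have hσc : Continuous fun s => M + ‖(Flow671.flow Φ ε s V j).2‖ := by fun_prop
  have hs := sweep_back (a := 0) (b := t) hε
    (d := fun s => dist (γ a s + x) (Flow671.flow Φ ε s V j).1)
    (σ := fun s => M + ‖(Flow671.flow Φ ε s V j).2‖)
    (fun s _ => by positivity) (hσc.continuousOn.integrableOn_compact isCompact_Icc)
    (by
      intro s hs s' hs' hss'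
      have h1 : (∫ u in s..s', (M + ‖(Flow671.flow Φ ε u V j).2‖)) =
          M * (s' - s) + ∫ u in s..s', ‖(Flow671.flow Φ ε u V j).2‖ := by
        rw [intervalIntegral.integral_add (by simp) (hc2.norm.intervalIntegrable _ _),
          intervalIntegral.integral_const, smul_eq_mul, mul_comm]
      have h2 : ‖(Flow671.flow Φ ε s' V j).1 - (Flow671.flow Φ ε s V j).1‖ ≤
          ∫ u in s..s', ‖(Flow671.flow Φ ε u V j).2‖ := by
        rw [← intervalIntegral.integral_eq_sub_of_hasDerivAt (fun u _ => hder u)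
          (hc2.intervalIntegrable _ _)]
        exact intervalIntegral.norm_integral_le_integral_norm hss'
      have h3 := hγ a s' hs' s hs
      rw [abs_of_nonneg (by linarith : 0 ≤ s' - s)] at h3
      have h4 : dist (γ a s' + x) (γ a s + x) = dist (γ a s') (γ a s) := by
        rw [dist_add_right]
      have h5 : dist (γ a s' + x) (Flow671.flow Φ ε s' V j).1 ≤
          dist (γ a s' + x) (γ a s + x) + dist (γ a s + x) (Flow671.flow Φ ε s V j).1 +
            dist (Flow671.flow Φ ε s V j).1 (Flow671.flow Φ ε s' V j).1 := dist_triangle4 _ _ _ _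
      rw [dist_comm (Flow671.flow Φ ε s V j).1, dist_eq_norm (Flow671.flow Φ ε s' V j).1] at h5
      rw [h1]
      linarith)
    hs0 hd
  unfold hmaj
  refine le_trans ?_ (Finset.single_le_sum (f := fun a => hocc Φ ε γ x V t a j +
    (ENNReal.ofReal ε)⁻¹ * ∫⁻ u in Icc 0 t, hocc Φ ε γ x V u a j * spd Φ ε M V u j)
    (fun _ _ => bot_le) (Finset.mem_univ a))
  rcases hs with hs | hs
  · refine le_trans (le_of_eq ?_) le_self_add
    unfold hocc
    exact (if_pos hs).symm
  · refine le_trans ?_ le_add_self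
    have h0 : ENNReal.ofReal ε ≠ 0 := by simpa using hε
    calc (1 : ℝ≥0∞) = (ENNReal.ofReal ε)⁻¹ * ENNReal.ofReal ε :=
          (ENNReal.inv_mul_cancel h0 ENNReal.ofReal_ne_top).symm
      _ ≤ (ENNReal.ofReal ε)⁻¹ * ∫⁻ u in Icc s0 t,
          {u | dist (γ a u + x) (Flow671.flow Φ ε u V j).1 ≤ 2 * ε}.indicator
            (fun u => ENNReal.ofReal (M + ‖(Flow671.flow Φ ε u V j).2‖)) u := by gcongr
      _ ≤ (ENNReal.ofReal ε)⁻¹ * ∫⁻ u in Icc s0 t,
          hocc Φ ε γ x V u a j * spd Φ ε M V u j := by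
          refine mul_le_mul_right (setLIntegral_mono' measurableSet_Icc fun u hu => ?_) _
          refine indicator_apply_le' (fun h => ?_) fun _ => bot_le
          have h' : dist (γ a u + x) (pth Φ ε V u j).1 ≤ 2 * ε := h
          unfold hocc spd
          rw [if_pos h', one_mul]
          exact le_rfl
      _ ≤ _ := mul_le_mul_right (lintegral_mono_set (Icc_subset_Icc_left hs0.1)) _

theorem measurable_hocc (hΦ : AdmissiblePotential Φ) (hε : 0 < ε) {γ : α → ℝ → Space3}
    (hγ : ∀ a, Measurable (γ a)) {k : ℕ} (a : α) (j : Fin k) :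
    Measurable fun p : ℝ × Space3 × Config k => hocc Φ ε γ p.2.1 p.2.2 p.1 a j := by
  unfold hocc
  refine Measurable.ite ?_ measurable_const measurable_const
  refine measurableSet_le (Measurable.dist ?_ ?_) measurable_const
  · exact ((hγ a).comp measurable_fst).add (measurable_fst.comp measurable_snd)
  · have h := (measurable_pth_joint (ι := Fin k) hΦ hε j).comp measurable_proj
    exact h.fst

theorem measurable_hmaj [Fintype α] (hΦ : AdmissiblePotential Φ) (hε : 0 < ε)
    {γ : α → ℝ → Space3} (hγ : ∀ a, Measurable (γ a)) (M t : ℝ) {k : ℕ} (j : Fin k) :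
    Measurable (Function.uncurry fun (x : Space3) (V : Config k) => hmaj Φ ε γ M t x V j) := by
  unfold hmaj
  simp only [Function.uncurry_def]
  refine Finset.measurable_sum _ fun a _ => ?_
  refine Measurable.add ?_ (Measurable.const_mul ?_ _)
  · have h := (measurable_hocc hΦ hε hγ a j).comp
      ((measurable_const (a := t)).prodMk (measurable_id (α := Space3 × Config k)))
    exact h
  · have h1 : Measurable fun q : (Space3 × Config k) × ℝ => (q.2, q.1) :=
      measurable_snd.prodMk measurable_fst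
    have h2 := (measurable_hocc hΦ hε hγ a j).comp h1
    have h3 : Measurable fun q : (Space3 × Config k) × ℝ => (q.2, q.1.2) :=
      measurable_snd.prodMk (measurable_snd.comp measurable_fst)
    have h4 := (measurable_spd hΦ hε M j).comp h3
    have h5 := (h2.mul h4).lintegral_prod_right' (ν := volume.restrict (Icc 0 t))
    exact h5

theorem lintegral_hocc {γ : α → ℝ → Space3} {k : ℕ} (V : Config k) (u : ℝ) (a : α) (j : Fin k) :
    ∫⁻ x, hocc Φ ε γ x V u a j = ENNReal.ofReal (2 * ε) ^ 3 * c3 := by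
  have h1 : ∀ x, hocc Φ ε γ x V u a j =
      (Metric.closedBall ((pth Φ ε V u j).1 - γ a u) (2 * ε)).indicator 1 x := by
    intro x
    unfold hocc
    have h2 : (x ∈ Metric.closedBall ((pth Φ ε V u j).1 - γ a u) (2 * ε)) ↔
        dist (γ a u + x) (pth Φ ε V u j).1 ≤ 2 * ε := by
      rw [Metric.mem_closedBall, dist_eq_norm, dist_eq_norm,
        show x - ((pth Φ ε V u j).1 - γ a u) = γ a u + x - (pth Φ ε V u j).1 by abel]
    by_cases h3 : dist (γ a u + x) (pth Φ ε V u j).1 ≤ 2 * ε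
    · rw [if_pos h3, indicator_of_mem (h2.2 h3)]; rfl
    · rw [if_neg h3, indicator_of_notMem (fun h4 => h3 (h2.1 h4))]
  simp_rw [h1]
  rw [lintegral_indicator_one Metric.isClosed_closedBall.measurableSet, vol_closedBall]

/-- The translation average of the majorant. -/
theorem lintegral_hmaj [Fintype α] (hΦ : AdmissiblePotential Φ) (hε : 0 < ε)
    {γ : α → ℝ → Space3} (hγ : ∀ a, Measurable (γ a)) (M t : ℝ) {k : ℕ} (V : Config k)
    (j : Fin k) :
    ∫⁻ x, hmaj Φ ε γ M t x V j = 8 * c3 * (Fintype.card α : ℝ≥0∞) * ENNReal.ofReal ε ^ 2 *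
      (ENNReal.ofReal ε + ∫⁻ u in Icc 0 t, spd Φ ε M V u j) := by
  have he0 : ENNReal.ofReal ε ≠ 0 := by simpa using hε
  have het : ENNReal.ofReal ε ≠ ∞ := ENNReal.ofReal_ne_top
  have hB : ENNReal.ofReal (2 * ε) ^ 3 * c3 = 8 * c3 * ENNReal.ofReal ε ^ 3 := by
    rw [ENNReal.ofReal_mul (by norm_num), mul_pow]
    norm_num
    ring
  have hm1 : ∀ a : α, Measurable fun p : ℝ × Space3 => hocc Φ ε γ p.2 V p.1 a j := by
    intro a
    have h := (measurable_hocc hΦ hε hγ a j).comp
      ((measurable_fst (α := ℝ) (β := Space3)).prodMk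
        ((measurable_snd (α := ℝ) (β := Space3)).prodMk (measurable_const (a := V))))
    exact h
  have hu : Measurable fun u : ℝ => spd Φ ε M V u j := by
    have h1 : Measurable fun u : ℝ => (u, V) := measurable_id.prodMk measurable_const
    have h := (measurable_spd hΦ hε M j).comp h1
    exact h
  have hm2 : Measurable fun p : ℝ × Space3 => spd Φ ε M V p.1 j := by
    have h2 : Measurable fun q : ℝ × Space3 => q.1 := measurable_fst
    exact hu.comp h2
  have hm3 : ∀ a : α, Measurable fun x : Space3 =>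
      (ENNReal.ofReal ε)⁻¹ * ∫⁻ u in Icc 0 t, hocc Φ ε γ x V u a j * spd Φ ε M V u j := by
    intro a
    refine Measurable.const_mul ?_ _
    have h5 := (((hm1 a).mul hm2).comp measurable_swap).lintegral_prod_right'
      (ν := volume.restrict (Icc 0 t))
    exact h5
  have hm4 : ∀ a : α, ∀ u : ℝ, Measurable fun x : Space3 => hocc Φ ε γ x V u a j := by
    intro a u
    have h := (hm1 a).comp ((measurable_const (a := u)).prodMk (measurable_id (α := Space3)))
    exact h
  calc ∫⁻ x, hmaj Φ ε γ M t x V j = ∑ a : α, ∫⁻ x, (hocc Φ ε γ x V t a j +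
        (ENNReal.ofReal ε)⁻¹ * ∫⁻ u in Icc 0 t, hocc Φ ε γ x V u a j * spd Φ ε M V u j) := by
        unfold hmaj
        rw [lintegral_finsetSum]
        exact fun a _ => (hm4 a t).add (hm3 a)
    _ = ∑ _a : α, 8 * c3 * ENNReal.ofReal ε ^ 2 *
        (ENNReal.ofReal ε + ∫⁻ u in Icc 0 t, spd Φ ε M V u j) := by
        refine Finset.sum_congr rfl fun a _ => ?_
        rw [lintegral_add_left (hm4 a t), lintegral_hocc, hB,
          lintegral_const_mul' _ _ (ENNReal.inv_ne_top.2 he0),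
          lintegral_lintegral_swap (f := fun (x : Space3) (u : ℝ) =>
            hocc Φ ε γ x V u a j * spd Φ ε M V u j)
            (((hm1 a).mul hm2).comp measurable_swap).aemeasurable]
        have h1 : ∀ u : ℝ, ∫⁻ x, hocc Φ ε γ x V u a j * spd Φ ε M V u j =
            8 * c3 * ENNReal.ofReal ε ^ 3 * spd Φ ε M V u j := by
          intro u
          rw [lintegral_mul_const _ (hm4 a u), lintegral_hocc, hB]
        simp_rw [h1]
        rw [lintegral_const_mul _ hu]
        have h4 : (ENNReal.ofReal ε)⁻¹ * (8 * c3 * ENNReal.ofReal ε ^ 3) =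
            8 * c3 * ENNReal.ofReal ε ^ 2 := by
          rw [show ENNReal.ofReal ε ^ 3 = ENNReal.ofReal ε * ENNReal.ofReal ε ^ 2 by ring]
          calc (ENNReal.ofReal ε)⁻¹ * (8 * c3 * (ENNReal.ofReal ε * ENNReal.ofReal ε ^ 2))
              = ((ENNReal.ofReal ε)⁻¹ * ENNReal.ofReal ε) * (8 * c3 * ENNReal.ofReal ε ^ 2) := by
                ring
            _ = _ := by rw [ENNReal.inv_mul_cancel he0 het, one_mul]
        rw [← mul_assoc (ENNReal.ofReal ε)⁻¹, h4]
        ring
    _ = _ := by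
        rw [Finset.sum_const, nsmul_eq_mul, Finset.card_univ]
        ring

/-- energy weight of a configuration -/
def wt (k : ℕ) (V : Config k) : ℝ≥0∞ := ∑ i, ENNReal.ofReal (1 + ‖(V i).2‖ ^ 2)

theorem measurable_wt (k : ℕ) : Measurable (wt k) := by
  unfold wt
  refine Finset.measurable_sum _ fun i _ => ?_
  have h : Measurable fun V : Config k => V i := measurable_pi_apply i
  exact ((h.snd.norm.pow_const 2).const_add 1).ennreal_ofReal

theorem spd_le_wt (hΦ : AdmissiblePotential Φ) (hε : 0 < ε) {M : ℝ} (hM : 0 ≤ M) {k : ℕ}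
    {V : Config k} (hV : V ∈ PairExcluded ε k) (u : ℝ) (j : Fin k) :
    spd Φ ε M V u j ≤ ENNReal.ofReal ((M + 1) * (1 + 2 * Loc45.stabB Φ)) * wt k V := by
  have h1 := Mom974.weight_flow_le' hΦ hε hV u
  have hB := Loc45.stabB_nonneg Φ
  calc spd Φ ε M V u j ≤ ENNReal.ofReal (M + 1) *
        ENNReal.ofReal (1 + ‖(Flow671.flow Φ ε u V j).2‖ ^ 2) := by
        unfold spd
        rw [← ENNReal.ofReal_mul (by positivity)]
        refine ENNReal.ofReal_le_ofReal ?_
        have h2 : pth Φ ε V u j = Flow671.flow Φ ε u V j := rfl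
        rw [h2]
        set v := ‖(Flow671.flow Φ ε u V j).2‖
        have hv : 0 ≤ v := norm_nonneg _
        nlinarith [sq_nonneg (v - 1), mul_nonneg hM (sq_nonneg v)]
    _ ≤ ENNReal.ofReal (M + 1) * ∑ i, ENNReal.ofReal (1 + ‖(Flow671.flow Φ ε u V i).2‖ ^ 2) := by
        refine mul_le_mul_right ?_ _
        exact Finset.single_le_sum
          (f := fun i => ENNReal.ofReal (1 + ‖(Flow671.flow Φ ε u V i).2‖ ^ 2))
          (fun _ _ => bot_le) (Finset.mem_univ j)
    _ ≤ ENNReal.ofReal (M + 1) * (ENNReal.ofReal (1 + 2 * Loc45.stabB Φ) * wt k V) :=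
        mul_le_mul_right h1 _
    _ = _ := by rw [← mul_assoc, ← ENNReal.ofReal_mul (by positivity)]

/-- The constant of the translation average. -/
def cX (Φ : Space3 → ℝ) (N : ℕ) (M t : ℝ) : ℝ≥0∞ :=
  8 * c3 * (N : ℝ≥0∞) * (1 + ENNReal.ofReal t * ENNReal.ofReal ((M + 1) * (1 + 2 * Loc45.stabB Φ)))

theorem lintegral_hmaj_le [Fintype α] (hΦ : AdmissiblePotential Φ) (hε : 0 < ε) (hε1 : ε ≤ 1)
    {γ : α → ℝ → Space3} (hγ : ∀ a, Measurable (γ a)) {M : ℝ} (hM : 0 ≤ M) (t : ℝ) {k : ℕ}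
    {V : Config k} (hV : V ∈ PairExcluded ε k) (j : Fin k) :
    ∫⁻ x, hmaj Φ ε γ M t x V j ≤
      ENNReal.ofReal ε ^ 2 * cX Φ (Fintype.card α) M t * wt k V := by
  have h1 : (1 : ℝ≥0∞) ≤ wt k V := by
    unfold wt
    refine le_trans ?_ (Finset.single_le_sum (f := fun i => ENNReal.ofReal (1 + ‖(V i).2‖ ^ 2))
      (fun _ _ => bot_le) (Finset.mem_univ j))
    rw [← ENNReal.ofReal_one]
    exact ENNReal.ofReal_le_ofReal (by linarith [sq_nonneg ‖(V j).2‖])
  have h2 : ∫⁻ u in Icc 0 t, spd Φ ε M V u j ≤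
      ENNReal.ofReal t * (ENNReal.ofReal ((M + 1) * (1 + 2 * Loc45.stabB Φ)) * wt k V) := by
    calc ∫⁻ u in Icc 0 t, spd Φ ε M V u j ≤ ∫⁻ _ in Icc 0 t,
          ENNReal.ofReal ((M + 1) * (1 + 2 * Loc45.stabB Φ)) * wt k V :=
          lintegral_mono fun u => spd_le_wt hΦ hε hM hV u j
      _ = _ := by rw [setLIntegral_const, Real.volume_Icc, sub_zero, mul_comm]
  have h3 : ENNReal.ofReal ε ≤ 1 := by
    rw [← ENNReal.ofReal_one]; exact ENNReal.ofReal_le_ofReal hε1
  rw [lintegral_hmaj hΦ hε hγ]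
  calc 8 * c3 * (Fintype.card α : ℝ≥0∞) * ENNReal.ofReal ε ^ 2 *
        (ENNReal.ofReal ε + ∫⁻ u in Icc 0 t, spd Φ ε M V u j)
      ≤ 8 * c3 * (Fintype.card α : ℝ≥0∞) * ENNReal.ofReal ε ^ 2 * (1 * wt k V +
        ENNReal.ofReal t * (ENNReal.ofReal ((M + 1) * (1 + 2 * Loc45.stabB Φ)) * wt k V)) := by
        gcongr
        rw [one_mul]
        exact h3.trans h1
    _ = _ := by unfold cX; ring

/-- **Translation average, configuration form, with a measurable majorant.** -/
theorem exists_root_maj [Fintype α] (hΦ : AdmissiblePotential Φ) (hf : Measurable f₀)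
    (hε : 0 < ε) (hε1 : ε ≤ 1) {γ : α → ℝ → Space3} {M t : ℝ} (hM : 0 ≤ M) (ht : 0 ≤ t)
    (hγ : ∀ a, ∀ s ∈ Icc 0 t, ∀ s' ∈ Icc 0 t, dist (γ a s) (γ a s') ≤ M * |s - s'|)
    {k : ℕ} {E : Config k → Fin k → ℝ≥0∞} (hE : ∀ j, Measurable fun V => E V j)
    {H : Space3 → Config k → Fin k → ℝ≥0∞}
    (hH : ∀ x V j, V ∈ PairExcluded ε k →
      H x V j ≤ (if RootHit Φ ε γ t x V j then 1 else 0) * E V j) :
    ∃ g : Space3 → ℝ≥0∞, Measurable g ∧
      (∀ x, ∫⁻ V, gcWeight f₀ ε k V * ∑ j, H x V j ≤ g x) ∧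
      ∫⁻ x, g x ≤ ENNReal.ofReal ε ^ 2 * cX Φ (Fintype.card α) M t *
        ∫⁻ V, gcWeight f₀ ε k V * ∑ j, wt k V * E V j := by
  set γ' : α → ℝ → Space3 := fun a s => γ a (projIcc 0 t ht s) with hγ'
  have hγeq : ∀ a, ∀ s ∈ Icc 0 t, γ' a s = γ a s := by
    intro a s hs
    simp only [hγ', projIcc_of_mem ht hs]
  have hγL : ∀ a, ∀ s s' : ℝ, dist (γ' a s) (γ' a s') ≤ M * |s - s'| := by
    intro a s s'
    refine (hγ a _ (projIcc 0 t ht s).2 _ (projIcc 0 t ht s').2).trans ?_
    exact mul_le_mul_of_nonneg_left (abs_projIcc_sub_projIcc ht) hM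
  have hγm : ∀ a, Measurable (γ' a) := by
    intro a
    have h1 : LipschitzWith (Real.toNNReal M) (γ' a) := LipschitzWith.of_dist_le_mul fun s s' => by
      rw [Real.coe_toNNReal M hM, Real.dist_eq]
      exact hγL a s s'
    exact h1.continuous.measurable
  have hHit : ∀ (x : Space3) (V : Config k) (j : Fin k),
      RootHit Φ ε γ t x V j → RootHit Φ ε γ' t x V j := by
    rintro x V j ⟨s, hs, a, ha⟩
    exact ⟨s, hs, a, by rw [hγeq a s hs]; exact ha⟩
  have hmm : ∀ j, Measurable fun p : Space3 × Config k => hmaj Φ ε γ' M t p.1 p.2 j :=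
    fun j => measurable_hmaj hΦ hε hγm M t j
  have hmg : Measurable fun p : Space3 × Config k => gcWeight f₀ ε k p.2 *
      ∑ j, hmaj Φ ε γ' M t p.1 p.2 j * E p.2 j :=
    ((measurable_gcWeight hf ε k).comp measurable_snd).mul
      (Finset.measurable_sum _ fun j _ => (hmm j).mul ((hE j).comp measurable_snd))
  refine ⟨fun x => ∫⁻ V, gcWeight f₀ ε k V * ∑ j, hmaj Φ ε γ' M t x V j * E V j,
    hmg.lintegral_prod_right', ?_, ?_⟩
  · intro x
    refine lintegral_mono fun V => ?_
    by_cases hV : V ∈ PairExcluded ε k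
    · refine mul_le_mul_right (Finset.sum_le_sum fun j _ => (hH x V j hV).trans ?_) _
      refine mul_le_mul_left (le_trans ?_
        (rootHit_le_hmaj hΦ hε hM (fun a s _ s' _ => hγL a s s') x hV j)) _
      by_cases h : RootHit Φ ε γ t x V j
      · rw [if_pos h, if_pos (hHit x V j h)]
      · rw [if_neg h]; exact bot_le
    · simp [gcWeight, indicator_of_notMem hV]
  calc ∫⁻ x, ∫⁻ V, gcWeight f₀ ε k V * ∑ j, hmaj Φ ε γ' M t x V j * E V j
      = ∫⁻ V, ∫⁻ x, gcWeight f₀ ε k V * ∑ j, hmaj Φ ε γ' M t x V j * E V j :=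
        lintegral_lintegral_swap (f := fun (x : Space3) (V : Config k) => gcWeight f₀ ε k V *
          ∑ j, hmaj Φ ε γ' M t x V j * E V j) hmg.aemeasurable
    _ ≤ ∫⁻ V, (ENNReal.ofReal ε ^ 2 * cX Φ (Fintype.card α) M t) *
        (gcWeight f₀ ε k V * ∑ j, wt k V * E V j) := by
        refine lintegral_mono fun V => ?_
        by_cases hV : V ∈ PairExcluded ε k
        · have hmx : ∀ j, Measurable fun x : Space3 => hmaj Φ ε γ' M t x V j := by
            intro j
            have h1 : Measurable fun x : Space3 => (x, V) := measurable_id.prodMk measurable_const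
            have h2 := (hmm j).comp h1
            exact h2
          calc ∫⁻ x, gcWeight f₀ ε k V * ∑ j, hmaj Φ ε γ' M t x V j * E V j
              = gcWeight f₀ ε k V * ∑ j, (∫⁻ x, hmaj Φ ε γ' M t x V j) * E V j := by
                rw [lintegral_const_mul _ (Finset.measurable_sum _ fun j _ =>
                  (hmx j).mul_const _), lintegral_finsetSum _ fun j _ => (hmx j).mul_const _]
                congr 1
                exact Finset.sum_congr rfl fun j _ => lintegral_mul_const _ (hmx j)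
            _ ≤ gcWeight f₀ ε k V * ∑ j, (ENNReal.ofReal ε ^ 2 * cX Φ (Fintype.card α) M t *
                  wt k V) * E V j := by
                gcongr with j _
                exact lintegral_hmaj_le hΦ hε hε1 hγm hM t hV j
            _ = _ := by
                rw [Finset.mul_sum, Finset.mul_sum, Finset.mul_sum]
                refine Finset.sum_congr rfl fun j _ => ?_
                ring
        · simp [gcWeight, indicator_of_notMem hV]
    _ = _ := by
        have h1 : Measurable fun V : Config k => gcWeight f₀ ε k V * ∑ j, wt k V * E V j :=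
          (measurable_gcWeight hf ε k).mul
            (Finset.measurable_sum _ fun j _ => (measurable_wt k).mul (hE j))
        exact lintegral_const_mul _ h1


end Crest.Agent.R122.XAvg370
end
end

-- ▼ part R122/GhostErr_370
section

/-!
# From the real rest of the world to the ghost world (row 122, helper370), item F3

In the first-hit inequality of helper167 the conditional expectation `restE` (the rest of the world
evolves together with the cluster `V`) is replaced by `ghostE` (the rest of the world evolves alone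
and avoids the test family and the protected tubes of `V`).

* `Ghost`, `ghostE`, `ghostMass`, `errMass` : definitions.
* `hitMass_le`, `ghostMass_le` : `|hitMass - ghostMass| ≤ errMass`.
* `errMass_le` : `errMass` is bounded by the mass of the discrepancy event `Disc`.
* `F3` : the statement along a converging generic sequence of tube families.
* `F3_of` : assembly from Prop inputs: the discrepancy event is contained in the union of a touch
  event, a return event (both independent of the translation) and a return event to the test family.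
-/

set_option autoImplicit false
open MeasureTheory Set Filter
open scoped Classical ENNReal Topology
open Crest.AnalysisR.Kinetic
open Crest.Agent.R122.GC311 Crest.Agent.R122.Causal291 Crest.Agent.R122.Master566
open Crest.Agent.R122.Hit167 Crest.Agent.R122.GIV566 Crest.Agent.R122.XAvg370
open Crest.Agent.R122.BadHit370
noncomputable section

namespace Crest.Agent.R122.GhostErr370

section defs

variable (f₀ : PhasePoint → ℝ) (Φ : Space3 → ℝ) (ε : ℝ) {α : Type} (c : α → ℝ → Space3)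
  (θ : α → ℝ)

/-- Curves of the test family together with the curves of the isolated world of `V`. -/
def cS {k : ℕ} (V : Config k) : α ⊕ Fin k → ℝ → Space3 := Sum.elim c fun i s => (pth Φ ε V s i).1

/-- End times: those of the test family and the protected times of the cluster. -/
def thS {k : ℕ} (V : Config k) (j : Fin k) (σ : ℝ) : α ⊕ Fin k → ℝ :=
  Sum.elim θ (tauPre (pth Φ ε V) ε j σ)

/-- The world `w` alone avoids the test family and the protected tubes of `V` before `σ`. -/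
def Ghost {k : ℕ} (V : Config k) (j : Fin k) (σ : ℝ) {m : ℕ} (w : Config m) : Prop :=
  Unhit (pth Φ ε w) ε (cS Φ ε c V) (thS Φ ε θ V j σ) σ

/-- Ghost avoidance probability of the test family and the protected tubes of `V`. -/
def ghostE {k : ℕ} (V : Config k) (j : Fin k) (σ : ℝ) : ℝ≥0∞ :=
  gcE f₀ ε fun _ w => ind (Ghost Φ ε c θ V j σ w)

/-- The condition on the rest in the real world. -/
def Real1 {k : ℕ} (V : Config k) (j : Fin k) (σ : ℝ) {m : ℕ} (w : Config m) : Prop :=
  Perp ε V w ∧ RestV Φ ε c θ (Fin.append V w : Config (k + m)) (Fin.castAdd m) j σ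

/-- The discrepancy event. -/
def Disc {k : ℕ} (V : Config k) (j : Fin k) (σ : ℝ) {m : ℕ} (w : Config m) : Prop :=
  ¬ (Real1 Φ ε c θ V j σ w ↔ Ghost Φ ε c θ V j σ w)

variable (𝒢 : Cls) (t₀ t : ℝ)

/-- The cluster side of a good first hit in the window. -/
def GoodH {k : ℕ} (V : Config k) (j : Fin k) : Prop :=
  hitTime (pth Φ ε V) ε c θ 0 j ∈ Ico t₀ t ∧
    GoodV Φ ε c θ 𝒢 V j (hitTime (pth Φ ε V) ε c θ 0 j)


/-- The error. -/
def errMass (k : ℕ) : ℝ≥0∞ :=
  activity ε ^ k / (k.factorial : ℝ≥0∞) * ∫⁻ V : Config k, gcWeight f₀ ε k V *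
    ∑ j : Fin k, ind (GoodH Φ ε c θ 𝒢 t₀ t V j) *
      adiff (restE f₀ Φ ε c θ V j (hitTime (pth Φ ε V) ε c θ 0 j))
        (ghostE f₀ Φ ε c θ V j (hitTime (pth Φ ε V) ε c θ 0 j))

end defs



section main

variable {f₀ : PhasePoint → ℝ} {Φ : Space3 → ℝ} {ε : ℝ} {α : Type} [Finite α]
  {c : α → ℝ → Space3} {θ : α → ℝ} {𝒢 : Cls} {t₀ t : ℝ}

/-! ### Measurability -/

theorem measurable_ghost (hΦ : AdmissiblePotential Φ) (hε : 0 < ε)
    (hc : ∀ a, Continuous (c a)) {k m : ℕ} (V : Config k) (j : Fin k) (σ : ℝ) :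
    Measurable fun w : Config m => ind (Ghost Φ ε c θ V j σ w) := by
  refine measurable_ind (measurableSet_unhit (c := cS Φ ε c V) (θ := thS Φ ε θ V j σ)
    (fun w => continuous_pth hΦ hε w) (fun s j => measurable_pth_id hΦ hε s j) ?_
    measurable_const)
  rintro (a | i)
  · exact hc a
  · exact (continuous_pth hΦ hε V i).fst

theorem measurable_real1 (hΦ : AdmissiblePotential Φ) (hε : 0 < ε)
    (hc : ∀ a, Continuous (c a)) {k m : ℕ} (V : Config k) (j : Fin k) (σ : ℝ) :
    Measurable fun w : Config m => perpInd ε V w *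
      ind (RestV Φ ε c θ (Fin.append V w : Config (k + m)) (Fin.castAdd m) j σ) :=
  (measurable_perpInd_right ε m V).mul (measurable_ind_restV hΦ hε hc V j σ)

omit [Finite α] in
theorem perp_mul_eq {k m : ℕ} (V : Config k) (j : Fin k) (σ : ℝ) (w : Config m) :
    perpInd ε V w * ind (RestV Φ ε c θ (Fin.append V w : Config (k + m)) (Fin.castAdd m) j σ) =
      ind (Real1 Φ ε c θ V j σ w) := by
  unfold Real1
  rw [ind_and]
  rfl

/-- The difference of the two conditional expectations is at most the probability of the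
discrepancy. -/
theorem adiff_rest_ghost_le (hf : Measurable f₀) (hΦ : AdmissiblePotential Φ) (hε : 0 < ε)
    (hc : ∀ a, Continuous (c a)) {k : ℕ} (V : Config k) (j : Fin k) (σ : ℝ) :
    adiff (restE f₀ Φ ε c θ V j σ) (ghostE f₀ Φ ε c θ V j σ) ≤
      2 * gcE f₀ ε fun _ w => ind (Disc Φ ε c θ V j σ w) := by
  have h1 : restE f₀ Φ ε c θ V j σ ≤ ghostE f₀ Φ ε c θ V j σ +
      gcE f₀ ε fun _ w => ind (Disc Φ ε c θ V j σ w) := by
    unfold restE ghostE
    rw [← gcE_add hf ε fun m => measurable_ghost hΦ hε hc V j σ]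
    refine gcE_mono f₀ ε fun m w _ => ?_
    rw [perp_mul_eq]
    by_cases h1 : Real1 Φ ε c θ V j σ w
    · by_cases h2 : Ghost Φ ε c θ V j σ w
      · rw [ind_true h1, ind_true h2]; exact le_self_add
      · rw [ind_true h1, ind_true (show Disc Φ ε c θ V j σ w from fun h => h2 (h.1 h1))]
        exact le_add_self
    · rw [ind_false h1]; exact bot_le
  have h2 : ghostE f₀ Φ ε c θ V j σ ≤ restE f₀ Φ ε c θ V j σ +
      gcE f₀ ε fun _ w => ind (Disc Φ ε c θ V j σ w) := by
    unfold restE ghostE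
    rw [← gcE_add hf ε fun m => measurable_real1 hΦ hε hc V j σ]
    refine gcE_mono f₀ ε fun m w _ => ?_
    rw [perp_mul_eq]
    by_cases h2 : Ghost Φ ε c θ V j σ w
    · by_cases h1 : Real1 Φ ε c θ V j σ w
      · rw [ind_true h1, ind_true h2]; exact le_self_add
      · rw [ind_true h2, ind_true (show Disc Φ ε c θ V j σ w from fun h => h1 (h.2 h2))]
        exact le_add_self
    · rw [ind_false h2]; exact bot_le
  unfold adiff
  rw [two_mul]
  exact add_le_add (tsub_le_iff_left.2 h1) (tsub_le_iff_left.2 h2)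















omit [Finite α] in
/-- A good first hit in the window is in particular a hit of the root before `t`. -/
theorem GoodH.rootHit {k : ℕ} {V : Config k} {j : Fin k} {x : Space3} {γ : α → ℝ → Space3}
    (h : GoodH Φ ε (fun a s => γ a s + x) θ 𝒢 t₀ t V j) (ht₀ : 0 ≤ t₀) :
    RootHit Φ ε γ t x V j := by
  obtain ⟨h1, h2⟩ := h
  obtain ⟨a, _, ha⟩ := h2.good.hits
  exact ⟨_, ⟨ht₀.trans h1.1, h1.2.le⟩, a, ha⟩

end main

/-! ### Closed and half-open avoidance -/

theorem gcE_congr_ae {f₀ : PhasePoint → ℝ} {ε : ℝ} {F G : (n : ℕ) → Config n → ℝ≥0∞}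
    (h : ∀ n, ∀ᵐ Z : Config n, F n Z = G n Z) : gcE f₀ ε F = gcE f₀ ε G := by
  unfold gcE
  congr 1
  refine tsum_congr fun n => ?_
  congr 1
  refine lintegral_congr_ae ?_
  filter_upwards [h n] with Z hZ
  rw [hZ]

section closed

variable {f₀ : PhasePoint → ℝ} {Φ : Space3 → ℝ} {ε : ℝ} {ι : Type} [Finite ι] {S : Tubes ι}
  {𝒢 : Cls} {tw t : ℝ}

/-- The ghost probability is helper566's `uG` of the family together with the protected tubes. -/
theorem ghostE_eq_uG (hΦ : AdmissiblePotential Φ) (hε : 0 < ε) {σ : ℝ} (hσ : 0 < σ)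
    (hc : ∀ i, ContinuousOn (S.c i) (Icc 0 σ)) {k : ℕ} (V : Config k) (j : Fin k) :
    ghostE f₀ Φ ε S.c S.b V j σ = uG Φ f₀ ε (S.sum (IStep317.clTubes Φ ε V j σ)) σ := by
  unfold ghostE uG
  refine gcE_congr_ae fun n => ?_
  have h := ae_unhit_closed (Φ := Φ) (ε := ε) hΦ hε (α := ι ⊕ Fin k)
    (c := (S.sum (IStep317.clTubes Φ ε V j σ)).c) (θ := (S.sum (IStep317.clTubes Φ ε V j σ)).b)
    hσ (by
      rintro (a | i)
      · exact hc a
      · exact (continuous_pth hΦ hε V i).fst.continuousOn) n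
  filter_upwards [h] with Z hZ
  unfold ind unhitInd
  exact if_congr hZ rfl rfl

/-- Error (c) of helper317 is `errMass`. -/
theorem errC_eq (hΦ : AdmissiblePotential Φ) (hε : 0 < ε) (htw : 0 ≤ tw)
    (hc : ∀ i, Continuous (S.c i)) (k : ℕ) :
    IStep317.errC Φ f₀ ε S 𝒢 tw t k = errMass f₀ Φ ε S.c S.b 𝒢 tw t k := by
  unfold IStep317.errC IStep317.hT errMass
  congr 1
  refine lintegral_congr fun V => ?_
  congr 1
  refine Finset.sum_congr rfl fun j _ => ?_
  by_cases h : hitTime (pth Φ ε V) ε S.c S.b 0 j ∈ Ico tw t ∧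
      GoodV Φ ε S.c S.b 𝒢 V j (hitTime (pth Φ ε V) ε S.c S.b 0 j)
  · have hpos : 0 < hitTime (pth Φ ε V) ε S.c S.b 0 j := h.2.good.pos (htw.trans h.1.1)
    rw [← ghostE_eq_uG hΦ hε hpos (fun i => (hc i).continuousOn)]
    rfl
  · rw [ind_false h]
    unfold GoodH
    rw [ind_false h, zero_mul, zero_mul]

end closed

/-! ### The statement and its assembly -/

section assembly

variable {f₀ : PhasePoint → ℝ} {Φ : Space3 → ℝ}

/-- Mass, counted with the energy weight, of a functional of a cluster of at most `K` particles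
(with root `j`) and of the rest of the world. -/
def evMass (f₀ : PhasePoint → ℝ) (ε : ℝ) (K : ℕ)
    (B : (k : ℕ) → Config k → Fin k → (m : ℕ) → Config m → ℝ≥0∞) : ℝ≥0∞ :=
  ∑ k ∈ Finset.range (K + 1), (activity ε)⁻¹ * (activity ε ^ k / (k.factorial : ℝ≥0∞) *
    ∫⁻ V : Config k, gcWeight f₀ ε k V * ∑ j : Fin k, wt k V * gcE f₀ ε fun m w => B k V j m w)

/-- Mass of a functional of the translation, a cluster of at most `K` particles (with root `j`) and
of the rest of the world. -/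
def obMass (f₀ : PhasePoint → ℝ) (ε : ℝ) (K : ℕ) (R : ℝ)
    (B : (k : ℕ) → Space3 → Config k → Fin k → (m : ℕ) → Config m → ℝ≥0∞) : ℝ≥0∞ :=
  ∫⁻ x in Metric.closedBall (0 : Space3) R, ∑ k ∈ Finset.range (K + 1),
    activity ε ^ k / (k.factorial : ℝ≥0∞) *
      ∫⁻ V : Config k, gcWeight f₀ ε k V * ∑ j : Fin k, gcE f₀ ε fun m w => B k x V j m w

/-- `B₁ + B₂` dominates the discrepancy event: `B₁` does not depend on the translation. -/
structure DiscMaj (Φ : Space3 → ℝ) (ε : ℝ) {ι : Type} (S : Tubes ι) (𝒢 : Cls) (tw t : ℝ) (K : ℕ)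
    (R : ℝ) (B₁ : (k : ℕ) → Config k → Fin k → (m : ℕ) → Config m → ℝ≥0∞)
    (B₂ : (k : ℕ) → Space3 → Config k → Fin k → (m : ℕ) → Config m → ℝ≥0∞) : Prop where
  meas₁ : ∀ k j m, Measurable fun p : Config k × Config m => B₁ k p.1 j m p.2
  meas₂ : ∀ k j m, Measurable fun p : (Space3 × Config k) × Config m => B₂ k p.1.1 p.1.2 j m p.2
  le : ∀ k ≤ K, ∀ x ∈ Metric.closedBall (0 : Space3) R, ∀ (V : Config k) (j : Fin k) (m : ℕ)
    (w : Config m), V ∈ PairExcluded ε k → w ∈ PairExcluded ε m →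
    GoodH Φ ε (S.shift x).c (S.shift x).b 𝒢 tw t V j →
    Disc Φ ε (S.shift x).c (S.shift x).b V j
      (hitTime (pth Φ ε V) ε (S.shift x).c (S.shift x).b 0 j) w →
    1 ≤ B₁ k V j m w + B₂ k x V j m w

variable {ε : ℝ} {ι : Type} [Fintype ι] {S : Tubes ι} {𝒢 : Cls} {tw t : ℝ} {K : ℕ} {R : ℝ}
  {B₁ : (k : ℕ) → Config k → Fin k → (m : ℕ) → Config m → ℝ≥0∞}
  {B₂ : (k : ℕ) → Space3 → Config k → Fin k → (m : ℕ) → Config m → ℝ≥0∞}

theorem errMass_integrand_le (hf : Measurable f₀) (hΦ : AdmissiblePotential Φ) (hε : 0 < ε)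
    (hc : ∀ i, Continuous (S.c i)) (hB : DiscMaj Φ ε S 𝒢 tw t K R B₁ B₂) {k : ℕ} (hk : k ≤ K)
    {x : Space3} (hx : x ∈ Metric.closedBall (0 : Space3) R) {V : Config k} (j : Fin k)
    (hV : V ∈ PairExcluded ε k) :
    ind (GoodH Φ ε (S.shift x).c (S.shift x).b 𝒢 tw t V j) *
      adiff (restE f₀ Φ ε (S.shift x).c (S.shift x).b V j
          (hitTime (pth Φ ε V) ε (S.shift x).c (S.shift x).b 0 j))
        (ghostE f₀ Φ ε (S.shift x).c (S.shift x).b V j
          (hitTime (pth Φ ε V) ε (S.shift x).c (S.shift x).b 0 j)) ≤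
      2 * (ind (GoodH Φ ε (S.shift x).c (S.shift x).b 𝒢 tw t V j) *
        gcE f₀ ε fun m w => B₁ k V j m w) + 2 * gcE f₀ ε fun m w => B₂ k x V j m w := by
  by_cases hG : GoodH Φ ε (S.shift x).c (S.shift x).b 𝒢 tw t V j
  · rw [ind_true hG, one_mul, one_mul]
    have hcx : ∀ i, Continuous ((S.shift x).c i) := fun i => (hc i).add continuous_const
    refine (adiff_rest_ghost_le (c := (S.shift x).c) (θ := (S.shift x).b) hf hΦ hε hcx V j _).trans
      ?_
    rw [← mul_add]
    refine mul_le_mul_right ?_ _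
    have hm : ∀ m, Measurable fun w : Config m => B₁ k V j m w := by
      intro m
      have h1 : Measurable fun w : Config m => (V, w) := measurable_const.prodMk measurable_id
      have h2 := (hB.meas₁ k j m).comp h1
      exact h2
    rw [← gcE_add hf ε hm]
    refine gcE_mono f₀ ε fun m w hw => ?_
    by_cases hD : Disc Φ ε (S.shift x).c (S.shift x).b V j
      (hitTime (pth Φ ε V) ε (S.shift x).c (S.shift x).b 0 j) w
    · rw [ind_true hD]
      exact hB.le k hk x hx V j m w hV hw hG hD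
    · rw [ind_false hD]; exact bot_le
  · rw [ind_false hG, zero_mul]; exact bot_le


end assembly

/-! ### The limit statement -/

section limit

variable {f₀ : PhasePoint → ℝ} {Φ : Space3 → ℝ}


/-- Input of the assembly: majorants of the discrepancy with small masses. -/
def F3Input (Φ : Space3 → ℝ) (f₀ : PhasePoint → ℝ) (T tw t : ℝ) : Prop :=
  ∀ (ι : Type) [Fintype ι] (Sk : ℕ → Tubes ι) (S : Tubes ι) (εk : ℕ → ℝ),
    (∀ k, 0 < εk k) → Tendsto εk atTop (𝓝 0) → TubeConv T Sk S → Generic T S →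
    (∀ n i, Continuous ((Sk n).c i)) → ∀ (K : ℕ) (R δ : ℝ), 0 < δ → ∀ᶠ n in atTop,
      ∃ (B₁ : (k : ℕ) → Config k → Fin k → (m : ℕ) → Config m → ℝ≥0∞)
        (B₂ : (k : ℕ) → Space3 → Config k → Fin k → (m : ℕ) → Config m → ℝ≥0∞),
        DiscMaj Φ (εk n) (Sk n) (IStep317.treeCls Φ (εk n)) tw t K R B₁ B₂ ∧
        evMass f₀ (εk n) K B₁ ≤ ENNReal.ofReal δ ∧ obMass f₀ (εk n) K R B₂ ≤ ENNReal.ofReal δ

theorem cX_ne_top (Φ : Space3 → ℝ) (N : ℕ) (M t : ℝ) : cX Φ N M t ≠ ∞ := by
  unfold cX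
  refine ENNReal.mul_ne_top (ENNReal.mul_ne_top (ENNReal.mul_ne_top ENNReal.ofNat_ne_top
    ENNReal.ofReal_ne_top) (ENNReal.natCast_ne_top N)) ?_
  exact ENNReal.add_ne_top.2 ⟨ENNReal.one_ne_top, ENNReal.mul_ne_top ENNReal.ofReal_ne_top
    ENNReal.ofReal_ne_top⟩


end limit

end Crest.Agent.R122.GhostErr370
end
end

-- ▼ part R122/Disc_370
section

/-!
# First discrepancy of the real and the ghost world (row 122, helper370), item F3

`exists_discAt` : if the cluster `V` is good (hitter `j` at time `σ`) and the conditions on the rest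
in the real world `V ∪ w` and in the world `w` alone are not equivalent, then there is a first time
`v < σ` at which exactly one of the two conditions fails. Up to `v` the protected legs of `V` are
isolated in the real world and everything is unhit in both worlds; at the time `v` a particle of `w`
is near the obstacle (test family or protected tubes) in exactly one of the two worlds, or a
RELEASED particle of `V` is near the obstacle in the real world.
-/

set_option autoImplicit false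
open MeasureTheory Set Filter
open scoped Classical ENNReal Topology
open Crest.AnalysisR.Kinetic
open Crest.Agent.R122.GC311 Crest.Agent.R122.Causal291 Crest.Agent.R122.Hit167
open Crest.Agent.R122.GhostErr370 Crest.Agent.R122.Flow671 Crest.Agent.R122.Loc45
noncomputable section

namespace Crest.Agent.R122.Disc370

section disc

/-- First discrepancy at time `v`. -/
structure DiscAt (Φ : Space3 → ℝ) (ε : ℝ) {α : Type} (c : α → ℝ → Space3) (θ : α → ℝ) {k m : ℕ}
    (V : Config k) (w : Config m) (j : Fin k) (σ v : ℝ) : Prop where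
  mem : v ∈ Ico 0 σ
  dom : (Fin.append V w : Config (k + m)) ∈ Dom Φ (Fin (k + m))
  /-- the protected legs are isolated in the real world before `v` -/
  iso : Iso (pth Φ ε (Fin.append V w : Config (k + m))) ε
    (fun s => Fin.castAdd m '' fam (tauPre (pth Φ ε V) ε j σ) s) v
  /-- the test family is unhit in the real world before `v` -/
  unhit : Unhit (pth Φ ε (Fin.append V w : Config (k + m))) ε c θ v
  /-- the test family and the protected tubes are unhit in the world `w` before `v` -/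
  ghost : Unhit (pth Φ ε w) ε (cS Φ ε c V) (thS Φ ε θ V j σ) v
  /-- the protected legs have the same states in the two worlds up to `v` -/
  agree : ∀ s ∈ Icc 0 v, ∀ i, s ≤ tauPre (pth Φ ε V) ε j σ i →
    pth Φ ε V s i = pth Φ ε (Fin.append V w : Config (k + m)) s (Fin.castAdd m i)
  /-- the discrepancy -/
  odd : (∃ q : Fin m, ¬ (HitsAt (pth Φ ε w) ε (cS Φ ε c V) (thS Φ ε θ V j σ) v q ↔
      HitsAt (pth Φ ε (Fin.append V w : Config (k + m))) ε (cS Φ ε c V) (thS Φ ε θ V j σ) v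
        (Fin.natAdd k q))) ∨
    ∃ i : Fin k, tauPre (pth Φ ε V) ε j σ i < v ∧
      HitsAt (pth Φ ε (Fin.append V w : Config (k + m))) ε (cS Φ ε c V) (thS Φ ε θ V j σ) v
        (Fin.castAdd m i)

variable {Φ : Space3 → ℝ} {ε : ℝ} {α : Type} {c : α → ℝ → Space3} {θ : α → ℝ} {𝒢 : Cls}
  {k m : ℕ} {V : Config k} {w : Config m} {j : Fin k} {σ : ℝ}

theorem hitsAt_sum {ι : Type*} {z : ℝ → ι → PhasePoint} {s : ℝ} {q : ι} :
    HitsAt z ε (cS Φ ε c V) (thS Φ ε θ V j σ) s q ↔ HitsAt z ε c θ s q ∨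
      HitsAt z ε (fun i s => (pth Φ ε V s i).1) (tauPre (pth Φ ε V) ε j σ) s q := by
  constructor
  · rintro ⟨a | i, h1, h2⟩
    · exact Or.inl ⟨a, h1, h2⟩
    · exact Or.inr ⟨i, h1, h2⟩
  · rintro (⟨a, h1, h2⟩ | ⟨i, h1, h2⟩)
    · exact ⟨Sum.inl a, h1, h2⟩
    · exact ⟨Sum.inr i, h1, h2⟩

/-- The protected family is isolated in its own world. -/
theorem iso_fam (hΦ : AdmissiblePotential Φ) (hε : 0 < ε) (hσ : 0 < σ)
    (h : GoodV Φ ε c θ 𝒢 V j σ) : Iso (pth Φ ε V) ε (fam (tauPre (pth Φ ε V) ε j σ)) σ :=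
  (iso_preAct (z := pth Φ ε V) (j := j)).congr fun _ hs =>
    preAct_eq_fam (continuous_pth hΦ hε V) hσ h.good.full h.alone hs

theorem tauPre_nonneg (hσ : 0 < σ) (h : GoodV Φ ε c θ 𝒢 V j σ) (i : Fin k) :
    0 ≤ tauPre (pth Φ ε V) ε j σ i := by
  have h0 : i ∈ preAct (pth Φ ε V) ε j σ 0 := by rw [h.good.full]; exact mem_univ i
  exact le_csSup ⟨σ, fun u hu => hu.1.le⟩ ⟨hσ, h0⟩

/-- Without mutual exclusion there is a ghost hit at time `0`. -/
theorem perp_of_ghost (hΦ : AdmissiblePotential Φ) (hε : 0 < ε) (hσ : 0 < σ)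
    (h : GoodV Φ ε c θ 𝒢 V j σ) (hg : Ghost Φ ε c θ V j σ w) : Perp ε V w := by
  intro i q
  by_contra hle
  push Not at hle
  refine hg 0 ⟨le_rfl, hσ⟩ q ⟨Sum.inr i, tauPre_nonneg hσ h i, ?_⟩
  have h1 : pth Φ ε V 0 = V := flow_zero hΦ hε V
  have h2 : pth Φ ε w 0 = w := flow_zero hΦ hε w
  show dist (pth Φ ε V 0 i).1 (pth Φ ε w 0 q).1 ≤ ε
  rw [h1, h2]
  exact hle

/-- **First discrepancy.** -/
theorem exists_discAt [Finite α] (hΦ : AdmissiblePotential Φ) (hε : 0 < ε)
    (hc : ∀ a, Continuous (c a)) (hσ : 0 < σ) (hV : V ∈ PairExcluded ε k)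
    (hw : w ∈ PairExcluded ε m) (h : GoodV Φ ε c θ 𝒢 V j σ) (hD : Disc Φ ε c θ V j σ w) :
    ∃ v, DiscAt Φ ε c θ V w j σ v := by
  set X : Config (k + m) := Fin.append V w with hX
  set τ := tauPre (pth Φ ε V) ε j σ with hτ
  -- mutual exclusion
  have hperp : Perp ε V w := by
    by_contra hp
    refine hD ⟨fun h1 => absurd h1.1 hp, fun h2 => absurd (perp_of_ghost hΦ hε hσ h h2) hp⟩
  have hXe : X ∈ PairExcluded ε (k + m) := (append_mem_pairExcluded_iff V w).2 ⟨hV, hw, hperp⟩
  have hXD : X ∈ Dom Φ (Fin (k + m)) := pairExcluded_subset_Dom hε _ hXe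
  have hVD : V ∈ Dom Φ (Fin k) := pairExcluded_subset_Dom hε _ hV
  have hloc : LocUniq ε σ (pth Φ ε V) (pth Φ ε X) := locUniq_pth hΦ hε σ hVD hXD
  have hzV : ∀ i, ContinuousOn (fun s => pth Φ ε V s i) (Icc 0 σ) :=
    fun i => (continuous_pth hΦ hε V i).continuousOn
  have hzX : ∀ i, ContinuousOn (fun s => pth Φ ε X s i) (Icc 0 σ) :=
    fun i => (continuous_pth hΦ hε X i).continuousOn
  have hinj : Function.Injective (Fin.castAdd m : Fin k → Fin (k + m)) :=
    Fin.castAdd_injective k m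
  have h0 : ∀ i ∈ fam τ 0, pth Φ ε V 0 i = pth Φ ε X 0 (Fin.castAdd m i) := by
    intro i _
    have e1 : pth Φ ε V 0 = V := flow_zero hΦ hε V
    have e2 : pth Φ ε X 0 = X := flow_zero hΦ hε X
    rw [e1, e2, hX, Fin.append_left]
  have hI1 : Iso (pth Φ ε V) ε (fam τ) σ := iso_fam hΦ hε hσ h
  have hA : Anti (fam τ) σ := fam_anti τ σ
  have hag : ∀ v, v ≤ σ → Iso (pth Φ ε X) ε (fun s => Fin.castAdd m '' fam τ s) v →
      ∀ s ∈ Icc 0 v, ∀ i ∈ fam τ s, pth Φ ε V s i = pth Φ ε X s (Fin.castAdd m i) := by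
    intro v hv hI2
    exact Iso.agree hzV hzX hloc hinj hv (hA.mono hv) h0 (hI1.mono hv) hI2
  -- a failing particle of the real world, seen from the obstacle
  have hsplit : ∀ l : Fin (k + m), (∃ i, l = Fin.castAdd m i) ∨ ∃ q, l = Fin.natAdd k q := by
    intro l
    refine Fin.addCases (fun i => Or.inl ⟨i, rfl⟩) (fun q => Or.inr ⟨q, rfl⟩) l
  have hgi : ∀ (q : Fin m) (s : ℝ), Fin.natAdd k q ∉ Fin.castAdd m '' fam τ s := by
    rintro q s ⟨i, _, hi⟩
    have := congrArg Fin.val hi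
    simp at this
    omega
  by_cases hR : Real1 Φ ε c θ V j σ w
  · -- the ghost world fails first
    have hG : ¬ Ghost Φ ε c θ V j σ w := fun h2 => hD ⟨fun _ => h2, fun _ => hR⟩
    obtain ⟨-, hR2⟩ := hR
    have hRi : Iso (pth Φ ε X) ε (fun s => Fin.castAdd m '' fam τ s) σ := by
      have := hR2.iso
      rwa [append_comp_castAdd] at this
    have hcS : ∀ a, Continuous (cS Φ ε c V a) := by
      rintro (a | i)
      · exact hc a
      · exact (continuous_pth hΦ hε V i).fst
    obtain ⟨v, hv, -, hU, q, hq⟩ := exists_first_hit (z := pth Φ ε w) (θ := thS Φ ε θ V j σ)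
      (continuous_pth hΦ hε w) hcS (t₀ := 0)
      (fun s hs => absurd hs.1 (not_le.2 hs.2)) hG
    refine ⟨v, hv, hXD, hRi.mono hv.2.le, hR2.unhit.mono hv.2.le, hU,
      hag v hv.2.le (hRi.mono hv.2.le), Or.inl ⟨q, fun hiff => ?_⟩⟩
    rcases hitsAt_sum.1 (hiff.1 hq) with h1 | ⟨i, h1, h2⟩
    · exact hR2.unhit v hv _ h1
    · have h3 := hRi v hv (Fin.castAdd m i) ⟨i, h1, rfl⟩ (Fin.natAdd k q) (hgi q v)
      rw [← hag v hv.2.le (hRi.mono hv.2.le) v ⟨hv.1, le_rfl⟩ i h1] at h3
      exact absurd h2 (not_le.2 h3)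
  · -- the real world fails first
    have hG : Ghost Φ ε c θ V j σ w := by
      by_contra hG
      exact hD ⟨fun h1 => absurd h1 hR, fun h2 => absurd h2 hG⟩
    -- first failure: `v` with isolation and no hit before and a failure at `v`
    obtain ⟨v, hv, hvI, hvU, hfail⟩ : ∃ v ∈ Ico 0 σ,
        Iso (pth Φ ε X) ε (fun s => Fin.castAdd m '' fam τ s) v ∧ Unhit (pth Φ ε X) ε c θ v ∧
        ((∃ l, TouchAt (pth Φ ε X) ε (fun s => Fin.castAdd m '' fam τ s) v l) ∨
          ∃ l, HitsAt (pth Φ ε X) ε c θ v l) := by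
      have hU0 : Unhit (pth Φ ε X) ε c θ 0 := fun s hs => absurd hs.1 (not_le.2 hs.2)
      rcases iso_or_first_touch hzV hzX hloc hinj le_rfl hA h0 hI1 with hI | ⟨v₁, hv₁, hI₁, l, hl⟩
      · have hnU : ¬ Unhit (pth Φ ε X) ε c θ σ := by
          intro hU
          refine hR ⟨hperp, ?_, hU⟩
          rw [append_comp_castAdd]
          exact hI
        obtain ⟨v, hv, -, hU, l, hl⟩ := exists_first_hit (z := pth Φ ε X) (θ := θ)
          (continuous_pth hΦ hε X) hc hU0 hnU
        exact ⟨v, hv, hI.mono hv.2.le, hU, Or.inr ⟨l, hl⟩⟩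
      · by_cases hU : Unhit (pth Φ ε X) ε c θ v₁
        · exact ⟨v₁, hv₁, hI₁, hU, Or.inl ⟨l, hl⟩⟩
        · obtain ⟨v, hv, -, hU, l', hl'⟩ := exists_first_hit (z := pth Φ ε X) (θ := θ)
            (continuous_pth hΦ hε X) hc hU0 hU
          exact ⟨v, ⟨hv.1, hv.2.trans hv₁.2⟩, hI₁.mono hv.2.le, hU, Or.inr ⟨l', hl'⟩⟩
    have hagv := hag v hv.2.le hvI
    refine ⟨v, hv, hXD, hvI, hvU, hG.mono hv.2.le, hagv, ?_⟩
    -- the failing particle is near the obstacle
    have hnear : ∃ l, HitsAt (pth Φ ε X) ε (cS Φ ε c V) (thS Φ ε θ V j σ) v l ∧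
        ∀ i, l = Fin.castAdd m i → τ i < v := by
      rcases hfail with ⟨l, hl, i', hi', hd⟩ | ⟨l, hl⟩
      · obtain ⟨i, hi, rfl⟩ := hi'
        refine ⟨l, hitsAt_sum.2 (Or.inr ⟨i, hi, ?_⟩), ?_⟩
        · show dist (pth Φ ε V v i).1 _ ≤ ε
          rw [hagv v ⟨hv.1, le_rfl⟩ i hi]
          exact hd
        · rintro i'' rfl
          by_contra hle
          push Not at hle
          exact hl ⟨i'', hle, rfl⟩
      · refine ⟨l, hitsAt_sum.2 (Or.inl hl), ?_⟩
        rintro i rfl
        by_contra hle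
        push Not at hle
        obtain ⟨a, ha, hd⟩ := hl
        refine h.good.unhit v hv i ?_ ⟨a, ha, ?_⟩
        · rw [preAct_eq_fam (continuous_pth hΦ hε V) hσ h.good.full h.alone hv]
          exact hle
        · rw [hagv v ⟨hv.1, le_rfl⟩ i hle]
          exact hd
    obtain ⟨l, hl, hrel⟩ := hnear
    rcases hsplit l with ⟨i, rfl⟩ | ⟨q, rfl⟩
    · exact Or.inr ⟨i, hrel i rfl, hl⟩
    · exact Or.inl ⟨q, fun hiff => hG v hv q (hiff.2 hl)⟩

end disc

end Crest.Agent.R122.Disc370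
end
end

-- ▼ part R122/F3Det_370
section

/-!
# The discrepancy of real and ghost world in terms of single exit lines (row 122, helper370), F3

* `RetL.mono_tubes`, `retL_sum`, … : the returns of single lines (`RtG302.RetL`, `RtG302.RetM`) as
  functions of the family of tubes.
* `shadow_of_discAt` : a first discrepancy gives helper302's `Shadow`.
* `f3_det` : a first discrepancy of a tree cluster: touch, link, return to the protected tubes, or
  return to the test family; everything by single exit lines.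
-/

set_option autoImplicit false
set_option linter.unusedSectionVars false
open MeasureTheory Set Filter
open scoped Classical ENNReal Topology
open Crest.AnalysisR.Kinetic
open Crest.Agent.R122.GC311 Crest.Agent.R122.Causal291 Crest.Agent.R122.Hit167
open Crest.Agent.R122.GhostErr370 Crest.Agent.R122.Flow671 Crest.Agent.R122.Loc45
open Crest.Agent.R122.Disc370 Crest.Agent.R122.RtG302 Crest.Agent.R122.EDefs602
open Crest.Agent.R122.Kin796 Crest.Agent.R122.Kin796.CTree Crest.Agent.R122.Tree674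
open Crest.Agent.R122.PathFlow968 Crest.Agent.R122.MWAlg255 Crest.Agent.R122.MWFam255
open Crest.Agent.R122.GIV566 Crest.Agent.R122.Relabel674
noncomputable section

namespace Crest.Agent.R122.F3Det370

/-! ### Returns of single lines as functions of the tubes -/

section ret

variable {m : ℕ} {Ex ι : Type} [Fintype Ex]
variable {Φ : Space3 → ℝ} {ε t : ℝ} {K : ℕ} {w : Config m} {ls : Ex → ML} {O : Tubes ι}

theorem near_sum {ε : ℝ} {κ : Type} {O' : Tubes κ} {v : ℝ} {q : Space3} :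
    near ε (O.sum O') v q ↔ near ε O v q ∨ near ε O' v q := by
  constructor
  · rintro ⟨a | a, h1, h2⟩
    · exact Or.inl ⟨a, h1, h2⟩
    · exact Or.inr ⟨a, h1, h2⟩
  · rintro (⟨a, h1, h2⟩ | ⟨a, h1, h2⟩)
    · exact ⟨Sum.inl a, h1, h2⟩
    · exact ⟨Sum.inr a, h1, h2⟩

theorem retL_mono {κ : Type} {O' : Tubes κ} {l : ML}
    (hO : ∀ v ∈ Icc 0 t, ∀ a, v ≤ O.b a → ∃ a', v ≤ O'.b a' ∧ O'.c a' v = O.c a v)
    (h : RetL Φ ε K t w l O) : RetL Φ ε K t w l O' := by
  obtain ⟨v, hv, hT, i, hi, h⟩ := h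
  exact ⟨v, hv, hT, i, hi, h.imp (near_mono (hO v hv)) (near_mono (hO v hv))⟩

theorem retM_mono {κ : Type} {O' : Tubes κ} {l : ML}
    (hO : ∀ v ∈ Icc 0 t, ∀ a, v ≤ O.b a → ∃ a', v ≤ O'.b a' ∧ O'.c a' v = O.c a v)
    (h : RetM Φ ε K t w l O) : RetM Φ ε K t w l O' := by
  obtain ⟨v, hv, hT, hb, h⟩ := h
  exact ⟨v, hv, hT, hb, near_mono (hO v hv) h⟩

theorem retL_sum {κ : Type} {O' : Tubes κ} {l : ML} (h : RetL Φ ε K t w l (O.sum O')) :
    RetL Φ ε K t w l O ∨ RetL Φ ε K t w l O' := by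
  obtain ⟨v, hv, hT, i, hi, h | h⟩ := h
  · exact (near_sum.1 h).imp (fun h => ⟨v, hv, hT, i, hi, Or.inl h⟩)
      fun h => ⟨v, hv, hT, i, hi, Or.inl h⟩
  · exact (near_sum.1 h).imp (fun h => ⟨v, hv, hT, i, hi, Or.inr h⟩)
      fun h => ⟨v, hv, hT, i, hi, Or.inr h⟩

theorem retM_sum {κ : Type} {O' : Tubes κ} {l : ML} (h : RetM Φ ε K t w l (O.sum O')) :
    RetM Φ ε K t w l O ∨ RetM Φ ε K t w l O' := by
  obtain ⟨v, hv, hT, hb, h⟩ := h
  exact (near_sum.1 h).imp (fun h => ⟨v, hv, hT, hb, h⟩) fun h => ⟨v, hv, hT, hb, h⟩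

end ret

/-! ### Trees -/

section tree

variable {Φ : Space3 → ℝ} {ε t σ v : ℝ} {K k m : ℕ} {V : Config k} {w : Config m} {j : Fin k}
  {P : CTree} {ℓ : PhasePoint} {p : Par P} {e : Idx P ≃ Fin k}

theorem pth_tree (hΦ : AdmissiblePotential Φ) (hε : 0 < ε) (hv : Valid Φ ε P σ ℓ.2 p)
    (hs : Sep Φ ε P σ ℓ p) (hl : ∀ x, V (e x) = lines Φ ε P ℓ p x) {s : ℝ} (hs' : s ∈ Icc 0 σ)
    (x : Idx P) : pth Φ ε V s (e x) = path Φ ε P ℓ p s x := by
  rw [path_eq_flow hΦ hε hv hs hs']
  have h1 : (fun x => V (e x)) = lines Φ ε P ℓ p := funext hl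
  rw [← h1]
  exact (congrFun (congrFun (pth_relabel hΦ hε e V) s) x).symm

theorem tauPre_tree (hΦ : AdmissiblePotential Φ) (hε : 0 < ε) (hσ : 0 < σ)
    (hv : Valid Φ ε P σ ℓ.2 p) (hs : Sep Φ ε P σ ℓ p) (he : e (root P) = j)
    (hl : ∀ x, V (e x) = lines Φ ε P ℓ p x) (x : Idx P) :
    tauPre (pth Φ ε V) ε j σ (e x) = prot P σ p x := by
  rw [← TreeHit317.tauPre_eq hΦ hε hσ hv hs x, ← he]
  have h1 : (fun x => V (e x)) = lines Φ ε P ℓ p := funext hl
  rw [← h1, pth_relabel hΦ hε e V]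
  exact (IStep317.tauPre_relabel e).symm

/-- A first discrepancy gives a shadow. -/
theorem shadow_of_discAt {α : Type} {c : α → ℝ → Space3} {θ : α → ℝ}
    (hΦ : AdmissiblePotential Φ) (hε : 0 < ε) (hσ : 0 < σ)
    (hv : Valid Φ ε P σ ℓ.2 p) (hs : Sep Φ ε P σ ℓ p) (he : e (root P) = j)
    (hl : ∀ x, V (e x) = lines Φ ε P ℓ p x) (h : DiscAt Φ ε c θ V w j σ v) :
    Shadow Φ ε (treeStr Φ ε P σ (ℓ, p) hε hσ.le hv) v (Fin.append V w) (Fin.castAdd m ∘ e)
      (Fin.natAdd k) where
  dom := h.dom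
  e_inj := (Fin.castAdd_injective _ _).comp e.injective
  g_inj := Fin.natAdd_injective _ _
  cover q := by
    refine Fin.addCases (fun a => ?_) (fun b => ?_) q
    · exact Or.inl ⟨e.symm a, by simp⟩
    · exact Or.inr ⟨b, rfl⟩
  disj x i := by
    intro hc
    have := congrArg Fin.val hc
    simp only [Function.comp_apply, Fin.val_castAdd, Fin.val_natAdd] at this
    have := (e x).2
    omega
  exits x hx := ⟨⟨x, tree_exits h.mem.2.le hx⟩, rfl⟩
  agree x s h0 hsv hx := by
    change s ≤ prot P σ p x at hx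
    rw [← tauPre_tree hΦ hε hσ hv hs he hl x] at hx
    change pth Φ ε (Fin.append V w) s (Fin.castAdd m (e x)) = path Φ ε P ℓ p s x
    rw [← h.agree s ⟨h0, hsv⟩ (e x) hx]
    exact pth_tree hΦ hε hv hs hl ⟨h0, hsv.trans h.mem.2.le⟩ x
  iso s hs' x hx q hq := by
    change s ≤ prot P σ p x at hx
    rw [← tauPre_tree hΦ hε hσ hv hs he hl x] at hx
    refine (h.iso s hs' (Fin.castAdd m (e x)) ⟨e x, hx, rfl⟩ q ?_).le
    rintro ⟨i, hi, rfl⟩
    have h1 := hq (e.symm i) (by simp)
    change prot P σ p (e.symm i) < s at h1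
    rw [← tauPre_tree hΦ hε hσ hv hs he hl, e.apply_symm_apply] at h1
    exact absurd hi (not_le.2 h1)

/-- **F3, deterministic part.** -/
theorem f3_det {ι : Type} {S : Tubes ι} (hΦ : AdmissiblePotential Φ) (hε : 0 < ε) (hσ : 0 < σ)
    (hv : Valid Φ ε P σ ℓ.2 p) (hs : Sep Φ ε P σ ℓ p) (he : e (root P) = j)
    (hl : ∀ x, V (e x) = lines Φ ε P ℓ p x) (h : DiscAt Φ ε S.c S.b V w j σ v) (hσt : σ ≤ t)
    (hOk : AllOk Φ ε w (exL Φ ε P (ℓ, p))) :
    (∃ x, (MW.cfg w).thetaL Φ ε K t (exL Φ ε P (ℓ, p) x) ≤ t) ∨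
      LinkEx Φ ε K t w (exL Φ ε P (ℓ, p)) ∨
      (RetEx Φ ε K t w (exL Φ ε P (ℓ, p)) (protT Φ ε P σ (ℓ, p)) ∨
        RetLn Φ ε K t w (exL Φ ε P (ℓ, p)) (protT Φ ε P σ (ℓ, p))) ∨
      RetEx Φ ε K t w (exL Φ ε P (ℓ, p)) S ∨ RetLn Φ ε K t w (exL Φ ε P (ℓ, p)) S := by
  have ht0 : 0 ≤ t := hσ.le.trans hσt
  have hSh := shadow_of_discAt hΦ hε hσ hv hs he hl h
  have hvt : v ∈ Icc 0 t := ⟨h.mem.1, h.mem.2.le.trans hσt⟩
  have hw : (fun i => (Fin.append V w : Config (k + m)) (Fin.natAdd k i)) = w := by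
    funext i; simp
  have hOk' : AllOk Φ ε (fun i => (Fin.append V w : Config (k + m)) (Fin.natAdd k i))
      (treeStr Φ ε P σ (ℓ, p) hε hσ.le hv).ls := by rw [hw]; exact hOk
  set O : Tubes (ι ⊕ Fin k) := S.sum (IStep317.clTubes Φ ε V j σ) with hO
  -- the cluster tubes are the protected tubes
  have hcl : ∀ v ∈ Icc 0 t, ∀ a, v ≤ (IStep317.clTubes Φ ε V j σ).b a →
      ∃ a', v ≤ (protT Φ ε P σ (ℓ, p)).b a' ∧
        (protT Φ ε P σ (ℓ, p)).c a' v = (IStep317.clTubes Φ ε V j σ).c a v := by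
    intro v hv' a ha
    have ha' : v ≤ tauPre (pth Φ ε V) ε j σ a := ha
    refine ⟨e.symm a, ?_, ?_⟩
    · change v ≤ prot P σ p (e.symm a)
      rw [← tauPre_tree hΦ hε hσ hv hs he hl, e.apply_symm_apply]
      exact ha'
    · change (path Φ ε P ℓ p v (e.symm a)).1 = (pth Φ ε V v a).1
      rw [← pth_tree hΦ hε hv hs hl ⟨hv'.1, ha'.trans (tauPre_le hσ.le a)⟩, e.apply_symm_apply]
  rcases h.odd with ⟨q, hq⟩ | ⟨i, hi, hq⟩
  · have h1 := hSh.det (K := K) (O := O) hΦ hε hvt hOk' (i := q)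
    rw [hw] at h1
    rcases h1 hq with ⟨x, hx⟩ | h1 | ⟨x, h1⟩
    · exact Or.inl ⟨x, hx.trans hvt.2⟩
    · exact Or.inr (Or.inl h1)
    · rcases retL_sum h1 with h1 | h1
      · exact Or.inr (Or.inr (Or.inr (Or.inl ⟨x, h1⟩)))
      · exact Or.inr (Or.inr (Or.inl (Or.inl ⟨x, retL_mono hcl h1⟩)))
  · have hi' : (treeStr Φ ε P σ (ℓ, p) hε hσ.le hv).σ (e.symm i) < v := by
      change prot P σ p (e.symm i) < v
      rw [← tauPre_tree hΦ hε hσ hv hs he hl, e.apply_symm_apply]
      exact hi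
    have h1 := hSh.det_exit (K := K) (O := O) hΦ hε hvt hOk' hi' (by
      change near ε O v (pth Φ ε (Fin.append V w) v (Fin.castAdd m (e (e.symm i)))).1
      rw [e.apply_symm_apply]
      exact hq)
    rw [hw] at h1
    rcases h1 with ⟨x, hx⟩ | h1 | ⟨x, h1⟩
    · exact Or.inl ⟨x, hx.trans hvt.2⟩
    · exact Or.inr (Or.inl h1)
    · rcases retM_sum h1 with h1 | h1
      · exact Or.inr (Or.inr (Or.inr (Or.inr ⟨x, h1⟩)))
      · exact Or.inr (Or.inr (Or.inl (Or.inr ⟨x, retM_mono hcl h1⟩)))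

end tree

end Crest.Agent.R122.F3Det370
end
end

-- ▼ part R122/F3Fin_370

/-!
# F3: gas-level assembly (row 122, helper370)

* `tI` : integral of a functional of one tree (valid at the horizon `T`) and of the gas.
* `evMass_ways_le`, `obMass_ways_le` : the masses of `GhostErr370` in tree coordinates.
* `TreeEv`, `TreeNull` : the exceptional events of a tree cluster (not good, touch, link, return to
  the protected tubes) and their nullity.
* `ObEv`, `ObNull` : return to the test family of a tree cluster hitting this family; nullity.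
* `F3Null` : the joint form, with further exceptional events; `f3Null_of`.
* `f3Input_of`, `F3_of_f3Null`, `F3_of_null` : `F3` from the null facts.
-/

set_option autoImplicit false
set_option linter.unusedSectionVars false
open MeasureTheory Set Filter
open scoped Classical ENNReal Topology
open Crest.AnalysisR.Kinetic
open Crest.Agent.R122.GC311 Crest.Agent.R122.Causal291 Crest.Agent.R122.Hit167
open Crest.Agent.R122.GhostErr370 Crest.Agent.R122.Flow671 Crest.Agent.R122.Loc45
open Crest.Agent.R122.Disc370 Crest.Agent.R122.RtG302 Crest.Agent.R122.EDefs602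
open Crest.Agent.R122.Kin796 Crest.Agent.R122.Kin796.CTree Crest.Agent.R122.Tree674
open Crest.Agent.R122.GIV566 Crest.Agent.R122.Relabel674 Crest.Agent.R122.TreeBound335
open Crest.Agent.R122.ToTree335 Crest.Agent.R122.F3Det370
noncomputable section

namespace Crest.Agent.R122.F3Fin370

/-! ### Measurability of `ways` -/

section ways

variable {Φ : Space3 → ℝ} {f₀ : PhasePoint → ℝ} {ε T : ℝ} {Ω : Type*} [MeasurableSpace Ω]

theorem measurable_ways_par (hΦ : AdmissiblePotential Φ) (hε : 0 < ε)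
    {G : Ω → (P : CTree) → PhasePoint × Par P → ℝ≥0∞}
    (hG : ∀ P, Measurable fun q : Ω × (PhasePoint × Par P) => G q.1 P q.2) {k : ℕ} (j : Fin k) :
    Measurable fun q : Ω × Config k => ways Φ ε T (G q.1) q.2 j := by
  unfold ways
  refine Measurable.tsum fun P => Finset.measurable_sum _ fun e _ => ?_
  have hV : Measurable fun q : Ω × Config k => (fun x => q.2 (e x) : Idx P → PhasePoint) :=
    measurable_pi_iff.2 fun x => (measurable_pi_apply (e x)).comp measurable_snd
  by_cases he : e (root P) = j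
  · simp only [he, true_and]
    refine Measurable.ite (hV (measurableSet_skel hΦ hε P T)) ?_ measurable_const
    have h1 : Measurable fun q : Ω × Config k =>
        (q.1, Tree674.inv Φ ε P T (fun x => q.2 (e x))) :=
      measurable_fst.prodMk ((measurable_inv hΦ hε P T).comp hV)
    exact (hG P).comp h1
  · simp only [he, false_and, if_false]
    exact measurable_const

/-- Integral of a functional of one tree and of the gas. -/
def tI (Φ : Space3 → ℝ) (f₀ : PhasePoint → ℝ) (ε T : ℝ) (P : CTree)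
    (H : PhasePoint × Par P → (m : ℕ) → Config m → ℝ≥0∞) : ℝ≥0∞ :=
  ∫⁻ z : PhasePoint × Par P, {z : PhasePoint × Par P | Valid Φ ε P T z.1.2 z.2}.indicator
    (fun z => wt Φ P z.1.2 z.2 * (pf Φ f₀ ε P z * gcE f₀ ε fun m w => H z m w)) z

theorem measurable_tI_inner (hΦ : AdmissiblePotential Φ) (hf : Measurable f₀) (P : CTree)
    {H : Ω → PhasePoint × Par P → (m : ℕ) → Config m → ℝ≥0∞}
    (hH : ∀ m, Measurable fun q : (Ω × (PhasePoint × Par P)) × Config m => H q.1.1 q.1.2 m q.2) :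
    Measurable fun q : Ω × (PhasePoint × Par P) =>
      {z : PhasePoint × Par P | Valid Φ ε P T z.1.2 z.2}.indicator
        (fun z => wt Φ P z.1.2 z.2 * (pf Φ f₀ ε P z * gcE f₀ ε fun m w => H q.1 z m w)) q.2 := by
  have h1 : Measurable fun q : Ω × (PhasePoint × Par P) => wtM Φ P q.2.1.2 q.2.2 :=
    (measurable_wtM hΦ P).comp (measurable_snd.fst.snd.prodMk measurable_snd.snd)
  have h2 : Measurable fun q : Ω × (PhasePoint × Par P) => pfM Φ f₀ ε P q.2 :=
    (measurable_pfM hΦ hf P).comp measurable_snd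
  have h3 : Measurable fun q : Ω × (PhasePoint × Par P) => gcE f₀ ε fun m w => H q.1 q.2 m w :=
    measurable_gcE_par hf (F := fun (q : Ω × (PhasePoint × Par P)) m w => H q.1 q.2 m w)
      fun m => hH m
  have h0 : MeasurableSet {q : Ω × (PhasePoint × Par P) | Valid Φ ε P T q.2.1.2 q.2.2} :=
    measurable_snd (measurableSet_valid hΦ ε P T)
  have h4 := (h1.mul (h2.mul h3)).indicator h0
  convert h4 using 1
  funext q
  by_cases hz : Valid Φ ε P T q.2.1.2 q.2.2
  · rw [indicator_of_mem (show q.2 ∈ {z : PhasePoint × Par P | Valid Φ ε P T z.1.2 z.2} from hz),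
      indicator_of_mem (show q ∈ {q : Ω × (PhasePoint × Par P) | Valid Φ ε P T q.2.1.2 q.2.2}
        from hz)]
    simp only [Pi.mul_apply]
    rw [wtM_of_adm hz.1, pfM_of_adm hz.1]
  · rw [indicator_of_notMem (show q.2 ∉ {z : PhasePoint × Par P | Valid Φ ε P T z.1.2 z.2} from hz),
      indicator_of_notMem (show q ∉ {q : Ω × (PhasePoint × Par P) | Valid Φ ε P T q.2.1.2 q.2.2}
        from hz)]

theorem measurable_tI (hΦ : AdmissiblePotential Φ) (hf : Measurable f₀) (P : CTree)
    {H : Ω → PhasePoint × Par P → (m : ℕ) → Config m → ℝ≥0∞}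
    (hH : ∀ m, Measurable fun q : (Ω × (PhasePoint × Par P)) × Config m => H q.1.1 q.1.2 m q.2) :
    Measurable fun ω => tI Φ f₀ ε T P (H ω) :=
  (measurable_tI_inner hΦ hf P hH).lintegral_prod_right'

/-- One size: the configuration integral of `ways` in tree coordinates, with a weight. -/
theorem cfg_ways_le (hΦ : AdmissiblePotential Φ) (hf : Measurable f₀) (hε : 0 < ε) {k : ℕ}
    {W : Config k → ℝ≥0∞} {WT : (P : CTree) → PhasePoint × Par P → ℝ≥0∞}
    (hWT : ∀ P, Measurable (WT P)) (hWt : ∀ P z, WT P z ≠ ∞)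
    (hW : ∀ (V : Config k) (P : CTree) (e : Idx P ≃ Fin k) (z : PhasePoint × Par P),
      Valid Φ ε P T z.1.2 z.2 → (∀ x, V (e x) = lines Φ ε P z.1 z.2 x) → W V = WT P z)
    {H : (P : CTree) → PhasePoint × Par P → (m : ℕ) → Config m → ℝ≥0∞}
    (hH : ∀ P m, Measurable fun q : (PhasePoint × Par P) × Config m => H P q.1 m q.2) :
    activity ε ^ k / (k.factorial : ℝ≥0∞) * ∫⁻ V : Config k, gcWeight f₀ ε k V *
        ∑ j : Fin k, W V * gcE f₀ ε (fun m w => ways Φ ε T (fun P z => H P z m w) V j) ≤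
      activity ε * ∑' P : CTree, if P.leaves = k then
        tI Φ f₀ ε T P (fun z m w => WT P z * H P z m w) else 0 := by
  set HI : (P : CTree) → PhasePoint × Par P → ℝ≥0∞ := fun P z =>
    gcE f₀ ε fun m w => H P z m w with hHI
  set G : (P : CTree) → PhasePoint × Par P → ℝ≥0∞ := fun P z =>
    pfM Φ f₀ ε P z * (WT P z * HI P z) with hGdef
  have hHI' : ∀ P, Measurable (HI P) := fun P =>
    measurable_gcE_par hf (F := fun z m w => H P z m w) fun m => hH P m
  have hG : ∀ P, Measurable (G P) := fun P =>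
    (measurable_pfM hΦ hf P).mul ((hWT P).mul (hHI' P))
  have key : ∀ V : Config k, gcWeight f₀ ε k V *
      ∑ j : Fin k, W V * gcE f₀ ε (fun m w => ways Φ ε T (fun P z => H P z m w) V j) ≤
      ∑ j : Fin k, ways Φ ε T G V j := by
    intro V
    by_cases hV : V ∈ PairExcluded ε k
    swap
    · have h0 : gcWeight f₀ ε k V = 0 := by simp [gcWeight, Set.indicator_of_notMem hV]
      rw [h0, zero_mul]
      exact zero_le
    have hgw : gcWeight f₀ ε k V = ∏ i, ENNReal.ofReal (f₀ (V i)) := by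
      simp [gcWeight, Set.indicator_of_mem hV]
    rw [Finset.mul_sum]
    refine Finset.sum_le_sum fun j _ => ?_
    rw [gcE_ways hf (G := fun m w P z => H P z m w)
      (fun m P z => (hH P m).comp (measurable_const.prodMk measurable_id)), mul_ways, mul_ways]
    refine ways_mono fun P e _ hS => ?_
    obtain ⟨hval, hlin⟩ := lines_inv hΦ hε hS
    have h4 : pfM Φ f₀ ε P (Tree674.inv Φ ε P T fun x => V (e x)) = gcWeight f₀ ε k V := by
      rw [pfM_of_adm hval.1, hgw]
      unfold pf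
      rw [hlin]
      exact Fintype.prod_equiv e _ _ fun x => rfl
    have h5 : W V = WT P (Tree674.inv Φ ε P T fun x => V (e x)) :=
      hW V P e _ hval fun x => (congrFun hlin x).symm
    simp only [hGdef, hHI, h4, h5]
    exact le_rfl
  refine (mul_le_mul_right (lintegral_mono key) _).trans ?_
  refine (tree_bound hΦ hε (T := T) hG (F := fun V j => ways Φ ε T G V j)
    (fun V j => le_rfl)).trans ?_
  refine mul_le_mul_right (ENNReal.tsum_le_tsum fun P => ?_) _
  split_ifs with hP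
  · refine lintegral_mono fun z => ?_
    by_cases hz : Valid Φ ε P T z.1.2 z.2
    · rw [indicator_of_mem (show z ∈ {z : PhasePoint × Par P | Valid Φ ε P T z.1.2 z.2} from hz),
        indicator_of_mem (show z ∈ {z : PhasePoint × Par P | Valid Φ ε P T z.1.2 z.2} from hz)]
      simp only [hGdef, pfM_of_adm hz.1, hHI]
      refine mul_le_mul_right (mul_le_mul_right ?_ _) _
      rw [← gcE_const_mul f₀ ε (hWt P z)]
    · rw [indicator_of_notMem
        (show z ∉ {z : PhasePoint × Par P | Valid Φ ε P T z.1.2 z.2} from hz)]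
      exact zero_le
  · exact le_rfl

/-- Finite sums over the sizes and trees. -/
theorem sum_sizes (K : ℕ) (a : CTree → ℝ≥0∞) :
    ∑ k ∈ Finset.range (K + 1), ∑' P : CTree, (if P.leaves = k then a P else 0) =
      ∑ P ∈ GIVStep383.trees K, a P := by
  rw [← IStep317.tsum_trees K a, ← Summable.tsum_finsetSum fun _ _ => ENNReal.summable]
  refine tsum_congr fun P => ?_
  rw [Finset.sum_ite_eq (Finset.range (K + 1)) P.leaves]
  simp only [Finset.mem_range, Nat.lt_succ_iff]

theorem activity_pos (hε : 0 < ε) : activity ε ≠ 0 ∧ activity ε ≠ ∞ := by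
  constructor
  · unfold activity
    exact (ENNReal.ofReal_pos.2 (by positivity)).ne'
  · unfold activity
    exact ENNReal.ofReal_ne_top

theorem wt_eq_wQ {k : ℕ} {V : Config k} {P : CTree} {z : PhasePoint × Par P} (e : Idx P ≃ Fin k)
    (h : Adm Φ P z.1.2 z.2) (hV : ∀ x, V (e x) = lines Φ ε P z.1 z.2 x) :
    XAvg370.wt k V = InEq2.wQ Φ ε P z := by
  rw [InEq2.wQ_eq h]
  unfold XAvg370.wt
  exact (Fintype.sum_equiv e _ _ fun x => by rw [hV x]).symm

theorem wQ_ne_top {P : CTree} {z : PhasePoint × Par P} : InEq2.wQ Φ ε P z ≠ ∞ := by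
  unfold InEq2.wQ
  exact ENNReal.sum_ne_top.2 fun i _ => ENNReal.ofReal_ne_top

/-- The energy-weighted mass of `GhostErr370` in tree coordinates. -/
theorem evMass_ways_le (hΦ : AdmissiblePotential Φ) (hf : Measurable f₀) (hε : 0 < ε) (K : ℕ)
    {H : (P : CTree) → PhasePoint × Par P → (m : ℕ) → Config m → ℝ≥0∞}
    (hH : ∀ P m, Measurable fun q : (PhasePoint × Par P) × Config m => H P q.1 m q.2) :
    evMass f₀ ε K (fun _ V j m w => ways Φ ε T (fun P z => H P z m w) V j) ≤
      ∑ P ∈ GIVStep383.trees K, tI Φ f₀ ε T P (fun z m w => InEq2.wQ Φ ε P z * H P z m w) := by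
  unfold evMass
  rw [← sum_sizes]
  refine Finset.sum_le_sum fun k _ => ?_
  have h := cfg_ways_le (T := T) (k := k) (W := fun V => XAvg370.wt k V)
    (WT := fun P z => InEq2.wQ Φ ε P z) hΦ hf hε (fun P => InEq2.measurable_wQ hΦ P)
    (fun P z => wQ_ne_top) (fun V P e z hz hV => wt_eq_wQ e hz.1 hV) hH
  refine (mul_le_mul_right h _).trans ?_
  rw [← mul_assoc, ENNReal.inv_mul_cancel (activity_pos hε).1 (activity_pos hε).2, one_mul]

/-- The mass with the test family in tree coordinates. -/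
theorem obMass_ways_le (hΦ : AdmissiblePotential Φ) (hf : Measurable f₀) (hε : 0 < ε) (K : ℕ)
    (R : ℝ) {H : (P : CTree) → Space3 → PhasePoint × Par P → (m : ℕ) → Config m → ℝ≥0∞}
    (hH : ∀ P m, Measurable fun q : (Space3 × (PhasePoint × Par P)) × Config m =>
      H P q.1.1 q.1.2 m q.2) :
    obMass f₀ ε K R (fun _ x V j m w => ways Φ ε T (fun P z => H P x z m w) V j) ≤
      ∑ P ∈ GIVStep383.trees K, activity ε *
        ∫⁻ x in Metric.closedBall (0 : Space3) R, tI Φ f₀ ε T P (H P x) := by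
  unfold obMass
  have hx : ∀ (x : Space3) (k : ℕ), activity ε ^ k / (k.factorial : ℝ≥0∞) *
      ∫⁻ V : Config k, gcWeight f₀ ε k V * ∑ j : Fin k,
        gcE f₀ ε (fun m w => ways Φ ε T (fun P z => H P x z m w) V j) ≤
      activity ε * ∑' P : CTree, if P.leaves = k then tI Φ f₀ ε T P (H P x) else 0 := by
    intro x k
    have h := cfg_ways_le (T := T) (k := k) (W := fun _ => 1)
      (WT := fun P z => 1) hΦ hf hε (fun P => measurable_const)
      (fun P z => ENNReal.one_ne_top) (fun V P e z hz hV => rfl)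
      (H := fun P z m w => H P x z m w)
      (fun P m => (hH P m).comp ((measurable_const.prodMk measurable_fst).prodMk measurable_snd))
    simpa only [one_mul] using h
  calc _ ≤ ∫⁻ x in Metric.closedBall (0 : Space3) R, ∑ P ∈ GIVStep383.trees K,
        activity ε * tI Φ f₀ ε T P (H P x) := by
        refine lintegral_mono fun x => (Finset.sum_le_sum fun k _ => hx x k).trans ?_
        rw [← Finset.mul_sum, sum_sizes, Finset.mul_sum]
    _ = _ := by
        rw [lintegral_finsetSum _ fun P _ => (measurable_tI hΦ hf P (hH P)).const_mul _]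
        exact Finset.sum_congr rfl fun P _ =>
          lintegral_const_mul _ (measurable_tI hΦ hf P (hH P))

end ways

/-! ### The two null facts -/

section null

/-- Pairwise exclusion of the particles of a tree and of the gas. -/
def Excl (Φ : Space3 → ℝ) (ε : ℝ) (P : CTree) (z : PhasePoint × Par P) {m : ℕ} (w : Config m) :
    Prop :=
  (∀ i j, i ≠ j → ε < dist (lines Φ ε P z.1 z.2 i).1 (lines Φ ε P z.1 z.2 j).1) ∧
    w ∈ PairExcluded ε m ∧ ∀ i q, ε < dist (lines Φ ε P z.1 z.2 i).1 (w q).1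

/-- The exceptional events of a tree with horizon `σ ≤ t`. -/
def TreeEv (Φ : Space3 → ℝ) (ε : ℝ) (K : ℕ) (t : ℝ) (P : CTree) (z : PhasePoint × Par P) {m : ℕ}
    (w : Config m) : Prop :=
  ∃ σ ∈ Ioc 0 t, Valid Φ ε P σ z.1.2 z.2 ∧ Sep Φ ε P σ z.1 z.2 ∧
    (¬ AllOk Φ ε w (exL Φ ε P z) ∨ (∃ x, (MW.cfg w).thetaL Φ ε K t (exL Φ ε P z x) ≤ t) ∨
      LinkEx Φ ε K t w (exL Φ ε P z) ∨ RetEx Φ ε K t w (exL Φ ε P z) (protT Φ ε P σ z) ∨
      RetLn Φ ε K t w (exL Φ ε P z) (protT Φ ε P σ z))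

/-- The exceptional events of trees are negligible (with the energy weight). -/
def TreeNull (Φ : Space3 → ℝ) (f₀ : PhasePoint → ℝ) (t : ℝ) : Prop :=
  ∀ (P : CTree) (δ : ℝ), 0 < δ → ∃ K : ℕ, ∀ᶠ ε in 𝓝[>] (0 : ℝ),
    ∃ H : PhasePoint × Par P → (m : ℕ) → Config m → ℝ≥0∞,
      (∀ m, Measurable fun q : (PhasePoint × Par P) × Config m => H q.1 m q.2) ∧
      (∀ z m (w : Config m), Excl Φ ε P z w → TreeEv Φ ε K t P z w → 1 ≤ H z m w) ∧
      tI Φ f₀ ε t P (fun z m w => InEq2.wQ Φ ε P z * H z m w) ≤ ENNReal.ofReal δ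

/-- Return to the test family of a tree which hits it, all exit lines being good, untouched and
unlinked. -/
def ObEv (Φ : Space3 → ℝ) (ε : ℝ) (K : ℕ) (t : ℝ) {ι : Type} (S : Tubes ι) (P : CTree)
    (z : PhasePoint × Par P) {m : ℕ} (w : Config m) : Prop :=
  ∃ σ ∈ Ioc 0 t, IStep317.FirstAt Φ ε P S z σ ∧ AllOk Φ ε w (exL Φ ε P z) ∧
    (∀ x, t < (MW.cfg w).thetaL Φ ε K t (exL Φ ε P z x)) ∧ ¬ LinkEx Φ ε K t w (exL Φ ε P z) ∧
    (RetEx Φ ε K t w (exL Φ ε P z) S ∨ RetLn Φ ε K t w (exL Φ ε P z) S)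


/-- The input of the assembly, with further exceptional events `X` which do not depend on the
translation (runs, bad clusters, bad graphs without the obstacle): they are negligible together with
`TreeEv`, and outside `X` the returns to the test family are negligible. -/
def F3Null (Φ : Space3 → ℝ) (f₀ : PhasePoint → ℝ) (T t : ℝ) : Prop :=
  ∀ (P : CTree) (δ : ℝ), 0 < δ → ∃ (K : ℕ)
    (X : ℝ → PhasePoint × Par P → (m : ℕ) → Config m → Prop),
    (∀ᶠ ε in 𝓝[>] (0 : ℝ), ∃ H : PhasePoint × Par P → (m : ℕ) → Config m → ℝ≥0∞,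
      (∀ m, Measurable fun q : (PhasePoint × Par P) × Config m => H q.1 m q.2) ∧
      (∀ z m (w : Config m), Excl Φ ε P z w → TreeEv Φ ε K t P z w ∨ X ε z m w → 1 ≤ H z m w) ∧
      tI Φ f₀ ε t P (fun z m w => InEq2.wQ Φ ε P z * H z m w) ≤ ENNReal.ofReal δ) ∧
    ∀ (ι : Type) [Fintype ι] (Sk : ℕ → Tubes ι) (S : Tubes ι) (εk : ℕ → ℝ),
      (∀ k, 0 < εk k) → Tendsto εk atTop (𝓝 0) → TubeConv T Sk S → Generic T S →
      (∀ n i, Continuous ((Sk n).c i)) → ∀ (R δ' : ℝ), 0 < δ' → ∀ᶠ n in atTop,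
        ∃ H : Space3 → PhasePoint × Par P → (m : ℕ) → Config m → ℝ≥0∞,
          (∀ m, Measurable fun q : (Space3 × (PhasePoint × Par P)) × Config m =>
            H q.1.1 q.1.2 m q.2) ∧
          (∀ x ∈ Metric.closedBall (0 : Space3) R, ∀ z m (w : Config m), Excl Φ (εk n) P z w →
            ObEv Φ (εk n) K t ((Sk n).shift x) P z w → ¬ X (εk n) z m w → 1 ≤ H x z m w) ∧
          activity (εk n) * ∫⁻ x in Metric.closedBall (0 : Space3) R, tI Φ f₀ (εk n) t P (H x) ≤
            ENNReal.ofReal δ'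


end null

/-! ### Assembly -/

section final

variable {Φ : Space3 → ℝ} {f₀ : PhasePoint → ℝ} {ε t : ℝ}

theorem perp_of_disc {α : Type} {c : α → ℝ → Space3} {θ : α → ℝ} {𝒢 : Cls} {k m : ℕ}
    {V : Config k} {w : Config m} {j : Fin k} {σ : ℝ} (hΦ : AdmissiblePotential Φ) (hε : 0 < ε)
    (hσ : 0 < σ) (h : GoodV Φ ε c θ 𝒢 V j σ) (hD : Disc Φ ε c θ V j σ w) : Perp ε V w := by
  by_contra hp
  refine hD ⟨fun h1 => absurd h1.1 hp, fun h2 => absurd (perp_of_ghost hΦ hε hσ h h2) hp⟩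

/-- The discrepancy in tree coordinates. -/
theorem disc_tree {ι : Type} [Finite ι] {S : Tubes ι} {tw : ℝ} {k m : ℕ} {V : Config k}
    {w : Config m} {j : Fin k} (hΦ : AdmissiblePotential Φ) (hε : 0 < ε) (htw : 0 ≤ tw)
    (hc : ∀ i, Continuous (S.c i)) (hV : V ∈ PairExcluded ε k) (hw : w ∈ PairExcluded ε m)
    (hG : GoodH Φ ε S.c S.b (IStep317.treeCls Φ ε) tw t V j)
    (hD : Disc Φ ε S.c S.b V j (hitTime (pth Φ ε V) ε S.c S.b 0 j) w) (K : CTree → ℕ) :
    ∃ (P : CTree) (e : Idx P ≃ Fin k) (z : PhasePoint × Par P), P.leaves = k ∧ e (root P) = j ∧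
      Valid Φ ε P t z.1.2 z.2 ∧ (∀ x, V (e x) = lines Φ ε P z.1 z.2 x) ∧ Excl Φ ε P z w ∧
      (TreeEv Φ ε (K P) t P z w ∨ ObEv Φ ε (K P) t S P z w) := by
  have hσ : 0 < hitTime (pth Φ ε V) ε S.c S.b 0 j := hG.2.good.pos (htw.trans hG.1.1)
  set σ := hitTime (pth Φ ε V) ε S.c S.b 0 j with hσd
  have hσt : σ ≤ t := hG.1.2.le
  obtain ⟨v, hv⟩ := exists_discAt hΦ hε hc hσ hV hw hG.2 hD
  obtain ⟨P, e, he, ℓ, p, hval, hsep, hl⟩ := hG.2.cls
  have hperp := perp_of_disc hΦ hε hσ hG.2 hD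
  have hcard : P.leaves = k := by
    have h1 := Fintype.card_congr e
    rwa [card_idx, Fintype.card_fin] at h1
  refine ⟨P, e, (ℓ, p), hcard, he, TubeChild491.valid_mono P hσt ℓ.2 p hval, hl,
    ⟨fun i i' hii => ?_, hw, fun i q => ?_⟩, ?_⟩
  · rw [← hl, ← hl]
    exact hV _ _ fun hh => hii (e.injective hh)
  · rw [← hl]
    exact hperp _ _
  by_cases hT : TreeEv Φ ε (K P) t P (ℓ, p) w
  · exact Or.inl hT
  right
  have hno : ∀ Q : Prop, Q → (Q → ¬ AllOk Φ ε w (exL Φ ε P (ℓ, p)) ∨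
      (∃ x, (MW.cfg w).thetaL Φ ε (K P) t (exL Φ ε P (ℓ, p) x) ≤ t) ∨
      LinkEx Φ ε (K P) t w (exL Φ ε P (ℓ, p)) ∨
      RetEx Φ ε (K P) t w (exL Φ ε P (ℓ, p)) (protT Φ ε P σ (ℓ, p)) ∨
      RetLn Φ ε (K P) t w (exL Φ ε P (ℓ, p)) (protT Φ ε P σ (ℓ, p))) → False :=
    fun Q hQ h => hT ⟨σ, ⟨hσ, hσt⟩, hval, hsep, h hQ⟩
  have hOk : AllOk Φ ε w (exL Φ ε P (ℓ, p)) := by
    by_contra h
    exact hno _ h fun h => Or.inl h
  have hTch : ¬ ∃ x, (MW.cfg w).thetaL Φ ε (K P) t (exL Φ ε P (ℓ, p) x) ≤ t :=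
    fun h => hno _ h fun h => Or.inr (Or.inl h)
  have hLk : ¬ LinkEx Φ ε (K P) t w (exL Φ ε P (ℓ, p)) :=
    fun h => hno _ h fun h => Or.inr (Or.inr (Or.inl h))
  have hfirst : IStep317.FirstAt Φ ε P S (ℓ, p) σ := by
    refine (IStep317.firstAt_iff hΦ hε hσ).2 ⟨hval, hsep, ?_⟩
    have h1 : (fun x => V (e x)) = lines Φ ε P ℓ p := funext hl
    rw [← h1, pth_relabel hΦ hε e V]
    refine (IStep317.goodGhostHit_relabel e).2 ?_
    rw [he]
    exact hG.2.good
  refine ⟨σ, ⟨hσ, hσt⟩, hfirst, hOk, fun x => ?_, hLk, ?_⟩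
  · by_contra h
    exact hTch ⟨x, not_lt.1 h⟩
  · rcases f3_det (K := K P) hΦ hε hσ hval hsep he hl hv hσt hOk with h | h | h | h
    · exact absurd h hTch
    · exact absurd h hLk
    · exact (hno _ h fun h => Or.inr (Or.inr (Or.inr h))).elim
    · exact h

/-- **F3Input from the null facts.** -/
theorem f3Input_of (hf : Measurable f₀) (hΦ : AdmissiblePotential Φ) {T tw : ℝ} (htw : 0 ≤ tw)
    (hN : F3Null Φ f₀ T t) : F3Input Φ f₀ T tw t := by
  intro ι _ Sk S εk hε hε0 hconv hgen hcont K R δ hδ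
  set N : ℝ := (GIVStep383.trees K).card + 1 with hNd
  have hNpos : 0 < N := by positivity
  have hδ' : 0 < δ / N := div_pos hδ hNpos
  choose K' X hK' hX using fun P => hN P (δ / N) hδ'
  have hε0' : Tendsto εk atTop (𝓝[>] 0) := tendsto_nhdsWithin_iff.2
    ⟨hε0, Eventually.of_forall fun n => hε n⟩
  have h1 := (Finset.eventually_all (GIVStep383.trees K)).2 fun P _ =>
    hε0'.eventually (hK' P)
  have h2 := (Finset.eventually_all (GIVStep383.trees K)).2 fun P _ =>
    hX P ι Sk S εk hε hε0 hconv hgen hcont R (δ / N) hδ'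
  filter_upwards [h1, h2] with n h1 h2
  have h1' : ∀ P : CTree, ∃ H : PhasePoint × Par P → (m : ℕ) → Config m → ℝ≥0∞,
      (∀ m, Measurable fun q : (PhasePoint × Par P) × Config m => H q.1 m q.2) ∧
      (P ∈ GIVStep383.trees K → ∀ z m (w : Config m), Excl Φ (εk n) P z w →
        TreeEv Φ (εk n) (K' P) t P z w ∨ X P (εk n) z m w → 1 ≤ H z m w) ∧
      (P ∈ GIVStep383.trees K →
        tI Φ f₀ (εk n) t P (fun z m w => InEq2.wQ Φ (εk n) P z * H z m w) ≤
          ENNReal.ofReal (δ / N)) := by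
    intro P
    by_cases hP : P ∈ GIVStep383.trees K
    · obtain ⟨H, ha, hb, hc⟩ := h1 P hP
      exact ⟨H, ha, fun _ => hb, fun _ => hc⟩
    · exact ⟨fun _ _ _ => 0, fun m => measurable_const, fun h => absurd h hP,
        fun h => absurd h hP⟩
  have h2' : ∀ P : CTree, ∃ H : Space3 → PhasePoint × Par P → (m : ℕ) → Config m → ℝ≥0∞,
      (∀ m, Measurable fun q : (Space3 × (PhasePoint × Par P)) × Config m =>
        H q.1.1 q.1.2 m q.2) ∧
      (P ∈ GIVStep383.trees K → ∀ x ∈ Metric.closedBall (0 : Space3) R, ∀ z m (w : Config m),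
        Excl Φ (εk n) P z w → ObEv Φ (εk n) (K' P) t ((Sk n).shift x) P z w →
          ¬ X P (εk n) z m w → 1 ≤ H x z m w) ∧
      (P ∈ GIVStep383.trees K →
        activity (εk n) * ∫⁻ x in Metric.closedBall (0 : Space3) R, tI Φ f₀ (εk n) t P (H x) ≤
          ENNReal.ofReal (δ / N)) := by
    intro P
    by_cases hP : P ∈ GIVStep383.trees K
    · obtain ⟨H, ha, hb, hc⟩ := h2 P hP
      exact ⟨H, ha, fun _ => hb, fun _ => hc⟩
    · exact ⟨fun _ _ _ _ => 0, fun m => measurable_const, fun h => absurd h hP,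
        fun h => absurd h hP⟩
  choose H₁ hm₁ hev₁ hI₁ using h1'
  choose H₂ hm₂ hev₂ hI₂ using h2'
  have hsum : ∀ a : CTree → ℝ≥0∞, (∀ P ∈ GIVStep383.trees K, a P ≤ ENNReal.ofReal (δ / N)) →
      ∑ P ∈ GIVStep383.trees K, a P ≤ ENNReal.ofReal δ := by
    intro a ha
    refine (Finset.sum_le_sum ha).trans ?_
    rw [Finset.sum_const, nsmul_eq_mul, ← ENNReal.ofReal_natCast,
      ← ENNReal.ofReal_mul (Nat.cast_nonneg _)]
    refine ENNReal.ofReal_le_ofReal ?_
    rw [mul_div_assoc', div_le_iff₀ hNpos, hNd]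
    nlinarith
  refine ⟨fun _ V j m w => ways Φ (εk n) t (fun P z => H₁ P z m w) V j,
    fun _ x V j m w => ways Φ (εk n) t (fun P z => H₂ P x z m w) V j, ⟨?_, ?_, ?_⟩, ?_, ?_⟩
  · intro k j m
    have h := measurable_ways_par (T := t) (Ω := Config m) (k := k) hΦ (hε n)
      (G := fun w P z => H₁ P z m w) (fun P => (hm₁ P m).comp measurable_swap) j
    exact h.comp measurable_swap
  · intro k j m
    have h := measurable_ways_par (T := t) (Ω := Space3 × Config m) (k := k) hΦ (hε n)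
      (G := fun q P z => H₂ P q.1 z m q.2) (fun P => (hm₂ P m).comp
        (((measurable_fst.comp measurable_fst).prodMk measurable_snd).prodMk
          (measurable_snd.comp measurable_fst))) j
    exact h.comp (((measurable_fst.comp measurable_fst).prodMk measurable_snd).prodMk
      (measurable_snd.comp measurable_fst))
  · intro k hk x hx V j m w hV hw hG hD
    obtain ⟨P, e, z, hcard, he, hval, hl, hex, hev⟩ := disc_tree (S := (Sk n).shift x) hΦ (hε n)
      htw (fun i => (hcont n i).add continuous_const) hV hw hG hD K'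
    have hP : P ∈ GIVStep383.trees K := GIVStep383.mem_trees.2 (hcard.trans_le hk)
    have hcase : (TreeEv Φ (εk n) (K' P) t P z w ∨ X P (εk n) z m w) ∨
        (ObEv Φ (εk n) (K' P) t ((Sk n).shift x) P z w ∧ ¬ X P (εk n) z m w) := by
      by_cases hXX : X P (εk n) z m w
      · exact Or.inl (Or.inr hXX)
      · exact hev.imp Or.inl fun h => ⟨h, hXX⟩
    rcases hcase with hev | ⟨hev, hnX⟩
    · refine le_add_right ((hev₁ P hP z m w hex hev).trans ?_)
      exact le_ways hΦ (hε n) (G := fun P z => H₁ P z m w) (ℓ := z.1) (p := z.2) he hval hl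
    · refine le_add_left ((hev₂ P hP x hx z m w hex hev hnX).trans ?_)
      exact le_ways hΦ (hε n) (G := fun P z => H₂ P x z m w) (ℓ := z.1) (p := z.2) he hval hl
  · exact (evMass_ways_le hΦ hf (hε n) K hm₁).trans (hsum _ hI₁)
  · exact (obMass_ways_le hΦ hf (hε n) K R hm₂).trans (hsum _ hI₂)



end final

end Crest.Agent.R122.F3Fin370
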