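import Mathlib
import Crest.Prelude.Def_KineticLimit
import Crest.Agent.R122.VLDefs_581

/-!
# Row 122, block D3, part P1 (helper823): merge trees, the parametrisation, the Prop `AE`

* `MTree J κ` : merge structures; `supp`, `root`, `WF`.
* `Par τ`     : parameters: for every merge the time `t` and `(ξ, g)` = (relative position / ε,
  relative velocity) of the two touching labels at the time `t`.
* `ov M τ π z x` : the configuration `x` overwritten on `supp τ` by the configuration with
  parameters `π` and root particle `z` (free line extrapolated to time `0`).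
* `Ord τ u π` : the merge times are positive, smaller than `u`, and increase towards the root.
* `AE Φ`      : for almost all parameters the configuration is tree-like for small `ε`.
-/

set_option autoImplicit false

open MeasureTheory Set Filter Topology
open scoped ENNReal NNReal
open Crest.AnalysisR.Kinetic
open Crest.Agent.R122.Ins45 Crest.Agent.R122.GIV566 Crest.Agent.R122.VL581

noncomputable section

namespace Crest.Agent.R122.VLPar823

open scoped Classical

/-- Merge structures: at the node `node A k i B l j P Q` the label `(A, k, i)` of `P` touches the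
label `(B, l, j)` of `Q`. -/
inductive MTree (J κ : Type) : Type
  | leaf (j : J) : MTree J κ
  | node (A : Finset J) (k : κ) (i : J) (B : Finset J) (l : κ) (j : J) (P Q : MTree J κ) :
      MTree J κ

variable {J κ : Type}

namespace MTree

/-- particles of a merge structure -/
def supp : MTree J κ → Finset J
  | leaf j => {j}
  | node _ _ _ _ _ _ P Q => supp P ∪ supp Q

/-- root particle -/
def root : MTree J κ → J
  | leaf j => j
  | node _ _ _ _ _ _ P _ => root P

/-- number of merges -/
def nn : MTree J κ → ℕ
  | leaf _ => 0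
  | node _ _ _ _ _ _ P Q => nn P + nn Q + 1

/-- well-formed merge structures; the obstacle is never in a right subtree -/
def WF (o : Option J) : MTree J κ → Prop
  | leaf _ => True
  | node A _ i B _ j P Q => Disjoint (supp P) (supp Q) ∧ A ⊆ supp P ∧ B ⊆ supp Q ∧ i ∈ A ∧ j ∈ B ∧
      (∀ x ∈ supp Q, o ≠ some x) ∧ WF o P ∧ WF o Q

/-- parameters: `(t, ξ, g)` for every merge -/
def Par : MTree J κ → Type
  | leaf _ => Unit
  | node _ _ _ _ _ _ P Q => (ℝ × Space3 × Space3) × Par P × Par Q

instance instMeasurableSpacePar : ∀ τ : MTree J κ, MeasurableSpace (Par τ)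
  | leaf _ => inferInstanceAs (MeasurableSpace Unit)
  | node _ _ _ _ _ _ P Q => @Prod.instMeasurableSpace _ _ _ (@Prod.instMeasurableSpace _ _
      (instMeasurableSpacePar P) (instMeasurableSpacePar Q))

/-- Lebesgue measure on the parameters -/
def parVol : ∀ τ : MTree J κ, Measure (Par τ)
  | leaf _ => (Measure.dirac () : Measure Unit)
  | node _ _ _ _ _ _ P Q =>
      (volume : Measure (ℝ × Space3 × Space3)).prod ((parVol P).prod (parVol Q))

instance instMeasureSpacePar (τ : MTree J κ) : MeasureSpace (Par τ) := ⟨parVol τ⟩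

instance instSigmaFinitePar : ∀ τ : MTree J κ, SigmaFinite (volume : Measure (Par τ))
  | leaf _ => inferInstanceAs (SigmaFinite (Measure.dirac () : Measure Unit))
  | node _ _ _ _ _ _ P Q => by
      haveI := instSigmaFinitePar P
      haveI := instSigmaFinitePar Q
      exact inferInstanceAs (SigmaFinite ((volume : Measure (ℝ × Space3 × Space3)).prod
        ((volume : Measure (Par P)).prod (volume : Measure (Par Q)))))

/-- The merge times are positive, smaller than `u`, and decrease towards the leaves. -/
def Ord : ∀ τ : MTree J κ, ℝ → Par τ → Prop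
  | leaf _ => fun _ _ => True
  | node _ _ _ _ _ _ P Q => fun u π => 0 < π.1.1 ∧ π.1.1 < u ∧ Ord P π.1.1 π.2.1 ∧
      Ord Q π.1.1 π.2.2

end MTree

open MTree

/-- State of the label `(A, k, i)` at time `t` (velocity `0` for the obstacle). -/
def ph (M : VSys J κ) [Fintype J] (A : Finset J) (k : κ) (t : ℝ) (Z : J → PhasePoint) (i : J) :
    PhasePoint :=
  (M.pos A k t Z i, if M.o = some i then 0 else (M.st A t Z i).2)

/-- The translation and boost `w` such that `q` moved by `w` is at `(ε ξ, g)` from `p` at
time `t`: `p - (q + (w.1 + t w.2, w.2)) = (ε ξ, g)`. -/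
def mv (ε t : ℝ) (p q : PhasePoint) (ξ g : Space3) : PhasePoint :=
  (p.1 - ε • ξ - q.1 - t • (p.2 - g - q.2), p.2 - g - q.2)

/-- **The configuration with given parameters**: `x` overwritten on `supp τ`. -/
def ov (M : VSys J κ) [Fintype J] : ∀ τ : MTree J κ, Par τ → PhasePoint → (J → PhasePoint) →
    (J → PhasePoint)
  | leaf j => fun _ z x => Function.update x j z
  | node A k i B l j P Q => fun π z x =>
      ov M Q π.2.2 (mv M.ε π.1.1 (ph M A k π.1.1 (ov M P π.2.1 z x) i)
        (ph M B l π.1.1 (ov M Q π.2.2 0 (ov M P π.2.1 z x)) j) π.1.2.1 π.1.2.2)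
        (ov M P π.2.1 z x)

/-- The merge tubes are active at their merge times. -/
def Act (M : VSys J κ) : ∀ τ : MTree J κ, Par τ → Prop
  | leaf _ => fun _ => True
  | node _ k i _ _ _ P Q => fun π =>
      (M.o = some i → π.1.1 ≤ M.S.b k) ∧ Act M P π.2.1 ∧ Act M Q π.2.2

/-- **(AE)**: for almost all parameters the configuration is tree-like for small `ε`. -/
def AE (Φ : Space3 → ℝ) : Prop :=
  ∀ (J κ : Type) [Fintype J] [Fintype κ] (T C : ℝ), 0 < T → 1 ≤ C →
    ∀ (M : ℕ → VSys J κ) (o : Option J) (b : J → ℝ) (S : Tubes κ) (R ς : ℕ → ℝ),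
      (∀ k, (M k).Φ = Φ ∧ (M k).T = T ∧ (M k).o = o ∧ 0 < (M k).ε) →
      Tendsto (fun k => (M k).ε) atTop (𝓝 0) → (∀ i, Tendsto (fun k => (M k).b i) atTop (𝓝 (b i))) →
      TubeConv T (fun k => (M k).S) S → Generic T S →
      Tendsto R atTop atTop → Tendsto ς atTop (𝓝 0) →
      ∀ τ : MTree J κ, WF o τ → supp τ = Finset.univ →
        ∀ᵐ p : Par τ × PhasePoint, Ord τ T p.1 →
          ∀ᶠ k in atTop, Act (M k) τ p.1 → (M k).Conn C Finset.univ (ov (M k) τ p.1 p.2 0) →
            (M k).TreeLike C (R k * (M k).ε) (ς k) Finset.univ (ov (M k) τ p.1 p.2 0)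

end Crest.Agent.R122.VLPar823

end
private theorem rz_9e73208bc4 : type_of% @_root_.Crest.Agent.R122.VLPar823.MTree.nn.eq_def := @_root_.Crest.Agent.R122.VLPar823.MTree.nn.eq_def -- L52
private theorem rz_97d124df23 : type_of% @_root_.Crest.Agent.R122.VLPar823.MTree.nn.eq_1 := @_root_.Crest.Agent.R122.VLPar823.MTree.nn.eq_1 -- L52
private theorem rz_e211ce1c5c : type_of% @_root_.Crest.Agent.R122.VLPar823.MTree.supp.eq_def := @_root_.Crest.Agent.R122.VLPar823.MTree.supp.eq_def -- L42
private theorem rz_93bf17630f : type_of% @_root_.Crest.Agent.R122.VLPar823.MTree.supp.eq_1 := @_root_.Crest.Agent.R122.VLPar823.MTree.supp.eq_1 -- L42
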