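import Crest.Agent.R122.VLnull_564

/-!
# Row 122, block VL: outgoing velocity and offset of a scaled state (helper564)

* `pout Φ z`, `qout Φ z`: outgoing velocity and position offset (`q(t) = qout + t pout` for large
  scaled times `t`), `0` if never exited;
* `pout_eq`, `qout_eq`, `ae_exited` (T'), `ae_swap` (Sw'), `ae_glance` (Gl'), measurability,
  equivariance, norm, invariance along the line;
* `pout_mem_span` (Pl), `ae_opposite` (Op).
-/

set_option autoImplicit false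
set_option linter.unusedSectionVars false
open MeasureTheory Metric Set Filter
open scoped ENNReal NNReal Topology
open Crest.AnalysisR.Kinetic

noncomputable section

namespace Crest.Agent.R122.VLcore564

open Scat818 Flux663

variable {Φ : Space3 → ℝ}

open scoped Classical in
/-- Outgoing velocity, `0` if the state is never exited. -/
def pout (Φ : Space3 → ℝ) (z : Space3 × Space3) : Space3 :=
  if h : ∃ R, Exi Φ R z then (rel0 Φ h.choose z).2 else 0

open scoped Classical in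
/-- Offset of the outgoing line (its position at scaled time `0`), `0` if never exited. -/
def qout (Φ : Space3 → ℝ) (z : Space3 × Space3) : Space3 :=
  if h : ∃ R, Exi Φ R z then
    (rel0 Φ h.choose z).1 - h.choose • (rel0 Φ h.choose z).2 else 0

/-- **(St)** Stability of the outgoing data. -/
theorem exi_stable (hΦ : AdmissiblePotential Φ) {R R' : ℝ} (hR : R ≤ R') {z : Space3 × Space3}
    (hz : Exi Φ R z) : Exi Φ R' z ∧ (rel0 Φ R' z).2 = (rel0 Φ R z).2 ∧
      (rel0 Φ R' z).1 - R' • (rel0 Φ R' z).2 = (rel0 Φ R z).1 - R • (rel0 Φ R z).2 := by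
  refine ⟨exi_mono hΦ hR hz, ?_, ?_⟩
  · rw [rel0_mono hΦ hR hz]
  · rw [rel0_mono hΦ hR hz]
    show (rel0 Φ R z).1 + (R' - R) • (rel0 Φ R z).2 - R' • (rel0 Φ R z).2 =
      (rel0 Φ R z).1 - R • (rel0 Φ R z).2
    module

theorem exi_unique (hΦ : AdmissiblePotential Φ) {R R' : ℝ} {z : Space3 × Space3}
    (hz : Exi Φ R z) (hz' : Exi Φ R' z) : (rel0 Φ R' z).2 = (rel0 Φ R z).2 ∧
      (rel0 Φ R' z).1 - R' • (rel0 Φ R' z).2 = (rel0 Φ R z).1 - R • (rel0 Φ R z).2 := by
  rcases le_total R R' with h | h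
  · exact (exi_stable hΦ h hz).2
  · have := (exi_stable hΦ h hz').2
    exact ⟨this.1.symm, this.2.symm⟩

theorem pout_eq (hΦ : AdmissiblePotential Φ) {R : ℝ} {z : Space3 × Space3} (hz : Exi Φ R z) :
    pout Φ z = (rel0 Φ R z).2 := by
  classical
  have h : ∃ R, Exi Φ R z := ⟨R, hz⟩
  unfold pout
  rw [dif_pos h]
  exact (exi_unique hΦ hz h.choose_spec).1

theorem qout_eq (hΦ : AdmissiblePotential Φ) {R : ℝ} {z : Space3 × Space3} (hz : Exi Φ R z) :
    qout Φ z = (rel0 Φ R z).1 - R • (rel0 Φ R z).2 := by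
  classical
  have h : ∃ R, Exi Φ R z := ⟨R, hz⟩
  unfold qout
  rw [dif_pos h]
  exact (exi_unique hΦ hz h.choose_spec).2

theorem pout_of_not {z : Space3 × Space3} (h : ¬ ∃ R, Exi Φ R z) : pout Φ z = 0 := by
  classical
  unfold pout
  rw [dif_neg h]




/-- **(T')** Almost every state is exited for all large `R`. -/
theorem ae_exited (hΦ : AdmissiblePotential Φ) :
    ∀ᵐ z : Space3 × Space3, ∃ R₀ : ℝ, ∀ R, R₀ ≤ R → Exi Φ R z := ae_exi_eventually hΦ

theorem norm_pout (hΦ : AdmissiblePotential Φ) {z : Space3 × Space3} (h : ∃ R, Exi Φ R z) :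
    ‖pout Φ z‖ = ‖z.2‖ := by
  obtain ⟨R, hz⟩ := h
  rw [pout_eq hΦ hz]
  exact norm_rel0 hΦ hz


/-- **(Sw')** -/
theorem ae_swap (hΦ : AdmissiblePotential Φ) :
    ∀ᵐ z : Space3 × Space3, ∀ R, Exi Φ R z → (rel0 Φ R z).2 ≠ -z.2 := by
  have h : ∀ n : ℕ, ∀ᵐ z : Space3 × Space3, ¬ (Exi Φ (n : ℝ) z ∧ (rel0 Φ (n : ℝ) z).2 = -z.2) := by
    intro n
    rw [ae_iff]
    simpa only [not_not] using swap_null hΦ (n : ℝ)
  filter_upwards [ae_all_iff.2 h] with z hz R hR heq
  obtain ⟨n, hn⟩ := exists_nat_ge R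
  obtain ⟨h1, h2, _⟩ := exi_stable hΦ hn hR
  exact hz n ⟨h1, h2.trans heq⟩

theorem ae_pout_swap (hΦ : AdmissiblePotential Φ) :
    ∀ᵐ z : Space3 × Space3, pout Φ z ≠ -z.2 := by
  have h0 : ∀ᵐ z : Space3 × Space3, z.2 ≠ 0 := by
    rw [ae_iff]
    simpa only [not_not, ne_eq] using volume_vel_zero
  filter_upwards [ae_swap hΦ, ae_exited hΦ] with z hz ⟨R₀, hR⟩
  rw [pout_eq hΦ (hR R₀ le_rfl)]
  exact hz R₀ (hR R₀ le_rfl)

/-- **(Gl')** no deflection: the outgoing line is the incoming one. -/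
theorem ae_glance (hΦ : AdmissiblePotential Φ) :
    ∀ᵐ z : Space3 × Space3, pout Φ z = z.2 → qout Φ z = z.1 := by
  have h : ∀ n : ℕ, ∀ᵐ z : Space3 × Space3, ¬ (Exi Φ (n : ℝ) z ∧ (rel0 Φ (n : ℝ) z).2 = z.2 ∧
      (rel0 Φ (n : ℝ) z).1 ≠ z.1 + (n : ℝ) • z.2) := by
    intro n
    rw [ae_iff]
    simpa only [not_not] using glance_null hΦ (n : ℝ)
  filter_upwards [ae_all_iff.2 h, ae_exited hΦ] with z hz ⟨R₀, hR⟩ heq
  obtain ⟨n, hn⟩ := exists_nat_ge R₀
  have hE := hR n hn
  rw [pout_eq hΦ hE] at heq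
  rw [qout_eq hΦ hE]
  have h1 : (rel0 Φ (n : ℝ) z).1 = z.1 + (n : ℝ) • z.2 := by
    by_contra hne
    exact hz n ⟨hE, heq, hne⟩
  rw [h1, heq]
  module

/-! ### Measurability -/

open scoped Classical in
theorem measurable_pout (hΦ : AdmissiblePotential Φ) : Measurable (pout Φ) := by
  refine measurable_of_tendsto_metrizable (f := fun n : ℕ => fun z : Space3 × Space3 =>
    if Exi Φ (n : ℝ) z then (rel0 Φ (n : ℝ) z).2 else 0) (fun n => ?_) ?_
  · exact Measurable.ite (measurableSet_exi hΦ n) (measurable_rel0 hΦ n).snd measurable_const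
  · rw [tendsto_pi_nhds]
    intro z
    by_cases h : ∃ R, Exi Φ R z
    · obtain ⟨R, hz⟩ := h
      refine tendsto_const_nhds.congr' ?_
      obtain ⟨N, hN⟩ := exists_nat_ge R
      filter_upwards [eventually_ge_atTop N] with n hn
      have h1 := exi_mono hΦ (R' := (n : ℝ)) (hN.trans (by exact_mod_cast hn)) hz
      rw [if_pos h1]
      exact pout_eq hΦ h1
    · rw [pout_of_not h]
      refine tendsto_const_nhds.congr fun n => ?_
      rw [if_neg fun h' => h ⟨_, h'⟩]



/-! ### Equivariance -/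

theorem pout_isometry (hΦ : AdmissiblePotential Φ) (U : Space3 ≃ₗᵢ[ℝ] Space3)
    (z : Space3 × Space3) : pout Φ (U z.1, U z.2) = U (pout Φ z) := by
  by_cases h : ∃ R, Exi Φ R z
  · obtain ⟨R, hz⟩ := h
    rw [pout_eq hΦ hz, pout_eq hΦ ((exi_isometry hΦ U z).2 hz), rel0_isometry hΦ U hz.1]
  · have h' : ¬ ∃ R, Exi Φ R (U z.1, U z.2) := by
      rintro ⟨R, hR⟩
      exact h ⟨R, (exi_isometry hΦ U z).1 hR⟩
    rw [pout_of_not h, pout_of_not h', map_zero]


/-! ### Invariance along the line -/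





/-! ### Planarity -/



/-! ### Opposite outgoing velocities of two parallel lines -/








end Crest.Agent.R122.VLcore564
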