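import Mathlib
import Crest.Prelude.Def_KineticLimit
import Crest.Agent.R122.VLParDefs_823
import Crest.Agent.R122.VLLim_581

-- ▼ part R122/Iso_735
section

/-!
# Isotropic laws and Lipschitz curves: null sets (row 122, block D3, helper735)

No quantitative estimates: only null sets, for s-finite measures.

* `volume_image_null`, `volume_image_null'`: images of sets of dimension `< 3` under (locally)
  Lipschitz maps to `Space3` are Lebesgue null.
* `ray_null`, `ae_ray` (I-b): for a Lipschitz curve `c`, a.e. `g : Space3` has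
  `c s + (s - t) • g ≠ 0` for all `s ∈ Icc a b`, `s ≠ t`.
* `Eqv μ f`: every linear isometry `O` of `Space3` lifts to a `μ`-preserving `T` with
  `f ∘ T = O ∘ f` a.e.
* `Eqv.ae_ne` (I-a): `f ≠ a` a.e. for `a ≠ 0`.
* `Eqv.ae_ne_curve`, `Eqv.ae_ne_ray`: a.e. `ω` with `f ω ≠ 0` is on no given Lipschitz curve /
  satisfies `c s + (s - t) • f ω ≠ 0` for `s ≠ t`.
* `Act Ω μ` measure spaces with a measure preserving family of maps indexed by the isometries;
  closed under products and powers (`Act.space`, `Act.prod`, `Act.pi`); `Act.Equi` equivariant maps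
  with their algebra.
-/

set_option autoImplicit false

open MeasureTheory Set Filter Topology Metric
open scoped ENNReal NNReal
open Crest.AnalysisR.Kinetic

noncomputable section

namespace Crest.Agent.R122.Iso735

/-! ### Images of small dimension -/

theorem volume_null_of_dimH {s : Set Space3} (h : dimH s < 3) : volume s = 0 := by
  have h1 : (volume : Measure Space3) ≪ μH[((3 : ℝ≥0) : ℝ)] := by
    have e : ((3 : ℝ≥0) : ℝ) = (Module.finrank ℝ Space3 : ℝ) := by simp
    rw [e]
    exact Measure.absolutelyContinuous_isAddHaarMeasure _ _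
  exact measure_zero_of_dimH_lt h1 (by simpa using h)

/-- Images of sets of dimension `< 3` under locally Lipschitz maps are null. -/
theorem volume_image_null {X : Type*} [EMetricSpace X] [SecondCountableTopology X] {S : Set X}
    (hS : dimH S < 3) {F : X → Space3}
    (hF : ∀ x ∈ S, ∃ C : ℝ≥0, ∃ t ∈ 𝓝[S] x, LipschitzOnWith C F t) : volume (F '' S) = 0 :=
  volume_null_of_dimH ((dimH_image_le_of_locally_lipschitzOn hF).trans_lt hS)


theorem dimH_real2_lt (S : Set (ℝ × ℝ)) : dimH S < 3 := by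
  refine (dimH_mono (subset_univ S)).trans_lt ?_
  rw [Real.dimH_univ_eq_finrank]
  simp only [Module.finrank_prod, Module.finrank_self]
  norm_num

/-- locally Lipschitz on `S` -/
def LocLip (c : ℝ → Space3) (S : Set ℝ) : Prop :=
  ∀ s ∈ S, ∃ C : ℝ≥0, ∃ t ∈ 𝓝[S] s, LipschitzOnWith C c t

theorem LocLip.of_lipschitz {c : ℝ → Space3} {S : Set ℝ} {C : ℝ≥0} (h : LipschitzOnWith C c S) :
    LocLip c S := fun _ _ => ⟨C, S, self_mem_nhdsWithin, h⟩

theorem LocLip.mono {c : ℝ → Space3} {S S' : Set ℝ} (h : LocLip c S) (hS : S' ⊆ S) :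
    LocLip c S' := fun s hs => by
  obtain ⟨C, t, ht, hc⟩ := h s (hS hs)
  exact ⟨C, t, nhdsWithin_mono _ hS ht, hc⟩

theorem LocLip.continuousOn {c : ℝ → Space3} {S : Set ℝ} (h : LocLip c S) : ContinuousOn c S := by
  intro s hs
  obtain ⟨C, t, ht, hc⟩ := h s hs
  have h1 : ContinuousWithinAt c t s := hc.continuousOn s (mem_of_mem_nhdsWithin hs ht)
  exact h1.mono_of_mem_nhdsWithin ht


/-- products of bounded locally Lipschitz maps (scalar times vector), in the form needed below -/
theorem lipschitzOn_smul_const {t : Set (ℝ × ℝ)} {c : ℝ → Space3} {C : ℝ≥0} {M N : ℝ}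
    (hM : ∀ p ∈ t, |p.1| ≤ M) (hN : ∀ p ∈ t, ‖c p.2‖ ≤ N)
    (hc : ∀ p ∈ t, ∀ q ∈ t, dist (c p.2) (c q.2) ≤ C * dist p.2 q.2) :
    ∃ C' : ℝ≥0, LipschitzOnWith C' (fun p : ℝ × ℝ => p.1 • c p.2) t := by
  refine ⟨Real.toNNReal (M * C + N), LipschitzOnWith.of_dist_le_mul fun p hp q hq => ?_⟩
  have hM0 : 0 ≤ M := (abs_nonneg _).trans (hM p hp)
  have hN0 : 0 ≤ N := (norm_nonneg _).trans (hN p hp)
  rw [Real.coe_toNNReal _ (by positivity)]
  have e : p.1 • c p.2 - q.1 • c q.2 = p.1 • (c p.2 - c q.2) + (p.1 - q.1) • c q.2 := by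
    rw [smul_sub, sub_smul]; abel
  have h1 : dist p.1 q.1 ≤ dist p q := le_max_left _ _
  have h2 : dist p.2 q.2 ≤ dist p q := le_max_right _ _
  calc dist (p.1 • c p.2) (q.1 • c q.2) = ‖p.1 • (c p.2 - c q.2) + (p.1 - q.1) • c q.2‖ := by
        rw [dist_eq_norm, e]
    _ ≤ ‖p.1 • (c p.2 - c q.2)‖ + ‖(p.1 - q.1) • c q.2‖ := norm_add_le _ _
    _ = |p.1| * dist (c p.2) (c q.2) + dist p.1 q.1 * ‖c q.2‖ := by
        rw [norm_smul, norm_smul, dist_eq_norm, dist_eq_norm, Real.norm_eq_abs]
    _ ≤ M * (C * dist p.2 q.2) + dist p.1 q.1 * N := by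
        gcongr
        · exact hM p hp
        · exact hc p hp q hq
        · exact hN q hq
    _ ≤ M * (C * dist p q) + dist p q * N := by gcongr
    _ = (M * C + N) * dist p q := by ring

/-- the cone over a locally Lipschitz curve is null -/
theorem cone_null {c : ℝ → Space3} {S : Set ℝ} (h : LocLip c S) :
    volume {w : Space3 | ∃ l : ℝ, ∃ s ∈ S, w = l • c s} = 0 := by
  have e : {w : Space3 | ∃ l : ℝ, ∃ s ∈ S, w = l • c s} =
      (fun p : ℝ × ℝ => p.1 • c p.2) '' (univ ×ˢ S) := by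
    ext w
    constructor
    · rintro ⟨l, s, hs, rfl⟩
      exact ⟨(l, s), ⟨mem_univ _, hs⟩, rfl⟩
    · rintro ⟨⟨l, s⟩, ⟨_, hs⟩, rfl⟩
      exact ⟨l, s, hs, rfl⟩
  rw [e]
  refine volume_image_null (dimH_real2_lt _) ?_
  rintro ⟨l, s⟩ ⟨_, hs⟩
  obtain ⟨C, t, ht, hc⟩ := h s hs
  -- bound for `c` near `s`
  have hcont := h.continuousOn s hs
  have hbd : {r | ‖c r‖ < ‖c s‖ + 1} ∈ 𝓝[S] s := by
    have := hcont.norm
    exact this.eventually (eventually_lt_nhds (show ‖c s‖ < ‖c s‖ + 1 by linarith))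
  obtain ⟨C', hC'⟩ := lipschitzOn_smul_const (t := (ball l 1) ×ˢ (t ∩ {r | ‖c r‖ < ‖c s‖ + 1}))
    (c := c) (C := C) (M := |l| + 1) (N := ‖c s‖ + 1)
    (fun p hp => by
      have := hp.1
      rw [mem_ball, Real.dist_eq] at this
      have h2 : |p.1| ≤ |p.1 - l| + |l| := by
        calc |p.1| = |(p.1 - l) + l| := by congr 1; ring
          _ ≤ _ := abs_add_le _ _
      linarith)
    (fun p hp => hp.2.2.le)
    (fun p hp q hq => hc.dist_le_mul _ hp.2.1 _ hq.2.1)
  refine ⟨C', _, ?_, hC'⟩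
  rw [nhdsWithin_prod_eq, nhdsWithin_univ]
  exact prod_mem_prod (ball_mem_nhds l one_pos) (inter_mem ht hbd)

/-! ### (I-b) -/

theorem locLip_ray {c : ℝ → Space3} {S : Set ℝ} (h : LocLip c S) (t : ℝ) :
    LocLip (fun s => -((s - t)⁻¹ • c s)) (S \ {t}) := by
  rintro s ⟨hs, hst⟩
  have hst' : s ≠ t := hst
  obtain ⟨C, u, hu, hc⟩ := h s hs
  have hcont := h.continuousOn s hs
  have hbd : {r | ‖c r‖ < ‖c s‖ + 1} ∈ 𝓝[S] s :=
    hcont.norm.eventually (eventually_lt_nhds (show ‖c s‖ < ‖c s‖ + 1 by linarith))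
  set δ := |s - t| / 2 with hδ
  have hδ0 : 0 < δ := by
    have : 0 < |s - t| := abs_pos.2 (sub_ne_zero.2 hst')
    positivity
  have hball : ball s δ ∈ 𝓝[S \ {t}] s := nhdsWithin_le_nhds (ball_mem_nhds s hδ0)
  have hu' : u ∈ 𝓝[S \ {t}] s := nhdsWithin_mono _ sdiff_subset hu
  have hbd' := nhdsWithin_mono s (sdiff_subset (s := S) (t := {t})) hbd
  refine ⟨Real.toNNReal (δ⁻¹ * C + (δ⁻¹ * δ⁻¹) * (‖c s‖ + 1)), _,
    inter_mem (inter_mem hball hu') hbd', ?_⟩
  refine LipschitzOnWith.of_dist_le_mul fun x hx y hy => ?_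
  rw [Real.coe_toNNReal _ (by positivity)]
  have hdist : ∀ x ∈ ball s δ, δ ≤ |x - t| := by
    intro x hx
    rw [mem_ball, Real.dist_eq] at hx
    have h1 : |s - t| ≤ |x - s| + |x - t| := by
      calc |s - t| = |(x - t) - (x - s)| := by congr 1; ring
        _ ≤ |x - t| + |x - s| := abs_sub _ _
        _ = _ := add_comm _ _
    have h2 : |s - t| = 2 * δ := by rw [hδ]; ring
    linarith
  have hx1 := hdist x hx.1.1
  have hy1 := hdist y hy.1.1
  have hxt : x - t ≠ 0 := by
    intro h0; rw [h0, abs_zero] at hx1; linarith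
  have hyt : y - t ≠ 0 := by
    intro h0; rw [h0, abs_zero] at hy1; linarith
  have hix : |(x - t)⁻¹| ≤ δ⁻¹ := by rw [abs_inv]; exact inv_anti₀ hδ0 hx1
  have hiy : |(y - t)⁻¹| ≤ δ⁻¹ := by rw [abs_inv]; exact inv_anti₀ hδ0 hy1
  have hdd : |(x - t)⁻¹ - (y - t)⁻¹| ≤ (δ⁻¹ * δ⁻¹) * dist x y := by
    have e : (x - t)⁻¹ - (y - t)⁻¹ = (x - t)⁻¹ * (y - t)⁻¹ * (y - x) := by
      field_simp
      ring
    rw [e, abs_mul, abs_mul, Real.dist_eq, abs_sub_comm y x]
    gcongr
  have e2 : -((x - t)⁻¹ • c x) - -((y - t)⁻¹ • c y) =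
      -((x - t)⁻¹ • (c x - c y) + ((x - t)⁻¹ - (y - t)⁻¹) • c y) := by
    rw [smul_sub, sub_smul]; abel
  calc dist (-((x - t)⁻¹ • c x)) (-((y - t)⁻¹ • c y))
      = ‖(x - t)⁻¹ • (c x - c y) + ((x - t)⁻¹ - (y - t)⁻¹) • c y‖ := by
        rw [dist_eq_norm, e2, norm_neg]
    _ ≤ ‖(x - t)⁻¹ • (c x - c y)‖ + ‖((x - t)⁻¹ - (y - t)⁻¹) • c y‖ := norm_add_le _ _
    _ = |(x - t)⁻¹| * dist (c x) (c y) + |(x - t)⁻¹ - (y - t)⁻¹| * ‖c y‖ := by
        rw [norm_smul, norm_smul, dist_eq_norm, Real.norm_eq_abs, Real.norm_eq_abs]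
    _ ≤ δ⁻¹ * (C * dist x y) + ((δ⁻¹ * δ⁻¹) * dist x y) * (‖c s‖ + 1) := by
        gcongr
        · exact hc.dist_le_mul _ hx.1.2 _ hy.1.2
        · exact hy.2.le
    _ = (δ⁻¹ * C + (δ⁻¹ * δ⁻¹) * (‖c s‖ + 1)) * dist x y := by ring




/-! ### Reflections -/

/-- the reflection in the plane orthogonal to `w` -/
def refl (w : Space3) : Space3 ≃ₗᵢ[ℝ] Space3 := (ℝ ∙ w)ᗮ.reflection

theorem refl_apply (w x : Space3) : refl w x = x - (2 * (inner ℝ w x / ‖w‖ ^ 2)) • w := by
  unfold refl
  rw [Submodule.reflection_orthogonal_apply, Submodule.reflection_singleton_apply]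
  simp only [RCLike.ofReal_real_eq_id, id_eq, neg_sub]
  congr 1
  rw [mul_smul, two_smul, two_smul]

theorem measurable_refl : Measurable fun p : Space3 × Space3 => refl p.1 p.2 := by
  simp only [refl_apply]
  have h1 : Measurable fun p : Space3 × Space3 => (inner ℝ p.1 p.2 : ℝ) :=
    measurable_fst.inner measurable_snd
  have h2 : Measurable fun p : Space3 × Space3 => ‖p.1‖ ^ 2 := measurable_fst.norm.pow_const 2
  have h3 : Measurable fun p : Space3 × Space3 => 2 * ((inner ℝ p.1 p.2 : ℝ) / ‖p.1‖ ^ 2) :=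
    (h1.div h2).const_mul 2
  exact measurable_snd.sub (h3.smul measurable_fst)

attribute [irreducible] refl

/-- the reflections of a given vector `≠ 0` do not hit a given curve -/
theorem refl_null {c : ℝ → Space3} {S : Set ℝ} (h : LocLip c S) {x : Space3} (hx : x ≠ 0) :
    volume {w : Space3 | refl w x ∈ c '' S} = 0 := by
  have hsub : {w : Space3 | refl w x ∈ c '' S} ⊆ {w : Space3 | inner ℝ w x = 0} ∪
      {w : Space3 | ∃ l : ℝ, ∃ s ∈ S, w = l • (x - c s)} := by
    rintro w ⟨s, hs, hw⟩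
    by_cases h0 : inner ℝ w x = 0
    · exact Or.inl h0
    · right
      rw [refl_apply] at hw
      have hw0 : w ≠ 0 := by
        rintro rfl
        exact h0 (inner_zero_left _)
      have hn : ‖w‖ ^ 2 ≠ 0 := pow_ne_zero 2 (norm_ne_zero_iff.2 hw0)
      refine ⟨(2 * (inner ℝ w x / ‖w‖ ^ 2))⁻¹, s, hs, ?_⟩
      have h1 : x - c s = (2 * (inner ℝ w x / ‖w‖ ^ 2)) • w := by rw [hw]; abel
      have h2 : 2 * (inner ℝ w x / ‖w‖ ^ 2) ≠ 0 := mul_ne_zero two_ne_zero (div_ne_zero h0 hn)
      rw [h1, smul_smul, inv_mul_cancel₀ h2, one_smul]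
  refine measure_mono_null hsub (measure_union_null ?_ ?_)
  · have e : {w : Space3 | inner ℝ w x = 0} = ((ℝ ∙ x)ᗮ : Submodule ℝ Space3) := by
      ext w
      rw [SetLike.mem_coe, Submodule.mem_orthogonal_singleton_iff_inner_left]
      rfl
    rw [e]
    refine Measure.addHaar_submodule _ _ ?_
    intro htop
    have : x ∈ (ℝ ∙ x)ᗮ := by rw [htop]; trivial
    rw [Submodule.mem_orthogonal_singleton_iff_inner_left] at this
    exact hx (inner_self_eq_zero.1 this)
  · refine cone_null (c := fun s => x - c s) ?_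
    intro s hs
    obtain ⟨C, t, ht, hc⟩ := h s hs
    refine ⟨C, t, ht, LipschitzOnWith.of_dist_le_mul fun y hy z hz => ?_⟩
    rw [dist_sub_left]
    exact hc.dist_le_mul y hy z hz

/-! ### Equivariant functions -/

section eqv

variable {Ω : Type*} [MeasurableSpace Ω]

/-- `f` is equivariant for measure preserving lifts of the isometries. -/
def Eqv (μ : Measure Ω) (f : Ω → Space3) : Prop :=
  ∀ O : Space3 ≃ₗᵢ[ℝ] Space3, ∃ T : Ω → Ω, MeasurePreserving T μ μ ∧ ∀ᵐ ω ∂μ, f (T ω) = O (f ω)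

theorem Eqv.ae_notMem {μ : Measure Ω} [SFinite μ] {f : Ω → Space3} (hf : Measurable f)
    (hT : Eqv μ f) {Γ : Set Space3} (hΓ : MeasurableSet Γ)
    (hthin : ∀ x : Space3, x ≠ 0 → volume {w : Space3 | refl w x ∈ Γ} = 0) :
    ∀ᵐ ω ∂μ, f ω ≠ 0 → f ω ∉ Γ := by
  set E : Set (Space3 × Ω) := {p | f p.2 ≠ 0 ∧ refl p.1 (f p.2) ∈ Γ} with hE
  have hm1 : Measurable fun p : Space3 × Ω => f p.2 := hf.comp measurable_snd
  have hm2 : Measurable fun p : Space3 × Ω => refl p.1 (f p.2) :=
    measurable_refl.comp (measurable_fst.prodMk hm1)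
  have hEm : MeasurableSet E :=
    ((measurableSet_singleton (0 : Space3)).compl.preimage hm1).inter (hm2 hΓ)
  have hE0 : ((volume : Measure Space3).prod μ) E = 0 := by
    rw [Measure.prod_apply_symm hEm]
    refine (lintegral_eq_zero_iff' ?_).2 ?_
    · exact (measurable_measure_prodMk_right hEm).aemeasurable
    · refine Eventually.of_forall fun ω => ?_
      by_cases h0 : f ω = 0
      · have : (fun w => (w, ω)) ⁻¹' E = (∅ : Set Space3) := by
          ext w
          simp only [hE, mem_preimage, mem_ofPred_eq, mem_empty_iff_false, iff_false]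
          exact fun h => h.1 h0
        show volume ((fun w => (w, ω)) ⁻¹' E) = 0
        rw [this, measure_empty]
      · refine measure_mono_null ?_ (hthin _ h0)
        rintro w ⟨_, hw⟩
        exact hw
  have hae := Measure.measure_ae_null_of_prod_null hE0
  obtain ⟨w, hw⟩ := hae.exists
  obtain ⟨T, hTm, hTf⟩ := hT (refl w)
  have hB : MeasurableSet {ω | f ω ≠ 0 ∧ f ω ∈ Γ} :=
    ((measurableSet_singleton (0 : Space3)).compl.preimage hf).inter (hf hΓ)
  have key : μ {ω | f ω ≠ 0 ∧ f ω ∈ Γ} = 0 := by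
    rw [← hTm.measure_preimage hB.nullMeasurableSet]
    have h2 : (T ⁻¹' {ω | f ω ≠ 0 ∧ f ω ∈ Γ} : Set Ω) =ᵐ[μ] (Prod.mk w ⁻¹' E) := by
      filter_upwards [hTf] with ω hω
      apply propext
      show (f (T ω) ≠ 0 ∧ f (T ω) ∈ Γ) ↔ (f ω ≠ 0 ∧ refl w (f ω) ∈ Γ)
      rw [hω]
      refine and_congr_left fun _ => not_congr ?_
      exact (refl w).map_eq_zero_iff
    rw [measure_congr h2]
    exact hw
  rw [ae_iff]
  refine measure_mono_null ?_ key
  intro ω hω
  simp only [mem_ofPred_eq, Classical.not_imp, not_not] at hω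
  exact hω

/-- (I-a), points -/
theorem Eqv.ae_ne {μ : Measure Ω} [SFinite μ] {f : Ω → Space3} (hf : Measurable f)
    (hT : Eqv μ f) {a : Space3} (ha : a ≠ 0) : ∀ᵐ ω ∂μ, f ω ≠ a := by
  have h1 : LocLip (fun _ : ℝ => a) univ :=
    LocLip.of_lipschitz (C := 0) (LipschitzWith.const a).lipschitzOnWith
  have h2 := hT.ae_notMem hf (Γ := (fun _ : ℝ => a) '' univ) (by
    have : (fun _ : ℝ => a) '' univ = {a} := by simp
    rw [this]; exact measurableSet_singleton a) (fun x hx => refl_null h1 hx)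
  filter_upwards [h2] with ω hω h
  exact hω (by rw [h]; exact ha) (by rw [h]; exact ⟨0, mem_univ _, rfl⟩)

/-- (I-a), compact curves -/
theorem Eqv.ae_ne_compact {μ : Measure Ω} [SFinite μ] {f : Ω → Space3} (hf : Measurable f)
    (hT : Eqv μ f) {c : ℝ → Space3} {S : Set ℝ} (hS : IsCompact S) (hc : LocLip c S) :
    ∀ᵐ ω ∂μ, f ω ≠ 0 → ∀ s ∈ S, f ω ≠ c s := by
  have h2 := hT.ae_notMem hf (Γ := c '' S) (hS.image_of_continuousOn hc.continuousOn).measurableSet
    (fun x hx => refl_null hc hx)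
  filter_upwards [h2] with ω hω h0 s hs h
  exact hω h0 (h ▸ mem_image_of_mem c hs)

/-- (I-a), curves on `σ`-compact sets of parameters -/
theorem Eqv.ae_ne_sigma {μ : Measure Ω} [SFinite μ] {f : Ω → Space3} (hf : Measurable f)
    (hT : Eqv μ f) {c : ℝ → Space3} {S : Set ℝ} (hS : IsSigmaCompact S) (hc : LocLip c S) :
    ∀ᵐ ω ∂μ, f ω ≠ 0 → ∀ s ∈ S, f ω ≠ c s := by
  obtain ⟨K, hK, rfl⟩ := hS
  have h1 : ∀ n, ∀ᵐ ω ∂μ, f ω ≠ 0 → ∀ s ∈ K n, f ω ≠ c s := fun n =>
    hT.ae_ne_compact hf (hK n) (hc.mono (subset_iUnion K n))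
  filter_upwards [ae_all_iff.2 h1] with ω hω h0 s hs
  obtain ⟨n, hn⟩ := mem_iUnion.1 hs
  exact hω n h0 s hn


theorem isSigmaCompact_sdiff {S : Set ℝ} (hS : IsSigmaCompact S) (t : ℝ) :
    IsSigmaCompact (S \ {t}) := by
  obtain ⟨K, hK, rfl⟩ := hS
  have e : (⋃ n, K n) \ {t} = ⋃ p : ℕ × ℕ, K p.1 ∩ (ball t (1 / ((p.2 : ℝ) + 1)))ᶜ := by
    ext s
    simp only [Set.mem_sdiff, mem_iUnion, mem_singleton_iff, mem_inter_iff, mem_compl_iff, mem_ball,
      not_lt, Prod.exists]
    constructor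
    · rintro ⟨⟨n, hn⟩, hst⟩
      obtain ⟨m, hm⟩ := exists_nat_one_div_lt (dist_pos.2 hst)
      exact ⟨n, m, hn, hm.le⟩
    · rintro ⟨n, m, hn, hm⟩
      refine ⟨⟨n, hn⟩, ?_⟩
      rintro rfl
      rw [dist_self] at hm
      have : 0 < 1 / ((m : ℝ) + 1) := by positivity
      linarith
  rw [e]
  exact isSigmaCompact_iUnion_of_isCompact _ fun p => (hK p.1).inter_right isOpen_ball.isClosed_compl

/-- (I-a) in the form `c s + (s - t) f ≠ 0` -/
theorem Eqv.ae_ne_ray' {μ : Measure Ω} [SFinite μ] {f : Ω → Space3} (hf : Measurable f)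
    (hT : Eqv μ f) {c : ℝ → Space3} {S : Set ℝ} (hS : IsSigmaCompact S) (hc : LocLip c S) (t : ℝ) :
    ∀ᵐ ω ∂μ, f ω ≠ 0 → ∀ s ∈ S, s ≠ t → c s + (s - t) • f ω ≠ 0 := by
  have h1 := hT.ae_ne_sigma hf (isSigmaCompact_sdiff hS t) (locLip_ray hc t)
  filter_upwards [h1] with ω hω h0 s hs hst hg
  refine hω h0 s ⟨hs, hst⟩ ?_
  have h1 : (s - t) • f ω = -c s := by rw [eq_neg_iff_add_eq_zero, add_comm]; exact hg
  have h2 : s - t ≠ 0 := sub_ne_zero.2 hst
  rw [← smul_neg, ← h1, smul_smul, inv_mul_cancel₀ h2, one_smul]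

theorem Eqv.ae_ne_ray {μ : Measure Ω} [SFinite μ] {f : Ω → Space3} (hf : Measurable f)
    (hT : Eqv μ f) {c : ℝ → Space3} {a b : ℝ} {C : ℝ≥0} (hc : LipschitzOnWith C c (Icc a b))
    (t : ℝ) : ∀ᵐ ω ∂μ, f ω ≠ 0 → ∀ s ∈ Icc a b, s ≠ t → c s + (s - t) • f ω ≠ 0 :=
  hT.ae_ne_ray' hf isCompact_Icc.isSigmaCompact (LocLip.of_lipschitz hc) t

end eqv

/-! ### Spaces with a measure preserving family of maps indexed by the isometries -/

/-- measure preserving maps indexed by the linear isometries of `Space3` -/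
structure Act (Ω : Type*) [MeasurableSpace Ω] (μ : Measure Ω) where
  T : (Space3 ≃ₗᵢ[ℝ] Space3) → Ω → Ω
  mp : ∀ O, MeasurePreserving (T O) μ μ

namespace Act

variable {Ω Ω' : Type*} [MeasurableSpace Ω] [MeasurableSpace Ω'] {μ : Measure Ω} {μ' : Measure Ω'}

/-- equivariant maps -/
def Equi (A : Act Ω μ) (f : Ω → Space3) : Prop := ∀ O, ∀ᵐ ω ∂μ, f (A.T O ω) = O (f ω)

/-- invariant functions -/
def Inv {β : Type*} (A : Act Ω μ) (f : Ω → β) : Prop := ∀ O, ∀ᵐ ω ∂μ, f (A.T O ω) = f ω

theorem Equi.eqv {A : Act Ω μ} {f : Ω → Space3} (h : A.Equi f) : Eqv μ f := fun O =>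
  ⟨A.T O, A.mp O, h O⟩

theorem Equi.zero (A : Act Ω μ) : A.Equi fun _ => 0 := fun O =>
  Eventually.of_forall fun _ => (map_zero O).symm

theorem Equi.add {A : Act Ω μ} {f g : Ω → Space3} (hf : A.Equi f) (hg : A.Equi g) :
    A.Equi fun ω => f ω + g ω := fun O => by
  filter_upwards [hf O, hg O] with ω h1 h2
  rw [h1, h2, map_add]

theorem Equi.sub {A : Act Ω μ} {f g : Ω → Space3} (hf : A.Equi f) (hg : A.Equi g) :
    A.Equi fun ω => f ω - g ω := fun O => by
  filter_upwards [hf O, hg O] with ω h1 h2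
  rw [h1, h2, map_sub]

theorem Equi.neg {A : Act Ω μ} {f : Ω → Space3} (hf : A.Equi f) : A.Equi fun ω => - f ω :=
  fun O => by
  filter_upwards [hf O] with ω h1
  rw [h1, map_neg]

theorem Equi.const_smul {A : Act Ω μ} {f : Ω → Space3} (hf : A.Equi f) (r : ℝ) :
    A.Equi fun ω => r • f ω := fun O => by
  filter_upwards [hf O] with ω h1
  rw [h1, map_smul]

theorem Equi.smul {A : Act Ω μ} {f : Ω → Space3} (hf : A.Equi f) {r : Ω → ℝ} (hr : A.Inv r) :
    A.Equi fun ω => r ω • f ω := fun O => by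
  filter_upwards [hf O, hr O] with ω h1 h2
  rw [h1, h2, map_smul]

theorem Equi.norm {A : Act Ω μ} {f : Ω → Space3} (hf : A.Equi f) : A.Inv fun ω => ‖f ω‖ :=
  fun O => by
  filter_upwards [hf O] with ω h1
  rw [h1, O.norm_map]

/-- `Space3` with Lebesgue measure -/
def space : Act Space3 volume := ⟨fun O x => O x, fun O => O.measurePreserving⟩

/-- products -/
def prod [SFinite μ] [SFinite μ'] (A : Act Ω μ) (B : Act Ω' μ') : Act (Ω × Ω') (μ.prod μ') :=
  ⟨fun O p => (A.T O p.1, B.T O p.2), fun O => (A.mp O).prod (B.mp O)⟩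


/-- powers -/
def pi (ι : Type*) [Fintype ι] [SigmaFinite μ] (A : Act Ω μ) :
    Act (ι → Ω) (Measure.pi fun _ : ι => μ) :=
  ⟨fun O ω i => A.T O (ω i), fun O => measurePreserving_pi _ _ fun _ => A.mp O⟩

/-- phase points -/
def phase : Act (Space3 × Space3) (volume.prod volume) := space.prod space

/-- families of pairs of vectors -/
def phases (ι : Type*) [Fintype ι] : Act (ι → Space3 × Space3) volume :=
  pi ι phase

@[simp] theorem phases_T {ι : Type*} [Fintype ι] (O : Space3 ≃ₗᵢ[ℝ] Space3)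
    (θ : ι → Space3 × Space3) (i : ι) : (phases ι).T O θ i = (O (θ i).1, O (θ i).2) := rfl



/-- restriction to an invariant set -/
def restrict (A : Act Ω μ) (S : Set Ω) (hS : MeasurableSet S) (hinv : ∀ O, A.T O ⁻¹' S = S) :
    Act Ω (μ.restrict S) :=
  ⟨A.T, fun O => by
    have h := (A.mp O).restrict_preimage hS
    rw [hinv O] at h
    exact h⟩

end Act

end Crest.Agent.R122.Iso735
end
end

-- ▼ part R122/VLGenA_735
section

/-!
# Row 122, block D3 (helper735): tools for the almost everywhere genericity of the limit object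

* `measurableSet_exists_zero`;
* `parT`, `parAct` : isometries act on the parameters of a merge tree;
* `ae_node_*` : Fubini by sections at a node.
-/

set_option autoImplicit false

open MeasureTheory Set Filter Topology Metric
open scoped ENNReal NNReal
open Crest.AnalysisR.Kinetic
open Crest.Agent.R122.Iso735 Crest.Agent.R122.VLPar823 Crest.Agent.R122.VLPar823.MTree

noncomputable section

namespace Crest.Agent.R122.VLGen735

/-! ### Measurability of the existence of zeros -/

theorem exists_zero_iff {K : Type*} [TopologicalSpace K] [CompactSpace K] [Nonempty K]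
    {d : ℕ → K} (hd : DenseRange d) {G : K → ℝ} (hG : Continuous G) (hG0 : ∀ s, 0 ≤ G s) :
    (∃ s, G s = 0) ↔ ∀ m : ℕ, ∃ k, G (d k) < 1 / ((m : ℝ) + 1) := by
  constructor
  · rintro ⟨s, hs⟩ m
    have hopen : IsOpen {x | G x < 1 / ((m : ℝ) + 1)} := isOpen_lt hG continuous_const
    obtain ⟨k, hk⟩ := hd.exists_mem_open hopen ⟨s, by
      show G s < 1 / ((m : ℝ) + 1)
      rw [hs]; positivity⟩
    exact ⟨k, hk⟩
  · intro h
    obtain ⟨s, _, hs⟩ := isCompact_univ.exists_isMinOn (univ_nonempty (α := K)) hG.continuousOn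
    refine ⟨s, le_antisymm ?_ (hG0 s)⟩
    by_contra hlt
    push Not at hlt
    obtain ⟨m, hm⟩ := exists_nat_one_div_lt hlt
    obtain ⟨k, hk⟩ := h m
    have h1 : G s ≤ G (d k) := hs (mem_univ (d k))
    linarith

theorem measurableSet_exists_zero {Ω : Type*} [MeasurableSpace Ω] {F : Ω → ℝ → Space3} {a b : ℝ}
    (hcont : ∀ ω, ContinuousOn (F ω) (Icc a b)) (hmeas : ∀ s ∈ Icc a b, Measurable fun ω => F ω s)
    {t : Ω → ℝ} (ht : Measurable t) :
    MeasurableSet {ω | ∃ s ∈ Icc a b, s ≠ t ω ∧ F ω s = 0} := by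
  rcases (Icc a b).eq_empty_or_nonempty with hE | hne
  · have : {ω | ∃ s ∈ Icc a b, s ≠ t ω ∧ F ω s = 0} = ∅ := by
      ext ω
      simp [hE]
    rw [this]
    exact MeasurableSet.empty
  have : Nonempty (Icc a b) := hne.to_subtype
  have : CompactSpace (Icc a b) := isCompact_iff_compactSpace.1 isCompact_Icc
  let G : ℕ → Ω → Icc a b → ℝ := fun n ω s =>
    ‖F ω s‖ + max 0 (1 / ((n : ℝ) + 1) - |(s : ℝ) - t ω|)
  have hGc : ∀ n ω, Continuous (G n ω) := by
    intro n ω
    have h1 : Continuous fun s : Icc a b => F ω s := (hcont ω).domRestrict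
    have h2 : Continuous fun s : Icc a b => max 0 (1 / ((n : ℝ) + 1) - |(s : ℝ) - t ω|) := by
      fun_prop
    exact h1.norm.add h2
  have hG0 : ∀ n ω s, 0 ≤ G n ω s := fun n ω s => add_nonneg (norm_nonneg _) (le_max_left _ _)
  have hGm : ∀ n s, Measurable fun ω => G n ω s := by
    intro n s
    have h1 : Measurable fun ω => F ω s := hmeas s s.2
    have h2 : Measurable fun ω => max 0 (1 / ((n : ℝ) + 1) - |(s : ℝ) - t ω|) := by
      have h3 : Measurable fun ω => |(s : ℝ) - t ω| :=
        continuous_abs.measurable.comp (measurable_const.sub ht)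
      exact measurable_const.max (measurable_const.sub h3)
    exact h1.norm.add h2
  have key : {ω | ∃ s ∈ Icc a b, s ≠ t ω ∧ F ω s = 0} =
      ⋃ n : ℕ, ⋂ m : ℕ, ⋃ k : ℕ, {ω | G n ω (TopologicalSpace.denseSeq (Icc a b) k) <
        1 / ((m : ℝ) + 1)} := by
    ext ω
    simp only [mem_ofPred_eq, mem_iUnion, mem_iInter]
    have h1 : ∀ n, (∀ m : ℕ, ∃ k, G n ω (TopologicalSpace.denseSeq (Icc a b) k) <
        1 / ((m : ℝ) + 1)) ↔ ∃ s, G n ω s = 0 := fun n =>
      (exists_zero_iff (TopologicalSpace.denseRange_denseSeq _) (hGc n ω) (hG0 n ω)).symm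
    simp only [h1]
    constructor
    · rintro ⟨s, hs, hst, h0⟩
      have hpos : 0 < |s - t ω| := abs_pos.2 (sub_ne_zero.2 hst)
      obtain ⟨n, hn⟩ := exists_nat_one_div_lt hpos
      refine ⟨n, ⟨s, hs⟩, ?_⟩
      show ‖F ω s‖ + max 0 (1 / ((n : ℝ) + 1) - |s - t ω|) = 0
      rw [h0, norm_zero, zero_add, max_eq_left]
      linarith
    · rintro ⟨n, ⟨s, hs⟩, h0⟩
      have h0' : ‖F ω s‖ + max 0 (1 / ((n : ℝ) + 1) - |s - t ω|) = 0 := h0
      have h2 := (add_eq_zero_iff_of_nonneg (norm_nonneg _) (le_max_left _ _)).1 h0'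
      refine ⟨s, hs, ?_, norm_eq_zero.1 h2.1⟩
      rintro rfl
      rw [sub_self, abs_zero, sub_zero] at h2
      have h3 : 0 < 1 / ((n : ℝ) + 1) := by positivity
      have h4 := h2.2
      rw [max_eq_right h3.le] at h4
      linarith
  rw [key]
  exact MeasurableSet.iUnion fun n => MeasurableSet.iInter fun m => MeasurableSet.iUnion fun k =>
    measurableSet_lt (hGm n _) measurable_const

/-! ### Isometries act on parameters -/

variable {J κ : Type}

/-- action of an isometry on the parameters -/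
def parT (O : Space3 ≃ₗᵢ[ℝ] Space3) : ∀ τ : MTree J κ, Par τ → Par τ
  | leaf _ => fun π => π
  | node _ _ _ _ _ _ P Q => fun π =>
      ((π.1.1, O π.1.2.1, O π.1.2.2), parT O P π.2.1, parT O Q π.2.2)

theorem measurePreserving_parT (O : Space3 ≃ₗᵢ[ℝ] Space3) : ∀ τ : MTree J κ,
    MeasurePreserving (parT O τ) volume volume
  | leaf _ => MeasurePreserving.id _
  | node _ _ _ _ _ _ P Q => by
      have h1 : MeasurePreserving (fun q : ℝ × Space3 × Space3 => (q.1, O q.2.1, O q.2.2))
          volume volume :=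
        (MeasurePreserving.id volume).prod (O.measurePreserving.prod O.measurePreserving)
      exact h1.prod ((measurePreserving_parT O P).prod (measurePreserving_parT O Q))


/-! ### Fubini at a node -/

section fubini

variable {X Y Z W : Type*} [MeasurableSpace X] [MeasurableSpace Y] [MeasurableSpace Z]
  [MeasurableSpace W] {μX : Measure X} {μY : Measure Y} {μZ : Measure Z} {μW : Measure W}
  [SFinite μX] [SFinite μY] [SFinite μZ] [SFinite μW]

/-- sections in the first factor -/
theorem ae_prod_left {B : Set (X × Y)} (hB : MeasurableSet B)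
    (h : ∀ y, ∀ᵐ x ∂μX, (x, y) ∉ B) : ∀ᵐ p ∂(μX.prod μY), p ∉ B := by
  rw [ae_iff]
  have e : {p | ¬ p ∉ B} = B := by ext p; simp
  rw [e, Measure.prod_apply_symm hB]
  refine (lintegral_eq_zero_iff' (measurable_measure_prodMk_right hB).aemeasurable).2 ?_
  refine Eventually.of_forall fun y => ?_
  have := h y
  rw [ae_iff] at this
  refine measure_mono_null ?_ this
  intro x hx hn
  exact hn hx

/-- sections in the second factor -/
theorem ae_prod_right {B : Set (X × Y)} (hB : MeasurableSet B)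
    (h : ∀ x, ∀ᵐ y ∂μY, (x, y) ∉ B) : ∀ᵐ p ∂(μX.prod μY), p ∉ B := by
  rw [ae_iff]
  have e : {p | ¬ p ∉ B} = B := by ext p; simp
  rw [e, Measure.prod_apply hB]
  refine (lintegral_eq_zero_iff' (measurable_measure_prodMk_left hB).aemeasurable).2 ?_
  refine Eventually.of_forall fun x => ?_
  have := h x
  rw [ae_iff] at this
  refine measure_mono_null ?_ this
  intro y hy hn
  exact hn hy

variable {B : Set (((ℝ × Space3 × Space3) × X × Y) × Z)}

/-- the measure of a node with root -/
abbrev nodeM (μX : Measure X) (μY : Measure Y) (μZ : Measure Z) :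
    Measure (((ℝ × Space3 × Space3) × X × Y) × Z) :=
  ((volume : Measure (ℝ × Space3 × Space3)).prod (μX.prod μY)).prod μZ

/-- sections in `(ξ, g)` -/
theorem ae_sec_q (hB : MeasurableSet B)
    (h : ∀ t x y z, ∀ᵐ q : Space3 × Space3, (((t, q), x, y), z) ∉ B) :
    ∀ᵐ p ∂(nodeM μX μY μZ), p ∉ B := by
  refine ae_prod_left hB fun z => ?_
  have h1 : MeasurableSet {π : (ℝ × Space3 × Space3) × X × Y | (π, z) ∈ B} :=
    measurable_prodMk_right hB
  refine ae_prod_left h1 fun xy => ?_
  have h2 : MeasurableSet {r : ℝ × Space3 × Space3 | (r, xy) ∈ {π | (π, z) ∈ B}} :=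
    measurable_prodMk_right h1
  exact ae_prod_right h2 fun t => h t xy.1 xy.2 z

/-- sections in `t` -/
theorem ae_sec_t (hB : MeasurableSet B)
    (h : ∀ q x y z, ∀ᵐ t : ℝ, (((t, q), x, y), z) ∉ B) : ∀ᵐ p ∂(nodeM μX μY μZ), p ∉ B := by
  refine ae_prod_left hB fun z => ?_
  have h1 : MeasurableSet {π : (ℝ × Space3 × Space3) × X × Y | (π, z) ∈ B} :=
    measurable_prodMk_right hB
  refine ae_prod_left h1 fun xy => ?_
  have h2 : MeasurableSet {r : ℝ × Space3 × Space3 | (r, xy) ∈ {π | (π, z) ∈ B}} :=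
    measurable_prodMk_right h1
  exact ae_prod_left h2 fun q => h q xy.1 xy.2 z

/-- sections in the parameters of the left subtree -/
theorem ae_sec_l (hB : MeasurableSet B)
    (h : ∀ r y z, ∀ᵐ x ∂μX, ((r, x, y), z) ∉ B) : ∀ᵐ p ∂(nodeM μX μY μZ), p ∉ B := by
  refine ae_prod_left hB fun z => ?_
  have h1 : MeasurableSet {π : (ℝ × Space3 × Space3) × X × Y | (π, z) ∈ B} :=
    measurable_prodMk_right hB
  refine ae_prod_right h1 fun r => ?_
  have h2 : MeasurableSet {xy : X × Y | (r, xy) ∈ {π | (π, z) ∈ B}} := measurable_prodMk_left h1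
  exact ae_prod_left h2 fun y => h r y z

/-- sections in the parameters of the right subtree -/
theorem ae_sec_r (hB : MeasurableSet B)
    (h : ∀ r x z, ∀ᵐ y ∂μY, ((r, x, y), z) ∉ B) : ∀ᵐ p ∂(nodeM μX μY μZ), p ∉ B := by
  refine ae_prod_left hB fun z => ?_
  have h1 : MeasurableSet {π : (ℝ × Space3 × Space3) × X × Y | (π, z) ∈ B} :=
    measurable_prodMk_right hB
  refine ae_prod_right h1 fun r => ?_
  have h2 : MeasurableSet {xy : X × Y | (r, xy) ∈ {π | (π, z) ∈ B}} := measurable_prodMk_left h1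
  exact ae_prod_right h2 fun x => h r x z

end fubini

end Crest.Agent.R122.VLGen735
end
end

-- ▼ part R122/VLGenB_692

/-!
# Row 122, block D3 (A) (helper692): the limit object `D`, `Del`, `Gam`, `ovL`: measurability,
Lipschitz continuity in time, supports, covariance

* `measurable_kick`, `eqv_kick`, `eqv_out` : the kick and `pout + g` are isotropic;
* `measurable_D`, `measurable_Del` (jointly in the parameters and time), `lipschitz_Del`;
* `measurable_Gam`, `lipschitz_Gam`, `measurable_phL`, `measurable_ovL`;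
* `ovL_of_notMem`, `ovL_congr`, `ovL_shift`, `Gam_shift`.
-/

set_option autoImplicit false

open MeasureTheory Set Filter Topology Metric
open scoped ENNReal NNReal
open Crest.AnalysisR.Kinetic
open Crest.Agent.R122.Ins45 Crest.Agent.R122.GIV566 Crest.Agent.R122.VLPar823
open Crest.Agent.R122.VLPar823.MTree Crest.Agent.R122.VL581
open Crest.Agent.R122.VLcore564 Crest.Agent.R122.Iso735 Crest.Agent.R122.VLGen735

noncomputable section

namespace Crest.Agent.R122.VLGen692

open scoped Classical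

variable {Φ : Space3 → ℝ}

/-! ### the kick -/

theorem measurable_kick (hΦ : AdmissiblePotential Φ) : Measurable (kick Φ) :=
  ((measurable_pout hΦ).sub measurable_snd).const_smul (1 / 2 : ℝ)

theorem kick_isometry (hΦ : AdmissiblePotential Φ) (U : Space3 ≃ₗᵢ[ℝ] Space3)
    (z : Space3 × Space3) : kick Φ (U z.1, U z.2) = U (kick Φ z) := by
  unfold kick
  rw [pout_isometry hΦ, map_smul, map_sub]

theorem eqv_kick (hΦ : AdmissiblePotential Φ) :
    Iso735.Eqv (volume : Measure (Space3 × Space3)) (kick Φ) := fun O =>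
  ⟨fun z => (O z.1, O z.2), O.measurePreserving.prod O.measurePreserving,
    Eventually.of_forall fun z => kick_isometry hΦ O z⟩

/-- half of `pout + g` is `g + kick` -/
theorem add_kick (z : Space3 × Space3) : z.2 + kick Φ z = (1 / 2 : ℝ) • (pout Φ z + z.2) := by
  unfold kick
  module

theorem measurable_add_kick (hΦ : AdmissiblePotential Φ) :
    Measurable fun z : Space3 × Space3 => z.2 + kick Φ z :=
  measurable_snd.add (measurable_kick hΦ)

theorem eqv_add_kick (hΦ : AdmissiblePotential Φ) :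
    Iso735.Eqv (volume : Measure (Space3 × Space3)) fun z => z.2 + kick Φ z := fun O =>
  ⟨fun z => (O z.1, O z.2), O.measurePreserving.prod O.measurePreserving,
    Eventually.of_forall fun z => by
      show O z.2 + kick Φ (O z.1, O z.2) = O (z.2 + kick Φ z)
      rw [kick_isometry hΦ, map_add]⟩

theorem ae_add_kick (hΦ : AdmissiblePotential Φ) :
    ∀ᵐ z : Space3 × Space3, z.2 + kick Φ z ≠ 0 := by
  filter_upwards [ae_pout_swap hΦ] with z hz h
  rw [add_kick] at h
  have h1 : pout Φ z + z.2 = 0 := by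
    rcases smul_eq_zero.1 h with h | h
    · norm_num at h
    · exact h
  exact hz (eq_neg_of_add_eq_zero_left h1)

/-! ### `D` and `Del` -/

section Dm

variable {J κ : Type} [Fintype J] (N : VSys J κ)

theorem measurableSet_real (i j : J) : MeasurableSet {t : ℝ | N.real i j t} := by
  have e : {t : ℝ | N.real i j t} =
      {t | (N.o ≠ some i ∧ N.o ≠ some j)} ∩ (Ioi (N.bb i) ∩ Ioi (N.bb j)) := by
    ext t
    simp only [VSys.real, mem_ofPred_eq, mem_inter_iff, mem_Ioi]
    tauto
  rw [e]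
  exact (MeasurableSet.const _).inter (measurableSet_Ioi.inter measurableSet_Ioi)

theorem measurable_D (hΦ : AdmissiblePotential N.Φ) : ∀ (τ : MTree J κ) (A' : Finset J) (p : J),
    Measurable fun π : Par τ => N.D τ π A' p
  | leaf _ => fun _ _ => measurable_const
  | node A k i B l j P Q => fun A' p => by
      have hP := measurable_D hΦ P
      have hQ := measurable_D hΦ Q
      have m1 : Measurable fun π : (ℝ × Space3 × Space3) × Par P × Par Q => π.1.1 :=
        measurable_fst.fst
      have mk : Measurable fun π : (ℝ × Space3 × Space3) × Par P × Par Q => kick N.Φ π.1.2 :=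
        (measurable_kick hΦ).comp measurable_fst.snd
      have mP : ∀ A' p, Measurable fun π : (ℝ × Space3 × Space3) × Par P × Par Q =>
          N.D P π.2.1 A' p := fun A' p => (hP A' p).comp measurable_snd.fst
      have mQ : ∀ A' p, Measurable fun π : (ℝ × Space3 × Space3) × Par P × Par Q =>
          N.D Q π.2.2 A' p := fun A' p => (hQ A' p).comp measurable_snd.snd
      have hS : MeasurableSet {π : (ℝ × Space3 × Space3) × Par P × Par Q |
          N.real i j π.1.1 ∧ i ∈ A' ∧ j ∈ A' ∧ N.D P π.2.1 (A' ∩ supp P) i = N.D P π.2.1 A i ∧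
            N.D Q π.2.2 (A' ∩ supp Q) j = N.D Q π.2.2 B j} :=
        (m1 (measurableSet_real N i j)).inter ((MeasurableSet.const _).inter
          ((MeasurableSet.const _).inter ((measurableSet_eq_fun (mP _ _) (mP _ _)).inter
            (measurableSet_eq_fun (mQ _ _) (mQ _ _)))))
      have h1 : Measurable fun π : (ℝ × Space3 × Space3) × Par P × Par Q =>
          (if p ∈ supp P then N.D P π.2.1 (A' ∩ supp P) p else N.D Q π.2.2 (A' ∩ supp Q) p) := by
        by_cases hp : p ∈ supp P
        · simp only [if_pos hp]; exact mP _ _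
        · simp only [if_neg hp]; exact mQ _ _
      have h2 : Measurable fun π : (ℝ × Space3 × Space3) × Par P × Par Q =>
          (if p = i then ((-(π.1.1 • kick N.Φ π.1.2), kick N.Φ π.1.2) : PhasePoint)
            else if p = j then (π.1.1 • kick N.Φ π.1.2, -kick N.Φ π.1.2) else 0) := by
        by_cases hp : p = i
        · simp only [if_pos hp]
          exact (m1.smul mk).neg.prodMk mk
        · simp only [if_neg hp]
          by_cases hq : p = j
          · simp only [if_pos hq]
            exact (m1.smul mk).prodMk mk.neg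
          · simp only [if_neg hq]
            exact measurable_const
      exact h1.add (Measurable.ite hS h2 measurable_const)

theorem measurableSet_mrg (hΦ : AdmissiblePotential N.Φ) (A : Finset J) (i : J) (B : Finset J)
    (j : J) (P Q : MTree J κ) (A' : Finset J) :
    MeasurableSet {π : (ℝ × Space3 × Space3) × Par P × Par Q |
      N.mrg A i B j P Q π.1.1 π.2.1 π.2.2 A'} := by
  have m1 : Measurable fun π : (ℝ × Space3 × Space3) × Par P × Par Q => π.1.1 :=
    measurable_fst.fst
  have mP : ∀ A' p, Measurable fun π : (ℝ × Space3 × Space3) × Par P × Par Q =>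
      N.D P π.2.1 A' p := fun A' p => (measurable_D N hΦ P A' p).comp measurable_snd.fst
  have mQ : ∀ A' p, Measurable fun π : (ℝ × Space3 × Space3) × Par P × Par Q =>
      N.D Q π.2.2 A' p := fun A' p => (measurable_D N hΦ Q A' p).comp measurable_snd.snd
  exact (m1 (measurableSet_real N i j)).inter ((MeasurableSet.const _).inter
    ((MeasurableSet.const _).inter ((measurableSet_eq_fun (mP _ _) (mP _ _)).inter
      (measurableSet_eq_fun (mQ _ _) (mQ _ _)))))

/-- joint measurability of `Del` in the parameters and the time -/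
theorem measurable_Del (hΦ : AdmissiblePotential N.Φ) : ∀ (τ : MTree J κ) (A' : Finset J) (p : J),
    Measurable fun q : Par τ × ℝ => N.Del τ q.1 A' p q.2
  | leaf _ => fun _ _ => measurable_const
  | node A k i B l j P Q => fun A' p => by
      have hP := measurable_Del hΦ P
      have hQ := measurable_Del hΦ Q
      have m0 : Measurable fun q : ((ℝ × Space3 × Space3) × Par P × Par Q) × ℝ => q.2 :=
        measurable_snd
      have m1 : Measurable fun q : ((ℝ × Space3 × Space3) × Par P × Par Q) × ℝ => q.1.1.1 :=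
        measurable_fst.fst.fst
      have mk : Measurable fun q : ((ℝ × Space3 × Space3) × Par P × Par Q) × ℝ =>
          kick N.Φ q.1.1.2 := (measurable_kick hΦ).comp measurable_fst.fst.snd
      have mm : Measurable fun q : ((ℝ × Space3 × Space3) × Par P × Par Q) × ℝ =>
          max (q.2 - q.1.1.1) 0 := (m0.sub m1).max measurable_const
      have mP : ∀ A' p, Measurable fun q : ((ℝ × Space3 × Space3) × Par P × Par Q) × ℝ =>
          N.Del P q.1.2.1 A' p q.2 := fun A' p =>
        (hP A' p).comp (measurable_fst.snd.fst.prodMk measurable_snd)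
      have mQ : ∀ A' p, Measurable fun q : ((ℝ × Space3 × Space3) × Par P × Par Q) × ℝ =>
          N.Del Q q.1.2.2 A' p q.2 := fun A' p =>
        (hQ A' p).comp (measurable_fst.snd.snd.prodMk measurable_snd)
      have hS : MeasurableSet {q : ((ℝ × Space3 × Space3) × Par P × Par Q) × ℝ |
          N.mrg A i B j P Q q.1.1.1 q.1.2.1 q.1.2.2 A'} :=
        measurable_fst (measurableSet_mrg N hΦ A i B j P Q A')
      have h1 : Measurable fun q : ((ℝ × Space3 × Space3) × Par P × Par Q) × ℝ =>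
          (if p ∈ supp P then N.Del P q.1.2.1 (A' ∩ supp P) p q.2
            else N.Del Q q.1.2.2 (A' ∩ supp Q) p q.2) := by
        by_cases hp : p ∈ supp P
        · simp only [if_pos hp]; exact mP _ _
        · simp only [if_neg hp]; exact mQ _ _
      have h2 : Measurable fun q : ((ℝ × Space3 × Space3) × Par P × Par Q) × ℝ =>
          (if p = i then max (q.2 - q.1.1.1) 0 • kick N.Φ q.1.1.2
            else if p = j then -(max (q.2 - q.1.1.1) 0 • kick N.Φ q.1.1.2) else 0) := by
        by_cases hp : p = i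
        · simp only [if_pos hp]
          exact mm.smul mk
        · simp only [if_neg hp]
          by_cases hq : p = j
          · simp only [if_pos hq]
            exact (mm.smul mk).neg
          · simp only [if_neg hq]
            exact measurable_const
      exact h1.add (Measurable.ite hS h2 measurable_const)

/-- `Del` is Lipschitz in time -/
theorem lipschitz_Del : ∀ (τ : MTree J κ) (π : Par τ) (A' : Finset J) (p : J),
    ∃ K : ℝ≥0, LipschitzWith K fun s => N.Del τ π A' p s
  | leaf _ => fun _ _ _ => ⟨0, LipschitzWith.const 0⟩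
  | node A k i B l j P Q => fun π A' p => by
      have hm : LipschitzWith 1 fun s : ℝ => max (s - π.1.1) 0 := by
        have h0 : LipschitzWith 1 fun s : ℝ => s - π.1.1 := by
          simpa using LipschitzWith.id.sub (LipschitzWith.const (α := ℝ) π.1.1)
        simpa using h0.max (LipschitzWith.const (0 : ℝ))
      have hk : LipschitzWith ‖kick N.Φ π.1.2‖₊ fun s : ℝ => max (s - π.1.1) 0 • kick N.Φ π.1.2 := by
        refine LipschitzWith.of_dist_le_mul fun s s' => ?_
        rw [dist_eq_norm, ← sub_smul, norm_smul, coe_nnnorm, mul_comm]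
        have := hm.dist_le_mul s s'
        rw [dist_eq_norm] at this
        simp only [NNReal.coe_one, one_mul] at this
        exact mul_le_mul_of_nonneg_left this (norm_nonneg _)
      have h1 : ∃ K : ℝ≥0, LipschitzWith K fun s =>
          (if p ∈ supp P then N.Del P π.2.1 (A' ∩ supp P) p s
            else N.Del Q π.2.2 (A' ∩ supp Q) p s) := by
        by_cases hp : p ∈ supp P
        · simp only [if_pos hp]; exact lipschitz_Del P _ _ _
        · simp only [if_neg hp]; exact lipschitz_Del Q _ _ _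
      have h2 : ∃ K : ℝ≥0, LipschitzWith K fun s =>
          (if N.mrg A i B j P Q π.1.1 π.2.1 π.2.2 A' then
            (if p = i then max (s - π.1.1) 0 • kick N.Φ π.1.2
              else if p = j then -(max (s - π.1.1) 0 • kick N.Φ π.1.2) else 0)
            else 0) := by
        by_cases hm : N.mrg A i B j P Q π.1.1 π.2.1 π.2.2 A'
        · simp only [if_pos hm]
          by_cases hp : p = i
          · simp only [if_pos hp]; exact ⟨_, hk⟩
          · simp only [if_neg hp]
            by_cases hq : p = j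
            · simp only [if_pos hq]; exact ⟨_, hk.neg⟩
            · simp only [if_neg hq]; exact ⟨0, LipschitzWith.const 0⟩
        · simp only [if_neg hm]; exact ⟨0, LipschitzWith.const 0⟩
      obtain ⟨K1, hK1⟩ := h1
      obtain ⟨K2, hK2⟩ := h2
      exact ⟨K1 + K2, hK1.add hK2⟩

/-! ### `Gam`, `phL`, `ovL` -/

/-- clamped tubes are Lipschitz -/
theorem lipschitz_clamp {c : ℝ → Space3} {T : ℝ} (hT : 0 ≤ T) {L : ℝ≥0}
    (hc : LipschitzOnWith L c (Icc 0 T)) : LipschitzWith L fun s => c (max 0 (min s T)) := by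
  have h0 : LipschitzWith 1 fun s : ℝ => max 0 (min s T) := by
    simpa using (LipschitzWith.const (α := ℝ) (0 : ℝ)).max
      (LipschitzWith.id.min (LipschitzWith.const (α := ℝ) T))
  refine LipschitzWith.of_dist_le_mul fun s s' => ?_
  have hs : ∀ s : ℝ, max 0 (min s T) ∈ Icc 0 T := fun s =>
    ⟨le_max_left _ _, max_le hT (min_le_right _ _)⟩
  refine (hc.dist_le_mul _ (hs s) _ (hs s')).trans ?_
  have := h0.dist_le_mul s s'
  simp only [NNReal.coe_one, one_mul] at this
  exact mul_le_mul_of_nonneg_left this L.2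

variable {N}

theorem lipschitz_Gam (hT : 0 ≤ N.T) (hc : ∃ L : ℝ≥0, ∀ k, LipschitzOnWith L (N.S.c k) (Icc 0 N.T))
    (τ : MTree J κ) (π : Par τ) (A' : Finset J) (k : κ) (Z : J → PhasePoint) (p : J) :
    ∃ K : ℝ≥0, LipschitzWith K fun s => N.Gam τ π A' k s Z p := by
  obtain ⟨L, hL⟩ := hc
  by_cases hp : N.o = some p
  · simp only [VSys.Gam, if_pos hp]
    refine ⟨0 + L, (LipschitzWith.const (Z p).1).add (lipschitz_clamp hT (hL k))⟩
  · simp only [VSys.Gam, if_neg hp]
    obtain ⟨K, hK⟩ := lipschitz_Del N τ π A' p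
    have h1 : LipschitzWith ‖(Z p).2‖₊ fun s : ℝ => s • (Z p).2 := by
      refine LipschitzWith.of_dist_le_mul fun s s' => ?_
      rw [dist_eq_norm, ← sub_smul, norm_smul, coe_nnnorm, mul_comm, dist_eq_norm]
    exact ⟨0 + ‖(Z p).2‖₊ + K, ((LipschitzWith.const (Z p).1).add h1).add hK⟩

theorem measurable_Gam (hΦ : AdmissiblePotential N.Φ) (hT : 0 ≤ N.T)
    (hc : ∃ L : ℝ≥0, ∀ k, LipschitzOnWith L (N.S.c k) (Icc 0 N.T)) (τ : MTree J κ)
    (A' : Finset J) (k : κ) (p : J) {α : Type*} [MeasurableSpace α] {f : α → Par τ} {s : α → ℝ}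
    {Z : α → PhasePoint} (hf : Measurable f) (hs : Measurable s) (hZ : Measurable Z) :
    Measurable fun a => if N.o = some p then (Z a).1 + N.S.c k (max 0 (min (s a) N.T))
      else (Z a).1 + s a • (Z a).2 + N.Del τ (f a) A' p (s a) := by
  obtain ⟨L, hL⟩ := hc
  by_cases hp : N.o = some p
  · simp only [if_pos hp]
    exact hZ.fst.add ((lipschitz_clamp hT (hL k)).continuous.measurable.comp hs)
  · simp only [if_neg hp]
    exact (hZ.fst.add (hs.smul hZ.snd)).add ((measurable_Del N hΦ τ A' p).comp (hf.prodMk hs))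

theorem measurable_Gam' (hΦ : AdmissiblePotential N.Φ) (hT : 0 ≤ N.T)
    (hc : ∃ L : ℝ≥0, ∀ k, LipschitzOnWith L (N.S.c k) (Icc 0 N.T)) (τ : MTree J κ)
    (A' : Finset J) (k : κ) (p : J) {α : Type*} [MeasurableSpace α] {f : α → Par τ} {s : α → ℝ}
    {Z : α → J → PhasePoint} (hf : Measurable f) (hs : Measurable s)
    (hZ : Measurable fun a => Z a p) :
    Measurable fun a => N.Gam τ (f a) A' k (s a) (Z a) p := by
  have := measurable_Gam hΦ hT hc τ A' k p hf hs hZ
  exact this

theorem measurable_phL (hΦ : AdmissiblePotential N.Φ) (hT : 0 ≤ N.T)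
    (hc : ∃ L : ℝ≥0, ∀ k, LipschitzOnWith L (N.S.c k) (Icc 0 N.T)) (τ : MTree J κ)
    (A' : Finset J) (k : κ) (p : J) {α : Type*} [MeasurableSpace α] {f : α → Par τ} {s : α → ℝ}
    {Z : α → J → PhasePoint} (hf : Measurable f) (hs : Measurable s)
    (hZ : Measurable fun a => Z a p) :
    Measurable fun a => N.phL τ (f a) A' k (s a) (Z a) p := by
  refine (measurable_Gam' hΦ hT hc τ A' k p hf hs hZ).prodMk ?_
  by_cases hp : N.o = some p
  · simp only [if_pos hp]; exact measurable_const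
  · simp only [if_neg hp]
    exact hZ.snd.add ((measurable_D N hΦ τ A' p).comp hf).snd

theorem measurable_mv {α : Type*} [MeasurableSpace α] {e t : α → ℝ} {p q : α → PhasePoint}
    {ξ g : α → Space3} (he : Measurable e) (ht : Measurable t) (hp : Measurable p)
    (hq : Measurable q) (hξ : Measurable ξ) (hg : Measurable g) :
    Measurable fun a => mv (e a) (t a) (p a) (q a) (ξ a) (g a) := by
  have h2 : Measurable fun a => (p a).2 - g a - (q a).2 := (hp.snd.sub hg).sub hq.snd
  exact (((hp.fst.sub (he.smul hξ)).sub hq.fst).sub (ht.smul h2)).prodMk h2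

/-- measurability of the limit configuration in all arguments -/
theorem measurable_ovL (hΦ : AdmissiblePotential N.Φ) (hT : 0 ≤ N.T)
    (hc : ∃ L : ℝ≥0, ∀ k, LipschitzOnWith L (N.S.c k) (Icc 0 N.T)) {α : Type*}
    [MeasurableSpace α] :
    ∀ (τ : MTree J κ) (f : α → Par τ) (z : α → PhasePoint)
      (x : α → J → PhasePoint), Measurable f → Measurable z → (∀ p, Measurable fun a => x a p) →
      ∀ p, Measurable fun a => N.ovL τ (f a) (z a) (x a) p
  | leaf j => fun f z x hf hz hx p => by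
      by_cases hp : p = j
      · subst hp
        simpa [VSys.ovL] using hz
      · simpa [VSys.ovL, Function.update_of_ne hp] using hx p
  | node A k i B l j P Q => fun f z x hf hz hx p => by
      have f1 : Measurable fun a => (f a).1.1 := Measurable.fst (Measurable.fst hf)
      have f2 : Measurable fun a => (f a).1.2.1 := Measurable.fst (Measurable.snd (Measurable.fst hf))
      have f3 : Measurable fun a => (f a).1.2.2 := Measurable.snd (Measurable.snd (Measurable.fst hf))
      have f4 : Measurable fun a => (f a).2.1 := Measurable.fst (Measurable.snd hf)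
      have f5 : Measurable fun a => (f a).2.2 := Measurable.snd (Measurable.snd hf)
      have hP := measurable_ovL hΦ hT hc P _ _ _ f4 hz hx
      have hQ := measurable_ovL hΦ hT hc Q _ (fun _ => 0) _ f5 measurable_const hP
      have h1 := measurable_phL hΦ hT hc P A k i f4 f1 (hP i)
      have h2 := measurable_phL hΦ hT hc Q B l j f5 f1 (hQ j)
      have h3 := measurable_mv (e := fun _ : α => 0) measurable_const f1 h1 h2 f2 f3
      exact measurable_ovL hΦ hT hc Q _ _ _ f5 h3 hP p

variable (N)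

theorem ovL_of_notMem : ∀ (τ : MTree J κ) (π : Par τ) (z : PhasePoint) (x : J → PhasePoint)
    {p : J}, p ∉ supp τ → N.ovL τ π z x p = x p
  | leaf j => fun π z x p hp => by
      have : p ≠ j := fun h => hp (by simp [supp, h])
      simp [VSys.ovL, Function.update_of_ne this]
  | node A k i B l j P Q => fun π z x p hp => by
      have hp' : p ∉ supp P ∧ p ∉ supp Q := by
        simpa [supp, not_or] using hp
      show N.ovL Q π.2.2 _ (N.ovL P π.2.1 z x) p = x p
      rw [ovL_of_notMem Q _ _ _ hp'.2, ovL_of_notMem P _ _ _ hp'.1]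

/-- the limit configuration on the support does not depend on the other coordinates -/
theorem ovL_congr : ∀ (τ : MTree J κ), WF N.o τ → ∀ (π : Par τ) (z : PhasePoint)
    (x x' : J → PhasePoint) {p : J}, p ∈ supp τ → N.ovL τ π z x p = N.ovL τ π z x' p
  | leaf j => fun _ π z x x' p hp => by
      have : p = j := by simpa [supp] using hp
      subst this
      simp [VSys.ovL]
  | node A k i B l j P Q => fun hτ π z x x' p hp => by
      obtain ⟨hd, hA, hB, hi, hj, ho, hP, hQ⟩ := hτ
      have e1 : ∀ q ∈ supp P, N.ovL P π.2.1 z x q = N.ovL P π.2.1 z x' q := fun q hq =>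
        ovL_congr P hP _ _ _ _ hq
      have e2 : N.phL P π.2.1 A k π.1.1 (N.ovL P π.2.1 z x) i =
          N.phL P π.2.1 A k π.1.1 (N.ovL P π.2.1 z x') i := by
        have := e1 i (hA hi)
        simp only [VSys.phL, VSys.Gam, this]
      have e3 : N.phL Q π.2.2 B l π.1.1 (N.ovL Q π.2.2 0 (N.ovL P π.2.1 z x)) j =
          N.phL Q π.2.2 B l π.1.1 (N.ovL Q π.2.2 0 (N.ovL P π.2.1 z x')) j := by
        have := ovL_congr Q hQ π.2.2 0 (N.ovL P π.2.1 z x) (N.ovL P π.2.1 z x') (hB hj)
        simp only [VSys.phL, VSys.Gam, this]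
      show N.ovL Q π.2.2 _ (N.ovL P π.2.1 z x) p = N.ovL Q π.2.2 _ (N.ovL P π.2.1 z x') p
      rw [e2, e3]
      by_cases hq : p ∈ supp Q
      · exact ovL_congr Q hQ _ _ _ _ hq
      · rw [ovL_of_notMem N Q _ _ _ hq, ovL_of_notMem N Q _ _ _ hq]
        refine e1 p ?_
        rcases Finset.mem_union.1 hp with h | h
        · exact h
        · exact absurd h hq

/-- translation and boost of a path -/
theorem Gam_shift {τ : MTree J κ} {π : Par τ} {A' : Finset J} {k : κ} {s : ℝ}
    {Z Z' : J → PhasePoint} {p : J} {w : PhasePoint} (hp : N.o ≠ some p) (h : Z' p = Z p + w) :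
    N.Gam τ π A' k s Z' p = N.Gam τ π A' k s Z p + (w.1 + s • w.2) := by
  simp only [VSys.Gam, if_neg hp, h, Prod.fst_add, Prod.snd_add]
  module

theorem phL_shift {τ : MTree J κ} {π : Par τ} {A' : Finset J} {k : κ} {s : ℝ}
    {Z Z' : J → PhasePoint} {p : J} {w : PhasePoint} (hp : N.o ≠ some p) (h : Z' p = Z p + w) :
    N.phL τ π A' k s Z' p = N.phL τ π A' k s Z p + (w.1 + s • w.2, w.2) := by
  have h1 := Gam_shift N (τ := τ) (π := π) (A' := A') (k := k) (s := s) hp h
  ext1
  · exact h1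
  · simp only [VSys.phL, if_neg hp, h, Prod.snd_add]
    abel

/-- change of the root state -/
theorem ovL_shift : ∀ (τ : MTree J κ), WF N.o τ → (∀ p ∈ supp τ, N.o ≠ some p) →
    ∀ (π : Par τ) (z w : PhasePoint) (x : J → PhasePoint) {p : J}, p ∈ supp τ →
      N.ovL τ π (z + w) x p = N.ovL τ π z x p + w
  | leaf j => fun _ _ π z w x p hp => by
      have : p = j := by simpa [supp] using hp
      subst this
      simp [VSys.ovL]
  | node A k i B l j P Q => fun hτ hno π z w x p hp => by
      obtain ⟨hd, hA, hB, hi, hj, ho, hP, hQ⟩ := hτ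
      have hnoP : ∀ p ∈ supp P, N.o ≠ some p := fun p hp => hno p (Finset.mem_union_left _ hp)
      have hnoQ : ∀ p ∈ supp Q, N.o ≠ some p := fun p hp => hno p (Finset.mem_union_right _ hp)
      have e1 : ∀ q ∈ supp P, N.ovL P π.2.1 (z + w) x q = N.ovL P π.2.1 z x q + w := fun q hq =>
        ovL_shift P hP hnoP _ _ _ _ hq
      have e2 := phL_shift N (τ := P) (π := π.2.1) (A' := A) (k := k) (s := π.1.1)
        (hnoP i (hA hi)) (e1 i (hA hi))
      have e3 : N.phL Q π.2.2 B l π.1.1 (N.ovL Q π.2.2 0 (N.ovL P π.2.1 (z + w) x)) j =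
          N.phL Q π.2.2 B l π.1.1 (N.ovL Q π.2.2 0 (N.ovL P π.2.1 z x)) j := by
        have := ovL_congr N Q hQ π.2.2 0 (N.ovL P π.2.1 (z + w) x) (N.ovL P π.2.1 z x) (hB hj)
        simp only [VSys.phL, VSys.Gam, this]
      have e4 : ∀ (t : ℝ) (a b : PhasePoint) (ξ g : Space3),
          mv 0 t (a + (w.1 + t • w.2, w.2)) b ξ g = mv 0 t a b ξ g + w := by
        intro t a b ξ g
        ext1
        · simp only [mv, Prod.fst_add, Prod.snd_add]
          module
        · simp only [mv, Prod.snd_add]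
          abel
      show N.ovL Q π.2.2 (mv 0 π.1.1 (N.phL P π.2.1 A k π.1.1 (N.ovL P π.2.1 (z + w) x) i)
          (N.phL Q π.2.2 B l π.1.1 (N.ovL Q π.2.2 0 (N.ovL P π.2.1 (z + w) x)) j) π.1.2.1 π.1.2.2)
          (N.ovL P π.2.1 (z + w) x) p =
        N.ovL Q π.2.2 (mv 0 π.1.1 (N.phL P π.2.1 A k π.1.1 (N.ovL P π.2.1 z x) i)
          (N.phL Q π.2.2 B l π.1.1 (N.ovL Q π.2.2 0 (N.ovL P π.2.1 z x)) j) π.1.2.1 π.1.2.2)
          (N.ovL P π.2.1 z x) p + w
      rw [e2, e3, e4]
      by_cases hq : p ∈ supp Q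
      · rw [ovL_shift Q hQ hnoQ _ _ _ _ hq,
          ovL_congr N Q hQ π.2.2 _ (N.ovL P π.2.1 (z + w) x) (N.ovL P π.2.1 z x) hq]
      · rw [ovL_of_notMem N Q _ _ _ hq, ovL_of_notMem N Q _ _ _ hq]
        refine e1 p ?_
        rcases Finset.mem_union.1 hp with h | h
        · exact h
        · exact absurd h hq

end Dm

end Crest.Agent.R122.VLGen692
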