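import Crest.Agent.R122.VLdyn_564
import Crest.Agent.R122.VLout_564
import Crest.Agent.R122.VLInstA_442

-- ▼ part R122/VLdynB_564
section

/-!
# Row 122, block VL: gluing in worlds with births, hypotheses on the candidates only (helper564)

* `bglue`: a world with births is equal to a candidate path made of independent groups as long as
  the candidates of different groups stay at distance more than `ε` (alive ones), finite horizon;
* `bdcB_free`, `bdcB_pair`: free lines, free lines and one pair.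
-/

set_option autoImplicit false
set_option linter.unusedSectionVars false
open MeasureTheory Metric Set Filter
open scoped ENNReal NNReal Topology
open Crest.AnalysisR.Kinetic

noncomputable section

namespace Crest.Agent.R122.VLcore564

open Scat818 Flow671 Loc45 Ins45

variable {Φ : Space3 → ℝ} {ε : ℝ}



/-- At most one particle: free flight is a world with births. -/
theorem bworld_subsingleton {μ : Type*} [Fintype μ] [Subsingleton μ] (hΦ : AdmissiblePotential Φ)
    (β : μ → ℝ) (Z : μ → PhasePoint) (a : ℝ) :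
    BWorld Φ ε β a (fun t k => fr (Z k) (t - a)) where
  cont := by
    refine (continuous_pi fun k => ?_).continuousOn
    unfold fr
    fun_prop
  der t _ := by
    classical
    rw [hasDerivWithinAt_pi]
    intro k
    have h2 : bf Φ ε β t (fun k => fr (Z k) (t - a)) k = ((Z k).2, 0) := by
      unfold bf
      have hsum : ∑ j, (if β j ≤ t then
          gradient Φ ((1 / ε) • ((fr (Z k) (t - a)).1 - (fr (Z j) (t - a)).1)) else 0) = 0 := by
        refine Finset.sum_eq_zero fun j _ => ?_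
        rw [Subsingleton.elim j k, sub_self, smul_zero, grad_origin hΦ, ite_self]
      rw [hsum, smul_zero, ite_self]
      rfl
    rw [h2]
    unfold fr
    refine HasDerivAt.hasDerivWithinAt (HasDerivAt.prodMk ?_ (hasDerivAt_const _ _))
    have h3 := (((hasDerivAt_id t).sub_const a).smul_const (Z k).2).const_add (Z k).1
    simpa using h3
  dom t _ := Or.inr fun i j hij => absurd (Subsingleton.elim i j) hij



end Crest.Agent.R122.VLcore564
end
end

-- ▼ part R122/VLdynC_564
section

/-!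
# Row 122, block VL: the two-body motion near the contact time, `ε → 0` (helper564)

* `pp_rel`: the two-body motion in scaled coordinates;
* `pp_close`: for a fixed scaled state `z` the paths of the two particles are within `C ε` of the
  broken lines, velocities bounded, for all times, all `ε`;
* `W1_eq`, `K1_eq`: in terms of `pout`, `qout`;
* `eventually_far`: uniformly converging continuous paths which never meet in the limit.
-/

set_option autoImplicit false
set_option linter.unusedSectionVars false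
open MeasureTheory Metric Set Filter
open scoped ENNReal NNReal Topology
open Crest.AnalysisR.Kinetic

noncomputable section

namespace Crest.Agent.R122.VLcore564

open Scat818 Flow671 Loc45 Ins45

variable {Φ : Space3 → ℝ} {ε : ℝ}

theorem W1_eq (hΦ : AdmissiblePotential Φ) {R : ℝ} {z : Space3 × Space3} (hz : Exi Φ R z) :
    W1 Φ R z = (1 / 2 : ℝ) • (pout Φ z - z.2) := by
  unfold W1
  rw [pout_eq hΦ hz]

theorem K1_eq (hΦ : AdmissiblePotential Φ) {R : ℝ} {z : Space3 × Space3} (hz : Exi Φ R z) :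
    K1 Φ R z = (1 / 2 : ℝ) • (qout Φ z - z.1) := by
  unfold K1
  rw [qout_eq hΦ hz]

/-- The relative motion stays bounded in a bounded time interval. -/
theorem relFlow_bdd (hΦ : AdmissiblePotential Φ) {z : Space3 × Space3} (hz : Reg Φ z.1) (a b : ℝ) :
    ∃ M : ℝ, 0 ≤ M ∧ ∀ u ∈ Icc a b, ‖(relFlow Φ u z).1‖ ≤ M ∧ ‖(relFlow Φ u z).2‖ ≤ M := by
  obtain ⟨M1, hM1⟩ := (isCompact_Icc (a := a) (b := b)).exists_bound_of_continuousOn
    (f := fun u => (relFlow Φ u z).1) (isRel_relFlow hΦ hz).continuous_q.continuousOn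
  obtain ⟨M2, hM2⟩ := (isCompact_Icc (a := a) (b := b)).exists_bound_of_continuousOn
    (f := fun u => (relFlow Φ u z).2) (isRel_relFlow hΦ hz).continuous_p.continuousOn
  refine ⟨max 0 (max M1 M2), le_max_left _ _, fun u hu => ⟨?_, ?_⟩⟩
  · exact (hM1 u hu).trans ((le_max_left _ _).trans (le_max_right _ _))
  · exact (hM2 u hu).trans ((le_max_right _ _).trans (le_max_right _ _))

/-- The two-body motion in scaled coordinates. -/
theorem pp_rel (hΦ : AdmissiblePotential Φ) (hε : 0 < ε) {x y : PhasePoint} {τ R : ℝ}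
    (hz : Exi Φ R (ss ε x y τ)) (hRτ : R * ε ≤ τ) (t : ℝ) :
    relFlow Φ (t / ε) ((1 / ε) • (x.1 - y.1), x.2 - y.2) =
      relFlow Φ ((t - τ) / ε + R) ((ss ε x y τ).1 - R • (ss ε x y τ).2, (ss ε x y τ).2) := by
  set z := ss ε x y τ with hzdef
  have h1 : ((z.1 - (τ / ε) • z.2, z.2) : Space3 × Space3) =
      relFlow Φ (-(τ / ε - R)) (z.1 - R • z.2, z.2) := by
    rw [relFlow_free_neg hΦ hz.1 hz.2.1 (by
      have : R ≤ τ / ε := by rw [le_div_iff₀ hε]; exact hRτ
      linarith)]
    ext1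
    · show z.1 - (τ / ε) • z.2 = z.1 - R • z.2 + (-(τ / ε - R)) • z.2
      module
    · rfl
  rw [ss_back hε x y τ, ← hzdef, h1, ← relFlow_add hΦ]
  congr 1
  ring

/-- **The two-body motion is within `C ε` of the broken lines**, `C` depends only on the scaled
state. -/
theorem pp_close (hΦ : AdmissiblePotential Φ) {R : ℝ} (hR : 0 ≤ R) {z : Space3 × Space3}
    (hz : Exi Φ R z) :
    ∃ C : ℝ, 0 ≤ C ∧ ∀ ε : ℝ, 0 < ε → ∀ (x y : PhasePoint) (τ : ℝ), ss ε x y τ = z →
      R * ε ≤ τ → ∀ t : ℝ,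
        ‖(pp Φ ε x y t).1.1 - ((fr x t).1 + max (t - τ) 0 • W1 Φ R z)‖ ≤ C * ε ∧
        ‖(pp Φ ε x y t).2.1 - ((fr y t).1 - max (t - τ) 0 • W1 Φ R z)‖ ≤ C * ε ∧
        ‖(pp Φ ε x y t).1.2 - x.2‖ ≤ C ∧ ‖(pp Φ ε x y t).2.2 - y.2‖ ≤ C := by
  have hreg : Reg Φ (z.1 - R • z.2, z.2).1 := by
    refine Or.inl fun h => ?_
    have := hz.1
    have h' : z.1 - R • z.2 = 0 := h
    rw [h', norm_zero] at this
    linarith
  obtain ⟨M, hM0, hM⟩ := relFlow_bdd hΦ hreg 0 (2 * R)
  set C : ℝ := ‖K1 Φ R z‖ + R * ‖W1 Φ R z‖ + M + ‖z.1‖ + R * ‖z.2‖ + ‖z.2‖ + ‖W1 Φ R z‖ with hC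
  have hK : 0 ≤ ‖K1 Φ R z‖ := norm_nonneg _
  have hW : 0 ≤ ‖W1 Φ R z‖ := norm_nonneg _
  have hRW : 0 ≤ R * ‖W1 Φ R z‖ := mul_nonneg hR hW
  have hz1 : 0 ≤ ‖z.1‖ := norm_nonneg _
  have hz2 : 0 ≤ ‖z.2‖ := norm_nonneg _
  have hRz : 0 ≤ R * ‖z.2‖ := mul_nonneg hR hz2
  have hC0 : 0 ≤ C := by positivity
  refine ⟨C, hC0, fun ε hε x y τ hss hRτ t => ?_⟩
  have hz' : Exi Φ R (ss ε x y τ) := hss ▸ hz
  have hvel : x.2 - y.2 = z.2 := by rw [← hss]; rfl
  have hpos : ε • z.1 = (x.1 - y.1) + τ • (x.2 - y.2) := by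
    rw [← hss]
    show ε • ((1 / ε) • ((x.1 + τ • x.2) - (y.1 + τ • y.2))) = _
    rw [smul_smul, mul_one_div_cancel hε.ne', one_smul]
    module
  rcases le_or_gt t (τ - R * ε) with h1 | h1
  · -- before
    rw [pp_before hΦ hε hz' hRτ h1]
    have hRε : 0 ≤ R * ε := mul_nonneg hR hε.le
    have hmax : max (t - τ) 0 = 0 := max_eq_right (by linarith)
    have h0 : 0 ≤ C * ε := mul_nonneg hC0 hε.le
    rw [hmax, zero_smul, add_zero, sub_zero, sub_self, sub_self, norm_zero]
    refine ⟨h0, h0, ?_, ?_⟩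
    · show ‖x.2 - x.2‖ ≤ C
      rw [sub_self, norm_zero]; exact hC0
    · show ‖y.2 - y.2‖ ≤ C
      rw [sub_self, norm_zero]; exact hC0
  rcases le_or_gt (τ + R * ε) t with h2 | h2
  · -- after
    have hRε : 0 ≤ R * ε := mul_nonneg hR hε.le
    rw [pp_after hΦ hε hz' hRτ h2, hss]
    have hmax : max (t - τ) 0 = t - τ := max_eq_left (by linarith)
    rw [hmax]
    have e1 : (fr x t).1 + (ε • K1 Φ R z + (t - τ) • W1 Φ R z) -
        ((fr x t).1 + (t - τ) • W1 Φ R z) = ε • K1 Φ R z := by module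
    have e2 : (fr y t).1 - (ε • K1 Φ R z + (t - τ) • W1 Φ R z) -
        ((fr y t).1 - (t - τ) • W1 Φ R z) = -(ε • K1 Φ R z) := by module
    have e3 : ‖ε • K1 Φ R z‖ ≤ C * ε := by
      rw [norm_smul, Real.norm_eq_abs, abs_of_pos hε, mul_comm]
      exact mul_le_mul_of_nonneg_right (by rw [hC]; linarith) hε.le
    refine ⟨?_, ?_, ?_, ?_⟩
    · show ‖(fr x t).1 + (ε • K1 Φ R z + (t - τ) • W1 Φ R z) -
        ((fr x t).1 + (t - τ) • W1 Φ R z)‖ ≤ C * ε
      rw [e1]; exact e3
    · show ‖(fr y t).1 - (ε • K1 Φ R z + (t - τ) • W1 Φ R z) -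
        ((fr y t).1 - (t - τ) • W1 Φ R z)‖ ≤ C * ε
      rw [e2, norm_neg]; exact e3
    · show ‖x.2 + W1 Φ R z - x.2‖ ≤ C
      rw [add_sub_cancel_left, hC]; linarith
    · show ‖y.2 - W1 Φ R z - y.2‖ ≤ C
      have : y.2 - W1 Φ R z - y.2 = -W1 Φ R z := by module
      rw [this, norm_neg, hC]; linarith
  · -- during
    set u : ℝ := (t - τ) / ε + R with hu
    have htu : (t - τ) = (u - R) * ε := by rw [hu]; field_simp; ring
    have hu1 : 0 ≤ u := by
      by_contra h
      push Not at h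
      have : (u - R) * ε < (-R) * ε := mul_lt_mul_of_pos_right (by linarith) hε
      linarith
    have hu2 : u ≤ 2 * R := by
      by_contra h
      push Not at h
      have : R * ε < (u - R) * ε := mul_lt_mul_of_pos_right (by linarith) hε
      linarith
    have huR : |u - R| ≤ R := abs_le.2 ⟨by linarith, by linarith⟩
    obtain ⟨hq, hp⟩ := hM u ⟨hu1, hu2⟩
    have hrel := pp_rel hΦ hε hz' hRτ t
    rw [hss] at hrel
    set q := relFlow Φ u (z.1 - R • z.2, z.2) with hqdef
    have hrel' : relFlow Φ (t / ε) ((1 / ε) • (x.1 - y.1), x.2 - y.2) = q := hrel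
    have hmaxW : ‖max (t - τ) 0 • W1 Φ R z‖ ≤ R * ‖W1 Φ R z‖ * ε := by
      rw [norm_smul, Real.norm_eq_abs, abs_of_nonneg (le_max_right _ _)]
      have h3 : max (t - τ) 0 ≤ R * ε := max_le (by linarith) (mul_nonneg hR hε.le)
      calc max (t - τ) 0 * ‖W1 Φ R z‖ ≤ R * ε * ‖W1 Φ R z‖ := mul_le_mul_of_nonneg_right h3 hW
        _ = R * ‖W1 Φ R z‖ * ε := by ring
    have hmain : ‖(ε / 2) • (q.1 - z.1 - (u - R) • z.2)‖ ≤ (M + ‖z.1‖ + R * ‖z.2‖) * ε := by
      rw [norm_smul, Real.norm_eq_abs, abs_of_pos (by positivity)]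
      have h3 : ‖q.1 - z.1 - (u - R) • z.2‖ ≤ M + ‖z.1‖ + R * ‖z.2‖ := by
        calc ‖q.1 - z.1 - (u - R) • z.2‖ ≤ ‖q.1 - z.1‖ + ‖(u - R) • z.2‖ := norm_sub_le _ _
          _ ≤ (‖q.1‖ + ‖z.1‖) + |u - R| * ‖z.2‖ := by
              refine add_le_add (norm_sub_le _ _) ?_
              rw [norm_smul, Real.norm_eq_abs]
          _ ≤ M + ‖z.1‖ + R * ‖z.2‖ := by
              have := mul_le_mul_of_nonneg_right huR hz2
              linarith
      have h4 : 0 ≤ ‖q.1 - z.1 - (u - R) • z.2‖ := norm_nonneg _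
      nlinarith
    have e1 : (pp Φ ε x y t).1.1 = (fr x t).1 + (ε / 2) • (q.1 - z.1 - (u - R) • z.2) := by
      unfold pp
      rw [hrel']
      show (1 / 2 : ℝ) • (x.1 + y.1) + t • ((1 / 2 : ℝ) • (x.2 + y.2)) + (ε / 2) • q.1 =
        x.1 + t • x.2 + (ε / 2) • (q.1 - z.1 - (u - R) • z.2)
      have h5 : (ε / 2) • (q.1 - z.1 - (u - R) • z.2) = (ε / 2) • q.1 - (1 / 2 : ℝ) • (ε • z.1) -
          ((1 / 2 : ℝ) * ((u - R) * ε)) • z.2 := by module
      rw [h5, hpos, ← htu, ← hvel]
      module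
    have e2 : (pp Φ ε x y t).2.1 = (fr y t).1 - (ε / 2) • (q.1 - z.1 - (u - R) • z.2) := by
      unfold pp
      rw [hrel']
      show (1 / 2 : ℝ) • (x.1 + y.1) + t • ((1 / 2 : ℝ) • (x.2 + y.2)) - (ε / 2) • q.1 =
        y.1 + t • y.2 - (ε / 2) • (q.1 - z.1 - (u - R) • z.2)
      have h5 : (ε / 2) • (q.1 - z.1 - (u - R) • z.2) = (ε / 2) • q.1 - (1 / 2 : ℝ) • (ε • z.1) -
          ((1 / 2 : ℝ) * ((u - R) * ε)) • z.2 := by module
      rw [h5, hpos, ← htu, ← hvel]
      module
    have e3 : (pp Φ ε x y t).1.2 - x.2 = (1 / 2 : ℝ) • (q.2 - z.2) := by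
      unfold pp
      rw [hrel']
      show (1 / 2 : ℝ) • (x.2 + y.2) + (1 / 2 : ℝ) • q.2 - x.2 = _
      rw [← hvel]
      module
    have e4 : (pp Φ ε x y t).2.2 - y.2 = -((1 / 2 : ℝ) • (q.2 - z.2)) := by
      unfold pp
      rw [hrel']
      show (1 / 2 : ℝ) • (x.2 + y.2) - (1 / 2 : ℝ) • q.2 - y.2 = _
      rw [← hvel]
      module
    have hvelb : ‖(1 / 2 : ℝ) • (q.2 - z.2)‖ ≤ C := by
      rw [norm_smul, Real.norm_eq_abs, abs_of_pos (by norm_num)]
      have h3 : ‖q.2 - z.2‖ ≤ M + ‖z.2‖ := (norm_sub_le _ _).trans (by linarith)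
      have h4 : 0 ≤ ‖q.2 - z.2‖ := norm_nonneg _
      rw [hC]
      linarith
    have hCε : R * ‖W1 Φ R z‖ * ε + (M + ‖z.1‖ + R * ‖z.2‖) * ε ≤ C * ε := by
      rw [← add_mul]
      exact mul_le_mul_of_nonneg_right (by rw [hC]; linarith) hε.le
    refine ⟨?_, ?_, ?_, ?_⟩
    · rw [e1]
      have h5 : (fr x t).1 + (ε / 2) • (q.1 - z.1 - (u - R) • z.2) -
          ((fr x t).1 + max (t - τ) 0 • W1 Φ R z) =
          (ε / 2) • (q.1 - z.1 - (u - R) • z.2) - max (t - τ) 0 • W1 Φ R z := by module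
      rw [h5]
      exact (norm_sub_le _ _).trans (by linarith)
    · rw [e2]
      have h5 : (fr y t).1 - (ε / 2) • (q.1 - z.1 - (u - R) • z.2) -
          ((fr y t).1 - max (t - τ) 0 • W1 Φ R z) =
          -((ε / 2) • (q.1 - z.1 - (u - R) • z.2)) + max (t - τ) 0 • W1 Φ R z := by module
      rw [h5]
      refine (norm_add_le _ _).trans ?_
      rw [norm_neg]
      linarith
    · rw [e3]; exact hvelb
    · rw [e4, norm_neg]; exact hvelb


end Crest.Agent.R122.VLcore564
end
end

-- ▼ part R122/VLdynD_564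

/-!
# Row 122, block VL: candidates as local worlds, contacts of the pair (helper564)

* `lworld_glue`: groups of candidates at cross distance at least `ε` form a local world;
* `cand`: the pair follows the two-body motion, the others free lines; `lworld_pair`,
  `lworld_lines`;
* `cand_self`, `cand_before`, `cand_after`, `cand_close`;
* `ct_lines`, `ct_broken`: contacts of two (broken) lines.
-/

set_option autoImplicit false
set_option linter.unusedSectionVars false
open MeasureTheory Metric Set Filter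
open scoped ENNReal NNReal Topology
open Crest.AnalysisR.Kinetic

noncomputable section

namespace Crest.Agent.R122.VLcore564

open Scat818 Flow671 Loc45 Ins45 VLInst442

variable {Φ : Space3 → ℝ} {ε : ℝ}

/-- **Gluing of finitely many local worlds** (over the groups of a family) at cross distance at
least `ε`. -/
theorem lworld_glue {ι : Type*} [Fintype ι] {γ : Type*} [DecidableEq γ]
    (hΦ : AdmissiblePotential Φ) (hε : 0 < ε) {b : ι → ℝ} {a T : ℝ} (c : ι → γ)
    {Y : ℝ → ι → PhasePoint}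
    (hY : ∀ g : γ, LWorld Φ ε (fun k : {k // c k = g} => b k) a T
      (fun t (k : {k // c k = g}) => Y t k))
    (hfar : ∀ t ∈ Ico a T, ∀ k l, c k ≠ c l → b k ≤ t → b l ≤ t →
      ε ≤ dist (Y t k).1 (Y t l).1) :
    LWorld Φ ε b a T Y where
  cont := continuousOn_pi.2 fun k => (hY (c k)).cont_apply ⟨k, rfl⟩
  der t ht := by
    classical
    rw [hasDerivWithinAt_pi]
    intro k
    have h1 := (hasDerivWithinAt_pi.1 ((hY (c k)).der t ht)) ⟨k, rfl⟩
    have h2 : bf Φ ε (fun m : {m // c m = c k} => b m) t (fun m : {m // c m = c k} => Y t m)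
        ⟨k, rfl⟩ = bf Φ ε b t (Y t) k := by
      unfold bf
      show ((Y t k).2, if b k ≤ t then _ else _) = ((Y t k).2, if b k ≤ t then _ else _)
      by_cases hi : b k ≤ t
      · rw [if_pos hi, if_pos hi]
        congr 2
        symm
        rw [← Finset.sum_subset (Finset.subset_univ
          (Finset.univ.map (Function.Embedding.subtype fun m => c m = c k))), Finset.sum_map]
        · rfl
        intro j _ hj
        by_cases hj' : b j ≤ t
        · rw [if_pos hj']
          refine grad_far hΦ hε (hfar t ht k j ?_ hi hj')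
          intro h
          exact hj (by simp [h])
        · rw [if_neg hj']
      · rw [if_neg hi, if_neg hi]
    rw [h2] at h1
    exact h1
  dom t ht := by
    by_cases hsm : ContDiff ℝ 2 Φ
    · exact Or.inl hsm
    · refine Or.inr fun i j hij hi hj => ?_
      by_cases hc : c i = c j
      · rcases (hY (c j)).dom t ht with h | h
        · exact absurd h hsm
        · exact h ⟨i, hc⟩ ⟨j, rfl⟩ (fun h => hij (congrArg Subtype.val h)) hi hj
      · have h1 := hfar t ht i j hc hi hj
        intro h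
        rw [h, dist_self] at h1
        linarith

/-- Free lines at mutual distance at least `ε`. -/
theorem lworld_lines {ι : Type*} [Fintype ι] (hΦ : AdmissiblePotential Φ) (hε : 0 < ε)
    {b : ι → ℝ} {a T : ℝ} {Z : ι → PhasePoint}
    (hfar : ∀ t ∈ Ico a T, ∀ k l, k ≠ l → b k ≤ t → b l ≤ t →
      ε ≤ dist (fr (Z k) (t - a)).1 (fr (Z l) (t - a)).1) :
    LWorld Φ ε b a T (fun t k => fr (Z k) (t - a)) := by
  classical
  refine lworld_glue hΦ hε (fun k : ι => some k) (fun g => ?_)
    (fun t ht k l hkl => hfar t ht k l fun h => hkl (congrArg some h))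
  have : Subsingleton {k : ι // some k = g} :=
    ⟨fun x y => Subtype.ext (Option.some.inj (x.2.trans y.2.symm))⟩
  exact LWorld.of_bworld
    (bworld_subsingleton hΦ _ (fun k : {k : ι // some k = g} => Z k) a)

open scoped Classical in
/-- Candidate: the pair `(i, j)` follows the two-body motion started at time `a`, the others are
free lines. -/
def cand {ι : Type*} (Φ : Space3 → ℝ) (ε : ℝ) (Z : ι → PhasePoint) (i j : ι) (a t : ℝ) (k : ι) :
    PhasePoint :=
  if k = i then (pp Φ ε (Z i) (Z j) (t - a)).1 else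
    if k = j then (pp Φ ε (Z i) (Z j) (t - a)).2 else fr (Z k) (t - a)

theorem cand_left {ι : Type*} (Z : ι → PhasePoint) (i j : ι) (a t : ℝ) :
    cand Φ ε Z i j a t i = (pp Φ ε (Z i) (Z j) (t - a)).1 := by
  simp [cand]

theorem cand_right {ι : Type*} (Z : ι → PhasePoint) {i j : ι} (hij : i ≠ j) (a t : ℝ) :
    cand Φ ε Z i j a t j = (pp Φ ε (Z i) (Z j) (t - a)).2 := by
  simp [cand, hij.symm]

theorem cand_other {ι : Type*} (Z : ι → PhasePoint) {i j k : ι} (hki : k ≠ i) (hkj : k ≠ j)
    (a t : ℝ) : cand Φ ε Z i j a t k = fr (Z k) (t - a) := by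
  simp [cand, hki, hkj]

/-- The pair as a world. -/
theorem pair_world {P : Type*} [Fintype P] (hΦ : AdmissiblePotential Φ) (hε : 0 < ε) {i j : P}
    (hij : i ≠ j) (htwo : ∀ k : P, k = i ∨ k = j) {Z : P → PhasePoint}
    (hreg : Reg Φ ((Z i).1 - (Z j).1)) {b : P → ℝ} {a : ℝ} (hbi : b i ≤ a) (hbj : b j ≤ a) :
    BWorld Φ ε b a (cand Φ ε Z i j a) := by
  have hflow : ∀ s, flow Φ ε s Z i = (pp Φ ε (Z i) (Z j) s).1 ∧
      flow Φ ε s Z j = (pp Φ ε (Z i) (Z j) s).2 := by
    intro s
    have h := flow_pair hΦ hε hij htwo (Z := Z) hreg s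
    rw [h, pairConf_left, pairConf_right ε hij.symm]
    exact ⟨rfl, rfl⟩
  have hD : Z ∈ Dom Φ P := dom_of_reg htwo hreg
  have hWorld : World Φ ε (fun t => flow Φ ε (t - a) Z) := by
    have := (world_flow hΦ hε hD).shift (-a)
    have h2 : (fun t => flow Φ ε (-a + t) Z) = fun t => flow Φ ε (t - a) Z := by
      funext t
      rw [neg_add_eq_sub]
    rwa [h2] at this
  have hPB : BWorld Φ ε b a (fun t => flow Φ ε (t - a) Z) := by
    refine World.bworld hWorld fun k => ?_
    rcases htwo k with rfl | rfl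
    · exact hbi
    · exact hbj
  have h3 : cand Φ ε Z i j a = fun t => flow Φ ε (t - a) Z := by
    funext t k
    rcases htwo k with rfl | rfl
    · rw [cand_left, (hflow (t - a)).1]
    · rw [cand_right Z hij, (hflow (t - a)).2]
  rw [h3]
  exact hPB

/-- **Pair and free lines** as a local world. -/
theorem lworld_pair {ι : Type*} [Fintype ι] (hΦ : AdmissiblePotential Φ) (hε : 0 < ε)
    {b : ι → ℝ} {a T : ℝ} {Z : ι → PhasePoint} {i j : ι} (hij : i ≠ j)
    (hreg : Reg Φ ((Z i).1 - (Z j).1)) (hbi : b i ≤ a) (hbj : b j ≤ a)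
    (hrest : ∀ t ∈ Ico a T, ∀ k l, k ≠ i → k ≠ j → l ≠ i → l ≠ j → k ≠ l → b k ≤ t → b l ≤ t →
      ε ≤ dist (fr (Z k) (t - a)).1 (fr (Z l) (t - a)).1)
    (hcross : ∀ t ∈ Ico a T, ∀ k, k ≠ i → k ≠ j → b k ≤ t →
      ε ≤ dist (pp Φ ε (Z i) (Z j) (t - a)).1.1 (fr (Z k) (t - a)).1 ∧
      ε ≤ dist (pp Φ ε (Z i) (Z j) (t - a)).2.1 (fr (Z k) (t - a)).1) :
    LWorld Φ ε b a T (cand Φ ε Z i j a) := by
  classical
  set c : ι → Option ι := fun k => if k = i ∨ k = j then none else some k with hc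
  have hci : c i = none := by simp [hc]
  have hcj : c j = none := by simp [hc]
  have hnone : ∀ k, c k = none → k = i ∨ k = j := by
    intro k hk
    by_contra h
    simp only [hc, if_neg h] at hk
    exact absurd hk (by simp)
  refine lworld_glue hΦ hε c (fun g => ?_) ?_
  · rcases g with _ | g
    · set i' : {k // c k = none} := ⟨i, hci⟩ with hi'
      set j' : {k // c k = none} := ⟨j, hcj⟩ with hj'
      have hij' : i' ≠ j' := fun h => hij (congrArg Subtype.val h)
      have htwo : ∀ k : {k // c k = none}, k = i' ∨ k = j' := by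
        rintro ⟨k, hk⟩
        rcases hnone k hk with rfl | rfl
        · exact Or.inl rfl
        · exact Or.inr rfl
      have h := pair_world hΦ hε hij' htwo (Z := fun k : {k // c k = none} => Z k) hreg
        (b := fun k : {k // c k = none} => b k) (a := a) hbi hbj
      refine (LWorld.of_bworld h).congr fun t _ => ?_
      funext k
      rcases htwo k with rfl | rfl
      · exact (cand_left Z i j a t).trans
          (cand_left (fun k : {k // c k = none} => Z k) i' j' a t).symm
      · exact (cand_right Z hij a t).trans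
          (cand_right (fun k : {k // c k = none} => Z k) hij' a t).symm
    · have hval : ∀ w : {k : ι // c k = some g}, (w : ι) ≠ i ∧ (w : ι) ≠ j ∧ (w : ι) = g := by
        intro w
        have hw := w.2
        by_cases h : (w : ι) = i ∨ (w : ι) = j
        · simp only [hc, if_pos h] at hw
          exact absurd hw (by simp)
        · rw [not_or] at h
          refine ⟨h.1, h.2, ?_⟩
          have h' : ¬ ((w : ι) = i ∨ (w : ι) = j) := by rw [not_or]; exact h
          simp only [hc, if_neg h'] at hw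
          exact Option.some.inj hw
      have hss : Subsingleton {k : ι // c k = some g} :=
        ⟨fun x y => Subtype.ext ((hval x).2.2.trans (hval y).2.2.symm)⟩
      refine (LWorld.of_bworld (bworld_subsingleton hΦ _
        (fun k : {k : ι // c k = some g} => Z k) a)).congr fun t _ => ?_
      funext k
      exact cand_other Z (hval k).1 (hval k).2.1 a t
  · intro t ht k l hkl hbk hbl
    by_cases hk : k = i ∨ k = j
    · by_cases hl : l = i ∨ l = j
      · exact absurd (by simp only [hc, if_pos hk, if_pos hl]) hkl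
      · rw [not_or] at hl
        rw [cand_other Z hl.1 hl.2]
        rcases hk with rfl | rfl
        · rw [cand_left]; exact (hcross t ht l hl.1 hl.2 hbl).1
        · rw [cand_right Z hij]; exact (hcross t ht l hl.1 hl.2 hbl).2
    · rw [not_or] at hk
      by_cases hl : l = i ∨ l = j
      · rw [cand_other Z hk.1 hk.2, dist_comm]
        rcases hl with rfl | rfl
        · rw [cand_left]; exact (hcross t ht k hk.1 hk.2 hbk).1
        · rw [cand_right Z hij]; exact (hcross t ht k hk.1 hk.2 hbk).2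
      · rw [not_or] at hl
        rw [cand_other Z hk.1 hk.2, cand_other Z hl.1 hl.2]
        refine hrest t ht k l hk.1 hk.2 hl.1 hl.2 ?_ hbk hbl
        rintro rfl
        exact hkl rfl

/-! ### Values of the candidate -/


/-- The limit displacement of the pair: `+w` for `i`, `-w` for `j`. -/
def kk {ι : Type*} [DecidableEq ι] (i j : ι) (w : Space3) (k : ι) : Space3 :=
  if k = i then w else if k = j then -w else 0

theorem kk_left {ι : Type*} [DecidableEq ι] (i j : ι) (w : Space3) : kk i j w i = w := by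
  simp [kk]

theorem kk_right {ι : Type*} [DecidableEq ι] {i j : ι} (hij : i ≠ j) (w : Space3) :
    kk i j w j = -w := by
  simp [kk, hij.symm]

theorem kk_other {ι : Type*} [DecidableEq ι] {i j k : ι} (hki : k ≠ i) (hkj : k ≠ j)
    (w : Space3) : kk i j w k = 0 := by
  simp [kk, hki, hkj]

open scoped Classical in
/-- Before the window the candidate is made of free lines. -/
theorem cand_before {ι : Type*} (hΦ : AdmissiblePotential Φ) (hε : 0 < ε) {Z : ι → PhasePoint}
    {i j : ι} (hij : i ≠ j) {a t R : ℝ} (hz : Exi Φ R (ss ε (Z i) (Z j) (t - a)))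
    (hR : R * ε ≤ t - a) {s : ℝ} (hs : s ≤ t - R * ε) (k : ι) :
    cand Φ ε Z i j a s k = fr (Z k) (s - a) := by
  have hpp := pp_before hΦ hε hz hR (t := s - a) (by linarith)
  by_cases h1 : k = i
  · subst h1
    rw [cand_left, hpp]
  · by_cases h2 : k = j
    · subst h2
      rw [cand_right Z hij, hpp]
    · rw [cand_other Z h1 h2]

open scoped Classical in
/-- After the window: exact lines. -/
theorem cand_after {ι : Type*} (hΦ : AdmissiblePotential Φ) (hε : 0 < ε) {Z : ι → PhasePoint}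
    {i j : ι} (hij : i ≠ j) {a t R : ℝ} (hz : Exi Φ R (ss ε (Z i) (Z j) (t - a)))
    (hR : R * ε ≤ t - a) {s : ℝ} (hs : t + R * ε ≤ s) (k : ι) :
    cand Φ ε Z i j a s k =
      ((fr (Z k) (s - a)).1 + (ε • kk i j (K1 Φ R (ss ε (Z i) (Z j) (t - a))) k +
        (s - t) • kk i j (W1 Φ R (ss ε (Z i) (Z j) (t - a))) k),
        (Z k).2 + kk i j (W1 Φ R (ss ε (Z i) (Z j) (t - a))) k) := by
  have hpp := pp_after hΦ hε hz hR (t := s - a) (by linarith)
  have hst : s - a - (t - a) = s - t := by ring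
  rw [hst] at hpp
  by_cases h1 : k = i
  · subst h1
    rw [cand_left, hpp, kk_left, kk_left]
  · by_cases h2 : k = j
    · subst h2
      rw [cand_right Z hij, hpp, kk_right hij, kk_right hij]
      ext1
      · show (fr (Z k) (s - a)).1 - (_ + _) = (fr (Z k) (s - a)).1 + (_ + _)
        rw [smul_neg, smul_neg]
        abel
      · show (Z k).2 - _ = (Z k).2 + -_
        abel
    · rw [cand_other Z h1 h2, kk_other h1 h2, kk_other h1 h2]
      unfold fr
      simp

open scoped Classical in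
/-- **Closeness**: the candidate is within `C ε` of the broken lines. -/
theorem cand_close (hΦ : AdmissiblePotential Φ) {R : ℝ} (hR : 0 ≤ R)
    {z : Space3 × Space3} (hz : Exi Φ R z) :
    ∃ C : ℝ, 0 ≤ C ∧ ∀ (ι : Type) (ε : ℝ), 0 < ε → ∀ (Z : ι → PhasePoint) (i j : ι), i ≠ j →
      ∀ a t : ℝ, ss ε (Z i) (Z j) (t - a) = z → R * ε ≤ t - a → ∀ (s : ℝ) (k : ι),
        ‖(cand Φ ε Z i j a s k).1 - ((fr (Z k) (s - a)).1 + max (s - t) 0 • kk i j (W1 Φ R z) k)‖ ≤
          C * ε ∧ ‖(cand Φ ε Z i j a s k).2 - (Z k).2‖ ≤ C := by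
  obtain ⟨C, hC0, hC⟩ := pp_close hΦ hR hz
  refine ⟨C, hC0, fun ι ε hε Z i j hij a t hss hRt s k => ?_⟩
  have h := hC ε hε (Z i) (Z j) (t - a) hss hRt (s - a)
  have hst : s - a - (t - a) = s - t := by ring
  rw [hst] at h
  by_cases h1 : k = i
  · subst h1
    rw [cand_left, kk_left]
    exact ⟨h.1, h.2.2.1⟩
  · by_cases h2 : k = j
    · subst h2
      rw [cand_right Z hij, kk_right hij, smul_neg, ← sub_eq_add_neg]
      exact ⟨h.2.1, h.2.2.2⟩
    · rw [cand_other Z h1 h2, kk_other h1 h2, smul_zero, add_zero, sub_self, norm_zero]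
      refine ⟨mul_nonneg hC0 hε.le, ?_⟩
      show ‖(Z k).2 - (Z k).2‖ ≤ C
      rw [sub_self, norm_zero]
      exact hC0

/-! ### Contacts -/

/-- Two points moving apart: if the difference of two paths is within `C₁ ε` of
`(s - t) • g` (before `t`) or `(s - t) • g'` (after `t`), `g, g' ≠ 0`, a contact within `C ε` takes
place at a time within `R' ε` of `t`. -/
theorem ct_broken {g g' : Space3} (hg : g ≠ 0) (hg' : g' ≠ 0) (C₁ C : ℝ) :
    ∃ R' : ℝ, ∀ (ε t s : ℝ) (d : Space3), 0 < ε →
      ‖d - ((s - t) • g + max (s - t) 0 • (g' - g))‖ ≤ C₁ * ε → ‖d‖ ≤ C * ε →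
      |s - t| ≤ R' * ε := by
  have h1 : 0 < ‖g‖ := norm_pos_iff.2 hg
  have h2 : 0 < ‖g'‖ := norm_pos_iff.2 hg'
  set m := min ‖g‖ ‖g'‖ with hm
  have hmpos : 0 < m := lt_min h1 h2
  refine ⟨(C₁ + C) / m, fun ε t s d hε hd hdC => ?_⟩
  set v : Space3 := (s - t) • g + max (s - t) 0 • (g' - g) with hv
  have hvn : ‖v‖ ≤ (C₁ + C) * ε := by
    calc ‖v‖ = ‖d - (d - v)‖ := by rw [sub_sub_cancel]
      _ ≤ ‖d‖ + ‖d - v‖ := norm_sub_le _ _
      _ ≤ (C₁ + C) * ε := by linarith
  have hvm : |s - t| * m ≤ ‖v‖ := by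
    rcases le_total s t with h | h
    · have hmax : max (s - t) 0 = 0 := max_eq_right (by linarith)
      rw [hv, hmax, zero_smul, add_zero, norm_smul, Real.norm_eq_abs]
      exact mul_le_mul_of_nonneg_left (min_le_left _ _) (abs_nonneg _)
    · have hmax : max (s - t) 0 = s - t := max_eq_left (by linarith)
      have : v = (s - t) • g' := by rw [hv, hmax]; module
      rw [this, norm_smul, Real.norm_eq_abs]
      exact mul_le_mul_of_nonneg_left (min_le_right _ _) (abs_nonneg _)
  rw [div_mul_eq_mul_div, le_div_iff₀ hmpos]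
  exact hvm.trans hvn

end Crest.Agent.R122.VLcore564
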