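import Crest.Agent.R122.VLnull_564
import Crest.Agent.R122.Rebirth_45

/-!
# Row 122, block VL: deterministic merge step (helper564)

* `pp`: the two-body motion started from two phase points;
* `dc_free`, `dc_pair` (for the flow), `bdc_free`, `bdc_pair` (for worlds with births after the last
  birth): after a merge all paths are free lines, except those of the pair, which follow the two-body
  motion;
* `pp_before`, `pp_after`, `pp_during`: the two-body motion in terms of the scaled state at the grid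
  time of the contact.
-/

set_option autoImplicit false
set_option linter.unusedSectionVars false
open MeasureTheory Metric Set Filter
open scoped ENNReal NNReal Topology
open Crest.AnalysisR.Kinetic

noncomputable section

namespace Crest.Agent.R122.VLcore564

open Scat818 Flow671 Loc45 Ins45

variable {Φ : Space3 → ℝ} {ε : ℝ}

/-- Free motion. -/
def fr (x : PhasePoint) (t : ℝ) : PhasePoint := (x.1 + t • x.2, x.2)

/-- The two-body motion started from the phase points `x`, `y`: states of the two particles at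
time `t`. -/
def pp (Φ : Space3 → ℝ) (ε : ℝ) (x y : PhasePoint) (t : ℝ) : PhasePoint × PhasePoint :=
  (((1 / 2 : ℝ) • (x.1 + y.1) + t • ((1 / 2 : ℝ) • (x.2 + y.2)) +
      (ε / 2) • (relFlow Φ (t / ε) ((1 / ε) • (x.1 - y.1), x.2 - y.2)).1,
    (1 / 2 : ℝ) • (x.2 + y.2) +
      (1 / 2 : ℝ) • (relFlow Φ (t / ε) ((1 / ε) • (x.1 - y.1), x.2 - y.2)).2),
   ((1 / 2 : ℝ) • (x.1 + y.1) + t • ((1 / 2 : ℝ) • (x.2 + y.2)) -
      (ε / 2) • (relFlow Φ (t / ε) ((1 / ε) • (x.1 - y.1), x.2 - y.2)).1,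
    (1 / 2 : ℝ) • (x.2 + y.2) -
      (1 / 2 : ℝ) • (relFlow Φ (t / ε) ((1 / ε) • (x.1 - y.1), x.2 - y.2)).2))

/-! ### Worlds after a merge -/





/-! ### The two-body motion in terms of the scaled state -/

/-- Scaled relative state of the free lines at time `τ`. -/
def ss (ε : ℝ) (x y : PhasePoint) (τ : ℝ) : Space3 × Space3 :=
  ((1 / ε) • ((fr x τ).1 - (fr y τ).1), x.2 - y.2)

/-- Displacement of a particle by the encounter (scaled). -/
def K1 (Φ : Space3 → ℝ) (R : ℝ) (z : Space3 × Space3) : Space3 :=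
  (1 / 2 : ℝ) • ((rel0 Φ R z).1 - R • (rel0 Φ R z).2 - z.1)

theorem ss_back (hε : 0 < ε) (x y : PhasePoint) (τ : ℝ) :
    (((1 / ε) • (x.1 - y.1), x.2 - y.2) : Space3 × Space3) =
      ((ss ε x y τ).1 - (τ / ε) • (ss ε x y τ).2, (ss ε x y τ).2) := by
  have h1 : (1 / ε) • (τ • (x.2 - y.2)) = (τ / ε) • (x.2 - y.2) := by
    rw [smul_smul]; congr 1; ring
  ext1
  · show (1 / ε) • (x.1 - y.1) =
      (1 / ε) • ((x.1 + τ • x.2) - (y.1 + τ • y.2)) - (τ / ε) • (x.2 - y.2)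
    have h2 : (x.1 + τ • x.2) - (y.1 + τ • y.2) = (x.1 - y.1) + τ • (x.2 - y.2) := by module
    rw [h2, smul_add, h1, add_sub_cancel_right]
  · rfl

/-- Before the window the motion is free. -/
theorem pp_before (hΦ : AdmissiblePotential Φ) (hε : 0 < ε) {x y : PhasePoint} {τ R : ℝ}
    (hz : Exi Φ R (ss ε x y τ)) (hRτ : R * ε ≤ τ) {t : ℝ} (ht : t ≤ τ - R * ε) :
    pp Φ ε x y t = (fr x t, fr y t) := by
  set z := ss ε x y τ with hzdef
  have h1 : ((z.1 - (τ / ε) • z.2, z.2) : Space3 × Space3) =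
      relFlow Φ (-(τ / ε - R)) (z.1 - R • z.2, z.2) := by
    rw [relFlow_free_neg hΦ hz.1 hz.2.1 (by
      have : R ≤ τ / ε := by rw [le_div_iff₀ hε]; exact hRτ
      linarith)]
    ext1
    · show z.1 - (τ / ε) • z.2 = z.1 - R • z.2 + (-(τ / ε - R)) • z.2
      module
    · rfl
  have h2 : relFlow Φ (t / ε) ((1 / ε) • (x.1 - y.1), x.2 - y.2) =
      ((1 / ε) • (x.1 - y.1) + (t / ε) • (x.2 - y.2), x.2 - y.2) := by
    rw [ss_back hε x y τ, ← hzdef, h1, ← relFlow_add hΦ,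
      relFlow_free_neg hΦ hz.1 hz.2.1 (by
        have : t / ε ≤ τ / ε - R := by
          rw [div_le_iff₀ hε]
          have : (τ / ε - R) * ε = τ - R * ε := by field_simp
          linarith
        linarith)]
    have h3 := ss_back hε x y τ
    rw [← hzdef] at h3
    have h4 : (1 / ε) • (x.1 - y.1) = z.1 - (τ / ε) • z.2 := congrArg Prod.fst h3
    have h5 : x.2 - y.2 = z.2 := congrArg Prod.snd h3
    rw [h4, h5]
    ext1
    · show z.1 - R • z.2 + (-(τ / ε - R) + t / ε) • z.2 = z.1 - (τ / ε) • z.2 + (t / ε) • z.2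
      module
    · rfl
  have h6 : (ε / 2) • ((1 / ε) • (x.1 - y.1) + (t / ε) • (x.2 - y.2)) =
      (1 / 2 : ℝ) • (x.1 - y.1) + (t / 2) • (x.2 - y.2) := by
    rw [smul_add, smul_smul, smul_smul]
    congr 2
    · field_simp
    · field_simp
  unfold pp
  rw [h2]
  simp only [h6]
  unfold fr
  ext1 <;> ext1
  · show (1 / 2 : ℝ) • (x.1 + y.1) + t • ((1 / 2 : ℝ) • (x.2 + y.2)) +
      ((1 / 2 : ℝ) • (x.1 - y.1) + (t / 2) • (x.2 - y.2)) = x.1 + t • x.2
    module
  · show (1 / 2 : ℝ) • (x.2 + y.2) + (1 / 2 : ℝ) • (x.2 - y.2) = x.2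
    module
  · show (1 / 2 : ℝ) • (x.1 + y.1) + t • ((1 / 2 : ℝ) • (x.2 + y.2)) -
      ((1 / 2 : ℝ) • (x.1 - y.1) + (t / 2) • (x.2 - y.2)) = y.1 + t • y.2
    module
  · show (1 / 2 : ℝ) • (x.2 + y.2) - (1 / 2 : ℝ) • (x.2 - y.2) = y.2
    module

/-- After the window: displacement with respect to the own line. -/
theorem pp_after (hΦ : AdmissiblePotential Φ) (hε : 0 < ε) {x y : PhasePoint} {τ R : ℝ}
    (hz : Exi Φ R (ss ε x y τ)) (hRτ : R * ε ≤ τ) {t : ℝ} (ht : τ + R * ε ≤ t) :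
    pp Φ ε x y t =
      (((fr x t).1 + (ε • K1 Φ R (ss ε x y τ) + (t - τ) • W1 Φ R (ss ε x y τ)),
        x.2 + W1 Φ R (ss ε x y τ)),
       ((fr y t).1 - (ε • K1 Φ R (ss ε x y τ) + (t - τ) • W1 Φ R (ss ε x y τ)),
        y.2 - W1 Φ R (ss ε x y τ))) := by
  set z := ss ε x y τ with hzdef
  have hR : R ≤ τ / ε := by rw [le_div_iff₀ hε]; exact hRτ
  have hr : 0 ≤ t / ε - τ / ε - R := by
    have : τ / ε + R ≤ t / ε := by
      rw [le_div_iff₀ hε]
      have : (τ / ε + R) * ε = τ + R * ε := by field_simp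
      linarith
    linarith
  have h2 : relFlow Φ (t / ε) ((1 / ε) • (x.1 - y.1), x.2 - y.2) =
      ((rel0 Φ R z).1 + (t / ε - τ / ε - R) • (rel0 Φ R z).2, (rel0 Φ R z).2) := by
    have h := rel0_eq hΦ hz hR hr
    rw [ss_back hε x y τ, ← hzdef, ← h]
    congr 1
    ring
  have h5 : x.2 - y.2 = z.2 := rfl
  have h4 : ε • z.1 = (x.1 + τ • x.2) - (y.1 + τ • y.2) := by
    show ε • ((1 / ε) • ((x.1 + τ • x.2) - (y.1 + τ • y.2))) = _
    rw [smul_smul, mul_one_div_cancel hε.ne', one_smul]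
  have h6 : (ε / 2) • ((rel0 Φ R z).1 + (t / ε - τ / ε - R) • (rel0 Φ R z).2) =
      (ε / 2) • ((rel0 Φ R z).1 - R • (rel0 Φ R z).2) + ((t - τ) / 2) • (rel0 Φ R z).2 := by
    rw [smul_add, smul_sub, smul_smul, smul_smul]
    have : ε / 2 * (t / ε - τ / ε - R) = (t - τ) / 2 - ε / 2 * R := by field_simp
    rw [this]
    module
  have h7 : ε • K1 Φ R z = (ε / 2) • ((rel0 Φ R z).1 - R • (rel0 Φ R z).2) - (1 / 2 : ℝ) • (ε • z.1) := by
    unfold K1
    module
  unfold pp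
  rw [h2]
  simp only [h6, h7, h4]
  unfold fr W1
  rw [← h5]
  ext1 <;> ext1
  · show (1 / 2 : ℝ) • (x.1 + y.1) + t • ((1 / 2 : ℝ) • (x.2 + y.2)) +
      ((ε / 2) • ((rel0 Φ R z).1 - R • (rel0 Φ R z).2) + ((t - τ) / 2) • (rel0 Φ R z).2) = _
    module
  · show (1 / 2 : ℝ) • (x.2 + y.2) + (1 / 2 : ℝ) • (rel0 Φ R z).2 = _
    module
  · show (1 / 2 : ℝ) • (x.1 + y.1) + t • ((1 / 2 : ℝ) • (x.2 + y.2)) -
      ((ε / 2) • ((rel0 Φ R z).1 - R • (rel0 Φ R z).2) + ((t - τ) / 2) • (rel0 Φ R z).2) = _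
    module
  · show (1 / 2 : ℝ) • (x.2 + y.2) - (1 / 2 : ℝ) • (rel0 Φ R z).2 = _
    module

end Crest.Agent.R122.VLcore564
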