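import Mathlib
import Crest.Agent.R122.VLLim_581
import Crest.Agent.R122.VLdyn_564
import Crest.Agent.R122.VLdynD_564
import Crest.Agent.R122.VLInstD_442
import Crest.Agent.R122.VLInstA_442
import Crest.Agent.R122.VLInstC_442
import Crest.Agent.R122.VLPlace_399

-- ▼ part R122/VLFar_581
section

/-!
# Row 122, block D3 (helper581): tools for the node step
-/

set_option autoImplicit false

open MeasureTheory Set Filter Topology
open scoped ENNReal NNReal
open Crest.AnalysisR.Kinetic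
open Crest.Agent.R122.Ins45 Crest.Agent.R122.GIV566 Crest.Agent.R122.VLPar823
open Crest.Agent.R122.VLPar823.MTree
open Crest.Agent.R122.VLcore564

noncomputable section

namespace Crest.Agent.R122.VL581

open scoped Classical

/-- Uniformity over finitely many labels. -/
theorem exists_unif {Λ : Type*} [Finite Λ] {Pr : Λ → ℝ → ℕ → Prop}
    (hmono : ∀ l R R' m, R ≤ R' → Pr l R m → Pr l R' m)
    (h : ∀ l, ∃ R, ∀ᶠ m in atTop, Pr l R m) : ∃ R, ∀ᶠ m in atTop, ∀ l, Pr l R m := by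
  have := Fintype.ofFinite Λ
  choose R hR using h
  refine ⟨∑ l, |R l|, ?_⟩
  rw [eventually_all]
  intro l
  filter_upwards [hR l] with m hm
  refine hmono l (R l) _ m ?_ hm
  exact (le_abs_self _).trans (Finset.single_le_sum (f := fun l => |R l|)
    (fun _ _ => abs_nonneg _) (Finset.mem_univ l))

/-- **Far lemma**: two limit curves which do not meet on the active part of a compact set of times
stay at positive distance for the approximations. -/
theorem far {K : Set ℝ} (hK : IsCompact K) {f g : ℝ → Space3} {fm gm : ℕ → ℝ → Space3}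
    (hf : ContinuousOn f K) (hg : ContinuousOn g K) (hfm : TendstoUniformlyOn fm f atTop K)
    (hgm : TendstoUniformlyOn gm g atTop K) {P₁ P₂ : Prop} {b₁ b₂ : ℝ} {bm₁ bm₂ : ℕ → ℝ}
    (h1 : P₁ → Tendsto bm₁ atTop (𝓝 b₁)) (h2 : P₂ → Tendsto bm₂ atTop (𝓝 b₂))
    (hne : ∀ s ∈ K, (P₁ → s ≤ b₁) → (P₂ → s ≤ b₂) → f s ≠ g s) :
    ∃ c > 0, ∀ᶠ m in atTop, ∀ s ∈ K, (P₁ → s ≤ bm₁ m) → (P₂ → s ≤ bm₂ m) →
      c < dist (fm m s) (gm m s) := by
  have key : ∀ S ⊆ K, (∃ c > 0, ∀ᶠ m in atTop, ∀ s ∈ S, (P₁ → s ≤ bm₁ m) → (P₂ → s ≤ bm₂ m) →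
      c < dist (fm m s) (gm m s)) → (∃ c > 0, ∀ᶠ m in atTop, ∀ s ∈ S, (P₁ → s ≤ bm₁ m) →
      (P₂ → s ≤ bm₂ m) → c < dist (fm m s) (gm m s)) := fun _ _ h => h
  -- inactive points
  have inact : ∀ {P : Prop} {b : ℝ} {bm : ℕ → ℝ}, (P → Tendsto bm atTop (𝓝 b)) → ∀ s : ℝ,
      ¬ (P → s ≤ b) → ∃ U ∈ 𝓝 s, ∀ᶠ m in atTop, ∀ u ∈ U, ¬ (P → u ≤ bm m) := by
    intro P b bm hb s hs
    push Not at hs
    obtain ⟨hP, hs⟩ := hs
    refine ⟨Ioi ((b + s) / 2), Ioi_mem_nhds (by linarith), ?_⟩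
    filter_upwards [(hb hP).eventually (gt_mem_nhds (show b < (b + s) / 2 by linarith))]
      with m hm u hu
    push Not
    exact ⟨hP, hm.trans hu⟩
  refine hK.induction_on (p := fun S => ∃ c > 0, ∀ᶠ m in atTop, ∀ s ∈ S, (P₁ → s ≤ bm₁ m) →
      (P₂ → s ≤ bm₂ m) → c < dist (fm m s) (gm m s)) ?_ ?_ ?_ ?_
  · exact ⟨1, one_pos, Eventually.of_forall fun m s hs => absurd hs (notMem_empty s)⟩
  · rintro S S' hSS ⟨c, hc, h⟩
    exact ⟨c, hc, h.mono fun m hm s hs => hm s (hSS hs)⟩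
  · rintro S S' ⟨c, hc, h⟩ ⟨c', hc', h'⟩
    refine ⟨min c c', lt_min hc hc', ?_⟩
    filter_upwards [h, h'] with m hm hm' s hs a1 a2
    rcases hs with hs | hs
    · exact (min_le_left _ _).trans_lt (hm s hs a1 a2)
    · exact (min_le_right _ _).trans_lt (hm' s hs a1 a2)
  · intro s hs
    by_cases ha1 : P₁ → s ≤ b₁
    · by_cases ha2 : P₂ → s ≤ b₂
      · have hd : 0 < dist (f s) (g s) := dist_pos.2 (hne s hs ha1 ha2)
        set c := dist (f s) (g s) / 4 with hc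
        have hc0 : 0 < c := by positivity
        have e1 := (hf s hs).eventually (Metric.ball_mem_nhds _ hc0)
        have e2 := (hg s hs).eventually (Metric.ball_mem_nhds _ hc0)
        refine ⟨{u | f u ∈ Metric.ball (f s) c} ∩ {u | g u ∈ Metric.ball (g s) c} ∩ K,
          inter_mem (inter_mem e1 e2) self_mem_nhdsWithin, c / 2, by positivity, ?_⟩
        have hc2 : 0 < c / 4 := by positivity
        filter_upwards [Metric.tendstoUniformlyOn_iff.1 hfm (c / 4) hc2,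
          Metric.tendstoUniformlyOn_iff.1 hgm (c / 4) hc2] with m h3 h4 u hu _ _
        have h5 : dist (f u) (f s) < c := hu.1.1
        have h6 : dist (g u) (g s) < c := hu.1.2
        have h7 := h3 u hu.2
        have h8 := h4 u hu.2
        have h9 : dist (f s) (g s) ≤ dist (f s) (f u) + dist (f u) (fm m u) +
            dist (fm m u) (gm m u) + dist (gm m u) (g u) + dist (g u) (g s) := by
          calc dist (f s) (g s) ≤ dist (f s) (f u) + dist (f u) (g s) := dist_triangle _ _ _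
            _ ≤ dist (f s) (f u) + (dist (f u) (fm m u) + dist (fm m u) (g s)) := by
                gcongr; exact dist_triangle _ _ _
            _ ≤ dist (f s) (f u) + (dist (f u) (fm m u) + (dist (fm m u) (gm m u) +
                  dist (gm m u) (g s))) := by gcongr; exact dist_triangle _ _ _
            _ ≤ dist (f s) (f u) + (dist (f u) (fm m u) + (dist (fm m u) (gm m u) +
                  (dist (gm m u) (g u) + dist (g u) (g s)))) := by
                gcongr; exact dist_triangle _ _ _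
            _ = _ := by ring
        rw [dist_comm (f s) (f u), dist_comm (gm m u) (g u)] at h9
        have h10 : dist (f s) (g s) = 4 * c := by rw [hc]; ring
        rw [h10] at h9
        linarith
      · obtain ⟨U, hU, h⟩ := inact h2 s ha2
        refine ⟨U, mem_nhdsWithin_of_mem_nhds hU, 1, one_pos, ?_⟩
        filter_upwards [h] with m hm u hu _ a2
        exact absurd a2 (hm u hu)
    · obtain ⟨U, hU, h⟩ := inact h1 s ha1
      refine ⟨U, mem_nhdsWithin_of_mem_nhds hU, 1, one_pos, ?_⟩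
      filter_upwards [h] with m hm u hu a1 _
      exact absurd a1 (hm u hu)

/-! ### Continuity of the limit paths -/

section limit

variable {J κ : Type} [Fintype J] (N : VSys J κ)

theorem continuous_Del : ∀ (τ : MTree J κ) (π : Par τ) (A : Finset J) (p : J),
    Continuous fun s => N.Del τ π A p s
  | leaf _ => fun _ _ _ => continuous_const
  | node A k i B l j P Q => fun π A' p => by
    have hP := continuous_Del P π.2.1 (A' ∩ supp P) p
    have hQ := continuous_Del Q π.2.2 (A' ∩ supp Q) p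
    have e : (fun s => N.Del (node A k i B l j P Q) π A' p s) = fun s =>
        (if p ∈ supp P then N.Del P π.2.1 (A' ∩ supp P) p s
          else N.Del Q π.2.2 (A' ∩ supp Q) p s) +
        if N.mrg A i B j P Q π.1.1 π.2.1 π.2.2 A' then
          (if p = i then max (s - π.1.1) 0 • kick N.Φ π.1.2
            else if p = j then -(max (s - π.1.1) 0 • kick N.Φ π.1.2) else 0)
        else 0 := rfl
    rw [e]
    refine Continuous.add ?_ ?_
    · split_ifs
      · exact hP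
      · exact hQ
    · have hmax : Continuous fun s : ℝ => max (s - π.1.1) 0 • kick N.Φ π.1.2 :=
        ((continuous_id.sub continuous_const).max continuous_const).smul continuous_const
      split_ifs
      · exact hmax
      · exact hmax.neg
      · exact continuous_const
      · exact continuous_const

theorem continuousOn_Gam (hS : ∃ L : ℝ≥0, ∀ i, LipschitzOnWith L (N.S.c i) (Icc 0 N.T))
    (τ : MTree J κ) (π : Par τ) (A : Finset J) (k : κ) (Z : J → PhasePoint) (p : J) :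
    ContinuousOn (fun s => N.Gam τ π A k s Z p) (Icc 0 N.T) := by
  unfold VSys.Gam
  by_cases ho : N.o = some p
  · simp only [ho, if_true]
    obtain ⟨L, hL⟩ := hS
    refine continuousOn_const.add ?_
    refine ContinuousOn.congr (hL k).continuousOn ?_
    intro s hs
    show N.S.c k (max 0 (min s N.T)) = N.S.c k s
    rw [min_eq_left hs.2, max_eq_right hs.1]
  · simp only [ho, if_false]
    have := continuous_Del N τ π A p
    fun_prop

end limit

end Crest.Agent.R122.VL581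
end
end

-- ▼ part R122/VLNodeDefs_581
section

/-!
# Row 122, block D3 (helper581): node step, interface

* `Ctx` : the hypotheses of `NodeStep`.
* `SubW` : description of the paths of the sub-worlds of the union of the two parts.
-/

set_option autoImplicit false
set_option linter.unusedSectionVars false

open MeasureTheory Set Filter Topology
open scoped ENNReal NNReal
open Crest.AnalysisR.Kinetic
open Crest.Agent.R122.Ins45 Crest.Agent.R122.GIV566 Crest.Agent.R122.VLPar823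
open Crest.Agent.R122.VLPar823.MTree
open Crest.Agent.R122.VLcore564

noncomputable section

namespace Crest.Agent.R122.VL581

open scoped Classical

/-- Context of the node step. -/
structure Ctx {J κ : Type} [Fintype J] (M : ℕ → VSys J κ) (N : VSys J κ) (Bd : Set ℝ)
    (A : Finset J) (k : κ) (i : J) (B : Finset J) (l : κ) (j : J) (P Q : MTree J κ) (t : ℝ)
    (ζ : Space3 × Space3) (πP : Par P) (πQ : Par Q) (Z : ℕ → J → PhasePoint)
    (Zl : J → PhasePoint) : Prop where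
  H : Hyp M N Bd
  wf : WF N.o (node A k i B l j P Q)
  t0 : 0 < t
  tT : t < N.T
  ac : N.act k i t
  oP : Ord P t πP
  oQ : Ord Q t πQ
  G : N.GenNode Bd A k i B l j P Q t ζ πP πQ Zl
  iP : InvC M N P πP Z Zl
  iQ : InvC M N Q πQ Z Zl
  cP : Coinc N P πP Zl
  cQ : Coinc N Q πQ Zl
  rel : ∀ᶠ m in atTop, ph (M m) A k t (Z m) i - ph (M m) B l t (Z m) j = ((M m).ε • ζ.1, ζ.2)

/-- Displacement of a particle by the encounter (scaled). -/
def kick1 (Φ : Space3 → ℝ) (z : Space3 × Space3) : Space3 := (1 / 2 : ℝ) • (qout Φ z - z.1)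

/-- The paths of the sub-worlds of the union. -/
structure SubW {J κ : Type} [Fintype J] (M : ℕ → VSys J κ) (N : VSys J κ)
    (A : Finset J) (i : J) (B : Finset J) (j : J) (P Q : MTree J κ) (t : ℝ)
    (ζ : Space3 × Space3) (πP : Par P) (πQ : Par Q) (Z : ℕ → J → PhasePoint) : Prop where
  old : ∀ᶠ m in atTop, ∀ A' ⊆ supp P ∪ supp Q, ¬ N.mrg A i B j P Q t πP πQ A' →
    (M m).ok A' N.T (Z m) ∧ ∀ s ∈ Icc 0 N.T,
      (∀ p ∈ A' ∩ supp P, (M m).st A' s (Z m) p = (M m).st (A' ∩ supp P) s (Z m) p) ∧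
      (∀ q ∈ A' ∩ supp Q, (M m).st A' s (Z m) q = (M m).st (A' ∩ supp Q) s (Z m) q)
  new : ∃ R K : ℝ, 0 ≤ R ∧ 0 ≤ K ∧ ∀ᶠ m in atTop, ∀ A' ⊆ supp P ∪ supp Q,
    N.mrg A i B j P Q t πP πQ A' →
    (M m).ok A' N.T (Z m) ∧ ∀ s ∈ Icc 0 N.T,
      (∀ p ∈ A' ∩ supp P, p ≠ i →
        (M m).st A' s (Z m) p = (M m).st (A' ∩ supp P) s (Z m) p) ∧
      (∀ q ∈ A' ∩ supp Q, q ≠ j →
        (M m).st A' s (Z m) q = (M m).st (A' ∩ supp Q) s (Z m) q) ∧
      (s ≤ t - R * (M m).ε →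
        (M m).st A' s (Z m) i = (M m).st (A' ∩ supp P) s (Z m) i ∧
        (M m).st A' s (Z m) j = (M m).st (A' ∩ supp Q) s (Z m) j) ∧
      (t + R * (M m).ε ≤ s →
        (M m).st A' s (Z m) i = (((M m).st (A' ∩ supp P) s (Z m) i).1 +
          ((M m).ε • kick1 N.Φ ζ + (s - t) • kick N.Φ ζ),
          ((M m).st (A' ∩ supp P) s (Z m) i).2 + kick N.Φ ζ) ∧
        (M m).st A' s (Z m) j = (((M m).st (A' ∩ supp Q) s (Z m) j).1 -
          ((M m).ε • kick1 N.Φ ζ + (s - t) • kick N.Φ ζ),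
          ((M m).st (A' ∩ supp Q) s (Z m) j).2 - kick N.Φ ζ)) ∧
      ‖((M m).st A' s (Z m) i).1 - (((M m).st (A' ∩ supp P) s (Z m) i).1 +
        max (s - t) 0 • kick N.Φ ζ)‖ ≤ K * (M m).ε ∧
      ‖((M m).st A' s (Z m) j).1 - (((M m).st (A' ∩ supp Q) s (Z m) j).1 -
        max (s - t) 0 • kick N.Φ ζ)‖ ≤ K * (M m).ε

/-! ### Times -/

section times

variable {J κ : Type}

theorem tlast_lt : ∀ (τ : MTree J κ) (π : Par τ) {t : ℝ}, 0 < t → Ord τ t π → tlast τ π < t
  | leaf _, _, _ => fun h _ => by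
    show (-1 : ℝ) < _
    linarith
  | node _ _ _ _ _ _ _ _, _, _ => fun _ h => h.2.1

theorem edg_sub {o : Option J} : ∀ (τ : MTree J κ), WF o τ → ∀ e ∈ edg τ,
    e.1 ∈ supp τ ∧ e.2 ∈ supp τ
  | leaf _ => fun _ e he => absurd he (Finset.notMem_empty e)
  | node A k i B l j P Q => fun h e he => by
    have he' : e = (i, j) ∨ e ∈ edg P ∨ e ∈ edg Q := by
      simpa [edg] using he
    show e.1 ∈ supp P ∪ supp Q ∧ e.2 ∈ supp P ∪ supp Q
    rw [Finset.mem_union, Finset.mem_union]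
    obtain ⟨hd, hA, hB, hi, hj, -, hP, hQ⟩ := h
    rcases he' with rfl | he' | he'
    · exact ⟨Or.inl (hA hi), Or.inr (hB hj)⟩
    · have := edg_sub P hP e he'
      exact ⟨Or.inl this.1, Or.inl this.2⟩
    · have := edg_sub Q hQ e he'
      exact ⟨Or.inr this.1, Or.inr this.2⟩

theorem sig_node {A : Finset J} {k : κ} {i : J} {B : Finset J} {l : κ} {j : J} {P Q : MTree J κ}
    (π : Par (node A k i B l j P Q)) (e : J × J) :
    sig (node A k i B l j P Q) π e = if e = (i, j) then π.1.1 else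
      if e.1 ∈ supp P then sig P π.2.1 e else sig Q π.2.2 e := rfl

theorem sig_left {o : Option J} {A : Finset J} {k : κ} {i : J} {B : Finset J} {l : κ} {j : J}
    {P Q : MTree J κ} (h : WF o (node A k i B l j P Q)) (π : Par (node A k i B l j P Q))
    {e : J × J} (he : e ∈ edg P) : sig (node A k i B l j P Q) π e = sig P π.2.1 e := by
  obtain ⟨hd, hA, hB, hi, hj, -, hP, hQ⟩ := h
  have he' := edg_sub P hP e he
  have hne : e ≠ (i, j) := by
    rintro rfl
    exact Finset.disjoint_left.1 hd he'.2 (hB hj)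
  rw [sig_node, if_neg hne, if_pos he'.1]

theorem sig_right {o : Option J} {A : Finset J} {k : κ} {i : J} {B : Finset J} {l : κ} {j : J}
    {P Q : MTree J κ} (h : WF o (node A k i B l j P Q)) (π : Par (node A k i B l j P Q))
    {e : J × J} (he : e ∈ edg Q) : sig (node A k i B l j P Q) π e = sig Q π.2.2 e := by
  obtain ⟨hd, hA, hB, hi, hj, -, hP, hQ⟩ := h
  have he' := edg_sub Q hQ e he
  have hne : e ≠ (i, j) := by
    rintro rfl
    exact Finset.disjoint_left.1 hd (hA hi) he'.1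
  rw [sig_node, if_neg hne, if_neg (Finset.disjoint_right.1 hd he'.1)]

theorem sig_le {o : Option J} : ∀ (τ : MTree J κ) (π : Par τ) {t : ℝ}, WF o τ → Ord τ t π →
    ∀ e ∈ edg τ, 0 < sig τ π e ∧ sig τ π e ≤ tlast τ π
  | leaf _, _, _ => fun _ _ e he => absurd he (Finset.notMem_empty e)
  | node A k i B l j P Q, π, t => fun h ho e he => by
    have he' : e = (i, j) ∨ e ∈ edg P ∨ e ∈ edg Q := by
      simpa [edg] using he
    rcases he' with rfl | he' | he'
    · rw [sig_node, if_pos rfl]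
      exact ⟨ho.1, le_rfl⟩
    · rw [sig_left h π he']
      have := sig_le P π.2.1 h.2.2.2.2.2.2.1 ho.2.2.1 e he'
      exact ⟨this.1, this.2.trans (tlast_lt P π.2.1 ho.1 ho.2.2.1).le⟩
    · rw [sig_right h π he']
      have := sig_le Q π.2.2 h.2.2.2.2.2.2.2 ho.2.2.2 e he'
      exact ⟨this.1, this.2.trans (tlast_lt Q π.2.2 ho.1 ho.2.2.2).le⟩


end times

namespace VSys

variable {J κ : Type} [Fintype J] (N : VSys J κ)

theorem D_node {A : Finset J} {k : κ} {i : J} {B : Finset J} {l : κ} {j : J} {P Q : MTree J κ}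
    (π : Par (node A k i B l j P Q)) (A' : Finset J) (p : J) :
    N.D (node A k i B l j P Q) π A' p =
      (if p ∈ supp P then N.D P π.2.1 (A' ∩ supp P) p else N.D Q π.2.2 (A' ∩ supp Q) p) +
      if N.mrg A i B j P Q π.1.1 π.2.1 π.2.2 A' then
        (if p = i then (-(π.1.1 • kick N.Φ π.1.2), kick N.Φ π.1.2)
          else if p = j then (π.1.1 • kick N.Φ π.1.2, -kick N.Φ π.1.2) else 0)
      else 0 := by
  by_cases h : N.mrg A i B j P Q π.1.1 π.2.1 π.2.2 A'
  · rw [if_pos h]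
    exact congrArg (fun x => (if p ∈ supp P then N.D P π.2.1 (A' ∩ supp P) p
      else N.D Q π.2.2 (A' ∩ supp Q) p) + x) (if_pos h)
  · rw [if_neg h]
    exact congrArg (fun x => (if p ∈ supp P then N.D P π.2.1 (A' ∩ supp P) p
      else N.D Q π.2.2 (A' ∩ supp Q) p) + x) (if_neg h)

theorem Del_node {A : Finset J} {k : κ} {i : J} {B : Finset J} {l : κ} {j : J} {P Q : MTree J κ}
    (π : Par (node A k i B l j P Q)) (A' : Finset J) (p : J) (s : ℝ) :
    N.Del (node A k i B l j P Q) π A' p s =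
      (if p ∈ supp P then N.Del P π.2.1 (A' ∩ supp P) p s else N.Del Q π.2.2 (A' ∩ supp Q) p s) +
      if N.mrg A i B j P Q π.1.1 π.2.1 π.2.2 A' then
        (if p = i then max (s - π.1.1) 0 • kick N.Φ π.1.2
          else if p = j then -(max (s - π.1.1) 0 • kick N.Φ π.1.2) else 0)
      else 0 := rfl

/-- After the last merge the displacement is affine. -/
theorem Del_eq : ∀ (τ : MTree J κ) (π : Par τ) {t : ℝ}, 0 < t → Ord τ t π → ∀ (A' : Finset J)
    (p : J) (s : ℝ), tlast τ π ≤ s → N.Del τ π A' p s = (N.D τ π A' p).1 + s • (N.D τ π A' p).2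
  | leaf _, _, _ => fun _ _ A' p s _ => by
    show (0 : Space3) = (0 : PhasePoint).1 + s • (0 : PhasePoint).2
    simp
  | node A k i B l j P Q, π, t => fun ht ho A' p s hs => by
    have hs' : π.1.1 ≤ s := hs
    have hP := Del_eq P π.2.1 ho.1 ho.2.2.1 (A' ∩ supp P) p s
      ((tlast_lt P π.2.1 ho.1 ho.2.2.1).le.trans hs')
    have hQ := Del_eq Q π.2.2 ho.1 ho.2.2.2 (A' ∩ supp Q) p s
      ((tlast_lt Q π.2.2 ho.1 ho.2.2.2).le.trans hs')
    rw [Del_node, D_node, hP, hQ, max_eq_left (sub_nonneg.2 hs')]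
    split_ifs <;> simp only [Prod.fst_add, Prod.snd_add, Prod.fst_zero, Prod.snd_zero] <;> module

end VSys

end Crest.Agent.R122.VL581
end
end

-- ▼ part R122/VLNode1_581
section

/-!
# Row 122, block D3 (helper581): node step, part 1 (window, unmixed cross contacts)
-/

set_option autoImplicit false
set_option linter.unusedSectionVars false

open MeasureTheory Set Filter Topology
open scoped ENNReal NNReal
open Crest.AnalysisR.Kinetic
open Crest.Agent.R122.Ins45 Crest.Agent.R122.GIV566 Crest.Agent.R122.VLPar823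
open Crest.Agent.R122.VLPar823.MTree
open Crest.Agent.R122.VLcore564

noncomputable section

namespace Crest.Agent.R122.VL581

open scoped Classical

/-- `far` with a multiple of `ε`. -/
theorem farε {K : Set ℝ} (hK : IsCompact K) {f g : ℝ → Space3} {fm gm : ℕ → ℝ → Space3}
    (hf : ContinuousOn f K) (hg : ContinuousOn g K) (hfm : TendstoUniformlyOn fm f atTop K)
    (hgm : TendstoUniformlyOn gm g atTop K) {P₁ P₂ : Prop} {b₁ b₂ : ℝ} {bm₁ bm₂ : ℕ → ℝ}
    (h1 : P₁ → Tendsto bm₁ atTop (𝓝 b₁)) (h2 : P₂ → Tendsto bm₂ atTop (𝓝 b₂))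
    (hne : ∀ s ∈ K, (P₁ → s ≤ b₁) → (P₂ → s ≤ b₂) → f s ≠ g s) {ε : ℕ → ℝ}
    (hε : Tendsto ε atTop (𝓝 0)) (C : ℝ) :
    ∀ᶠ m in atTop, ∀ s ∈ K, (P₁ → s ≤ bm₁ m) → (P₂ → s ≤ bm₂ m) →
      C * ε m < dist (fm m s) (gm m s) := by
  obtain ⟨c, hc, h⟩ := far hK hf hg hfm hgm h1 h2 hne
  have h3 : Tendsto (fun m => C * ε m) atTop (𝓝 0) := by
    simpa using hε.const_mul C
  filter_upwards [h, h3.eventually (gt_mem_nhds hc)] with m hm hm' s hs a1 a2
  exact hm'.trans (hm s hs a1 a2)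

/-- A curve with constant derivative is affine. -/
theorem affine_of_hasDerivAt {c : ℝ → Space3} {v : Space3} {a b : ℝ}
    (h : ∀ u ∈ Icc a b, HasDerivAt c v u) {s u : ℝ} (hs : s ∈ Icc a b) (hu : u ∈ Icc a b) :
    c s = c u + (s - u) • v := by
  have h1 : ∀ x ∈ Icc a b, c x - x • v = c a - a • v := by
    refine constant_of_has_deriv_right_zero (f := fun x => c x - x • v) ?_ ?_
    · intro x hx
      exact ((h x hx).continuousAt.sub (by fun_prop)).continuousWithinAt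
    · intro x hx
      have h2 : HasDerivAt (fun x : ℝ => x • v) ((1 : ℝ) • v) x :=
        (hasDerivAt_id x).smul_const v
      have h3 := (h x ⟨hx.1, hx.2.le⟩).sub h2
      rw [one_smul, sub_self] at h3
      exact h3.hasDerivWithinAt
  have h2 := h1 s hs
  rw [← h1 u hu] at h2
  have h3 : c s = c u - u • v + s • v := by rw [← h2]; abel
  rw [h3]
  module

/-- A norm bound gives a time bound. -/
theorem time_of_norm {ξ V : Space3} (hV : V ≠ 0) {ε C x : ℝ} (hε : 0 < ε)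
    (h : ‖ε • ξ + x • V‖ ≤ C * ε) : |x| ≤ (C + ‖ξ‖) / ‖V‖ * ε := by
  have hV' : 0 < ‖V‖ := norm_pos_iff.2 hV
  have h1 : ‖x • V‖ ≤ ‖ε • ξ + x • V‖ + ‖ε • ξ‖ := by
    have : x • V = (ε • ξ + x • V) - ε • ξ := by abel
    calc ‖x • V‖ = ‖(ε • ξ + x • V) - ε • ξ‖ := by rw [← this]
      _ ≤ _ := norm_sub_le _ _
  rw [norm_smul, norm_smul, Real.norm_eq_abs, Real.norm_eq_abs, abs_of_pos hε] at h1
  rw [div_mul_eq_mul_div, le_div_iff₀ hV']
  nlinarith

section ctx

variable {J κ : Type} [Fintype J] [Fintype κ] {M : ℕ → VSys J κ} {N : VSys J κ} {Bd : Set ℝ}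
  {A : Finset J} {k : κ} {i : J} {B : Finset J} {l : κ} {j : J} {P Q : MTree J κ} {t : ℝ}
  {ζ : Space3 × Space3} {πP : Par P} {πQ : Par Q} {Z : ℕ → J → PhasePoint} {Zl : J → PhasePoint}

theorem Hyp.lipS (H : Hyp M N Bd) : ∃ L : ℝ≥0, ∀ i, LipschitzOnWith L (N.S.c i) (Icc 0 N.T) :=
  ⟨H.tubes.lip.choose, H.tubes.lip.choose_spec.2⟩

theorem Hyp.epos (H : Hyp M N Bd) (m : ℕ) : 0 < (M m).ε := (H.eq m).2.2.2

theorem Hyp.ho (H : Hyp M N Bd) (m : ℕ) : (M m).o = N.o := (H.eq m).2.2.1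

theorem Hyp.hT (H : Hyp M N Bd) (m : ℕ) : (M m).T = N.T := (H.eq m).2.1

theorem Hyp.hΦ (H : Hyp M N Bd) (m : ℕ) : (M m).Φ = N.Φ := (H.eq m).1

theorem Hyp.bb (H : Hyp M N Bd) (p : J) : Tendsto (fun m => (M m).bb p) atTop (𝓝 (N.bb p)) :=
  (H.births p).max tendsto_const_nhds

/-- `R ε → 0`. -/
theorem Hyp.ev_lt (H : Hyp M N Bd) (R : ℝ) {x : ℝ} (hx : 0 < x) :
    ∀ᶠ m in atTop, R * (M m).ε < x := by
  have h3 : Tendsto (fun m => R * (M m).ε) atTop (𝓝 0) := by
    simpa using H.eps.const_mul R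
  exact h3.eventually (gt_mem_nhds hx)

theorem pos_particle {M : VSys J κ} {A : Finset J} {k : κ} {s : ℝ} {Z : J → PhasePoint} {p : J}
    (h : M.o ≠ some p) : M.pos A k s Z p = (M.st A s Z p).1 := by
  unfold VSys.pos
  rw [if_neg h]

theorem pos_tube {M : VSys J κ} {A : Finset J} {k : κ} {s : ℝ} {Z : J → PhasePoint} {p : J}
    (h : M.o = some p) (h0 : 0 ≤ s) (hT : s ≤ M.T) :
    M.pos A k s Z p = (Z p).1 + M.S.c k s := by
  unfold VSys.pos
  rw [if_pos h, min_eq_left hT, max_eq_right h0]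

theorem Gam_particle {τ : MTree J κ} {π : Par τ} {A : Finset J} {k : κ} {s : ℝ}
    {Z : J → PhasePoint} {p : J} (h : N.o ≠ some p) :
    N.Gam τ π A k s Z p = (Z p).1 + s • (Z p).2 + N.Del τ π A p s := by
  unfold VSys.Gam
  rw [if_neg h]

/-- Far lemma for two labels of subtrees, one time set. -/
theorem far_labels (H : Hyp M N Bd) {τ τ' : MTree J κ} {π : Par τ} {π' : Par τ'}
    (hI : InvC M N τ π Z Zl) (hI' : InvC M N τ' π' Z Zl) {K : Set ℝ} (hK : IsCompact K)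
    (hKT : K ⊆ Icc 0 N.T) {A' B' : Finset J} (hA : A' ⊆ supp τ) (hB : B' ⊆ supp τ') {k' l' : κ}
    {p q : J} (hp : p ∈ A') (hq : q ∈ B') {f g : ℝ → Space3} (hf : Continuous f)
    (hg : Continuous g)
    (hne : ∀ s ∈ K, N.act k' p s → N.act l' q s →
      N.Gam τ π A' k' s Zl p + f s ≠ N.Gam τ' π' B' l' s Zl q + g s) (C : ℝ) :
    ∀ᶠ m in atTop, ∀ s ∈ K, (M m).act k' p s → (M m).act l' q s →
      C * (M m).ε < dist ((M m).pos A' k' s (Z m) p + f s) ((M m).pos B' l' s (Z m) q + g s) := by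
  have h1 := (hI.conv A' hA k' p hp).mono hKT
  have h2 := (hI'.conv B' hB l' q hq).mono hKT
  have hcf : TendstoUniformlyOn (fun (_ : ℕ) s => f s) f atTop K :=
    Metric.tendstoUniformlyOn_iff.2 fun e he => Eventually.of_forall fun n x _ => by
      rw [dist_self]; exact he
  have hcg : TendstoUniformlyOn (fun (_ : ℕ) s => g s) g atTop K :=
    Metric.tendstoUniformlyOn_iff.2 fun e he => Eventually.of_forall fun n x _ => by
      rw [dist_self]; exact he
  have h3 := farε hK (((continuousOn_Gam N H.lipS τ π A' k' Zl p).mono hKT).add hf.continuousOn)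
    (((continuousOn_Gam N H.lipS τ' π' B' l' Zl q).mono hKT).add hg.continuousOn)
    (h1.add hcf) (h2.add hcg) (P₁ := N.o = some p) (P₂ := N.o = some q)
    (fun _ => H.tubes.active k') (fun _ => H.tubes.active l') hne H.eps C
  filter_upwards [h3] with m hm s hs a1 a2
  exact hm s hs (fun h => a1 (by rw [H.ho]; exact h)) (fun h => a2 (by rw [H.ho]; exact h))

/-- The window. -/
structure Win (M : ℕ → VSys J κ) (N : VSys J κ) (A : Finset J) (k : κ) (i : J) (B : Finset J)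
    (l : κ) (j : J) (P Q : MTree J κ) (t : ℝ) (ζ : Space3 × Space3) (πP : Par P) (πQ : Par Q)
    (Z : ℕ → J → PhasePoint) (δ : ℝ) (V : Space3) : Prop where
  pos : 0 < δ
  t0 : 0 < t - δ
  tT : t + δ < N.T
  lP : tlast P πP < t - δ
  lQ : tlast Q πQ < t - δ
  bb : ∀ p, N.bb p < t - δ ∨ t + δ < N.bb p
  V0 : V ≠ 0
  VV : N.o ≠ some i → V = ζ.2
  act : N.o = some i → t + δ < N.S.b k
  diff : ∀ᶠ m in atTop, ∀ s ∈ Icc (t - δ) (t + δ),
    (M m).pos A k s (Z m) i - (M m).pos B l s (Z m) j = (M m).ε • ζ.1 + (s - t) • V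
  diff' : N.o ≠ some i → ∀ᶠ m in atTop, ∀ s ∈ Icc (t - δ) N.T,
    ((M m).st A s (Z m) i).1 - ((M m).st B s (Z m) j).1 = (M m).ε • ζ.1 + (s - t) • V

variable (c : Ctx M N Bd A k i B l j P Q t ζ πP πQ Z Zl)
include c

theorem Ctx.hij : i ≠ j := by
  rintro rfl
  exact Finset.disjoint_left.1 c.wf.1 (c.wf.2.1 c.wf.2.2.2.1) (c.wf.2.2.1 c.wf.2.2.2.2.1)

theorem Ctx.hiP : i ∈ supp P := c.wf.2.1 c.wf.2.2.2.1

theorem Ctx.hjQ : j ∈ supp Q := c.wf.2.2.1 c.wf.2.2.2.2.1

theorem Ctx.hoQ {q : J} (hq : q ∈ supp Q) : N.o ≠ some q := c.wf.2.2.2.2.2.1 q hq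

/-- Lines after a time beyond the last merge, left part. -/
theorem Ctx.lineP {a : ℝ} (ha : tlast P πP < a) : ∀ᶠ m in atTop, ∀ A' ⊆ supp P, ∀ p ∈ A',
    N.o ≠ some p → ∀ s ∈ Icc a N.T, (M m).st A' s (Z m) p =
      (((M m).st A' N.T (Z m) p).1 - (N.T - s) • ((Zl p).2 + (N.D P πP A' p).2),
        (Zl p).2 + (N.D P πP A' p).2) := by
  obtain ⟨R, hR⟩ := c.iP.line
  filter_upwards [hR, c.H.ev_lt R (sub_pos.2 ha)] with m hm hm' A' hA' p hp ho s hs
  exact hm A' hA' p hp ho s ⟨by linarith [hs.1], hs.2⟩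

theorem Ctx.lineQ {a : ℝ} (ha : tlast Q πQ < a) : ∀ᶠ m in atTop, ∀ A' ⊆ supp Q, ∀ p ∈ A',
    N.o ≠ some p → ∀ s ∈ Icc a N.T, (M m).st A' s (Z m) p =
      (((M m).st A' N.T (Z m) p).1 - (N.T - s) • ((Zl p).2 + (N.D Q πQ A' p).2),
        (Zl p).2 + (N.D Q πQ A' p).2) := by
  obtain ⟨R, hR⟩ := c.iQ.line
  filter_upwards [hR, c.H.ev_lt R (sub_pos.2 ha)] with m hm hm' A' hA' p hp ho s hs
  exact hm A' hA' p hp ho s ⟨by linarith [hs.1], hs.2⟩

theorem Ctx.eqvP {a : ℝ} (ha : tlast P πP < a) : ∀ᶠ m in atTop, ∀ A' ⊆ supp P, ∀ A'' ⊆ supp P,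
    ∀ p ∈ A', p ∈ A'' → N.o ≠ some p → N.D P πP A' p = N.D P πP A'' p → ∀ s ∈ Icc a N.T,
      (M m).st A' s (Z m) p = (M m).st A'' s (Z m) p := by
  obtain ⟨R, hR⟩ := c.iP.eqv
  filter_upwards [hR, c.H.ev_lt R (sub_pos.2 ha)] with m hm hm' A' hA' A'' hA'' p hp hp' ho hD s hs
  exact hm A' hA' A'' hA'' p hp hp' ho hD s ⟨by linarith [hs.1], hs.2⟩

theorem Ctx.eqvQ {a : ℝ} (ha : tlast Q πQ < a) : ∀ᶠ m in atTop, ∀ A' ⊆ supp Q, ∀ A'' ⊆ supp Q,
    ∀ p ∈ A', p ∈ A'' → N.o ≠ some p → N.D Q πQ A' p = N.D Q πQ A'' p → ∀ s ∈ Icc a N.T,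
      (M m).st A' s (Z m) p = (M m).st A'' s (Z m) p := by
  obtain ⟨R, hR⟩ := c.iQ.eqv
  filter_upwards [hR, c.H.ev_lt R (sub_pos.2 ha)] with m hm hm' A' hA' A'' hA'' p hp hp' ho hD s hs
  exact hm A' hA' A'' hA'' p hp hp' ho hD s ⟨by linarith [hs.1], hs.2⟩

/-- Existence of the window. -/
theorem Ctx.exists_win : ∃ δ V, Win M N A k i B l j P Q t ζ πP πQ Z δ V := by
  have hlP := tlast_lt P πP c.t0 c.oP
  have hlQ := tlast_lt Q πQ c.t0 c.oQ
  have hoj : N.o ≠ some j := c.hoQ c.hjQ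
  -- the time interval
  have ev : ∀ᶠ δ in 𝓝[>] (0 : ℝ), 0 < δ ∧ 0 < t - δ ∧ t + δ < N.T ∧ tlast P πP < t - δ ∧
      tlast Q πQ < t - δ ∧ (∀ p, N.bb p < t - δ ∨ t + δ < N.bb p) ∧
      (N.o = some i → t + δ < N.S.b k) := by
    have hc1 : Tendsto (fun δ : ℝ => t - δ) (𝓝[>] 0) (𝓝 t) := by
      have : Tendsto (fun δ : ℝ => t - δ) (𝓝 0) (𝓝 (t - 0)) :=
        (continuous_const.sub continuous_id).tendsto 0
      rw [sub_zero] at this
      exact this.mono_left nhdsWithin_le_nhds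
    have hc2 : Tendsto (fun δ : ℝ => t + δ) (𝓝[>] 0) (𝓝 t) := by
      have : Tendsto (fun δ : ℝ => t + δ) (𝓝 0) (𝓝 (t + 0)) :=
        (continuous_const.add continuous_id).tendsto 0
      rw [add_zero] at this
      exact this.mono_left nhdsWithin_le_nhds
    refine Filter.Eventually.and
      (show ∀ᶠ δ in 𝓝[>] (0 : ℝ), 0 < δ from self_mem_nhdsWithin) ?_
    refine (hc1.eventually (lt_mem_nhds c.t0)).and ?_
    refine (hc2.eventually (gt_mem_nhds c.tT)).and ?_
    refine (hc1.eventually (lt_mem_nhds hlP)).and ?_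
    refine (hc1.eventually (lt_mem_nhds hlQ)).and ?_
    refine Eventually.and ?_ ?_
    · rw [eventually_all]
      intro p
      rcases lt_or_gt_of_ne (c.G.tbb p) with h | h
      · exact (hc2.eventually (gt_mem_nhds h)).mono fun _ h => Or.inr h
      · exact (hc1.eventually (lt_mem_nhds h)).mono fun _ h => Or.inl h
    · by_cases ho : N.o = some i
      · have h1 : t < N.S.b k := lt_of_le_of_ne (c.ac ho) (c.G.tSb k)
        exact (hc2.eventually (gt_mem_nhds h1)).mono fun _ h _ => h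
      · exact Eventually.of_forall fun _ h => absurd h ho
  by_cases ho : N.o = some i
  · -- tube
    have h1 : t < N.S.b k := lt_of_le_of_ne (c.ac ho) (c.G.tSb k)
    obtain ⟨v, U, hU, hv, hvm⟩ := c.H.vel t ⟨c.t0, c.tT⟩ c.G.tBd k h1
    have hV : ζ.2 + v ≠ 0 := c.G.N4t ho v (hv t (mem_of_mem_nhds hU))
    have ev2 : ∀ᶠ δ in 𝓝[>] (0 : ℝ), Icc (t - δ) (t + δ) ⊆ U := by
      obtain ⟨r, hr, hrU⟩ := Metric.mem_nhds_iff.1 hU
      have : Iio r ∈ 𝓝[>] (0 : ℝ) := mem_nhdsWithin_of_mem_nhds (Iio_mem_nhds hr)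
      filter_upwards [this, self_mem_nhdsWithin] with δ hδ hδ0 s hs
      refine hrU ?_
      rw [Metric.mem_ball, Real.dist_eq, abs_lt]
      have hδ' : δ < r := hδ
      exact ⟨by linarith [hs.1], by linarith [hs.2]⟩
    obtain ⟨δ, ⟨d1, d2, d3, d4, d5, d6, d7⟩, hδU⟩ := (ev.and ev2).exists
    refine ⟨δ, ζ.2 + v, d1, d2, d3, d4, d5, d6, hV, fun h => absurd ho h, d7, ?_,
      fun h => absurd ho h⟩
    filter_upwards [hvm, c.rel, c.lineQ d5] with m hvm hrel hline s hs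
    have hoi : (M m).o = some i := by rw [c.H.ho]; exact ho
    have hoj' : (M m).o ≠ some j := by rw [c.H.ho]; exact hoj
    have hts : t ∈ Icc (t - δ) (t + δ) := ⟨by linarith, by linarith⟩
    have hsT : s ≤ N.T := by linarith [hs.2]
    have e1 : (M m).pos A k s (Z m) i = (M m).pos A k t (Z m) i + (s - t) • v := by
      rw [pos_tube hoi (by linarith [hs.1]) (by rw [c.H.hT]; exact hsT),
        pos_tube hoi c.t0.le (by rw [c.H.hT]; exact c.tT.le),
        affine_of_hasDerivAt (fun u hu => hvm u (hδU hu)) hs hts, add_assoc]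
    have l1 := hline B c.wf.2.2.1 j c.wf.2.2.2.2.1 hoj s ⟨hs.1, hsT⟩
    have l2 := hline B c.wf.2.2.1 j c.wf.2.2.2.2.1 hoj t ⟨hts.1, c.tT.le⟩
    have r1 := congrArg Prod.fst hrel
    have r2 := congrArg Prod.snd hrel
    simp only [ph, Prod.fst_sub, Prod.snd_sub, if_pos hoi, if_neg hoj', zero_sub] at r1 r2
    rw [e1, pos_particle hoj', l1]
    rw [pos_particle hoj', l2] at r1
    rw [l2] at r2
    simp only at r1 r2 ⊢
    rw [← r2, ← r1]
    module
  · obtain ⟨δ, ⟨d1, d2, d3, d4, d5, d6, d7⟩⟩ := ev.exists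
    have key : ∀ᶠ m in atTop, ∀ s ∈ Icc (t - δ) N.T,
        ((M m).st A s (Z m) i).1 - ((M m).st B s (Z m) j).1 = (M m).ε • ζ.1 + (s - t) • ζ.2 := by
      filter_upwards [c.rel, c.lineP d4, c.lineQ d5] with m hrel hlP hlQ s hs
      have hoi : (M m).o ≠ some i := by rw [c.H.ho]; exact ho
      have hoj' : (M m).o ≠ some j := by rw [c.H.ho]; exact hoj
      have l1 := hlQ B c.wf.2.2.1 j c.wf.2.2.2.2.1 hoj s hs
      have l2 := hlQ B c.wf.2.2.1 j c.wf.2.2.2.2.1 hoj t ⟨by linarith, c.tT.le⟩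
      have l3 := hlP A c.wf.2.1 i c.wf.2.2.2.1 ho s hs
      have l4 := hlP A c.wf.2.1 i c.wf.2.2.2.1 ho t ⟨by linarith, c.tT.le⟩
      have r1 := congrArg Prod.fst hrel
      have r2 := congrArg Prod.snd hrel
      simp only [ph, Prod.fst_sub, Prod.snd_sub, if_neg hoi, if_neg hoj'] at r1 r2
      rw [pos_particle hoj', pos_particle hoi, l2, l4] at r1
      rw [l2, l4] at r2
      rw [l1, l3]
      simp only at r1 r2 ⊢
      rw [← r2, ← r1]
      module
    refine ⟨δ, ζ.2, d1, d2, d3, d4, d5, d6, c.G.N4 ho, fun _ => rfl, d7, ?_, fun _ => key⟩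
    filter_upwards [key] with m hm s hs
    have hoi : (M m).o ≠ some i := by rw [c.H.ho]; exact ho
    have hoj' : (M m).o ≠ some j := by rw [c.H.ho]; exact hoj
    rw [pos_particle hoi, pos_particle hoj']
    exact hm s ⟨hs.1, by linarith [hs.2]⟩

/-- Labels with the final path of the merging label of the left part. -/
theorem Ctx.eqv_posP {δ : ℝ} {V : Space3} (w : Win M N A k i B l j P Q t ζ πP πQ Z δ V) :
    ∀ᶠ m in atTop, ∀ A' ⊆ supp P, ∀ k', ∀ p ∈ A', N.Eqv P πP A' k' p A k i →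
      ∀ s ∈ Icc (t - δ) N.T, (M m).pos A' k' s (Z m) p = (M m).pos A k s (Z m) i := by
  filter_upwards [c.eqvP w.lP] with m hm A' hA' k' p hp he s hs
  obtain ⟨rfl, h1, h2⟩ := he
  by_cases ho : N.o = some p
  · rw [h1 ho]
    unfold VSys.pos
    rw [c.H.ho, if_pos ho, if_pos ho]
  · have ho' : (M m).o ≠ some p := by rw [c.H.ho]; exact ho
    rw [pos_particle ho', pos_particle ho', hm A' hA' A c.wf.2.1 p hp c.wf.2.2.2.1 ho (h2 ho) s hs]

/-- Labels with the final path of the merging label of the right part. -/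
theorem Ctx.eqv_posQ {δ : ℝ} {V : Space3} (w : Win M N A k i B l j P Q t ζ πP πQ Z δ V) :
    ∀ᶠ m in atTop, ∀ B' ⊆ supp Q, ∀ l', ∀ q ∈ B', N.Eqv Q πQ B' l' q B l j →
      ∀ s ∈ Icc (t - δ) N.T, (M m).pos B' l' s (Z m) q = (M m).pos B l s (Z m) j := by
  filter_upwards [c.eqvQ w.lQ] with m hm B' hB' l' q hq he s hs
  obtain ⟨rfl, -, h2⟩ := he
  have ho : N.o ≠ some q := c.hoQ c.hjQ
  have ho' : (M m).o ≠ some q := by rw [c.H.ho]; exact ho
  rw [pos_particle ho', pos_particle ho', hm B' hB' B c.wf.2.2.1 q hq c.wf.2.2.2.2.1 ho (h2 ho) s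
    hs]

/-- **Cross contacts, unmixed**: only the labels with the final paths of the merging labels, and
only near the merge time. -/
theorem Ctx.crossX {δ : ℝ} {V : Space3} (w : Win M N A k i B l j P Q t ζ πP πQ Z δ V) (C : ℝ) :
    ∃ R, 0 ≤ R ∧ ∀ᶠ m in atTop, ∀ A' ⊆ supp P, ∀ B' ⊆ supp Q, ∀ k' l', ∀ p ∈ A', ∀ q ∈ B',
      ∀ s ∈ Icc 0 N.T, (M m).act k' p s →
        dist ((M m).pos A' k' s (Z m) p) ((M m).pos B' l' s (Z m) q) ≤ C * (M m).ε →
        N.Eqv P πP A' k' p A k i ∧ N.Eqv Q πQ B' l' q B l j ∧ |s - t| ≤ R * (M m).ε := by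
  have key := exists_unif (Λ := Finset J × κ × J × Finset J × κ × J) (Pr := fun x R m =>
    x.1 ⊆ supp P → x.2.2.2.1 ⊆ supp Q → x.2.2.1 ∈ x.1 → x.2.2.2.2.2 ∈ x.2.2.2.1 →
      ∀ s ∈ Icc 0 N.T, (M m).act x.2.1 x.2.2.1 s →
        dist ((M m).pos x.1 x.2.1 s (Z m) x.2.2.1)
          ((M m).pos x.2.2.2.1 x.2.2.2.2.1 s (Z m) x.2.2.2.2.2) ≤ C * (M m).ε →
        N.Eqv P πP x.1 x.2.1 x.2.2.1 A k i ∧
          N.Eqv Q πQ x.2.2.2.1 x.2.2.2.2.1 x.2.2.2.2.2 B l j ∧ |s - t| ≤ R * (M m).ε) ?_ ?_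
  · obtain ⟨R, hR⟩ := key
    refine ⟨max R 0, le_max_right _ _, ?_⟩
    filter_upwards [hR] with m hm A' hA' B' hB' k' l' p hp q hq s hs ha hd
    obtain ⟨h1, h2, h3⟩ := hm (A', k', p, B', l', q) hA' hB' hp hq s hs ha hd
    exact ⟨h1, h2, h3.trans (mul_le_mul_of_nonneg_right (le_max_left _ _) (c.H.epos m).le)⟩
  · intro x R R' m hRR h h1 h2 h3 h4 s hs ha hd
    obtain ⟨e1, e2, e3⟩ := h h1 h2 h3 h4 s hs ha hd
    exact ⟨e1, e2, e3.trans (mul_le_mul_of_nonneg_right hRR (c.H.epos m).le)⟩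
  · rintro ⟨A', k', p, B', l', q⟩
    by_cases hL : A' ⊆ supp P ∧ B' ⊆ supp Q ∧ p ∈ A' ∧ q ∈ B'
    swap
    · exact ⟨0, Eventually.of_forall fun m h1 h2 h3 h4 => absurd ⟨h1, h2, h3, h4⟩ hL⟩
    obtain ⟨hA', hB', hp, hq⟩ := hL
    have hactQ : ∀ m s, (M m).act l' q s := fun m s h => by
      rw [c.H.ho] at h
      exact absurd h (c.hoQ (hB' hq))
    by_cases he : N.Eqv P πP A' k' p A k i ∧ N.Eqv Q πQ B' l' q B l j
    · refine ⟨(C + ‖ζ.1‖) / ‖V‖, ?_⟩
      have hK : IsCompact (Icc 0 N.T \ Ioo (t - δ) (t + δ)) := isCompact_Icc.diff isOpen_Ioo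
      have hfar := far_labels c.H c.iP c.iQ hK diff_subset hA' hB' (k' := k') (l' := l') hp hq
        (f := fun _ => 0) (g := fun _ => 0) continuous_const continuous_const (by
          intro s hs ha _
          rw [add_zero, add_zero]
          refine c.G.N2 A' hA' B' hB' k' l' p hp q hq s hs.1 ?_ ha
          rintro rfl
          exact hs.2 ⟨by linarith [w.pos], by linarith [w.pos]⟩) C
      filter_upwards [hfar, c.eqv_posP w, c.eqv_posQ w, w.diff] with m hm h1 h2 hd _ _ _ _ s hs ha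
        hdist
      have hsw : s ∈ Ioo (t - δ) (t + δ) := by
        by_contra hcon
        have := hm s ⟨hs, hcon⟩ ha (hactQ m s)
        rw [add_zero, add_zero] at this
        exact absurd hdist (not_le.2 this)
      refine ⟨he.1, he.2, time_of_norm w.V0 (ξ := ζ.1) (c.H.epos m) ?_⟩
      rw [← hd s ⟨hsw.1.le, hsw.2.le⟩, ← h1 A' hA' k' p hp he.1 s ⟨hsw.1.le, hs.2⟩,
        ← h2 B' hB' l' q hq he.2 s ⟨hsw.1.le, hs.2⟩, ← dist_eq_norm]
      exact hdist
    · refine ⟨0, ?_⟩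
      have hfar := far_labels c.H c.iP c.iQ isCompact_Icc subset_rfl hA' hB' (k' := k')
        (l' := l') hp hq (f := fun _ => 0) (g := fun _ => 0) continuous_const continuous_const (by
          intro s hs ha _
          rw [add_zero, add_zero]
          by_cases hst : s = t
          · subst hst
            intro hG
            exact he (c.G.N3 c.ac A' hA' B' hB' k' l' p hp q hq ha hG)
          · exact c.G.N2 A' hA' B' hB' k' l' p hp q hq s hs hst ha) C
      filter_upwards [hfar] with m hm _ _ _ _ s hs ha hdist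
      have := hm s hs ha (hactQ m s)
      rw [add_zero, add_zero] at this
      exact absurd hdist (not_le.2 this)

end ctx

end Crest.Agent.R122.VL581
end
end

-- ▼ part R122/VLNode2_581
section

/-!
# Row 122, block D3 (helper581): node step, part 2 (distances to the outgoing lines)
-/

set_option autoImplicit false
set_option linter.unusedSectionVars false

open MeasureTheory Set Filter Topology
open scoped ENNReal NNReal
open Crest.AnalysisR.Kinetic
open Crest.Agent.R122.Ins45 Crest.Agent.R122.GIV566 Crest.Agent.R122.VLPar823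
open Crest.Agent.R122.VLPar823.MTree
open Crest.Agent.R122.VLcore564

noncomputable section

namespace Crest.Agent.R122.VL581

open scoped Classical

section ctx

variable {J κ : Type} [Fintype J] [Fintype κ] {M : ℕ → VSys J κ} {N : VSys J κ} {Bd : Set ℝ}
  {A : Finset J} {k : κ} {i : J} {B : Finset J} {l : κ} {j : J} {P Q : MTree J κ} {t : ℝ}
  {ζ : Space3 × Space3} {πP : Par P} {πQ : Par Q} {Z : ℕ → J → PhasePoint} {Zl : J → PhasePoint}

/-- The broken displacement. -/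
def brk (t : ℝ) (w : Space3) (s : ℝ) : Space3 := max (s - t) 0 • w

theorem continuous_brk (t : ℝ) (w : Space3) : Continuous (brk t w) := by
  unfold brk
  exact ((continuous_id.sub continuous_const).max continuous_const).smul continuous_const

theorem brk_of_le {t s : ℝ} (h : s ≤ t) (w : Space3) : brk t w s = 0 := by
  unfold brk
  rw [max_eq_right (sub_nonpos.2 h), zero_smul]

theorem brk_of_ge {t s : ℝ} (h : t ≤ s) (w : Space3) : brk t w s = (s - t) • w := by
  unfold brk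
  rw [max_eq_left (sub_nonneg.2 h)]

theorem brk_zero (t s : ℝ) : brk t 0 s = 0 := by
  unfold brk
  rw [smul_zero]

variable (c : Ctx M N Bd A k i B l j P Q t ζ πP πQ Z Zl)
include c

theorem Ctx.Gam_eqP {s : ℝ} (hs : t ≤ s) {A' : Finset J} (k' : κ)
    (ho : N.o ≠ some i) (hD : N.D P πP A' i = N.D P πP A i) :
    N.Gam P πP A' k' s Zl i = N.Gam P πP A k s Zl i := by
  have hl : tlast P πP ≤ s := (tlast_lt P πP c.t0 c.oP).le.trans hs
  rw [Gam_particle ho, Gam_particle ho, N.Del_eq P πP c.t0 c.oP A' i s hl,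
    N.Del_eq P πP c.t0 c.oP A i s hl, hD]

theorem Ctx.Gam_eqQ {s : ℝ} (hs : t ≤ s) {B' : Finset J} (l' : κ)
    (hD : N.D Q πQ B' j = N.D Q πQ B j) :
    N.Gam Q πQ B' l' s Zl j = N.Gam Q πQ B l s Zl j := by
  have hl : tlast Q πQ ≤ s := (tlast_lt Q πQ c.t0 c.oQ).le.trans hs
  have ho : N.o ≠ some j := c.hoQ c.hjQ
  rw [Gam_particle ho, Gam_particle ho, N.Del_eq Q πQ c.t0 c.oQ B' j s hl,
    N.Del_eq Q πQ c.t0 c.oQ B j s hl, hD]

/-- New line of `i` versus the labels of the left part. -/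
theorem Ctx.farPP {δ : ℝ} {V : Space3} (w : Win M N A k i B l j P Q t ζ πP πQ Z δ V)
    (hr : N.real i j t) (C : ℝ) :
    ∀ᶠ m in atTop, ∀ A' ⊆ supp P, i ∈ A' → N.D P πP A' i = N.D P πP A i → ∀ B' ⊆ supp P,
      ∀ k', ∀ p ∈ B', p ≠ i → ∀ s ∈ Icc (t - δ) N.T, (M m).act k' p s →
        C * (M m).ε < dist (((M m).st A' s (Z m) i).1 + brk t (kick N.Φ ζ) s)
          ((M m).pos B' k' s (Z m) p) := by
  have ho : N.o ≠ some i := hr.1
  simp only [eventually_all]
  intro A' hA' hi hD B' hB' k' p hp hpi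
  have h := far_labels c.H c.iP c.iP (K := Icc (t - δ) N.T) isCompact_Icc
    (Icc_subset_Icc_left w.t0.le) hA' hB' (k' := k) (l' := k') hi hp
    (f := brk t (kick N.Φ ζ)) (g := fun _ => 0) (continuous_brk _ _) continuous_const (by
      intro s hs _ ha
      rw [add_zero]
      have hs0 : s ∈ Icc 0 N.T := ⟨w.t0.le.trans hs.1, hs.2⟩
      by_cases hk : s ≤ t ∨ kick N.Φ ζ = 0
      · have hb : brk t (kick N.Φ ζ) s = 0 := by
          rcases hk with h | h
          · exact brk_of_le h _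
          · rw [h]; exact brk_zero t s
        rw [hb, add_zero]
        intro hG
        obtain ⟨e, he, -, hse⟩ := c.cP A' hA' B' hB' k k' i hi p hp (Ne.symm hpi) s hs0
          (fun h => absurd h ho) ha hG
        have h1 := (sig_le P πP c.wf.2.2.2.2.2.2.1 c.oP e he).2
        linarith [w.lP, hs.1]
      · push Not at hk
        rw [brk_of_ge hk.1.le, c.Gam_eqP hk.1.le k ho hD]
        exact (c.G.N6a hr hk.2 s ⟨hk.1, hs.2⟩ B' hB' k' p hp hpi ha).symm) C
  filter_upwards [h] with m hm s hs ha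
  have hoi : (M m).o ≠ some i := by rw [c.H.ho]; exact ho
  have h2 := hm s hs (fun h => absurd h hoi) ha
  rw [add_zero, pos_particle hoi] at h2
  exact h2

/-- New line of `i` versus the labels of the right part. -/
theorem Ctx.farPQ {δ : ℝ} {V : Space3} (w : Win M N A k i B l j P Q t ζ πP πQ Z δ V)
    (hr : N.real i j t) (C : ℝ) :
    ∀ᶠ m in atTop, ∀ A' ⊆ supp P, i ∈ A' → N.D P πP A' i = N.D P πP A i → ∀ B' ⊆ supp Q,
      ∀ l', ∀ q ∈ B', ¬ N.Eqv Q πQ B' l' q B l j → ∀ s ∈ Icc (t - δ) N.T,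
        C * (M m).ε < dist (((M m).st A' s (Z m) i).1 + brk t (kick N.Φ ζ) s)
          ((M m).pos B' l' s (Z m) q) := by
  have ho : N.o ≠ some i := hr.1
  simp only [eventually_all]
  intro A' hA' hi hD B' hB' l' q hq hne
  have h := far_labels c.H c.iP c.iQ (K := Icc (t - δ) N.T) isCompact_Icc
    (Icc_subset_Icc_left w.t0.le) hA' hB' (k' := k) (l' := l') hi hq
    (f := brk t (kick N.Φ ζ)) (g := fun _ => 0) (continuous_brk _ _) continuous_const (by
      intro s hs _ ha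
      rw [add_zero]
      have hs0 : s ∈ Icc 0 N.T := ⟨w.t0.le.trans hs.1, hs.2⟩
      by_cases hk : s ≤ t ∨ kick N.Φ ζ = 0
      · have hb : brk t (kick N.Φ ζ) s = 0 := by
          rcases hk with h | h
          · exact brk_of_le h _
          · rw [h]; exact brk_zero t s
        rw [hb, add_zero]
        by_cases hst : s = t
        · subst hst
          intro hG
          exact hne (c.G.N3 c.ac A' hA' B' hB' k l' i hi q hq (fun h => absurd h ho) hG).2
        · exact c.G.N2 A' hA' B' hB' k l' i hi q hq s hs0 hst fun h => absurd h ho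
      · push Not at hk
        rw [brk_of_ge hk.1.le, c.Gam_eqP hk.1.le k ho hD]
        exact (c.G.N6b hr hk.2 s ⟨hk.1, hs.2⟩ B' hB' l' q hq hne).symm) C
  filter_upwards [h] with m hm s hs
  have hoi : (M m).o ≠ some i := by rw [c.H.ho]; exact ho
  have hoq : (M m).o ≠ some q := by rw [c.H.ho]; exact c.hoQ (hB' hq)
  have h2 := hm s hs (fun h => absurd h hoi) (fun h => absurd h hoq)
  rw [add_zero, pos_particle hoi] at h2
  exact h2

/-- New line of `j` versus the labels of the right part. -/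
theorem Ctx.farQQ {δ : ℝ} {V : Space3} (w : Win M N A k i B l j P Q t ζ πP πQ Z δ V)
    (hr : N.real i j t) (C : ℝ) :
    ∀ᶠ m in atTop, ∀ A' ⊆ supp Q, j ∈ A' → N.D Q πQ A' j = N.D Q πQ B j → ∀ B' ⊆ supp Q,
      ∀ l', ∀ q ∈ B', q ≠ j → ∀ s ∈ Icc (t - δ) N.T,
        C * (M m).ε < dist (((M m).st A' s (Z m) j).1 - brk t (kick N.Φ ζ) s)
          ((M m).pos B' l' s (Z m) q) := by
  have ho : N.o ≠ some j := hr.2.1
  simp only [eventually_all]
  intro A' hA' hj hD B' hB' l' q hq hqj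
  have h := far_labels c.H c.iQ c.iQ (K := Icc (t - δ) N.T) isCompact_Icc
    (Icc_subset_Icc_left w.t0.le) hA' hB' (k' := l) (l' := l') hj hq
    (f := fun s => -brk t (kick N.Φ ζ) s) (g := fun _ => 0) (continuous_brk _ _).neg
    continuous_const (by
      intro s hs _ ha
      rw [add_zero]
      have hs0 : s ∈ Icc 0 N.T := ⟨w.t0.le.trans hs.1, hs.2⟩
      by_cases hk : s ≤ t ∨ kick N.Φ ζ = 0
      · have hb : brk t (kick N.Φ ζ) s = 0 := by
          rcases hk with h | h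
          · exact brk_of_le h _
          · rw [h]; exact brk_zero t s
        rw [hb, neg_zero, add_zero]
        intro hG
        obtain ⟨e, he, -, hse⟩ := c.cQ A' hA' B' hB' l l' j hj q hq (Ne.symm hqj) s hs0
          (fun h => absurd h ho) ha hG
        have h1 := (sig_le Q πQ c.wf.2.2.2.2.2.2.2 c.oQ e he).2
        linarith [w.lQ, hs.1]
      · push Not at hk
        rw [brk_of_ge hk.1.le, c.Gam_eqQ hk.1.le l hD, ← sub_eq_add_neg]
        exact (c.G.N6c hr hk.2 s ⟨hk.1, hs.2⟩ B' hB' l' q hq hqj).symm) C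
  filter_upwards [h] with m hm s hs
  have hoj : (M m).o ≠ some j := by rw [c.H.ho]; exact ho
  have hoq : (M m).o ≠ some q := by rw [c.H.ho]; exact c.hoQ (hB' hq)
  have h2 := hm s hs (fun h => absurd h hoj) (fun h => absurd h hoq)
  rw [add_zero, pos_particle hoj, ← sub_eq_add_neg] at h2
  exact h2

/-- New line of `j` versus the labels of the left part. -/
theorem Ctx.farQP {δ : ℝ} {V : Space3} (w : Win M N A k i B l j P Q t ζ πP πQ Z δ V)
    (hr : N.real i j t) (C : ℝ) :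
    ∀ᶠ m in atTop, ∀ A' ⊆ supp Q, j ∈ A' → N.D Q πQ A' j = N.D Q πQ B j → ∀ B' ⊆ supp P,
      ∀ k', ∀ p ∈ B', ¬ N.Eqv P πP B' k' p A k i → ∀ s ∈ Icc (t - δ) N.T, (M m).act k' p s →
        C * (M m).ε < dist (((M m).st A' s (Z m) j).1 - brk t (kick N.Φ ζ) s)
          ((M m).pos B' k' s (Z m) p) := by
  have ho : N.o ≠ some j := hr.2.1
  simp only [eventually_all]
  intro A' hA' hj hD B' hB' k' p hp hne
  have h := far_labels c.H c.iQ c.iP (K := Icc (t - δ) N.T) isCompact_Icc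
    (Icc_subset_Icc_left w.t0.le) hA' hB' (k' := l) (l' := k') hj hp
    (f := fun s => -brk t (kick N.Φ ζ) s) (g := fun _ => 0) (continuous_brk _ _).neg
    continuous_const (by
      intro s hs _ ha
      rw [add_zero]
      have hs0 : s ∈ Icc 0 N.T := ⟨w.t0.le.trans hs.1, hs.2⟩
      by_cases hk : s ≤ t ∨ kick N.Φ ζ = 0
      · have hb : brk t (kick N.Φ ζ) s = 0 := by
          rcases hk with h | h
          · exact brk_of_le h _
          · rw [h]; exact brk_zero t s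
        rw [hb, neg_zero, add_zero]
        by_cases hst : s = t
        · subst hst
          intro hG
          exact hne (c.G.N3 c.ac B' hB' A' hA' k' l p hp j hj ha hG.symm).1
        · exact (c.G.N2 B' hB' A' hA' k' l p hp j hj s hs0 hst ha).symm
      · push Not at hk
        rw [brk_of_ge hk.1.le, c.Gam_eqQ hk.1.le l hD, ← sub_eq_add_neg]
        exact (c.G.N6d hr hk.2 s ⟨hk.1, hs.2⟩ B' hB' k' p hp hne ha).symm) C
  filter_upwards [h] with m hm s hs ha
  have hoj : (M m).o ≠ some j := by rw [c.H.ho]; exact ho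
  have h2 := hm s hs (fun h => absurd h hoj) ha
  rw [add_zero, pos_particle hoj, ← sub_eq_add_neg] at h2
  exact h2

end ctx

end Crest.Agent.R122.VL581
end
end

-- ▼ part R122/VLInvA_399
section

/-!
# Row 122, block D3 (B) (helper399), part A: local worlds

* `lworld_glue`: gluing in time.
* `lworld_of_cover`: a path is a local world, if every particle has an isolated cluster which is a
  local world.
* `lworld_pair`: the two-body motion is a local world.
* `pp_during`: the two-body motion stays close to the free lines during the encounter.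
-/

set_option autoImplicit false
set_option linter.unusedSectionVars false

open MeasureTheory Set Filter Topology
open scoped NNReal ENNReal
open Crest.AnalysisR.Kinetic
open Crest.Agent.R122.Flow671 Crest.Agent.R122.Loc45 Crest.Agent.R122.Ins45
open Crest.Agent.R122.VLInst442 Crest.Agent.R122.VLcore564 Crest.Agent.R122.Scat818

noncomputable section

namespace Crest.Agent.R122.VLInv399

variable {Φ : Space3 → ℝ} {ε : ℝ} {ι : Type*} [Fintype ι]



/-- The two-body motion is a local world. -/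
theorem lworld_pair (hΦ : AdmissiblePotential Φ) (hε : 0 < ε) {b : Bool → ℝ} {a T : ℝ}
    (hb : ∀ i, b i ≤ a) {x y : PhasePoint} (hxy : x.1 ≠ y.1) :
    LWorld Φ ε b a T (fun t i => bif i then (pp Φ ε x y (t - a)).1 else (pp Φ ε x y (t - a)).2) := by
  set Z : Bool → PhasePoint := fun i => bif i then x else y with hZ
  have htwo : ∀ k : Bool, k = true ∨ k = false := fun k => by cases k <;> simp
  have hreg : Reg Φ ((Z true).1 - (Z false).1) := Or.inl (sub_ne_zero.2 hxy)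
  have hD : Z ∈ Dom Φ Bool := dom_of_reg htwo hreg
  have hW : World Φ ε (fun t => flow Φ ε (t - a) Z) := by
    have := (world_flow hΦ hε hD).shift (-a)
    have h2 : (fun u => flow Φ ε (-a + u) Z) = fun u => flow Φ ε (u - a) Z := by
      funext u
      rw [neg_add_eq_sub]
    rwa [h2] at this
  have hB : BWorld Φ ε b a (fun t => flow Φ ε (t - a) Z) := World.bworld hW hb
  have hL : LWorld Φ ε b a T (fun t => flow Φ ε (t - a) Z) := LWorld.of_bworld hB
  refine hL.congr fun t _ => ?_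
  funext i
  rw [flow_pair hΦ hε (i := true) (j := false) (by simp) htwo hreg]
  cases i
  · rw [pairConf_right ε (by simp)]
    rfl
  · rw [pairConf_left]
    rfl

theorem pp_zero (hΦ : AdmissiblePotential Φ) (hε : 0 < ε) (x y : PhasePoint) :
    pp Φ ε x y 0 = (x, y) := by
  have h1 : (ε / 2) • ((1 / ε) • (x.1 - y.1)) = (1 / 2 : ℝ) • (x.1 - y.1) := by
    rw [smul_smul]; congr 1; field_simp
  unfold pp
  rw [zero_div, relFlow_zero hΦ]
  simp only [h1, zero_smul, add_zero]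
  ext1 <;> ext1
  · show (1 / 2 : ℝ) • (x.1 + y.1) + (1 / 2 : ℝ) • (x.1 - y.1) = x.1
    module
  · show (1 / 2 : ℝ) • (x.2 + y.2) + (1 / 2 : ℝ) • (x.2 - y.2) = x.2
    module
  · show (1 / 2 : ℝ) • (x.1 + y.1) - (1 / 2 : ℝ) • (x.1 - y.1) = y.1
    module
  · show (1 / 2 : ℝ) • (x.2 + y.2) - (1 / 2 : ℝ) • (x.2 - y.2) = y.2
    module

end Crest.Agent.R122.VLInv399

end
end

-- ▼ part R122/VLNode3_581
section

/-!
# Row 122, block D3 (helper581): node step, part 3 (the interacting sub-worlds of the union)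
-/

set_option autoImplicit false
set_option linter.unusedSectionVars false

open MeasureTheory Set Filter Topology
open scoped ENNReal NNReal
open Crest.AnalysisR.Kinetic
open Crest.Agent.R122.Ins45 Crest.Agent.R122.GIV566 Crest.Agent.R122.VLPar823
open Crest.Agent.R122.VLPar823.MTree
open Crest.Agent.R122.VLcore564 Crest.Agent.R122.VLInst442

noncomputable section

namespace Crest.Agent.R122.VL581

open scoped Classical

/-- **The world of a merge** (one system). -/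
theorem node_world {J κ : Type} [Fintype J] {M : VSys J κ} (hΦ : AdmissiblePotential M.Φ)
    (hε : 0 < M.ε) {A1 A2 : Finset J} (hd : Disjoint A1 A2) {Z : J → PhasePoint} {a T' : ℝ}
    {i j : J} (hi : i ∈ A1) (hj : j ∈ A2) (hoi : M.o ≠ some i) (hoj : M.o ≠ some j)
    (hbi : M.bb i < a) (hbj : M.bb j < a) (haT : a ≤ T') (hok1 : M.ok A1 a Z)
    (hok2 : M.ok A2 a Z)
    (hfar : ∀ s ∈ Ico 0 a, ∀ p ∈ A1, ∀ q ∈ A2, M.o ≠ some p → M.o ≠ some q → M.bb p ≤ s →
      M.bb q ≤ s → M.ε < dist (M.st A1 s Z p).1 (M.st A2 s Z q).1)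
    {Z0 : J → PhasePoint} (hZ1 : ∀ p ∈ A1, Z0 p = M.st A1 a Z p)
    (hZ2 : ∀ p ∈ A2, Z0 p = M.st A2 a Z p)
    (hreg : Scat818.Reg M.Φ ((Z0 i).1 - (Z0 j).1))
    (hrest : ∀ s ∈ Icc a T', ∀ p ∈ A1 ∪ A2, ∀ q ∈ A1 ∪ A2, p ≠ i → p ≠ j → q ≠ i → q ≠ j →
      p ≠ q → M.o ≠ some p → M.o ≠ some q →
      M.ε < dist (fr (Z0 p) (s - a)).1 (fr (Z0 q) (s - a)).1)
    (hcross : ∀ s ∈ Icc a T', ∀ p ∈ A1 ∪ A2, p ≠ i → p ≠ j → M.o ≠ some p →
      M.ε < dist (pp M.Φ M.ε (Z0 i) (Z0 j) (s - a)).1.1 (fr (Z0 p) (s - a)).1 ∧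
      M.ε < dist (pp M.Φ M.ε (Z0 i) (Z0 j) (s - a)).2.1 (fr (Z0 p) (s - a)).1) :
    M.ok (A1 ∪ A2) T' Z ∧ (∀ s ≤ a, (∀ p ∈ A1, M.st (A1 ∪ A2) s Z p = M.st A1 s Z p) ∧
        ∀ q ∈ A2, M.st (A1 ∪ A2) s Z q = M.st A2 s Z q) ∧
      ∀ s ∈ Icc a T', ∀ p ∈ A1 ∪ A2, M.o ≠ some p →
        M.st (A1 ∪ A2) s Z p = cand M.Φ M.ε Z0 i j a s p := by
  have hij : i ≠ j := by
    rintro rfl
    exact Finset.disjoint_left.1 hd hi hj
  have hoka := ok_union hΦ hε hd hok1 hok2 hfar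
  have hfact := st_union hΦ hε hd hok1 hok2 fun s hs p hp q hq h1 h2 h3 h4 =>
    (hfar s hs p hp q hq h1 h2 h3 h4).le
  set iM : Mem M (A1 ∪ A2) := ⟨i, Finset.mem_union_left _ hi, hoi⟩ with hiM
  set jM : Mem M (A1 ∪ A2) := ⟨j, Finset.mem_union_right _ hj, hoj⟩ with hjM
  have hijM : iM ≠ jM := fun h => hij (congrArg Subtype.val h)
  have hneI : ∀ p : Mem M (A1 ∪ A2), p ≠ iM → (p : J) ≠ i := fun p hp h => hp (Subtype.ext h)
  have hneJ : ∀ p : Mem M (A1 ∪ A2), p ≠ jM → (p : J) ≠ j := fun p hp h => hp (Subtype.ext h)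
  have hL : LWorld M.Φ M.ε (fun p : Mem M (A1 ∪ A2) => M.bb p) a T'
      (cand M.Φ M.ε (fun p : Mem M (A1 ∪ A2) => Z0 p) iM jM a) := by
    refine lworld_pair hΦ hε hijM hreg hbi.le hbj.le ?_ ?_
    · intro s hs p q h1 h2 h3 h4 h5 _ _
      exact (hrest s ⟨hs.1, hs.2.le⟩ p p.2.1 q q.2.1 (hneI p h1) (hneJ p h2) (hneI q h3)
        (hneJ q h4) (fun h => h5 (Subtype.ext h)) p.2.2 q.2.2).le
    · intro s hs p h1 h2 _
      have h := hcross s ⟨hs.1, hs.2.le⟩ p p.2.1 (hneI p h1) (hneJ p h2) p.2.2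
      exact ⟨h.1.le, h.2.le⟩
  have hcand : ∀ s, ∀ p : Mem M (A1 ∪ A2),
      cand M.Φ M.ε (fun p : Mem M (A1 ∪ A2) => Z0 p) iM jM a s p =
        cand M.Φ M.ε Z0 i j a s p := by
    intro s p
    by_cases h1 : p = iM
    · rw [h1, cand_left]
      exact (cand_left Z0 i j a s).symm
    · by_cases h2 : p = jM
      · rw [h2, cand_right _ hijM]
        exact (cand_right Z0 hij a s).symm
      · rw [cand_other _ h1 h2, cand_other _ (hneI p h1) (hneJ p h2)]
  have hZ0 : ∀ p ∈ A1 ∪ A2, Z0 p = M.st (A1 ∪ A2) a Z p := by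
    intro p hp
    rcases Finset.mem_union.1 hp with h | h
    · rw [(hfact a le_rfl).1 p h, hZ1 p h]
    · rw [(hfact a le_rfl).2 p h, hZ2 p h]
  have key := ok_of_lworld hΦ hε haT hL hoka (fun p => by
    rw [hcand, ← hZ0 p p.2.1]
    by_cases h1 : (p : J) = i
    · rw [h1, cand_left, sub_self, Crest.Agent.R122.VLInv399.pp_zero hΦ hε]
    · by_cases h2 : (p : J) = j
      · rw [h2, cand_right _ hij, sub_self, Crest.Agent.R122.VLInv399.pp_zero hΦ hε]
      · rw [cand_other _ h1 h2, sub_self]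
        unfold fr
        simp) (fun p q hqp hap hpT hqp' => by
    have hpi : (p : J) ≠ i := by
      intro h
      rw [h] at hap
      exact absurd hap (not_le.2 hbi)
    have hpj : (p : J) ≠ j := by
      intro h
      rw [h] at hap
      exact absurd hap (not_le.2 hbj)
    have hm : M.bb p ∈ Icc a T' := ⟨hap, hpT.le⟩
    rw [hcand, hcand, cand_other _ hpi hpj]
    by_cases h1 : (q : J) = i
    · rw [h1, cand_left, dist_comm]
      exact (hcross _ hm p p.2.1 hpi hpj p.2.2).1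
    · by_cases h2 : (q : J) = j
      · rw [h2, cand_right _ hij, dist_comm]
        exact (hcross _ hm p p.2.1 hpi hpj p.2.2).2
      · rw [cand_other _ h1 h2]
        exact hrest _ hm p p.2.1 q q.2.1 hpi hpj h1 h2 (fun h => hqp (Subtype.ext h.symm)) p.2.2
          q.2.2)
  refine ⟨key.1, hfact, fun s hs p hp ho => ?_⟩
  rw [key.2 s hs ⟨p, hp, ho⟩, hcand]

/-- The paths in the world of a merge (one system), from distances on the macroscopic window. -/
theorem node_paths {J κ : Type} [Fintype J] {M : VSys J κ} (hΦ : AdmissiblePotential M.Φ)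
    (hε : 0 < M.ε) {A1 A2 : Finset J} (hd : Disjoint A1 A2) {Z : J → PhasePoint} {a t T' : ℝ}
    {i j : J} (hi : i ∈ A1) (hj : j ∈ A2) (hoi : M.o ≠ some i) (hoj : M.o ≠ some j)
    (hbi : M.bb i < a) (hbj : M.bb j < a) (hat : a < t) (haT : a ≤ T') (hok1 : M.ok A1 a Z)
    (hok2 : M.ok A2 a Z)
    (hfar : ∀ s ∈ Ico 0 a, ∀ p ∈ A1, ∀ q ∈ A2, M.o ≠ some p → M.o ≠ some q → M.bb p ≤ s →
      M.bb q ≤ s → M.ε < dist (M.st A1 s Z p).1 (M.st A2 s Z q).1)
    (hl1 : ∀ s ∈ Icc a T', ∀ p ∈ A1, M.o ≠ some p → M.st A1 s Z p = fr (M.st A1 a Z p) (s - a))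
    (hl2 : ∀ s ∈ Icc a T', ∀ p ∈ A2, M.o ≠ some p → M.st A2 s Z p = fr (M.st A2 a Z p) (s - a))
    {R K : ℝ} {z : Space3 × Space3} {w k1 : Space3} (hR0 : 0 ≤ R) (hz : Exi M.Φ R z)
    (hw : W1 M.Φ R z = w) (hk1 : K1 M.Φ R z = k1) (hRa : R * M.ε ≤ t - a)
    (hss : ss M.ε (M.st A1 a Z i) (M.st A2 a Z j) (t - a) = z) (hK0 : 0 ≤ K)
    (hK : ∀ (Z : J → PhasePoint), ss M.ε (Z i) (Z j) (t - a) = z → ∀ (s : ℝ) (k : J),
      ‖(cand M.Φ M.ε Z i j a s k).1 -
        ((fr (Z k) (s - a)).1 + max (s - t) 0 • kk i j (W1 M.Φ R z) k)‖ ≤ K * M.ε)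
    (h11 : ∀ s ∈ Icc a T', ∀ p ∈ A1, ∀ q ∈ A1, p ≠ q → M.o ≠ some p → M.o ≠ some q →
      M.ε < dist (M.st A1 s Z p).1 (M.st A1 s Z q).1)
    (h22 : ∀ s ∈ Icc a T', ∀ p ∈ A2, ∀ q ∈ A2, p ≠ q → M.o ≠ some p → M.o ≠ some q →
      M.ε < dist (M.st A2 s Z p).1 (M.st A2 s Z q).1)
    (h12 : ∀ s ∈ Icc a T', ∀ p ∈ A1, ∀ q ∈ A2, p ≠ i → M.o ≠ some p → M.o ≠ some q →
      M.ε < dist (M.st A1 s Z p).1 (M.st A2 s Z q).1)
    (hne : (M.st A1 a Z i).1 ≠ (M.st A2 a Z j).1)
    (hPP : ∀ s ∈ Icc a T', ∀ p ∈ A1, p ≠ i → M.o ≠ some p →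
      (1 + K) * M.ε < dist ((M.st A1 s Z i).1 + brk t w s) (M.st A1 s Z p).1)
    (hPQ : ∀ s ∈ Icc a T', ∀ p ∈ A2, p ≠ j → M.o ≠ some p →
      (1 + K) * M.ε < dist ((M.st A1 s Z i).1 + brk t w s) (M.st A2 s Z p).1)
    (hQQ : ∀ s ∈ Icc a T', ∀ p ∈ A2, p ≠ j → M.o ≠ some p →
      (1 + K) * M.ε < dist ((M.st A2 s Z j).1 - brk t w s) (M.st A2 s Z p).1)
    (hQP : ∀ s ∈ Icc a T', ∀ p ∈ A1, p ≠ i → M.o ≠ some p →
      (1 + K) * M.ε < dist ((M.st A2 s Z j).1 - brk t w s) (M.st A1 s Z p).1) :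
    M.ok (A1 ∪ A2) T' Z ∧ ∀ s ≤ T',
      (∀ p ∈ A1, p ≠ i → M.st (A1 ∪ A2) s Z p = M.st A1 s Z p) ∧
      (∀ q ∈ A2, q ≠ j → M.st (A1 ∪ A2) s Z q = M.st A2 s Z q) ∧
      (s ≤ t - R * M.ε → M.st (A1 ∪ A2) s Z i = M.st A1 s Z i ∧
        M.st (A1 ∪ A2) s Z j = M.st A2 s Z j) ∧
      (t + R * M.ε ≤ s →
        M.st (A1 ∪ A2) s Z i = ((M.st A1 s Z i).1 + (M.ε • k1 + (s - t) • w),
          (M.st A1 s Z i).2 + w) ∧
        M.st (A1 ∪ A2) s Z j = ((M.st A2 s Z j).1 - (M.ε • k1 + (s - t) • w),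
          (M.st A2 s Z j).2 - w)) ∧
      ‖(M.st (A1 ∪ A2) s Z i).1 - ((M.st A1 s Z i).1 + max (s - t) 0 • w)‖ ≤ K * M.ε ∧
      ‖(M.st (A1 ∪ A2) s Z j).1 - ((M.st A2 s Z j).1 - max (s - t) 0 • w)‖ ≤ K * M.ε := by
  have hij : i ≠ j := by
    rintro rfl
    exact Finset.disjoint_left.1 hd hi hj
  have hdis : ∀ p ∈ A2, p ∉ A1 := fun p hp hp' => Finset.disjoint_left.1 hd hp' hp
  set Z0 : J → PhasePoint := fun p => if p ∈ A1 then M.st A1 a Z p else M.st A2 a Z p with hZ0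
  have hZ1 : ∀ p ∈ A1, Z0 p = M.st A1 a Z p := fun p hp => if_pos hp
  have hZ2 : ∀ p ∈ A2, Z0 p = M.st A2 a Z p := fun p hp => if_neg (hdis p hp)
  have hlA : ∀ s ∈ Icc a T', ∀ p ∈ A1, M.o ≠ some p → fr (Z0 p) (s - a) = M.st A1 s Z p :=
    fun s hs p hp ho => by rw [hZ1 p hp, hl1 s hs p hp ho]
  have hlB : ∀ s ∈ Icc a T', ∀ p ∈ A2, M.o ≠ some p → fr (Z0 p) (s - a) = M.st A2 s Z p :=
    fun s hs p hp ho => by rw [hZ2 p hp, hl2 s hs p hp ho]
  have hss' : ss M.ε (Z0 i) (Z0 j) (t - a) = z := by rw [hZ1 i hi, hZ2 j hj]; exact hss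
  have hKi : ∀ s ∈ Icc a T', ‖(pp M.Φ M.ε (Z0 i) (Z0 j) (s - a)).1.1 -
      ((M.st A1 s Z i).1 + brk t w s)‖ ≤ K * M.ε := by
    intro s hs
    have h := hK Z0 hss' s i
    rw [cand_left, kk_left, hlA s hs i hi hoi, hw] at h
    exact h
  have hKj : ∀ s ∈ Icc a T', ‖(pp M.Φ M.ε (Z0 i) (Z0 j) (s - a)).2.1 -
      ((M.st A2 s Z j).1 - brk t w s)‖ ≤ K * M.ε := by
    intro s hs
    have h := hK Z0 hss' s j
    rw [cand_right _ hij, kk_right hij, hlB s hs j hj hoj, hw, smul_neg, ← sub_eq_add_neg] at h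
    exact h
  -- from the broken lines to the two-body motion
  have tri : ∀ x y u : Space3, ‖x - y‖ ≤ K * M.ε → (1 + K) * M.ε < dist y u → M.ε < dist x u := by
    intro x y u h1 h2
    have h3 : dist y u ≤ dist y x + dist x u := dist_triangle _ _ _
    rw [dist_comm y x, dist_eq_norm x y] at h3
    linarith
  obtain ⟨k1', k2', k3'⟩ := node_world hΦ hε hd hi hj hoi hoj hbi hbj haT hok1 hok2 hfar hZ1 hZ2
    (Or.inl (sub_ne_zero.2 (by rw [hZ1 i hi, hZ2 j hj]; exact hne)))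
    (by
      intro s hs p hp q hq hpi hpj hqi hqj hpq hop hoq
      rcases Finset.mem_union.1 hp with hp | hp <;> rcases Finset.mem_union.1 hq with hq | hq
      · rw [hlA s hs p hp hop, hlA s hs q hq hoq]
        exact h11 s hs p hp q hq hpq hop hoq
      · rw [hlA s hs p hp hop, hlB s hs q hq hoq]
        exact h12 s hs p hp q hq hpi hop hoq
      · rw [hlB s hs p hp hop, hlA s hs q hq hoq, dist_comm]
        exact h12 s hs q hq p hp hqi hoq hop
      · rw [hlB s hs p hp hop, hlB s hs q hq hoq]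
        exact h22 s hs p hp q hq hpq hop hoq)
    (by
      intro s hs p hp hpi hpj hop
      rcases Finset.mem_union.1 hp with hp | hp
      · rw [hlA s hs p hp hop]
        exact ⟨tri _ _ _ (hKi s hs) (hPP s hs p hp hpi hop),
          tri _ _ _ (hKj s hs) (hQP s hs p hp hpi hop)⟩
      · rw [hlB s hs p hp hop]
        exact ⟨tri _ _ _ (hKi s hs) (hPQ s hs p hp hpj hop),
          tri _ _ _ (hKj s hs) (hQQ s hs p hp hpj hop)⟩)
  have hiU : i ∈ A1 ∪ A2 := Finset.mem_union_left _ hi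
  have hjU : j ∈ A1 ∪ A2 := Finset.mem_union_right _ hj
  refine ⟨k1', fun s hs => ?_⟩
  rcases le_total s a with hsa | hsa
  · obtain ⟨e1, e2⟩ := k2' s hsa
    refine ⟨fun p hp _ => e1 p hp, fun q hq _ => e2 q hq, fun _ => ⟨e1 i hi, e2 j hj⟩,
      fun hts => ?_, ?_, ?_⟩
    · have := mul_nonneg hR0 hε.le
      linarith
    · rw [e1 i hi, max_eq_right (by linarith), zero_smul, add_zero, sub_self, norm_zero]
      exact mul_nonneg hK0 hε.le
    · rw [e2 j hj, max_eq_right (by linarith), zero_smul, sub_zero, sub_self, norm_zero]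
      exact mul_nonneg hK0 hε.le
  · have hs' : s ∈ Icc a T' := ⟨hsa, hs⟩
    have c1 := k3' s hs'
    refine ⟨fun p hp hpi => ?_, fun q hq hqj => ?_, fun hst => ?_, fun hts => ?_, ?_, ?_⟩
    · by_cases ho : M.o = some p
      · rw [st_obstacle M ho, st_obstacle M ho]
      · rw [c1 p (Finset.mem_union_left _ hp) ho, cand_other _ hpi (fun h : p = j => hdis j hj (by rw [← h]; exact hp)),
          hlA s hs' p hp ho]
    · by_cases ho : M.o = some q
      · rw [st_obstacle M ho, st_obstacle M ho]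
      · rw [c1 q (Finset.mem_union_right _ hq) ho, cand_other _ (fun h : q = i => hdis q hq (by rw [h]; exact hi)) hqj,
          hlB s hs' q hq ho]
    · have hb := cand_before hΦ hε hij (a := a) (t := t) (R := R) (Z := Z0) (by rw [hss']; exact hz)
        hRa hst
      rw [c1 i hiU hoi, c1 j hjU hoj, hb i, hb j, hlA s hs' i hi hoi, hlB s hs' j hj hoj]
      exact ⟨rfl, rfl⟩
    · have hb := cand_after hΦ hε hij (a := a) (t := t) (R := R) (Z := Z0) (by rw [hss']; exact hz)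
        hRa hts
      have v1 : (Z0 i).2 = (M.st A1 s Z i).2 := by rw [← hlA s hs' i hi hoi]; rfl
      have v2 : (Z0 j).2 = (M.st A2 s Z j).2 := by rw [← hlB s hs' j hj hoj]; rfl
      rw [c1 i hiU hoi, c1 j hjU hoj, hb i, hb j, hlA s hs' i hi hoi, hlB s hs' j hj hoj, hss',
        kk_left, kk_left, kk_right hij, kk_right hij, hw, hk1, v1, v2]
      refine ⟨rfl, ?_⟩
      ext1
      · show (M.st A2 s Z j).1 + (M.ε • -k1 + (s - t) • -w) =
          (M.st A2 s Z j).1 - (M.ε • k1 + (s - t) • w)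
        module
      · show (M.st A2 s Z j).2 + -w = (M.st A2 s Z j).2 - w
        abel
    · rw [c1 i hiU hoi, cand_left]
      exact hKi s hs'
    · rw [c1 j hjU hoj, cand_right _ hij]
      exact hKj s hs'

end Crest.Agent.R122.VL581
end
end

-- ▼ part R122/VLNode4_581
section

/-!
# Row 122, block D3 (helper581): node step, part 4 (`SubW.new`)
-/

set_option autoImplicit false
set_option linter.unusedSectionVars false

open MeasureTheory Set Filter Topology
open scoped ENNReal NNReal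
open Crest.AnalysisR.Kinetic
open Crest.Agent.R122.Ins45 Crest.Agent.R122.GIV566 Crest.Agent.R122.VLPar823
open Crest.Agent.R122.VLPar823.MTree
open Crest.Agent.R122.VLcore564 Crest.Agent.R122.VLInst442

noncomputable section

namespace Crest.Agent.R122.VL581

open scoped Classical

section ctx

variable {J κ : Type} [Fintype J] [Fintype κ] {M : ℕ → VSys J κ} {N : VSys J κ} {Bd : Set ℝ}
  {A : Finset J} {k : κ} {i : J} {B : Finset J} {l : κ} {j : J} {P Q : MTree J κ} {t : ℝ}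
  {ζ : Space3 × Space3} {πP : Par P} {πQ : Par Q} {Z : ℕ → J → PhasePoint} {Zl : J → PhasePoint}

theorem union_parts {A' : Finset J} (h : A' ⊆ supp P ∪ supp Q) :
    (A' ∩ supp P) ∪ (A' ∩ supp Q) = A' := by
  rw [← Finset.inter_union_distrib_left]
  exact Finset.inter_eq_left.2 h

theorem disj_parts (hd : Disjoint (supp P) (supp Q)) (A' : Finset J) :
    Disjoint (A' ∩ supp P) (A' ∩ supp Q) :=
  Finset.disjoint_of_subset_left Finset.inter_subset_right
    (Finset.disjoint_of_subset_right Finset.inter_subset_right hd)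

/-- Line in the form `fr`. -/
theorem fr_of_line {x y : PhasePoint} {X ν : Space3} {T s a : ℝ}
    (hx : x = (X - (T - s) • ν, ν)) (hy : y = (X - (T - a) • ν, ν)) : x = fr y (s - a) := by
  rw [hx, hy]
  unfold fr
  ext1
  · show X - (T - s) • ν = X - (T - a) • ν + (s - a) • ν
    module
  · rfl

variable (c : Ctx M N Bd A k i B l j P Q t ζ πP πQ Z Zl)
include c

theorem Ctx.subW_new : ∃ R K : ℝ, 0 ≤ R ∧ 0 ≤ K ∧ ∀ᶠ m in atTop, ∀ A' ⊆ supp P ∪ supp Q,
    N.mrg A i B j P Q t πP πQ A' →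
    (M m).ok A' N.T (Z m) ∧ ∀ s ∈ Icc 0 N.T,
      (∀ p ∈ A' ∩ supp P, p ≠ i →
        (M m).st A' s (Z m) p = (M m).st (A' ∩ supp P) s (Z m) p) ∧
      (∀ q ∈ A' ∩ supp Q, q ≠ j →
        (M m).st A' s (Z m) q = (M m).st (A' ∩ supp Q) s (Z m) q) ∧
      (s ≤ t - R * (M m).ε →
        (M m).st A' s (Z m) i = (M m).st (A' ∩ supp P) s (Z m) i ∧
        (M m).st A' s (Z m) j = (M m).st (A' ∩ supp Q) s (Z m) j) ∧
      (t + R * (M m).ε ≤ s →
        (M m).st A' s (Z m) i = (((M m).st (A' ∩ supp P) s (Z m) i).1 +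
          ((M m).ε • kick1 N.Φ ζ + (s - t) • kick N.Φ ζ),
          ((M m).st (A' ∩ supp P) s (Z m) i).2 + kick N.Φ ζ) ∧
        (M m).st A' s (Z m) j = (((M m).st (A' ∩ supp Q) s (Z m) j).1 -
          ((M m).ε • kick1 N.Φ ζ + (s - t) • kick N.Φ ζ),
          ((M m).st (A' ∩ supp Q) s (Z m) j).2 - kick N.Φ ζ)) ∧
      ‖((M m).st A' s (Z m) i).1 - (((M m).st (A' ∩ supp P) s (Z m) i).1 +
        max (s - t) 0 • kick N.Φ ζ)‖ ≤ K * (M m).ε ∧
      ‖((M m).st A' s (Z m) j).1 - (((M m).st (A' ∩ supp Q) s (Z m) j).1 -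
        max (s - t) 0 • kick N.Φ ζ)‖ ≤ K * (M m).ε := by
  by_cases hr : N.real i j t
  swap
  · exact ⟨0, 0, le_rfl, le_rfl, Eventually.of_forall fun m A' _ h => absurd h.1 hr⟩
  obtain ⟨δ, V, w⟩ := c.exists_win
  obtain ⟨⟨R0, hR0⟩, -, -⟩ := c.G.N5 hr
  set R := max R0 0 with hR
  have hRnn : 0 ≤ R := le_max_right _ _
  have hz : Exi N.Φ R ζ := exi_mono c.H.adm (le_max_left _ _) hR0
  have hW : W1 N.Φ R ζ = kick N.Φ ζ := W1_eq c.H.adm hz
  have hK1 : K1 N.Φ R ζ = kick1 N.Φ ζ := K1_eq c.H.adm hz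
  obtain ⟨K, hK0, hK⟩ := cand_close c.H.adm hRnn hz
  obtain ⟨RX, hRX0, hX⟩ := c.crossX w 1
  obtain ⟨RP, hP⟩ := c.iP.ct 1
  obtain ⟨RQ, hQ⟩ := c.iQ.ct 1
  have hoi : N.o ≠ some i := hr.1
  have hoj : N.o ≠ some j := hr.2.1
  have hbi : N.bb i < t - δ := (w.bb i).resolve_right fun h => by linarith [hr.2.2.1, w.pos]
  have hbj : N.bb j < t - δ := (w.bb j).resolve_right fun h => by linarith [hr.2.2.2, w.pos]
  refine ⟨R, K, hRnn, hK0, ?_⟩
  filter_upwards [hX, hP, hQ, c.lineP w.lP, c.lineQ w.lQ, c.eqvP w.lP, c.eqvQ w.lQ,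
    w.diff' hoi, c.rel, c.farPP w hr (1 + K), c.farPQ w hr (1 + K), c.farQQ w hr (1 + K),
    c.farQP w hr (1 + K), (c.H.bb i).eventually (gt_mem_nhds hbi),
    (c.H.bb j).eventually (gt_mem_nhds hbj), c.H.ev_lt R w.pos, c.H.ev_lt RX w.pos,
    c.H.ev_lt RP (sub_pos.2 w.lP), c.H.ev_lt RQ (sub_pos.2 w.lQ), c.iP.ok, c.iQ.ok]
    with m hX hP hQ hlP hlQ heP heQ hdiff hrel hPP hPQ hQQ hQP hbi hbj hRδ hRX hRP hRQ hokP hokQ
    A' hA' hmrg
  obtain ⟨-, hiA, hjA, hDi, hDj⟩ := hmrg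
  set A1 := A' ∩ supp P with hA1
  set A2 := A' ∩ supp Q with hA2
  have hA1P : A1 ⊆ supp P := Finset.inter_subset_right
  have hA2Q : A2 ⊆ supp Q := Finset.inter_subset_right
  have hU : A1 ∪ A2 = A' := union_parts hA'
  have hd : Disjoint A1 A2 := disj_parts c.wf.1 A'
  have hi : i ∈ A1 := Finset.mem_inter.2 ⟨hiA, c.hiP⟩
  have hj : j ∈ A2 := Finset.mem_inter.2 ⟨hjA, c.hjQ⟩
  have hε : 0 < (M m).ε := c.H.epos m
  have hΦm : AdmissiblePotential (M m).Φ := by rw [c.H.hΦ]; exact c.H.adm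
  have hom : (M m).o = N.o := c.H.ho m
  have hoim : (M m).o ≠ some i := by rw [hom]; exact hoi
  have hojm : (M m).o ≠ some j := by rw [hom]; exact hoj
  have hpos := w.pos
  have hta : t - δ ≤ N.T := by linarith [w.tT]
  have h0a : 0 ≤ t - δ := w.t0.le
  have hoP : ∀ {p : J}, (M m).o ≠ some p → N.o ≠ some p := fun h => by rw [← hom]; exact h
  -- the action conditions are void for particles
  have act_of : ∀ {p : J} {k' : κ} {s : ℝ}, (M m).o ≠ some p → (M m).act k' p s :=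
    fun h h' => absurd h' h
  have haIcc : (t - δ) ∈ Icc (t - δ) N.T := ⟨le_rfl, hta⟩
  have htIcc : t ∈ Icc (t - δ) N.T := ⟨by linarith, c.tT.le⟩
  -- lines
  have hl1 : ∀ s ∈ Icc (t - δ) N.T, ∀ p ∈ A1, (M m).o ≠ some p →
      (M m).st A1 s (Z m) p = fr ((M m).st A1 (t - δ) (Z m) p) (s - (t - δ)) :=
    fun s hs p hp ho => fr_of_line (hlP A1 hA1P p hp (hoP ho) s hs)
      (hlP A1 hA1P p hp (hoP ho) _ haIcc)
  have hl2 : ∀ s ∈ Icc (t - δ) N.T, ∀ p ∈ A2, (M m).o ≠ some p →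
      (M m).st A2 s (Z m) p = fr ((M m).st A2 (t - δ) (Z m) p) (s - (t - δ)) :=
    fun s hs p hp ho => fr_of_line (hlQ A2 hA2Q p hp (hoP ho) s hs)
      (hlQ A2 hA2Q p hp (hoP ho) _ haIcc)
  -- cross distances
  have hXst : ∀ s ∈ Icc 0 N.T, ∀ p ∈ A1, ∀ q ∈ A2, (M m).o ≠ some p → (M m).o ≠ some q →
      dist ((M m).st A1 s (Z m) p).1 ((M m).st A2 s (Z m) q).1 ≤ (M m).ε →
        p = i ∧ q = j ∧ |s - t| ≤ RX * (M m).ε := by
    intro s hs p hp q hq hop hoq hdist
    have h := hX A1 hA1P A2 hA2Q k l p hp q hq s hs (act_of hop) (by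
      rw [pos_particle hop, pos_particle hoq, one_mul]; exact hdist)
    exact ⟨h.1.1, h.2.1.1, h.2.2⟩
  have hfar : ∀ s ∈ Ico 0 (t - δ), ∀ p ∈ A1, ∀ q ∈ A2, (M m).o ≠ some p → (M m).o ≠ some q →
      (M m).bb p ≤ s → (M m).bb q ≤ s →
      (M m).ε < dist ((M m).st A1 s (Z m) p).1 ((M m).st A2 s (Z m) q).1 := by
    intro s hs p hp q hq hop hoq _ _
    by_contra hcon
    have h := (hXst s ⟨hs.1, hs.2.le.trans hta⟩ p hp q hq hop hoq (not_lt.1 hcon)).2.2
    rw [abs_of_nonpos (by linarith [hs.2])] at h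
    linarith [hs.2]
  have h12 : ∀ s ∈ Icc (t - δ) N.T, ∀ p ∈ A1, ∀ q ∈ A2, p ≠ i → (M m).o ≠ some p →
      (M m).o ≠ some q → (M m).ε < dist ((M m).st A1 s (Z m) p).1 ((M m).st A2 s (Z m) q).1 := by
    intro s hs p hp q hq hpi hop hoq
    by_contra hcon
    exact hpi (hXst s ⟨h0a.trans hs.1, hs.2⟩ p hp q hq hop hoq (not_lt.1 hcon)).1
  have hne : ((M m).st A1 (t - δ) (Z m) i).1 ≠ ((M m).st A2 (t - δ) (Z m) j).1 := by
    intro h
    have h2 := (hXst (t - δ) ⟨h0a, hta⟩ i hi j hj hoim hojm (by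
      rw [h, dist_self]; exact hε.le)).2.2
    rw [show t - δ - t = -δ by ring, abs_neg, abs_of_pos w.pos] at h2
    linarith
  have h11 : ∀ s ∈ Icc (t - δ) N.T, ∀ p ∈ A1, ∀ q ∈ A1, p ≠ q → (M m).o ≠ some p →
      (M m).o ≠ some q → (M m).ε < dist ((M m).st A1 s (Z m) p).1 ((M m).st A1 s (Z m) q).1 := by
    intro s hs p hp q hq hpq hop hoq
    by_contra hcon
    obtain ⟨e, he, -, hse⟩ := hP A1 hA1P A1 hA1P k k p hp q hq hpq s ⟨h0a.trans hs.1, hs.2⟩
      (act_of hop) (act_of hoq) (by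
        rw [pos_particle hop, pos_particle hoq, one_mul]; exact not_lt.1 hcon)
    have h1 := (sig_le P πP c.wf.2.2.2.2.2.2.1 c.oP e he).2
    have h2 := le_abs_self (s - sig P πP e)
    linarith [hs.1]
  have h22 : ∀ s ∈ Icc (t - δ) N.T, ∀ p ∈ A2, ∀ q ∈ A2, p ≠ q → (M m).o ≠ some p →
      (M m).o ≠ some q → (M m).ε < dist ((M m).st A2 s (Z m) p).1 ((M m).st A2 s (Z m) q).1 := by
    intro s hs p hp q hq hpq hop hoq
    by_contra hcon
    obtain ⟨e, he, -, hse⟩ := hQ A2 hA2Q A2 hA2Q k k p hp q hq hpq s ⟨h0a.trans hs.1, hs.2⟩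
      (act_of hop) (act_of hoq) (by
        rw [pos_particle hop, pos_particle hoq, one_mul]; exact not_lt.1 hcon)
    have h1 := (sig_le Q πQ c.wf.2.2.2.2.2.2.2 c.oQ e he).2
    have h2 := le_abs_self (s - sig Q πQ e)
    linarith [hs.1]
  -- the scaled state of the pair
  have eA : (M m).st A1 t (Z m) i = (M m).st A t (Z m) i :=
    heP A1 hA1P A c.wf.2.1 i hi c.wf.2.2.2.1 hoi hDi t htIcc
  have eB : (M m).st A2 t (Z m) j = (M m).st B t (Z m) j :=
    heQ A2 hA2Q B c.wf.2.2.1 j hj c.wf.2.2.2.2.1 hoj hDj t htIcc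
  have hss : ss (M m).ε ((M m).st A1 (t - δ) (Z m) i) ((M m).st A2 (t - δ) (Z m) j)
      (t - (t - δ)) = ζ := by
    have f1 := hl1 t htIcc i hi hoim
    have f2 := hl2 t htIcc j hj hojm
    have g1 := hdiff t htIcc
    rw [sub_self, zero_smul, add_zero, ← eA, ← eB] at g1
    have g2 := congrArg Prod.snd hrel
    simp only [ph, Prod.snd_sub, if_neg hoim, if_neg hojm] at g2
    rw [← eA, ← eB] at g2
    unfold ss
    ext1
    · show (1 / (M m).ε) • ((fr ((M m).st A1 (t - δ) (Z m) i) (t - (t - δ))).1 -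
        (fr ((M m).st A2 (t - δ) (Z m) j) (t - (t - δ))).1) = ζ.1
      rw [← f1, ← f2, g1, smul_smul, one_div_mul_cancel hε.ne', one_smul]
    · show ((M m).st A1 (t - δ) (Z m) i).2 - ((M m).st A2 (t - δ) (Z m) j).2 = ζ.2
      have v1 : ((M m).st A1 t (Z m) i).2 = ((M m).st A1 (t - δ) (Z m) i).2 := by rw [f1]; rfl
      have v2 : ((M m).st A2 t (Z m) j).2 = ((M m).st A2 (t - δ) (Z m) j).2 := by rw [f2]; rfl
      rw [← v1, ← v2, g2]
  have hΦe : (M m).Φ = N.Φ := c.H.hΦ m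
  have key := node_paths hΦm hε hd (Z := Z m) (a := t - δ) (t := t) (T' := N.T) (i := i) (j := j)
    (w := kick N.Φ ζ) (k1 := kick1 N.Φ ζ) (K := K)
    hi hj hoim hojm hbi hbj (by linarith) hta
    (ok_anti hta (hokP A1 hA1P)) (ok_anti hta (hokQ A2 hA2Q)) hfar hl1 hl2 hRnn
    (by rw [hΦe]; exact hz) (by rw [hΦe]; exact hW) (by rw [hΦe]; exact hK1) (by linarith) hss hK0
    (fun Z' hZ' s k'' => by
      have h := (hK J (M m).ε hε Z' i j c.hij (t - δ) t hZ' (by linarith) s k'').1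
      rw [hΦe]
      exact h)
    h11 h22 h12 hne
    (fun s hs p hp hpi hop => by
      have h := hPP A1 hA1P hi hDi A1 hA1P k p hp hpi s hs (act_of hop)
      rw [pos_particle hop] at h
      exact h)
    (fun s hs p hp hpj hop => by
      have h := hPQ A1 hA1P hi hDi A2 hA2Q k p hp (fun h => hpj h.1) s hs
      rw [pos_particle hop] at h
      exact h)
    (fun s hs p hp hpj hop => by
      have h := hQQ A2 hA2Q hj hDj A2 hA2Q k p hp hpj s hs
      rw [pos_particle hop] at h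
      exact h)
    (fun s hs p hp hpi hop => by
      have h := hQP A2 hA2Q hj hDj A1 hA1P k p hp (fun h => hpi h.1) s hs (act_of hop)
      rw [pos_particle hop] at h
      exact h)
  rw [hU] at key
  exact ⟨key.1, fun s hs => key.2 s hs.2⟩

end ctx

end Crest.Agent.R122.VL581
end
end

-- ▼ part R122/VLNodeO_399
section

/-!
# Row 122, block D3 (helper399): the sub-worlds of a node without interaction

`Ctx.subW_old`: the field `old` of `SubW` : if the two touching particles do not interact in the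
sub-world `A'`, then its paths are those of the two parts.
-/

set_option autoImplicit false
set_option linter.unusedSectionVars false

open MeasureTheory Set Filter Topology
open scoped ENNReal NNReal
open Crest.AnalysisR.Kinetic
open Crest.Agent.R122.Ins45 Crest.Agent.R122.GIV566 Crest.Agent.R122.VLPar823
open Crest.Agent.R122.VLPar823.MTree
open Crest.Agent.R122.VLcore564 Crest.Agent.R122.VLInst442

noncomputable section

namespace Crest.Agent.R122.VL581

open scoped Classical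

variable {J κ : Type} [Fintype J] [Fintype κ] {M : ℕ → VSys J κ} {N : VSys J κ} {Bd : Set ℝ}
  {A : Finset J} {k : κ} {i : J} {B : Finset J} {l : κ} {j : J} {P Q : MTree J κ} {t : ℝ}
  {ζ : Space3 × Space3} {πP : Par P} {πQ : Par Q} {Z : ℕ → J → PhasePoint} {Zl : J → PhasePoint}

theorem Ctx.subW_old (c : Ctx M N Bd A k i B l j P Q t ζ πP πQ Z Zl) :
    ∀ᶠ m in atTop, ∀ A' ⊆ supp P ∪ supp Q, ¬ N.mrg A i B j P Q t πP πQ A' →
      (M m).ok A' N.T (Z m) ∧ ∀ s ∈ Icc 0 N.T,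
        (∀ p ∈ A' ∩ supp P, (M m).st A' s (Z m) p = (M m).st (A' ∩ supp P) s (Z m) p) ∧
        (∀ q ∈ A' ∩ supp Q, (M m).st A' s (Z m) q = (M m).st (A' ∩ supp Q) s (Z m) q) := by
  obtain ⟨δ, V, w⟩ := c.exists_win
  obtain ⟨R, hR0, hR⟩ := c.crossX w 1
  have hlate : ∀ p : J, t < N.bb p → ∀ᶠ m in atTop, t + R * (M m).ε < (M m).bb p := by
    intro p hp
    have h1 : Tendsto (fun m => (M m).bb p - R * (M m).ε) atTop (𝓝 (N.bb p - R * 0)) :=
      (c.H.bb p).sub (c.H.eps.const_mul R)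
    rw [mul_zero, sub_zero] at h1
    filter_upwards [h1.eventually (lt_mem_nhds hp)] with m hm
    linarith
  have hi : ∀ᶠ m in atTop, t < N.bb i → t + R * (M m).ε < (M m).bb i := by
    by_cases h : t < N.bb i
    · exact (hlate i h).mono fun m hm _ => hm
    · exact Eventually.of_forall fun m h' => absurd h' h
  have hj : ∀ᶠ m in atTop, t < N.bb j → t + R * (M m).ε < (M m).bb j := by
    by_cases h : t < N.bb j
    · exact (hlate j h).mono fun m hm _ => hm
    · exact Eventually.of_forall fun m h' => absurd h' h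
  filter_upwards [hR, hi, hj, c.iP.ok, c.iQ.ok] with m h1 h2 h3 h4 h5 A' hA' hm
  have hΦ : AdmissiblePotential (M m).Φ := by rw [c.H.hΦ]; exact c.H.adm
  have hε := c.H.epos m
  set A₁ := A' ∩ supp P with hA₁
  set A₂ := A' ∩ supp Q with hA₂
  have hd : Disjoint A₁ A₂ := Finset.disjoint_of_subset_left Finset.inter_subset_right
    (Finset.disjoint_of_subset_right Finset.inter_subset_right c.wf.1)
  have hun : A₁ ∪ A₂ = A' := by
    rw [hA₁, hA₂, ← Finset.inter_union_distrib_left]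
    exact Finset.inter_eq_left.2 hA'
  have hok₁ : (M m).ok A₁ N.T (Z m) := h4 A₁ Finset.inter_subset_right
  have hok₂ : (M m).ok A₂ N.T (Z m) := h5 A₂ Finset.inter_subset_right
  have hfar : ∀ s ∈ Ico 0 N.T, ∀ p ∈ A₁, ∀ q ∈ A₂, (M m).o ≠ some p → (M m).o ≠ some q →
      (M m).bb p ≤ s → (M m).bb q ≤ s →
      (M m).ε < dist ((M m).st A₁ s (Z m) p).1 ((M m).st A₂ s (Z m) q).1 := by
    intro s hs p hp q hq hop hoq hbp hbq
    by_contra hcon
    rw [not_lt] at hcon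
    have hact : (M m).act k p s := fun h => absurd h hop
    have hdist : dist ((M m).pos A₁ k s (Z m) p) ((M m).pos A₂ l s (Z m) q) ≤ 1 * (M m).ε := by
      rw [pos_particle hop, pos_particle hoq, one_mul]
      exact hcon
    obtain ⟨hE1, hE2, hst⟩ := h1 A₁ Finset.inter_subset_right A₂ Finset.inter_subset_right k l
      p hp q hq s ⟨hs.1, hs.2.le⟩ hact hdist
    have hpi : p = i := hE1.1
    have hqj : q = j := hE2.1
    rw [hpi] at hp hop hbp
    rw [hqj] at hq hoq hbq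
    rw [c.H.ho m] at hop hoq
    apply hm
    have hs' : s ≤ t + R * (M m).ε := by linarith [(abs_le.1 hst).2]
    refine ⟨⟨hop, hoq, ?_, ?_⟩, (Finset.mem_inter.1 hp).1, (Finset.mem_inter.1 hq).1,
      hE1.2.2 hop, hE2.2.2 hoq⟩
    · rcases lt_or_gt_of_ne (c.G.tbb i) with h | h
      · exact absurd (hbp.trans hs') (not_le.2 (h2 h))
      · exact h
    · rcases lt_or_gt_of_ne (c.G.tbb j) with h | h
      · exact absurd (hbq.trans hs') (not_le.2 (h3 h))
      · exact h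
  have hok := ok_union hΦ hε hd hok₁ hok₂ hfar
  have hst := st_union hΦ hε hd hok₁ hok₂ fun s hs p hp q hq ho ho' hb hb' =>
    (hfar s hs p hp q hq ho ho' hb hb').le
  rw [hun] at hok hst
  exact ⟨hok, fun s hs => hst s hs.2⟩

end Crest.Agent.R122.VL581

end
end

-- ▼ part R122/VLNodeF_564
section

/-!
# Row 122, block D3 (helper564): node step, the fields of `InvC` except the contacts

From `Ctx` (hypotheses of the node step) and `SubW` (paths of the sub-worlds of the union):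
`vel`, `posn`, `ok`, `line`, `eqv`, `conv` for the node.
-/

set_option autoImplicit false
set_option linter.unusedSectionVars false

open MeasureTheory Set Filter Topology
open scoped ENNReal NNReal
open Crest.AnalysisR.Kinetic
open Crest.Agent.R122.Ins45 Crest.Agent.R122.GIV566 Crest.Agent.R122.VLPar823
open Crest.Agent.R122.VLPar823.MTree
open Crest.Agent.R122.VLcore564

noncomputable section

namespace Crest.Agent.R122.VL581

open scoped Classical

section nodeF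

variable {J κ : Type} [Fintype J] {M : ℕ → VSys J κ} {N : VSys J κ} {Bd : Set ℝ}
  {A : Finset J} {k : κ} {i : J} {B : Finset J} {l : κ} {j : J} {P Q : MTree J κ} {t : ℝ}
  {ζ : Space3 × Space3} {πP : Par P} {πQ : Par Q} {Z : ℕ → J → PhasePoint}
  {Zl : J → PhasePoint}

/-- Kick vector of the particle `p` of the sub-world `A'`. -/
def kv (N : VSys J κ) (A : Finset J) (i : J) (B : Finset J) (j : J) (P Q : MTree J κ) (t : ℝ)
    (πP : Par P) (πQ : Par Q) (w : Space3) (A' : Finset J) (p : J) : Space3 :=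
  if N.mrg A i B j P Q t πP πQ A' then (if p = i then w else if p = j then -w else 0) else 0

/-- The part of the sub-world which contains `p`. -/
def sub' (P Q : MTree J κ) (A' : Finset J) (p : J) : Finset J :=
  if p ∈ supp P then A' ∩ supp P else A' ∩ supp Q

/-- The displacement in the part. -/
def Dold (N : VSys J κ) (P Q : MTree J κ) (πP : Par P) (πQ : Par Q) (A' : Finset J) (p : J) :
    PhasePoint :=
  if p ∈ supp P then N.D P πP (A' ∩ supp P) p else N.D Q πQ (A' ∩ supp Q) p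

theorem kv_zero_of_o {w : Space3} {A' : Finset J} {p : J} (ho : N.o = some p) :
    kv N A i B j P Q t πP πQ w A' p = 0 := by
  unfold kv
  split_ifs with h1 h2 h3
  · exact absurd (h2 ▸ ho) h1.1.1
  · exact absurd (h3 ▸ ho) h1.1.2.1
  · rfl
  · rfl

theorem D_kv (A' : Finset J) (p : J) :
    N.D (node A k i B l j P Q) ((t, ζ), πP, πQ) A' p = Dold N P Q πP πQ A' p +
      (-(t • kv N A i B j P Q t πP πQ (kick N.Φ ζ) A' p),
        kv N A i B j P Q t πP πQ (kick N.Φ ζ) A' p) := by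
  rw [VSys.D_node]
  unfold Dold kv
  congr 1
  split_ifs
  · rfl
  · ext1
    · show t • kick N.Φ ζ = -(t • -kick N.Φ ζ)
      rw [smul_neg, neg_neg]
    · rfl
  · ext1
    · show (0 : Space3) = -(t • (0 : Space3))
      rw [smul_zero, neg_zero]
    · rfl
  · ext1
    · show (0 : Space3) = -(t • (0 : Space3))
      rw [smul_zero, neg_zero]
    · rfl

theorem Gam_kv (A' : Finset J) (k' : κ) (s : ℝ) (p : J) :
    N.Gam (node A k i B l j P Q) ((t, ζ), πP, πQ) A' k' s Zl p =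
      (if p ∈ supp P then N.Gam P πP (A' ∩ supp P) k' s Zl p
        else N.Gam Q πQ (A' ∩ supp Q) k' s Zl p) +
      max (s - t) 0 • kv N A i B j P Q t πP πQ (kick N.Φ ζ) A' p := by
  by_cases ho : N.o = some p
  · rw [kv_zero_of_o ho, smul_zero, add_zero]
    unfold VSys.Gam
    simp only [if_pos ho, ite_self]
  · unfold VSys.Gam
    simp only [if_neg ho]
    rw [VSys.Del_node]
    unfold kv
    show (Zl p).1 + s • (Zl p).2 + ((if p ∈ supp P then N.Del P πP (A' ∩ supp P) p s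
      else N.Del Q πQ (A' ∩ supp Q) p s) + (if N.mrg A i B j P Q t πP πQ A' then
        (if p = i then max (s - t) 0 • kick N.Φ ζ
          else if p = j then -(max (s - t) 0 • kick N.Φ ζ) else 0) else 0)) = _
    split_ifs <;> simp only [smul_neg, smul_zero, add_zero, add_assoc]

variable (hC : Ctx M N Bd A k i B l j P Q t ζ πP πQ Z Zl)

include hC

theorem Ctx.iP_mem : i ∈ supp P := hC.wf.2.1 hC.wf.2.2.2.1

theorem Ctx.jQ_mem : j ∈ supp Q := hC.wf.2.2.1 hC.wf.2.2.2.2.1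

theorem Ctx.not_Q {p : J} (hp : p ∈ supp P) : p ∉ supp Q := Finset.disjoint_left.1 hC.wf.1 hp

theorem Ctx.not_P {p : J} (hp : p ∈ supp Q) : p ∉ supp P := Finset.disjoint_right.1 hC.wf.1 hp

theorem Ctx.ij : i ≠ j := fun h => hC.not_Q hC.iP_mem (h ▸ hC.jQ_mem)

theorem Ctx.eps_pos (m : ℕ) : 0 < (M m).ε := (hC.H.eq m).2.2.2

/-- Kick vector of a particle of the left part. -/
theorem Ctx.kv_left (w : Space3) (A' : Finset J) {p : J} (hp : p ∈ supp P) :
    kv N A i B j P Q t πP πQ w A' p =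
      if N.mrg A i B j P Q t πP πQ A' ∧ p = i then w else 0 := by
  have hpj : p ≠ j := fun h => hC.not_P hC.jQ_mem (h ▸ hp)
  unfold kv
  by_cases h1 : N.mrg A i B j P Q t πP πQ A'
  · by_cases h2 : p = i
    · rw [if_pos h1, if_pos h2, if_pos ⟨h1, h2⟩]
    · rw [if_pos h1, if_neg h2, if_neg hpj, if_neg fun h => h2 h.2]
  · rw [if_neg h1, if_neg fun h => h1 h.1]

theorem Ctx.kv_right (w : Space3) (A' : Finset J) {p : J} (hp : p ∈ supp Q) :
    kv N A i B j P Q t πP πQ w A' p =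
      if N.mrg A i B j P Q t πP πQ A' ∧ p = j then -w else 0 := by
  have hpi : p ≠ i := fun h => hC.not_Q hC.iP_mem (h ▸ hp)
  unfold kv
  by_cases h1 : N.mrg A i B j P Q t πP πQ A'
  · by_cases h2 : p = j
    · rw [if_pos h1, if_neg hpi, if_pos h2, if_pos ⟨h1, h2⟩]
    · rw [if_pos h1, if_neg hpi, if_neg h2, if_neg fun h => h2 h.2]
  · rw [if_neg h1, if_neg fun h => h1 h.1]

/-- **The paths of the sub-worlds of the union, unified form**. -/
theorem Ctx.paths (hS : SubW M N A i B j P Q t ζ πP πQ Z) :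
    ∃ R K : ℝ, 0 ≤ R ∧ 0 ≤ K ∧ ∀ᶠ m in atTop, ∀ A' ⊆ supp P ∪ supp Q,
      (M m).ok A' N.T (Z m) ∧ ∀ p ∈ A', ∀ s ∈ Icc 0 N.T,
        (t + R * (M m).ε ≤ s → (M m).st A' s (Z m) p =
          (((M m).st (sub' P Q A' p) s (Z m) p).1 +
            ((M m).ε • kv N A i B j P Q t πP πQ (kick1 N.Φ ζ) A' p +
              (s - t) • kv N A i B j P Q t πP πQ (kick N.Φ ζ) A' p),
            ((M m).st (sub' P Q A' p) s (Z m) p).2 +
              kv N A i B j P Q t πP πQ (kick N.Φ ζ) A' p)) ∧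
        ‖((M m).st A' s (Z m) p).1 - (((M m).st (sub' P Q A' p) s (Z m) p).1 +
          max (s - t) 0 • kv N A i B j P Q t πP πQ (kick N.Φ ζ) A' p)‖ ≤ K * (M m).ε := by
  obtain ⟨R, K, hR, hK, hnew⟩ := hS.new
  refine ⟨R, K, hR, hK, ?_⟩
  filter_upwards [hS.old, hnew] with m hold hnew A' hA'
  have hKε : 0 ≤ K * (M m).ε := mul_nonneg hK (hC.eps_pos m).le
  by_cases hm : N.mrg A i B j P Q t πP πQ A'
  · obtain ⟨hok, hst⟩ := hnew A' hA' hm
    refine ⟨hok, fun p hp s hs => ?_⟩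
    obtain ⟨h1, h2, h3, h4, h5, h6⟩ := hst s hs
    rcases Finset.mem_union.1 (hA' hp) with hpP | hpQ
    · have hsub : sub' P Q A' p = A' ∩ supp P := if_pos hpP
      rw [hsub, hC.kv_left _ _ hpP, hC.kv_left _ _ hpP]
      by_cases hpi : p = i
      · rw [if_pos ⟨hm, hpi⟩, if_pos ⟨hm, hpi⟩]
        subst hpi
        exact ⟨fun h => (h4 h).1, h5⟩
      · rw [if_neg fun h => hpi h.2, if_neg fun h => hpi h.2,
          h1 p (Finset.mem_inter.2 ⟨hp, hpP⟩) hpi]
        simp [hKε]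
    · have hsub : sub' P Q A' p = A' ∩ supp Q := if_neg (hC.not_P hpQ)
      rw [hsub, hC.kv_right _ _ hpQ, hC.kv_right _ _ hpQ]
      by_cases hpj : p = j
      · rw [if_pos ⟨hm, hpj⟩, if_pos ⟨hm, hpj⟩]
        subst hpj
        refine ⟨fun h => ?_, ?_⟩
        · rw [(h4 h).2]
          ext1
          · show _ - _ = _ + _
            rw [smul_neg, smul_neg]
            abel
          · show _ - _ = _ + _
            abel
        · rw [smul_neg, ← sub_eq_add_neg]
          exact h6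
      · rw [if_neg fun h => hpj h.2, if_neg fun h => hpj h.2,
          h2 p (Finset.mem_inter.2 ⟨hp, hpQ⟩) hpj]
        simp [hKε]
  · obtain ⟨hok, hst⟩ := hold A' hA' hm
    refine ⟨hok, fun p hp s hs => ?_⟩
    obtain ⟨h1, h2⟩ := hst s hs
    have hkv : ∀ w : Space3, kv N A i B j P Q t πP πQ w A' p = 0 := fun w => if_neg hm
    rw [hkv, hkv]
    have he : (M m).st A' s (Z m) p = (M m).st (sub' P Q A' p) s (Z m) p := by
      rcases Finset.mem_union.1 (hA' hp) with hpP | hpQ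
      · have hsub : sub' P Q A' p = A' ∩ supp P := if_pos hpP
        rw [hsub]
        exact h1 p (Finset.mem_inter.2 ⟨hp, hpP⟩)
      · have hsub : sub' P Q A' p = A' ∩ supp Q := if_neg (hC.not_P hpQ)
        rw [hsub]
        exact h2 p (Finset.mem_inter.2 ⟨hp, hpQ⟩)
    rw [he]
    simp [hKε]

omit hC in
theorem tendsto_eps (hH : Hyp M N Bd) (R : ℝ) {a t : ℝ} (h : a < t) :
    ∀ᶠ m in atTop, a + R * (M m).ε ≤ t := by
  have h1 : Tendsto (fun m => a + R * (M m).ε) atTop (𝓝 (a + R * 0)) :=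
    tendsto_const_nhds.add (hH.eps.const_mul R)
  rw [mul_zero, add_zero] at h1
  exact (h1.eventually (gt_mem_nhds h)).mono fun m hm => hm.le

/-- The parts move on lines after `t`. -/
theorem Ctx.line_old : ∀ᶠ m in atTop, ∀ A' ⊆ supp P ∪ supp Q, ∀ p ∈ A', N.o ≠ some p →
    ∀ s ∈ Icc t N.T, (M m).st (sub' P Q A' p) s (Z m) p =
      (((M m).st (sub' P Q A' p) N.T (Z m) p).1 -
        (N.T - s) • ((Zl p).2 + (Dold N P Q πP πQ A' p).2),
        (Zl p).2 + (Dold N P Q πP πQ A' p).2) := by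
  obtain ⟨RP, hRP⟩ := hC.iP.line
  obtain ⟨RQ, hRQ⟩ := hC.iQ.line
  filter_upwards [hRP, hRQ, tendsto_eps hC.H RP (tlast_lt P πP hC.t0 hC.oP),
    tendsto_eps hC.H RQ (tlast_lt Q πQ hC.t0 hC.oQ)] with m h1 h2 h3 h4 A' hA' p hp ho s hs
  rcases Finset.mem_union.1 (hA' hp) with hpP | hpQ
  · have hsub : sub' P Q A' p = A' ∩ supp P := if_pos hpP
    have hD : Dold N P Q πP πQ A' p = N.D P πP (A' ∩ supp P) p := if_pos hpP
    rw [hsub, hD]
    exact h1 _ Finset.inter_subset_right p (Finset.mem_inter.2 ⟨hp, hpP⟩) ho s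
      ⟨h3.trans hs.1, hs.2⟩
  · have hsub : sub' P Q A' p = A' ∩ supp Q := if_neg (hC.not_P hpQ)
    have hD : Dold N P Q πP πQ A' p = N.D Q πQ (A' ∩ supp Q) p := if_neg (hC.not_P hpQ)
    rw [hsub, hD]
    exact h2 _ Finset.inter_subset_right p (Finset.mem_inter.2 ⟨hp, hpQ⟩) ho s
      ⟨h4.trans hs.1, hs.2⟩

/-- Equal old displacements give equal old paths after `t`. -/
theorem Ctx.eqv_old : ∀ᶠ m in atTop, ∀ A₁ ⊆ supp P ∪ supp Q, ∀ A₂ ⊆ supp P ∪ supp Q,
    ∀ p ∈ A₁, p ∈ A₂ → N.o ≠ some p → Dold N P Q πP πQ A₁ p = Dold N P Q πP πQ A₂ p →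
    ∀ s ∈ Icc t N.T, (M m).st (sub' P Q A₁ p) s (Z m) p =
      (M m).st (sub' P Q A₂ p) s (Z m) p := by
  obtain ⟨RP, hRP⟩ := hC.iP.eqv
  obtain ⟨RQ, hRQ⟩ := hC.iQ.eqv
  filter_upwards [hRP, hRQ, tendsto_eps hC.H RP (tlast_lt P πP hC.t0 hC.oP),
    tendsto_eps hC.H RQ (tlast_lt Q πQ hC.t0 hC.oQ)]
    with m h1 h2 h3 h4 A₁ hA₁ A₂ hA₂ p hp₁ hp₂ ho hD s hs
  rcases Finset.mem_union.1 (hA₁ hp₁) with hpP | hpQ
  · unfold sub'
    unfold Dold at hD
    rw [if_pos hpP, if_pos hpP] at hD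
    rw [if_pos hpP, if_pos hpP]
    exact h1 _ Finset.inter_subset_right _ Finset.inter_subset_right p
      (Finset.mem_inter.2 ⟨hp₁, hpP⟩) (Finset.mem_inter.2 ⟨hp₂, hpP⟩) ho hD s
      ⟨h3.trans hs.1, hs.2⟩
  · have hpP := hC.not_P hpQ
    unfold sub'
    unfold Dold at hD
    rw [if_neg hpP, if_neg hpP] at hD
    rw [if_neg hpP, if_neg hpP]
    exact h2 _ Finset.inter_subset_right _ Finset.inter_subset_right p
      (Finset.mem_inter.2 ⟨hp₁, hpQ⟩) (Finset.mem_inter.2 ⟨hp₂, hpQ⟩) ho hD s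
      ⟨h4.trans hs.1, hs.2⟩

/-- Equal displacements: equal old displacements and equal kicks. -/
theorem Ctx.kv_eq {A₁ A₂ : Finset J} (hA₁ : A₁ ⊆ supp P ∪ supp Q) (hA₂ : A₂ ⊆ supp P ∪ supp Q)
    {p : J} (hp₁ : p ∈ A₁) (hp₂ : p ∈ A₂)
    (hD : N.D (node A k i B l j P Q) ((t, ζ), πP, πQ) A₁ p =
      N.D (node A k i B l j P Q) ((t, ζ), πP, πQ) A₂ p) :
    Dold N P Q πP πQ A₁ p = Dold N P Q πP πQ A₂ p ∧
      kv N A i B j P Q t πP πQ (kick N.Φ ζ) A₁ p = kv N A i B j P Q t πP πQ (kick N.Φ ζ) A₂ p ∧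
      kv N A i B j P Q t πP πQ (kick1 N.Φ ζ) A₁ p =
        kv N A i B j P Q t πP πQ (kick1 N.Φ ζ) A₂ p := by
  -- if the kick vanishes, there is nothing to prove
  have hzero : N.real i j t → kick N.Φ ζ = 0 → kick1 N.Φ ζ = 0 := fun hr h => by
    unfold kick1
    rw [(hC.G.N5 hr).2.2 h, sub_self, smul_zero]
  have hreal : ∀ A' : Finset J, N.mrg A i B j P Q t πP πQ A' → N.real i j t := fun _ h => h.1
  rw [D_kv, D_kv] at hD
  -- it suffices to compare the kicks by `kick`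
  have key : (kv N A i B j P Q t πP πQ (kick N.Φ ζ) A₁ p =
      kv N A i B j P Q t πP πQ (kick N.Φ ζ) A₂ p ∧
      kv N A i B j P Q t πP πQ (kick1 N.Φ ζ) A₁ p =
        kv N A i B j P Q t πP πQ (kick1 N.Φ ζ) A₂ p) := by
    -- a mixed situation is impossible if the kick does not vanish
    have mixed : ∀ A₁ A₂ : Finset J, A₁ ⊆ supp P ∪ supp Q → A₂ ⊆ supp P ∪ supp Q → p ∈ A₁ →
        p ∈ A₂ → N.mrg A i B j P Q t πP πQ A₁ → ¬ N.mrg A i B j P Q t πP πQ A₂ →
        Dold N P Q πP πQ A₁ p + (-(t • kv N A i B j P Q t πP πQ (kick N.Φ ζ) A₁ p),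
          kv N A i B j P Q t πP πQ (kick N.Φ ζ) A₁ p) =
        Dold N P Q πP πQ A₂ p + (-(t • kv N A i B j P Q t πP πQ (kick N.Φ ζ) A₂ p),
          kv N A i B j P Q t πP πQ (kick N.Φ ζ) A₂ p) →
        kv N A i B j P Q t πP πQ (kick N.Φ ζ) A₁ p = 0 ∧
          kv N A i B j P Q t πP πQ (kick1 N.Φ ζ) A₁ p = 0 := by
      intro A₁ A₂ hA₁ hA₂ hp₁ hp₂ hm₁ hm₂ hE
      have hr := hreal A₁ hm₁
      by_cases hk : kick N.Φ ζ = 0
      · have hk1 := hzero hr hk
        unfold kv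
        rw [hk, hk1]
        simp
      have hkv2 : ∀ w, kv N A i B j P Q t πP πQ w A₂ p = 0 := fun w => if_neg hm₂
      rw [hkv2, smul_zero, neg_zero] at hE
      have hD2 : Dold N P Q πP πQ A₂ p + ((0 : Space3), (0 : Space3)) =
          Dold N P Q πP πQ A₂ p := add_zero _
      rw [hD2] at hE
      rcases Finset.mem_union.1 (hA₁ hp₁) with hpP | hpQ
      · rw [hC.kv_left _ _ hpP, hC.kv_left _ _ hpP]
        rw [hC.kv_left _ _ hpP] at hE
        by_cases hpi : p = i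
        · exfalso
          rw [if_pos ⟨hm₁, hpi⟩] at hE
          unfold Dold at hE
          rw [if_pos hpP, if_pos hpP] at hE
          subst hpi
          rw [hm₁.2.2.2.1] at hE
          exact hC.G.N7P hr hk _ Finset.inter_subset_right
            (Finset.mem_inter.2 ⟨hp₂, hpP⟩) hE.symm
        · rw [if_neg fun h => hpi h.2, if_neg fun h => hpi h.2]
          exact ⟨rfl, rfl⟩
      · rw [hC.kv_right _ _ hpQ, hC.kv_right _ _ hpQ]
        rw [hC.kv_right _ _ hpQ] at hE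
        by_cases hpj : p = j
        · exfalso
          rw [if_pos ⟨hm₁, hpj⟩] at hE
          unfold Dold at hE
          rw [if_neg (hC.not_P hpQ), if_neg (hC.not_P hpQ)] at hE
          subst hpj
          rw [hm₁.2.2.2.2, smul_neg, neg_neg] at hE
          exact hC.G.N7Q hr hk _ Finset.inter_subset_right
            (Finset.mem_inter.2 ⟨hp₂, hpQ⟩) hE.symm
        · rw [if_neg fun h => hpj h.2, if_neg fun h => hpj h.2]
          exact ⟨rfl, rfl⟩
    by_cases hm₁ : N.mrg A i B j P Q t πP πQ A₁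
    · by_cases hm₂ : N.mrg A i B j P Q t πP πQ A₂
      · unfold kv
        rw [if_pos hm₁, if_pos hm₂, if_pos hm₁, if_pos hm₂]
        exact ⟨rfl, rfl⟩
      · obtain ⟨h1, h2⟩ := mixed A₁ A₂ hA₁ hA₂ hp₁ hp₂ hm₁ hm₂ hD
        rw [h1, h2]
        unfold kv
        rw [if_neg hm₂, if_neg hm₂]
        exact ⟨rfl, rfl⟩
    · by_cases hm₂ : N.mrg A i B j P Q t πP πQ A₂
      · obtain ⟨h1, h2⟩ := mixed A₂ A₁ hA₂ hA₁ hp₂ hp₁ hm₂ hm₁ hD.symm
        rw [h1, h2]
        unfold kv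
        rw [if_neg hm₁, if_neg hm₁]
        exact ⟨rfl, rfl⟩
      · unfold kv
        rw [if_neg hm₁, if_neg hm₂, if_neg hm₁, if_neg hm₂]
        exact ⟨rfl, rfl⟩
  refine ⟨?_, key⟩
  rw [key.1] at hD
  exact add_right_cancel hD

/-! ### The fields -/

theorem Ctx.vel' : ∀ᶠ m in atTop, ∀ p ∈ supp (node A k i B l j P Q), (Z m p).2 = (Zl p).2 := by
  filter_upwards [hC.iP.vel, hC.iQ.vel] with m h1 h2 p hp
  rcases Finset.mem_union.1 (show p ∈ supp P ∪ supp Q from hp) with h | h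
  · exact h1 p h
  · exact h2 p h

theorem Ctx.posn' : ∀ p ∈ supp (node A k i B l j P Q),
    Tendsto (fun m => (Z m p).1) atTop (𝓝 (Zl p).1) := by
  intro p hp
  rcases Finset.mem_union.1 (show p ∈ supp P ∪ supp Q from hp) with h | h
  · exact hC.iP.posn p h
  · exact hC.iQ.posn p h

theorem Ctx.ok' (hS : SubW M N A i B j P Q t ζ πP πQ Z) :
    ∀ᶠ m in atTop, ∀ A' ⊆ supp (node A k i B l j P Q), (M m).ok A' N.T (Z m) := by
  obtain ⟨R, K, hR, hK, h⟩ := hC.paths hS
  filter_upwards [h] with m hm A' hA'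
  exact (hm A' hA').1

theorem Ctx.line' (hS : SubW M N A i B j P Q t ζ πP πQ Z) :
    ∃ R : ℝ, ∀ᶠ m in atTop, ∀ A' ⊆ supp (node A k i B l j P Q), ∀ p ∈ A', N.o ≠ some p →
      ∀ s ∈ Icc (tlast (node A k i B l j P Q) ((t, ζ), πP, πQ) + R * (M m).ε) N.T,
      (M m).st A' s (Z m) p =
        (((M m).st A' N.T (Z m) p).1 - (N.T - s) •
          ((Zl p).2 + (N.D (node A k i B l j P Q) ((t, ζ), πP, πQ) A' p).2),
          (Zl p).2 + (N.D (node A k i B l j P Q) ((t, ζ), πP, πQ) A' p).2) := by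
  obtain ⟨R, K, hR, hK, h⟩ := hC.paths hS
  refine ⟨R, ?_⟩
  filter_upwards [h, hC.line_old, tendsto_eps hC.H R hC.tT] with m hm hl hmT A' hA' p hp ho s hs
  have hs1 : t + R * (M m).ε ≤ s := hs.1
  have hRε : 0 ≤ R * (M m).ε := mul_nonneg hR (hC.eps_pos m).le
  have hts : t ≤ s := by linarith
  have hs0 : 0 ≤ s := hC.t0.le.trans hts
  have hT0 : 0 ≤ N.T := hs0.trans hs.2
  have h1 := ((hm A' hA').2 p hp s ⟨hs0, hs.2⟩).1 hs1
  have h2 := ((hm A' hA').2 p hp N.T ⟨hT0, le_rfl⟩).1 hmT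
  have h3 := hl A' hA' p hp ho s ⟨hts, hs.2⟩
  rw [h1, h2, h3, D_kv]
  ext1
  · show _ = (_ + _) - (N.T - s) • ((Zl p).2 + ((Dold N P Q πP πQ A' p).2 + _))
    module
  · show _ + _ + _ = (Zl p).2 + ((Dold N P Q πP πQ A' p).2 + _)
    rw [add_assoc]

theorem Ctx.eqv' (hS : SubW M N A i B j P Q t ζ πP πQ Z) :
    ∃ R : ℝ, ∀ᶠ m in atTop, ∀ A₁ ⊆ supp (node A k i B l j P Q),
      ∀ A₂ ⊆ supp (node A k i B l j P Q), ∀ p ∈ A₁, p ∈ A₂ → N.o ≠ some p →
      N.D (node A k i B l j P Q) ((t, ζ), πP, πQ) A₁ p =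
        N.D (node A k i B l j P Q) ((t, ζ), πP, πQ) A₂ p →
      ∀ s ∈ Icc (tlast (node A k i B l j P Q) ((t, ζ), πP, πQ) + R * (M m).ε) N.T,
        (M m).st A₁ s (Z m) p = (M m).st A₂ s (Z m) p := by
  obtain ⟨R, K, hR, hK, h⟩ := hC.paths hS
  refine ⟨R, ?_⟩
  filter_upwards [h, hC.eqv_old] with m hm he A₁ hA₁ A₂ hA₂ p hp₁ hp₂ ho hD s hs
  have hs1 : t + R * (M m).ε ≤ s := hs.1
  have hRε : 0 ≤ R * (M m).ε := mul_nonneg hR (hC.eps_pos m).le
  have hts : t ≤ s := by linarith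
  have hs0 : 0 ≤ s := hC.t0.le.trans hts
  obtain ⟨hd, hk, hk1⟩ := hC.kv_eq hA₁ hA₂ hp₁ hp₂ hD
  rw [((hm A₁ hA₁).2 p hp₁ s ⟨hs0, hs.2⟩).1 hs1, ((hm A₂ hA₂).2 p hp₂ s ⟨hs0, hs.2⟩).1 hs1,
    he A₁ hA₁ A₂ hA₂ p hp₁ hp₂ ho hd s ⟨hts, hs.2⟩, hk, hk1]

theorem Ctx.conv' (hS : SubW M N A i B j P Q t ζ πP πQ Z) :
    ∀ A' ⊆ supp (node A k i B l j P Q), ∀ k', ∀ p ∈ A',
      TendstoUniformlyOn (fun m s => (M m).pos A' k' s (Z m) p)
        (fun s => N.Gam (node A k i B l j P Q) ((t, ζ), πP, πQ) A' k' s Zl p) atTop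
        (Icc 0 N.T) := by
  intro A' hA' k' p hp
  obtain ⟨R, K, hR, hK, h⟩ := hC.paths hS
  -- the part
  have hold : TendstoUniformlyOn (fun m s => (M m).pos (sub' P Q A' p) k' s (Z m) p)
      (fun s => if p ∈ supp P then N.Gam P πP (A' ∩ supp P) k' s Zl p
        else N.Gam Q πQ (A' ∩ supp Q) k' s Zl p) atTop (Icc 0 N.T) := by
    rcases Finset.mem_union.1 (hA' hp) with hpP | hpQ
    · have hsub : sub' P Q A' p = A' ∩ supp P := if_pos hpP
      simp only [hsub, if_pos hpP]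
      exact hC.iP.conv _ Finset.inter_subset_right k' p (Finset.mem_inter.2 ⟨hp, hpP⟩)
    · have hsub : sub' P Q A' p = A' ∩ supp Q := if_neg (hC.not_P hpQ)
      simp only [hsub, if_neg (hC.not_P hpQ)]
      exact hC.iQ.conv _ Finset.inter_subset_right k' p (Finset.mem_inter.2 ⟨hp, hpQ⟩)
  rw [Metric.tendstoUniformlyOn_iff] at hold ⊢
  intro δ hδ
  have hKε : ∀ᶠ m in atTop, K * (M m).ε < δ / 2 := by
    have h1 : Tendsto (fun m => K * (M m).ε) atTop (𝓝 (K * 0)) := hC.H.eps.const_mul K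
    rw [mul_zero] at h1
    exact h1.eventually (gt_mem_nhds (half_pos hδ))
  filter_upwards [hold (δ / 2) (half_pos hδ), h, hKε] with m h1 h2 h3 s hs
  have h1s := h1 s hs
  rw [Gam_kv]
  by_cases ho : N.o = some p
  · rw [kv_zero_of_o ho, smul_zero, add_zero]
    have hpos : (M m).pos A' k' s (Z m) p = (M m).pos (sub' P Q A' p) k' s (Z m) p := by
      unfold VSys.pos
      have ho' : (M m).o = some p := by rw [(hC.H.eq m).2.2.1]; exact ho
      rw [if_pos ho', if_pos ho']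
    rw [hpos]
    linarith
  · have ho' : (M m).o ≠ some p := by rw [(hC.H.eq m).2.2.1]; exact ho
    have hpos : (M m).pos A' k' s (Z m) p = ((M m).st A' s (Z m) p).1 := if_neg ho'
    have hpos' : (M m).pos (sub' P Q A' p) k' s (Z m) p =
        ((M m).st (sub' P Q A' p) s (Z m) p).1 := if_neg ho'
    rw [hpos'] at h1s
    rw [hpos]
    have h4 := ((h2 A' hA').2 p hp s hs).2
    set G := (if p ∈ supp P then N.Gam P πP (A' ∩ supp P) k' s Zl p
        else N.Gam Q πQ (A' ∩ supp Q) k' s Zl p) with hG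
    set w := max (s - t) 0 • kv N A i B j P Q t πP πQ (kick N.Φ ζ) A' p with hw
    set y := ((M m).st (sub' P Q A' p) s (Z m) p).1 with hy
    set x := ((M m).st A' s (Z m) p).1 with hx
    have h5 : dist (G + w) (y + w) = dist G y := dist_add_right _ _ _
    have h6 : dist (y + w) x ≤ K * (M m).ε := by
      rw [dist_comm, dist_eq_norm]; exact h4
    calc dist (G + w) x ≤ dist (G + w) (y + w) + dist (y + w) x := dist_triangle _ _ _
      _ < δ := by rw [h5]; linarith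

end nodeF

end Crest.Agent.R122.VL581
end
end

-- ▼ part R122/VLNodeC_564

/-!
# Row 122, block D3 (helper564): node step, the contacts

`Ctx.ct'` : the field `ct` of `InvC` for the node, from `Ctx` and `SubW`.
-/

set_option autoImplicit false
set_option linter.unusedSectionVars false

open MeasureTheory Set Filter Topology
open scoped ENNReal NNReal
open Crest.AnalysisR.Kinetic
open Crest.Agent.R122.Ins45 Crest.Agent.R122.GIV566 Crest.Agent.R122.VLPar823
open Crest.Agent.R122.VLPar823.MTree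
open Crest.Agent.R122.VLcore564

noncomputable section

namespace Crest.Agent.R122.VL581

open scoped Classical

section nodeC

variable {J κ : Type} [Fintype J] [Fintype κ] {M : ℕ → VSys J κ} {N : VSys J κ} {Bd : Set ℝ}
  {A : Finset J} {k : κ} {i : J} {B : Finset J} {l : κ} {j : J} {P Q : MTree J κ} {t : ℝ}
  {ζ : Space3 × Space3} {πP : Par P} {πQ : Par Q} {Z : ℕ → J → PhasePoint}
  {Zl : J → PhasePoint}

variable (c : Ctx M N Bd A k i B l j P Q t ζ πP πQ Z Zl)
include c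

/-- The limit relation of the touching labels. -/
theorem Ctx.relL : N.phL P πP A k t Zl i - N.phL Q πQ B l t Zl j = (0, ζ.2) := by
  have h1 := VLInv399.ph_tendsto c.H c.iP c.wf.2.1 k c.wf.2.2.2.1 c.t0.le c.tT.le
    (tlast_lt P πP c.t0 c.oP)
  have h2 := VLInv399.ph_tendsto c.H c.iQ c.wf.2.2.1 l c.wf.2.2.2.2.1 c.t0.le c.tT.le
    (tlast_lt Q πQ c.t0 c.oQ)
  have h3 : Tendsto (fun m => (ph (M m) A k t (Z m) i).1 - (ph (M m) B l t (Z m) j).1) atTop
      (𝓝 ((N.phL P πP A k t Zl i).1 - (N.phL Q πQ B l t Zl j).1)) := h1.2.sub h2.2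
  have h4 : Tendsto (fun m => (ph (M m) A k t (Z m) i).1 - (ph (M m) B l t (Z m) j).1) atTop
      (𝓝 (0 : Space3)) := by
    have h5 : Tendsto (fun m => (M m).ε • ζ.1) atTop (𝓝 ((0 : ℝ) • ζ.1)) :=
      c.H.eps.smul_const ζ.1
    rw [zero_smul] at h5
    refine h5.congr' ?_
    filter_upwards [c.rel] with m hm
    exact (congrArg Prod.fst hm).symm
  ext1
  · exact tendsto_nhds_unique h3 h4
  · obtain ⟨m, hm1, hm2, hm3⟩ := (h1.1.and (h2.1.and c.rel)).exists
    have h6 : (ph (M m) A k t (Z m) i).2 - (ph (M m) B l t (Z m) j).2 = ζ.2 :=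
      congrArg Prod.snd hm3
    rw [hm1, hm2] at h6
    exact h6

/-- Limit paths of different particles of the node meet only at the times of the edges. -/
theorem Ctx.coincN : Coinc N (node A k i B l j P Q) ((t, ζ), πP, πQ) Zl :=
  VLInv399.coinc_node N c.H.adm c.wf c.ac c.oP c.oQ c.G c.relL c.cP c.cQ

/-- Far lemma for two labels of the node. -/
theorem Ctx.far_node (hS : SubW M N A i B j P Q t ζ πP πQ Z) {K : Set ℝ} (hK : IsCompact K)
    (hKT : K ⊆ Icc 0 N.T) {A' B' : Finset J} (hA : A' ⊆ supp (node A k i B l j P Q))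
    (hB : B' ⊆ supp (node A k i B l j P Q)) {k' l' : κ} {p q : J} (hp : p ∈ A') (hq : q ∈ B')
    (hne : ∀ s ∈ K, N.act k' p s → N.act l' q s →
      N.Gam (node A k i B l j P Q) ((t, ζ), πP, πQ) A' k' s Zl p ≠
        N.Gam (node A k i B l j P Q) ((t, ζ), πP, πQ) B' l' s Zl q) (C : ℝ) :
    ∀ᶠ m in atTop, ∀ s ∈ K, (M m).act k' p s → (M m).act l' q s →
      C * (M m).ε < dist ((M m).pos A' k' s (Z m) p) ((M m).pos B' l' s (Z m) q) := by
  have h1 := (c.conv' hS A' hA k' p hp).mono hKT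
  have h2 := (c.conv' hS B' hB l' q hq).mono hKT
  have h3 := farε hK ((continuousOn_Gam N c.H.lipS _ _ A' k' Zl p).mono hKT)
    ((continuousOn_Gam N c.H.lipS _ _ B' l' Zl q).mono hKT)
    h1 h2 (P₁ := N.o = some p) (P₂ := N.o = some q)
    (fun _ => c.H.tubes.active k') (fun _ => c.H.tubes.active l') hne c.H.eps C
  filter_upwards [h3] with m hm s hs a1 a2
  exact hm s hs (fun h => a1 (by rw [c.H.ho]; exact h)) (fun h => a2 (by rw [c.H.ho]; exact h))

/-- Position of a label of the node in terms of its part. -/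
theorem Ctx.pos_node (hS : SubW M N A i B j P Q t ζ πP πQ Z) :
    ∃ K : ℝ, 0 ≤ K ∧ ∀ᶠ m in atTop, ∀ A' ⊆ supp P ∪ supp Q, ∀ k', ∀ p ∈ A', ∀ s ∈ Icc 0 N.T,
      ‖(M m).pos A' k' s (Z m) p - ((M m).pos (sub' P Q A' p) k' s (Z m) p +
        max (s - t) 0 • kv N A i B j P Q t πP πQ (kick N.Φ ζ) A' p)‖ ≤ K * (M m).ε := by
  obtain ⟨R, K, hR, hK, h⟩ := c.paths hS
  refine ⟨K, hK, ?_⟩
  filter_upwards [h] with m hm A' hA' k' p hp s hs
  by_cases ho : N.o = some p
  · have ho' : (M m).o = some p := by rw [c.H.ho]; exact ho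
    have hpos : (M m).pos A' k' s (Z m) p = (M m).pos (sub' P Q A' p) k' s (Z m) p := by
      unfold VSys.pos
      rw [if_pos ho', if_pos ho']
    rw [kv_zero_of_o ho, smul_zero, add_zero, hpos, sub_self, norm_zero]
    exact mul_nonneg hK (c.H.epos m).le
  · have ho' : (M m).o ≠ some p := by rw [c.H.ho]; exact ho
    rw [pos_particle ho', pos_particle ho']
    exact ((hm A' hA').2 p hp s hs).2

/-- The relative velocities after the encounter do not vanish. -/
theorem Ctx.rel_ne {V : Space3} (hV0 : V ≠ 0) (hVV : N.o ≠ some i → V = ζ.2)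
    (A' B' : Finset J) :
    V + (kv N A i B j P Q t πP πQ (kick N.Φ ζ) A' i -
      kv N A i B j P Q t πP πQ (kick N.Φ ζ) B' j) ≠ 0 := by
  have hij := c.ij
  by_cases h1 : N.mrg A i B j P Q t πP πQ A'
  · have hr : N.real i j t := h1.1
    have hV := hVV hr.1
    have hk1 : kv N A i B j P Q t πP πQ (kick N.Φ ζ) A' i = kick N.Φ ζ := by
      unfold kv; rw [if_pos h1, if_pos rfl]
    by_cases h2 : N.mrg A i B j P Q t πP πQ B'
    · have hk2 : kv N A i B j P Q t πP πQ (kick N.Φ ζ) B' j = -kick N.Φ ζ := by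
        unfold kv; rw [if_pos h2, if_neg hij.symm, if_pos rfl]
      rw [hk1, hk2, hV]
      have h3 : ζ.2 + (kick N.Φ ζ - -kick N.Φ ζ) = pout N.Φ ζ := by
        unfold kick; module
      rw [h3]
      intro h4
      have h5 := norm_pout c.H.adm (c.G.N5 hr).1
      rw [h4, norm_zero] at h5
      exact c.G.N4 hr.1 (norm_eq_zero.1 h5.symm)
    · have hk2 : kv N A i B j P Q t πP πQ (kick N.Φ ζ) B' j = 0 := by
        unfold kv; rw [if_neg h2]
      rw [hk1, hk2, hV]
      intro h4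
      apply (c.G.N5 hr).2.1
      have h3 : pout N.Φ ζ + ζ.2 = (2 : ℝ) • (ζ.2 + (kick N.Φ ζ - 0)) := by
        unfold kick; module
      rw [h3, h4, smul_zero]
  · have hk1 : kv N A i B j P Q t πP πQ (kick N.Φ ζ) A' i = 0 := by
      unfold kv; rw [if_neg h1]
    by_cases h2 : N.mrg A i B j P Q t πP πQ B'
    · have hr : N.real i j t := h2.1
      have hV := hVV hr.1
      have hk2 : kv N A i B j P Q t πP πQ (kick N.Φ ζ) B' j = -kick N.Φ ζ := by
        unfold kv; rw [if_pos h2, if_neg hij.symm, if_pos rfl]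
      rw [hk1, hk2, hV]
      intro h4
      apply (c.G.N5 hr).2.1
      have h3 : pout N.Φ ζ + ζ.2 = (2 : ℝ) • (ζ.2 + (0 - -kick N.Φ ζ)) := by
        unfold kick; module
      rw [h3, h4, smul_zero]
    · have hk2 : kv N A i B j P Q t πP πQ (kick N.Φ ζ) B' j = 0 := by
        unfold kv; rw [if_neg h2]
      rw [hk1, hk2, sub_zero, add_zero]
      exact hV0

/-- An edge of the node between different parts is the new one. -/
theorem Ctx.edge_new {p q : J} (hp : p ∈ supp P) (hq : q ∈ supp Q) {e : J × J}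
    (he : e ∈ edg (node A k i B l j P Q)) (hpq : e = (p, q) ∨ e = (q, p)) :
    e = (i, j) ∧ p = i ∧ q = j := by
  rcases VLInv399.mem_edg_node.1 he with h | h | h
  · refine ⟨h, ?_⟩
    rcases hpq with h' | h'
    · rw [h] at h'
      exact ⟨(congrArg Prod.fst h').symm, (congrArg Prod.snd h').symm⟩
    · rw [h] at h'
      have h1 : i = q := congrArg Prod.fst h'
      exact absurd (h1 ▸ hq) (c.not_Q c.iP_mem)
  · have h1 := edg_sub P c.wf.2.2.2.2.2.2.1 e h
    rcases hpq with h' | h'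
    · rw [h'] at h1
      exact absurd hq (c.not_Q h1.2)
    · rw [h'] at h1
      exact absurd hq (c.not_Q h1.1)
  · have h1 := edg_sub Q c.wf.2.2.2.2.2.2.2 e h
    rcases hpq with h' | h'
    · rw [h'] at h1
      exact absurd hp (c.not_P h1.1)
    · rw [h'] at h1
      exact absurd hp (c.not_P h1.2)

theorem Ctx.edge_left {p q : J} (hp : p ∈ supp P) (hq : q ∈ supp P) {e : J × J}
    (he : e ∈ edg (node A k i B l j P Q)) (hpq : e = (p, q) ∨ e = (q, p)) : e ∈ edg P := by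
  rcases VLInv399.mem_edg_node.1 he with h | h | h
  · exfalso
    rcases hpq with h' | h'
    · rw [h] at h'
      have h1 : j = q := congrArg Prod.snd h'
      exact c.not_P c.jQ_mem (h1 ▸ hq)
    · rw [h] at h'
      have h1 : j = p := congrArg Prod.snd h'
      exact c.not_P c.jQ_mem (h1 ▸ hp)
  · exact h
  · exfalso
    have h1 := edg_sub Q c.wf.2.2.2.2.2.2.2 e h
    rcases hpq with h' | h'
    · rw [h'] at h1
      exact c.not_P h1.1 hp
    · rw [h'] at h1
      exact c.not_P h1.1 hq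

theorem Ctx.edge_right {p q : J} (hp : p ∈ supp Q) (hq : q ∈ supp Q) {e : J × J}
    (he : e ∈ edg (node A k i B l j P Q)) (hpq : e = (p, q) ∨ e = (q, p)) : e ∈ edg Q := by
  rcases VLInv399.mem_edg_node.1 he with h | h | h
  · exfalso
    rcases hpq with h' | h'
    · rw [h] at h'
      have h1 : i = p := congrArg Prod.fst h'
      exact c.not_Q c.iP_mem (h1 ▸ hp)
    · rw [h] at h'
      have h1 : i = q := congrArg Prod.fst h'
      exact c.not_Q c.iP_mem (h1 ▸ hq)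
  · exfalso
    have h1 := edg_sub P c.wf.2.2.2.2.2.2.1 e h
    rcases hpq with h' | h'
    · rw [h'] at h1
      exact c.not_Q h1.1 hp
    · rw [h'] at h1
      exact c.not_Q h1.1 hq
  · exact h

/-- Contacts of a label of the left part with a label of the right part. -/
theorem Ctx.ctPQ (hS : SubW M N A i B j P Q t ζ πP πQ Z) (C : ℝ) {A' B' : Finset J}
    (hA : A' ⊆ supp P ∪ supp Q) (hB : B' ⊆ supp P ∪ supp Q) (k' l' : κ) {p q : J} (hp : p ∈ A')
    (hq : q ∈ B') (hpP : p ∈ supp P) (hqQ : q ∈ supp Q) :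
    ∃ R : ℝ, ∀ᶠ m in atTop, ∀ s ∈ Icc 0 N.T, (M m).act k' p s → (M m).act l' q s →
      dist ((M m).pos A' k' s (Z m) p) ((M m).pos B' l' s (Z m) q) ≤ C * (M m).ε →
      p = i ∧ q = j ∧ |s - t| ≤ R * (M m).ε := by
  have hpq : p ≠ q := fun h => c.not_Q hpP (h ▸ hqQ)
  obtain ⟨δ, V, w⟩ := c.exists_win
  obtain ⟨K, hK0, hK⟩ := c.pos_node hS
  have hsubP : sub' P Q A' p = A' ∩ supp P := if_pos hpP
  have hsubQ : sub' P Q B' q = B' ∩ supp Q := if_neg (c.not_P hqQ)
  have hpA : p ∈ A' ∩ supp P := Finset.mem_inter.2 ⟨hp, hpP⟩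
  have hqB : q ∈ B' ∩ supp Q := Finset.mem_inter.2 ⟨hq, hqQ⟩
  -- meetings of the limit paths
  have meet : ∀ s ∈ Icc 0 N.T, N.act k' p s → N.act l' q s →
      N.Gam (node A k i B l j P Q) ((t, ζ), πP, πQ) A' k' s Zl p =
        N.Gam (node A k i B l j P Q) ((t, ζ), πP, πQ) B' l' s Zl q →
      s = t ∧ N.Eqv P πP (A' ∩ supp P) k' p A k i ∧ N.Eqv Q πQ (B' ∩ supp Q) l' q B l j := by
    intro s hs ha hb heq
    obtain ⟨e, he, hee, hse⟩ := c.coincN A' hA B' hB k' l' p hp q hq hpq s hs ha hb heq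
    obtain ⟨he', -, -⟩ := c.edge_new hpP hqQ he hee
    have hst : s = t := by
      rw [hse, he']
      exact VLInv399.sig_new _
    subst hst
    refine ⟨rfl, ?_⟩
    rw [Gam_kv, Gam_kv, if_pos hpP, if_neg (c.not_P hqQ), sub_self, max_self, zero_smul,
      zero_smul, add_zero, add_zero] at heq
    exact c.G.N3 c.ac _ Finset.inter_subset_right _ Finset.inter_subset_right k' l' p hpA q hqB
      ha heq
  by_cases he : N.Eqv P πP (A' ∩ supp P) k' p A k i ∧ N.Eqv Q πQ (B' ∩ supp Q) l' q B l j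
  swap
  · -- no meeting at all
    refine ⟨0, ?_⟩
    have hfar := c.far_node hS isCompact_Icc subset_rfl hA hB (k' := k') (l' := l') hp hq
      (fun s hs ha hb heq => he (meet s hs ha hb heq).2) C
    filter_upwards [hfar] with m hm s hs ha hb hd
    exact absurd hd (not_le.2 (hm s hs ha hb))
  · obtain ⟨heP, heQ⟩ := he
    have hpi : p = i := heP.1
    have hqj : q = j := heQ.1
    set g' : Space3 := V + (kv N A i B j P Q t πP πQ (kick N.Φ ζ) A' i -
      kv N A i B j P Q t πP πQ (kick N.Φ ζ) B' j) with hg'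
    have hg'0 : g' ≠ 0 := c.rel_ne w.V0 w.VV A' B'
    obtain ⟨R', hR'⟩ := ct_broken w.V0 hg'0 (‖ζ.1‖ + 2 * K) C
    refine ⟨R', ?_⟩
    have hKc : IsCompact (Icc 0 N.T \ Ioo (t - δ) (t + δ)) := isCompact_Icc.diff isOpen_Ioo
    have hfar := c.far_node hS hKc sdiff_subset hA hB (k' := k') (l' := l') hp hq
      (fun s hs ha hb heq => by
        have h1 := (meet s hs.1 ha hb heq).1
        refine hs.2 ?_
        rw [h1]
        exact ⟨by linarith [w.pos], by linarith [w.pos]⟩) C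
    filter_upwards [hfar, c.eqv_posP w, c.eqv_posQ w, w.diff, hK] with m hm h1 h2 hd hKm s hs ha
      hb hdist
    refine ⟨hpi, hqj, ?_⟩
    have hsw : s ∈ Ioo (t - δ) (t + δ) := by
      by_contra hcon
      exact absurd hdist (not_le.2 (hm s ⟨hs, hcon⟩ ha hb))
    have e1 := h1 _ Finset.inter_subset_right k' p hpA heP s ⟨hsw.1.le, hs.2⟩
    have e2 := h2 _ Finset.inter_subset_right l' q hqB heQ s ⟨hsw.1.le, hs.2⟩
    have e3 := hd s ⟨hsw.1.le, hsw.2.le⟩
    have e4 := hKm A' hA k' p hp s hs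
    have e5 := hKm B' hB l' q hq s hs
    rw [hsubP, e1, hpi] at e4
    rw [hsubQ, e2, hqj] at e5
    have hε := c.H.epos m
    refine hR' (M m).ε t s ((M m).pos A' k' s (Z m) p - (M m).pos B' l' s (Z m) q) hε ?_ ?_
    · have e6 : (M m).pos A' k' s (Z m) p - (M m).pos B' l' s (Z m) q -
          ((s - t) • V + max (s - t) 0 • (g' - V)) =
          ((M m).pos A' k' s (Z m) p - ((M m).pos A k s (Z m) i +
            max (s - t) 0 • kv N A i B j P Q t πP πQ (kick N.Φ ζ) A' i)) -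
          ((M m).pos B' l' s (Z m) q - ((M m).pos B l s (Z m) j +
            max (s - t) 0 • kv N A i B j P Q t πP πQ (kick N.Φ ζ) B' j)) + (M m).ε • ζ.1 := by
        have e7 : (M m).pos A k s (Z m) i =
            (M m).pos B l s (Z m) j + ((M m).ε • ζ.1 + (s - t) • V) := by
          rw [← e3]; abel
        rw [e7, hg']
        module
      rw [e6]
      refine (norm_add_le _ _).trans ?_
      have e8 : ‖(M m).ε • ζ.1‖ = ‖ζ.1‖ * (M m).ε := by
        rw [norm_smul, Real.norm_eq_abs, abs_of_pos hε, mul_comm]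
      rw [e8]
      have e9 := (norm_sub_le ((M m).pos A' k' s (Z m) p - ((M m).pos A k s (Z m) i +
            max (s - t) 0 • kv N A i B j P Q t πP πQ (kick N.Φ ζ) A' i))
          ((M m).pos B' l' s (Z m) q - ((M m).pos B l s (Z m) j +
            max (s - t) 0 • kv N A i B j P Q t πP πQ (kick N.Φ ζ) B' j)))
      rw [hpi] at e9 ⊢
      rw [hqj] at e9 ⊢
      linarith
    · rw [← dist_eq_norm]
      exact hdist

/-- Contacts of two labels of the left part. -/
theorem Ctx.ctPP (hS : SubW M N A i B j P Q t ζ πP πQ Z) (C : ℝ) {A' B' : Finset J}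
    (hA : A' ⊆ supp P ∪ supp Q) (hB : B' ⊆ supp P ∪ supp Q) (k' l' : κ) {p q : J} (hp : p ∈ A')
    (hq : q ∈ B') (hpP : p ∈ supp P) (hqP : q ∈ supp P) (hpq : p ≠ q) :
    ∃ R : ℝ, ∀ᶠ m in atTop, ∀ s ∈ Icc 0 N.T, (M m).act k' p s → (M m).act l' q s →
      dist ((M m).pos A' k' s (Z m) p) ((M m).pos B' l' s (Z m) q) ≤ C * (M m).ε →
      ∃ e ∈ edg P, (e = (p, q) ∨ e = (q, p)) ∧ |s - sig P πP e| ≤ R * (M m).ε := by
  obtain ⟨δ, V, w⟩ := c.exists_win
  obtain ⟨K, hK0, hK⟩ := c.pos_node hS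
  have hsubP : sub' P Q A' p = A' ∩ supp P := if_pos hpP
  have hsubQ : sub' P Q B' q = B' ∩ supp P := if_pos hqP
  obtain ⟨R, hR⟩ := c.iP.ct (C + 2 * K)
  refine ⟨R, ?_⟩
  have hfar := c.far_node hS (isCompact_Icc (a := t - δ) (b := N.T))
    (Icc_subset_Icc_left w.t0.le) hA hB (k' := k') (l' := l') hp hq
    (fun s hs ha hb heq => by
      obtain ⟨e, he, hee, hse⟩ := c.coincN A' hA B' hB k' l' p hp q hq hpq s
        ⟨w.t0.le.trans hs.1, hs.2⟩ ha hb heq
      have he' := c.edge_left hpP hqP he hee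
      have h1 := sig_left c.wf ((t, ζ), πP, πQ) he'
      rw [h1] at hse
      have h2 : s ≤ tlast P πP := by
        rw [hse]
        exact (sig_le P πP c.wf.2.2.2.2.2.2.1 c.oP e he').2
      linarith [w.lP, hs.1]) C
  filter_upwards [hfar, hR, hK] with m hm hRm hKm s hs ha hb hd
  have hst : s ≤ t - δ := by
    by_contra hcon
    push Not at hcon
    exact absurd hd (not_le.2 (hm s ⟨hcon.le, hs.2⟩ ha hb))
  have hmax : max (s - t) 0 = 0 := max_eq_right (by linarith [w.pos])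
  have e4 := hKm A' hA k' p hp s hs
  have e5 := hKm B' hB l' q hq s hs
  rw [hsubP, hmax, zero_smul, add_zero] at e4
  rw [hsubQ, hmax, zero_smul, add_zero] at e5
  refine hRm _ Finset.inter_subset_right _ Finset.inter_subset_right k' l' p
    (Finset.mem_inter.2 ⟨hp, hpP⟩) q (Finset.mem_inter.2 ⟨hq, hqP⟩) hpq s hs ha hb ?_
  have h1 := dist_triangle4 ((M m).pos (A' ∩ supp P) k' s (Z m) p)
    ((M m).pos A' k' s (Z m) p) ((M m).pos B' l' s (Z m) q)
    ((M m).pos (B' ∩ supp P) l' s (Z m) q)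
  rw [← dist_eq_norm] at e4 e5
  rw [dist_comm] at e4
  linarith

/-- Contacts of two labels of the right part. -/
theorem Ctx.ctQQ (hS : SubW M N A i B j P Q t ζ πP πQ Z) (C : ℝ) {A' B' : Finset J}
    (hA : A' ⊆ supp P ∪ supp Q) (hB : B' ⊆ supp P ∪ supp Q) (k' l' : κ) {p q : J} (hp : p ∈ A')
    (hq : q ∈ B') (hpP : p ∈ supp Q) (hqP : q ∈ supp Q) (hpq : p ≠ q) :
    ∃ R : ℝ, ∀ᶠ m in atTop, ∀ s ∈ Icc 0 N.T, (M m).act k' p s → (M m).act l' q s →
      dist ((M m).pos A' k' s (Z m) p) ((M m).pos B' l' s (Z m) q) ≤ C * (M m).ε →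
      ∃ e ∈ edg Q, (e = (p, q) ∨ e = (q, p)) ∧ |s - sig Q πQ e| ≤ R * (M m).ε := by
  obtain ⟨δ, V, w⟩ := c.exists_win
  obtain ⟨K, hK0, hK⟩ := c.pos_node hS
  have hsubP : sub' P Q A' p = A' ∩ supp Q := if_neg (c.not_P hpP)
  have hsubQ : sub' P Q B' q = B' ∩ supp Q := if_neg (c.not_P hqP)
  obtain ⟨R, hR⟩ := c.iQ.ct (C + 2 * K)
  refine ⟨R, ?_⟩
  have hfar := c.far_node hS (isCompact_Icc (a := t - δ) (b := N.T))
    (Icc_subset_Icc_left w.t0.le) hA hB (k' := k') (l' := l') hp hq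
    (fun s hs ha hb heq => by
      obtain ⟨e, he, hee, hse⟩ := c.coincN A' hA B' hB k' l' p hp q hq hpq s
        ⟨w.t0.le.trans hs.1, hs.2⟩ ha hb heq
      have he' := c.edge_right hpP hqP he hee
      have h1 := sig_right c.wf ((t, ζ), πP, πQ) he'
      rw [h1] at hse
      have h2 : s ≤ tlast Q πQ := by
        rw [hse]
        exact (sig_le Q πQ c.wf.2.2.2.2.2.2.2 c.oQ e he').2
      linarith [w.lQ, hs.1]) C
  filter_upwards [hfar, hR, hK] with m hm hRm hKm s hs ha hb hd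
  have hst : s ≤ t - δ := by
    by_contra hcon
    push Not at hcon
    exact absurd hd (not_le.2 (hm s ⟨hcon.le, hs.2⟩ ha hb))
  have hmax : max (s - t) 0 = 0 := max_eq_right (by linarith [w.pos])
  have e4 := hKm A' hA k' p hp s hs
  have e5 := hKm B' hB l' q hq s hs
  rw [hsubP, hmax, zero_smul, add_zero] at e4
  rw [hsubQ, hmax, zero_smul, add_zero] at e5
  refine hRm _ Finset.inter_subset_right _ Finset.inter_subset_right k' l' p
    (Finset.mem_inter.2 ⟨hp, hpP⟩) q (Finset.mem_inter.2 ⟨hq, hqP⟩) hpq s hs ha hb ?_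
  have h1 := dist_triangle4 ((M m).pos (A' ∩ supp Q) k' s (Z m) p)
    ((M m).pos A' k' s (Z m) p) ((M m).pos B' l' s (Z m) q)
    ((M m).pos (B' ∩ supp Q) l' s (Z m) q)
  rw [← dist_eq_norm] at e4 e5
  rw [dist_comm] at e4
  linarith

/-- **The contacts of the node.** -/
theorem Ctx.ct' (hS : SubW M N A i B j P Q t ζ πP πQ Z) :
    ∀ C : ℝ, ∃ R : ℝ, ∀ᶠ m in atTop, ∀ A' ⊆ supp (node A k i B l j P Q),
      ∀ B' ⊆ supp (node A k i B l j P Q), ∀ k' l', ∀ p ∈ A', ∀ q ∈ B', p ≠ q →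
      ∀ s ∈ Icc 0 N.T, (M m).act k' p s → (M m).act l' q s →
      dist ((M m).pos A' k' s (Z m) p) ((M m).pos B' l' s (Z m) q) ≤ C * (M m).ε →
      ∃ e ∈ edg (node A k i B l j P Q), (e = (p, q) ∨ e = (q, p)) ∧
        |s - sig (node A k i B l j P Q) ((t, ζ), πP, πQ) e| ≤ R * (M m).ε := by
  intro C
  have key := exists_unif (Λ := Finset J × κ × J × Finset J × κ × J) (Pr := fun x R m =>
    x.1 ⊆ supp P ∪ supp Q → x.2.2.2.1 ⊆ supp P ∪ supp Q → x.2.2.1 ∈ x.1 →
      x.2.2.2.2.2 ∈ x.2.2.2.1 → x.2.2.1 ≠ x.2.2.2.2.2 →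
      ∀ s ∈ Icc 0 N.T, (M m).act x.2.1 x.2.2.1 s → (M m).act x.2.2.2.2.1 x.2.2.2.2.2 s →
        dist ((M m).pos x.1 x.2.1 s (Z m) x.2.2.1)
          ((M m).pos x.2.2.2.1 x.2.2.2.2.1 s (Z m) x.2.2.2.2.2) ≤ C * (M m).ε →
        ∃ e ∈ edg (node A k i B l j P Q), (e = (x.2.2.1, x.2.2.2.2.2) ∨
          e = (x.2.2.2.2.2, x.2.2.1)) ∧
          |s - sig (node A k i B l j P Q) ((t, ζ), πP, πQ) e| ≤ R * (M m).ε) ?_ ?_
  · obtain ⟨R, hR⟩ := key
    refine ⟨R, ?_⟩
    filter_upwards [hR] with m hm A' hA' B' hB' k' l' p hp q hq hpq s hs ha hb hd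
    exact hm (A', k', p, B', l', q) hA' hB' hp hq hpq s hs ha hb hd
  · intro x R R' m hRR h h1 h2 h3 h4 h5 s hs ha hb hd
    obtain ⟨e, he, hee, hse⟩ := h h1 h2 h3 h4 h5 s hs ha hb hd
    exact ⟨e, he, hee, hse.trans (mul_le_mul_of_nonneg_right hRR (c.H.epos m).le)⟩
  · rintro ⟨A', k', p, B', l', q⟩
    by_cases hL : A' ⊆ supp P ∪ supp Q ∧ B' ⊆ supp P ∪ supp Q ∧ p ∈ A' ∧ q ∈ B' ∧ p ≠ q
    swap
    · exact ⟨0, Eventually.of_forall fun m h1 h2 h3 h4 h5 => absurd ⟨h1, h2, h3, h4, h5⟩ hL⟩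
    obtain ⟨hA', hB', hp, hq, hpq⟩ := hL
    have hnew : (i, j) ∈ edg (node A k i B l j P Q) := VLInv399.mem_edg_node.2 (Or.inl rfl)
    have hsig : sig (node A k i B l j P Q) ((t, ζ), πP, πQ) (i, j) = t := VLInv399.sig_new _
    rcases Finset.mem_union.1 (hA' hp) with hpP | hpQ
    · rcases Finset.mem_union.1 (hB' hq) with hqP | hqQ
      · obtain ⟨R, hR⟩ := c.ctPP hS C hA' hB' k' l' hp hq hpP hqP hpq
        refine ⟨R, ?_⟩
        filter_upwards [hR] with m hm _ _ _ _ _ s hs ha hb hd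
        obtain ⟨e, he, hee, hse⟩ := hm s hs ha hb hd
        refine ⟨e, VLInv399.mem_edg_node.2 (Or.inr (Or.inl he)), hee, ?_⟩
        rw [sig_left c.wf ((t, ζ), πP, πQ) he]
        exact hse
      · obtain ⟨R, hR⟩ := c.ctPQ hS C hA' hB' k' l' hp hq hpP hqQ
        refine ⟨R, ?_⟩
        filter_upwards [hR] with m hm _ _ _ _ _ s hs ha hb hd
        obtain ⟨h1, h2, h3⟩ := hm s hs ha hb hd
        refine ⟨(i, j), hnew, Or.inl ?_, ?_⟩
        · show (i, j) = (p, q)
          rw [h1, h2]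
        · rw [hsig]
          exact h3
    · rcases Finset.mem_union.1 (hB' hq) with hqP | hqQ
      · obtain ⟨R, hR⟩ := c.ctPQ hS C hB' hA' l' k' hq hp hqP hpQ
        refine ⟨R, ?_⟩
        filter_upwards [hR] with m hm _ _ _ _ _ s hs ha hb hd
        obtain ⟨h1, h2, h3⟩ := hm s hs hb ha (by rw [dist_comm]; exact hd)
        refine ⟨(i, j), hnew, Or.inr ?_, ?_⟩
        · show (i, j) = (q, p)
          rw [h1, h2]
        · rw [hsig]
          exact h3
      · obtain ⟨R, hR⟩ := c.ctQQ hS C hA' hB' k' l' hp hq hpQ hqQ hpq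
        refine ⟨R, ?_⟩
        filter_upwards [hR] with m hm _ _ _ _ _ s hs ha hb hd
        obtain ⟨e, he, hee, hse⟩ := hm s hs ha hb hd
        refine ⟨e, VLInv399.mem_edg_node.2 (Or.inr (Or.inr he)), hee, ?_⟩
        rw [sig_right c.wf ((t, ζ), πP, πQ) he]
        exact hse


end nodeC

end Crest.Agent.R122.VL581
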