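import Mathlib
import Crest.Agent.R122.VLNodeC_564_Mg
import Crest.Agent.R122.VLPlace_399
import Crest.Prelude.Def_KineticLimit
import Crest.Agent.R122.VLGenB_692
import Crest.Agent.R122.VLLim_581
import Crest.Agent.R122.VLCoinc_399
import Crest.Agent.R122.VLPar3_823
import Crest.Agent.R122.GCBounds_311
import Crest.Agent.R122.VLu_664
import Crest.Agent.R122.VCFin_973

-- ▼ part R122/VLNodeStep_581
section

/-!
# Row 122, block D3 (helper581): the node step
-/

set_option autoImplicit false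

open MeasureTheory Set Filter Topology
open Crest.AnalysisR.Kinetic
open Crest.Agent.R122.VLPar823 Crest.Agent.R122.VLPar823.MTree

noncomputable section

namespace Crest.Agent.R122.VL581

/-- **Node step.** -/
theorem node_step {Φ : Space3 → ℝ} : NodeStep Φ := by
  intro J κ _ _ M N Bd hN H A k i B l j P Q hW t ζ πP πQ Z Zl h0 hT hac hoP hoQ hG hIP hIQ hcP hcQ
    hrel
  have c : Ctx M N Bd A k i B l j P Q t ζ πP πQ Z Zl :=
    ⟨H, hW, h0, hT, hac, hoP, hoQ, hG, hIP, hIQ, hcP, hcQ, hrel⟩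
  have hS : SubW M N A i B j P Q t ζ πP πQ Z := ⟨c.subW_old, c.subW_new⟩
  exact ⟨c.vel', c.posn', c.ok' hS, c.line' hS, c.eqv' hS, c.conv' hS, c.ct' hS⟩

end Crest.Agent.R122.VL581
end
end

-- ▼ part R122/VLBInv_399
section

/-!
# Row 122, block D3 (B) (helper399): `BInv` from `NodeStep`

* `BInv Φ`: generic parameters (with active merge tubes) satisfy the invariant.
* `binv_of_nodeStep : NodeStep Φ → BInv Φ`.
-/

set_option autoImplicit false
set_option linter.unusedSectionVars false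

open MeasureTheory Set Filter Topology
open scoped ENNReal NNReal
open Crest.AnalysisR.Kinetic
open Crest.Agent.R122.Ins45 Crest.Agent.R122.GIV566 Crest.Agent.R122.VLPar823
open Crest.Agent.R122.VLPar823.MTree
open Crest.Agent.R122.VLcore564 Crest.Agent.R122.VL581 Crest.Agent.R122.VLInst442

noncomputable section

namespace Crest.Agent.R122.VLInv399

open scoped Classical

/-- **(B)** generic parameters with active merge tubes satisfy the invariant. -/
def BInv (Φ : Space3 → ℝ) : Prop :=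
  ∀ (J κ : Type) [Fintype J] [Fintype κ] (M : ℕ → VSys J κ) (N : VSys J κ) (Bd : Set ℝ),
    N.Φ = Φ → Hyp M N Bd → ∀ τ : MTree J κ, WF N.o τ → ∀ (π : Par τ) (z : PhasePoint)
      (x : J → PhasePoint), Ord τ N.T π → Act N τ π → N.Gen Bd τ π z x → Inv M N τ π z x

theorem binv_aux {Φ : Space3 → ℝ} (hNS : NodeStep Φ) {J κ : Type} [Fintype J] [Fintype κ]
    {M : ℕ → VSys J κ} {N : VSys J κ} {Bd : Set ℝ} (hN : N.Φ = Φ) (hH : Hyp M N Bd) :
    ∀ τ : MTree J κ, WF N.o τ → ∀ (u : ℝ), u ≤ N.T → ∀ (π : Par τ) (z : PhasePoint)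
      (x : J → PhasePoint), Ord τ u π → Act N τ π → N.Gen Bd τ π z x →
      InvC M N τ π (fun n => ov (M n) τ π z x) (N.ovL τ π z x) ∧
        Coinc N τ π (N.ovL τ π z x) ∧ ∀ᶠ n in atTop, OkT (M n) τ π
  | leaf j => fun _ u hu π z x _ _ _ =>
      ⟨invC_leaf hH j π (Function.update x j z), coinc_leaf j π _, Eventually.of_forall fun _ => trivial⟩
  | node A k i B l j P Q => fun hW u hu π z x hO hAct hG => by
    have hW' := hW
    obtain ⟨hd, hA, hB, hi, hj, hoQ, hWP, hWQ⟩ := hW'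
    obtain ⟨ht0, htu, hOP, hOQ⟩ := hO
    obtain ⟨hact, hActP, hActQ⟩ := hAct
    obtain ⟨hGP, hGQ, hGN⟩ := hG
    have htT : π.1.1 < N.T := htu.trans_le hu
    obtain ⟨hIP, hCP, hOkP⟩ := binv_aux hNS hN hH P hWP π.1.1 htT.le π.2.1 z x hOP hActP hGP
    obtain ⟨hIQ, hCQ, hOkQ⟩ := binv_aux hNS hN hH Q hWQ π.1.1 htT.le π.2.2 0 x hOQ hActQ hGQ
    set t : ℝ := π.1.1 with ht
    set ξ : Space3 := π.1.2.1 with hξ
    set g : Space3 := π.1.2.2 with hg
    have hoj : N.o ≠ some j := hoQ j (hB hj)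
    -- states of the touching labels
    set p : ℕ → PhasePoint := fun n => ph (M n) A k t (ov (M n) P π.2.1 z x) i with hp
    set q : ℕ → PhasePoint := fun n => ph (M n) B l t (ov (M n) Q π.2.2 0 x) j with hq
    set pl : PhasePoint := N.phL P π.2.1 A k t (N.ovL P π.2.1 z x) i with hpl
    set ql : PhasePoint := N.phL Q π.2.2 B l t (N.ovL Q π.2.2 0 x) j with hql
    have hp' := ph_tendsto hH hIP hA k hi ht0.le htT.le (tlast_lt hOP ht0)
    have hq' := ph_tendsto hH hIQ hB l hj ht0.le htT.le (tlast_lt hOQ ht0)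
    set w : ℕ → PhasePoint := fun n => mv (M n).ε t (p n) (q n) ξ g with hw
    set wl : PhasePoint := mv 0 t pl ql ξ g with hwl
    have hw2 : ∀ᶠ n in atTop, (w n).2 = wl.2 := by
      filter_upwards [hp'.1, hq'.1] with n h1 h2
      show (p n).2 - g - (q n).2 = pl.2 - g - ql.2
      rw [hp, hq, hpl, hql]
      simp only
      rw [h1, h2]
    have hw1 : Tendsto (fun n => (w n).1) atTop (𝓝 wl.1) := by
      have h1 : Tendsto (fun n => (p n).1 - (M n).ε • ξ - (q n).1 - t • wl.2) atTop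
          (𝓝 (pl.1 - (0 : ℝ) • ξ - ql.1 - t • wl.2)) :=
        ((hp'.2.sub (hH.eps.smul_const ξ)).sub hq'.2).sub tendsto_const_nhds
      refine h1.congr' ?_
      filter_upwards [hw2] with n hn
      rw [← hn]
      rfl
    -- the overlay at the node
    have hnw : ∀ n, nw (M n) A k i B l j P Q t π.2.1 π.2.2 z x ξ g = w n := by
      intro n
      have h1 : ph (M n) B l t (ov (M n) Q π.2.2 0 (ov (M n) P π.2.1 z x)) j = q n :=
        ph_loc' (fun b hb => ov_on' Q hWQ π.2.2 0 _ _ b (hB hb)) hj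
      unfold nw
      rw [h1]
    set Z : ℕ → J → PhasePoint := fun n => ov (M n) (node A k i B l j P Q) π z x with hZ
    have hZP : ∀ n, ∀ y ∈ supp P, Z n y = ov (M n) P π.2.1 z x y := fun n y hy =>
      ov_node_left hW π z x hy
    have hZQ : ∀ᶠ n in atTop, ∀ y ∈ supp Q, Z n y = ov (M n) Q π.2.2 0 x y + w n := by
      filter_upwards [hOkQ] with n hn y hy
      obtain ⟨e1, e2, e3, e4⟩ := hH.eq n
      show ov (M n) (node A k i B l j P Q) π z x y = _
      rw [ov_node, hnw n]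
      have h1 := ov_cov' (M := M n) (by rw [e1]; exact hH.adm) e4 Q (by rw [e3]; exact hWQ)
        (by rw [e3]; exact hoQ) π.2.2 hn 0 (w n) (ov (M n) P π.2.1 z x) x y hy
      rwa [zero_add] at h1
    -- the limit
    have hwl' : mv 0 t pl (N.phL Q π.2.2 B l t (N.ovL Q π.2.2 0 (N.ovL P π.2.1 z x)) j) ξ g = wl := by
      have h1 : N.phL Q π.2.2 B l t (N.ovL Q π.2.2 0 (N.ovL P π.2.1 z x)) j = ql := by
        have := VLGen692.ovL_congr N Q hWQ π.2.2 0 (N.ovL P π.2.1 z x) x (hB hj)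
        simp only [hql, VSys.phL, VSys.Gam, this]
      rw [h1]
    set Zl : J → PhasePoint := N.ovL (node A k i B l j P Q) π z x with hZl
    have hZl' : ∀ y, Zl y = N.ovL Q π.2.2 wl (N.ovL P π.2.1 z x) y := by
      intro y
      rw [← hwl']
      rfl
    have hZlP : ∀ y ∈ supp P, Zl y = N.ovL P π.2.1 z x y := fun y hy => by
      rw [hZl' y, VLGen692.ovL_of_notMem N Q _ _ _ (not_mem_Q hW hy)]
    have hZlQ : ∀ y ∈ supp Q, Zl y = N.ovL Q π.2.2 0 x y + wl := fun y hy => by
      have h1 := VLGen692.ovL_shift N Q hWQ hoQ π.2.2 0 wl x hy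
      rw [zero_add] at h1
      rw [hZl' y, ← h1]
      exact VLGen692.ovL_congr N Q hWQ π.2.2 wl _ _ hy
    -- the invariants of the two parts
    have hIP' : InvC M N P π.2.1 Z Zl := invC_congr hIP (Eventually.of_forall hZP) hZlP
    have hIQ' : InvC M N Q π.2.2 Z Zl :=
      invC_congr (invC_shift hH hIQ hoQ hw2 hw1) hZQ hZlQ
    have hCP' : Coinc N P π.2.1 Zl := coinc_congr hCP hZlP
    have hCQ' : Coinc N Q π.2.2 Zl := coinc_congr (coinc_shift hCQ hoQ wl) hZlQ
    -- the touching labels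
    have hrel : ∀ᶠ m in atTop, ph (M m) A k t (Z m) i - ph (M m) B l t (Z m) j =
        ((M m).ε • π.1.2.1, π.1.2.2) := by
      filter_upwards [hZQ, hIQ.ok] with m h1 h2
      obtain ⟨e1, e2, e3, e4⟩ := hH.eq m
      have h3 : ph (M m) A k t (Z m) i = p m := ph_loc' (fun a ha => hZP m a (hA ha)) hi
      have h4 : ph (M m) B l t (Z m) j = q m + ((w m).1 + t • (w m).2, (w m).2) := by
        have h5 : ph (M m) B l t (Z m) j =
            ph (M m) B l t (fun y => ov (M m) Q π.2.2 0 x y + w m) j :=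
          ph_loc' (fun b hb => h1 b (hB hb)) hj
        rw [h5]
        exact ph_vadd (by rw [e1]; exact hH.adm) e4 (ok_anti htT.le (h2 B hB)) (w m)
          (by rw [e3]; exact hoj)
      rw [h3, h4]
      simp only [hw, mv]
      ext1
      · simp only [Prod.fst_sub, Prod.fst_add]
        module
      · simp only [Prod.snd_sub, Prod.snd_add]
        module
    have hrelL : N.phL P π.2.1 A k t Zl i - N.phL Q π.2.2 B l t Zl j = (0, π.1.2.2) := by
      have h3 : N.phL P π.2.1 A k t Zl i = pl := by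
        have := hZlP i (hA hi)
        simp only [hpl, VSys.phL, VSys.Gam, this]
      have h4 : N.phL Q π.2.2 B l t Zl j = ql + (wl.1 + t • wl.2, wl.2) :=
        VLGen692.phL_shift N hoj (hZlQ j (hB hj))
      rw [h3, h4]
      simp only [hwl, mv]
      ext1
      · simp only [Prod.fst_sub, Prod.fst_add]
        module
      · simp only [Prod.snd_sub, Prod.snd_add]
        module
    refine ⟨?_, ?_, ?_⟩
    · exact hNS J κ M N Bd hN hH A k i B l j P Q hW t π.1.2 π.2.1 π.2.2 Z Zl ht0 htT hact hOP hOQ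
        hGN hIP' hIQ' hCP' hCQ' hrel
    · exact coinc_node N hH.adm hW hact hOP hOQ hGN hrelL hCP' hCQ'
    · filter_upwards [hOkP, hOkQ, hIP.ok] with n h1 h2 h3
      exact ⟨h1, h2, z, x, ok_anti htT.le (h3 A hA)⟩

/-- **(B) from the node step.** -/
theorem binv_of_nodeStep {Φ : Space3 → ℝ} (hNS : NodeStep Φ) : BInv Φ :=
  fun _ _ _ _ _ N _ hN hH τ hW π z x hO hAct hG =>
    (binv_aux hNS hN hH τ hW N.T le_rfl π z x hO hAct hG).1

end Crest.Agent.R122.VLInv399

end
end

-- ▼ part R122/VLAE_399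
section

/-!
# Row 122, block D3 (B) (helper399): `AE` from `AGen` and `BInv`

* `sig_ne_bb`, `sig_inj`: the times of the edges are generic.
* `treeLike_of_invC`: the invariant gives `TreeLike`.
* `not_act_eventually`: an inactive merge tube is inactive for the approximations.
* `ae_treeLike`.
-/

set_option autoImplicit false
set_option linter.unusedSectionVars false

open MeasureTheory Set Filter Topology
open scoped ENNReal NNReal
open Crest.AnalysisR.Kinetic
open Crest.Agent.R122.Ins45 Crest.Agent.R122.GIV566 Crest.Agent.R122.VLPar823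
open Crest.Agent.R122.VLPar823.MTree
open Crest.Agent.R122.VLcore564 Crest.Agent.R122.VL581 Crest.Agent.R122.VLInst442

noncomputable section

namespace Crest.Agent.R122.VLInv399

open scoped Classical

section

variable {J κ : Type} [Fintype J] {M : ℕ → VSys J κ} {N : VSys J κ} {Bd : Set ℝ}

theorem sig_ne_bb : ∀ {τ : MTree J κ}, WF N.o τ → ∀ {π : Par τ} {z : PhasePoint}
    {x : J → PhasePoint}, N.Gen Bd τ π z x → ∀ {e : J × J}, e ∈ edg τ → ∀ p, sig τ π e ≠ N.bb p
  | leaf j, _, _, _, _, _, e, he, _ => absurd he (Finset.notMem_empty e)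
  | node A k i B l j P Q, hW, π, z, x, hG, e, he, p => by
    obtain ⟨hGP, hGQ, hGN⟩ := hG
    rcases mem_edg_node.1 he with rfl | he | he
    · rw [sig_new]
      exact hGN.tbb p
    · rw [sig_left hW π he]
      exact sig_ne_bb hW.2.2.2.2.2.2.1 hGP he p
    · rw [sig_right hW π he]
      exact sig_ne_bb hW.2.2.2.2.2.2.2 hGQ he p

theorem sig_inj : ∀ {τ : MTree J κ}, WF N.o τ → ∀ {u : ℝ} {π : Par τ} {z : PhasePoint}
    {x : J → PhasePoint}, Ord τ u π → N.Gen Bd τ π z x → ∀ {e e' : J × J}, e ∈ edg τ →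
    e' ∈ edg τ → e ≠ e' → sig τ π e ≠ sig τ π e'
  | leaf j, _, _, _, _, _, _, _, e, _, he, _, _ => absurd he (Finset.notMem_empty e)
  | node A k i B l j P Q, hW, u, π, z, x, hO, hG, e, e', he, he', hne => by
    obtain ⟨hGP, hGQ, hGN⟩ := hG
    have hWP := hW.2.2.2.2.2.2.1
    have hWQ := hW.2.2.2.2.2.2.2
    rcases mem_edg_node.1 he with rfl | h1 | h1 <;> rcases mem_edg_node.1 he' with rfl | h2 | h2
    · exact absurd rfl hne
    · rw [sig_new, sig_left hW π h2]
      exact (sig_bounds hWP hO.2.2.1 h2).2.ne'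
    · rw [sig_new, sig_right hW π h2]
      exact (sig_bounds hWQ hO.2.2.2 h2).2.ne'
    · rw [sig_new, sig_left hW π h1]
      exact (sig_bounds hWP hO.2.2.1 h1).2.ne
    · rw [sig_left hW π h1, sig_left hW π h2]
      exact sig_inj hWP hO.2.2.1 hGP h1 h2 hne
    · rw [sig_left hW π h1, sig_right hW π h2]
      exact hGN.tPQ e h1 e' h2
    · rw [sig_new, sig_right hW π h1]
      exact (sig_bounds hWQ hO.2.2.2 h1).2.ne
    · rw [sig_right hW π h1, sig_left hW π h2]
      exact (hGN.tPQ e' h2 e h1).symm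
    · rw [sig_right hW π h1, sig_right hW π h2]
      exact sig_inj hWQ hO.2.2.2 hGQ h1 h2 hne

/-- **TreeLike from the invariant.** -/
theorem treeLike_of_invC (hH : Hyp M N Bd) {τ : MTree J κ} (hW : WF N.o τ) {π : Par τ}
    {z : PhasePoint} {x : J → PhasePoint} (hO : Ord τ N.T π) (hG : N.Gen Bd τ π z x)
    {Z : ℕ → J → PhasePoint} {Zl : J → PhasePoint} (hI : InvC M N τ π Z Zl) (C : ℝ)
    {R ς : ℕ → ℝ} (hR : Tendsto R atTop atTop) (hς : Tendsto ς atTop (𝓝 0)) :
    ∀ᶠ n in atTop, (M n).TreeLike C (R n * (M n).ε) (ς n) (supp τ) (Z n) := by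
  obtain ⟨R₀, hR₀⟩ := hI.ct C
  have h1 : ∀ᶠ n in atTop, ∀ e ∈ edg τ, ς n < sig τ π e ∧ sig τ π e < N.T - ς n := by
    rw [Filter.eventually_all_finset]
    intro e he
    have hb := sig_bounds hW hO he
    have h2 : Tendsto (fun n => N.T - ς n) atTop (𝓝 (N.T - 0)) := tendsto_const_nhds.sub hς
    rw [sub_zero] at h2
    exact (hς.eventually (gt_mem_nhds hb.1)).and (h2.eventually (lt_mem_nhds hb.2))
  have h2 : ∀ᶠ n in atTop, ∀ e ∈ edg τ, ∀ i, ς n < |sig τ π e - (M n).b i| := by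
    rw [Filter.eventually_all_finset]
    intro e he
    rw [eventually_all]
    intro i
    have hb := sig_bounds hW hO he
    have hne : sig τ π e ≠ N.b i := by
      intro h
      have h3 := sig_ne_bb hW hG he i
      unfold VSys.bb at h3
      rw [max_eq_left (by rw [← h]; exact hb.1.le)] at h3
      exact h3 h
    have h3 : Tendsto (fun n => |sig τ π e - (M n).b i| - ς n) atTop
        (𝓝 (|sig τ π e - N.b i| - 0)) :=
      ((tendsto_const_nhds.sub (hH.births i)).abs).sub hς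
    rw [sub_zero] at h3
    filter_upwards [h3.eventually (lt_mem_nhds (abs_pos.2 (sub_ne_zero.2 hne)))] with n hn
    linarith
  have h3 : ∀ᶠ n in atTop, ∀ e ∈ edg τ, ∀ e' ∈ edg τ, e ≠ e' →
      ς n < |sig τ π e - sig τ π e'| := by
    rw [Filter.eventually_all_finset]
    intro e he
    rw [Filter.eventually_all_finset]
    intro e' he'
    by_cases hne : e = e'
    · exact Eventually.of_forall fun _ h => absurd hne h
    · exact (hς.eventually (gt_mem_nhds (abs_pos.2 (sub_ne_zero.2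
        (sig_inj hW hO hG he he' hne))))).mono fun n hn _ => hn
  filter_upwards [h1, h2, h3, hI.ok, hR₀, hR.eventually_ge_atTop R₀] with n g1 g2 g3 g4 g5 g6
  obtain ⟨e1, e2, e3, e4⟩ := hH.eq n
  refine ⟨fun A hA => by rw [e2]; exact g4 A hA, edg τ, sig τ π, edg_card hW,
    fun e he => ⟨(edg_supp hW he).1, (edg_supp hW he).2, edg_ne hW he⟩, ?_, g2, g3, ?_⟩
  · intro e he
    rw [e2]
    exact g1 e he
  · intro i hi j hj hij t ht hct
    obtain ⟨A, hA, B, hB, k, l, hiA, hjB, -, -, a1, a2, hd⟩ := hct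
    rw [e2] at ht
    obtain ⟨e, he, hee, hte⟩ := g5 A hA B hB k l i hiA j hjB hij t ht a1 a2 hd
    exact ⟨e, he, hee, hte.trans (mul_le_mul_of_nonneg_right g6 e4.le)⟩

theorem not_act_eventually (hH : Hyp M N Bd) : ∀ (τ : MTree J κ) (π : Par τ), ¬ Act N τ π →
    ∀ᶠ n in atTop, ¬ Act (M n) τ π
  | leaf j => fun π h => absurd trivial h
  | node A k i B l j P Q => fun π h => by
    by_cases h1 : N.o = some i → π.1.1 ≤ N.S.b k
    · by_cases h2 : Act N P π.2.1
      · have h3 : ¬ Act N Q π.2.2 := fun h3 => h ⟨h1, h2, h3⟩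
        exact (not_act_eventually hH Q π.2.2 h3).mono fun n hn hA => hn hA.2.2
      · exact (not_act_eventually hH P π.2.1 h2).mono fun n hn hA => hn hA.2.1
    · push Not at h1
      have h4 := (hH.tubes.active k).eventually (gt_mem_nhds h1.2)
      filter_upwards [h4] with n hn hA
      obtain ⟨e1, e2, e3, e4⟩ := hH.eq n
      exact absurd (hA.1 (by rw [e3]; exact h1.1)) (not_le.2 hn)

end

/-- **(A)** almost all parameters with active merge tubes are generic. -/
def AGenA (Φ : Space3 → ℝ) : Prop :=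
  ∀ (J κ : Type) [Fintype J] [Fintype κ] (N : VSys J κ) (Bd : Set ℝ), N.Φ = Φ → 0 < N.T →
    Bd.Finite → (∃ L : ℝ≥0, ∀ k, LipschitzOnWith L (N.S.c k) (Icc 0 N.T)) → Generic N.T N.S →
    ∀ τ : MTree J κ, WF N.o τ → ∀ x : J → PhasePoint,
      ∀ᵐ p : Par τ × PhasePoint, Ord τ N.T p.1 → Act N τ p.1 → N.Gen Bd τ p.1 p.2 x

/-- **AE, with active merge tubes**. -/
theorem ae_treeLike {Φ : Space3 → ℝ} (hΦ : AdmissiblePotential Φ) (hA : AGenA Φ) (hB : BInv Φ)
    (J κ : Type) [Fintype J] [Fintype κ] (T C : ℝ) (hT : 0 < T)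
    (M : ℕ → VSys J κ) (o : Option J) (b : J → ℝ) (S : Tubes κ) (R ς : ℕ → ℝ)
    (hM : ∀ k, (M k).Φ = Φ ∧ (M k).T = T ∧ (M k).o = o ∧ 0 < (M k).ε)
    (hε : Tendsto (fun k => (M k).ε) atTop (𝓝 0))
    (hb : ∀ i, Tendsto (fun k => (M k).b i) atTop (𝓝 (b i)))
    (hS : TubeConv T (fun k => (M k).S) S) (hgen : Generic T S)
    (hR : Tendsto R atTop atTop) (hς : Tendsto ς atTop (𝓝 0))
    (τ : MTree J κ) (hW : WF o τ) (hsupp : supp τ = Finset.univ) :
    ∀ᵐ p : Par τ × PhasePoint, Ord τ T p.1 →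
      ∀ᶠ k in atTop, Act (M k) τ p.1 →
        (M k).TreeLike C (R k * (M k).ε) (ς k) Finset.univ (ov (M k) τ p.1 p.2 0) := by
  set N : VSys J κ := { Φ := Φ, T := T, ε := 1, b := b, o := o, S := S } with hN
  obtain ⟨Bd, hBd, hvel⟩ := hS.vel
  have hH : Hyp M N Bd :=
    { adm := hΦ
      Tpos := hT
      eq := hM
      eps := hε
      births := hb
      tubes := hS
      gen := hgen
      fin := hBd
      vel := hvel }
  obtain ⟨L, -, hL⟩ := hS.lip
  filter_upwards [hA J κ N Bd rfl hT hBd ⟨L, hL⟩ hgen τ hW 0] with p hp hO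
  by_cases hact : Act N τ p.1
  · have hG := hp hO hact
    have hI := hB J κ M N Bd rfl hH τ hW p.1 p.2 0 hO hact hG
    have h1 := treeLike_of_invC hH hW hO hG hI C hR hς
    rw [hsupp] at h1
    exact h1.mono fun n hn _ => hn
  · exact (not_act_eventually hH τ p.1 hact).mono fun n hn h => absurd h hn

/-- **AE from (A) and (B)**. -/
theorem ae_of_AB {Φ : Space3 → ℝ} (hΦ : AdmissiblePotential Φ) (hA : AGenA Φ) (hB : BInv Φ) :
    AE Φ := by
  intro J κ _ _ T C hT _ M o b S R ς hM hε hb hS hgen hR hς τ hW hsupp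
  filter_upwards [ae_treeLike hΦ hA hB J κ T C hT M o b S R ς hM hε hb hS hgen hR hς τ hW hsupp]
    with p hp hO
  exact (hp hO).mono fun k hk hact _ => hk hact

end Crest.Agent.R122.VLInv399

end
end

-- ▼ part R122/VLGenB_735
section

/-!
# Row 122, block D3 (helper735): the limit object: final lines, equivariance

* `D_node`, `Del_node`, `Del_eq` (after the last merge the path is the final line);
* `D_parT`, `Del_parT`, `Gam_parT`, `ovL_parT` : equivariance under isometries (no obstacle).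
-/

set_option autoImplicit false
set_option linter.unusedSectionVars false

open MeasureTheory Set Filter Topology Metric
open scoped ENNReal NNReal
open Crest.AnalysisR.Kinetic
open Crest.Agent.R122.Ins45 Crest.Agent.R122.GIV566 Crest.Agent.R122.VL581
open Crest.Agent.R122.Iso735 Crest.Agent.R122.VLPar823 Crest.Agent.R122.VLPar823.MTree
open Crest.Agent.R122.VLcore564 Crest.Agent.R122.VLGen692

noncomputable section

namespace Crest.Agent.R122.VLGen735

open scoped Classical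

variable {J κ : Type} [Fintype J] (N : VSys J κ)

theorem D_node (A : Finset J) (k : κ) (i : J) (B : Finset J) (l : κ) (j : J) (P Q : MTree J κ)
    (π : Par (node A k i B l j P Q)) (C : Finset J) (p : J) :
    N.D (node A k i B l j P Q) π C p =
    (if p ∈ supp P then N.D P π.2.1 (C ∩ supp P) p else N.D Q π.2.2 (C ∩ supp Q) p) +
    if N.mrg A i B j P Q π.1.1 π.2.1 π.2.2 C then
      (if p = i then (-(π.1.1 • kick N.Φ π.1.2), kick N.Φ π.1.2)
        else if p = j then (π.1.1 • kick N.Φ π.1.2, -kick N.Φ π.1.2) else 0)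
    else 0 := by
  by_cases h : N.mrg A i B j P Q π.1.1 π.2.1 π.2.2 C
  · rw [if_pos h]
    exact congrArg (_ + ·) (if_pos h)
  · rw [if_neg h]
    exact congrArg (_ + ·) (if_neg h)

theorem Del_node (A : Finset J) (k : κ) (i : J) (B : Finset J) (l : κ) (j : J) (P Q : MTree J κ)
    (π : Par (node A k i B l j P Q)) (C : Finset J) (p : J) (s : ℝ) :
    N.Del (node A k i B l j P Q) π C p s =
    (if p ∈ supp P then N.Del P π.2.1 (C ∩ supp P) p s else N.Del Q π.2.2 (C ∩ supp Q) p s) +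
    if N.mrg A i B j P Q π.1.1 π.2.1 π.2.2 C then
      (if p = i then max (s - π.1.1) 0 • kick N.Φ π.1.2
        else if p = j then -(max (s - π.1.1) 0 • kick N.Φ π.1.2) else 0)
    else 0 := rfl

/-- after the last time the displacement path is the final line -/
theorem Del_eq : ∀ (τ : MTree J κ) (π : Par τ) (C : Finset J) (p : J) {u : ℝ}, Ord τ u π →
    ∀ s, u ≤ s → N.Del τ π C p s = (N.D τ π C p).1 + s • (N.D τ π C p).2
  | leaf _, _, _, _, _, _, s, _ => by
      show (0 : Space3) = (0 : PhasePoint).1 + s • (0 : PhasePoint).2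
      simp
  | node A k i B l j P Q, π, C, p, u, h, s, hs => by
      obtain ⟨_, htu, hP, hQ⟩ := h
      have hts : π.1.1 ≤ s := htu.le.trans hs
      have h0 : max (s - π.1.1) 0 = s - π.1.1 := max_eq_left (sub_nonneg.2 hts)
      have hP' := Del_eq P π.2.1 (C ∩ supp P) p hP s hts
      have hQ' := Del_eq Q π.2.2 (C ∩ supp Q) p hQ s hts
      rw [Del_node, D_node, h0, hP', hQ']
      split_ifs <;> simp only [Prod.fst_add, Prod.snd_add, Prod.fst_zero, Prod.snd_zero] <;> module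


/-! ### Equivariance -/

theorem parT_node (O : Space3 ≃ₗᵢ[ℝ] Space3) (A : Finset J) (k : κ) (i : J) (B : Finset J) (l : κ)
    (j : J) (P Q : MTree J κ) (π : Par (node A k i B l j P Q)) :
    parT O (node A k i B l j P Q) π =
      ((π.1.1, O π.1.2.1, O π.1.2.2), parT O P π.2.1, parT O Q π.2.2) := rfl

/-- an isometry acting on phase points -/
def phO (O : Space3 ≃ₗᵢ[ℝ] Space3) (z : PhasePoint) : PhasePoint := (O z.1, O z.2)

@[simp] theorem phO_fst (O : Space3 ≃ₗᵢ[ℝ] Space3) (z : PhasePoint) : (phO O z).1 = O z.1 := rfl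
@[simp] theorem phO_snd (O : Space3 ≃ₗᵢ[ℝ] Space3) (z : PhasePoint) : (phO O z).2 = O z.2 := rfl

theorem phO_inj (O : Space3 ≃ₗᵢ[ℝ] Space3) (x y : PhasePoint) : phO O x = phO O y ↔ x = y := by
  simp only [phO, O.injective.eq_iff, Prod.ext_iff]

theorem phO_zero (O : Space3 ≃ₗᵢ[ℝ] Space3) : phO O 0 = 0 := by
  simp [phO]

theorem phO_add (O : Space3 ≃ₗᵢ[ℝ] Space3) (x y : PhasePoint) :
    phO O (x + y) = phO O x + phO O y := by
  simp [phO]

theorem mrg_parT_of {O : Space3 ≃ₗᵢ[ℝ] Space3} {A : Finset J} {i : J} {B : Finset J} {j : J}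
    {P Q : MTree J κ} {t : ℝ} {πP : Par P} {πQ : Par Q}
    (hP : ∀ C p, N.D P (parT O P πP) C p = phO O (N.D P πP C p))
    (hQ : ∀ C p, N.D Q (parT O Q πQ) C p = phO O (N.D Q πQ C p)) (C : Finset J) :
    N.mrg A i B j P Q t (parT O P πP) (parT O Q πQ) C ↔ N.mrg A i B j P Q t πP πQ C := by
  unfold VSys.mrg
  rw [hP, hP, hQ, hQ, phO_inj, phO_inj]

theorem D_parT (hΦ : AdmissiblePotential N.Φ) (O : Space3 ≃ₗᵢ[ℝ] Space3) :
    ∀ (τ : MTree J κ) (π : Par τ) (C : Finset J) (p : J),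
      N.D τ (parT O τ π) C p = phO O (N.D τ π C p)
  | leaf _, _, _, _ => (phO_zero O).symm
  | node A k i B l j P Q, π, C, p => by
      have hP := D_parT hΦ O P π.2.1
      have hQ := D_parT hΦ O Q π.2.2
      have hw : kick N.Φ (O π.1.2.1, O π.1.2.2) = O (kick N.Φ π.1.2) := kick_isometry hΦ O π.1.2
      rw [D_node, D_node, parT_node]
      simp only [hP, hQ, hw, mrg_parT_of N hP hQ]
      rw [phO_add]
      congr 1
      · split_ifs <;> rfl
      · split_ifs
        · simp [phO]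
        · simp [phO]
        · exact (phO_zero O).symm
        · exact (phO_zero O).symm

theorem Del_parT (hΦ : AdmissiblePotential N.Φ) (O : Space3 ≃ₗᵢ[ℝ] Space3) :
    ∀ (τ : MTree J κ) (π : Par τ) (C : Finset J) (p : J) (s : ℝ),
      N.Del τ (parT O τ π) C p s = O (N.Del τ π C p s)
  | leaf _, _, _, _, _ => (map_zero O).symm
  | node A k i B l j P Q, π, C, p, s => by
      have hw : kick N.Φ (O π.1.2.1, O π.1.2.2) = O (kick N.Φ π.1.2) := kick_isometry hΦ O π.1.2
      rw [Del_node, Del_node, parT_node]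
      simp only [Del_parT hΦ O P π.2.1, Del_parT hΦ O Q π.2.2, hw,
        mrg_parT_of N (D_parT N hΦ O P π.2.1) (D_parT N hΦ O Q π.2.2)]
      rw [map_add]
      congr 1
      · split_ifs <;> rfl
      · split_ifs <;> simp

theorem Gam_parT (hΦ : AdmissiblePotential N.Φ) (O : Space3 ≃ₗᵢ[ℝ] Space3) {τ : MTree J κ}
    {π : Par τ} {C : Finset J} {k : κ} {s : ℝ} {Z Z' : J → PhasePoint} {p : J}
    (hp : N.o ≠ some p) (h : Z' p = phO O (Z p)) :
    N.Gam τ (parT O τ π) C k s Z' p = O (N.Gam τ π C k s Z p) := by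
  simp only [VSys.Gam, if_neg hp, h, phO_fst, phO_snd, Del_parT N hΦ O, map_add, map_smul]

theorem phL_parT (hΦ : AdmissiblePotential N.Φ) (O : Space3 ≃ₗᵢ[ℝ] Space3) {τ : MTree J κ}
    {π : Par τ} {C : Finset J} {k : κ} {s : ℝ} {Z Z' : J → PhasePoint} {p : J}
    (hp : N.o ≠ some p) (h : Z' p = phO O (Z p)) :
    N.phL τ (parT O τ π) C k s Z' p = phO O (N.phL τ π C k s Z p) := by
  ext1
  · exact Gam_parT N hΦ O hp h
  · simp only [VSys.phL, if_neg hp, h, phO_snd, D_parT N hΦ O, map_add]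

theorem mv_parT (O : Space3 ≃ₗᵢ[ℝ] Space3) (t : ℝ) (p q : PhasePoint) (ξ g : Space3) :
    mv 0 t (phO O p) (phO O q) (O ξ) (O g) = phO O (mv 0 t p q ξ g) := by
  ext1
  · simp only [mv, phO_fst, phO_snd, map_sub, map_smul]
  · simp only [mv, phO_snd, map_sub]

/-- equivariance of the limit configuration of a merge tree without obstacle -/
theorem ovL_parT (hΦ : AdmissiblePotential N.Φ) (O : Space3 ≃ₗᵢ[ℝ] Space3) :
    ∀ (τ : MTree J κ), WF N.o τ → (∀ p ∈ supp τ, N.o ≠ some p) →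
    ∀ (π : Par τ) (z : PhasePoint) (x : J → PhasePoint) {p : J}, p ∈ supp τ →
      N.ovL τ (parT O τ π) (phO O z) x p = phO O (N.ovL τ π z x p)
  | leaf j => fun _ _ π z x p hp => by
      have : p = j := by simpa [supp] using hp
      subst this
      simp [VSys.ovL]
  | node A k i B l j P Q => fun hτ hno π z x p hp => by
      obtain ⟨hd, hA, hB, hi, hj, ho, hP, hQ⟩ := hτ
      have hnoP : ∀ p ∈ supp P, N.o ≠ some p := fun p hp => hno p (Finset.mem_union_left _ hp)
      have hnoQ : ∀ p ∈ supp Q, N.o ≠ some p := fun p hp => hno p (Finset.mem_union_right _ hp)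
      have e1 : ∀ q ∈ supp P, N.ovL P (parT O P π.2.1) (phO O z) x q =
          phO O (N.ovL P π.2.1 z x q) := fun q hq => ovL_parT hΦ O P hP hnoP _ _ _ hq
      have e2 := phL_parT N hΦ O (τ := P) (π := π.2.1) (C := A) (k := k) (s := π.1.1)
        (hnoP i (hA hi)) (e1 i (hA hi))
      have e3' : N.ovL Q (parT O Q π.2.2) 0 (N.ovL P (parT O P π.2.1) (phO O z) x) j =
          phO O (N.ovL Q π.2.2 0 (N.ovL P π.2.1 z x) j) := by
        rw [ovL_congr N Q hQ _ 0 _ (N.ovL P π.2.1 z x) (hB hj), ← phO_zero O]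
        rw [ovL_parT hΦ O Q hQ hnoQ _ _ _ (hB hj), phO_zero]
      have e3 := phL_parT N hΦ O (τ := Q) (π := π.2.2) (C := B) (k := l) (s := π.1.1)
        (hnoQ j (hB hj)) e3'
      rw [parT_node]
      show N.ovL Q (parT O Q π.2.2)
          (mv 0 π.1.1 (N.phL P (parT O P π.2.1) A k π.1.1 (N.ovL P (parT O P π.2.1) (phO O z) x) i)
          (N.phL Q (parT O Q π.2.2) B l π.1.1 (N.ovL Q (parT O Q π.2.2) 0
            (N.ovL P (parT O P π.2.1) (phO O z) x)) j) (O π.1.2.1) (O π.1.2.2))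
          (N.ovL P (parT O P π.2.1) (phO O z) x) p =
        phO O (N.ovL Q π.2.2 (mv 0 π.1.1 (N.phL P π.2.1 A k π.1.1 (N.ovL P π.2.1 z x) i)
          (N.phL Q π.2.2 B l π.1.1 (N.ovL Q π.2.2 0 (N.ovL P π.2.1 z x)) j) π.1.2.1 π.1.2.2)
          (N.ovL P π.2.1 z x) p)
      rw [e2, e3, mv_parT]
      by_cases hq : p ∈ supp Q
      · rw [ovL_parT hΦ O Q hQ hnoQ _ _ _ hq,
          ovL_congr N Q hQ π.2.2 _ (N.ovL P (parT O P π.2.1) (phO O z) x) (N.ovL P π.2.1 z x) hq]
      · rw [ovL_of_notMem N Q _ _ _ hq, ovL_of_notMem N Q _ _ _ hq]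
        refine e1 p ?_
        rcases Finset.mem_union.1 hp with h | h
        · exact h
        · exact absurd h hq

end Crest.Agent.R122.VLGen735
end
end

-- ▼ part R122/VLGenC_692
section

/-!
# Row 122, block D3 (A) (helper692): the conditions (N5), (N6), (N7) of `GenNode` hold for almost
all parameters

* `ae_ray_node` : curve + `(s - t) • f ζ` has no zero for almost all parameters;
* `ovL_left`, `ovL_right`, `Gam_left`, `Gam_right` : the limit paths of a node;
* `ae_cross_add` : `Γ_P - Γ_Q + (s - t) • (f ζ - g) ≠ 0`;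
* `ae_N5`, `ae_N6a`, …, `ae_N7Q` and the collection `Rest`, `ae_rest`.
-/

set_option autoImplicit false

open MeasureTheory Set Filter Topology Metric
open scoped ENNReal NNReal
open Crest.AnalysisR.Kinetic
open Crest.Agent.R122.Ins45 Crest.Agent.R122.GIV566 Crest.Agent.R122.VLPar823
open Crest.Agent.R122.VLPar823.MTree Crest.Agent.R122.VL581
open Crest.Agent.R122.VLcore564 Crest.Agent.R122.Iso735 Crest.Agent.R122.VLGen735

noncomputable section

namespace Crest.Agent.R122.VLGen692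

open scoped Classical

/-! ### General lemmas -/

section general

variable {X Y W : Type*} [MeasurableSpace X] [MeasurableSpace Y] [MeasurableSpace W]
  {μX : Measure X} {μY : Measure Y} {μZ : Measure W} [SFinite μX] [SFinite μY] [SFinite μZ]

/-- a curve plus a ray in an isotropic direction -/
theorem ae_ray_node {T : ℝ} {f : Space3 × Space3 → Space3} (hf : Measurable f)
    (he : Iso735.Eqv (volume : Measure (Space3 × Space3)) f) {c : ℝ → X → Y → W → ℝ → Space3}
    (hc : ∀ t x y z, ∃ C : ℝ≥0, LipschitzWith C (c t x y z))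
    (hm : ∀ s, Measurable fun p : ((ℝ × Space3 × Space3) × X × Y) × W =>
      c p.1.1.1 p.1.2.1 p.1.2.2 p.2 s) :
    ∀ᵐ p ∂(nodeM μX μY μZ), f p.1.1.2 ≠ 0 → ∀ s ∈ Icc 0 T, s ≠ p.1.1.1 →
      c p.1.1.1 p.1.2.1 p.1.2.2 p.2 s + (s - p.1.1.1) • f p.1.1.2 ≠ 0 := by
  have mt : Measurable fun p : ((ℝ × Space3 × Space3) × X × Y) × W => p.1.1.1 :=
    Measurable.fst (Measurable.fst measurable_fst)
  have mz : Measurable fun p : ((ℝ × Space3 × Space3) × X × Y) × W => p.1.1.2 :=
    Measurable.snd (Measurable.fst measurable_fst)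
  have mf : Measurable fun p : ((ℝ × Space3 × Space3) × X × Y) × W => f p.1.1.2 := hf.comp mz
  have hB1 : MeasurableSet {p : ((ℝ × Space3 × Space3) × X × Y) × W | ∃ s ∈ Icc 0 T,
      s ≠ p.1.1.1 ∧ c p.1.1.1 p.1.2.1 p.1.2.2 p.2 s + (s - p.1.1.1) • f p.1.1.2 = 0} := by
    refine measurableSet_exists_zero (F := fun p s =>
      c p.1.1.1 p.1.2.1 p.1.2.2 p.2 s + (s - p.1.1.1) • f p.1.1.2) (fun p => ?_) (fun s _ => ?_) mt
    · obtain ⟨C, hC⟩ := hc p.1.1.1 p.1.2.1 p.1.2.2 p.2
      have : Continuous fun s : ℝ => (s - p.1.1.1) • f p.1.1.2 := by fun_prop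
      exact (hC.continuous.add this).continuousOn
    · exact (hm s).add ((measurable_const.sub mt).smul mf)
  have hB2 : MeasurableSet {p : ((ℝ × Space3 × Space3) × X × Y) × W | f p.1.1.2 = 0} :=
    mf (measurableSet_singleton 0)
  have hB := hB2.compl.inter hB1
  have key := ae_sec_q (μX := μX) (μY := μY) (μZ := μZ) hB (fun t x y z => by
    obtain ⟨C, hC⟩ := hc t x y z
    filter_upwards [he.ae_ne_ray hf (a := 0) (b := T) (hC.lipschitzOnWith (s := Icc 0 T)) t]
      with q hq hmem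
    obtain ⟨h1, s, hs, hst, h0⟩ := hmem
    exact hq h1 s hs hst h0)
  filter_upwards [key] with p hp h0 s hs hst h
  exact hp ⟨h0, s, hs, hst, h⟩

/-- projection to `(ξ, g)` -/
theorem ae_of_ae_q {p : Space3 × Space3 → Prop} (h : ∀ᵐ q : Space3 × Space3, p q) :
    ∀ᵐ r ∂(nodeM μX μY μZ), p r.1.1.2 := by
  have h1 : Measure.QuasiMeasurePreserving (fun r : ((ℝ × Space3 × Space3) × X × Y) × W => r.1.1.2)
      (nodeM μX μY μZ) (volume : Measure (Space3 × Space3)) := by
    have a1 : Measure.QuasiMeasurePreserving (Prod.fst : ((ℝ × Space3 × Space3) × X × Y) × W → _)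
        (nodeM μX μY μZ) ((volume : Measure (ℝ × Space3 × Space3)).prod (μX.prod μY)) :=
      Measure.quasiMeasurePreserving_fst
    have a2 : Measure.QuasiMeasurePreserving (Prod.fst : (ℝ × Space3 × Space3) × X × Y → _)
        ((volume : Measure (ℝ × Space3 × Space3)).prod (μX.prod μY)) volume :=
      Measure.quasiMeasurePreserving_fst
    have a3 : Measure.QuasiMeasurePreserving (Prod.snd : ℝ × Space3 × Space3 → Space3 × Space3)
        volume volume := Measure.quasiMeasurePreserving_snd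
    exact a3.comp (a2.comp a1)
  exact h1.ae h

end general

/-! ### The limit paths of a node -/

section node

variable {J κ : Type} [Fintype J] {N : VSys J κ} {A : Finset J} {k : κ} {i : J} {B : Finset J}
  {l : κ} {j : J} {P Q : MTree J κ}

/-- `Gam` only depends on the state of the particle -/
theorem Gam_congr {τ : MTree J κ} {π : Par τ} {A' : Finset J} {k' : κ} {s : ℝ}
    {Z Z' : J → PhasePoint} {p : J} (h : Z p = Z' p) :
    N.Gam τ π A' k' s Z p = N.Gam τ π A' k' s Z' p := by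
  simp only [VSys.Gam, h]

/-- the root state of the right part -/
def wL (N : VSys J κ) (A : Finset J) (k : κ) (i : J) (B : Finset J) (l : κ) (j : J)
    (P Q : MTree J κ) (t : ℝ) (ζ : Space3 × Space3) (πP : Par P) (πQ : Par Q) (z : PhasePoint)
    (x : J → PhasePoint) : PhasePoint :=
  mv 0 t (N.phL P πP A k t (N.ovL P πP z x) i)
    (N.phL Q πQ B l t (N.ovL Q πQ 0 (N.ovL P πP z x)) j) ζ.1 ζ.2

theorem ovL_left (hwf : WF N.o (node A k i B l j P Q)) (π : Par (node A k i B l j P Q))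
    (z : PhasePoint) (x : J → PhasePoint) {p : J} (hp : p ∈ supp P) :
    N.ovL (node A k i B l j P Q) π z x p = N.ovL P π.2.1 z x p := by
  have hd := hwf.1
  have hq : p ∉ supp Q := fun h => (Finset.disjoint_left.1 hd) hp h
  show N.ovL Q π.2.2 _ (N.ovL P π.2.1 z x) p = _
  exact ovL_of_notMem N Q _ _ _ hq

theorem ovL_right (hwf : WF N.o (node A k i B l j P Q)) (π : Par (node A k i B l j P Q))
    (z : PhasePoint) (x : J → PhasePoint) {p : J} (hp : p ∈ supp Q) :
    N.ovL (node A k i B l j P Q) π z x p =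
      N.ovL Q π.2.2 0 x p + wL N A k i B l j P Q π.1.1 π.1.2 π.2.1 π.2.2 z x := by
  obtain ⟨hd, hA, hB, hi, hj, ho, hP, hQ⟩ := hwf
  have h1 := ovL_shift N Q hQ ho π.2.2 0 (wL N A k i B l j P Q π.1.1 π.1.2 π.2.1 π.2.2 z x)
    (N.ovL P π.2.1 z x) hp
  rw [zero_add] at h1
  have h2 := ovL_congr N Q hQ π.2.2 0 (N.ovL P π.2.1 z x) x hp
  rw [h2] at h1
  exact h1

theorem Gam_left (hwf : WF N.o (node A k i B l j P Q)) (π : Par (node A k i B l j P Q))
    (z : PhasePoint) (x : J → PhasePoint) (A' : Finset J) (k' : κ) (s : ℝ) {p : J}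
    (hp : p ∈ supp P) :
    N.Gam P π.2.1 A' k' s (N.ovL (node A k i B l j P Q) π z x) p =
      N.Gam P π.2.1 A' k' s (N.ovL P π.2.1 z x) p := Gam_congr (ovL_left hwf π z x hp)

/-- relative free line of the touching labels -/
def pq (N : VSys J κ) (A : Finset J) (k : κ) (i : J) (B : Finset J) (l : κ) (j : J)
    (P Q : MTree J κ) (t : ℝ) (πP : Par P) (πQ : Par Q) (z : PhasePoint)
    (x : J → PhasePoint) : PhasePoint :=
  N.phL P πP A k t (N.ovL P πP z x) i - N.phL Q πQ B l t (N.ovL Q πQ 0 x) j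

theorem wL_eq (hwf : WF N.o (node A k i B l j P Q)) (t : ℝ) (ζ : Space3 × Space3) (πP : Par P)
    (πQ : Par Q) (z : PhasePoint) (x : J → PhasePoint) (s : ℝ) :
    (wL N A k i B l j P Q t ζ πP πQ z x).1 + s • (wL N A k i B l j P Q t ζ πP πQ z x).2 =
      (pq N A k i B l j P Q t πP πQ z x).1 +
        (s - t) • ((pq N A k i B l j P Q t πP πQ z x).2 - ζ.2) := by
  obtain ⟨hd, hA, hB, hi, hj, ho, hP, hQ⟩ := hwf
  have h2 := ovL_congr N Q hQ πQ 0 (N.ovL P πP z x) x (hB hj)
  have h3 : N.phL Q πQ B l t (N.ovL Q πQ 0 (N.ovL P πP z x)) j =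
      N.phL Q πQ B l t (N.ovL Q πQ 0 x) j := by
    simp only [VSys.phL, VSys.Gam, h2]
  simp only [wL, pq, mv, h3, Prod.fst_sub, Prod.snd_sub]
  module

theorem Gam_right (hwf : WF N.o (node A k i B l j P Q)) (π : Par (node A k i B l j P Q))
    (z : PhasePoint) (x : J → PhasePoint) (B' : Finset J) (l' : κ) (s : ℝ) {p : J}
    (hp : p ∈ supp Q) :
    N.Gam Q π.2.2 B' l' s (N.ovL (node A k i B l j P Q) π z x) p =
      N.Gam Q π.2.2 B' l' s (N.ovL Q π.2.2 0 x) p +
        ((pq N A k i B l j P Q π.1.1 π.2.1 π.2.2 z x).1 +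
        (s - π.1.1) • ((pq N A k i B l j P Q π.1.1 π.2.1 π.2.2 z x).2 - π.1.2.2)) := by
  have ho := hwf.2.2.2.2.2.1
  rw [← wL_eq hwf π.1.1 π.1.2 π.2.1 π.2.2 z x s]
  exact Gam_shift N (ho p hp) (ovL_right hwf π z x hp)

/-! ### Measurability and Lipschitz continuity at a node -/

variable (hΦ : AdmissiblePotential N.Φ) (hT : 0 ≤ N.T)
  (hc : ∃ L : ℝ≥0, ∀ k, LipschitzOnWith L (N.S.c k) (Icc 0 N.T))

include hΦ hT hc

theorem measurable_GamP (x : J → PhasePoint) (A' : Finset J) (k' : κ) (s : ℝ) (p : J) :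
    Measurable fun r : ((ℝ × Space3 × Space3) × Par P × Par Q) × PhasePoint =>
      N.Gam P r.1.2.1 A' k' s (N.ovL P r.1.2.1 r.2 x) p := by
  have m1 : Measurable fun r : ((ℝ × Space3 × Space3) × Par P × Par Q) × PhasePoint => r.1.2.1 :=
    Measurable.fst (Measurable.snd measurable_fst)
  exact measurable_Gam' hΦ hT hc P A' k' p m1 measurable_const
    (measurable_ovL hΦ hT hc P _ _ (fun _ => x) m1 measurable_snd (fun _ => measurable_const) p)

theorem measurable_GamQ (x : J → PhasePoint) (A' : Finset J) (k' : κ) (s : ℝ) (p : J) :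
    Measurable fun r : ((ℝ × Space3 × Space3) × Par P × Par Q) × PhasePoint =>
      N.Gam Q r.1.2.2 A' k' s (N.ovL Q r.1.2.2 0 x) p := by
  have m1 : Measurable fun r : ((ℝ × Space3 × Space3) × Par P × Par Q) × PhasePoint => r.1.2.2 :=
    Measurable.snd (Measurable.snd measurable_fst)
  exact measurable_Gam' hΦ hT hc Q A' k' p m1 measurable_const
    (measurable_ovL hΦ hT hc Q _ (fun _ => 0) (fun _ => x) m1 measurable_const
      (fun _ => measurable_const) p)

theorem measurable_pq (x : J → PhasePoint) :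
    Measurable fun r : ((ℝ × Space3 × Space3) × Par P × Par Q) × PhasePoint =>
      pq N A k i B l j P Q r.1.1.1 r.1.2.1 r.1.2.2 r.2 x := by
  have m0 : Measurable fun r : ((ℝ × Space3 × Space3) × Par P × Par Q) × PhasePoint => r.1.1.1 :=
    Measurable.fst (Measurable.fst measurable_fst)
  have m1 : Measurable fun r : ((ℝ × Space3 × Space3) × Par P × Par Q) × PhasePoint => r.1.2.1 :=
    Measurable.fst (Measurable.snd measurable_fst)
  have m2 : Measurable fun r : ((ℝ × Space3 × Space3) × Par P × Par Q) × PhasePoint => r.1.2.2 :=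
    Measurable.snd (Measurable.snd measurable_fst)
  exact (measurable_phL hΦ hT hc P A k i m1 m0
    (measurable_ovL hΦ hT hc P _ _ (fun _ => x) m1 measurable_snd
      (fun _ => measurable_const) i)).sub
    (measurable_phL hΦ hT hc Q B l j m2 m0
    (measurable_ovL hΦ hT hc Q _ (fun _ => 0) (fun _ => x) m2 measurable_const
      (fun _ => measurable_const) j))

variable {μZ : Measure PhasePoint} [SFinite μZ]

/-- two paths of the left part -/
theorem ae_PP {f : Space3 × Space3 → Space3} (hf : Measurable f)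
    (he : Iso735.Eqv (volume : Measure (Space3 × Space3)) f) (x : J → PhasePoint)
    (A' : Finset J) (k' : κ) (i' : J) (A'' : Finset J) (k'' : κ) (i'' : J) :
    ∀ᵐ p ∂(nodeM (volume : Measure (Par P)) (volume : Measure (Par Q)) μZ), f p.1.1.2 ≠ 0 →
      ∀ s ∈ Icc 0 N.T, s ≠ p.1.1.1 →
        (N.Gam P p.1.2.1 A' k' s (N.ovL P p.1.2.1 p.2 x) i' -
          N.Gam P p.1.2.1 A'' k'' s (N.ovL P p.1.2.1 p.2 x) i'') +
          (s - p.1.1.1) • f p.1.1.2 ≠ 0 := by
  refine ae_ray_node hf he (c := fun _ πP _ z s =>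
    N.Gam P πP A' k' s (N.ovL P πP z x) i' - N.Gam P πP A'' k'' s (N.ovL P πP z x) i'')
    (fun t πP πQ z => ?_) (fun s => ?_)
  · obtain ⟨C1, h1⟩ := lipschitz_Gam hT hc P πP A' k' (N.ovL P πP z x) i'
    obtain ⟨C2, h2⟩ := lipschitz_Gam hT hc P πP A'' k'' (N.ovL P πP z x) i''
    exact ⟨C1 + C2, h1.sub h2⟩
  · exact (measurable_GamP hΦ hT hc x A' k' s i').sub (measurable_GamP hΦ hT hc x A'' k'' s i'')

/-- two paths of the right part -/
theorem ae_QQ {f : Space3 × Space3 → Space3} (hf : Measurable f)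
    (he : Iso735.Eqv (volume : Measure (Space3 × Space3)) f) (x : J → PhasePoint)
    (B' : Finset J) (l' : κ) (j' : J) (B'' : Finset J) (l'' : κ) (j'' : J) :
    ∀ᵐ p ∂(nodeM (volume : Measure (Par P)) (volume : Measure (Par Q)) μZ), f p.1.1.2 ≠ 0 →
      ∀ s ∈ Icc 0 N.T, s ≠ p.1.1.1 →
        (N.Gam Q p.1.2.2 B' l' s (N.ovL Q p.1.2.2 0 x) j' -
          N.Gam Q p.1.2.2 B'' l'' s (N.ovL Q p.1.2.2 0 x) j'') +
          (s - p.1.1.1) • f p.1.1.2 ≠ 0 := by
  refine ae_ray_node hf he (c := fun _ _ πQ _ s =>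
    N.Gam Q πQ B' l' s (N.ovL Q πQ 0 x) j' - N.Gam Q πQ B'' l'' s (N.ovL Q πQ 0 x) j'')
    (fun t πP πQ z => ?_) (fun s => ?_)
  · obtain ⟨C1, h1⟩ := lipschitz_Gam hT hc Q πQ B' l' (N.ovL Q πQ 0 x) j'
    obtain ⟨C2, h2⟩ := lipschitz_Gam hT hc Q πQ B'' l'' (N.ovL Q πQ 0 x) j''
    exact ⟨C1 + C2, h1.sub h2⟩
  · exact (measurable_GamQ hΦ hT hc x B' l' s j').sub (measurable_GamQ hΦ hT hc x B'' l'' s j'')

/-- a path of the left part and a path of the right part -/
theorem ae_PQ {f : Space3 × Space3 → Space3} (hf : Measurable f)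
    (he : Iso735.Eqv (volume : Measure (Space3 × Space3)) f) (x : J → PhasePoint)
    (A' : Finset J) (k' : κ) (i' : J) (B' : Finset J) (l' : κ) (j' : J) :
    ∀ᵐ p ∂(nodeM (volume : Measure (Par P)) (volume : Measure (Par Q)) μZ), f p.1.1.2 ≠ 0 →
      ∀ s ∈ Icc 0 N.T, s ≠ p.1.1.1 →
        (N.Gam P p.1.2.1 A' k' s (N.ovL P p.1.2.1 p.2 x) i' -
          N.Gam Q p.1.2.2 B' l' s (N.ovL Q p.1.2.2 0 x) j' -
          (pq N A k i B l j P Q p.1.1.1 p.1.2.1 p.1.2.2 p.2 x).1 -
          (s - p.1.1.1) • (pq N A k i B l j P Q p.1.1.1 p.1.2.1 p.1.2.2 p.2 x).2) +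
          (s - p.1.1.1) • f p.1.1.2 ≠ 0 := by
  refine ae_ray_node hf he (c := fun t πP πQ z s =>
    N.Gam P πP A' k' s (N.ovL P πP z x) i' - N.Gam Q πQ B' l' s (N.ovL Q πQ 0 x) j' -
      (pq N A k i B l j P Q t πP πQ z x).1 - (s - t) • (pq N A k i B l j P Q t πP πQ z x).2)
    (fun t πP πQ z => ?_) (fun s => ?_)
  · obtain ⟨C1, h1⟩ := lipschitz_Gam hT hc P πP A' k' (N.ovL P πP z x) i'
    obtain ⟨C2, h2⟩ := lipschitz_Gam hT hc Q πQ B' l' (N.ovL Q πQ 0 x) j'
    have h3 : LipschitzWith ‖(pq N A k i B l j P Q t πP πQ z x).2‖₊ fun s : ℝ =>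
        (s - t) • (pq N A k i B l j P Q t πP πQ z x).2 := by
      refine LipschitzWith.of_dist_le_mul fun s s' => ?_
      rw [dist_eq_norm, ← sub_smul, norm_smul, coe_nnnorm, mul_comm, dist_eq_norm,
        sub_sub_sub_cancel_right]
    exact ⟨_, ((h1.sub h2).sub (LipschitzWith.const _)).sub h3⟩
  · have m0 : Measurable fun r : ((ℝ × Space3 × Space3) × Par P × Par Q) × PhasePoint =>
        r.1.1.1 := Measurable.fst (Measurable.fst measurable_fst)
    have h3 := measurable_pq (A := A) (k := k) (i := i) (B := B) (l := l) (j := j) (P := P)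
      (Q := Q) hΦ hT hc x
    exact (((measurable_GamP hΦ hT hc x A' k' s i').sub
      (measurable_GamQ hΦ hT hc x B' l' s j')).sub h3.fst).sub
      ((measurable_const.sub m0).smul h3.snd)

omit hT hc in
/-- (N7) -/
theorem ae_N7P (A' : Finset J) :
    ∀ᵐ p ∂(nodeM (volume : Measure (Par P)) (volume : Measure (Par Q)) μZ),
      kick N.Φ p.1.1.2 ≠ 0 → N.D P p.1.2.1 A' i ≠ N.D P p.1.2.1 A i +
        (-(p.1.1.1 • kick N.Φ p.1.1.2), kick N.Φ p.1.1.2) := by
  have m0 : Measurable fun r : ((ℝ × Space3 × Space3) × Par P × Par Q) × PhasePoint =>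
    r.1.1.1 := Measurable.fst (Measurable.fst measurable_fst)
  have mz : Measurable fun r : ((ℝ × Space3 × Space3) × Par P × Par Q) × PhasePoint =>
    kick N.Φ r.1.1.2 := (measurable_kick hΦ).comp (Measurable.snd (Measurable.fst measurable_fst))
  have m1 : Measurable fun r : ((ℝ × Space3 × Space3) × Par P × Par Q) × PhasePoint => r.1.2.1 :=
    Measurable.fst (Measurable.snd measurable_fst)
  have hB1 : MeasurableSet {p : ((ℝ × Space3 × Space3) × Par P × Par Q) × PhasePoint |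
      kick N.Φ p.1.1.2 = 0} := mz (measurableSet_singleton 0)
  have hB2 : MeasurableSet {p : ((ℝ × Space3 × Space3) × Par P × Par Q) × PhasePoint |
      N.D P p.1.2.1 A' i = N.D P p.1.2.1 A i +
        ((-(p.1.1.1 • kick N.Φ p.1.1.2), kick N.Φ p.1.1.2) : PhasePoint)} :=
    measurableSet_eq_fun ((measurable_D N hΦ P A' i).comp m1)
      (((measurable_D N hΦ P A i).comp m1).add ((m0.smul mz).neg.prodMk mz))
  have key := ae_sec_t (μX := (volume : Measure (Par P))) (μY := (volume : Measure (Par Q)))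
    (μZ := μZ) (hB1.compl.inter hB2) (fun q x y z => by
      have hs : Set.Subsingleton {t : ℝ | kick N.Φ q ≠ 0 ∧ N.D P x A' i = N.D P x A i +
          ((-(t • kick N.Φ q), kick N.Φ q) : PhasePoint)} := by
        rintro t ⟨h0, h1⟩ t' ⟨_, h2⟩
        have h3 := congrArg Prod.fst (add_left_cancel (h1.symm.trans h2))
        have h4 : t • kick N.Φ q = t' • kick N.Φ q := neg_inj.1 h3
        exact smul_left_injective ℝ h0 h4
      have := hs.measure_zero (volume : Measure ℝ)
      rw [ae_iff]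
      refine measure_mono_null ?_ this
      intro t ht
      simpa using ht)
  filter_upwards [key] with p hp h0 h
  exact hp ⟨h0, h⟩

omit hT hc in
theorem ae_N7Q (B' : Finset J) :
    ∀ᵐ p ∂(nodeM (volume : Measure (Par P)) (volume : Measure (Par Q)) μZ),
      kick N.Φ p.1.1.2 ≠ 0 → N.D Q p.1.2.2 B' j ≠ N.D Q p.1.2.2 B j +
        (p.1.1.1 • kick N.Φ p.1.1.2, -kick N.Φ p.1.1.2) := by
  have m0 : Measurable fun r : ((ℝ × Space3 × Space3) × Par P × Par Q) × PhasePoint =>
    r.1.1.1 := Measurable.fst (Measurable.fst measurable_fst)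
  have mz : Measurable fun r : ((ℝ × Space3 × Space3) × Par P × Par Q) × PhasePoint =>
    kick N.Φ r.1.1.2 := (measurable_kick hΦ).comp (Measurable.snd (Measurable.fst measurable_fst))
  have m1 : Measurable fun r : ((ℝ × Space3 × Space3) × Par P × Par Q) × PhasePoint => r.1.2.2 :=
    Measurable.snd (Measurable.snd measurable_fst)
  have hB1 : MeasurableSet {p : ((ℝ × Space3 × Space3) × Par P × Par Q) × PhasePoint |
      kick N.Φ p.1.1.2 = 0} := mz (measurableSet_singleton 0)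
  have hB2 : MeasurableSet {p : ((ℝ × Space3 × Space3) × Par P × Par Q) × PhasePoint |
      N.D Q p.1.2.2 B' j = N.D Q p.1.2.2 B j +
        ((p.1.1.1 • kick N.Φ p.1.1.2, -kick N.Φ p.1.1.2) : PhasePoint)} :=
    measurableSet_eq_fun ((measurable_D N hΦ Q B' j).comp m1)
      (((measurable_D N hΦ Q B j).comp m1).add ((m0.smul mz).prodMk mz.neg))
  have key := ae_sec_t (μX := (volume : Measure (Par P))) (μY := (volume : Measure (Par Q)))
    (μZ := μZ) (hB1.compl.inter hB2) (fun q x y z => by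
      have hs : Set.Subsingleton {t : ℝ | kick N.Φ q ≠ 0 ∧ N.D Q y B' j = N.D Q y B j +
          ((t • kick N.Φ q, -kick N.Φ q) : PhasePoint)} := by
        rintro t ⟨h0, h1⟩ t' ⟨_, h2⟩
        have h3 := congrArg Prod.fst (add_left_cancel (h1.symm.trans h2))
        have h4 : t • kick N.Φ q = t' • kick N.Φ q := h3
        exact smul_left_injective ℝ h0 h4
      have := hs.measure_zero (volume : Measure ℝ)
      rw [ae_iff]
      refine measure_mono_null ?_ this
      intro t ht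
      simpa using ht)
  filter_upwards [key] with p hp h0 h
  exact hp ⟨h0, h⟩

end node

/-! ### Collection -/

section rest

variable {J κ : Type} [Fintype J] (N : VSys J κ)

/-- The conditions (N5), (N6), (N7) of `GenNode`. -/
structure Rest (A : Finset J) (k : κ) (i : J) (B : Finset J) (l : κ) (j : J)
    (P Q : MTree J κ) (t : ℝ) (ζ : Space3 × Space3) (πP : Par P) (πQ : Par Q)
    (Z : J → PhasePoint) : Prop where
  /-- (N5) scattering -/
  N5 : N.real i j t → (∃ R : ℝ, Exi N.Φ R ζ) ∧ pout N.Φ ζ + ζ.2 ≠ 0 ∧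
    (kick N.Φ ζ = 0 → qout N.Φ ζ = ζ.1)
  /-- (N6) the outgoing lines -/
  N6a : N.real i j t → kick N.Φ ζ ≠ 0 → ∀ s ∈ Ioc t N.T, ∀ A' ⊆ supp P, ∀ k', ∀ i' ∈ A', i' ≠ i →
    N.act k' i' s → N.Gam P πP A' k' s Z i' ≠ N.Gam P πP A k s Z i + (s - t) • kick N.Φ ζ
  N6b : N.real i j t → kick N.Φ ζ ≠ 0 → ∀ s ∈ Ioc t N.T, ∀ B' ⊆ supp Q, ∀ l', ∀ j' ∈ B',
    ¬ N.Eqv Q πQ B' l' j' B l j →
    N.Gam Q πQ B' l' s Z j' ≠ N.Gam P πP A k s Z i + (s - t) • kick N.Φ ζ
  N6c : N.real i j t → kick N.Φ ζ ≠ 0 → ∀ s ∈ Ioc t N.T, ∀ B' ⊆ supp Q, ∀ l', ∀ j' ∈ B', j' ≠ j →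
    N.Gam Q πQ B' l' s Z j' ≠ N.Gam Q πQ B l s Z j - (s - t) • kick N.Φ ζ
  N6d : N.real i j t → kick N.Φ ζ ≠ 0 → ∀ s ∈ Ioc t N.T, ∀ A' ⊆ supp P, ∀ k', ∀ i' ∈ A',
    ¬ N.Eqv P πP A' k' i' A k i → N.act k' i' s →
    N.Gam P πP A' k' s Z i' ≠ N.Gam Q πQ B l s Z j - (s - t) • kick N.Φ ζ
  /-- (N7) no accidental equality of displacements -/
  N7P : N.real i j t → kick N.Φ ζ ≠ 0 → ∀ A' ⊆ supp P, i ∈ A' →
    N.D P πP A' i ≠ N.D P πP A i + (-(t • kick N.Φ ζ), kick N.Φ ζ)
  N7Q : N.real i j t → kick N.Φ ζ ≠ 0 → ∀ B' ⊆ supp Q, j ∈ B' →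
    N.D Q πQ B' j ≠ N.D Q πQ B j + (t • kick N.Φ ζ, -kick N.Φ ζ)

variable {N}

/-- **(N5), (N6), (N7) hold for almost all parameters**, for every s-finite law of the root. -/
theorem ae_rest [Fintype κ] (hΦ : AdmissiblePotential N.Φ) (hT : 0 ≤ N.T)
    (hc : ∃ L : ℝ≥0, ∀ k, LipschitzOnWith L (N.S.c k) (Icc 0 N.T)) {A : Finset J} {k : κ} {i : J}
    {B : Finset J} {l : κ} {j : J} {P Q : MTree J κ} (hwf : WF N.o (node A k i B l j P Q))
    (x : J → PhasePoint) (μZ : Measure PhasePoint) [SFinite μZ] :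
    ∀ᵐ p ∂((volume : Measure (Par (node A k i B l j P Q))).prod μZ), 0 < p.1.1.1 →
      Rest N A k i B l j P Q p.1.1.1 p.1.1.2 p.1.2.1 p.1.2.2
        (N.ovL (node A k i B l j P Q) p.1 p.2 x) := by
  have hk := measurable_kick hΦ
  have ek := eqv_kick hΦ
  have hg := measurable_add_kick hΦ
  have eg := eqv_add_kick hΦ
  have a1 : ∀ᵐ p ∂(nodeM (volume : Measure (Par P)) (volume : Measure (Par Q)) μZ),
      ∃ R₀ : ℝ, ∀ R, R₀ ≤ R → Exi N.Φ R p.1.1.2 := ae_of_ae_q (ae_exited hΦ)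
  have a2 : ∀ᵐ p ∂(nodeM (volume : Measure (Par P)) (volume : Measure (Par Q)) μZ),
      pout N.Φ p.1.1.2 ≠ -p.1.1.2.2 :=
    ae_of_ae_q (p := fun z => pout N.Φ z ≠ -z.2) (ae_pout_swap hΦ)
  have a3 : ∀ᵐ p ∂(nodeM (volume : Measure (Par P)) (volume : Measure (Par Q)) μZ),
      pout N.Φ p.1.1.2 = p.1.1.2.2 → qout N.Φ p.1.1.2 = p.1.1.2.1 :=
    ae_of_ae_q (p := fun z => pout N.Φ z = z.2 → qout N.Φ z = z.1) (ae_glance hΦ)
  have a4 : ∀ᵐ p ∂(nodeM (volume : Measure (Par P)) (volume : Measure (Par Q)) μZ),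
      p.1.1.2.2 + kick N.Φ p.1.1.2 ≠ 0 :=
    ae_of_ae_q (p := fun z => z.2 + kick N.Φ z ≠ 0) (ae_add_kick hΦ)
  have b1 := ae_all_iff.2 fun A' : Finset J => ae_all_iff.2 fun k' : κ => ae_all_iff.2 fun i' : J =>
    ae_PP (P := P) (Q := Q) (μZ := μZ) hΦ hT hc hk ek x A k i A' k' i'
  have b2 := ae_all_iff.2 fun A' : Finset J => ae_all_iff.2 fun k' : κ => ae_all_iff.2 fun i' : J =>
    ae_PQ (A := A) (k := k) (i := i) (B := B) (l := l) (j := j) (P := P) (Q := Q) (μZ := μZ)
      hΦ hT hc hg eg x A k i A' k' i'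
  have b3 := ae_all_iff.2 fun A' : Finset J => ae_all_iff.2 fun k' : κ => ae_all_iff.2 fun i' : J =>
    ae_QQ (P := P) (Q := Q) (μZ := μZ) hΦ hT hc hk ek x A' k' i' B l j
  have b4 := ae_all_iff.2 fun A' : Finset J => ae_all_iff.2 fun k' : κ => ae_all_iff.2 fun i' : J =>
    ae_PQ (A := A) (k := k) (i := i) (B := B) (l := l) (j := j) (P := P) (Q := Q) (μZ := μZ)
      hΦ hT hc hg eg x A' k' i' B l j
  have c1 := ae_all_iff.2 fun A' : Finset J =>
    ae_N7P (A := A) (i := i) (P := P) (Q := Q) (μZ := μZ) hΦ A'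
  have c2 := ae_all_iff.2 fun B' : Finset J =>
    ae_N7Q (B := B) (j := j) (P := P) (Q := Q) (μZ := μZ) hΦ B'
  have hgoal : ∀ᵐ p ∂(nodeM (volume : Measure (Par P)) (volume : Measure (Par Q)) μZ),
      0 < p.1.1.1 → Rest N A k i B l j P Q p.1.1.1 p.1.1.2 p.1.2.1 p.1.2.2
        (N.ovL (node A k i B l j P Q) p.1 p.2 x) := by
    filter_upwards [a1, a2, a3, a4, b1, b2, b3, b4, c1, c2] with p
      ⟨R₀, h1⟩ h2 h3 h4 hb1 hb2 hb3 hb4 hc1 hc2 ht
    have hA : A ⊆ supp P := hwf.2.1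
    have hB : B ⊆ supp Q := hwf.2.2.1
    have hi : i ∈ supp P := hA hwf.2.2.2.1
    have hj : j ∈ supp Q := hB hwf.2.2.2.2.1
    have hIcc : ∀ {s : ℝ}, s ∈ Ioc p.1.1.1 N.T → s ∈ Icc 0 N.T := fun {s} hs =>
      ⟨(ht.trans hs.1).le, hs.2⟩
    refine ⟨fun _ => ⟨⟨R₀, h1 R₀ le_rfl⟩, fun h => h2 (eq_neg_of_add_eq_zero_left h), fun h => ?_⟩,
      ?_, ?_, ?_, ?_, fun _ h0 A' _ _ => hc1 A' h0, fun _ h0 B' _ _ => hc2 B' h0⟩
    · refine h3 ?_
      have h5 : pout N.Φ p.1.1.2 - p.1.1.2.2 = 0 := by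
        rcases smul_eq_zero.1 h with h | h
        · norm_num at h
        · exact h
      exact sub_eq_zero.1 h5
    · intro _ h0 s hs A' hA' k' i' hi' _ _ he
      rw [Gam_left hwf p.1 p.2 x A' k' s (hA' hi'), Gam_left hwf p.1 p.2 x A k s hi] at he
      refine hb1 A' k' i' h0 s (hIcc hs) hs.1.ne' ?_
      rw [he]
      abel
    · intro _ h0 s hs B' hB' l' j' hj' _ he
      rw [Gam_right hwf p.1 p.2 x B' l' s (hB' hj'), Gam_left hwf p.1 p.2 x A k s hi] at he
      refine hb2 B' l' j' h4 s (hIcc hs) hs.1.ne' ?_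
      have he' := sub_eq_zero.2 he
      rw [← neg_eq_zero, ← he']
      module
    · intro _ h0 s hs B' hB' l' j' hj' _ he
      rw [Gam_right hwf p.1 p.2 x B' l' s (hB' hj'), Gam_right hwf p.1 p.2 x B l s hj] at he
      refine hb3 B' l' j' h0 s (hIcc hs) hs.1.ne' ?_
      have he' := sub_eq_zero.2 he
      rw [← he']
      module
    · intro _ h0 s hs A' hA' k' i' hi' _ _ he
      rw [Gam_left hwf p.1 p.2 x A' k' s (hA' hi'), Gam_right hwf p.1 p.2 x B l s hj] at he
      refine hb4 A' k' i' h4 s (hIcc hs) hs.1.ne' ?_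
      have he' := sub_eq_zero.2 he
      rw [← he']
      module
  exact hgoal

end rest

end Crest.Agent.R122.VLGen692
end
end

-- ▼ part R122/VLGenE_735
section

/-!
# Row 122, block D3 (A) (helper735): condition (N3) of `GenNode` holds for almost all parameters

* `ae_iso` : a relative displacement of the right part at the merge time is not a given vector `≠ 0`;
* `ae_affine` : different final lines are at different points at the merge time;
* `ae_N3`.
-/

set_option autoImplicit false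
set_option linter.unusedSectionVars false

open MeasureTheory Set Filter Topology Metric
open scoped ENNReal NNReal
open Crest.AnalysisR.Kinetic
open Crest.Agent.R122.Ins45 Crest.Agent.R122.GIV566 Crest.Agent.R122.VL581
open Crest.Agent.R122.Iso735 Crest.Agent.R122.VLPar823 Crest.Agent.R122.VLPar823.MTree
open Crest.Agent.R122.VLcore564 Crest.Agent.R122.VLGen692

noncomputable section

namespace Crest.Agent.R122.VLGen735

open scoped Classical

/-! ### Projections of the node measure -/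

section proj

variable {X Y W : Type*} [MeasurableSpace X] [MeasurableSpace Y] [MeasurableSpace W]
  {μX : Measure X} {μY : Measure Y} {μZ : Measure W} [SFinite μX] [SFinite μY] [SFinite μZ]

theorem ae_of_ae_t {p : ℝ → Prop} (h : ∀ᵐ t : ℝ, p t) :
    ∀ᵐ r ∂(nodeM μX μY μZ), p r.1.1.1 := by
  have a1 : Measure.QuasiMeasurePreserving (Prod.fst : ((ℝ × Space3 × Space3) × X × Y) × W → _)
      (nodeM μX μY μZ) ((volume : Measure (ℝ × Space3 × Space3)).prod (μX.prod μY)) :=
    Measure.quasiMeasurePreserving_fst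
  have a2 : Measure.QuasiMeasurePreserving (Prod.fst : (ℝ × Space3 × Space3) × X × Y → _)
      ((volume : Measure (ℝ × Space3 × Space3)).prod (μX.prod μY)) volume :=
    Measure.quasiMeasurePreserving_fst
  have a3 : Measure.QuasiMeasurePreserving (Prod.fst : ℝ × Space3 × Space3 → ℝ)
      volume volume := Measure.quasiMeasurePreserving_fst
  exact (a3.comp (a2.comp a1)).ae h

theorem ae_of_ae_y {p : Y → Prop} (h : ∀ᵐ y ∂μY, p y) :
    ∀ᵐ r ∂(nodeM μX μY μZ), p r.1.2.2 := by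
  have a1 : Measure.QuasiMeasurePreserving (Prod.fst : ((ℝ × Space3 × Space3) × X × Y) × W → _)
      (nodeM μX μY μZ) ((volume : Measure (ℝ × Space3 × Space3)).prod (μX.prod μY)) :=
    Measure.quasiMeasurePreserving_fst
  have a2 : Measure.QuasiMeasurePreserving (Prod.snd : (ℝ × Space3 × Space3) × X × Y → _)
      ((volume : Measure (ℝ × Space3 × Space3)).prod (μX.prod μY)) (μX.prod μY) :=
    Measure.quasiMeasurePreserving_snd
  have a3 : Measure.QuasiMeasurePreserving (Prod.snd : X × Y → Y)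
      (μX.prod μY) μY := Measure.quasiMeasurePreserving_snd
  exact (a3.comp (a2.comp a1)).ae h

theorem ae_of_ae_xz {p : X × W → Prop} (h : ∀ᵐ y ∂(μX.prod μZ), p y) :
    ∀ᵐ r ∂(nodeM μX μY μZ), p (r.1.2.1, r.2) := by
  have a2 : Measure.QuasiMeasurePreserving (Prod.snd : (ℝ × Space3 × Space3) × X × Y → _)
      ((volume : Measure (ℝ × Space3 × Space3)).prod (μX.prod μY)) (μX.prod μY) :=
    Measure.quasiMeasurePreserving_snd
  have a3 : Measure.QuasiMeasurePreserving (Prod.fst : X × Y → X)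
      (μX.prod μY) μX := Measure.quasiMeasurePreserving_fst
  have a4 : Measure.QuasiMeasurePreserving (Prod.map (fun r : (ℝ × Space3 × Space3) × X × Y =>
      r.2.1) (id : W → W)) (nodeM μX μY μZ) (μX.prod μZ) :=
    MeasureTheory.QuasiMeasurePreserving.prodMap (a3.comp a2) (Measure.QuasiMeasurePreserving.id μZ)
  exact a4.ae h

/-- affine functions of the merge time -/
theorem ae_affine {d : ((ℝ × Space3 × Space3) × X × Y) × W → PhasePoint} (hd : Measurable d)
    (hd' : ∀ t t' q x y z, d (((t, q), x, y), z) = d (((t', q), x, y), z)) :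
    ∀ᵐ p ∂(nodeM μX μY μZ), d p ≠ 0 → (d p).1 + p.1.1.1 • (d p).2 ≠ 0 := by
  have m0 : Measurable fun r : ((ℝ × Space3 × Space3) × X × Y) × W => r.1.1.1 :=
    Measurable.fst (Measurable.fst measurable_fst)
  have hB1 : MeasurableSet {p : ((ℝ × Space3 × Space3) × X × Y) × W | d p = 0} :=
    hd (measurableSet_singleton 0)
  have hB2 : MeasurableSet {p : ((ℝ × Space3 × Space3) × X × Y) × W |
      (d p).1 + p.1.1.1 • (d p).2 = 0} :=
    (hd.fst.add (m0.smul hd.snd)) (measurableSet_singleton 0)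
  have key := ae_sec_t (μX := μX) (μY := μY) (μZ := μZ) (hB1.compl.inter hB2) (fun q x y z => by
    have hs : Set.Subsingleton {t : ℝ | d (((t, q), x, y), z) ≠ 0 ∧
        (d (((t, q), x, y), z)).1 + t • (d (((t, q), x, y), z)).2 = 0} := by
      rintro t ⟨h0, h1⟩ t' ⟨_, h2⟩
      by_contra hne
      rw [hd' t' t] at h2
      have h3 : (t - t') • (d (((t, q), x, y), z)).2 = 0 := by
        rw [sub_smul, sub_eq_zero]
        exact add_left_cancel (h1.trans h2.symm)
      have h4 : (d (((t, q), x, y), z)).2 = 0 := by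
        rcases smul_eq_zero.1 h3 with h | h
        · exact absurd (sub_eq_zero.1 h) hne
        · exact h
      rw [h4, smul_zero, add_zero] at h1
      exact h0 (Prod.ext h1 h4)
    have := hs.measure_zero (volume : Measure ℝ)
    rw [ae_iff]
    refine measure_mono_null ?_ this
    intro t ht
    simpa using ht)
  filter_upwards [key] with p hp h0 h
  exact hp ⟨h0, h⟩

end proj

/-! ### (N3) -/

section N3

variable {J κ : Type} [Fintype J] {N : VSys J κ} {A : Finset J} {k : κ} {i : J} {B : Finset J}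
  {l : κ} {j : J} {P Q : MTree J κ}

/-- the relative displacement of two labels of a merge tree without obstacle is isotropic -/
theorem eqv_Gam (hΦ : AdmissiblePotential N.Φ) {τ : MTree J κ} (hτ : WF N.o τ)
    (ho : ∀ p ∈ supp τ, N.o ≠ some p) (x : J → PhasePoint) (B' : Finset J) (l' : κ) {j' : J}
    (hj' : j' ∈ supp τ) (B : Finset J) (l : κ) {j : J} (hj : j ∈ supp τ) (t : ℝ) :
    Iso735.Eqv (volume : Measure (Par τ)) fun π =>
      N.Gam τ π B' l' t (N.ovL τ π 0 x) j' - N.Gam τ π B l t (N.ovL τ π 0 x) j := fun O =>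
  ⟨parT O τ, measurePreserving_parT O τ, Eventually.of_forall fun π => by
    have e : ∀ p ∈ supp τ, N.ovL τ (parT O τ π) 0 x p = phO O (N.ovL τ π 0 x p) := fun p hp => by
      have := ovL_parT N hΦ O τ hτ ho π 0 x hp
      rwa [phO_zero] at this
    show N.Gam τ (parT O τ π) B' l' t (N.ovL τ (parT O τ π) 0 x) j' -
      N.Gam τ (parT O τ π) B l t (N.ovL τ (parT O τ π) 0 x) j = _
    rw [Gam_parT N hΦ O (ho _ hj') (e _ hj'), Gam_parT N hΦ O (ho _ hj) (e _ hj), ← map_sub]⟩

variable (hΦ : AdmissiblePotential N.Φ) (hT : 0 ≤ N.T)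
  (hc : ∃ L : ℝ≥0, ∀ k, LipschitzOnWith L (N.S.c k) (Icc 0 N.T))

include hΦ hT hc

/-- nonzero relative displacements of the two parts are different at the merge time -/
theorem ae_iso (hwf : WF N.o (node A k i B l j P Q)) (x : J → PhasePoint) {μZ : Measure PhasePoint}
    [SFinite μZ] (A' : Finset J) (k' : κ) (i' : J) (B' : Finset J) (l' : κ) (j' : J)
    (hj' : j' ∈ supp Q) :
    ∀ᵐ p ∂(nodeM (volume : Measure (Par P)) (volume : Measure (Par Q)) μZ),
      N.Gam Q p.1.2.2 B' l' p.1.1.1 (N.ovL Q p.1.2.2 0 x) j' -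
          N.Gam Q p.1.2.2 B l p.1.1.1 (N.ovL Q p.1.2.2 0 x) j =
        N.Gam P p.1.2.1 A' k' p.1.1.1 (N.ovL P p.1.2.1 p.2 x) i' -
          N.Gam P p.1.2.1 A k p.1.1.1 (N.ovL P p.1.2.1 p.2 x) i →
      N.Gam P p.1.2.1 A' k' p.1.1.1 (N.ovL P p.1.2.1 p.2 x) i' -
          N.Gam P p.1.2.1 A k p.1.1.1 (N.ovL P p.1.2.1 p.2 x) i = 0 := by
  have m0 : Measurable fun r : ((ℝ × Space3 × Space3) × Par P × Par Q) × PhasePoint =>
    r.1.1.1 := Measurable.fst (Measurable.fst measurable_fst)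
  have m1 : Measurable fun r : ((ℝ × Space3 × Space3) × Par P × Par Q) × PhasePoint => r.1.2.1 :=
    Measurable.fst (Measurable.snd measurable_fst)
  have m2 : Measurable fun r : ((ℝ × Space3 × Space3) × Par P × Par Q) × PhasePoint => r.1.2.2 :=
    Measurable.snd (Measurable.snd measurable_fst)
  have gP : ∀ A' k' i', Measurable fun p : ((ℝ × Space3 × Space3) × Par P × Par Q) × PhasePoint =>
      N.Gam P p.1.2.1 A' k' p.1.1.1 (N.ovL P p.1.2.1 p.2 x) i' := fun A' k' i' =>
    measurable_Gam' hΦ hT hc P A' k' i' m1 m0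
      (measurable_ovL hΦ hT hc P _ _ (fun _ => x) m1 measurable_snd (fun _ => measurable_const) i')
  have gQ : ∀ B' l' j', Measurable fun p : ((ℝ × Space3 × Space3) × Par P × Par Q) × PhasePoint =>
      N.Gam Q p.1.2.2 B' l' p.1.1.1 (N.ovL Q p.1.2.2 0 x) j' := fun B' l' j' =>
    measurable_Gam' hΦ hT hc Q B' l' j' m2 m0
      (measurable_ovL hΦ hT hc Q _ (fun _ => 0) (fun _ => x) m2 measurable_const
        (fun _ => measurable_const) j')
  have hB1 : MeasurableSet {p : ((ℝ × Space3 × Space3) × Par P × Par Q) × PhasePoint |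
      N.Gam P p.1.2.1 A' k' p.1.1.1 (N.ovL P p.1.2.1 p.2 x) i' -
          N.Gam P p.1.2.1 A k p.1.1.1 (N.ovL P p.1.2.1 p.2 x) i = 0} :=
    ((gP A' k' i').sub (gP A k i)) (measurableSet_singleton 0)
  have hB2 : MeasurableSet {p : ((ℝ × Space3 × Space3) × Par P × Par Q) × PhasePoint |
      N.Gam Q p.1.2.2 B' l' p.1.1.1 (N.ovL Q p.1.2.2 0 x) j' -
          N.Gam Q p.1.2.2 B l p.1.1.1 (N.ovL Q p.1.2.2 0 x) j =
        N.Gam P p.1.2.1 A' k' p.1.1.1 (N.ovL P p.1.2.1 p.2 x) i' -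
          N.Gam P p.1.2.1 A k p.1.1.1 (N.ovL P p.1.2.1 p.2 x) i} :=
    measurableSet_eq_fun ((gQ B' l' j').sub (gQ B l j)) ((gP A' k' i').sub (gP A k i))
  obtain ⟨hd, hA, hB, hi, hj, ho, hP, hQ⟩ := hwf
  have key := ae_sec_r (μX := (volume : Measure (Par P))) (μY := (volume : Measure (Par Q)))
    (μZ := μZ) (hB1.compl.inter hB2) (fun r πP z => by
      by_cases h0 : N.Gam P πP A' k' r.1 (N.ovL P πP z x) i' -
          N.Gam P πP A k r.1 (N.ovL P πP z x) i = 0
      · refine Eventually.of_forall fun y hy => ?_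
        exact hy.1 h0
      · have hm : Measurable fun π : Par Q => N.Gam Q π B' l' r.1 (N.ovL Q π 0 x) j' -
            N.Gam Q π B l r.1 (N.ovL Q π 0 x) j :=
          (measurable_Gam' hΦ hT hc Q B' l' j' measurable_id measurable_const
            (measurable_ovL hΦ hT hc Q _ (fun _ => 0) (fun _ => x) measurable_id measurable_const
              (fun _ => measurable_const) j')).sub
          (measurable_Gam' hΦ hT hc Q B l j measurable_id measurable_const
            (measurable_ovL hΦ hT hc Q _ (fun _ => 0) (fun _ => x) measurable_id measurable_const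
              (fun _ => measurable_const) j))
        filter_upwards [(eqv_Gam hΦ hQ ho x B' l' hj' B l (hB hj) r.1).ae_ne hm h0] with y hy hmem
        exact hy hmem.2)
  filter_upwards [key] with p hp h
  by_contra h0
  exact hp ⟨h0, h⟩

omit hT hc in
theorem ae_DP (A' : Finset J) {μZ : Measure PhasePoint} [SFinite μZ] :
    ∀ᵐ p ∂(nodeM (volume : Measure (Par P)) (volume : Measure (Par Q)) μZ),
      N.D P p.1.2.1 A' i - N.D P p.1.2.1 A i ≠ 0 →
        (N.D P p.1.2.1 A' i - N.D P p.1.2.1 A i).1 +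
          p.1.1.1 • (N.D P p.1.2.1 A' i - N.D P p.1.2.1 A i).2 ≠ 0 := by
  have m1 : Measurable fun r : ((ℝ × Space3 × Space3) × Par P × Par Q) × PhasePoint => r.1.2.1 :=
    Measurable.fst (Measurable.snd measurable_fst)
  exact ae_affine (d := fun p : ((ℝ × Space3 × Space3) × Par P × Par Q) × PhasePoint =>
    N.D P p.1.2.1 A' i - N.D P p.1.2.1 A i)
    (((measurable_D N hΦ P A' i).comp m1).sub ((measurable_D N hΦ P A i).comp m1))
    (fun _ _ _ _ _ _ => rfl)

omit hT hc in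
theorem ae_DQ (B' : Finset J) {μZ : Measure PhasePoint} [SFinite μZ] :
    ∀ᵐ p ∂(nodeM (volume : Measure (Par P)) (volume : Measure (Par Q)) μZ),
      N.D Q p.1.2.2 B' j - N.D Q p.1.2.2 B j ≠ 0 →
        (N.D Q p.1.2.2 B' j - N.D Q p.1.2.2 B j).1 +
          p.1.1.1 • (N.D Q p.1.2.2 B' j - N.D Q p.1.2.2 B j).2 ≠ 0 := by
  have m1 : Measurable fun r : ((ℝ × Space3 × Space3) × Par P × Par Q) × PhasePoint => r.1.2.2 :=
    Measurable.snd (Measurable.snd measurable_fst)
  exact ae_affine (d := fun p : ((ℝ × Space3 × Space3) × Par P × Par Q) × PhasePoint =>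
    N.D Q p.1.2.2 B' j - N.D Q p.1.2.2 B j)
    (((measurable_D N hΦ Q B' j).comp m1).sub ((measurable_D N hΦ Q B j).comp m1))
    (fun _ _ _ _ _ _ => rfl)

omit hΦ hT hc in
/-- two labels of the same particle at the same point after the merges have the same final line -/
theorem D_eq_of_Gam {τ : MTree J κ} {t : ℝ} {π : Par τ} (hO : Ord τ t π) {A' A : Finset J}
    {k' k : κ} {p : J} (ho : N.o ≠ some p) {Z : J → PhasePoint}
    (hD : N.D τ π A' p - N.D τ π A p ≠ 0 →
      (N.D τ π A' p - N.D τ π A p).1 + t • (N.D τ π A' p - N.D τ π A p).2 ≠ 0)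
    (h : N.Gam τ π A' k' t Z p = N.Gam τ π A k t Z p) : N.D τ π A' p = N.D τ π A p := by
  by_contra hne
  refine hD (sub_ne_zero.2 hne) ?_
  simp only [VSys.Gam, if_neg ho, Del_eq N τ π _ p hO t le_rfl] at h
  have h1 := add_left_cancel h
  rw [Prod.fst_sub, Prod.snd_sub, smul_sub]
  have h2 := sub_eq_zero.2 h1
  rw [← h2]
  abel

/-- **(N3) holds for almost all parameters** -/
theorem ae_N3 [Fintype κ] (hgen : Generic N.T N.S) (hwf : WF N.o (node A k i B l j P Q))
    (x : J → PhasePoint) (μZ : Measure PhasePoint) [SFinite μZ] :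
    ∀ᵐ p ∂((volume : Measure (Par (node A k i B l j P Q))).prod μZ),
      Ord (node A k i B l j P Q) N.T p.1 → N.act k i p.1.1.1 →
      Coinc N P p.1.2.1 (N.ovL P p.1.2.1 p.2 x) → Coinc N Q p.1.2.2 (N.ovL Q p.1.2.2 0 x) →
      ∀ A' ⊆ supp P, ∀ B' ⊆ supp Q, ∀ k' l', ∀ i' ∈ A', ∀ j' ∈ B', N.act k' i' p.1.1.1 →
        N.Gam P p.1.2.1 A' k' p.1.1.1 (N.ovL (node A k i B l j P Q) p.1 p.2 x) i' =
          N.Gam Q p.1.2.2 B' l' p.1.1.1 (N.ovL (node A k i B l j P Q) p.1 p.2 x) j' →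
        (i' = i ∧ (N.o = some i → k' = k) ∧
          (N.o ≠ some i → N.D P p.1.2.1 A' i = N.D P p.1.2.1 A i)) ∧
        (j' = j ∧ N.D Q p.1.2.2 B' j = N.D Q p.1.2.2 B j) := by
  have c1 : ∀ᵐ p ∂(nodeM (volume : Measure (Par P)) (volume : Measure (Par Q)) μZ),
      ∀ A' : Finset J, ∀ k' : κ, ∀ i' : J, ∀ B' : Finset J, ∀ l' : κ, ∀ j' : J, j' ∈ supp Q →
      N.Gam Q p.1.2.2 B' l' p.1.1.1 (N.ovL Q p.1.2.2 0 x) j' -
          N.Gam Q p.1.2.2 B l p.1.1.1 (N.ovL Q p.1.2.2 0 x) j =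
        N.Gam P p.1.2.1 A' k' p.1.1.1 (N.ovL P p.1.2.1 p.2 x) i' -
          N.Gam P p.1.2.1 A k p.1.1.1 (N.ovL P p.1.2.1 p.2 x) i →
      N.Gam P p.1.2.1 A' k' p.1.1.1 (N.ovL P p.1.2.1 p.2 x) i' -
          N.Gam P p.1.2.1 A k p.1.1.1 (N.ovL P p.1.2.1 p.2 x) i = 0 := by
    simp only [ae_all_iff]
    intro A' k' i' B' l' j' hj'
    exact ae_iso hΦ hT hc hwf x A' k' i' B' l' j' hj'
  have c2 := ae_all_iff.2 fun A' : Finset J =>
    ae_DP (A := A) (i := i) (P := P) (Q := Q) (μZ := μZ) hΦ A'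
  have c3 := ae_all_iff.2 fun B' : Finset J =>
    ae_DQ (B := B) (j := j) (P := P) (Q := Q) (μZ := μZ) hΦ B'
  have c4 : ∀ᵐ p ∂(nodeM (volume : Measure (Par P)) (volume : Measure (Par Q)) μZ),
      ∀ k' : κ, k' ≠ k → p.1.1.1 ∉
        {s | s ∈ Icc 0 (min N.T (min (N.S.b k') (N.S.b k))) ∧ N.S.c k' s = N.S.c k s} := by
    simp only [ae_all_iff]
    intro k' hk'
    exact ae_of_ae_t (p := fun t => t ∉
      {s | s ∈ Icc 0 (min N.T (min (N.S.b k') (N.S.b k))) ∧ N.S.c k' s = N.S.c k s})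
      (by
        rw [ae_iff]
        simp only [not_not]
        exact (hgen k' k hk').measure_zero _)
  have hgoal : ∀ᵐ p ∂(nodeM (volume : Measure (Par P)) (volume : Measure (Par Q)) μZ),
      Ord (node A k i B l j P Q) N.T p.1 → N.act k i p.1.1.1 →
      Coinc N P p.1.2.1 (N.ovL P p.1.2.1 p.2 x) → Coinc N Q p.1.2.2 (N.ovL Q p.1.2.2 0 x) →
      ∀ A' ⊆ supp P, ∀ B' ⊆ supp Q, ∀ k' l', ∀ i' ∈ A', ∀ j' ∈ B', N.act k' i' p.1.1.1 →
        N.Gam P p.1.2.1 A' k' p.1.1.1 (N.ovL (node A k i B l j P Q) p.1 p.2 x) i' =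
          N.Gam Q p.1.2.2 B' l' p.1.1.1 (N.ovL (node A k i B l j P Q) p.1 p.2 x) j' →
        (i' = i ∧ (N.o = some i → k' = k) ∧
          (N.o ≠ some i → N.D P p.1.2.1 A' i = N.D P p.1.2.1 A i)) ∧
        (j' = j ∧ N.D Q p.1.2.2 B' j = N.D Q p.1.2.2 B j) := by
    filter_upwards [c1, c2, c3, c4] with p h1 h2 h3 h4 hO hact hCP hCQ
    have hwf' := hwf
    obtain ⟨hd, hA, hB, hi, hj, ho, hWP, hWQ⟩ := hwf'
    obtain ⟨ht0, htT, hOP, hOQ⟩ := hO
    have htI : p.1.1.1 ∈ Icc 0 N.T := ⟨ht0.le, htT.le⟩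
    intro A' hA' B' hB' k' l' i' hi' j' hj' hact' heq
    rw [Gam_left hwf p.1 p.2 x A' k' p.1.1.1 (hA' hi'),
      Gam_right hwf p.1 p.2 x B' l' p.1.1.1 (hB' hj'), sub_self, zero_smul, add_zero] at heq
    have heq' : N.Gam Q p.1.2.2 B' l' p.1.1.1 (N.ovL Q p.1.2.2 0 x) j' -
          N.Gam Q p.1.2.2 B l p.1.1.1 (N.ovL Q p.1.2.2 0 x) j =
        N.Gam P p.1.2.1 A' k' p.1.1.1 (N.ovL P p.1.2.1 p.2 x) i' -
          N.Gam P p.1.2.1 A k p.1.1.1 (N.ovL P p.1.2.1 p.2 x) i := by
      rw [heq]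
      show _ = N.Gam Q p.1.2.2 B' l' p.1.1.1 (N.ovL Q p.1.2.2 0 x) j' +
        (N.Gam P p.1.2.1 A k p.1.1.1 (N.ovL P p.1.2.1 p.2 x) i -
          N.Gam Q p.1.2.2 B l p.1.1.1 (N.ovL Q p.1.2.2 0 x) j) - _
      abel
    have hP0 := h1 A' k' i' B' l' j' (hB' hj') heq'
    have hQ0 : N.Gam Q p.1.2.2 B' l' p.1.1.1 (N.ovL Q p.1.2.2 0 x) j' -
          N.Gam Q p.1.2.2 B l p.1.1.1 (N.ovL Q p.1.2.2 0 x) j = 0 := heq'.trans hP0
    have hP1 := sub_eq_zero.1 hP0
    have hQ1 := sub_eq_zero.1 hQ0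
    have hii : i' = i := by
      by_contra hne
      obtain ⟨e, he, _, hs⟩ := hCP A' hA' A hA k' k i' hi' i hi hne p.1.1.1 htI hact' hact hP1
      exact absurd hs (VLInv399.sig_bounds hWP hOP he).2.ne'
    have hjj : j' = j := by
      by_contra hne
      obtain ⟨e, he, _, hs⟩ := hCQ B' hB' B hB l' l j' hj' j hj hne p.1.1.1 htI
        (fun h => absurd h (ho j' (hB' hj'))) (fun h => absurd h (ho j (hB hj))) hQ1
      exact absurd hs (VLInv399.sig_bounds hWQ hOQ he).2.ne'
    subst hii hjj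
    refine ⟨⟨rfl, fun hoi => ?_, fun hoi => ?_⟩, rfl, ?_⟩
    · by_contra hne
      refine h4 k' hne ⟨⟨ht0.le, le_min htT.le (le_min (hact' hoi) (hact hoi))⟩, ?_⟩
      simp only [VSys.Gam, if_pos hoi, min_eq_left htT.le, max_eq_right ht0.le] at hP1
      exact add_left_cancel hP1
    · exact D_eq_of_Gam hOP hoi (h2 A') hP1
    · exact D_eq_of_Gam hOQ (ho _ (hB hj)) (h3 B') hQ1
  exact hgoal

end N3

end Crest.Agent.R122.VLGen735
end
end

-- ▼ part R122/VLGenD_692
section

/-!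
# Row 122, block D3 (A) (helper692): the conditions (N1), (N2), (N4) of `GenNode` hold for almost
all parameters

* `qmp_sig` : the time of an edge has an absolutely continuous law;
* `Rest1`, `ae_N124`.
-/

set_option autoImplicit false

open MeasureTheory Set Filter Topology Metric
open scoped ENNReal NNReal
open Crest.AnalysisR.Kinetic
open Crest.Agent.R122.Ins45 Crest.Agent.R122.GIV566 Crest.Agent.R122.VLPar823
open Crest.Agent.R122.VLPar823.MTree Crest.Agent.R122.VL581
open Crest.Agent.R122.VLcore564 Crest.Agent.R122.Iso735 Crest.Agent.R122.VLGen735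

noncomputable section

namespace Crest.Agent.R122.VLGen692

open scoped Classical

theorem ae_ne_const {E : Type*} [MeasurableSpace E] {μ : Measure E} [NullSingletonClass μ] (c : E) :
    ∀ᵐ x ∂μ, x ≠ c := by
  rw [ae_iff]
  simp

/-! ### The times of the edges -/

theorem edg_fst_mem {J κ : Type} {o : Option J} : ∀ τ : MTree J κ, WF o τ → ∀ e ∈ edg τ,
    e.1 ∈ supp τ
  | leaf _ => fun _ e he => absurd he (Finset.notMem_empty e)
  | node A k i B l j P Q => fun hτ e he => by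
      obtain ⟨hd, hA, hB, hi, hj, ho, hP, hQ⟩ := hτ
      rcases Finset.mem_insert.1 he with h | h
      · rw [h]
        exact Finset.mem_union_left _ (hA hi)
      · rcases Finset.mem_union.1 h with h | h
        · exact Finset.mem_union_left _ (edg_fst_mem P hP e h)
        · exact Finset.mem_union_right _ (edg_fst_mem Q hQ e h)

/-- the law of the time of an edge is absolutely continuous -/
theorem qmp_sig {J κ : Type} {o : Option J} : ∀ τ : MTree J κ, WF o τ → ∀ e ∈ edg τ,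
    Measure.QuasiMeasurePreserving (fun π : Par τ => sig τ π e) volume volume
  | leaf _ => fun _ e he => absurd he (Finset.notMem_empty e)
  | node A k i B l j P Q => fun hτ e he => by
      obtain ⟨hd, hA, hB, hi, hj, ho, hP, hQ⟩ := hτ
      have a1 : Measure.QuasiMeasurePreserving
          (Prod.fst : (ℝ × Space3 × Space3) × Par P × Par Q → ℝ × Space3 × Space3)
          ((volume : Measure (ℝ × Space3 × Space3)).prod
            ((volume : Measure (Par P)).prod (volume : Measure (Par Q)))) volume :=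
        Measure.quasiMeasurePreserving_fst
      have a2 : Measure.QuasiMeasurePreserving
          (Prod.snd : (ℝ × Space3 × Space3) × Par P × Par Q → Par P × Par Q)
          ((volume : Measure (ℝ × Space3 × Space3)).prod
            ((volume : Measure (Par P)).prod (volume : Measure (Par Q))))
          ((volume : Measure (Par P)).prod (volume : Measure (Par Q))) :=
        Measure.quasiMeasurePreserving_snd
      have b1 : Measure.QuasiMeasurePreserving (Prod.fst : Par P × Par Q → Par P)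
          ((volume : Measure (Par P)).prod (volume : Measure (Par Q))) volume :=
        Measure.quasiMeasurePreserving_fst
      have b2 : Measure.QuasiMeasurePreserving (Prod.snd : Par P × Par Q → Par Q)
          ((volume : Measure (Par P)).prod (volume : Measure (Par Q))) volume :=
        Measure.quasiMeasurePreserving_snd
      have c1 : Measure.QuasiMeasurePreserving (Prod.fst : ℝ × Space3 × Space3 → ℝ)
          volume volume := Measure.quasiMeasurePreserving_fst
      by_cases h1 : e = (i, j)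
      · have : (fun π : Par (node A k i B l j P Q) => sig (node A k i B l j P Q) π e) =
            fun π => π.1.1 := by
          funext π
          simp only [sig, if_pos h1]
        rw [this]
        exact c1.comp a1
      · have h2 : e ∈ edg P ∪ edg Q := Finset.mem_of_mem_insert_of_ne he h1
        rcases Finset.mem_union.1 h2 with h | h
        · have hs := edg_fst_mem P hP e h
          have : (fun π : Par (node A k i B l j P Q) => sig (node A k i B l j P Q) π e) =
              fun π => sig P π.2.1 e := by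
            funext π
            simp only [sig, if_neg h1, if_pos hs]
          rw [this]
          exact (qmp_sig P hP e h).comp (b1.comp a2)
        · have hs : e.1 ∉ supp P := fun h' =>
            Finset.disjoint_left.1 hd h' (edg_fst_mem Q hQ e h)
          have : (fun π : Par (node A k i B l j P Q) => sig (node A k i B l j P Q) π e) =
              fun π => sig Q π.2.2 e := by
            funext π
            simp only [sig, if_neg h1, if_neg hs]
          rw [this]
          exact (qmp_sig Q hQ e h).comp (b2.comp a2)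

section general

variable {X Y W : Type*} [MeasurableSpace X] [MeasurableSpace Y] [MeasurableSpace W]
  {μX : Measure X} {μY : Measure Y} {μZ : Measure W} [SFinite μX] [SFinite μY] [SFinite μZ]

/-- projection to the time -/
theorem ae_of_ae_t {p : ℝ → Prop} (h : ∀ᵐ t : ℝ, p t) :
    ∀ᵐ r ∂(nodeM μX μY μZ), p r.1.1.1 := by
  have h1 : Measure.QuasiMeasurePreserving (fun r : ((ℝ × Space3 × Space3) × X × Y) × W => r.1.1.1)
      (nodeM μX μY μZ) (volume : Measure ℝ) := by
    have a1 : Measure.QuasiMeasurePreserving (Prod.fst : ((ℝ × Space3 × Space3) × X × Y) × W → _)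
        (nodeM μX μY μZ) ((volume : Measure (ℝ × Space3 × Space3)).prod (μX.prod μY)) :=
      Measure.quasiMeasurePreserving_fst
    have a2 : Measure.QuasiMeasurePreserving (Prod.fst : (ℝ × Space3 × Space3) × X × Y → _)
        ((volume : Measure (ℝ × Space3 × Space3)).prod (μX.prod μY)) volume :=
      Measure.quasiMeasurePreserving_fst
    have a3 : Measure.QuasiMeasurePreserving (Prod.fst : ℝ × Space3 × Space3 → ℝ)
        volume volume := Measure.quasiMeasurePreserving_fst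
    exact a3.comp (a2.comp a1)
  exact h1.ae h

theorem ae_snd_ne (c : Space3) : ∀ᵐ q : Space3 × Space3, q.2 ≠ c :=
  (Measure.quasiMeasurePreserving_snd (μ := (volume : Measure Space3))
    (ν := (volume : Measure Space3))).ae (ae_ne_const c)

/-- the relative velocity is not opposite to the velocity of a curve -/
theorem ae_deriv (c : ℝ → Space3) :
    ∀ᵐ p ∂(nodeM μX μY μZ), ∀ v, HasDerivAt c v p.1.1.1 → p.1.1.2.2 + v ≠ 0 := by
  have mt : Measurable fun p : ((ℝ × Space3 × Space3) × X × Y) × W => p.1.1.1 :=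
    Measurable.fst (Measurable.fst measurable_fst)
  have mg : Measurable fun p : ((ℝ × Space3 × Space3) × X × Y) × W => p.1.1.2.2 :=
    Measurable.snd (Measurable.snd (Measurable.fst measurable_fst))
  have hB : MeasurableSet {p : ((ℝ × Space3 × Space3) × X × Y) × W |
      p.1.1.2.2 = -deriv c p.1.1.1} :=
    measurableSet_eq_fun mg (((measurable_deriv c).comp mt).neg)
  have key := ae_sec_q (μX := μX) (μY := μY) (μZ := μZ) hB (fun t x y z => by
    filter_upwards [ae_snd_ne (-deriv c t)] with q hq h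
    exact hq h)
  filter_upwards [key] with p hp v hv h0
  refine hp ?_
  show p.1.1.2.2 = -deriv c p.1.1.1
  rw [hv.deriv]
  exact eq_neg_of_add_eq_zero_left h0

end general

/-! ### Collection -/

section rest

variable {J κ : Type} [Fintype J] (N : VSys J κ)

/-- The conditions (N1), (N2), (N4) of `GenNode` (in stronger form: no activity, all tubes). -/
structure Rest1 (Bd : Set ℝ) (A : Finset J) (k : κ) (i : J) (B : Finset J) (l : κ) (j : J)
    (P Q : MTree J κ) (t : ℝ) (ζ : Space3 × Space3) (πP : Par P) (πQ : Par Q)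
    (Z : J → PhasePoint) : Prop where
  /-- (N1) times -/
  tBd : t ∉ Bd
  tbb : ∀ p, t ≠ N.bb p
  tSb : ∀ k, t ≠ N.S.b k
  tPQ : ∀ e ∈ edg P, ∀ e' ∈ edg Q, sig P πP e ≠ sig Q πQ e'
  /-- (N2) no cross coincidence at other times -/
  N2 : ∀ A' ⊆ supp P, ∀ B' ⊆ supp Q, ∀ k' l', ∀ i' ∈ A', ∀ j' ∈ B', ∀ s ∈ Icc 0 N.T, s ≠ t →
    N.Gam P πP A' k' s Z i' ≠ N.Gam Q πQ B' l' s Z j'
  /-- (N4) relative velocity -/
  N4 : ζ.2 ≠ 0
  N4t : ∀ k', ∀ v, HasDerivAt (N.S.c k') v t → ζ.2 + v ≠ 0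

variable {N}

/-- **(N1), (N2), (N4) hold for almost all parameters**, for every s-finite law of the root. -/
theorem ae_N124 [Fintype κ] (hΦ : AdmissiblePotential N.Φ) (hT : 0 ≤ N.T)
    (hc : ∃ L : ℝ≥0, ∀ k, LipschitzOnWith L (N.S.c k) (Icc 0 N.T)) {Bd : Set ℝ} (hBd : Bd.Finite)
    {A : Finset J} {k : κ} {i : J}
    {B : Finset J} {l : κ} {j : J} {P Q : MTree J κ} (hwf : WF N.o (node A k i B l j P Q))
    (x : J → PhasePoint) (μZ : Measure PhasePoint) [SFinite μZ] :
    ∀ᵐ p ∂((volume : Measure (Par (node A k i B l j P Q))).prod μZ),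
      Rest1 N Bd A k i B l j P Q p.1.1.1 p.1.1.2 p.1.2.1 p.1.2.2
        (N.ovL (node A k i B l j P Q) p.1 p.2 x) := by
  have hP := hwf.2.2.2.2.2.2.1
  have hQ := hwf.2.2.2.2.2.2.2
  have eg : Iso735.Eqv (volume : Measure (Space3 × Space3)) fun z : Space3 × Space3 => z.2 :=
    fun O => ⟨fun z => (O z.1, O z.2), O.measurePreserving.prod O.measurePreserving,
      Eventually.of_forall fun z => rfl⟩
  have a1 : ∀ᵐ p ∂(nodeM (volume : Measure (Par P)) (volume : Measure (Par Q)) μZ),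
      p.1.1.1 ∉ Bd := ae_of_ae_t (p := fun t => t ∉ Bd) (by
    rw [ae_iff]
    simpa using hBd.measure_zero volume)
  have a2 : ∀ᵐ p ∂(nodeM (volume : Measure (Par P)) (volume : Measure (Par Q)) μZ),
      ∀ q : J, p.1.1.1 ≠ N.bb q := ae_all_iff.2 fun q => ae_of_ae_t (p := fun t => t ≠ N.bb q)
        (ae_ne_const _)
  have a3 : ∀ᵐ p ∂(nodeM (volume : Measure (Par P)) (volume : Measure (Par Q)) μZ),
      ∀ k' : κ, p.1.1.1 ≠ N.S.b k' :=
    ae_all_iff.2 fun k' => ae_of_ae_t (p := fun t => t ≠ N.S.b k') (ae_ne_const _)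
  have a4 : ∀ᵐ p ∂(nodeM (volume : Measure (Par P)) (volume : Measure (Par Q)) μZ),
      ∀ e e' : J × J, e ∈ edg P → e' ∈ edg Q → sig P p.1.2.1 e ≠ sig Q p.1.2.2 e' := by
    refine ae_all_iff.2 fun e => ae_all_iff.2 fun e' => ?_
    by_cases he : e ∈ edg P
    · by_cases he' : e' ∈ edg Q
      · have q1 := qmp_sig P hP e he
        have q2 := qmp_sig Q hQ e' he'
        have m1 : Measurable fun r : ((ℝ × Space3 × Space3) × Par P × Par Q) × PhasePoint =>
          r.1.2.1 := Measurable.fst (Measurable.snd measurable_fst)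
        have m2 : Measurable fun r : ((ℝ × Space3 × Space3) × Par P × Par Q) × PhasePoint =>
          r.1.2.2 := Measurable.snd (Measurable.snd measurable_fst)
        have hB : MeasurableSet {p : ((ℝ × Space3 × Space3) × Par P × Par Q) × PhasePoint |
            sig P p.1.2.1 e = sig Q p.1.2.2 e'} :=
          measurableSet_eq_fun (q1.measurable.comp m1) (q2.measurable.comp m2)
        have key := ae_sec_l (μX := (volume : Measure (Par P)))
          (μY := (volume : Measure (Par Q))) (μZ := μZ) hB (fun r y z =>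
            q1.ae (ae_ne_const (sig Q y e')))
        filter_upwards [key] with p hp _ _
        exact hp
      · exact Eventually.of_forall fun p _ h => absurd h he'
    · exact Eventually.of_forall fun p h => absurd h he
  have a5 : ∀ᵐ p ∂(nodeM (volume : Measure (Par P)) (volume : Measure (Par Q)) μZ),
      p.1.1.2.2 ≠ 0 := ae_of_ae_q (p := fun z => z.2 ≠ 0) (ae_snd_ne 0)
  have a6 : ∀ᵐ p ∂(nodeM (volume : Measure (Par P)) (volume : Measure (Par Q)) μZ),
      ∀ k' : κ, ∀ v, HasDerivAt (N.S.c k') v p.1.1.1 → p.1.1.2.2 + v ≠ 0 :=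
    ae_all_iff.2 fun k' => ae_deriv (N.S.c k')
  have b := ae_all_iff.2 fun A' : Finset J => ae_all_iff.2 fun k' : κ => ae_all_iff.2 fun i' : J =>
    ae_all_iff.2 fun B' : Finset J => ae_all_iff.2 fun l' : κ => ae_all_iff.2 fun j' : J =>
    ae_PQ (A := A) (k := k) (i := i) (B := B) (l := l) (j := j) (P := P) (Q := Q) (μZ := μZ)
      hΦ hT hc measurable_snd eg x A' k' i' B' l' j'
  have hgoal : ∀ᵐ p ∂(nodeM (volume : Measure (Par P)) (volume : Measure (Par Q)) μZ),
      Rest1 N Bd A k i B l j P Q p.1.1.1 p.1.1.2 p.1.2.1 p.1.2.2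
        (N.ovL (node A k i B l j P Q) p.1 p.2 x) := by
    filter_upwards [a1, a2, a3, a4, a5, a6, b] with p h1 h2 h3 h4 h5 h6 hb
    refine ⟨h1, h2, h3, fun e he e' he' => h4 e e' he he', ?_, h5, h6⟩
    intro A' hA' B' hB' k' l' i' hi' j' hj' s hs hst he
    rw [Gam_left hwf p.1 p.2 x A' k' s (hA' hi'), Gam_right hwf p.1 p.2 x B' l' s (hB' hj')] at he
    refine hb A' k' i' B' l' j' h5 s hs hst ?_
    have he' := sub_eq_zero.2 he
    rw [← he']
    module
  exact hgoal

end rest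

end Crest.Agent.R122.VLGen692
end
end

-- ▼ part R122/VLGenF_735
section

/-!
# Row 122, block D3 (A) (helper735): coincidences of generic parameters, and **`AGen`**

* `phL_rel` : the two touching labels of the limit configuration;
* `Coinc.congr`, `Coinc.shift`;
* `coinc_gen` : `Gen` implies `Coinc`;
* `ae_gen`, `agen : AGen Φ`.
-/

set_option autoImplicit false
set_option linter.unusedSectionVars false

open MeasureTheory Set Filter Topology Metric
open scoped ENNReal NNReal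
open Crest.AnalysisR.Kinetic
open Crest.Agent.R122.Ins45 Crest.Agent.R122.GIV566 Crest.Agent.R122.VL581
open Crest.Agent.R122.Iso735 Crest.Agent.R122.VLPar823 Crest.Agent.R122.VLPar823.MTree
open Crest.Agent.R122.VLcore564 Crest.Agent.R122.VLGen692

noncomputable section

namespace Crest.Agent.R122.VLGen735

open scoped Classical

variable {J κ : Type} [Fintype J] {N : VSys J κ}

/-- the touching labels of the limit configuration -/
theorem phL_rel {A : Finset J} {k : κ} {i : J} {B : Finset J} {l : κ} {j : J} {P Q : MTree J κ}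
    (hwf : WF N.o (node A k i B l j P Q)) (π : Par (node A k i B l j P Q)) (z : PhasePoint)
    (x : J → PhasePoint) :
    N.phL P π.2.1 A k π.1.1 (N.ovL (node A k i B l j P Q) π z x) i -
      N.phL Q π.2.2 B l π.1.1 (N.ovL (node A k i B l j P Q) π z x) j = (0, π.1.2.2) := by
  have hwf' := hwf
  obtain ⟨hd, hA, hB, hi, hj, ho, hWP, hWQ⟩ := hwf'
  have e1 : N.phL P π.2.1 A k π.1.1 (N.ovL (node A k i B l j P Q) π z x) i =
      N.phL P π.2.1 A k π.1.1 (N.ovL P π.2.1 z x) i := by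
    simp only [VSys.phL, VSys.Gam, ovL_left hwf π z x (hA hi)]
  have e2 := phL_shift N (τ := Q) (π := π.2.2) (A' := B) (k := l) (s := π.1.1) (ho j (hB hj))
    (ovL_right hwf π z x (hB hj))
  have e3 := wL_eq hwf π.1.1 π.1.2 π.2.1 π.2.2 z x π.1.1
  rw [sub_self, zero_smul, add_zero] at e3
  have e4 : (wL N A k i B l j P Q π.1.1 π.1.2 π.2.1 π.2.2 z x).2 =
      (pq N A k i B l j P Q π.1.1 π.2.1 π.2.2 z x).2 - π.1.2.2 := by
    have h2 := ovL_congr N Q hWQ π.2.2 0 (N.ovL P π.2.1 z x) x (hB hj)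
    have h3 : N.phL Q π.2.2 B l π.1.1 (N.ovL Q π.2.2 0 (N.ovL P π.2.1 z x)) j =
        N.phL Q π.2.2 B l π.1.1 (N.ovL Q π.2.2 0 x) j := by
      simp only [VSys.phL, VSys.Gam, h2]
    simp only [wL, pq, mv, h3, Prod.snd_sub]
    abel
  have e5 : pq N A k i B l j P Q π.1.1 π.2.1 π.2.2 z x =
      N.phL P π.2.1 A k π.1.1 (N.ovL P π.2.1 z x) i -
        N.phL Q π.2.2 B l π.1.1 (N.ovL Q π.2.2 0 x) j := rfl
  rw [e1, e2, e3, e4, e5]
  generalize N.phL P π.2.1 A k π.1.1 (N.ovL P π.2.1 z x) i = a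
  generalize N.phL Q π.2.2 B l π.1.1 (N.ovL Q π.2.2 0 x) j = b
  generalize π.1.2.2 = g
  ext1
  · show a.1 - (b.1 + (a.1 - b.1)) = 0
    abel
  · show a.2 - (b.2 + (a.2 - b.2 - g)) = g
    abel

theorem coinc_congr {τ : MTree J κ} {π : Par τ} {Z Z' : J → PhasePoint}
    (h : ∀ p ∈ supp τ, Z' p = Z p) (hC : Coinc N τ π Z) : Coinc N τ π Z' := by
  intro A hA B hB k' l' i hi j hj hne s hs ha hb heq
  refine hC A hA B hB k' l' i hi j hj hne s hs ha hb ?_
  rwa [Gam_congr (h i (hA hi)), Gam_congr (h j (hB hj))] at heq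

theorem coinc_shift {τ : MTree J κ} {π : Par τ} {Z Z' : J → PhasePoint} {w : PhasePoint}
    (ho : ∀ p ∈ supp τ, N.o ≠ some p) (h : ∀ p ∈ supp τ, Z' p = Z p + w) (hC : Coinc N τ π Z) :
    Coinc N τ π Z' := by
  intro A hA B hB k' l' i hi j hj hne s hs ha hb heq
  refine hC A hA B hB k' l' i hi j hj hne s hs ha hb ?_
  rw [Gam_shift N (ho i (hA hi)) (h i (hA hi)), Gam_shift N (ho j (hB hj)) (h j (hB hj))] at heq
  exact add_right_cancel heq

/-- limit paths of different particles meet only at the times of the edges -/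
theorem coinc_gen (hΦ : AdmissiblePotential N.Φ) {Bd : Set ℝ} : ∀ (τ : MTree J κ), WF N.o τ →
    ∀ {u : ℝ} {π : Par τ} {z : PhasePoint} {x : J → PhasePoint}, Ord τ u π → VLPar823.Act N τ π →
      N.Gen Bd τ π z x → Coinc N τ π (N.ovL τ π z x)
  | leaf j => fun _ u π z x _ _ _ A hA B hB k' l' i hi i' hi' hne _ _ _ _ _ => by
      have h1 : i = j := Finset.mem_singleton.1 (hA hi)
      have h2 : i' = j := Finset.mem_singleton.1 (hB hi')
      exact absurd (h1.trans h2.symm) hne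
  | node A k i B l j P Q => fun hwf u π z x hO hact hG => by
      obtain ⟨hd, hA, hB, hi, hj, ho, hWP, hWQ⟩ := id hwf
      obtain ⟨ht0, htu, hOP, hOQ⟩ := hO
      obtain ⟨ha, haP, haQ⟩ := hact
      obtain ⟨hGP, hGQ, hGN⟩ := hG
      exact VLInv399.coinc_node N hΦ hwf ha hOP hOQ hGN (phL_rel hwf π z x)
        (coinc_congr (fun p hp => ovL_left hwf π z x hp) (coinc_gen hΦ P hWP hOP haP hGP))
        (coinc_shift ho (fun p hp => ovL_right hwf π z x hp) (coinc_gen hΦ Q hWQ hOQ haQ hGQ))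

theorem ord_mono : ∀ (τ : MTree J κ) {u v : ℝ} {π : Par τ}, u ≤ v → Ord τ u π → Ord τ v π
  | leaf _, _, _, _, _, _ => trivial
  | node _ _ _ _ _ _ _ _, _, _, _, huv, h => ⟨h.1, h.2.1.trans_le huv, h.2.2.1, h.2.2.2⟩

/-- the induction -/
theorem ae_gen_aux [Fintype κ] (hΦ : AdmissiblePotential N.Φ) (hT : 0 ≤ N.T)
    (hc : ∃ L : ℝ≥0, ∀ k, LipschitzOnWith L (N.S.c k) (Icc 0 N.T)) (hgen : Generic N.T N.S)
    {Bd : Set ℝ} (hBd : Bd.Finite) (x : J → PhasePoint) : ∀ (τ : MTree J κ), WF N.o τ →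
    ∀ (μZ : Measure PhasePoint) [SFinite μZ], ∀ᵐ p ∂((volume : Measure (Par τ)).prod μZ),
      Ord τ N.T p.1 → VLPar823.Act N τ p.1 → N.Gen Bd τ p.1 p.2 x
  | leaf _ => fun _ μZ _ => Eventually.of_forall fun _ _ _ => trivial
  | node A k i B l j P Q => fun hwf μZ _ => by
      obtain ⟨hd, hA, hB, hi, hj, ho, hWP, hWQ⟩ := id hwf
      have iP := ae_gen_aux hΦ hT hc hgen hBd x P hWP μZ
      have iQ := ae_gen_aux hΦ hT hc hgen hBd x Q hWQ (Measure.dirac 0)
      have iQ' : ∀ᵐ y : Par Q, Ord Q N.T y → VLPar823.Act N Q y → N.Gen Bd Q y 0 x := by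
        rw [Measure.prod_dirac] at iQ
        exact ae_of_ae_map (measurable_prodMk_right).aemeasurable iQ
      have a1 := ae_of_ae_xz (μX := (volume : Measure (Par P))) (μY := (volume : Measure (Par Q)))
        (μZ := μZ) iP
      have a2 := ae_of_ae_y (μX := (volume : Measure (Par P))) (μY := (volume : Measure (Par Q)))
        (μZ := μZ) iQ'
      have a3 := ae_rest hΦ hT hc hwf x μZ
      have a4 := ae_N124 hΦ hT hc hBd hwf x μZ
      have a5 := ae_N3 hΦ hT hc hgen hwf x μZ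
      filter_upwards [a1, a2, a3, a4, a5] with p h1 h2 h3 h4 h5 hO hact
      obtain ⟨ht0, htT, hOP, hOQ⟩ := id hO
      obtain ⟨ha, haP, haQ⟩ := hact
      have hGP := h1 (ord_mono P htT.le hOP) haP
      have hGQ := h2 (ord_mono Q htT.le hOQ) haQ
      have h3' := h3 ht0
      have h5' := h5 hO ha (coinc_gen hΦ P hWP hOP haP hGP) (coinc_gen hΦ Q hWQ hOQ haQ hGQ)
      refine ⟨hGP, hGQ, ?_⟩
      exact
        { tBd := h4.tBd
          tbb := h4.tbb
          tSb := h4.tSb
          tPQ := h4.tPQ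
          N2 := fun A' hA' B' hB' k' l' i' hi' j' hj' s hs hst _ =>
            h4.N2 A' hA' B' hB' k' l' i' hi' j' hj' s hs hst
          N3 := fun _ A' hA' B' hB' k' l' i' hi' j' hj' ha' he => by
            obtain ⟨b1, b2, b3⟩ := h5' A' hA' B' hB' k' l' i' hi' j' hj' ha' he
            exact ⟨b1, b2, fun h => absurd h (ho j (hB hj)), fun _ => b3⟩
          N4 := fun _ => h4.N4
          N4t := fun _ v hv => h4.N4t k v hv
          N5 := h3'.N5
          N6a := h3'.N6a
          N6b := h3'.N6b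
          N6c := h3'.N6c
          N6d := h3'.N6d
          N7P := h3'.N7P
          N7Q := h3'.N7Q }

/-- **(A)** almost all parameters are generic -/
theorem ae_gen [Fintype κ] (hΦ : AdmissiblePotential N.Φ) (hT : 0 ≤ N.T)
    (hc : ∃ L : ℝ≥0, ∀ k, LipschitzOnWith L (N.S.c k) (Icc 0 N.T)) (hgen : Generic N.T N.S)
    {Bd : Set ℝ} (hBd : Bd.Finite) (τ : MTree J κ) (hτ : WF N.o τ) (x : J → PhasePoint) :
    ∀ᵐ p : Par τ × PhasePoint, Ord τ N.T p.1 → VLPar823.Act N τ p.1 → N.Gen Bd τ p.1 p.2 x :=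
  ae_gen_aux hΦ hT hc hgen hBd x τ hτ volume

end Crest.Agent.R122.VLGen735
end
end

-- ▼ part R122/VLAEFin_399
section

/-!
# Row 122, block D3 (helper399): `AE` from `NodeStep`

`ae_of_nodeStep : AdmissiblePotential Φ → NodeStep Φ → AE Φ`, on 735's `ae_gen`.
-/

set_option autoImplicit false

open MeasureTheory Set Filter Topology
open Crest.AnalysisR.Kinetic
open Crest.Agent.R122.VLPar823 Crest.Agent.R122.VL581

namespace Crest.Agent.R122.VLInv399

theorem agenA {Φ : Space3 → ℝ} (hΦ : AdmissiblePotential Φ) : AGenA Φ := by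
  intro J κ _ _ N Bd hN hT hBd hL hgen τ hW x
  subst hN
  exact Crest.Agent.R122.VLGen735.ae_gen hΦ hT.le hL hgen hBd τ hW x

/-- **AE from the node step.** -/
theorem ae_of_nodeStep {Φ : Space3 → ℝ} (hΦ : AdmissiblePotential Φ) (hNS : NodeStep Φ) : AE Φ :=
  ae_of_AB hΦ (agenA hΦ) (binv_of_nodeStep hNS)

end Crest.Agent.R122.VLInv399
end

-- ▼ part R122/VLPar4_823
section

/-!
# Row 122, block D3, part P1 (helper823): domination of the connected integral

`main_ineq`: `ε^(m-1) ∫ F ≤ ε^(3(m-1)) Σ_τ ∫ dπ ∫ dz 1[Bx] F (ov τ π z 0)`.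
-/

set_option autoImplicit false
set_option linter.unusedSectionVars false

open MeasureTheory Set Filter Topology
open scoped ENNReal NNReal
open Crest.AnalysisR.Kinetic
open Crest.Agent.R122.Ins45 Crest.Agent.R122.GIV566 Crest.Agent.R122.VL581

noncomputable section

namespace Crest.Agent.R122.VLPar823

open scoped Classical
open MTree

variable {J κ : Type}

/-! ### Finitely many merge trees -/

theorem nn_card {o : Option J} : ∀ (τ : MTree J κ), WF o τ → nn τ + 1 = (supp τ).card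
  | leaf j => fun _ => by simp [nn, supp]
  | node A k i B l j P Q => fun hW => by
      have h1 := nn_card P hW.2.2.2.2.2.2.1
      have h2 := nn_card Q hW.2.2.2.2.2.2.2
      have h3 : (supp (node A k i B l j P Q)).card = (supp P).card + (supp Q).card :=
        Finset.card_union_of_disjoint hW.1
      rw [h3]
      simp only [nn]
      omega

/-- merge trees with at most `n` merges (and some more) -/
def trees (J κ : Type) [Fintype J] [Fintype κ] : ℕ → Finset (MTree J κ)
  | 0 => Finset.univ.image leaf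
  | n + 1 => trees J κ n ∪
      ((Finset.univ : Finset (Finset J × κ × J × Finset J × κ × J)) ×ˢ
        (trees J κ n ×ˢ trees J κ n)).image fun q =>
          node q.1.1 q.1.2.1 q.1.2.2.1 q.1.2.2.2.1 q.1.2.2.2.2.1 q.1.2.2.2.2.2 q.2.1 q.2.2

variable [Fintype J]

theorem mem_trees [Fintype κ] : ∀ (n : ℕ) (τ : MTree J κ), nn τ ≤ n → τ ∈ trees J κ n := by
  intro n
  induction n with
  | zero =>
    intro τ hτ
    cases τ with
    | leaf j => exact Finset.mem_image_of_mem _ (Finset.mem_univ _)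
    | node A k i B l j P Q => simp [nn] at hτ
  | succ n ih =>
    intro τ hτ
    unfold trees
    cases τ with
    | leaf j => exact Finset.mem_union_left _ (ih _ (by simp [nn]))
    | node A k i B l j P Q =>
      simp only [nn] at hτ
      refine Finset.mem_union_right _ (Finset.mem_image.2
        ⟨((A, k, i, B, l, j), (P, Q)), ?_, rfl⟩)
      have hP : P ∈ trees J κ n := ih P (by omega)
      have hQ : Q ∈ trees J κ n := ih Q (by omega)
      exact Finset.mem_product.2 ⟨Finset.mem_univ _, Finset.mem_product.2 ⟨hP, hQ⟩⟩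

/-! ### Boxes of times -/

/-- box of times -/
def InBox (h : ℝ) : ∀ τ : MTree J κ, Tm τ → Tm τ → Prop
  | leaf _ => fun _ _ => True
  | node _ _ _ _ _ _ P Q => fun s t => t.1 ∈ Ioc (s.1 - h) s.1 ∧ InBox h P s.2.1 t.2.1 ∧
      InBox h Q s.2.2 t.2.2

/-- relaxed order of the merge times -/
def OrdR (h : ℝ) : ∀ τ : MTree J κ, ℝ → Tm τ → Prop
  | leaf _ => fun _ _ => True
  | node _ _ _ _ _ _ P Q => fun u t => -h ≤ t.1 ∧ t.1 ≤ u ∧ OrdR h P (t.1 + h) t.2.1 ∧
      OrdR h Q (t.1 + h) t.2.2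

theorem ordR_of_box {h : ℝ} (τ : MTree J κ) : ∀ {u : ℝ} {s t : Tm τ}, OrdT τ u s →
    InBox h τ s t → OrdR h τ u t := by
  induction τ with
  | leaf j =>
    intro u s t _ _
    exact trivial
  | node A k i B l j P Q ihP ihQ =>
    intro u s t h1 h2
    obtain ⟨s0, sP, sQ⟩ := s
    obtain ⟨t0, tP, tQ⟩ := t
    obtain ⟨a1, a2, a3, a4⟩ := h1
    obtain ⟨b1, b2, b3⟩ := h2
    simp only at a1 a2 b1
    have e1 : s0 - h < t0 := b1.1
    have e2 : t0 ≤ s0 := b1.2
    have e3 : s0 ≤ t0 + h := by linarith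
    have e4 : -h ≤ t0 := by linarith
    exact ⟨e4, e2.trans a2, ihP (a3.mono e3 P) b2, ihQ (a4.mono e3 Q) b3⟩

theorem volume_box {h : ℝ} (hh : 0 ≤ h) (τ : MTree J κ) : ∀ s : Tm τ,
    volume {t | InBox h τ s t} = ENNReal.ofReal (h ^ nn τ) := by
  induction τ with
  | leaf j =>
    intro s
    have e : {t | InBox h (leaf j : MTree J κ) s t} = Set.univ := by
      ext t
      simp [InBox]
    rw [e]
    have : (volume : Measure (Tm (leaf j : MTree J κ))) Set.univ =
      (Measure.dirac () : Measure Unit) Set.univ := rfl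
    rw [this]
    simp [nn]
  | node A k i B l j P Q ihP ihQ =>
    intro s
    have e2 : (volume : Measure (Tm (node A k i B l j P Q))) {t | InBox h (node A k i B l j P Q) s t} =
      ((volume : Measure ℝ).prod ((volume : Measure (Tm P)).prod (volume : Measure (Tm Q))))
        ((Ioc (s.1 - h) s.1) ×ˢ ({t | InBox h P s.2.1 t} ×ˢ {t | InBox h Q s.2.2 t})) := rfl
    rw [e2, Measure.prod_prod, Measure.prod_prod, ihP, ihQ,
      Real.volume_Ioc, ← ENNReal.ofReal_mul (by positivity), ← ENNReal.ofReal_mul (by linarith)]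
    congr 1
    simp only [nn]
    ring

/-! ### Closeness at the merge times -/

/-- The labels of every merge are close to each other, with bounded relative velocity; the
sub-worlds are ok. -/
def NearZ (M : VSys J κ) (C' L' : ℝ) : ∀ τ : MTree J κ, Tm τ → (J → PhasePoint) → Prop
  | leaf _ => fun _ _ => True
  | node A k i B l j P Q => fun t Z => M.ok A t.1 Z ∧ M.ok B t.1 Z ∧
      ‖(ph M A k t.1 Z i - ph M B l t.1 Z j).1‖ ≤ C' * M.ε ∧
      ‖(ph M A k t.1 Z i - ph M B l t.1 Z j).2‖ ≤ L' ∧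
      NearZ M C' L' P t.2.1 Z ∧ NearZ M C' L' Q t.2.2 Z

/-- bounded parameters -/
def Bx (C' L' : ℝ) : ∀ τ : MTree J κ, Par τ → Prop
  | leaf _ => fun _ => True
  | node _ _ _ _ _ _ P Q => fun π => ‖π.1.2.1‖ ≤ C' ∧ ‖π.1.2.2‖ ≤ L' ∧ Bx C' L' P π.2.1 ∧
      Bx C' L' Q π.2.2

variable {LS : ℝ≥0} {M : VSys J κ} {C : ℝ} {Z : J → PhasePoint}

theorem NearZ.okT {C' L' : ℝ} : ∀ (τ : MTree J κ) {t : Tm τ}, NearZ M C' L' τ t Z → OkT M τ t Z
  | leaf _ => fun _ => trivial
  | node _ _ _ _ _ _ P Q => fun h => ⟨h.1, h.2.1, NearZ.okT P h.2.2.2.2.1, NearZ.okT Q h.2.2.2.2.2⟩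

theorem NearZ.congr {C' L' : ℝ} {o : Option J} : ∀ (τ : MTree J κ) (_ : WF o τ) {t : Tm τ}
    {Z Z' : J → PhasePoint} (_ : ∀ y ∈ supp τ, Z y = Z' y), NearZ M C' L' τ t Z →
      NearZ M C' L' τ t Z'
  | leaf _ => fun _ _ _ _ _ _ => trivial
  | node A k i B l j P Q => fun hW t Z Z' hZ h => by
      obtain ⟨hd, hA, hB, hi, hj, -, hWP, hWQ⟩ := hW
      obtain ⟨h1, h2, h3, h4, h5, h6⟩ := h
      have hZP : ∀ y ∈ supp P, Z y = Z' y := fun y hy => hZ y (Finset.mem_union_left _ hy)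
      have hZQ : ∀ y ∈ supp Q, Z y = Z' y := fun y hy => hZ y (Finset.mem_union_right _ hy)
      have e1 : ph M A k t.1 Z i = ph M A k t.1 Z' i := ph_loc (fun y hy => hZP y (hA hy)) hi
      have e2 : ph M B l t.1 Z j = ph M B l t.1 Z' j := ph_loc (fun y hy => hZQ y (hB hy)) hj
      refine ⟨(VLInst442.ok_congr (fun y hy => hZP y (hA hy)) _).1 h1,
        (VLInst442.ok_congr (fun y hy => hZQ y (hB hy)) _).1 h2, ?_, ?_, NearZ.congr P hWP hZP h5,
        NearZ.congr Q hWQ hZQ h6⟩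
      · rw [← e1, ← e2]; exact h3
      · rw [← e1, ← e2]; exact h4

/-- Closeness on the configuration side gives bounded parameters. -/
theorem bx_of_near (h : MF LS M) {C' L' : ℝ} : ∀ (τ : MTree J κ) (_ : WF M.o τ) (π : Par τ)
    (z : PhasePoint) (x : J → PhasePoint), NearZ M C' L' τ (tms τ π) (ov M τ π z x) → Bx C' L' τ π
  | leaf _ => fun _ _ _ _ _ => trivial
  | node A k i B l j P Q => fun hW π z x hN => by
      obtain ⟨hd, hA, hB, hi, hj, -, hWP, hWQ⟩ := id hW
      obtain ⟨h1, h2, h3, h4, h5, h6⟩ := hN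
      have ht := touch h hW π z x h2 (NearZ.okT Q h6)
      have e : (tms (node A k i B l j P Q) π).1 = π.1.1 := rfl
      rw [e, ht] at h3 h4
      simp only at h3 h4
      refine ⟨?_, h4, ?_, ?_⟩
      · rw [norm_smul, Real.norm_of_nonneg h.eps.le, mul_comm] at h3
        exact le_of_mul_le_mul_right h3 h.eps
      · exact bx_of_near h P hWP π.2.1 z x
          (NearZ.congr P hWP (fun y hy => ov_node_left hW π z x hy) h5)
      · rw [ov_node] at h6
        exact bx_of_near h Q hWQ π.2.2 _ _ h6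

/-- speed of a label -/
theorem ph_speed (h : MF LS M) {V : ℝ} (hV : ∀ j, ‖(Z j).2‖ ≤ V) {A : Finset J} {k : κ} {t : ℝ}
    (hok : M.ok A t Z) (i : J) : ‖(ph M A k t Z i).2‖ ≤ VLInst442.spd M.Φ (Fintype.card J) V := by
  unfold ph
  by_cases ho : M.o = some i
  · simp only [ho, if_true, norm_zero]
    exact VLInst442.spd_nonneg _ _ _
  · simp only [ho, if_false]
    exact VLInst442.st_speed h.adm h.eps hok hV i

theorem pos_lip (h : MF LS M) {V : ℝ} (hV : ∀ j, ‖(Z j).2‖ ≤ V) {A : Finset J} {k : κ} {s t : ℝ}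
    (hok : M.ok A s Z) (hts : t ≤ s) (i : J) :
    dist (M.pos A k t Z i) (M.pos A k s Z i) ≤
      (VLInst442.spd M.Φ (Fintype.card J) V + LS) * (s - t) := by
  have h0 := VLInst442.spd_nonneg M.Φ (Fintype.card J) V
  have h1 : (0 : ℝ) ≤ LS := LS.2
  have h2 : 0 ≤ s - t := by linarith
  unfold VSys.pos
  by_cases ho : M.o = some i
  · rw [if_pos ho, if_pos ho, dist_add_left]
    have := clamp_lip h k s t
    rw [abs_of_nonpos (by linarith)] at this
    nlinarith
  · rw [if_neg ho, if_neg ho]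
    have := VLInst442.st_lipschitz h.adm h.eps hok hV i hts
    nlinarith

theorem near_of_box (h : MF LS M) {V : ℝ} (hV : ∀ j, ‖(Z j).2‖ ≤ V) (τ : MTree J κ) :
    ∀ {s t : Tm τ}, CtT M C τ s Z → InBox M.ε τ s t →
      NearZ M (C + 2 * (VLInst442.spd M.Φ (Fintype.card J) V + LS))
        (2 * VLInst442.spd M.Φ (Fintype.card J) V) τ t Z := by
  induction τ with
  | leaf j =>
    intro s t _ _
    exact trivial
  | node A k i B l j P Q ihP ihQ =>
    intro s t h1 h2
    obtain ⟨a1, a2, a3⟩ := h1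
    obtain ⟨b1, b2, b3⟩ := h2
    obtain ⟨c1, c2, c3, c4, -, -, c5⟩ := a1
    have e1 : s.1 - M.ε < t.1 := b1.1
    have e2 : t.1 ≤ s.1 := b1.2
    set Λ := VLInst442.spd M.Φ (Fintype.card J) V with hΛ
    have hΛ0 : 0 ≤ Λ := VLInst442.spd_nonneg _ _ _
    have hLS : (0 : ℝ) ≤ LS := LS.2
    refine ⟨VLInst442.ok_anti e2 c3, VLInst442.ok_anti e2 c4, ?_, ?_, ihP a2 b2, ihQ a3 b3⟩
    · show ‖M.pos A k t.1 Z i - M.pos B l t.1 Z j‖ ≤ _
      rw [← dist_eq_norm]
      have f1 := pos_lip (k := k) h hV c3 e2 i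
      have f2 := pos_lip (k := l) h hV c4 e2 j
      have f3 : (Λ + LS) * (s.1 - t.1) ≤ (Λ + LS) * M.ε :=
        mul_le_mul_of_nonneg_left (by linarith) (by linarith)
      have f4 := dist_triangle4 (M.pos A k t.1 Z i) (M.pos A k s.1 Z i) (M.pos B l s.1 Z j)
        (M.pos B l t.1 Z j)
      rw [dist_comm (M.pos B l s.1 Z j)] at f4
      nlinarith
    · have f1 := ph_speed (k := k) h hV (VLInst442.ok_anti e2 c3) i
      have f2 := ph_speed (k := l) h hV (VLInst442.ok_anti e2 c4) j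
      calc ‖(ph M A k t.1 Z i - ph M B l t.1 Z j).2‖ ≤
          ‖(ph M A k t.1 Z i).2‖ + ‖(ph M B l t.1 Z j).2‖ := norm_sub_le _ _
        _ ≤ 2 * Λ := by linarith

/-! ### Measurability -/

theorem measurableSet_ordR (h : ℝ) (τ : MTree J κ) : ∀ {α : Type} [MeasurableSpace α]
    {u : α → ℝ} {t : α → Tm τ}, Measurable u → Measurable t →
      MeasurableSet {a | OrdR h τ (u a) (t a)} := by
  induction τ with
  | leaf j =>
    intro α _ u t hu ht
    simp [OrdR]
  | node A k i B l j P Q ihP ihQ =>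
    intro α _ u t hu ht
    have ht' : @Measurable α (ℝ × Tm P × Tm Q) _ _ t := ht
    have h1 : Measurable fun a => (t a).1 := ht'.fst
    have h2 : Measurable fun a => (t a).2.1 := ht'.snd.fst
    have h3 : Measurable fun a => (t a).2.2 := ht'.snd.snd
    have e : {a | OrdR h (node A k i B l j P Q) (u a) (t a)} =
        {a | -h ≤ (t a).1} ∩ ({a | (t a).1 ≤ u a} ∩ ({a | OrdR h P ((t a).1 + h) (t a).2.1} ∩
          {a | OrdR h Q ((t a).1 + h) (t a).2.2})) := rfl
    rw [e]
    exact (measurableSet_le measurable_const h1).inter ((measurableSet_le h1 hu).inter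
      ((ihP (h1.add_const h) h2).inter (ihQ (h1.add_const h) h3)))

theorem measurableSet_bx (C' L' : ℝ) (τ : MTree J κ) : MeasurableSet {π | Bx C' L' τ π} := by
  induction τ with
  | leaf j => simp [Bx]
  | node A k i B l j P Q ihP ihQ =>
    have e : {π | Bx C' L' (node A k i B l j P Q) π} =
        {π : (ℝ × Space3 × Space3) × Par P × Par Q | ‖π.1.2.1‖ ≤ C'} ∩
        ({π : (ℝ × Space3 × Space3) × Par P × Par Q | ‖π.1.2.2‖ ≤ L'} ∩
        ((fun π : (ℝ × Space3 × Space3) × Par P × Par Q => π.2.1) ⁻¹' {π | Bx C' L' P π} ∩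
        (fun π : (ℝ × Space3 × Space3) × Par P × Par Q => π.2.2) ⁻¹' {π | Bx C' L' Q π})) := rfl
    rw [e]
    exact (measurableSet_le measurable_fst.snd.fst.norm measurable_const).inter
      ((measurableSet_le measurable_fst.snd.snd.norm measurable_const).inter
      ((measurable_snd.fst ihP).inter (measurable_snd.snd ihQ)))

theorem measurableSet_ok (h : MF LS M) (A : Finset J) {α : Type} [MeasurableSpace α]
    {t : α → ℝ} {Z : α → J → PhasePoint} (ht : Measurable t) (hZ : Measurable Z) :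
    MeasurableSet {a | M.ok A (t a) (Z a)} :=
  (VLMeas973.rse_ok (M := M) (b := fun _ => M.b)
    ⟨h.adm, h.eps, h.T0, fun k => (h.lip k).continuousOn⟩ measurable_const hZ A).measurableSet_at ht

attribute [local irreducible] ph in
theorem measurableSet_near (h : MF LS M) (C' L' : ℝ) (τ : MTree J κ) : ∀ {α : Type}
    [MeasurableSpace α] {t : α → Tm τ} {Z : α → J → PhasePoint}, Measurable t → Measurable Z →
      MeasurableSet {a | NearZ M C' L' τ (t a) (Z a)} := by
  induction τ with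
  | leaf j =>
    intro α _ t Z ht hZ
    simp [NearZ]
  | node A k i B l j P Q ihP ihQ =>
    intro α _ t Z ht hZ
    have ht' : @Measurable α (ℝ × Tm P × Tm Q) _ _ t := ht
    have h1 : Measurable fun a => (t a).1 := ht'.fst
    have h2 : Measurable fun a => (t a).2.1 := ht'.snd.fst
    have h3 : Measurable fun a => (t a).2.2 := ht'.snd.snd
    have h4 : Measurable fun a => ph M A k (t a).1 (Z a) i :=
      (ph_meas h A k i).comp (h1.prodMk hZ)
    have h5 : Measurable fun a => ph M B l (t a).1 (Z a) j :=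
      (ph_meas h B l j).comp (h1.prodMk hZ)
    have e : {a | NearZ M C' L' (node A k i B l j P Q) (t a) (Z a)} =
        {a | M.ok A (t a).1 (Z a)} ∩ ({a | M.ok B (t a).1 (Z a)} ∩
        ({a | ‖(ph M A k (t a).1 (Z a) i - ph M B l (t a).1 (Z a) j).1‖ ≤ C' * M.ε} ∩
        ({a | ‖(ph M A k (t a).1 (Z a) i - ph M B l (t a).1 (Z a) j).2‖ ≤ L'} ∩
        ({a | NearZ M C' L' P (t a).2.1 (Z a)} ∩ {a | NearZ M C' L' Q (t a).2.2 (Z a)})))) := rfl
    rw [e]
    have h6 : Measurable fun a => ‖(ph M A k (t a).1 (Z a) i - ph M B l (t a).1 (Z a) j).1‖ :=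
      (h4.sub h5).fst.norm
    have h7 : Measurable fun a => ‖(ph M A k (t a).1 (Z a) i - ph M B l (t a).1 (Z a) j).2‖ :=
      (h4.sub h5).snd.norm
    exact (measurableSet_ok h A h1 hZ).inter ((measurableSet_ok h B h1 hZ).inter
      ((measurableSet_le h6 measurable_const).inter
      ((measurableSet_le h7 measurable_const).inter
      ((ihP h2 hZ).inter (ihQ h3 hZ)))))

end Crest.Agent.R122.VLPar823

end
private theorem rz_75d755483b : type_of% @_root_.Crest.Agent.R122.VLPar823.Bx.eq_def := @_root_.Crest.Agent.R122.VLPar823.Bx.eq_def -- L141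
private theorem rz_36d2d814e9 : type_of% @_root_.Crest.Agent.R122.VLPar823.Bx.eq_1 := @_root_.Crest.Agent.R122.VLPar823.Bx.eq_1 -- L141
private theorem rz_1866eb356c : type_of% @_root_.Crest.Agent.R122.VLPar823.InBox.eq_def := @_root_.Crest.Agent.R122.VLPar823.InBox.eq_def -- L75
private theorem rz_6354ecc5df : type_of% @_root_.Crest.Agent.R122.VLPar823.InBox.eq_1 := @_root_.Crest.Agent.R122.VLPar823.InBox.eq_1 -- L75
private theorem rz_4c0c836e69 : type_of% @_root_.Crest.Agent.R122.VLPar823.NearZ.eq_def := @_root_.Crest.Agent.R122.VLPar823.NearZ.eq_def -- L133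
private theorem rz_8cd55f6c30 : type_of% @_root_.Crest.Agent.R122.VLPar823.NearZ.eq_1 := @_root_.Crest.Agent.R122.VLPar823.NearZ.eq_1 -- L133
private theorem rz_1d9666ccbe : type_of% @_root_.Crest.Agent.R122.VLPar823.OrdR.eq_def := @_root_.Crest.Agent.R122.VLPar823.OrdR.eq_def -- L81
private theorem rz_c8d17284da : type_of% @_root_.Crest.Agent.R122.VLPar823.OrdR.eq_1 := @_root_.Crest.Agent.R122.VLPar823.OrdR.eq_1 -- L81
private theorem rz_cb77338123 : type_of% @_root_.Crest.Agent.R122.VLPar823.trees.eq_def := @_root_.Crest.Agent.R122.VLPar823.trees.eq_def -- L42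
end

-- ▼ part R122/VLPar5_823
section

/-!
# Row 122, block D3, part P1 (helper823): the main inequality

`main_ineq`: `ε^(m-1) ∫ F ≤ ε^(3(m-1)) Σ_τ ∫ dπ ∫ dz 1[Bx] F (ov τ π z 0)`.
-/

set_option autoImplicit false
set_option linter.unusedSectionVars false

open MeasureTheory Set Filter Topology
open scoped ENNReal NNReal
open Crest.AnalysisR.Kinetic
open Crest.Agent.R122.Ins45 Crest.Agent.R122.GIV566 Crest.Agent.R122.VL581

noncomputable section

namespace Crest.Agent.R122.VLPar823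

open scoped Classical
open MTree

variable {J κ : Type} [Fintype J] {LS : ℝ≥0} {M : VSys J κ} {C : ℝ} {Z : J → PhasePoint}

/-- the merge tubes are active at the merge times -/
def ActT (M : VSys J κ) : ∀ τ : MTree J κ, Tm τ → Prop
  | leaf _ => fun _ => True
  | node _ k i _ _ _ P Q => fun t =>
      (M.o = some i → t.1 ≤ M.S.b k) ∧ ActT M P t.2.1 ∧ ActT M Q t.2.2

theorem act_of_actT (M : VSys J κ) (τ : MTree J κ) : ∀ {π : Par τ}, ActT M τ (tms τ π) →
    Act M τ π := by
  induction τ with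
  | leaf j =>
    intro π _
    exact trivial
  | node A k i B l j P Q ihP ihQ =>
    intro π h
    exact ⟨h.1, ihP h.2.1, ihQ h.2.2⟩

theorem actT_of_box {h : ℝ} (τ : MTree J κ) : ∀ {s t : Tm τ}, CtT M C τ s Z →
    InBox h τ s t → ActT M τ t := by
  induction τ with
  | leaf j =>
    intro s t _ _
    exact trivial
  | node A k i B l j P Q ihP ihQ =>
    intro s t h1 h2
    obtain ⟨a1, a2, a3⟩ := h1
    obtain ⟨b1, b2, b3⟩ := h2
    exact ⟨fun ho => b1.2.trans (a1.2.2.2.2.1 ho), ihP a2 b2, ihQ a3 b3⟩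

theorem measurableSet_actT (M : VSys J κ) (τ : MTree J κ) : MeasurableSet {t | ActT M τ t} := by
  induction τ with
  | leaf j => simp [ActT]
  | node A k i B l j P Q ihP ihQ =>
    have e : {t | ActT M (node A k i B l j P Q) t} =
        {t : ℝ × Tm P × Tm Q | M.o = some i → t.1 ≤ M.S.b k} ∩
        ((fun t : ℝ × Tm P × Tm Q => t.2.1) ⁻¹' {t | ActT M P t} ∩
        (fun t : ℝ × Tm P × Tm Q => t.2.2) ⁻¹' {t | ActT M Q t}) := rfl
    have h1 : MeasurableSet {t : ℝ × Tm P × Tm Q | M.o = some i → t.1 ≤ M.S.b k} := by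
      by_cases ho : M.o = some i
      · simp only [ho, forall_const]
        exact measurableSet_le measurable_fst measurable_const
      · simp only [ho, false_imp_iff]
        exact MeasurableSet.univ
    have h2 : @MeasurableSet (ℝ × Tm P × Tm Q) _ ({t : ℝ × Tm P × Tm Q | M.o = some i →
        t.1 ≤ M.S.b k} ∩ ((fun t : ℝ × Tm P × Tm Q => t.2.1) ⁻¹' {t | ActT M P t} ∩
        (fun t : ℝ × Tm P × Tm Q => t.2.2) ⁻¹' {t | ActT M Q t})) :=
      h1.inter ((measurable_snd.fst ihP).inter (measurable_snd.snd ihQ))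
    rw [e]
    exact h2

/-- integrand on the side of times and configurations -/
def GG (M : VSys J κ) (C' L' : ℝ) (τ : MTree J κ) (F : (J → PhasePoint) → ℝ≥0∞) :
    Tm τ × (J → PhasePoint) → ℝ≥0∞ :=
  {p | OrdR M.ε τ M.T p.1 ∧ ActT M τ p.1 ∧ NearZ M C' L' τ p.1 p.2}.indicator fun p => F p.2

theorem measurable_GG (h : MF LS M) (C' L' : ℝ) (τ : MTree J κ) {F : (J → PhasePoint) → ℝ≥0∞}
    (hF : Measurable F) : Measurable (GG M C' L' τ F) := by
  refine (hF.comp measurable_snd).indicator ?_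
  exact (measurableSet_ordR M.ε τ measurable_const measurable_fst).inter
    ((measurable_fst (measurableSet_actT M τ)).inter
      (measurableSet_near h C' L' τ measurable_fst measurable_snd))

/-- The merge trees of the sum. -/
def Trs [Fintype κ] (M : VSys J κ) (i₀ : J) : Finset (MTree J κ) :=
  (trees J κ (Fintype.card J - 1)).filter fun τ =>
    WF M.o τ ∧ supp τ = Finset.univ ∧ root τ = i₀

theorem nn_of_univ {o : Option J} {τ : MTree J κ} (hW : WF o τ) (hs : supp τ = Finset.univ) :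
    nn τ = Fintype.card J - 1 := by
  have := nn_card τ hW
  rw [hs, Finset.card_univ] at this
  omega

theorem mem_Trs [Fintype κ] {i₀ : J} {τ : MTree J κ} (hW : WF M.o τ)
    (hs : supp τ = Finset.univ) (hr : root τ = i₀) : τ ∈ Trs M i₀ :=
  Finset.mem_filter.2 ⟨mem_trees _ τ (nn_of_univ hW hs).le, hW, hs, hr⟩

/-- Bound for the distances of the touching labels. -/
def cC (M : VSys J κ) (LS : ℝ≥0) (C V : ℝ) : ℝ :=
  C + 2 * (VLInst442.spd M.Φ (Fintype.card J) V + LS)

/-- Bound for the relative velocities. -/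
def cL (M : VSys J κ) (V : ℝ) : ℝ := 2 * VLInst442.spd M.Φ (Fintype.card J) V

theorem measurableSet_box (h : ℝ) (τ : MTree J κ) : ∀ s : Tm τ,
    MeasurableSet {t | InBox h τ s t} := by
  induction τ with
  | leaf j =>
    intro s
    simp [InBox]
  | node A k i B l j P Q ihP ihQ =>
    intro s
    have e : @MeasurableSet (ℝ × Tm P × Tm Q) _
        ((Ioc (s.1 - h) s.1) ×ˢ ({t | InBox h P s.2.1 t} ×ˢ {t | InBox h Q s.2.2 t})) :=
      measurableSet_Ioc.prod ((ihP _).prod (ihQ _))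
    exact e

theorem pointwise [Fintype κ] (h : MF LS M) (hC : 1 ≤ C) {V : ℝ} {F : (J → PhasePoint) → ℝ≥0∞}
    (hF' : ∀ Z, F Z ≠ 0 → M.Conn C Finset.univ Z ∧ ∀ j, ‖(Z j).2‖ ≤ V) {i₀ : J}
    (ho : ∀ x, M.o = some x → i₀ = x) (Z : J → PhasePoint) :
    ENNReal.ofReal (M.ε ^ (Fintype.card J - 1)) * F Z ≤
      ∑ τ ∈ Trs M i₀, ∫⁻ t : Tm τ, GG M (cC M LS C V) (cL M V) τ F (t, Z) := by
  by_cases hZ : F Z = 0
  · rw [hZ, mul_zero]
    exact zero_le
  obtain ⟨hconn, hV⟩ := hF' Z hZ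
  obtain ⟨τ, s, hW, hs, hr, hO, hct⟩ := kruskal h hC ho (Finset.mem_univ i₀) hconn
  refine le_trans ?_ (Finset.single_le_sum (f := fun τ => ∫⁻ t : Tm τ,
    GG M (cC M LS C V) (cL M V) τ F (t, Z)) (fun _ _ => zero_le) (mem_Trs hW hs hr))
  have h1 : ∫⁻ _t : Tm τ in {t | InBox M.ε τ s t}, F Z ≤
      ∫⁻ t : Tm τ, GG M (cC M LS C V) (cL M V) τ F (t, Z) := by
    have hm : MeasurableSet {t | InBox M.ε τ s t} := measurableSet_box M.ε τ s
    rw [← lintegral_indicator hm]
    refine lintegral_mono fun t => ?_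
    by_cases ht : InBox M.ε τ s t
    · rw [indicator_of_mem (show t ∈ {t | InBox M.ε τ s t} from ht)]
      unfold GG
      rw [indicator_of_mem]
      exact ⟨ordR_of_box τ hO ht, actT_of_box τ hct ht, near_of_box h hV τ hct ht⟩
    · rw [indicator_of_notMem (show t ∉ {t | InBox M.ε τ s t} from ht)]
      exact zero_le
  refine le_trans ?_ h1
  rw [setLIntegral_const, volume_box h.eps.le τ s, nn_of_univ hW hs, mul_comm]

/-- **Main inequality.** -/
theorem main_ineq [Fintype κ] (h : MF LS M) (hC : 1 ≤ C) {V : ℝ} {F : (J → PhasePoint) → ℝ≥0∞}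
    (hF : Measurable F) (hF' : ∀ Z, F Z ≠ 0 → M.Conn C Finset.univ Z ∧ ∀ j, ‖(Z j).2‖ ≤ V) {i₀ : J}
    (ho : ∀ x, M.o = some x → i₀ = x) :
    ENNReal.ofReal (M.ε ^ (Fintype.card J - 1)) * ∫⁻ Z, F Z ≤
      ENNReal.ofReal (M.ε ^ (3 * (Fintype.card J - 1))) * ∑ τ ∈ Trs M i₀,
        ∫⁻ π : Par τ, ∫⁻ z : PhasePoint,
          {π | OrdR M.ε τ M.T (tms τ π) ∧ ActT M τ (tms τ π) ∧
            Bx (cC M LS C V) (cL M V) τ π}.indicator (fun π => F (ov M τ π z 0)) π := by
  rw [← lintegral_const_mul' _ _ ENNReal.ofReal_ne_top]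
  refine (lintegral_mono (pointwise h hC hF' ho)).trans ?_
  rw [lintegral_finsetSum', Finset.mul_sum]
  swap
  · intro τ _
    exact (Measurable.lintegral_prod_left' (measurable_GG h _ _ τ hF)).aemeasurable
  refine Finset.sum_le_sum fun τ hτ => ?_
  obtain ⟨-, hW, hs, -⟩ := Finset.mem_filter.1 hτ
  have hG := measurable_GG h (cC M LS C V) (cL M V) τ hF
  have e1 : ∫⁻ Z : J → PhasePoint, ∫⁻ t : Tm τ, GG M (cC M LS C V) (cL M V) τ F (t, Z) =
      ∫⁻ t : Tm τ, lmarginal (fun _ => (volume : Measure PhasePoint)) (supp τ)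
        (fun Z => GG M (cC M LS C V) (cL M V) τ F (t, Z)) 0 := by
    rw [hs, ← lintegral_lintegral_swap
      (f := fun (t : Tm τ) (Z : J → PhasePoint) => GG M (cC M LS C V) (cL M V) τ F (t, Z))
      hG.aemeasurable]
    refine lintegral_congr fun t => ?_
    rw [lmarginal_univ]
    rfl
  rw [e1, cov_formula h τ hW _ hG 0, nn_of_univ hW hs]
  refine mul_le_mul_right (lintegral_mono fun π => lintegral_mono fun z => ?_) _
  unfold GG
  by_cases hp : OrdR M.ε τ M.T (tms τ π) ∧ ActT M τ (tms τ π) ∧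
      NearZ M (cC M LS C V) (cL M V) τ (tms τ π) (ov M τ π z 0)
  · rw [indicator_of_mem (show (tms τ π, ov M τ π z 0) ∈ {p : Tm τ × (J → PhasePoint) |
      OrdR M.ε τ M.T p.1 ∧ ActT M τ p.1 ∧ NearZ M (cC M LS C V) (cL M V) τ p.1 p.2} from hp),
      indicator_of_mem]
    exact ⟨hp.1, hp.2.1, bx_of_near h τ hW π z 0 hp.2.2⟩
  · rw [indicator_of_notMem (show (tms τ π, ov M τ π z 0) ∉ {p : Tm τ × (J → PhasePoint) |
      OrdR M.ε τ M.T p.1 ∧ ActT M τ p.1 ∧ NearZ M (cC M LS C V) (cL M V) τ p.1 p.2} from hp)]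
    exact zero_le

end Crest.Agent.R122.VLPar823

end
private theorem rz_5433d26de1 : type_of% @_root_.Crest.Agent.R122.VLPar823.ActT.eq_def := @_root_.Crest.Agent.R122.VLPar823.ActT.eq_def -- L29
private theorem rz_223f029308 : type_of% @_root_.Crest.Agent.R122.VLPar823.ActT.eq_1 := @_root_.Crest.Agent.R122.VLPar823.ActT.eq_1 -- L29
end

-- ▼ part R122/VLPar6_823
section

/-!
# Row 122, block D3, part P1 (helper823): null sets of times, finite boxes, the bounding function
-/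

set_option autoImplicit false
set_option linter.unusedSectionVars false

open MeasureTheory Set Filter Topology
open scoped ENNReal NNReal
open Crest.AnalysisR.Kinetic
open Crest.Agent.R122.Ins45 Crest.Agent.R122.GIV566 Crest.Agent.R122.VL581

noncomputable section

namespace Crest.Agent.R122.VLPar823

open scoped Classical
open MTree

variable {J κ : Type}

/-! ### Generic times -/

/-- The times are different from their bounds. -/
def GT : ∀ τ : MTree J κ, ℝ → Par τ → Prop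
  | leaf _ => fun _ _ => True
  | node _ _ _ _ _ _ P Q => fun u π => π.1.1 ≠ 0 ∧ π.1.1 ≠ u ∧ GT P π.1.1 π.2.1 ∧
      GT Q π.1.1 π.2.2

theorem measurableSet_GT (τ : MTree J κ) : MeasurableSet {p : ℝ × Par τ | GT τ p.1 p.2} := by
  induction τ with
  | leaf j => simp [GT]
  | node A k i B l j P Q ihP ihQ =>
    have m0 : Measurable fun p : ℝ × ((ℝ × Space3 × Space3) × Par P × Par Q) => p.2.1.1 :=
      measurable_snd.fst.fst
    have m1 : Measurable fun p : ℝ × ((ℝ × Space3 × Space3) × Par P × Par Q) =>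
        (p.2.1.1, p.2.2.1) := m0.prodMk measurable_snd.snd.fst
    have m2 : Measurable fun p : ℝ × ((ℝ × Space3 × Space3) × Par P × Par Q) =>
        (p.2.1.1, p.2.2.2) := m0.prodMk measurable_snd.snd.snd
    have e : @MeasurableSet (ℝ × ((ℝ × Space3 × Space3) × Par P × Par Q)) _
        ({p | p.2.1.1 ≠ 0} ∩ ({p | p.2.1.1 ≠ p.1} ∩
        ((fun p => (p.2.1.1, p.2.2.1)) ⁻¹' {p : ℝ × Par P | GT P p.1 p.2} ∩
        (fun p => (p.2.1.1, p.2.2.2)) ⁻¹' {p : ℝ × Par Q | GT Q p.1 p.2}))) :=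
      (measurableSet_eq_fun m0 measurable_const).compl.inter
        ((measurableSet_eq_fun m0 measurable_fst).compl.inter ((m1 ihP).inter (m2 ihQ)))
    exact e

theorem ae_GT (τ : MTree J κ) : ∀ u : ℝ, ∀ᵐ π : Par τ, GT τ u π := by
  induction τ with
  | leaf j =>
    intro u
    exact Eventually.of_forall fun _ => trivial
  | node A k i B l j P Q ihP ihQ =>
    intro u
    have hne : ∀ c : ℝ, ∀ᵐ a : ℝ × Space3 × Space3, a.1 ≠ c := by
      intro c
      have h1 : ∀ᵐ t : ℝ, t ≠ c := by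
        rw [ae_iff]
        simp
      exact Measure.quasiMeasurePreserving_fst.ae h1
    have hms : @MeasurableSet ((ℝ × Space3 × Space3) × Par P × Par Q) _
        {π | GT (node A k i B l j P Q) u π} :=
      (measurable_const.prodMk measurable_id) (measurableSet_GT (node A k i B l j P Q))
    have key : ∀ᵐ π : (ℝ × Space3 × Space3) × Par P × Par Q
        ∂((volume : Measure (ℝ × Space3 × Space3)).prod
        ((volume : Measure (Par P)).prod (volume : Measure (Par Q)))),
        GT (node A k i B l j P Q) u π := by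
      refine (Measure.ae_prod_iff_ae_ae hms).2 ?_
      filter_upwards [hne 0, hne u] with a h0 hu
      have h1 := Measure.quasiMeasurePreserving_fst.ae (μa := (volume : Measure (Par P)).prod
        (volume : Measure (Par Q))) (ihP a.1)
      have h2 := Measure.quasiMeasurePreserving_snd.ae (μa := (volume : Measure (Par P)).prod
        (volume : Measure (Par Q))) (ihQ a.1)
      filter_upwards [h1, h2] with b hb1 hb2
      exact ⟨h0, hu, hb1, hb2⟩
    exact key

/-- Generic times which are frequently in relaxed order are in order. -/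
theorem ord_of_frequently (τ : MTree J κ) : ∀ {u : ℝ} {uk hk : ℕ → ℝ} {π : Par τ},
    Tendsto hk atTop (𝓝 0) → Tendsto uk atTop (𝓝 u) → GT τ u π →
    (∃ᶠ k in atTop, OrdR (hk k) τ (uk k) (tms τ π)) → Ord τ u π := by
  induction τ with
  | leaf j =>
    intro u uk hk π _ _ _ _
    exact trivial
  | node A k i B l j P Q ihP ihQ =>
    intro u uk hk π hh hu hG hf
    obtain ⟨⟨t, ξ, g⟩, πP, πQ⟩ := π
    obtain ⟨g0, gu, gP, gQ⟩ := hG
    simp only at g0 gu gP gQ
    have f0 : ∃ᶠ k in atTop, -hk k ≤ t := hf.mono fun k hk => hk.1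
    have f1 : ∃ᶠ k in atTop, t ≤ uk k := hf.mono fun k hk => hk.2.1
    have f2 : ∃ᶠ k in atTop, OrdR (hk k) P (t + hk k) (tms P πP) := hf.mono fun k hk => hk.2.2.1
    have f3 : ∃ᶠ k in atTop, OrdR (hk k) Q (t + hk k) (tms Q πQ) := hf.mono fun k hk => hk.2.2.2
    have ht0 : 0 ≤ t := by
      by_contra hcon
      push Not at hcon
      have h1 : Tendsto (fun k => -hk k) atTop (𝓝 0) := by simpa using hh.neg
      have h2 := h1.eventually_const_lt hcon
      exact f0 (h2.mono fun k hk => not_le.2 hk)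
    have htu : t ≤ u := by
      by_contra hcon
      push Not at hcon
      have h2 := hu.eventually_lt_const hcon
      exact f1 (h2.mono fun k hk => not_le.2 hk)
    have hth : Tendsto (fun k => t + hk k) atTop (𝓝 t) := by
      simpa using (tendsto_const_nhds (x := t)).add hh
    exact ⟨lt_of_le_of_ne ht0 (Ne.symm g0), lt_of_le_of_ne htu gu, ihP hh hth gP f2,
      ihQ hh hth gQ f3⟩

/-! ### Finite boxes -/

/-- bounded parameters and times -/
def BxT (a b C' L' : ℝ) : ∀ τ : MTree J κ, Par τ → Prop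
  | leaf _ => fun _ => True
  | node _ _ _ _ _ _ P Q => fun π => π.1.1 ∈ Icc a b ∧ ‖π.1.2.1‖ ≤ C' ∧ ‖π.1.2.2‖ ≤ L' ∧
      BxT a b C' L' P π.2.1 ∧ BxT a b C' L' Q π.2.2

theorem bxT_of (τ : MTree J κ) : ∀ {h u b C' L' : ℝ} {π : Par τ}, 0 ≤ h → h ≤ 1 →
    u + nn τ ≤ b → OrdR h τ u (tms τ π) → Bx C' L' τ π → BxT (-1) b C' L' τ π := by
  induction τ with
  | leaf j =>
    intro h u b C' L' π _ _ _ _ _
    exact trivial
  | node A k i B l j P Q ihP ihQ =>
    intro h u b C' L' π h0 h1 hb hO hB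
    obtain ⟨⟨t, ξ, g⟩, πP, πQ⟩ := π
    obtain ⟨o1, o2, o3, o4⟩ := hO
    obtain ⟨b1, b2, b3, b4⟩ := hB
    have o1' : -h ≤ t := o1
    have o2' : t ≤ u := o2
    have e : (nn (node A k i B l j P Q) : ℝ) = nn P + nn Q + 1 := by
      simp only [nn]
      push_cast
      ring
    rw [e] at hb
    have hP0 : (0 : ℝ) ≤ nn P := Nat.cast_nonneg _
    have hQ0 : (0 : ℝ) ≤ nn Q := Nat.cast_nonneg _
    have c1 : -1 ≤ t := by linarith
    have c2 : t ≤ b := by linarith
    refine ⟨⟨c1, c2⟩, b1, b2, ihP h0 h1 ?_ o3 b3, ihQ h0 h1 ?_ o4 b4⟩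
    · show t + h + nn P ≤ b
      linarith
    · show t + h + nn Q ≤ b
      linarith

theorem measurableSet_bxT (a b C' L' : ℝ) (τ : MTree J κ) :
    MeasurableSet {π | BxT a b C' L' τ π} := by
  induction τ with
  | leaf j => simp [BxT]
  | node A k i B l j P Q ihP ihQ =>
    have e : {π | BxT a b C' L' (node A k i B l j P Q) π} =
        {π : (ℝ × Space3 × Space3) × Par P × Par Q | π.1.1 ∈ Icc a b} ∩
        ({π : (ℝ × Space3 × Space3) × Par P × Par Q | ‖π.1.2.1‖ ≤ C'} ∩
        ({π : (ℝ × Space3 × Space3) × Par P × Par Q | ‖π.1.2.2‖ ≤ L'} ∩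
        ((fun π : (ℝ × Space3 × Space3) × Par P × Par Q => π.2.1) ⁻¹' {π | BxT a b C' L' P π} ∩
        (fun π : (ℝ × Space3 × Space3) × Par P × Par Q => π.2.2) ⁻¹' {π | BxT a b C' L' Q π}))) :=
      rfl
    rw [e]
    exact (measurable_fst.fst measurableSet_Icc).inter
      ((measurableSet_le measurable_fst.snd.fst.norm measurable_const).inter
      ((measurableSet_le measurable_fst.snd.snd.norm measurable_const).inter
      ((measurable_snd.fst ihP).inter (measurable_snd.snd ihQ))))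

theorem volume_bxT (a b C' L' : ℝ) (τ : MTree J κ) : volume {π | BxT a b C' L' τ π} < ⊤ := by
  induction τ with
  | leaf j =>
    have e : (volume : Measure (Par (leaf j : MTree J κ))) {π | BxT a b C' L' (leaf j) π} =
        (Measure.dirac () : Measure Unit) {π | BxT a b C' L' (leaf j : MTree J κ) π} := rfl
    rw [e]
    exact measure_lt_top _ _
  | node A k i B l j P Q ihP ihQ =>
    have e : (volume : Measure (Par (node A k i B l j P Q)))
        {π | BxT a b C' L' (node A k i B l j P Q) π} ≤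
      ((volume : Measure (ℝ × Space3 × Space3)).prod ((volume : Measure (Par P)).prod
        (volume : Measure (Par Q))))
        (((Icc a b) ×ˢ (Metric.closedBall (0 : Space3) C' ×ˢ Metric.closedBall (0 : Space3) L')) ×ˢ
          ({π | BxT a b C' L' P π} ×ˢ {π | BxT a b C' L' Q π})) := by
      refine measure_mono ?_
      rintro ⟨⟨t, ξ, g⟩, πP, πQ⟩ ⟨h1, h2, h3, h4, h5⟩
      exact ⟨⟨h1, by simpa using h2, by simpa using h3⟩, h4, h5⟩
    refine e.trans_lt ?_
    rw [Measure.prod_prod, Measure.prod_prod, Measure.volume_eq_prod, Measure.prod_prod,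
      Measure.volume_eq_prod, Measure.prod_prod]
    refine ENNReal.mul_lt_top (ENNReal.mul_lt_top ?_ (ENNReal.mul_lt_top ?_ ?_))
      (ENNReal.mul_lt_top ihP ihQ)
    · simp
    · exact measure_closedBall_lt_top
    · exact measure_closedBall_lt_top

/-! ### The bounding function -/

variable [Fintype J]

theorem wgt_le {β : ℝ} (hβ : 0 < β) (ρ : Space3 → ℝ≥0∞) (i₀ : J) (Z : J → PhasePoint) :
    wgt β ρ i₀ Z ≤ ρ (Z i₀).1 * ENNReal.ofReal (Real.exp (-(β * ‖(Z i₀).2‖ ^ 2))) := by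
  unfold wgt
  refine mul_le_mul_right ?_ _
  rw [← Finset.mul_prod_erase Finset.univ _ (Finset.mem_univ i₀)]
  have h1 : ∏ x ∈ Finset.univ.erase i₀, ENNReal.ofReal (Real.exp (-β * ‖(Z x).2‖ ^ 2)) ≤ 1 := by
    refine Finset.prod_le_one' fun j _ => ?_
    rw [← ENNReal.ofReal_one]
    refine ENNReal.ofReal_le_ofReal (Real.exp_le_one_iff.2 ?_)
    have : 0 ≤ ‖(Z j).2‖ ^ 2 := by positivity
    nlinarith
  calc _ ≤ ENNReal.ofReal (Real.exp (-β * ‖(Z i₀).2‖ ^ 2)) * 1 := mul_le_mul_right h1 _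
    _ = _ := by rw [mul_one, neg_mul]

theorem lintegral_bound {β : ℝ} (hβ : 0 < β) {ρ : Space3 → ℝ≥0∞} (hρ : Measurable ρ)
    (hρ' : ∫⁻ x, ρ x < ⊤) (a b C' L' : ℝ) (τ : MTree J κ) :
    ∫⁻ p : Par τ × PhasePoint, ({π | BxT a b C' L' τ π}.indicator (fun _ => (1 : ℝ≥0∞)) p.1) *
      (ρ p.2.1 * ENNReal.ofReal (Real.exp (-(β * ‖p.2.2‖ ^ 2)))) ≠ ⊤ := by
  have hm := measurableSet_bxT a b C' L' τ
  have hg : Measurable fun v : Space3 => ENNReal.ofReal (Real.exp (-(β * ‖v‖ ^ 2))) := by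
    fun_prop
  have h1 : Measurable fun z : PhasePoint => ρ z.1 * ENNReal.ofReal (Real.exp (-(β * ‖z.2‖ ^ 2))) :=
    (hρ.comp measurable_fst).mul (hg.comp measurable_snd)
  rw [Measure.volume_eq_prod, lintegral_prod_mul (f := {π | BxT a b C' L' τ π}.indicator
    (fun _ => (1 : ℝ≥0∞))) (g := fun z : PhasePoint => ρ z.1 *
      ENNReal.ofReal (Real.exp (-(β * ‖z.2‖ ^ 2))))
    (measurable_const.indicator hm).aemeasurable h1.aemeasurable]
  have h2 : ∫⁻ z : PhasePoint, ρ z.1 * ENNReal.ofReal (Real.exp (-(β * ‖z.2‖ ^ 2))) =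
      (∫⁻ x, ρ x) * ∫⁻ v : Space3, ENNReal.ofReal (Real.exp (-(β * ‖v‖ ^ 2))) := by
    rw [Measure.volume_eq_prod, lintegral_prod_mul hρ.aemeasurable hg.aemeasurable]
  rw [h2, lintegral_indicator hm, setLIntegral_one]
  exact (ENNReal.mul_lt_top (volume_bxT a b C' L' τ)
    (ENNReal.mul_lt_top hρ' (GC311.lintegral_gaussian_lt_top hβ))).ne

end Crest.Agent.R122.VLPar823

end
private theorem rz_78960a46c4 : type_of% @_root_.Crest.Agent.R122.VLPar823.BxT.eq_def := @_root_.Crest.Agent.R122.VLPar823.BxT.eq_def -- L119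
private theorem rz_115374d207 : type_of% @_root_.Crest.Agent.R122.VLPar823.BxT.eq_1 := @_root_.Crest.Agent.R122.VLPar823.BxT.eq_1 -- L119
private theorem rz_19b1876758 : type_of% @_root_.Crest.Agent.R122.VLPar823.GT.eq_def := @_root_.Crest.Agent.R122.VLPar823.GT.eq_def -- L30
private theorem rz_962d730d0e : type_of% @_root_.Crest.Agent.R122.VLPar823.GT.eq_1 := @_root_.Crest.Agent.R122.VLPar823.GT.eq_1 -- L30
end

-- ▼ part R122/VLPar7_823
section

/-!
# Row 122, block D3, part P1 (helper823): `vl_of_ae`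

`vl_of_ae : AdmissiblePotential Φ → VC Φ → AE Φ → VL Φ`.
-/

set_option autoImplicit false
set_option linter.unusedSectionVars false

open MeasureTheory Set Filter Topology
open scoped ENNReal NNReal
open Crest.AnalysisR.Kinetic
open Crest.Agent.R122.Ins45 Crest.Agent.R122.GIV566 Crest.Agent.R122.VL581

noncomputable section

namespace Crest.Agent.R122.VLPar823

open scoped Classical
open MTree

variable {J κ : Type} [Fintype J]

/-! ### Monotonicity in `C` -/

theorem Ct_mono {M : VSys J κ} {C C' : ℝ} (hC : C ≤ C') (hε : 0 < M.ε) {A B : Finset J} {k l : κ}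
    {i j : J} {t : ℝ} {Z : J → PhasePoint} (h : M.Ct C A k i B l j t Z) :
    M.Ct C' A k i B l j t Z :=
  ⟨h.1, h.2.1, h.2.2.1, h.2.2.2.1, h.2.2.2.2.1, h.2.2.2.2.2.1,
    h.2.2.2.2.2.2.trans (mul_le_mul_of_nonneg_right hC hε.le)⟩

theorem VCt_mono {M : VSys J κ} {C C' : ℝ} (hC : C ≤ C') (hε : 0 < M.ε) {P : Finset J}
    {i j : J} {t : ℝ} {Z : J → PhasePoint} (h : M.VCt C P i j t Z) : M.VCt C' P i j t Z := by
  obtain ⟨A, hA, B, hB, k, l, h⟩ := h
  exact ⟨A, hA, B, hB, k, l, Ct_mono hC hε h⟩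

theorem Conn_mono {M : VSys J κ} {C C' : ℝ} (hC : C ≤ C') (hε : 0 < M.ε) {P : Finset J}
    {Z : J → PhasePoint} (h : M.Conn C P Z) : M.Conn C' P Z := by
  refine ⟨h.1, fun Q hQ hne hneq => ?_⟩
  obtain ⟨i, hi, j, hj, t, ht, hv⟩ := h.2 Q hQ hne hneq
  exact ⟨i, hi, j, hj, t, ht, VCt_mono hC hε hv⟩

theorem TreeLike_anti {M : VSys J κ} {C C' ℓ ς : ℝ} (hC : C ≤ C') (hε : 0 < M.ε) {P : Finset J}
    {Z : J → PhasePoint} (h : M.TreeLike C' ℓ ς P Z) : M.TreeLike C ℓ ς P Z := by
  obtain ⟨h1, E, σ, h2, h3, h4, h5, h6, h7⟩ := h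
  exact ⟨h1, E, σ, h2, h3, h4, h5, h6, fun i hi j hj hij t ht hv =>
    h7 i hi j hj hij t ht (VCt_mono hC hε hv)⟩

/-! ### Slow configurations -/

/-- slow configurations -/
def slow (J : Type) (V : ℝ) : Set (J → PhasePoint) := {Z | ∀ j, ‖(Z j).2‖ ≤ V}

theorem measurableSet_slow (V : ℝ) : MeasurableSet (slow J V) := by
  have e : slow J V = ⋂ j : J, {Z | ‖(Z j).2‖ ≤ V} := by
    ext Z
    simp [slow]
  rw [e]
  exact MeasurableSet.iInter fun j =>
    measurableSet_le (measurable_pi_apply j).snd.norm measurable_const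

theorem tail_le {β V : ℝ} (hβ : 0 < β) (hV : 0 ≤ V) (ρ : Space3 → ℝ≥0∞) (i₀ : J)
    {Z : J → PhasePoint} (hZ : Z ∉ slow J V) :
    wgt β ρ i₀ Z ≤ ENNReal.ofReal (Real.exp (-(β / 2) * V ^ 2)) * wgt (β / 2) ρ i₀ Z := by
  simp only [slow, mem_ofPred_eq, not_forall, not_le] at hZ
  obtain ⟨j₀, hj₀⟩ := hZ
  unfold wgt
  have h1 : ∏ j, ENNReal.ofReal (Real.exp (-β * ‖(Z j).2‖ ^ 2)) =
      (∏ j, ENNReal.ofReal (Real.exp (-(β / 2) * ‖(Z j).2‖ ^ 2))) *
        ∏ j, ENNReal.ofReal (Real.exp (-(β / 2) * ‖(Z j).2‖ ^ 2)) := by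
    rw [← Finset.prod_mul_distrib]
    refine Finset.prod_congr rfl fun j _ => ?_
    rw [← ENNReal.ofReal_mul (Real.exp_nonneg _), ← Real.exp_add]
    congr 2
    ring
  have h2 : ∏ j, ENNReal.ofReal (Real.exp (-(β / 2) * ‖(Z j).2‖ ^ 2)) ≤
      ENNReal.ofReal (Real.exp (-(β / 2) * V ^ 2)) := by
    rw [← Finset.mul_prod_erase Finset.univ _ (Finset.mem_univ j₀)]
    have h3 : ∏ x ∈ Finset.univ.erase j₀,
        ENNReal.ofReal (Real.exp (-(β / 2) * ‖(Z x).2‖ ^ 2)) ≤ 1 := by
      refine Finset.prod_le_one' fun j _ => ?_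
      rw [← ENNReal.ofReal_one]
      refine ENNReal.ofReal_le_ofReal (Real.exp_le_one_iff.2 ?_)
      have : 0 ≤ ‖(Z j).2‖ ^ 2 := by positivity
      nlinarith
    calc _ ≤ ENNReal.ofReal (Real.exp (-(β / 2) * ‖(Z j₀).2‖ ^ 2)) * 1 := mul_le_mul_right h3 _
      _ = ENNReal.ofReal (Real.exp (-(β / 2) * ‖(Z j₀).2‖ ^ 2)) := mul_one _
      _ ≤ _ := by
        refine ENNReal.ofReal_le_ofReal (Real.exp_le_exp.2 ?_)
        have : V ^ 2 ≤ ‖(Z j₀).2‖ ^ 2 := pow_le_pow_left₀ hV hj₀.le 2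
        nlinarith
  rw [h1]
  calc ρ (Z i₀).1 * ((∏ j, ENNReal.ofReal (Real.exp (-(β / 2) * ‖(Z j).2‖ ^ 2))) *
        ∏ j, ENNReal.ofReal (Real.exp (-(β / 2) * ‖(Z j).2‖ ^ 2)))
      ≤ ρ (Z i₀).1 * ((∏ j, ENNReal.ofReal (Real.exp (-(β / 2) * ‖(Z j).2‖ ^ 2))) *
        ENNReal.ofReal (Real.exp (-(β / 2) * V ^ 2))) := by gcongr
    _ = _ := by ring

/-! ### The core -/

section core

variable [Fintype κ] {Φ : Space3 → ℝ} {T C β V : ℝ} {M : ℕ → VSys J κ} {o : Option J}
  {R ς : ℕ → ℝ} {i₀ : J} {ρ : Space3 → ℝ≥0∞} {LS : ℝ≥0}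

/-- bad configurations -/
def bad (M : ℕ → VSys J κ) (C : ℝ) (R ς : ℕ → ℝ) (k : ℕ) : Set (J → PhasePoint) :=
  {Z | (M k).Conn C Finset.univ Z ∧ ¬ (M k).TreeLike C (R k * (M k).ε) (ς k) Finset.univ Z}

theorem core (hΦ : AdmissiblePotential Φ) (hβ : 0 < β) (hT : 0 < T) (hC : 1 ≤ C)
    (hM : ∀ k, (M k).Φ = Φ ∧ (M k).T = T ∧ (M k).o = o ∧ 0 < (M k).ε)
    (hε : Tendsto (fun k => (M k).ε) atTop (𝓝 0))
    (hLS : ∀ᶠ k in atTop, ∀ i, LipschitzOnWith LS ((M k).S.c i) (Icc 0 T))
    (ho : ∀ j, o = some j → i₀ = j) (hρ : Measurable ρ) (hρ' : ∫⁻ x, ρ x < ⊤)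
    (hAE : ∀ τ : MTree J κ, WF o τ → supp τ = Finset.univ →
        ∀ᵐ p : Par τ × PhasePoint, Ord τ T p.1 →
          ∀ᶠ k in atTop, Act (M k) τ p.1 → (M k).Conn C Finset.univ (ov (M k) τ p.1 p.2 0) →
            (M k).TreeLike C (R k * (M k).ε) (ς k) Finset.univ (ov (M k) τ p.1 p.2 0)) :
    Tendsto (fun k => (ENNReal.ofReal ((M k).ε ^ (2 * (Fintype.card J - 1))))⁻¹ *
      ∫⁻ Z in slow J V, (bad M C R ς k).indicator (wgt β ρ i₀) Z) atTop (𝓝 0) := by
  have hg : ∀ k, ∃ g : (J → PhasePoint) → ℝ≥0∞, Measurable g ∧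
      g ≤ (slow J V).indicator ((bad M C R ς k).indicator (wgt β ρ i₀)) ∧
      ∫⁻ Z, (slow J V).indicator ((bad M C R ς k).indicator (wgt β ρ i₀)) Z = ∫⁻ Z, g Z :=
    fun k => exists_measurable_le_lintegral_eq _ _
  choose g hgm hgle hgint using hg
  have hMF : ∀ᶠ k in atTop, MF LS (M k) := by
    filter_upwards [hLS] with k hk
    exact ⟨by rw [(hM k).1]; exact hΦ, (hM k).2.2.2, by rw [(hM k).2.1]; exact hT.le,
      by rw [(hM k).2.1]; exact hk⟩
  have hgne : ∀ k Z, g k Z ≠ 0 → Z ∈ bad M C R ς k ∧ ∀ j, ‖(Z j).2‖ ≤ V := by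
    intro k Z hZ
    have h1 := hgle k Z
    by_cases hs : Z ∈ slow J V
    · refine ⟨?_, hs⟩
      by_contra hb
      rw [indicator_of_mem hs, indicator_of_notMem hb] at h1
      exact hZ (le_antisymm h1 zero_le)
    · rw [indicator_of_notMem hs] at h1
      exact absurd (le_antisymm h1 zero_le) hZ
  have hgw : ∀ k Z, g k Z ≤ wgt β ρ i₀ Z := by
    intro k Z
    refine (hgle k Z).trans ?_
    refine (indicator_le_self _ _ _).trans (indicator_le_self _ _ _)
  set S₀ : Finset (MTree J κ) := (trees J κ (Fintype.card J - 1)).filter fun τ =>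
    WF o τ ∧ supp τ = Finset.univ ∧ root τ = i₀ with hS₀
  have hTrs : ∀ k, Trs (M k) i₀ = S₀ := by
    intro k
    unfold Trs
    rw [(hM k).2.2.1]
  set C' : ℝ := C + 2 * (VLInst442.spd Φ (Fintype.card J) V + LS) with hC'
  set L' : ℝ := 2 * VLInst442.spd Φ (Fintype.card J) V with hL'
  have hcC : ∀ k, cC (M k) LS C V = C' := fun k => by unfold cC; rw [(hM k).1]
  have hcL : ∀ k, cL (M k) V = L' := fun k => by unfold cL; rw [(hM k).1]
  set H : ∀ τ : MTree J κ, ℕ → Par τ × PhasePoint → ℝ≥0∞ := fun τ k p =>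
    {π | OrdR (M k).ε τ T (tms τ π) ∧ ActT (M k) τ (tms τ π) ∧ Bx C' L' τ π}.indicator
      (fun π => g k (ov (M k) τ π p.2 0)) p.1 with hH
  have hHm : ∀ τ, ∀ᶠ k in atTop, Measurable (H τ k) := by
    intro τ
    filter_upwards [hMF] with k hk
    have h1 : Measurable fun p : Par τ × PhasePoint => g k (ov (M k) τ p.1 p.2 0) :=
      (hgm k).comp (measurable_ov hk τ measurable_fst measurable_snd measurable_const)
    have h2 : MeasurableSet {p : Par τ × PhasePoint | OrdR (M k).ε τ T (tms τ p.1) ∧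
        ActT (M k) τ (tms τ p.1) ∧ Bx C' L' τ p.1} :=
      (measurableSet_ordR _ τ measurable_const ((measurable_tms τ).comp measurable_fst)).inter
        ((((measurable_tms τ).comp measurable_fst) (measurableSet_actT (M k) τ)).inter
          (measurable_fst (measurableSet_bx C' L' τ)))
    have h3 : H τ k = {p : Par τ × PhasePoint | OrdR (M k).ε τ T (tms τ p.1) ∧
        ActT (M k) τ (tms τ p.1) ∧ Bx C' L' τ p.1}.indicator (fun p => g k (ov (M k) τ p.1 p.2 0)) := by
      funext p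
      simp only [hH, indicator_apply, mem_ofPred_eq]
    rw [h3]
    exact h1.indicator h2
  -- the main inequality
  have key1 : ∀ᶠ k in atTop, (ENNReal.ofReal ((M k).ε ^ (2 * (Fintype.card J - 1))))⁻¹ *
      ∫⁻ Z in slow J V, (bad M C R ς k).indicator (wgt β ρ i₀) Z ≤
        ∑ τ ∈ S₀, ∫⁻ p : Par τ × PhasePoint, H τ k p := by
    filter_upwards [hMF, (Filter.eventually_all_finset S₀).2 fun τ _ => hHm τ] with k hk hHk
    have hpos := (hM k).2.2.2
    have h1 := main_ineq hk hC (hgm k) (fun Z hZ => ⟨(hgne k Z hZ).1.1, (hgne k Z hZ).2⟩)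
      (i₀ := i₀) (by rw [(hM k).2.2.1]; exact ho)
    rw [hTrs k, hcC k, hcL k, (hM k).2.1] at h1
    have h2 : ∀ τ ∈ S₀, ∫⁻ π : Par τ, ∫⁻ z : PhasePoint,
        {π | OrdR (M k).ε τ T (tms τ π) ∧ ActT (M k) τ (tms τ π) ∧ Bx C' L' τ π}.indicator
            (fun π => g k (ov (M k) τ π z 0)) π = ∫⁻ p : Par τ × PhasePoint, H τ k p := by
      intro τ hτ
      exact (lintegral_prod (H τ k) (hHk τ hτ).aemeasurable).symm
    rw [Finset.sum_congr rfl h2] at h1
    have h3 : ENNReal.ofReal ((M k).ε ^ (3 * (Fintype.card J - 1))) =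
        ENNReal.ofReal ((M k).ε ^ (Fintype.card J - 1)) *
          ENNReal.ofReal ((M k).ε ^ (2 * (Fintype.card J - 1))) := by
      rw [← ENNReal.ofReal_mul (by positivity), ← pow_add]
      congr 2
      ring
    rw [h3, mul_assoc, ENNReal.mul_le_mul_iff_right
      (ENNReal.ofReal_pos.2 (by positivity)).ne' ENNReal.ofReal_ne_top] at h1
    rw [← lintegral_indicator (measurableSet_slow V), hgint k]
    rw [mul_comm, ← div_eq_mul_inv]
    refine ENNReal.div_le_of_le_mul' ?_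
    exact h1
  -- dominated convergence
  have key2 : ∀ τ ∈ S₀, Tendsto (fun k => ∫⁻ p : Par τ × PhasePoint, H τ k p) atTop (𝓝 0) := by
    intro τ hτ
    obtain ⟨-, hW, hs, hr⟩ := Finset.mem_filter.1 hτ
    have e0 : (0 : ℝ≥0∞) = ∫⁻ _p : Par τ × PhasePoint, (0 : ℝ≥0∞) := by simp
    rw [e0]
    refine tendsto_lintegral_filter_of_dominated_convergence
      (fun p : Par τ × PhasePoint =>
        ({π | BxT (-1) (T + nn τ) C' L' τ π}.indicator (fun _ => (1 : ℝ≥0∞)) p.1) *
        (ρ p.2.1 * ENNReal.ofReal (Real.exp (-(β * ‖p.2.2‖ ^ 2))))) (hHm τ) ?_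
      (lintegral_bound hβ hρ hρ' _ _ _ _ τ) ?_
    · have hε1 : ∀ᶠ k in atTop, (M k).ε ≤ 1 := hε.eventually_le_const (by norm_num)
      filter_upwards [hε1] with k hk1
      refine Eventually.of_forall fun p => ?_
      simp only [hH]
      by_cases hp : OrdR (M k).ε τ T (tms τ p.1) ∧ ActT (M k) τ (tms τ p.1) ∧ Bx C' L' τ p.1
      · rw [indicator_of_mem (show p.1 ∈ {π | OrdR (M k).ε τ T (tms τ π) ∧
          ActT (M k) τ (tms τ π) ∧ Bx C' L' τ π} from hp), indicator_of_mem, one_mul]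
        · refine (hgw k _).trans ((wgt_le hβ ρ i₀ _).trans ?_)
          have h4 := ov_root (M := M k) τ hW p.1 p.2 0
          rw [hr] at h4
          rw [h4]
        · exact bxT_of τ (hM k).2.2.2.le hk1 le_rfl hp.1 hp.2.2
      · rw [indicator_of_notMem (show p.1 ∉ {π | OrdR (M k).ε τ T (tms τ π) ∧
          ActT (M k) τ (tms τ π) ∧ Bx C' L' τ π} from hp)]
        exact zero_le
    · have hGT : ∀ᵐ p : Par τ × PhasePoint, GT τ T p.1 :=
        Measure.quasiMeasurePreserving_fst.ae (ae_GT τ T)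
      filter_upwards [hAE τ hW hs, hGT] with p hp hpG
      refine tendsto_const_nhds.congr' ?_
      by_contra hcon
      have hfr : ∃ᶠ k in atTop, H τ k p ≠ 0 := by
        refine (Filter.not_eventually.1 hcon).mono fun k hk h0 => hk h0.symm
      have hO : Ord τ T p.1 := by
        refine ord_of_frequently τ hε tendsto_const_nhds hpG (hfr.mono fun k hk => ?_)
        by_contra hno
        refine hk ?_
        simp only [hH]
        rw [indicator_of_notMem]
        exact fun h => hno h.1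
      refine hfr ?_
      filter_upwards [hp hO] with k hk hne
      have hg0 : g k (ov (M k) τ p.1 p.2 0) ≠ 0 := by
        intro h0
        refine hne ?_
        simp only [hH, indicator_apply, h0, ite_self]
      obtain ⟨hb, -⟩ := hgne k _ hg0
      have hact : Act (M k) τ p.1 := by
        by_contra hno
        refine hne ?_
        simp only [hH]
        rw [indicator_of_notMem]
        exact fun h => hno (act_of_actT (M k) τ h.2.1)
      exact hb.2 (hk hact hb.1)
  have key3 : Tendsto (fun k => ∑ τ ∈ S₀, ∫⁻ p : Par τ × PhasePoint, H τ k p) atTop (𝓝 0) := by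
    have := tendsto_finsetSum S₀ key2
    simpa using this
  exact tendsto_of_tendsto_of_tendsto_of_le_of_le' tendsto_const_nhds key3
    (Eventually.of_forall fun _ => zero_le) key1

end core

/-- **VL from VC and AE.** -/
theorem vl_of_ae {Φ : Space3 → ℝ} (hΦ : AdmissiblePotential Φ) (hVC : VC Φ) (hAE : AE Φ) :
    VL Φ := by
  intro J κ _ _ β T C₀ hβ hT M o b S R ς i₀ hM hε hb hS hGen hR hς ho ρ hρ hρ'
  -- reduction to `1 ≤ C`
  set C : ℝ := max C₀ 1 with hCdef
  have hC0 : C₀ ≤ C := le_max_left _ _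
  have hC : 1 ≤ C := le_max_right _ _
  have hle : ∀ k, (ENNReal.ofReal ((M k).ε ^ (2 * (Fintype.card J - 1))))⁻¹ *
      ∫⁻ Z, {Z | (M k).Conn C₀ Finset.univ Z ∧
        ¬ (M k).TreeLike C₀ (R k * (M k).ε) (ς k) Finset.univ Z}.indicator (wgt β ρ i₀) Z ≤
      (ENNReal.ofReal ((M k).ε ^ (2 * (Fintype.card J - 1))))⁻¹ *
        ∫⁻ Z, (bad M C R ς k).indicator (wgt β ρ i₀) Z := by
    intro k
    refine mul_le_mul_right (lintegral_mono fun Z => ?_) _
    refine indicator_le_indicator_of_subset ?_ (fun _ => zero_le) Z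
    rintro Z ⟨h1, h2⟩
    exact ⟨Conn_mono hC0 (hM k).2.2.2 h1, fun h => h2 (TreeLike_anti hC0 (hM k).2.2.2 h)⟩
  refine tendsto_of_tendsto_of_tendsto_of_le_of_le tendsto_const_nhds ?_
    (fun _ => zero_le) hle
  obtain ⟨⟨LS, hLS, -⟩, -, -, -⟩ := id hS
  obtain ⟨K, hK⟩ := hVC J κ (β / 2) T C LS (by positivity)
  have hcore : ∀ V : ℝ, Tendsto (fun k => (ENNReal.ofReal ((M k).ε ^ (2 * (Fintype.card J - 1))))⁻¹ *
      ∫⁻ Z in slow J V, (bad M C R ς k).indicator (wgt β ρ i₀) Z) atTop (𝓝 0) := by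
    intro V
    refine core hΦ hβ hT hC hM hε hLS ho hρ hρ' ?_
    exact hAE J κ T C hT hC M o b S R ς hM hε hb hS hGen hR hς
  -- the tail
  have htail : ∀ V : ℝ, 0 ≤ V → ∀ᶠ k in atTop,
      (ENNReal.ofReal ((M k).ε ^ (2 * (Fintype.card J - 1))))⁻¹ *
        ∫⁻ Z in (slow J V)ᶜ, (bad M C R ς k).indicator (wgt β ρ i₀) Z ≤
      ENNReal.ofReal (Real.exp (-(β / 2) * V ^ 2)) * (K * ∫⁻ x, ρ x) := by
    intro V hV
    have hε1 : ∀ᶠ k in atTop, (M k).ε ≤ 1 := hε.eventually_le_const (by norm_num)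
    filter_upwards [hε1, hLS] with k hk1 hkL
    have hpos := (hM k).2.2.2
    have h1 : ∫⁻ Z in (slow J V)ᶜ, (bad M C R ς k).indicator (wgt β ρ i₀) Z ≤
        ENNReal.ofReal (Real.exp (-(β / 2) * V ^ 2)) *
          ∫⁻ Z, {Z | (M k).Conn C Finset.univ Z}.indicator (wgt (β / 2) ρ i₀) Z := by
      rw [← lintegral_const_mul' _ _ ENNReal.ofReal_ne_top,
        ← lintegral_indicator (measurableSet_slow V).compl]
      refine lintegral_mono fun Z => ?_
      by_cases hs : Z ∈ (slow J V)ᶜ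
      · rw [indicator_of_mem hs]
        by_cases hb : Z ∈ bad M C R ς k
        · rw [indicator_of_mem hb, indicator_of_mem (show Z ∈ {Z | (M k).Conn C Finset.univ Z}
            from hb.1)]
          exact tail_le hβ hV ρ i₀ hs
        · rw [indicator_of_notMem hb]
          exact zero_le
      · rw [indicator_of_notMem hs]
        exact zero_le
    have h2 := hK (M k) (hM k).1 (hM k).2.1 hpos hk1 hkL i₀
      (by rw [(hM k).2.2.1]; exact ho) ρ hρ
    have hc0 : ENNReal.ofReal ((M k).ε ^ (2 * (Fintype.card J - 1))) ≠ 0 :=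
      (ENNReal.ofReal_pos.2 (by positivity)).ne'
    have hc1 : ENNReal.ofReal ((M k).ε ^ (2 * (Fintype.card J - 1))) ≠ ⊤ := ENNReal.ofReal_ne_top
    calc _ ≤ (ENNReal.ofReal ((M k).ε ^ (2 * (Fintype.card J - 1))))⁻¹ *
          (ENNReal.ofReal (Real.exp (-(β / 2) * V ^ 2)) *
            (K * ENNReal.ofReal ((M k).ε ^ (2 * (Fintype.card J - 1))) * ∫⁻ x, ρ x)) :=
          mul_le_mul_right (h1.trans (mul_le_mul_right h2 _)) _
      _ = ((ENNReal.ofReal ((M k).ε ^ (2 * (Fintype.card J - 1))))⁻¹ *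
            ENNReal.ofReal ((M k).ε ^ (2 * (Fintype.card J - 1)))) *
          (ENNReal.ofReal (Real.exp (-(β / 2) * V ^ 2)) * (K * ∫⁻ x, ρ x)) := by ring
      _ = _ := by rw [ENNReal.inv_mul_cancel hc0 hc1, one_mul]
  -- conclusion
  rw [ENNReal.tendsto_nhds_zero]
  intro η hη
  have hfin : (K : ℝ≥0∞) * ∫⁻ x, ρ x ≠ ⊤ := ENNReal.mul_ne_top ENNReal.coe_ne_top hρ'.ne
  have hexp : Tendsto (fun V : ℝ => ENNReal.ofReal (Real.exp (-(β / 2) * V ^ 2)) *
      (K * ∫⁻ x, ρ x)) atTop (𝓝 0) := by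
    have h1 : Tendsto (fun V : ℝ => Real.exp (-(β / 2) * V ^ 2)) atTop (𝓝 0) := by
      refine Real.tendsto_exp_atBot.comp ?_
      exact (tendsto_pow_atTop two_ne_zero).const_mul_atTop_of_neg (by linarith)
    have h2 : Tendsto (fun V : ℝ => ENNReal.ofReal (Real.exp (-(β / 2) * V ^ 2))) atTop (𝓝 0) := by
      have := ENNReal.tendsto_ofReal h1
      rwa [ENNReal.ofReal_zero] at this
    have h3 := ENNReal.Tendsto.mul_const (b := (K : ℝ≥0∞) * ∫⁻ x, ρ x) h2 (Or.inr hfin)
    rwa [zero_mul] at h3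
  have hη2 : 0 < η / 2 := ENNReal.half_pos hη.ne'
  obtain ⟨V, hV0, hV⟩ := ((eventually_ge_atTop (0 : ℝ)).and
    ((ENNReal.tendsto_nhds_zero.1 hexp) (η / 2) hη2)).exists
  filter_upwards [htail V hV0, (ENNReal.tendsto_nhds_zero.1 (hcore V)) (η / 2) hη2] with k h1 h2
  rw [← lintegral_add_compl _ (measurableSet_slow V), mul_add]
  calc _ ≤ η / 2 + η / 2 := add_le_add h2 (h1.trans hV)
    _ = η := ENNReal.add_halves η

end Crest.Agent.R122.VLPar823

end
end

-- ▼ part R122/VLMain_581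

/-!
# Row 122, blocks D2 and D3 (helper581): `VC`, `AE`, `VL`, `VLu`

* `vc`  (helper442, helper973, helper581)
* `ae_all` : almost all parameters of a merge tree give tree-like configurations
  (helper581, helper564, helper399, helper442, helper735, helper692)
* `vl`  (helper823, helper581), `vlu` (helper664)
-/

set_option autoImplicit false

open Crest.AnalysisR.Kinetic
open Crest.Agent.R122.VLPar823

namespace Crest.Agent.R122.VL581

/-- **VC**: crude volume bound of all connected configurations. -/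
theorem vc {Φ : Space3 → ℝ} (hΦ : AdmissiblePotential Φ) : VC Φ :=
  Crest.Agent.R122.VC973.vc hΦ

/-- **AE**: almost all parameters give tree-like configurations. -/
theorem ae_all {Φ : Space3 → ℝ} (hΦ : AdmissiblePotential Φ) : AE Φ :=
  Crest.Agent.R122.VLInv399.ae_of_nodeStep hΦ node_step

/-- **VL**: loops are null, sequence form (births, obstacle). -/
theorem vl {Φ : Space3 → ℝ} (hΦ : AdmissiblePotential Φ) : VL Φ :=
  vl_of_ae hΦ (vc hΦ) (ae_all hΦ)

/-- **VLu**: loops are null, uniformly in the births. -/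
theorem vlu {Φ : Space3 → ℝ} (hΦ : AdmissiblePotential Φ) : VLu Φ :=
  Crest.Agent.R122.VLu664.vlu_of_vl (vl hΦ)

end Crest.Agent.R122.VL581
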