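import Crest.Agent.R122.F3Fin_370
import Crest.Agent.R122.LN2Main_473
import Crest.Agent.R122.VLClassSeq_973
import Crest.Agent.R122.QExitB_814
import Crest.Agent.R122.VLDefs_581
import Crest.Agent.R122.VLInstD_442
import Crest.Agent.R122.Energy3_410
import Crest.Agent.R122.LNRet_383
import Crest.Agent.R122.LNReach_968
import Crest.Agent.R122.LNPart_424
import Crest.Agent.R122.LNTreeB_410
import Crest.Agent.R122.GateTree_522
import Crest.Agent.R122.TreeNull_302
import Crest.Agent.R122.IStep3_317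
import Crest.Agent.R122.LNTreeDef_399
import Crest.Agent.R122.LinkGate2_424
import Crest.Agent.R122.VLMain_581
import Crest.Agent.R122.TopF_602
import Crest.Agent.R122.TouchNull_302

-- ▼ part R122/ObGas_370
section

/-!
# Gas level with an obstacle (row 122, helper370), F3

* `osys` : `k` gas particles, a structure, an obstacle node; all births `0`.
* `ObBad` : some `Y ⊆ w`, `|Y| ≤ N`, is connected and not tree-like together with the structure and
  the obstacle.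
* `ob_gas` : measurable majorant of `ObBad` along a converging generic sequence, small mass for every
  dominated structure.
* `obNull_of_bad` : the second half of `F3Null`.
-/

set_option autoImplicit false
set_option linter.unusedSectionVars false
open MeasureTheory Set Filter
open scoped Classical ENNReal Topology
open Crest.AnalysisR.Kinetic
open Crest.Agent.R122.GC311 Crest.Agent.R122.Kin796 Crest.Agent.R122.Kin796.CTree
open Crest.Agent.R122.Tree674 Crest.Agent.R122.VL581 Crest.Agent.R122.LinkGas473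
open Crest.Agent.R122.VLMeas973 Crest.Agent.R122.LN2 Crest.Agent.R122.GIV566
open Crest.Agent.R122.ToTree335 Crest.Agent.R122.F3Fin370
noncomputable section

namespace Crest.Agent.R122.ObGas370

/-! ### The bad event -/

section defs

/-- The virtual system of `k` gas particles, a structure and an obstacle, births `0`. -/
def osys (Φ : Space3 → ℝ) (T ε : ℝ) {ι : Type} (S : Tubes ι) (k : ℕ) (κ : Type) :
    VSys (Fin k ⊕ (κ ⊕ Unit)) ι :=
  ⟨Φ, T, ε, fun _ => 0, some (Sum.inr (Sum.inr ())), S⟩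

/-- Some `Y ⊆ w`, `|Y| ≤ N`, is connected and not tree-like together with the structure `z` and the
obstacle at `y`. -/
def ObBad (Φ : Space3 → ℝ) (T C ε : ℝ) (N : ℕ) {ι : Type} (S : Tubes ι) {κ : Type} [Fintype κ]
    (z : κ → PhasePoint) (y : PhasePoint) {n : ℕ} (w : Config n) : Prop :=
  ∃ k ≤ N, ∃ g : Fin k ↪ Fin n,
    (osys Φ T ε S k κ).Conn C Finset.univ (Sum.elim (fun i => w (g i)) (Sum.elim z fun _ => y)) ∧
    ∀ ℓ ς, ¬ (osys Φ T ε S k κ).TreeLike C ℓ ς Finset.univ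
      (Sum.elim (fun i => w (g i)) (Sum.elim z fun _ => y))

end defs

/-- One part which is connected and not tree-like is a bad partition. -/
theorem badPart_one {J κ : Type} [Fintype J] [Nonempty J] {M : VSys J κ} {C ℓ ς : ℝ} {A : Finset J}
    {Z : J → PhasePoint} (hA : A.Nonempty) (hC : M.Conn C Finset.univ Z)
    (hT : ¬ M.TreeLike C ℓ ς Finset.univ Z) : M.BadPart C ℓ ς 1 A Z := by
  have hne : (Finset.univ : Finset J) ≠ ⊥ := Finset.univ_nonempty.ne_empty
  refine ⟨Finpartition.indiscrete hne, ?_, Or.inr ⟨?_, Finset.univ, ?_, ?_⟩⟩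
  · intro P hP
    rw [Finpartition.indiscrete_parts, Finset.mem_singleton] at hP
    subst hP
    obtain ⟨x, hx⟩ := hA
    exact ⟨hC, x, Finset.mem_univ _, hx⟩
  · rw [Finpartition.indiscrete_parts, Finset.card_singleton]
  · rw [Finpartition.indiscrete_parts]
    exact Finset.mem_singleton_self _
  · rw [tlp_univ]
    exact hT

section gas

variable {Φ : Space3 → ℝ} {f₀ : PhasePoint → ℝ} {T γ : ℝ} {ρ : Space3 → ℝ≥0∞} {C₀ : ℝ≥0∞}
variable {κ ι : Type} [Fintype κ] [Fintype ι]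

/-- **LN2 at gas level with an obstacle.** -/
theorem ob_gas (hΦ : AdmissiblePotential Φ) (hVC : VC Φ) (hVL : VL Φ) (hf : Measurable f₀)
    (h1 : ∫⁻ z, ENNReal.ofReal (f₀ z) ≤ 1) (he : Env f₀ γ ρ C₀) (hγ : 0 < γ) (hT : 0 < T)
    {Sk : ℕ → Tubes ι} {S : Tubes ι} {εk : ℕ → ℝ} (hε : ∀ k, 0 < εk k)
    (hε0 : Tendsto εk atTop (𝓝 0)) (hconv : TubeConv T Sk S) (hgen : Generic T S)
    (C : ℝ) (N : ℕ) {c : ℝ≥0∞} (hc : c ≠ ∞) (Λ : Measure (κ ⊕ Unit → ℝ)) [IsFiniteMeasure Λ]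
    {δ : ℝ≥0∞} (hδ : 0 < δ) :
    ∀ᶠ n in atTop, ∃ G : (m : ℕ) → Set (Config m × (κ ⊕ Unit → ℝ) × (κ ⊕ Unit → PhasePoint)),
      (∀ m, MeasurableSet (G m)) ∧
      (∀ m (w : Config m) b (z : κ → PhasePoint) y,
        ObBad Φ T C (εk n) N (Sk n) z y w → (w, b, Sum.elim z fun _ => y) ∈ G m) ∧
      ∀ (Θ : Type) [MeasurableSpace Θ] (m : Measure Θ) [SFinite m] (b : Θ → κ ⊕ Unit → ℝ)
        (z : Θ → κ ⊕ Unit → PhasePoint), Dom γ ρ (εk n) 1 Finset.univ c Λ m b z →
        gcE f₀ (εk n) (fun n w => m {θ | (w, b θ, z θ) ∈ G n}) ≤ δ := by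
  set K : ℝ≥0∞ := c * Λ univ * ∑ k ∈ Finset.range (N + 1), C₀ ^ k with hK
  have hKt : K ≠ ∞ := by
    refine ENNReal.mul_ne_top (ENNReal.mul_ne_top hc (measure_ne_top Λ _)) ?_
    exact ENNReal.sum_ne_top.2 fun k _ => ENNReal.pow_ne_top he.fin
  have hK0 : K + 1 ≠ 0 := by simp
  have hKt' : K + 1 ≠ ∞ := ENNReal.add_ne_top.2 ⟨hKt, ENNReal.one_ne_top⟩
  set δ' : ℝ≥0∞ := δ / (K + 1) with hδ'
  have hδ'0 : 0 < δ' := ENNReal.div_pos hδ.ne' hKt'
  set Rn : ℕ → ℝ := fun n => n with hRn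
  set ςn : ℕ → ℝ := fun n => 1 / ((n : ℝ) + 1) with hςn
  have hRt : Tendsto Rn atTop atTop := tendsto_natCast_atTop_atTop
  have hςt : Tendsto ςn atTop (𝓝 0) := tendsto_one_div_add_atTop_nhds_zero_nat
  have hobs : ∀ k : ℕ, ∀ j : Fin k ⊕ (κ ⊕ Unit), some (Sum.inr (Sum.inr ())) = some j →
      j ∈ anch k (Finset.univ : Finset (κ ⊕ Unit)) := by
    intro k j hj
    rw [Option.some.injEq] at hj
    subst hj
    exact Finset.inr_mem_disjSum.2 (Finset.mem_univ _)
  have hcardpos : 1 ≤ Fintype.card (κ ⊕ Unit) := Fintype.card_pos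
  have key : ∀ k : ℕ, (∀ᶠ n in atTop, Good (osys Φ T (εk n) (Sk n) k κ)) ∧
      ∀ᶠ n in atTop, (ENNReal.ofReal ((εk n) ^ 2) ^ (Fintype.card (Fin k ⊕ (κ ⊕ Unit)) - 1))⁻¹ *
        ∫⁻ Z, (badQ (osys Φ T (εk n) (Sk n) k κ) C (Rn n * εk n) (ςn n) 1
          (anch k Finset.univ)).indicator (wA γ ρ (anch k Finset.univ)) Z ≤ δ' := by
    intro k
    have h := class_null_seq (J := Fin k ⊕ (κ ⊕ Unit)) (κ := ι) (T := T) (C := C) hΦ hVC hVL hγ hT
      (M := fun n => osys Φ T (εk n) (Sk n) k κ) (o := some (Sum.inr (Sum.inr ())))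
      (b := fun _ => 0) (S := S) (R := Rn) (ς := ςn)
      (fun n => ⟨rfl, rfl, rfl, hε n⟩) hε0 (fun i => tendsto_const_nhds) hconv hgen hRt hςt
      (s := 1) (by rw [Fintype.card_sum]; omega) (A := anch k Finset.univ) (hobs k)
      he.meas he.le_one he.int
    exact ⟨h.1, h.2.eventually_le_const hδ'0⟩
  have hall1 := (Finset.eventually_all (Finset.range (N + 1))).2 fun k _ => (key k).1
  have hall2 := (Finset.eventually_all (Finset.range (N + 1))).2 fun k _ => (key k).2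
  filter_upwards [hall1, hall2] with n hn1 hn2
  set E : (k : ℕ) → Set ((Fin k ⊕ (κ ⊕ Unit) → ℝ) × (Fin k ⊕ (κ ⊕ Unit) → PhasePoint)) :=
    fun k => if k ≤ N then {q | q.2 ∈ badQ (osys Φ T (εk n) (Sk n) k κ) C (Rn n * εk n) (ςn n) 1
      (anch k Finset.univ)} else ∅ with hE
  have hEm : ∀ k, MeasurableSet (E k) := by
    intro k
    by_cases hk : k ≤ N
    · simp only [hE, if_pos hk]
      exact measurable_snd (measurableSet_badQ' (hn1 k (Finset.mem_range.2 (Nat.lt_succ_of_le hk)))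
        C _ _ 1 _)
    · simp only [hE, if_neg hk]
      exact MeasurableSet.empty
  refine ⟨gSet N E, measurableSet_gSet hEm, ?_, ?_⟩
  · rintro m w b z y ⟨k, hk, g, hC, hTL⟩
    refine ⟨k, hk, g, ?_⟩
    simp only [hE, if_pos hk]
    refine badPart_subset (hn1 k (Finset.mem_range.2 (Nat.lt_succ_of_le hk))) ?_
    have : Nonempty (Fin k ⊕ (κ ⊕ Unit)) := ⟨Sum.inr (Sum.inr ())⟩
    exact badPart_one ⟨_, hobs k _ rfl⟩ hC (hTL _ _)
  · intro Θ _ m _ b z hdom
    have hD : ∀ k ≤ N, ∀ b : Fin k ⊕ (κ ⊕ Unit) → ℝ,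
        ∫⁻ Z, {Z | (b, Z) ∈ E k}.indicator (wgtA γ ρ (anch k Finset.univ)) Z ≤
          δ' * ENNReal.ofReal ((εk n) ^ 2) ^ (k + (Fintype.card (κ ⊕ Unit) - 1)) := by
      intro k hk b
      have h2 := hn2 k (Finset.mem_range.2 (Nat.lt_succ_of_le hk))
      have h3 : Fintype.card (Fin k ⊕ (κ ⊕ Unit)) - 1 = k + (Fintype.card (κ ⊕ Unit) - 1) := by
        rw [Fintype.card_sum, Fintype.card_fin]; omega
      rw [h3] at h2
      have h4 : wgtA γ ρ (anch k Finset.univ) =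
          wA γ ρ (anch k (Finset.univ : Finset (κ ⊕ Unit))) := by
        funext Z
        unfold wgtA wA gv
        simp only [wG_eq]
      have h5 : {Z | (b, Z) ∈ E k} = badQ (osys Φ T (εk n) (Sk n) k κ) C (Rn n * εk n) (ςn n) 1
          (anch k Finset.univ) := by
        simp only [hE, if_pos hk]
        rfl
      rw [h4, h5]
      have hx0 : ENNReal.ofReal ((εk n) ^ 2) ^ (k + (Fintype.card (κ ⊕ Unit) - 1)) ≠ 0 := by
        refine pow_ne_zero _ ?_
        rw [Ne, ENNReal.ofReal_eq_zero, not_le]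
        have := hε n
        positivity
      have hxt : ENNReal.ofReal ((εk n) ^ 2) ^ (k + (Fintype.card (κ ⊕ Unit) - 1)) ≠ ∞ :=
        ENNReal.pow_ne_top ENNReal.ofReal_ne_top
      exact ((ENNReal.inv_mul_le_iff hx0 hxt).1 h2).trans (le_of_eq (mul_comm _ _))
    calc gcE f₀ (εk n) (fun n w => m {θ | (w, b θ, z θ) ∈ gSet N E n})
        ≤ c * Λ univ * (δ' * ∑ k ∈ Finset.range (N + 1), C₀ ^ k) :=
          gas_mass_le hf h1 he (hε n) N Finset.univ hEm hD hc Λ hdom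
      _ = K * δ' := by rw [hK]; ring
      _ ≤ (K + 1) * δ' := by gcongr; exact le_self_add
      _ = δ := by rw [hδ', ENNReal.mul_div_cancel hK0 hKt']

end gas

/-! ### Structures -/

section struct

variable {Φ : Space3 → ℝ} {f₀ : PhasePoint → ℝ} {γ R ε t : ℝ} {ρ : Space3 → ℝ≥0∞} {C₀ : ℝ≥0∞}

/-- Law of the obstacle: position in a ball, Gaussian dummy velocity. -/
def obD (γ R : ℝ) (y : PhasePoint) : ℝ≥0∞ :=
  (Metric.closedBall (0 : Space3) R).indicator 1 y.1 * wG γ y.2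

theorem measurable_obD : Measurable (obD γ R) := by
  unfold obD
  refine Measurable.mul ?_ (measurable_wG'.comp measurable_snd)
  exact (measurable_one.indicator Metric.isClosed_closedBall.measurableSet).comp measurable_fst

def obM (γ R : ℝ) : Measure PhasePoint := (volume : Measure PhasePoint).withDensity (obD γ R)

instance : SFinite (obM γ R) := by unfold obM; infer_instance

theorem lintegral_obM {F : PhasePoint → ℝ≥0∞} (hF : Measurable F) :
    ∫⁻ y, F y ∂(obM γ R) = ∫⁻ x in Metric.closedBall (0 : Space3) R, ∫⁻ u, wG γ u * F (x, u) := by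
  have hm : Measurable fun y : PhasePoint => obD γ R y * F y := measurable_obD.mul hF
  have h1 : ∫⁻ y, F y ∂(obM γ R) = ∫⁻ y : Space3 × Space3, obD γ R y * F y := by
    unfold obM
    rw [lintegral_withDensity_eq_lintegral_mul _ measurable_obD hF]
    rfl
  rw [h1]
  change ∫⁻ y, obD γ R y * F y ∂((volume : Measure Space3).prod (volume : Measure Space3)) = _
  rw [lintegral_prod _ hm.aemeasurable, ← lintegral_indicator
    Metric.isClosed_closedBall.measurableSet]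
  refine lintegral_congr fun x => ?_
  by_cases hx : x ∈ Metric.closedBall (0 : Space3) R
  · rw [indicator_of_mem hx]
    refine lintegral_congr fun u => ?_
    simp only [obD, indicator_of_mem hx, Pi.one_apply, one_mul]
  · rw [indicator_of_notMem hx]
    simp only [obD, indicator_of_notMem hx, zero_mul, lintegral_zero]

theorem dom_ob (hρ : Measurable ρ) (h : ∀ x ∈ Metric.closedBall (0 : Space3) R, 1 ≤ ρ x) :
    Dom γ ρ ε 1 (Finset.univ : Finset Unit) 1 (Measure.dirac fun _ : Unit => (0 : ℝ)) (obM γ R)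
      (fun _ _ => 0) (fun y _ => y) where
  mb := measurable_const
  mz := measurable_pi_iff.2 fun _ => measurable_id
  le F hF := by
    have e0 : Fintype.card Unit - 1 = 0 := rfl
    have hF0 : Measurable fun z : Unit → PhasePoint => F ((fun _ => 0), z) :=
      hF.comp (measurable_const.prodMk measurable_id)
    have hout : Measurable fun b : Unit → ℝ => ∫⁻ z, wgtA γ ρ Finset.univ z * F (b, z) := by
      have h1 : Measurable fun p : (Unit → ℝ) × (Unit → PhasePoint) =>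
          wgtA γ ρ Finset.univ p.2 * F p := ((measurable_wgtA hρ _).comp measurable_snd).mul hF
      exact h1.lintegral_prod_right'
    rw [e0, pow_zero, one_mul, one_mul, lintegral_dirac' _ hout]
    have hFy : Measurable fun y : PhasePoint => F ((fun _ => 0), fun _ => y) :=
      hF.comp (measurable_const.prodMk (measurable_pi_iff.2 fun _ => measurable_id))
    have h1 : ∫⁻ y, F ((fun _ => 0), fun _ => y) ∂(obM γ R) =
        ∫⁻ y : PhasePoint, obD γ R y * F ((fun _ => 0), fun _ => y) := by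
      unfold obM
      rw [lintegral_withDensity_eq_lintegral_mul _ measurable_obD hFy]
      rfl
    refine h1.le.trans ?_
    rw [lintegral_unit (fun z => wgtA γ ρ Finset.univ z * F ((fun _ => 0), z))
      ((measurable_wgtA hρ _).mul hF0)]
    refine lintegral_mono fun y => mul_le_mul_left ?_ _
    unfold obD wgtA
    simp only [Finset.univ_unique, Finset.prod_singleton]
    refine mul_le_mul_left ?_ _
    by_cases hx : y.1 ∈ Metric.closedBall (0 : Space3) R
    · rw [indicator_of_mem hx]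
      exact h _ hx
    · rw [indicator_of_notMem hx]
      exact bot_le

/-- An activity instead of a group. -/
theorem dom_act {κ : Type} [Fintype κ] {s : ℕ} {A₀ : Finset κ} {c : ℝ≥0∞} {Λ : Measure (κ → ℝ)}
    {Θ : Type} [MeasurableSpace Θ] {m : Measure Θ} {b : Θ → κ → ℝ} {z : Θ → κ → PhasePoint}
    (hε : 0 < ε) (h : Dom γ ρ ε (s + 1) A₀ c Λ m b z) (hs : s + 1 ≤ Fintype.card κ) :
    Dom γ ρ ε s A₀ c Λ (activity ε • m) b z where
  mb := h.mb
  mz := h.mz
  le F hF := by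
    have h1 : ENNReal.ofReal (ε ^ 2) ^ (Fintype.card κ - s) * activity ε =
        ENNReal.ofReal (ε ^ 2) ^ (Fintype.card κ - (s + 1)) := by
      have h2 : Fintype.card κ - s = (Fintype.card κ - (s + 1)) + 1 := by omega
      rw [h2, pow_succ, mul_assoc]
      have h3 := activity_pow_mul_pow hε 1
      rw [pow_one, pow_one, mul_comm] at h3
      rw [h3, mul_one]
    rw [lintegral_smul_measure, smul_eq_mul, ← mul_assoc, h1]
    exact h.le F hF

/-- The tree with the obstacle. -/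
theorem dom_tree_ob (hΦ : AdmissiblePotential Φ) (hf : Measurable f₀) (he : Env f₀ γ ρ C₀)
    (hε : 0 < ε) (hR : ∀ x ∈ Metric.closedBall (0 : Space3) R, 1 ≤ ρ x) (P : CTree) :
    Dom γ ρ ε 1 (Finset.univ : Finset (Idx P ⊕ Unit)) (C₀ ^ Fintype.card (Idx P) * 1)
      (prodΛ (Measure.dirac fun _ : Idx P => (0 : ℝ)) (Measure.dirac fun _ : Unit => (0 : ℝ)))
      (activity ε • (treeM Φ f₀ ε P t).prod (obM γ R)) (fun _ => Sum.elim (fun _ => 0) fun _ => 0)
      (fun θ => Sum.elim (linesM Φ ε P θ.1.1 θ.1.2) fun _ => θ.2) := by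
  have hc1 : 1 ≤ Fintype.card (Idx P) := Fintype.card_pos_iff.2 ⟨root P⟩
  have h := Dom.prod (s₁ := 1) (s₂ := 1) he.meas (dom_tree hΦ hf he hε P t)
    (dom_ob (γ := γ) (R := R) (ε := ε) he.meas hR) hc1 le_rfl
  have h2 := dom_act hε h (by rw [Fintype.card_sum, Fintype.card_unit]; omega)
  have hA : (Finset.univ : Finset (Idx P)).disjSum (Finset.univ : Finset Unit) =
      (Finset.univ : Finset (Idx P ⊕ Unit)) := by
    ext x
    rcases x with x | x <;> simp
  rw [hA] at h2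
  exact h2

end struct

/-! ### The second half of `F3Null` -/

section final

variable {Φ : Space3 → ℝ} {f₀ : PhasePoint → ℝ} {γ T t : ℝ} {ρ : Space3 → ℝ≥0∞} {C₀ : ℝ≥0∞}

/-- The density `wG` has a positive finite mass. -/
theorem wG_mass (hγ : 0 < γ) : (∫⁻ u : Space3, wG γ u) ≠ 0 ∧ (∫⁻ u : Space3, wG γ u) ≠ ∞ := by
  refine ⟨?_, (QExit814.lintegral_wG_lt_top hγ).ne⟩
  rw [Ne, lintegral_eq_zero_iff measurable_wG']
  intro h
  have h2 : ∀ᵐ u : Space3, False := by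
    filter_upwards [h] with u hu
    have h3 : wG γ u = 0 := hu
    unfold wG at h3
    rw [ENNReal.ofReal_eq_zero] at h3
    exact absurd h3 (not_le.2 (Real.exp_pos _))
  rw [ae_iff] at h2
  simp at h2

/-- Larger density of the anchors. -/
theorem env_max (he : Env f₀ γ ρ C₀) (R : ℝ) :
    Env f₀ γ (fun x => max (ρ x) ((Metric.closedBall (0 : Space3) R).indicator 1 x)) C₀ where
  meas := he.meas.max (measurable_one.indicator Metric.isClosed_closedBall.measurableSet)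
  le_one x := max_le (he.le_one x) (by
    by_cases hx : x ∈ Metric.closedBall (0 : Space3) R
    · rw [indicator_of_mem hx]; exact le_rfl
    · rw [indicator_of_notMem hx]; exact bot_le)
  int := by
    refine lt_of_le_of_lt (lintegral_mono fun x => max_le_add_of_nonneg bot_le bot_le) ?_
    rw [lintegral_add_left he.meas]
    refine ENNReal.add_lt_top.2 ⟨he.int, ?_⟩
    rw [lintegral_indicator_one Metric.isClosed_closedBall.measurableSet]
    exact (isCompact_closedBall _ _).measure_lt_top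
  fin := he.fin
  le z := (he.le z).trans (by gcongr; exact le_max_left _ _)

/-- Indicator of membership as a function. -/
def chi {α : Type*} (G : Set α) (a : α) : ℝ≥0∞ := if a ∈ G then 1 else 0

theorem measurable_chi {α : Type*} [MeasurableSpace α] {G : Set α} (hG : MeasurableSet G) :
    Measurable (chi G) := Measurable.ite hG measurable_const measurable_const

section chi

variable {ε R : ℝ} {P : CTree}

/-- The states of the structure tree + obstacle. -/
def stT (Φ : Space3 → ℝ) (ε : ℝ) (P : CTree) (z : PhasePoint × Par P) (y : PhasePoint) :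
    Idx P ⊕ Unit → PhasePoint := Sum.elim (linesM Φ ε P z.1 z.2) fun _ => y

theorem measurable_stT (hΦ : AdmissiblePotential Φ) (ε : ℝ) (P : CTree) :
    Measurable fun q : (PhasePoint × Par P) × PhasePoint => stT Φ ε P q.1 q.2 := by
  have h1 : Measurable fun q : (PhasePoint × Par P) × PhasePoint =>
      ((linesM Φ ε P q.1.1 q.1.2, fun _ => q.2) :
        (Idx P → PhasePoint) × (Unit → PhasePoint)) :=
    ((measurable_linesM hΦ ε P).comp measurable_fst).prodMk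
      (measurable_pi_iff.2 fun _ => measurable_snd)
  exact measurable_sumElim.comp h1

/-- The indicator of the majorant. -/
def chiP (Φ : Space3 → ℝ) (ε : ℝ) (P : CTree)
    (G : (m : ℕ) → Set (Config m × (Idx P ⊕ Unit → ℝ) × (Idx P ⊕ Unit → PhasePoint)))
    (z : PhasePoint × Par P) (y : PhasePoint) (m : ℕ) (w : Config m) : ℝ≥0∞ :=
  chi (G m) (w, Sum.elim (fun _ => 0) (fun _ => 0), stT Φ ε P z y)

variable {G : (m : ℕ) → Set (Config m × (Idx P ⊕ Unit → ℝ) × (Idx P ⊕ Unit → PhasePoint))}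

theorem measurable_chiP (hΦ : AdmissiblePotential Φ) (hG : ∀ m, MeasurableSet (G m)) (m : ℕ) :
    Measurable fun q : ((PhasePoint × Par P) × PhasePoint) × Config m =>
      chiP Φ ε P G q.1.1 q.1.2 m q.2 :=
  (measurable_chi (hG m)).comp (measurable_snd.prodMk (measurable_const.prodMk
    ((measurable_stT hΦ ε P).comp measurable_fst)))

/-- The majorant: average over the dummy velocity. -/
def HH (γ : ℝ) (Φ : Space3 → ℝ) (ε : ℝ) (P : CTree)
    (G : (m : ℕ) → Set (Config m × (Idx P ⊕ Unit → ℝ) × (Idx P ⊕ Unit → PhasePoint)))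
    (x : Space3) (z : PhasePoint × Par P) (m : ℕ) (w : Config m) : ℝ≥0∞ :=
  (∫⁻ u : Space3, wG γ u)⁻¹ * ∫⁻ u : Space3, wG γ u * chiP Φ ε P G z (x, u) m w

theorem measurable_HH (hΦ : AdmissiblePotential Φ) (hG : ∀ m, MeasurableSet (G m)) (m : ℕ) :
    Measurable fun q : (Space3 × (PhasePoint × Par P)) × Config m =>
      HH γ Φ ε P G q.1.1 q.1.2 m q.2 := by
  have h : Measurable fun q : ((Space3 × (PhasePoint × Par P)) × Config m) × Space3 =>
      wG γ q.2 * chiP Φ ε P G q.1.1.2 (q.1.1.1, q.2) m q.1.2 :=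
    (measurable_wG'.comp measurable_snd).mul ((measurable_chiP hΦ hG m).comp
      (((measurable_fst.fst.snd).prodMk (measurable_fst.fst.fst.prodMk measurable_snd)).prodMk
        measurable_fst.snd))
  exact (h.lintegral_prod_right').const_mul _

/-- Conditional expectation of the indicator. -/
def JJ (f₀ : PhasePoint → ℝ) (Φ : Space3 → ℝ) (ε : ℝ) (P : CTree)
    (G : (m : ℕ) → Set (Config m × (Idx P ⊕ Unit → ℝ) × (Idx P ⊕ Unit → PhasePoint)))
    (q : (PhasePoint × Par P) × PhasePoint) : ℝ≥0∞ := gcE f₀ ε fun m w => chiP Φ ε P G q.1 q.2 m w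

theorem measurable_JJ (hΦ : AdmissiblePotential Φ) (hf : Measurable f₀)
    (hG : ∀ m, MeasurableSet (G m)) : Measurable (JJ f₀ Φ ε P G) := by
  have h := measurable_gcE_par (ε := ε) (Ω := (PhasePoint × Par P) × PhasePoint) hf
    (F := fun (q : (PhasePoint × Par P) × PhasePoint) m w => chiP Φ ε P G q.1 q.2 m w)
    (fun m => measurable_chiP hΦ hG m)
  exact h

theorem gcE_HH (hΦ : AdmissiblePotential Φ) (hf : Measurable f₀) (hγ : 0 < γ)
    (hG : ∀ m, MeasurableSet (G m)) (x : Space3) (z : PhasePoint × Par P) :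
    gcE f₀ ε (fun m w => HH γ Φ ε P G x z m w) =
      (∫⁻ u : Space3, wG γ u)⁻¹ * ∫⁻ u : Space3, wG γ u * JJ f₀ Φ ε P G (z, (x, u)) := by
  unfold HH
  rw [gcE_const_mul f₀ ε (ENNReal.inv_ne_top.2 (wG_mass hγ).1)]
  congr 1
  have hF : ∀ m, Measurable (Function.uncurry fun (u : Space3) (w : Config m) =>
      wG γ u * chiP Φ ε P G z (x, u) m w) := fun m =>
    (measurable_wG'.comp measurable_fst).mul ((measurable_chiP hΦ hG m).comp
      ((measurable_const.prodMk (measurable_const.prodMk measurable_fst)).prodMk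
        measurable_snd))
  rw [← lintegral_gcE_swap hf ε (volume : Measure Space3)
    (F := fun m u w => wG γ u * chiP Φ ε P G z (x, u) m w) hF]
  refine lintegral_congr fun u => ?_
  exact gcE_const_mul f₀ ε (by unfold wG; exact ENNReal.ofReal_ne_top) _

theorem gcE_measure (hΦ : AdmissiblePotential Φ) (hf : Measurable f₀)
    (hG : ∀ m, MeasurableSet (G m)) :
    gcE f₀ ε (fun m w => (activity ε • (treeM Φ f₀ ε P t).prod (obM γ R))
        {θ | (w, (Sum.elim (fun _ => 0) (fun _ => 0) : Idx P ⊕ Unit → ℝ),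
          stT Φ ε P θ.1 θ.2) ∈ G m}) =
      activity ε * ∫⁻ z, (∫⁻ y, JJ f₀ Φ ε P G (z, y) ∂(obM γ R)) ∂(treeM Φ f₀ ε P t) := by
  have hset : ∀ m (w : Config m), MeasurableSet
      {θ : (PhasePoint × Par P) × PhasePoint | (w,
        (Sum.elim (fun _ => 0) (fun _ => 0) : Idx P ⊕ Unit → ℝ), stT Φ ε P θ.1 θ.2) ∈ G m} :=
    fun m w => (measurable_const.prodMk (measurable_const.prodMk (measurable_stT hΦ ε P))) (hG m)
  have e1 : ∀ m (w : Config m), (activity ε • (treeM Φ f₀ ε P t).prod (obM γ R))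
      {θ | (w, (Sum.elim (fun _ => 0) (fun _ => 0) : Idx P ⊕ Unit → ℝ),
        stT Φ ε P θ.1 θ.2) ∈ G m} =
      activity ε * ∫⁻ θ, chiP Φ ε P G θ.1 θ.2 m w ∂((treeM Φ f₀ ε P t).prod (obM γ R)) := by
    intro m w
    rw [Measure.smul_apply, smul_eq_mul, ← lintegral_indicator_one (hset m w)]
    congr 1
  simp only [e1]
  rw [gcE_const_mul f₀ ε (activity_ne_top ε),
    ← lintegral_gcE_swap hf ε ((treeM Φ f₀ ε P t).prod (obM γ R))
      (F := fun m θ w => chiP Φ ε P G θ.1 θ.2 m w) (measurable_chiP hΦ hG)]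
  congr 1
  exact lintegral_prod _ (measurable_JJ hΦ hf hG).aemeasurable

theorem mass_HH (hΦ : AdmissiblePotential Φ) (hf : Measurable f₀) (hγ : 0 < γ)
    (hG : ∀ m, MeasurableSet (G m)) :
    ∫⁻ x in Metric.closedBall (0 : Space3) R, tI Φ f₀ ε t P (HH γ Φ ε P G x) =
      (∫⁻ u : Space3, wG γ u)⁻¹ *
        ∫⁻ z, (∫⁻ y, JJ f₀ Φ ε P G (z, y) ∂(obM γ R)) ∂(treeM Φ f₀ ε P t) := by
  have hJm := measurable_JJ (ε := ε) (P := P) hΦ hf hG
  have hJx : Measurable fun q : (Space3 × (PhasePoint × Par P)) × Space3 =>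
      wG γ q.2 * JJ f₀ Φ ε P G (q.1.2, (q.1.1, q.2)) :=
    (measurable_wG'.comp measurable_snd).mul (hJm.comp
      (measurable_fst.snd.prodMk (measurable_fst.fst.prodMk measurable_snd)))
  have hin : Measurable fun q : Space3 × (PhasePoint × Par P) =>
      ∫⁻ u : Space3, wG γ u * JJ f₀ Φ ε P G (q.2, (q.1, u)) := hJx.lintegral_prod_right'
  have hL2 : ∀ x, tI Φ f₀ ε t P (HH γ Φ ε P G x) = (∫⁻ u : Space3, wG γ u)⁻¹ *
      ∫⁻ z, (∫⁻ u : Space3, wG γ u * JJ f₀ Φ ε P G (z, (x, u))) ∂(treeM Φ f₀ ε P t) := by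
    intro x
    have hxm : Measurable fun z : PhasePoint × Par P =>
        ∫⁻ u : Space3, wG γ u * JJ f₀ Φ ε P G (z, (x, u)) := by
      have h := hin.comp (measurable_prodMk_left (x := x) (β := PhasePoint × Par P))
      exact h
    rw [← lintegral_const_mul _ hxm, lintegral_treeM hΦ hf ε P t (hxm.const_mul _)]
    unfold tI
    refine lintegral_congr fun z => ?_
    by_cases hz : z ∈ {z : PhasePoint × Par P | Valid Φ ε P t z.1.2 z.2}
    · rw [indicator_of_mem hz, indicator_of_mem hz, gcE_HH hΦ hf hγ hG]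
    · rw [indicator_of_notMem hz, indicator_of_notMem hz]
  simp only [hL2]
  have hout : Measurable fun x : Space3 =>
      ∫⁻ z, (∫⁻ u : Space3, wG γ u * JJ f₀ Φ ε P G (z, (x, u))) ∂(treeM Φ f₀ ε P t) :=
    hin.lintegral_prod_right'
  rw [lintegral_const_mul _ hout]
  congr 1
  rw [lintegral_lintegral_swap hin.aemeasurable]
  refine lintegral_congr fun z => ?_
  have h := hJm.comp (measurable_prodMk_left (x := z) (β := PhasePoint))
  exact (lintegral_obM h).symm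

end chi

/-- **Second half of `F3Null`.** -/
theorem obNull_of_bad (hΦ : AdmissiblePotential Φ) (hVC : VC Φ) (hVL : VL Φ) (hf : Measurable f₀)
    (h1 : ∫⁻ z, ENNReal.ofReal (f₀ z) ≤ 1) (he : Env f₀ γ ρ C₀) (hγ : 0 < γ) (hT : 0 < T)
    (P : CTree) (K : ℕ) (X : ℝ → PhasePoint × Par P → (m : ℕ) → Config m → Prop) (C : ℝ) (N : ℕ)
    (hdet : ∀ᶠ ε in 𝓝[>] (0 : ℝ), ∀ (ι : Type) [Fintype ι] (S : Tubes ι) (x : Space3) z m
      (w : Config m), Excl Φ ε P z w → ObEv Φ ε K t (S.shift x) P z w → ¬ X ε z m w →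
        ∀ u, ObBad Φ T C ε N S (lines Φ ε P z.1 z.2) (x, u) w) :
    ∀ (ι : Type) [Fintype ι] (Sk : ℕ → Tubes ι) (S : Tubes ι) (εk : ℕ → ℝ),
      (∀ k, 0 < εk k) → Tendsto εk atTop (𝓝 0) → TubeConv T Sk S → Generic T S →
      (∀ n i, Continuous ((Sk n).c i)) → ∀ (R δ' : ℝ), 0 < δ' → ∀ᶠ n in atTop,
        ∃ H : Space3 → PhasePoint × Par P → (m : ℕ) → Config m → ℝ≥0∞,
          (∀ m, Measurable fun q : (Space3 × (PhasePoint × Par P)) × Config m =>
            H q.1.1 q.1.2 m q.2) ∧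
          (∀ x ∈ Metric.closedBall (0 : Space3) R, ∀ z m (w : Config m), Excl Φ (εk n) P z w →
            ObEv Φ (εk n) K t ((Sk n).shift x) P z w → ¬ X (εk n) z m w → 1 ≤ H x z m w) ∧
          activity (εk n) * ∫⁻ x in Metric.closedBall (0 : Space3) R, tI Φ f₀ (εk n) t P (H x) ≤
            ENNReal.ofReal δ' := by
  intro ι _ Sk S εk hε hε0 hconv hgen hcont R δ' hδ'
  obtain ⟨hm0, hmt⟩ := wG_mass hγ
  have heR := env_max he R
  have hR : ∀ x ∈ Metric.closedBall (0 : Space3) R,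
      1 ≤ max (ρ x) ((Metric.closedBall (0 : Space3) R).indicator 1 x) := fun x hx => by
    refine le_trans ?_ (le_max_right _ _)
    rw [indicator_of_mem hx]
    exact le_rfl
  have hc : C₀ ^ Fintype.card (Idx P) * 1 ≠ ∞ := by
    rw [mul_one]; exact ENNReal.pow_ne_top he.fin
  have hδM : 0 < (∫⁻ u : Space3, wG γ u) * ENNReal.ofReal δ' :=
    ENNReal.mul_pos hm0 (ENNReal.ofReal_pos.2 hδ').ne'
  have hgas := ob_gas (κ := Idx P) hΦ hVC hVL hf h1 heR hγ hT hε hε0 hconv hgen C N hc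
    (prodΛ (Measure.dirac fun _ : Idx P => (0 : ℝ)) (Measure.dirac fun _ : Unit => (0 : ℝ))) hδM
  have hε0' : Tendsto εk atTop (𝓝[>] 0) := tendsto_nhdsWithin_iff.2
    ⟨hε0, Eventually.of_forall fun n => hε n⟩
  filter_upwards [hgas, hε0'.eventually hdet] with n hn hdn
  obtain ⟨G, hGm, hGb, hGd⟩ := hn
  refine ⟨HH γ Φ (εk n) P G, measurable_HH hΦ hGm, ?_, ?_⟩
  · intro x hx z m w hex hev hX
    have hadm : Adm Φ P z.1.2 z.2 := by
      obtain ⟨σ, _, hF, _⟩ := hev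
      exact hF.valid.1
    have hin : ∀ u, chiP Φ (εk n) P G z (x, u) m w = 1 := by
      intro u
      have hb := hdn ι (Sk n) x z m w hex hev hX u
      have hmem := hGb m w (Sum.elim (fun _ => 0) (fun _ => 0)) (lines Φ (εk n) P z.1 z.2) (x, u) hb
      rw [← linesM_of_adm (εk n) hadm] at hmem
      unfold chiP chi stT
      rw [if_pos hmem]
    unfold HH
    simp only [hin, mul_one]
    rw [ENNReal.inv_mul_cancel hm0 hmt]
  · -- the mass
    have hd := hGd ((PhasePoint × Par P) × PhasePoint)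
      (activity (εk n) • (treeM Φ f₀ (εk n) P t).prod (obM γ R))
      (fun _ => Sum.elim (fun _ => 0) fun _ => 0)
      (fun θ => stT Φ (εk n) P θ.1 θ.2)
      (dom_tree_ob hΦ hf heR (hε n) hR P)
    rw [gcE_measure hΦ hf hGm] at hd
    rw [mass_HH hΦ hf hγ hGm]
    calc activity (εk n) * ((∫⁻ u : Space3, wG γ u)⁻¹ *
          ∫⁻ z, (∫⁻ y, JJ f₀ Φ (εk n) P G (z, y) ∂(obM γ R)) ∂(treeM Φ f₀ (εk n) P t))
        = (∫⁻ u : Space3, wG γ u)⁻¹ * (activity (εk n) *
          ∫⁻ z, (∫⁻ y, JJ f₀ Φ (εk n) P G (z, y) ∂(obM γ R)) ∂(treeM Φ f₀ (εk n) P t)) := by ring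
      _ ≤ (∫⁻ u : Space3, wG γ u)⁻¹ * ((∫⁻ u : Space3, wG γ u) * ENNReal.ofReal δ') :=
          mul_le_mul_right hd _
      _ = ENNReal.ofReal δ' := by rw [← mul_assoc, ENNReal.inv_mul_cancel hm0 hmt, one_mul]

end final

end Crest.Agent.R122.ObGas370
end
end

-- ▼ part R122/RetOb_370
section

/-!
# Cycles through an obstacle node (row 122, helper370), item F3

Combinatorics of helper581's virtual systems: a connected family `P` together with two different
virtual contacts with a further node `o` is connected and not tree-like.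

* `cut_count` : a finite set which is connected through the pairs of `F` has at most `|F| + 1`
  elements.
* `VCt.mono`, `VCt.symm`, `Conn.insert`.
* `not_treeLike_of_pairs` : too many contact pairs.
* `not_treeLike_insert` : two different members of a connected family in contact with `o`.
* `not_treeLike_far` : two contacts of the same pair at times further apart than the windows.
-/

set_option autoImplicit false
set_option linter.unusedSectionVars false
open MeasureTheory Set Filter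
open scoped Classical ENNReal Topology
open Crest.AnalysisR.Kinetic
open Crest.Agent.R122.VL581

noncomputable section

namespace Crest.Agent.R122.RetOb370

section graph

variable {J : Type}

/-- A set connected through the pairs of `F` has at most `|F| + 1` elements. -/
theorem cut_count {P : Finset J} (hP : P.Nonempty) {F : Finset (J × J)}
    (hcut : ∀ Q ⊆ P, Q.Nonempty → Q ≠ P →
      ∃ i ∈ Q, ∃ j ∈ P \ Q, (i, j) ∈ F ∨ (j, i) ∈ F) :
    P.card ≤ (F.filter fun e => e.1 ∈ P ∧ e.2 ∈ P).card + 1 := by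
  have key : ∀ n : ℕ, n + 1 ≤ P.card → ∃ Q ⊆ P, Q.card = n + 1 ∧
      n ≤ (F.filter fun e => e.1 ∈ Q ∧ e.2 ∈ Q).card := by
    intro n
    induction n with
    | zero =>
      intro _
      obtain ⟨x, hx⟩ := hP
      exact ⟨{x}, Finset.singleton_subset_iff.2 hx, Finset.card_singleton x, Nat.zero_le _⟩
    | succ n ih =>
      intro hn
      obtain ⟨Q, hQ, hc, hF⟩ := ih (Nat.le_of_succ_le hn)
      have hne : Q ≠ P := by
        rintro rfl
        omega
      have hQn : Q.Nonempty := Finset.card_pos.1 (by omega)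
      obtain ⟨i, hi, j, hj, hij⟩ := hcut Q hQ hQn hne
      obtain ⟨hjP, hjQ⟩ := Finset.mem_sdiff.1 hj
      refine ⟨insert j Q, Finset.insert_subset hjP hQ, by
        rw [Finset.card_insert_of_notMem hjQ, hc], ?_⟩
      -- the new pair
      obtain ⟨e, heF, he1, he2, heQ⟩ : ∃ e ∈ F, e.1 ∈ insert j Q ∧ e.2 ∈ insert j Q ∧
          ¬ (e.1 ∈ Q ∧ e.2 ∈ Q) := by
        rcases hij with h | h
        · exact ⟨(i, j), h, Finset.mem_insert_of_mem hi, Finset.mem_insert_self _ _,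
            fun h' => hjQ h'.2⟩
        · exact ⟨(j, i), h, Finset.mem_insert_self _ _, Finset.mem_insert_of_mem hi,
            fun h' => hjQ h'.1⟩
      have hsub : insert e (F.filter fun e => e.1 ∈ Q ∧ e.2 ∈ Q) ⊆
          F.filter fun e => e.1 ∈ insert j Q ∧ e.2 ∈ insert j Q := by
        intro f hf
        rcases Finset.mem_insert.1 hf with rfl | hf
        · exact Finset.mem_filter.2 ⟨heF, he1, he2⟩
        · obtain ⟨h1, h2, h3⟩ := Finset.mem_filter.1 hf
          exact Finset.mem_filter.2 ⟨h1, Finset.mem_insert_of_mem h2, Finset.mem_insert_of_mem h3⟩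
      have hnot : e ∉ F.filter fun e => e.1 ∈ Q ∧ e.2 ∈ Q := fun h =>
        heQ (Finset.mem_filter.1 h).2
      have := Finset.card_le_card hsub
      rw [Finset.card_insert_of_notMem hnot] at this
      omega
  have hpos : 0 < P.card := Finset.card_pos.2 hP
  obtain ⟨Q, hQ, hc, hF⟩ := key (P.card - 1) (by omega)
  have hQP : Q = P := Finset.eq_of_subset_of_card_le hQ (by omega)
  subst hQP
  omega

end graph

section sys

variable {J κ : Type} [Fintype J] {M : VSys J κ} {C ℓ ς : ℝ} {Z : J → PhasePoint}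
  {P P' : Finset J} {i j o : J} {s s' : ℝ}

theorem Ct.symm {A B : Finset J} {k l : κ} (h : M.Ct C A k i B l j s Z) :
    M.Ct C B l j A k i s Z := by
  obtain ⟨h1, h2, h3, h4, h5, h6, h7⟩ := h
  exact ⟨h2, h1, h4, h3, h6, h5, by rw [dist_comm]; exact h7⟩

theorem VCt.symm (h : M.VCt C P i j s Z) : M.VCt C P j i s Z := by
  obtain ⟨A, hA, B, hB, k, l, h⟩ := h
  exact ⟨B, hB, A, hA, l, k, Ct.symm h⟩

theorem VCt.mono (hP : P ⊆ P') (h : M.VCt C P i j s Z) : M.VCt C P' i j s Z := by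
  obtain ⟨A, hA, B, hB, k, l, h⟩ := h
  exact ⟨A, hA.trans hP, B, hB.trans hP, k, l, h⟩



/-- A connected family with a further node in virtual contact with a member is connected. -/
theorem conn_insert (hP : M.Conn C P Z) (hi : i ∈ P) (hs : s ∈ Icc 0 M.T)
    (h : M.VCt C (insert o P) i o s Z) : M.Conn C (insert o P) Z := by
  refine ⟨Finset.insert_nonempty _ _, fun Q hQ hQn hne => ?_⟩
  by_cases ho : o ∈ Q
  · by_cases hPQ : P ⊆ Q
    · exfalso
      exact hne (Finset.Subset.antisymm hQ (Finset.insert_subset ho hPQ))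
    · by_cases hiQ : i ∈ Q
      · -- cut `P ∩ Q`
        have hne' : P ∩ Q ≠ P := fun h' => hPQ (Finset.inter_eq_left.1 h')
        obtain ⟨a, ha, b, hb, t, ht, hc⟩ := hP.2 (P ∩ Q) Finset.inter_subset_left
          ⟨i, Finset.mem_inter.2 ⟨hi, hiQ⟩⟩ hne'
        obtain ⟨hbP, hbQ⟩ := Finset.mem_sdiff.1 hb
        refine ⟨a, (Finset.mem_inter.1 ha).2, b, Finset.mem_sdiff.2
          ⟨Finset.mem_insert_of_mem hbP, fun h' => hbQ (Finset.mem_inter.2 ⟨hbP, h'⟩)⟩, t, ht,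
          VCt.mono (Finset.subset_insert _ _) hc⟩
      · exact ⟨o, ho, i, Finset.mem_sdiff.2 ⟨Finset.mem_insert_of_mem hi, hiQ⟩, s, hs,
          VCt.symm h⟩
  · have hQP : Q ⊆ P := fun x hx => (Finset.mem_insert.1 (hQ hx)).resolve_left
      (fun h' => ho (h' ▸ hx))
    by_cases hQe : Q = P
    · subst hQe
      exact ⟨i, hi, o, Finset.mem_sdiff.2 ⟨Finset.mem_insert_self _ _, ho⟩, s, hs, h⟩
    · obtain ⟨a, ha, b, hb, t, ht, hc⟩ := hP.2 Q hQP hQn hQe
      obtain ⟨hbP, hbQ⟩ := Finset.mem_sdiff.1 hb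
      exact ⟨a, ha, b, Finset.mem_sdiff.2 ⟨Finset.mem_insert_of_mem hbP, hbQ⟩, t, ht,
        VCt.mono (Finset.subset_insert _ _) hc⟩

/-- The edges inside a connected subfamily of a tree-like family. -/
theorem card_edges_ge (hP : M.Conn C P Z) (hPP : P ⊆ P') {E : Finset (J × J)} {σ : J × J → ℝ}
    (hE : ∀ i ∈ P', ∀ j ∈ P', i ≠ j → ∀ t ∈ Icc 0 M.T, M.VCt C P' i j t Z →
      ∃ e ∈ E, (e = (i, j) ∨ e = (j, i)) ∧ |t - σ e| ≤ ℓ) :
    P.card ≤ (E.filter fun e => e.1 ∈ P ∧ e.2 ∈ P).card + 1 := by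
  refine cut_count hP.1 fun Q hQ hQn hne => ?_
  obtain ⟨a, ha, b, hb, t, ht, hc⟩ := hP.2 Q hQ hQn hne
  obtain ⟨hbP, hbQ⟩ := Finset.mem_sdiff.1 hb
  have hab : a ≠ b := by rintro rfl; exact hbQ ha
  obtain ⟨e, he, hab', -⟩ := hE a (hPP (hQ ha)) b (hPP hbP) hab t ht (VCt.mono hPP hc)
  refine ⟨a, ha, b, hb, ?_⟩
  rcases hab' with h | h
  · left; rw [← h]; exact he
  · right; rw [← h]; exact he

/-- **Cycle through a further node.** -/
theorem not_treeLike_insert (hP : M.Conn C P Z) (ho : o ∉ P) (hi : i ∈ P) (hj : j ∈ P)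
    (hij : i ≠ j) (hs : s ∈ Icc 0 M.T) (hs' : s' ∈ Icc 0 M.T)
    (h1 : M.VCt C (insert o P) i o s Z) (h2 : M.VCt C (insert o P) j o s' Z) :
    ¬ M.TreeLike C ℓ ς (insert o P) Z := by
  rintro ⟨-, E, σ, hcard, -, -, -, -, hE⟩
  have hcnt := card_edges_ge (P' := insert o P) hP (Finset.subset_insert _ _) hE
  have hoi : i ≠ o := fun h => ho (h ▸ hi)
  have hoj : j ≠ o := fun h => ho (h ▸ hj)
  obtain ⟨e₁, he₁, h₁, -⟩ := hE i (Finset.mem_insert_of_mem hi) o (Finset.mem_insert_self _ _) hoi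
    s hs h1
  obtain ⟨e₂, he₂, h₂, -⟩ := hE j (Finset.mem_insert_of_mem hj) o (Finset.mem_insert_self _ _) hoj
    s' hs' h2
  have hne : e₁ ≠ e₂ := by
    rintro rfl
    rcases h₁ with h₁ | h₁ <;> rcases h₂ with h₂ | h₂
    · exact hij (congrArg Prod.fst (h₁.symm.trans h₂))
    · exact hoi (congrArg Prod.fst (h₁.symm.trans h₂))
    · exact hoj (congrArg Prod.fst (h₂.symm.trans h₁))
    · exact hij (congrArg Prod.snd (h₁.symm.trans h₂))
  have hn : ∀ e : J × J, ∀ a, (e = (a, o) ∨ e = (o, a)) →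
      e ∉ E.filter fun e => e.1 ∈ P ∧ e.2 ∈ P := by
    rintro e a (rfl | rfl) h'
    · exact ho (Finset.mem_filter.1 h').2.2
    · exact ho (Finset.mem_filter.1 h').2.1
  have hsub : insert e₁ (insert e₂ (E.filter fun e => e.1 ∈ P ∧ e.2 ∈ P)) ⊆ E := by
    intro e he
    rcases Finset.mem_insert.1 he with rfl | he
    · exact he₁
    rcases Finset.mem_insert.1 he with rfl | he
    · exact he₂
    · exact (Finset.mem_filter.1 he).1
  have h3 := Finset.card_le_card hsub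
  rw [Finset.card_insert_of_notMem, Finset.card_insert_of_notMem (hn e₂ j h₂)] at h3
  · rw [Finset.card_insert_of_notMem ho] at hcard
    omega
  · intro h'
    rcases Finset.mem_insert.1 h' with h' | h'
    · exact hne h'
    · exact hn e₁ i h₁ h'



end sys

end Crest.Agent.R122.RetOb370
end
end

-- ▼ part R122/ObDet_370
section

/-!
# The bad event with the obstacle from a chain end (row 122, helper370), F3

* `CEnd` : chain end: some `Y ⊆ w`, `|Y| ≤ N`, is connected together with the tree, and some member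
  (not the root) of some ok sub-world is at the position `q` at time `v`.
* `obBad_of_cEnd` : root contact with the obstacle + chain end at the obstacle ⇒ `ObBad`.
* `root_st` : the root of a tree which hits the obstacle.
-/

set_option autoImplicit false
set_option linter.unusedSectionVars false
open MeasureTheory Set Filter
open scoped Classical ENNReal Topology
open Crest.AnalysisR.Kinetic
open Crest.Agent.R122.Kin796 Crest.Agent.R122.Kin796.CTree Crest.Agent.R122.Flow671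
open Crest.Agent.R122.Ins45
open Crest.Agent.R122.Tree674 Crest.Agent.R122.VL581 Crest.Agent.R122.VLInst442
open Crest.Agent.R122.GIV566 Crest.Agent.R122.RetOb370 Crest.Agent.R122.ObGas370
open Crest.Agent.R122.PathFlow968 Crest.Agent.R122.RtG302 Crest.Agent.R122.Energy410
noncomputable section

namespace Crest.Agent.R122.ObDet370

section defs

variable {κ : Type} [Fintype κ]

/-- The system of `k` gas particles and a structure, births `0`, without obstacle. -/
abbrev gsys (Φ : Space3 → ℝ) (T ε : ℝ) (k : ℕ) (κ : Type) : VSys (Fin k ⊕ κ) Unit :=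
  VLMeas973.vsys Φ T ε fun _ => 0

/-- Chain end at the time `v` and the position `q`: a member different from the root `r`. -/
def CEnd (Φ : Space3 → ℝ) (T C ε : ℝ) (N : ℕ) (r : κ) (z : κ → PhasePoint) {n : ℕ} (w : Config n)
    (v : ℝ) (q : Space3) : Prop :=
  ∃ k ≤ N, ∃ g : Fin k ↪ Fin n,
    (gsys Φ T ε k κ).Conn C Finset.univ (Sum.elim (fun i => w (g i)) z) ∧
    ∃ A : Finset (Fin k ⊕ κ), ∃ i ∈ A, i ≠ Sum.inr r ∧
      (gsys Φ T ε k κ).ok A v (Sum.elim (fun i => w (g i)) z) ∧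
      ((gsys Φ T ε k κ).st A v (Sum.elim (fun i => w (g i)) z) i).1 = q

end defs

section transfer

variable {κ ι : Type} [Fintype κ] {Φ : Space3 → ℝ} {T C ε : ℝ} {S : Tubes ι} {k : ℕ}

/-- The embedding of the particles. -/
def emb (k : ℕ) (κ : Type) : Fin k ⊕ κ ↪ Fin k ⊕ (κ ⊕ Unit) :=
  ⟨Sum.map id Sum.inl, Function.Injective.sumMap Function.injective_id Sum.inl_injective⟩

/-- The system without obstacle, same tubes. -/
def gsysS (Φ : Space3 → ℝ) (T ε : ℝ) {ι : Type} (S : Tubes ι) (k : ℕ) (κ : Type) :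
    VSys (Fin k ⊕ κ) ι := ⟨Φ, T, ε, fun _ => 0, none, S⟩

theorem isSub : IsSub (gsysS Φ T ε S k κ) (osys Φ T ε S k κ) (emb k κ) where
  Φ := rfl
  T := rfl
  ε := rfl
  b _ := rfl
  o i := by
    constructor
    · intro h
      exact absurd h (by simp [gsysS])
    · intro h
      exfalso
      have h2 : (Sum.inr (Sum.inr ()) : Fin k ⊕ (κ ⊕ Unit)) = emb k κ i := by
        have h3 : some (Sum.inr (Sum.inr ()) : Fin k ⊕ (κ ⊕ Unit)) = some (emb k κ i) := h
        exact Option.some.inj h3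
      rcases i with i | i
      · simp [emb] at h2
      · simp [emb] at h2
  S := rfl

theorem st_gsys (A : Finset (Fin k ⊕ κ)) (t : ℝ) (Z : Fin k ⊕ κ → PhasePoint) (i : Fin k ⊕ κ) :
    (gsysS Φ T ε S k κ).st A t Z i = (gsys Φ T ε k κ).st A t Z i := rfl

theorem ok_gsys (A : Finset (Fin k ⊕ κ)) (t : ℝ) (Z : Fin k ⊕ κ → PhasePoint) :
    (gsysS Φ T ε S k κ).ok A t Z ↔ (gsys Φ T ε k κ).ok A t Z := Iff.rfl

theorem vct_gsys (j₀ : ι) {P : Finset (Fin k ⊕ κ)} {i j : Fin k ⊕ κ} {t : ℝ}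
    {Z : Fin k ⊕ κ → PhasePoint} (h : (gsys Φ T ε k κ).VCt C P i j t Z) :
    (gsysS Φ T ε S k κ).VCt C P i j t Z := by
  obtain ⟨A, hA, B, hB, _, _, h1, h2, h3, h4, _, _, h7⟩ := h
  refine ⟨A, hA, B, hB, j₀, j₀, h1, h2, h3, h4, fun h => ?_, fun h => ?_, ?_⟩
  · exact absurd h (by simp [gsysS])
  · exact absurd h (by simp [gsysS])
  · unfold VSys.pos at h7 ⊢
    rw [if_neg (by simp [gsysS]), if_neg (by simp [gsysS])]
    rw [if_neg (by simp [VLMeas973.vsys]), if_neg (by simp [VLMeas973.vsys])] at h7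
    exact h7

theorem conn_gsys (j₀ : ι) {P : Finset (Fin k ⊕ κ)} {Z : Fin k ⊕ κ → PhasePoint}
    (h : (gsys Φ T ε k κ).Conn C P Z) : (gsysS Φ T ε S k κ).Conn C P Z := by
  refine ⟨h.1, fun Q hQ hQn hne => ?_⟩
  obtain ⟨i, hi, j, hj, t, ht, hc⟩ := h.2 Q hQ hQn hne
  exact ⟨i, hi, j, hj, t, ht, vct_gsys j₀ hc⟩

/-- Connectedness in the system with the obstacle. -/
theorem conn_osys (hΦ : AdmissiblePotential Φ) (hε : 0 < ε) (j₀ : ι) {P : Finset (Fin k ⊕ κ)}
    {Z : Fin k ⊕ (κ ⊕ Unit) → PhasePoint}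
    (h : (gsys Φ T ε k κ).Conn C P fun i => Z (emb k κ i)) :
    (osys Φ T ε S k κ).Conn C (P.map (emb k κ)) Z := by
  have h1 := conn_gsys (S := S) j₀ h
  have hs : IsSub (gsysS Φ T ε S k κ) (osys Φ T ε S k κ) (emb k κ) := isSub
  refine ⟨Finset.map_nonempty.2 h1.1, fun Q hQ hQn hQP => ?_⟩
  obtain ⟨Q', hQ', rfl⟩ := Finset.subset_map_iff.1 hQ
  obtain ⟨i, hi, j, hj, t, ht, hc⟩ := h1.2 Q' hQ' (Finset.map_nonempty.1 hQn)
    (fun h2 => hQP (by rw [h2]))
  refine ⟨emb k κ i, (Finset.mem_map' _).2 hi, emb k κ j, ?_, t, ht, (VCt_map hs hΦ hε).1 hc⟩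
  have hj1 := (@Finset.mem_sdiff _ (fun a b => Classical.propDecidable (a = b)) _ _ _).1 hj
  exact (@Finset.mem_sdiff _ (fun a b => Classical.propDecidable (a = b)) _ _ _).2
    ⟨(Finset.mem_map' _).2 hj1.1, fun h2 => hj1.2 ((Finset.mem_map' _).1 h2)⟩

/-- A particle near the obstacle is in virtual contact with it. -/
theorem vct_obstacle (hΦ : AdmissiblePotential Φ) (hε : 0 < ε) (hC : 1 ≤ C)
    {P : Finset (Fin k ⊕ (κ ⊕ Unit))} {Z : Fin k ⊕ (κ ⊕ Unit) → PhasePoint}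
    {A : Finset (Fin k ⊕ κ)} {i : Fin k ⊕ κ} {v : ℝ} {a : ι} (hi : i ∈ A)
    (hA : A.map (emb k κ) ⊆ P) (ho : Sum.inr (Sum.inr ()) ∈ P) (hv : v ∈ Icc 0 T)
    (hok : (gsys Φ T ε k κ).ok A v fun i => Z (emb k κ i)) (ha : v ≤ S.b a)
    (hd : dist ((Z (Sum.inr (Sum.inr ()))).1 + S.c a v)
      ((gsys Φ T ε k κ).st A v (fun i => Z (emb k κ i)) i).1 ≤ ε) :
    (osys Φ T ε S k κ).VCt C P (emb k κ i) (Sum.inr (Sum.inr ())) v Z := by
  have hs : IsSub (gsysS Φ T ε S k κ) (osys Φ T ε S k κ) (emb k κ) := isSub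
  refine ⟨A.map (emb k κ), hA, {Sum.inr (Sum.inr ())}, Finset.singleton_subset_iff.2 ho, a, a,
    (Finset.mem_map' _).2 hi, Finset.mem_singleton_self _, ?_, ?_, ?_, ?_, ?_⟩
  · exact (ok_map hs hΦ hε).1 ((ok_gsys A v _).2 hok)
  · intro j hj hjo
    rw [Finset.mem_singleton] at hj
    exact absurd (by rw [hj]; rfl) hjo
  · intro h
    exfalso
    have h2 := (hs.o i).2 h
    exact absurd h2 (by simp [gsysS])
  · intro _
    exact ha
  · have hno : (osys Φ T ε S k κ).o ≠ some (emb k κ i) := fun h =>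
      absurd ((hs.o i).2 h) (by simp [gsysS])
    unfold VSys.pos
    rw [if_neg hno, if_pos (show (osys Φ T ε S k κ).o = some (Sum.inr (Sum.inr ())) from rfl)]
    have h1 := st_map hs hΦ hε (A' := A) (t := v) (Z := Z) i
    rw [← h1, st_gsys]
    have h2 : max 0 (min v (osys Φ T ε S k κ).T) = v := by
      change max 0 (min v T) = v
      rw [min_eq_left hv.2, max_eq_right hv.1]
    rw [h2, dist_comm]
    refine hd.trans ?_
    change ε ≤ C * ε
    nlinarith

end transfer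

section main

variable {κ ι : Type} [Fintype κ] {Φ : Space3 → ℝ} {T C ε : ℝ} {S : Tubes ι} {N n : ℕ}

/-- **Root contact and chain end at the obstacle.** -/
theorem obBad_of_cEnd (hΦ : AdmissiblePotential Φ) (hε : 0 < ε) (hC : 1 ≤ C) {r : κ}
    {z : κ → PhasePoint} {w : Config n} {v σ : ℝ} {q : Space3} {x : Space3}
    (hv : v ∈ Icc 0 T) (hσ : σ ∈ Icc 0 T) (h : CEnd Φ T C ε N r z w v q)
    (hn : near ε (S.shift x) v q)
    (hroot : ∀ k (g : Fin k ↪ Fin n), ∃ A₀ : Finset (Fin k ⊕ κ), Sum.inr r ∈ A₀ ∧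
      (gsys Φ T ε k κ).ok A₀ σ (Sum.elim (fun i => w (g i)) z) ∧
      near ε (S.shift x) σ
        ((gsys Φ T ε k κ).st A₀ σ (Sum.elim (fun i => w (g i)) z) (Sum.inr r)).1) (u : Space3) :
    ObBad Φ T C ε N S z (x, u) w := by
  obtain ⟨k, hk, g, hconn, A, i, hi, hir, hok, hq⟩ := h
  obtain ⟨A₀, hr0, hok0, a₀, ha0, hd0⟩ := hroot k g
  obtain ⟨a, ha, hd⟩ := hn
  let _ : DecidableEq (Fin k ⊕ (κ ⊕ Unit)) := fun a b => Classical.propDecidable (a = b)
  set Z : Fin k ⊕ (κ ⊕ Unit) → PhasePoint :=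
    Sum.elim (fun i => w (g i)) (Sum.elim z fun _ => (x, u)) with hZ
  have hZe : (fun i => Z (emb k κ i)) = Sum.elim (fun i => w (g i)) z := by
    funext i
    rcases i with i | i <;> rfl
  set o : Fin k ⊕ (κ ⊕ Unit) := Sum.inr (Sum.inr ()) with ho
  set P : Finset (Fin k ⊕ (κ ⊕ Unit)) := Finset.univ.map (emb k κ) with hP
  have hoP : o ∉ P := by
    intro h
    obtain ⟨j, _, hj⟩ := Finset.mem_map.1 h
    rcases j with j | j <;> simp [emb, ho] at hj
  have huniv : insert o P = Finset.univ := by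
    ext y
    simp only [Finset.mem_insert, Finset.mem_univ, iff_true]
    rcases y with y | y | y
    · exact Or.inr (Finset.mem_map.2 ⟨Sum.inl y, Finset.mem_univ _, rfl⟩)
    · exact Or.inr (Finset.mem_map.2 ⟨Sum.inr y, Finset.mem_univ _, rfl⟩)
    · exact Or.inl rfl
  have hconnO : (osys Φ T ε S k κ).Conn C P Z := by
    refine conn_osys hΦ hε a₀ ?_
    rw [hZe]
    exact hconn
  have hsub : ∀ A : Finset (Fin k ⊕ κ), A.map (emb k κ) ⊆ insert o P := fun A =>
    (Finset.map_subset_map.2 (Finset.subset_univ A)).trans (Finset.subset_insert _ _)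
  have hc1 : (osys Φ T ε S k κ).VCt C (insert o P) (emb k κ (Sum.inr r)) o σ Z := by
    refine vct_obstacle hΦ hε hC hr0 (hsub A₀) (Finset.mem_insert_self _ _) hσ ?_ ha0 ?_
    · rw [hZe]; exact hok0
    · rw [hZe]
      change dist (x + S.c a₀ σ) _ ≤ ε
      rw [add_comm]
      exact hd0
  have hc2 : (osys Φ T ε S k κ).VCt C (insert o P) (emb k κ i) o v Z := by
    refine vct_obstacle hΦ hε hC hi (hsub A) (Finset.mem_insert_self _ _) hv ?_ ha ?_
    · rw [hZe]; exact hok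
    · rw [hZe, hq]
      change dist (x + S.c a v) _ ≤ ε
      rw [add_comm]
      exact hd
  have hne : emb k κ (Sum.inr r) ≠ emb k κ i := fun h => hir ((emb k κ).injective h).symm
  have hmem : ∀ j, emb k κ j ∈ P := fun j => (Finset.mem_map' _).2 (Finset.mem_univ _)
  refine ⟨k, hk, g, ?_, fun ℓ ς => ?_⟩
  · rw [← huniv]
    exact conn_insert hconnO (hmem _) hσ hc1
  · rw [← huniv]
    exact not_treeLike_insert hconnO hoP (hmem _) (hmem _) hne hσ hv hc1 hc2

end main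

section tree

variable {Φ : Space3 → ℝ} {T ε σ : ℝ} {P : CTree} {ℓ : PhasePoint} {p : Par P} {n : ℕ}

/-- The sub-world of the tree: paths and absence of bad births. -/
theorem tree_st (hΦ : AdmissiblePotential Φ) (hε : 0 < ε)
    (hv : Valid Φ ε P σ ℓ.2 p) (hs : Sep Φ ε P σ ℓ p)
    (hex : ∀ i j, i ≠ j → ε < dist (lines Φ ε P ℓ p i).1 (lines Φ ε P ℓ p j).1) {k : ℕ}
    (V : Fin k → PhasePoint) :
    (gsys Φ T ε k (Idx P)).ok (Finset.univ.map ⟨Sum.inr, Sum.inr_injective⟩) σ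
      (Sum.elim V (lines Φ ε P ℓ p)) ∧
    ∀ s ∈ Icc 0 σ, ∀ x : Idx P, (gsys Φ T ε k (Idx P)).st
      (Finset.univ.map ⟨Sum.inr, Sum.inr_injective⟩) s (Sum.elim V (lines Φ ε P ℓ p)) (Sum.inr x) =
        path Φ ε P ℓ p s x := by
  set M := gsys Φ T ε k (Idx P) with hM
  set A : Finset (Fin k ⊕ Idx P) := Finset.univ.map ⟨Sum.inr, Sum.inr_injective⟩ with hA
  set Z : Fin k ⊕ Idx P → PhasePoint := Sum.elim V (lines Φ ε P ℓ p) with hZ
  set f : Fin k ⊕ Idx P → Idx P := Sum.elim (fun _ => root P) id with hf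
  have hmemA : ∀ i ∈ A, ∃ x, i = Sum.inr x := by
    intro i hi
    obtain ⟨x, _, hx⟩ := Finset.mem_map.1 hi
    exact ⟨x, hx.symm⟩
  have hbb : ∀ i, M.bb i = 0 := fun i => max_self 0
  have hX : LWorld M.Φ M.ε (fun _ : Idx P => (0 : ℝ)) 0 σ
      (fun s => flow Φ ε s (lines Φ ε P ℓ p)) :=
    LWorld.of_bworld (bworld_flow hΦ hε fun i j hij => (hex i j hij).le)
  have h0 : ∀ i ∈ A, M.o ≠ some i → flow Φ ε 0 (lines Φ ε P ℓ p) (f i) = Z i := by
    intro i hi _
    obtain ⟨x, rfl⟩ := hmemA i hi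
    rw [flow_zero hΦ hε]
    rfl
  have hinj : ∀ i ∈ A, M.o ≠ some i → ∀ j ∈ A, M.o ≠ some j → f i = f j → i = j := by
    intro i hi _ j hj _ hij
    obtain ⟨x, rfl⟩ := hmemA i hi
    obtain ⟨y, rfl⟩ := hmemA j hj
    exact congrArg Sum.inr hij
  have hb : ∀ i ∈ A, M.o ≠ some i → ∀ s ∈ Ico 0 σ, ((0 : ℝ) ≤ s ↔ M.bb i ≤ s) := by
    intro i _ _ s _
    rw [hbb]
  have hfar : ∀ s ∈ Ico 0 σ, ∀ i ∈ A, M.o ≠ some i → (0 : ℝ) ≤ s → ∀ k',
      (∀ j ∈ A, M.o ≠ some j → f j ≠ k') → (0 : ℝ) ≤ s →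
      M.ε ≤ dist (flow Φ ε s (lines Φ ε P ℓ p) (f i)).1
        (flow Φ ε s (lines Φ ε P ℓ p) k').1 := by
    intro s _ i _ _ _ k' hk' _
    exfalso
    exact hk' (Sum.inr k') (Finset.mem_map.2 ⟨k', Finset.mem_univ _, rfl⟩) (by
      simp [hM, VLMeas973.vsys]) rfl
  have h := st_eq_of_lworld (M := M) hΦ hε hX hinj hb h0 hfar
  refine ⟨?_, fun s hs' x => ?_⟩
  · rw [ok_iff_of_lworld (M := M) hΦ hε hX hinj hb h0 hfar]
    intro i hi _ _ j hj _ hji _
    obtain ⟨x, rfl⟩ := hmemA i hi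
    obtain ⟨y, rfl⟩ := hmemA j hj
    rw [hbb]
    change M.ε < dist (flow Φ ε 0 (lines Φ ε P ℓ p) x).1 (flow Φ ε 0 (lines Φ ε P ℓ p) y).1
    rw [flow_zero hΦ hε]
    exact hex x y fun h' => hji (by rw [h'])
  · rw [h s hs' (Sum.inr x) (Finset.mem_map.2 ⟨x, Finset.mem_univ _, rfl⟩) (by
      simp [hM, VLMeas973.vsys])]
    rw [path_eq_flow hΦ hε hv hs hs']
    rfl

end tree

/-! ### The deterministic input of `ObGas370.obNull_of_bad` -/

section final

variable {Φ : Space3 → ℝ} {f₀ : PhasePoint → ℝ}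

/-- **(CE)** for the exit lines of a tree cluster: before it touches, every particle influenced by
an exit line (with its state in the world without and in the world with the line) and the line
itself is a chain end. -/
def CEIn (Φ : Space3 → ℝ) (T t : ℝ) (P : CTree) (K : ℕ)
    (X : ℝ → PhasePoint × Par P → (m : ℕ) → Config m → Prop) (C : ℝ) (N : ℕ) : Prop :=
  ∀ᶠ ε in 𝓝[>] (0 : ℝ), ∀ σ ∈ Ioc 0 t, ∀ z m (w : Config m), F3Fin370.Excl Φ ε P z w →
    Valid Φ ε P σ z.1.2 z.2 → Sep Φ ε P σ z.1 z.2 → AllOk Φ ε w (exL Φ ε P z) →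
    (∀ x, t < (EDefs602.MW.cfg w).thetaL Φ ε K t (exL Φ ε P z x)) →
    ¬ LinkEx Φ ε K t w (exL Φ ε P z) → ¬ X ε z m w →
    ∀ x, ∀ v ∈ Icc 0 t,
      ¬ (EDefs602.MW.cfg w).Touched Φ ε K (EDefs602.MW.line (exL Φ ε P z x)) v →
      (∀ i, (EDefs602.MW.cfg w).Fut Φ ε (EDefs602.MW.line (exL Φ ε P z x)) v i →
        CEnd Φ T C ε N (root P) (lines Φ ε P z.1 z.2) w v (Causal291.pth Φ ε w v i).1 ∧
        CEnd Φ T C ε N (root P) (lines Φ ε P z.1 z.2) w v
          (((EDefs602.MW.cfg w).ins (exL Φ ε P z x)).path Φ ε v (Sum.inl i)).1) ∧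
      ((exL Φ ε P z x).1.1 < v →
        CEnd Φ T C ε N (root P) (lines Φ ε P z.1 z.2) w v
          (((EDefs602.MW.cfg w).ins (exL Φ ε P z x)).path Φ ε v (Sum.inr ())).1)

theorem hdet_of_ceIn (hΦ : AdmissiblePotential Φ) {T t : ℝ} (htT : t ≤ T) {P : CTree} {K : ℕ}
    {X : ℝ → PhasePoint × Par P → (m : ℕ) → Config m → Prop} {C : ℝ} (hC : 1 ≤ C) {N : ℕ}
    (h : CEIn Φ T t P K X C N) :
    ∀ᶠ ε in 𝓝[>] (0 : ℝ), ∀ (ι : Type) [Fintype ι] (S : Tubes ι) (x : Space3) z m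
      (w : Config m), F3Fin370.Excl Φ ε P z w → F3Fin370.ObEv Φ ε K t (S.shift x) P z w →
        ¬ X ε z m w → ∀ u, ObBad Φ T C ε N S (lines Φ ε P z.1 z.2) (x, u) w := by
  filter_upwards [h, self_mem_nhdsWithin] with ε hε hpos
  intro ι _ S x z m w hex hev hX u
  have hp : 0 < ε := hpos
  obtain ⟨σ, hσ, hF, hOk, hth, hL, hR⟩ := hev
  have hce := hε σ hσ z m w hex hF.valid hF.sep hOk hth hL hX
  have hσT : σ ∈ Icc 0 T := ⟨hσ.1.le, hσ.2.trans htT⟩
  -- the root contact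
  have hroot : ∀ k (g : Fin k ↪ Fin m), ∃ A₀ : Finset (Fin k ⊕ Idx P), Sum.inr (root P) ∈ A₀ ∧
      (gsys Φ T ε k (Idx P)).ok A₀ σ (Sum.elim (fun i => w (g i)) (lines Φ ε P z.1 z.2)) ∧
      near ε (S.shift x) σ ((gsys Φ T ε k (Idx P)).st A₀ σ
        (Sum.elim (fun i => w (g i)) (lines Φ ε P z.1 z.2)) (Sum.inr (root P))).1 := by
    intro k g
    obtain ⟨h1, h2⟩ := tree_st (T := T) hΦ hp hF.valid hF.sep hex.1 (fun i => w (g i))
    refine ⟨_, Finset.mem_map.2 ⟨root P, Finset.mem_univ _, rfl⟩, h1, ?_⟩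
    rw [h2 σ ⟨hσ.1.le, le_rfl⟩ (root P), path_root_after hp.le hF.valid.2 le_rfl]
    obtain ⟨a, ha, hd⟩ := hF.hit
    exact ⟨a, ha, hd⟩
  rcases hR with ⟨y, v, hv, hT, i, hi, hn | hn⟩ | ⟨y, v, hv, hT, hb, hn⟩
  · exact obBad_of_cEnd hΦ hp hC ⟨hv.1, hv.2.trans htT⟩ hσT ((hce y v hv hT).1 i hi).1 hn hroot u
  · exact obBad_of_cEnd hΦ hp hC ⟨hv.1, hv.2.trans htT⟩ hσT ((hce y v hv hT).1 i hi).2 hn hroot u
  · exact obBad_of_cEnd hΦ hp hC ⟨hv.1, hv.2.trans htT⟩ hσT ((hce y v hv hT).2 hb) hn hroot u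

/-- The remaining input of F3: for every tree and `δ` there are `K`, exceptional events `X`, `N` with
small mass and (CE). -/
def F3CE (Φ : Space3 → ℝ) (f₀ : PhasePoint → ℝ) (T t : ℝ) : Prop :=
  ∀ (P : CTree) (δ : ℝ), 0 < δ → ∃ (K : ℕ)
    (X : ℝ → PhasePoint × Par P → (m : ℕ) → Config m → Prop) (C : ℝ) (N : ℕ), 1 ≤ C ∧
    (∀ᶠ ε in 𝓝[>] (0 : ℝ), ∃ H : PhasePoint × Par P → (m : ℕ) → Config m → ℝ≥0∞,
      (∀ m, Measurable fun q : (PhasePoint × Par P) × Config m => H q.1 m q.2) ∧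
      (∀ z m (w : Config m), F3Fin370.Excl Φ ε P z w →
        F3Fin370.TreeEv Φ ε K t P z w ∨ X ε z m w → 1 ≤ H z m w) ∧
      F3Fin370.tI Φ f₀ ε t P (fun z m w => InEq2.wQ Φ ε P z * H z m w) ≤ ENNReal.ofReal δ) ∧
    CEIn Φ T t P K X C N


end final

end Crest.Agent.R122.ObDet370
end
end

-- ▼ part R122/CEReach_370
section

/-!
# F3 from LN1 (row 122, helper370)

* `cEnd_of_reach` : `LNEv968.Reach` of the tree cluster gives `ObDet370.CEnd`.
* `RA` : the output of LN1 for a tree cluster (`LNEv818.ReachAll` for every exit line).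
* `ce_of_ra` : (CE) from `RA`.
* `TreeRA` : for every `δ` there are exceptional events of small mass outside of which `RA` holds.
* `f3CE_of`, `F3_of_treeRA` : F3 from `TreeNull` and `TreeRA`.
-/

set_option autoImplicit false
set_option linter.unusedSectionVars false
open MeasureTheory Set Filter
open scoped Classical ENNReal Topology
open Crest.AnalysisR.Kinetic
open Crest.Agent.R122.Kin796 Crest.Agent.R122.Kin796.CTree Crest.Agent.R122.Flow671
open Crest.Agent.R122.Tree674 Crest.Agent.R122.VL581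
open Crest.Agent.R122.GIV566 Crest.Agent.R122.ObDet370
open Crest.Agent.R122.RtG302 Crest.Agent.R122.EDefs602
noncomputable section

namespace Crest.Agent.R122.CEReach370

variable {Φ : Space3 → ℝ} {T t C ε : ℝ} {N K : ℕ}

section reach

variable {κ : Type} [Fintype κ] {n : ℕ}

theorem gsys_zero : (LNPart424.gsys Φ T ε n fun _ : κ => 0) = ObDet370.gsys Φ T ε n κ := by
  have h : LN2.bS n (fun _ : κ => (0 : ℝ)) = fun _ => 0 := by
    funext i
    rcases i with i | i <;> rfl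
  unfold LNPart424.gsys ObDet370.gsys
  rw [h]

/-- **Reached positions are chain ends.** -/
theorem cEnd_of_reach (hΦ : AdmissiblePotential Φ) (hε : 0 < ε) (htT : t ≤ T) {r a : κ}
    (har : a ≠ r) {z : κ → PhasePoint} {w : Config n} {Λ : Finset (Finset (Fin n ⊕ κ))}
    {π : Finset (Fin n ⊕ κ)} (hπΛ : π ∈ Λ) (hπ : ∀ y, Sum.inr y ∈ π)
    (hc : (LNPart424.gsys Φ t ε n fun _ : κ => 0).Conn C π (Sum.elim w z)) {i : Fin n ⊕ κ} {v : ℝ}
    {q : Space3} (h : LNEv968.Reach (LNPart424.gsys Φ t ε n fun _ : κ => 0) C (Sum.elim w z) Λ π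
      (Sum.inr a) N i v q) :
    CEnd Φ T C ε N r z w v q := by
  let _ : DecidableEq (Fin n ⊕ κ) := fun a b => Classical.propDecidable (a = b)
  obtain ⟨Y, hY, hi, A, hA, hiA, hok, hq⟩ := h
  have hconn := hY.conn_union hc (hπ a)
  obtain ⟨k, g, e, hk, he, hQ⟩ := LNPart424.exists_emb (S := κ) (π ∪ Y)
    fun y => Finset.mem_union_left _ (hπ y)
  have hcard : (π ∪ Y).card ≤ N := by
    refine (Finset.card_le_card ?_).trans hY.card
    intro x hx
    rcases Finset.mem_union.1 hx with hx | hx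
    · exact Finset.mem_union_right _ (LNEv968.sub_uni hπΛ hx)
    · exact Finset.mem_union_left _ hx
  have hmap : π ∪ Y = Finset.univ.map e := by
    ext x
    rw [← hQ x, Finset.mem_map]
    exact ⟨fun ⟨y, hy⟩ => ⟨y, Finset.mem_univ _, hy⟩, fun ⟨y, _, hy⟩ => ⟨y, hy⟩⟩
  have hpull := LNPart424.pull_gsys (Φ := Φ) (T := t) (ε := ε) (fun _ : κ => (0 : ℝ)) he
  have hZ := LNPart424.elim_comp w z he
  -- the sub-world
  have hA' : A ⊆ Finset.univ.map e := hmap ▸ hA
  obtain ⟨A', -, rfl⟩ := Finset.subset_map_iff.1 hA'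
  obtain ⟨i', hi', rfl⟩ := Finset.mem_map.1 hiA
  refine ⟨k, hk.trans hcard, g, ?_, A', i', hi', ?_, ?_, ?_⟩
  · rw [hmap] at hconn
    have h1 := (hpull.conn hΦ hε).1 hconn
    rw [hZ, gsys_zero] at h1
    exact LN2.conn_of_hor (M := ObDet370.gsys Φ T ε k κ) htT h1
  · rintro rfl
    have h1 : e (Sum.inr r) = Sum.inr r := he _
    rw [h1] at hi
    rcases hY.gas _ hi with h2 | h2
    · exact har (Sum.inr_injective h2).symm
    · exact h2 (LNEv968.sub_uni hπΛ (hπ r))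
  · have h1 := (hpull.ok hΦ hε v).1 hok
    rw [hZ, gsys_zero] at h1
    exact h1
  · have h1 := hpull.st hΦ hε (A' := A') (Z := Sum.elim w z) (i := i') v
    rw [h1, hZ, gsys_zero] at hq
    exact hq

end reach

/-! ### The output of LN1 for a tree cluster -/

section ra

variable {f₀ : PhasePoint → ℝ}

/-- The labels of the tree. -/
def tpart (m : ℕ) (P : CTree) : Finset (Fin m ⊕ Idx P) :=
  LNTree410.part ⟨Sum.inr, Sum.inr_injective⟩

theorem mem_tpart {m : ℕ} {P : CTree} (y : Idx P) : Sum.inr y ∈ tpart m P :=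
  LNTree410.mem_part.2 ⟨y, rfl⟩

/-- **The output of LN1 for a tree cluster**: everything which is cleanly influenced by an exit line
before its touch time is reached. -/
def RA (Φ : Space3 → ℝ) (ε t : ℝ) (K : ℕ) (C : ℝ) (N : ℕ) (P : CTree) (z : PhasePoint × Par P)
    {m : ℕ} (w : Config m) : Prop :=
  ∀ x : {x : Idx P // x ≠ root P}, LNEv818.ReachAll
    (LNEv968.Reach (LNPart424.gsys Φ t ε m fun _ : Idx P => 0) C
      (Sum.elim w (lines Φ ε P z.1 z.2)) {tpart m P} (tpart m P) (Sum.inr x.1) N)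
    Φ ε K t (MW.cfg w) Sum.inl (exL Φ ε P z x) (Sum.inr x.1)

/-- The tree is connected. -/
theorem tree_conn (hΦ : AdmissiblePotential Φ) (hε : 0 < ε) (hC : 1 ≤ C) {P : CTree}
    {z : PhasePoint × Par P} {m : ℕ} {w : Config m} (hV : Valid Φ ε P t z.1.2 z.2)
    (hS : Sep Φ ε P t z.1 z.2) :
    (LNPart424.gsys Φ t ε m fun _ : Idx P => 0).Conn C (tpart m P)
      (Sum.elim w (lines Φ ε P z.1 z.2)) := by
  have h : LNTree410.TreeIn (LNPart424.gsys Φ t ε m fun _ : Idx P => 0)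
      (Sum.elim w (lines Φ ε P z.1 z.2)) t P z.1 z.2 ⟨Sum.inr, Sum.inr_injective⟩ :=
    ⟨fun i => le_rfl, fun i => rfl, fun i => by simp [VLMeas973.vsys], hV, hS⟩
  exact h.Conn_tree hΦ hε le_rfl hC

/-- **(CE) from LN1.** -/
theorem ce_of_ra (hΦ : AdmissiblePotential Φ) (hε : 0 < ε) (hC : 1 ≤ C) (htT : t ≤ T) {P : CTree}
    {z : PhasePoint × Par P} {m : ℕ} {w : Config m} (hV : Valid Φ ε P t z.1.2 z.2)
    (hS : Sep Φ ε P t z.1 z.2) (hOk : AllOk Φ ε w (exL Φ ε P z))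
    (h : RA Φ ε t K C N P z w) (x : {x : Idx P // x ≠ root P}) {v : ℝ} (hv : v ∈ Icc 0 t)
    (hT : ¬ (MW.cfg w).Touched Φ ε K (MW.line (exL Φ ε P z x)) v) :
    (∀ i, (MW.cfg w).Fut Φ ε (MW.line (exL Φ ε P z x)) v i →
      CEnd Φ T C ε N (root P) (lines Φ ε P z.1 z.2) w v (Causal291.pth Φ ε w v i).1 ∧
      CEnd Φ T C ε N (root P) (lines Φ ε P z.1 z.2) w v
        (((MW.cfg w).ins (exL Φ ε P z x)).path Φ ε v (Sum.inl i)).1) ∧
    ((exL Φ ε P z x).1.1 < v →
      CEnd Φ T C ε N (root P) (lines Φ ε P z.1 z.2) w v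
        (((MW.cfg w).ins (exL Φ ε P z x)).path Φ ε v (Sum.inr ())).1) := by
  have hconn := tree_conn (m := m) (w := w) hΦ hε hC hV hS
  have hokZ : (MW.cfg w).Ok Φ ε := hOk.base hΦ hε
  have hokA : ((MW.cfg w).add (MW.line (exL Φ ε P z x))).Ok Φ ε := hOk.line hΦ hε x
  have h2 : v ≤ (MW.cfg w).thetaL Φ ε K t (exL Φ ε P z x) :=
    (LNEv383.lt_theta_of_not_touched hΦ hε hokZ hokA hv hT).le
  have key : ∀ {i q}, LNEv968.Reach (LNPart424.gsys Φ t ε m fun _ : Idx P => 0) C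
      (Sum.elim w (lines Φ ε P z.1 z.2)) {tpart m P} (tpart m P) (Sum.inr x.1) N i v q →
      CEnd Φ T C ε N (root P) (lines Φ ε P z.1 z.2) w v q := fun h =>
    cEnd_of_reach hΦ hε htT x.2 (Finset.mem_singleton_self _) (fun y => mem_tpart y) hconn h
  refine ⟨fun i hi => ?_, fun hb => ?_⟩
  · have h1 : MWFam255.CF Φ ε K (MW.cfg w) (MW.line (exL Φ ε P z x)) v i :=
      LNEv383.cf_of_fut hΦ hε hokZ hokA hv hT hi
    have h0' : (MW.cfg w).b i ≤ v := LNEv383.born_of_fut hΦ hε hi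
    have h0 : ((MW.cfg w).add (MW.line (exL Φ ε P z x))).b (Sum.inl i) ≤ v := h0'
    have h3 := h x v hv h2 (Sum.inl i) (MWFam255.ci_inl h1) h0
    refine ⟨?_, key h3.1⟩
    have h4 := key (h3.2 i rfl)
    rwa [EBasic602.cfg_path hΦ hε] at h4
  · exact key (h x v hv h2 (Sum.inr ()) MWFam255.ci_inr hb.le).1

/-- Exceptional events of tree clusters. -/
abbrev PEv (P : CTree) : Type := ℝ → PhasePoint × Par P → (m : ℕ) → Config m → Prop

/-- The event `X` has a majorant of mass at most `δ` (energy weight). -/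
def PMaj (Φ : Space3 → ℝ) (f₀ : PhasePoint → ℝ) (t : ℝ) (P : CTree) (X : PEv P) (δ : ℝ) : Prop :=
  ∀ᶠ ε in 𝓝[>] (0 : ℝ), ∃ H : PhasePoint × Par P → (m : ℕ) → Config m → ℝ≥0∞,
    (∀ m, Measurable fun q : (PhasePoint × Par P) × Config m => H q.1 m q.2) ∧
    (∀ z m (w : Config m), F3Fin370.Excl Φ ε P z w → Valid Φ ε P t z.1.2 z.2 → X ε z m w →
      1 ≤ H z m w) ∧
    F3Fin370.tI Φ f₀ ε t P (fun z m w => InEq2.wQ Φ ε P z * H z m w) ≤ ENNReal.ofReal δ

/-- **LN1 for trees**: exceptional events of small mass outside of which everything is reached. -/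
def TreeRA (Φ : Space3 → ℝ) (f₀ : PhasePoint → ℝ) (t : ℝ) (P : CTree) (K : ℕ) : Prop :=
  ∀ δ : ℝ, 0 < δ → ∃ (X : PEv P) (C : ℝ) (N : ℕ), 1 ≤ C ∧ PMaj Φ f₀ t P X δ ∧
    ∀ᶠ ε in 𝓝[>] (0 : ℝ), ∀ z m (w : Config m), F3Fin370.Excl Φ ε P z w →
      Valid Φ ε P t z.1.2 z.2 → Sep Φ ε P t z.1 z.2 → AllOk Φ ε w (exL Φ ε P z) →
      (∀ x, t < (MW.cfg w).thetaL Φ ε K t (exL Φ ε P z x)) →
      ¬ LinkEx Φ ε K t w (exL Φ ε P z) → ¬ X ε z m w → RA Φ ε t K C N P z w

/-- Trees which are not separated. -/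
def NSep (Φ : Space3 → ℝ) (t : ℝ) (P : CTree) : PEv P := fun ε z _ _ => ¬ Sep Φ ε P t z.1 z.2

/-- **Trees which are not separated are null.** -/
theorem pMaj_nsep (hΦ : AdmissiblePotential Φ) {γ : ℝ} (hγ : 0 < γ) (hf : Continuous f₀)
    (H : HasSummableGaussianBound γ (fun x v => f₀ (x, v)))
    (h1 : ∫⁻ z, ENNReal.ofReal (f₀ z) ≤ 1) (t : ℝ) (P : CTree) {δ : ℝ} (hδ : 0 < δ) :
    PMaj Φ f₀ t P (NSep Φ t P) δ := by
  have hS := Small302.sepNull hΦ hγ hf H h1 P.leaves t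
  have hpos : (0 : ℝ≥0∞) < ENNReal.ofReal δ := ENNReal.ofReal_pos.2 hδ
  have hSe := (tendsto_order.1 hS).2 _ hpos
  filter_upwards [hSe, self_mem_nhdsWithin] with ε hS1 hε
  have hε' : 0 < ε := hε
  have hG2 : InEq2.MeasTS (Small302.setG P.leaves (Small302.nsep Φ t ε)) :=
    Small302.measTS_setG fun P' => Small302.measurableSet_nsep hΦ t hε' P'
  refine ⟨fun z m w => Small302.setG P.leaves (Small302.nsep Φ t ε) P z m w, fun m => hG2 P m,
    ?_, ?_⟩
  · intro z m w _ hV hs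
    have h5 : (1 : ℝ≥0∞) ≤ Small302.setG P.leaves (Small302.nsep Φ t ε) P z m w := by
      unfold Small302.setG
      rw [if_pos ⟨le_rfl, hV, hs⟩]
    exact h5
  · exact (ENNReal.le_tsum (f := fun P' => F3Fin370.tI Φ f₀ ε t P' (fun z m w =>
      InEq2.wQ Φ ε P' z * Small302.setG P.leaves (Small302.nsep Φ t ε) P' z m w)) P).trans hS1.le

theorem tI_add (hΦ : AdmissiblePotential Φ) (hf : Measurable f₀) {P : CTree}
    {H H' : PhasePoint × Par P → (m : ℕ) → Config m → ℝ≥0∞}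
    (ha : ∀ m, Measurable fun q : (PhasePoint × Par P) × Config m => H q.1 m q.2)
    (ha' : ∀ m, Measurable fun q : (PhasePoint × Par P) × Config m => H' q.1 m q.2) :
    F3Fin370.tI Φ f₀ ε t P (fun z m w => InEq2.wQ Φ ε P z * (H z m w + H' z m w)) =
      F3Fin370.tI Φ f₀ ε t P (fun z m w => InEq2.wQ Φ ε P z * H z m w) +
      F3Fin370.tI Φ f₀ ε t P (fun z m w => InEq2.wQ Φ ε P z * H' z m w) := by
  have h3 := GateT522.TP_eq_treeQ (Φ := Φ) (f₀ := f₀) (ε := ε) hΦ hf P t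
    (H := fun z m w => H z m w + H' z m w) fun m => (ha m).add (ha' m)
  have h4 := GateT522.TP_eq_treeQ (Φ := Φ) (f₀ := f₀) (ε := ε) hΦ hf P t (H := H) ha
  have h5 := GateT522.TP_eq_treeQ (Φ := Φ) (f₀ := f₀) (ε := ε) hΦ hf P t (H := H') ha'
  change Gas522.TP Φ f₀ ε t P _ = Gas522.TP Φ f₀ ε t P _ + Gas522.TP Φ f₀ ε t P _
  rw [h3, h4, h5]
  have h6 : ∀ z, GC311.gcE f₀ ε (fun m w => H z m w + H' z m w) =
      GC311.gcE f₀ ε (fun m w => H z m w) + GC311.gcE f₀ ε (fun m w => H' z m w) := fun z =>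
    GC311.gcE_add hf ε (F := fun m w => H z m w) fun m => (ha m).comp measurable_prodMk_left
  simp only [h6]
  rw [lintegral_add_left]
  exact MeasE416.measurable_gcE_of hf ε (F := fun m z w => H z m w) fun m => ha m

/-- Majorants of unions. -/
theorem PMaj.or (hΦ : AdmissiblePotential Φ) (hf : Measurable f₀) {P : CTree} {X Y : PEv P}
    {δ δ' : ℝ} (hδ : 0 ≤ δ) (hδ' : 0 ≤ δ') (hX : PMaj Φ f₀ t P X δ) (hY : PMaj Φ f₀ t P Y δ') :
    PMaj Φ f₀ t P (fun ε z m w => X ε z m w ∨ Y ε z m w) (δ + δ') := by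
  filter_upwards [hX, hY] with ε h1 h2
  obtain ⟨H, ha, hb, hc⟩ := h1
  obtain ⟨H', ha', hb', hc'⟩ := h2
  refine ⟨fun z m w => H z m w + H' z m w, fun m => (ha m).add (ha' m), ?_, ?_⟩
  · rintro z m w hE hV (h | h)
    · exact (hb z m w hE hV h).trans le_self_add
    · exact (hb' z m w hE hV h).trans le_add_self
  · rw [tI_add hΦ hf ha ha', ENNReal.ofReal_add hδ hδ']
    exact add_le_add hc hc'

/-- **`F3CE` from `TreeNull` and LN1.** -/
theorem f3CE_of (hΦ : AdmissiblePotential Φ) {γ : ℝ} (hγ : 0 < γ) (hf : Continuous f₀)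
    (H : HasSummableGaussianBound γ (fun x v => f₀ (x, v)))
    (h1 : ∫⁻ z, ENNReal.ofReal (f₀ z) ≤ 1) (htT : t ≤ T) (hTN : F3Fin370.TreeNull Φ f₀ t)
    (hRA : ∀ P K, TreeRA Φ f₀ t P K) : F3CE Φ f₀ T t := by
  intro P δ hδ
  have h3 : 0 < δ / 3 := by positivity
  obtain ⟨K, hK⟩ := hTN P (δ / 3) h3
  obtain ⟨X, C, N, hC, hX, hdet⟩ := hRA P K (δ / 3) h3
  have hY := (hX.or hΦ hf.measurable h3.le h3.le (pMaj_nsep hΦ hγ hf H h1 t P h3))
  refine ⟨K, fun ε z m w => Valid Φ ε P t z.1.2 z.2 ∧ (X ε z m w ∨ NSep Φ t P ε z m w), C, N, hC,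
    ?_, ?_⟩
  · filter_upwards [hK, hY] with ε h1 h2
    obtain ⟨G, ha, hb, hc⟩ := h1
    obtain ⟨G', ha', hb', hc'⟩ := h2
    refine ⟨fun z m w => G z m w + G' z m w, fun m => (ha m).add (ha' m), ?_, ?_⟩
    · rintro z m w hE (h | ⟨hV, h⟩)
      · exact (hb z m w hE h).trans le_self_add
      · exact (hb' z m w hE hV h).trans le_add_self
    · rw [tI_add hΦ hf.measurable ha ha']
      refine (add_le_add hc hc').trans ?_
      rw [← ENNReal.ofReal_add h3.le (by positivity)]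
      refine ENNReal.ofReal_le_ofReal ?_
      linarith
  · filter_upwards [hdet, self_mem_nhdsWithin] with ε hε hpos
    have hp : 0 < ε := hpos
    intro σ hσ z m w hex hV hS hOk hth hL hX' x v hv hT
    have hVt : Valid Φ ε P t z.1.2 z.2 := LNTree410.valid_mono hσ.2 hV
    have hSt : Sep Φ ε P t z.1 z.2 := by
      by_contra h
      exact hX' ⟨hVt, Or.inr h⟩
    have hra := hε z m w hex hVt hSt hOk hth hL fun h => hX' ⟨hVt, Or.inl h⟩
    exact ce_of_ra hΦ hp hC htT hVt hSt hOk hra x hv hT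


/-! ### The gateway -/

/-- The event as an event of the gateway. -/
theorem pMaj_of_gLe (hΦ : AdmissiblePotential Φ) (hf : Measurable f₀) {P : CTree} {X : PEv P}
    {δ : ℝ} (h : Gate424.GLe f₀ (fun ε (_ : Unit) => GateT522.treeQ Φ f₀ ε P t)
      (fun ε _ n z w => F3Fin370.Excl Φ ε P z w ∧ Valid Φ ε P t z.1.2 z.2 ∧ X ε z n w)
      (ENNReal.ofReal δ)) : PMaj Φ f₀ t P X δ := by
  obtain ⟨ε₀, h0, h⟩ := h
  filter_upwards [Ioo_mem_nhdsGT h0] with ε hε
  obtain ⟨G, hGm, hG, hGi⟩ := h ε hε.1 hε.2 ()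
  refine ⟨fun z m w => G m (z, w), fun m => hGm m, ?_, ?_⟩
  · intro z m w hE hV hX
    exact hG m z w hE.2.1 ⟨hE, hV, hX⟩
  · have h4 := GateT522.TP_eq_treeQ (Φ := Φ) (f₀ := f₀) (ε := ε) hΦ hf P t
      (H := fun z m w => G m (z, w)) fun m => hGm m
    change Gas522.TP Φ f₀ ε t P _ ≤ _
    rw [h4]
    exact hGi


/-- **The gateway for `TreeRA`.** -/
theorem treeRA_of_gate (hΦ : AdmissiblePotential Φ) {P : CTree} (hCN : VLMeas973.ClassNull Φ t)
    (hf : Measurable f₀) (h1 : ∫⁻ z, ENNReal.ofReal (f₀ z) ≤ 1) {γ : ℝ} {ρ : Space3 → ℝ≥0∞}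
    {C₀ : ℝ≥0∞} (he : LN2.Env f₀ γ ρ C₀) (hγ : 0 < γ)
    {Rn Ht : ℕ → PEv P}
    (hdet : ∀ L : ℕ, ∃ (N N' : ℕ) (C C' : ℝ), 1 ≤ C' ∧ ∀ R > 0, ∀ ς > 0,
      ∀ᶠ ε in 𝓝[>] (0 : ℝ), ∀ z m (w : Config m), F3Fin370.Excl Φ ε P z w →
      Valid Φ ε P t z.1.2 z.2 → Sep Φ ε P t z.1 z.2 → AllOk Φ ε w (exL Φ ε P z) →
      (∀ x, t < (MW.cfg w).thetaL Φ ε K t (exL Φ ε P z x)) →
      ¬ LinkEx Φ ε K t w (exL Φ ε P z) → ¬ Rn L ε z m w →
      ¬ LN2.BadGas Φ t C R ς ε N 1 Finset.univ (fun _ : Idx P => (0 : ℝ))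
        (lines Φ ε P z.1 z.2) w → ¬ Ht L ε z m w → RA Φ ε t K C' N' P z w)
    (hrun : ∀ δ : ℝ, 0 < δ → ∃ L, PMaj Φ f₀ t P (Rn L) δ)
    (hhit : ∀ (L : ℕ) (δ : ℝ), 0 < δ → PMaj Φ f₀ t P (Ht L) δ) :
    TreeRA Φ f₀ t P K := by
  intro δ hδ
  have h3 : 0 < δ / 3 := by positivity
  have h3' : 0 < ENNReal.ofReal (δ / 3) := ENNReal.ofReal_pos.2 h3
  obtain ⟨L, hL⟩ := hrun _ h3
  obtain ⟨N, N', C, C', hC', hd⟩ := hdet L
  have ha : 0 < γ / 2 := by positivity
  have hc : (Fintype.card (Idx P) * ENNReal.ofReal (max 1 (1 / (γ / 2)))) *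
      C₀ ^ Fintype.card (Idx P) ≠ ∞ :=
    ENNReal.mul_ne_top (GateT522.card_mul_ne_top P) (ENNReal.pow_ne_top he.fin)
  have he' : LN2.Env f₀ (γ - γ / 2) ρ C₀ := by
    refine ⟨he.meas, he.le_one, he.int, he.fin, fun z => (he.le z).trans ?_⟩
    gcongr
    unfold wG
    refine ENNReal.ofReal_le_ofReal (Real.exp_le_exp.2 ?_)
    nlinarith [sq_nonneg ‖z.2‖]
  have hcard : 1 ≤ Fintype.card (Idx P) := Fintype.card_pos_iff.2 ⟨root P⟩
  obtain ⟨R, hR, ς, hς, hB⟩ := Gate424.gLe_badGas (I := Unit) hCN hf h1 he'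
    (by linarith) C N hcard Finset.univ hc (Measure.dirac fun _ : Idx P => (0 : ℝ))
    (m := fun ε (_ : Unit) => GateT522.treeQ Φ f₀ ε P t) (b := fun _ _ _ _ => 0)
    (z := fun ε _ z => linesM Φ ε P z.1 z.2) (fun _ _ => inferInstance)
    (fun ε _ hε => GateT522.dom_treeQ hΦ hf he hε ha P t) h3'
  refine ⟨fun ε z m w => Rn L ε z m w ∨ LN2.BadGas Φ t C R ς ε N 1 Finset.univ
    (fun _ : Idx P => (0 : ℝ)) (lines Φ ε P z.1 z.2) w ∨ Ht L ε z m w, C', N', hC', ?_, ?_⟩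
  · have hB' : Gate424.GLe f₀ (fun ε (_ : Unit) => GateT522.treeQ Φ f₀ ε P t)
        (fun ε _ n z w => F3Fin370.Excl Φ ε P z w ∧ Valid Φ ε P t z.1.2 z.2 ∧
          LN2.BadGas Φ t C R ς ε N 1 Finset.univ (fun _ : Idx P => (0 : ℝ))
            (lines Φ ε P z.1 z.2) w) (ENNReal.ofReal (δ / 3)) := by
      refine hB.mono le_rfl ⟨1, one_pos, fun ε _ _ i n z w _ h => ?_⟩
      obtain ⟨_, hV, h⟩ := h
      rwa [linesM_of_adm ε hV.1]
    have h4 := hL.or hΦ hf h3.le (by positivity)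
      ((pMaj_of_gLe hΦ hf hB').or hΦ hf h3.le h3.le (hhit L _ h3))
    have e : δ / 3 + (δ / 3 + δ / 3) = δ := by ring
    rwa [e] at h4
  · filter_upwards [hd R hR ς hς] with ε hε
    intro z m w hex hV hS hOk hth hLk hX
    push Not at hX
    exact hε z m w hex hV hS hOk hth hLk hX.1 hX.2.1 hX.2.2

end ra

end Crest.Agent.R122.CEReach370
end
end

-- ▼ part R122/ErrBind_317
section

/-!
# `ErrSmall` from the null statements of helper370 (row 122, helper317)

* `TubeConv.clip'`, `TubeConv.comp_add` : clipped and shifted sequences of tube families;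
* `exists_errC_maj` : measurable majorant in the translation of error (c), from a majorant of the
  discrepancy event;
* `errSmall_of`, `errSmall_of_null` : `ErrSmall` of `IStep3_317` from `F3Input`, resp. `TreeNull` and
  `ObNull`.
-/

set_option autoImplicit false

open MeasureTheory Set Filter
open scoped Classical ENNReal NNReal Topology
open Crest.AnalysisR.Kinetic

noncomputable section

namespace Crest.Agent.R122.ErrBind317

open GC311 Hit167 GhostErr370 Flow671 Causal291 GIV566 IStep317 XAvg370 BadHit370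

variable {Φ : Space3 → ℝ} {f₀ : PhasePoint → ℝ} {ε : ℝ}

/-! ### Sequences of tube families -/

theorem tubeConv_clip {T : ℝ} {ι : Type} {Sk : ℕ → Tubes ι} {S : Tubes ι}
    (hT : 0 ≤ T) (h : TubeConv T Sk S) : TubeConv T (fun k => clip T (Sk k)) S := by
  have hc : ∀ (S' : Tubes ι) i, EqOn ((clip T S').c i) (S'.c i) (Icc 0 T) := fun S' i s hs =>
    clip_c hs
  obtain ⟨M, hM, hM'⟩ := h.lip
  refine ⟨⟨M, ?_, hM'⟩, fun i => ?_, fun i => h.active i, ?_⟩
  · filter_upwards [hM] with k hk i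
    exact (clip_lip hT (hk i)).lipschitzOnWith
  · refine (h.curves i).congr (Eventually.of_forall fun k => ?_)
    exact fun s hs => (hc (Sk k) i hs).symm
  · obtain ⟨B, hB, hv⟩ := h.vel
    refine ⟨B, hB, fun s hs hsB i hi => ?_⟩
    obtain ⟨v, U, hU, h1, h2⟩ := hv s hs hsB i hi
    refine ⟨v, U ∩ Ioo 0 T, Filter.inter_mem hU (Ioo_mem_nhds hs.1 hs.2),
      fun u hu => h1 u hu.1, ?_⟩
    filter_upwards [h2] with k hk u hu
    refine (hk u hu.1).congr_of_eventuallyEq ?_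
    filter_upwards [Ioo_mem_nhds hu.2.1 hu.2.2] with r hr
    exact hc (Sk k) i (Ioo_subset_Icc_self hr)

theorem tubeConv_comp {T : ℝ} {ι : Type} {Sk : ℕ → Tubes ι} {S : Tubes ι}
    (h : TubeConv T Sk S) {φ : ℕ → ℕ} (hφ : Tendsto φ atTop atTop) :
    TubeConv T (fun k => Sk (φ k)) S := by
  obtain ⟨M, hM, hM'⟩ := h.lip
  refine ⟨⟨M, hφ.eventually hM, hM'⟩, fun i u hu => hφ.eventually (h.curves i u hu),
    fun i => (h.active i).comp hφ, ?_⟩
  obtain ⟨B, hB, hv⟩ := h.vel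
  refine ⟨B, hB, fun s hs hsB i hi => ?_⟩
  obtain ⟨v, U, hU, h1, h2⟩ := hv s hs hsB i hi
  exact ⟨v, U, hU, h1, hφ.eventually h2⟩

/-! ### Majorant of error (c) -/

variable {ι : Type} [Fintype ι] {S : Tubes ι} {𝒢 : Cls} {tw t : ℝ} {K : ℕ} {R : ℝ}
  {B₁ : (k : ℕ) → Config k → Fin k → (m : ℕ) → Config m → ℝ≥0∞}
  {B₂ : (k : ℕ) → Space3 → Config k → Fin k → (m : ℕ) → Config m → ℝ≥0∞}

/-- **Majorant of error (c)**, measurable in the translation. -/
theorem exists_errC_maj (hf : Measurable f₀) (hΦ : AdmissiblePotential Φ) (hε : 0 < ε)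
    (hε1 : ε ≤ 1) {M : ℝ} (hM : 0 ≤ M) (htw : 0 ≤ tw) (ht : 0 ≤ t) (hc : ∀ i, Continuous (S.c i))
    (hγ : ∀ a, ∀ s ∈ Icc 0 t, ∀ s' ∈ Icc 0 t, dist (S.c a s) (S.c a s') ≤ M * |s - s'|)
    (hB : DiscMaj Φ ε S 𝒢 tw t K R B₁ B₂) {k : ℕ} (hk : k ≤ K) :
    ∃ maj : Space3 → ℝ≥0∞, Measurable maj ∧ (∀ x, errC Φ f₀ ε (S.shift x) 𝒢 tw t k ≤ maj x) ∧
      ∫⁻ x in Metric.closedBall (0 : Space3) R, maj x ≤
        2 * (cX Φ (Fintype.card ι) M t * evMass f₀ ε K B₁) + 2 * obMass f₀ ε K R B₂ := by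
  set A : Space3 → ℝ≥0∞ := fun x => activity ε ^ k / (k.factorial : ℝ≥0∞) *
    ∫⁻ V : Config k, gcWeight f₀ ε k V * ∑ j : Fin k,
      ind (GoodH Φ ε (S.shift x).c (S.shift x).b 𝒢 tw t V j) *
        gcE f₀ ε fun m w => B₁ k V j m w with hA
  set D : ℕ → Space3 → ℝ≥0∞ := fun k x => activity ε ^ k / (k.factorial : ℝ≥0∞) *
    ∫⁻ V : Config k, gcWeight f₀ ε k V * ∑ j : Fin k, gcE f₀ ε fun m w => B₂ k x V j m w with hD
  have hmE₂ : ∀ k j, Measurable fun p : Space3 × Config k =>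
      gcE f₀ ε fun m w => B₂ k p.1 p.2 j m w := by
    intro k j
    exact measurable_gcE_param hf ε (F := fun m (p : Space3 × Config k) w =>
      B₂ k p.1 p.2 j m w) fun m => hB.meas₂ k j m
  have hmD : ∀ k, Measurable (D k) := by
    intro k
    have h0 : Measurable fun p : Space3 × Config k => gcWeight f₀ ε k p.2 :=
      (measurable_gcWeight hf ε k).comp measurable_snd
    have h1 : Measurable fun p : Space3 × Config k => gcWeight f₀ ε k p.2 *
        ∑ j : Fin k, gcE f₀ ε fun m w => B₂ k p.1 p.2 j m w :=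
      h0.mul (Finset.measurable_sum _ fun j _ => hmE₂ k j)
    have h2 : Measurable fun x : Space3 => ∫⁻ V : Config k, gcWeight f₀ ε k V *
        ∑ j : Fin k, gcE f₀ ε fun m w => B₂ k x V j m w := h1.lintegral_prod_right'
    exact h2.const_mul _
  have hpt : ∀ x ∈ Metric.closedBall (0 : Space3) R,
      errC Φ f₀ ε (S.shift x) 𝒢 tw t k ≤ 2 * A x + 2 * D k x := by
    intro x hx
    rw [errC_eq hΦ hε htw fun i => (hc i).add continuous_const]
    unfold errMass
    rw [hA, hD]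
    simp only
    rw [mul_left_comm, mul_left_comm 2 (activity ε ^ k / _), ← mul_add]
    refine mul_le_mul_right ?_ _
    have h2 : (2 : ℝ≥0∞) ≠ ∞ := ENNReal.ofNat_ne_top
    rw [← lintegral_const_mul' _ _ h2, ← lintegral_const_mul' _ _ h2, ← lintegral_add_right]
    · refine lintegral_mono fun V => ?_
      by_cases hV : V ∈ PairExcluded ε k
      · rw [mul_left_comm, mul_left_comm 2, ← mul_add]
        refine mul_le_mul_right ?_ _
        rw [Finset.mul_sum, Finset.mul_sum, ← Finset.sum_add_distrib]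
        exact Finset.sum_le_sum fun j _ =>
          errMass_integrand_le (f₀ := f₀) hf hΦ hε hc hB hk hx j hV
      · simp [gcWeight, indicator_of_notMem hV]
    · have h0 : Measurable fun V : Config k => (x, V) := measurable_const.prodMk measurable_id
      refine Measurable.const_mul ((measurable_gcWeight hf ε k).mul
        (Finset.measurable_sum _ fun j _ => ?_)) _
      have h := (hmE₂ k j).comp h0
      exact h
  obtain ⟨g, hgm, hgA, hgI⟩ : ∃ g : Space3 → ℝ≥0∞, Measurable g ∧ (∀ x, A x ≤ g x) ∧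
      ∫⁻ x, g x ≤ cX Φ (Fintype.card ι) M t *
      ((activity ε)⁻¹ * (activity ε ^ k / (k.factorial : ℝ≥0∞) *
        ∫⁻ V : Config k, gcWeight f₀ ε k V * ∑ j : Fin k, wt k V *
          gcE f₀ ε fun m w => B₁ k V j m w)) := by
    obtain ⟨g, hg, h1, h2⟩ := exists_root_maj (Φ := Φ) (f₀ := f₀) hΦ hf hε hε1 (γ := S.c) hM ht hγ
      (k := k) (E := fun V j => gcE f₀ ε fun m w => B₁ k V j m w)
      (fun j => measurable_gcE_param hf ε (F := fun m V w => B₁ k V j m w)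
        fun m => hB.meas₁ k j m)
      (H := fun x V j => ind (GoodH Φ ε (S.shift x).c (S.shift x).b 𝒢 tw t V j) *
        gcE f₀ ε fun m w => B₁ k V j m w)
      (fun x V j _ => by
        by_cases h : GoodH Φ ε (S.shift x).c (S.shift x).b 𝒢 tw t V j
        · rw [ind_true h, if_pos (GoodH.rootHit (γ := S.c) h htw)]
        · rw [ind_false h, zero_mul]; exact bot_le)
    refine ⟨fun x => activity ε ^ k / (k.factorial : ℝ≥0∞) * g x, hg.const_mul _,
      fun x => mul_le_mul_right (h1 x) _, ?_⟩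
    rw [lintegral_const_mul _ hg]
    refine (mul_le_mul_right h2 _).trans (le_of_eq ?_)
    rw [inv_activity_eq hε]
    ring
  have hball : MeasurableSet (Metric.closedBall (0 : Space3) R) :=
    Metric.isClosed_closedBall.measurableSet
  have hm2 : Measurable fun x : Space3 => 2 * g x + 2 * D k x :=
    (hgm.const_mul 2).add ((hmD k).const_mul 2)
  refine ⟨fun x => if x ∈ Metric.closedBall (0 : Space3) R then 2 * g x + 2 * D k x else ∞,
    Measurable.ite hball hm2 measurable_const, fun x => ?_, ?_⟩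
  · change _ ≤ if x ∈ Metric.closedBall (0 : Space3) R then 2 * g x + 2 * D k x else ∞
    split_ifs with hx
    · refine (hpt x hx).trans ?_
      gcongr
      exact hgA x
    · exact le_top
  · have h1 : ∫⁻ x in Metric.closedBall (0 : Space3) R,
        (if x ∈ Metric.closedBall (0 : Space3) R then 2 * g x + 2 * D k x else ∞) =
        ∫⁻ x in Metric.closedBall (0 : Space3) R, (2 * g x + 2 * D k x) :=
      setLIntegral_congr_fun hball fun x hx => if_pos hx
    have hkm : k ∈ Finset.range (K + 1) := Finset.mem_range.2 (Nat.lt_succ_of_le hk)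
    rw [h1, lintegral_add_right _ ((hmD k).const_mul 2)]
    refine add_le_add ?_ ?_
    · refine (setLIntegral_le_lintegral _ _).trans ?_
      rw [lintegral_const_mul _ hgm]
      refine mul_le_mul_right (hgI.trans (mul_le_mul_right ?_ _)) 2
      unfold evMass
      exact Finset.single_le_sum (f := fun k => (activity ε)⁻¹ *
        (activity ε ^ k / (k.factorial : ℝ≥0∞) * ∫⁻ V : Config k, gcWeight f₀ ε k V *
          ∑ j : Fin k, wt k V * gcE f₀ ε fun m w => B₁ k V j m w)) (fun _ _ => bot_le) hkm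
    · rw [lintegral_const_mul _ (hmD k)]
      refine mul_le_mul_right ?_ 2
      unfold obMass
      refine lintegral_mono fun x => ?_
      exact Finset.single_le_sum (f := fun k => D k x) (fun _ _ => bot_le) hkm

/-! ### `ErrSmall` -/

omit [Fintype ι] in
/-- **`ErrSmall` from `F3Input`.** -/
theorem errSmall_of (hf : Measurable f₀) (hΦ : AdmissiblePotential Φ) {T tw t : ℝ} (htw : 0 ≤ tw)
    (ht : 0 ≤ t) (htT : t ≤ T) (h : F3Input Φ f₀ T tw t) : ErrSmall Φ f₀ T tw t := by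
  intro ι _ Sk S εk hε hε0 hconv hgen R n δ hδ
  have hT : 0 ≤ T := ht.trans htT
  obtain ⟨M, hM, _⟩ := hconv.lip
  set C : ℝ≥0∞ := 2 * cX Φ (Fintype.card ι) M t + 2 with hC
  have hCt : C ≠ ∞ := ENNReal.add_ne_top.2 ⟨ENNReal.mul_ne_top ENNReal.ofNat_ne_top
    (cX_ne_top Φ _ _ _), ENNReal.ofNat_ne_top⟩
  have hC0 : C ≠ 0 := by
    rw [hC]
    intro h0
    exact two_ne_zero (add_eq_zero.1 h0).2
  obtain ⟨d, hd, hdδ⟩ : ∃ d : ℝ, 0 < d ∧ C * ENNReal.ofReal d ≤ ENNReal.ofReal δ := by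
    have hη : ENNReal.ofReal δ ≠ 0 := (ENNReal.ofReal_pos.2 hδ).ne'
    refine ⟨(ENNReal.ofReal δ / C).toReal, ENNReal.toReal_pos (ENNReal.div_pos hη hCt).ne'
      (ENNReal.div_ne_top ENNReal.ofReal_ne_top hC0), ?_⟩
    rw [ENNReal.ofReal_toReal (ENNReal.div_ne_top ENNReal.ofReal_ne_top hC0),
      ENNReal.mul_div_cancel hC0 hCt]
  -- drop the first terms, clip
  obtain ⟨k₀, hk₀⟩ := eventually_atTop.1 hM
  have hφ : Tendsto (fun k : ℕ => k + k₀) atTop atTop := tendsto_add_atTop_nat k₀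
  have hlip : ∀ k, ∀ i, LipschitzWith M ((clip T (Sk (k + k₀))).c i) := fun k i =>
    clip_lip hT (hk₀ (k + k₀) (Nat.le_add_left _ _) i)
  have hmain := h ι (fun k => clip T (Sk (k + k₀))) S (fun k => εk (k + k₀)) (fun k => hε _)
    (hε0.comp hφ) (tubeConv_clip hT (tubeConv_comp hconv hφ)) hgen
    (fun k i => (hlip k i).continuous) n R d hd
  have hε1 : ∀ᶠ k in atTop, εk (k + k₀) ≤ 1 := by
    filter_upwards [(hε0.comp hφ).eventually (Iio_mem_nhds one_pos)] with k hk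
    exact le_of_lt hk
  have hfin : ∀ᶠ k in atTop, (fun k => ∃ maj : Space3 → ℝ≥0∞,
      Measurable maj ∧ (∀ x, errC Φ f₀ (εk k) (clip T ((Sk k).shift x)) (treeCls Φ (εk k))
        tw t n ≤ maj x) ∧
      ∫⁻ x in Metric.closedBall (0 : Space3) R, maj x ≤ ENNReal.ofReal δ) (k + k₀) := by
    filter_upwards [hmain, hε1] with k hk hk1
    obtain ⟨B₁, B₂, hB, hb1, hb2⟩ := hk
    have hγ : ∀ a, ∀ s ∈ Icc 0 t, ∀ s' ∈ Icc 0 t,
        dist ((clip T (Sk (k + k₀))).c a s) ((clip T (Sk (k + k₀))).c a s') ≤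
          (M : ℝ) * |s - s'| := by
      intro a s _ s' _
      have := (hlip k a).dist_le_mul s s'
      rwa [Real.dist_eq] at this
    obtain ⟨maj, h1, h2, h3⟩ := exists_errC_maj (f₀ := f₀) hf hΦ (hε _) hk1 M.2 htw ht
      (fun i => (hlip k i).continuous) hγ hB le_rfl
    refine ⟨maj, h1, h2, h3.trans ?_⟩
    calc 2 * (cX Φ (Fintype.card ι) M t * evMass f₀ (εk (k + k₀)) n B₁) +
          2 * obMass f₀ (εk (k + k₀)) n R B₂
        ≤ 2 * (cX Φ (Fintype.card ι) M t * ENNReal.ofReal d) + 2 * ENNReal.ofReal d := by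
          gcongr
      _ = C * ENNReal.ofReal d := by rw [hC]; ring
      _ ≤ ENNReal.ofReal δ := hdδ
  obtain ⟨k₁, hk₁⟩ := eventually_atTop.1 hfin
  refine eventually_atTop.2 ⟨k₁ + k₀, fun k hk => ?_⟩
  have h4 := hk₁ (k - k₀) (by omega)
  have h5 : k - k₀ + k₀ = k := by omega
  simp only [h5] at h4
  exact h4

/-- **`ErrSmall` from the null statement with exceptional events.** -/
theorem errSmall_of_f3Null (hf : Measurable f₀) (hΦ : AdmissiblePotential Φ) {T tw t : ℝ}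
    (htw : 0 ≤ tw) (ht : 0 ≤ t) (htT : t ≤ T) (hN : F3Fin370.F3Null Φ f₀ T t) :
    ErrSmall Φ f₀ T tw t :=
  errSmall_of hf hΦ htw ht htT (F3Fin370.f3Input_of hf hΦ htw hN)


end Crest.Agent.R122.ErrBind317
end
end

-- ▼ part R122/F3RAT_370

/-!
# F3 from the tree instance of LN1 (row 122, helper370)

* `pMaj_runS` : runs from sub-structures of a tree have small mass.
* `HitPN` : the bad hits of tree clusters are null.
* `treeRA_of_rat` : `CEReach370.TreeRA` from 399's `RAT` and `HitPN`.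
* `errSmall_of_rat`, `errIn_of` : `IStep317.ErrSmall`, `Top602.ErrIn`.
-/

set_option autoImplicit false
set_option linter.unusedSectionVars false
open MeasureTheory Set Filter
open scoped Classical ENNReal Topology
open Crest.AnalysisR.Kinetic
open Crest.Agent.R122.Kin796 Crest.Agent.R122.Kin796.CTree Crest.Agent.R122.Flow671
open Crest.Agent.R122.Tree674 Crest.Agent.R122.VL581
open Crest.Agent.R122.GIV566 Crest.Agent.R122.ObDet370 Crest.Agent.R122.CEReach370
open Crest.Agent.R122.RtG302 Crest.Agent.R122.EDefs602 Crest.Agent.R122.LNTree399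
noncomputable section

namespace Crest.Agent.R122.F3RAT370

variable {Φ : Space3 → ℝ} {f₀ : PhasePoint → ℝ} {T t : ℝ} {P : CTree} {K : ℕ}

/-- **Runs from sub-structures of a tree** have small mass. -/
theorem pMaj_runS (hΦ : AdmissiblePotential Φ) {γ : ℝ} (hγ : 0 < γ) (hf : Measurable f₀)
    (H : HasSummableGaussianBound γ (fun x v => f₀ (x, v)))
    (h1 : ∫⁻ z, ENNReal.ofReal (f₀ z) ≤ 1) (ht : 0 ≤ t) (P : CTree) (K : ℕ) {δ : ℝ} (hδ : 0 < δ) :
    ∃ L, PMaj Φ f₀ t P (fun ε z _ w => RunS Φ t K L ε z w) δ := by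
  obtain ⟨C₀, hC₀, hb⟩ := GC311.exists_gaussian_bound H
  have hb' : ∀ z : PhasePoint, f₀ z ≤ C₀ * Real.exp (-(2 * (γ / 4) * ‖z.2‖ ^ 2)) := by
    intro z
    refine (le_abs_self _).trans ((hb z.1 z.2).trans ?_)
    refine mul_le_mul_of_nonneg_left (Real.exp_le_exp.2 ?_) hC₀
    have := mul_nonneg hγ.le (sq_nonneg ‖z.2‖)
    linarith
  obtain ⟨M, hM, hmom⟩ := GateT522.exists_moment_expW hΦ hf H (β := γ / 4) (by linarith) P t
  obtain ⟨L₀, hL⟩ := Gate424.gLe_runS (I := Unit) (κ := Idx P)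
    (m := fun ε _ => GateT522.treeQ Φ f₀ ε P t) hΦ (β := γ / 4) (by positivity)
    (T := t) ht hC₀ K hf hb' h1 (t := fun _ => t) (fun _ => le_rfl)
    (b := fun _ _ _ _ => 0) (z := fun ε _ z => linesM Φ ε P z.1 z.2)
    (fun _ _ _ => measurable_const) (fun ε _ _ => measurable_linesM hΦ ε P)
    hM (fun ε _ hε => hmom ε t hε le_rfl) (δ := ENNReal.ofReal δ) (ENNReal.ofReal_pos.2 hδ)
  refine ⟨L₀, pMaj_of_gLe hΦ hf ((hL L₀ le_rfl).mono le_rfl ⟨1, one_pos,
    fun ε _ _ i n z w _ h => ?_⟩)⟩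
  obtain ⟨_, hV, D, a, h⟩ := h
  refine ⟨D, a, ?_⟩
  rw [linesM_of_adm ε hV.1]
  exact h

/-- The bad hits of tree clusters are null. -/
def HitPN (Φ : Space3 → ℝ) (f₀ : PhasePoint → ℝ) (t : ℝ) : Prop :=
  ∀ (P : CTree) (N : ℕ) (δ : ℝ), 0 < δ → PMaj Φ f₀ t P (fun ε z _ w =>
    Sep Φ ε P t z.1 z.2 ∧ AllOk Φ ε w (exL Φ ε P z) ∧ HitT Φ t 1 ε N z w) δ

/-- **`TreeRA` from the tree instance of LN1.** -/
theorem treeRA_of_rat (hΦ : AdmissiblePotential Φ) {γ : ℝ} (hγ : 0 < γ) (hf : Measurable f₀)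
    (H : HasSummableGaussianBound γ (fun x v => f₀ (x, v)))
    (h1 : ∫⁻ z, ENNReal.ofReal (f₀ z) ≤ 1) (ht : 0 ≤ t) (hCN : VLMeas973.ClassNull Φ t)
    (hRAT : ∀ K K₂, RAT Φ t K K₂) (hHit : HitPN Φ f₀ t) (P : CTree) (K : ℕ) :
    TreeRA Φ f₀ t P K := by
  obtain ⟨ρ, C₀, he⟩ := LN2.exists_env (le_refl γ) H
  choose N hN using hRAT P.leaves K
  refine treeRA_of_gate (Rn := fun L ε z _ w => RunS Φ t K L ε z w)
    (Ht := fun L ε z _ w => Sep Φ ε P t z.1 z.2 ∧ AllOk Φ ε w (exL Φ ε P z) ∧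
      HitT Φ t 1 ε (N L) z w) hΦ hCN hf h1 he hγ (fun L => ?_)
    (fun δ hδ => pMaj_runS hΦ hγ hf H h1 ht P K hδ) (fun L δ hδ => hHit P (N L) δ hδ)
  refine ⟨N L + N L, N L, 1, 1, le_rfl, fun R hR ς hς => ?_⟩
  have hsm : ∀ᶠ ε in 𝓝[>] (0 : ℝ), 2 * (R * ε) ≤ ς := by
    have h2 : Tendsto (fun ε : ℝ => 2 * (R * ε)) (𝓝[>] 0) (𝓝 (2 * (R * 0))) :=
      ((tendsto_id.const_mul R).const_mul 2).mono_left nhdsWithin_le_nhds
    rw [mul_zero, mul_zero] at h2
    exact (h2.eventually_lt_const hς).mono fun _ h => h.le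
  filter_upwards [hsm, self_mem_nhdsWithin] with ε hε hpos
  have hp : 0 < ε := hpos
  intro z m w hex hV hS hOk _ _ hRn hBG hHt
  rcases hN L 1 ε (R * ε) ς le_rfl hp (by positivity) hε P z m w le_rfl hV hS hex.2.1 hex.2.2
    hOk with h | h | h | h
  · exact absurd h hRn
  · exact absurd (badGas_tree hΦ hp le_rfl hV hS le_rfl h) hBG
  · exact absurd ⟨hS, hOk, h⟩ hHt
  · exact h


/-- **`F3Null` from the tree instance of LN1.** -/
theorem f3Null_of_rat (hΦ : AdmissiblePotential Φ) {γ : ℝ} (hγ : 0 < γ) (hf : Continuous f₀)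
    (H : HasSummableGaussianBound γ (fun x v => f₀ (x, v)))
    (h1 : ∫⁻ z, ENNReal.ofReal (f₀ z) ≤ 1) (ht : 0 < t) (htT : t ≤ T)
    (hTN : F3Fin370.TreeNull Φ f₀ t) (hRAT : ∀ K K₂, RAT Φ t K K₂) (hHit : HitPN Φ f₀ t) :
    F3Fin370.F3Null Φ f₀ T t := by
  obtain ⟨ρ, C₀, he⟩ := LN2.exists_env (le_refl γ) H
  have hCN : VLMeas973.ClassNull Φ t :=
    VLMeas973.class_null hΦ ht (VL581.vc hΦ) (VL581.vlu hΦ)
  have h := f3CE_of hΦ hγ hf H h1 htT hTN
    (treeRA_of_rat hΦ hγ hf.measurable H h1 ht.le hCN hRAT hHit)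
  intro P δ hδ
  obtain ⟨K, X, C, N, hC, hA, hB⟩ := h P δ hδ
  exact ⟨K, X, hA, ObGas370.obNull_of_bad hΦ (VL581.vc hΦ) (VL581.vl hΦ) hf.measurable h1 he hγ
    (ht.trans_le htT) P K X C N (hdet_of_ceIn hΦ htT hC hB)⟩

/-- `F3Null` at time `0`. -/
theorem f3Null_zero : F3Fin370.F3Null Φ f₀ T 0 := by
  have h0 : ∀ (P : CTree) (ε : ℝ), F3Fin370.tI Φ f₀ ε 0 P (fun _ _ _ => 0) = 0 := by
    intro P ε
    have e : ∀ z, GC311.gcE f₀ ε (fun _ _ => 0) = 0 := fun z : ℝ => GC311.gcE_zero f₀ ε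
    unfold F3Fin370.tI
    simp [e 0]
  intro P δ hδ
  refine ⟨0, fun _ _ _ _ => False, Eventually.of_forall fun ε => ⟨fun _ _ _ => 0,
    fun m => measurable_const, ?_, ?_⟩, ?_⟩
  · rintro z m w - (⟨σ, hσ, _⟩ | h)
    · exact absurd (hσ.1.trans_le hσ.2) (lt_irrefl _)
    · exact h.elim
  · simp only [mul_zero]
    rw [h0]
    exact bot_le
  · intro ι _ Sk S εk _ _ _ _ _ R δ' _
    refine Eventually.of_forall fun n => ⟨fun _ _ _ _ => 0, fun m => measurable_const, ?_, ?_⟩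
    · rintro x _ z m w _ ⟨σ, hσ, _⟩
      exact absurd (hσ.1.trans_le hσ.2) (lt_irrefl _)
    · simp only [h0, lintegral_zero, mul_zero]
      exact bot_le

/-- **`ErrSmall` from the tree instance of LN1.** -/
theorem errSmall_of_rat (hΦ : AdmissiblePotential Φ) {γ : ℝ} (hγ : 0 < γ) (hf : Continuous f₀)
    (H : HasSummableGaussianBound γ (fun x v => f₀ (x, v)))
    (h1 : ∫⁻ z, ENNReal.ofReal (f₀ z) ≤ 1) {tw : ℝ} (htw : 0 ≤ tw) (ht : tw ≤ t) (htT : t ≤ T)
    (hTN : 0 < t → F3Fin370.TreeNull Φ f₀ t) (hRAT : 0 < t → ∀ K K₂, RAT Φ t K K₂)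
    (hHit : 0 < t → HitPN Φ f₀ t) : IStep317.ErrSmall Φ f₀ T tw t := by
  refine ErrBind317.errSmall_of_f3Null hf.measurable hΦ htw (htw.trans ht) htT ?_
  rcases (htw.trans ht).eq_or_lt with h | h
  · rw [← h]
    exact f3Null_zero
  · exact f3Null_of_rat hΦ hγ hf H h1 h htT (hTN h) (hRAT h) (hHit h)

/-! ### `ErrIn` -/

open Crest.Agent.R122.Master566 Crest.Agent.R122.Top602

variable {β : ℝ} {f : ℝ → PhasePoint → ℝ}

/-- `TreeNull` on a window of section F, from the null facts at `(t, t)`. -/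
theorem treeNull_of_fHyp (hD : KData Φ β T f₀ f) {γ : ℝ → ℝ} {ρ : ℝ≥0∞} {g1 : ℝ} {r1 : ℝ≥0∞}
    (hg : g1 ≤ β) (hr : 0 < r1) (hLP : LinePar g1 r1 T γ ρ) {tw te : ℝ}
    (hF : FHyp Φ f₀ f T γ ρ tw te) (ht : t ≤ te) (h2 : ∀ K K', LinkNull Φ f₀ t t K K')
    (h3 : ∀ K K', RetNullT Φ f₀ t t K K') (h4 : ∀ K, OkNull Φ f₀ t K) :
    F3Fin370.TreeNull Φ f₀ t := by
  have hf : Continuous f₀ := hD.contDiff.continuous
  have hβ := hD.beta_pos
  obtain ⟨C, hC, hb⟩ := GC311.exists_gaussian_bound hD.gaussian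
  have hb' : ∀ z : PhasePoint, f₀ z ≤ C * Real.exp (-(2 * β) * ‖z.2‖ ^ 2) := fun z => by
    have h := (le_abs_self _).trans (hb z.1 z.2)
    rw [neg_mul]
    exact h
  have hγb : ∀ τ, 0 < τ → τ ≤ t → γ τ ≤ β := by
    intro τ hτ _
    obtain ⟨g0, κ, hκ, hγ, -, hg0⟩ := hLP.lin
    rw [hγ]
    show g0 - κ * τ ≤ β
    have : 0 ≤ κ * τ := by positivity
    linarith
  have hρ0 : ρ ≠ 0 := (hr.trans_le hLP.lo).ne'
  have hρt : ρ ≠ ∞ := (hLP.hi.trans ENNReal.one_lt_top).ne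
  have hmass : ∫⁻ z, ENNReal.ofReal (f₀ z) ≤ 1 :=
    (FM167.lintegral_density_eq_one hD.nonneg hD.integrable hD.mass).le
  exact TreeNull302.treeNull_of hD.adm (by linarith : (0 : ℝ) < 2 * β) hf hD.gaussian hmass
    (fun K => TouchN302.touchNull hD.adm hf.measurable hC hb' hβ (by linarith : β < 2 * β)
      hLP.measurable hρ0 hρt hγb (EBasic602.TN_mono ht hF.tn) t K) h2 h3 h4

/-- **`ErrIn`** from the tree instance of LN1, the bad hits and the null facts at `(t, t)`. -/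
theorem errIn_of (hD : KData Φ β T f₀ f) (hRAT : ∀ t ∈ Ioc 0 T, ∀ K K₂, RAT Φ t K K₂)
    (hHit : ∀ t ∈ Ioc 0 T, HitPN Φ f₀ t)
    (h2 : ∀ t ∈ Ioc 0 T, ∀ K K', LinkNull Φ f₀ t t K K')
    (h3 : ∀ t ∈ Ioc 0 T, ∀ K K', RetNullT Φ f₀ t t K K')
    (h4 : ∀ t ∈ Ioc 0 T, ∀ K, OkNull Φ f₀ t K) : ErrIn Φ f₀ f T := by
  have hβ := hD.beta_pos
  have hmass : ∫⁻ z, ENNReal.ofReal (f₀ z) ≤ 1 :=
    (FM167.lintegral_density_eq_one hD.nonneg hD.integrable hD.mass).le
  refine ⟨β, hβ, 1 / 2, ENNReal.half_lt_self one_ne_zero ENNReal.one_ne_top, fun γ ρ hLP => ?_⟩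
  refine InW.of_forall fun tw te h0 hle hT hF t ht => ?_
  have hr : (0 : ℝ≥0∞) < 1 / 2 := ENNReal.half_pos one_ne_zero
  have hmem : 0 < t → t ∈ Ioc 0 T := fun h => ⟨h, ht.2.trans hT⟩
  exact errSmall_of_rat hD.adm (by linarith : (0 : ℝ) < 2 * β) hD.contDiff.continuous hD.gaussian
    hmass h0 ht.1 (ht.2.trans hT)
    (fun h => treeNull_of_fHyp hD le_rfl hr hLP hF ht.2 (h2 t (hmem h)) (h3 t (hmem h))
      (h4 t (hmem h))) (fun h => hRAT t (hmem h)) fun h => hHit t (hmem h)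

end Crest.Agent.R122.F3RAT370
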