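import Crest.Agent.R122.Sweep_815
import Crest.Agent.R122.EnergyFlow_410

/-!
Row 122 (helper263): **(P1) FLUX**, consumer form.

Free legs `x + (s - s0) • v`, born anywhere in space at time `s0`, with velocity density `G`; a finite
family of moving particles `c i`, with a monotone family `S s` of "infected" particles.  The measure of
the legs which come within `r` of an infected particle during `[a, b]` is bounded by
`8 r² c₃ (∫ G (1 + |v|)) (r #S(b) + ∫_a^b Σ_{i ∈ S u} (1 + |c i'|) du)`.
-/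

set_option autoImplicit false

open MeasureTheory Set Crest.AnalysisR.Kinetic
open scoped ENNReal

noncomputable section

namespace Crest.Agent.R122.FluxI263

open Sweep815

variable {ι : Type*}

/-- Flux of free legs (line space form) through a monotone family of moving particles. -/
theorem flux_family {s0 a b r : ℝ} (hr : 0 < r) (hab : a ≤ b) {c c' : ι → ℝ → Space3}
    (hc : ∀ i, ∀ s ∈ Icc a b, HasDerivAt (c i) (c' i s) s)
    (hcc : ∀ i, ContinuousOn (c' i) (Icc a b))
    (hcm : ∀ i, Measurable (c i)) (hcm' : ∀ i, Measurable (c' i))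
    {S : ℝ → Finset ι} (hmono : ∀ s ∈ Icc a b, ∀ s' ∈ Icc a b, s ≤ s' → S s ⊆ S s')
    {G : Space3 → ℝ≥0∞} (hG : Measurable G) :
    ∫⁻ v : Space3, G v * volume {x : Space3 | ∃ s ∈ Icc a b, ∃ i ∈ S s,
        dist (x + (s - s0) • v) (c i s) ≤ r} ≤
      8 * ENNReal.ofReal r ^ 2 * c3 * (∫⁻ v, G v * (1 + ENNReal.ofReal ‖v‖)) *
        (ENNReal.ofReal r * (S b).card +
          ∫⁻ u in Icc a b, ∑ i ∈ S u, (1 + ENNReal.ofReal ‖c' i u‖)) := by
  classical
  set α : ι → ℝ := fun i => sInf {s | s ∈ Icc a b ∧ i ∈ S s} with hα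
  have hbb : b ∈ Icc a b := right_mem_Icc.2 hab
  have hαmem : ∀ i ∈ S b, α i ∈ Icc a b := fun i hi =>
    ⟨le_csInf ⟨b, hbb, hi⟩ fun s hs => hs.1.1,
      csInf_le ⟨a, fun s hs => hs.1.1⟩ ⟨hbb, hi⟩⟩
  have hαle : ∀ i s, s ∈ Icc a b → i ∈ S s → α i ≤ s := fun i s hs hi =>
    csInf_le ⟨a, fun s hs => hs.1.1⟩ ⟨hs, hi⟩
  have hαlt : ∀ i ∈ S b, ∀ u ∈ Icc a b, α i < u → i ∈ S u := by
    intro i hi u hu hlt
    have hne : {s | s ∈ Icc a b ∧ i ∈ S s}.Nonempty := ⟨b, hbb, hi⟩
    obtain ⟨s, hs, hsu⟩ := exists_lt_of_csInf_lt hne hlt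
    exact hmono s hs.1 u hu hsu.le hs.2
  set A : ℝ≥0∞ := 8 * ENNReal.ofReal r ^ 2 * c3 * (∫⁻ v, G v * (1 + ENNReal.ofReal ‖v‖)) with hA
  -- the bad set is covered by the obstacles of `S b` on `[α i, b]`
  have hcov : ∀ v : Space3, G v * volume {x : Space3 | ∃ s ∈ Icc a b, ∃ i ∈ S s,
        dist (x + (s - s0) • v) (c i s) ≤ r} ≤
      ∑ i ∈ S b, G v * volume {x : Space3 | ∃ s ∈ Icc (α i) b,
        dist (x + (s - s0) • v) (c i s) ≤ r} := by
    intro v
    rw [← Finset.mul_sum]
    refine mul_le_mul_right ?_ (G v)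
    refine le_trans (measure_mono ?_) (measure_biUnion_finset_le (S b) _)
    rintro x ⟨s, hs, i, hi, hd⟩
    have hib : i ∈ S b := hmono s hs b hbb hs.2 hi
    exact mem_biUnion hib ⟨s, ⟨hαle i s hs hi, hs.2⟩, hd⟩
  have hmeas : ∀ i ∈ S b, Measurable fun v : Space3 => G v * volume {x : Space3 |
      ∃ s ∈ Icc (α i) b, dist (x + (s - s0) • v) (c i s) ≤ r} := by
    intro i hi
    have hyc0 : ContinuousOn (c i) (Icc (α i) b) := fun s hs =>
      (hc i s ⟨(hαmem i hi).1.trans hs.1, hs.2⟩).continuousAt.continuousWithinAt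
    have hcl : IsClosed {p : Space3 × Space3 | ∃ s ∈ Icc (α i) b,
        dist (p.2 + (s - s0) • p.1) (c i s) ≤ r} := by
      have hyc1 : Continuous fun s : Icc (α i) b => c i s :=
        continuousOn_iff_continuous_domRestrict.1 hyc0
      have hyc2 : Continuous fun q : (Space3 × Space3) × Icc (α i) b => c i (q.2 : ℝ) :=
        hyc1.comp continuous_snd
      have h1 : IsClosed {q : (Space3 × Space3) × Icc (α i) b |
          dist (q.1.2 + ((q.2 : ℝ) - s0) • q.1.1) (c i q.2) ≤ r} :=
        isClosed_le (Continuous.dist (by fun_prop) hyc2) continuous_const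
      have h2 := isClosedMap_fst_of_compactSpace (X := Space3 × Space3) (Y := Icc (α i) b) _ h1
      convert h2 using 1
      ext p
      simp
    exact hG.mul (measurable_measure_prodMk_left hcl.measurableSet)
  calc ∫⁻ v : Space3, G v * volume {x : Space3 | ∃ s ∈ Icc a b, ∃ i ∈ S s,
        dist (x + (s - s0) • v) (c i s) ≤ r}
      ≤ ∫⁻ v : Space3, ∑ i ∈ S b, G v * volume {x : Space3 | ∃ s ∈ Icc (α i) b,
        dist (x + (s - s0) • v) (c i s) ≤ r} := lintegral_mono hcov
    _ = ∑ i ∈ S b, ∫⁻ v : Space3, G v * volume {x : Space3 | ∃ s ∈ Icc (α i) b,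
        dist (x + (s - s0) • v) (c i s) ≤ r} := lintegral_finsetSum _ hmeas
    _ ≤ ∑ i ∈ S b, A * (ENNReal.ofReal r + ∫⁻ u in Icc (α i) b, (1 + ENNReal.ofReal ‖c' i u‖)) := by
        refine Finset.sum_le_sum fun i hi => ?_
        have hsub : Icc (α i) b ⊆ Icc a b := Icc_subset_Icc_left (hαmem i hi).1
        exact line_le hr (hαmem i hi).2 (fun s hs => hc i s (hsub hs)) ((hcc i).mono hsub) (hcm i)
          (hcm' i) hG
    _ = A * (ENNReal.ofReal r * (S b).card +
          ∑ i ∈ S b, ∫⁻ u in Icc (α i) b, (1 + ENNReal.ofReal ‖c' i u‖)) := by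
        rw [← Finset.mul_sum, Finset.sum_add_distrib, Finset.sum_const, nsmul_eq_mul,
          mul_comm ((S b).card : ℝ≥0∞)]
    _ ≤ _ := by
        refine mul_le_mul_right (add_le_add le_rfl ?_) A
        have h1 : ∀ i ∈ S b, ∫⁻ u in Icc (α i) b, (1 + ENNReal.ofReal ‖c' i u‖) =
            ∫⁻ u in Icc a b, (Ici (α i)).indicator (fun u => 1 + ENNReal.ofReal ‖c' i u‖) u := by
          intro i hi
          rw [lintegral_indicator measurableSet_Ici, Measure.restrict_restrict measurableSet_Ici]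
          congr 2
          ext u
          simp only [mem_Icc, mem_inter_iff, mem_Ici]
          have := (hαmem i hi).1
          constructor
          · rintro ⟨h1, h2⟩
            exact ⟨h1, this.trans h1, h2⟩
          · rintro ⟨h1, _, h2⟩
            exact ⟨h1, h2⟩
        have hm1 : ∀ i ∈ S b, Measurable
            ((Ici (α i)).indicator (fun u => 1 + ENNReal.ofReal ‖c' i u‖)) := fun i _ =>
          Measurable.indicator ((hcm' i).norm.ennreal_ofReal.const_add 1) measurableSet_Ici
        rw [Finset.sum_congr rfl h1, ← lintegral_finsetSum _ hm1]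
        refine lintegral_mono_ae ?_
        have hnull : ∀ᵐ u ∂(volume.restrict (Icc a b)), ∀ i ∈ S b, u ≠ α i := by
          refine (Finset.eventually_all (S b)).2 fun i _ => ?_
          exact ae_restrict_of_ae (by
            have : (volume : Measure ℝ) {α i} = 0 := Real.volume_singleton
            filter_upwards [compl_mem_ae_iff.2 this] with u hu using fun h => hu (by simp [h]))
        filter_upwards [hnull, ae_restrict_mem measurableSet_Icc] with u hu hu2
        have hsub : S u ⊆ S b := hmono u hu2 b hbb hu2.2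
        rw [← Finset.sum_filter_add_sum_filter_not (S b) (fun i => i ∈ S u)]
        have h2 : ∑ i ∈ (S b).filter (fun i => i ∉ S u),
            (Ici (α i)).indicator (fun u => 1 + ENNReal.ofReal ‖c' i u‖) u = 0 := by
          refine Finset.sum_eq_zero fun i hi => ?_
          rw [Finset.mem_filter] at hi
          refine indicator_of_notMem (fun h : α i ≤ u => ?_) _
          exact hi.2 (hαlt i hi.1 u hu2 (lt_of_le_of_ne h (hu i hi.1).symm))
        rw [h2, add_zero]
        have h3 : (S b).filter (fun i => i ∈ S u) = S u := by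
          ext i
          simp only [Finset.mem_filter]
          exact ⟨fun h => h.2, fun h => ⟨hsub h, h⟩⟩
        rw [h3]
        exact Finset.sum_le_sum fun i _ => indicator_le_self _ _ _

open Flow671 Loc45 Energy410 Causal291 in
/-- Flux of free legs through a monotone family of particles of a Newtonian world. -/
theorem flux_flow [Fintype ι] {Φ : Space3 → ℝ} (hΦ : AdmissiblePotential Φ) {ε : ℝ} (hε : 0 < ε)
    {Z : ι → PhasePoint} (hZ : Z ∈ Dom Φ ι) {s0 a b r : ℝ} (hr : 0 < r) (hab : a ≤ b)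
    {S : ℝ → Finset ι} (hmono : ∀ s ∈ Icc a b, ∀ s' ∈ Icc a b, s ≤ s' → S s ⊆ S s')
    {G : Space3 → ℝ≥0∞} (hG : Measurable G) :
    ∫⁻ v : Space3, G v * volume {x : Space3 | ∃ s ∈ Icc a b, ∃ i ∈ S s,
        dist (x + (s - s0) • v) (flow Φ ε s Z i).1 ≤ r} ≤
      8 * ENNReal.ofReal r ^ 2 * c3 * (∫⁻ v, G v * (1 + ENNReal.ofReal ‖v‖)) *
        (ENNReal.ofReal r * (S b).card +
          ∫⁻ u in Icc a b, ∑ i ∈ S u, (1 + ENNReal.ofReal ‖(flow Φ ε u Z i).2‖)) := by
  have hcont : Continuous fun s => flow Φ ε s Z := flow_continuous_time hΦ hε Z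
  have hd : ∀ i s, HasDerivAt (fun s => (flow Φ ε s Z i).1) (flow Φ ε s Z i).2 s := by
    intro i s
    have h1 := (hasDerivAt_pi.1 (flow_hasDerivAt hΦ hε hZ s)) i
    exact h1.fst
  have h1 : ∀ i, Continuous fun s => (flow Φ ε s Z i).1 := fun i =>
    (((continuous_apply i).comp hcont)).fst
  have h2 : ∀ i, Continuous fun s => (flow Φ ε s Z i).2 := fun i =>
    (((continuous_apply i).comp hcont)).snd
  exact flux_family (c := fun i s => (flow Φ ε s Z i).1) (c' := fun i s => (flow Φ ε s Z i).2) hr hab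
    (fun i s _ => hd i s) (fun i => (h2 i).continuousOn) (fun i => (h1 i).measurable)
    (fun i => (h2 i).measurable) hmono hG


end Crest.Agent.R122.FluxI263

end
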