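import Mathlib
import Crest.Agent.R122.GIVChild_383
import Crest.Agent.R122.Tube2_818

-- ▼ part R122/Prim_383
section

/-!
# Row 122 (helper383): substitution by the primitive of a nonnegative function

`lintegral_comp_prim`: `∫_{(a,b]} r(s) g(R(s)) ds = ∫_{(0,R(b)]} g(u) du`, `R(s) = ∫_{(a,s]} r`, for
measurable `r ≥ 0` of finite integral and every measurable `g ≥ 0`; exponential special cases.
-/

set_option autoImplicit false
open MeasureTheory Set Filter
open scoped ENNReal Topology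
noncomputable section

namespace Crest.Agent.R122.Prim383

variable {r : ℝ → ℝ≥0∞} {a b : ℝ}

/-- the primitive -/
def R (r : ℝ → ℝ≥0∞) (a s : ℝ) : ℝ≥0∞ := ∫⁻ u in Ioc a s, r u

theorem R_mono {s s' : ℝ} (h : s ≤ s') : R r a s ≤ R r a s' :=
  lintegral_mono_set (Ioc_subset_Ioc_right h)

theorem R_self : R r a a = 0 := by simp [R]

theorem continuousOn_R (hr : AEMeasurable r (volume.restrict (Ioc a b)))
    (hfin : R r a b ≠ ∞) : ContinuousOn (fun s => (R r a s).toReal) (Icc a b) := by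
  have hint : IntegrableOn (fun u => (r u).toReal) (Ioc a b) :=
    integrable_toReal_of_lintegral_ne_top hr hfin
  have h1 : ContinuousOn (fun s => ∫ u in Ioc a s, (r u).toReal) (Icc a b) :=
    intervalIntegral.continuousOn_primitive (by rwa [integrableOn_Icc_iff_integrableOn_Ioc])
  refine h1.congr fun s hs => ?_
  unfold R
  show (∫⁻ u in Ioc a s, r u).toReal = ∫ u in Ioc a s, (r u).toReal
  have hsub : Ioc a s ⊆ Ioc a b := Ioc_subset_Ioc_right hs.2
  rw [integral_toReal (hr.mono_measure (Measure.restrict_mono hsub le_rfl))]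
  have h2 : ∀ᵐ x ∂volume.restrict (Ioc a b), r x < ∞ := ae_lt_top' hr hfin
  exact ae_mono (Measure.restrict_mono hsub le_rfl) h2

/-- **Substitution by the primitive.** -/
theorem lintegral_comp_prim (hab : a ≤ b) (hr : AEMeasurable r (volume.restrict (Ioc a b)))
    (hfin : R r a b ≠ ∞) {g : ℝ → ℝ≥0∞} (hg : Measurable g) :
    ∫⁻ s in Ioc a b, r s * g (R r a s).toReal = ∫⁻ u in Ioc 0 (R r a b).toReal, g u := by
  have hc := continuousOn_R hr hfin
  set ψ : ℝ → ℝ := fun s => (R r a s).toReal with hψ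
  have hlt : ∀ s, s ≤ b → R r a s ≠ ∞ := fun s hs => ne_top_of_le_ne_top hfin (R_mono hs)
  have hmono : ∀ s s', s ≤ s' → s' ≤ b → ψ s ≤ ψ s' := fun s s' h h' =>
    ENNReal.toReal_mono (hlt s' h') (R_mono h)
  -- a measurable version of the primitive
  set ψ' : ℝ → ℝ := fun s => ψ (max a (min s b)) with hψ'
  have hc' : Continuous ψ' := by
    have h1 : Continuous fun s : ℝ => max a (min s b) := by fun_prop
    refine hc.comp_continuous h1 fun s => ⟨le_max_left _ _, max_le hab (min_le_right _ _)⟩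
  have hψeq : ∀ s ∈ Ioc a b, ψ' s = ψ s := by
    intro s hs
    simp only [hψ', min_eq_left hs.2, max_eq_right hs.1.le]
  set μ : Measure ℝ := (volume.restrict (Ioc a b)).withDensity r with hμ
  have hμfin : IsFiniteMeasure μ := by
    refine ⟨?_⟩
    rw [hμ, withDensity_apply _ MeasurableSet.univ, Measure.restrict_univ]
    exact lt_top_iff_ne_top.2 hfin
  have hmap : μ.map ψ' = volume.restrict (Ioc 0 (ψ b)) := by
    have : IsFiniteMeasure (μ.map ψ') := by infer_instance
    refine Measure.ext_of_Iic _ _ fun c => ?_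
    rw [Measure.map_apply hc'.measurable measurableSet_Iic, hμ,
      withDensity_apply _ (hc'.measurable measurableSet_Iic), Measure.restrict_restrict
      (hc'.measurable measurableSet_Iic), Measure.restrict_apply measurableSet_Iic]
    have key : ∀ s₁ ∈ Icc a b, ψ' ⁻¹' Iic c ∩ Ioc a b = Ioc a s₁ → Iic c ∩ Ioc 0 (ψ b) =
        Ioc 0 (ψ s₁) → ∫⁻ s in ψ' ⁻¹' Iic c ∩ Ioc a b, r s = volume (Iic c ∩ Ioc 0 (ψ b)) := by
      intro s₁ hs₁ h1 h2
      rw [h1, h2, Real.volume_Ioc, sub_zero, ENNReal.ofReal_toReal (hlt s₁ hs₁.2)]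
      rfl
    have hψa : ψ a = 0 := by simp [hψ, R_self]
    have hψ0 : ∀ s, 0 ≤ ψ s := fun s => ENNReal.toReal_nonneg
    rcases lt_or_ge c 0 with hc0 | hc0
    · refine key a ⟨le_rfl, hab⟩ ?_ ?_
      · rw [Ioc_self, ← disjoint_iff_inter_eq_empty, disjoint_left]
        intro s hs hs'
        have : ψ' s ≤ c := hs
        linarith [hψ0 (max a (min s b))]
      · rw [hψa, Ioc_self, ← disjoint_iff_inter_eq_empty, disjoint_left]
        intro s hs hs'
        have h1 : s ≤ c := hs
        linarith [hs'.1]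
    · -- the last time at which the primitive is at most `c`
      set A : Set ℝ := {s | s ∈ Icc a b ∧ ψ s ≤ c} with hA
      have hAne : a ∈ A := ⟨⟨le_rfl, hab⟩, by rw [hψa]; exact hc0⟩
      have hAc : IsCompact A := by
        have h1 : A = Icc a b ∩ ψ ⁻¹' Iic c := rfl
        rw [h1]
        exact isCompact_Icc.of_isClosed_subset (hc.preimage_isClosed_of_isClosed isClosed_Icc
          isClosed_Iic) inter_subset_left
      set s₁ := sSup A with hs₁
      have hs₁A : s₁ ∈ A := hAc.sSup_mem ⟨a, hAne⟩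
      have hiff : ∀ s ∈ Ioc a b, ψ s ≤ c ↔ s ≤ s₁ := by
        intro s hs
        constructor
        · intro h
          exact le_csSup hAc.bddAbove ⟨⟨hs.1.le, hs.2⟩, h⟩
        · intro h
          exact (hmono s s₁ h hs₁A.1.2).trans hs₁A.2
      refine key s₁ hs₁A.1 ?_ ?_
      · ext s
        simp only [mem_inter_iff, mem_preimage, mem_Iic, mem_Ioc]
        constructor
        · rintro ⟨h1, h2⟩
          rw [hψeq s h2] at h1
          exact ⟨h2.1, (hiff s h2).1 h1⟩
        · rintro ⟨h1, h2⟩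
          have h3 : s ∈ Ioc a b := ⟨h1, h2.trans hs₁A.1.2⟩
          rw [hψeq s h3]
          exact ⟨(hiff s h3).2 h2, h3⟩
      · rcases le_or_gt (ψ b) c with h | h
        · have hb : s₁ = b := le_antisymm hs₁A.1.2 (le_csSup hAc.bddAbove ⟨⟨hab, le_rfl⟩, h⟩)
          rw [hb, inter_eq_right]
          exact fun s hs => hs.2.trans h
        · -- intermediate value theorem
          have hsc : ψ s₁ = c := by
            refine le_antisymm hs₁A.2 ?_
            by_contra hlt'
            rw [not_le] at hlt'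
            have h3 : ContinuousOn ψ (Icc s₁ b) := hc.mono (Icc_subset_Icc_left hs₁A.1.1)
            obtain ⟨s, hs, hse⟩ := intermediate_value_Icc hs₁A.1.2 h3
              (show c ∈ Icc (ψ s₁) (ψ b) from ⟨hs₁A.2, h.le⟩)
            have h4 : s ≤ s₁ := le_csSup hAc.bddAbove ⟨⟨hs₁A.1.1.trans hs.1, hs.2⟩, hse.le⟩
            have h5 : s = s₁ := le_antisymm h4 hs.1
            rw [h5] at hse
            linarith
          rw [hsc]
          ext s
          simp only [mem_inter_iff, mem_Iic, mem_Ioc]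
          constructor
          · rintro ⟨h1, h2, h3⟩; exact ⟨h2, h1⟩
          · rintro ⟨h1, h2⟩; exact ⟨h2, h1, h2.trans h.le⟩
  have h1 : ∫⁻ s in Ioc a b, r s * g (R r a s).toReal = ∫⁻ s, g (ψ' s) ∂μ := by
    have e1 := lintegral_withDensity_eq_lintegral_mul₀' (μ := volume.restrict (Ioc a b)) hr
      (g := fun s => g (ψ' s)) (hg.comp hc'.measurable).aemeasurable
    rw [hμ, e1]
    refine setLIntegral_congr_fun measurableSet_Ioc fun s hs => ?_
    simp only [Pi.mul_apply]
    rw [hψeq s hs]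
  rw [h1, ← lintegral_map hg hc'.measurable, hmap]

/-- increasing exponential -/
theorem lintegral_exp_prim (hab : a ≤ b) (hr : AEMeasurable r (volume.restrict (Ioc a b)))
    (hfin : R r a b ≠ ∞) {c : ℝ} (hc : 0 < c) :
    ∫⁻ s in Ioc a b, r s * ENNReal.ofReal (Real.exp (c * (R r a s).toReal)) ≤
      ENNReal.ofReal (1 / c) * ENNReal.ofReal (Real.exp (c * (R r a b).toReal)) := by
  rw [lintegral_comp_prim hab hr hfin (g := fun u => ENNReal.ofReal (Real.exp (c * u)))
    (by fun_prop)]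
  set M := (R r a b).toReal with hM
  have hM0 : 0 ≤ M := ENNReal.toReal_nonneg
  have h1 : ∫ s in (0 : ℝ)..M, Real.exp (c * s) = 1 / c * (Real.exp (c * M) - 1) := by
    have h2 : ∀ s ∈ uIcc 0 M, HasDerivAt (fun s : ℝ => 1 / c * Real.exp (c * s))
        (Real.exp (c * s)) s := by
      intro s _
      have h3 : HasDerivAt (fun s : ℝ => c * s) (c * 1) s := (hasDerivAt_id s).const_mul c
      have h4 := (h3.exp).const_mul (1 / c)
      refine h4.congr_deriv ?_
      field_simp
    rw [intervalIntegral.integral_eq_sub_of_hasDerivAt h2]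
    · simp; ring
    · exact (by fun_prop : Continuous fun s : ℝ => Real.exp (c * s)).intervalIntegrable _ _
  have h5 : ∫⁻ u in Ioc 0 M, ENNReal.ofReal (Real.exp (c * u)) =
      ENNReal.ofReal (1 / c * (Real.exp (c * M) - 1)) := by
    rw [← h1, intervalIntegral.integral_of_le hM0, ofReal_integral_eq_lintegral_ofReal]
    · exact ((by fun_prop : Continuous fun s : ℝ => Real.exp (c * s)).intervalIntegrable 0 M).1
    · exact Filter.Eventually.of_forall fun s => by positivity
  rw [h5, ← ENNReal.ofReal_mul (by positivity)]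
  refine ENNReal.ofReal_le_ofReal ?_
  refine mul_le_mul_of_nonneg_left ?_ (by positivity)
  linarith

/-- decreasing exponential -/
theorem lintegral_exp_neg_prim (hab : a ≤ b) (hr : AEMeasurable r (volume.restrict (Ioc a b)))
    (hfin : R r a b ≠ ∞) :
    ENNReal.ofReal (Real.exp (-(R r a b).toReal)) +
      ∫⁻ s in Ioc a b, r s * ENNReal.ofReal (Real.exp (-(R r a s).toReal)) = 1 := by
  rw [lintegral_comp_prim hab hr hfin (g := fun u => ENNReal.ofReal (Real.exp (-u)))
    (by fun_prop)]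
  set M := (R r a b).toReal with hM
  have hM0 : 0 ≤ M := ENNReal.toReal_nonneg
  have h1 : ∫ s in (0 : ℝ)..M, Real.exp (-s) = 1 - Real.exp (-M) := by
    have h2 : ∀ s ∈ uIcc 0 M, HasDerivAt (fun s : ℝ => -Real.exp (-s)) (Real.exp (-s)) s := by
      intro s _
      have h3 : HasDerivAt (fun s : ℝ => -s) (-1) s := (hasDerivAt_id s).neg
      have h4 := (h3.exp).neg
      refine h4.congr_deriv ?_
      ring
    rw [intervalIntegral.integral_eq_sub_of_hasDerivAt h2]
    · simp; ring
    · exact (by fun_prop : Continuous fun s : ℝ => Real.exp (-s)).intervalIntegrable _ _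
  have h5 : ∫⁻ u in Ioc 0 M, ENNReal.ofReal (Real.exp (-u)) =
      ENNReal.ofReal (1 - Real.exp (-M)) := by
    rw [← h1, intervalIntegral.integral_of_le hM0, ofReal_integral_eq_lintegral_ofReal]
    · exact ((by fun_prop : Continuous fun s : ℝ => Real.exp (-s)).intervalIntegrable 0 M).1
    · exact Filter.Eventually.of_forall fun s => by positivity
  have h6 : Real.exp (-M) ≤ 1 := Real.exp_le_one_iff.2 (by linarith)
  rw [h5, ← ENNReal.ofReal_add (Real.exp_pos _).le (by linarith)]
  simp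

end Crest.Agent.R122.Prim383
end
end

-- ▼ part R122/GIVLam_383

/-!
# Row 122, block F (helper383): the exponents of tube families and of trees

* `rateT a S s` : total rate `a` along the active tubes of `S` at time `s`;
* `lintegral_rateT_tree` : for the protected tubes of a straight-line tree its time integral is
  424's `LamP`;
* `dampG_sum`, `dampG_child` : damping of a child;
* `alive_energy_le` : energy of the protected particles of a tree at any time.
-/

set_option autoImplicit false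
open MeasureTheory Set Filter
open scoped Classical ENNReal Topology NNReal
open Crest.AnalysisR.Kinetic
open Crest.Agent.R122.GC311 Crest.Agent.R122.Causal291 Crest.Agent.R122.Master566
open Crest.Agent.R122.GIV566 Crest.Agent.R122.Kin796 Crest.Agent.R122.Disc416
open Crest.Agent.R122.Tree674 Crest.Agent.R122.TreeEps399 Crest.Agent.R122.Hid424
open Crest.Agent.R122.Boltz814 (nuF fE damp exists_nuF_le measurable_nuF)
noncomputable section

namespace Crest.Agent.R122.GIVStep383

open CTree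

variable {Φ : Space3 → ℝ} {ι ι' : Type}

/-- total rate along the active tubes -/
def rateT (a : ℝ → Space3 → Space3 → ℝ≥0∞) [Fintype ι] (S : Tubes ι) (s : ℝ) : ℝ≥0∞ :=
  ∑ i, if s < S.b i then a s (S.c i s) (deriv (S.c i) s) else 0


theorem rateT_sum [Fintype ι] [Fintype ι'] (a : ℝ → Space3 → Space3 → ℝ≥0∞) (S : Tubes ι)
    (S' : Tubes ι') (s : ℝ) : rateT a (S.sum S') s = rateT a S s + rateT a S' s := by
  unfold rateT
  rw [Fintype.sum_sum_type]
  rfl

theorem deriv_shift (S : Tubes ι) (x : Space3) (i : ι) :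
    deriv ((S.shift x).c i) = deriv (S.c i) := by
  funext s
  show deriv (fun s => S.c i s + x) s = deriv (S.c i) s
  exact deriv_add_const x

theorem aemeasurable_rateT [Fintype ι] {a : ℝ → Space3 → Space3 → ℝ≥0∞} (ha : Meas3 a)
    {S : Tubes ι} {I : Set ℝ} (hS : ∀ i, AEMeasurable (S.c i) (volume.restrict I)) :
    AEMeasurable (rateT a S) (volume.restrict I) := by
  unfold rateT
  have h0 : (fun s => ∑ i, if s < S.b i then a s (S.c i s) (deriv (S.c i) s) else 0) =
      ∑ i, fun s => if s < S.b i then a s (S.c i s) (deriv (S.c i) s) else 0 := by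
    funext s
    rw [Finset.sum_apply]
  rw [h0]
  refine Finset.aemeasurable_sum _ fun i _ => ?_
  have h1 : AEMeasurable (fun s => a s (S.c i s) (deriv (S.c i) s)) (volume.restrict I) := by
    have h2 : AEMeasurable (fun s : ℝ => (s, S.c i s, deriv (S.c i) s)) (volume.restrict I) :=
      aemeasurable_id.prodMk ((hS i).prodMk (measurable_deriv _).aemeasurable)
    exact ha.comp_aemeasurable h2
  have h3 : (fun s => if s < S.b i then a s (S.c i s) (deriv (S.c i) s) else 0) =
      (Iio (S.b i)).indicator fun s => a s (S.c i s) (deriv (S.c i) s) := by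
    funext s
    by_cases h : s < S.b i
    · rw [if_pos h, indicator_of_mem (by exact h)]
    · rw [if_neg h, indicator_of_notMem (by exact h)]
  rw [h3]
  exact h1.indicator measurableSet_Iio

theorem aemeasurable_curve {S : Tubes ι} {T : ℝ} {M : ℝ≥0}
    (hS : ∀ i, LipschitzOnWith M (S.c i) (Icc 0 T)) {I : Set ℝ} (hI : I ⊆ Icc 0 T) (i : ι) :
    AEMeasurable (S.c i) (volume.restrict I) :=
  ((hS i).continuousOn.aemeasurable measurableSet_Icc).mono_measure
    (Measure.restrict_mono hI le_rfl)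

/-! ### Trees -/

/-- away from the node times the derivative of the position is the velocity -/
theorem deriv_path0 (P : CTree) (ℓ : PhasePoint) (p : Par P) {u : ℝ} (hu : NotTime P p u)
    (j : Idx P) : deriv (fun u => (path Φ 0 P ℓ p u j).1) u = (path Φ 0 P ℓ p u j).2 := by
  obtain ⟨X, v⟩ := ℓ
  obtain ⟨w, δ, hδ, h0, -⟩ := path_local (Φ := Φ) P v p u hu
  have h1 := h0 X u (by rwa [sub_self, abs_zero]) j
  have h2 : (path Φ 0 P (X, v) p u j).2 = w j := by rw [h1]
  have h3 : (fun t => (path Φ 0 P (X, v) p t j).1) =ᶠ[𝓝 u]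
      fun t => (path Φ 0 P (X, v) p u j).1 + (t - u) • w j := by
    filter_upwards [Metric.ball_mem_nhds u hδ] with t ht
    rw [Metric.mem_ball, Real.dist_eq] at ht
    rw [h0 X t ht j]
  rw [h3.deriv_eq, h2]
  have h4 : HasDerivAt (fun t : ℝ => (path Φ 0 P (X, v) p u j).1 + (t - u) • w j)
      ((1 : ℝ) • w j) u := by
    refine HasDerivAt.const_add _ ?_
    exact ((hasDerivAt_id u).sub_const u).smul_const (w j)
  rw [h4.deriv, one_smul]

theorem ae_notTime (P : CTree) (p : Par P) : ∀ᵐ u : ℝ, NotTime P p u := by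
  rw [ae_iff]
  exact (finite_times P p).measure_zero _

/-- the rate along the protected tubes, with velocities instead of derivatives -/
def rateP (Φ : Space3 → ℝ) (a : ℝ → Space3 → Space3 → ℝ≥0∞) (P : CTree) (s : ℝ) (ℓ : PhasePoint)
    (p : Par P) (u : ℝ) : ℝ≥0∞ :=
  ∑ j, if u < prot P s p j then a u (path Φ 0 P ℓ p u j).1 (path Φ 0 P ℓ p u j).2 else 0

theorem rateT_tree (a : ℝ → Space3 → Space3 → ℝ≥0∞) (P : CTree) (s : ℝ) (ℓ : PhasePoint)
    (p : Par P) {u : ℝ} (hu : NotTime P p u) :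
    rateT a (treeT0 Φ P s ℓ p) u = rateP Φ a P s ℓ p u := by
  unfold rateT rateP
  refine Finset.sum_congr rfl fun j _ => ?_
  have h1 : deriv ((treeT0 Φ P s ℓ p).c j) u = (path Φ 0 P ℓ p u j).2 := deriv_path0 P ℓ p hu j
  rw [h1]
  rfl

theorem lintegral_rateT_tree {a : ℝ → Space3 → Space3 → ℝ≥0∞} (ha : Meas3 a) {P : CTree} {s : ℝ}
    {ℓ : PhasePoint} {p : Par P} (hO : Tree674.Ord Φ 0 P s ℓ.2 p) (t : ℝ) :
    ∫⁻ u in Ioc 0 t, rateT a (treeT0 Φ P s ℓ p) u = LamP Φ a t P s ℓ p := by
  have hmeas : ∀ j, AEMeasurable (fun u => if u < (treeT0 Φ P s ℓ p).b j then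
      a u ((treeT0 Φ P s ℓ p).c j u) (deriv ((treeT0 Φ P s ℓ p).c j) u) else 0)
      (volume.restrict (Ioc 0 t)) := by
    intro j
    have hc : Continuous ((treeT0 Φ P s ℓ p).c j) := TreeEps399.continuous_path0 P ℓ p s hO j
    have h2 : Measurable (fun s' : ℝ => (s', (treeT0 Φ P s ℓ p).c j s',
        deriv ((treeT0 Φ P s ℓ p).c j) s')) :=
      measurable_id.prodMk (hc.measurable.prodMk (measurable_deriv _))
    have h1 : Measurable (fun s' : ℝ => a s' ((treeT0 Φ P s ℓ p).c j s')
        (deriv ((treeT0 Φ P s ℓ p).c j) s')) := Measurable.comp ha h2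
    exact (Measurable.ite measurableSet_Iio h1 measurable_const).aemeasurable
  unfold rateT
  rw [lintegral_finsetSum' _ fun j _ => hmeas j]
  unfold LamP
  refine Finset.sum_congr rfl fun j _ => ?_
  unfold legR
  have h3 : ∫⁻ u in Ioc 0 t, (if u < (treeT0 Φ P s ℓ p).b j then
      a u ((treeT0 Φ P s ℓ p).c j u) (deriv ((treeT0 Φ P s ℓ p).c j) u) else 0) =
      ∫⁻ u in Ioc 0 t, (Iio (prot P s p j)).indicator
        (fun u => a u (path Φ 0 P ℓ p u j).1 (path Φ 0 P ℓ p u j).2) u := by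
    refine lintegral_congr_ae (ae_restrict_of_ae ?_)
    filter_upwards [ae_notTime P p] with u hu
    have h1 : deriv ((treeT0 Φ P s ℓ p).c j) u = (path Φ 0 P ℓ p u j).2 := deriv_path0 P ℓ p hu j
    by_cases h : u < prot P s p j
    · rw [if_pos (by exact h), indicator_of_mem (by exact h), h1]
      rfl
    · rw [if_neg (by exact h), indicator_of_notMem (by exact h)]
  rw [h3, lintegral_indicator measurableSet_Iio, Measure.restrict_restrict measurableSet_Iio]
  refine setLIntegral_congr ?_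
  have h4 : (Iio (prot P s p j) ∩ Ioc 0 t : Set ℝ) =ᵐ[volume]
      (Iic (prot P s p j) ∩ Ioc 0 t : Set ℝ) :=
    ae_eq_set_inter Iio_ae_eq_Iic (Filter.EventuallyEq.refl _ _)
  have h5 : Iic (prot P s p j) ∩ Ioc 0 t = Ioc 0 (min (prot P s p j) t) := by
    ext u
    simp only [mem_inter_iff, mem_Iic, mem_Ioc, le_min_iff]
    tauto
  rw [← h5]
  exact h4

/-! ### Translations -/

theorem treeT0_shift (P : CTree) (s : ℝ) (X v x : Space3) (p : Par P) :
    (treeT0 Φ P s (X, v) p).shift x = treeT0 Φ P s (X + x, v) p := by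
  unfold treeT0 Tubes.shift
  congr 1
  funext j u
  show (path Φ 0 P (X, v) p u j).1 + x = (path Φ 0 P (X + x, v) p u j).1
  rw [path_shift 0 P X v p u j, path_shift 0 P (X + x) v p u j]
  show _ + X + x = _ + (X + x)
  rw [add_assoc]

theorem sum_shift (S : Tubes ι) (S' : Tubes ι') (x : Space3) :
    (S.sum S').shift x = (S.shift x).sum (S'.shift x) := by
  unfold Tubes.sum Tubes.shift
  congr 1
  funext i u
  rcases i with i | i <;> rfl

theorem childT0_shift (S : Tubes ι) (i : ι) {P : CTree} (θ : HPar P) (x : Space3) :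
    (childT0 Φ S i θ).shift x =
      (S.shift x).sum (treeT0 Φ P θ.1 (S.c i θ.1 + x - θ.1 • θ.2.1, θ.2.1) θ.2.2.2) := by
  unfold childT0
  rw [sum_shift, treeT0_shift]
  congr 2
  rw [sub_add_eq_add_sub]

/-! ### Damping -/

section damping

variable {β T : ℝ} {f₀ : PhasePoint → ℝ} {f : ℝ → PhasePoint → ℝ}

/-- growth rate -/
def aV : ℝ → Space3 → Space3 → ℝ≥0∞ := fun _ _ v => ENNReal.ofReal (1 + ‖v‖)

theorem meas_aV : Meas3 aV := by
  unfold Meas3 aV
  fun_prop

theorem meas3_nuF (hf : IsRegularKineticSolution Φ β T f₀ f) : Meas3 (nuF T f) :=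
  measurable_nuF hf

/-- the total rate of a Lipschitz family is bounded -/
theorem rateT_le [Fintype ι] {a : ℝ → Space3 → Space3 → ℝ≥0∞} {L : ℝ} (hL : 0 ≤ L)
    (ha : ∀ t x v, a t x v ≤ ENNReal.ofReal (L * (1 + ‖v‖))) {S : Tubes ι} {M : ℝ≥0}
    (hS : ∀ i, LipschitzOnWith M (S.c i) (Icc 0 T)) {s : ℝ} (hs : s ∈ Ioo 0 T) :
    rateT a S s ≤ ENNReal.ofReal (Fintype.card ι * (L * (1 + M))) := by
  unfold rateT
  calc ∑ i, (if s < S.b i then a s (S.c i s) (deriv (S.c i) s) else 0)
      ≤ ∑ _i : ι, ENNReal.ofReal (L * (1 + M)) := by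
        refine Finset.sum_le_sum fun i _ => ?_
        split_ifs
        · refine (ha _ _ _).trans (ENNReal.ofReal_le_ofReal ?_)
          have h1 : ‖deriv (S.c i) s‖ ≤ M :=
            norm_deriv_le_of_lipschitzOn (Icc_mem_nhds hs.1 hs.2) (hS i)
          exact mul_le_mul_of_nonneg_left (by linarith) hL
        · exact bot_le
    _ = _ := by
        rw [Finset.sum_const, Finset.card_univ, nsmul_eq_mul,
          ENNReal.ofReal_mul (p := (Fintype.card ι : ℝ)) (by positivity), ENNReal.ofReal_natCast]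

theorem lintegral_rateT_ne_top [Fintype ι] {a : ℝ → Space3 → Space3 → ℝ≥0∞} {L : ℝ} (hL : 0 ≤ L)
    (ha : ∀ t x v, a t x v ≤ ENNReal.ofReal (L * (1 + ‖v‖))) {S : Tubes ι} {M : ℝ≥0}
    (hS : ∀ i, LipschitzOnWith M (S.c i) (Icc 0 T)) {s t : ℝ} (hs : 0 ≤ s) (ht : t ≤ T) :
    ∫⁻ u in Ioc s t, rateT a S u ≠ ∞ := by
  have h1 : ∫⁻ u in Ioc s t, rateT a S u ≤
      ∫⁻ _u in Ioc s t, ENNReal.ofReal (Fintype.card ι * (L * (1 + M))) := by
    have h2 : ∀ᵐ u : ℝ, u ≠ T := Measure.ae_ne volume T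
    refine setLIntegral_mono_ae (measurable_const.aemeasurable) ?_
    filter_upwards [h2] with u hu hu'
    exact rateT_le hL ha hS ⟨lt_of_le_of_lt hs hu'.1, lt_of_le_of_ne (hu'.2.trans ht) hu⟩
  refine ne_top_of_le_ne_top ?_ h1
  rw [setLIntegral_const]
  exact ENNReal.mul_ne_top ENNReal.ofReal_ne_top (by simp)

theorem Lam_ne_top (hβ : 0 < β) (hT : 0 < T) (hf : IsRegularKineticSolution Φ β T f₀ f)
    [Fintype ι] {S : Tubes ι} {M : ℝ≥0} (hS : ∀ i, LipschitzOnWith M (S.c i) (Icc 0 T)) {t : ℝ}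
    (ht : t ≤ T) : Lam T f S t ≠ ∞ := by
  obtain ⟨L, hL, h⟩ := exists_nuF_le hβ hT hf
  exact lintegral_rateT_ne_top hL h hS le_rfl ht

theorem dampG_eq_eexp [Fintype ι] (S : Tubes ι) (t : ℝ) :
    dampG T f S t = eexp (Lam T f S t) := rfl

theorem Lam_sum (hf : IsRegularKineticSolution Φ β T f₀ f) [Fintype ι] [Fintype ι']
    {S : Tubes ι} {S' : Tubes ι'} {t : ℝ}
    (hS : ∀ i, AEMeasurable (S.c i) (volume.restrict (Ioc 0 t))) :
    Lam T f (S.sum S') t = Lam T f S t + Lam T f S' t := by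
  unfold Lam
  simp only [lam_sum]
  exact lintegral_add_left' (aemeasurable_rateT (meas3_nuF hf) hS) _

/-- exponent of a tree -/
theorem Lam_treeT0 (hf : IsRegularKineticSolution Φ β T f₀ f) {P : CTree} {s : ℝ}
    {ℓ : PhasePoint} {p : Par P} (hO : Tree674.Ord Φ 0 P s ℓ.2 p) (t : ℝ) :
    Lam T f (treeT0 Φ P s ℓ p) t = LamP Φ (nuF T f) t P s ℓ p :=
  lintegral_rateT_tree (meas3_nuF hf) hO t

theorem Lam_treeT0_ne_top (hβ : 0 < β) (hT : 0 < T) (hf : IsRegularKineticSolution Φ β T f₀ f)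
    {P : CTree} {s : ℝ} {ℓ : PhasePoint} {p : Par P} (hO : Tree674.Ord Φ 0 P s ℓ.2 p) {t : ℝ}
    (ht : 0 ≤ t) : Lam T f (treeT0 Φ P s ℓ p) t ≠ ∞ := by
  rw [Lam_treeT0 hf hO]
  exact LamP_ne_top (finRate_nuF hβ hT hf) ht hO

theorem lipschitz_shift {S : Tubes ι} {M : ℝ≥0} (hS : ∀ i, LipschitzOnWith M (S.c i) (Icc 0 T))
    (x : Space3) (i : ι) : LipschitzOnWith M ((S.shift x).c i) (Icc 0 T) := by
  intro s hs t ht
  show edist (S.c i s + x) (S.c i t + x) ≤ _
  rw [edist_add_right]
  exact hS i hs ht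

/-- **damping of a child** -/
theorem dampG_child (hβ : 0 < β) (hT : 0 < T) (hf : IsRegularKineticSolution Φ β T f₀ f)
    [Fintype ι] {S : Tubes ι} {M : ℝ≥0} (hS : ∀ i, LipschitzOnWith M (S.c i) (Icc 0 T)) {t : ℝ}
    (ht : t ∈ Icc 0 T) (i : ι) {P : CTree} {θ : HPar P} (hV : Valid Φ 0 P θ.1 θ.2.1 θ.2.2.2)
    (x : Space3) : dampG T f ((childT0 Φ S i θ).shift x) t = dampG T f (S.shift x) t *
      eexp (LamP Φ (nuF T f) t P θ.1 (S.c i θ.1 + x - θ.1 • θ.2.1, θ.2.1) θ.2.2.2) := by
  have hO : Tree674.Ord Φ 0 P θ.1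
    ((S.c i θ.1 + x - θ.1 • θ.2.1, θ.2.1) : PhasePoint).2 θ.2.2.2 := hV.2
  rw [childT0_shift, dampG_eq_eexp, Lam_sum hf (fun j => aemeasurable_curve (lipschitz_shift hS x)
    (Ioc_subset_Icc_self.trans (Icc_subset_Icc_right ht.2)) j),
    eexp_add (Lam_ne_top hβ hT hf (lipschitz_shift hS x) ht.2)
      (Lam_treeT0_ne_top hβ hT hf hO ht.1), Lam_treeT0 hf hO]
  rfl

end damping

/-! ### Energy of the protected particles -/

theorem alive_energy_le (hΦ : AdmissiblePotential Φ) : ∀ (P : CTree) (T' s : ℝ) (ℓ : PhasePoint)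
    (p : Par P) (u : ℝ), Adm Φ P ℓ.2 p → Tree674.Ord Φ 0 P s ℓ.2 p →
    ∑ j, (if u < prot P T' p j then ‖(path Φ 0 P ℓ p u j).2‖ ^ 2 else 0) ≤
      ‖ℓ.2‖ ^ 2 + Tube818.wSq P p
  | leaf, T', s, ℓ, p, u, _, _ => by
      have h1 : ∑ j : Idx leaf, (if u < prot leaf T' p j then
          ‖(path Φ 0 leaf ℓ p u j).2‖ ^ 2 else 0) = if u < T' then ‖ℓ.2‖ ^ 2 else 0 := by
        rw [Finset.sum_eq_single (root leaf)
          (fun b _ hb => absurd (Generic491.idx_leaf b (root leaf)) hb)
          (fun h => absurd (Finset.mem_univ _) h)]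
        rfl
      rw [h1]
      have h2 : Tube818.wSq leaf p = 0 := rfl
      rw [h2, add_zero]
      split_ifs
      · exact le_rfl
      · positivity
  | node l r, T', s, ℓ, p, u, hA, hO => by
      obtain ⟨hO1, hO2, hOl, hOr⟩ := hO
      rw [sin_zero] at hO2 hOl hOr
      have hE := Tube818.preV_energy hΦ hA.1
      have hsplit : ∑ j : Idx (node l r), (if u < prot (node l r) T' p j then
          ‖(path Φ 0 (node l r) ℓ p u j).2‖ ^ 2 else 0) =
          ∑ j : Idx l, (if u < prot l T' p.2.1 j then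
            ‖(path Φ 0 (node l r) ℓ p u (Sum.inl j)).2‖ ^ 2 else 0) +
          ∑ j : Idx r, (if u < prot r p.1.1 p.2.2 j then
            ‖(path Φ 0 (node l r) ℓ p u (Sum.inr j)).2‖ ^ 2 else 0) :=
        Fintype.sum_sum_type (fun j : Idx l ⊕ Idx r =>
          if u < prot (node l r) T' p j then ‖(path Φ 0 (node l r) ℓ p u j).2‖ ^ 2 else 0)
      have hw : Tube818.wSq (node l r) p =
          ‖p.1.2.1‖ ^ 2 + (Tube818.wSq l p.2.1 + Tube818.wSq r p.2.2) := rfl
      have hwl := Tube818.wSq_nonneg l p.2.1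
      have hwr := Tube818.wSq_nonneg r p.2.2
      rw [hsplit, hw]
      rcases le_or_gt u p.1.1 with hu | hu
      · -- before the collision
        have hpath := path_node_le (Φ := Φ) (ε := 0) (ℓ := ℓ) (p := p) (u := u)
          (by rw [sin_zero]; exact hu)
        have h1 := alive_energy_le hΦ l T' p.1.1 (inMap Φ 0 ℓ p.1).1 p.2.1 u hA.2.1 hOl
        have h2 := alive_energy_le hΦ r p.1.1 p.1.1 (inMap Φ 0 ℓ p.1).2 p.2.2 u hA.2.2 hOr
        simp only [hpath, Sum.elim_inl, Sum.elim_inr]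
        have e1 : ‖(inMap Φ 0 ℓ p.1).1.2‖ ^ 2 = ‖(preV Φ ℓ.2 p.1).1‖ ^ 2 := rfl
        have e2 : ‖(inMap Φ 0 ℓ p.1).2.2‖ ^ 2 = ‖(preV Φ ℓ.2 p.1).2‖ ^ 2 := rfl
        rw [e1] at h1
        rw [e2] at h2
        linarith
      · -- after the collision: only the root is protected
        have hpath := path_node_gt (Φ := Φ) (ε := 0) (ℓ := ℓ) (p := p) (u := u)
          (by rw [sin_zero]; exact hu)
        have hpl : ∀ j, j ≠ root l → ¬ u < prot l T' p.2.1 j := by
          intro j hj
          rw [PathFlow968.prot_eq_of_ne l T' p.1.1 p.2.1 hj, not_lt]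
          exact (PathFlow968.prot_le le_rfl l _ _ p.2.1 hOl j).trans hu.le
        have hpr : ∀ j, ¬ u < prot r p.1.1 p.2.2 j := by
          intro j
          rw [not_lt]
          exact (PathFlow968.prot_le le_rfl r _ _ p.2.2 hOr j).trans hu.le
        have h1 : ∑ j : Idx l, (if u < prot l T' p.2.1 j then
            ‖(path Φ 0 (node l r) ℓ p u (Sum.inl j)).2‖ ^ 2 else 0) ≤ ‖ℓ.2‖ ^ 2 := by
          rw [Finset.sum_eq_single (root l) (fun j _ hj => if_neg (hpl j hj))
            (fun h => absurd (Finset.mem_univ _) h)]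
          rw [hpath]
          simp only [Sum.elim_inl, Function.update_self, colPath_out hu.le, onLine]
          split_ifs
          · exact le_rfl
          · positivity
        have h2 : ∑ j : Idx r, (if u < prot r p.1.1 p.2.2 j then
            ‖(path Φ 0 (node l r) ℓ p u (Sum.inr j)).2‖ ^ 2 else 0) = 0 :=
          Finset.sum_eq_zero fun j _ => if_neg (hpr j)
        rw [h2]
        have h3 : 0 ≤ ‖p.1.2.1‖ ^ 2 := by positivity
        linarith

/-- growth rate of the protected tubes of a tree -/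
theorem rateP_aV_le (hΦ : AdmissiblePotential Φ) {P : CTree} {s : ℝ} {ℓ : PhasePoint} {p : Par P}
    (hV : Valid Φ 0 P s ℓ.2 p) (u : ℝ) :
    rateP Φ aV P s ℓ p u ≤
      ENNReal.ofReal (2 * P.leaves + (‖ℓ.2‖ ^ 2 + Tube818.wSq P p)) := by
  have h1 := alive_energy_le hΦ P s s ℓ p u hV.1 hV.2
  have h2 : rateP Φ aV P s ℓ p u ≤ ENNReal.ofReal (∑ j : Idx P,
      (2 + if u < prot P s p j then ‖(path Φ 0 P ℓ p u j).2‖ ^ 2 else 0)) := by
    unfold rateP aV
    rw [ENNReal.ofReal_sum_of_nonneg (fun j _ => by split_ifs <;> positivity)]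
    refine Finset.sum_le_sum fun j _ => ?_
    split_ifs
    · refine ENNReal.ofReal_le_ofReal ?_
      nlinarith [sq_nonneg (‖(path Φ 0 P ℓ p u j).2‖ - 1 / 2)]
    · exact bot_le
  refine h2.trans (ENNReal.ofReal_le_ofReal ?_)
  rw [Finset.sum_add_distrib, Finset.sum_const, Finset.card_univ, card_idx, nsmul_eq_mul]
  linarith

end Crest.Agent.R122.GIVStep383
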