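import Crest.Agent.R122.RealTree_674
import Crest.Agent.R122.ClusterBC_311
import Crest.Agent.R122.GIVDefs_566
import Crest.Agent.R122.Band1_974
import Crest.Agent.R122.HidMeas_424

/-!
Row 122, block C (helper674): measurability and covariance of the events "the real history of
`(i, t)` is a collision tree" (`Good`), "… and the rest of the gas, alone, does not hit the protected
tubes" (`Clean`).
-/

set_option autoImplicit false
set_option synthInstance.maxSize 1024

open MeasureTheory Set Filter Topology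
open Crest.AnalysisR.Kinetic
open scoped ENNReal Classical

noncomputable section

namespace Crest.Agent.R122.RealTree674

open Kin796 Kin796.CTree Disc416 Scat818 Flow671 Flux663 Tree674 Final973 Causal291 GC311
  Relabel674 Master566 GIV566

variable {Φ : Space3 → ℝ} {ε t : ℝ}

section iffs

variable {κ : Type} [Fintype κ] {Z : κ → PhasePoint} {i : κ} {P : CTree} {ℓ : PhasePoint}
  {p : Par P} {e : Idx P → κ}


end iffs

/-! ### Relabelling -/

theorem realTree_equiv (hΦ : AdmissiblePotential Φ) (hε : 0 < ε) {ι κ : Type} [Fintype ι]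
    [Fintype κ] (σ : ι ≃ κ) (Z : κ → PhasePoint) (i : ι) {P : CTree} {ℓ : PhasePoint} {p : Par P}
    (e : Idx P → ι) : RealTree Φ ε t (fun j => Z (σ j)) i P ℓ p e ↔
      RealTree Φ ε t Z (σ i) P ℓ p (fun k => σ (e k)) := by
  have hp : ∀ u k, pth Φ ε (fun j => Z (σ j)) u (e k) = pth Φ ε Z u (σ (e k)) := fun u k =>
    congrFun (Loc45.flow_equiv hΦ hε σ u Z) (e k)
  constructor
  · intro h
    refine ⟨h.valid, h.sep, congrArg σ h.root, σ.injective.comp h.inj, fun k u hu0 hu => ?_,
      fun u hu j => ?_⟩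
    · rw [← hp]; exact h.agree k u hu0 hu
    · obtain ⟨j', rfl⟩ := σ.surjective j
      rw [← past_pth_equiv hΦ hε σ Z t u i j', h.past u hu j']
      simp only [σ.injective.eq_iff]
  · intro h
    refine ⟨h.valid, h.sep, σ.injective h.root, fun k k' hk => h.inj (congrArg σ hk),
      fun k u hu0 hu => ?_, fun u hu j => ?_⟩
    · rw [hp]; exact h.agree k u hu0 hu
    · rw [past_pth_equiv hΦ hε σ Z t u i j, h.past u hu (σ j)]
      simp only [σ.injective.eq_iff]


/-! ### Measurability -/

section meas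

variable {κ : Type} [Fintype κ]




/-- The particles outside of the range of `e`, alone, do not hit the tubes `S`. -/
def OutUnhit (Φ : Space3 → ℝ) (ε t : ℝ) {κ : Type} [Fintype κ] (Z : κ → PhasePoint) {ι : Type}
    (e : ι → κ) {ι' : Type} (S : Tubes ι') : Prop :=
  unhit Φ ε S t (fun j : {j : κ // j ∉ range e} => Z j)

/-- The real history of `(i, t)` is a tree and the rest of the gas, alone, does not hit the
protected tubes. -/
def Clean (Φ : Space3 → ℝ) (ε t : ℝ) {κ : Type} [Fintype κ] (Z : κ → PhasePoint) (i : κ) : Prop :=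
  ∃ (P : CTree) (ℓ : PhasePoint) (p : Par P) (e : Idx P → κ), RealTree Φ ε t Z i P ℓ p e ∧
    OutUnhit Φ ε t Z e (Band974.PT Φ ε P t ℓ p)

theorem Clean.good {Z : κ → PhasePoint} {i : κ} (h : Clean Φ ε t Z i) : Good Φ ε t Z i := by
  obtain ⟨P, ℓ, p, e, h, _⟩ := h
  exact ⟨P, ℓ, p, e, h⟩

/-- measurable version of the protected tubes -/
def PTm (Φ : Space3 → ℝ) (ε : ℝ) (P : CTree) (t : ℝ) (ℓ : PhasePoint) (p : Par P) :
    Tubes (Idx P) := ⟨Hid424.curveM Φ ε P ℓ p, prot P t p⟩


theorem measurableSet_unhit' (hΦ : AdmissiblePotential Φ) (hε : 0 < ε)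
    {Ω : Type*} [MeasurableSpace Ω] {ι : Type*} [Fintype ι] {w : Ω → ι → PhasePoint}
    (hw : Measurable w) {ι' : Type} [Finite ι'] {S : Ω → Tubes ι'}
    (hc : ∀ ω i, Continuous ((S ω).c i)) (hcm : ∀ i s, Measurable fun ω => (S ω).c i s)
    (hb : ∀ i, Measurable fun ω => (S ω).b i) {t : Ω → ℝ} (ht : Measurable t) :
    MeasurableSet {ω | unhit Φ ε (S ω) (t ω) (w ω)} :=
  Hid424.measurableSet_unhit hΦ hε (c := fun ω => (S ω).c) hc hcm (b := fun ω => (S ω).b) hb hw ht





end meas




end Crest.Agent.R122.RealTree674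

end
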