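import Crest.Agent.R122.OneCDefs_285
import Crest.Agent.R122.Direct4_658
import Crest.Agent.R122.UnwJ_410
import Crest.Agent.R122.Line3_285
import Crest.Agent.R122.RealMeas_674
import Crest.Agent.R122.MeasEDefs_416

-- ▼ part R122/SplitE4_285
section

/-!
# INEQUALITY 1 (row 122, board H2): split of the touch functional

* `mT_mem` : the first contact time is attained.
* `exists_meet` : a line which touches before `T` and is not born in contact meets a particle.
* `split_touch` : `touchW ≤ born in contact + direct + ∑_i 1[clM ≠ ∅] touchW`.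
* `bLine` : expectation against the lines born at time `τ`.
-/

set_option autoImplicit false
set_option linter.unusedSectionVars false

open MeasureTheory Set Filter
open scoped ENNReal Classical Topology
open Crest.AnalysisR.Kinetic
open Crest.Agent.R122.GC311 Crest.Agent.R122.Flow671
open Crest.Agent.R122.EDefs602 Crest.Agent.R122.Unw410 Crest.Agent.R122.Direct658

noncomputable section

namespace Crest.Agent.R122.OneC285

variable {Φ : Space3 → ℝ} {ε : ℝ} {K : ℕ} {n : ℕ} {w : Config n} {l : ML} {T : ℝ}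

theorem continuous_lpos (l : ML) : Continuous (lpos l) := by
  unfold lpos
  fun_prop

theorem isClosed_mSet (hΦ : AdmissiblePotential Φ) (hε : 0 < ε) (w : Config n) (l : ML) :
    IsClosed (mSet Φ ε w l) := by
  have hcont : Continuous fun s => flow Φ ε s w := flow_continuous_time hΦ hε w
  have h : mSet Φ ε w l = {s | l.1.1 ≤ s} ∩ ⋃ i, {s | dist (lpos l s) (flow Φ ε s w i).1 ≤ ε} := by
    ext s
    simp only [mSet, mem_ofPred_eq, mem_inter_iff, mem_iUnion]
  rw [h]
  refine (isClosed_le continuous_const continuous_id).inter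
    (isClosed_iUnion_of_finite fun i => ?_)
  exact isClosed_le ((continuous_lpos l).dist
    (continuous_fst.comp ((continuous_apply i).comp hcont))) continuous_const

theorem bddBelow_mSet (w : Config n) (l : ML) : BddBelow (mSet Φ ε w l) :=
  ⟨l.1.1, fun _ h => h.1⟩

theorem mT_mem (hΦ : AdmissiblePotential Φ) (hε : 0 < ε) (h : (mSet Φ ε w l).Nonempty) :
    mT Φ ε w l ∈ mSet Φ ε w l :=
  (isClosed_mSet hΦ hε w l).csInf_mem h (bddBelow_mSet w l)

theorem mT_le {s : ℝ} (h : s ∈ mSet Φ ε w l) : mT Φ ε w l ≤ s := csInf_le (bddBelow_mSet w l) h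

/-- Before its first contact the free line is far from the gas. -/
theorem far_of_lt {s : ℝ} (h1 : l.1.1 ≤ s) (h2 : s < mT Φ ε w l) (i : Fin n) :
    ε < dist (lpos l s) (flow Φ ε s w i).1 := by
  by_contra h
  push Not at h
  exact absurd (mT_le (Φ := Φ) (ε := ε) (w := w) (l := l) ⟨h1, i, h⟩) (not_le.2 h2)

theorem lpos_birth (l : ML) : lpos l l.1.1 = l.1.2.1 := by
  unfold lpos back
  simp

/-- The line is born in contact with the gas. -/
def BornIn (Φ : Space3 → ℝ) (ε : ℝ) {n : ℕ} (w : Config n) (l : ML) : Prop :=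
  ∃ i, dist l.1.2.1 (flow Φ ε l.1.1 w i).1 ≤ ε

theorem touch_contact (hΦ : AdmissiblePotential Φ) (hε : 0 < ε) (hw : w ∈ PairExcluded ε n)
    (hl : 0 < l.1.1) (hm : l.2 ≤ K) (hb : ¬ BornIn Φ ε w l)
    (h : (MW.cfg w).thetaL Φ ε K T l ≤ T) : ∃ s ∈ mSet Φ ε w l, s ≤ T := by
  have hne : ∀ i, (flow Φ ε l.1.1 w i).1 ≠ l.1.2.1 := by
    intro i hi
    refine hb ⟨i, ?_⟩
    rw [hi, dist_self]
    exact hε.le
  have hZ := cfg_ok hΦ hε hw
  have hZl := ins_ok hΦ hε hw hl hne
  by_contra hno
  push Not at hno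
  have hT0 : 0 ≤ T := by
    have := (EBasic602.theta_le_horizon_iff.1 h)
    obtain ⟨s, hs, _⟩ := this
    exact hs.1.trans hs.2
  have hfar : ∀ s k, s < T + 1 / 2 → s ≤ T →
      ¬ ((MW.cfg w).ins l).C Φ ε s (Sum.inr ()) (Sum.inl k) := by
    intro s k _ hsT
    -- first contact before `T`
    set S : Set ℝ := {r | r ∈ Icc 0 T ∧ ∃ k, ((MW.cfg w).ins l).C Φ ε r (Sum.inr ()) (Sum.inl k)}
      with hS
    intro hc
    have hS0 : 0 ≤ s := hl.le.trans (MW.C_born hc)
    have hScl : IsClosed S := by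
      have : S = ⋃ k, {r | r ∈ Icc 0 T ∧
          ((MW.cfg w).ins l).C Φ ε r (Sum.inr ()) (Sum.inl k)} := by
        ext r
        simp only [hS, mem_ofPred_eq, mem_iUnion]
        exact ⟨fun ⟨h1, k, h2⟩ => ⟨k, h1, h2⟩, fun ⟨k, h1, h2⟩ => ⟨h1, k, h2⟩⟩
      rw [this]
      exact isClosed_iUnion_of_finite fun k => hZl.closed T _ _
    have hSne : S.Nonempty := ⟨s, ⟨hS0, hsT⟩, k, hc⟩
    have hSbd : BddBelow S := ⟨0, fun r hr => hr.1.1⟩
    obtain ⟨hr1, k₁, hc₁⟩ := hScl.csInf_mem hSne hSbd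
    set r₁ := sInf S with hr₁
    have hno' : ∀ r j, r < r₁ → ¬ ((MW.cfg w).ins l).C Φ ε r (Sum.inr ()) (Sum.inl j) := by
      intro r j hr hcr
      have h0 : 0 ≤ r := hl.le.trans (MW.C_born hcr)
      exact absurd (csInf_le hSbd (show r ∈ S from ⟨⟨h0, hr.le.trans hr1.2⟩, j, hcr⟩))
        (not_le.2 hr)
    have h1 := ins_agree hΦ hε hZ hZl hno' (t := r₁) ⟨hr1.1, le_rfl⟩ k₁
    have h2 := ins_free hΦ hε hZl hno' (t := r₁) ⟨hr1.1, le_rfl⟩
    obtain ⟨hc1, hc2, hc3, hc4⟩ := hc₁
    rw [h2, ← h1, path_cfg hΦ hε hw hr1.1] at hc4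
    exact absurd hr1.2 (not_le.2 (hno r₁ ⟨hc1, k₁, hc4⟩))
  obtain ⟨r, hr, x, k, hc⟩ := MW.exists_contact_le_theta hΦ hε hZ hZl hT0 h
    (by rw [Finset.univ_unique, Finset.sum_singleton]; exact hm)
  have hrT : r ≤ T := hr.2.trans h
  cases x
  exact hfar r k (by linarith) hrT hc

/-- A line which touches before `T` and is not born in contact with the gas meets a particle. -/
theorem exists_meet (hΦ : AdmissiblePotential Φ) (hε : 0 < ε) (hw : w ∈ PairExcluded ε n)
    (hl : 0 < l.1.1) (hm : l.2 ≤ K) (hb : ¬ BornIn Φ ε w l)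
    (h : (MW.cfg w).thetaL Φ ε K T l ≤ T) : ∃ i, Meet Φ ε T w l i := by
  obtain ⟨s, hs, hsT⟩ := touch_contact hΦ hε hw hl hm hb h
  have hne : (mSet Φ ε w l).Nonempty := ⟨s, hs⟩
  obtain ⟨h1, i, h2⟩ := mT_mem hΦ hε hne
  refine ⟨i, hne, lt_of_le_of_ne h1 ?_, (mT_le hs).trans hsT, h2⟩
  intro heq
  rw [← heq, lpos_birth] at h2
  exact hb ⟨i, h2⟩

theorem clM_nonempty {i : Fin n} (h : CMeet Φ ε K T w l i) :
    (clM Φ ε K T n w i l).Nonempty := by
  unfold clM
  rw [if_pos h]
  exact ⟨i, by unfold preC; simp⟩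

/-- **Split of the touch functional.** -/
theorem split_touch (hΦ : AdmissiblePotential Φ) (hε : 0 < ε) {P : EPar} (hL : 0 ≤ P.L)
    (hw : w ∈ PairExcluded ε n) (hl : 0 < l.1.1) (hm : l.2 ≤ K) :
    (MW.cfg w).touchW Φ ε K P l ≤ (if BornIn Φ ε w l then 1 else 0) + (dirW Φ ε K P w l +
      ∑ i : Fin n, if (clM Φ ε K P.te n w i l).Nonempty then (MW.cfg w).touchW Φ ε K P l else 0) := by
  by_cases hb : BornIn Φ ε w l
  · rw [if_pos hb]
    refine le_trans ?_ le_self_add
    unfold MW.touchW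
    split_ifs
    · exact Weight984.W_le_one hL _
    · exact zero_le_one
  by_cases hθ : P.tw < (MW.cfg w).thetaL Φ ε K P.te l ∧ (MW.cfg w).thetaL Φ ε K P.te l ≤ P.te
  swap
  · have : (MW.cfg w).touchW Φ ε K P l = 0 := by unfold MW.touchW; rw [if_neg hθ]
    rw [this]
    exact zero_le
  obtain ⟨i, hi⟩ := exists_meet hΦ hε hw hl hm hb hθ.2
  refine le_trans ?_ le_add_self
  by_cases hinf : (MW.cfg w).Inf Φ ε K (mT Φ ε w l) i
  · refine le_trans ?_ le_self_add
    unfold dirW
    rw [if_pos ⟨i, hi, hinf⟩]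
  · refine le_trans ?_ le_add_self
    refine le_trans (le_of_eq ?_) (Finset.single_le_sum (f := fun i : Fin n =>
      if (clM Φ ε K P.te n w i l).Nonempty then (MW.cfg w).touchW Φ ε K P l else 0)
      (fun _ _ => zero_le) (Finset.mem_univ i))
    rw [if_pos (clM_nonempty ⟨hi, hinf⟩)]

end Crest.Agent.R122.OneC285

end
end

-- ▼ part R122/GasE4a_285
section

/-!
# INEQUALITY 1 (row 122, board H2), gas level, part A: split of `XE`

* `gInt` : integral over the lines born at time `τ` (Gaussian, marks).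
* `gInt_eq` : the same as an integral with respect to `baseM (dirac τ)`.
* `XE_split` : `XE τ ≤ born in contact + direct + ∑_i 1[clM ≠ ∅]`.
* `XE_mecke` : the cluster term opened by Mecke.
-/

set_option autoImplicit false
set_option linter.unusedSectionVars false

open MeasureTheory Set Filter
open scoped ENNReal Classical Topology
open Crest.AnalysisR.Kinetic
open Crest.Agent.R122.GC311 Crest.Agent.R122.Flow671
open Crest.Agent.R122.EDefs602 Crest.Agent.R122.Unw410 Crest.Agent.R122.Direct658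
open Crest.Agent.R122.OC285

noncomputable section

namespace Crest.Agent.R122.OneC285

variable {Φ : Space3 → ℝ} {f₀ : PhasePoint → ℝ} {ε : ℝ} {K : ℕ} {P : EPar} {τ : ℝ}

/-- Integral over the marked lines born at time `τ`. -/
def gInt (γ : ℝ → ℝ) (ρ : ℝ≥0∞) (K : ℕ) (τ : ℝ) (F : ML → ℝ≥0∞) : ℝ≥0∞ :=
  ∫⁻ v : Space3, Kin796.wG (γ τ) v * ∫⁻ y : Space3, ∑' k : ℕ, markW ρ K k * F ((τ, (y, v)), k)

theorem gInt_mono {γ : ℝ → ℝ} {ρ : ℝ≥0∞} {F G : ML → ℝ≥0∞}
    (h : ∀ l : ML, l.1.1 = τ → 1 ≤ l.2 → l.2 ≤ K → F l ≤ G l) :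
    gInt γ ρ K τ F ≤ gInt γ ρ K τ G := by
  unfold gInt
  refine lintegral_mono fun v => mul_le_mul' le_rfl (lintegral_mono fun y =>
    ENNReal.tsum_le_tsum fun k => ?_)
  by_cases hk : 1 ≤ k ∧ k ≤ K
  · exact mul_le_mul' le_rfl (h _ rfl hk.1 hk.2)
  · unfold markW
    rw [if_neg hk, zero_mul, zero_mul]

theorem measurable_born (hΦ : AdmissiblePotential Φ) (hε : 0 < ε) (n : ℕ) :
    Measurable fun q : Config n × ML => if BornIn Φ ε q.1 q.2 then (1 : ℝ≥0∞) else 0 := by
  refine Measurable.ite ?_ measurable_const measurable_const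
  have h : {q : Config n × ML | BornIn Φ ε q.1 q.2} =
      ⋃ i : Fin n, {q | dist q.2.1.2.1 (flow Φ ε q.2.1.1 q.1 i).1 ≤ ε} := by
    ext q
    simp only [BornIn, mem_ofPred_eq, mem_iUnion]
  rw [h]
  refine MeasurableSet.iUnion fun i => measurableSet_le ?_ measurable_const
  have h1 : Measurable fun q : Config n × ML => flow Φ ε q.2.1.1 q.1 :=
    (Flow671.measurable_flow_joint (ι := Fin n) hΦ hε).comp
      (f := fun q : Config n × ML => (q.2.1.1, q.1))
      ((measurable_fst.comp (measurable_fst.comp measurable_snd)).prodMk measurable_fst)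
  have h2 : Measurable fun q : Config n × ML => (flow Φ ε q.2.1.1 q.1 i).1 :=
    measurable_fst.comp ((measurable_pi_apply i).comp h1)
  exact (measurable_fst.comp (measurable_snd.comp (measurable_fst.comp measurable_snd))).dist h2

/-- The lines born at time `τ` as an integral with respect to `baseM (dirac τ)`. -/
theorem gInt_eq {γ : ℝ → ℝ} (hγ : Measurable γ) {ρ : ℝ≥0∞} {F : ML → ℝ≥0∞} (hF : Measurable F) :
    gInt γ ρ K τ F = ∫⁻ l, lineD γ ρ K l * F l ∂(OneC423.baseM (Measure.dirac τ)) := by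
  have hm : Measurable fun l : ML => lineD γ ρ K l * F l :=
    (EBasic602.measurable_lineD hγ).mul hF
  rw [OneC423.lintegral_baseM _ hm]
  have h0 : ∀ n : ℕ, Measurable fun q : (ℝ × Space3) × Space3 => (((q.1.1, (q.2, q.1.2)), n) : ML) :=
    fun n => by fun_prop
  have h1 : ∀ n : ℕ, Measurable fun q : ℝ × Space3 =>
      ∫⁻ y : Space3, lineD γ ρ K ((q.1, (y, q.2)), n) * F ((q.1, (y, q.2)), n) := fun n =>
    (hm.comp (h0 n)).lintegral_prod_right'
  have h2 : Measurable fun t : ℝ => ∑' n : ℕ, ∫⁻ v : Space3, ∫⁻ y : Space3,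
      lineD γ ρ K ((t, (y, v)), n) * F ((t, (y, v)), n) :=
    Measurable.tsum fun n => (h1 n).lintegral_prod_right'
  rw [lintegral_dirac' τ h2]
  have h3 : ∀ n : ℕ, Measurable fun v : Space3 =>
      ∫⁻ y : Space3, lineD γ ρ K ((τ, (y, v)), n) * F ((τ, (y, v)), n) := fun n =>
    (h1 n).comp (measurable_const.prodMk measurable_id)
  rw [← lintegral_tsum fun n => (h3 n).aemeasurable]
  unfold gInt
  refine lintegral_congr fun v => ?_
  have h4 : ∀ n : ℕ, Measurable fun y : Space3 =>
      lineD γ ρ K ((τ, (y, v)), n) * F ((τ, (y, v)), n) := fun n =>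
    (hm.comp (h0 n)).comp (f := fun y : Space3 => (((τ, v) : ℝ × Space3), y))
      (measurable_const.prodMk measurable_id)
  rw [← lintegral_tsum fun n => (h4 n).aemeasurable]
  have h5 : Measurable fun y : Space3 => ∑' k : ℕ, markW ρ K k * F ((τ, (y, v)), k) :=
    Measurable.tsum fun k => (((hF.comp (h0 k)).comp
      (f := fun y : Space3 => (((τ, v) : ℝ × Space3), y))
      (measurable_const.prodMk measurable_id))).const_mul _
  rw [← lintegral_const_mul _ h5]
  refine lintegral_congr fun y => ?_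
  rw [← ENNReal.tsum_mul_left]
  refine tsum_congr fun k => ?_
  unfold lineD
  ring


theorem gInt_add {γ : ℝ → ℝ} {ρ : ℝ≥0∞} {F G : ML → ℝ≥0∞} (hF : Measurable F) :
    gInt γ ρ K τ (fun l => F l + G l) = gInt γ ρ K τ F + gInt γ ρ K τ G := by
  unfold gInt
  have h0 : ∀ n : ℕ, Measurable fun q : Space3 × Space3 => (((τ, (q.2, q.1)), n) : ML) :=
    fun n => by fun_prop
  have h1 : ∀ v : Space3, Measurable fun y : Space3 =>
      ∑' k : ℕ, markW ρ K k * F ((τ, (y, v)), k) := fun v =>
    Measurable.tsum fun k => ((hF.comp (h0 k)).comp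
      (f := fun y : Space3 => (v, y)) (measurable_const.prodMk measurable_id)).const_mul _
  have h2 : Measurable fun v : Space3 => Kin796.wG (γ τ) v * ∫⁻ y : Space3, ∑' k : ℕ,
      markW ρ K k * F ((τ, (y, v)), k) := by
    have hw : Measurable fun v : Space3 => Kin796.wG (γ τ) v := by
      unfold Kin796.wG
      fun_prop
    refine hw.mul (Measurable.lintegral_prod_right' (f := fun q : Space3 × Space3 => ∑' k : ℕ,
      markW ρ K k * F ((τ, (q.2, q.1)), k)) ?_)
    exact Measurable.tsum fun k => (hF.comp (h0 k)).const_mul _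
  rw [← lintegral_add_left h2]
  refine lintegral_congr fun v => ?_
  rw [← mul_add, ← lintegral_add_left (h1 v)]
  congr 1
  refine lintegral_congr fun y => ?_
  rw [← ENNReal.tsum_add]
  refine tsum_congr fun k => ?_
  ring

/-- Joint measurability of the cluster term. -/
theorem measurable_clTerm (hΦ : AdmissiblePotential Φ) (hε : 0 < ε) (hγ : Measurable P.γ)
    (hcl : PClusterMap ε (clM Φ ε K P.te)) (n : ℕ) (i : Fin n) :
    Measurable fun q : Config n × ML => if (clM Φ ε K P.te n q.1 i q.2).Nonempty then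
      (MW.cfg q.1).touchW Φ ε K P q.2 else 0 := by
  refine Measurable.ite ?_ (MeasE416.measurable_touchW_cfg hΦ hε K P n) measurable_const
  have h : {q : Config n × ML | (clM Φ ε K P.te n q.1 i q.2).Nonempty} =
      {q : Config n × ML | clM Φ ε K P.te n q.1 i q.2 = ∅}ᶜ := by
    ext q
    simp only [mem_ofPred_eq, mem_compl_iff, Finset.nonempty_iff_ne_empty, ne_eq]
  rw [h]
  exact (hcl.meas n i ∅).compl

/-- **Split of `XE`.** -/
theorem XE_split (hΦ : AdmissiblePotential Φ) (hf : Measurable f₀) (hε : 0 < ε)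
    (hγ : Measurable P.γ) (hL : 0 ≤ P.L) (hτ : 0 < τ)
    (hcl : PClusterMap ε (clM Φ ε K P.te)) :
    XE Φ f₀ ε K P τ ≤
      gcE f₀ ε (fun n (w : Config n) => gInt P.γ P.ρ K τ fun l =>
        if BornIn Φ ε w l then 1 else 0) +
      (gcE f₀ ε (fun n (w : Config n) => gInt P.γ P.ρ K τ (dirW Φ ε K P w)) +
      gcE f₀ ε (fun n (w : Config n) => ∑ i : Fin n, ∫⁻ l,
        (if (clM Φ ε K P.te n w i l).Nonempty then
          (if 0 < l.1.1 then lineD P.γ P.ρ K l * (MW.cfg w).touchW Φ ε K P l else 0) else 0)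
          ∂(OneC423.baseM (Measure.dirac τ)))) := by
  have hTM : EBasic602.TouchMeas Φ ε K P := fun n => MeasE416.measurable_touchW_cfg hΦ hε K P n
  rw [EBasic602.XE_eq hf hTM]
  have hS : ∀ n : ℕ, Measurable fun q : Config n × ML => ∑ i : Fin n,
      if (clM Φ ε K P.te n q.1 i q.2).Nonempty then (MW.cfg q.1).touchW Φ ε K P q.2 else 0 :=
    fun n => Finset.measurable_sum _ fun i _ => measurable_clTerm hΦ hε hγ hcl n i
  -- pointwise
  have h1 : ∀ (n : ℕ) (w : Config n), w ∈ PairExcluded ε n →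
      gInt P.γ P.ρ K τ (fun l => (MW.cfg w).touchW Φ ε K P l) ≤
      gInt P.γ P.ρ K τ (fun l => if BornIn Φ ε w l then 1 else 0) +
      (gInt P.γ P.ρ K τ (dirW Φ ε K P w) + gInt P.γ P.ρ K τ (fun l => ∑ i : Fin n,
        if (clM Φ ε K P.te n w i l).Nonempty then (MW.cfg w).touchW Φ ε K P l else 0)) := by
    intro n w hw
    have hb : Measurable fun l : ML => if BornIn Φ ε w l then (1 : ℝ≥0∞) else 0 :=
      (measurable_born hΦ hε n).comp (f := fun l : ML => (w, l))
        (measurable_const.prodMk measurable_id)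
    have hs : Measurable fun l : ML => ∑ i : Fin n,
        if (clM Φ ε K P.te n w i l).Nonempty then (MW.cfg w).touchW Φ ε K P l else 0 :=
      (hS n).comp (f := fun l : ML => (w, l)) (measurable_const.prodMk measurable_id)
    rw [add_comm (gInt P.γ P.ρ K τ (dirW Φ ε K P w)), ← gInt_add hs, ← gInt_add hb]
    refine gInt_mono fun l hl _ hm => ?_
    refine (split_touch hΦ hε hL hw (by rw [hl]; exact hτ) hm).trans (le_of_eq ?_)
    rw [add_comm (dirW Φ ε K P w l)]
  refine (gcE_mono f₀ ε h1).trans ?_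
  -- the three expectations
  have hwb : ∀ n : ℕ, Measurable fun w : Config n => gInt P.γ P.ρ K τ fun l =>
      if BornIn Φ ε w l then 1 else 0 := by
    intro n
    have : (fun w : Config n => gInt P.γ P.ρ K τ fun l => if BornIn Φ ε w l then 1 else 0) =
        fun w => ∫⁻ l, lineD P.γ P.ρ K l * (if BornIn Φ ε w l then 1 else 0)
          ∂(OneC423.baseM (Measure.dirac τ)) := by
      funext w
      exact gInt_eq hγ ((measurable_born hΦ hε n).comp (f := fun l : ML => (w, l))
        (measurable_const.prodMk measurable_id))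
    rw [this]
    exact Measurable.lintegral_prod_right' (f := fun q : Config n × ML =>
      lineD P.γ P.ρ K q.2 * (if BornIn Φ ε q.1 q.2 then 1 else 0))
      (((EBasic602.measurable_lineD hγ).comp measurable_snd).mul (measurable_born hΦ hε n))
  have hG : ∀ n : ℕ, Measurable fun q : Config n × ML => if 0 < q.2.1.1 then
      lineD P.γ P.ρ K q.2 * (MW.cfg q.1).touchW Φ ε K P q.2 else 0 := fun n =>
    Measurable.ite (measurableSet_lt measurable_const
        (measurable_fst.comp (measurable_fst.comp measurable_snd)))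
      (((EBasic602.measurable_lineD hγ).comp measurable_snd).mul
        (MeasE416.measurable_touchW_cfg hΦ hε K P n)) measurable_const
  have hcT : ∀ (n : ℕ) (i : Fin n), Measurable fun q : Config n × ML =>
      (if (clM Φ ε K P.te n q.1 i q.2).Nonempty then
        (if 0 < q.2.1.1 then lineD P.γ P.ρ K q.2 * (MW.cfg q.1).touchW Φ ε K P q.2 else 0)
        else 0) := by
    intro n i
    refine Measurable.ite ?_ (hG n) measurable_const
    have h : {q : Config n × ML | (clM Φ ε K P.te n q.1 i q.2).Nonempty} =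
        {q : Config n × ML | clM Φ ε K P.te n q.1 i q.2 = ∅}ᶜ := by
      ext q
      simp only [mem_ofPred_eq, mem_compl_iff, Finset.nonempty_iff_ne_empty, ne_eq]
    rw [h]
    exact (hcl.meas n i ∅).compl
  have hws : ∀ n : ℕ, Measurable fun w : Config n => ∑ i : Fin n, ∫⁻ l,
      (if (clM Φ ε K P.te n w i l).Nonempty then
        (if 0 < l.1.1 then lineD P.γ P.ρ K l * (MW.cfg w).touchW Φ ε K P l else 0) else 0)
        ∂(OneC423.baseM (Measure.dirac τ)) := fun n =>
    Finset.measurable_sum _ fun i _ => (hcT n i).lintegral_prod_right'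
  have hse : ∀ (n : ℕ) (w : Config n), gInt P.γ P.ρ K τ (fun l => ∑ i : Fin n,
        if (clM Φ ε K P.te n w i l).Nonempty then (MW.cfg w).touchW Φ ε K P l else 0) =
      ∑ i : Fin n, ∫⁻ l, (if (clM Φ ε K P.te n w i l).Nonempty then
        (if 0 < l.1.1 then lineD P.γ P.ρ K l * (MW.cfg w).touchW Φ ε K P l else 0) else 0)
        ∂(OneC423.baseM (Measure.dirac τ)) := by
    intro n w
    have hs1 : Measurable fun l : ML => ∑ i : Fin n,
        if (clM Φ ε K P.te n w i l).Nonempty then (MW.cfg w).touchW Φ ε K P l else 0 :=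
      (hS n).comp (f := fun l : ML => (w, l)) (measurable_const.prodMk measurable_id)
    have hs2 : ∀ i : Fin n, Measurable fun l : ML =>
        (if (clM Φ ε K P.te n w i l).Nonempty then
        (if 0 < l.1.1 then lineD P.γ P.ρ K l * (MW.cfg w).touchW Φ ε K P l else 0) else 0) :=
      fun i => (hcT n i).comp (f := fun l : ML => (w, l))
        (measurable_const.prodMk measurable_id)
    rw [gInt_eq hγ hs1, ← lintegral_finsetSum' _ fun i _ => (hs2 i).aemeasurable]
    have hae : ∀ᵐ l ∂(OneC423.baseM (Measure.dirac τ)), l.1.1 = τ := by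
      unfold OneC423.baseM
      have h1 : ∀ᵐ x ∂((Measure.dirac τ).prod (volume : Measure PhasePoint)), x.1 = τ := by
        have h2 : ∀ᵐ t ∂(Measure.dirac τ : Measure ℝ), t = τ := by
          rw [ae_dirac_eq]
          exact Filter.eventually_pure.2 rfl
        exact Measure.quasiMeasurePreserving_fst.ae h2
      exact Measure.quasiMeasurePreserving_fst.ae h1
    refine lintegral_congr_ae ?_
    filter_upwards [hae] with l hl
    rw [Finset.mul_sum]
    refine Finset.sum_congr rfl fun i _ => ?_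
    rw [if_pos (show 0 < l.1.1 by rw [hl]; exact hτ), mul_ite, mul_zero]
  rw [gcE_add hf ε hwb]
  refine add_le_add le_rfl ?_
  simp only [hse]
  have hcomm : ∀ (n : ℕ) (w : Config n), gInt P.γ P.ρ K τ (dirW Φ ε K P w) +
      ∑ i : Fin n, ∫⁻ l, (if (clM Φ ε K P.te n w i l).Nonempty then
        (if 0 < l.1.1 then lineD P.γ P.ρ K l * (MW.cfg w).touchW Φ ε K P l else 0) else 0)
        ∂(OneC423.baseM (Measure.dirac τ)) =
      ∑ i : Fin n, ∫⁻ l, (if (clM Φ ε K P.te n w i l).Nonempty then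
        (if 0 < l.1.1 then lineD P.γ P.ρ K l * (MW.cfg w).touchW Φ ε K P l else 0) else 0)
        ∂(OneC423.baseM (Measure.dirac τ)) + gInt P.γ P.ρ K τ (dirW Φ ε K P w) :=
    fun n w => add_comm _ _
  simp only [hcomm]
  rw [gcE_add hf ε hws, add_comm]

/-- **The cluster term opened by Mecke.** -/
theorem clus_mecke (hΦ : AdmissiblePotential Φ) (hf : Measurable f₀) (hε : 0 < ε)
    (hγ : Measurable P.γ) (hcl : PClusterMap ε (clM Φ ε K P.te)) (κ : Measure ℝ) [SFinite κ] :
    gcE f₀ ε (fun n (w : Config n) => ∑ i : Fin n, ∫⁻ l,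
        (if (clM Φ ε K P.te n w i l).Nonempty then
          (if 0 < l.1.1 then lineD P.γ P.ρ K l * (MW.cfg w).touchW Φ ε K P l else 0) else 0)
          ∂(OneC423.baseM κ)) ≤
      ∑' k : ℕ, activity ε ^ k / (k.factorial : ℝ≥0∞) * ∫⁻ V : Config k, gcWeight f₀ ε k V *
        gcE f₀ ε (fun m w => perpInd ε V w * ∑ j : Fin k, ∫⁻ l,
          (if clM Φ ε K P.te (k + m) (Fin.append V w) (Fin.castAdd m j) l = block k m then
            (if 0 < l.1.1 then lineD P.γ P.ρ K l *
              (MW.cfg (Fin.append V w)).touchW Φ ε K P l else 0) else 0)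
          ∂(OneC423.baseM κ)) := by
  have h := param_mecke hf (OneC423.baseM κ) hcl
    (F := fun n _ _ w l => if 0 < l.1.1 then lineD P.γ P.ρ K l *
      (MW.cfg w).touchW Φ ε K P l else 0) ?_ ?_
  · rw [h]
    have h2 := ENNReal.tsum_comp_le_tsum_of_injective (Nat.succ_injective)
      (fun k : ℕ => activity ε ^ k / (k.factorial : ℝ≥0∞) * ∫⁻ V : Config k, gcWeight f₀ ε k V *
        gcE f₀ ε (fun m w => perpInd ε V w * ∑ j : Fin k, ∫⁻ l,
          (if clM Φ ε K P.te (k + m) (Fin.append V w) (Fin.castAdd m j) l = block k m then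
            (if 0 < l.1.1 then lineD P.γ P.ρ K l *
              (MW.cfg (Fin.append V w)).touchW Φ ε K P l else 0) else 0)
          ∂(OneC423.baseM κ)))
    exact h2
  · intro n σ i B Z l _
    rw [EquivE416.touchW_perm hΦ hε K P Z σ l]
  · intro n i B
    exact Measurable.ite (measurableSet_lt measurable_const
        (measurable_fst.comp (measurable_fst.comp measurable_snd)))
      (((EBasic602.measurable_lineD hγ).comp measurable_snd).mul
        (MeasE416.measurable_touchW_cfg hΦ hε K P n)) measurable_const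

end Crest.Agent.R122.OneC285

end
end

-- ▼ part R122/GasE4b_285

/-!
# INEQUALITY 1 (row 122, board H2), gas level, part B: real structures

* `extP` : extension of a permutation of the cluster by the identity.
* `firstHit_of_meet`, `ent_of_real` : the first contact is the entrance into the ball of the root line.
* `real4_of_red` : a clean contact whose cluster has a real tree history is a `Real4` structure
  (after relabelling), and the touch functional is the same.
* `clus_point` : pointwise reduction to trees.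
* `clus_tree` : reduction to trees, gas level.
-/

set_option autoImplicit false
set_option linter.unusedSectionVars false

open MeasureTheory Set Filter
open scoped ENNReal Classical Topology
open Crest.AnalysisR.Kinetic
open Crest.Agent.R122.Kin796 Crest.Agent.R122.Kin796.CTree Crest.Agent.R122.Tree674
open Crest.Agent.R122.Relabel674 Crest.Agent.R122.GC311 Crest.Agent.R122.Flow671
open Crest.Agent.R122.EDefs602 Crest.Agent.R122.TreeLines335 Crest.Agent.R122.Disc416
open Crest.Agent.R122.OC285 Crest.Agent.R122.Master566 Crest.Agent.R122.Causal291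
open Crest.Agent.R122.Inf879 Crest.Agent.R122.Direct658

noncomputable section

namespace Crest.Agent.R122.OneC285

/-! ## Relabelling -/

/-- Extension of a permutation by the identity. -/
def extP {k : ℕ} (m : ℕ) (σ : Equiv.Perm (Fin k)) : Equiv.Perm (Fin (k + m)) :=
  (finSumFinEquiv.symm.trans (Equiv.sumCongr σ (Equiv.refl (Fin m)))).trans finSumFinEquiv

theorem extP_castAdd {k m : ℕ} (σ : Equiv.Perm (Fin k)) (i : Fin k) :
    extP m σ (Fin.castAdd m i) = Fin.castAdd m (σ i) := by
  simp [extP]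

theorem extP_natAdd {k m : ℕ} (σ : Equiv.Perm (Fin k)) (i : Fin m) :
    extP m σ (Fin.natAdd k i) = Fin.natAdd k i := by
  simp [extP]

theorem append_extP {k m : ℕ} (σ : Equiv.Perm (Fin k)) (V : Config k) (w : Config m) :
    (Fin.append (fun i => V (σ i)) w : Config (k + m)) = fun i => Fin.append V w (extP m σ i) := by
  funext i
  refine Fin.addCases (fun i => ?_) (fun i => ?_) i
  · rw [extP_castAdd, Fin.append_left, Fin.append_left]
  · rw [extP_natAdd, Fin.append_right, Fin.append_right]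

theorem block_map_extP {k m : ℕ} (σ : Equiv.Perm (Fin k)) :
    (block k m).map (extP m σ).toEmbedding = block k m := by
  ext i
  rw [Finset.mem_map, mem_block]
  constructor
  · rintro ⟨a, ha, rfl⟩
    obtain ⟨j, rfl⟩ := mem_block.1 ha
    exact ⟨σ j, (extP_castAdd σ j).symm⟩
  · rintro ⟨j, rfl⟩
    refine ⟨Fin.castAdd m (σ.symm j), castAdd_mem_block _, ?_⟩
    show extP m σ (Fin.castAdd m (σ.symm j)) = Fin.castAdd m j
    rw [extP_castAdd, Equiv.apply_symm_apply]

variable {Φ : Space3 → ℝ} {f₀ : PhasePoint → ℝ} {ε : ℝ} {K : ℕ} {Q : EPar}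

theorem mSet_perm (hΦ : AdmissiblePotential Φ) (hε : 0 < ε) {n : ℕ} (σ : Equiv.Perm (Fin n))
    (w : Config n) (l : ML) : mSet Φ ε (fun i => w (σ i)) l = mSet Φ ε w l := by
  ext s
  simp only [mSet, mem_ofPred_eq]
  have h : ∀ i, flow Φ ε s (fun i => w (σ i)) i = flow Φ ε s w (σ i) := fun i =>
    congrFun (Loc45.flow_equiv hΦ hε σ s w) i
  constructor
  · rintro ⟨h1, i, h2⟩
    exact ⟨h1, σ i, by rw [← h]; exact h2⟩
  · rintro ⟨h1, i, h2⟩
    exact ⟨h1, σ.symm i, by rw [h, Equiv.apply_symm_apply]; exact h2⟩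

theorem mT_perm (hΦ : AdmissiblePotential Φ) (hε : 0 < ε) {n : ℕ} (σ : Equiv.Perm (Fin n))
    (w : Config n) (l : ML) : mT Φ ε (fun i => w (σ i)) l = mT Φ ε w l := by
  unfold mT
  rw [mSet_perm hΦ hε]

/-! ## First hits -/

/-- The first contact with the gas is a first hit of the particle met. -/
theorem firstHit_of_meet (hΦ : AdmissiblePotential Φ) (hε : 0 < ε) {T : ℝ} {n : ℕ} {w : Config n}
    {l : ML} {i : Fin n} (h : Meet Φ ε T w l i) :
    OC663.FirstHit ε (fun r => (back l.1).1 + r • l.1.2.2) (fun r => (flow Φ ε r w i).1) l.1.1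
      (mT Φ ε w l) := by
  set s := mT Φ ε w l with hs
  have hcont : Continuous fun s => flow Φ ε s w := flow_continuous_time hΦ hε w
  have hd : Continuous fun r => dist (lpos l r) (flow Φ ε r w i).1 :=
    (continuous_lpos l).dist (continuous_fst.comp ((continuous_apply i).comp hcont))
  have hfar : ∀ r ∈ Ioo l.1.1 s, ε < dist (lpos l r) (flow Φ ε r w i).1 := fun r hr =>
    far_of_lt hr.1.le hr.2 i
  refine ⟨h.lt, ?_, fun r hr => ?_⟩
  · have h1 : ‖(back l.1).1 + s • l.1.2.2 - (flow Φ ε s w i).1‖ =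
        dist (lpos l s) (flow Φ ε s w i).1 := (dist_eq_norm _ _).symm
    rw [h1]
    refine le_antisymm h.dist ?_
    by_contra hlt
    push Not at hlt
    have h2 : ∀ᶠ r in 𝓝[<] s, dist (lpos l r) (flow Φ ε r w i).1 < ε :=
      (hd.continuousAt.eventually (gt_mem_nhds hlt)).filter_mono nhdsWithin_le_nhds
    have h3 : ∀ᶠ r in 𝓝[<] s, r ∈ Ioo l.1.1 s := Ioo_mem_nhdsLT h.lt
    obtain ⟨r, hr1, hr2⟩ := (h2.and h3).exists
    exact absurd (hfar r hr2) (not_lt.2 hr1.le)
  · have h1 : ‖(back l.1).1 + r • l.1.2.2 - (flow Φ ε r w i).1‖ =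
        dist (lpos l r) (flow Φ ε r w i).1 := (dist_eq_norm _ _).symm
    show ε < ‖(back l.1).1 + r • l.1.2.2 - (flow Φ ε r w i).1‖
    rw [h1]
    exact hfar r hr

/-- Times before the horizon at which the tree is still valid. -/
theorem exists_topLt {P : CTree} {s : ℝ} (hs : 0 < s) {u : Space3} {p : Par P}
    (hv : Valid Φ ε P s u p) : ∃ α, 0 ≤ α ∧ α < s ∧ ∀ r, α ≤ r → TopLt P r p := by
  cases P with
  | leaf => exact ⟨0, le_rfl, hs, fun _ _ => trivial⟩
  | node a b =>
    have h1 : p.1.1 < s := hv.2.1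
    refine ⟨(max p.1.1 0 + s) / 2, ?_, ?_, fun r hr => ?_⟩
    · have := le_max_right p.1.1 0
      linarith
    · have : max p.1.1 0 < s := max_lt h1 hs
      linarith
    · have h2 : max p.1.1 0 < s := max_lt h1 hs
      have h3 := le_max_left p.1.1 (0 : ℝ)
      show p.1.1 < r
      linarith

/-- The real path of the root of a real tree is its line after its last encounter. -/
theorem root_path_of_real (hε : 0 < ε) {κ : Type} [Fintype κ] {Z : κ → PhasePoint} {i : κ}
    {P : CTree} {ℓ : PhasePoint} {p : Par P} {e : Idx P → κ} {s : ℝ}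
    (h : RealTree674.RealTree Φ ε s Z i P ℓ p e) {r : ℝ} (h0 : 0 ≤ r) (hr : r ≤ s)
    (ht : TopLt P r p) : flow Φ ε r Z i = onLine ℓ r := by
  have h1 := h.agree (Tree674.root P) r h0 (by rw [Final973.prot_root]; exact hr)
  have hv : Valid Φ ε P r ℓ.2 p := (valid_iff_top hr).2 ⟨h.valid, ht⟩
  rw [h.root, PathFlow968.path_root_after hε.le hv.2 le_rfl] at h1
  exact h1

/-! ## Real structures -/

theorem card_preC_le_of_not_inf (hΦ : AdmissiblePotential Φ) (hε : 0 < ε) {n : ℕ} {w : Config n}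
    (hw : w ∈ PairExcluded ε n) {s : ℝ} (hs : 0 ≤ s) {i : Fin n}
    (h : ¬ (MW.cfg w).Inf Φ ε K s i) : (preC Φ ε w s i).card ≤ K := by
  rw [EBasic602.cfg_inf_iff_size hΦ hε hw, not_lt] at h
  have h1 : (↑(preC Φ ε w s i) : Set (Fin n)) ⊆ BC (Ct (pth Φ ε w) ε) s i := by
    intro k hk
    rw [Finset.mem_coe] at hk
    simp only [preC, Finset.mem_filter, Finset.mem_univ, true_and] at hk
    rcases hk with rfl | ⟨s', -, hs', hR⟩
    · exact root_mem_BC hs
    · exact BC_mono_time hs'.le hR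
  have h2 := Set.ncard_le_ncard h1 (Set.toFinite _)
  rw [Set.ncard_coe_finset] at h2
  exact h2.trans h

/-- The entrance data of a real contact. -/
theorem ent_of_real (hΦ : AdmissiblePotential Φ) (hε : 0 < ε) {T : ℝ} {n : ℕ} {w : Config n}
    {l : ML} {i : Fin n} (hl : 0 < l.1.1) (h : Meet Φ ε T w l i) {P : CTree}
    {z : PhasePoint × Par P} {e : Idx P → Fin n}
    (hr : RealTree674.RealTree Φ ε (mT Φ ε w l) w i P z.1 z.2 e) :
    OneC423.Enters ε z.1 l.1 (mT Φ ε w l) := by
  have hs : 0 < mT Φ ε w l := hl.trans h.lt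
  obtain ⟨α, hα0, hα, hα'⟩ := exists_topLt hs hr.valid
  have hc : ∀ r ∈ Icc α (mT Φ ε w l), (flow Φ ε r w i).1 = z.1.1 + r • z.1.2 := by
    intro r hrr
    rw [root_path_of_real hε hr (hα0.trans hrr.1) hrr.2 (hα' r hrr.1)]
    rfl
  obtain ⟨h1, h2, h3⟩ := (firstHit_of_meet hΦ hε h).ent hε hα hc
  exact ⟨h1, h2, h3⟩

/-- **Real structures.** -/
theorem real4_of_red (hΦ : AdmissiblePotential Φ) (hε : 0 < ε) {T' : ℝ}
    (hcl : PClusterMap ε (clM Φ ε K Q.te)) {k m : ℕ} {V : Config k} {w : Config m} {j : Fin k}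
    {l : ML} (hV : V ∈ PairExcluded ε k) (hw : w ∈ PairExcluded ε m) (hp : Perp ε V w)
    (hblk : clM Φ ε K Q.te (k + m) (Fin.append V w) (Fin.castAdd m j) l = block k m)
    (hl : 0 < l.1.1) (hm : 1 ≤ l.2 ∧ l.2 ≤ K) {P : CTree} {e : Idx P ≃ Fin k}
    {z : PhasePoint × Par P} (he : e (root P) = j) (hVl : ∀ x, V (e x) = lines Φ ε P z.1 z.2 x)
    (hv : Valid Φ ε P T' z.1.2 z.2) (hs : Sep Φ ε P T' z.1 z.2)
    (hr : RealTree674.RealTree Φ ε (mT Φ ε (Fin.append V w) l) (Fin.append V w) (Fin.castAdd m j)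
      P z.1 z.2 (fun x => Fin.castAdd m (e x))) :
    P.leaves = k ∧ Real4 Φ ε K Q.te T' P z w l ∧
      (MW.cfg (Fin.append V w)).touchW Φ ε K Q l =
        (MW.cfg (Fin.append (cfT Φ ε P z) w)).touchW Φ ε K Q l := by
  have hk : P.leaves = k := by
    have := Fintype.card_congr e
    rw [card_idx, Fintype.card_fin] at this
    exact this
  subst hk
  refine ⟨rfl, ?_⟩
  set σ : Equiv.Perm (Fin P.leaves) := (eP P).symm.trans e with hσ
  have hcf : cfT Φ ε P z = fun i => V (σ i) := by
    funext i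
    show lines Φ ε P z.1 z.2 ((eP P).symm i) = V (e ((eP P).symm i))
    rw [hVl]
  have hap : (Fin.append (cfT Φ ε P z) w : Config (P.leaves + m)) =
      fun i => Fin.append V w (extP m σ i) := by
    rw [hcf, append_extP]
  have hσr : σ (rt P) = j := by
    show e ((eP P).symm (eP P (root P))) = j
    rw [Equiv.symm_apply_apply, he]
  have hVw : (Fin.append V w : Config (P.leaves + m)) ∈ PairExcluded ε (P.leaves + m) :=
    (append_mem_pairExcluded_iff V w).2 ⟨hV, hw, hp⟩
  -- the contact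
  have hC : CMeet Φ ε K Q.te (Fin.append V w) l (Fin.castAdd m j) := by
    by_contra hC
    have h1 : clM Φ ε K Q.te (P.leaves + m) (Fin.append V w) (Fin.castAdd m j) l = ∅ := by
      unfold clM
      rw [if_neg hC]
    rw [h1] at hblk
    have : Fin.castAdd m j ∈ block P.leaves m := castAdd_mem_block j
    rw [← hblk] at this
    exact absurd this (Finset.notMem_empty _)
  have hmT : mT Φ ε (Fin.append (cfT Φ ε P z) w) l = mT Φ ε (Fin.append V w) l := by
    rw [hap, mT_perm hΦ hε]
  have hent := ent_of_real hΦ hε hl hC.1 hr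
  have hcT : cT ε z l = mT Φ ε (Fin.append V w) l := hent.2.2.symm
  refine ⟨⟨?_, hw, ?_, hv, hs, ?_, ?_, hm, hl, ?_, ?_⟩, ?_⟩
  · rw [hcf]
    intro a b hab
    exact hV _ _ fun h => hab (σ.injective h)
  · rw [hcf]
    intro a b
    exact hp _ _
  · exact OneC423.mem_ctSet hent hC.1.lt hC.1.le hr.valid
  · rw [hmT, hcT]
  · have h1 := hcl.equiv (P.leaves + m) (extP m σ) (Fin.append V w) (Fin.castAdd m (rt P)) l hVw
    rw [extP_castAdd, hσr, hblk, ← hap] at h1
    have h2 : (block P.leaves m).map (extP m σ).toEmbedding =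
        (clM Φ ε K Q.te (P.leaves + m) (Fin.append (cfT Φ ε P z) w) (Fin.castAdd m (rt P))
          l).map (extP m σ).toEmbedding := by
      rw [block_map_extP]; exact h1
    exact (Finset.map_injective _ h2).symm
  · rw [hcT, hap]
    refine (RealTree674.realTree_equiv hΦ hε (extP m σ) (Fin.append V w)
      (Fin.castAdd m (rt P)) (fun x => Fin.castAdd m (eP P x))).2 ?_
    have h3 : extP m σ (Fin.castAdd m (rt P)) = Fin.castAdd m j := by rw [extP_castAdd, hσr]
    have h4 : (fun x => extP m σ (Fin.castAdd m (eP P x))) = fun x => Fin.castAdd m (e x) := by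
      funext x
      rw [extP_castAdd]
      show Fin.castAdd m (e ((eP P).symm (eP P x))) = _
      rw [Equiv.symm_apply_apply]
    rw [h3, h4]
    exact hr
  · rw [hap, EquivE416.touchW_perm hΦ hε]

/-! ## Pointwise reduction -/

/-- The functional of contact structures, localised on the contact set. -/
def HM (Φ : Space3 → ℝ) (ε : ℝ) (K : ℕ) (Q : EPar) (M : SF) (P : CTree)
    (z : PhasePoint × Par P) (m : ℕ) (w : Config m) (l : ML) : ℝ≥0∞ :=
  {l : ML | (z, l.1) ∈ OneC423.ctSet Φ ε Q.te P}.indicator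
    (fun l => lineD Q.γ Q.ρ K l * M P z m w l) l

/-- The cluster functional. -/
def FM (Φ : Space3 → ℝ) (ε : ℝ) (K : ℕ) (Q : EPar) (k m : ℕ) (V : Config k) (w : Config m)
    (j : Fin k) (l : ML) : ℝ≥0∞ :=
  if clM Φ ε K Q.te (k + m) (Fin.append V w) (Fin.castAdd m j) l = block k m then
    (if 0 < l.1.1 then lineD Q.γ Q.ρ K l *
      (MW.cfg (Fin.append V w)).touchW Φ ε K Q l else 0) else 0

/-- The error functional. -/
def BM (Φ : Space3 → ℝ) (ε : ℝ) (K : ℕ) (Q : EPar) (B : RF) (k m : ℕ) (V : Config k)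
    (w : Config m) (j : Fin k) (l : ML) : ℝ≥0∞ :=
  lineD Q.γ Q.ρ K l * (if clM Φ ε K Q.te (k + m) (Fin.append V w) (Fin.castAdd m j) l =
    block k m then B k m V w j (mT Φ ε (Fin.append V w) l) else 0)

/-- The pointwise property of the reduction at fixed `K`, `ε` (second part of `StmtRed`). -/
def RedAt (Φ : Space3 → ℝ) (ε : ℝ) (K : ℕ) (tw te T' : ℝ) (B : RF) : Prop :=
  ∀ (k m : ℕ) (V : Config k) (w : Config m) (j : Fin k) (s : ℝ),
    V ∈ PairExcluded ε k → w ∈ PairExcluded ε m → Perp ε V w → k ≤ K → 0 < s → s ≤ te →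
    preC Φ ε (Fin.append V w) s (Fin.castAdd m j) = block k m →
    1 ≤ B k m V w j s ∨
      ∃ (P : CTree) (e : Idx P ≃ Fin k) (z : PhasePoint × Par P), e (root P) = j ∧
        (∀ x, V (e x) = lines Φ ε P z.1 z.2 x) ∧
        Valid Φ ε P T' z.1.2 z.2 ∧ Sep Φ ε P T' z.1 z.2 ∧
        RealTree674.RealTree Φ ε s (Fin.append V w) (Fin.castAdd m j) P z.1 z.2
          (fun x => Fin.castAdd m (e x)) ∧
        GIV566.unhit Φ ε (ptube Φ ε P z) tw w

/-- The majorant property of a functional of structures. -/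
def MajAt (Φ : Space3 → ℝ) (ε : ℝ) (K : ℕ) (Q : EPar) (T' : ℝ) (M : SF) : Prop :=
  ∀ (P : CTree) (z : PhasePoint × Par P) (m : ℕ) (w : Config m) (l : ML), P.leaves ≤ K →
    Real4 Φ ε K Q.te T' P z w l → GIV566.unhit Φ ε (ptube Φ ε P z) Q.tw w →
    (MW.cfg (Fin.append (cfT Φ ε P z) w)).touchW Φ ε K Q l ≤ M P z m w l

theorem clus_point (hΦ : AdmissiblePotential Φ) (hε : 0 < ε) (hL : 0 ≤ Q.L) {T' : ℝ}
    (hcl : PClusterMap ε (clM Φ ε K Q.te)) {B : RF} (hB : RedAt Φ ε K Q.tw Q.te T' B) {M : SF}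
    (hM : MajAt Φ ε K Q T' M) (k m : ℕ) (V : Config k) (w : Config m) (j : Fin k) (l : ML)
    (hV : V ∈ PairExcluded ε k) (hw : w ∈ PairExcluded ε m) (hp : Perp ε V w) :
    FM Φ ε K Q k m V w j l ≤ TreeBound335.ways Φ ε T' (fun P z => HM Φ ε K Q M P z m w l) V j +
      BM Φ ε K Q B k m V w j l := by
  unfold FM
  by_cases hblk : clM Φ ε K Q.te (k + m) (Fin.append V w) (Fin.castAdd m j) l = block k m
  swap
  · rw [if_neg hblk]; exact zero_le
  rw [if_pos hblk]
  by_cases hl : 0 < l.1.1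
  swap
  · rw [if_neg hl]; exact zero_le
  rw [if_pos hl]
  by_cases hm : 1 ≤ l.2 ∧ l.2 ≤ K
  swap
  · have : lineD Q.γ Q.ρ K l = 0 := by
      unfold lineD markW
      rw [if_neg hm, mul_zero]
    rw [this, zero_mul]; exact zero_le
  have hVw : (Fin.append V w : Config (k + m)) ∈ PairExcluded ε (k + m) :=
    (append_mem_pairExcluded_iff V w).2 ⟨hV, hw, hp⟩
  have hC : CMeet Φ ε K Q.te (Fin.append V w) l (Fin.castAdd m j) := by
    by_contra hC
    have h1 : clM Φ ε K Q.te (k + m) (Fin.append V w) (Fin.castAdd m j) l = ∅ := by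
      unfold clM
      rw [if_neg hC]
    rw [h1] at hblk
    have : Fin.castAdd m j ∈ block k m := castAdd_mem_block j
    rw [← hblk] at this
    exact absurd this (Finset.notMem_empty _)
  have hpre : preC Φ ε (Fin.append V w) (mT Φ ε (Fin.append V w) l) (Fin.castAdd m j) =
      block k m := by
    rw [← hblk]
    unfold clM
    rw [if_pos hC]
  have hs0 : 0 < mT Φ ε (Fin.append V w) l := hl.trans hC.1.lt
  have hkK : k ≤ K := by
    have h1 := card_preC_le_of_not_inf hΦ hε hVw hs0.le hC.2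
    rw [hpre, card_block] at h1
    exact h1
  rcases hB k m V w j _ hV hw hp hkK hs0 hC.1.le hpre with hb | ⟨P, e, z, he, hVl, hv, hs, hr, hu⟩
  · refine le_trans ?_ le_add_self
    unfold BM
    rw [if_pos hblk]
    exact mul_le_mul' le_rfl ((touchW_le_one hL _ _).trans hb)
  · refine le_trans ?_ le_self_add
    obtain ⟨hk, h4, hW⟩ := real4_of_red hΦ hε hcl hV hw hp hblk hl hm he hVl hv hs hr
    refine le_trans ?_ (TreeBound335.le_ways hΦ hε (G := fun P z => HM Φ ε K Q M P z m w l)
      (ℓ := z.1) (p := z.2) he hv hVl)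
    show _ ≤ HM Φ ε K Q M P z m w l
    unfold HM
    rw [indicator_of_mem (show l ∈ {l : ML | (z, l.1) ∈ OneC423.ctSet Φ ε Q.te P} from h4.ct), hW]
    exact mul_le_mul' le_rfl (hM P z m w l (hk ▸ hkK) h4 hu)

/-! ## Gas level -/

theorem measurable_HM (hΦ : AdmissiblePotential Φ) (hγ : Measurable Q.γ) {M : SF}
    (hM : MeasSF M) (P : CTree) (m : ℕ) :
    Measurable fun q : (PhasePoint × Par P) × (Config m × ML) =>
      HM Φ ε K Q M P q.1 m q.2.1 q.2.2 := by
  have h1 : MeasurableSet {q : (PhasePoint × Par P) × (Config m × ML) |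
      (q.1, q.2.2.1) ∈ OneC423.ctSet Φ ε Q.te P} := by
    have h2 : Measurable fun q : (PhasePoint × Par P) × (Config m × ML) => (q.1, q.2.2.1) :=
      measurable_fst.prodMk (measurable_fst.comp (measurable_snd.comp measurable_snd))
    exact h2 (OneC423.measurableSet_ctSet hΦ ε Q.te P)
  have h3 : Measurable fun q : (PhasePoint × Par P) × (Config m × ML) =>
      lineD Q.γ Q.ρ K q.2.2 * M P q.1 m q.2.1 q.2.2 :=
    ((EBasic602.measurable_lineD hγ).comp (measurable_snd.comp measurable_snd)).mul (hM P m)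
  have h4 : (fun q : (PhasePoint × Par P) × (Config m × ML) =>
      HM Φ ε K Q M P q.1 m q.2.1 q.2.2) =
      {q : (PhasePoint × Par P) × (Config m × ML) |
        (q.1, q.2.2.1) ∈ OneC423.ctSet Φ ε Q.te P}.indicator
      (fun q => lineD Q.γ Q.ρ K q.2.2 * M P q.1 m q.2.1 q.2.2) := by
    funext q
    rfl
  rw [h4]
  exact h3.indicator h1

theorem measurable_BM (hγ : Measurable Q.γ) (hcl : PClusterMap ε (clM Φ ε K Q.te))
    (hmT : ∀ n : ℕ, Measurable fun q : Config n × ML => mT Φ ε q.1 q.2) {B : RF} (hB : MeasRF B)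
    (k m : ℕ) (j : Fin k) :
    Measurable fun q : Config k × (Config m × ML) => BM Φ ε K Q B k m q.1 q.2.1 j q.2.2 := by
  have hap : Measurable fun q : Config k × (Config m × ML) =>
      ((Fin.append q.1 q.2.1 : Config (k + m)), q.2.2) := by
    refine Measurable.prodMk ?_ (measurable_snd.comp measurable_snd)
    refine measurable_pi_iff.2 fun i => ?_
    refine Fin.addCases (fun i => ?_) (fun i => ?_) i
    · simp only [Fin.append_left]
      exact (measurable_pi_apply i).comp measurable_fst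
    · simp only [Fin.append_right]
      exact (measurable_pi_apply i).comp (measurable_fst.comp measurable_snd)
  unfold BM
  refine ((EBasic602.measurable_lineD hγ).comp (measurable_snd.comp measurable_snd)).mul
    (Measurable.ite ?_ ?_ measurable_const)
  · exact hap (hcl.meas (k + m) (Fin.castAdd m j) (block k m))
  · have h1 : Measurable fun q : Config k × (Config m × ML) =>
        (q.1, (q.2.1, mT Φ ε (Fin.append q.1 q.2.1) q.2.2)) :=
      measurable_fst.prodMk ((measurable_fst.comp measurable_snd).prodMk ((hmT (k + m)).comp hap))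
    exact (hB k m j).comp h1

/-- The error term of the reduction to trees. -/
def errB (Φ : Space3 → ℝ) (f₀ : PhasePoint → ℝ) (ε : ℝ) (K : ℕ) (Q : EPar) (κ : Measure ℝ)
    (B : RF) : ℝ≥0∞ :=
  ∑' k : ℕ, activity ε ^ k / (k.factorial : ℝ≥0∞) * ∫⁻ V : Config k, gcWeight f₀ ε k V *
    gcE f₀ ε (fun m w => perpInd ε V w * ∑ j : Fin k, ∫⁻ l, BM Φ ε K Q B k m V w j l
      ∂(OneC423.baseM κ))

/-- **Reduction of the cluster term to trees.** -/
theorem clus_tree (hΦ : AdmissiblePotential Φ) (hf : Measurable f₀) (hε : 0 < ε) (hL : 0 ≤ Q.L)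
    (hγ : Measurable Q.γ) {T' : ℝ} (κ : Measure ℝ) [SFinite κ]
    (hcl : PClusterMap ε (clM Φ ε K Q.te))
    (hmT : ∀ n : ℕ, Measurable fun q : Config n × ML => mT Φ ε q.1 q.2) {B : RF} (hBm : MeasRF B)
    (hB : RedAt Φ ε K Q.tw Q.te T' B) {M : SF} (hMm : MeasSF M) (hM : MajAt Φ ε K Q T' M) :
    gcE f₀ ε (fun n (w : Config n) => ∑ i : Fin n, ∫⁻ l,
        (if (clM Φ ε K Q.te n w i l).Nonempty then
          (if 0 < l.1.1 then lineD Q.γ Q.ρ K l * (MW.cfg w).touchW Φ ε K Q l else 0) else 0)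
          ∂(OneC423.baseM κ)) ≤
      OS Φ f₀ ε K Q T' κ M + errB Φ f₀ ε K Q κ B := by
  refine (clus_mecke hΦ hf hε hγ hcl κ).trans ?_
  exact ToTree335.to_tree hΦ hf hε (OneC423.baseM κ) (T := T')
    (H := HM Φ ε K Q M) (fun P m => measurable_HM hΦ hγ hMm P m)
    (F := FM Φ ε K Q) (B := BM Φ ε K Q B) (fun k m j => measurable_BM hγ hcl hmT hBm k m j)
    (fun k m V w j l hV hw hp => clus_point hΦ hε hL hcl hB hM k m V w j l hV hw hp)

end Crest.Agent.R122.OneC285

end
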