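import Crest.Agent.R122.GateF_973
import Crest.Agent.R122.PairRep_581

-- ▼ part R122/Dis_495
section

/-!
# Transfer of measurable majorants along a map (row 122, H11)

Gateway majorants live on a structure space `X`, the null slots on the label space `Y`, `T : X → Y`.
For `X` standard Borel the measure `μ` is disintegrated along `T` (`exists_dis`), so that a majorant of
`F ∘ T` on `X` yields a majorant of `F` on `Y` with the same integral (`exists_maj_map`); no
measurability of `F` is needed. `fLe_map`, `fNull_map`, `gNull_map` : the classes of `GateF_973`, with a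
further parameter `a ∈ A` and a measurable contact set `C ⊆ A × Y`; `fNull_map'`, `gNull_map'` :
without parameter.
-/

set_option autoImplicit false
set_option linter.unusedSectionVars false

open MeasureTheory Set Filter ProbabilityTheory
open scoped ENNReal Classical Topology
open Crest.AnalysisR.Kinetic
open Crest.Agent.R122.GC311 Crest.Agent.R122.EDefs602 Crest.Agent.R122.Gate424
open Crest.Agent.R122.Gate973

noncomputable section

namespace Crest.Agent.R122.Dis495

variable {X Y A : Type} [MeasurableSpace X] [StandardBorelSpace X] [MeasurableSpace Y]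
  [MeasurableEq Y] [MeasurableSpace A]

/-- **Disintegration of a finite measure along a map.** -/
theorem exists_dis (μ : Measure X) [IsFiniteMeasure μ] {T : X → Y} (hT : Measurable T) :
    ∃ (κ : Kernel Y X) (N : Set Y), IsSFiniteKernel κ ∧ MeasurableSet N ∧ (μ.map T) N = 0 ∧
      (∀ y, y ∉ N → κ y univ = 1 ∧ κ y {x | T x ≠ y} = 0) ∧
      ∀ h : Y × X → ℝ≥0∞, Measurable h →
        ∫⁻ y, ∫⁻ x, h (y, x) ∂(κ y) ∂(μ.map T) = ∫⁻ x, h (T x, x) ∂μ := by
  rcases isEmpty_or_nonempty X with hX | hX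
  · refine ⟨0, univ, inferInstance, MeasurableSet.univ, ?_, fun y hy => absurd (mem_univ y) hy,
      fun h _ => ?_⟩
    · rw [Measure.eq_zero_of_isEmpty μ, Measure.map_zero]
      rfl
    · rw [Measure.eq_zero_of_isEmpty μ, Measure.map_zero, lintegral_zero_measure,
        lintegral_zero_measure]
  · set ρ : Measure (Y × X) := μ.map fun x => (T x, x) with hρ
    have hTm : Measurable fun x : X => (T x, x) := hT.prodMk measurable_id
    have hfst : ρ.fst = μ.map T := by
      rw [Measure.fst, hρ, Measure.map_map measurable_fst hTm]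
      rfl
    have hdis : ρ.fst ⊗ₘ ρ.condKernel = ρ := ρ.disintegrate ρ.condKernel
    have hint : ∀ h : Y × X → ℝ≥0∞, Measurable h →
        ∫⁻ y, ∫⁻ x, h (y, x) ∂(ρ.condKernel y) ∂(μ.map T) = ∫⁻ x, h (T x, x) ∂μ := by
      intro h hh
      rw [← hfst, ← Measure.lintegral_compProd hh, hdis, hρ, lintegral_map hh hTm]
    have hD : MeasurableSet {q : Y × X | T q.2 ≠ q.1} :=
      (measurableSet_eq_fun (hT.comp measurable_snd) measurable_fst).compl
    have hg : Measurable fun y : Y => ρ.condKernel y {x | T x ≠ y} :=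
      Kernel.measurable_kernel_prodMk_left (κ := ρ.condKernel) hD
    have hz : ∫⁻ y, ρ.condKernel y {x | T x ≠ y} ∂(μ.map T) = 0 := by
      have h1 := hint ({q : Y × X | T q.2 ≠ q.1}.indicator fun _ => 1)
        (measurable_const.indicator hD)
      have h2 : ∀ y, ∫⁻ x, ({q : Y × X | T q.2 ≠ q.1}.indicator (fun _ => (1 : ℝ≥0∞))) (y, x)
          ∂(ρ.condKernel y) = ρ.condKernel y {x | T x ≠ y} := by
        intro y
        have h3 : MeasurableSet {x | T x ≠ y} := measurable_prodMk_left hD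
        rw [← lintegral_indicator_one h3]
        rfl
      simp only [h2] at h1
      rw [h1]
      refine (lintegral_congr fun x => ?_).trans lintegral_zero
      exact indicator_of_notMem
        (show (T x, x) ∉ {q : Y × X | T q.2 ≠ q.1} from fun h => h rfl) _
    have hae := (lintegral_eq_zero_iff hg).1 hz
    refine ⟨ρ.condKernel, {y | ρ.condKernel y {x | T x ≠ y} ≠ 0}, inferInstance,
      hg (measurableSet_singleton 0).compl, ?_, fun y hy => ⟨measure_univ, ?_⟩, hint⟩
    · exact hae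
    · by_contra h
      exact hy h

/-- The integral of a function above `F ∘ T` against the conditional law is above `F`. -/
theorem le_dis {κ : Measure X} {T : X → Y} {y : Y} (h1 : κ univ = 1) (h0 : κ {x | T x ≠ y} = 0)
    {c : ℝ≥0∞} {G : X → ℝ≥0∞} (hG : ∀ x, T x = y → c ≤ G x) : c ≤ ∫⁻ x, G x ∂κ := by
  calc c = ∫⁻ _ : X, c ∂κ := by rw [lintegral_const, h1, mul_one]
    _ ≤ ∫⁻ x, G x ∂κ := by
        refine lintegral_mono_ae ?_
        have h2 : ∀ᵐ x ∂κ, T x = y := h0
        filter_upwards [h2] with x hx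
        exact hG x hx

/-- Finite measures. -/
theorem exists_maj_fin {f₀ : PhasePoint → ℝ} (hf : Measurable f₀) (ε : ℝ) (α : Measure A)
    [SFinite α] (μ : Measure X) [IsFiniteMeasure μ] {T : X → Y} (hT : Measurable T)
    {C : Set (A × Y)} (hC : MeasurableSet C) {F : (n : ℕ) → A × Y → Config n → ℝ≥0∞}
    {G : (n : ℕ) → (A × X) × Config n → ℝ≥0∞} (hG : ∀ n, Measurable (G n))
    (hFG : ∀ n a x (w : Config n), w ∈ PairExcluded ε n → F n (a, T x) w ≤ G n ((a, x), w)) :
    ∃ G' : (n : ℕ) → (A × Y) × Config n → ℝ≥0∞, (∀ n, Measurable (G' n)) ∧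
      (∀ n q (w : Config n), w ∈ PairExcluded ε n → F n q w ≤ G' n (q, w)) ∧
      ∫⁻ q, gcE f₀ ε (fun n w => G' n (q, w)) ∂((α.prod (μ.map T)).restrict C) ≤
        ∫⁻ q, gcE f₀ ε (fun n w => G n (q, w))
          ∂((α.prod μ).restrict {q : A × X | (q.1, T q.2) ∈ C}) := by
  obtain ⟨κ, N, hκ, hNm, hN0, hN, hint⟩ := exists_dis μ hT
  have hGx : ∀ n, Measurable (Function.uncurry fun (q : (A × Y) × Config n) (x : X) =>
      G n ((q.1.1, x), q.2)) := fun n => (hG n).comp
    ((measurable_fst.fst.fst.prodMk measurable_snd).prodMk measurable_fst.snd)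
  set H : (n : ℕ) → (A × Y) × Config n → ℝ≥0∞ := fun n q =>
    ∫⁻ x, G n ((q.1.1, x), q.2) ∂(κ q.1.2) with hH
  have hHm : ∀ n, Measurable (H n) := fun n =>
    Measurable.lintegral_kernel_prod_right
      (κ := κ.comap (fun q : (A × Y) × Config n => q.1.2) measurable_fst.snd) (hGx n)
  have hIm : ∀ n, Measurable fun q : (A × Y) × Config n => if q.1.2 ∈ N then (∞ : ℝ≥0∞) else 0 :=
    fun n => Measurable.ite (measurable_fst.snd hNm) measurable_const measurable_const
  refine ⟨fun n q => H n q + if q.1.2 ∈ N then ∞ else 0, fun n => (hHm n).add (hIm n), ?_, ?_⟩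
  · rintro n ⟨a, y⟩ w hw
    show F n (a, y) w ≤ H n ((a, y), w) + if y ∈ N then ∞ else 0
    by_cases hy : y ∈ N
    · rw [if_pos hy]
      simp
    · rw [if_neg hy, add_zero]
      obtain ⟨h1, h0⟩ := hN y hy
      exact le_dis (c := F n (a, y) w) (G := fun x => G n ((a, x), w)) h1 h0 fun x hx => by
        rw [← hx]; exact hFG n a x w hw
  · -- measurability
    have hC' : MeasurableSet {q : A × X | (q.1, T q.2) ∈ C} :=
      (measurable_fst.prodMk (hT.comp measurable_snd)) hC
    have m1 : Measurable fun q : A × Y => gcE f₀ ε fun n w =>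
        H n (q, w) + if q.2 ∈ N then ∞ else 0 :=
      MeasE416.measurable_gcE_of hf ε (F := fun n q w => H n (q, w) + if q.2 ∈ N then ∞ else 0)
        fun n => (hHm n).add (hIm n)
    have m2 : Measurable fun q : A × X => gcE f₀ ε fun n w => G n (q, w) :=
      MeasE416.measurable_gcE_of hf ε (F := fun n q w => G n (q, w)) fun n => hG n
    rw [← lintegral_indicator hC, ← lintegral_indicator hC',
      lintegral_prod _ (m1.indicator hC).aemeasurable,
      lintegral_prod _ (m2.indicator hC').aemeasurable]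
    refine lintegral_mono fun a => ?_
    -- the integral in `y`
    have hNae : ∀ᵐ y ∂(μ.map T), y ∉ N := by
      rw [ae_iff]
      simpa using hN0
    have hCa : MeasurableSet {q : Y × X | (a, q.1) ∈ C} :=
      (measurable_const.prodMk measurable_fst) hC
    have m3 : Measurable fun q : Y × X => ({q : Y × X | (a, q.1) ∈ C}).indicator
        (fun q => gcE f₀ ε fun n w => G n ((a, q.2), w)) q :=
      (m2.comp (measurable_const.prodMk measurable_snd)).indicator hCa
    have hfin := hint _ m3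
    refine le_trans (le_of_eq ?_) (hfin.le.trans (le_of_eq ?_))
    · refine lintegral_congr_ae ?_
      filter_upwards [hNae] with y hy
      by_cases hc : (a, y) ∈ C
      · rw [indicator_of_mem hc]
        have e1 : ∀ x, ({q : Y × X | (a, q.1) ∈ C}).indicator
            (fun q => gcE f₀ ε fun n w => G n ((a, q.2), w)) (y, x) =
              gcE f₀ ε fun n w => G n ((a, x), w) := fun x =>
          indicator_of_mem (show (y, x) ∈ {q : Y × X | (a, q.1) ∈ C} from hc) _
        simp only [e1, if_neg hy, add_zero]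
        have hs : SFinite (κ y) := inferInstance
        rw [LN2.lintegral_gcE_swap hf ε (κ y) (F := fun n x w => G n ((a, x), w)) fun n =>
          (hG n).comp ((measurable_const.prodMk measurable_fst).prodMk measurable_snd)]
      · rw [indicator_of_notMem hc]
        have e1 : ∀ x, ({q : Y × X | (a, q.1) ∈ C}).indicator
            (fun q => gcE f₀ ε fun n w => G n ((a, q.2), w)) (y, x) = 0 := fun x =>
          indicator_of_notMem (show (y, x) ∉ {q : Y × X | (a, q.1) ∈ C} from hc) _
        simp only [e1, lintegral_zero]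
    · refine lintegral_congr fun x => ?_
      rfl

/-- **Transfer of a measurable majorant along a map**, s-finite measures. -/
theorem exists_maj_map {f₀ : PhasePoint → ℝ} (hf : Measurable f₀) (ε : ℝ) (α : Measure A)
    [SFinite α] (μ : Measure X) [SFinite μ] {T : X → Y} (hT : Measurable T)
    {C : Set (A × Y)} (hC : MeasurableSet C) {F : (n : ℕ) → A × Y → Config n → ℝ≥0∞}
    {G : (n : ℕ) → (A × X) × Config n → ℝ≥0∞} (hG : ∀ n, Measurable (G n))
    (hFG : ∀ n a x (w : Config n), w ∈ PairExcluded ε n → F n (a, T x) w ≤ G n ((a, x), w)) :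
    ∃ G' : (n : ℕ) → (A × Y) × Config n → ℝ≥0∞, (∀ n, Measurable (G' n)) ∧
      (∀ n q (w : Config n), w ∈ PairExcluded ε n → F n q w ≤ G' n (q, w)) ∧
      ∫⁻ q, gcE f₀ ε (fun n w => G' n (q, w)) ∂((α.prod (μ.map T)).restrict C) ≤
        ∫⁻ q, gcE f₀ ε (fun n w => G n (q, w))
          ∂((α.prod μ).restrict {q : A × X | (q.1, T q.2) ∈ C}) := by
  choose G' hG'm hFG' hG'i using fun i : ℕ =>
    exists_maj_fin hf ε α (sfiniteSeq μ i) hT hC hG hFG
  refine ⟨fun n q => ⨅ i, G' i n q, fun n => Measurable.iInf fun i => hG'm i n,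
    fun n q w hw => le_iInf fun i => hFG' i n q w hw, ?_⟩
  have e1 : (α.prod (μ.map T)).restrict C =
      Measure.sum fun i => (α.prod ((sfiniteSeq μ i).map T)).restrict C := by
    conv_lhs => rw [← sum_sfiniteSeq μ]
    rw [Measure.map_sum (by rw [sum_sfiniteSeq]; exact hT.aemeasurable), Measure.prod_sum_right,
      Measure.restrict_sum _ hC]
  have hC' : MeasurableSet {q : A × X | (q.1, T q.2) ∈ C} :=
    (measurable_fst.prodMk (hT.comp measurable_snd)) hC
  have e2 : (α.prod μ).restrict {q : A × X | (q.1, T q.2) ∈ C} =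
      Measure.sum fun i => (α.prod (sfiniteSeq μ i)).restrict {q : A × X | (q.1, T q.2) ∈ C} := by
    conv_lhs => rw [← sum_sfiniteSeq μ]
    rw [Measure.prod_sum_right, Measure.restrict_sum _ hC']
  rw [e1, e2, lintegral_sum_measure, lintegral_sum_measure]
  refine ENNReal.tsum_le_tsum fun i => le_trans (lintegral_mono fun q => ?_) (hG'i i)
  exact gcE_mono f₀ ε fun n w _ => iInf_le _ i

variable {f₀ : PhasePoint → ℝ} {I : Type}

/-- **Transfer of the gateway classes along a map**, with a parameter and a contact set. -/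
theorem fLe_map (hf : Measurable f₀) {α : ℝ → I → Measure A} {m : ℝ → I → Measure X}
    {T : ℝ → I → X → Y} {C : ℝ → I → Set (A × Y)}
    (hα : ∀ ε i, 0 < ε → SFinite (α ε i)) (hm : ∀ ε i, 0 < ε → SFinite (m ε i))
    (hT : ∀ ε i, 0 < ε → Measurable (T ε i)) (hC : ∀ ε i, 0 < ε → MeasurableSet (C ε i))
    {F : ℝ → I → (n : ℕ) → A × Y → Config n → ℝ≥0∞} {c : ℝ≥0∞}
    (h : FLe f₀ (fun ε i => ((α ε i).prod (m ε i)).restrict
        {q : A × X | (q.1, T ε i q.2) ∈ C ε i})
      (fun ε i n q w => F ε i n (q.1, T ε i q.2) w) c) :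
    FLe f₀ (fun ε i => ((α ε i).prod ((m ε i).map (T ε i))).restrict (C ε i)) F c := by
  obtain ⟨ε₀, h0, h⟩ := h
  refine ⟨ε₀, h0, fun ε hε hlt i => ?_⟩
  obtain ⟨G, hGm, hG, hGi⟩ := h ε hε hlt i
  have := hα ε i hε
  have := hm ε i hε
  obtain ⟨G', h1, h2, h3⟩ := exists_maj_map hf ε (α ε i) (m ε i) (hT ε i hε) (hC ε i hε)
    (F := F ε i) hGm (fun n a x w hw => hG n (a, x) w hw)
  exact ⟨G', h1, h2, h3.trans hGi⟩

theorem fNull_map (hf : Measurable f₀) {α : ℝ → I → Measure A} {m : ℝ → I → Measure X}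
    {T : ℝ → I → X → Y} {C : ℝ → I → Set (A × Y)}
    (hα : ∀ ε i, 0 < ε → SFinite (α ε i)) (hm : ∀ ε i, 0 < ε → SFinite (m ε i))
    (hT : ∀ ε i, 0 < ε → Measurable (T ε i)) (hC : ∀ ε i, 0 < ε → MeasurableSet (C ε i))
    {F : ℝ → I → (n : ℕ) → A × Y → Config n → ℝ≥0∞}
    (h : FNull f₀ (fun ε i => ((α ε i).prod (m ε i)).restrict
        {q : A × X | (q.1, T ε i q.2) ∈ C ε i})
      (fun ε i n q w => F ε i n (q.1, T ε i q.2) w)) :
    FNull f₀ (fun ε i => ((α ε i).prod ((m ε i).map (T ε i))).restrict (C ε i)) F :=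
  fun δ hδ => fLe_map hf hα hm hT hC (h δ hδ)



end Crest.Agent.R122.Dis495

end
end

-- ▼ part R122/GateOS2_495

/-!
# Null slots of inequality 3 from gateway null facts (row 122, H11 gate OS2)

The gateway works on the structure spaces `Θ_s` of the shapes behind the pair laws (`PairRep_581`), the
functional `bd` of `NullFacts` lives on `(P, z, m, w) × (Lab × LSt)`. For ANY functional `F` (no
measurability) whose pull-backs to the shapes are null, `exists_bd2` gives ONE measurable majorant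
`bd` of `F` whose pull-backs are null for all shapes of a countable family; `nullFacts_fam` : the
literal `NullFacts` for a countable family of pair laws with the same `bd`.
-/

set_option autoImplicit false
set_option linter.unusedSectionVars false

open MeasureTheory Set Filter Topology
open scoped Classical ENNReal
open Crest.AnalysisR.Kinetic
open Crest.Agent.R122.GC311 Crest.Agent.R122.Kin796 Crest.Agent.R122.Kin796.CTree
open Crest.Agent.R122.Tree674 Crest.Agent.R122.EDefs602
open Crest.Agent.R122.Gate424 Crest.Agent.R122.Gate973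
open Crest.Agent.R122.Boost969 (LSt)
open Crest.Agent.R122.Pair292 (Lab)
open Crest.Agent.R122.PairD292 Crest.Agent.R122.PairRep581

noncomputable section

namespace Crest.Agent.R122.GateOS2495

variable {Φ : Space3 → ℝ} {f₀ : PhasePoint → ℝ} {te T' : ℝ}

instance standardBorel_lab : StandardBorelSpace Lab := inferInstance

instance standardBorel_pair : StandardBorelSpace (Lab × LSt) := StandardBorelSpace.prod

/-- The parameters of a tree are a standard Borel space. -/
instance standardBorel_par : ∀ P : CTree, StandardBorelSpace (Par P)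
  | .leaf => by show StandardBorelSpace Unit; infer_instance
  | .node l r => by
    have h1 := standardBorel_par l
    have h2 := standardBorel_par r
    show StandardBorelSpace (NodeP × Par l × Par r)
    infer_instance

/-- A functional restricted to valid trees in contact and admissible labels. -/
def cutS (Φ : Space3 → ℝ) (ε : ℝ) (K : ℕ) (te T' : ℝ) (F : SF2) : SF2 := fun P z m w θ =>
  if Valid Φ ε P T' z.1.2 z.2 ∧ (z, θ) ∈ ctOk Φ ε K te P then F P z m w θ else 0

/-- Pull-back of a functional of the labels to a shape. -/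
abbrev pullS (Φ : Space3 → ℝ) (te T' : ℝ) (K : ℕ) (F : ℝ → SF2) (P : CTree) (S : Shp) :
    ℝ → Unit → (n : ℕ) → (PhasePoint × Par P) × S.Θ → Config n → ℝ≥0∞ := fun ε _ n q w =>
  if Valid Φ ε P T' q.1.1.2 q.1.2 ∧ q ∈ ctOkS Φ ε K te P S then
    F ε P q.1 n w (S.th ε q.2) else 0

/-- Change of variables from the shape to the labels. -/
theorem lintegral_osP_map (hΦ : AdmissiblePotential Φ) {S : Shp} {ε : ℝ} (K : ℕ) (P : CTree)
    (hs : SFinite (S.m ε)) (hth : Measurable (S.th ε))
    {g : (PhasePoint × Par P) × (Lab × LSt) → ℝ≥0∞} (hg : Measurable g) :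
    ∫⁻ q, g q ∂(((treeA Φ f₀ ε T' P).prod ((S.m ε).map (S.th ε))).restrict (ctOk Φ ε K te P)) =
      ∫⁻ q, g (q.1, S.th ε q.2) ∂(osP Φ f₀ te T' K P S ε ()) := by
  have hφ : Measurable fun q : (PhasePoint × Par P) × S.Θ => (q.1, S.th ε q.2) :=
    measurable_fst.prodMk (hth.comp measurable_snd)
  have e1 : (treeA Φ f₀ ε T' P).prod ((S.m ε).map (S.th ε)) =
      ((treeA Φ f₀ ε T' P).prod (S.m ε)).map (fun q => (q.1, S.th ε q.2)) := by
    have h1 := Measure.map_prod_map (treeA Φ f₀ ε T' P) (S.m ε) measurable_id hth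
    rw [Measure.map_id] at h1
    exact h1
  rw [e1, Measure.restrict_map hφ (measurableSet_ctOk hΦ ε K te P), lintegral_map hg hφ]
  rfl

/-- **One measurable majorant for a countable family of shapes.** -/
theorem exists_bd2 (hΦ : AdmissiblePotential Φ) (hf : Measurable f₀) {J : ℕ → Type}
    [∀ K, Countable (J K)] {Sh : ∀ K, J K → Shp}
    (hB : ∀ K j, StandardBorelSpace (Sh K j).Θ) (hsf : ∀ K j ε, SFinite ((Sh K j).m ε))
    (hth : ∀ K j ε, 0 < ε → Measurable ((Sh K j).th ε)) {F : ℕ → ℝ → SF2}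
    (h : ∀ K P j, P.leaves ≤ K → FNull f₀ (osP Φ f₀ te T' K P (Sh K j))
      (pullS Φ te T' K (F K) P (Sh K j))) :
    ∃ bd : ℕ → ℝ → SF2, (∀ K ε, MeasSF2 (bd K ε)) ∧
      (∀ (K : ℕ) (ε : ℝ), 0 < ε → ∀ P : CTree, P.leaves ≤ K →
        ∀ z (m : ℕ) (w : Config m) (θ : Lab × LSt), w ∈ PairExcluded ε m →
          Valid Φ ε P T' z.1.2 z.2 → (z, θ) ∈ ctOk Φ ε K te P →
          F K ε P z m w θ ≤ bd K ε P z m w θ) ∧
      (∀ (K : ℕ) (ε : ℝ) (P : CTree), ¬ P.leaves ≤ K → ∀ z (m : ℕ) (w : Config m)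
        (θ : Lab × LSt), bd K ε P z m w θ = 0) ∧
      ∀ K P j, P.leaves ≤ K → FNull f₀ (osP Φ f₀ te T' K P (Sh K j))
        (fun ε _ n q w => bd K ε P q.1 n w ((Sh K j).th ε q.2)) := by
  -- the labels
  have hL : ∀ K P j, P.leaves ≤ K →
      FNull f₀ (fun ε (_ : Unit) => ((treeA Φ f₀ ε T' P).prod
        (((Sh K j).m ε).map ((Sh K j).th ε))).restrict (ctOk Φ ε K te P))
        (fun ε _ n q w => cutS Φ ε K te T' (F K ε) P q.1 n w q.2) := by
    intro K P j hP
    have := hB K j
    exact Dis495.fNull_map hf (α := fun ε (_ : Unit) => treeA Φ f₀ ε T' P)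
      (m := fun ε _ => (Sh K j).m ε) (T := fun ε _ => (Sh K j).th ε)
      (C := fun ε _ => ctOk Φ ε K te P) (fun ε _ _ => inferInstance) (fun ε _ _ => hsf K j ε)
      (fun ε _ hε => hth K j ε hε) (fun ε _ _ => measurableSet_ctOk hΦ ε K te P) (h K P j hP)
  choose G hGm hG hGi using fun (K : ℕ) (P : CTree) (hP : P.leaves ≤ K) (j : J K) =>
    (hL K P j hP).exists_maj
  set bd : ℕ → ℝ → SF2 := fun K ε P z m w θ =>
    if hP : P.leaves ≤ K then ⨅ j, G K P hP j ε () m ((z, θ), w) else 0 with hbd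
  have hb1 : ∀ (K : ℕ) (ε : ℝ) (P : CTree) (hP : P.leaves ≤ K) z (m : ℕ) (w : Config m)
      (θ : Lab × LSt), bd K ε P z m w θ = ⨅ j, G K P hP j ε () m ((z, θ), w) := by
    intro K ε P hP z m w θ
    simp only [hbd, dif_pos hP]
  have hb0 : ∀ (K : ℕ) (ε : ℝ) (P : CTree), ¬ P.leaves ≤ K → ∀ z (m : ℕ) (w : Config m)
      (θ : Lab × LSt), bd K ε P z m w θ = 0 := by
    intro K ε P hP z m w θ
    simp only [hbd, dif_neg hP]
  refine ⟨bd, fun K ε P m => ?_, fun K ε hε P hP z m w θ hw hz hc => ?_, hb0,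
    fun K P j hP δ hδ => ?_⟩
  · by_cases hP : P.leaves ≤ K
    · simp only [hb1 K ε P hP]
      have h1 : Measurable fun q : (PhasePoint × Par P) × (Config m × (Lab × LSt)) =>
          (((q.1, q.2.2), q.2.1) : ((PhasePoint × Par P) × (Lab × LSt)) × Config m) :=
        (measurable_fst.prodMk measurable_snd.snd).prodMk measurable_snd.fst
      exact Measurable.iInf fun j => (hGm K P hP j ε () m).comp h1
    · simp only [hb0 K ε P hP]
      exact measurable_const
  · rw [hb1 K ε P hP]
    refine le_iInf fun j => ?_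
    have h1 : cutS Φ ε K te T' (F K ε) P z m w θ ≤ G K P hP j ε () m ((z, θ), w) :=
      hG K P hP j ε () m (z, θ) w hε hw
    unfold cutS at h1
    rwa [if_pos ⟨hz, hc⟩] at h1
  · obtain ⟨ε₀, h0, h1⟩ := hGi K P hP j δ hδ
    refine ⟨ε₀, h0, fun ε hε hlt _ =>
      ⟨fun n q => G K P hP j ε () n ((q.1.1, (Sh K j).th ε q.1.2), q.2), fun n => ?_,
        fun n q w _ => ?_, ?_⟩⟩
    · exact (hGm K P hP j ε () n).comp ((measurable_fst.fst.prodMk
        ((hth K j ε hε).comp measurable_fst.snd)).prodMk measurable_snd)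
    · show bd K ε P q.1 n w ((Sh K j).th ε q.2) ≤ _
      rw [hb1 K ε P hP]
      exact iInf_le _ j
    · refine le_trans (le_of_eq ?_) (h1 ε hε hlt ())
      have hg : Measurable fun q : (PhasePoint × Par P) × (Lab × LSt) =>
          gcE f₀ ε fun n w => G K P hP j ε () n (q, w) :=
        MeasE416.measurable_gcE_of hf ε (F := fun n q w => G K P hP j ε () n (q, w))
          fun n => hGm K P hP j ε () n
      exact (lintegral_osP_map hΦ K P (hsf K j ε) (hth K j ε hε) hg).symm


/-- Null structure integral from null pull-backs. -/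
theorem null_of_pull (hΦ : AdmissiblePotential Φ) (hf : Measurable f₀) {ι : ℕ → Type}
    [∀ K, Fintype (ι K)] {ν : ℕ → ℝ → Measure (Lab × LSt)} {S : ∀ K, ι K → Shp}
    (h : ∀ K, Rep (ν K) (S K)) {bd : ℕ → ℝ → SF2} {tw : ℝ}
    (hbd : ∀ K P s, P.leaves ≤ K → FNull f₀ (osP Φ f₀ te T' K P (S K s))
      (fun ε _ n q w => bd K ε P q.1 n w ((S K s).th ε q.2))) :
    Null fun K ε => OS2 Φ f₀ ε te T' (ν K ε) fun P z m w θ =>
      uG Φ ε tw K P z w θ * bd K ε P z m w θ := by
  refine null_os2 hΦ hf h fun K P s hP => (hbd K P s hP).mono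
    ⟨1, one_pos, fun ε _ _ _ n q w _ => ?_⟩
  show (if Valid Φ ε P T' q.1.1.2 q.1.2 ∧ q ∈ ctOkS Φ ε K te P (S K s) then
    bd K ε P q.1 n w ((S K s).th ε q.2) else 0) ≤ bd K ε P q.1 n w ((S K s).th ε q.2)
  split_ifs
  · exact le_rfl
  · exact bot_le

/-- **The null facts of inequality 3 for a countable family of pair laws, one functional `bd`.** -/
theorem nullFacts_fam (hΦ : AdmissiblePotential Φ) (hf : Measurable f₀) {Q : EPar} {T' : ℝ}
    {J : Type} [Countable J] {ι : J → ℕ → Type} [∀ j K, Fintype (ι j K)]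
    {ν : J → ℕ → ℝ → Measure (Lab × LSt)} {S : ∀ j K, ι j K → Shp}
    (hR : ∀ j K, Rep (ν j K) (S j K)) (hB : ∀ j K s, StandardBorelSpace (S j K s).Θ)
    {F : ℕ → ℝ → SF2}
    (hF : ∀ j K P s, P.leaves ≤ K → FNull f₀ (osP Φ f₀ Q.te T' K P (S j K s))
      (pullS Φ Q.te T' K (F K) P (S j K s)))
    (hok : ∀ j K ε, 0 < ε → OkAE Φ ε K (ν j K ε))
    (hbad : ∀ j, Null fun K ε => BAD Φ f₀ ε K Q (ν j K ε)) :
    ∃ bd : ℕ → ℝ → SF2,
      (∀ (K : ℕ) (ε : ℝ), 0 < ε → ∀ P : CTree, P.leaves ≤ K →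
        ∀ z (m : ℕ) (w : Config m) (θ : Lab × LSt), w ∈ PairExcluded ε m →
          Valid Φ ε P T' z.1.2 z.2 → (z, θ.2) ∈ OneC423.ctSet Φ ε Q.te P → OkL K θ →
          F K ε P z m w θ ≤ bd K ε P z m w θ) ∧
      ∀ j, NullFacts Φ f₀ Q T' bd (ν j) := by
  obtain ⟨bd, h1, h2, -, h4⟩ := exists_bd2 (te := Q.te) (T' := T') hΦ hf
    (J := fun K => Σ j, ι j K) (Sh := fun K a => S a.1 K a.2) (fun K a => hB a.1 K a.2)
    (fun K a ε => (hR a.1 K).sf a.2 ε) (fun K a ε hε => (hR a.1 K).mth a.2 ε hε)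
    (F := F) (fun K P a hP => hF a.1 K P a.2 hP)
  refine ⟨bd, fun K ε hε P hP z m w θ hw hz hc hL => h2 K ε hε P hP z m w θ hw hz ⟨hc, hL⟩,
    fun j => ⟨hok j, hbad j, fun K ε _ => h1 K ε, ?_⟩⟩
  exact null_of_pull hΦ hf (hR j) fun K P s hP => h4 K P ⟨j, s⟩ hP

end Crest.Agent.R122.GateOS2495

end
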