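import Crest.Agent.R122.Hid_424
import Crest.Agent.R122.GenericMain_491

/-!
Row 122 (helper491): hidden tubes (`Hid_424`) of straight-line trees are generic: tubes of one tree,
of two trees glued at the same root line, and tubes of a tree versus a fixed finite family of lines.
-/

set_option autoImplicit false

open MeasureTheory Crest.AnalysisR.Kinetic Set
open scoped Classical ENNReal

noncomputable section

namespace Crest.Agent.R122.Generic491

open Kin796 Kin796.CTree Disc416 Tree674 Kin416 Boltz814 Hid424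

variable {Φ : Space3 → ℝ} {l r : CTree}

lemma hS_inl (v : Space3) (a : NodeP) (pl : Par l) (pr : Par r) (i : Idx l) :
    hS Φ (node l r) v (mkP a pl pr) (inlI l r i) =
      (if (preV Φ v a).1 = v then hS Φ l v pl else prot l a.1 pl) i := rfl
lemma hS_inr (v : Space3) (a : NodeP) (pl : Par l) (pr : Par r) (i : Idx r) :
    hS Φ (node l r) v (mkP a pl pr) (inrI l r i) =
      (if (preV Φ v a).2 = v then hS Φ r v pr else prot r a.1 pr) i := rfl

lemma valid_mk (T : ℝ) (v : Space3) (a : NodeP) (pl : Par l) (pr : Par r) :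
    Valid Φ 0 (node l r) T v (mkP a pl pr) ↔ (Adm1 Φ v a ∧ 0 < a.1 ∧ a.1 < T) ∧
      Valid Φ 0 l a.1 (preV Φ v a).1 pl ∧ Valid Φ 0 r a.1 (preV Φ v a).2 pr :=
  TreeF399.valid_node l r T v (mkP a pl pr)

/-- the hidden tube of any particle ends before `T` -/
lemma hS_le (P : CTree) {T : ℝ} (hT : 0 < T) (v : Space3) (p : Par P)
    (hV : Valid Φ 0 P T v p) (i : Idx P) : hS Φ P v p i ≤ T := (hS_lt P hT v p hV i).le

/-- **A particle in its hidden tube is not on the root line.** -/
theorem not_str_of_le (P : CTree) {T : ℝ} (v : Space3) (p : Par P)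
    (hV : Valid Φ 0 P T v p) (u : ℝ) (hu : 0 ≤ u) (i : Idx P) (hi : u ≤ hS Φ P v p i) :
    ¬ Str Φ P v p (legOf P p u i) := by
  induction P generalizing T v with
  | leaf =>
    have h1 : hS Φ leaf v p i = -1 := rfl
    rw [h1] at hi
    linarith
  | node l r hl hr =>
    obtain ⟨a, pl, pr, rfl⟩ := exists_mkP p
    rw [valid_mk] at hV
    obtain ⟨⟨ha, h0, hT⟩, hVl, hVr⟩ := hV
    rcases idx_cases i with ⟨i, rfl⟩ | ⟨i, rfl⟩
    · rw [hS_inl] at hi
      by_cases h : (preV Φ v a).1 = v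
      · rw [if_pos h] at hi
        rw [h] at hVl
        have h1 : u ≤ a.1 := hi.trans (hS_le l h0 v pl hVl i)
        rw [legOf_inl, if_pos (Or.inl h1), str_segL, h]
        exact fun hh => hl v pl hVl i hi hh.2
      · rw [if_neg h] at hi
        have h1 : u ≤ a.1 := hi.trans (PathFlow968.prot_le le_rfl l a.1 _ pl hVl.2 i)
        rw [legOf_inl, if_pos (Or.inl h1), str_segL]
        exact fun hh => h hh.1
    · rw [hS_inr] at hi
      by_cases h : (preV Φ v a).2 = v
      · rw [if_pos h] at hi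
        rw [h] at hVr
        have h1 : u ≤ a.1 := hi.trans (hS_le r h0 v pr hVr i)
        rw [legOf_inr, if_pos (Or.inl h1), str_segR, h]
        exact fun hh => hr v pr hVr i hi hh.2
      · rw [if_neg h] at hi
        have h1 : u ≤ a.1 := hi.trans (PathFlow968.prot_le le_rfl r a.1 _ pr hVr.2 i)
        rw [legOf_inr, if_pos (Or.inl h1), str_segR]
        exact fun hh => h hh.1

/-! ### One tree -/



/-! ### A curve made of finitely many line pieces -/

/-- outside of a finite set of times of `[0, b]`, the curve is on one of the lines of `A` -/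
def OnLines (A : Set PhasePoint) (c : ℝ → Space3) (b : ℝ) : Prop :=
  ∃ N : Set ℝ, N.Finite ∧ ∀ s : ℝ, 0 ≤ s → s ≤ b → s ∉ N → ∃ z ∈ A, c s = (onLine z s).1

lemma OnLines.mono {A A' : Set PhasePoint} {c : ℝ → Space3} {b b' : ℝ} (h : OnLines A c b)
    (hA : A ⊆ A') (hb : b' ≤ b) : OnLines A' c b' := by
  obtain ⟨N, hN, h⟩ := h
  refine ⟨N, hN, fun s h0 h1 hs => ?_⟩
  obtain ⟨z, hz, hz'⟩ := h s h0 (h1.trans hb) hs
  exact ⟨z, hA hz, hz'⟩

/-- Two curves on disjoint finite families of lines meet finitely often. -/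
theorem OnLines.finite_meet {A A' : Set PhasePoint} {c c' : ℝ → Space3} {b b' : ℝ}
    (h : OnLines A c b) (h' : OnLines A' c' b') (hA : A.Finite) (hA' : A'.Finite)
    (hd : ∀ z ∈ A, ∀ z' ∈ A', z ≠ z') :
    {s : ℝ | 0 ≤ s ∧ s ≤ b ∧ s ≤ b' ∧ c s = c' s}.Finite := by
  obtain ⟨N, hN, h⟩ := h
  obtain ⟨N', hN', h'⟩ := h'
  have hU : (N ∪ N' ∪ ⋃ z ∈ A, ⋃ z' ∈ A', {s : ℝ | z ≠ z' ∧
      (onLine z s).1 = (onLine z' s).1}).Finite := by
    refine (hN.union hN').union ?_
    refine hA.biUnion fun z hz => hA'.biUnion fun z' hz' => ?_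
    by_cases hzz : z = z'
    · exact absurd hzz (hd z hz z' hz')
    · exact (meet_subsingleton hzz).finite.subset fun u hu => hu.2
  refine hU.subset ?_
  rintro s ⟨h0, h1, h2, h3⟩
  by_cases hs : s ∈ N ∪ N'
  · exact Or.inl hs
  · rw [mem_union, not_or] at hs
    obtain ⟨z, hz, e⟩ := h s h0 h1 hs.1
    obtain ⟨z', hz', e'⟩ := h' s h0 h2 hs.2
    refine Or.inr (mem_iUnion₂.2 ⟨z, hz, mem_iUnion₂.2 ⟨z', hz', hd z hz z' hz', ?_⟩⟩)
    rw [← e, ← e', h3]

/-- lines of the non-straight legs of a tree -/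
def legs (Φ : Space3 → ℝ) (P : CTree) (ℓ : PhasePoint) (p : Par P) : Set PhasePoint :=
  {z | ∃ k : Seg P, ¬ Str Φ P ℓ.2 p k ∧ z = seg Φ P ℓ p k}

/-- lines of all legs of a tree -/
def allLegs (Φ : Space3 → ℝ) (P : CTree) (ℓ : PhasePoint) (p : Par P) : Set PhasePoint :=
  range (seg Φ P ℓ p)

lemma legs_subset (P : CTree) (ℓ : PhasePoint) (p : Par P) : legs Φ P ℓ p ⊆ allLegs Φ P ℓ p := by
  rintro z ⟨k, -, rfl⟩
  exact mem_range_self k

lemma finite_allLegs (P : CTree) (ℓ : PhasePoint) (p : Par P) : (allLegs Φ P ℓ p).Finite :=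
  Set.finite_range _

lemma finite_legs (P : CTree) (ℓ : PhasePoint) (p : Par P) : (legs Φ P ℓ p).Finite :=
  (finite_allLegs P ℓ p).subset (legs_subset P ℓ p)


/-- the hidden tube of a particle follows non-straight legs -/
theorem onLines_hid (P : CTree) {T : ℝ} (ℓ : PhasePoint) (p : Par P) (hV : Valid Φ 0 P T ℓ.2 p)
    (i : Idx P) : OnLines (legs Φ P ℓ p) (fun s => (path Φ 0 P ℓ p s i).1) (hS Φ P ℓ.2 p i) := by
  refine ⟨∅, finite_empty, fun s h0 h1 _ => ⟨_, ⟨legOf P p s i, ?_, rfl⟩, ?_⟩⟩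
  · exact not_str_of_le P ℓ.2 p hV s h0 i h1
  · show (path Φ 0 P ℓ p s i).1 = _
    rw [path_eq_seg]


/-! ### Two trees glued at the same root line -/




/-! ### A tree and a fixed countable family of lines -/





end Crest.Agent.R122.Generic491

end
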