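import Crest.Agent.R122.OkRoot_663
import Crest.Agent.R122.TransLine_151
import Crest.Agent.R122.InEq2TX_335
import Crest.Agent.R122.MeasPair_522

/-!
# Row 122 (helper663): good worlds with an independent line

* `ok_gas_line` , `ae_ok_gas_line` : particles born at time `0`, separated, and one line.
* `okFam_withD` : families `F + l` from `Z` and `Z + l`.
* `ae_ok_births` : a world with random states and fixed births is good.
* `ae_lineV` : almost every line, from almost every state at fixed birth time and mark.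
* `ae_goodX` : (X1) of helper335's `GoodX`: for almost every tree, gas and line, the lines of the tree
  (root included) and `l` can be inserted together in the gas, and the real world with `l` is good.
-/

set_option autoImplicit false
set_option linter.unusedSectionVars false

open MeasureTheory Set Filter Topology
open scoped ENNReal
open Crest.AnalysisR.Kinetic
open Crest.Agent.R122.Flow671 hiding rel
open Crest.Agent.R122.Loc45 Crest.Agent.R122.Causal291 Crest.Agent.R122.Ins45
open Crest.Agent.R122.Inf879 Crest.Agent.R122.GC311 Crest.Agent.R122.EDefs602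
open Crest.Agent.R122.Kin796 Crest.Agent.R122.Kin796.CTree Crest.Agent.R122.Disc416
open Crest.Agent.R122.Tree674 Crest.Agent.R122.PathFlow968 Crest.Agent.R122.TreeLines335
open Crest.Agent.R122.LNTree410 Crest.Agent.R122.TransOk151 Crest.Agent.R122.RtG302
open Crest.Agent.R122.MeasE416 Crest.Agent.R122.MWAlg255 Crest.Agent.R122.LineMeas994
open Crest.Agent.R122.E6Hyp879 (withD)
open Crest.Agent.R122.InEq2T (PerpT GoodX)

noncomputable section

open scoped Classical

namespace Crest.Agent.R122.AllOk663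

variable {Φ : Space3 → ℝ} {ε : ℝ}

/-! ### Generic worlds -/

section generic

variable {ι κ : Type} [Fintype ι] [Fintype κ]



/-- The lines `F` and `l` can be inserted together. -/
theorem okFam_withD (hΦ : AdmissiblePotential Φ) (hε : 0 < ε) {Z : MW ι} {F : κ → ML} {l : ML}
    (h0 : MW.OkFam Φ ε Z F) (h1 : MW.OkFam Φ ε (Z.ins l) F) : MW.OkFam Φ ε Z (withD F l) := by
  intro S
  set S' : Finset κ := S.preimage Sum.inl Sum.inl_injective.injOn with hS'
  have hmem : ∀ k : κ, k ∈ S' ↔ Sum.inl k ∈ S := fun k => Finset.mem_preimage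
  by_cases hl : (Sum.inr () : κ ⊕ Unit) ∈ S
  · let e : (ι ⊕ Unit) ⊕ S' ≃ ι ⊕ S :=
      { toFun := fun x => match x with
          | Sum.inl (Sum.inl i) => Sum.inl i
          | Sum.inl (Sum.inr _) => Sum.inr ⟨Sum.inr (), hl⟩
          | Sum.inr k => Sum.inr ⟨Sum.inl k.1, (hmem k.1).1 k.2⟩
        invFun := fun x => match x with
          | Sum.inl i => Sum.inl (Sum.inl i)
          | Sum.inr ⟨Sum.inl k, hk⟩ => Sum.inr ⟨k, (hmem k).2 hk⟩
          | Sum.inr ⟨Sum.inr _, _⟩ => Sum.inl (Sum.inr ())
        left_inv := by rintro ((i | u) | k) <;> rfl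
        right_inv := by rintro (i | ⟨k | u, hk⟩) <;> rfl }
    have he : (Z.add (sub (withD F l) S)).comap e = (Z.ins l).add (sub F S') := by
      unfold MW.ins sub MW.comap MW.add MW.line MW.lines withD
      congr 1 <;> · funext x; rcases x with (x | x) | x <;> rfl
    have h2 := h1 S'
    rw [← he] at h2
    exact h2.of_comap hΦ hε e
  · let e : ι ⊕ S' ≃ ι ⊕ S :=
      { toFun := fun x => match x with
          | Sum.inl i => Sum.inl i
          | Sum.inr k => Sum.inr ⟨Sum.inl k.1, (hmem k.1).1 k.2⟩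
        invFun := fun x => match x with
          | Sum.inl i => Sum.inl i
          | Sum.inr ⟨Sum.inl k, hk⟩ => Sum.inr ⟨k, (hmem k).2 hk⟩
          | Sum.inr ⟨Sum.inr _, hk⟩ => absurd hk hl
        left_inv := by rintro (i | k) <;> rfl
        right_inv := by
          rintro (i | ⟨k | u, hk⟩)
          · rfl
          · rfl
          · exact absurd hk hl }
    have he : (Z.add (sub (withD F l) S)).comap e = Z.add (sub F S') := by
      unfold sub MW.comap MW.add withD
      congr 1 <;> · funext x; rcases x with x | x <;> rfl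
    have h2 := h0 S'
    rw [← he] at h2
    exact h2.of_comap hΦ hε e

/-- **Random states, fixed births**: the world is good. -/
theorem ae_ok_births (hΦ : AdmissiblePotential Φ) (hε : 0 < ε) (b : ι → ℝ) (hb : ∀ i, 0 ≤ b i) :
    ∀ᵐ u : ι → PhasePoint, ∀ W : MW ι, W.b = b → W.z = u → SepB ε W → W.Ok Φ ε := by
  have h := ae_okFam (α := Empty) (ω := ι) hΦ hε (fun _ => 0) b hb
  have h2 := Measure.ae_ae_of_ae_prod h
  have : NeZero (volume : Measure (Empty → PhasePoint)) := by
    refine ⟨?_⟩
    rw [Measure.volume_pi_eq_dirac (ι := Empty) (α := fun _ => PhasePoint) (fun x => x.elim)]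
    exact Measure.dirac_ne_zero
  obtain ⟨V, hV⟩ := h2.exists
  filter_upwards [hV] with u hu W hWb hWz hS
  have hX : BWorld Φ ε (fun _ : Empty => (0 : ℝ)) 0 fun t => flow Φ ε t V :=
    World.bworld (world_flow hΦ hε (Dom_subsingleton V)) fun _ => le_rfl
  have h3 := hu (fun _ => 0) 0 _ hX (Flow671.flow_zero hΦ hε V) Empty id (fun x => x.elim) W
    Function.injective_id ⟨fun i => i.elim, fun i => i.elim, fun i => i.elim, fun i => i.elim,
      fun i => i.elim⟩ (fun x => x.elim) hWb hWz ?_
  · exact h3.base hΦ hε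
  · exact sepB_add_lines hS (fun x => x.elim) fun _ x => x.elim

end generic

/-! ### Measure theory -/

/-- Almost every line, from almost every state at fixed birth time and mark. -/
theorem ae_lineV {A : Type*} [MeasurableSpace A] {μ : Measure A} [SFinite μ] {T : ℝ}
    {G : Set (A × ML)} (hG : MeasurableSet G)
    (h : ∀ τ ∈ Ioc 0 T, ∀ n : ℕ, ∀ᵐ q ∂(μ.prod (volume : Measure PhasePoint)),
      (q.1, ((τ, q.2), n)) ∈ G) : ∀ᵐ q ∂(μ.prod (lineV T)), q ∈ G := by
  set ρ : Measure ℝ := volume.restrict (Ioc (0 : ℝ) T) with hρ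
  -- one mark
  have key : ∀ n : ℕ, ∀ᵐ a ∂μ, ∀ᵐ x ∂(ρ.prod (volume : Measure PhasePoint)), (a, (x, n)) ∈ G := by
    intro n
    refine Measure.ae_ae_of_ae_prod (p := fun q : A × (ℝ × PhasePoint) => (q.1, (q.2, n)) ∈ G) ?_
    set B : Set (ℝ × (A × PhasePoint)) := {q | (q.2.1, ((q.1, q.2.2), n)) ∉ G} with hB
    have hBm : MeasurableSet B := by
      refine (hG.preimage (f := fun q : ℝ × (A × PhasePoint) => (q.2.1, ((q.1, q.2.2), n))) ?_).compl
      exact measurable_snd.fst.prodMk ((measurable_fst.prodMk measurable_snd.snd).prodMk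
        measurable_const)
    have hB0 : (ρ.prod (μ.prod (volume : Measure PhasePoint))) B = 0 := by
      rw [Measure.measure_prod_null hBm]
      refine (ae_restrict_iff' measurableSet_Ioc).2 (Eventually.of_forall fun τ hτ => ?_)
      exact h τ hτ n
    have hB1 : ∀ᵐ q ∂(ρ.prod (μ.prod (volume : Measure PhasePoint))), (q.2.1, ((q.1, q.2.2), n)) ∈ G := by
      filter_upwards [compl_mem_ae_iff.2 hB0] with q hq
      exact not_not.1 hq
    -- rearrangement
    have e1 : MeasurePreserving (fun q : A × (ℝ × PhasePoint) => (q.2.1, (q.1, q.2.2)))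
        (μ.prod (ρ.prod volume)) (ρ.prod (μ.prod (volume : Measure PhasePoint))) := by
      have m1 := (measurePreserving_prodAssoc μ ρ (volume : Measure PhasePoint)).symm
      have m2 : MeasurePreserving (fun q : (A × ℝ) × PhasePoint => (q.1.swap, q.2))
          ((μ.prod ρ).prod volume) ((ρ.prod μ).prod (volume : Measure PhasePoint)) :=
        (Measure.measurePreserving_swap (μ := μ) (ν := ρ)).prod (MeasurePreserving.id _)
      have m3 := measurePreserving_prodAssoc ρ μ (volume : Measure PhasePoint)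
      exact m3.comp (m2.comp m1)
    exact e1.quasiMeasurePreserving.ae hB1
  -- all marks
  have hGc : MeasurableSet Gᶜ := hG.compl
  have h0 : (μ.prod (lineV T)) Gᶜ = 0 := by
    rw [Measure.measure_prod_null hGc]
    have h2 : ∀ᵐ a ∂μ, ∀ n : ℕ, ∀ᵐ x ∂(ρ.prod (volume : Measure PhasePoint)), (a, (x, n)) ∈ G :=
      ae_all_iff.2 key
    filter_upwards [h2] with a ha
    have h3 : MeasurableSet (Prod.mk a ⁻¹' Gᶜ) := hGc.preimage measurable_prodMk_left
    show lineV T (Prod.mk a ⁻¹' Gᶜ) = 0
    unfold lineV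
    rw [Measure.measure_prod_null h3]
    have h4 : ∀ᵐ x ∂(ρ.prod (volume : Measure PhasePoint)), ∀ n : ℕ, (a, (x, n)) ∈ G :=
      ae_all_iff.2 ha
    filter_upwards [h4] with x hx
    have h5 : Prod.mk x ⁻¹' (Prod.mk a ⁻¹' Gᶜ) = ∅ := by
      ext n
      simp only [mem_preimage, mem_compl_iff, mem_empty_iff_false, iff_false, not_not]
      exact hx n
    show Measure.count (Prod.mk x ⁻¹' (Prod.mk a ⁻¹' Gᶜ)) = 0
    rw [h5, measure_empty]
  filter_upwards [compl_mem_ae_iff.2 h0] with q hq
  exact not_not.1 hq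

/-- State of the gas and of a line at time `0`. -/
theorem measurePreserving_gasLine {ι : Type*} [Fintype ι] (τ : ℝ) :
    MeasurePreserving (fun q : (ι → PhasePoint) × PhasePoint =>
      (Sum.elim q.1 fun _ => back (τ, q.2) : ι ⊕ Unit → PhasePoint))
      ((volume : Measure (ι → PhasePoint)).prod volume) volume := by
  have m1 := volume_measurePreserving_sumPiEquivProdPi_symm (fun _ : ι ⊕ Unit => PhasePoint)
  have m2 := (volume_preserving_funUnique Unit PhasePoint).symm
  have m3 := measurePreserving_free Unit (-τ)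
  have m4 : MeasurePreserving (fun q : (ι → PhasePoint) × PhasePoint =>
      ((q.1, fun _ => back (τ, q.2)) : (ι → PhasePoint) × (Unit → PhasePoint)))
      ((volume : Measure (ι → PhasePoint)).prod volume)
      ((volume : Measure (ι → PhasePoint)).prod volume) := by
    have m5 := (MeasurePreserving.id (volume : Measure (ι → PhasePoint))).prod (m3.comp m2)
    have e : (fun q : (ι → PhasePoint) × PhasePoint =>
        ((q.1, fun _ => back (τ, q.2)) : (ι → PhasePoint) × (Unit → PhasePoint))) =
        Prod.map id ((fun Z : Unit → PhasePoint => fun i => ((Z i).1 + (-τ) • (Z i).2, (Z i).2)) ∘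
          (MeasurableEquiv.funUnique Unit PhasePoint).symm) := by
      funext q
      refine Prod.ext rfl ?_
      funext u
      show back (τ, q.2) = (q.2.1 + (-τ) • q.2.2, q.2.2)
      unfold back
      refine Prod.ext ?_ rfl
      simp only
      rw [neg_smul, sub_eq_add_neg]
    rw [e]
    exact m5
  have e2 := m1.comp m4
  exact e2

/-! ### Trees -/

section tree

variable {P : CTree} {T : ℝ} {m : ℕ}

/-- A gas and one line (births `0` and `τ > 0`): separation of equal births. -/
theorem sepB_line {n : ℕ} {w : Config n} (hw : w ∈ PairExcluded ε n) {l : ML} (hl : 0 < l.1.1) :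
    SepB ε ((MW.cfg w).ins l) :=
  sepB_add_lines (sepB_cfg hw) (fun x y hxy => absurd (Subsingleton.elim x y) hxy)
    fun _ _ h => absurd (show (0 : ℝ) = l.1.1 from h) hl.ne

/-- Trees which are not leaves, fixed birth time and mark of the line. -/
theorem ae_okX_node (hΦ : AdmissiblePotential Φ) (hε : 0 < ε) (hP : P ≠ leaf) (T : ℝ) (m : ℕ)
    {τ : ℝ} (hτ : 0 < τ) (n : ℕ) :
    ∀ᵐ q ∂((volume : Measure ((PhasePoint × Par P) × Config m)).prod
      (volume : Measure PhasePoint)), Valid Φ ε P T q.1.1.1.2 q.1.1.2 →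
      Sep Φ ε P T q.1.1.1 q.1.1.2 → q.1.2 ∈ PairExcluded ε m → (∀ i, rel P q.1.1.2 i ≠ τ) →
        MW.OkFam Φ ε ((MW.cfg q.1.2).ins ((τ, q.2), n)) (lineML Φ ε P q.1.1) := by
  have h := ae_okFam (α := Idx P) (ω := Fin m ⊕ Unit) hΦ hε (fun _ => 0)
    (Sum.elim (fun _ => 0) fun _ => τ) (by rintro (i | i); exacts [le_rfl, hτ.le])
  have h' := ae_tree_prod hΦ hε P T h
  have mp : MeasurePreserving (fun q : ((PhasePoint × Par P) × Config m) × PhasePoint =>
      ((q.1.1, Sum.elim q.1.2 fun _ => back (τ, q.2)) :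
        (PhasePoint × Par P) × (Fin m ⊕ Unit → PhasePoint)))
      ((volume : Measure ((PhasePoint × Par P) × Config m)).prod (volume : Measure PhasePoint))
      ((volume : Measure (PhasePoint × Par P)).prod
        (volume : Measure (Fin m ⊕ Unit → PhasePoint))) := by
    have m1 := measurePreserving_prodAssoc (volume : Measure (PhasePoint × Par P))
      (volume : Measure (Config m)) (volume : Measure PhasePoint)
    have m2 := (MeasurePreserving.id (volume : Measure (PhasePoint × Par P))).prod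
      (measurePreserving_gasLine (ι := Fin m) τ)
    exact m2.comp m1
  filter_upwards [mp.quasiMeasurePreserving.ae h'] with q hq hv hs hw hrel
  have hr := fun i => rel_mem hε.le hP hv.2 i
  have hT : 0 ≤ T := ((hr (root P)).1.trans (hr (root P)).2).le
  have hD : lines Φ ε P q.1.1.1 q.1.1.2 ∈ Dom Φ (Idx P) := lines_mem_Dom hε hT hv.2 hs
  refine hq hv (rel P q.1.1.2) T (fun t => flow Φ ε t (lines Φ ε P q.1.1.1 q.1.1.2))
    (World.bworld (world_flow hΦ hε hD) fun _ => le_rfl) (Flow671.flow_zero hΦ hε _) (Idx P) id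
    (lineML Φ ε P q.1.1) ((MW.cfg q.1.2).ins ((τ, q.2), n)) Function.injective_id
    (rel_tree hΦ hε hv hs fun h => absurd h hP)
    (fun x => lineML_fst hΦ hε hv hs x (hr x).1.le (hr x).2.le) ?_ ?_ ?_
  · funext x
    rcases x with x | x <;> rfl
  · funext x
    rcases x with x | x <;> rfl
  · refine sepB_add_lines (sepB_line hw hτ) (fun x y hxy h => startSep_tree hε hv hs hxy h) ?_
    rintro (i | i) x h
    · exact absurd (show (0 : ℝ) = rel P q.1.1.2 x from h) (hr x).1.ne
    · exact absurd (show τ = rel P q.1.1.2 x from h) (hrel x).symm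

/-- The real world with a line, fixed birth time and mark. -/
theorem ae_okr (hΦ : AdmissiblePotential Φ) (hε : 0 < ε) (P : CTree) {T : ℝ} (hT : 0 ≤ T) (m : ℕ)
    {τ : ℝ} (hτ : 0 < τ) (n : ℕ) :
    ∀ᵐ q ∂((volume : Measure ((PhasePoint × Par P) × Config m)).prod
      (volume : Measure PhasePoint)), Valid Φ ε P T q.1.1.1.2 q.1.1.2 →
      Sep Φ ε P T q.1.1.1 q.1.1.2 → q.1.2 ∈ PairExcluded ε m →
      (∀ x i, ε < dist (lines Φ ε P q.1.1.1 q.1.1.2 x).1 (q.1.2 i).1) →
        (((MW.cfg q.1.2).add (RealL811.treeW Φ ε P q.1.1)).add (MW.line ((τ, q.2), n))).Ok Φ ε := by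
  have h := ae_ok_births (ι := (Fin m ⊕ Idx P) ⊕ Unit) hΦ hε
    (Sum.elim (fun _ => 0) fun _ => τ) (by rintro (i | i); exacts [le_rfl, hτ.le])
  -- `(V, (w, x))`
  have mp1 : MeasurePreserving (fun q : (Idx P → PhasePoint) × (Config m × PhasePoint) =>
      (Sum.elim (Sum.elim q.2.1 q.1) fun _ => back (τ, q.2.2) :
        (Fin m ⊕ Idx P) ⊕ Unit → PhasePoint))
      ((volume : Measure (Idx P → PhasePoint)).prod
        ((volume : Measure (Config m)).prod (volume : Measure PhasePoint))) volume := by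
    have m1 := (measurePreserving_prodAssoc (volume : Measure (Idx P → PhasePoint))
      (volume : Measure (Config m)) (volume : Measure PhasePoint)).symm
    have m2 := (Measure.measurePreserving_swap (μ := (volume : Measure (Idx P → PhasePoint)))
      (ν := (volume : Measure (Config m)))).prod (MeasurePreserving.id (volume : Measure PhasePoint))
    have m3 := (volume_measurePreserving_sumPiEquivProdPi_symm
      (fun _ : Fin m ⊕ Idx P => PhasePoint)).prod (MeasurePreserving.id (volume : Measure PhasePoint))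
    have m4 := measurePreserving_gasLine (ι := Fin m ⊕ Idx P) τ
    exact m4.comp (m3.comp (m2.comp m1))
  have h1 := mp1.quasiMeasurePreserving.ae h
  have h2 := ae_tree_prod hΦ hε P T h1
  have mp2 := measurePreserving_prodAssoc (volume : Measure (PhasePoint × Par P))
      (volume : Measure (Config m)) (volume : Measure PhasePoint)
  filter_upwards [mp2.quasiMeasurePreserving.ae h2] with q hq hv hs hw hp
  have hS0 : ∀ i j : Idx P, i ≠ j →
      ε < dist (lines Φ ε P q.1.1.1 q.1.1.2 i).1 (lines Φ ε P q.1.1.1 q.1.1.2 j).1 := fun i j hij =>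
    Excl302.lines_excl hT hv hs hij
  refine hq hv _ ?_ ?_ ?_
  · funext x
    rcases x with (x | x) | x <;> rfl
  · funext x
    rcases x with (x | x) | x <;> rfl
  · have e : ∀ z : PhasePoint, (lineAt 0 z 0).1 = z.1 := fun z => by simp [lineAt]
    refine sepB_add_lines ?_ (fun x y hxy => absurd (Subsingleton.elim x y) hxy) ?_
    · rintro (i | i) (j | j) hij _ <;> left
      · show ε < dist (lineAt 0 (q.1.2 i) 0).1 (lineAt 0 (q.1.2 j) 0).1
        rw [e, e]
        exact hw i j fun h => hij (by rw [h])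
      · show ε < dist (lineAt 0 (q.1.2 i) 0).1 (lineAt 0 (lines Φ ε P q.1.1.1 q.1.1.2 j) 0).1
        rw [e, e, dist_comm]
        exact hp j i
      · show ε < dist (lineAt 0 (lines Φ ε P q.1.1.1 q.1.1.2 i) 0).1 (lineAt 0 (q.1.2 j) 0).1
        rw [e, e]
        exact hp i j
      · show ε < dist (lineAt 0 (lines Φ ε P q.1.1.1 q.1.1.2 i) 0).1
          (lineAt 0 (lines Φ ε P q.1.1.1 q.1.1.2 j) 0).1
        rw [e, e]
        exact hS0 i j fun h => hij (by rw [h])
    · rintro (i | i) x h
      · exact absurd (show (0 : ℝ) = τ from h) hτ.ne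
      · exact absurd (show (0 : ℝ) = τ from h) hτ.ne

/-- The gas and a line, fixed birth time and mark. -/
theorem ae_ok_cfg_line (hΦ : AdmissiblePotential Φ) (hε : 0 < ε) (P : CTree) (m : ℕ)
    {τ : ℝ} (hτ : 0 < τ) (n : ℕ) :
    ∀ᵐ q ∂((volume : Measure ((PhasePoint × Par P) × Config m)).prod
      (volume : Measure PhasePoint)), q.1.2 ∈ PairExcluded ε m →
        ((MW.cfg q.1.2).ins ((τ, q.2), n)).Ok Φ ε := by
  have h := ae_ok_births (ι := Fin m ⊕ Unit) hΦ hε
    (Sum.elim (fun _ => 0) fun _ => τ) (by rintro (i | i); exacts [le_rfl, hτ.le])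
  have h1 := (measurePreserving_gasLine (ι := Fin m) τ).quasiMeasurePreserving.ae h
  have mp : Measure.QuasiMeasurePreserving
      (fun q : ((PhasePoint × Par P) × Config m) × PhasePoint => (q.1.2, q.2))
      ((volume : Measure ((PhasePoint × Par P) × Config m)).prod (volume : Measure PhasePoint))
      ((volume : Measure (Config m)).prod (volume : Measure PhasePoint)) := by
    have m1 := measurePreserving_prodAssoc (volume : Measure (PhasePoint × Par P))
      (volume : Measure (Config m)) (volume : Measure PhasePoint)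
    have m2 := Measure.quasiMeasurePreserving_snd (μ := (volume : Measure (PhasePoint × Par P)))
      (ν := (volume : Measure (Config m)).prod (volume : Measure PhasePoint))
    exact m2.comp m1.quasiMeasurePreserving
  filter_upwards [mp.ae h1] with q hq hw
  refine hq _ ?_ ?_ (sepB_line hw hτ)
  · funext x
    rcases x with x | x <;> rfl
  · funext x
    rcases x with x | x <;> rfl

/-- Leaves, fixed birth time and mark of the line. -/
theorem ae_okX_leaf (hΦ : AdmissiblePotential Φ) (hε : 0 < ε) (m : ℕ) {τ : ℝ} (hτ : 0 < τ)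
    (n : ℕ) : ∀ᵐ q ∂((volume : Measure ((PhasePoint × Par leaf) × Config m)).prod
      (volume : Measure PhasePoint)), q.1.2 ∈ PairExcluded ε m →
      (∀ x i, ε < dist (lines Φ ε leaf q.1.1.1 q.1.1.2 x).1 (q.1.2 i).1) →
        MW.OkFam Φ ε ((MW.cfg q.1.2).ins ((τ, q.2), n)) (lineML Φ ε leaf q.1.1) := by
  filter_upwards [ae_okr hΦ hε leaf (le_refl (0 : ℝ)) m hτ n, ae_ok_cfg_line hΦ hε leaf m hτ n]
    with q h1 h2 hw hp S
  have h3 := h1 valid_leaf (fun i j hij => absurd (Subsingleton.elim (α := Unit) i j) hij) hw hp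
  have h4 := h2 hw
  by_cases hS : (() : Idx leaf) ∈ S
  · let E : (Fin m ⊕ Unit) ⊕ S ≃ (Fin m ⊕ Idx leaf) ⊕ Unit :=
      { toFun := fun x => match x with
          | Sum.inl (Sum.inl i) => Sum.inl (Sum.inl i)
          | Sum.inl (Sum.inr _) => Sum.inr ()
          | Sum.inr k => Sum.inl (Sum.inr k.1)
        invFun := fun x => match x with
          | Sum.inl (Sum.inl i) => Sum.inl (Sum.inl i)
          | Sum.inl (Sum.inr _) => Sum.inr ⟨(), hS⟩
          | Sum.inr _ => Sum.inl (Sum.inr ())
        left_inv := by rintro ((i | u) | k) <;> rfl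
        right_inv := by rintro ((i | u) | k) <;> rfl }
    have he : (((MW.cfg q.1.2).add (RealL811.treeW Φ ε leaf q.1.1)).add
        (MW.line ((τ, q.2), n))).comap E =
        ((MW.cfg q.1.2).ins ((τ, q.2), n)).add (sub (lineML Φ ε leaf q.1.1) S) := by
      have e0 : ∀ x : Idx leaf, back (lineML Φ ε leaf q.1.1 x).1 =
          lines Φ ε leaf q.1.1.1 q.1.1.2 x := by
        intro x
        simp [back, lineML, TreeLines335.rel, onLine, fin, lines]
      unfold MW.ins sub MW.comap MW.add MW.line MW.lines RealL811.treeW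
      congr 1
      · funext x; rcases x with (x | x) | x <;> rfl
      · funext x
        rcases x with (x | x) | x
        · rfl
        · rfl
        · exact (e0 x.1).symm
      · funext x; rcases x with (x | x) | x <;> rfl
    rw [← he]
    exact h3.comap hΦ hε E
  · have hempty : IsEmpty S := ⟨fun x => hS x.2⟩
    rw [add_empty_comap]
    exact h4.comap hΦ hε _

/-- **(X1), fixed birth time and mark of the line.** -/
theorem ae_goodX_fix (hΦ : AdmissiblePotential Φ) (hε : 0 < ε) (P : CTree) {T : ℝ} (hT : 0 ≤ T)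
    (m : ℕ) {τ : ℝ} (hτ : 0 < τ) (n : ℕ) :
    ∀ᵐ q ∂((volume : Measure ((PhasePoint × Par P) × Config m)).prod
      (volume : Measure PhasePoint)), Valid Φ ε P T q.1.1.1.2 q.1.1.2 →
      Sep Φ ε P T q.1.1.1 q.1.1.2 → q.1.2 ∈ PairExcluded ε m →
      (∀ x i, ε < dist (lines Φ ε P q.1.1.1 q.1.1.2 x).1 (q.1.2 i).1) →
      (∀ i, rel P q.1.1.2 i ≠ τ) →
        MW.OkFam Φ ε (MW.cfg q.1.2) (withD (lineML Φ ε P q.1.1) ((τ, q.2), n)) ∧
        (((MW.cfg q.1.2).add (RealL811.treeW Φ ε P q.1.1)).add (MW.line ((τ, q.2), n))).Ok Φ ε := by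
  have hR : ∀ᵐ q ∂((volume : Measure ((PhasePoint × Par P) × Config m)).prod
      (volume : Measure PhasePoint)), Valid Φ ε P T q.1.1.1.2 q.1.1.2 →
      Sep Φ ε P T q.1.1.1 q.1.1.2 → q.1.2 ∈ PairExcluded ε m →
      (P = leaf → ∀ i, ε < dist q.1.1.1.1 (q.1.2 i).1) →
        MW.OkFam Φ ε (MW.cfg q.1.2) (lineML Φ ε P q.1.1) :=
    Measure.quasiMeasurePreserving_fst.ae (ae_okR hΦ hε P T m)
  have hX : ∀ᵐ q ∂((volume : Measure ((PhasePoint × Par P) × Config m)).prod
      (volume : Measure PhasePoint)), Valid Φ ε P T q.1.1.1.2 q.1.1.2 →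
      Sep Φ ε P T q.1.1.1 q.1.1.2 → q.1.2 ∈ PairExcluded ε m →
      (∀ x i, ε < dist (lines Φ ε P q.1.1.1 q.1.1.2 x).1 (q.1.2 i).1) →
      (∀ i, rel P q.1.1.2 i ≠ τ) →
        MW.OkFam Φ ε ((MW.cfg q.1.2).ins ((τ, q.2), n)) (lineML Φ ε P q.1.1) := by
    by_cases hP : P = leaf
    · subst hP
      filter_upwards [ae_okX_leaf hΦ hε m hτ n] with q hq _ _ hw hp _
      exact hq hw hp
    · filter_upwards [ae_okX_node hΦ hε hP T m hτ n] with q hq hv hs hw _ hr
      exact hq hv hs hw hr
  filter_upwards [hR, hX, ae_okr hΦ hε P hT m hτ n] with q h1 h2 h3 hv hs hw hp hr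
  refine ⟨okFam_withD hΦ hε (h1 hv hs hw fun hP i => ?_) (h2 hv hs hw hp hr), h3 hv hs hw hp⟩
  subst hP
  exact hp (root leaf) i

/-- Release times are not birth times of almost every line. -/
theorem ae_rel_ne (P : CTree) (m : ℕ) (te : ℝ) :
    ∀ᵐ q ∂((volume : Measure ((PhasePoint × Par P) × Config m)).prod (lineV te)),
      ∀ i, rel P q.1.1.2 i ≠ q.2.1.1 := by
  rw [ae_all_iff]
  intro i
  have hm : MeasurableSet {q : ((PhasePoint × Par P) × Config m) × ML |
      rel P q.1.1.2 i = q.2.1.1} :=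
    measurableSet_eq_fun ((measurable_rel P i).comp measurable_fst.fst.snd) measurable_snd.fst.fst
  have h0 : ((volume : Measure ((PhasePoint × Par P) × Config m)).prod (lineV te))
      {q | rel P q.1.1.2 i = q.2.1.1} = 0 := by
    rw [Measure.measure_prod_null hm]
    refine Eventually.of_forall fun a => ?_
    have h1 : ∀ᵐ τ ∂(volume.restrict (Ioc (0 : ℝ) te)), rel P a.1.2 i ≠ τ := by
      refine ae_restrict_of_ae ?_
      rw [ae_iff]
      simp
    have h2 : ∀ᵐ x ∂((volume.restrict (Ioc (0 : ℝ) te)).prod (volume : Measure PhasePoint)),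
        rel P a.1.2 i ≠ x.1 := Measure.quasiMeasurePreserving_fst.ae h1
    have h3 : ∀ᵐ l ∂(lineV te), rel P a.1.2 i ≠ l.1.1 := Measure.quasiMeasurePreserving_fst.ae h2
    rw [ae_iff] at h3
    simpa using h3
  filter_upwards [compl_mem_ae_iff.2 h0] with q hq
  exact hq

/-- **(X1)**: for almost every tree, gas and line. -/
theorem ae_goodX_lineV (hΦ : AdmissiblePotential Φ) (hε : 0 < ε) (P : CTree) {T : ℝ} (hT : 0 ≤ T)
    (m : ℕ) (te : ℝ) :
    ∀ᵐ q ∂((volume : Measure ((PhasePoint × Par P) × Config m)).prod (lineV te)),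
      Valid Φ ε P T q.1.1.1.2 q.1.1.2 →
      Sep Φ ε P T q.1.1.1 q.1.1.2 → q.1.2 ∈ PairExcluded ε m → PerpT Φ ε P q.1.1 q.1.2 →
        MW.OkFam Φ ε (MW.cfg q.1.2) (withD (lineML Φ ε P q.1.1) q.2) ∧
        (((MW.cfg q.1.2).add (RealL811.treeW Φ ε P q.1.1)).add (MW.line q.2)).Ok Φ ε := by
  -- the measurable event
  set D : Set ((PhasePoint × Par P) × Config m) := {a | (Valid Φ ε P T a.1.1.2 a.1.2 ∧
    Sep Φ ε P T a.1.1 a.1.2) ∧ a.2 ∈ PairExcluded ε m ∧ PerpT Φ ε P a.1 a.2} with hD
  have hDm : MeasurableSet D := by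
    refine ((measurableSet_validSep hΦ hε P T).preimage measurable_fst).inter
      (((measurableSet_pairExcluded ε m).preimage measurable_snd).inter ?_)
    have e : {a : (PhasePoint × Par P) × Config m | PerpT Φ ε P a.1 a.2} =
        ⋂ x : Idx P, ⋂ i : Fin m, {a | ε < dist (linesM Φ ε P a.1.1 a.1.2 x).1 (a.2 i).1} := by
      ext a
      simp only [PerpT, mem_ofPred_eq, mem_iInter]
    show MeasurableSet {a : (PhasePoint × Par P) × Config m | PerpT Φ ε P a.1 a.2}
    rw [e]
    refine MeasurableSet.iInter fun x => MeasurableSet.iInter fun i => ?_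
    have f1 : Measurable fun a : (PhasePoint × Par P) × Config m =>
        (linesM Φ ε P a.1.1 a.1.2 x).1 :=
      (((measurable_pi_apply x).comp (measurable_linesM hΦ ε P)).comp measurable_fst).fst
    have f2 : Measurable fun a : (PhasePoint × Par P) × Config m => (a.2 i).1 :=
      ((measurable_pi_apply i).comp measurable_snd).fst
    exact measurableSet_lt measurable_const (f1.dist f2)
  set G : Set (((PhasePoint × Par P) × Config m) × ML) := {q | q.1 ∈ D →
    (∀ i, rel P q.1.1.2 i ≠ q.2.1.1) →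
      (∀ S : Finset (Idx P ⊕ Unit),
        ((MW.cfg q.1.2).add (sub (withD (lineMM Φ ε P q.1.1) q.2) S)).Ok Φ ε) ∧
      (((MW.cfg q.1.2).add (InEq2T.treeW Φ ε P q.1.1)).add (MW.line q.2)).Ok Φ ε} with hG
  have hGm : MeasurableSet G := by
    refine (hDm.preimage measurable_fst).imp (MeasurableSet.imp ?_ (MeasurableSet.inter ?_ ?_))
    · have e : {q : ((PhasePoint × Par P) × Config m) × ML | ∀ i, rel P q.1.1.2 i ≠ q.2.1.1} =
          ⋂ i, {q | rel P q.1.1.2 i = q.2.1.1}ᶜ := by
        ext q
        simp only [mem_ofPred_eq, mem_iInter, mem_compl_iff]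
      rw [e]
      exact MeasurableSet.iInter fun i => (measurableSet_eq_fun
        ((measurable_rel P i).comp measurable_fst.fst.snd) measurable_snd.fst.fst).compl
    · have e : {q : ((PhasePoint × Par P) × Config m) × ML | ∀ S : Finset (Idx P ⊕ Unit),
          ((MW.cfg q.1.2).add (sub (withD (lineMM Φ ε P q.1.1) q.2) S)).Ok Φ ε} =
          ⋂ S : Finset (Idx P ⊕ Unit), {q : ((PhasePoint × Par P) × Config m) × ML |
            ((MW.cfg q.1.2).add (sub (withD (lineMM Φ ε P q.1.1) q.2) S)).Ok Φ ε} := by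
        ext q
        simp only [mem_ofPred_eq, mem_iInter]
      show MeasurableSet {q : ((PhasePoint × Par P) × Config m) × ML |
        ∀ S : Finset (Idx P ⊕ Unit),
          ((MW.cfg q.1.2).add (sub (withD (lineMM Φ ε P q.1.1) q.2) S)).Ok Φ ε}
      rw [e]
      refine MeasurableSet.iInter fun S => MeasPair522.measurableSet_ok hΦ hε ?_
      refine (MeasW.cfg measurable_fst.snd).add (MeasW.lines fun k => ?_)
      rcases k with ⟨k | k, hk⟩
      · exact (measurable_lineMM hΦ ε P k).comp measurable_fst.fst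
      · exact measurable_snd
    · refine MeasPair522.measurableSet_ok hΦ hε ?_
      exact ((MeasW.cfg measurable_fst.snd).add ((InEq2T.measW_treeW hΦ ε P).comp
        measurable_fst.fst)).add (MeasW.line measurable_snd)
  have hlines : ∀ a : (PhasePoint × Par P) × Config m, a ∈ D →
      linesM Φ ε P a.1.1 a.1.2 = lines Φ ε P a.1.1 a.1.2 := fun a ha => linesM_of_adm ε ha.1.1.1
  have hMM : ∀ a : (PhasePoint × Par P) × Config m, a ∈ D →
      lineMM Φ ε P a.1 = lineML Φ ε P a.1 := fun a ha => by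
    funext i
    exact lineMM_of_adm ε ha.1.1.1 i
  have htW : ∀ a : (PhasePoint × Par P) × Config m, a ∈ D →
      InEq2T.treeW Φ ε P a.1 = RealL811.treeW Φ ε P a.1 := fun a ha => by
    unfold InEq2T.treeW RealL811.treeW
    rw [hlines a ha]
  have h1 : ∀ᵐ q ∂((volume : Measure ((PhasePoint × Par P) × Config m)).prod (lineV te)),
      q ∈ G := by
    refine ae_lineV hGm fun τ hτ n => ?_
    filter_upwards [ae_goodX_fix hΦ hε P hT m hτ.1 n] with q hq hD' hrel
    have hD'' : q.1 ∈ D := hD'
    obtain ⟨h2, h3⟩ := hq hD''.1.1 hD''.1.2 hD''.2.1 (fun x i => by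
      have := hD''.2.2 x i
      rwa [hlines _ hD''] at this) hrel
    constructor
    · intro S
      show ((MW.cfg q.1.2).add (sub (withD (lineMM Φ ε P q.1.1) ((τ, q.2), n)) S)).Ok Φ ε
      rw [hMM _ hD'']
      exact h2 S
    · show (((MW.cfg q.1.2).add (InEq2T.treeW Φ ε P q.1.1)).add (MW.line ((τ, q.2), n))).Ok Φ ε
      rw [htW _ hD'']
      exact h3
  filter_upwards [h1, ae_rel_ne P m te] with q hq hr hv hs hw hp
  have hqD : q.1 ∈ D := ⟨⟨hv, hs⟩, hw, hp⟩
  obtain ⟨h2, h3⟩ := hq hqD hr
  rw [htW _ hqD] at h3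
  refine ⟨fun S => ?_, h3⟩
  have h4 := h2 S
  rwa [hMM _ hqD] at h4


end tree

end Crest.Agent.R122.AllOk663

end
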