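import Crest.Agent.R122.PairV4_994
import Crest.Agent.R122.H5EI_994
import Crest.Agent.R122.Decomp3E_811
import Crest.Agent.R122.Reborn_45
import Crest.Agent.R122.UnwF_410

-- ▼ part R122/PairV5_994
section

/-!
# SP-A without selection of the first touched line (row 122, helper994)

`spA0` : for any weight `H w V u` of the world, the cluster and the link time,
`∫V ∫w ∫_{p ∈ link event} H(w,V,lt) Aw(tL, θ_V)(d) ≤ (c₆/L + c₇) ∫V ∫w ∫u rd H 1[tL ≤ te] W(θ_V ≤ tL)`.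
The selection of the first touched line is made afterwards, at fixed `(w, V, u)`.
-/

set_option autoImplicit false

open MeasureTheory Set Filter
open scoped ENNReal Topology

namespace Crest.Agent.R122.SPV994

open Crest.Agent.R122.Weight984 Crest.Agent.R122.SP994

noncomputable section

variable {Λ Pp : Type*} [MeasurableSpace Λ] [MeasurableSpace Pp]
variable {Ω 𝒱 : Type*} [MeasurableSpace Ω] [MeasurableSpace 𝒱]
variable {ι : Type} (S : Shape Ω 𝒱 Pp Λ ι)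
  (P : Measure Ω) (mV : Measure 𝒱) (κ : Measure ℝ)
  (ν : Measure Pp) {d : Pp → Λ} (lam : Measure Λ) [SFinite lam]
  {c₆ c₇ : ℝ≥0∞} {L te : ℝ}

/-- **SP-A, general form.** -/
theorem spA0 (hL : 0 < L) (hc : c₆ * ENNReal.ofReal (1 / L) + c₇ ≠ ∞)
    (h6 : ∀ V, S6 ν d lam κ c₆ (S.lt V) (S.Bo V) (S.rd V))
    (h7 : ∀ V, Y6 ν κ c₇ (S.lt V) (S.By V) (S.rd V))
    {θV : Ω → 𝒱 → Λ → ℝ} (hθV : Measurable fun q : (Ω × 𝒱) × Λ => θV q.1.1 q.1.2 q.2)
    {tL : Ω → 𝒱 → ℝ}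
    {H : Ω → 𝒱 → ℝ → ℝ≥0∞} (hH : Measurable fun q : Ω × 𝒱 × ℝ => H q.1 q.2.1 q.2.2)
    {FA : Ω → 𝒱 → Pp → ℝ≥0∞}
    (hFA : ∀ w V p, p ∈ S.Bo V ∪ S.By V → FA w V p ≤
      H w V (S.lt V p) * Aw lam L te (tL w V) (θV w V) (d p)) :
    ∫⁻ V, ∫⁻ w, ∫⁻ p in S.Bo V ∪ S.By V, FA w V p ∂ν ∂P ∂mV ≤
      (c₆ * ENNReal.ofReal (1 / L) + c₇) * ∫⁻ V, ∫⁻ w, ∫⁻ u, S.rd V u * (H w V u *
        (if tL w V ≤ te then W L (lam {l | θV w V l ≤ tL w V}) else 0)) ∂κ ∂P ∂mV := by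
  rw [← lintegral_const_mul' _ _ hc]
  refine lintegral_mono fun V => ?_
  rw [← lintegral_const_mul' _ _ hc]
  refine lintegral_mono fun w => ?_
  have hHu : Measurable fun u => H w V u :=
    hH.comp (measurable_const.prodMk (measurable_const.prodMk measurable_id))
  have hrd : Measurable (S.rd V) := S.m_rd.comp (measurable_const.prodMk measurable_id)
  have hθ : Measurable (θV w V) :=
    hθV.comp (measurable_const.prodMk measurable_id : Measurable fun l : Λ => ((w, V), l))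
  have h1 := oneA_old hL (h6 V) hHu hrd te (tL w V) hθ
  have h2 := oneA_young (d := d) (lam := lam) hL (h7 V) hHu te (tL w V) (θV w V)
  calc ∫⁻ p in S.Bo V ∪ S.By V, FA w V p ∂ν
      ≤ ∫⁻ p in S.Bo V ∪ S.By V, H w V (S.lt V p) *
          Aw lam L te (tL w V) (θV w V) (d p) ∂ν :=
        setLIntegral_mono' ((S.mBo V).union (S.mBy V)) fun p hp => hFA w V p hp
    _ ≤ ∫⁻ p in S.Bo V, H w V (S.lt V p) * Aw lam L te (tL w V) (θV w V) (d p) ∂ν +
        ∫⁻ p in S.By V, H w V (S.lt V p) * Aw lam L te (tL w V) (θV w V) (d p) ∂ν :=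
        lintegral_union_le _ _ _
    _ ≤ c₆ * ENNReal.ofReal (1 / L) * ∫⁻ u, S.rd V u * (H w V u *
            (if tL w V ≤ te then W L (lam {l | θV w V l ≤ tL w V}) else 0)) ∂κ +
          c₇ * ∫⁻ u, S.rd V u * (H w V u *
            (if tL w V ≤ te then W L (lam {l | θV w V l ≤ tL w V}) else 0)) ∂κ :=
        add_le_add h1 h2
    _ = _ := (add_mul _ _ _).symm

end

end Crest.Agent.R122.SPV994
end

-- ▼ part R122/H5A_994

/-!
# SP-A at gas level (row 122, helper994)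

* `rst` : one of the marked lines of the tree, the root line born at the link time `u`, realises the
  first touch time of the lines of the tree in the gas world; `rst_of_noCt` : it is enough that the
  root line has no contact with the gas before `u` (helper45's `NoCt`);
* `SPA_le` : the tree integral of `1[link] gh · termA(d)` over the pair law.
-/

set_option autoImplicit false

open MeasureTheory Set Filter
open scoped ENNReal Topology
open Crest.AnalysisR.Kinetic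
open Crest.Agent.R122.Kin796 Crest.Agent.R122.Kin796.CTree Crest.Agent.R122.Tree674
open Crest.Agent.R122.EDefs602 Crest.Agent.R122.TreeLines335 Crest.Agent.R122.LineMeas994
open Crest.Agent.R122.GC311 Crest.Agent.R122.QDens815 Crest.Agent.R122.Q1815
open Crest.Agent.R122.SPV994 Crest.Agent.R122.Decomp811 Crest.Agent.R122.Weight984
open Crest.Agent.R122.MeasE416
open Crest.Agent.R122.Boost969 (LSt posAt)
open Crest.Agent.R122.Pair292 (Lab PPar PX sig shM)

namespace Crest.Agent.R122.H5994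

noncomputable section

open scoped Classical

/-! ## From the tree integral to the shapes -/

section

variable {Φ : Space3 → ℝ} {f₀ : PhasePoint → ℝ} {ε : ℝ}


/-- back to the tree integral -/
theorem sum_le_TS (hf : Measurable f₀) {te : ℝ} {K : ℕ}
    {F : (P : CTree) → (Σ n : ℕ, Config n) → PhasePoint × Par P → ℝ≥0∞} :
    ∑ P ∈ GIVStep383.trees K, ∫⁻ z, ∫⁻ w, tws Φ f₀ ε te P z * F P w z ∂gcM f₀ ε ≤
      InEq2.TS Φ f₀ ε te fun P z m w =>
        if P.leaves ≤ K ∧ Sep Φ ε P te z.1 z.2 then F P ⟨m, w⟩ z else 0 := by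
  rw [TS_eq]
  refine le_trans (Finset.sum_le_sum fun P hP => ?_) (ENNReal.sum_le_tsum (GIVStep383.trees K))
  refine lintegral_mono fun z => ?_
  rw [gcE_eq_lintegral hf, ← lintegral_const_mul' _ _ tw₀_ne_top]
  refine lintegral_mono fun w => ?_
  unfold tws
  by_cases hV : Valid Φ ε P te z.1.2 z.2 ∧ Sep Φ ε P te z.1 z.2
  · rw [if_pos hV, if_pos ⟨GIVStep383.mem_trees.1 hP, hV.2⟩]
  · rw [if_neg hV, zero_mul]
    exact bot_le

end

/-! ## First touch time of the lines of a tree -/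

theorem measurable_fold_min {Ω κ : Type*} [MeasurableSpace Ω] (s : Finset κ) {f : κ → Ω → ℝ}
    (hf : ∀ k, Measurable (f k)) (b : ℝ) : Measurable fun ω => s.fold min b (fun k => f k ω) := by
  induction s using Finset.induction_on with
  | empty => simp
  | insert a s ha ih =>
      simp only [Finset.fold_insert ha]
      exact (hf a).min ih

variable (Φ : Space3 → ℝ) (ε : ℝ) (K : ℕ) (te : ℝ)

/-- first touch time of the lines of the tree in the gas world -/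
def fT (P : CTree) (w : Σ n : ℕ, Config n) (z : PhasePoint × Par P) : ℝ :=
  firstT Φ ε K te (MW.cfg w.2) (lineMM Φ ε P z)

/-- one of the lines seen at the link time realises the first touch time -/
def rst (P : CTree) (w : Σ n : ℕ, Config n) (z : PhasePoint × Par P) (u : ℝ) : Prop :=
  fT Φ ε K te P w z ≤ te → ∃ i, θ₀ Φ ε K te w (lineU Φ ε P z u i) = fT Φ ε K te P w z

variable {Φ ε K te}

theorem measurable_fT (hΦ : AdmissiblePotential Φ) (hε : 0 < ε) (P : CTree) :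
    Measurable fun q : (Σ n : ℕ, Config n) × (PhasePoint × Par P) =>
      fT Φ ε K te P q.1 q.2 := by
  unfold fT firstT
  refine measurable_fold_min _ (fun k => ?_) _
  have hq : Measurable fun q : (Σ n : ℕ, Config n) × (PhasePoint × Par P) =>
      (q.1, lineMM Φ ε P q.2 k) :=
    measurable_fst.prodMk ((measurable_lineMM hΦ ε P k).comp measurable_snd)
  have h := (measurable_θ₀ hΦ hε K te).comp hq
  exact h

theorem measurableSet_rst (hΦ : AdmissiblePotential Φ) (hε : 0 < ε) (P : CTree) :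
    MeasurableSet {q : (Σ n : ℕ, Config n) × ((PhasePoint × Par P) × ℝ) |
      rst Φ ε K te P q.1 q.2.1 q.2.2} := by
  have h1 : Measurable fun q : (Σ n : ℕ, Config n) × ((PhasePoint × Par P) × ℝ) =>
      fT Φ ε K te P q.1 q.2.1 :=
    (measurable_fT hΦ hε P).comp (measurable_fst.prodMk measurable_snd.fst)
  have h2 : ∀ i, Measurable fun q : (Σ n : ℕ, Config n) × ((PhasePoint × Par P) × ℝ) =>
      θ₀ Φ ε K te q.1 (lineU Φ ε P q.2.1 q.2.2 i) := by
    intro i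
    have hq : Measurable fun q : (Σ n : ℕ, Config n) × ((PhasePoint × Par P) × ℝ) =>
        (q.1, lineU Φ ε P q.2.1 q.2.2 i) :=
      measurable_fst.prodMk ((measurable_lineU hΦ ε P i).comp measurable_snd)
    have h := (measurable_θ₀ hΦ hε K te).comp hq
    exact h
  have h3 : {q : (Σ n : ℕ, Config n) × ((PhasePoint × Par P) × ℝ) |
      rst Φ ε K te P q.1 q.2.1 q.2.2} =
      {q | fT Φ ε K te P q.1 q.2.1 ≤ te}ᶜ ∪ ⋃ i, {q | θ₀ Φ ε K te q.1
        (lineU Φ ε P q.2.1 q.2.2 i) = fT Φ ε K te P q.1 q.2.1} := by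
    ext q
    simp only [mem_union, mem_compl_iff, mem_iUnion]
    show (fT Φ ε K te P q.1 q.2.1 ≤ te → ∃ i, θ₀ Φ ε K te q.1 (lineU Φ ε P q.2.1 q.2.2 i) =
      fT Φ ε K te P q.1 q.2.1) ↔ ¬ (fT Φ ε K te P q.1 q.2.1 ≤ te) ∨ ∃ i, θ₀ Φ ε K te q.1
        (lineU Φ ε P q.2.1 q.2.2 i) = fT Φ ε K te P q.1 q.2.1
    tauto
  rw [h3]
  exact (measurableSet_le h1 measurable_const).compl.union
    (MeasurableSet.iUnion fun i => measurableSet_eq_fun (h2 i) h1)

theorem lineU_root (P : CTree) (z : PhasePoint × Par P) (u : ℝ) :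
    lineU Φ ε P z u (root P) = Ins45.reb (lineML Φ ε P z (root P)) u := by
  unfold lineU Ins45.reb lineML
  rw [if_pos rfl]
  refine Prod.ext (Prod.ext rfl ?_) (mk_root P).symm
  simp only
  rw [PathFlow968.fin_root]
  unfold Ins45.lineAt onLine
  refine Prod.ext ?_ rfl
  simp only
  rw [add_assoc, ← add_smul, add_sub_cancel]


/-! ## SP-A -/

section A

variable {ξ : CTree → Type} [∀ P, Fintype (ξ P)] (A : ∀ P : CTree, PhasePoint × Par P → MW (ξ P))
  (G : (P : CTree) → (Σ n : ℕ, Config n) → PhasePoint × Par P → Prop)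

/-- touch times of lines in the world `w + A` -/
def θA (Φ : Space3 → ℝ) (ε : ℝ) (K : ℕ) (te : ℝ) (P : CTree) (w : Σ n : ℕ, Config n)
    (z : PhasePoint × Par P) (l : ML) : ℝ :=
  ((MW.cfg w.2).add (A P z)).thetaL Φ ε K te l

theorem measurable_θA (hΦ : AdmissiblePotential Φ) (hε : 0 < ε) (hA : ∀ P, MeasW (A P))
    (P : CTree) : Measurable fun q : ((Σ n : ℕ, Config n) × (PhasePoint × Par P)) × ML =>
      θA A Φ ε K te P q.1.1 q.1.2 q.2 := by
  have h : Measurable fun q : (Σ n : ℕ, Config n) × ((PhasePoint × Par P) × ML) =>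
      θA A Φ ε K te P q.1 q.2.1 q.2.2 := by
    refine Q1815.measurable_sigma_prod fun n => ?_
    exact ((MeasW.cfg (w := fun q : Config n × ((PhasePoint × Par P) × ML) => q.1)
      measurable_fst).add ((hA P).comp measurable_snd.fst)).thetaL hΦ hε
        (measurable_snd.snd) K measurable_const
  exact h.comp (measurable_fst.fst.prodMk (measurable_fst.snd.prodMk measurable_snd))

/-- integrand of the errors of SP-A; `G` = the good structures (real tree in `w + A`) -/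
def errA (Φ : Space3 → ℝ) (ε : ℝ) (K : ℕ) (Q : EPar) (P : CTree) (z : PhasePoint × Par P)
    (m : ℕ) (w : Config m) : ℝ≥0∞ :=
  if P.leaves ≤ K ∧ Sep Φ ε P Q.te z.1 z.2 then
    ENNReal.ofReal (1 + ‖z.1.2‖) * (gh Φ ε Q.tw P z ⟨m, w⟩ *
      if G P ⟨m, w⟩ z then min 1 (lk Φ ε K Q (MW.cfg w) (A P z) (lineMM Φ ε P z)) else 0)
  else 0

/-- the test function of SP-A -/
def ΘA (Φ : Space3 → ℝ) (ε : ℝ) (K : ℕ) (Q : EPar) (n : ℕ) (w : Config n) (l : ML) : ℝ≥0∞ :=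
  Θl (lineM Q.γ Q.ρ K Q.te) Q.L Q.te (θ₀ Φ ε K Q.te) ⟨n, w⟩ l

/-- the weight at the first touch time -/
def WA (Φ : Space3 → ℝ) (ε : ℝ) (K : ℕ) (Q : EPar) (P : CTree) (w : Σ n : ℕ, Config n)
    (z : PhasePoint × Par P) : ℝ≥0∞ :=
  if fT Φ ε K Q.te P w z ≤ Q.te then
    W Q.L (lineM Q.γ Q.ρ K Q.te {l | θA A Φ ε K Q.te P w z l ≤ fT Φ ε K Q.te P w z}) else 0

/-- weight of the errors of SP-A at fixed `(w, z)` -/
def eA (Φ : Space3 → ℝ) (ε : ℝ) (K : ℕ)
    (Q : EPar) (P : CTree) (w : Σ n : ℕ, Config n) (z : PhasePoint × Par P) : ℝ≥0∞ :=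
  if G P w z then min 1 (lk Φ ε K Q (MW.cfg w.2) (A P z) (lineMM Φ ε P z)) else 0

variable {A G}

theorem WA_le {Q : EPar} (hL : 0 < Q.L) {P : CTree} {w : Σ n : ℕ, Config n}
    {z : PhasePoint × Par P} {u : ℝ} (hr : rst Φ ε K Q.te P w z u) (hG : G P w z) :
    WA A Φ ε K Q P w z ≤ ∑ i, sigF (ΘA Φ ε K Q) w (lineU Φ ε P z u i) +
      eA A G Φ ε K Q P w z := by
  unfold eA
  rw [if_pos hG]
  rcases le_total 1 (lk Φ ε K Q (MW.cfg w.2) (A P z) (lineMM Φ ε P z)) with h0 | h0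
  · rw [min_eq_left h0]
    refine le_trans ?_ le_add_self
    unfold WA
    split_ifs
    · exact W_le_one hL.le _
    · exact zero_le_one
  rw [min_eq_right h0]
  unfold WA
  by_cases h1 : fT Φ ε K Q.te P w z ≤ Q.te
  swap
  · rw [if_neg h1]; exact bot_le
  rw [if_pos h1]
  obtain ⟨i, hi⟩ := hr h1
  have h3 := W_firstT_le (P := Q) (w₂ := MW.cfg w.2) (A := A P z) (F := lineMM Φ ε P z)
    (Φ := Φ) (ε := ε) (K := K) hL
  refine le_trans (b := (MW.cfg w.2).W Φ ε K Q (fT Φ ε K Q.te P w z) +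
    lk Φ ε K Q (MW.cfg w.2) (A P z) (lineMM Φ ε P z)) h3 (add_le_add ?_ le_rfl)
  refine le_trans ?_ (Finset.single_le_sum
    (f := fun i => sigF (ΘA Φ ε K Q) w (lineU Φ ε P z u i)) (fun _ _ => zero_le)
    (Finset.mem_univ i))
  show _ ≤ Θl (lineM Q.γ Q.ρ K Q.te) Q.L Q.te (θ₀ Φ ε K Q.te) w (lineU Φ ε P z u i)
  unfold Θl
  rw [hi, if_pos h1]
  refine W_anti hL.le (measure_mono fun l hl => ?_)
  exact le_of_lt (show θ₀ Φ ε K Q.te w l < fT Φ ε K Q.te P w z from hl)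

/-- link set of a tree -/
def LinkS (ε te : ℝ) (P : CTree) (z : PhasePoint × Par P) : Set (Lab × LSt) :=
  {p | LinkEv ε te (rel P z.2 (root P)) z.1 p.2}

theorem LinkS_eq {Φ : Space3 → ℝ} (hΦ : AdmissiblePotential Φ) {f₀ : PhasePoint → ℝ}
    (hf : Measurable f₀) {ε : ℝ} (hε : 0 < ε) (tw te r : ℝ) (P : CTree)
    (z : PhasePoint × Par P) : LinkS ε te P z =
      (shape hΦ hf hε te tw te r P).Bo z ∪ (shape hΦ hf hε te tw te r P).By z := by
  ext p
  constructor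
  · intro h
    rcases le_or_gt r (hitT ε z.1 p.2 - sig p.1) with h1 | h1
    · exact Or.inl ⟨h, h1⟩
    · exact Or.inr ⟨h, h1⟩
  · rintro (h | h)
    · exact h.1
    · exact h.1

theorem measurable_ΘA {Φ : Space3 → ℝ} (hΦ : AdmissiblePotential Φ) {ε : ℝ} (hε : 0 < ε)
    {K : ℕ} {Q : EPar} (n : ℕ) :
    Measurable fun q : Config n × ML => ΘA Φ ε K Q n q.1 q.2 := by
  have h := measurable_Θl (lineM Q.γ Q.ρ K Q.te) Q.L Q.te (measurable_θ₀ hΦ hε K Q.te)
  have hq : Measurable fun q : Config n × ML => ((⟨n, q.1⟩ : Σ n : ℕ, Config n), q.2) :=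
    ((Q1815.measurableEmbedding_sigmaMk n).measurable.comp measurable_fst).prodMk measurable_snd
  exact h.comp hq

/-- algebra of the pointwise bound -/
theorem alg_pt {x a g s e W' : ℝ≥0∞} {p : Prop} [Decidable p] (h : p → W' ≤ s + e) :
    x * (a * (g * if p then 1 else 0) * W') ≤ x * (a * g * s) + a * (g * e) * x := by
  by_cases hp : p
  · rw [if_pos hp, mul_one]
    calc x * (a * g * W') ≤ x * (a * g * (s + e)) := by
          gcongr
          exact h hp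
      _ = _ := by ring
  · rw [if_neg hp, mul_zero, mul_zero, zero_mul, mul_zero]
    exact bot_le

/-- splitting of a triple integral -/
theorem int_split {Z' Ω' : Type*} [MeasurableSpace Z'] [MeasurableSpace Ω'] (mZ : Measure Z')
    (mΩ : Measure Ω') [SFinite mΩ] {R F : Z' → Ω' → ℝ → ℝ≥0∞} {B : Z' → Ω' → ℝ≥0∞}
    {rd : Z' → ℝ → ℝ≥0∞} {c : Z' → ℝ≥0∞}
    (hR : Measurable fun q : (Z' × Ω') × ℝ => R q.1.1 q.1.2 q.2)
    (hrd : ∀ z, Measurable (rd z)) (hle : ∀ z, ∫⁻ u, rd z u ≤ c z)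
    (hF : ∀ z w u, F z w u ≤ R z w u + B z w * rd z u) :
    ∫⁻ z, ∫⁻ w, ∫⁻ u, F z w u ∂volume ∂mΩ ∂mZ ≤
      (∫⁻ z, ∫⁻ w, ∫⁻ u, R z w u ∂volume ∂mΩ ∂mZ) + ∫⁻ z, ∫⁻ w, B z w * c z ∂mΩ ∂mZ := by
  have h1 : Measurable fun q : Z' × Ω' => ∫⁻ u, R q.1 q.2 u := hR.lintegral_prod_right'
  have h2 : Measurable fun z : Z' => ∫⁻ w, ∫⁻ u, R z w u ∂volume ∂mΩ := h1.lintegral_prod_right'
  rw [← lintegral_add_left h2]
  refine lintegral_mono fun z => ?_
  have h3 : Measurable fun w : Ω' => ∫⁻ u, R z w u :=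
    h1.comp (measurable_const.prodMk measurable_id : Measurable fun w : Ω' => (z, w))
  show ∫⁻ w, ∫⁻ u, F z w u ∂volume ∂mΩ ≤ (∫⁻ w, ∫⁻ u, R z w u ∂volume ∂mΩ) +
    ∫⁻ w, B z w * c z ∂mΩ
  rw [← lintegral_add_left h3]
  refine lintegral_mono fun w => ?_
  have h4 : Measurable fun u : ℝ => R z w u := by
    have hq : Measurable fun u : ℝ => ((z, w), u) := measurable_const.prodMk measurable_id
    exact hR.comp hq
  calc ∫⁻ u, F z w u ≤ ∫⁻ u, (R z w u + B z w * rd z u) := lintegral_mono fun u => hF z w u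
    _ = (∫⁻ u, R z w u) + B z w * ∫⁻ u, rd z u := by
        rw [lintegral_add_left h4, lintegral_const_mul _ (hrd z)]
    _ ≤ (∫⁻ u, R z w u) + B z w * c z := by
        gcongr
        exact hle z

section main

variable {Φ : Space3 → ℝ} (hΦ : AdmissiblePotential Φ) {f₀ : PhasePoint → ℝ}
  (hf : Measurable f₀) {ε : ℝ} (hε : 0 < ε) {K : ℕ} {Q : EPar} {r : ℝ} {ν : Measure (Lab × LSt)}
  {c₆ c₇ : ℝ≥0∞}

/-- the weight of the link at time `u` -/
def HA (G : (P : CTree) → (Σ n : ℕ, Config n) → PhasePoint × Par P → Prop) (Φ : Space3 → ℝ) (f₀ : PhasePoint → ℝ) (ε : ℝ) (K : ℕ) (Q : EPar) (P : CTree)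
    (w : Σ n : ℕ, Config n) (z : PhasePoint × Par P) (u : ℝ) : ℝ≥0∞ :=
  tws Φ f₀ ε Q.te P z * (gh Φ ε Q.tw P z w *
    if rst Φ ε K Q.te P w z u ∧ G P w z then (1 : ℝ≥0∞) else 0)

/-- integrand of SP-A -/
def FAt (A : ∀ P : CTree, PhasePoint × Par P → MW (ξ P))
    (G : (P : CTree) → (Σ n : ℕ, Config n) → PhasePoint × Par P → Prop) (Φ : Space3 → ℝ)
    (f₀ : PhasePoint → ℝ) (ε : ℝ) (K : ℕ) (Q : EPar) (P : CTree)
    (w : Σ n : ℕ, Config n) (z : PhasePoint × Par P) (p : Lab × LSt) : ℝ≥0∞ :=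
  tws Φ f₀ ε Q.te P z * (gh Φ ε Q.tw P z w *
        if rst Φ ε K Q.te P w z (hitT ε z.1 p.2) ∧ G P w z then
          termA Φ ε K Q (MW.cfg w.2) (A P z) (lineMM Φ ε P z) p.1.1 else 0)

include hΦ hf hε in
theorem measurable_HA (hG : ∀ P, MeasurableSet {q : (Σ n : ℕ, Config n) × (PhasePoint × Par P) |
      G P q.1 q.2}) (P : CTree) : Measurable fun q : (Σ n : ℕ, Config n) ×
    (PhasePoint × Par P) × ℝ => HA G Φ f₀ ε K Q P q.1 q.2.1 q.2.2 := by
  unfold HA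
  refine ((measurable_tws hΦ hf hε Q.te P).comp measurable_snd.fst).mul
    (((measurable_gh hΦ hε Q.tw P).comp (measurable_fst.prodMk measurable_snd.fst)).mul ?_)
  refine Measurable.ite ?_ measurable_const measurable_const
  have hq : Measurable fun q : (Σ n : ℕ, Config n) × (PhasePoint × Par P) × ℝ =>
      (q.1, q.2.1) := measurable_fst.prodMk measurable_snd.fst
  exact (measurableSet_rst hΦ hε P).inter (hq (hG P))

theorem FAt_le (P : CTree) (w : Σ n : ℕ, Config n) (z : PhasePoint × Par P) (p : Lab × LSt) :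
    FAt A G Φ f₀ ε K Q P w z p ≤ HA G Φ f₀ ε K Q P w z (hitT ε z.1 p.2) *
      Aw (lineM Q.γ Q.ρ K Q.te) Q.L Q.te (fT Φ ε K Q.te P w z) (θA A Φ ε K Q.te P w z) p.1.1 := by
  have h : (if rst Φ ε K Q.te P w z (hitT ε z.1 p.2) ∧ G P w z then
          termA Φ ε K Q (MW.cfg w.2) (A P z) (lineMM Φ ε P z) p.1.1 else 0) =
      (if rst Φ ε K Q.te P w z (hitT ε z.1 p.2) ∧ G P w z then (1 : ℝ≥0∞) else 0) *
        termA Φ ε K Q (MW.cfg w.2) (A P z) (lineMM Φ ε P z) p.1.1 := by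
    split_ifs <;> simp
  unfold FAt HA
  rw [h, mul_assoc, mul_assoc]
  exact le_rfl

include hΦ hf hε in
/-- SP-A for one shape, first form -/
theorem spa_one0 (hA : ∀ P, MeasW (A P))
    (hG : ∀ P, MeasurableSet {q : (Σ n : ℕ, Config n) × (PhasePoint × Par P) | G P q.1 q.2})
    (hL : 0 < Q.L)
    (hc : c₆ * ENNReal.ofReal (1 / Q.L) + c₇ ≠ ∞) (P : CTree)
    (h6 : ∀ z, S6 ν (fun p => p.1.1) (lineM Q.γ Q.ρ K Q.te) volume c₆
      ((shape hΦ hf hε Q.te Q.tw Q.te r P).lt z) ((shape hΦ hf hε Q.te Q.tw Q.te r P).Bo z)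
      ((shape hΦ hf hε Q.te Q.tw Q.te r P).rd z))
    (h7 : ∀ z, Y6 ν volume c₇
      ((shape hΦ hf hε Q.te Q.tw Q.te r P).lt z) ((shape hΦ hf hε Q.te Q.tw Q.te r P).By z)
      ((shape hΦ hf hε Q.te Q.tw Q.te r P).rd z)) :
    ∫⁻ z, ∫⁻ w, ∫⁻ p in LinkS ε Q.te P z, FAt A G Φ f₀ ε K Q P w z p ∂ν ∂gcM f₀ ε ≤
      (c₆ * ENNReal.ofReal (1 / Q.L) + c₇) * ∫⁻ z : PhasePoint × Par P, ∫⁻ w, ∫⁻ u,
        rdL Q.te (rel P z.2 (root P)) z.1 u * (HA G Φ f₀ ε K Q P w z u * WA A Φ ε K Q P w z)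
          ∂volume ∂gcM f₀ ε := by
  have h1 := spA0 (shape hΦ hf hε Q.te Q.tw Q.te r P) (gcM f₀ ε) volume volume ν
    (d := fun p => p.1.1) (lineM Q.γ Q.ρ K Q.te) (L := Q.L) (te := Q.te) hL hc h6 h7
    (θV := fun w z l => θA A Φ ε K Q.te P w z l) (measurable_θA A hΦ hε hA P)
    (tL := fun w z => fT Φ ε K Q.te P w z)
    (H := fun w z u => HA G Φ f₀ ε K Q P w z u) (measurable_HA hΦ hf hε hG P)
    (FA := fun w z p => FAt A G Φ f₀ ε K Q P w z p) (fun w z p _ => FAt_le P w z p)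
  simp only [LinkS_eq hΦ hf hε Q.tw Q.te r]
  exact h1

include hΦ hf hε in
theorem measurable_shapeE (P : CTree) {Θ : (n : ℕ) → Config n → ML → ℝ≥0∞}
    (hΘ : ∀ n, Measurable fun q : Config n × ML => Θ n q.1 q.2) :
    Measurable fun q : ((PhasePoint × Par P) × (Σ n : ℕ, Config n)) × ℝ =>
      rdL Q.te (rel P q.1.1.2 (root P)) q.1.1.1 q.2 *
        (tws Φ f₀ ε Q.te P q.1.1 * gh Φ ε Q.tw P q.1.1 q.1.2 *
          ∑ i, sigF Θ q.1.2 (lineU Φ ε P q.1.1 q.2 i)) := by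
  refine (measurable_rdL Q.te ((measurable_rel P (root P)).comp measurable_fst.fst.snd)
    measurable_fst.fst.fst measurable_snd).mul ((((measurable_tws hΦ hf hε Q.te P).comp
      measurable_fst.fst).mul ((measurable_gh hΦ hε Q.tw P).comp
        (measurable_fst.snd.prodMk measurable_fst.fst))).mul
          (Finset.measurable_sum _ fun i _ => ?_))
  have hq : Measurable fun q : ((PhasePoint × Par P) × (Σ n : ℕ, Config n)) × ℝ =>
      (q.1.2, lineU Φ ε P q.1.1 q.2 i) :=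
    measurable_fst.snd.prodMk ((measurable_lineU hΦ ε P i).comp
      (measurable_fst.fst.prodMk measurable_snd))
  have h := (measurable_sigF hΘ).comp hq
  exact h

theorem EI_eq (r : ℝ) (P : CTree) (Θ : (n : ℕ) → Config n → ML → ℝ≥0∞) :
    (shape hΦ hf hε Q.te Q.tw Q.te r P).EI (gcM f₀ ε) volume volume (sigF Θ) =
      ∫⁻ z : PhasePoint × Par P, ∫⁻ w, ∫⁻ u, rdL Q.te (rel P z.2 (root P)) z.1 u *
        (tws Φ f₀ ε Q.te P z * gh Φ ε Q.tw P z w *
          ∑ i, sigF Θ w (lineU Φ ε P z u i)) ∂volume ∂gcM f₀ ε := by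
  unfold Shape.EI
  refine lintegral_congr fun z => lintegral_congr fun w => lintegral_congr fun u => ?_
  have e3 : (shape hΦ hf hε Q.te Q.tw Q.te r P).E (sigF Θ) w z u =
      ∑ i, tws Φ f₀ ε Q.te P z * gh Φ ε Q.tw P z w * sigF Θ w (lineU Φ ε P z u i) := rfl
  rw [e3, ← Finset.mul_sum]
  rfl

/-- SP-A for one shape -/
theorem spa_one (hA : ∀ P, MeasW (A P))
    (hG : ∀ P, MeasurableSet {q : (Σ n : ℕ, Config n) × (PhasePoint × Par P) | G P q.1 q.2})
    (hL : 0 < Q.L)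
    (hc : c₆ * ENNReal.ofReal (1 / Q.L) + c₇ ≠ ∞) (P : CTree)
    (h6 : ∀ z, S6 ν (fun p => p.1.1) (lineM Q.γ Q.ρ K Q.te) volume c₆
      ((shape hΦ hf hε Q.te Q.tw Q.te r P).lt z) ((shape hΦ hf hε Q.te Q.tw Q.te r P).Bo z)
      ((shape hΦ hf hε Q.te Q.tw Q.te r P).rd z))
    (h7 : ∀ z, Y6 ν volume c₇
      ((shape hΦ hf hε Q.te Q.tw Q.te r P).lt z) ((shape hΦ hf hε Q.te Q.tw Q.te r P).By z)
      ((shape hΦ hf hε Q.te Q.tw Q.te r P).rd z)) :
    ∫⁻ z, ∫⁻ w, ∫⁻ p in LinkS ε Q.te P z, FAt A G Φ f₀ ε K Q P w z p ∂ν ∂gcM f₀ ε ≤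
      (c₆ * ENNReal.ofReal (1 / Q.L) + c₇) *
        ((shape hΦ hf hε Q.te Q.tw Q.te r P).EI (gcM f₀ ε) volume volume (sigF (ΘA Φ ε K Q)) +
        ENNReal.ofReal Q.te * ∫⁻ z, ∫⁻ w, tws Φ f₀ ε Q.te P z * (ENNReal.ofReal (1 + ‖z.1.2‖) *
          (gh Φ ε Q.tw P z w * eA A G Φ ε K Q P w z)) ∂gcM f₀ ε) := by
  refine (spa_one0 hΦ hf hε hA hG hL hc P h6 h7).trans (mul_le_mul_right ?_ _)
  refine (int_split volume (gcM f₀ ε)
    (R := fun z w u => rdL Q.te (rel P z.2 (root P)) z.1 u *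
        (tws Φ f₀ ε Q.te P z * gh Φ ε Q.tw P z w *
          ∑ i, sigF (ΘA Φ ε K Q) w (lineU Φ ε P z u i)))
    (B := fun z w => tws Φ f₀ ε Q.te P z * (gh Φ ε Q.tw P z w * eA A G Φ ε K Q P w z))
    (rd := fun z u => rdL Q.te (rel P z.2 (root P)) z.1 u)
    (c := fun z => ENNReal.ofReal Q.te * ENNReal.ofReal (1 + ‖z.1.2‖))
    (measurable_shapeE hΦ hf hε P fun n => measurable_ΘA hΦ hε n)
    (fun z => measurable_rdL Q.te measurable_const measurable_const measurable_id)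
    (fun z => lintegral_rd_le) (fun z w u => ?_)).trans ?_
  · unfold HA
    exact alg_pt fun hr => WA_le hL hr.1 hr.2
  · rw [EI_eq]
    refine add_le_add le_rfl ?_
    rw [← lintegral_const_mul' _ _ ENNReal.ofReal_ne_top]
    refine lintegral_mono fun z => ?_
    rw [← lintegral_const_mul' _ _ ENNReal.ofReal_ne_top]
    refine lintegral_mono fun w => le_of_eq ?_
    simp only
    ring

end main

end A

end

end Crest.Agent.R122.H5994
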