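import Crest.Agent.R122.H5St_994

-- ▼ part R122/H5A2_994
section

/-!
# SP-A, all shapes (row 122, helper994)

* `lintegral_ΘA_le`, `gcE_ΘA_le` : the mass of the test function of SP-A is at most `XI + tnMass tw`;
* `spa_total` : `Σ_P ∫∫∫ 1[link] gh (A) ≤ (c₆/L + c₇) (C_Q (XI + tnMass tw) + δ_Q + te TS errA)`.
-/

set_option autoImplicit false

open MeasureTheory Set Filter
open scoped ENNReal Topology
open Crest.AnalysisR.Kinetic
open Crest.Agent.R122.Kin796 Crest.Agent.R122.Kin796.CTree Crest.Agent.R122.Tree674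
open Crest.Agent.R122.EDefs602 Crest.Agent.R122.TreeLines335 Crest.Agent.R122.LineMeas994
open Crest.Agent.R122.GC311 Crest.Agent.R122.QDens815 Crest.Agent.R122.Q1815
open Crest.Agent.R122.SPV994 Crest.Agent.R122.Decomp811 Crest.Agent.R122.Weight984
open Crest.Agent.R122.MeasE416
open Crest.Agent.R122.Boost969 (LSt posAt)
open Crest.Agent.R122.Pair292 (Lab PPar PX sig shM)

namespace Crest.Agent.R122.H5994

noncomputable section

open scoped Classical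

section mass

variable {Φ : Space3 → ℝ} {f₀ : PhasePoint → ℝ} {ε : ℝ} {K : ℕ} {Q : EPar}

theorem ΘA_le_one (hL : 0 ≤ Q.L) {n : ℕ} (w : Config n) (l : ML) : ΘA Φ ε K Q n w l ≤ 1 := by
  unfold ΘA
  exact Θl_le_one hL _ _ _ _

/-- mass of the test function of SP-A -/
theorem lintegral_ΘA_le (hΦ : AdmissiblePotential Φ) (hε : 0 < ε) (hL : 0 ≤ Q.L) {n : ℕ}
    {w : Config n} (hw : w ∈ PairExcluded ε n) (htw : 0 ≤ Q.tw) (hte : Q.tw ≤ Q.te) :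
    ∫⁻ l, ΘA Φ ε K Q n w l ∂lineM Q.γ Q.ρ K Q.te ≤
      (∫⁻ l, (MW.cfg w).touchW Φ ε K Q l ∂lineM Q.γ Q.ρ K Q.te) +
        lineM Q.γ Q.ρ K Q.tw {l | (MW.cfg w).thetaL Φ ε K Q.tw l ≤ Q.tw} := by
  have hm : MeasurableSet {l : ML | (MW.cfg w).thetaL Φ ε K Q.te l ≤ Q.tw} := by
    have hq : Measurable fun l : ML => (w, l) := measurable_const.prodMk measurable_id
    have h := (measurable_thetaL_cfg hΦ hε K Q.te n).comp hq
    exact measurableSet_le h measurable_const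
  have h1 : ∀ l, ΘA Φ ε K Q n w l ≤ (MW.cfg w).touchW Φ ε K Q l +
      {l : ML | (MW.cfg w).thetaL Φ ε K Q.te l ≤ Q.tw}.indicator (fun _ => 1) l := by
    intro l
    by_cases ht : (MW.cfg w).thetaL Φ ε K Q.te l ≤ Q.tw
    · rw [indicator_of_mem (show l ∈ {l : ML | (MW.cfg w).thetaL Φ ε K Q.te l ≤ Q.tw} from ht)]
      exact (ΘA_le_one hL w l).trans le_add_self
    · by_cases ht' : (MW.cfg w).thetaL Φ ε K Q.te l ≤ Q.te
      · have h2 : (MW.cfg w).touchW Φ ε K Q l = (MW.cfg w).Wm Φ ε K Q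
            ((MW.cfg w).thetaL Φ ε K Q.te l) := by
          unfold MW.touchW
          rw [if_pos ⟨not_le.1 ht, ht'⟩]
        have h3 : ΘA Φ ε K Q n w l = (MW.cfg w).Wm Φ ε K Q
            ((MW.cfg w).thetaL Φ ε K Q.te l) := by
          unfold ΘA Θl
          rw [if_pos (show θ₀ Φ ε K Q.te ⟨n, w⟩ l ≤ Q.te from ht')]
          rfl
        rw [h2, h3]
        exact le_self_add
      · have h3 : ΘA Φ ε K Q n w l = 0 := by
          unfold ΘA Θl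
          rw [if_neg (show ¬ θ₀ Φ ε K Q.te ⟨n, w⟩ l ≤ Q.te from ht')]
        rw [h3]
        exact bot_le
  refine (lintegral_mono h1).trans ?_
  rw [lintegral_add_right _ (measurable_const.indicator hm)]
  refine add_le_add le_rfl ?_
  have h5 : ∫⁻ l, {l : ML | (MW.cfg w).thetaL Φ ε K Q.te l ≤ Q.tw}.indicator (fun _ => (1 : ℝ≥0∞)) l
      ∂lineM Q.γ Q.ρ K Q.te = lineM Q.γ Q.ρ K Q.te {l : ML | (MW.cfg w).thetaL Φ ε K Q.te l ≤ Q.tw} :=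
    lintegral_indicator_one hm
  rw [h5]
  exact Unw410.lineM_le_tw hΦ hε hw htw hte Q.γ Q.ρ

theorem gcE_ΘA_le (hΦ : AdmissiblePotential Φ) (hf : Measurable f₀) (hε : 0 < ε)
    (hγ : Measurable Q.γ) (hL : 0 ≤ Q.L) (htw : 0 ≤ Q.tw) (hte : Q.tw ≤ Q.te) :
    gcE f₀ ε (fun n w => ∫⁻ l, ΘA Φ ε K Q n w l ∂lineM Q.γ Q.ρ K Q.te) ≤
      XI Φ f₀ ε K Q + tnMass Φ f₀ Q.γ Q.ρ ε K Q.tw := by
  have h1 : gcE f₀ ε (fun n w => ∫⁻ l, ΘA Φ ε K Q n w l ∂lineM Q.γ Q.ρ K Q.te) ≤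
      gcE f₀ ε (fun n w => (∫⁻ l, (MW.cfg w).touchW Φ ε K Q l ∂lineM Q.γ Q.ρ K Q.te) +
        lineM Q.γ Q.ρ K Q.tw {l | (MW.cfg w).thetaL Φ ε K Q.tw l ≤ Q.tw}) :=
    gcE_mono f₀ ε fun n w hw => lintegral_ΘA_le hΦ hε hL hw htw hte
  refine h1.trans (le_of_eq ?_)
  have hm1 : ∀ n, Measurable fun w : Config n =>
      ∫⁻ l, (MW.cfg w).touchW Φ ε K Q l ∂lineM Q.γ Q.ρ K Q.te := fun n =>
    (measurable_touchW_cfg hΦ hε K Q n).lintegral_prod_right'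
  rw [EBasic602.XI_eq hf hγ (fun n => measurable_touchW_cfg hΦ hε K Q n)]
  unfold tnMass
  rw [gcE_add hf ε hm1]

end mass

section total

variable {ξ : CTree → Type} [∀ P, Fintype (ξ P)] {A : ∀ P : CTree, PhasePoint × Par P → MW (ξ P)}
  {G : (P : CTree) → (Σ n : ℕ, Config n) → PhasePoint × Par P → Prop}
variable {Φ : Space3 → ℝ} (hΦ : AdmissiblePotential Φ) {f₀ : PhasePoint → ℝ}
  (hf : Measurable f₀) {ε : ℝ} (hε : 0 < ε) {K : ℕ} {Q : EPar} {r : ℝ} {ν : Measure (Lab × LSt)}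
  {c₆ c₇ : ℝ≥0∞}

/-- **SP-A, all shapes.** -/
theorem spa_total (hA : ∀ P, MeasW (A P))
    (hG : ∀ P, MeasurableSet {q : (Σ n : ℕ, Config n) × (PhasePoint × Par P) | G P q.1 q.2})
    (hL : 0 < Q.L)
    (hc : c₆ * ENNReal.ofReal (1 / Q.L) + c₇ ≠ ∞)
    (h6 : ∀ P z, S6 ν (fun p => p.1.1) (lineM Q.γ Q.ρ K Q.te) volume c₆
      ((shape hΦ hf hε Q.te Q.tw Q.te r P).lt z) ((shape hΦ hf hε Q.te Q.tw Q.te r P).Bo z)
      ((shape hΦ hf hε Q.te Q.tw Q.te r P).rd z))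
    (h7 : ∀ P z, Y6 ν volume c₇
      ((shape hΦ hf hε Q.te Q.tw Q.te r P).lt z) ((shape hΦ hf hε Q.te Q.tw Q.te r P).By z)
      ((shape hΦ hf hε Q.te Q.tw Q.te r P).rd z))
    {CR δR CE δE : ℝ≥0∞}
    (hR : ∑ P ∈ GIVStep383.trees K, ∫⁻ z : PhasePoint × Par P, ∫⁻ w, ∫⁻ u,
          rootI Φ f₀ ε Q.tw Q.te P (ΘA Φ ε K Q) w z u ∂volume ∂gcM f₀ ε ≤
        CR * gcE f₀ ε (fun n w => ∫⁻ l, ΘA Φ ε K Q n w l ∂lineM Q.γ Q.ρ K Q.te) + δR)
    (hE : InEq2.TS Φ f₀ ε Q.te (exitH Φ ε Q.tw Q.te K (ΘA Φ ε K Q)) ≤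
        CE * gcE f₀ ε (fun n w => ∫⁻ l, ΘA Φ ε K Q n w l ∂lineM Q.γ Q.ρ K Q.te) + δE)
    (hγ : Measurable Q.γ) (htw : 0 ≤ Q.tw) (hte : Q.tw ≤ Q.te) :
    ∑ P ∈ GIVStep383.trees K, ∫⁻ z, ∫⁻ w, ∫⁻ p in LinkS ε Q.te P z,
        FAt A G Φ f₀ ε K Q P w z p ∂ν ∂gcM f₀ ε ≤
      (c₆ * ENNReal.ofReal (1 / Q.L) + c₇) *
        ((CR + ENNReal.ofReal Q.te * CE) * (XI Φ f₀ ε K Q + tnMass Φ f₀ Q.γ Q.ρ ε K Q.tw) +
          (δR + ENNReal.ofReal Q.te * δE) +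
          ENNReal.ofReal Q.te * InEq2.TS Φ f₀ ε Q.te (errA A G Φ ε K Q)) := by
  refine (Finset.sum_le_sum fun P _ => spa_one hΦ hf hε hA hG hL hc P (h6 P) (h7 P)).trans ?_
  rw [← Finset.mul_sum, Finset.sum_add_distrib, ← Finset.mul_sum]
  refine mul_le_mul_right ?_ _
  have h1 := EI_sum_le hΦ hf hε Q.tw Q.te r (K := K) (Θ := ΘA Φ ε K Q)
    (fun n => measurable_ΘA hΦ hε n)
  have h2 := gcE_ΘA_le (K := K) (Q := Q) hΦ hf hε hγ hL.le htw hte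
  have h3 := sum_le_TS (Φ := Φ) (ε := ε) hf (te := Q.te) (K := K)
    (F := fun P w z => ENNReal.ofReal (1 + ‖z.1.2‖) *
          (gh Φ ε Q.tw P z w * eA A G Φ ε K Q P w z))
  have h4 : InEq2.TS Φ f₀ ε Q.te (fun P z m w =>
      if P.leaves ≤ K ∧ Sep Φ ε P Q.te z.1 z.2 then ENNReal.ofReal (1 + ‖z.1.2‖) *
          (gh Φ ε Q.tw P z ⟨m, w⟩ * eA A G Φ ε K Q P ⟨m, w⟩ z) else 0) =
      InEq2.TS Φ f₀ ε Q.te (errA A G Φ ε K Q) := rfl
  rw [h4] at h3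
  refine add_le_add (h1.trans ?_) (mul_le_mul_right h3 _)
  calc _ ≤ (CR * gcE f₀ ε (fun n w => ∫⁻ l, ΘA Φ ε K Q n w l ∂lineM Q.γ Q.ρ K Q.te) + δR) +
        ENNReal.ofReal Q.te * (CE * gcE f₀ ε (fun n w => ∫⁻ l, ΘA Φ ε K Q n w l
          ∂lineM Q.γ Q.ρ K Q.te) + δE) := add_le_add hR (mul_le_mul_right hE _)
    _ = (CR + ENNReal.ofReal Q.te * CE) * gcE f₀ ε (fun n w => ∫⁻ l, ΘA Φ ε K Q n w l
          ∂lineM Q.γ Q.ρ K Q.te) + (δR + ENNReal.ofReal Q.te * δE) := by ring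
    _ ≤ _ := by gcongr

end total

end

end Crest.Agent.R122.H5994
end

-- ▼ part R122/H5B_994

/-!
# SP-B at gas level (row 122, helper994)

* `ΘBg` : test function of SP-B; `gcE_ΘBg_le` : its mass is at most `XI + errB`;
* `errB` : two independent lines `d`, `x`, linked in the gas world before both touches (capped by 1);
* `spb_total` : `Σ_P ∫∫∫ 1[old link] gh (B) ≤ c₆/L (C_Q (XI + errB) + δ_Q)`.
-/

set_option autoImplicit false

open MeasureTheory Set Filter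
open scoped ENNReal Topology
open Crest.AnalysisR.Kinetic
open Crest.Agent.R122.Kin796 Crest.Agent.R122.Kin796.CTree Crest.Agent.R122.Tree674
open Crest.Agent.R122.EDefs602 Crest.Agent.R122.TreeLines335 Crest.Agent.R122.LineMeas994
open Crest.Agent.R122.GC311 Crest.Agent.R122.QDens815 Crest.Agent.R122.Q1815
open Crest.Agent.R122.SPV994 Crest.Agent.R122.Decomp811 Crest.Agent.R122.Weight984
open Crest.Agent.R122.MeasE416
open Crest.Agent.R122.Boost969 (LSt posAt)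
open Crest.Agent.R122.Pair292 (Lab PPar PX sig shM)

namespace Crest.Agent.R122.H5994

noncomputable section

open scoped Classical

section general

variable {Λ Ω : Type*} [MeasurableSpace Λ]

/-- `lintegral_ΘB_le` with a general error -/
theorem lintegral_ΘB_cap {lam : Measure Λ} [SFinite lam] {L : ℝ} (hL : 0 < L)
    {θ₀ : Ω → Λ → ℝ} {θd : Ω → Λ → Λ → ℝ} (tw te : ℝ) (w : Ω)
    (hΨ : Measurable fun q : Λ × Λ => Ψv lam L tw te θ₀ θd w q.1 q.2)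
    (hθ₀ : Measurable (θ₀ w))
    (hθd : ∀ d, Measurable (θd w d)) {er : Λ → ℝ≥0∞}
    (her : ∀ d, tw < θ₀ w d → θ₀ w d ≤ te →
      W L (lam {l | θd w d l < θ₀ w d}) ≤ W L (lam {l | θ₀ w l < θ₀ w d}) + er d) :
    ∫⁻ k, ΘB lam L tw te θ₀ θd w k ∂lam ≤ ∫⁻ l, Tw lam L tw te θ₀ w l ∂lam +
      ∫⁻ l in {l | tw < θ₀ w l ∧ θ₀ w l ≤ te}, er l ∂lam := by
  have hms : MeasurableSet {l | tw < θ₀ w l ∧ θ₀ w l ≤ te} :=
    (hθ₀ measurableSet_Ioi).inter (hθ₀ measurableSet_Iic)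
  have hTm : Measurable fun l => Tw lam L tw te θ₀ w l := by
    unfold Tw
    refine Measurable.ite hms ?_ measurable_const
    exact (measurable_W L).comp (measurable_touched_lt (Ξ := Λ) lam (θ := fun _ l => θ₀ w l)
      (hθ₀.comp measurable_snd) hθ₀)
  calc ∫⁻ k, ΘB lam L tw te θ₀ θd w k ∂lam
      = ENNReal.ofReal L * ∫⁻ k, ∫⁻ d, Ψv lam L tw te θ₀ θd w d k ∂lam ∂lam := by
        unfold ΘB
        exact lintegral_const_mul _
          (Measurable.lintegral_prod_right' (f := fun q : Λ × Λ =>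
            Ψv lam L tw te θ₀ θd w q.2 q.1) (hΨ.comp measurable_swap))
    _ = ENNReal.ofReal L * ∫⁻ d, ∫⁻ k, Ψv lam L tw te θ₀ θd w d k ∂lam ∂lam := by
        congr 1
        exact lintegral_lintegral_swap (f := fun k d => Ψv lam L tw te θ₀ θd w d k)
          (hΨ.comp measurable_swap).aemeasurable
    _ ≤ ENNReal.ofReal L * ∫⁻ d, ENNReal.ofReal (1 / L) *
        (if tw < θ₀ w d ∧ θ₀ w d ≤ te then W L (lam {l | θd w d l < θ₀ w d}) else 0) ∂lam := by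
        gcongr with d
        exact lintegral_Ψv_second_le hL θ₀ tw te w d (hθd d)
    _ = (ENNReal.ofReal L * ENNReal.ofReal (1 / L)) * ∫⁻ d,
        (if tw < θ₀ w d ∧ θ₀ w d ≤ te then W L (lam {l | θd w d l < θ₀ w d}) else 0) ∂lam := by
        rw [lintegral_const_mul' _ _ ENNReal.ofReal_ne_top, mul_assoc]
    _ = ∫⁻ d,
        (if tw < θ₀ w d ∧ θ₀ w d ≤ te then W L (lam {l | θd w d l < θ₀ w d}) else 0) ∂lam := by
        rw [ofReal_mul_inv hL, one_mul]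
    _ ≤ ∫⁻ d, (Tw lam L tw te θ₀ w d +
          {l | tw < θ₀ w l ∧ θ₀ w l ≤ te}.indicator (fun l => er l) d) ∂lam := by
        refine lintegral_mono fun d => ?_
        split_ifs with h
        · rw [indicator_of_mem (show d ∈ {l | tw < θ₀ w l ∧ θ₀ w l ≤ te} from h)]
          unfold Tw
          rw [if_pos h]
          exact her d h.1 h.2
        · exact bot_le
    _ = _ := by
        rw [lintegral_add_left hTm, lintegral_indicator hms]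

end general

section mass

variable {Φ : Space3 → ℝ} {f₀ : PhasePoint → ℝ} {ε : ℝ} {K : ℕ} {Q : EPar}

/-- test function of SP-B -/
def ΘBg (Φ : Space3 → ℝ) (ε : ℝ) (K : ℕ) (Q : EPar) (n : ℕ) (w : Config n) (l : ML) : ℝ≥0∞ :=
  ΘB (lineM Q.γ Q.ρ K Q.te) Q.L Q.tw Q.te (θ₀ Φ ε K Q.te) (θd Φ ε K Q.te) ⟨n, w⟩ l

/-- errors of SP-B: independent lines `d`, `x`, linked in the gas world -/
def errB (Φ : Space3 → ℝ) (f₀ : PhasePoint → ℝ) (ε : ℝ) (K : ℕ) (Q : EPar) : ℝ≥0∞ :=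
  gcE f₀ ε fun n w => ∫⁻ d in {d | Q.tw < (MW.cfg w).thetaL Φ ε K Q.te d ∧
    (MW.cfg w).thetaL Φ ε K Q.te d ≤ Q.te},
    min 1 (ENNReal.ofReal Q.L * lineM Q.γ Q.ρ K Q.te
      (badN Φ ε K Q.te (MW.cfg w) (MW.line d))) ∂lineM Q.γ Q.ρ K Q.te

theorem termB_eq (w : Σ n : ℕ, Config n) (d k : ML) : termB Φ ε K Q (MW.cfg w.2) d k =
    Ψv (lineM Q.γ Q.ρ K Q.te) Q.L Q.tw Q.te (θ₀ Φ ε K Q.te) (θd Φ ε K Q.te) w d k := rfl

theorem measurable_ΘBg (hΦ : AdmissiblePotential Φ) (hε : 0 < ε) (n : ℕ) :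
    Measurable fun q : Config n × ML => ΘBg Φ ε K Q n q.1 q.2 := by
  have h := measurable_ΘB (lineM Q.γ Q.ρ K Q.te) Q.L Q.tw Q.te (measurable_θ₀ hΦ hε K Q.te)
    (measurable_θd hΦ hε K Q.te)
  have hq : Measurable fun q : Config n × ML => ((⟨n, q.1⟩ : Σ n : ℕ, Config n), q.2) :=
    ((Q1815.measurableEmbedding_sigmaMk n).measurable.comp measurable_fst).prodMk measurable_snd
  exact h.comp hq

theorem measurable_θ₀w (hΦ : AdmissiblePotential Φ) (hε : 0 < ε) (w : Σ n : ℕ, Config n) :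
    Measurable (θ₀ Φ ε K Q.te w) := by
  have hq : Measurable fun l : ML => (w, l) := measurable_const.prodMk measurable_id
  exact (measurable_θ₀ hΦ hε K Q.te).comp hq

theorem measurable_θdw (hΦ : AdmissiblePotential Φ) (hε : 0 < ε) (w : Σ n : ℕ, Config n) (d : ML) :
    Measurable (θd Φ ε K Q.te w d) := by
  have hq : Measurable fun l : ML => ((w, d), l) := measurable_const.prodMk measurable_id
  exact (measurable_θd hΦ hε K Q.te).comp hq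

theorem ΘBg_le_one (hΦ : AdmissiblePotential Φ) (hε : 0 < ε) (hL : 0 < Q.L) {n : ℕ}
    (w : Config n) (l : ML) : ΘBg Φ ε K Q n w l ≤ 1 := by
  unfold ΘBg
  exact ΘB_le_one hL _ (measurable_θ₀w hΦ hε _) _ _ _ _

/-- the left-limit weight of the touch of `d`, in the world with `d` -/
theorem W_window_le (hL : 0 < Q.L) (w : Σ n : ℕ, Config n) (d : ML) :
    W Q.L (lineM Q.γ Q.ρ K Q.te {l | θd Φ ε K Q.te w d l < θ₀ Φ ε K Q.te w d}) ≤
      W Q.L (lineM Q.γ Q.ρ K Q.te {l | θ₀ Φ ε K Q.te w l < θ₀ Φ ε K Q.te w d}) +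
      min 1 (ENNReal.ofReal Q.L * lineM Q.γ Q.ρ K Q.te
        (badN Φ ε K Q.te (MW.cfg w.2) (MW.line d))) := by
  rcases le_total 1 (ENNReal.ofReal Q.L * lineM Q.γ Q.ρ K Q.te
        (badN Φ ε K Q.te (MW.cfg w.2) (MW.line d))) with h | h
  · rw [min_eq_left h]
    exact (W_le_one hL.le _).trans le_add_self
  · rw [min_eq_right h]
    have h1 : Cons1 (θ₀ Φ ε K Q.te w) (θd Φ ε K Q.te w d) (θ₀ Φ ε K Q.te w d)
        (badN Φ ε K Q.te (MW.cfg w.2) (MW.line d)) := cons1_badN ..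
    exact h1.W_XRm_le (ν := lineM Q.γ Q.ρ K Q.te) hL le_rfl

/-- mass of the test function of SP-B -/
theorem lintegral_ΘBg_le (hΦ : AdmissiblePotential Φ) (hε : 0 < ε) (hL : 0 < Q.L)
    {n : ℕ} (w : Config n) :
    ∫⁻ l, ΘBg Φ ε K Q n w l ∂lineM Q.γ Q.ρ K Q.te ≤
      (∫⁻ l, (MW.cfg w).touchW Φ ε K Q l ∂lineM Q.γ Q.ρ K Q.te) +
        ∫⁻ d in {d | Q.tw < (MW.cfg w).thetaL Φ ε K Q.te d ∧
          (MW.cfg w).thetaL Φ ε K Q.te d ≤ Q.te},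
          min 1 (ENNReal.ofReal Q.L * lineM Q.γ Q.ρ K Q.te
            (badN Φ ε K Q.te (MW.cfg w) (MW.line d))) ∂lineM Q.γ Q.ρ K Q.te := by
  have hΨ : Measurable fun q : ML × ML =>
      Ψv (lineM Q.γ Q.ρ K Q.te) Q.L Q.tw Q.te (θ₀ Φ ε K Q.te) (θd Φ ε K Q.te) ⟨n, w⟩ q.1 q.2 := by
    have hq : Measurable fun q : ML × ML => (((⟨n, w⟩ : Σ n : ℕ, Config n), q.1), q.2) :=
      (measurable_const.prodMk measurable_fst).prodMk measurable_snd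
    exact (measurable_Ψv (lineM Q.γ Q.ρ K Q.te) Q.L Q.tw Q.te (measurable_θ₀ hΦ hε K Q.te)
      (measurable_θd hΦ hε K Q.te)).comp hq
  exact lintegral_ΘB_cap hL (Q.tw) (Q.te) (⟨n, w⟩ : Σ n : ℕ, Config n) hΨ
    (measurable_θ₀w hΦ hε _) (fun d => measurable_θdw hΦ hε _ d)
    (er := fun d => min 1 (ENNReal.ofReal Q.L * lineM Q.γ Q.ρ K Q.te
            (badN Φ ε K Q.te (MW.cfg w) (MW.line d)))) (fun d _ _ => W_window_le hL _ d)

theorem gcE_ΘBg_le (hΦ : AdmissiblePotential Φ) (hf : Measurable f₀) (hε : 0 < ε)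
    (hγ : Measurable Q.γ) (hL : 0 < Q.L) :
    gcE f₀ ε (fun n w => ∫⁻ l, ΘBg Φ ε K Q n w l ∂lineM Q.γ Q.ρ K Q.te) ≤
      XI Φ f₀ ε K Q + errB Φ f₀ ε K Q := by
  refine (gcE_mono f₀ ε fun n w _ => lintegral_ΘBg_le hΦ hε hL w).trans (le_of_eq ?_)
  have hm1 : ∀ n, Measurable fun w : Config n =>
      ∫⁻ l, (MW.cfg w).touchW Φ ε K Q l ∂lineM Q.γ Q.ρ K Q.te := fun n =>
    (measurable_touchW_cfg hΦ hε K Q n).lintegral_prod_right'
  rw [EBasic602.XI_eq hf hγ (fun n => measurable_touchW_cfg hΦ hε K Q n)]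
  unfold errB
  rw [gcE_add hf ε hm1]

end mass

section total

variable {Φ : Space3 → ℝ} (hΦ : AdmissiblePotential Φ) {f₀ : PhasePoint → ℝ}
  (hf : Measurable f₀) {ε : ℝ} (hε : 0 < ε) {K : ℕ} {Q : EPar} {r : ℝ} {ν : Measure (Lab × LSt)}
  {c₆ : ℝ≥0∞}

/-- integrand of SP-B -/
def FBt (Φ : Space3 → ℝ) (f₀ : PhasePoint → ℝ) (ε : ℝ) (K : ℕ) (Q : EPar) (P : CTree)
    (w : Σ n : ℕ, Config n) (z : PhasePoint × Par P) (p : Lab × LSt) : ℝ≥0∞ :=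
  tws Φ f₀ ε Q.te P z * (gh Φ ε Q.tw P z w * tB6 Φ Q K ε P z w p)

/-- SP-B for one shape -/
theorem spb_one [SFinite ν] (hL : 0 < Q.L) (hc : c₆ * ENNReal.ofReal (1 / Q.L) ≠ ∞) (P : CTree)
    (h6 : ∀ z, S6 ν (fun p => p.1.1) (lineM Q.γ Q.ρ K Q.te) volume c₆
      ((shape hΦ hf hε Q.te Q.tw Q.te r P).lt z) ((shape hΦ hf hε Q.te Q.tw Q.te r P).Bo z)
      ((shape hΦ hf hε Q.te Q.tw Q.te r P).rd z)) :
    ∫⁻ z, ∫⁻ w, ∫⁻ p in (shape hΦ hf hε Q.te Q.tw Q.te r P).Bo z,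
        FBt Φ f₀ ε K Q P w z p ∂ν ∂gcM f₀ ε ≤
      c₆ * ENNReal.ofReal (1 / Q.L) *
        (shape hΦ hf hε Q.te Q.tw Q.te r P).EI (gcM f₀ ε) volume volume
          (sigF (ΘBg Φ ε K Q)) := by
  have h1 := spB (shape hΦ hf hε Q.te Q.tw Q.te r P) (gcM f₀ ε) volume volume ν
    (d := fun p => p.1.1) measurable_fst.fst (lineM Q.γ Q.ρ K Q.te) (L := Q.L) (tw := Q.tw)
    (te := Q.te) hL hc h6 (measurable_θ₀ hΦ hε K Q.te) (measurable_θd hΦ hε K Q.te)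
    (FB := fun w z p => FBt Φ f₀ ε K Q P w z p) (bad := fun _ _ _ => 0) (by
      intro w z p _
      rw [add_zero]
      show tws Φ f₀ ε Q.te P z * (gh Φ ε Q.tw P z w * tB6 Φ Q K ε P z w p) ≤
        ∑ i : Idx P, tws Φ f₀ ε Q.te P z * gh Φ ε Q.tw P z w *
          Ψv (lineM Q.γ Q.ρ K Q.te) Q.L Q.tw Q.te (θ₀ Φ ε K Q.te) (θd Φ ε K Q.te) w p.1.1
            (lineU Φ ε P z (hitT ε z.1 p.2) i)
      rw [← Finset.mul_sum, ← mul_assoc]
      refine mul_le_mul_right ?_ _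
      unfold tB6
      refine le_trans (le_of_eq ?_) (Finset.sum_le_univ_sum_of_nonneg
        (s := Finset.univ.filter fun i => i ≠ root P) fun i => zero_le)
      refine Finset.sum_congr rfl fun i hi => ?_
      rw [Finset.mem_filter] at hi
      rw [termB_eq]
      unfold lineU
      rw [if_neg hi.2])
  simp only [lintegral_zero, add_zero] at h1
  exact h1

/-- **SP-B, all shapes.** -/
theorem spb_total [SFinite ν] (hL : 0 < Q.L) (hc : c₆ * ENNReal.ofReal (1 / Q.L) ≠ ∞)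
    (h6 : ∀ P z, S6 ν (fun p => p.1.1) (lineM Q.γ Q.ρ K Q.te) volume c₆
      ((shape hΦ hf hε Q.te Q.tw Q.te r P).lt z) ((shape hΦ hf hε Q.te Q.tw Q.te r P).Bo z)
      ((shape hΦ hf hε Q.te Q.tw Q.te r P).rd z))
    {CR δR CE δE : ℝ≥0∞}
    (hR : ∑ P ∈ GIVStep383.trees K, ∫⁻ z : PhasePoint × Par P, ∫⁻ w, ∫⁻ u,
          rootI Φ f₀ ε Q.tw Q.te P (ΘBg Φ ε K Q) w z u ∂volume ∂gcM f₀ ε ≤
        CR * gcE f₀ ε (fun n w => ∫⁻ l, ΘBg Φ ε K Q n w l ∂lineM Q.γ Q.ρ K Q.te) + δR)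
    (hE : InEq2.TS Φ f₀ ε Q.te (exitH Φ ε Q.tw Q.te K (ΘBg Φ ε K Q)) ≤
        CE * gcE f₀ ε (fun n w => ∫⁻ l, ΘBg Φ ε K Q n w l ∂lineM Q.γ Q.ρ K Q.te) + δE)
    (hγ : Measurable Q.γ) :
    ∑ P ∈ GIVStep383.trees K, ∫⁻ z, ∫⁻ w,
        ∫⁻ p in {p | p ∈ LinkS ε Q.te P z ∧ r ≤ hitT ε z.1 p.2 - sig p.1},
        FBt Φ f₀ ε K Q P w z p ∂ν ∂gcM f₀ ε ≤
      c₆ * ENNReal.ofReal (1 / Q.L) *
        ((CR + ENNReal.ofReal Q.te * CE) * (XI Φ f₀ ε K Q + errB Φ f₀ ε K Q) +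
          (δR + ENNReal.ofReal Q.te * δE)) := by
  refine (Finset.sum_le_sum fun P _ => spb_one hΦ hf hε hL hc P (h6 P)).trans ?_
  rw [← Finset.mul_sum]
  refine mul_le_mul_right ?_ _
  have h1 := EI_sum_le hΦ hf hε Q.tw Q.te r (K := K) (Θ := ΘBg Φ ε K Q)
    (fun n => measurable_ΘBg hΦ hε n)
  have h2 := gcE_ΘBg_le (K := K) (Q := Q) hΦ hf hε hγ hL
  refine h1.trans ?_
  calc _ ≤ (CR * gcE f₀ ε (fun n w => ∫⁻ l, ΘBg Φ ε K Q n w l ∂lineM Q.γ Q.ρ K Q.te) + δR) +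
        ENNReal.ofReal Q.te * (CE * gcE f₀ ε (fun n w => ∫⁻ l, ΘBg Φ ε K Q n w l
          ∂lineM Q.γ Q.ρ K Q.te) + δE) := add_le_add hR (mul_le_mul_right hE _)
    _ = (CR + ENNReal.ofReal Q.te * CE) * gcE f₀ ε (fun n w => ∫⁻ l, ΘBg Φ ε K Q n w l
          ∂lineM Q.γ Q.ρ K Q.te) + (δR + ENNReal.ofReal Q.te * δE) := by ring
    _ ≤ _ := by gcongr

end total

end

end Crest.Agent.R122.H5994
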