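import Crest.Agent.R122.H5Defs_994
import Crest.Agent.R122.PairS6_969

/-!
# SP-A / SP-B: link kinematics and the flux bounds for the shapes (row 122, helper994)

* `entr_hitT`, `hits_of_firstHit` : `hitT` is the entrance time of the two free lines;
* `s6_shape`, `y6_shape` : `S6`, `Y6` of PairV4_994 for `H5Defs_994.shape`, from helper969's (S6*), (Y6*);
* `y6_line` : the same for the young link events of a root line (no tree);
* `vol_young` : `∫_{ℓ : p ∈ young link event} wG b ≤ C ε² r (1 + |v_e|)`.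
-/

set_option autoImplicit false

open MeasureTheory Set Filter
open scoped ENNReal Topology
open Crest.AnalysisR.Kinetic
open Crest.Agent.R122.Kin796 Crest.Agent.R122.Kin796.CTree Crest.Agent.R122.Tree674
open Crest.Agent.R122.EDefs602 Crest.Agent.R122.TreeLines335
open Crest.Agent.R122.SPV994 Crest.Agent.R122.Boost969 Crest.Agent.R122.Contact969
open Crest.Agent.R122.Pair292 Crest.Agent.R122.PairS969 Crest.Agent.R122.Omega969

namespace Crest.Agent.R122.H5994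

noncomputable section

/-! ## Kinematics -/

theorem rel_pos (ℓ : PhasePoint) (e : LSt) (s : ℝ) :
    (ℓ.1 + s • ℓ.2) - posAt s e = rX ℓ e + s • rV ℓ e := by
  unfold rX rV posAt
  simp only [zero_sub, neg_smul, smul_sub, sub_smul]
  abel

theorem sq_hit {ε : ℝ} {ℓ : PhasePoint} {e : LSt} (h : Hits ε ℓ e) (s : ℝ) (hε : 0 < ε) :
    ‖rX ℓ e + s • rV ℓ e‖ ^ 2 - ε ^ 2 =
      ((s - hitT ε ℓ e) * ‖rV ℓ e‖ - Real.sqrt (ε ^ 2 - ‖Flux663.bline (rX ℓ e, rV ℓ e)‖ ^ 2)) ^ 2 -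
      (Real.sqrt (ε ^ 2 - ‖Flux663.bline (rX ℓ e, rV ℓ e)‖ ^ 2)) ^ 2 := by
  have hg : ‖rV ℓ e‖ ≠ 0 := norm_ne_zero_iff.2 h.1
  have h0 : 0 ≤ ε ^ 2 - ‖Flux663.bline (rX ℓ e, rV ℓ e)‖ ^ 2 := by
    have := h.2
    have h2 := norm_nonneg (Flux663.bline (rX ℓ e, rV ℓ e))
    nlinarith
  rw [OC663.norm_sq_line h.1, Real.sq_sqrt h0]
  have h1 : (s - hitT ε ℓ e) * ‖rV ℓ e‖ -
      Real.sqrt (ε ^ 2 - ‖Flux663.bline (rX ℓ e, rV ℓ e)‖ ^ 2) =
      (s + Flux663.tline (rX ℓ e, rV ℓ e)) * ‖rV ℓ e‖ := by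
    unfold hitT OC663.entT
    simp only
    field_simp
    ring
  rw [h1]
  ring

theorem norm_hit {ε : ℝ} (hε : 0 < ε) {ℓ : PhasePoint} {e : LSt} (h : Hits ε ℓ e) :
    ‖rX ℓ e + hitT ε ℓ e • rV ℓ e‖ = ε := by
  have h1 := sq_hit h (hitT ε ℓ e) hε
  rw [sub_self, zero_mul, zero_sub, neg_sq, sub_self] at h1
  have h2 : ‖rX ℓ e + hitT ε ℓ e • rV ℓ e‖ ^ 2 = ε ^ 2 := by linarith
  exact (sq_eq_sq₀ (norm_nonneg _) hε.le).1 h2

theorem norm_before {ε : ℝ} (hε : 0 < ε) {ℓ : PhasePoint} {e : LSt} (h : Hits ε ℓ e) {s : ℝ}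
    (hs : s < hitT ε ℓ e) : ε < ‖rX ℓ e + s • rV ℓ e‖ := by
  have h1 := sq_hit h s hε
  have hg : 0 < ‖rV ℓ e‖ := norm_pos_iff.2 h.1
  set q := Real.sqrt (ε ^ 2 - ‖Flux663.bline (rX ℓ e, rV ℓ e)‖ ^ 2)
  have hq : 0 ≤ q := Real.sqrt_nonneg _
  have h2 : (s - hitT ε ℓ e) * ‖rV ℓ e‖ < 0 := mul_neg_of_neg_of_pos (by linarith) hg
  have h3 : ε ^ 2 < ‖rX ℓ e + s • rV ℓ e‖ ^ 2 := by nlinarith
  exact (sq_lt_sq₀ hε.le (norm_nonneg _)).1 h3

theorem entr_hitT {ε : ℝ} (hε : 0 < ε) {ℓ : PhasePoint} {e : LSt} (h : Hits ε ℓ e) :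
    Entr (fun s => (ℓ.1 + s • ℓ.2) - posAt s e) ε 0 (hitT ε ℓ e) := by
  refine ⟨?_, hitT ε ℓ e - 1, by linarith, fun s' hs' => ?_⟩
  · simp only
    rw [zero_sub, norm_neg, rel_pos, norm_hit hε h]
  · simp only
    rw [zero_sub, norm_neg, rel_pos]
    exact norm_before hε h hs'.2


/-! ## The flux bounds -/

/-- constant of the old link events -/
def c6 (ε r te : ℝ) (c : ℝ≥0∞) : ℝ≥0∞ :=
  ENNReal.ofReal (r⁻¹ ^ 3) * (ENNReal.ofReal (ε ^ 2) * (sphM univ * (2 * c))) *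
    (1 + ENNReal.ofReal te)

/-- constant of the young link events -/
def c7 (ε r : ℝ) (Cl c : ℝ≥0∞) : ℝ≥0∞ :=
  (ENNReal.ofReal (ε ^ 2) * (sphM univ *
    (volume (Metric.ball (0 : Space3) 1) * (2 * c)))) * (2 * Cl * ENNReal.ofReal r)

/-- the velocity weight of the class -/
def GoodW (Pp : PPar) : Prop :=
  ∀ z : LSt, z.1 ≤ Pp.t' → ENNReal.ofReal (1 + ‖z.2.2‖) ≤ Pp.W z

theorem GoodW.weight {Pp : PPar} (h : GoodW Pp) (z : LSt) (hz : z.1 ≤ Pp.t') (u : Space3)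
    (hu : ‖u‖ < 1) : (fun _ : ℝ × Space3 => (1 : ℝ≥0∞)) (z.1, z.2.2 + u) *
      (1 + ENNReal.ofReal ‖z.2.2 + u‖) ≤ 2 * Pp.W z := by
  simp only [one_mul]
  have h1 : ‖z.2.2 + u‖ ≤ ‖z.2.2‖ + 1 := (norm_add_le _ _).trans (by linarith)
  calc 1 + ENNReal.ofReal ‖z.2.2 + u‖ ≤ ENNReal.ofReal 1 + ENNReal.ofReal (‖z.2.2‖ + 1) := by
        rw [ENNReal.ofReal_one]
        gcongr
    _ = ENNReal.ofReal (1 + (‖z.2.2‖ + 1)) := (ENNReal.ofReal_add (by norm_num) (by positivity)).symm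
    _ ≤ ENNReal.ofReal (2 * (1 + ‖z.2.2‖)) := ENNReal.ofReal_le_ofReal (by
        have := norm_nonneg z.2.2
        linarith)
    _ = 2 * ENNReal.ofReal (1 + ‖z.2.2‖) := by
        rw [ENNReal.ofReal_mul (by norm_num)]
        norm_num
    _ ≤ _ := by gcongr; exact h z hz

/-- flux density of the link time for a root line `ℓ` released at `a` -/
def rdL (te a : ℝ) (ℓ : PhasePoint) (u : ℝ) : ℝ≥0∞ :=
  open scoped Classical in
  if 0 < u ∧ a < u ∧ u ≤ te then ENNReal.ofReal (1 + ‖ℓ.2‖) else 0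

theorem lintegral_rdL {te a : ℝ} {ℓ : PhasePoint} (F : ℝ → ℝ≥0∞) :
    ∫⁻ u, rdL te a ℓ u * F u = ∫⁻ s in Ioc (max 0 a) te, (1 + ENNReal.ofReal ‖ℓ.2‖) * F s := by
  rw [← lintegral_indicator measurableSet_Ioc]
  refine lintegral_congr fun u => ?_
  unfold rdL
  by_cases h : 0 < u ∧ a < u ∧ u ≤ te
  · have hm : u ∈ Ioc (max 0 a) te := ⟨max_lt h.1 h.2.1, h.2.2⟩
    rw [if_pos h, indicator_of_mem hm, ENNReal.ofReal_add (by norm_num) (norm_nonneg _),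
      ENNReal.ofReal_one]
  · have hm : u ∉ Ioc (max 0 a) te := fun hm =>
      h ⟨(le_max_left _ _).trans_lt hm.1, (le_max_right _ _).trans_lt hm.1, hm.2⟩
    rw [if_neg h, indicator_of_notMem hm, zero_mul]

/-- the path of the root line -/
theorem hasDeriv_line (ℓ : PhasePoint) (s : ℝ) :
    HasDerivAt (fun s : ℝ => ℓ.1 + s • ℓ.2) ℓ.2 s := by
  have h := ((hasDerivAt_id s).smul_const ℓ.2).const_add ℓ.1
  simpa using h

section flux

variable {Pp : PPar} {Ξ ν : Measure (Lab × LSt)} {c : ℝ≥0∞} {ε te a r : ℝ} {ℓ : PhasePoint}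

theorem entrX_link (hε : 0 < ε) (hte : Pp.t' = te) {X : Set (Lab × LSt)} (hX : MeasurableSet X)
    (hXL : ∀ p ∈ X, LinkEv ε te a ℓ p.2) :
    EntrX (fun s => ℓ.1 + s • ℓ.2) (max 0 a) te ε Pp.t' X (fun p => hitT ε ℓ p.2) where
  mX := hX
  mT := measurable_hitT' ε measurable_const measurable_snd
  mem p hp := by
    obtain ⟨_, h1, _, h3, h4⟩ := hXL p hp
    exact ⟨max_lt h1 h3, h4⟩
  entr p hp := entr_hitT hε (hXL p hp).1
  birth p hp := by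
    obtain ⟨_, _, h2, _, h4⟩ := hXL p hp
    rw [hte]
    exact (h2.trans_le h4).le

/-- **(S6*)** for link events of a root line. -/
theorem s6_link (h : PX Pp Ξ ν c) [SFinite Pp.ℓ] (hℓ : ∀ x, Pp.ℓ.map (shM x) = Pp.ℓ)
    (hε : 0 < ε) (hr : 0 < r) (hte : Pp.t' = te) (hW : GoodW Pp) {X : Set (Lab × LSt)}
    (hX : MeasurableSet X) (hXL : ∀ p ∈ X, LinkEv ε te a ℓ p.2)
    (hXr : ∀ p ∈ X, r ≤ hitT ε ℓ p.2 - sig p.1) :
    S6 ν (fun p => p.1.1) Pp.ℓ volume (c6 ε r te c) (fun p => hitT ε ℓ p.2) X (rdL te a ℓ) := by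
  intro G hG
  have hy : Measurable fun s : ℝ => ℓ.1 + s • ℓ.2 := by fun_prop
  have h1 := PX.S6_star h hℓ hr hε (entrX_link hε hte hX hXL) hy (measurable_const)
    (y' := fun _ => ℓ.2) (fun s _ => hasDeriv_line ℓ s)
    (fun p hp => by linarith [hXr p hp]) (ψ := fun _ => 1) measurable_const (φ := G) hG
    (Cw := 2) (fun z hz u hu => hW.weight z hz u hu)
  simp only [one_mul] at h1
  refine h1.trans (le_of_eq ?_)
  rw [lintegral_rdL, hte]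
  rfl

/-- **(Y6*)** for link events of a root line. -/
theorem y6_link (h : PX Pp Ξ ν c) [SFinite Pp.ℓ] (hε : 0 < ε) (hte : Pp.t' = te) (hW : GoodW Pp)
    (hsig : ∀ᵐ p ∂ν, sig p.1 ≤ p.2.1)
    {Cl : ℝ≥0∞} (hl1 : ∀ s : ℝ, ∫⁻ l, rho0 (posd l) * (Icc (s - r) s).indicator 1 l.1.1 ∂Pp.ℓ ≤
      Cl * ENNReal.ofReal r) (hl2 : ∫⁻ l, rho0 (posd l) ∂Pp.ℓ ≤ Cl)
    {X : Set (Lab × LSt)} (hX : MeasurableSet X) (hXL : ∀ p ∈ X, LinkEv ε te a ℓ p.2)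
    (hXr : ∀ p ∈ X, hitT ε ℓ p.2 - sig p.1 < r) :
    Y6 ν volume (c7 ε r Cl c) (fun p => hitT ε ℓ p.2) X (rdL te a ℓ) := by
  intro G hG
  have hy : Measurable fun s : ℝ => ℓ.1 + s • ℓ.2 := by fun_prop
  set X' : Set (Lab × LSt) := X ∩ {p | sig p.1 ≤ p.2.1} with hX'
  have hms : MeasurableSet {p : Lab × LSt | sig p.1 ≤ p.2.1} :=
    measurableSet_le (measurable_sig.comp measurable_fst) measurable_snd.fst
  have h0 : ∫⁻ p in X, G (hitT ε ℓ p.2) ∂ν = ∫⁻ p in X', G (hitT ε ℓ p.2) ∂ν := by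
    have : ν.restrict X = ν.restrict X' := by
      refine Measure.restrict_congr_set ?_
      filter_upwards [hsig] with p hp
      exact propext ⟨fun hpX => ⟨hpX, hp⟩, fun hpX => hpX.1⟩
    rw [this]
  rw [h0]
  have h1 := PX.Y6_star h hε (entrX_link (X := X') hε hte (hX.inter hms)
    (fun p hp => hXL p hp.1)) hy (measurable_const)
    (y' := fun _ => ℓ.2) (fun s _ => hasDeriv_line ℓ s)
    (r := r) (fun p hp => ⟨by linarith [hXr p hp.1], by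
      have h2 : sig p.1 ≤ p.2.1 := hp.2
      have h3 := (hXL p hp.1).2.2.1
      linarith⟩) hl1 hl2 (ψ := fun _ => 1) measurable_const (φ := G) hG
    (Cw := 2) (fun z hz u hu => hW.weight z hz u hu)
  simp only [one_mul] at h1
  refine h1.trans (le_of_eq ?_)
  rw [lintegral_rdL]
  rfl

end flux

/-! ## The shapes -/

section shape

variable {Φ : Space3 → ℝ} {f₀ : PhasePoint → ℝ} {Pp : PPar} {Ξ ν : Measure (Lab × LSt)}
  {c : ℝ≥0∞} {ε T tw te r : ℝ}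

theorem s6_shape (hΦ : AdmissiblePotential Φ) (hf : Measurable f₀) (hε : 0 < ε)
    (h : PX Pp Ξ ν c) [SFinite Pp.ℓ] (hℓ : ∀ x, Pp.ℓ.map (shM x) = Pp.ℓ)
    (hr : 0 < r) (hte : Pp.t' = te) (hW : GoodW Pp) (P : CTree) (z : PhasePoint × Par P) :
    S6 ν (fun p => p.1.1) Pp.ℓ volume (c6 ε r te c) ((shape hΦ hf hε T tw te r P).lt z)
      ((shape hΦ hf hε T tw te r P).Bo z) ((shape hΦ hf hε T tw te r P).rd z) :=
  s6_link h hℓ hε hr hte hW ((shape hΦ hf hε T tw te r P).mBo z) (fun p hp => hp.1)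
    (fun p hp => hp.2)

theorem y6_shape (hΦ : AdmissiblePotential Φ) (hf : Measurable f₀) (hε : 0 < ε)
    (h : PX Pp Ξ ν c) [SFinite Pp.ℓ] (hte : Pp.t' = te) (hW : GoodW Pp)
    (hsig : ∀ᵐ p ∂ν, sig p.1 ≤ p.2.1)
    {Cl : ℝ≥0∞} (hl1 : ∀ s : ℝ, ∫⁻ l, rho0 (posd l) * (Icc (s - r) s).indicator 1 l.1.1 ∂Pp.ℓ ≤
      Cl * ENNReal.ofReal r) (hl2 : ∫⁻ l, rho0 (posd l) ∂Pp.ℓ ≤ Cl)
    (P : CTree) (z : PhasePoint × Par P) :
    Y6 ν volume (c7 ε r Cl c) ((shape hΦ hf hε T tw te r P).lt z)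
      ((shape hΦ hf hε T tw te r P).By z) ((shape hΦ hf hε T tw te r P).rd z) :=
  y6_link h hε hte hW hsig hl1 hl2 ((shape hΦ hf hε T tw te r P).mBy z) (fun p hp => hp.1)
    (fun p hp => hp.2)

end shape

end

end Crest.Agent.R122.H5994
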