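import Crest.Agent.R122.InEq2Defs_311
import Crest.Agent.R122.H5Defs_994
import Crest.Agent.R122.Q1Wgt_815
import Crest.Agent.R122.Q1Data_815
import Crest.Agent.R122.H5S6_994

-- ▼ part R122/GcM_994
section

/-!
# Grand-canonical expectation as an integral (row 122, helper994)

* `gcM f₀ ε` : the (sub-probability) measure on `Σ n, Config n` with `gcE F = ∫⁻ w, F w.1 w.2 ∂gcM`
  for ALL `F` (`gcE_eq_lintegral`);
* `TS_eq` : 311's tree integral `TS` in terms of `tw₀` (`gw`) and `gcM`.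
-/

set_option autoImplicit false

open MeasureTheory Set Filter
open scoped ENNReal Topology
open Crest.AnalysisR.Kinetic
open Crest.Agent.R122.Kin796 Crest.Agent.R122.Kin796.CTree Crest.Agent.R122.Tree674
open Crest.Agent.R122.GC311 Crest.Agent.R122.QDens815 Crest.Agent.R122.ToTree335

namespace Crest.Agent.R122.H5994

noncomputable section

/-- the grand-canonical measure -/
def gcM (f₀ : PhasePoint → ℝ) (ε : ℝ) : Measure (Σ n : ℕ, Config n) :=
  (gcPartition f₀ ε)⁻¹ • Measure.sum fun n : ℕ => (activity ε ^ n / (n.factorial : ℝ≥0∞)) •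
    ((volume : Measure (Config n)).withDensity (gcWeight f₀ ε n)).map (Sigma.mk n)

theorem gcWeight_lt_top (f₀ : PhasePoint → ℝ) (ε : ℝ) (n : ℕ) (Z : Config n) :
    gcWeight f₀ ε n Z < ∞ := by
  unfold gcWeight
  by_cases h : Z ∈ PairExcluded ε n
  · rw [Set.indicator_of_mem h]
    exact ENNReal.prod_lt_top fun i _ => ENNReal.ofReal_lt_top
  · rw [Set.indicator_of_notMem h]
    exact ENNReal.zero_lt_top

theorem gcE_eq_lintegral {f₀ : PhasePoint → ℝ} (hf : Measurable f₀) (ε : ℝ)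
    (F : (n : ℕ) → Config n → ℝ≥0∞) :
    gcE f₀ ε F = ∫⁻ w, F w.1 w.2 ∂gcM f₀ ε := by
  unfold gcE gcM
  rw [lintegral_smul_measure, lintegral_sum_measure]
  congr 1
  refine tsum_congr fun n => ?_
  rw [lintegral_smul_measure]
  congr 1
  rw [(Q1815.measurableEmbedding_sigmaMk n).lintegral_map]
  rw [lintegral_withDensity_eq_lintegral_mul_non_measurable _ (measurable_gcWeight hf ε n)
    (Filter.Eventually.of_forall fun Z => gcWeight_lt_top f₀ ε n Z)]
  rfl

instance instSFiniteGcM (f₀ : PhasePoint → ℝ) (ε : ℝ) : SFinite (gcM f₀ ε) := by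
  unfold gcM
  infer_instance

theorem tw₀_of_valid {Φ : Space3 → ℝ} {f₀ : PhasePoint → ℝ} {ε T : ℝ} {P : CTree}
    {z : PhasePoint × Par P} (h : Valid Φ ε P T z.1.2 z.2) :
    tw₀ Φ f₀ ε T P z = wt Φ P z.1.2 z.2 * pf Φ f₀ ε P z := by
  unfold tw₀
  rw [gw_of_valid h, mul_one]
  rfl

theorem tw₀_of_not_valid {Φ : Space3 → ℝ} {f₀ : PhasePoint → ℝ} {ε T : ℝ} {P : CTree}
    {z : PhasePoint × Par P} (h : ¬ Valid Φ ε P T z.1.2 z.2) : tw₀ Φ f₀ ε T P z = 0 := by
  unfold tw₀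
  rw [gw_of_not_valid h]

/-- The tree integral in terms of `tw₀`. -/
theorem TS_eq {Φ : Space3 → ℝ} {f₀ : PhasePoint → ℝ} (ε T : ℝ)
    (H : (P : CTree) → PhasePoint × Par P → (m : ℕ) → Config m → ℝ≥0∞) :
    InEq2.TS Φ f₀ ε T H = ∑' P : CTree, ∫⁻ z : PhasePoint × Par P,
      tw₀ Φ f₀ ε T P z * gcE f₀ ε fun m w => H P z m w := by
  unfold InEq2.TS
  refine tsum_congr fun P => lintegral_congr fun z => ?_
  by_cases hz : Valid Φ ε P T z.1.2 z.2
  · rw [indicator_of_mem (show z ∈ {z : PhasePoint × Par P | Valid Φ ε P T z.1.2 z.2} from hz),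
      tw₀_of_valid hz, mul_assoc]
  · rw [indicator_of_notMem (show z ∉ {z : PhasePoint × Par P | Valid Φ ε P T z.1.2 z.2} from hz),
      tw₀_of_not_valid hz, zero_mul]

theorem wtF_ne_top {Φ : Space3 → ℝ} : ∀ (P : CTree) (v : Space3) (p : Par P), wt Φ P v p ≠ ∞
  | leaf, _, _ => ENNReal.one_ne_top
  | node l r, v, p => by
      simp only [wt]
      exact ENNReal.mul_ne_top ENNReal.ofReal_ne_top
        (ENNReal.mul_ne_top (wtF_ne_top l _ _) (wtF_ne_top r _ _))

theorem tw₀_ne_top {Φ : Space3 → ℝ} {f₀ : PhasePoint → ℝ} {ε T : ℝ} {P : CTree}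
    {z : PhasePoint × Par P} : tw₀ Φ f₀ ε T P z ≠ ∞ := by
  by_cases hz : Valid Φ ε P T z.1.2 z.2
  · rw [tw₀_of_valid hz]
    exact ENNReal.mul_ne_top (wtF_ne_top _ _ _) (ENNReal.prod_ne_top fun _ _ => ENNReal.ofReal_ne_top)
  · rw [tw₀_of_not_valid hz]
    exact ENNReal.zero_ne_top

end

end Crest.Agent.R122.H5994
end

-- ▼ part R122/H5Q_994

/-!
# SP-A / SP-B: the quenched input (row 122, helper994)

* `hS_le_rel`, `gh_le_hid` : the ghost indicator with the tubes `(curve, rel)` is at most the hidden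
  ghost indicator of helper815/424;
* `rootT`, `qroot` : the root line born at the link time: `Σ_P ∫z ∫w ∫u rd · tws · gh · Θ(root line
  born at u) ≤ C gcE ∫ Θ dlineM + null`, from `Q1815.root_marked`.
-/

set_option autoImplicit false

open MeasureTheory Set Filter
open scoped ENNReal Topology
open Crest.AnalysisR.Kinetic
open Crest.Agent.R122.Kin796 Crest.Agent.R122.Kin796.CTree Crest.Agent.R122.Tree674
open Crest.Agent.R122.EDefs602 Crest.Agent.R122.TreeLines335 Crest.Agent.R122.LineMeas994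
open Crest.Agent.R122.GC311 Crest.Agent.R122.QDens815 Crest.Agent.R122.Q1815
open Crest.Agent.R122.SPV994

namespace Crest.Agent.R122.H5994

noncomputable section

/-! ## Ghost indicators -/

theorem prot_root' : ∀ (P : CTree) (T : ℝ) (p : Par P), prot P T p (root P) = T
  | leaf, _, _ => rfl
  | node l _, T, p => prot_root' l T p.2.1

theorem hS_le_rel {Φ : Space3 → ℝ} {ε : ℝ} (hε : 0 ≤ ε) : ∀ {P : CTree} {T : ℝ} {v : Space3}
    {p : Par P}, 0 < T → Valid Φ ε P T v p → ∀ i, Hid424.hS Φ P v p i ≤ rel P p i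
  | leaf, _, _, _, _, _, _ => by
      simp only [Hid424.hS, rel]
      norm_num
  | node l r, T, v, p, hT, hV, i => by
      have hs : 0 < Tree674.sin Φ ε v p.1 := hV.2.2.1
      have hle : Tree674.sin Φ ε v p.1 ≤ p.1.1 := Tree674.sin_le Φ hε v p.1
      have hl : Valid Φ ε l (Tree674.sin Φ ε v p.1) (preV Φ v p.1).1 p.2.1 :=
        ⟨hV.1.2.1, hV.2.2.2.1⟩
      have hr : Valid Φ ε r (Tree674.sin Φ ε v p.1) (preV Φ v p.1).2 p.2.2 :=
        ⟨hV.1.2.2, hV.2.2.2.2⟩
      rcases i with i | i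
      · simp only [Hid424.hS, rel, Sum.elim_inl]
        split_ifs with h1 h2 h2
        · rw [h1] at hl
          exact (hS_le_rel hε hs hl i).trans ((rel_lt hε hs hl.2 i).le.trans hle)
        · rw [h1] at hl
          exact hS_le_rel hε hs hl i
        · rw [h2, prot_root']
        · rw [rel_eq_prot l p.1.1 p.2.1 i h2]
      · simp only [Hid424.hS, rel, Sum.elim_inr]
        split_ifs with h1 h2 h2
        · rw [h1] at hr
          exact (hS_le_rel hε hs hr i).trans ((rel_lt hε hs hr.2 i).le.trans hle)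
        · rw [h1] at hr
          exact hS_le_rel hε hs hr i
        · rw [h2, prot_root']
        · rw [rel_eq_prot r p.1.1 p.2.2 i h2]

theorem unhitInd_mono {Φ : Space3 → ℝ} {ε tw : ℝ} {ι : Type} {S S' : GIV566.Tubes ι}
    (hc : ∀ i s, S.c i s = S'.c i s) (hb : ∀ i, S'.b i ≤ S.b i) {κ : Type*} [Fintype κ]
    (w : κ → PhasePoint) : GIV566.unhitInd Φ ε S tw w ≤ GIV566.unhitInd Φ ε S' tw w := by
  unfold GIV566.unhitInd
  by_cases h : GIV566.unhit Φ ε S tw w
  · have h' : GIV566.unhit Φ ε S' tw w := by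
      intro i j s hs
      rw [← hc]
      exact h i j s ⟨hs.1, hs.2.trans (min_le_min_right _ (hb i))⟩
    rw [if_pos h, if_pos h']
  · rw [if_neg h]; exact bot_le

theorem gh_le_hid {Φ : Space3 → ℝ} {ε tw T : ℝ} (hε : 0 ≤ ε) (hT : 0 < T) {P : CTree}
    {z : PhasePoint × Par P} (hV : Valid Φ ε P T z.1.2 z.2) (w : Σ n : ℕ, Config n) :
    gh Φ ε tw P z w ≤ GIV566.unhitInd Φ ε (Hid424.hid Φ ε P z.1 z.2) tw w.2 := by
  unfold gh
  rw [ghTM_of_adm hV.1]
  exact unhitInd_mono (S := ghT Φ ε P z) (S' := Hid424.hid Φ ε P z.1 z.2) (fun i s => rfl)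
    (fun i => hS_le_rel hε hT hV i) w.2

/-! ## The root line born at the link time -/

/-- joint measurability on the disjoint union -/
theorem measurable_sig {Θ : (n : ℕ) → Config n → ML → ℝ≥0∞}
    (hΘ : ∀ n, Measurable fun q : Config n × ML => Θ n q.1 q.2) :
    Measurable fun q : (Σ n : ℕ, Config n) × ML => Θ q.1.1 q.1.2 q.2 :=
  Q1815.measurable_sigma_prod fun n => hΘ n

/-- the integrand of the root part -/
def rootI (Φ : Space3 → ℝ) (f₀ : PhasePoint → ℝ) (ε tw te : ℝ) (P : CTree)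
    (Θ : (n : ℕ) → Config n → ML → ℝ≥0∞) (w : Σ n : ℕ, Config n) (z : PhasePoint × Par P)
    (u : ℝ) : ℝ≥0∞ :=
  rdL te (rel P z.2 (root P)) z.1 u *
    (tws Φ f₀ ε te P z * gh Φ ε tw P z w * Θ w.1 w.2 ((u, onLine z.1 u), P.leaves))

/-- the majorant of the root part -/
def rootM (Φ : Space3 → ℝ) (f₀ : PhasePoint → ℝ) (ε tw te : ℝ) (P : CTree)
    (Θ : (n : ℕ) → Config n → ML → ℝ≥0∞) (w : Σ n : ℕ, Config n) (z : PhasePoint × Par P)
    (u : ℝ) : ℝ≥0∞ :=
  (Ioc 0 te).indicator (fun u => gw Φ f₀ P (rootA P) ε u z.1 z.2 *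
    GIV566.unhitInd Φ ε (Q1815.hidM Φ ε P z.1 z.2) tw w.2 *
      Θ w.1 w.2 ((u, onLine z.1 u), P.leaves)) u

theorem rootI_le {Φ : Space3 → ℝ} {f₀ : PhasePoint → ℝ} {ε tw te : ℝ} (hε : 0 ≤ ε) {P : CTree}
    {Θ : (n : ℕ) → Config n → ML → ℝ≥0∞} {w : Σ n : ℕ, Config n} {z : PhasePoint × Par P}
    {u : ℝ} : rootI Φ f₀ ε tw te P Θ w z u ≤ rootM Φ f₀ ε tw te P Θ w z u := by
  unfold rootI rootM rdL
  by_cases hu : 0 < u ∧ rel P z.2 (root P) < u ∧ u ≤ te
  swap
  · rw [if_neg hu, zero_mul]; exact bot_le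
  rw [if_pos hu, indicator_of_mem (show u ∈ Ioc 0 te from ⟨hu.1, hu.2.2⟩)]
  unfold tws
  by_cases hV : Valid Φ ε P te z.1.2 z.2 ∧ Sep Φ ε P te z.1 z.2
  swap
  · rw [if_neg hV, zero_mul, zero_mul, mul_zero]; exact bot_le
  rw [if_pos hV]
  have hVu : Valid Φ ε P u z.1.2 z.2 := (valid_at hu.1 hu.2.2).2 ⟨hV.1, hu.2.1⟩
  have h1 : gw Φ f₀ P (rootA P) ε u z.1 z.2 = tw₀ Φ f₀ ε te P z * ENNReal.ofReal (1 + ‖z.1.2‖) := by
    unfold tw₀
    rw [gw_of_valid hVu, gw_of_valid hV.1, mul_one]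
    rfl
  rw [h1, hidM_of_adm (ℓ := z.1) hVu.1]
  calc ENNReal.ofReal (1 + ‖z.1.2‖) * (tw₀ Φ f₀ ε te P z * gh Φ ε tw P z w *
        Θ w.1 w.2 ((u, onLine z.1 u), P.leaves))
      ≤ ENNReal.ofReal (1 + ‖z.1.2‖) * (tw₀ Φ f₀ ε te P z *
        GIV566.unhitInd Φ ε (Hid424.hid Φ ε P z.1 z.2) tw w.2 *
        Θ w.1 w.2 ((u, onLine z.1 u), P.leaves)) := by
        gcongr
        exact gh_le_hid hε hu.1 hVu w
    _ = _ := by ring

theorem measurable_rootM {Φ : Space3 → ℝ} (hΦ : AdmissiblePotential Φ) {f₀ : PhasePoint → ℝ}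
    (hf : Measurable f₀) {ε : ℝ} (hε : 0 < ε) (tw te : ℝ) (P : CTree)
    {Θ : (n : ℕ) → Config n → ML → ℝ≥0∞}
    (hΘ : ∀ n, Measurable fun q : Config n × ML => Θ n q.1 q.2) :
    Measurable fun q : (Σ n : ℕ, Config n) × ((PhasePoint × Par P) × ℝ) =>
      rootM Φ f₀ ε tw te P Θ q.1 q.2.1 q.2.2 := by
  have h1 : Measurable fun q : (Σ n : ℕ, Config n) × ((PhasePoint × Par P) × ℝ) =>
      gw Φ f₀ P (rootA P) ε q.2.2 q.2.1.1 q.2.1.2 := by
    have hq : Measurable fun q : (Σ n : ℕ, Config n) × ((PhasePoint × Par P) × ℝ) =>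
        ((q.2.2, q.2.1.1), q.2.1.2) :=
      (measurable_snd.snd.prodMk measurable_snd.fst.fst).prodMk measurable_snd.fst.snd
    have h := (measurable_gw hΦ hf (measurable_rootA P) ε).comp hq
    exact h
  have h2 : Measurable fun q : (Σ n : ℕ, Config n) × ((PhasePoint × Par P) × ℝ) =>
      GIV566.unhitInd Φ ε (Q1815.hidM Φ ε P q.2.1.1 q.2.1.2) tw q.1.2 := by
    have h := measurable_unhit_hidM hΦ hε P (tw := tw) (W := (PhasePoint × Par P) × ℝ)
      (ℓ := fun z => z.1.1) measurable_fst.fst (p := fun z => z.1.2) measurable_fst.snd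
    exact h
  have h3 : Measurable fun q : (Σ n : ℕ, Config n) × ((PhasePoint × Par P) × ℝ) =>
      Θ q.1.1 q.1.2 ((q.2.2, onLine q.2.1.1 q.2.2), P.leaves) := by
    have hq : Measurable fun q : (Σ n : ℕ, Config n) × ((PhasePoint × Par P) × ℝ) =>
        (q.1, (((q.2.2, onLine q.2.1.1 q.2.2), P.leaves) : ML)) :=
      measurable_fst.prodMk ((measurable_snd.snd.prodMk (measurable_onLine2.comp
        (measurable_snd.fst.fst.prodMk measurable_snd.snd))).prodMk measurable_const)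
    have h := (measurable_sig hΘ).comp hq
    exact h
  have h4 : MeasurableSet {q : (Σ n : ℕ, Config n) × ((PhasePoint × Par P) × ℝ) |
      q.2.2 ∈ Ioc 0 te} := measurable_snd.snd measurableSet_Ioc
  have h5 := ((h1.mul h2).mul h3).indicator h4
  convert h5 using 1
  funext q
  unfold rootM
  by_cases hq : q.2.2 ∈ Ioc 0 te
  · rw [indicator_of_mem hq, indicator_of_mem (show q ∈ {q : (Σ n : ℕ, Config n) ×
      ((PhasePoint × Par P) × ℝ) | q.2.2 ∈ Ioc 0 te} from hq)]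
    rfl
  · rw [indicator_of_notMem hq, indicator_of_notMem (show q ∉ {q : (Σ n : ℕ, Config n) ×
      ((PhasePoint × Par P) × ℝ) | q.2.2 ∈ Ioc 0 te} from hq)]

/-- the root part of one shape is at most helper815's quenched root functional -/
theorem rootE_le {Φ : Space3 → ℝ} (hΦ : AdmissiblePotential Φ) {f₀ : PhasePoint → ℝ}
    (hf : Measurable f₀) {ε : ℝ} (hε : 0 < ε) (tw te : ℝ) (P : CTree)
    {Θ : (n : ℕ) → Config n → ML → ℝ≥0∞}
    (hΘ : ∀ n, Measurable fun q : Config n × ML => Θ n q.1 q.2) :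
    ∫⁻ z : PhasePoint × Par P, ∫⁻ w, ∫⁻ u, rootI Φ f₀ ε tw te P Θ w z u ∂volume ∂gcM f₀ ε ≤
      gcE f₀ ε (fun n w => ∫⁻ y : ℝ × PhasePoint, Dw Φ f₀ P (rootA P) ε tw y.1 y.2 w *
        Θ n w ((y.1, onLine y.2 y.1), P.leaves) ∂((volume.restrict (Ioc 0 te)).prod volume)) := by
  have hM := measurable_rootM hΦ hf hε tw te P hΘ
  rw [gcE_eq_lintegral hf]
  calc ∫⁻ z : PhasePoint × Par P, ∫⁻ w, ∫⁻ u, rootI Φ f₀ ε tw te P Θ w z u ∂volume ∂gcM f₀ ε
      ≤ ∫⁻ z : PhasePoint × Par P, ∫⁻ w, ∫⁻ u, rootM Φ f₀ ε tw te P Θ w z u ∂volume ∂gcM f₀ ε :=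
        lintegral_mono fun z => lintegral_mono fun w => lintegral_mono fun u => rootI_le hε.le
    _ = ∫⁻ w, (∫⁻ z : PhasePoint × Par P, (∫⁻ u, rootM Φ f₀ ε tw te P Θ w z u)) ∂gcM f₀ ε := by
        refine lintegral_lintegral_swap (f := fun (z : PhasePoint × Par P)
          (w : Σ n : ℕ, Config n) => ∫⁻ u, rootM Φ f₀ ε tw te P Θ w z u) ?_
        have h1 : Measurable fun q : ((PhasePoint × Par P) × (Σ n : ℕ, Config n)) × ℝ =>
            rootM Φ f₀ ε tw te P Θ q.1.2 q.1.1 q.2 :=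
          hM.comp (measurable_fst.snd.prodMk (measurable_fst.fst.prodMk measurable_snd))
        exact h1.lintegral_prod_right'.aemeasurable
    _ ≤ _ := by
        refine lintegral_mono fun w => ?_
        have hθ : Measurable fun y : ℝ × PhasePoint =>
            Θ w.1 w.2 ((y.1, onLine y.2 y.1), P.leaves) := by
          have hq : Measurable fun y : ℝ × PhasePoint =>
              (w, (((y.1, onLine y.2 y.1), P.leaves) : ML)) :=
            measurable_const.prodMk ((measurable_fst.prodMk (measurable_onLine2.comp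
              (measurable_snd.prodMk measurable_fst))).prodMk measurable_const)
          have h := (measurable_sig hΘ).comp hq
          exact h
        have e1 := lintegral_Dw_mul hΦ hf (measurable_rootA P) hε tw
          (volume.restrict (Ioc 0 te)) w.2 hθ
        rw [e1]
        have hMw : Measurable fun q : (PhasePoint × Par P) × ℝ =>
            rootM Φ f₀ ε tw te P Θ w q.1 q.2 := hM.comp (measurable_const.prodMk measurable_id)
        have e2 : ∫⁻ z : PhasePoint × Par P, ∫⁻ u, rootM Φ f₀ ε tw te P Θ w z u =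
            ∫⁻ u, ∫⁻ z : PhasePoint × Par P, rootM Φ f₀ ε tw te P Θ w z u :=
          lintegral_lintegral_swap (f := fun (z : PhasePoint × Par P) (u : ℝ) =>
            rootM Φ f₀ ε tw te P Θ w z u) hMw.aemeasurable
        rw [e2, ← lintegral_indicator measurableSet_Ioc]
        refine lintegral_mono fun u => ?_
        by_cases hu : u ∈ Ioc 0 te
        · rw [indicator_of_mem hu]
          refine lintegral_mono fun z => ?_
          unfold rootM
          rw [indicator_of_mem hu]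
          refine le_of_eq ?_
          by_cases hV : Valid Φ ε P u z.1.2 z.2
          · rw [hidM_of_adm (ℓ := z.1) hV.1]
          · rw [gw_of_not_valid hV]
            ring
        · rw [indicator_of_notMem hu]
          have e3 : ∀ z : PhasePoint × Par P, rootM Φ f₀ ε tw te P Θ w z u = 0 := fun z => by
            unfold rootM
            rw [indicator_of_notMem hu]
          simp only [e3, lintegral_zero, le_refl]

/-- constant of the root part -/
def cRoot (M lam lam₁ C : ℝ) : ℝ≥0∞ :=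
  (2 * ENNReal.ofReal M) * ENNReal.ofReal (lam / lam₁) * ENNReal.ofReal C

theorem cRoot_ne_top (M lam lam₁ C : ℝ) : cRoot M lam lam₁ C ≠ ∞ := by
  unfold cRoot
  exact ENNReal.mul_ne_top (ENNReal.mul_ne_top (ENNReal.mul_ne_top (by norm_num)
    ENNReal.ofReal_ne_top) ENNReal.ofReal_ne_top) ENNReal.ofReal_ne_top

/-- **The root part of the quenched input.** -/
theorem qroot {Φ : Space3 → ℝ} {f₀ : PhasePoint → ℝ} {f : ℝ → PhasePoint → ℝ} {β T T₀ tw : ℝ}
    (X : Ctx Φ β T f₀ f T₀ tw) {h₀ kap lam C b : ℝ} (hK : Seg814.KinC Φ T f h₀ kap lam C b)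
    (hkap : kap ≤ β) {te : ℝ} (hte : te ≤ tw + h₀) (hteT : te ≤ T₀) {γ : ℝ → ℝ}
    (hγ : Measurable γ) (hγb : ∀ u ∈ Ioc (0 : ℝ) te, γ u ≤ b) {lam₁ M : ℝ} (h1 : 1 < lam₁)
    (h2 : lam₁ ≤ lam) (hM : ∀ (P : CTree) (s : ℝ) (ℓ : PhasePoint) (p : Par P),
      wtA Φ P (s, ℓ, p) ≤ ENNReal.ofReal M * ENNReal.ofReal lam₁ ^ P.size *
        ENNReal.ofReal (Real.exp (kap * Seg814.eng Φ P ℓ.2 p)))
    {ρ : ℝ≥0∞} (hρ : ENNReal.ofReal (lam₁ / lam) ≤ ρ) :
    ∃ δ : ℕ → ℝ → ℝ≥0∞, Null δ ∧ ∀ K ε, 0 < ε →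
      ∀ Θ : (n : ℕ) → Config n → ML → ℝ≥0∞,
        (∀ n, Measurable fun q : Config n × ML => Θ n q.1 q.2) → (∀ n w l, Θ n w l ≤ 1) →
        ∑ P ∈ GIVStep383.trees K, ∫⁻ z : PhasePoint × Par P, ∫⁻ w, ∫⁻ u,
          rootI Φ f₀ ε tw te P Θ w z u ∂volume ∂gcM f₀ ε ≤
        cRoot M lam lam₁ C * gcE f₀ ε (fun n w => ∫⁻ l, Θ n w l ∂lineM γ ρ K te) + δ K ε := by
  have hM2 : (2 * ENNReal.ofReal M : ℝ≥0∞) ≠ ∞ :=
    ENNReal.mul_ne_top (by norm_num) ENNReal.ofReal_ne_top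
  have hA : ∀ (P : CTree) (s : ℝ) (ℓ : PhasePoint) (p : Par P), Adm Φ P ℓ.2 p →
      rootA P (s, ℓ, p) ≤ (2 * ENNReal.ofReal M) * ENNReal.ofReal lam₁ ^ P.size *
        ENNReal.ofReal (Real.exp (kap * Seg814.eng Φ P ℓ.2 p)) := by
    intro P s ℓ p ha
    calc rootA P (s, ℓ, p) ≤ 2 * wtA Φ P (s, ℓ, p) := rootA_le_wtA X.hΦ ha
      _ ≤ 2 * (ENNReal.ofReal M * ENNReal.ofReal lam₁ ^ P.size *
        ENNReal.ofReal (Real.exp (kap * Seg814.eng Φ P ℓ.2 p))) := mul_le_mul_right (hM P s ℓ p) _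
      _ = _ := by ring
  have hβ := X.hβ
  obtain ⟨δ, hδ, hmain⟩ := root_marked X hK hte hteT hγ hγb (φ := fun P => rootA P)
    (fun P => Wgt.of_le (measurable_rootA P) (by linarith) hM2 (fun s ℓ p ha => hA P s ℓ p ha))
    hM2 (by linarith) h2 (fun P s ℓ p ha => hA P s ℓ p ha) hρ
  refine ⟨δ, hδ, fun K ε hε Θ hΘm hΘ => ?_⟩
  have h3 := hmain K ε hε Θ (fun n w => (hΘm n).comp (measurable_const.prodMk measurable_id)) hΘ
  refine le_trans ?_ h3
  have hf := X.cont.measurable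
  rw [gcE_finset_sum hf ε]
  · exact Finset.sum_le_sum fun P _ => rootE_le X.hΦ hf hε tw te P hΘm
  · intro P _ n
    have hD := measurable_Dw_n X.hΦ hf (measurable_rootA P) hε tw n
    have hq : Measurable fun q : Config n × (ℝ × PhasePoint) =>
        (q.1, (((q.2.1, onLine q.2.2 q.2.1), P.leaves) : ML)) :=
      measurable_fst.prodMk ((measurable_snd.fst.prodMk (measurable_onLine2.comp
        (measurable_snd.snd.prodMk measurable_snd.fst))).prodMk measurable_const)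
    have hΘ' := (hΘm n).comp hq
    have h4 : Measurable fun q : Config n × (ℝ × PhasePoint) =>
        Dw Φ f₀ P (rootA P) ε tw q.2.1 q.2.2 q.1 *
          Θ n q.1 ((q.2.1, onLine q.2.2 q.2.1), P.leaves) := hD.mul hΘ'
    exact h4.lintegral_prod_right'

end

end Crest.Agent.R122.H5994
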