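import Crest.Agent.R122.PairSplit_292
import Crest.Agent.R122.GasE4b_285
import Crest.Agent.R122.MeasPair_522
import Crest.Agent.R122.GSCalc_495
import Crest.Agent.R122.HitG4_167
import Crest.Agent.R122.PairRoot_292

-- ▼ part R122/PairTree_292
section

/-!
# Inequality 3 of section E (row 122, board H4), helper292: reduction to trees, gas level

* `path_Zd_of_cMeet2`, `firstHit_of_cMeet2`, `ent_of_real6` : the clean first contact is the entrance
  into the ball of the root line.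
* `real6_of_red` : real structures after relabelling.
* `RedAt`, `MajAt6`, `clus_point6`, `clus_tree6` : the clean part of the pair functional is at most the
  structure integral of a majorant plus the flux of the errors of the reduction.
* `pelk_split` : `PELK ≤ clean + DIR + BAD`.
-/

set_option autoImplicit false
set_option linter.unusedSectionVars false

open MeasureTheory Set Filter
open scoped ENNReal Classical Topology
open Crest.AnalysisR.Kinetic
open Crest.Agent.R122.Kin796 Crest.Agent.R122.Kin796.CTree Crest.Agent.R122.Tree674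
open Crest.Agent.R122.Relabel674 Crest.Agent.R122.GC311 Crest.Agent.R122.Flow671
open Crest.Agent.R122.EDefs602 Crest.Agent.R122.TreeLines335 Crest.Agent.R122.OC285
open Crest.Agent.R122.Boost969 (LSt posAt)
open Crest.Agent.R122.Pair292 (Lab CDat PPar PX sig)
open Crest.Agent.R122.OneC285 (cfT rt cT cB cD cX lpos uI ptube RF MeasRF rfl4 extP extP_castAdd
  append_extP block_map_extP exists_topLt root_path_of_real card_preC_le_of_not_inf RedAt)

noncomputable section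

namespace Crest.Agent.R122.PairD292

variable {Φ : Space3 → ℝ} {f₀ : PhasePoint → ℝ} {ε T te T' : ℝ} {K : ℕ} {Q : EPar} {n : ℕ}

/-! ## The clean first contact -/

section contact

variable {w : Config n} {θ : Lab × LSt} {i : Fin n}

theorem tC_pos (h0 : 0 < (eL θ).1.1) (h : CMeet2 Φ ε K T w θ i) : 0 < tC Φ ε T w θ :=
  h0.trans h.lt

/-- The path of a particle which is not influenced by `d`. -/
theorem path_Zd_of_not_fut (hΦ : AdmissiblePotential Φ) (hε : 0 < ε) (hw : w ∈ PairExcluded ε n)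
    (hok : (Zd w θ).Ok Φ ε) {s : ℝ} (h : ¬ (MW.cfg w).Fut Φ ε (MW.line (dL θ)) s i) {r : ℝ}
    (hr : r ∈ Icc 0 s) : (Zd w θ).path Φ ε r (Sum.inl i) = flow Φ ε r w i := by
  have h1 : ¬ (MW.cfg w).Fut Φ ε (MW.line (dL θ)) r i := fun h' => h (EBasic602.fut_mono hr.2 h')
  have h2 := MW.path_eq_of_not_fut (Z := MW.cfg w) (A := MW.line (dL θ)) hΦ hε
    (Unw410.cfg_ok hΦ hε hw) hok hr.1 h1
  have h3 : (MW.cfg w).path Φ ε r i = flow Φ ε r w i := by
    rw [EBasic602.cfg_path hΦ hε]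
    rfl
  rw [← h3, h2]
  rfl

theorem not_inf_of_cMeet2 (hΦ : AdmissiblePotential Φ) (hε : 0 < ε) (hw : w ∈ PairExcluded ε n)
    (hok : (Zd w θ).Ok Φ ε) (h0 : 0 < (eL θ).1.1) (h : CMeet2 Φ ε K T w θ i) :
    ¬ (MW.cfg w).Inf Φ ε K (tC Φ ε T w θ) i := by
  intro hi
  refine h.clean ⟨Sum.inl i, h.ct, ?_⟩
  have h1 := MW.histEq_of_not_fut (Z := MW.cfg w) (A := MW.line (dL θ)) hΦ hε
    (Unw410.cfg_ok hΦ hε hw) hok (tC_pos h0 h).le h.nofut
  exact ((MW.com_add (MW.cfg w) (MW.line (dL θ))).coh h1).1 hi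

/-- The clean first contact is a first hit. -/
theorem firstHit_of_cMeet2 (hΦ : AdmissiblePotential Φ) (hε : 0 < ε) (hw : w ∈ PairExcluded ε n)
    (hok : (Zd w θ).Ok Φ ε) (h0 : 0 < (eL θ).1.1) (h : CMeet2 Φ ε K T w θ i) :
    OC663.FirstHit ε (fun r => (back (eL θ).1).1 + r • (eL θ).1.2.2)
      (fun r => (flow Φ ε r w i).1) (eL θ).1.1 (tC Φ ε T w θ) := by
  set s := tC Φ ε T w θ with hs
  have hs0 : 0 < s := tC_pos h0 h
  have hcont : Continuous fun s => flow Φ ε s w := flow_continuous_time hΦ hε w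
  have hcl : Continuous fun r => lpos (eL θ) r := by unfold lpos; fun_prop
  have hd : Continuous fun r => dist (lpos (eL θ) r) (flow Φ ε r w i).1 :=
    hcl.dist (continuous_fst.comp ((continuous_apply i).comp hcont))
  have hpath : ∀ r ∈ Icc 0 s, (Zd w θ).path Φ ε r (Sum.inl i) = flow Φ ε r w i := fun r hr =>
    path_Zd_of_not_fut hΦ hε hw hok h.nofut hr
  have hfar : ∀ r ∈ Ioo (eL θ).1.1 s, ε < dist (lpos (eL θ) r) (flow Φ ε r w i).1 := by
    intro r hr
    have h1 := far_of_lt_mT2 (Φ := Φ) (ε := ε) (T := T) (Z := Zd w θ) (l := eL θ)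
      (s₁ := s) le_rfl h.le r (Sum.inl i) hr.1.le hr.2 (h0.trans hr.1).le (Or.inr hr.1)
    rw [hpath r ⟨(h0.trans hr.1).le, hr.2.le⟩] at h1
    exact h1
  have hct : dist (lpos (eL θ) s) (flow Φ ε s w i).1 ≤ ε := by
    rw [← hpath s ⟨hs0.le, le_rfl⟩]
    exact h.ct.2.2.2
  refine ⟨h.lt, ?_, fun r hr => ?_⟩
  · have h1 : ‖(back (eL θ).1).1 + s • (eL θ).1.2.2 - (flow Φ ε s w i).1‖ =
        dist (lpos (eL θ) s) (flow Φ ε s w i).1 := (dist_eq_norm _ _).symm
    rw [h1]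
    refine le_antisymm hct ?_
    by_contra hlt
    push Not at hlt
    have h2 : ∀ᶠ r in 𝓝[<] s, dist (lpos (eL θ) r) (flow Φ ε r w i).1 < ε :=
      (hd.continuousAt.eventually (gt_mem_nhds hlt)).filter_mono nhdsWithin_le_nhds
    have h3 : ∀ᶠ r in 𝓝[<] s, r ∈ Ioo (eL θ).1.1 s := Ioo_mem_nhdsLT h.lt
    obtain ⟨r, hr1, hr2⟩ := (h2.and h3).exists
    exact absurd (hfar r hr2) (not_lt.2 hr1.le)
  · have h1 : ‖(back (eL θ).1).1 + r • (eL θ).1.2.2 - (flow Φ ε r w i).1‖ =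
        dist (lpos (eL θ) r) (flow Φ ε r w i).1 := (dist_eq_norm _ _).symm
    show ε < ‖(back (eL θ).1).1 + r • (eL θ).1.2.2 - (flow Φ ε r w i).1‖
    rw [h1]
    exact hfar r hr

/-- The entrance data of a real contact. -/
theorem ent_of_real6 (hΦ : AdmissiblePotential Φ) (hε : 0 < ε) (hw : w ∈ PairExcluded ε n)
    (hok : (Zd w θ).Ok Φ ε) (h0 : 0 < (eL θ).1.1) (h : CMeet2 Φ ε K T w θ i) {P : CTree}
    {z : PhasePoint × Par P} {e : Idx P → Fin n}
    (hr : RealTree674.RealTree Φ ε (tC Φ ε T w θ) w i P z.1 z.2 e) :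
    OneC423.Enters ε z.1 (eL θ).1 (tC Φ ε T w θ) := by
  have hs : 0 < tC Φ ε T w θ := tC_pos h0 h
  obtain ⟨α, hα0, hα, hα'⟩ := exists_topLt hs hr.valid
  have hc : ∀ r ∈ Icc α (tC Φ ε T w θ), (flow Φ ε r w i).1 = z.1.1 + r • z.1.2 := by
    intro r hrr
    rw [root_path_of_real hε hr (hα0.trans hrr.1) hrr.2 (hα' r hrr.1)]
    rfl
  obtain ⟨h1, h2, h3⟩ := (firstHit_of_cMeet2 hΦ hε hw hok h0 h).ent hε hα hc
  exact ⟨h1, h2, h3⟩

end contact

/-! ## Real structures -/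

theorem cMeet2_of_clM2 {m k : ℕ} {X : Config (k + m)} {θ : Lab × LSt} {j : Fin k}
    (h : clM2 Φ ε K T (k + m) X (Fin.castAdd m j) θ = block k m) :
    CMeet2 Φ ε K T X θ (Fin.castAdd m j) ∧
      tC Φ ε T X θ + slk ε < (MW.cfg X).thetaL Φ ε K T (dL θ) := by
  by_contra hC
  have h1 : clM2 Φ ε K T (k + m) X (Fin.castAdd m j) θ = ∅ := by
    unfold clM2
    rw [if_neg hC]
  rw [h1] at h
  have : Fin.castAdd m j ∈ block k m := castAdd_mem_block j
  rw [← h] at this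
  exact absurd this (Finset.notMem_empty _)

theorem real6_of_red (hΦ : AdmissiblePotential Φ) (hε : 0 < ε) {k m : ℕ} {V : Config k}
    {w : Config m} {j : Fin k} {θ : Lab × LSt} (hV : V ∈ PairExcluded ε k)
    (hw : w ∈ PairExcluded ε m) (hp : Perp ε V w)
    (hblk : clM2 Φ ε K te (k + m) (Fin.append V w) (Fin.castAdd m j) θ = block k m)
    (hL : OkL K θ) (hW : OkW Φ ε (Fin.append V w) θ) {P : CTree} {e : Idx P ≃ Fin k}
    {z : PhasePoint × Par P} (he : e (root P) = j) (hVl : ∀ x, V (e x) = lines Φ ε P z.1 z.2 x)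
    (hv : Valid Φ ε P T' z.1.2 z.2) (hs : Sep Φ ε P T' z.1 z.2)
    (hr : RealTree674.RealTree Φ ε (tC Φ ε te (Fin.append V w) θ) (Fin.append V w)
      (Fin.castAdd m j) P z.1 z.2 (fun x => Fin.castAdd m (e x))) :
    P.leaves = k ∧ Real6 Φ ε K te T' P z w θ ∧
      tPK Φ ε K Q (Fin.append V w) θ = tPK Φ ε K Q (Fin.append (cfT Φ ε P z) w) θ := by
  have hk : P.leaves = k := by
    have := Fintype.card_congr e
    rw [card_idx, Fintype.card_fin] at this
    exact this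
  subst hk
  refine ⟨rfl, ?_⟩
  set σ : Equiv.Perm (Fin P.leaves) := (eP P).symm.trans e with hσ
  have hcf : cfT Φ ε P z = fun i => V (σ i) := by
    funext i
    show lines Φ ε P z.1 z.2 ((eP P).symm i) = V (e ((eP P).symm i))
    rw [hVl]
  have hap : (Fin.append (cfT Φ ε P z) w : Config (P.leaves + m)) =
      fun i => Fin.append V w (extP m σ i) := by
    rw [hcf, append_extP]
  have hσr : σ (rt P) = j := by
    show e ((eP P).symm (eP P (root P))) = j
    rw [Equiv.symm_apply_apply, he]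
  have hVw : (Fin.append V w : Config (P.leaves + m)) ∈ PairExcluded ε (P.leaves + m) :=
    (append_mem_pairExcluded_iff V w).2 ⟨hV, hw, hp⟩
  obtain ⟨hC, hearly⟩ := cMeet2_of_clM2 hblk
  have hmT : tC Φ ε te (Fin.append (cfT Φ ε P z) w) θ = tC Φ ε te (Fin.append V w) θ := by
    rw [hap]
    exact MeasPair522.tC_perm _ _ _ hΦ hε
  have hent := ent_of_real6 hΦ hε hVw hW.1 hL.e0 hC hr
  have hcT : cT ε z (eL θ) = tC Φ ε te (Fin.append V w) θ := hent.2.2.symm
  have h3 : extP m σ (Fin.castAdd m (rt P)) = Fin.castAdd m j := by rw [extP_castAdd, hσr]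
  refine ⟨⟨?_, hw, ?_, hv, hs, ?_, ?_, hL, ?_, ?_, ?_, ?_, ?_⟩, ?_⟩
  · rw [hcf]
    intro a b hab
    exact hV _ _ fun h => hab (σ.injective h)
  · rw [hcf]
    intro a b
    exact hp _ _
  · exact OneC423.mem_ctSet hent hC.lt hC.le hr.valid
  · rw [hmT, hcT]
  · rw [hap]
    exact (MeasPair522.okW_perm _ _ _ hΦ hε).2 hW
  · rw [hap]
    refine (MeasPair522.cMeet2_perm _ _ _ hΦ hε _).2 ?_
    rw [h3]
    exact hC
  · rw [hmT, hap, EquivE416.thetaL_perm hΦ hε]
    exact hearly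
  · have h1 : clM2 Φ ε K te (P.leaves + m) (Fin.append (cfT Φ ε P z) w)
        (Fin.castAdd m (rt P)) θ = block P.leaves m := by
      have h2 := MeasPair522.clM2_perm (Φ := Φ) (ε := ε) (T := te) (K := K)
        (Fin.append V w : Config (P.leaves + m)) (extP m σ) θ hΦ hε (Fin.castAdd m (rt P))
      rw [h3, hblk, ← hap] at h2
      have h4 : (block P.leaves m).map (extP m σ).toEmbedding =
          (clM2 Φ ε K te (P.leaves + m) (Fin.append (cfT Φ ε P z) w) (Fin.castAdd m (rt P))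
            θ).map (extP m σ).toEmbedding := by
        rw [block_map_extP]
        exact h2
      exact (Finset.map_injective _ h4).symm
    have hC' := cMeet2_of_clM2 h1
    unfold clM2 at h1
    rwa [if_pos hC'] at h1
  · rw [hcT, hap]
    refine (RealTree674.realTree_equiv hΦ hε (extP m σ) (Fin.append V w)
      (Fin.castAdd m (rt P)) (fun x => Fin.castAdd m (eP P x))).2 ?_
    have h4 : (fun x => extP m σ (Fin.castAdd m (eP P x))) = fun x => Fin.castAdd m (e x) := by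
      funext x
      rw [extP_castAdd]
      show Fin.castAdd m (e ((eP P).symm (eP P x))) = _
      rw [Equiv.symm_apply_apply]
    rw [h3, h4]
    exact hr
  · rw [hap]
    exact (MeasPair522.tPK_perm _ _ _ hΦ hε Q).symm

/-! ## Pointwise reduction -/

/-- The functional of contact structures, localised on the contact set. -/
def ctH (Φ : Space3 → ℝ) (ε te : ℝ) (M : SF2) (P : CTree) (z : PhasePoint × Par P) (m : ℕ)
    (w : Config m) (θ : Lab × LSt) : ℝ≥0∞ :=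
  {θ : Lab × LSt | (z, θ.2) ∈ OneC423.ctSet Φ ε te P}.indicator (fun θ => M P z m w θ) θ

theorem OS2_eq_GS (M : SF2) {ν : Measure (Lab × LSt)} :
    OS2 Φ f₀ ε te T' ν M = GSCalc495.GS Φ f₀ ε T' ν (ctH Φ ε te M) := rfl

/-- The cluster functional. -/
def F6 (Φ : Space3 → ℝ) (ε : ℝ) (K : ℕ) (Q : EPar) (k m : ℕ) (V : Config k) (w : Config m)
    (j : Fin k) (θ : Lab × LSt) : ℝ≥0∞ :=
  if clM2 Φ ε K Q.te (k + m) (Fin.append V w) (Fin.castAdd m j) θ = block k m then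
    (if OkW Φ ε (Fin.append V w) θ then tPK Φ ε K Q (Fin.append V w) θ else 0) else 0

/-- The error functional. -/
def B6 (Φ : Space3 → ℝ) (ε : ℝ) (K : ℕ) (Q : EPar) (B : RF) (k m : ℕ) (V : Config k)
    (w : Config m) (j : Fin k) (θ : Lab × LSt) : ℝ≥0∞ :=
  if OkL K θ ∧ clM2 Φ ε K Q.te (k + m) (Fin.append V w) (Fin.castAdd m j) θ = block k m then
    B k m V w j (tC Φ ε Q.te (Fin.append V w) θ) else 0

/-- The majorant property. -/
def MajAt6 (Φ : Space3 → ℝ) (ε : ℝ) (K : ℕ) (Q : EPar) (T' : ℝ) (M : SF2) : Prop :=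
  ∀ (P : CTree) (z : PhasePoint × Par P) (m : ℕ) (w : Config m) (θ : Lab × LSt), P.leaves ≤ K →
    Real6 Φ ε K Q.te T' P z w θ → GIV566.unhit Φ ε (ptube Φ ε P z) Q.tw w →
    tPK Φ ε K Q (Fin.append (cfT Φ ε P z) w) θ ≤ M P z m w θ

theorem clus_point6 (hΦ : AdmissiblePotential Φ) (hε : 0 < ε) (hQL : 0 ≤ Q.L) {B : RF}
    (hB : RedAt Φ ε K Q.tw Q.te T' B) {M : SF2} (hM : MajAt6 Φ ε K Q T' M) (k m : ℕ)
    (V : Config k) (w : Config m) (j : Fin k) (θ : Lab × LSt) (hV : V ∈ PairExcluded ε k)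
    (hw : w ∈ PairExcluded ε m) (hp : Perp ε V w) :
    F6 Φ ε K Q k m V w j θ ≤
      TreeBound335.ways Φ ε T' (fun P z => ctH Φ ε Q.te M P z m w θ) V j +
      B6 Φ ε K Q B k m V w j θ := by
  unfold F6
  by_cases hblk : clM2 Φ ε K Q.te (k + m) (Fin.append V w) (Fin.castAdd m j) θ = block k m
  swap
  · rw [if_neg hblk]; exact zero_le
  rw [if_pos hblk]
  by_cases hW : OkW Φ ε (Fin.append V w) θ
  swap
  · rw [if_neg hW]; exact zero_le
  rw [if_pos hW]
  by_cases hL : OkL K θ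
  swap
  · have h0 : tPK Φ ε K Q (Fin.append V w) θ = 0 := by
      unfold tPK
      rw [if_neg hL]
    rw [h0]; exact zero_le
  have hVw : (Fin.append V w : Config (k + m)) ∈ PairExcluded ε (k + m) :=
    (append_mem_pairExcluded_iff V w).2 ⟨hV, hw, hp⟩
  have hCe := cMeet2_of_clM2 hblk
  have hC := hCe.1
  have hpre : preC Φ ε (Fin.append V w) (tC Φ ε Q.te (Fin.append V w) θ) (Fin.castAdd m j) =
      block k m := by
    rw [← hblk]
    unfold clM2
    rw [if_pos hCe]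
  have hs0 : 0 < tC Φ ε Q.te (Fin.append V w) θ := tC_pos hL.e0 hC
  have hkK : k ≤ K := by
    have h1 := card_preC_le_of_not_inf hΦ hε hVw hs0.le
      (not_inf_of_cMeet2 hΦ hε hVw hW.1 hL.e0 hC)
    rw [hpre, card_block] at h1
    exact h1
  rcases hB k m V w j _ hV hw hp hkK hs0 hC.le hpre with hb | ⟨P, e, z, he, hVl, hv, hs, hr, hu⟩
  · refine le_trans ?_ le_add_self
    unfold B6
    rw [if_pos (show OkL K θ ∧ clM2 Φ ε K Q.te (k + m) (Fin.append V w) (Fin.castAdd m j) θ =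
      block k m from ⟨hL, hblk⟩)]
    exact (tPK_le_one hQL).trans hb
  · refine le_trans ?_ le_self_add
    obtain ⟨hk, h4, ht⟩ := real6_of_red (Q := Q) hΦ hε hV hw hp hblk hL hW he hVl hv hs hr
    refine le_trans ?_ (TreeBound335.le_ways hΦ hε (G := fun P z => ctH Φ ε Q.te M P z m w θ)
      (ℓ := z.1) (p := z.2) he hv hVl)
    show _ ≤ ctH Φ ε Q.te M P z m w θ
    unfold ctH
    rw [indicator_of_mem (show θ ∈ {θ : Lab × LSt | (z, θ.2) ∈ OneC423.ctSet Φ ε Q.te P} from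
      h4.ct), ht]
    exact hM P z m w θ (hk ▸ hkK) h4 hu

end Crest.Agent.R122.PairD292

end
end

-- ▼ part R122/PairGas_292
section

/-!
# Inequality 3 of section E (row 122, board H4), helper292: the gas level

* `pelk_split` : `PELK ≤ clean + DIR + BAD`.
* `clus_tree6` : the clean part is at most the structure integral of a majorant plus the flux of the
  errors of the reduction.
* `pelk_le_os2` : both together.
* `MJ6`, `majAt6_MJ6`, `os2_MJ6` : the majorant made of size crossings, spread terms, outgoing pairs and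
  LINK.
* `step_gas` : the one-step inequality before the null facts.
-/

set_option autoImplicit false
set_option linter.unusedSectionVars false

open MeasureTheory Set Filter
open scoped ENNReal Classical Topology
open Crest.AnalysisR.Kinetic
open Crest.Agent.R122.Kin796 Crest.Agent.R122.Kin796.CTree Crest.Agent.R122.Tree674
open Crest.Agent.R122.Relabel674 Crest.Agent.R122.GC311 Crest.Agent.R122.Flow671
open Crest.Agent.R122.EDefs602 Crest.Agent.R122.TreeLines335 Crest.Agent.R122.OC285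
open Crest.Agent.R122.Boost969 (LSt posAt)
open Crest.Agent.R122.Pair292 (Lab CDat PPar PX sig)
open Crest.Agent.R122.OneC285 (cfT rt cT cB cD cX lpos uI ptube RF MeasRF rfl4 RedAt)

noncomputable section

namespace Crest.Agent.R122.PairD292

variable {Φ : Space3 → ℝ} {f₀ : PhasePoint → ℝ} {ε T te T' : ℝ} {K : ℕ} {Q : EPar}

/-! ## Split -/

/-- The clean part. -/
def CLN (Φ : Space3 → ℝ) (f₀ : PhasePoint → ℝ) (ε : ℝ) (K : ℕ) (Q : EPar)
    (ν : Measure (Lab × LSt)) : ℝ≥0∞ :=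
  gcE f₀ ε fun n w => ∑ i : Fin n, ∫⁻ θ, (if (clM2 Φ ε K Q.te n w i θ).Nonempty then
    (if OkW Φ ε w θ then tPK Φ ε K Q w θ else 0) else 0) ∂ν

theorem measurable_clnI (hΦ : AdmissiblePotential Φ) (hε : 0 < ε) (n : ℕ) (i : Fin n) :
    Measurable fun q : Config n × (Lab × LSt) => if (clM2 Φ ε K Q.te n q.1 i q.2).Nonempty then
      (if OkW Φ ε q.1 q.2 then tPK Φ ε K Q q.1 q.2 else 0) else 0 := by
  refine Measurable.ite ?_ (Measurable.ite
    (MeasPair522.measurableSet_okW hΦ hε measurable_fst measurable_snd)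
    (MeasPair522.measurable_tPK_joint hΦ hε K Q n) measurable_const) measurable_const
  have h : {q : Config n × (Lab × LSt) | (clM2 Φ ε K Q.te n q.1 i q.2).Nonempty} =
      {q | clM2 Φ ε K Q.te n q.1 i q.2 = ∅}ᶜ := by
    ext q
    simp only [mem_ofPred_eq, mem_compl_iff, Finset.nonempty_iff_ne_empty, ne_eq]
  rw [h]
  exact (MeasPair522.measurableSet_clM2_eq hΦ hε measurable_fst measurable_snd K Q.te i ∅).compl

/-- **Split of the pair functional.** -/
theorem pelk_split (hΦ : AdmissiblePotential Φ) (hf : Measurable f₀) (hε : 0 < ε)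
    (hQ : 0 ≤ Q.te) (hQL : 0 ≤ Q.L) {ν : Measure (Lab × LSt)} [SFinite ν] (hok : OkAE Φ ε K ν) :
    PELK Φ f₀ ε K Q ν ≤ CLN Φ f₀ ε K Q ν + (DIR Φ f₀ ε K Q ν + BAD Φ f₀ ε K Q ν) := by
  set D : (n : ℕ) → Config n → Lab × LSt → ℝ≥0∞ := fun n w θ =>
    if OkW Φ ε w θ ∧ (DMeet2 Φ ε K Q.te (Zd w θ) (eL θ) ∨
        (tC Φ ε Q.te w θ ≤ Q.te ∧
          (MW.cfg w).thetaL Φ ε K Q.te (dL θ) ≤ tC Φ ε Q.te w θ + slk ε)) then
        tPK Φ ε K Q w θ else 0 with hD
  set B : (n : ℕ) → Config n → Lab × LSt → ℝ≥0∞ := fun n w θ =>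
    if OkL K θ ∧ OkW Φ ε w θ ∧ T1 Φ ε K Q w θ ∧ BMeet2 Φ ε K Q.te w θ ∧
        tC Φ ε Q.te w θ + slk ε < (MW.cfg w).thetaL Φ ε K Q.te (dL θ) then 1 else 0 with hB
  set C : (n : ℕ) → Fin n → Config n → Lab × LSt → ℝ≥0∞ := fun n i w θ =>
    if (clM2 Φ ε K Q.te n w i θ).Nonempty then
      (if OkW Φ ε w θ then tPK Φ ε K Q w θ else 0) else 0 with hC
  have hCm : ∀ (n : ℕ) (i : Fin n), Measurable fun q : Config n × (Lab × LSt) =>
      C n i q.1 q.2 := fun n i => measurable_clnI hΦ hε n i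
  have hDm : ∀ n : ℕ, Measurable fun q : Config n × (Lab × LSt) => D n q.1 q.2 := fun n =>
    MeasPair522.measurable_DIR_joint hΦ hε K Q n
  have hCw : ∀ (n : ℕ) (i : Fin n) (w : Config n), Measurable fun θ => C n i w θ := fun n i w =>
    (hCm n i).comp (f := fun θ : Lab × LSt => ((w, θ) : Config n × (Lab × LSt)))
      (measurable_const.prodMk measurable_id)
  have hDw : ∀ (n : ℕ) (w : Config n), Measurable fun θ => D n w θ := fun n w =>
    (hDm n).comp (f := fun θ : Lab × LSt => ((w, θ) : Config n × (Lab × LSt)))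
      (measurable_const.prodMk measurable_id)
  have h1 : PELK Φ f₀ ε K Q ν ≤ gcE f₀ ε fun n w =>
      (∑ i : Fin n, ∫⁻ θ, C n i w θ ∂ν) + (∫⁻ θ, D n w θ ∂ν + ∫⁻ θ, B n w θ ∂ν) := by
    unfold PELK
    refine Hit167.gcE_mono_ae f₀ ε fun n => ?_
    have hae := Measure.ae_ae_of_ae_prod (hok n)
    filter_upwards [hae] with w hw hwe
    have h2 : ∫⁻ θ, tPK Φ ε K Q w θ ∂ν ≤ ∫⁻ θ, ((∑ i : Fin n, C n i w θ) +
        (D n w θ + B n w θ)) ∂ν := by
      refine lintegral_mono_ae ?_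
      filter_upwards [hw] with θ hθ
      have h3 := tPK_split (K := K) (Q := Q) (w := w) (θ := θ) hΦ hε hQ hQL fun h => hθ hwe h
      refine h3.trans (add_le_add (Finset.sum_le_sum fun i _ => ?_) le_rfl)
      simp only [hC]
      by_cases hne : (clM2 Φ ε K Q.te n w i θ).Nonempty
      · rw [if_pos hne, if_pos hne]
        by_cases hL : OkL K θ
        · rw [if_pos (hθ hwe hL)]
        · have h0 : tPK Φ ε K Q w θ = 0 := by
            unfold tPK
            rw [if_neg hL]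
          rw [h0]
          exact zero_le
      · rw [if_neg hne, if_neg hne]
    refine h2.trans (le_of_eq ?_)
    rw [lintegral_add_left (Finset.measurable_sum _ fun i _ => hCw n i w),
      lintegral_add_left (hDw n w), lintegral_finsetSum _ fun i _ => hCw n i w]
  refine h1.trans (le_of_eq ?_)
  have hm1 : ∀ n : ℕ, Measurable fun w : Config n => ∑ i : Fin n, ∫⁻ θ, C n i w θ ∂ν := fun n =>
    Finset.measurable_sum _ fun i _ => (hCm n i).lintegral_prod_right'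
  have hm2 : ∀ n : ℕ, Measurable fun w : Config n => ∫⁻ θ, D n w θ ∂ν := fun n =>
    (hDm n).lintegral_prod_right'
  rw [gcE_add hf ε hm1, gcE_add hf ε hm2]
  rfl

/-! ## Reduction to trees -/

/-- Flux of the errors of the reduction. -/
def errB6 (Φ : Space3 → ℝ) (f₀ : PhasePoint → ℝ) (ε : ℝ) (K : ℕ) (Q : EPar)
    (ν : Measure (Lab × LSt)) (B : RF) : ℝ≥0∞ :=
  ∑' k : ℕ, activity ε ^ k / (k.factorial : ℝ≥0∞) * ∫⁻ V : Config k, gcWeight f₀ ε k V *
    gcE f₀ ε (fun m w => perpInd ε V w * ∑ j : Fin k, ∫⁻ θ,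
      (if OkL K θ ∧ clM2 Φ ε K Q.te (k + m) (Fin.append V w) (Fin.castAdd m j) θ = block k m then
        B k m V w j (tC Φ ε Q.te (Fin.append V w) θ) else 0) ∂ν)

theorem measurable_ctH (hΦ : AdmissiblePotential Φ) {M : SF2} (hM : MeasSF2 M) (P : CTree) (m : ℕ) :
    Measurable fun q : (PhasePoint × Par P) × (Config m × (Lab × LSt)) =>
      ctH Φ ε te M P q.1 m q.2.1 q.2.2 := by
  have h1 : MeasurableSet {q : (PhasePoint × Par P) × (Config m × (Lab × LSt)) |
      (q.1, q.2.2.2) ∈ OneC423.ctSet Φ ε te P} := by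
    have h2 : Measurable fun q : (PhasePoint × Par P) × (Config m × (Lab × LSt)) =>
        (q.1, q.2.2.2) :=
      measurable_fst.prodMk (measurable_snd.comp (measurable_snd.comp measurable_snd))
    exact h2 (OneC423.measurableSet_ctSet hΦ ε te P)
  have h4 : (fun q : (PhasePoint × Par P) × (Config m × (Lab × LSt)) =>
      ctH Φ ε te M P q.1 m q.2.1 q.2.2) =
      {q : (PhasePoint × Par P) × (Config m × (Lab × LSt)) |
        (q.1, q.2.2.2) ∈ OneC423.ctSet Φ ε te P}.indicator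
      (fun q => M P q.1 m q.2.1 q.2.2) := by
    funext q
    rfl
  rw [h4]
  exact (hM P m).indicator h1

theorem measurable_appT {k m : ℕ} : Measurable fun q : Config k × (Config m × (Lab × LSt)) =>
    ((Fin.append q.1 q.2.1 : Config (k + m)), q.2.2) := by
  refine Measurable.prodMk ?_ (measurable_snd.comp measurable_snd)
  refine measurable_pi_iff.2 fun i => ?_
  refine Fin.addCases (fun i => ?_) (fun i => ?_) i
  · simp only [Fin.append_left]
    exact (measurable_pi_apply i).comp measurable_fst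
  · simp only [Fin.append_right]
    exact (measurable_pi_apply i).comp (measurable_fst.comp measurable_snd)

theorem measurable_B6 (hΦ : AdmissiblePotential Φ) (hε : 0 < ε) {B : RF} (hB : MeasRF B)
    (k m : ℕ) (j : Fin k) : Measurable fun q : Config k × (Config m × (Lab × LSt)) =>
      B6 Φ ε K Q B k m q.1 q.2.1 j q.2.2 := by
  have hθ : Measurable fun q : Config k × (Config m × (Lab × LSt)) => q.2.2 :=
    measurable_snd.comp measurable_snd
  have hX : Measurable fun q : Config k × (Config m × (Lab × LSt)) =>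
      (Fin.append q.1 q.2.1 : Config (k + m)) := measurable_fst.comp measurable_appT
  unfold B6
  refine Measurable.ite ((MeasPair522.measurableSet_okL K hθ).inter
    (MeasPair522.measurableSet_clM2_eq hΦ hε hX hθ K Q.te (Fin.castAdd m j) (block k m))) ?_
    measurable_const
  exact (hB k m j).comp (f := fun q : Config k × (Config m × (Lab × LSt)) =>
    (q.1, (q.2.1, tC Φ ε Q.te (Fin.append q.1 q.2.1) q.2.2)))
    (measurable_fst.prodMk ((measurable_fst.comp measurable_snd).prodMk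
      (MeasPair522.measurable_tC hΦ hε hX hθ Q.te)))

/-- **Reduction of the clean part to trees.** -/
theorem clus_tree6 (hΦ : AdmissiblePotential Φ) (hf : Measurable f₀) (hε : 0 < ε) (hQL : 0 ≤ Q.L)
    (ν : Measure (Lab × LSt)) [SFinite ν] {B : RF} (hBm : MeasRF B)
    (hB : RedAt Φ ε K Q.tw Q.te T' B) {M : SF2} (hMm : MeasSF2 M) (hM : MajAt6 Φ ε K Q T' M) :
    CLN Φ f₀ ε K Q ν ≤ OS2 Φ f₀ ε Q.te T' ν M + errB6 Φ f₀ ε K Q ν B := by
  have h := param_mecke hf ν (MeasPair522.pClusterMap_clM2 hΦ hε K Q.te)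
    (F := fun n _ _ w θ => if OkW Φ ε w θ then tPK Φ ε K Q w θ else 0) ?_ ?_
  · have h0 : CLN Φ f₀ ε K Q ν ≤ ∑' k : ℕ, activity ε ^ k / (k.factorial : ℝ≥0∞) *
        ∫⁻ V : Config k, gcWeight f₀ ε k V * gcE f₀ ε (fun m w => perpInd ε V w *
          ∑ j : Fin k, ∫⁻ θ, F6 Φ ε K Q k m V w j θ ∂ν) := by
      unfold CLN
      rw [h]
      have h2 := ENNReal.tsum_comp_le_tsum_of_injective (Nat.succ_injective)
        (fun k : ℕ => activity ε ^ k / (k.factorial : ℝ≥0∞) *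
        ∫⁻ V : Config k, gcWeight f₀ ε k V * gcE f₀ ε (fun m w => perpInd ε V w *
          ∑ j : Fin k, ∫⁻ θ, F6 Φ ε K Q k m V w j θ ∂ν))
      exact h2
    refine h0.trans ?_
    exact ToTree335.to_tree hΦ hf hε ν (T := T')
      (H := ctH Φ ε Q.te M) (fun P m => measurable_ctH hΦ hMm P m)
      (F := F6 Φ ε K Q) (B := B6 Φ ε K Q B) (fun k m j => measurable_B6 hΦ hε hBm k m j)
      (fun k m V w j θ hV hw hp => clus_point6 hΦ hε hQL hB hM k m V w j θ hV hw hp)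
  · intro n σ i B Z θ _
    have h1 := MeasPair522.okW_perm (Φ := Φ) (ε := ε) Z σ θ hΦ hε
    have h2 := MeasPair522.tPK_perm (Φ := Φ) (ε := ε) (K := K) Z σ θ hΦ hε Q
    rw [h2]
    by_cases h3 : OkW Φ ε Z θ
    · rw [if_pos h3, if_pos (h1.2 h3)]
    · rw [if_neg h3, if_neg fun h' => h3 (h1.1 h')]
  · intro n i B
    exact Measurable.ite (MeasPair522.measurableSet_okW hΦ hε measurable_fst measurable_snd)
      (MeasPair522.measurable_tPK_joint hΦ hε K Q n) measurable_const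

/-- **Gas level inequality.** -/
theorem pelk_le_os2 (hΦ : AdmissiblePotential Φ) (hf : Measurable f₀) (hε : 0 < ε)
    (hQ : 0 ≤ Q.te) (hQL : 0 ≤ Q.L) {ν : Measure (Lab × LSt)} [SFinite ν] (hok : OkAE Φ ε K ν)
    {B : RF} (hBm : MeasRF B) (hB : RedAt Φ ε K Q.tw Q.te T' B) {M : SF2} (hMm : MeasSF2 M)
    (hM : MajAt6 Φ ε K Q T' M) :
    PELK Φ f₀ ε K Q ν ≤ OS2 Φ f₀ ε Q.te T' ν M + errB6 Φ f₀ ε K Q ν B +
      (DIR Φ f₀ ε K Q ν + BAD Φ f₀ ε K Q ν) :=
  (pelk_split hΦ hf hε hQ hQL hok).trans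
    (add_le_add (clus_tree6 hΦ hf hε hQL ν hBm hB hMm hM) le_rfl)

end Crest.Agent.R122.PairD292

end
end

-- ▼ part R122/PairStep_292

/-!
# Inequality 3 of section E (row 122, board H4), helper292: the one-step inequality

* `outO`, `outF`, `K3` : the three continuation kernels.
* `StmtCC6` : case (C) at the gas level (helper658).
* `MJ6` : the majorant (size crossings, spread terms, outgoing pairs, LINK), `majAt6_MJ6`.
* `os2_add`, `os2_MJ6` : its structure integral.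
* `Step6` : the one-step inequality, uniform over the class; `step6_of` : from the slots.
-/

set_option autoImplicit false
set_option linter.unusedSectionVars false

open MeasureTheory ProbabilityTheory Set Filter
open scoped ENNReal Classical Topology
open Crest.AnalysisR.Kinetic
open Crest.Agent.R122.Kin796 Crest.Agent.R122.Kin796.CTree Crest.Agent.R122.Tree674
open Crest.Agent.R122.Relabel674 Crest.Agent.R122.GC311 Crest.Agent.R122.Flow671
open Crest.Agent.R122.EDefs602 Crest.Agent.R122.TreeLines335 Crest.Agent.R122.OC285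
open Crest.Agent.R122.Master566 Crest.Agent.R122.GSCalc495
open Crest.Agent.R122.Boost969 (LSt posAt)
open Crest.Agent.R122.Pair292 (Lab CDat PPar PX sig stO OutMap)
open Crest.Agent.R122.OneC285 (cfT rt cT cB cD cX lpos uI ptube RF MeasRF rfl4 RedAt StmtRed)

noncomputable section

namespace Crest.Agent.R122.PairD292

variable {Φ : Space3 → ℝ} {f₀ : PhasePoint → ℝ} {ε T te T' r : ℝ} {K : ℕ} {Q : EPar}

/-! ## Continuation kernels -/

/-- output map of the outcome `k` -/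
def outO (Φ : Space3 → ℝ) (ε : ℝ) : Option Bool → ℝ → Space3 → OCout796.CD → LSt
  | none => OCout796.lineC Φ ε
  | some false => OCout796.lineL' Φ ε
  | some true => OCout796.lineC' Φ ε

/-- mark rule of the outcome `k` : (mark of the fresh particle, old mark) -/
def outF : Option Bool → ℕ → ℕ → ℕ
  | none => fun m _n => m
  | some _ => fun m n => n + m

/-- continuation kernel of the outcome `k` -/
def KO (Φ : Space3 → ℝ) (ε b₀ te : ℝ) (q : ℕ → ℝ≥0∞) (k : Option Bool) :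
    Kernel (Lab × LSt) (Lab × LSt) := stO ε b₀ te (outO Φ ε k) (outF k) q

/-- the three continuation kernels together -/
def K3 (Φ : Space3 → ℝ) (ε b₀ te : ℝ) (q : ℕ → ℝ≥0∞) : Kernel (Lab × LSt) (Lab × LSt) :=
  KO Φ ε b₀ te q none + (KO Φ ε b₀ te q (some false) + KO Φ ε b₀ te q (some true))

/-- (658) **Case (C)** at the gas level. -/
def StmtCC6 (Φ : Space3 → ℝ) (f₀ : PhasePoint → ℝ) (Q : EPar) (T' b₀ : ℝ) (q : ℕ → ℕ → ℝ≥0∞)
    (PP : ℕ → PPar) : Prop :=
  PPOk Q PP → ∃ δ : ℕ → ℝ → ℝ≥0∞, Null δ ∧ ∀ (K : ℕ) (ε : ℝ), 0 < ε → ∀ k : Option Bool,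
    ∀ (Ξ ν : Measure (Lab × LSt)) (c : ℝ≥0∞), PX (PP K) Ξ ν c →
    OS2 Φ f₀ ε Q.te T' ν (fun P z m w θ => uG Φ ε Q.tw K P z w θ *
      tPK Φ ε K Q w (outP Φ ε P z θ k)) ≤
    PELK Φ f₀ ε K Q (ν.bind (KO Φ ε b₀ Q.te (q K) k)) + c * δ K ε

/-! ## The majorant -/

/-- measurable ghost indicator -/
def gI (Φ : Space3 → ℝ) (ε tw : ℝ) (K : ℕ) (P : CTree) (z : PhasePoint × Par P) (m : ℕ)
    (w : Config m) (θ : Lab × LSt) : ℝ≥0∞ :=
  if OkL K θ ∧ P.leaves ≤ K then H5994.gh Φ ε tw P z ⟨m, w⟩ else 0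

/-- size crossing -/
def xcI (K : ℕ) (P : CTree) (θ : Lab × LSt) : ℝ≥0∞ := if K < (eL θ).2 + P.leaves then 1 else 0

/-- spread terms -/
def spI (ε r : ℝ) (tO tY : SF2) (P : CTree) (z : PhasePoint × Par P) (m : ℕ) (w : Config m)
    (θ : Lab × LSt) : ℝ≥0∞ := if r ≤ age ε z θ then tO P z m w θ else tY P z m w θ

/-- the whole majorant -/
def MJ6 (Φ : Space3 → ℝ) (ε : ℝ) (K : ℕ) (Q : EPar) (r : ℝ) (tO tY bd : SF2) : SF2 :=
  fun P z m w θ => gI Φ ε Q.tw K P z m w θ * (xcI K P θ + (spI ε r tO tY P z m w θ +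
    (∑ k : Option Bool, tPK Φ ε K Q w (outP Φ ε P z θ k) + bd P z m w θ)))

theorem gI_eq_uG {P : CTree} {z : PhasePoint × Par P} (h : Adm Φ P z.1.2 z.2) {tw : ℝ} {m : ℕ}
    (w : Config m) (θ : Lab × LSt) : gI Φ ε tw K P z m w θ = uG Φ ε tw K P z w θ := by
  unfold gI uG
  rw [gh_eq_uI h]

theorem measSF2_gI (hΦ : AdmissiblePotential Φ) (hε : 0 < ε) (tw : ℝ) :
    MeasSF2 (gI Φ ε tw K) := by
  intro P m
  unfold gI
  refine Measurable.ite ?_ ?_ measurable_const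
  · exact ((measurableSet_okL K).preimage
      (f := fun q : (PhasePoint × Par P) × (Config m × (Lab × LSt)) => q.2.2)
      (measurable_snd.comp measurable_snd)).inter (MeasurableSet.const _)
  · exact (measurable_gh_n hΦ hε tw P m).comp
      (f := fun q : (PhasePoint × Par P) × (Config m × (Lab × LSt)) => (q.2.1, q.1))
      ((measurable_fst.comp measurable_snd).prodMk measurable_fst)

theorem measSF2_xcI : MeasSF2 fun P _ _ _ θ => xcI K P θ := by
  intro P m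
  have h1 : Measurable fun q : (PhasePoint × Par P) × (Config m × (Lab × LSt)) =>
      (eL q.2.2).2 := (measurable_eL.comp (measurable_snd.comp measurable_snd)).snd
  have h2 : Measurable fun n : ℕ => if K < n + P.leaves then (1 : ℝ≥0∞) else 0 :=
    Measurable.of_discrete
  exact h2.comp h1

theorem measurable_ageP (ε : ℝ) (P : CTree) (m : ℕ) :
    Measurable fun q : (PhasePoint × Par P) × (Config m × (Lab × LSt)) => age ε q.1 q.2.2 := by
  unfold age
  refine Measurable.sub ?_ ?_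
  · exact (Nu0566.measurable_cT ε P).comp
      (f := fun q : (PhasePoint × Par P) × (Config m × (Lab × LSt)) => (q.1, eL q.2.2))
      (measurable_fst.prodMk (measurable_eL.comp (measurable_snd.comp measurable_snd)))
  · exact Pair292.measurable_sig.comp (measurable_fst.comp (measurable_snd.comp measurable_snd))

theorem measSF2_spI {tO tY : SF2} (hO : MeasSF2 tO) (hY : MeasSF2 tY) :
    MeasSF2 (spI ε r tO tY) := by
  intro P m
  unfold spI
  exact Measurable.ite (measurableSet_le measurable_const (measurable_ageP ε P m)) (hO P m)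
    (hY P m)

theorem measurable_outP (hΦ : AdmissiblePotential Φ) (ε : ℝ) (P : CTree) (k : Option Bool) :
    Measurable fun q : (PhasePoint × Par P) × (Lab × LSt) => outP Φ ε P q.1 q.2 k := by
  have he : Measurable fun q : (PhasePoint × Par P) × (Lab × LSt) => (q.1, eL q.2) :=
    measurable_fst.prodMk (measurable_eL.comp measurable_snd)
  have hT := (Nu0566.measurable_cT ε P).comp he
  have hX := (Nu0566.measurable_cX ε P).comp he
  have hD := (Nu0566.measurable_cD ε P).comp he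
  have hc : Measurable fun q : (PhasePoint × Par P) × (Lab × LSt) =>
      ((cT ε q.1 (eL q.2), (cX ε q.1 (eL q.2), cD ε q.1 (eL q.2))) :
        ℝ × (Space3 × OCout796.CD)) := hT.prodMk (hX.prodMk hD)
  have hm : Measurable fun q : (PhasePoint × Par P) × (Lab × LSt) => (eL q.2).2 :=
    (measurable_eL.comp measurable_snd).snd
  have hm' : Measurable fun q : (PhasePoint × Par P) × (Lab × LSt) => (eL q.2).2 + P.leaves :=
    (Measurable.of_discrete (f := fun n : ℕ => n + P.leaves)).comp hm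
  have hL : Measurable fun q : (PhasePoint × Par P) × (Lab × LSt) =>
      outL6 Φ ε P q.1 (eL q.2) k := by
    rcases k with _ | _ | _
    · exact ((Nu0566.measurable_lineC hΦ ε).comp hc).prodMk measurable_const
    · exact ((Nu0566.measurable_lineL' hΦ ε).comp hc).prodMk hm'
    · exact ((Nu0566.measurable_lineC' hΦ ε).comp hc).prodMk hm'
  unfold outP
  exact ((measurable_snd.fst.fst).prodMk ((measurable_snd.fst.snd.fst).prodMk hL.snd)).prodMk
    hL.fst

theorem measSF2_tPKo (hΦ : AdmissiblePotential Φ) (hε : 0 < ε) (k : Option Bool) :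
    MeasSF2 fun P z _ w θ => tPK Φ ε K Q w (outP Φ ε P z θ k) := by
  intro P m
  exact MeasPair522.measurable_tPK hΦ hε
    (w := fun q : (PhasePoint × Par P) × (Config m × (Lab × LSt)) => q.2.1)
    (θ := fun q : (PhasePoint × Par P) × (Config m × (Lab × LSt)) => outP Φ ε P q.1 q.2.2 k)
    (measurable_fst.comp measurable_snd) ((measurable_outP hΦ ε P k).comp
      (f := fun q : (PhasePoint × Par P) × (Config m × (Lab × LSt)) => (q.1, q.2.2))
      (measurable_fst.prodMk (measurable_snd.comp measurable_snd))) K Q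

theorem measSF2_MJ6 (hΦ : AdmissiblePotential Φ) (hε : 0 < ε) {tO tY bd : SF2}
    (hO : MeasSF2 tO) (hY : MeasSF2 tY) (hb : MeasSF2 bd) :
    MeasSF2 (MJ6 Φ ε K Q r tO tY bd) := by
  intro P m
  unfold MJ6
  exact ((measSF2_gI hΦ hε Q.tw) P m).mul ((measSF2_xcI P m).add
    (((measSF2_spI hO hY) P m).add ((Finset.measurable_sum _ fun k _ =>
      (measSF2_tPKo hΦ hε k) P m).add (hb P m))))

/-- **The majorant property.** -/
theorem majAt6_MJ6 (hε : 0 < ε) (hQL : 0 ≤ Q.L) {tO tY bd : ℕ → ℝ → SF2}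
    (hpt : StmtPt6 Φ Q T' r tO tY bd) :
    MajAt6 Φ ε K Q T' (MJ6 Φ ε K Q r (tO K ε) (tY K ε) (bd K ε)) := by
  intro P z m w θ hPK hR hu
  have h1 : gI Φ ε Q.tw K P z m w θ = 1 := by
    rw [gI_eq_uG hR.valid.1]
    unfold uG
    rw [if_pos (show OkL K θ ∧ P.leaves ≤ K from ⟨hR.okL, hPK⟩)]
    exact if_pos hu
  unfold MJ6
  rw [h1, one_mul]
  by_cases hx : K < (eL θ).2 + P.leaves
  · refine le_trans ?_ le_self_add
    unfold xcI
    rw [if_pos hx]
    exact tPK_le_one hQL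
  refine le_trans ?_ le_add_self
  obtain ⟨hA, hB⟩ := hpt K ε hε P z m w θ (not_lt.1 hx) hR hu
  unfold spI
  by_cases ha : r ≤ age ε z θ
  · rw [if_pos ha, ← add_assoc]
    exact hA ha
  · rw [if_neg ha]
    refine (hB (not_le.1 ha)).trans (add_le_add le_rfl le_add_self)

/-! ## Calculus of `OS2` -/

theorem measV_ctH_uG (hΦ : AdmissiblePotential Φ) (hε : 0 < ε) {tw : ℝ} {X : SF2}
    (hX : MeasSF2 X) : MeasV Φ ε T' (ctH Φ ε te fun P z m w θ => uG Φ ε tw K P z w θ *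
      X P z m w θ) := by
  intro P
  refine MeasVP.of_adm hΦ (F' := ctH Φ ε te (fun P z m w θ => gI Φ ε tw K P z m w θ *
    X P z m w θ) P) (fun m => ?_) fun z m w θ h => ?_
  · exact measurable_ctH hΦ (fun P m => (measSF2_gI hΦ hε tw P m).mul (hX P m)) P m
  · unfold ctH
    simp only [gI_eq_uG h]

theorem os2_add (hΦ : AdmissiblePotential Φ) (hf : Measurable f₀) (hε : 0 < ε) {tw : ℝ}
    {ν : Measure (Lab × LSt)} [SFinite ν] {X : SF2} (hX : MeasSF2 X) (Y : SF2) :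
    OS2 Φ f₀ ε te T' ν (fun P z m w θ => uG Φ ε tw K P z w θ * (X P z m w θ + Y P z m w θ)) =
      OS2 Φ f₀ ε te T' ν (fun P z m w θ => uG Φ ε tw K P z w θ * X P z m w θ) +
      OS2 Φ f₀ ε te T' ν (fun P z m w θ => uG Φ ε tw K P z w θ * Y P z m w θ) := by
  rw [OS2_eq_GS, OS2_eq_GS, OS2_eq_GS, ← GS_add hΦ hf (measV_ctH_uG hΦ hε hX)]
  refine GS_congr_on fun P z m w θ _ _ => ?_
  unfold ctH
  by_cases h : (z, θ.2) ∈ OneC423.ctSet Φ ε te P
  · rw [indicator_of_mem (show θ ∈ {θ : Lab × LSt | (z, θ.2) ∈ OneC423.ctSet Φ ε te P} from h),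
      indicator_of_mem (show θ ∈ {θ : Lab × LSt | (z, θ.2) ∈ OneC423.ctSet Φ ε te P} from h),
      indicator_of_mem (show θ ∈ {θ : Lab × LSt | (z, θ.2) ∈ OneC423.ctSet Φ ε te P} from h)]
    exact mul_add _ _ _
  · rw [indicator_of_notMem (show θ ∉ {θ : Lab × LSt | (z, θ.2) ∈ OneC423.ctSet Φ ε te P} from h),
      indicator_of_notMem (show θ ∉ {θ : Lab × LSt | (z, θ.2) ∈ OneC423.ctSet Φ ε te P} from h),
      indicator_of_notMem (show θ ∉ {θ : Lab × LSt | (z, θ.2) ∈ OneC423.ctSet Φ ε te P} from h),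
      add_zero]

theorem os2_sum (hΦ : AdmissiblePotential Φ) (hf : Measurable f₀) (hε : 0 < ε) {tw : ℝ}
    {ν : Measure (Lab × LSt)} [SFinite ν] {X : Option Bool → SF2} (hX : ∀ k, MeasSF2 (X k)) :
    OS2 Φ f₀ ε te T' ν (fun P z m w θ => uG Φ ε tw K P z w θ * ∑ k, X k P z m w θ) =
      ∑ k, OS2 Φ f₀ ε te T' ν (fun P z m w θ => uG Φ ε tw K P z w θ * X k P z m w θ) := by
  have h := GS_finset_sum (T' := T') (ν := ν) hΦ hf (Finset.univ : Finset (Option Bool))
    (F := fun k => ctH Φ ε te fun P z m w θ => uG Φ ε tw K P z w θ * X k P z m w θ)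
    fun k _ => measV_ctH_uG hΦ hε (hX k)
  simp only [OS2_eq_GS]
  rw [← h]
  refine GS_congr_on fun P z m w θ _ _ => ?_
  unfold ctH
  by_cases h : (z, θ.2) ∈ OneC423.ctSet Φ ε te P
  · simp only [indicator_of_mem
      (show θ ∈ {θ : Lab × LSt | (z, θ.2) ∈ OneC423.ctSet Φ ε te P} from h), Finset.mul_sum]
  · simp only [indicator_of_notMem
      (show θ ∉ {θ : Lab × LSt | (z, θ.2) ∈ OneC423.ctSet Φ ε te P} from h),
      Finset.sum_const_zero]

theorem os2_MJ6 (hΦ : AdmissiblePotential Φ) (hf : Measurable f₀) (hε : 0 < ε)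
    {ν : Measure (Lab × LSt)} [SFinite ν] {tO tY bd : SF2} (hO : MeasSF2 tO) (hY : MeasSF2 tY) :
    OS2 Φ f₀ ε Q.te T' ν (MJ6 Φ ε K Q r tO tY bd) =
      OS2 Φ f₀ ε Q.te T' ν (fun P z m w θ => uG Φ ε Q.tw K P z w θ * xcI K P θ) +
      (OS2 Φ f₀ ε Q.te T' ν (fun P z m w θ => uG Φ ε Q.tw K P z w θ *
        spI ε r tO tY P z m w θ) +
      (∑ k, OS2 Φ f₀ ε Q.te T' ν (fun P z m w θ => uG Φ ε Q.tw K P z w θ *
        tPK Φ ε K Q w (outP Φ ε P z θ k)) +
      OS2 Φ f₀ ε Q.te T' ν (fun P z m w θ => uG Φ ε Q.tw K P z w θ * bd P z m w θ))) := by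
  have h0 : OS2 Φ f₀ ε Q.te T' ν (MJ6 Φ ε K Q r tO tY bd) =
      OS2 Φ f₀ ε Q.te T' ν (fun P z m w θ => uG Φ ε Q.tw K P z w θ *
        (xcI K P θ + (spI ε r tO tY P z m w θ +
          (∑ k : Option Bool, tPK Φ ε K Q w (outP Φ ε P z θ k) + bd P z m w θ)))) := by
    rw [OS2_eq_GS, OS2_eq_GS]
    refine GS_congr_on fun P z m w θ hz _ => ?_
    unfold ctH MJ6
    simp only [gI_eq_uG hz.1]
  rw [h0, os2_add hΦ hf hε (X := fun P _ _ _ θ => xcI K P θ) measSF2_xcI,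
    os2_add hΦ hf hε (measSF2_spI hO hY),
    os2_add hΦ hf hε (X := fun P z m w θ => ∑ k : Option Bool,
      tPK Φ ε K Q w (outP Φ ε P z θ k)) (fun P m => Finset.measurable_sum _ fun k _ =>
        (measSF2_tPKo hΦ hε k) P m), os2_sum hΦ hf hε (fun k => measSF2_tPKo hΦ hε k)]

/-! ## The one-step inequality -/

theorem lintegral_bind_add {ν : Measure (Lab × LSt)} {K₁ K₂ : Kernel (Lab × LSt) (Lab × LSt)}
    {F : Lab × LSt → ℝ≥0∞} (hF : Measurable F) :
    ∫⁻ p, F p ∂ν.bind (K₁ + K₂ : Kernel (Lab × LSt) (Lab × LSt)) = ∫⁻ p, F p ∂ν.bind K₁ + ∫⁻ p, F p ∂ν.bind K₂ := by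
  rw [Measure.lintegral_bind (Kernel.aemeasurable _) hF.aemeasurable,
    Measure.lintegral_bind (Kernel.aemeasurable _) hF.aemeasurable,
    Measure.lintegral_bind (Kernel.aemeasurable _) hF.aemeasurable,
    ← lintegral_add_left (hF.lintegral_kernel)]
  refine lintegral_congr fun p => ?_
  rw [Kernel.add_apply, lintegral_add_measure]

theorem isSFiniteKernel_KO (ε b₀ te : ℝ) {q : ℕ → ℝ≥0∞} (hq : ∀ m, q m ≠ ∞) (k : Option Bool) :
    IsSFiniteKernel (KO Φ ε b₀ te q k) := by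
  have := Pair292.isSFiniteKernel_incK (outF k) hq
  unfold KO stO Pair292.mkK Boost969.liftK
  infer_instance

theorem measurable_tPKw (hΦ : AdmissiblePotential Φ) (hε : 0 < ε) {n : ℕ} (w : Config n) :
    Measurable fun θ => tPK Φ ε K Q w θ :=
  (MeasPair522.measurable_tPK_joint hΦ hε K Q n).comp
    (f := fun θ : Lab × LSt => ((w, θ) : Config n × (Lab × LSt)))
    (measurable_const.prodMk measurable_id)

theorem pelk_bind_add (hΦ : AdmissiblePotential Φ) (hf : Measurable f₀) (hε : 0 < ε)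
    {ν : Measure (Lab × LSt)} [SFinite ν] {K₁ K₂ : Kernel (Lab × LSt) (Lab × LSt)}
    [IsSFiniteKernel K₁] : PELK Φ f₀ ε K Q (ν.bind (K₁ + K₂ : Kernel (Lab × LSt) (Lab × LSt))) =
      PELK Φ f₀ ε K Q (ν.bind K₁) + PELK Φ f₀ ε K Q (ν.bind K₂) := by
  unfold PELK
  have h1 : ∀ (n : ℕ) (w : Config n), ∫⁻ θ, tPK Φ ε K Q w θ ∂ν.bind (K₁ + K₂ : Kernel (Lab × LSt) (Lab × LSt)) =
      ∫⁻ θ, tPK Φ ε K Q w θ ∂ν.bind K₁ + ∫⁻ θ, tPK Φ ε K Q w θ ∂ν.bind K₂ := fun n w =>
    lintegral_bind_add (measurable_tPKw hΦ hε w)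
  simp only [h1]
  exact gcE_add hf ε fun n => (MeasPair522.measurable_tPK_joint hΦ hε K Q n).lintegral_prod_right'

theorem pelk_K3 (hΦ : AdmissiblePotential Φ) (hf : Measurable f₀) (hε : 0 < ε)
    {ν : Measure (Lab × LSt)} [SFinite ν] {b₀ : ℝ} {q : ℕ → ℝ≥0∞} (hq : ∀ m, q m ≠ ∞) :
    PELK Φ f₀ ε K Q (ν.bind (K3 Φ ε b₀ te q)) =
      ∑ k, PELK Φ f₀ ε K Q (ν.bind (KO Φ ε b₀ te q k)) := by
  have h1 := isSFiniteKernel_KO (Φ := Φ) ε b₀ te hq none
  have h2 := isSFiniteKernel_KO (Φ := Φ) ε b₀ te hq (some false)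
  unfold K3
  rw [pelk_bind_add hΦ hf hε, pelk_bind_add hΦ hf hε, Fintype.sum_option, Fintype.sum_bool]
  rw [add_comm (PELK Φ f₀ ε K Q (ν.bind (KO Φ ε b₀ te q (some false))))]

/-- **The one-step inequality**, uniform over the class of pair laws. -/
def Step6 (Φ : Space3 → ℝ) (f₀ : PhasePoint → ℝ) (Q : EPar) (T' r b₀ : ℝ) (q : ℕ → ℕ → ℝ≥0∞)
    (PP : ℕ → PPar) (bd : ℕ → ℝ → SF2) (C₁ C₂ : ℝ≥0∞) : Prop :=
  ∃ S : ℕ → ℝ → ℝ≥0∞, Small S ∧ ∀ (K : ℕ) (ε : ℝ), 0 < ε → ε ≤ 1 → slk ε ≤ Q.te - Q.tw →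
    ∀ (Ξ ν : Measure (Lab × LSt)) (c : ℝ≥0∞), PX (PP K) Ξ ν c →
    (∀ᵐ θ : Lab × LSt ∂ν, 0 ≤ Pair292.sig θ.1 ∧ Pair292.sig θ.1 ≤ θ.2.1) → OkAE Φ ε K ν →
    PELK Φ f₀ ε K Q ν ≤ c * (C₁ * XI Φ f₀ ε K Q +
      C₂ * XJ Φ f₀ ε K Q (Ioc (max 0 (Q.tw - r)) Q.te) + S K ε) +
      PELK Φ f₀ ε K Q (ν.bind (K3 Φ ε b₀ Q.te (q K))) +
      (BAD Φ f₀ ε K Q ν + OS2 Φ f₀ ε Q.te T' ν (fun P z m w θ => uG Φ ε Q.tw K P z w θ *
        bd K ε P z m w θ))

/-- **The one-step inequality from the slots.** -/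
theorem step6_of (hΦ : AdmissiblePotential Φ) (hf : Measurable f₀) (hte : 0 ≤ Q.te)
    (hQL : 0 ≤ Q.L) {b₀ : ℝ} {q : ℕ → ℕ → ℝ≥0∞} (hq : ∀ K m, q K m ≠ ∞) {PP : ℕ → PPar}
    (hPP : PPOk Q PP) {tO tY bd : ℕ → ℝ → SF2} {Csp Cd C₂ Cf : ℝ≥0∞} (hCsp : Csp ≠ ∞)
    (hCf : Cf ≠ ∞) (hTN : Small fun K ε => tnMass Φ f₀ Q.γ Q.ρ ε K Q.tw)
    (hred : StmtRed Φ f₀ Q.tw Q.te T') (hpt : StmtPt6 Φ Q T' r tO tY bd)
    (hbd : ∀ K ε, 0 < ε → MeasSF2 (bd K ε)) (hsp : StmtSP6 Φ f₀ Q T' r PP tO tY Csp)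
    (hdir : StmtDIR Φ f₀ Q r PP Cd C₂) (hxc : StmtXC6 Φ f₀ Q T' PP)
    (hrf : StmtRF6 Φ f₀ Q PP Cf) (hcc : StmtCC6 Φ f₀ Q T' b₀ q PP) :
    Step6 Φ f₀ Q T' r b₀ q PP bd (Csp + Cd) C₂ := by
  obtain ⟨B, hBm, hB, hBn⟩ := hred
  obtain ⟨hOY, δs, hδs, hsp⟩ := hsp hPP
  obtain ⟨δd, hδd, hdir⟩ := hdir hPP
  obtain ⟨Sx, hSx, hxc⟩ := hxc hPP
  obtain ⟨δc, hδc, hcc⟩ := hcc hPP
  refine ⟨fun K ε => Csp * tnMass Φ f₀ Q.γ Q.ρ ε K Q.tw + (Sx K ε + (δs K ε + (δd K ε +
    (Cf * rfl4 Φ f₀ ε K Q.te (B K ε) + 3 * δc K ε)))), (hTN.const_mul hCsp).add (hSx.add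
      (hδs.add (hδd.add ((hBn.const_mul hCf).add (hδc.const_mul (by simp))))).small), ?_⟩
  intro K ε hε hε1 hεw Ξ ν c hν hsig hok
  have := hν.sfν
  have h1 := pelk_le_os2 (K := K) (Q := Q) (T' := T') (ν := ν)
    (M := MJ6 Φ ε K Q r (tO K ε) (tY K ε) (bd K ε)) hΦ hf hε hte hQL hok (hBm K ε)
    (fun k m V w j s h1 h2 h3 h4 h5 h6 h7 => hB K ε hε k m V w j s h1 h2 h3 h4 h5 h6 h7)
    (measSF2_MJ6 hΦ hε (hOY K ε hε).1 (hOY K ε hε).2 (hbd K ε hε)) (majAt6_MJ6 hε hQL hpt)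
  rw [os2_MJ6 hΦ hf hε (hOY K ε hε).1 (hOY K ε hε).2] at h1
  have h2 : errB6 Φ f₀ ε K Q ν (B K ε) ≤ Cf * (c * rfl4 Φ f₀ ε K Q.te (B K ε)) :=
    hrf hPP K ε hε Ξ ν c hν hok (B K ε) (hBm K ε)
  have h3 := hxc K ε hε Ξ ν c hν
  have h4 := hsp K ε hε hε1 Ξ ν c hν hsig
  have h5 := hdir K ε hε hε1 hεw Ξ ν c hν
  have h6 : ∑ k, OS2 Φ f₀ ε Q.te T' ν (fun P z m w θ => uG Φ ε Q.tw K P z w θ *
      tPK Φ ε K Q w (outP Φ ε P z θ k)) ≤
      PELK Φ f₀ ε K Q (ν.bind (K3 Φ ε b₀ Q.te (q K))) + 3 * (c * δc K ε) := by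
    rw [pelk_K3 hΦ hf hε (hq K)]
    refine (Finset.sum_le_sum fun k _ => hcc K ε hε k Ξ ν c hν).trans (le_of_eq ?_)
    rw [Finset.sum_add_distrib, Finset.sum_const, Finset.card_univ]
    simp
  refine h1.trans ?_
  calc _ ≤ c * Sx K ε + (c * (Csp * (XI Φ f₀ ε K Q + tnMass Φ f₀ Q.γ Q.ρ ε K Q.tw) +
          δs K ε) +
        ((PELK Φ f₀ ε K Q (ν.bind (K3 Φ ε b₀ Q.te (q K))) + 3 * (c * δc K ε)) +
        OS2 Φ f₀ ε Q.te T' ν (fun P z m w θ => uG Φ ε Q.tw K P z w θ *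
          bd K ε P z m w θ))) + Cf * (c * rfl4 Φ f₀ ε K Q.te (B K ε)) +
        (c * (Cd * XI Φ f₀ ε K Q + C₂ * XJ Φ f₀ ε K Q (Ioc (max 0 (Q.tw - r)) Q.te) +
          δd K ε) + BAD Φ f₀ ε K Q ν) :=
        add_le_add (add_le_add (add_le_add h3 (add_le_add h4 (add_le_add h6 le_rfl))) h2)
          (add_le_add h5 le_rfl)
    _ = _ := by ring

end Crest.Agent.R122.PairD292

end
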