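import Crest.Agent.R122.RealSix_796_Mg
import Crest.Agent.R122.EncFar6_45
import Crest.Agent.R122.BadX_974
import Crest.Agent.R122.H5St_994
import Crest.Agent.R122.PairSplit_292

-- ▼ part R122/Six_45
section

/-!
# The encounter data of inequality 3 (row 122, E6, helper45)

* `RealIn.noCt`, `RealIn.reb_root` (generic real tree) : the root line has no contact with the world
  with the exits up to the end of the encounter; reborn there it is `lineC`.
* `nc6`, `reb6` : the same for `Real6`.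
* `enc6_all` : all encounter data of helper811's `Enc6` at the exit time `cT + outT`.
* `EncEv6` : the encounter event of inequality 3 (parts of `EncParts6` which are not about touch
  times); `enc6_of` : helper811's `Enc6` from `Real6`, `Base6`, `Early6`, the slack and `EncEv6`.
-/

set_option autoImplicit false
set_option linter.unusedSectionVars false

open MeasureTheory Set Filter Topology
open scoped ENNReal
open Crest.AnalysisR.Kinetic
open Crest.Agent.R122.Flow671 hiding rel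
open Crest.Agent.R122.Loc45 Crest.Agent.R122.Causal291 Crest.Agent.R122.MWAlg255
open Crest.Agent.R122.Inf879 Crest.Agent.R122.EDefs602 Crest.Agent.R122.Lines255
open Crest.Agent.R122.Kin796 Crest.Agent.R122.Kin796.CTree Crest.Agent.R122.Tree674
open Crest.Agent.R122.PathFlow968 Crest.Agent.R122.TreeLines335 Crest.Agent.R122.Relabel674
open Crest.Agent.R122.GC311 Crest.Agent.R122.Line285
open Crest.Agent.R122.Scat818 Crest.Agent.R122.OCout796 Crest.Agent.R122.Ins45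
open Crest.Agent.R122.Boost969 (LSt)
open Crest.Agent.R122.Pair292 (Lab)
open Crest.Agent.R122.OneC285 (cT cB cD cX cfT rt)
open Crest.Agent.R122.PairD292 Crest.Agent.R122.R6Tree974

namespace Crest.Agent.R122.One796

noncomputable section

open scoped Classical

/-- The instance used by the general theorems. -/
local instance (priority := 2000) othFintype45 {α : Type} [Fintype α] (c : α) : Fintype (Oth c) :=
  Subtype.fintype fun k => k ≠ c

section gen

variable {α γ : Type} [Fintype α] [Fintype γ] {Φ : Space3 → ℝ} {ε R : ℝ}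
  {P : CTree} {z : PhasePoint × Par P} {X W : MW α} {f : Idx P → α} {l : ML} {Z₀ : MW γ}
  {G : γ ≃ Oth (f (root P))} (h : RealIn Φ ε (cT ε z l) X W P z f)
  (hΦ : AdmissiblePotential Φ) (hε : 0 < ε) (hG : (rest W (f (root P))).comap G = Z₀)

include h hΦ hε hG in
/-- **The root line has no contact in the world with the exits** up to the end of the encounter. -/
theorem RealIn.noCt (hOk : Z₀.Ok Φ ε) (hl : 0 ≤ l.1.1) (hls : l.1.1 < cT ε z l)
    (hF : FreeFarW Φ ε X l (cT ε z l)) (hE : EncE Φ ε R Z₀ z.1 (cT ε z l) (cD ε z l)) :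
    NoCt Φ ε Z₀ (lineML Φ ε P z (root P)) (cT ε z l + outT Φ ε (cD ε z l)) := by
  obtain ⟨hGd, hU⟩ := h.goodEnc hΦ hε hG hOk hl hls hF hE
  have hZ := h.okLn hΦ hε hG hOk
  have hR : (rest W (f (root P))).Ok Φ ε := ok_of_comap hΦ hε _ hG hOk
  have h1 : NoCt Φ ε (rest W (f (root P))) (lineML Φ ε P z (root P))
      (cT ε z l + outT Φ ε (cD ε z l)) := by
    refine noCt_rest (Z := W) (c := f (root P)) hΦ hε (cl := lineML Φ ε P z (root P))
      ⟨h.W_b _, h.W_z _, h.W_m _⟩ hGd.born ?_ ?_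
    · have := hGd.pass.outT_pos hε
      linarith [hGd.bc]
    · exact hU.free hΦ hε hZ hR hGd.nonneg_s hGd.bc (fun t k ht => hGd.free t k ht.le) hGd.state_c
  have h2 := h1.comap hΦ hε G
  rw [hG] at h2
  exact h2

include h hΦ hε hG in
/-- The root line reborn at the end of the encounter. -/
theorem RealIn.reb_root (hOk : Z₀.Ok Φ ε) (hl : 0 ≤ l.1.1) (hls : l.1.1 < cT ε z l)
    (hF : FreeFarW Φ ε X l (cT ε z l)) (hE : EncE Φ ε R Z₀ z.1 (cT ε z l) (cD ε z l)) :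
    reb (lineML Φ ε P z (root P)) (cT ε z l + outT Φ ε (cD ε z l)) =
      (lineC Φ ε (cT ε z l) (cX ε z l) (cD ε z l), P.leaves) := by
  obtain ⟨hGd, -⟩ := h.goodEnc hΦ hε hG hOk hl hls hF hE
  have h1 := hGd.reb_eq hΦ hε (h.okLn hΦ hε hG hOk) (cl := lineML Φ ε P z (root P))
    ⟨h.W_b _, h.W_z _, h.W_m _⟩
  rw [h.m_root] at h1
  exact h1

end gen

/-! ### `Real6` -/

section six

variable {Φ : Space3 → ℝ} {ε te T' R : ℝ} {K : ℕ} {P : CTree} {z : PhasePoint × Par P} {m : ℕ}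
  {w : Config m} {θ : Lab × LSt}

/-- **The root line has no contact in `w + d + exits`** up to the end of the encounter. -/
theorem nc6 (hΦ : AdmissiblePotential Φ) (hε : 0 < ε) (h : Real6 Φ ε K te T' P z w θ)
    (hOk : (Z6 Φ ε P z w (dL θ)).Ok Φ ε) (hE : Enc6 Φ ε R P z w θ) :
    NoCt Φ ε (Z6 Φ ε P z w (dL θ)) (lineML Φ ε P z (root P))
      (cT ε z (eL θ) + outT Φ ε (cD ε z (eL θ))) :=
  (realIn6 hΦ hε h).noCt hΦ hε (rest6 _) hOk h.okL.e0.le (lt6 h) (freeFar6 hΦ hε h) hE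

/-- The root line reborn at the end of the encounter. -/
theorem reb6 (hΦ : AdmissiblePotential Φ) (hε : 0 < ε) (h : Real6 Φ ε K te T' P z w θ)
    (hOk : (Z6 Φ ε P z w (dL θ)).Ok Φ ε) (hE : Enc6 Φ ε R P z w θ) :
    outL6 Φ ε P z (eL θ) none = reb (lineML Φ ε P z (root P))
      (cT ε z (eL θ) + outT Φ ε (cD ε z (eL θ))) :=
  ((realIn6 hΦ hε h).reb_root hΦ hε (rest6 _) hOk h.okL.e0.le (lt6 h) (freeFar6 hΦ hε h) hE).symm

/-- **All encounter data** of helper811's `Core6`. -/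
theorem enc6_all (hΦ : AdmissiblePotential Φ) (hε : 0 < ε) (h : Real6 Φ ε K te T' P z w θ)
    (hE6 : E6Hyp879.E6Hyp Φ ε K te (MW.cfg w) (lineML Φ ε P z) (root P) (dL θ)
      (outL6 Φ ε P z (eL θ) (some false)) (outL6 Φ ε P z (eL θ) (some true)))
    (hE : Enc6 Φ ε R P z w θ) :
    Hit Φ ε (((MW.cfg w).add (MW.lines (lineML Φ ε P z))).ins (dL θ)) (eL θ)
      (Sum.inl (Sum.inr (root P))) (cT ε z (eL θ))
      (cT ε z (eL θ) + outT Φ ε (cD ε z (eL θ))) ∧
    outL6 Φ ε P z (eL θ) (some false) =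
      outL Φ ε (((MW.cfg w).add (MW.lines (lineML Φ ε P z))).ins (dL θ)) (eL θ)
        (Sum.inl (Sum.inr (root P))) (cT ε z (eL θ) + outT Φ ε (cD ε z (eL θ))) ∧
    outL6 Φ ε P z (eL θ) (some true) =
      outC Φ ε (((MW.cfg w).add (MW.lines (lineML Φ ε P z))).ins (dL θ)) (eL θ)
        (Sum.inl (Sum.inr (root P))) (cT ε z (eL θ) + outT Φ ε (cD ε z (eL θ))) ∧
    ((((MW.cfg w).add (MW.lines (lineML Φ ε P z))).ins (dL θ)).ins (eL θ)).Ok Φ ε ∧
    NoCt Φ ε (Decomp811.Z0 (MW.cfg w) (lineML Φ ε P z) (root P) (dL θ))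
      (lineML Φ ε P z (root P)) (cT ε z (eL θ) + outT Φ ε (cD ε z (eL θ))) ∧
    outL6 Φ ε P z (eL θ) none = reb (lineML Φ ε P z (root P))
      (cT ε z (eL θ) + outT Φ ε (cD ε z (eL θ))) := by
  have hOk : (Z6 Φ ε P z w (dL θ)).Ok Φ ε := hE6.okZ0 hΦ hε
  exact ⟨hit6 hΦ hε h hOk hE, outL6_eq hΦ hε h hOk hE, outC6_eq hΦ hε h hOk hE,
    okLde6 hΦ hε h hOk, nc6 hΦ hε h hOk hE, reb6 hΦ hε h hOk hE⟩

/-- helper811's `Enc6` from the encounter event in `Z0`. -/
theorem enc6_811 {Q : EPar} (hΦ : AdmissiblePotential Φ) (hε : 0 < ε)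
    (h : Real6 Φ ε K Q.te T' P z w θ) (hB : Pt6811.Base6 Φ ε K Q P z w θ)
    (hE : Enc6 Φ ε R P z w θ) :
    Pt6811.Enc6 Φ ε P z w θ (cT ε z (eL θ) + outT Φ ε (cD ε z (eL θ))) := by
  obtain ⟨h1, h2, h3, h4, h5, h6⟩ := enc6_all hΦ hε h hB.hyp hE
  exact ⟨h1, h2, h3, h4, h5, h6⟩

/-- **The encounter event of inequality 3.** `e` = second line, `d` = first line; the encounter of
`e` with the root `c`, on `[cT, cT + ε R]`. -/
structure EncEv6 (Φ : Space3 → ℝ) (ε R : ℝ) (K : ℕ) (te : ℝ) (P : CTree)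
    (z : PhasePoint × Par P) {m : ℕ} (w : Config m) (d e : ML) : Prop where
  /-- the encounter is a passage, short -/
  pass : CDpass Φ (cD ε z e)
  tau : tauM Φ (relB (cD ε z e)) ≤ R
  disp : tauM Φ (relB (cD ε z e)) * ‖(relB (cD ε z e)).2‖ ≤ R
  /-- it ends before the horizon -/
  hor : cT ε z e + ε * R ≤ te
  /-- no gas particle near the root line -/
  gas : ∀ t, cT ε z e ≤ t → t ≤ cT ε z e + ε * R → ∀ i : Fin m,
    (R + 2) * ε < dist ((MW.cfg w).path Φ ε t i).1 (z.1.1 + t • z.1.2)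
  /-- no free exit near the root line -/
  mem : ∀ t, cT ε z e ≤ t → t ≤ cT ε z e + ε * R → ∀ j, j ≠ root P →
    (R + 2) * ε < dist (OneC285.lpos (lineML Φ ε P z j) t) (z.1.1 + t • z.1.2)
  /-- the free line `d` is not near the root line -/
  memd : ∀ t, cT ε z e ≤ t → t ≤ cT ε z e + ε * R → d.1.1 ≤ t →
    (R + 2) * ε < dist (OneC285.lpos d t) (z.1.1 + t • z.1.2)
  /-- no particle of the clean closure of an exit near the root line (LINK class) -/
  cf : ∀ t, cT ε z e ≤ t → t ≤ cT ε z e + ε * R → ∀ j, j ≠ root P → ∀ k,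
    MWFam255.CF Φ ε K (MW.cfg w) (MW.line (lineML Φ ε P z j)) t k →
    (R + 2) * ε < dist (((MW.cfg w).ins (lineML Φ ε P z j)).path Φ ε t (Sum.inl k)).1
      (z.1.1 + t • z.1.2)
  /-- no particle of the clean closure of `d` near the root line (LINK class) -/
  cfd : ∀ t, cT ε z e ≤ t → t ≤ cT ε z e + ε * R → ∀ k,
    MWFam255.CF Φ ε K (MW.cfg w) (MW.line d) t k →
    (R + 2) * ε < dist (((MW.cfg w).ins d).path Φ ε t (Sum.inl k)).1 (z.1.1 + t • z.1.2)
  /-- no deflected exit near the root line (LINK class) -/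
  line : ∀ t, cT ε z e ≤ t → t ≤ cT ε z e + ε * R → ∀ j, j ≠ root P →
    (∃ s k, s < t ∧ ((MW.cfg w).ins (lineML Φ ε P z j)).C Φ ε s (Sum.inr ()) (Sum.inl k)) →
    (R + 2) * ε < dist (((MW.cfg w).ins (lineML Φ ε P z j)).path Φ ε t (Sum.inr ())).1
      (z.1.1 + t • z.1.2)
  /-- the deflected `d` is not near the root line (LINK class) -/
  lined : ∀ t, cT ε z e ≤ t → t ≤ cT ε z e + ε * R → d.1.1 ≤ t →
    (∃ s k, s < t ∧ ((MW.cfg w).ins d).C Φ ε s (Sum.inr ()) (Sum.inl k)) →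
    (R + 2) * ε < dist (((MW.cfg w).ins d).path Φ ε t (Sum.inr ())).1 (z.1.1 + t • z.1.2)
  /-- `d` is not born at the exit time of the encounter (null event) -/
  nobd : d.1.1 ≠ cT ε z e + outT Φ ε (cD ε z e)

/-- The touch times after the slack: all exits and `d` in the gas `w`. -/
theorem late6 {Q : EPar} (hB : Pt6811.Base6 Φ ε K Q P z w θ)
    (hEa : Pt6811.Early6 Φ ε K Q P z w θ) {u : ℝ}
    (hu : u < ((MW.cfg w).add (RealL811.treeW Φ ε P z)).thetaL Φ ε K Q.te (dL θ)) :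
    (∀ j, u < (MW.cfg w).thetaL Φ ε K Q.te (lineML Φ ε P z j)) ∧
      u < (MW.cfg w).thetaL Φ ε K Q.te (dL θ) := by
  refine ⟨fun j => hu.trans_le (hEa.first.trans (Decomp811.firstT_le _ _ _ _ _ _ j)), ?_⟩
  rcases le_or_gt ((MW.cfg w).thetaL Φ ε K Q.te (dL θ))
    (Decomp811.firstT Φ ε K Q.te (MW.cfg w) (lineML Φ ε P z)) with h1 | h1
  · rw [← hB.w_Ld.eq h1]
    exact hu
  · exact hu.trans (hEa.first.trans_lt h1)

/-- The bad set of `EncEv6`: **the structures with the encounter event violated**, in the form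
consumed by the estimates (all touch times are after the slack `u = cT + ε R`). -/
def EncBad6 (Φ : Space3 → ℝ) (ε R : ℝ) (K : ℕ) (te : ℝ) (P : CTree)
    (z : PhasePoint × Par P) {m : ℕ} (w : Config m) (d e : ML) : Prop :=
  (∀ j, cT ε z e + ε * R < (MW.cfg w).thetaL Φ ε K te (lineML Φ ε P z j)) ∧
  cT ε z e + ε * R < (MW.cfg w).thetaL Φ ε K te d ∧ ¬ EncEv6 Φ ε R K te P z w d e

/-- **helper811's `Enc6`** from `Real6`, `Base6`, `Early6` off the bad set `EncBad6`. -/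
theorem enc6_of {Q : EPar} (hΦ : AdmissiblePotential Φ) (hε : 0 < ε)
    (h : Real6 Φ ε K Q.te T' P z w θ) (hB : Pt6811.Base6 Φ ε K Q P z w θ)
    (hEa : Pt6811.Early6 Φ ε K Q P z w θ)
    (hu : cT ε z (eL θ) + ε * R <
      ((MW.cfg w).add (RealL811.treeW Φ ε P z)).thetaL Φ ε K Q.te (dL θ))
    (hE : ¬ EncBad6 Φ ε R K Q.te P z w (dL θ) (eL θ)) :
    Pt6811.Enc6 Φ ε P z w θ (cT ε z (eL θ) + outT Φ ε (cD ε z (eL θ))) := by
  obtain ⟨h1, h2⟩ := late6 hB hEa hu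
  have h3 : EncEv6 Φ ε R K Q.te P z w (dL θ) (eL θ) := by
    by_contra h4
    exact hE ⟨h1, h2, h4⟩
  exact enc6_811 hΦ hε h hB (EncE.of_real6 hΦ hε h hB.hyp
    ⟨h3.pass, h3.tau, h3.disp, h3.hor, fun j _ => h1 j, h2, h3.gas, h3.mem, h3.memd, h3.cf,
      h3.cfd, h3.line, h3.lined, h3.nobd⟩)

end six

end

end Crest.Agent.R122.One796
end

-- ▼ part R122/Pt6_811

/-!
# StmtPt6 (row 122, E6), helper811

* `Ev6` : the events of the pointwise inequality (`E6Hyp`, the encounter event `¬ EncBad6`);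
  `bd6` : the error term.
* `pt6_old`, `pt6_young` : the pointwise inequalities with helper994's literal terms.
-/

set_option autoImplicit false
set_option linter.unusedSectionVars false

open MeasureTheory Set Filter Topology
open scoped ENNReal
open Crest.AnalysisR.Kinetic
open Crest.Agent.R122.Inf879 Crest.Agent.R122.EDefs602
open Crest.Agent.R122.Kin796 Crest.Agent.R122.Kin796.CTree Crest.Agent.R122.Tree674
open Crest.Agent.R122.TreeLines335 Crest.Agent.R122.Decomp811 Crest.Agent.R122.MWAlg255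
open Crest.Agent.R122.MWFam255 Crest.Agent.R122.E6Hyp879 Crest.Agent.R122.Ins45
open Crest.Agent.R122.LineMeas994
open Crest.Agent.R122.Boost969 (LSt)
open Crest.Agent.R122.Pair292 (Lab)
open Crest.Agent.R122.OneC285 (cfT rt cT cB cD cX)
open Crest.Agent.R122.PairD292

namespace Crest.Agent.R122.Pt6811

noncomputable section

open scoped Classical

/-- **The events** of the pointwise inequality of E6, `σ` = slack. -/
structure Ev6 (Φ : Space3 → ℝ) (ε σ : ℝ) (K : ℕ) (te : ℝ) (P : CTree)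
    (z : PhasePoint × Par P) {m : ℕ} (w : Config m) (θ : Lab × LSt) : Prop where
  /-- absence of links and world consistency of the families of E6 -/
  hyp : E6Hyp Φ ε K te (MW.cfg w) (lineML Φ ε P z) (root P) (dL θ)
    (outL6 Φ ε P z (eL θ) (some false)) (outL6 Φ ε P z (eL θ) (some true))
  /-- the encounter of the second line and the root line -/
  enc : ∃ R : ℝ, 0 ≤ R ∧ ε * R ≤ σ ∧ (cT ε z (eL θ) + ε * R ≤ te →
    ¬ One796.EncBad6 Φ ε R K te P z w (dL θ) (eL θ))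

/-- The lines not good in the world `w + d`. -/
def lkXd (Φ : Space3 → ℝ) (ε : ℝ) (K : ℕ) (te : ℝ) (P : CTree) (z : PhasePoint × Par P)
    {m : ℕ} (w : Config m) (d : ML) : Set ML :=
  {l | ¬ BadX974.GoodXB Φ ε K te ((MW.cfg w).ins d) P z l}

/-- The measure of the test lines which are not good, in the worlds `w`, `w + d`. -/
def lkm (Φ : Space3 → ℝ) (Q : EPar) : ℕ → ℝ → SF2 := fun K ε P z _ w θ =>
  ENNReal.ofReal Q.L * (lineM Q.γ Q.ρ K Q.te (InEq2T.lkX Φ ε K Q.te P z w) +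
    lineM Q.γ Q.ρ K Q.te (lkXd Φ ε K Q.te P z w (dL θ)))

/-- **The error term**, `σ` = slack. -/
def bd6 (Φ : Space3 → ℝ) (Q : EPar) (σ : ℝ → ℝ) : ℕ → ℝ → SF2 := fun K ε P z m w θ =>
  if Ev6 Φ ε (σ ε) K Q.te P z w θ then min 1 (lkm Φ Q K ε P z m w θ) else 1

variable {Φ : Space3 → ℝ} {ε s T' : ℝ} {K : ℕ} {Q : EPar} {P : CTree}
  {z : PhasePoint × Par P} {m : ℕ} {w : Config m} {θ : Lab × LSt}

theorem touch1_le_one (d : ML) : touch1 Φ ε K Q (MW.cfg w) d ≤ 1 := by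
  unfold touch1
  split_ifs
  · exact le_rfl
  · exact bot_le

theorem Ev6.base6 (hΦ : AdmissiblePotential Φ) (hε : 0 < ε) (hte : 0 ≤ Q.te)
    (hR : Real6 Φ ε K Q.te T' P z w θ) (hK : P.leaves ≤ K)
    (h : Ev6 Φ ε s K Q.te P z w θ) : Base6 Φ ε K Q P z w θ :=
  ⟨h.hyp, RealX974.R6.w_Ld hΦ hε hte hK hR h.hyp⟩

/-- The comparison of the weights. -/
theorem lk6_le (hΦ : AdmissiblePotential Φ) (hε : 0 < ε) (hte : 0 ≤ Q.te)
    (hγ : Measurable Q.γ) (hR : Real6 Φ ε K Q.te T' P z w θ) (hK : P.leaves ≤ K)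
    (h : Ev6 Φ ε s K Q.te P z w θ) : lk6 Φ Q K ε P z m w θ ≤ lkm Φ Q K ε P z m w θ := by
  unfold lk6 lkm
  rw [mul_add]
  refine (mul_le_of_le_one_right bot_le (touch1_le_one _)).trans ?_
  exact add_le_add (BadX974.R6.lk₁ hΦ hε hte hγ hK hR h.hyp)
    (BadX974.R6.lk₂ hΦ hε hte hγ hK hR h.hyp)

theorem tA6_eq (hΦ : AdmissiblePotential Φ) (hε : 0 < ε) (hR : Real6 Φ ε K Q.te T' P z w θ) :
    tA6 Φ Q K ε P z m w θ = H5994.tA6 (fun P z => InEq2T.treeW Φ ε P z)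
      (H5994.Gt Φ ε Q.te T') Φ Q K ε P z ⟨m, w⟩ θ := by
  unfold tA6 H5994.tA6
  have hG := H5994.Gt.of_real6 hΦ hε hR
  by_cases h : H5994.rst Φ ε K Q.te P ⟨m, w⟩ z (H5994.hitT ε z.1 θ.2)
  · rw [if_pos h, if_pos ⟨h, hG⟩]
    rfl
  · rw [if_neg h, if_neg fun h' => h h'.1]

theorem tO6_eq (hΦ : AdmissiblePotential Φ) (hε : 0 < ε) (hR : Real6 Φ ε K Q.te T' P z w θ)
    (hK : P.leaves ≤ K) :
    tO6 Φ Q K ε P z m w θ = H5994.tO6 (fun P z => InEq2T.treeW Φ ε P z)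
      (H5994.Gt Φ ε Q.te T') Φ Q T' K ε P z m w θ := by
  unfold H5994.tO6
  rw [if_pos ⟨⟨hR.valid, hR.sep⟩, hK⟩, ← tA6_eq hΦ hε hR]
  rfl

theorem tY6_eq (hΦ : AdmissiblePotential Φ) (hε : 0 < ε) (hR : Real6 Φ ε K Q.te T' P z w θ)
    (hK : P.leaves ≤ K) :
    tY6 Φ Q K ε P z m w θ = H5994.tY6 (fun P z => InEq2T.treeW Φ ε P z)
      (H5994.Gt Φ ε Q.te T') Φ Q T' K ε P z m w θ := by
  unfold H5994.tY6
  rw [if_pos ⟨⟨hR.valid, hR.sep⟩, hK⟩, ← tA6_eq hΦ hε hR]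
  rfl

/-- The touch time of `d` in the world with the tree. -/
theorem thetaL_tree (hΦ : AdmissiblePotential Φ) (hε : 0 < ε) (T : ℝ) (d : ML) :
    (MW.cfg (Fin.append (cfT Φ ε P z) w)).thetaL Φ ε K T d =
      ((MW.cfg w).add (RealL811.treeW Φ ε P z)).thetaL Φ ε K T d := by
  rw [← R6Tree974.comap1, EquivE416.thetaL_comap hΦ hε]

/-- **Pointwise inequality, old contacts.** -/
theorem pt6_old {σ : ℝ → ℝ} (hΦ : AdmissiblePotential Φ) (hε : 0 < ε) (hL : 0 < Q.L)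
    (hte : 0 ≤ Q.te) (hT : Q.te ≤ T') (hγ : Measurable Q.γ)
    (hR : Real6 Φ ε K Q.te T' P z w θ) (hK : (eL θ).2 + P.leaves ≤ K)
    (hearly : tC Φ ε Q.te (Fin.append (cfT Φ ε P z) w) θ + σ ε <
      (MW.cfg (Fin.append (cfT Φ ε P z) w)).thetaL Φ ε K Q.te (dL θ)) :
    tPK Φ ε K Q (Fin.append (cfT Φ ε P z) w) θ ≤
      H5994.tO6 (fun P z => InEq2T.treeW Φ ε P z) (H5994.Gt Φ ε Q.te T') Φ Q T' K ε P z m w θ +
        ∑ k : Option Bool, tPK Φ ε K Q w (outP Φ ε P z θ k) + bd6 Φ Q σ K ε P z m w θ := by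
  have hKl : P.leaves ≤ K := (Nat.le_add_left _ _).trans hK
  unfold bd6
  by_cases hev : Ev6 Φ ε (σ ε) K Q.te P z w θ
  swap
  · rw [if_neg hev]
    exact (tPK_le_one hL.le).trans le_add_self
  rw [if_pos hev, min_def]
  split_ifs with h1
  · exact (tPK_le_one hL.le).trans le_add_self
  have hb := hev.base6 hΦ hε hte hR hKl
  rw [hR.time, thetaL_tree hΦ hε] at hearly
  obtain ⟨R, -, hRs, henc⟩ := hev.enc
  have hearly' := lt_of_le_of_lt (add_le_add_right hRs (cT ε z (eL θ))) hearly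
  have key := core_old hΦ hε hL hte hT hR hK hb fun hE =>
    ⟨_, One796.enc6_of hΦ hε hR hb hE hearly' (henc (hearly'.trans_le hE.le).le)⟩
  rw [← tO6_eq hΦ hε hR hKl]
  exact key.trans (add_le_add le_rfl (lk6_le hΦ hε hte hγ hR hKl hev))

/-- **Pointwise inequality, young contacts.** -/
theorem pt6_young {σ : ℝ → ℝ} (hΦ : AdmissiblePotential Φ) (hε : 0 < ε) (hL : 0 < Q.L)
    (hte : 0 ≤ Q.te) (hγ : Measurable Q.γ)
    (hR : Real6 Φ ε K Q.te T' P z w θ) (hK : (eL θ).2 + P.leaves ≤ K) :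
    tPK Φ ε K Q (Fin.append (cfT Φ ε P z) w) θ ≤
      H5994.tY6 (fun P z => InEq2T.treeW Φ ε P z) (H5994.Gt Φ ε Q.te T') Φ Q T' K ε P z m w θ +
        bd6 Φ Q σ K ε P z m w θ := by
  have hKl : P.leaves ≤ K := (Nat.le_add_left _ _).trans hK
  unfold bd6
  by_cases hev : Ev6 Φ ε (σ ε) K Q.te P z w θ
  swap
  · rw [if_neg hev]
    exact (tPK_le_one hL.le).trans le_add_self
  rw [if_pos hev, min_def]
  split_ifs with h1
  · exact (tPK_le_one hL.le).trans le_add_self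
  have hb := hev.base6 hΦ hε hte hR hKl
  have key := core_young hΦ hε hL hte hR hK hb
  rw [← tY6_eq hΦ hε hR hKl]
  exact key.trans (add_le_add le_rfl (lk6_le hΦ hε hte hγ hR hKl hev))

/-- `StmtPt6` from the slack: the contact is earlier than the touch time of `d` minus `σ ε`. -/
theorem stmtPt6_of {σ : ℝ → ℝ} {r : ℝ} {bd : ℕ → ℝ → SF2} (hΦ : AdmissiblePotential Φ)
    (hL : 0 < Q.L) (hte : 0 ≤ Q.te) (hT : Q.te ≤ T') (hγ : Measurable Q.γ)
    (hearly : ∀ (K : ℕ) (ε : ℝ), 0 < ε → ∀ (P : CTree) (z : PhasePoint × Par P) (m : ℕ)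
      (w : Config m) (θ : Lab × LSt), Real6 Φ ε K Q.te T' P z w θ →
      tC Φ ε Q.te (Fin.append (cfT Φ ε P z) w) θ + σ ε <
      (MW.cfg (Fin.append (cfT Φ ε P z) w)).thetaL Φ ε K Q.te (dL θ))
    (hbd : ∀ (K : ℕ) (ε : ℝ), 0 < ε → ∀ (P : CTree) (z : PhasePoint × Par P) (m : ℕ)
      (w : Config m) (θ : Lab × LSt), (eL θ).2 + P.leaves ≤ K → Real6 Φ ε K Q.te T' P z w θ →
      GIV566.unhit Φ ε (OneC285.ptube Φ ε P z) Q.tw w →
      bd6 Φ Q σ K ε P z m w θ ≤ bd K ε P z m w θ) :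
    StmtPt6 Φ Q T' r (fun K ε => H5994.tO6 (fun P z => InEq2T.treeW Φ ε P z) (H5994.Gt Φ ε Q.te T') Φ Q T' K ε)
      (fun K ε => H5994.tY6 (fun P z => InEq2T.treeW Φ ε P z) (H5994.Gt Φ ε Q.te T') Φ Q T' K ε) bd := by
  intro K ε hε P z m w θ hK hR hu
  have h1 := hbd K ε hε P z m w θ hK hR hu
  refine ⟨fun _ => ?_, fun _ => ?_⟩
  · exact (pt6_old hΦ hε hL hte hT hγ hR hK (hearly K ε hε P z m w θ hR)).trans
      (add_le_add le_rfl h1)
  · exact (pt6_young (σ := σ) hΦ hε hL hte hγ hR hK).trans (add_le_add le_rfl h1)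

/-- **StmtPt6** (v4: the slack is a field of `Real6`), for every `bd ≥ bd6` on the real structures. -/
theorem stmtPt6 {r : ℝ} {bd : ℕ → ℝ → SF2} (hΦ : AdmissiblePotential Φ)
    (hL : 0 < Q.L) (hte : 0 ≤ Q.te) (hT : Q.te ≤ T') (hγ : Measurable Q.γ)
    (hbd : ∀ (K : ℕ) (ε : ℝ), 0 < ε → ∀ (P : CTree) (z : PhasePoint × Par P) (m : ℕ)
      (w : Config m) (θ : Lab × LSt), (eL θ).2 + P.leaves ≤ K → Real6 Φ ε K Q.te T' P z w θ →
      GIV566.unhit Φ ε (OneC285.ptube Φ ε P z) Q.tw w →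
      bd6 Φ Q slk K ε P z m w θ ≤ bd K ε P z m w θ) :
    StmtPt6 Φ Q T' r
      (fun K ε => H5994.tO6 (fun P z => InEq2T.treeW Φ ε P z) (H5994.Gt Φ ε Q.te T') Φ Q T' K ε)
      (fun K ε => H5994.tY6 (fun P z => InEq2T.treeW Φ ε P z) (H5994.Gt Φ ε Q.te T') Φ Q T' K ε)
      bd :=
  stmtPt6_of hΦ hL hte hT hγ (fun _ _ _ _ _ _ _ _ hR => hR.early) hbd

end

end Crest.Agent.R122.Pt6811
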