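import Crest.Agent.R122.GIVUse_424
import Crest.Agent.R122.GenericHid_491
import Crest.Agent.R122.HidLam2_424
import Crest.Agent.R122.HidMeas_424

/-!
# Row 122 (helper424): tubes of trees in `GIV`

* `treeT`, `treeT0` : tubes along the particles of a tree (Newton curves of the isolated world at
  `ε > 0`, straight-line paths at `ε = 0`), arbitrary end times `b`.
* `hid`, `hid0` : end times `hS` (hidden tubes).
* `treeT_conv` : convergence; `generic_treeT0`, `generic_hid0_sum` : genericity.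
* `Lam_hid0`, `Lam_prot0` : the integrated rates are `LamS`, `LamP`.
* `QL2_424` : the input for the quenched law of large numbers.
-/

set_option autoImplicit false

open MeasureTheory Set Filter
open scoped ENNReal Topology Classical NNReal
open Crest.AnalysisR.Kinetic Crest.Agent.R122.Kin796 Crest.Agent.R122.Disc416
  Crest.Agent.R122.Tree674 Crest.Agent.R122.TreeEps399 Crest.Agent.R122.Boltz814
  Crest.Agent.R122.Kin416 Crest.Agent.R122.GIV566 Crest.Agent.R122.GIVUse424

noncomputable section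

namespace Crest.Agent.R122.Hid424

open CTree

variable {Φ : Space3 → ℝ}

/-! ### Tubes of a tree -/

/-- tubes along the Newton curves of the isolated world of a tree -/
def treeT (Φ : Space3 → ℝ) (ε : ℝ) (P : CTree) (ℓ : PhasePoint) (p : Par P) (b : Idx P → ℝ) :
    Tubes (Idx P) := ⟨fun i => curve Φ ε P ℓ p i, b⟩

/-- tubes along the straight-line paths of a tree -/
def treeT0 (Φ : Space3 → ℝ) (P : CTree) (ℓ : PhasePoint) (p : Par P) (b : Idx P → ℝ) :
    Tubes (Idx P) := ⟨fun i u => (path Φ 0 P ℓ p u i).1, b⟩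

/-- hidden tubes, `ε > 0` -/
def hid (Φ : Space3 → ℝ) (ε : ℝ) (P : CTree) (ℓ : PhasePoint) (p : Par P) : Tubes (Idx P) :=
  treeT Φ ε P ℓ p (hS Φ P ℓ.2 p)

/-- hidden tubes, `ε = 0` -/
def hid0 (Φ : Space3 → ℝ) (P : CTree) (ℓ : PhasePoint) (p : Par P) : Tubes (Idx P) :=
  treeT0 Φ P ℓ p (hS Φ P ℓ.2 p)

theorem treeT_shift (hΦ : AdmissiblePotential Φ) {ε : ℝ} (hε : 0 < ε) (P : CTree) (X v : Space3)
    (p : Par P) (b : Idx P → ℝ) :
    treeT Φ ε P (X, v) p b = (treeT Φ ε P (0, v) p b).shift X := by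
  unfold treeT Tubes.shift
  congr 1
  funext i s
  exact curve_shift hΦ hε P X v p i s

theorem treeT0_shift (P : CTree) (X v : Space3) (p : Par P) (b : Idx P → ℝ) :
    treeT0 Φ P (X, v) p b = (treeT0 Φ P (0, v) p b).shift X := by
  unfold treeT0 Tubes.shift
  congr 1
  funext i s
  rw [path_shift 0 P X v p s i]

/-! ### Convergence -/

theorem hasDerivAt_of_affine {c : ℝ → Space3} {w : Space3} {s δ : ℝ}
    (h : ∀ u ∈ Ioo (s - δ) (s + δ), c u = c s + (u - s) • w) {u : ℝ}
    (hu : u ∈ Ioo (s - δ) (s + δ)) : HasDerivAt c w u := by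
  have h1 : HasDerivAt (fun u : ℝ => c s + (u - s) • w) w u := by
    have h2 : HasDerivAt (fun u : ℝ => (u - s) • w) ((1 : ℝ) • w) u :=
      ((hasDerivAt_id u).sub_const s).smul_const w
    rw [one_smul] at h2
    exact h2.const_add (c s)
  refine h1.congr_of_eventuallyEq ?_
  filter_upwards [Ioo_mem_nhds hu.1 hu.2] with y hy
  exact h y hy

theorem treeT_conv (hΦ : AdmissiblePotential Φ) {P : CTree} {v : Space3} {p : Par P} {T' : ℝ}
    (hT' : 0 ≤ T') (hV : Valid Φ 0 P T' v p) (hG : Gen Φ P (0, v) p) {b : Idx P → ℝ}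
    (hb : ∀ i, b i ≤ T') :
    ConvE L T' (fun ε => treeT Φ ε P (0, v) p b) (treeT0 Φ P (0, v) p b) where
  lip := by
    obtain ⟨M, hM, hev⟩ := curve_lip hΦ hT' hV hG
    refine ⟨⟨M, hM⟩, ?_⟩
    filter_upwards [hev] with ε h1 i
    refine LipschitzOnWith.of_dist_le_mul fun s _ u _ => ?_
    have := h1 0 u s i
    rw [Real.dist_eq]
    exact this
  curves i := by
    rw [Metric.tendstoUniformlyOn_iff]
    intro η hη
    filter_upwards [curve_close hΦ hV hG hη] with ε h1 s hs
    have := h1 0 s hs i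
    rw [dist_comm] at this
    exact this
  active i := tendsto_const_nhds
  vel := by
    refine ⟨{u | ¬ NotTime P p u}, finite_times P p, fun s hs hsB i _ => ?_⟩
    have hN : NotTime P p s := not_not.1 hsB
    obtain ⟨w, δ, hδ, _, h0, hev⟩ := curve_local hΦ hV hG hs hN
    refine ⟨w i, Ioo (s - δ) (s + δ), Ioo_mem_nhds (by linarith) (by linarith), fun u hu => ?_, ?_⟩
    · exact hasDerivAt_of_affine (c := fun u => (path Φ 0 P (0, v) p u i).1)
        (fun y hy => h0 0 y hy i) hu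
    · filter_upwards [hev] with ε h1 u hu
      exact hasDerivAt_of_affine (c := curve Φ ε P (0, v) p i) (fun y hy => h1 0 y hy i) hu
  le := Eventually.of_forall fun _ i => hb i

/-! ### Genericity -/

theorem generic_treeT0 {P : CTree} {ℓ : PhasePoint} {p : Par P} (hG : Gen Φ P ℓ p) (T' : ℝ)
    (b : Idx P → ℝ) : Generic T' (treeT0 Φ P ℓ p b) := by
  intro i j hij
  refine (finite_meet hG hij).subset ?_
  rintro s ⟨hs, he⟩
  exact ⟨hs.1, he⟩

/-- the legs of two trees with the same root line are different except on the root line -/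
def Glu (Φ : Space3 → ℝ) (P P' : CTree) (ℓ : PhasePoint) (p : Par P) (p' : Par P') : Prop :=
  ∀ (k : Generic491.Seg P) (k' : Generic491.Seg P'),
    Generic491.seg Φ P ℓ p k = Generic491.seg Φ P' ℓ p' k' →
    Generic491.Str Φ P ℓ.2 p k ∧ Generic491.Str Φ P' ℓ.2 p' k'

theorem seg_shift (P : CTree) (X v : Space3) (p : Par P) (k : Generic491.Seg P) :
    Generic491.seg Φ P (X, v) p k =
      ((Generic491.seg Φ P (0, v) p k).1 + X, (Generic491.seg Φ P (0, v) p k).2) := by
  rw [Generic491.seg_rest P (X, v) p k, Generic491.seg_rest P (0, v) p k]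
  simp [Generic491.shL]

theorem glu_shift {P P' : CTree} {v : Space3} {p : Par P} {p' : Par P'} (X : Space3) :
    Glu Φ P P' (X, v) p p' ↔ Glu Φ P P' (0, v) p p' := by
  unfold Glu
  refine forall_congr' fun k => forall_congr' fun k' => ?_
  have h : Generic491.seg Φ P (X, v) p k = Generic491.seg Φ P' (X, v) p' k' ↔
      Generic491.seg Φ P (0, v) p k = Generic491.seg Φ P' (0, v) p' k' := by
    rw [seg_shift P X, seg_shift P' X]
    simp only [Prod.mk.injEq, add_left_inj]
    rw [Prod.ext_iff]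
  rw [h]

theorem generic_hid0_sum {P P' : CTree} {ℓ : PhasePoint} {p : Par P} {p' : Par P'} {T T' : ℝ}
    (hV : Valid Φ 0 P T ℓ.2 p) (hV' : Valid Φ 0 P' T' ℓ.2 p') (hG : Gen Φ P ℓ p)
    (hG' : Gen Φ P' ℓ p') (hg : Glu Φ P P' ℓ p p') (T'' : ℝ) :
    Generic T'' ((hid0 Φ P ℓ p).sum (hid0 Φ P' ℓ p')) := by
  refine generic_sum (generic_treeT0 hG _ _) (generic_treeT0 hG' _ _) fun i j => ?_
  have hne : ∀ x ∈ Generic491.legs Φ P ℓ p, ∀ y ∈ Generic491.legs Φ P' ℓ p', x ≠ y := by
    rintro x ⟨k, hk, rfl⟩ y ⟨k', hk', rfl⟩ h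
    exact hk (hg k k' h).1
  refine ((Generic491.onLines_hid P ℓ p hV i).finite_meet (Generic491.onLines_hid P' ℓ p' hV' j)
    (Generic491.finite_legs P ℓ p) (Generic491.finite_legs P' ℓ p') hne).subset ?_
  rintro s ⟨hs, he⟩
  have h1 := hs.2.trans (min_le_right _ _)
  exact ⟨hs.1, h1.trans (min_le_left _ _), h1.trans (min_le_right _ _), he⟩

/-- a property of `(X, v)` and a parameter which does not depend on `X` -/
theorem ae_of_ae_shift {Z : Type*} [MeasurableSpace Z] {ζ : Measure Z} [SFinite ζ]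
    {A : PhasePoint × Z → Prop} {B : Space3 × Z → Prop}
    (h : ∀ᵐ z : PhasePoint × Z ∂((volume : Measure PhasePoint).prod ζ), A z)
    (hAB : ∀ X v z, A ((X, v), z) → B (v, z)) :
    ∀ᵐ z : Space3 × Z ∂((volume : Measure Space3).prod ζ), B z := by
  have hmp : MeasurePreserving (MeasurableEquiv.prodAssoc (α := Space3) (β := Space3) (γ := Z)).symm
      ((volume : Measure Space3).prod ((volume : Measure Space3).prod ζ))
      (((volume : Measure Space3).prod (volume : Measure Space3)).prod ζ) :=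
    (measurePreserving_prodAssoc (volume : Measure Space3) (volume : Measure Space3) ζ).symm _
  have h1 := hmp.quasiMeasurePreserving.ae (p := A) h
  have h2 := Measure.ae_ae_of_ae_prod h1
  obtain ⟨X, hX⟩ := h2.exists
  filter_upwards [hX] with z hz
  exact hAB X z.1 z.2 hz

theorem gen_ae_v (hΦ : AdmissiblePotential Φ) (P : CTree) (T : ℝ) :
    ∀ᵐ z : Space3 × Par P, Valid Φ 0 P T z.1 z.2 → Gen Φ P (0, z.1) z.2 :=
  ae_of_ae_shift (ζ := (volume : Measure (Par P))) (Generic491.gen_ae' hΦ P T)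
    fun X _ _ h hV => (gen_shift X).1 (h hV)

theorem glu_ae_v (hΦ : AdmissiblePotential Φ) (P P' : CTree) :
    ∀ᵐ z : Space3 × (Par P × Par P'), Adm Φ P z.1 z.2.1 → Adm Φ P' z.1 z.2.2 →
      Glu Φ P P' (0, z.1) z.2.1 z.2.2 :=
  ae_of_ae_shift (ζ := (volume : Measure (Par P × Par P'))) (Generic491.glued' hΦ P P')
    fun X _ _ h hA hA' => (glu_shift X).1 (h hA hA')

/-! ### Rates -/

section rates

variable {β T : ℝ} {f₀ : PhasePoint → ℝ} {f : ℝ → PhasePoint → ℝ}

theorem deriv_path0 {P : CTree} {ℓ : PhasePoint} {p : Par P} {s : ℝ} (hs : NotTime P p s)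
    (i : Idx P) : deriv (fun u => (path Φ 0 P ℓ p u i).1) s = (path Φ 0 P ℓ p s i).2 := by
  obtain ⟨w, δ, hδ, h0, _⟩ := path_local (Φ := Φ) P ℓ.2 p s hs
  have h1 : ∀ u ∈ Ioo (s - δ) (s + δ), (fun u => (path Φ 0 P ℓ p u i).1) u =
      (fun u => (path Φ 0 P ℓ p u i).1) s + (u - s) • w i := by
    intro u hu
    have := h0 ℓ.1 u (abs_lt.2 ⟨by linarith [hu.1], by linarith [hu.2]⟩) i
    exact congrArg Prod.fst this
  have h2 := (hasDerivAt_of_affine h1 (u := s) ⟨by linarith, by linarith⟩).deriv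
  rw [h2]
  have := h0 ℓ.1 s (by simpa using hδ) i
  exact (congrArg Prod.snd this).symm

theorem Lam_treeT0 (hf : IsRegularKineticSolution Φ β T f₀ f) {P : CTree} {T' : ℝ}
    {ℓ : PhasePoint} {p : Par P} (hV : Valid Φ 0 P T' ℓ.2 p) (b : Idx P → ℝ) (t : ℝ) :
    Lam T f (treeT0 Φ P ℓ p b) t = ∑ i, legR Φ (nuF T f) P ℓ p i (min (b i) t) := by
  rw [Lam_eq_sum hf (S := treeT0 Φ P ℓ p b) fun i =>
    (continuous_path0 (v := ℓ.2) hV ℓ.1 i).continuousOn]
  refine Finset.sum_congr rfl fun i _ => ?_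
  unfold legR
  refine lintegral_congr_ae (ae_restrict_of_ae ?_)
  have h1 : ∀ᵐ s : ℝ, NotTime P p s := by
    rw [ae_iff]
    exact (finite_times P p).measure_zero volume
  filter_upwards [h1] with s hs
  show nuF T f s (path Φ 0 P ℓ p s i).1 (deriv (fun u => (path Φ 0 P ℓ p u i).1) s) = _
  rw [deriv_path0 hs]

theorem Lam_hid0 (hf : IsRegularKineticSolution Φ β T f₀ f) {P : CTree} {T' : ℝ}
    {ℓ : PhasePoint} {p : Par P} (hV : Valid Φ 0 P T' ℓ.2 p) (t : ℝ) :
    Lam T f (hid0 Φ P ℓ p) t = LamS Φ (nuF T f) t P ℓ p := Lam_treeT0 hf hV _ t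


theorem dampG_hid0 (hf : IsRegularKineticSolution Φ β T f₀ f) {P : CTree} {T' : ℝ}
    {ℓ : PhasePoint} {p : Par P} (hV : Valid Φ 0 P T' ℓ.2 p) (t : ℝ) :
    dampG T f (hid0 Φ P ℓ p) t = eexp (LamS Φ (nuF T f) t P ℓ p) := by
  unfold dampG eexp
  rw [Lam_hid0 hf hV]


end rates

end Crest.Agent.R122.Hid424
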