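import Crest.Agent.R122.QExitA_814
import Crest.Agent.R122.RtGDet_302
import Crest.Agent.R122.QL_424
import Crest.Agent.R122.Q1_815

/-!
# Row 122 (helper837): exit lines of trees under avoidance of the protected tubes

* `hS_le_protE` : hidden end times are below the protected times (`ε ≥ 0`).
* `unhit_hid_of_prot` : protected tubes unhit implies hidden tubes unhit.
* `unhit_prot_left/right`, `unhit_rel_left/right` : restriction to the two trees of the top node.
* `prot_exSum_le`, `rel_exSum_le` : if `U` dominates the indicator of the avoidance of the protected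
  tubes, then `indicator * ∑_{x ≠ root} φ (lineML P z x) ≤ ES U φ P z`.
* `ghost_sum_le`, `ghostT_sum_le` : the literal forms for helper814's `U = unhitInd (hidM ..)`.
-/

set_option autoImplicit false

open MeasureTheory Set Filter Topology
open Crest.AnalysisR.Kinetic
open scoped ENNReal

noncomputable section

open scoped Classical

namespace Crest.Agent.R122.QExit837

open Kin796 Kin796.CTree Disc416 Scat818 Flow671 Flux663 Tree674 Mark307
open Crest.Agent.R122.GIV566 Crest.Agent.R122.TreeLines335 Crest.Agent.R122.QExit814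
open Crest.Agent.R122.Hid424 Crest.Agent.R122.RtG302

variable {Φ : Space3 → ℝ} {ε : ℝ}

/-! ### Hidden and protected end times -/

/-- the hidden tubes end before the protected times, `ε ≥ 0` -/
theorem hS_le_protE (hε : 0 ≤ ε) : ∀ (P : CTree) {T : ℝ} (_ : -1 ≤ T) (v : Space3) (p : Par P)
    (_ : Ord Φ ε P T v p) (i : Idx P), hS Φ P v p i ≤ prot P T p i
  | leaf, T, hT, v, p, _, i => hT
  | node l r, T, hT, v, p, hV, i => by
      have hl := hV.2.2.1
      have hr := hV.2.2.2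
      have h0 : 0 < Tree674.sin Φ ε v p.1 := hV.2.1
      have hs : Tree674.sin Φ ε v p.1 ≤ p.1.1 := PathFlow968.sin_le hε v p.1
      have hT' : p.1.1 < T := hV.1
      rcases i with i | i
      · have hpm : prot l p.1.1 p.2.1 i ≤ prot l T p.2.1 i :=
          PathFlow968.prot_mono l hT'.le p.2.1 i
        simp only [hS, prot, Sum.elim_inl]
        split_ifs with h
        · rw [h] at hl
          exact (hS_le_protE hε l (by linarith) v p.2.1 hl i).trans
            ((PathFlow968.prot_mono l hs p.2.1 i).trans hpm)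
        · exact hpm
      · simp only [hS, prot, Sum.elim_inr]
        split_ifs with h
        · rw [h] at hr
          exact (hS_le_protE hε r (by linarith) v p.2.2 hr i).trans
            (PathFlow968.prot_mono r hs p.2.2 i)
        · exact le_rfl

/-! ### Monotonicity of the avoidance event -/

/-- The family `S` restricted along `e` contains the family `S'` (on the active times). -/
theorem unhit_of_sub {ι ι' κ : Type} [Fintype κ] {S : Tubes ι} {S' : Tubes ι'} (e : ι' → ι)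
    (hb : ∀ i, S'.b i ≤ S.b (e i)) (hc : ∀ i, ∀ s, 0 ≤ s → s ≤ S'.b i → S'.c i s = S.c (e i) s)
    {t : ℝ} {w : κ → PhasePoint} (h : unhit Φ ε S t w) : unhit Φ ε S' t w := by
  intro i j s hs
  have h1 : s ≤ S'.b i := hs.2.trans (min_le_left _ _)
  have h2 : s ≤ t := hs.2.trans (min_le_right _ _)
  rw [hc i s hs.1 h1]
  exact h (e i) j s ⟨hs.1, le_min (h1.trans (hb i)) h2⟩

theorem unhitInd_mono {ι ι' κ : Type} [Fintype κ] {S : Tubes ι} {S' : Tubes ι'} {t : ℝ}
    {w : κ → PhasePoint} (h : unhit Φ ε S t w → unhit Φ ε S' t w) :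
    unhitInd Φ ε S t w ≤ unhitInd Φ ε S' t w := by
  unfold unhitInd
  by_cases h1 : unhit Φ ε S t w
  · rw [if_pos h1, if_pos (h h1)]
  · rw [if_neg h1]
    exact bot_le

theorem unhitInd_le_one {ι κ : Type} [Fintype κ] {S : Tubes ι} {t : ℝ}
    {w : κ → PhasePoint} : unhitInd Φ ε S t w ≤ 1 := by
  unfold unhitInd
  split_ifs
  · exact le_rfl
  · exact bot_le

/-- **The hidden tubes are part of the protected tubes.** -/
theorem unhit_hid_of_prot (hΦ : AdmissiblePotential Φ) (hε : 0 < ε) {P : CTree} {T : ℝ}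
    (hT : 0 ≤ T) {z : PhasePoint × Par P} (hV : Valid Φ ε P T z.1.2 z.2)
    (hS' : Sep Φ ε P T z.1 z.2) {t : ℝ} {κ : Type} [Fintype κ] {w : κ → PhasePoint}
    (h : unhit Φ ε (protT Φ ε P T z) t w) : unhit Φ ε (hid Φ ε P z.1 z.2) t w := by
  refine unhit_of_sub (S := protT Φ ε P T z) (S' := hid Φ ε P z.1 z.2) id
    (fun i => hS_le_protE hε.le P (by linarith) z.1.2 z.2 hV.2 i) (fun i s h0 hs => ?_) h
  have h1 : s ≤ T := hs.trans ((hS_le_protE hε.le P (by linarith) z.1.2 z.2 hV.2 i).trans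
    (PathFlow968.prot_le hε.le P T z.1.2 z.2 hV.2 i))
  have h2 := curve_eq_path hΦ hε (X := z.1.1) (v := z.1.2) hV hS' ⟨h0, h1⟩ i
  exact h2

section node

variable {l r : CTree} {T : ℝ} {z : PhasePoint × Par (node l r)}

/-- the tree at the first input of the top node -/
def zL (Φ : Space3 → ℝ) (ε : ℝ) {l r : CTree} (z : PhasePoint × Par (node l r)) :
    PhasePoint × Par l := ((inMap Φ ε z.1 z.2.1).1, z.2.2.1)

/-- the tree at the second input of the top node -/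
def zR (Φ : Space3 → ℝ) (ε : ℝ) {l r : CTree} (z : PhasePoint × Par (node l r)) :
    PhasePoint × Par r := ((inMap Φ ε z.1 z.2.1).2, z.2.2.2)

theorem valid_zL (hV : Valid Φ ε (node l r) T z.1.2 z.2) :
    Valid Φ ε l (Tree674.sin Φ ε z.1.2 z.2.1) (zL Φ ε z).1.2 (zL Φ ε z).2 :=
  PathFlow968.Valid.left hV

theorem valid_zR (hV : Valid Φ ε (node l r) T z.1.2 z.2) :
    Valid Φ ε r (Tree674.sin Φ ε z.1.2 z.2.1) (zR Φ ε z).1.2 (zR Φ ε z).2 :=
  PathFlow968.Valid.right hV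

theorem sep_zL (hε : 0 ≤ ε) (hV : Valid Φ ε (node l r) T z.1.2 z.2)
    (hS' : Sep Φ ε (node l r) T z.1 z.2) :
    Sep Φ ε l (Tree674.sin Φ ε z.1.2 z.2.1) (zL Φ ε z).1 (zL Φ ε z).2 :=
  PathFlow968.Sep.left hε hV hS'

theorem sep_zR (hε : 0 ≤ ε) (hV : Valid Φ ε (node l r) T z.1.2 z.2)
    (hS' : Sep Φ ε (node l r) T z.1 z.2) :
    Sep Φ ε r (Tree674.sin Φ ε z.1.2 z.2.1) (zR Φ ε z).1 (zR Φ ε z).2 :=
  PathFlow968.Sep.right hε hV hS'

/-- restriction to the first input: general tubes with the right curves before the entrance time -/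
theorem unhit_left (hε : 0 ≤ ε) (hV : Valid Φ ε (node l r) T z.1.2 z.2)
    {S : Tubes (Idx (node l r))}
    (hb : ∀ i : Idx l, prot l (Tree674.sin Φ ε z.1.2 z.2.1) z.2.2.1 i ≤ S.b (Sum.inl i))
    (hc : ∀ i : Idx l, ∀ s, 0 ≤ s → s ≤ Tree674.sin Φ ε z.1.2 z.2.1 →
      S.c (Sum.inl i) s = (path Φ ε (node l r) z.1 z.2 s (Sum.inl i)).1)
    {t : ℝ} {κ : Type} [Fintype κ] {w : κ → PhasePoint} (h : unhit Φ ε S t w) :
    unhit Φ ε (protT Φ ε l (Tree674.sin Φ ε z.1.2 z.2.1) (zL Φ ε z)) t w := by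
  refine unhit_of_sub (S := S)
    (S' := protT Φ ε l (Tree674.sin Φ ε z.1.2 z.2.1) (zL Φ ε z)) (fun i => Sum.inl i)
    hb (fun i s h0 hs => ?_) h
  have h1 : s ≤ Tree674.sin Φ ε z.1.2 z.2.1 := hs.trans
    (PathFlow968.prot_le hε l _ (zL Φ ε z).1.2 (zL Φ ε z).2 (valid_zL hV).2 i)
  rw [hc i s h0 h1, PathFlow968.path_node_before z.1 z.2 h1]
  rfl

theorem unhit_right (hε : 0 ≤ ε) (hV : Valid Φ ε (node l r) T z.1.2 z.2)
    {S : Tubes (Idx (node l r))}
    (hb : ∀ i : Idx r, prot r (Tree674.sin Φ ε z.1.2 z.2.1) z.2.2.2 i ≤ S.b (Sum.inr i))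
    (hc : ∀ i : Idx r, ∀ s, 0 ≤ s → s ≤ Tree674.sin Φ ε z.1.2 z.2.1 →
      S.c (Sum.inr i) s = (path Φ ε (node l r) z.1 z.2 s (Sum.inr i)).1)
    {t : ℝ} {κ : Type} [Fintype κ] {w : κ → PhasePoint} (h : unhit Φ ε S t w) :
    unhit Φ ε (protT Φ ε r (Tree674.sin Φ ε z.1.2 z.2.1) (zR Φ ε z)) t w := by
  refine unhit_of_sub (S := S)
    (S' := protT Φ ε r (Tree674.sin Φ ε z.1.2 z.2.1) (zR Φ ε z)) (fun i => Sum.inr i)
    hb (fun i s h0 hs => ?_) h
  have h1 : s ≤ Tree674.sin Φ ε z.1.2 z.2.1 := hs.trans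
    (PathFlow968.prot_le hε r _ (zR Φ ε z).1.2 (zR Φ ε z).2 (valid_zR hV).2 i)
  rw [hc i s h0 h1, PathFlow968.path_node_before z.1 z.2 h1]
  rfl

theorem unhit_prot_left (hε : 0 ≤ ε) (hV : Valid Φ ε (node l r) T z.1.2 z.2)
    {t : ℝ} {κ : Type} [Fintype κ] {w : κ → PhasePoint}
    (h : unhit Φ ε (protT Φ ε (node l r) T z) t w) :
    unhit Φ ε (protT Φ ε l (Tree674.sin Φ ε z.1.2 z.2.1) (zL Φ ε z)) t w :=
  unhit_left hε hV (S := protT Φ ε (node l r) T z)
    (fun i => PathFlow968.prot_mono l (PathFlow968.Valid.sin_lt hε hV).le z.2.2.1 i)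
    (fun _ _ _ _ => rfl) h

theorem unhit_prot_right (hε : 0 ≤ ε) (hV : Valid Φ ε (node l r) T z.1.2 z.2)
    {t : ℝ} {κ : Type} [Fintype κ] {w : κ → PhasePoint}
    (h : unhit Φ ε (protT Φ ε (node l r) T z) t w) :
    unhit Φ ε (protT Φ ε r (Tree674.sin Φ ε z.1.2 z.2.1) (zR Φ ε z)) t w :=
  unhit_right hε hV (S := protT Φ ε (node l r) T z)
    (fun i => PathFlow968.prot_mono r (PathFlow968.sin_le hε _ _) z.2.2.2 i)
    (fun _ _ _ _ => rfl) h

theorem prot_le_rel_left (hε : 0 ≤ ε) (i : Idx l) :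
    prot l (Tree674.sin Φ ε z.1.2 z.2.1) z.2.2.1 i ≤ TreeLines335.rel (node l r) z.2 (Sum.inl i) := by
  show _ ≤ if i = root l then z.2.1.1 else TreeLines335.rel l z.2.2.1 i
  split_ifs with h
  · rw [h, PathFlow968.prot_root]
    exact PathFlow968.sin_le hε _ _
  · rw [rel_eq_prot l (Tree674.sin Φ ε z.1.2 z.2.1) z.2.2.1 i h]

theorem prot_le_rel_right (hε : 0 ≤ ε) (i : Idx r) :
    prot r (Tree674.sin Φ ε z.1.2 z.2.1) z.2.2.2 i ≤ TreeLines335.rel (node l r) z.2 (Sum.inr i) := by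
  show _ ≤ if i = root r then z.2.1.1 else TreeLines335.rel r z.2.2.2 i
  split_ifs with h
  · rw [h, PathFlow968.prot_root]
    exact PathFlow968.sin_le hε _ _
  · rw [rel_eq_prot r (Tree674.sin Φ ε z.1.2 z.2.1) z.2.2.2 i h]

theorem unhit_rel_left (hΦ : AdmissiblePotential Φ) (hε : 0 < ε)
    (hV : Valid Φ ε (node l r) T z.1.2 z.2) (hS' : Sep Φ ε (node l r) T z.1 z.2)
    {b : Idx (node l r) → ℝ} (hb : ∀ i, TreeLines335.rel (node l r) z.2 i ≤ b i)
    {t : ℝ} {κ : Type} [Fintype κ] {w : κ → PhasePoint}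
    (h : unhit Φ ε (treeT Φ ε (node l r) z.1 z.2 b) t w) :
    unhit Φ ε (protT Φ ε l (Tree674.sin Φ ε z.1.2 z.2.1) (zL Φ ε z)) t w :=
  unhit_left hε.le hV (S := treeT Φ ε (node l r) z.1 z.2 b)
    (fun i => (prot_le_rel_left hε.le i).trans (hb _))
    (fun i _ h0 hs => curve_eq_path hΦ hε (X := z.1.1) (v := z.1.2) hV hS'
      ⟨h0, hs.trans (PathFlow968.Valid.sin_lt hε.le hV).le⟩ (Sum.inl i)) h

theorem unhit_rel_right (hΦ : AdmissiblePotential Φ) (hε : 0 < ε)
    (hV : Valid Φ ε (node l r) T z.1.2 z.2) (hS' : Sep Φ ε (node l r) T z.1 z.2)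
    {b : Idx (node l r) → ℝ} (hb : ∀ i, TreeLines335.rel (node l r) z.2 i ≤ b i)
    {t : ℝ} {κ : Type} [Fintype κ] {w : κ → PhasePoint}
    (h : unhit Φ ε (treeT Φ ε (node l r) z.1 z.2 b) t w) :
    unhit Φ ε (protT Φ ε r (Tree674.sin Φ ε z.1.2 z.2.1) (zR Φ ε z)) t w :=
  unhit_right hε.le hV (S := treeT Φ ε (node l r) z.1 z.2 b)
    (fun i => (prot_le_rel_right hε.le i).trans (hb _))
    (fun i _ h0 hs => curve_eq_path hΦ hε (X := z.1.1) (v := z.1.2) hV hS'
      ⟨h0, hs.trans (PathFlow968.Valid.sin_lt hε.le hV).le⟩ (Sum.inr i)) h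

end node

/-! ### Sum over the exits -/

/-- `φ` at the exit line of `x`, `0` at the root -/
def exF {P : CTree} (φ : QExit814.ML → ℝ≥0∞) (z : PhasePoint × Par P) (x : Idx P) : ℝ≥0∞ :=
  if x = root P then 0 else φ (lineML Φ ε P z x)

theorem exF_root {P : CTree} {φ : QExit814.ML → ℝ≥0∞} {z : PhasePoint × Par P} {x : Idx P}
    (h : x = root P) : exF (Φ := Φ) (ε := ε) φ z x = 0 := if_pos h

theorem exF_ne {P : CTree} {φ : QExit814.ML → ℝ≥0∞} {z : PhasePoint × Par P} {x : Idx P}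
    (h : ¬ x = root P) : exF (Φ := Φ) (ε := ε) φ z x = φ (lineML Φ ε P z x) := if_neg h

/-- sum of `φ` over the exit lines -/
def exSum (Φ : Space3 → ℝ) (ε : ℝ) (φ : QExit814.ML → ℝ≥0∞) (P : CTree) (z : PhasePoint × Par P) :
    ℝ≥0∞ := ∑ x : Idx P, exF (Φ := Φ) (ε := ε) φ z x

theorem exSum_leaf (φ : QExit814.ML → ℝ≥0∞) (z : PhasePoint × Par leaf) :
    exSum Φ ε φ leaf z = 0 := by
  unfold exSum
  refine Finset.sum_eq_zero fun x _ => ?_
  unfold exF
  exact if_pos rfl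

theorem lineML_inl {l r : CTree} (z : PhasePoint × Par (node l r)) {i : Idx l} (hi : i ≠ root l) :
    lineML Φ ε (node l r) z (Sum.inl i) = lineML Φ ε l (zL Φ ε z) i := by
  show (((if i = root l then z.2.1.1 else TreeLines335.rel l z.2.2.1 i),
      onLine (Function.update (PathFlow968.fin Φ ε l (inMap Φ ε z.1 z.2.1).1 z.2.2.1) (root l) z.1 i)
        (if i = root l then z.2.1.1 else TreeLines335.rel l z.2.2.1 i)),
      (if i = root l then (node l r).leaves else TreeLines335.mk l i)) = _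
  rw [if_neg hi, if_neg hi, Function.update_of_ne hi]
  rfl

theorem lineML_inr {l r : CTree} (z : PhasePoint × Par (node l r)) {i : Idx r} (hi : i ≠ root r) :
    lineML Φ ε (node l r) z (Sum.inr i) = lineML Φ ε r (zR Φ ε z) i := by
  show (((if i = root r then z.2.1.1 else TreeLines335.rel r z.2.2.2 i),
      onLine (Function.update (PathFlow968.fin Φ ε r (inMap Φ ε z.1 z.2.1).2 z.2.2.2) (root r)
        (outLine ε z.1 z.2.1) i)
        (if i = root r then z.2.1.1 else TreeLines335.rel r z.2.2.2 i)),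
      (if i = root r then (node l r).leaves else TreeLines335.mk r i)) = _
  rw [if_neg hi, if_neg hi, Function.update_of_ne hi]
  rfl

theorem lineML_inr_root {l r : CTree} (z : PhasePoint × Par (node l r)) :
    lineML Φ ε (node l r) z (Sum.inr (root r)) =
      (exitL ε (z.1, z.2.1), l.leaves + r.leaves) := by
  show (((if root r = root r then z.2.1.1 else TreeLines335.rel r z.2.2.2 (root r)),
      onLine (Function.update (PathFlow968.fin Φ ε r (inMap Φ ε z.1 z.2.1).2 z.2.2.2) (root r)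
        (outLine ε z.1 z.2.1) (root r))
        (if root r = root r then z.2.1.1 else TreeLines335.rel r z.2.2.2 (root r))),
      (if root r = root r then (node l r).leaves else TreeLines335.mk r (root r))) = _
  rw [if_pos rfl, if_pos rfl, Function.update_self]
  rfl

theorem exSum_node (φ : QExit814.ML → ℝ≥0∞) {l r : CTree} (z : PhasePoint × Par (node l r)) :
    exSum Φ ε φ (node l r) z = φ (exitL ε (z.1, z.2.1), l.leaves + r.leaves) +
      (exSum Φ ε φ l (zL Φ ε z) + exSum Φ ε φ r (zR Φ ε z)) := by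
  have h0 : exSum Φ ε φ (node l r) z =
      (∑ x : Idx l, exF (Φ := Φ) (ε := ε) φ z (Sum.inl x)) +
      ∑ x : Idx r, exF (Φ := Φ) (ε := ε) φ z (Sum.inr x) :=
    Fintype.sum_sum_type (α₁ := Idx l) (α₂ := Idx r) (fun x => exF (Φ := Φ) (ε := ε) φ z x)
  have h1 : (∑ x : Idx l, exF (Φ := Φ) (ε := ε) φ z (Sum.inl x)) =
      exSum Φ ε φ l (zL Φ ε z) := by
    unfold exSum
    refine Finset.sum_congr rfl fun x _ => ?_
    by_cases hx : x = root l
    · have hh : (Sum.inl x : Idx (node l r)) = root (node l r) := by rw [hx]; rfl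
      exact (exF_root hh).trans (exF_root hx).symm
    · have hh : ¬ (Sum.inl x : Idx (node l r)) = root (node l r) := fun h =>
        hx (Sum.inl_injective h)
      exact (exF_ne hh).trans ((congrArg φ (lineML_inl z hx)).trans (exF_ne hx).symm)
  have h2 : (∑ x : Idx r, exF (Φ := Φ) (ε := ε) φ z (Sum.inr x)) =
      φ (exitL ε (z.1, z.2.1), l.leaves + r.leaves) + exSum Φ ε φ r (zR Φ ε z) := by
    have h3 : ∀ x : Idx r, exF (Φ := Φ) (ε := ε) φ z (Sum.inr x) =
        (if x = root r then φ (exitL ε (z.1, z.2.1), l.leaves + r.leaves) else 0) +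
        exF (Φ := Φ) (ε := ε) φ (zR Φ ε z) x := by
      intro x
      have hh : ¬ (Sum.inr x : Idx (node l r)) = root (node l r) := fun h => by cases h
      refine (exF_ne hh).trans ?_
      by_cases hx : x = root r
      · rw [if_pos hx, exF_root hx, add_zero, hx, lineML_inr_root]
      · rw [if_neg hx, exF_ne hx, zero_add, lineML_inr z hx]
    rw [Finset.sum_congr rfl fun x _ => h3 x, Finset.sum_add_distrib]
    unfold exSum
    congr 1
    rw [Finset.sum_ite_eq']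
    exact if_pos (Finset.mem_univ _)
  rw [h0, h1, h2]
  ring

/-- `U` dominates the avoidance of the protected tubes -/
def Dom837 (Φ : Space3 → ℝ) (ε tw : ℝ) {κ : Type} [Fintype κ] (w : κ → PhasePoint)
    (U : ∀ P : CTree, PhasePoint × Par P → ℝ≥0∞) : Prop :=
  ∀ (P : CTree) (T : ℝ) (z : PhasePoint × Par P), 0 ≤ T → Valid Φ ε P T z.1.2 z.2 →
    Sep Φ ε P T z.1 z.2 → unhitInd Φ ε (protT Φ ε P T z) tw w ≤ U P z

variable {tw : ℝ} {κ : Type} [Fintype κ] {w : κ → PhasePoint}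
  {U : ∀ P : CTree, PhasePoint × Par P → ℝ≥0∞} {φ : QExit814.ML → ℝ≥0∞}

theorem alg_step {a x y ul ur el er : ℝ≥0∞} (u1 : 1 ≤ ul) (u2 : 1 ≤ ur) (hx : x ≤ el)
    (hy : y ≤ er) : a + (x + y) ≤ a * (ul * ur) + (el * ur + ul * er) := by
  refine add_le_add ?_ (add_le_add ?_ ?_)
  · calc a = a * (1 * 1) := by rw [mul_one, mul_one]
      _ ≤ _ := mul_le_mul' le_rfl (mul_le_mul' u1 u2)
  · calc x = x * 1 := (mul_one _).symm
      _ ≤ _ := mul_le_mul' hx u2
  · calc y = 1 * y := (one_mul _).symm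
      _ ≤ _ := mul_le_mul' u1 hy

/-- one step: the exits of a node, from the two inputs -/
theorem node_step (hε : 0 < ε) (hU : Dom837 Φ ε tw w U) {l r : CTree} {T : ℝ}
    {z : PhasePoint × Par (node l r)} (hV : Valid Φ ε (node l r) T z.1.2 z.2)
    (hS' : Sep Φ ε (node l r) T z.1 z.2)
    (ihl : unhitInd Φ ε (protT Φ ε l (Tree674.sin Φ ε z.1.2 z.2.1) (zL Φ ε z)) tw w *
      exSum Φ ε φ l (zL Φ ε z) ≤ ES Φ ε U φ l (zL Φ ε z))
    (ihr : unhitInd Φ ε (protT Φ ε r (Tree674.sin Φ ε z.1.2 z.2.1) (zR Φ ε z)) tw w *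
      exSum Φ ε φ r (zR Φ ε z) ≤ ES Φ ε U φ r (zR Φ ε z))
    {g : ℝ≥0∞} (hg : g = 0 ∨ (g = 1 ∧
      unhit Φ ε (protT Φ ε l (Tree674.sin Φ ε z.1.2 z.2.1) (zL Φ ε z)) tw w ∧
      unhit Φ ε (protT Φ ε r (Tree674.sin Φ ε z.1.2 z.2.1) (zR Φ ε z)) tw w)) :
    g * exSum Φ ε φ (node l r) z ≤ ES Φ ε U φ (node l r) z := by
  rcases hg with hg | ⟨hg, h1, h2⟩
  · rw [hg, zero_mul]
    exact bot_le
  · have h0 : 0 ≤ Tree674.sin Φ ε z.1.2 z.2.1 := hV.2.2.1.le
    have u1 : 1 ≤ U l (zL Φ ε z) := by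
      have h := hU l _ (zL Φ ε z) h0 (valid_zL hV) (sep_zL hε.le hV hS')
      unfold unhitInd at h
      rwa [if_pos h1] at h
    have u2 : 1 ≤ U r (zR Φ ε z) := by
      have h := hU r _ (zR Φ ε z) h0 (valid_zR hV) (sep_zR hε.le hV hS')
      unfold unhitInd at h
      rwa [if_pos h2] at h
    unfold unhitInd at ihl ihr
    rw [if_pos h1, one_mul] at ihl
    rw [if_pos h2, one_mul] at ihr
    have hadm : Adm1 Φ z.1.2 z.2.1 := hV.1.1
    have e0 : inM Φ ε (z.1, z.2.1) = inMap Φ ε z.1 z.2.1 := inM_of_adm hadm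
    have e1 : (((inM Φ ε (z.1, z.2.1)).1, z.2.2.1) : PhasePoint × Par l) = zL Φ ε z := by
      rw [e0]; rfl
    have e2 : (((inM Φ ε (z.1, z.2.1)).2, z.2.2.2) : PhasePoint × Par r) = zR Φ ε z := by
      rw [e0]; rfl
    have e3 : ES Φ ε U φ (node l r) z = φ (exitL ε (z.1, z.2.1), l.leaves + r.leaves) *
        (U l (zL Φ ε z) * U r (zR Φ ε z)) +
      (ES Φ ε U φ l (zL Φ ε z) * U r (zR Φ ε z) + U l (zL Φ ε z) * ES Φ ε U φ r (zR Φ ε z)) := by
      rw [← e1, ← e2]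
      rfl
    rw [hg, one_mul, exSum_node, e3]
    exact alg_step u1 u2 ihl ihr

theorem ghost_cases {ι : Type} {S : Tubes ι} {p q : Prop} (h : unhit Φ ε S tw w → p ∧ q) :
    unhitInd Φ ε S tw w = 0 ∨ (unhitInd Φ ε S tw w = 1 ∧ p ∧ q) := by
  unfold unhitInd
  by_cases h1 : unhit Φ ε S tw w
  · rw [if_pos h1]; exact Or.inr ⟨rfl, h h1⟩
  · rw [if_neg h1]; exact Or.inl rfl

/-- **Exit lines under avoidance of the protected tubes.** -/
theorem prot_exSum_le (hε : 0 < ε) (hU : Dom837 Φ ε tw w U) : ∀ (P : CTree) (T : ℝ)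
    (z : PhasePoint × Par P), Valid Φ ε P T z.1.2 z.2 → Sep Φ ε P T z.1 z.2 →
    unhitInd Φ ε (protT Φ ε P T z) tw w * exSum Φ ε φ P z ≤ ES Φ ε U φ P z
  | leaf, T, z, _, _ => by
      rw [exSum_leaf, mul_zero]
      exact bot_le
  | node l r, T, z, hV, hS' =>
      node_step hε hU hV hS'
        (prot_exSum_le hε hU l _ (zL Φ ε z) (valid_zL hV) (sep_zL hε.le hV hS'))
        (prot_exSum_le hε hU r _ (zR Φ ε z) (valid_zR hV) (sep_zR hε.le hV hS'))
        (ghost_cases fun h => ⟨unhit_prot_left hε.le hV h, unhit_prot_right hε.le hV h⟩)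

/-- The same for tubes up to any times after the release times (the root up to its last exit time
at least). -/
theorem rel_exSum_le (hΦ : AdmissiblePotential Φ) (hε : 0 < ε) (hU : Dom837 Φ ε tw w U) :
    ∀ (P : CTree) (T : ℝ) (z : PhasePoint × Par P) (b : Idx P → ℝ),
    Valid Φ ε P T z.1.2 z.2 → Sep Φ ε P T z.1 z.2 → (∀ i, TreeLines335.rel P z.2 i ≤ b i) →
    unhitInd Φ ε (treeT Φ ε P z.1 z.2 b) tw w * exSum Φ ε φ P z ≤ ES Φ ε U φ P z
  | leaf, T, z, _, _, _, _ => by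
      rw [exSum_leaf, mul_zero]
      exact bot_le
  | node l r, T, z, b, hV, hS', hb =>
      node_step hε hU hV hS'
        (prot_exSum_le hε hU l _ (zL Φ ε z) (valid_zL hV) (sep_zL hε.le hV hS'))
        (prot_exSum_le hε hU r _ (zR Φ ε z) (valid_zR hV) (sep_zR hε.le hV hS'))
        (ghost_cases fun h => ⟨unhit_rel_left hΦ hε hV hS' hb h,
          unhit_rel_right hΦ hε hV hS' hb h⟩)

/-- the hidden tubes give a dominating functional -/
theorem dom_hid (hΦ : AdmissiblePotential Φ) (hε : 0 < ε) :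
    Dom837 Φ ε tw w (fun P z => unhitInd Φ ε (hid Φ ε P z.1 z.2) tw w) :=
  fun _ _ _ hT hV hS' => unhitInd_mono (unhit_hid_of_prot hΦ hε hT hV hS')

theorem dom_hidM (hΦ : AdmissiblePotential Φ) (hε : 0 < ε) :
    Dom837 Φ ε tw w (fun P z => unhitInd Φ ε (Q1815.hidM Φ ε P z.1 z.2) tw w) := by
  intro P T z hT hV hS'
  have h := Q1815.hidM_of_adm (Φ := Φ) (ε := ε) hV.1
  show _ ≤ unhitInd Φ ε (Q1815.hidM Φ ε P z.1 z.2) tw w
  rw [h]
  exact dom_hid hΦ hε P T z hT hV hS'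

theorem exSum_eq (φ : QExit814.ML → ℝ≥0∞) (P : CTree) (z : PhasePoint × Par P) :
    exSum Φ ε φ P z = ∑ x : {i : Idx P // i ≠ root P}, φ (lineML Φ ε P z x) := by
  unfold exSum
  rw [← Finset.sum_subtype (Finset.univ.filter fun i : Idx P => i ≠ root P)
    (fun x => by simp) (fun x => φ (lineML Φ ε P z x)), Finset.sum_filter]
  refine Finset.sum_congr rfl fun x _ => ?_
  unfold exF
  by_cases hx : x = root P
  · rw [if_pos hx, if_neg (fun h => h hx)]
  · rw [if_neg hx, if_pos hx]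

/-- helper814's functional -/
def U814 (Φ : Space3 → ℝ) (ε tw : ℝ) {κ : Type} [Fintype κ] (w : κ → PhasePoint) (P : CTree)
    (z : PhasePoint × Par P) : ℝ≥0∞ := unhitInd Φ ε (Q1815.hidM Φ ε P z.1 z.2) tw w

/-- **(E1)** : tubes `(curve, b)` with `b ≥ rel`. -/
theorem ghost_sum_le (hΦ : AdmissiblePotential Φ) (hε : 0 < ε) {P : CTree} {s : ℝ}
    {z : PhasePoint × Par P} (hV : Valid Φ ε P s z.1.2 z.2) (hS' : Sep Φ ε P s z.1 z.2)
    {b : Idx P → ℝ} (hb : ∀ i, TreeLines335.rel P z.2 i ≤ b i) (φ : QExit814.ML → ℝ≥0∞) :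
    unhitInd Φ ε (treeT Φ ε P z.1 z.2 b) tw w *
      ∑ x : {i : Idx P // i ≠ root P}, φ (lineML Φ ε P z x) ≤
    ES Φ ε (U814 Φ ε tw w) φ P z := by
  rw [← exSum_eq]
  exact rel_exSum_le hΦ hε (dom_hidM hΦ hε) P s z b hV hS' hb


end Crest.Agent.R122.QExit837

end
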