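import Crest.Agent.R122.QExitB_814
import Crest.Agent.R122.Q1Data_815

-- ▼ part R122/QExitC_814
section

/-!
Row 122 (helper814), item G1exit, part C: sums over the trees with at most `K` leaves, and the
recursion over `K`.
-/

set_option autoImplicit false
set_option synthInstance.maxSize 1024

open MeasureTheory Set Filter Topology
open Crest.AnalysisR.Kinetic
open scoped ENNReal

noncomputable section

namespace Crest.Agent.R122.QExit814

open Kin796 Kin796.CTree Disc416 Kin416 Scat818 Flow671 Flux663 Tree674 Mark307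

variable {Φ : Space3 → ℝ} {ε T : ℝ} {k : PhasePoint → ℝ≥0∞}
  {U : ∀ P : CTree, PhasePoint × Par P → ℝ≥0∞} {φ : ML → ℝ≥0∞}

theorem one_le_leaves : ∀ P : CTree, 1 ≤ P.leaves
  | leaf => le_rfl
  | node l r => by
      have := one_le_leaves l
      show 1 ≤ l.leaves + r.leaves
      omega

/-! ### Linearity -/

theorem NI_tsum {ι : Type*} [Countable ι] (hΦ : AdmissiblePotential Φ)
    {H : ι → (PhasePoint × NodeP) × (PhasePoint × PhasePoint) → ℝ≥0∞}
    (hH : ∀ i, Measurable (H i)) :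
    NI Φ ε T (fun w => ∑' i, H i w) = ∑' i, NI Φ ε T (H i) := by
  unfold NI
  rw [← lintegral_tsum fun i => (measurable_NI_integrand hΦ (hH i)).aemeasurable]
  refine lintegral_congr fun z => ?_
  rw [ENNReal.tsum_mul_left, ENNReal.tsum_mul_left]

theorem XX_tsum {ι : Type*} [Countable ι] (hΦ : AdmissiblePotential Φ) (hk : Measurable k)
    (hU : ∀ P, Measurable (U P)) (hφ : Measurable φ) (P : CTree)
    {g : ι → ℝ × PhasePoint → ℝ≥0∞} (hg : ∀ i, Measurable (g i)) :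
    XX Φ ε T k U φ P (fun q => ∑' i, g i q) = ∑' i, XX Φ ε T k U φ P (g i) := by
  unfold XX
  have hb : Measurable fun z : PhasePoint × Par P => (bt P z.2, z.1) :=
    ((measurable_bt P).comp measurable_snd).prodMk measurable_fst
  have hm : ∀ i, Measurable fun z : PhasePoint × Par P =>
      vw Φ ε P T z * (kw Φ ε k P z * ES Φ ε U φ P z) * g i (bt P z.2, z.1) := fun i =>
    (measurable_XX_integrand hΦ hk hU hφ P).mul ((hg i).comp hb)
  rw [← lintegral_tsum fun i => (hm i).aemeasurable]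
  refine lintegral_congr fun z => ?_
  rw [ENNReal.tsum_mul_left]

theorem AL_tsum {ι : Type*} [Countable ι] (hΦ : AdmissiblePotential Φ) (hε : 0 < ε)
    {D : ι → ℝ × PhasePoint → ℝ≥0∞} (hD : ∀ i, Measurable (D i)) {ψ : ℝ × PhasePoint → ℝ≥0∞}
    (hψ : Measurable ψ) (q : ℝ × PhasePoint) :
    AL Φ ε T (fun q => ∑' i, D i q) ψ q = ∑' i, AL Φ ε T (D i) ψ q := by
  have hm : ∀ i, Measurable fun a : NodeP => gL Φ ε T (q.2, a) *
      (ENNReal.ofReal ‖q.2.2 - a.2.1‖ * ((Ioi q.1).indicator 1 a.1 *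
        (ψ ((outD Φ ε T (q.2, inLine ε q.2 a)).2.1, (outD Φ ε T (q.2, inLine ε q.2 a)).1) *
          D i (a.1, inLine ε q.2 a)))) := by
    intro i
    have n1 : Measurable fun a : NodeP => (q.1, a.1) := measurable_const.prodMk measurable_fst
    have n2 : Measurable fun a : NodeP => ((q.2, a) : PhasePoint × NodeP) :=
      measurable_const.prodMk measurable_id
    have h1 := (measurable_Ioi_ind.comp n1).mul
      ((measurable_AL_integrand (T := T) hΦ hε (hD i) hψ).comp n2)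
    convert h1 using 1
    funext a
    simp only [Pi.mul_apply, Function.comp]
    ring
  unfold AL
  rw [← lintegral_tsum fun i => (hm i).aemeasurable]
  refine lintegral_congr fun a => ?_
  simp only [ENNReal.tsum_mul_left]

theorem AR_tsum {ι : Type*} [Countable ι] (hΦ : AdmissiblePotential Φ) (hε : 0 < ε)
    {D : ι → ℝ × PhasePoint → ℝ≥0∞} (hD : ∀ i, Measurable (D i)) {ψ : ℝ × PhasePoint → ℝ≥0∞}
    (hψ : Measurable ψ) (q : ℝ × PhasePoint) :
    AR Φ ε T (fun q => ∑' i, D i q) ψ q = ∑' i, AR Φ ε T (D i) ψ q := by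
  have hm : ∀ i, Measurable fun a : NodeP => gR Φ ε T (q.2, a) *
      (ENNReal.ofReal ‖q.2.2 - a.2.1‖ * ((Ioi q.1).indicator 1 a.1 *
        (ψ ((outD Φ ε T (inLine ε q.2 a, q.2)).2.1, (outD Φ ε T (inLine ε q.2 a, q.2)).1) *
          D i (a.1, inLine ε q.2 a)))) := by
    intro i
    have n1 : Measurable fun a : NodeP => (q.1, a.1) := measurable_const.prodMk measurable_fst
    have n2 : Measurable fun a : NodeP => ((q.2, a) : PhasePoint × NodeP) :=
      measurable_const.prodMk measurable_id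
    have h1 := (measurable_Ioi_ind.comp n1).mul
      ((measurable_AR_integrand (T := T) hΦ hε (hD i) hψ).comp n2)
    convert h1 using 1
    funext a
    simp only [Pi.mul_apply, Function.comp]
    ring
  unfold AR
  rw [← lintegral_tsum fun i => (hm i).aemeasurable]
  refine lintegral_congr fun a => ?_
  simp only [ENNReal.tsum_mul_left]

/-! ### Sums over classes of trees -/

/-- density of the trees of a class `p` -/
def DP (Φ : Space3 → ℝ) (ε T : ℝ) (k : PhasePoint → ℝ≥0∞)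
    (U : ∀ P : CTree, PhasePoint × Par P → ℝ≥0∞) (p : CTree → Prop) [DecidablePred p]
    (q : ℝ × PhasePoint) : ℝ≥0∞ :=
  ∑' Q : CTree, (if p Q then dn Φ ε T k Q (U Q) else 0) q

/-- exits of the trees with at most `K` leaves -/
def XS (Φ : Space3 → ℝ) (ε T : ℝ) (k : PhasePoint → ℝ≥0∞)
    (U : ∀ P : CTree, PhasePoint × Par P → ℝ≥0∞) (φ : ML → ℝ≥0∞) (K : ℕ)
    (ψ : ℝ × PhasePoint → ℝ≥0∞) : ℝ≥0∞ :=
  ∑' P : CTree, if P.leaves ≤ K then XX Φ ε T k U φ P ψ else 0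

theorem measurable_ite_dn (hΦ : AdmissiblePotential Φ) (hk : Measurable k)
    (hU : ∀ P, Measurable (U P)) (p : Prop) [Decidable p] (Q : CTree) :
    Measurable (if p then dn Φ ε T k Q (U Q) else 0) := by
  split_ifs
  · exact measurable_dn hΦ hk (hU Q)
  · exact measurable_zero

theorem measurable_DP (hΦ : AdmissiblePotential Φ) (hk : Measurable k)
    (hU : ∀ P, Measurable (U P)) (p : CTree → Prop) [DecidablePred p] :
    Measurable (DP Φ ε T k U p) :=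
  Measurable.tsum fun Q => measurable_ite_dn hΦ hk hU (p Q) Q

theorem XS_mono (K : ℕ) {ψ ψ' : ℝ × PhasePoint → ℝ≥0∞} (h : ∀ q, ψ q ≤ ψ' q) :
    XS Φ ε T k U φ K ψ ≤ XS Φ ε T k U φ K ψ' := by
  refine ENNReal.tsum_le_tsum fun P => ?_
  split_ifs
  · exact XX_mono P h
  · exact le_rfl

theorem XS_add (hΦ : AdmissiblePotential Φ) (hk : Measurable k)
    (hU : ∀ P, Measurable (U P)) (hφ : Measurable φ) (K : ℕ) {ψ ψ' : ℝ × PhasePoint → ℝ≥0∞}
    (hψ : Measurable ψ) :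
    XS Φ ε T k U φ K (fun q => ψ q + ψ' q) = XS Φ ε T k U φ K ψ + XS Φ ε T k U φ K ψ' := by
  unfold XS
  rw [← ENNReal.tsum_add]
  refine tsum_congr fun P => ?_
  split_ifs
  · unfold XX
    have hb : Measurable fun z : PhasePoint × Par P => (bt P z.2, z.1) :=
      ((measurable_bt P).comp measurable_snd).prodMk measurable_fst
    have hm : Measurable fun z : PhasePoint × Par P =>
        vw Φ ε P T z * (kw Φ ε k P z * ES Φ ε U φ P z) * ψ (bt P z.2, z.1) :=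
      (measurable_XX_integrand hΦ hk hU hφ P).mul (hψ.comp hb)
    rw [← lintegral_add_left hm]
    refine lintegral_congr fun z => ?_
    ring
  · simp

theorem XS_const_mul (hΦ : AdmissiblePotential Φ) (hk : Measurable k)
    (hU : ∀ P, Measurable (U P)) (hφ : Measurable φ) (K : ℕ) {ψ : ℝ × PhasePoint → ℝ≥0∞}
    (hψ : Measurable ψ) (c : ℝ≥0∞) :
    XS Φ ε T k U φ K (fun q => c * ψ q) = c * XS Φ ε T k U φ K ψ := by
  unfold XS
  rw [← ENNReal.tsum_mul_left]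
  refine tsum_congr fun P => ?_
  split_ifs
  · unfold XX
    have hb : Measurable fun z : PhasePoint × Par P => (bt P z.2, z.1) :=
      ((measurable_bt P).comp measurable_snd).prodMk measurable_fst
    have hm : Measurable fun z : PhasePoint × Par P =>
        vw Φ ε P T z * (kw Φ ε k P z * ES Φ ε U φ P z) * ψ (bt P z.2, z.1) :=
      (measurable_XX_integrand hΦ hk hU hφ P).mul (hψ.comp hb)
    rw [← lintegral_const_mul _ hm]
    refine lintegral_congr fun z => ?_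
    ring
  · simp

/-- sum over the exits at the top node -/
def TS (Φ : Space3 → ℝ) (ε T : ℝ) (k : PhasePoint → ℝ≥0∞)
    (U : ∀ P : CTree, PhasePoint × Par P → ℝ≥0∞) (φ : ML → ℝ≥0∞) (K : ℕ)
    (ψ : ℝ × PhasePoint → ℝ≥0∞) : ℝ≥0∞ :=
  ∑ m ∈ Finset.Icc 1 K, ∑ ab ∈ Finset.HasAntidiagonal.antidiagonal m,
    NI Φ ε T (HT ε m φ (DP Φ ε T k U fun Q => Q.leaves = ab.1)
      (DP Φ ε T k U fun Q => Q.leaves = ab.2) ψ (sinM Φ ε))

/-- top exits of two classes -/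
theorem NI_HT_class (hΦ : AdmissiblePotential Φ) (hk : Measurable k)
    (hU : ∀ P, Measurable (U P)) (hφ : Measurable φ) (m : ℕ) (p₁ p₂ : CTree → Prop)
    [DecidablePred p₁] [DecidablePred p₂] {ψ : ℝ × PhasePoint → ℝ≥0∞} (hψ : Measurable ψ) :
    NI Φ ε T (HT ε m φ (DP Φ ε T k U p₁) (DP Φ ε T k U p₂) ψ (sinM Φ ε)) =
      ∑' l, ∑' r, if p₁ l ∧ p₂ r then
        NI Φ ε T (HT ε m φ (dn Φ ε T k l (U l)) (dn Φ ε T k r (U r)) ψ (sinM Φ ε)) else 0 := by
  have ms := measurable_sinM hΦ ε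
  have e1 : HT ε m φ (DP Φ ε T k U p₁) (DP Φ ε T k U p₂) ψ (sinM Φ ε) =
      fun w => ∑' l, ∑' r, HT ε m φ (if p₁ l then dn Φ ε T k l (U l) else 0)
        (if p₂ r then dn Φ ε T k r (U r) else 0) ψ (sinM Φ ε) w := by
    funext w
    simp only [HT, DP]
    simp only [ENNReal.tsum_mul_left, ENNReal.tsum_mul_right]
  have mH : ∀ l r, Measurable (HT ε m φ (if p₁ l then dn Φ ε T k l (U l) else 0)
        (if p₂ r then dn Φ ε T k r (U r) else 0) ψ (sinM Φ ε)) := fun l r =>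
    measurable_HT hφ (measurable_ite_dn hΦ hk hU (p₁ l) l) (measurable_ite_dn hΦ hk hU (p₂ r) r)
      hψ ms
  rw [e1, NI_tsum hΦ fun l => Measurable.tsum fun r => mH l r]
  refine tsum_congr fun l => ?_
  rw [NI_tsum hΦ fun r => mH l r]
  refine tsum_congr fun r => ?_
  by_cases h1 : p₁ l
  · by_cases h2 : p₂ r
    · rw [if_pos h1, if_pos h2, if_pos ⟨h1, h2⟩]
    · rw [if_neg h2, if_neg (fun h : p₁ l ∧ p₂ r => h2 h.2)]
      unfold NI HT
      simp
  · rw [if_neg h1, if_neg (fun h : p₁ l ∧ p₂ r => h1 h.1)]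
    unfold NI HT
    simp

theorem top_sum_le (hΦ : AdmissiblePotential Φ) (hk : Measurable k)
    (hU : ∀ P, Measurable (U P)) (hφ : Measurable φ) (K : ℕ) {ψ : ℝ × PhasePoint → ℝ≥0∞}
    (hψ : Measurable ψ) :
    ∑' l, ∑' r, (if l.leaves + r.leaves ≤ K then
      NI Φ ε T (HT ε (l.leaves + r.leaves) φ (dn Φ ε T k l (U l)) (dn Φ ε T k r (U r)) ψ
        (sinM Φ ε)) else 0) ≤ TS Φ ε T k U φ K ψ := by
  unfold TS
  simp only [NI_HT_class hΦ hk hU hφ _ _ _ hψ]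
  have e1 : ∑ m ∈ Finset.Icc 1 K, ∑ ab ∈ Finset.HasAntidiagonal.antidiagonal m, ∑' l : CTree, ∑' r : CTree,
      (if l.leaves = ab.1 ∧ r.leaves = ab.2 then
        NI Φ ε T (HT ε m φ (dn Φ ε T k l (U l)) (dn Φ ε T k r (U r)) ψ (sinM Φ ε)) else 0) =
      ∑' l : CTree, ∑' r : CTree, ∑ m ∈ Finset.Icc 1 K, ∑ ab ∈ Finset.HasAntidiagonal.antidiagonal m,
      (if l.leaves = ab.1 ∧ r.leaves = ab.2 then
        NI Φ ε T (HT ε m φ (dn Φ ε T k l (U l)) (dn Φ ε T k r (U r)) ψ (sinM Φ ε)) else 0) := by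
    have hs : ∀ {α β : Type} (s : Finset α) (f : α → β → ℝ≥0∞),
        ∑ i ∈ s, ∑' b, f i b = ∑' b, ∑ i ∈ s, f i b := fun s f =>
      (Summable.tsum_finsetSum fun i _ => ENNReal.summable).symm
    simp only [hs]
  rw [e1]
  refine ENNReal.tsum_le_tsum fun l => ENNReal.tsum_le_tsum fun r => ?_
  by_cases h : l.leaves + r.leaves ≤ K
  · rw [if_pos h]
    have hm : l.leaves + r.leaves ∈ Finset.Icc 1 K := by
      rw [Finset.mem_Icc]
      exact ⟨le_trans (one_le_leaves l) (Nat.le_add_right _ _), h⟩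
    have hab : (l.leaves, r.leaves) ∈ Finset.HasAntidiagonal.antidiagonal (l.leaves + r.leaves) := by
      rw [Finset.HasAntidiagonal.mem_antidiagonal]
    refine le_trans ?_ (Finset.single_le_sum (f := fun m => ∑ ab ∈ Finset.HasAntidiagonal.antidiagonal m,
      (if l.leaves = ab.1 ∧ r.leaves = ab.2 then
        NI Φ ε T (HT ε m φ (dn Φ ε T k l (U l)) (dn Φ ε T k r (U r)) ψ (sinM Φ ε)) else 0))
      (fun _ _ => bot_le) hm)
    refine le_trans ?_ (Finset.single_le_sum (f := fun ab : ℕ × ℕ =>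
      (if l.leaves = ab.1 ∧ r.leaves = ab.2 then
        NI Φ ε T (HT ε (l.leaves + r.leaves) φ (dn Φ ε T k l (U l)) (dn Φ ε T k r (U r)) ψ
          (sinM Φ ε)) else 0)) (fun _ _ => bot_le) hab)
    simp
  · rw [if_neg h]
    exact bot_le

/-- **Recursion over the number of leaves.** -/
theorem XS_succ_le (hΦ : AdmissiblePotential Φ) (hε : 0 < ε) (hk : Measurable k)
    (hU : ∀ P, Measurable (U P)) (hφ : Measurable φ) (K : ℕ) {ψ : ℝ × PhasePoint → ℝ≥0∞}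
    (hψ : Measurable ψ) :
    XS Φ ε T k U φ (K + 1) ψ ≤ TS Φ ε T k U φ (K + 1) ψ +
      (XS Φ ε T k U φ K (AL Φ ε T (DP Φ ε T k U fun Q => Q.leaves ≤ K) ψ) +
       XS Φ ε T k U φ K (AR Φ ε T (DP Φ ε T k U fun Q => Q.leaves ≤ K) ψ)) := by
  have md : ∀ Q, Measurable (if Q.leaves ≤ K then dn Φ ε T k Q (U Q) else 0) := fun Q =>
    measurable_ite_dn hΦ hk hU (Q.leaves ≤ K) Q
  have e0 : XS Φ ε T k U φ (K + 1) ψ = ∑' l : CTree, ∑' r : CTree,
      (if l.leaves + r.leaves ≤ K + 1 then XX Φ ε T k U φ (node l r) ψ else 0) := by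
    unfold XS
    rw [tsum_ctree, XX_leaf]
    simp only [ite_self, zero_add]
    rfl
  -- the three parts
  have e1 : ∀ l r : CTree, (if l.leaves + r.leaves ≤ K + 1 then XX Φ ε T k U φ (node l r) ψ
      else 0) ≤ (if l.leaves + r.leaves ≤ K + 1 then
        NI Φ ε T (HT ε (l.leaves + r.leaves) φ (dn Φ ε T k l (U l)) (dn Φ ε T k r (U r)) ψ
          (sinM Φ ε)) else 0) +
      ((if l.leaves ≤ K then XX Φ ε T k U φ l
          (AL Φ ε T (if r.leaves ≤ K then dn Φ ε T k r (U r) else 0) ψ) else 0) +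
       (if r.leaves ≤ K then XX Φ ε T k U φ r
          (AR Φ ε T (if l.leaves ≤ K then dn Φ ε T k l (U l) else 0) ψ) else 0)) := by
    intro l r
    by_cases h : l.leaves + r.leaves ≤ K + 1
    · have hl := one_le_leaves l
      have hr := one_le_leaves r
      have h1 : l.leaves ≤ K := by omega
      have h2 : r.leaves ≤ K := by omega
      rw [if_pos h, if_pos h, if_pos h1, if_pos h2, if_pos h2, if_pos h1]
      exact XX_node_le hΦ hε hk hU hφ l r hψ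
    · rw [if_neg h]
      exact bot_le
  rw [e0]
  refine (ENNReal.tsum_le_tsum fun l => ENNReal.tsum_le_tsum fun r => e1 l r).trans ?_
  simp only [ENNReal.tsum_add]
  refine add_le_add (top_sum_le hΦ hk hU hφ (K + 1) hψ) (add_le_add (le_of_eq ?_) (le_of_eq ?_))
  · unfold XS
    refine tsum_congr fun l => ?_
    by_cases h1 : l.leaves ≤ K
    · simp only [if_pos h1]
      rw [← XX_tsum hΦ hk hU hφ l fun r => measurable_AL hΦ hε (md r) hψ]
      congr 1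
      funext q
      exact (AL_tsum hΦ hε md hψ q).symm
    · simp [if_neg h1]
  · rw [ENNReal.tsum_comm]
    unfold XS
    refine tsum_congr fun r => ?_
    by_cases h1 : r.leaves ≤ K
    · simp only [if_pos h1]
      rw [← XX_tsum hΦ hk hU hφ r fun l => measurable_AR hΦ hε (md l) hψ]
      congr 1
      funext q
      exact (AR_tsum hΦ hε md hψ q).symm
    · simp [if_neg h1]

theorem XS_zero (ψ : ℝ × PhasePoint → ℝ≥0∞) : XS Φ ε T k U φ 0 ψ = 0 := by
  unfold XS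
  have h : ∀ P : CTree, (if P.leaves ≤ 0 then XX Φ ε T k U φ P ψ else 0) = 0 := by
    intro P
    have := one_le_leaves P
    rw [if_neg (by omega)]
  simp only [h, tsum_zero]

/-! ### Monotonicity and linearity of the forward operators -/

theorem AL_mono (hΦ : AdmissiblePotential Φ) (hε : 0 < ε) {D D' ψ : ℝ × PhasePoint → ℝ≥0∞}
    (h : ∀ t ∈ Ioo 0 T, ∀ ℓ, D (t, ℓ) ≤ D' (t, ℓ)) (q : ℝ × PhasePoint) :
    AL Φ ε T D ψ q ≤ AL Φ ε T D' ψ q := by
  unfold AL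
  refine lintegral_mono fun a => ?_
  by_cases hz : (q.2, a) ∈ GoodL Φ ε T
  · obtain ⟨_, f2, f3, f4, _⟩ := goodL_facts hΦ hε hz
    have h1 := h a.1 ⟨f2, f3.trans_lt f4⟩ (inLine ε q.2 a)
    gcongr
  · have hg : gL Φ ε T (q.2, a) = 0 := by
      unfold gL
      exact indicator_of_notMem hz _
    rw [hg, zero_mul]
    exact bot_le

theorem AR_mono (hΦ : AdmissiblePotential Φ) (hε : 0 < ε) {D D' ψ : ℝ × PhasePoint → ℝ≥0∞}
    (h : ∀ t ∈ Ioo 0 T, ∀ ℓ, D (t, ℓ) ≤ D' (t, ℓ)) (q : ℝ × PhasePoint) :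
    AR Φ ε T D ψ q ≤ AR Φ ε T D' ψ q := by
  unfold AR
  refine lintegral_mono fun a => ?_
  by_cases hz : (q.2, a) ∈ GoodR Φ ε T
  · obtain ⟨_, f2, f3, f4, _⟩ := goodR_facts hΦ hε hz
    have h1 := h a.1 ⟨f2, f3.trans_lt f4⟩ (inLine ε q.2 a)
    gcongr
  · have hg : gR Φ ε T (q.2, a) = 0 := by
      unfold gR
      exact indicator_of_notMem hz _
    rw [hg, zero_mul]
    exact bot_le

theorem AL_add_mul (hΦ : AdmissiblePotential Φ) (hε : 0 < ε) {D E ψ : ℝ × PhasePoint → ℝ≥0∞}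
    (hD : Measurable D) (hE : Measurable E) (hψ : Measurable ψ) (c : ℝ≥0∞) (q : ℝ × PhasePoint) :
    AL Φ ε T (fun q => D q + c * E q) ψ q = AL Φ ε T D ψ q + c * AL Φ ε T E ψ q := by
  rw [AL_eq, AL_eq, AL_eq]
  have n1 : Measurable fun a : NodeP => (q.1, a.1) := measurable_const.prodMk measurable_fst
  have n2 : Measurable fun a : NodeP => ((q.2, a) : PhasePoint × NodeP) :=
    measurable_const.prodMk measurable_id
  have mD := (measurable_Ioi_ind.comp n1).mul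
    ((measurable_AL_integrand (T := T) hΦ hε hD hψ).comp n2)
  have mE := (measurable_Ioi_ind.comp n1).mul
    ((measurable_AL_integrand (T := T) hΦ hε hE hψ).comp n2)
  have h2 := lintegral_const_mul (μ := (volume : Measure NodeP)) c mE
  have h3 := lintegral_add_left (μ := (volume : Measure NodeP)) mD
    (fun a => c * ((Ioi q.1).indicator 1 a.1 *
      (gL Φ ε T (q.2, a) * (ENNReal.ofReal ‖q.2.2 - a.2.1‖ *
        (ψ ((outD Φ ε T (q.2, inLine ε q.2 a)).2.1,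
          (outD Φ ε T (q.2, inLine ε q.2 a)).1) * E (a.1, inLine ε q.2 a))))))
  have h4 : ∫⁻ a : NodeP, c * ((Ioi q.1).indicator 1 a.1 *
      (gL Φ ε T (q.2, a) * (ENNReal.ofReal ‖q.2.2 - a.2.1‖ *
        (ψ ((outD Φ ε T (q.2, inLine ε q.2 a)).2.1,
          (outD Φ ε T (q.2, inLine ε q.2 a)).1) * E (a.1, inLine ε q.2 a))))) =
      c * ∫⁻ a : NodeP, (Ioi q.1).indicator 1 a.1 *
      (gL Φ ε T (q.2, a) * (ENNReal.ofReal ‖q.2.2 - a.2.1‖ *
        (ψ ((outD Φ ε T (q.2, inLine ε q.2 a)).2.1,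
          (outD Φ ε T (q.2, inLine ε q.2 a)).1) * E (a.1, inLine ε q.2 a)))) := h2
  rw [h4] at h3
  refine Eq.trans ?_ h3
  refine lintegral_congr fun a => ?_
  simp only [Pi.mul_apply, Function.comp]
  ring

theorem AR_add_mul (hΦ : AdmissiblePotential Φ) (hε : 0 < ε) {D E ψ : ℝ × PhasePoint → ℝ≥0∞}
    (hD : Measurable D) (hE : Measurable E) (hψ : Measurable ψ) (c : ℝ≥0∞) (q : ℝ × PhasePoint) :
    AR Φ ε T (fun q => D q + c * E q) ψ q = AR Φ ε T D ψ q + c * AR Φ ε T E ψ q := by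
  rw [AR_eq, AR_eq, AR_eq]
  have n1 : Measurable fun a : NodeP => (q.1, a.1) := measurable_const.prodMk measurable_fst
  have n2 : Measurable fun a : NodeP => ((q.2, a) : PhasePoint × NodeP) :=
    measurable_const.prodMk measurable_id
  have mD := (measurable_Ioi_ind.comp n1).mul
    ((measurable_AR_integrand (T := T) hΦ hε hD hψ).comp n2)
  have mE := (measurable_Ioi_ind.comp n1).mul
    ((measurable_AR_integrand (T := T) hΦ hε hE hψ).comp n2)
  have h2 := lintegral_const_mul (μ := (volume : Measure NodeP)) c mE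
  have h3 := lintegral_add_left (μ := (volume : Measure NodeP)) mD
    (fun a => c * ((Ioi q.1).indicator 1 a.1 *
      (gR Φ ε T (q.2, a) * (ENNReal.ofReal ‖q.2.2 - a.2.1‖ *
        (ψ ((outD Φ ε T (inLine ε q.2 a, q.2)).2.1,
          (outD Φ ε T (inLine ε q.2 a, q.2)).1) * E (a.1, inLine ε q.2 a))))))
  have h4 : ∫⁻ a : NodeP, c * ((Ioi q.1).indicator 1 a.1 *
      (gR Φ ε T (q.2, a) * (ENNReal.ofReal ‖q.2.2 - a.2.1‖ *
        (ψ ((outD Φ ε T (inLine ε q.2 a, q.2)).2.1,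
          (outD Φ ε T (inLine ε q.2 a, q.2)).1) * E (a.1, inLine ε q.2 a))))) =
      c * ∫⁻ a : NodeP, (Ioi q.1).indicator 1 a.1 *
      (gR Φ ε T (q.2, a) * (ENNReal.ofReal ‖q.2.2 - a.2.1‖ *
        (ψ ((outD Φ ε T (inLine ε q.2 a, q.2)).2.1,
          (outD Φ ε T (inLine ε q.2 a, q.2)).1) * E (a.1, inLine ε q.2 a)))) := h2
  rw [h4] at h3
  refine Eq.trans ?_ h3
  refine lintegral_congr fun a => ?_
  simp only [Pi.mul_apply, Function.comp]
  ring

/-! ### Crude bounds -/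

/-- crude bound of the total density of the trees with at most `K` leaves -/
def Crude (Φ : Space3 → ℝ) (ε T : ℝ) (k : PhasePoint → ℝ≥0∞) (K : ℕ) (c : ℝ≥0∞) (b : ℝ) : Prop :=
  ∀ ℓ : PhasePoint, ∑' P : CTree, (if P.leaves ≤ K then
    ∫⁻ p : Par P, vw Φ ε P T (ℓ, p) * kw Φ ε k P (ℓ, p) else 0) ≤ c * wG b ℓ.2

theorem DP_le_crude (hU1 : ∀ P z, U P z ≤ 1) {K : ℕ} {c : ℝ≥0∞} {b : ℝ}
    (hc : Crude Φ ε T k K c b) {p : CTree → Prop} [DecidablePred p]
    (hp : ∀ Q, p Q → Q.leaves ≤ K) (q : ℝ × PhasePoint) :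
    DP Φ ε T k U p q ≤ c * wG b q.2.2 := by
  refine le_trans ?_ (hc q.2)
  unfold DP
  refine ENNReal.tsum_le_tsum fun Q => ?_
  by_cases h : p Q
  · rw [if_pos h, if_pos (hp Q h)]
    refine lintegral_mono fun y => ?_
    have h1 : topI Q (q.1, y) ≤ 1 := by
      unfold topI
      exact indicator_le_self' (fun _ _ => zero_le_one) _
    calc topI Q (q.1, y) * (vw Φ ε Q T (q.2, y) * (kw Φ ε k Q (q.2, y) * U Q (q.2, y))) ≤
        1 * (vw Φ ε Q T (q.2, y) * (kw Φ ε k Q (q.2, y) * 1)) :=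
          mul_le_mul' h1 (mul_le_mul' le_rfl (mul_le_mul' le_rfl (hU1 _ _)))
      _ = _ := by rw [one_mul, mul_one]
  · rw [if_neg h]
    exact bot_le

/-- exits against a function of the root line only -/
theorem XS_le_crude (hΦ : AdmissiblePotential Φ) (hk : Measurable k)
    (hU : ∀ P, Measurable (U P)) (hU1 : ∀ P z, U P z ≤ 1) (hφ : Measurable φ)
    (hφ1 : ∀ x, φ x ≤ 1) {K : ℕ} {c : ℝ≥0∞} {b : ℝ}
    (hc : Crude Φ ε T k K c b) {ψ : ℝ × PhasePoint → ℝ≥0∞} (hψ : Measurable ψ)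
    {g : PhasePoint → ℝ≥0∞} (hg : Measurable g) (h : ∀ q, ψ q ≤ g q.2) :
    XS Φ ε T k U φ K ψ ≤ ∫⁻ ℓ : PhasePoint, ((K : ℝ≥0∞) * c * wG b ℓ.2) * g ℓ := by
  have e1 : ∀ P : CTree, (if P.leaves ≤ K then XX Φ ε T k U φ P ψ else 0) ≤
      ∫⁻ ℓ : PhasePoint, (K : ℝ≥0∞) * g ℓ * (if P.leaves ≤ K then
        ∫⁻ p : Par P, vw Φ ε P T (ℓ, p) * kw Φ ε k P (ℓ, p) else 0) := by
    intro P
    by_cases hP : P.leaves ≤ K
    · simp only [if_pos hP]
      unfold XX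
      have hb : Measurable fun z : PhasePoint × Par P => (bt P z.2, z.1) :=
        ((measurable_bt P).comp measurable_snd).prodMk measurable_fst
      have hm : Measurable fun z : PhasePoint × Par P =>
          vw Φ ε P T z * (kw Φ ε k P z * ES Φ ε U φ P z) * ψ (bt P z.2, z.1) :=
        (measurable_XX_integrand hΦ hk hU hφ P).mul (hψ.comp hb)
      rw [Tree674.lintegral_pair hm]
      refine lintegral_mono fun ℓ => ?_
      have mvk : Measurable fun p : Par P => vw Φ ε P T (ℓ, p) * kw Φ ε k P (ℓ, p) := by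
        have n : Measurable fun p : Par P => ((ℓ, p) : PhasePoint × Par P) :=
          measurable_const.prodMk measurable_id
        exact ((measurable_vw hΦ ε P T).comp n).mul ((measurable_kw hΦ hk P).comp n)
      show ∫⁻ p : Par P, _ ≤ _
      rw [← lintegral_const_mul _ mvk]
      refine lintegral_mono fun p => ?_
      have h1 := ES_le (Φ := Φ) (ε := ε) hU1 hφ1 P (ℓ, p)
      have h2 : (P.size : ℝ≥0∞) ≤ (K : ℝ≥0∞) := by
        have := CTree.leaves_eq P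
        exact_mod_cast (by omega : P.size ≤ K)
      calc vw Φ ε P T (ℓ, p) * (kw Φ ε k P (ℓ, p) * ES Φ ε U φ P (ℓ, p)) * ψ (bt P p, ℓ) ≤
          vw Φ ε P T (ℓ, p) * (kw Φ ε k P (ℓ, p) * (K : ℝ≥0∞)) * g ℓ :=
            mul_le_mul' (mul_le_mul' le_rfl (mul_le_mul' le_rfl (h1.trans h2))) (h _)
        _ = _ := by ring
    · simp only [if_neg hP]
      exact bot_le
  unfold XS
  refine (ENNReal.tsum_le_tsum e1).trans ?_
  have mP : ∀ P : CTree, Measurable fun ℓ : PhasePoint => (K : ℝ≥0∞) * g ℓ *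
      (if P.leaves ≤ K then ∫⁻ p : Par P, vw Φ ε P T (ℓ, p) * kw Φ ε k P (ℓ, p) else 0) := by
    intro P
    refine (hg.const_mul _).mul ?_
    split_ifs
    · have h2 : Measurable fun z : PhasePoint × Par P => vw Φ ε P T z * kw Φ ε k P z :=
        (measurable_vw hΦ ε P T).mul (measurable_kw hΦ hk P)
      exact h2.lintegral_prod_right'
    · exact measurable_const
  rw [← lintegral_tsum fun P => (mP P).aemeasurable]
  refine lintegral_mono fun ℓ => ?_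
  rw [ENNReal.tsum_mul_left]
  calc (K : ℝ≥0∞) * g ℓ * _ ≤ (K : ℝ≥0∞) * g ℓ * (c * wG b ℓ.2) := mul_le_mul' le_rfl (hc ℓ)
    _ = _ := by ring

/-- forward operator applied to an excess, then integrated against the exits: first orientation -/
theorem XS_AL_le (hΦ : AdmissiblePotential Φ) (hε : 0 < ε) (hk : Measurable k)
    (hU : ∀ P, Measurable (U P)) (hU1 : ∀ P z, U P z ≤ 1) (hφ : Measurable φ)
    (hφ1 : ∀ x, φ x ≤ 1) {K : ℕ} {c : ℝ≥0∞} {b : ℝ} (hc : Crude Φ ε T k K c b)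
    {ν κ : ℝ} (hν : 0 ≤ ν) (hκ : 0 ≤ κ) {E : ℝ × PhasePoint → ℝ≥0∞} (hE : Measurable E) :
    XS Φ ε T k U φ K (AL Φ ε T E (Wf ν κ T)) ≤
      (((K : ℝ≥0∞) * c * ENNReal.ofReal (Real.exp (ν * T))) * (mV b κ T * vD)) * EI κ T E := by
  have mW := measurable_Wf ν κ T
  set D₁ : ℝ × PhasePoint → ℝ≥0∞ := fun q => (K : ℝ≥0∞) * c * wG b q.2.2 with hD₁
  have mD₁ : Measurable D₁ := ((measurable_wG' b).comp measurable_snd.snd).const_mul _
  have mR := measurable_AL_integrand (T := T) hΦ hε hE mW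
  set g : PhasePoint → ℝ≥0∞ := fun ℓ => ∫⁻ a : NodeP, gL Φ ε T (ℓ, a) *
    (ENNReal.ofReal ‖ℓ.2 - a.2.1‖ * (Wf ν κ T ((outD Φ ε T (ℓ, inLine ε ℓ a)).2.1,
      (outD Φ ε T (ℓ, inLine ε ℓ a)).1) * E (a.1, inLine ε ℓ a))) with hg
  have mg : Measurable g := mR.lintegral_prod_right'
  have h1 : ∀ q : ℝ × PhasePoint, AL Φ ε T E (Wf ν κ T) q ≤ g q.2 := by
    intro q
    rw [AL_eq]
    refine lintegral_mono fun a => ?_
    have h2 : (Ioi q.1).indicator (1 : ℝ → ℝ≥0∞) a.1 ≤ 1 :=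
      indicator_le_self' (fun _ _ => zero_le_one) _
    calc _ ≤ 1 * _ := mul_le_mul' h2 le_rfl
      _ = _ := one_mul _
  refine (XS_le_crude hΦ hk hU hU1 hφ hφ1 hc (measurable_AL hΦ hε hE mW) mg h1).trans ?_
  have h3 : ∫⁻ ℓ : PhasePoint, ((K : ℝ≥0∞) * c * wG b ℓ.2) * g ℓ =
      NI Φ ε T (H2 D₁ E (Wf ν κ T) (sinM Φ ε)) := by
    have ms := measurable_sinM hΦ ε
    have mH := measurable_H2 mD₁ hE mW ms
    rw [NI_flipL hΦ hε mH]
    have mo := (measurable_outD hΦ hε T).comp (measurable_pairL ε)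
    have mw : Measurable fun z : PhasePoint × NodeP => ENNReal.ofReal ‖z.1.2 - z.2.2.1‖ := by
      fun_prop
    have mF : Measurable fun z : PhasePoint × NodeP => gL Φ ε T z *
        (ENNReal.ofReal ‖z.1.2 - z.2.2.1‖ * H2 D₁ E (Wf ν κ T) (sinM Φ ε)
          (outD Φ ε T (z.1, inLine ε z.1 z.2), (z.1, inLine ε z.1 z.2))) :=
      (measurable_gL hΦ hε T).mul (mw.mul (mH.comp (mo.prodMk (measurable_pairL ε))))
    rw [Tree674.lintegral_pair mF]
    refine lintegral_congr fun ℓ => ?_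
    have n2 : Measurable fun a : NodeP => ((ℓ, a) : PhasePoint × NodeP) :=
      measurable_const.prodMk measurable_id
    have mRl : Measurable fun a : NodeP => gL Φ ε T (ℓ, a) *
      (ENNReal.ofReal ‖ℓ.2 - a.2.1‖ * (Wf ν κ T ((outD Φ ε T (ℓ, inLine ε ℓ a)).2.1,
      (outD Φ ε T (ℓ, inLine ε ℓ a)).1) * E (a.1, inLine ε ℓ a))) := mR.comp n2
    rw [hg, ← lintegral_const_mul _ mRl]
    refine lintegral_congr fun a => ?_
    by_cases hz : (ℓ, a) ∈ GoodL Φ ε T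
    · have hsin : sinM Φ ε (outD Φ ε T (ℓ, inLine ε ℓ a)) = a.1 := by
        rw [sinM_of_adm hz.2.1]
        exact sin_of_mem_GoodL hΦ hε hz
      simp only [H2, hsin, hD₁]
      ring
    · have hgz : gL Φ ε T (ℓ, a) = 0 := by
        unfold gL
        exact indicator_of_notMem hz _
      rw [hgz]
      simp
  rw [h3]
  exact NI_R_le hΦ hε hν hκ mD₁ hE fun t _ ℓ => le_rfl

/-- the same, second orientation -/
theorem XS_AR_le (hΦ : AdmissiblePotential Φ) (hε : 0 < ε) (hk : Measurable k)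
    (hU : ∀ P, Measurable (U P)) (hU1 : ∀ P z, U P z ≤ 1) (hφ : Measurable φ)
    (hφ1 : ∀ x, φ x ≤ 1) {K : ℕ} {c : ℝ≥0∞} {b : ℝ} (hc : Crude Φ ε T k K c b)
    {ν κ : ℝ} (hν : 0 ≤ ν) (hκ : 0 ≤ κ) {E : ℝ × PhasePoint → ℝ≥0∞} (hE : Measurable E) :
    XS Φ ε T k U φ K (AR Φ ε T E (Wf ν κ T)) ≤
      (((K : ℝ≥0∞) * c * ENNReal.ofReal (Real.exp (ν * T))) * (mV b κ T * vD)) * EI κ T E := by
  have mW := measurable_Wf ν κ T
  set D₁ : ℝ × PhasePoint → ℝ≥0∞ := fun q => (K : ℝ≥0∞) * c * wG b q.2.2 with hD₁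
  have mD₁ : Measurable D₁ := ((measurable_wG' b).comp measurable_snd.snd).const_mul _
  have mR := measurable_AR_integrand (T := T) hΦ hε hE mW
  set g : PhasePoint → ℝ≥0∞ := fun ℓ => ∫⁻ a : NodeP, gR Φ ε T (ℓ, a) *
    (ENNReal.ofReal ‖ℓ.2 - a.2.1‖ * (Wf ν κ T ((outD Φ ε T (inLine ε ℓ a, ℓ)).2.1,
      (outD Φ ε T (inLine ε ℓ a, ℓ)).1) * E (a.1, inLine ε ℓ a))) with hg
  have mg : Measurable g := mR.lintegral_prod_right'
  have h1 : ∀ q : ℝ × PhasePoint, AR Φ ε T E (Wf ν κ T) q ≤ g q.2 := by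
    intro q
    rw [AR_eq]
    refine lintegral_mono fun a => ?_
    have h2 : (Ioi q.1).indicator (1 : ℝ → ℝ≥0∞) a.1 ≤ 1 :=
      indicator_le_self' (fun _ _ => zero_le_one) _
    calc _ ≤ 1 * _ := mul_le_mul' h2 le_rfl
      _ = _ := one_mul _
  refine (XS_le_crude hΦ hk hU hU1 hφ hφ1 hc (measurable_AR hΦ hε hE mW) mg h1).trans ?_
  have h3 : ∫⁻ ℓ : PhasePoint, ((K : ℝ≥0∞) * c * wG b ℓ.2) * g ℓ =
      NI Φ ε T (H2 E D₁ (Wf ν κ T) (sinM Φ ε)) := by
    have ms := measurable_sinM hΦ ε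
    have mH := measurable_H2 hE mD₁ mW ms
    rw [NI_flipR hΦ hε mH]
    have mo := (measurable_outD hΦ hε T).comp (measurable_pairR ε)
    have mw : Measurable fun z : PhasePoint × NodeP => ENNReal.ofReal ‖z.1.2 - z.2.2.1‖ := by
      fun_prop
    have mF : Measurable fun z : PhasePoint × NodeP => gR Φ ε T z *
        (ENNReal.ofReal ‖z.1.2 - z.2.2.1‖ * H2 E D₁ (Wf ν κ T) (sinM Φ ε)
          (outD Φ ε T (inLine ε z.1 z.2, z.1), (inLine ε z.1 z.2, z.1))) :=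
      (measurable_gR hΦ hε T).mul (mw.mul (mH.comp (mo.prodMk (measurable_pairR ε))))
    rw [Tree674.lintegral_pair mF]
    refine lintegral_congr fun ℓ => ?_
    have n2 : Measurable fun a : NodeP => ((ℓ, a) : PhasePoint × NodeP) :=
      measurable_const.prodMk measurable_id
    have mRl : Measurable fun a : NodeP => gR Φ ε T (ℓ, a) *
      (ENNReal.ofReal ‖ℓ.2 - a.2.1‖ * (Wf ν κ T ((outD Φ ε T (inLine ε ℓ a, ℓ)).2.1,
      (outD Φ ε T (inLine ε ℓ a, ℓ)).1) * E (a.1, inLine ε ℓ a))) := mR.comp n2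
    rw [hg, ← lintegral_const_mul _ mRl]
    refine lintegral_congr fun a => ?_
    by_cases hz : (ℓ, a) ∈ GoodR Φ ε T
    · have hsin : sinM Φ ε (outD Φ ε T (inLine ε ℓ a, ℓ)) = a.1 := by
        rw [sinM_of_adm hz.2.1]
        exact sin_of_mem_GoodR hΦ hε hz
      simp only [H2, hsin, hD₁]
      ring
    · have hgz : gR Φ ε T (ℓ, a) = 0 := by
        unfold gR
        exact indicator_of_notMem hz _
      rw [hgz]
      simp
  rw [h3]
  exact NI_L_le hΦ hε hν hκ mD₁ hE fun t _ ℓ => le_rfl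

/-! ### The core estimate -/

/-- main term -/
def MT (ρ : ℝ≥0∞) (T b : ℝ) (φ : ML → ℝ≥0∞) (K : ℕ) : ℝ≥0∞ :=
  ∑ m ∈ Finset.Icc 1 K, ((m : ℝ≥0∞) + 1) * (ρ ^ m * LI T b φ m)

theorem MT_mono (ρ : ℝ≥0∞) (T b : ℝ) (φ : ML → ℝ≥0∞) (K : ℕ) :
    MT ρ T b φ K ≤ MT ρ T b φ (K + 1) :=
  Finset.sum_le_sum_of_subset (Finset.Icc_subset_Icc_right (Nat.le_succ K))

/-- control of the densities by size class: geometric Gaussian bound plus an excess `E` -/
def Ctrl (Φ : Space3 → ℝ) (ε T : ℝ) (k : PhasePoint → ℝ≥0∞)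
    (U : ∀ P : CTree, PhasePoint × Par P → ℝ≥0∞) (K : ℕ) (c₀ ρ : ℝ≥0∞) (b : ℝ)
    (E : ℝ × PhasePoint → ℝ≥0∞) : Prop :=
  ∀ m, m ≤ K → ∀ t ∈ Ioo 0 T, ∀ ℓ : PhasePoint,
    DP Φ ε T k U (fun Q => Q.leaves = m) (t, ℓ) ≤ c₀ * ρ ^ m * wG b ℓ.2 + E (t, ℓ)

theorem DP_le_sum (K : ℕ) (q : ℝ × PhasePoint) :
    DP Φ ε T k U (fun Q => Q.leaves ≤ K) q =
      ∑ m ∈ Finset.range (K + 1), DP Φ ε T k U (fun Q => Q.leaves = m) q := by
  unfold DP
  rw [← Summable.tsum_finsetSum fun i _ => ENNReal.summable]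
  refine tsum_congr fun Q => ?_
  by_cases h : Q.leaves ≤ K
  · rw [if_pos h, Finset.sum_eq_single_of_mem Q.leaves (by rw [Finset.mem_range]; omega)]
    · rw [if_pos rfl]
    · intro m _ hm
      rw [if_neg (fun h => hm h.symm)]
      rfl
  · rw [if_neg h]
    symm
    refine Finset.sum_eq_zero fun m hm => ?_
    rw [Finset.mem_range] at hm
    rw [if_neg (by omega)]
    rfl

theorem Ctrl.total {K : ℕ} {c₀ ρ : ℝ≥0∞} {b : ℝ} {E : ℝ × PhasePoint → ℝ≥0∞}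
    (h : Ctrl Φ ε T k U K c₀ ρ b E) {K' : ℕ} (hK : K' ≤ K) {t : ℝ} (ht : t ∈ Ioo 0 T)
    (ℓ : PhasePoint) :
    DP Φ ε T k U (fun Q => Q.leaves ≤ K') (t, ℓ) ≤
      (c₀ * ∑' m : ℕ, ρ ^ m) * wG b ℓ.2 + ((K' : ℝ≥0∞) + 1) * E (t, ℓ) := by
  rw [DP_le_sum]
  calc ∑ m ∈ Finset.range (K' + 1), DP Φ ε T k U (fun Q => Q.leaves = m) (t, ℓ) ≤
      ∑ m ∈ Finset.range (K' + 1), (c₀ * ρ ^ m * wG b ℓ.2 + E (t, ℓ)) := by
        refine Finset.sum_le_sum fun m hm => h m ?_ t ht ℓ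
        rw [Finset.mem_range] at hm
        omega
    _ = (c₀ * ∑ m ∈ Finset.range (K' + 1), ρ ^ m) * wG b ℓ.2 +
        ((K' : ℝ≥0∞) + 1) * E (t, ℓ) := by
        rw [Finset.sum_add_distrib, Finset.sum_const, Finset.card_range, nsmul_eq_mul,
          ← Finset.sum_mul, ← Finset.mul_sum]
        push_cast
        ring
    _ ≤ _ := by
        gcongr
        exact ENNReal.sum_le_tsum _

/-- top exits -/
theorem TS_le (hΦ : AdmissiblePotential Φ) (hε : 0 < ε) (hk : Measurable k)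
    (hU : ∀ P, Measurable (U P)) (hU1 : ∀ P z, U P z ≤ 1) (hφ : Measurable φ)
    (hφ1 : ∀ x, φ x ≤ 1) {Km : ℕ} {c c₀ ρ : ℝ≥0∞} {b b₂ : ℝ} (hc : Crude Φ ε T k Km c b₂)
    {ν κ : ℝ} (hν : 0 ≤ ν) (hκ : 0 ≤ κ) {E : ℝ × PhasePoint → ℝ≥0∞} (hE : Measurable E)
    (h : Ctrl Φ ε T k U Km c₀ ρ b E) {K : ℕ} (hK : K ≤ Km) :
    TS Φ ε T k U φ K (Wf ν κ T) ≤
      (c₀ ^ 2 * (ENNReal.ofReal (Real.exp (ν * T)) * (mV b κ T * vD))) * MT ρ T b φ K +
      (∑ m ∈ Finset.Icc 1 K, ∑ ab ∈ Finset.HasAntidiagonal.antidiagonal m,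
        ((c * ENNReal.ofReal (Real.exp (ν * T))) * (mV b₂ κ T * vD) +
          (c₀ * ρ ^ ab.1 * ENNReal.ofReal (Real.exp (ν * T))) * (mV b κ T * vD))) *
        EI κ T E := by
  have mW := measurable_Wf ν κ T
  have ms := measurable_sinM hΦ ε
  have step : ∀ m ∈ Finset.Icc 1 K, ∀ ab ∈ Finset.HasAntidiagonal.antidiagonal m,
      NI Φ ε T (HT ε m φ (DP Φ ε T k U fun Q => Q.leaves = ab.1)
        (DP Φ ε T k U fun Q => Q.leaves = ab.2) (Wf ν κ T) (sinM Φ ε)) ≤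
      (c₀ ^ 2 * (ENNReal.ofReal (Real.exp (ν * T)) * (mV b κ T * vD))) *
          (ρ ^ m * LI T b φ m) +
        ((c * ENNReal.ofReal (Real.exp (ν * T))) * (mV b₂ κ T * vD) +
          (c₀ * ρ ^ ab.1 * ENNReal.ofReal (Real.exp (ν * T))) * (mV b κ T * vD)) *
            EI κ T E := by
    intro m hm ab hab
    rw [Finset.mem_Icc] at hm
    rw [Finset.HasAntidiagonal.mem_antidiagonal] at hab
    set G₁ : ℝ × PhasePoint → ℝ≥0∞ := fun q => c₀ * ρ ^ ab.1 * wG b q.2.2 with hG₁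
    set G₂ : ℝ × PhasePoint → ℝ≥0∞ := fun q => c₀ * ρ ^ ab.2 * wG b q.2.2 with hG₂
    set D₁ := DP Φ ε T k U fun Q => Q.leaves = ab.1 with hD₁
    set D₂ := DP Φ ε T k U fun Q => Q.leaves = ab.2 with hD₂
    have mG₁ : Measurable G₁ := ((measurable_wG' b).comp measurable_snd.snd).const_mul _
    have mG₂ : Measurable G₂ := ((measurable_wG' b).comp measurable_snd.snd).const_mul _
    have mD₂ : Measurable D₂ := measurable_DP hΦ hk hU _
    have hD₂c : ∀ q, D₂ q ≤ c * wG b₂ q.2.2 := fun q => DP_le_crude hU1 hc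
      (fun Q hQ => by omega) q
    have e1 : NI Φ ε T (HT ε m φ D₁ D₂ (Wf ν κ T) (sinM Φ ε)) ≤
        NI Φ ε T (fun w => HT ε m φ G₁ G₂ (Wf ν κ T) (sinM Φ ε) w +
          (H2 E D₂ (Wf ν κ T) (sinM Φ ε) w + H2 G₁ E (Wf ν κ T) (sinM Φ ε) w)) := by
      refine NI_mono fun z hz => ?_
      have hadm : Adm1 Φ z.1.2 z.2 := hz.1
      have hs0 : 0 < sinM Φ ε z := by rw [sinM_of_adm hadm]; exact hz.2.2
      have hsle : sinM Φ ε z ≤ z.2.1 := by
        rw [sinM_of_adm hadm]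
        exact Tree674.sin_le Φ hε.le _ _
      have hsT : sinM Φ ε z ∈ Ioo 0 T := ⟨hs0, hsle.trans_lt hz.2.1⟩
      have k1 : D₁ (sinM Φ ε z, (inMap Φ ε z.1 z.2).1) ≤
        G₁ (sinM Φ ε z, (inMap Φ ε z.1 z.2).1) + E (sinM Φ ε z, (inMap Φ ε z.1 z.2).1) :=
        h ab.1 (by omega) _ hsT _
      have k2 : D₂ (sinM Φ ε z, (inMap Φ ε z.1 z.2).2) ≤
        G₂ (sinM Φ ε z, (inMap Φ ε z.1 z.2).2) + E (sinM Φ ε z, (inMap Φ ε z.1 z.2).2) :=
        h ab.2 (by omega) _ hsT _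
      have k3 := hφ1 (exitL ε z, m)
      simp only [HT, H2]
      generalize D₁ (sinM Φ ε z, (inMap Φ ε z.1 z.2).1) = x at k1 ⊢
      generalize D₂ (sinM Φ ε z, (inMap Φ ε z.1 z.2).2) = y at k2 ⊢
      generalize G₁ (sinM Φ ε z, (inMap Φ ε z.1 z.2).1) = g1 at k1 ⊢
      generalize G₂ (sinM Φ ε z, (inMap Φ ε z.1 z.2).2) = g2 at k2 ⊢
      generalize E (sinM Φ ε z, (inMap Φ ε z.1 z.2).1) = e1 at k1 ⊢
      generalize E (sinM Φ ε z, (inMap Φ ε z.1 z.2).2) = e2 at k2 ⊢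
      generalize φ (exitL ε z, m) = f at k3 ⊢
      generalize Wf ν κ T (z.2.1, z.1) = W
      calc W * f * (x * y) ≤ W * f * ((g1 + e1) * y) := by gcongr
        _ = W * f * (g1 * y) + f * (W * (e1 * y)) := by ring
        _ ≤ W * f * (g1 * (g2 + e2)) + 1 * (W * (e1 * y)) := by gcongr
        _ = W * f * (g1 * g2) + (W * (e1 * y) + f * (W * (g1 * e2))) := by ring
        _ ≤ W * f * (g1 * g2) + (W * (e1 * y) + 1 * (W * (g1 * e2))) := by gcongr
        _ = _ := by rw [one_mul]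
    refine e1.trans ?_
    rw [NI_add hΦ (measurable_HT hφ mG₁ mG₂ mW ms), NI_add hΦ (measurable_H2 hE mD₂ mW ms)]
    have f1 := NI_top_le (T := T) hΦ hε hν hκ (c₁ := c₀ * ρ ^ ab.1) (c₂ := c₀ * ρ ^ ab.2)
      (D₁ := G₁) (D₂ := G₂) hφ m (b := b) (fun t _ ℓ => le_rfl) (fun t _ ℓ => le_rfl)
    have f2 := NI_L_le (T := T) hΦ hε hν hκ (c := c) (b := b₂) mD₂ hE (fun t _ ℓ => hD₂c (t, ℓ))
    have f3 := NI_R_le (T := T) hΦ hε hν hκ (c := c₀ * ρ ^ ab.1) (b := b) mG₁ hE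
      (fun t _ ℓ => le_rfl)
    refine (add_le_add f1 (add_le_add f2 f3)).trans (le_of_eq ?_)
    have e2 : ρ ^ m = ρ ^ ab.1 * ρ ^ ab.2 := by rw [← pow_add, hab]
    rw [e2]
    ring
  unfold TS
  refine (Finset.sum_le_sum fun m hm => Finset.sum_le_sum fun ab hab => step m hm ab hab).trans
    (le_of_eq ?_)
  simp only [Finset.sum_add_distrib, ← Finset.sum_mul, Finset.sum_const,
    Finset.Nat.card_antidiagonal, nsmul_eq_mul]
  unfold MT
  rw [Finset.mul_sum]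
  congr 1
  refine Finset.sum_congr rfl fun m _ => ?_
  push_cast
  ring

end Crest.Agent.R122.QExit814

end
end

-- ▼ part R122/QExitD_814
section

/-!
Row 122 (helper814), item G1exit, part D: the **core estimate** (deterministic).

`core` : if the densities of the trees of size class `m` are bounded by `c₀ ρ^m exp(-b|v|²) + E`,
then the sum over all exits of all trees with at most `K` leaves is bounded by the Gaussian line
measure plus a constant times the weighted integral of the excess `E`.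
-/

set_option autoImplicit false
set_option synthInstance.maxSize 1024

open MeasureTheory Set Filter Topology
open Crest.AnalysisR.Kinetic
open scoped ENNReal

noncomputable section

namespace Crest.Agent.R122.QExit814

open Kin796 Kin796.CTree Disc416 Kin416 Scat818 Flow671 Flux663 Tree674 Mark307

variable {Φ : Space3 → ℝ} {T : ℝ} {k : PhasePoint → ℝ≥0∞}

/-- **Core estimate.** -/
theorem core (hΦ : AdmissiblePotential Φ) (hk : Measurable k) {ν κ b b₂ η : ℝ}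
    (hν : 0 < ν) (hκ : 0 ≤ κ) (hb : κ * T < b) (hb₂ : κ * T < b₂)
    (hη : ∀ r : ℝ, 0 ≤ r → (1 + r) / (ν + κ * r ^ 2) ≤ η) {c₀ ρ : ℝ≥0∞} (hc₀ : c₀ ≠ ∞)
    (hρ : ρ < 1)
    (hq : 4 * (((c₀ * ∑' m : ℕ, ρ ^ m) * (mV b κ T * vD)) * ENNReal.ofReal η) ≤ 1)
    (Km : ℕ) {c : ℝ≥0∞} (hc : c ≠ ∞) (K : ℕ) (hK : K ≤ Km) :
    ∃ B : ℝ≥0∞, B ≠ ∞ ∧ ∀ (ε : ℝ) (_ : 0 < ε) (U : ∀ P : CTree, PhasePoint × Par P → ℝ≥0∞)
      (_ : ∀ P, Measurable (U P)) (_ : ∀ P z, U P z ≤ 1) (φ : ML → ℝ≥0∞) (_ : Measurable φ)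
      (_ : ∀ x, φ x ≤ 1) (E : ℝ × PhasePoint → ℝ≥0∞) (_ : Measurable E)
      (_ : Crude Φ ε T k Km c b₂) (_ : Ctrl Φ ε T k U Km c₀ ρ b E),
      XS Φ ε T k U φ K (Wf ν κ T) ≤
        2 * ((c₀ ^ 2 * (ENNReal.ofReal (Real.exp (ν * T)) * (mV b κ T * vD))) * MT ρ T b φ K) +
          B * EI κ T E := by
  have hmb : mV b κ T ≠ ∞ := mV_ne_top hb
  have hmb₂ : mV b₂ κ T ≠ ∞ := mV_ne_top hb₂
  have hρtop : ρ ≠ ∞ := (hρ.trans_le le_top).ne
  induction K with
  | zero =>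
    refine ⟨0, ENNReal.zero_ne_top, ?_⟩
    intro ε hε U hU hU1 φ hφ hφ1 E hE h1 h2
    rw [XS_zero]
    exact bot_le
  | succ K ih =>
    obtain ⟨B, hB, ih⟩ := ih (by omega)
    set q₁ : ℝ≥0∞ := ((c₀ * ∑' m : ℕ, ρ ^ m) * (mV b κ T * vD)) * ENNReal.ofReal η with hq₁
    have hq₁top : q₁ ≠ ∞ := by
      intro h
      rw [h] at hq
      simp at hq
    set C₁ : ℝ≥0∞ := ∑ m ∈ Finset.Icc 1 (K + 1), ∑ ab ∈ Finset.HasAntidiagonal.antidiagonal m,
        ((c * ENNReal.ofReal (Real.exp (ν * T))) * (mV b₂ κ T * vD) +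
          (c₀ * ρ ^ ab.1 * ENNReal.ofReal (Real.exp (ν * T))) * (mV b κ T * vD)) with hC₁
    set C₂ : ℝ≥0∞ := ((K : ℝ≥0∞) * c * ENNReal.ofReal (Real.exp (ν * T))) * (mV b₂ κ T * vD)
      with hC₂
    have hC₁top : C₁ ≠ ∞ := by
      refine ENNReal.sum_ne_top.2 fun m _ => ENNReal.sum_ne_top.2 fun ab _ => ?_
      exact ENNReal.add_ne_top.2 ⟨ENNReal.mul_ne_top (ENNReal.mul_ne_top hc ENNReal.ofReal_ne_top)
        (ENNReal.mul_ne_top hmb₂ vD_ne_top),
        ENNReal.mul_ne_top (ENNReal.mul_ne_top (ENNReal.mul_ne_top hc₀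
          (ENNReal.pow_ne_top hρtop)) ENNReal.ofReal_ne_top) (ENNReal.mul_ne_top hmb vD_ne_top)⟩
    have hC₂top : C₂ ≠ ∞ :=
      ENNReal.mul_ne_top (ENNReal.mul_ne_top (ENNReal.mul_ne_top (ENNReal.natCast_ne_top K) hc)
        ENNReal.ofReal_ne_top) (ENNReal.mul_ne_top hmb₂ vD_ne_top)
    refine ⟨C₁ + 2 * (q₁ * B + ((K : ℝ≥0∞) + 1) * C₂), ?_, ?_⟩
    · exact ENNReal.add_ne_top.2 ⟨hC₁top, ENNReal.mul_ne_top ENNReal.ofNat_ne_top
        (ENNReal.add_ne_top.2 ⟨ENNReal.mul_ne_top hq₁top hB, ENNReal.mul_ne_top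
          (ENNReal.add_ne_top.2 ⟨ENNReal.natCast_ne_top K, ENNReal.one_ne_top⟩) hC₂top⟩)⟩
    intro ε hε U hU hU1 φ hφ hφ1 E hE hcr hct
    have IH := ih ε hε U hU hU1 φ hφ hφ1 E hE hcr hct
    have mW := measurable_Wf ν κ T
    have hcrK : Crude Φ ε T k K c b₂ := by
      intro ℓ
      refine le_trans ?_ (hcr ℓ)
      refine ENNReal.tsum_le_tsum fun P => ?_
      by_cases h : P.leaves ≤ K
      · rw [if_pos h, if_pos (by omega)]
      · rw [if_neg h]
        exact bot_le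
    -- the two forward operators
    set G : ℝ × PhasePoint → ℝ≥0∞ := fun q => (c₀ * ∑' m : ℕ, ρ ^ m) * wG b q.2.2 with hG
    have mG : Measurable G := ((measurable_wG' b).comp measurable_snd.snd).const_mul _
    have hDP : ∀ t ∈ Ioo 0 T, ∀ ℓ, DP Φ ε T k U (fun Q => Q.leaves ≤ K) (t, ℓ) ≤
        G (t, ℓ) + ((K : ℝ≥0∞) + 1) * E (t, ℓ) := fun t ht ℓ => hct.total (by omega) ht ℓ
    have hAL : XS Φ ε T k U φ K (AL Φ ε T (DP Φ ε T k U fun Q => Q.leaves ≤ K) (Wf ν κ T)) ≤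
        q₁ * XS Φ ε T k U φ K (Wf ν κ T) + ((K : ℝ≥0∞) + 1) * (C₂ * EI κ T E) := by
      have mA := measurable_AL (T := T) hΦ hε hE mW
      refine (XS_mono K (ψ' := fun q => q₁ * Wf ν κ T q +
        ((K : ℝ≥0∞) + 1) * AL Φ ε T E (Wf ν κ T) q) fun q => ?_).trans ?_
      · refine (AL_mono hΦ hε (D' := fun q => G q + ((K : ℝ≥0∞) + 1) * E q) hDP q).trans ?_
        rw [AL_add_mul hΦ hε mG hE mW]
        refine add_le_add ?_ le_rfl
        refine (AL_le hΦ hε hν hκ hη (c := c₀ * ∑' m : ℕ, ρ ^ m) (b := b)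
          (fun t _ ℓ => le_rfl) q).trans (le_of_eq ?_)
        rw [hq₁]
        ring
      · rw [XS_add hΦ hk hU hφ K (mW.const_mul q₁), XS_const_mul hΦ hk hU hφ K mW,
          XS_const_mul hΦ hk hU hφ K mA]
        refine add_le_add le_rfl (mul_le_mul' le_rfl ?_)
        exact XS_AL_le hΦ hε hk hU hU1 hφ hφ1 hcrK hν.le hκ hE
    have hAR : XS Φ ε T k U φ K (AR Φ ε T (DP Φ ε T k U fun Q => Q.leaves ≤ K) (Wf ν κ T)) ≤
        q₁ * XS Φ ε T k U φ K (Wf ν κ T) + ((K : ℝ≥0∞) + 1) * (C₂ * EI κ T E) := by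
      have mA := measurable_AR (T := T) hΦ hε hE mW
      refine (XS_mono K (ψ' := fun q => q₁ * Wf ν κ T q +
        ((K : ℝ≥0∞) + 1) * AR Φ ε T E (Wf ν κ T) q) fun q => ?_).trans ?_
      · refine (AR_mono hΦ hε (D' := fun q => G q + ((K : ℝ≥0∞) + 1) * E q) hDP q).trans ?_
        rw [AR_add_mul hΦ hε mG hE mW]
        refine add_le_add ?_ le_rfl
        refine (AR_le hΦ hε hν hκ hη (c := c₀ * ∑' m : ℕ, ρ ^ m) (b := b)
          (fun t _ ℓ => le_rfl) q).trans (le_of_eq ?_)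
        rw [hq₁]
        ring
      · rw [XS_add hΦ hk hU hφ K (mW.const_mul q₁), XS_const_mul hΦ hk hU hφ K mW,
          XS_const_mul hΦ hk hU hφ K mA]
        refine add_le_add le_rfl (mul_le_mul' le_rfl ?_)
        exact XS_AR_le hΦ hε hk hU hU1 hφ hφ1 hcrK hν.le hκ hE
    have hT := TS_le hΦ hε hk hU hU1 hφ hφ1 hcr hν.le hκ hE hct (K := K + 1) hK
    refine (XS_succ_le hΦ hε hk hU hφ K mW).trans ?_
    refine (add_le_add hT (add_le_add hAL hAR)).trans ?_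
    set X := XS Φ ε T k U φ K (Wf ν κ T) with hX
    set C₀ := c₀ ^ 2 * (ENNReal.ofReal (Real.exp (ν * T)) * (mV b κ T * vD)) with hC₀
    set M := MT ρ T b φ (K + 1) with hM
    have hMK : MT ρ T b φ K ≤ M := MT_mono ρ T b φ K
    have hX2 : q₁ * X ≤ q₁ * (2 * (C₀ * M) + B * EI κ T E) :=
      mul_le_mul' le_rfl (IH.trans (add_le_add (mul_le_mul' le_rfl (mul_le_mul' le_rfl hMK)) le_rfl))
    calc C₀ * M + C₁ * EI κ T E + (q₁ * X + ((K : ℝ≥0∞) + 1) * (C₂ * EI κ T E) +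
          (q₁ * X + ((K : ℝ≥0∞) + 1) * (C₂ * EI κ T E))) ≤
        C₀ * M + C₁ * EI κ T E + (q₁ * (2 * (C₀ * M) + B * EI κ T E) +
          ((K : ℝ≥0∞) + 1) * (C₂ * EI κ T E) + (q₁ * (2 * (C₀ * M) + B * EI κ T E) +
            ((K : ℝ≥0∞) + 1) * (C₂ * EI κ T E))) := by gcongr
      _ = C₀ * M + (4 * q₁) * (C₀ * M) +
          (C₁ + 2 * (q₁ * B + ((K : ℝ≥0∞) + 1) * C₂)) * EI κ T E := by ring
      _ ≤ C₀ * M + 1 * (C₀ * M) +
          (C₁ + 2 * (q₁ * B + ((K : ℝ≥0∞) + 1) * C₂)) * EI κ T E := by gcongr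
      _ = _ := by ring

end Crest.Agent.R122.QExit814

end
end

-- ▼ part R122/QExitE_814
section

/-!
Row 122 (helper814), item G1exit: densities of the **exit lines** of collision trees, part E: the
densities `dn` are the quenched densities `Dw` of helper815; crude bounds; control by size class.
-/

set_option autoImplicit false
set_option synthInstance.maxSize 1024

open MeasureTheory Set Filter Topology
open Crest.AnalysisR.Kinetic
open scoped ENNReal Classical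

noncomputable section

namespace Crest.Agent.R122.QExit814

open Kin796 Kin796.CTree Disc416 Kin416 Scat818 Flow671 Flux663 Tree674 Mark307 TreeF399 TreeEps399
  Quench815 QDens815 GC311 Hid424

variable {Φ : Space3 → ℝ} {f₀ : PhasePoint → ℝ} {f : ℝ → PhasePoint → ℝ} {β T : ℝ}

/-- one-particle weight -/
def kE (f₀ : PhasePoint → ℝ) (lam kap : ℝ) (ℓ : PhasePoint) : ℝ≥0∞ :=
  ENNReal.ofReal lam * (eG kap ℓ.2 * ENNReal.ofReal (f₀ ℓ))

theorem measurable_kE (hf : Measurable f₀) (lam kap : ℝ) : Measurable (kE f₀ lam kap) :=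
  (((measurable_eG kap).comp measurable_snd).mul hf.ennreal_ofReal).const_mul _

/-- weight of the trees -/
def phE (Φ : Space3 → ℝ) (lam kap : ℝ) (P : CTree) : ℝ × PhasePoint × Par P → ℝ≥0∞ := fun q =>
  {z : Space3 × Par P | Adm Φ P z.1 z.2}.indicator
    (fun z => ENNReal.ofReal lam ^ P.leaves *
      ENNReal.ofReal (Real.exp (kap * (‖z.1‖ ^ 2 + nodeEn P z.2)))) (q.2.1.2, q.2.2)

theorem phE_of_adm {lam kap : ℝ} {P : CTree} {s : ℝ} {ℓ : PhasePoint} {p : Par P}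
    (h : Adm Φ P ℓ.2 p) : phE Φ lam kap P (s, ℓ, p) = ENNReal.ofReal lam ^ P.leaves *
      ENNReal.ofReal (Real.exp (kap * (‖ℓ.2‖ ^ 2 + nodeEn P p))) :=
  indicator_of_mem (show (ℓ.2, p) ∈ {z : Space3 × Par P | Adm Φ P z.1 z.2} from h) _

theorem measurable_phE (hΦ : AdmissiblePotential Φ) (lam kap : ℝ) (P : CTree) :
    Measurable (phE Φ lam kap P) := by
  have h1 : Measurable fun z : Space3 × Par P =>
      {z : Space3 × Par P | Adm Φ P z.1 z.2}.indicator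
        (fun z => ENNReal.ofReal lam ^ P.leaves *
          ENNReal.ofReal (Real.exp (kap * (‖z.1‖ ^ 2 + nodeEn P z.2)))) z := by
    refine Measurable.indicator ?_ (Q1815.measurableSet_adm hΦ P)
    refine Measurable.const_mul ?_ _
    exact ENNReal.measurable_ofReal.comp (Real.measurable_exp.comp
      (((measurable_fst.norm.pow_const 2).add
        ((Q1815.measurable_nodeEn P).comp measurable_snd)).const_mul _))
  exact h1.comp (f := fun q : ℝ × PhasePoint × Par P => (q.2.1.2, q.2.2))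
    (measurable_snd.fst.snd.prodMk measurable_snd.snd)

theorem phE_le (hΦ : AdmissiblePotential Φ) {lam kap : ℝ} {P : CTree} {s : ℝ} {ℓ : PhasePoint}
    {p : Par P} (h : Adm Φ P ℓ.2 p) : phE Φ lam kap P (s, ℓ, p) ≤
      ENNReal.ofReal lam * ENNReal.ofReal lam ^ P.size *
        ENNReal.ofReal (Real.exp (kap * Seg814.eng Φ P ℓ.2 p)) := by
  rw [phE_of_adm h, Q1815.eng_eq hΦ h, CTree.leaves_eq, pow_succ']

/-- the product weight -/
theorem kw_kE (hΦ : AdmissiblePotential Φ) {lam kap ε : ℝ} {P : CTree} {s : ℝ} {ℓ : PhasePoint}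
    {p : Par P} (h : Adm Φ P ℓ.2 p) :
    kw Φ ε (kE f₀ lam kap) P (ℓ, p) = phE Φ lam kap P (s, ℓ, p) * fp Φ f₀ ε P ℓ p := by
  rw [phE_of_adm h]
  unfold kw kE fp
  rw [linesM_of_adm ε h, Finset.prod_mul_distrib, Finset.prod_mul_distrib, Finset.prod_const,
    Finset.card_univ, card_idx, ← mul_assoc]
  congr 2
  unfold eG
  rw [← ENNReal.ofReal_prod_of_nonneg (fun i _ => (Real.exp_pos _).le), ← Real.exp_sum,
    ← Finset.mul_sum]
  have e : ∀ i : Idx P, ‖(lines Φ ε P ℓ p i).2‖ ^ 2 = ‖vels Φ P ℓ.2 p i‖ ^ 2 := fun i => by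
    rw [lines_vel]
  rw [Finset.sum_congr rfl fun i _ => e i, sum_vels hΦ P ℓ.2 p h]

/-- **the densities of the exit recursion are the quenched densities** -/
theorem dn_eq_Dw (hΦ : AdmissiblePotential Φ) {ε t T' lam kap tw : ℝ} (ht : t ≤ T') (Q : CTree)
    (ℓ : PhasePoint) {n : ℕ} (w : Config n) :
    dn Φ ε T' (kE f₀ lam kap) Q
      (fun y => GIV566.unhitInd Φ ε (Q1815.hidM Φ ε Q y.1 y.2) tw w) (t, ℓ) =
      Q1815.Dw Φ f₀ Q (phE Φ lam kap Q) ε tw t ℓ w := by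
  unfold dn
  rw [Q1815.Dw_eq_M]
  refine lintegral_congr fun p => ?_
  by_cases hV : Valid Φ ε Q t ℓ.2 p
  · have h2 := (valid_iff_top ht (P := Q)).1 hV
    have t1 : topI Q (t, p) = 1 := by
      unfold topI
      rw [indicator_of_mem (show (t, p) ∈ {q : ℝ × Par Q | TopLt Q q.1 q.2} from h2.2)]
      rfl
    rw [gw_of_valid hV, t1, one_mul, vw_of_valid (z := (ℓ, p)) h2.1,
      kw_kE (f₀ := f₀) (s := t) hΦ hV.1]
    ring
  · rw [gw_of_not_valid hV, zero_mul]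
    by_cases h4 : Valid Φ ε Q T' ℓ.2 p
    · have h5 : ¬ TopLt Q t p := fun h => hV ((valid_iff_top ht (P := Q)).2 ⟨h4, h⟩)
      unfold topI
      rw [indicator_of_notMem (show (t, p) ∉ {q : ℝ × Par Q | TopLt Q q.1 q.2} from h5), zero_mul]
    · rw [vw_of_not_valid (z := (ℓ, p)) h4, zero_mul, mul_zero]

/-! ### Crude bound -/

theorem crude_tree (hΦ : AdmissiblePotential Φ) {γ : ℝ} {env : Space3 → ℝ≥0∞} {A : ℝ≥0∞}
    (hE : Env γ f₀ env A) {lam kap : ℝ} (hkap : kap < γ) (T : ℝ) (P : CTree) {ε : ℝ}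
    (hε : 0 ≤ ε) {T' : ℝ} (hT : T' ≤ T) (ℓ : PhasePoint) :
    ∫⁻ p : Par P, vw Φ ε P T' (ℓ, p) * kw Φ ε (kE f₀ lam kap) P (ℓ, p) ≤
      (ENNReal.ofReal lam ^ P.leaves * (A * A ^ P.size) *
        ENNReal.ofReal (Real.exp ((P.size : ℝ) ^ 2 / (2 * ((γ - kap) / 4)))) *
        ∫⁻ p : Par P, bx T ((γ - kap) / 2) P p) * wG ((γ - kap) / 2) ℓ.2 := by
  set C : ℝ≥0∞ := ENNReal.ofReal lam ^ P.leaves * (A * A ^ P.size) *
        ENNReal.ofReal (Real.exp ((P.size : ℝ) ^ 2 / (2 * ((γ - kap) / 4)))) with hC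
  have hc : 0 < γ - kap := sub_pos.2 hkap
  have hpt : ∀ p : Par P, vw Φ ε P T' (ℓ, p) * kw Φ ε (kE f₀ lam kap) P (ℓ, p) ≤
      (C * wG ((γ - kap) / 2) ℓ.2) * bx T ((γ - kap) / 2) P p := by
    intro p
    by_cases hV : Valid Φ ε P T' ℓ.2 p
    swap
    · rw [vw_of_not_valid (z := (ℓ, p)) hV, zero_mul]
      exact bot_le
    have hV0 : Valid Φ 0 P T' ℓ.2 p := valid_mono hε le_rfl hV
    rw [vw_of_valid (z := (ℓ, p)) hV, kw_kE (f₀ := f₀) (s := 0) hΦ hV.1, phE_of_adm hV.1]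
    set E := ‖ℓ.2‖ ^ 2 + nodeEn P p with hEdef
    have hE0 : 0 ≤ E := add_nonneg (sq_nonneg _) (nodeEn_nonneg P p)
    have hwt := wt_le hΦ P ℓ.2 p hV.1
    have hfp : fp Φ f₀ ε P ℓ p ≤ (A * A ^ P.size) * ENNReal.ofReal (Real.exp (-γ * E)) := by
      refine (fp_le hΦ hE ε P ℓ p hV.1 _ (by simp : dist (lines Φ ε P ℓ p (root P)).1
        (lines Φ ε P ℓ p (root P)).1 ≤ 1)).trans ?_
      gcongr
      exact hE.le_A _
    have hbx : ENNReal.ofReal (Real.exp (-((γ - kap) / 2) * E)) ≤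
        wG ((γ - kap) / 2) ℓ.2 * bx T ((γ - kap) / 2) P p := by
      have h2 := gau_nodeEn_le_bx ((γ - kap) / 2) P hT ℓ.2 p hV0
      rw [wG_eq_gau]
      calc ENNReal.ofReal (Real.exp (-((γ - kap) / 2) * E))
          = gau ((γ - kap) / 2) ℓ.2 *
            ENNReal.ofReal (Real.exp (-((γ - kap) / 2) * nodeEn P p)) := by
            unfold gau
            rw [← ENNReal.ofReal_mul (Real.exp_pos _).le, ← Real.exp_add]
            congr 2
            rw [hEdef]; ring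
        _ ≤ _ := by gcongr
    have e1 : ENNReal.ofReal (2 * Real.sqrt E) ^ P.size *
        (ENNReal.ofReal (Real.exp (kap * E)) * ENNReal.ofReal (Real.exp (-γ * E))) =
        ENNReal.ofReal ((2 * Real.sqrt E) ^ P.size * Real.exp (-(γ - kap) * E)) := by
      rw [← ENNReal.ofReal_mul (Real.exp_pos _).le, ← Real.exp_add,
        ENNReal.ofReal_mul (p := (2 * Real.sqrt E) ^ P.size) (by positivity),
        ENNReal.ofReal_pow (p := 2 * Real.sqrt E) (by positivity)]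
      congr 3
      ring
    calc wt Φ P ℓ.2 p * (ENNReal.ofReal lam ^ P.leaves * ENNReal.ofReal (Real.exp (kap * E)) *
          fp Φ f₀ ε P ℓ p)
        ≤ ENNReal.ofReal (2 * Real.sqrt E) ^ P.size * (ENNReal.ofReal lam ^ P.leaves *
          ENNReal.ofReal (Real.exp (kap * E)) *
            ((A * A ^ P.size) * ENNReal.ofReal (Real.exp (-γ * E)))) := by gcongr
      _ = (ENNReal.ofReal lam ^ P.leaves * (A * A ^ P.size)) *
          ENNReal.ofReal ((2 * Real.sqrt E) ^ P.size * Real.exp (-(γ - kap) * E)) := by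
          rw [← e1]; ring
      _ ≤ (ENNReal.ofReal lam ^ P.leaves * (A * A ^ P.size)) *
          ENNReal.ofReal (Real.exp ((P.size : ℝ) ^ 2 / (2 * ((γ - kap) / 4))) *
            Real.exp (-((γ - kap) / 2) * E)) :=
          mul_le_mul_right (ENNReal.ofReal_le_ofReal (pow_mul_exp_le hc P.size hE0)) _
      _ = C * ENNReal.ofReal (Real.exp (-((γ - kap) / 2) * E)) := by
          rw [ENNReal.ofReal_mul (Real.exp_pos _).le, hC]
          ring
      _ ≤ C * (wG ((γ - kap) / 2) ℓ.2 * bx T ((γ - kap) / 2) P p) := by gcongr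
      _ = _ := by ring
  refine (lintegral_mono hpt).trans (le_of_eq ?_)
  rw [lintegral_const_mul _ (measurable_bx T ((γ - kap) / 2) P)]
  ring

/-- **crude bound**, uniform in `ε` and in the horizon -/
theorem exists_crude (hΦ : AdmissiblePotential Φ)
    (hg : HasSummableGaussianBound (2 * β) (fun x v => f₀ (x, v))) (lam : ℝ) {kap : ℝ}
    (hkap : kap < 2 * β) (T : ℝ) (K : ℕ) :
    ∃ c : ℝ≥0∞, c ≠ ∞ ∧ ∀ ε : ℝ, 0 ≤ ε → ∀ T' : ℝ, T' ≤ T →
      Crude Φ ε T' (kE f₀ lam kap) K c ((2 * β - kap) / 2) := by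
  obtain ⟨env, A, hE⟩ := exists_env hg
  set C : CTree → ℝ≥0∞ := fun P => (ENNReal.ofReal lam ^ P.leaves * (A * A ^ P.size) *
        ENNReal.ofReal (Real.exp ((P.size : ℝ) ^ 2 / (2 * ((2 * β - kap) / 4)))) *
        ∫⁻ p : Par P, bx T ((2 * β - kap) / 2) P p) with hC
  refine ⟨∑ P ∈ GIVStep383.trees K, C P, ?_, fun ε hε T' hT' ℓ => ?_⟩
  · refine (ENNReal.sum_lt_top.2 fun P _ => ?_).ne
    have h1 := lintegral_bx_lt_top T (δ := (2 * β - kap) / 2) (by linarith) P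
    refine ENNReal.mul_lt_top (ENNReal.mul_lt_top (ENNReal.mul_lt_top
      (ENNReal.pow_lt_top ENNReal.ofReal_lt_top)
      (ENNReal.mul_lt_top hE.A_ne.lt_top (ENNReal.pow_lt_top hE.A_ne.lt_top)))
      ENNReal.ofReal_lt_top) h1
  · have h1 : ∑' P : CTree, (if P.leaves ≤ K then
        ∫⁻ p : Par P, vw Φ ε P T' (ℓ, p) * kw Φ ε (kE f₀ lam kap) P (ℓ, p) else 0) =
        ∑ P ∈ GIVStep383.trees K, (if P.leaves ≤ K then
          ∫⁻ p : Par P, vw Φ ε P T' (ℓ, p) * kw Φ ε (kE f₀ lam kap) P (ℓ, p) else 0) :=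
      tsum_eq_sum fun P hP => if_neg fun h => hP (GIVStep383.mem_trees.2 h)
    rw [h1, Finset.sum_mul]
    refine Finset.sum_le_sum fun P hP => ?_
    rw [if_pos (GIVStep383.mem_trees.1 hP)]
    exact crude_tree hΦ hE hkap T P hε hT' ℓ

/-! ### Control by size class -/

/-- the excess: distance of the quenched densities to their limits -/
def EX (Φ : Space3 → ℝ) (f₀ : PhasePoint → ℝ) (f : ℝ → PhasePoint → ℝ) (T lam kap : ℝ) (K : ℕ)
    (ε tw : ℝ) {n : ℕ} (w : Config n) (q : ℝ × PhasePoint) : ℝ≥0∞ :=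
  ∑ Q ∈ GIVStep383.trees K, absd (Q1815.Dw Φ f₀ Q (phE Φ lam kap Q) ε tw q.1 q.2 w)
    (Q1815.D0 Φ f₀ f T Q (phE Φ lam kap Q) tw q.1 q.2)

theorem measurable_EX2 {T₀ tw : ℝ} (X : Q1815.Ctx Φ β T f₀ f T₀ tw) (lam kap : ℝ) (K : ℕ) {ε : ℝ}
    (hε : 0 < ε) (n : ℕ) : Measurable fun q : Config n × (ℝ × PhasePoint) =>
      EX Φ f₀ f T lam kap K ε tw q.1 q.2 := by
  unfold EX
  exact Finset.measurable_sum _ fun P _ =>
    measurable_absd (Q1815.measurable_Dw_n X.hΦ X.cont.measurable (measurable_phE X.hΦ lam kap P)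
      hε tw n)
      ((Q1815.measurable_D0 X.hΦ X.hβ X.hT X.sol X.htw.1
        (measurable_phE X.hΦ lam kap P)).comp measurable_snd)

/-- **control** of the densities of the exit recursion -/
theorem ctrl {T₀ tw : ℝ} (X : Q1815.Ctx Φ β T f₀ f T₀ tw) {h₀ kap lam C b : ℝ}
    (hK : Seg814.KinC Φ T f h₀ kap lam C b) {lam₁ : ℝ} (h1 : 0 < lam₁) (h2 : lam₁ ≤ lam)
    {T' : ℝ} (hT' : T' ≤ tw + h₀) (K : ℕ) (ε : ℝ) {n : ℕ} (w : Config n) :
    Ctrl Φ ε T' (kE f₀ lam₁ kap)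
      (fun Q y => GIV566.unhitInd Φ ε (Q1815.hidM Φ ε Q y.1 y.2) tw w) K
      (ENNReal.ofReal lam₁ * (ENNReal.ofReal (lam / lam₁) * ENNReal.ofReal C))
      (ENNReal.ofReal (lam₁ / lam)) b (EX Φ f₀ f T lam₁ kap K ε tw w) := by
  intro m hm t ht ℓ
  have hs : t ∈ Icc 0 (tw + h₀) := ⟨ht.1.le, ht.2.le.trans hT'⟩
  set D : CTree → ℝ≥0∞ := fun Q => Q1815.Dw Φ f₀ Q (phE Φ lam₁ kap Q) ε tw t ℓ w with hD
  set D₀ : CTree → ℝ≥0∞ := fun Q => Q1815.D0 Φ f₀ f T Q (phE Φ lam₁ kap Q) tw t ℓ with hD₀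
  have e1 : DP Φ ε T' (kE f₀ lam₁ kap)
      (fun Q y => GIV566.unhitInd Φ ε (Q1815.hidM Φ ε Q y.1 y.2) tw w)
      (fun Q => Q.leaves = m) (t, ℓ) ≤
      ∑' Q : CTree, ((if Q.leaves = m then D₀ Q else 0) +
        if Q ∈ GIVStep383.trees K then absd (D Q) (D₀ Q) else 0) := by
    unfold DP
    refine ENNReal.tsum_le_tsum fun Q => ?_
    by_cases h : Q.leaves = m
    · rw [if_pos h, if_pos h, if_pos (GIVStep383.mem_trees.2 (h.le.trans hm)),
        dn_eq_Dw X.hΦ ht.2.le Q ℓ w]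
      exact le_add_absd _ _
    · rw [if_neg h]
      exact bot_le
  refine e1.trans ?_
  rw [ENNReal.tsum_add]
  refine add_le_add ?_ ?_
  · rcases Nat.eq_zero_or_pos m with rfl | hm1
    · have h0 : ∀ Q : CTree, (if Q.leaves = 0 then D₀ Q else 0) = 0 := fun Q => by
        have := one_le_leaves Q
        rw [if_neg (by omega)]
      simp only [h0, tsum_zero]
      exact bot_le
    · refine (Q1815.D0_size_le X.hΦ X.hβ X.hT X.sol hK (φ := fun Q => phE Φ lam₁ kap Q)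
        (M := ENNReal.ofReal lam₁) ENNReal.ofReal_ne_top h1 h2 X.htw hs ℓ
        (fun P p ha => phE_le X.hΦ ha) m).trans ?_
      have h3 := Q1815.pow_pred_le h1 (h1.trans_le h2) (ρ := ENNReal.ofReal (lam₁ / lam)) le_rfl hm1
      calc ENNReal.ofReal lam₁ * ENNReal.ofReal (lam₁ / lam) ^ (m - 1) *
            (ENNReal.ofReal C * wG b ℓ.2)
          ≤ ENNReal.ofReal lam₁ * (ENNReal.ofReal (lam / lam₁) * ENNReal.ofReal (lam₁ / lam) ^ m) *
            (ENNReal.ofReal C * wG b ℓ.2) := by gcongr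
        _ = _ := by ring
  · rw [tsum_eq_sum (s := GIVStep383.trees K) fun Q hQ => if_neg hQ]
    refine le_of_eq (Finset.sum_congr rfl fun Q hQ => ?_)
    rw [if_pos hQ]

end Crest.Agent.R122.QExit814

end
end

-- ▼ part R122/QExitF_814

/-!
Row 122 (helper814), item G1exit: densities of the **exit lines** of collision trees, part F: the
final theorem `qexit`.
-/

set_option autoImplicit false
set_option synthInstance.maxSize 1024

open MeasureTheory Set Filter Topology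
open Crest.AnalysisR.Kinetic
open scoped ENNReal Classical

noncomputable section

namespace Crest.Agent.R122.QExit814

open Kin796 Kin796.CTree Disc416 Kin416 Scat818 Flow671 Flux663 Tree674 Mark307 TreeF399 TreeEps399
  Quench815 QDens815 GC311 Hid424 Master566

variable {Φ : Space3 → ℝ} {f₀ : PhasePoint → ℝ} {f : ℝ → PhasePoint → ℝ} {β T : ℝ}

/-! ### The main term as an integral over marked lines -/

theorem succ_mul_pow_le {x : ℝ≥0∞} (hx : x ≤ 1) (m : ℕ) :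
    ((m : ℝ≥0∞) + 1) * x ^ m ≤ ∑' j : ℕ, x ^ j := by
  calc ((m : ℝ≥0∞) + 1) * x ^ m = ∑ _j ∈ Finset.range (m + 1), x ^ m := by
        rw [Finset.sum_const, Finset.card_range, nsmul_eq_mul]
        push_cast
        ring
    _ ≤ ∑ j ∈ Finset.range (m + 1), x ^ j := by
        refine Finset.sum_le_sum fun j hj => pow_le_pow_right_of_le_one' hx ?_
        rw [Finset.mem_range] at hj
        omega
    _ ≤ _ := ENNReal.sum_le_tsum _

/-- integral over the lines of mark `m` -/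
def LJ (T g : ℝ) (φ : ML → ℝ≥0∞) (m : ℕ) : ℝ≥0∞ :=
  ∫⁻ d : ℝ × PhasePoint, wG g d.2.2 * φ (d, m) ∂((volume.restrict (Ioc 0 T)).prod volume)

theorem sum_LJ_le {g : ℝ} {ρ₁ ρ : ℝ≥0∞} (hρ : ρ₁ ≤ ρ) {T' : ℝ} {γ : ℝ → ℝ}
    (hγ : ∀ τ ∈ Ioc 0 T', γ τ ≤ g) {φ : ML → ℝ≥0∞} (hφ : Measurable φ) (K : ℕ) :
    ∑ m ∈ Finset.Icc 1 K, ρ₁ ^ m * LJ T' g φ m ≤
      ∫⁻ l, φ l ∂EDefs602.lineM γ ρ K T' := by
  have h1 : EDefs602.lineM (fun _ => g) ρ₁ K T' ≤ EDefs602.lineM γ ρ K T' := by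
    unfold EDefs602.lineM
    refine withDensity_mono ?_
    have h1 : ∀ᵐ l ∂EDefs602.lineV T', l.1.1 ∈ Ioc 0 T' := by
      unfold EDefs602.lineV
      have h2 : ∀ᵐ x ∂((volume.restrict (Ioc (0 : ℝ) T')).prod (volume : Measure PhasePoint)),
          x.1 ∈ Ioc 0 T' :=
        Measure.quasiMeasurePreserving_fst.ae (ae_restrict_mem measurableSet_Ioc)
      exact Measure.quasiMeasurePreserving_fst.ae h2
    filter_upwards [h1] with l hl
    unfold EDefs602.lineD EDefs602.markW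
    refine mul_le_mul' (wG_mono (hγ _ hl) _) ?_
    split_ifs
    · exact pow_le_pow_left' hρ _
    · exact le_rfl
  refine le_trans ?_ (lintegral_mono' h1 le_rfl)
  unfold EDefs602.lineM
  have hD : Measurable (EDefs602.lineD (fun _ => g) ρ₁ K) :=
    EBasic602.measurable_lineD measurable_const
  rw [lintegral_withDensity_eq_lintegral_mul _ hD hφ]
  have hm : Measurable fun l : ML => EDefs602.lineD (fun _ => g) ρ₁ K l * φ l := hD.mul hφ
  have e1 : ∫⁻ l, (EDefs602.lineD (fun _ => g) ρ₁ K * φ) l ∂EDefs602.lineV T' =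
      ∫⁻ d : ℝ × PhasePoint, ∑' n : ℕ, EDefs602.lineD (fun _ => g) ρ₁ K (d, n) * φ (d, n)
        ∂((volume.restrict (Ioc 0 T')).prod volume) := by
    have e2 : ∫⁻ l, (EDefs602.lineD (fun _ => g) ρ₁ K * φ) l ∂EDefs602.lineV T' =
      ∫⁻ l, EDefs602.lineD (fun _ => g) ρ₁ K l * φ l ∂EDefs602.lineV T' := rfl
    rw [e2]
    unfold EDefs602.lineV
    rw [lintegral_prod _ hm.aemeasurable]
    refine lintegral_congr fun d => ?_
    rw [lintegral_count]
  rw [e1]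
  have hmn : ∀ n : ℕ, Measurable fun d : ℝ × PhasePoint =>
      EDefs602.lineD (fun _ => g) ρ₁ K (d, n) * φ (d, n) := fun n =>
    hm.comp (measurable_id.prodMk measurable_const)
  rw [lintegral_tsum fun n => (hmn n).aemeasurable]
  refine le_trans (Finset.sum_le_sum fun m hm => ?_) (ENNReal.sum_le_tsum (Finset.Icc 1 K))
  rw [Finset.mem_Icc] at hm
  have hmeas : Measurable fun d : ℝ × PhasePoint => wG g d.2.2 * φ (d, m) :=
    ((measurable_wG' g).comp measurable_snd.snd).mul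
      (hφ.comp (measurable_id.prodMk measurable_const))
  unfold LJ
  rw [← lintegral_const_mul _ hmeas]
  refine lintegral_mono fun d => ?_
  unfold EDefs602.lineD EDefs602.markW
  rw [if_pos hm]
  refine le_of_eq ?_
  show _ = wG g d.2.2 * ρ₁ ^ m * φ (d, m)
  ring

theorem LI_le {b δ : ℝ} (hδ : 0 < δ) {T' : ℝ} {φ : ML → ℝ≥0∞} (hφ : Measurable φ) (m : ℕ) :
    LI T' b φ m ≤ cA δ * LJ T' (b - δ) φ m := by
  have hmeas : Measurable fun d : ℝ × PhasePoint => wG (b - δ) d.2.2 * φ (d, m) :=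
    ((measurable_wG' (b - δ)).comp measurable_snd.snd).mul
      (hφ.comp (measurable_id.prodMk measurable_const))
  have e1 : LJ T' (b - δ) φ m = ∫⁻ d : ℝ × PhasePoint, (Ioc 0 T' ×ˢ (univ : Set PhasePoint)).indicator
      (fun d => wG (b - δ) d.2.2 * φ (d, m)) d := by
    unfold LJ
    rw [lintegral_indicator (measurableSet_Ioc.prod MeasurableSet.univ)]
    have h : (volume.restrict (Ioc 0 T')).prod (volume : Measure PhasePoint) =
        ((volume : Measure ℝ).prod (volume : Measure PhasePoint)).restrict (Ioc 0 T' ×ˢ univ) := by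
      rw [← Measure.prod_restrict, Measure.restrict_univ]
    rw [h]
    rfl
  rw [e1, ← lintegral_const_mul _ (hmeas.indicator (measurableSet_Ioc.prod MeasurableSet.univ))]
  unfold LI
  refine lintegral_mono fun d => ?_
  by_cases hd : d.1 ∈ Ioo 0 T'
  · have h1 : (Ioc 0 T' ×ˢ (univ : Set PhasePoint)).indicator
      (fun d => wG (b - δ) d.2.2 * φ (d, m)) d = wG (b - δ) d.2.2 * φ (d, m) :=
      indicator_of_mem (show d ∈ Ioc 0 T' ×ˢ (univ : Set PhasePoint) from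
        ⟨⟨hd.1, hd.2.le⟩, trivial⟩) _
    rw [h1, indicator_of_mem hd, Pi.one_apply, one_mul, ← mul_assoc]
    exact mul_le_mul_left (one_add_wG_le hδ b d.2.2) _
  · rw [indicator_of_notMem hd, zero_mul]
    exact bot_le

/-- **main term** -/
theorem MT_le {r r₁ b δ : ℝ} (hr : 0 ≤ r) (hr₁ : r < r₁) (hδ : 0 < δ) {T' : ℝ} {γ : ℝ → ℝ}
    (hγ : ∀ τ ∈ Ioc 0 T', γ τ ≤ b - δ) {ρ : ℝ≥0∞} (hρ : ENNReal.ofReal r₁ ≤ ρ)
    {φ : ML → ℝ≥0∞} (hφ : Measurable φ) (K : ℕ) :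
    MT (ENNReal.ofReal r) T' b φ K ≤
      ((∑' j : ℕ, ENNReal.ofReal (r / r₁) ^ j) * cA δ) * ∫⁻ l, φ l ∂EDefs602.lineM γ ρ K T' := by
  have h0 : 0 < r₁ := hr.trans_lt hr₁
  set x := ENNReal.ofReal (r / r₁) with hx
  have hx1 : x ≤ 1 := by
    rw [hx, ← ENNReal.ofReal_one]
    exact ENNReal.ofReal_le_ofReal ((div_le_one h0).2 hr₁.le)
  have hxr : ENNReal.ofReal r = x * ENNReal.ofReal r₁ := by
    rw [hx, ← ENNReal.ofReal_mul (div_nonneg hr h0.le), div_mul_cancel₀ r h0.ne']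
  refine le_trans ?_ (mul_le_mul' le_rfl (sum_LJ_le hρ hγ hφ K))
  unfold MT
  rw [Finset.mul_sum]
  refine Finset.sum_le_sum fun m _ => ?_
  calc ((m : ℝ≥0∞) + 1) * (ENNReal.ofReal r ^ m * LI T' b φ m)
      = (((m : ℝ≥0∞) + 1) * x ^ m) * (ENNReal.ofReal r₁ ^ m * LI T' b φ m) := by
        rw [hxr, mul_pow]; ring
    _ ≤ (∑' j : ℕ, x ^ j) * (ENNReal.ofReal r₁ ^ m * (cA δ * LJ T' (b - δ) φ m)) := by
        gcongr
        · exact succ_mul_pow_le hx1 m
        · exact LI_le hδ hφ m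
    _ = _ := by ring

/-! ### The excess -/

/-- the factor of the excess -/
def cE (κ T : ℝ) (ℓ : PhasePoint) : ℝ≥0∞ := ENNReal.ofReal (1 + ‖ℓ.2‖) * eG (κ * T) ℓ.2

theorem cE_ne_top (κ T : ℝ) (ℓ : PhasePoint) : cE κ T ℓ ≠ ∞ :=
  ENNReal.mul_ne_top ENNReal.ofReal_ne_top ENNReal.ofReal_ne_top

theorem measurable_cE (κ T : ℝ) : Measurable (cE κ T) := by
  unfold cE
  exact (by fun_prop : Measurable fun ℓ : PhasePoint => ENNReal.ofReal (1 + ‖ℓ.2‖)).mul
    ((measurable_eG (κ * T)).comp measurable_snd)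

theorem EI_le {κ : ℝ} {E : ℝ × PhasePoint → ℝ≥0∞} (hE : Measurable E) :
    EI κ T E ≤ ∫⁻ y : ℝ × PhasePoint, cE κ T y.2 * E y ∂((volume.restrict (Ioc 0 T)).prod volume) := by
  have hm : Measurable fun y : ℝ × PhasePoint => cE κ T y.2 * E y :=
    ((measurable_cE κ T).comp measurable_snd).mul hE
  have h1 : (volume.restrict (Ioo 0 T)).prod (volume : Measure PhasePoint) ≤
      (volume.restrict (Ioc 0 T)).prod volume :=
    Measure.prod_mono (Measure.restrict_mono_set _ Ioo_subset_Ioc_self) le_rfl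
  refine le_trans (le_of_eq ?_) (lintegral_mono' h1 le_rfl)
  rw [lintegral_prod_symm' _ hm]
  unfold EI
  refine lintegral_congr fun ℓ => ?_
  rw [lintegral_indicator measurableSet_Ioo]
  have h2 : Measurable fun t : ℝ => E (t, ℓ) := hE.comp (measurable_id.prodMk measurable_const)
  exact (lintegral_const_mul _ h2).symm

theorem measurable_EI {α : Type*} [MeasurableSpace α] {κ : ℝ} {E : α × (ℝ × PhasePoint) → ℝ≥0∞}
    (hE : Measurable E) : Measurable fun w : α => EI κ T fun y => E (w, y) := by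
  unfold EI
  have h1 : Measurable fun q : (α × PhasePoint) × ℝ =>
      (Ioo 0 T).indicator (fun t => E (q.1.1, (t, q.1.2))) q.2 := by
    have h2 : Measurable fun q : (α × PhasePoint) × ℝ => E (q.1.1, (q.2, q.1.2)) :=
      hE.comp (measurable_fst.fst.prodMk (measurable_snd.prodMk measurable_fst.snd))
    have h3 : MeasurableSet {q : (α × PhasePoint) × ℝ | q.2 ∈ Ioo 0 T} :=
      measurable_snd measurableSet_Ioo
    have h4 := h2.indicator h3
    have h7 : (fun q : (α × PhasePoint) × ℝ =>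
        (Ioo 0 T).indicator (fun t => E (q.1.1, (t, q.1.2))) q.2) =
        {q : (α × PhasePoint) × ℝ | q.2 ∈ Ioo 0 T}.indicator
          (fun q => E (q.1.1, (q.2, q.1.2))) := by
      funext q
      by_cases hq : q.2 ∈ Ioo 0 T
      · rw [indicator_of_mem hq, indicator_of_mem
          (show q ∈ {q : (α × PhasePoint) × ℝ | q.2 ∈ Ioo 0 T} from hq)]
      · rw [indicator_of_notMem hq, indicator_of_notMem
          (show q ∉ {q : (α × PhasePoint) × ℝ | q.2 ∈ Ioo 0 T} from hq)]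
    rw [h7]
    exact h4
  have h5 : Measurable fun q : α × PhasePoint => ∫⁻ t : ℝ, (Ioo 0 T).indicator
      (fun t => E (q.1, (t, q.2))) t := h1.lintegral_prod_right'
  have h6 : Measurable fun q : α × PhasePoint => (ENNReal.ofReal (1 + ‖q.2.2‖) *
      eG (κ * T) q.2.2) * ∫⁻ t : ℝ, (Ioo 0 T).indicator (fun t => E (q.1, (t, q.2))) t := by
    have h8 : Measurable fun q : α × PhasePoint => ENNReal.ofReal (1 + ‖q.2.2‖) := by fun_prop
    have h9 : Measurable fun q : α × PhasePoint => eG (κ * T) q.2.2 :=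
      (measurable_eG (κ * T)).comp measurable_snd.snd
    exact (h8.mul h9).mul h5
  exact h6.lintegral_prod_right'

/-- the error of `(Q1)` with the factor of the excess -/
theorem err_cE {tw κ lam kap T' ε : ℝ} (Q : CTree) :
    Q1815.err Φ f₀ f T Q
        (fun q => cE κ T' q.2.1 * phE Φ lam kap Q q) (volume.restrict (Ioc 0 T')) tw ε =
      gcE f₀ ε fun _ w => ∫⁻ y : ℝ × PhasePoint, cE κ T' y.2 *
        absd (Q1815.Dw Φ f₀ Q (phE Φ lam kap Q) ε tw y.1 y.2 w)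
        (Q1815.D0 Φ f₀ f T Q (phE Φ lam kap Q) tw y.1 y.2)
          ∂((volume.restrict (Ioc 0 T')).prod volume) :=
  Q1815.err_mul_left (φ := phE Φ lam kap Q) (c := fun _ ℓ => cE κ T' ℓ)
    (fun _ ℓ => cE_ne_top κ T' ℓ)

theorem measurable_cE_absd {T₀ tw : ℝ} (X : Q1815.Ctx Φ β T f₀ f T₀ tw) (κ lam kap T' : ℝ) {ε : ℝ}
    (hε : 0 < ε) (Q : CTree) (n : ℕ) : Measurable fun q : Config n × (ℝ × PhasePoint) =>
      cE κ T' q.2.2 * absd (Q1815.Dw Φ f₀ Q (phE Φ lam kap Q) ε tw q.2.1 q.2.2 q.1)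
        (Q1815.D0 Φ f₀ f T Q (phE Φ lam kap Q) tw q.2.1 q.2.2) := by
  have h1 : Measurable fun q : Config n × (ℝ × PhasePoint) => cE κ T' q.2.2 :=
    (measurable_cE κ T').comp measurable_snd.snd
  have h2 : Measurable fun q : Config n × (ℝ × PhasePoint) =>
      Q1815.Dw Φ f₀ Q (phE Φ lam kap Q) ε tw q.2.1 q.2.2 q.1 :=
    Q1815.measurable_Dw_n X.hΦ X.cont.measurable (measurable_phE X.hΦ lam kap Q) hε tw n
  have h3 : Measurable fun q : Config n × (ℝ × PhasePoint) =>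
      Q1815.D0 Φ f₀ f T Q (phE Φ lam kap Q) tw q.2.1 q.2.2 :=
    (Q1815.measurable_D0 X.hΦ X.hβ X.hT X.sol X.htw.1
        (measurable_phE X.hΦ lam kap Q)).comp measurable_snd
  exact h1.mul (measurable_absd h2 h3)

/-- summand of the excess -/
def xE (Φ : Space3 → ℝ) (f₀ : PhasePoint → ℝ) (f : ℝ → PhasePoint → ℝ) (T κ lam kap T' ε tw : ℝ)
    (Q : CTree) (n : ℕ) (w : Config n) (y : ℝ × PhasePoint) : ℝ≥0∞ :=
  cE κ T' y.2 * absd (Q1815.Dw Φ f₀ Q (phE Φ lam kap Q) ε tw y.1 y.2 w)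
        (Q1815.D0 Φ f₀ f T Q (phE Φ lam kap Q) tw y.1 y.2)

theorem measurable_xE {T₀ tw : ℝ} (X : Q1815.Ctx Φ β T f₀ f T₀ tw) (κ lam kap T' : ℝ) {ε : ℝ}
    (hε : 0 < ε) (Q : CTree) (n : ℕ) : Measurable fun q : Config n × (ℝ × PhasePoint) =>
      xE Φ f₀ f T κ lam kap T' ε tw Q n q.1 q.2 :=
  measurable_cE_absd X κ lam kap T' hε Q n

theorem measurable_EX {T₀ tw : ℝ} (X : Q1815.Ctx Φ β T f₀ f T₀ tw) (lam kap : ℝ) (K : ℕ) {ε : ℝ}
    (hε : 0 < ε) {n : ℕ} (w : Config n) : Measurable (EX Φ f₀ f T lam kap K ε tw w) := by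
  have h := measurable_EX2 X lam kap K hε n
  have h2 := h.comp
    (g := fun q : Config n × (ℝ × PhasePoint) => EX Φ f₀ f T lam kap K ε tw q.1 q.2)
    (f := fun y : ℝ × PhasePoint => (w, y)) measurable_prodMk_left
  exact h2

theorem measurable_xE1 {T₀ tw : ℝ} (X : Q1815.Ctx Φ β T f₀ f T₀ tw) (κ lam kap T' : ℝ) {ε : ℝ}
    (hε : 0 < ε) (Q : CTree) (n : ℕ) (w : Config n) :
    Measurable (xE Φ f₀ f T κ lam kap T' ε tw Q n w) := by
  have h := measurable_xE X κ lam kap T' hε Q n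
  have h2 := h.comp
    (g := fun q : Config n × (ℝ × PhasePoint) => xE Φ f₀ f T κ lam kap T' ε tw Q n q.1 q.2)
    (f := fun y : ℝ × PhasePoint => (w, y)) measurable_prodMk_left
  exact h2

theorem EI_EX_le {T₀ tw : ℝ} (X : Q1815.Ctx Φ β T f₀ f T₀ tw) (κ lam kap T' : ℝ) (K : ℕ) {ε : ℝ}
    (hε : 0 < ε) (n : ℕ) (w : Config n) :
    EI κ T' (EX Φ f₀ f T lam kap K ε tw w) ≤ ∑ Q ∈ GIVStep383.trees K,
      ∫⁻ y : ℝ × PhasePoint, xE Φ f₀ f T κ lam kap T' ε tw Q n w y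
        ∂((volume.restrict (Ioc 0 T')).prod volume) := by
  refine (EI_le (measurable_EX X lam kap K hε w)).trans (le_of_eq ?_)
  have hmy : ∀ Q ∈ GIVStep383.trees K, AEMeasurable (fun y : ℝ × PhasePoint =>
      xE Φ f₀ f T κ lam kap T' ε tw Q n w y)
          ((volume.restrict (Ioc 0 T')).prod volume) := fun Q _ =>
    (measurable_xE1 X κ lam kap T' hε Q n w).aemeasurable
  rw [← lintegral_finsetSum' _ hmy]
  refine lintegral_congr fun y => ?_
  unfold EX xE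
  rw [Finset.mul_sum]

/-- the excess is the error of `(Q1)` -/
theorem gcE_EI_le {T₀ tw : ℝ} (X : Q1815.Ctx Φ β T f₀ f T₀ tw) (κ lam kap T' : ℝ) (K : ℕ) {ε : ℝ}
    (hε : 0 < ε) :
    gcE f₀ ε (fun _ w => EI κ T' (EX Φ f₀ f T lam kap K ε tw w)) ≤
      ∑ Q ∈ GIVStep383.trees K, Q1815.err Φ f₀ f T Q
        (fun q => cE κ T' q.2.1 * phE Φ lam kap Q q) (volume.restrict (Ioc 0 T')) tw ε := by
  have e1 : ∑ Q ∈ GIVStep383.trees K, Q1815.err Φ f₀ f T Q
        (fun q => cE κ T' q.2.1 * phE Φ lam kap Q q) (volume.restrict (Ioc 0 T')) tw ε =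
      ∑ Q ∈ GIVStep383.trees K, gcE f₀ ε fun n w => ∫⁻ y : ℝ × PhasePoint,
        xE Φ f₀ f T κ lam kap T' ε tw Q n w y ∂((volume.restrict (Ioc 0 T')).prod volume) :=
    Finset.sum_congr rfl fun Q _ => err_cE Q
  rw [e1, ← gcE_finset_sum X.cont.measurable ε (GIVStep383.trees K)
    (F := fun Q n w => ∫⁻ y : ℝ × PhasePoint, xE Φ f₀ f T κ lam kap T' ε tw Q n w y
          ∂((volume.restrict (Ioc 0 T')).prod volume))
    (fun Q _ n => (measurable_xE X κ lam kap T' hε Q n).lintegral_prod_right')]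
  exact gcE_mono f₀ ε fun n w _ => EI_EX_le X κ lam kap T' K hε n w

/-- the weights of the excess are admissible -/
theorem wgt_cE (hΦ : AdmissiblePotential Φ) {lam kap κ T' T₀ δ : ℝ} (hδ : 0 < δ)
    (hκ : 0 ≤ κ * T') (h : kap + κ * T' + δ < 2 * β) (Q : CTree) :
    Q1815.Wgt Φ β Q (fun q => cE κ T' q.2.1 * phE Φ lam kap Q q) T₀ := by
  refine Q1815.Wgt.of_le (kap := kap + κ * T' + δ) (lam := lam)
    (M := ENNReal.ofReal (2 + 1 / δ) * ENNReal.ofReal lam)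
    (((measurable_cE κ T').comp measurable_snd.fst).mul (measurable_phE hΦ lam kap Q)) h
    (ENNReal.mul_ne_top ENNReal.ofReal_ne_top ENNReal.ofReal_ne_top) fun s ℓ p ha => ?_
  have h1 := phE_le (lam := lam) (kap := kap) (s := s) hΦ ha
  have h2 : ‖ℓ.2‖ ^ 2 ≤ Seg814.eng Φ Q ℓ.2 p := by
    rw [Q1815.eng_eq hΦ ha]
    have := nodeEn_nonneg Q p
    linarith
  set G := Seg814.eng Φ Q ℓ.2 p with hG
  have h3 : cE κ T' ℓ ≤ ENNReal.ofReal (2 + 1 / δ) * ENNReal.ofReal (Real.exp ((κ * T' + δ) * G)) := by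
    unfold cE eG
    rw [← ENNReal.ofReal_mul (by positivity), ← ENNReal.ofReal_mul (by positivity)]
    refine ENNReal.ofReal_le_ofReal ?_
    calc (1 + ‖ℓ.2‖) * Real.exp (κ * T' * ‖ℓ.2‖ ^ 2) ≤
        ((2 + 1 / δ) * Real.exp (δ * ‖ℓ.2‖ ^ 2)) * Real.exp (κ * T' * ‖ℓ.2‖ ^ 2) :=
          mul_le_mul_of_nonneg_right (one_add_le_exp hδ) (Real.exp_pos _).le
      _ = (2 + 1 / δ) * Real.exp ((κ * T' + δ) * ‖ℓ.2‖ ^ 2) := by
          rw [mul_assoc, ← Real.exp_add]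
          congr 2
          ring
      _ ≤ _ := by
          refine mul_le_mul_of_nonneg_left (Real.exp_le_exp.2 ?_) (by positivity)
          exact mul_le_mul_of_nonneg_left h2 (by linarith)
  show cE κ T' ℓ * phE Φ lam kap Q (s, ℓ, p) ≤ _
  calc cE κ T' ℓ * phE Φ lam kap Q (s, ℓ, p)
      ≤ (ENNReal.ofReal (2 + 1 / δ) * ENNReal.ofReal (Real.exp ((κ * T' + δ) * G))) *
        (ENNReal.ofReal lam * ENNReal.ofReal lam ^ Q.size *
          ENNReal.ofReal (Real.exp (kap * G))) := mul_le_mul' h3 h1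
    _ = ENNReal.ofReal (2 + 1 / δ) * ENNReal.ofReal lam * ENNReal.ofReal lam ^ Q.size *
        (ENNReal.ofReal (Real.exp ((κ * T' + δ) * G)) * ENNReal.ofReal (Real.exp (kap * G))) := by
        ring
    _ = _ := by
        rw [← ENNReal.ofReal_mul (Real.exp_pos _).le, ← Real.exp_add]
        congr 3
        ring

/-! ### The exits with a weight against the weighted exit sums -/

theorem mV_mono {b κ T' : ℝ} (hκ : 0 ≤ κ) (h : T' ≤ T) : mV b κ T' ≤ mV b κ T := by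
  unfold mV eG
  refine lintegral_mono fun u => ?_
  refine mul_le_mul' le_rfl (mul_le_mul' (ENNReal.ofReal_le_ofReal (Real.exp_le_exp.2 ?_)) le_rfl)
  exact mul_le_mul_of_nonneg_right (mul_le_mul_of_nonneg_left h hκ) (sq_nonneg _)

theorem exists_eta {q : ℝ≥0∞} (hq : q ≠ ∞) :
    ∃ η : ℝ, 0 < η ∧ 4 * (q * ENNReal.ofReal η) ≤ 1 := by
  have h0 : (0 : ℝ) ≤ q.toReal := ENNReal.toReal_nonneg
  refine ⟨1 / (4 * (q.toReal + 1)), by positivity, ?_⟩
  have e : (4 : ℝ≥0∞) * (q * ENNReal.ofReal (1 / (4 * (q.toReal + 1)))) =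
      ENNReal.ofReal (4 * (q.toReal * (1 / (4 * (q.toReal + 1))))) := by
    rw [ENNReal.ofReal_mul (by norm_num), ENNReal.ofReal_mul h0, ENNReal.ofReal_toReal hq,
      ENNReal.ofReal_ofNat]
  rw [e, ← ENNReal.ofReal_one]
  refine ENNReal.ofReal_le_ofReal ?_
  have h1 : 4 * (q.toReal * (1 / (4 * (q.toReal + 1)))) = q.toReal / (q.toReal + 1) := by
    field_simp
  rw [h1, div_le_one (by positivity)]
  linarith

theorem bt_le {ε T' : ℝ} (hT' : 0 ≤ T') : ∀ {P : CTree} {v : Space3} {p : Par P}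
    (_ : Valid Φ ε P T' v p), bt P p ≤ T'
  | leaf, _, _, _ => hT'
  | node _ _, _, _, h => (valid_node_iff.1 h).1.2.1.le

/-- the exits of a tree with a weight -/
theorem exit_le_XX (hΦ : AdmissiblePotential Φ) {ε T' lam₁ kap ν κ : ℝ} (hT' : 0 ≤ T')
    (h1 : 1 ≤ lam₁) (hν : 0 ≤ ν) (hκ : 0 ≤ κ)
    {U : ∀ P : CTree, PhasePoint × Par P → ℝ≥0∞} {φ : ML → ℝ≥0∞} (P : CTree)
    {M : ℝ≥0∞} (hM : M ≠ ∞) {th : PhasePoint × Par P → ℝ≥0∞}
    (hth : ∀ z, Valid Φ ε P T' z.1.2 z.2 → th z ≤ M * ENNReal.ofReal lam₁ ^ P.size *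
      ENNReal.ofReal (Real.exp (kap * Seg814.eng Φ P z.1.2 z.2))) :
    ∫⁻ z : PhasePoint × Par P, {z : PhasePoint × Par P | Valid Φ ε P T' z.1.2 z.2}.indicator
      (fun z => wt Φ P z.1.2 z.2 * (∏ i, ENNReal.ofReal (f₀ (lines Φ ε P z.1 z.2 i))) * th z *
        ES Φ ε U φ P z) z ≤
      M * XX Φ ε T' (kE f₀ lam₁ kap) U φ P (Wf ν κ T') := by
  unfold XX
  rw [← lintegral_const_mul' _ _ hM]
  refine lintegral_mono fun z => ?_
  by_cases hV : Valid Φ ε P T' z.1.2 z.2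
  · rw [indicator_of_mem (show z ∈ {z : PhasePoint × Par P | Valid Φ ε P T' z.1.2 z.2} from hV),
      vw_of_valid hV]
    have e1 : kw Φ ε (kE f₀ lam₁ kap) P z = phE Φ lam₁ kap P (0, z.1, z.2) *
        fp Φ f₀ ε P z.1 z.2 := kw_kE (ℓ := z.1) (p := z.2) hΦ hV.1
    have e2 : phE Φ lam₁ kap P (0, z.1, z.2) = ENNReal.ofReal lam₁ ^ P.leaves *
        ENNReal.ofReal (Real.exp (kap * Seg814.eng Φ P z.1.2 z.2)) := by
      rw [phE_of_adm hV.1, Q1815.eng_eq hΦ hV.1]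
    have h3 : (1 : ℝ≥0∞) ≤ ENNReal.ofReal lam₁ := by
      rw [← ENNReal.ofReal_one]
      exact ENNReal.ofReal_le_ofReal h1
    have h4 : ENNReal.ofReal lam₁ ^ P.size ≤ ENNReal.ofReal lam₁ ^ P.leaves :=
      pow_le_pow_right₀ h3 (by rw [CTree.leaves_eq]; omega)
    have h5 : (1 : ℝ≥0∞) ≤ Wf ν κ T' (bt P z.2, z.1) := one_le_Wf hν hκ (bt_le hT' hV)
    rw [e1, e2]
    show wt Φ P z.1.2 z.2 * fp Φ f₀ ε P z.1 z.2 * th z * ES Φ ε U φ P z ≤ _
    calc wt Φ P z.1.2 z.2 * fp Φ f₀ ε P z.1 z.2 * th z * ES Φ ε U φ P z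
        ≤ wt Φ P z.1.2 z.2 * fp Φ f₀ ε P z.1 z.2 * (M * ENNReal.ofReal lam₁ ^ P.leaves *
          ENNReal.ofReal (Real.exp (kap * Seg814.eng Φ P z.1.2 z.2))) * ES Φ ε U φ P z * 1 := by
          rw [mul_one]
          gcongr
          exact (hth z hV).trans (by gcongr)
      _ ≤ wt Φ P z.1.2 z.2 * fp Φ f₀ ε P z.1 z.2 * (M * ENNReal.ofReal lam₁ ^ P.leaves *
          ENNReal.ofReal (Real.exp (kap * Seg814.eng Φ P z.1.2 z.2))) * ES Φ ε U φ P z *
            Wf ν κ T' (bt P z.2, z.1) := mul_le_mul' le_rfl h5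
      _ = _ := by ring
  · rw [indicator_of_notMem
      (show z ∉ {z : PhasePoint × Par P | Valid Φ ε P T' z.1.2 z.2} from hV)]
    exact bot_le

/-! ### The final theorem -/

/-- **Densities of the exit lines.** The quenched exit sums with a weight `th`, against a test
function `φ ≤ 1` of the marked exit line, are at most a constant times the integral of `φ` for the
measure on marked lines, up to a null error that does not depend on the test function and the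
weight. The horizon `T' ≤ tw + h₀` may exceed `T`. -/
theorem qexit_gen (hD : KData Φ β T f₀ f) {h₀ kap lam C b : ℝ}
    (hK : Seg814.KinC Φ T f h₀ kap lam C b) (hkap : kap ≤ β) {lam₁ : ℝ} (h1 : 1 < lam₁)
    (h2 : lam₁ < lam) :
    ∃ g₁ : ℝ, 0 < g₁ ∧ ∃ ρ₁ : ℝ≥0∞, ρ₁ < 1 ∧ ∃ C₁ : ℝ≥0∞, C₁ ≠ ∞ ∧
      ∀ (γ : ℝ → ℝ) (ρ : ℝ≥0∞), ρ₁ ≤ ρ → ∀ tw ∈ Icc 0 T, GIV566.GIV Φ f₀ f T tw →
      ∀ T' : ℝ, 0 < T' → T' ≤ tw + h₀ → (∀ τ ∈ Ioc 0 T', γ τ ≤ g₁) → ∀ K : ℕ,
      ∃ δ : ℝ → ℝ≥0∞, Tendsto δ (𝓝[>] 0) (𝓝 0) ∧ ∀ ε : ℝ, 0 < ε →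
      ∀ φ : (n : ℕ) → Config n → ML → ℝ≥0∞, (∀ n w, Measurable (φ n w)) →
        (∀ n w l, φ n w l ≤ 1) →
      ∀ M : ℝ≥0∞, M ≠ ∞ →
      ∀ th : (n : ℕ) → Config n → (P : CTree) → PhasePoint × Par P → ℝ≥0∞,
        (∀ n w P z, Valid Φ ε P T' z.1.2 z.2 → th n w P z ≤ M * ENNReal.ofReal lam₁ ^ P.size *
          ENNReal.ofReal (Real.exp (kap * Seg814.eng Φ P z.1.2 z.2))) →
      gcE f₀ ε (fun n w => ∑' P : CTree, if P.leaves ≤ K then ∫⁻ z : PhasePoint × Par P,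
        {z : PhasePoint × Par P | Valid Φ ε P T' z.1.2 z.2}.indicator
          (fun z => wt Φ P z.1.2 z.2 * (∏ i, ENNReal.ofReal (f₀ (lines Φ ε P z.1 z.2 i))) *
            th n w P z * ES Φ ε (fun Q y => GIV566.unhitInd Φ ε (Q1815.hidM Φ ε Q y.1 y.2) tw w)
              (φ n w) P z) z else 0) ≤
        M * (C₁ * gcE f₀ ε (fun n w => ∫⁻ l, φ n w l ∂EDefs602.lineM γ ρ K T') + δ ε) := by
  have hΦ := hD.adm
  have hβ := hD.beta_pos
  have hT := hD.T_pos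
  have hf := hD.contDiff.continuous.measurable
  obtain ⟨hh₀, hkap0, hlam, hC, hb, -⟩ := id hK
  have h10 : 0 < lam₁ := by linarith
  set r : ℝ := lam₁ / lam with hr
  have hr0 : 0 ≤ r := by positivity
  have hr1 : r < 1 := (div_lt_one (by linarith)).2 h2
  set r₁ : ℝ := (1 + r) / 2 with hr₁
  have hrr : r < r₁ := by rw [hr₁]; linarith
  have hr₁1 : r₁ < 1 := by rw [hr₁]; linarith
  set T₂ : ℝ := T + h₀ with hT₂d
  have hT₂ : 0 < T₂ := by rw [hT₂d]; linarith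
  set κ : ℝ := min b β / (8 * T₂) with hκ
  have hm : 0 < min b β := lt_min hb hβ
  have hκ0 : 0 < κ := by rw [hκ]; positivity
  have hκT : κ * T₂ = min b β / 8 := by rw [hκ]; field_simp
  have hκb : κ * T₂ < b := by rw [hκT]; have := min_le_left b β; linarith
  have hκβ : κ * T₂ ≤ β / 8 := by rw [hκT]; have := min_le_right b β; linarith
  set c₀ : ℝ≥0∞ := ENNReal.ofReal lam₁ * (ENNReal.ofReal (lam / lam₁) * ENNReal.ofReal C) with hc₀
  have hc₀t : c₀ ≠ ∞ := ENNReal.mul_ne_top ENNReal.ofReal_ne_top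
    (ENNReal.mul_ne_top ENNReal.ofReal_ne_top ENNReal.ofReal_ne_top)
  set ρ₀ : ℝ≥0∞ := ENNReal.ofReal r with hρ₀
  have hρ₀1 : ρ₀ < 1 := by
    rw [hρ₀, ← ENNReal.ofReal_one]
    exact (ENNReal.ofReal_lt_ofReal_iff one_pos).2 hr1
  have hgeo : ∀ {x : ℝ≥0∞}, x < 1 → ∑' m : ℕ, x ^ m ≠ ∞ := fun {x} hx => by
    rw [ENNReal.tsum_geometric]
    exact ENNReal.inv_ne_top.2 (tsub_pos_of_lt hx).ne'
  have hQ0 : (c₀ * ∑' m : ℕ, ρ₀ ^ m) * (mV b κ T₂ * vD) ≠ ∞ :=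
    ENNReal.mul_ne_top (ENNReal.mul_ne_top hc₀t (hgeo hρ₀1))
      (ENNReal.mul_ne_top (mV_ne_top hκb) vD_ne_top)
  obtain ⟨η, hη, hq⟩ := exists_eta hQ0
  obtain ⟨ν, hν, hνη⟩ := exists_nu hκ0 hη
  have hx1 : ENNReal.ofReal (r / r₁) < 1 := by
    rw [← ENNReal.ofReal_one]
    exact (ENNReal.ofReal_lt_ofReal_iff one_pos).2 ((div_lt_one (hr0.trans_lt hrr)).2 hrr)
  set C₁ : ℝ≥0∞ := 2 * ((c₀ ^ 2 * (ENNReal.ofReal (Real.exp (ν * T₂)) * (mV b κ T₂ * vD))) *
    ((∑' j : ℕ, ENNReal.ofReal (r / r₁) ^ j) * cA (b / 2))) with hC₁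
  refine ⟨b / 2, by positivity, ENNReal.ofReal r₁, ?_, C₁, ?_, ?_⟩
  · rw [← ENNReal.ofReal_one]
    exact (ENNReal.ofReal_lt_ofReal_iff one_pos).2 hr₁1
  · exact ENNReal.mul_ne_top ENNReal.ofNat_ne_top (ENNReal.mul_ne_top
      (ENNReal.mul_ne_top (ENNReal.pow_ne_top hc₀t) (ENNReal.mul_ne_top ENNReal.ofReal_ne_top
        (ENNReal.mul_ne_top (mV_ne_top hκb) vD_ne_top)))
      (ENNReal.mul_ne_top (hgeo hx1) (cA_ne_top _)))
  intro γ ρ hρ tw htw hG T' hT'0 hT'h hγ K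
  have hT'T : T' ≤ T₂ := by rw [hT₂d]; linarith [htw.2]
  have X : Q1815.Ctx Φ β T f₀ f T' tw := Q1815.Ctx.of_kdata hD htw hG hT'0
  have hκT' : κ * T' ≤ κ * T₂ := mul_le_mul_of_nonneg_left hT'T hκ0.le
  have hκT'0 : 0 ≤ κ * T' := by positivity
  have hmV : mV b κ T' ≤ mV b κ T₂ := mV_mono hκ0.le hT'T
  have hexp : ENNReal.ofReal (Real.exp (ν * T')) ≤ ENNReal.ofReal (Real.exp (ν * T₂)) :=
    ENNReal.ofReal_le_ofReal (Real.exp_le_exp.2 (mul_le_mul_of_nonneg_left hT'T hν.le))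
  have hq' : 4 * (((c₀ * ∑' m : ℕ, ρ₀ ^ m) * (mV b κ T' * vD)) * ENNReal.ofReal η) ≤ 1 := by
    refine le_trans ?_ hq
    gcongr
  obtain ⟨c, hc, hcr⟩ := exists_crude (f₀ := f₀) hΦ hD.gaussian lam₁
    (show kap < 2 * β by linarith) T₂ K
  obtain ⟨B, hB, hcore⟩ := core (T := T') (k := kE f₀ lam₁ kap) (b := b)
    (b₂ := (2 * β - kap) / 2) hΦ
    (measurable_kE hf lam₁ kap) hν hκ0.le (hκT'.trans_lt hκb) (by linarith) hνη hc₀t hρ₀1 hq' K hc
    K le_rfl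
  have hwgt : ∀ Q ∈ GIVStep383.trees K, Q1815.Wgt Φ β Q
      (fun q => cE κ T' q.2.1 * phE Φ lam₁ kap Q q) T' := fun Q _ =>
    wgt_cE hΦ (δ := β / 8) (by positivity) hκT'0 (by linarith) Q
  have hae : ∀ᵐ s ∂(volume.restrict (Ioc 0 T') : Measure ℝ), s ≤ T' :=
    (ae_restrict_mem measurableSet_Ioc).mono fun s hs => hs.2
  refine ⟨fun ε => B * ∑ Q ∈ GIVStep383.trees K, Q1815.err Φ f₀ f T Q
        (fun q => cE κ T' q.2.1 * phE Φ lam₁ kap Q q) (volume.restrict (Ioc 0 T')) tw ε, ?_, ?_⟩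
  · have h := ENNReal.Tendsto.const_mul (a := B)
      (Q1815.tendsto_err_sum X hae (GIVStep383.trees K)
        (φ := fun Q q => cE κ T' q.2.1 * phE Φ lam₁ kap Q q) hwgt) (Or.inr hB)
    rw [mul_zero] at h
    exact h
  intro ε hε φ hφ hφ1 M hM th hth
  -- the pointwise estimate
  have key : ∀ (n : ℕ) (w : Config n), (∑' P : CTree, if P.leaves ≤ K then
      ∫⁻ z : PhasePoint × Par P,
        {z : PhasePoint × Par P | Valid Φ ε P T' z.1.2 z.2}.indicator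
          (fun z => wt Φ P z.1.2 z.2 * (∏ i, ENNReal.ofReal (f₀ (lines Φ ε P z.1 z.2 i))) *
            th n w P z * ES Φ ε (fun Q y => GIV566.unhitInd Φ ε (Q1815.hidM Φ ε Q y.1 y.2) tw w)
              (φ n w) P z) z else 0) ≤
      M * (B * EI κ T' (EX Φ f₀ f T lam₁ kap K ε tw w) +
        C₁ * ∫⁻ l, φ n w l ∂EDefs602.lineM γ ρ K T') := by
    intro n w
    set U : ∀ Q : CTree, PhasePoint × Par Q → ℝ≥0∞ :=
      fun Q y => GIV566.unhitInd Φ ε (Q1815.hidM Φ ε Q y.1 y.2) tw w with hU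
    have hUm : ∀ Q, Measurable (U Q) := fun Q => by
      have h := Q1815.measurable_unhit_hidM hΦ hε Q (tw := tw) (W := PhasePoint × Par Q)
        (ℓ := fun z => z.1) measurable_fst (p := fun z => z.2) measurable_snd
      exact h.comp (f := fun z : PhasePoint × Par Q => (((⟨n, w⟩ : Σ n : ℕ, Config n)), z))
        (measurable_const.prodMk measurable_id)
    have hU1 : ∀ Q z, U Q z ≤ 1 := fun Q z => GIV566.unhitInd_le_one
    have s1 : (∑' P : CTree, if P.leaves ≤ K then ∫⁻ z : PhasePoint × Par P,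
        {z : PhasePoint × Par P | Valid Φ ε P T' z.1.2 z.2}.indicator
          (fun z => wt Φ P z.1.2 z.2 * (∏ i, ENNReal.ofReal (f₀ (lines Φ ε P z.1 z.2 i))) *
            th n w P z * ES Φ ε U (φ n w) P z) z else 0) ≤
        M * XS Φ ε T' (kE f₀ lam₁ kap) U (φ n w) K (Wf ν κ T') := by
      unfold XS
      rw [← ENNReal.tsum_mul_left]
      refine ENNReal.tsum_le_tsum fun P => ?_
      by_cases hP : P.leaves ≤ K
      · rw [if_pos hP, if_pos hP]
        exact exit_le_XX hΦ hT'0.le h1.le hν.le hκ0.le P hM (fun z hz => hth n w P z hz)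
      · rw [if_neg hP]
        exact bot_le
    refine s1.trans (mul_le_mul' le_rfl ?_)
    have s2 := hcore ε hε U hUm hU1 (φ n w) (hφ n w) (hφ1 n w)
      (EX Φ f₀ f T lam₁ kap K ε tw w) (measurable_EX X lam₁ kap K hε w)
      (hcr ε hε.le T' hT'T) (ctrl X hK h10 h2.le hT'h K ε w)
    refine s2.trans ?_
    rw [add_comm]
    refine add_le_add le_rfl ?_
    have s3 := MT_le (r := r) (r₁ := r₁) (b := b) (δ := b / 2) hr0 hrr (by positivity)
      (T' := T') (γ := γ) (ρ := ρ) (fun τ hτ => (hγ τ hτ).trans (by linarith))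
      hρ (hφ n w) K
    calc 2 * ((c₀ ^ 2 * (ENNReal.ofReal (Real.exp (ν * T')) * (mV b κ T' * vD))) *
          MT ρ₀ T' b (φ n w) K)
        ≤ 2 * ((c₀ ^ 2 * (ENNReal.ofReal (Real.exp (ν * T₂)) * (mV b κ T₂ * vD))) *
          (((∑' j : ℕ, ENNReal.ofReal (r / r₁) ^ j) * cA (b / 2)) *
            ∫⁻ l, φ n w l ∂EDefs602.lineM γ ρ K T')) := by gcongr
      _ = _ := by rw [hC₁]; ring
  have hC₁t : C₁ ≠ ∞ := by
    exact ENNReal.mul_ne_top ENNReal.ofNat_ne_top (ENNReal.mul_ne_top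
      (ENNReal.mul_ne_top (ENNReal.pow_ne_top hc₀t) (ENNReal.mul_ne_top ENNReal.ofReal_ne_top
        (ENNReal.mul_ne_top (mV_ne_top hκb) vD_ne_top)))
      (ENNReal.mul_ne_top (hgeo hx1) (cA_ne_top _)))
  refine (gcE_mono f₀ ε fun n w _ => key n w).trans ?_
  rw [gcE_const_mul f₀ ε hM]
  refine mul_le_mul' le_rfl ?_
  have hmE : ∀ n : ℕ, Measurable fun w : Config n =>
      B * EI κ T' (EX Φ f₀ f T lam₁ kap K ε tw w) := fun n =>
    (measurable_EI (α := Config n) (κ := κ) (T := T')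
      (E := fun q => EX Φ f₀ f T lam₁ kap K ε tw q.1 q.2)
      (measurable_EX2 X lam₁ kap K hε n)).const_mul B
  have hadd := gcE_add hf ε (F := fun n w => B * EI κ T' (EX Φ f₀ f T lam₁ kap K ε tw w))
    (G := fun n w => C₁ * ∫⁻ l, φ n w l ∂EDefs602.lineM γ ρ K T') hmE
  rw [hadd, gcE_const_mul f₀ ε hB, gcE_const_mul f₀ ε hC₁t, add_comm]
  exact add_le_add le_rfl (mul_le_mul' le_rfl (gcE_EI_le X κ lam₁ kap T' K hε))


end Crest.Agent.R122.QExit814

end
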