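import Crest.Agent.R122.RealA_811
import Crest.Agent.R122.InEq2TPt_335
import Crest.Agent.R122.LineMeas_994
import Crest.Agent.R122.R6Tree_974
import Crest.Agent.R122.E6Real_811
import Crest.Agent.R122.RootNo_45
import Crest.Agent.R122.H5A_994
import Crest.Agent.R122.RealOne_796

-- ▼ part R122/TreeInMeas_823
section

/-!
# Row 122 (helper823): measurability of the real history of a tree

* `measurableSet_treeIn` : for a random world `W`, a random tree `z`, a random horizon `v`, the event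
  `Valid ∧ TreeIn Φ ε W P z e v` (helper811's `RealL811.TreeIn`) is measurable.
* `tiS` : the leaves of the tree, inserted in the gas `w`, follow the tree up to `te`, no contact with
  others before their release times; `measurableSet_tiS`.
-/

set_option autoImplicit false

open MeasureTheory Set Filter Topology
open Crest.AnalysisR.Kinetic
open Crest.Agent.R122.Kin796 Crest.Agent.R122.Kin796.CTree Crest.Agent.R122.Tree674
open Crest.Agent.R122.EDefs602 Crest.Agent.R122.MeasE416 Crest.Agent.R122.GC311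
open Crest.Agent.R122.TreeLines335 (rel)

namespace Crest.Agent.R122.TreeInM823

noncomputable section

variable {Ω : Type*} [MeasurableSpace Ω] {α : Type} [Fintype α] {Φ : Space3 → ℝ} {ε : ℝ}
  {P : CTree}

/-- Two continuous functions agree on `[0, b]` iff they agree at the clamped rationals. -/
theorem forall_Icc_iff {X : Type*} [TopologicalSpace X] [T2Space X] {f g : ℝ → X}
    (hf : Continuous f) (hg : Continuous g) (b : ℝ) :
    (∀ u, 0 ≤ u → u ≤ b → f u = g u) ↔
      (0 ≤ b → ∀ q : ℚ, f (max 0 (min q b)) = g (max 0 (min q b))) := by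
  constructor
  · intro h hb q
    exact h _ (le_max_left _ _) (max_le hb (min_le_right _ _))
  · intro h u h0 hu
    have hb : 0 ≤ b := h0.trans hu
    have hc : Continuous fun s : ℝ => max 0 (min s b) := by fun_prop
    have h1 : IsClosed {s : ℝ | f (max 0 (min s b)) = g (max 0 (min s b))} :=
      isClosed_eq (hf.comp hc) (hg.comp hc)
    have h2 : range ((↑) : ℚ → ℝ) ⊆ {s : ℝ | f (max 0 (min s b)) = g (max 0 (min s b))} := by
      rintro _ ⟨q, rfl⟩
      exact h hb q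
    have h3 := h1.closure_subset_iff.2 h2
    rw [Rat.denseRange_cast.closure_range] at h3
    have h4 : u ∈ {s : ℝ | f (max 0 (min s b)) = g (max 0 (min s b))} := h3 (mem_univ u)
    have h5 : max 0 (min u b) = u := by rw [min_eq_left hu, max_eq_right h0]
    have h6 : f (max 0 (min u b)) = g (max 0 (min u b)) := h4
    rwa [h5] at h6

/-- **The real history of a tree is a measurable event.** -/
theorem measurableSet_treeIn (hΦ : AdmissiblePotential Φ) (hε : 0 < ε) {W : Ω → MW α}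
    (hW : MeasW W) {z : Ω → PhasePoint × Par P} (hz : Measurable z) (e : Idx P → α) {v : Ω → ℝ}
    (hv : Measurable v) (T' : ℝ) :
    MeasurableSet {ω | Valid Φ ε P T' (z ω).1.2 (z ω).2 ∧
      RealL811.TreeIn Φ ε (W ω) P (z ω) e (v ω)} := by
  classical
  have hVm : MeasurableSet {ω | Valid Φ ε P T' (z ω).1.2 (z ω).2} :=
    hz (measurableSet_valid hΦ ε P T')
  have hrel : ∀ k, Measurable fun ω => rel P (z ω).2 k := fun k =>
    (LineMeas994.measurable_rel P k).comp (measurable_snd.comp hz)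
  have hb : ∀ k, Measurable fun ω => min (v ω) (rel P (z ω).2 k) := fun k => hv.min (hrel k)
  -- agreement at a clamped rational
  have hA : ∀ (k : Idx P) (q : ℚ), MeasurableSet {ω | 0 ≤ min (v ω) (rel P (z ω).2 k) →
      (W ω).path Φ ε (max 0 (min q (min (v ω) (rel P (z ω).2 k)))) (e k) =
        pathM Φ ε P (max 0 (min q (min (v ω) (rel P (z ω).2 k)))) (z ω).1 (z ω).2 k} := by
    intro k q
    have ht : Measurable fun ω => max 0 (min (q : ℝ) (min (v ω) (rel P (z ω).2 k))) :=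
      measurable_const.max (measurable_const.min (hb k))
    have h1 := hW.path_apply hΦ hε ht (e k)
    have h2 : Measurable fun ω =>
        pathM Φ ε P (max 0 (min q (min (v ω) (rel P (z ω).2 k)))) (z ω).1 (z ω).2 k :=
      (measurable_pi_apply k).comp ((measurable_pathM hΦ ε P).comp (ht.prodMk hz))
    have h3 := measurableSet_eq_fun h1 h2
    have h4 : MeasurableSet {ω | 0 ≤ min (v ω) (rel P (z ω).2 k)} :=
      measurableSet_le measurable_const (hb k)
    have e1 : {ω | 0 ≤ min (v ω) (rel P (z ω).2 k) →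
      (W ω).path Φ ε (max 0 (min q (min (v ω) (rel P (z ω).2 k)))) (e k) =
        pathM Φ ε P (max 0 (min q (min (v ω) (rel P (z ω).2 k)))) (z ω).1 (z ω).2 k} =
        {ω | 0 ≤ min (v ω) (rel P (z ω).2 k)}ᶜ ∪
        {ω | (W ω).path Φ ε (max 0 (min q (min (v ω) (rel P (z ω).2 k)))) (e k) =
        pathM Φ ε P (max 0 (min q (min (v ω) (rel P (z ω).2 k)))) (z ω).1 (z ω).2 k} := by
      ext ω
      simp only [mem_union, mem_compl_iff, mem_ofPred_eq]
      tauto
    rw [e1]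
    exact h4.compl.union h3
  -- contacts with others
  have hC : ∀ (k : Idx P) (j : α), MeasurableSet {ω | ∃ s ∈ Icc 0 (min (v ω) (rel P (z ω).2 k)),
      (W ω).C Φ ε s (e k) j ∧ ∀ m : Idx P, e m = j → rel P (z ω).2 m < s} := by
    intro k j
    have h1 : RSE fun ω s => ∀ m : Idx P, e m = j → rel P (z ω).2 m < s := by
      refine RSE.forall_finite fun m => ?_
      by_cases hm : e m = j
      · exact (RSE.lt_time (hrel m)).congr fun ω s => by simp [hm]
      · exact (RSE.const' True).congr fun ω s => by simp [hm]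
    exact ((hW.C hΦ hε (e k) j).and h1).existsIcc measurable_const (hb k)
  have key : {ω | Valid Φ ε P T' (z ω).1.2 (z ω).2 ∧ RealL811.TreeIn Φ ε (W ω) P (z ω) e (v ω)} =
      {ω | Valid Φ ε P T' (z ω).1.2 (z ω).2} ∩ ({_ω | Function.Injective e} ∩
        ((⋂ k, {ω | (W ω).b (e k) = 0}) ∩ ((⋂ k, {ω | (W ω).m (e k) = 1}) ∩
        ((⋂ k, ⋂ q : ℚ, {ω | 0 ≤ min (v ω) (rel P (z ω).2 k) →
          (W ω).path Φ ε (max 0 (min q (min (v ω) (rel P (z ω).2 k)))) (e k) =
          pathM Φ ε P (max 0 (min q (min (v ω) (rel P (z ω).2 k)))) (z ω).1 (z ω).2 k}) ∩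
        (⋂ k, ⋂ j, {ω | ∃ s ∈ Icc 0 (min (v ω) (rel P (z ω).2 k)),
          (W ω).C Φ ε s (e k) j ∧ ∀ m : Idx P, e m = j → rel P (z ω).2 m < s}ᶜ))))) := by
    ext ω
    simp only [mem_inter_iff, mem_iInter, mem_ofPred_eq, mem_compl_iff]
    constructor
    · rintro ⟨hV, h⟩
      refine ⟨hV, h.inj, h.born, h.one, fun k q h0 => ?_, fun k j hx => ?_⟩
      · rw [pathM_of_adm hΦ ε _ hV.1]
        refine h.agree k _ (le_max_left _ _) ?_ ?_
        · exact max_le (h0.trans (min_le_left _ _)) ((min_le_right _ _).trans (min_le_left _ _))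
        · exact max_le (h0.trans (min_le_right _ _)) ((min_le_right _ _).trans (min_le_right _ _))
      · obtain ⟨s, hs, hc, hm⟩ := hx
        obtain ⟨m, hm1, hm2⟩ := h.sealed k s j hs.1 (hs.2.trans (min_le_left _ _))
          (hs.2.trans (min_le_right _ _)) hc
        exact absurd (hm m hm1) (not_lt.2 hm2)
    · rintro ⟨hV, hi, hb, h1, hag, hcl⟩
      refine ⟨hV, ⟨hi, hb, h1, fun k u h0 h2 h3 => ?_, fun k u j h0 h2 h3 hc => ?_⟩⟩
      · have hf : Continuous fun u => (W ω).path Φ ε u (e k) :=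
          (continuous_apply (e k)).comp (continuous_evo hΦ hε (W ω).b 0 (W ω).z)
        have hg : Continuous fun u => path Φ ε P (z ω).1 (z ω).2 u k :=
          (continuous_apply k).comp (Tree674.continuous_path hΦ hε hV)
        refine (forall_Icc_iff hf hg (min (v ω) (rel P (z ω).2 k))).2 (fun hb0 q => ?_) u h0
          (le_min h2 h3)
        have h4 := hag k q hb0
        rwa [pathM_of_adm hΦ ε _ hV.1] at h4
      · by_contra hno
        push Not at hno
        exact hcl k j ⟨u, ⟨h0, le_min h2 h3⟩, hc, fun m hm => hno m hm⟩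
  rw [key]
  refine hVm.inter ((MeasurableSet.const _).inter ((MeasurableSet.iInter fun k => ?_).inter
    ((MeasurableSet.iInter fun k => ?_).inter ((MeasurableSet.iInter fun k =>
      MeasurableSet.iInter fun q => hA k q).inter (MeasurableSet.iInter fun k =>
        MeasurableSet.iInter fun j => (hC k j).compl)))))
  · exact measurableSet_eq_fun (hW.b (e k)) measurable_const
  · exact measurableSet_eq_fun (hW.m (e k)) measurable_const

/-! ## The indicator of the spread terms -/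

/-- The leaves of the tree, inserted in the gas `w`, follow the tree up to their release times,
without contact with others, up to the horizon `te`. -/
def tiS (Φ : Space3 → ℝ) (ε te : ℝ) (P : CTree) (z : PhasePoint × Par P) {m : ℕ}
    (w : Config m) : Prop :=
  RealL811.TreeIn Φ ε ((MW.cfg w).add (RealL811.treeW Φ ε P z)) P z Sum.inr te

theorem treeW_eq {P : CTree} {z : PhasePoint × Par P} (hV : Adm Φ P z.1.2 z.2) :
    InEq2T.treeW Φ ε P z = RealL811.treeW Φ ε P z := by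
  unfold InEq2T.treeW RealL811.treeW
  rw [linesM_of_adm ε hV]

/-- **`tiS` is measurable on the valid trees.** -/
theorem measurableSet_tiS (hΦ : AdmissiblePotential Φ) (hε : 0 < ε) (P : CTree) (te T' : ℝ)
    (m : ℕ) : MeasurableSet {q : (PhasePoint × Par P) × Config m |
      Valid Φ ε P T' q.1.1.2 q.1.2 ∧ tiS Φ ε te P q.1 q.2} := by
  have hW : MeasW fun q : (PhasePoint × Par P) × Config m =>
      (MW.cfg q.2).add (InEq2T.treeW Φ ε P q.1) :=
    (MeasW.cfg measurable_snd).add ((InEq2T.measW_treeW hΦ ε P).comp measurable_fst)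
  have h := measurableSet_treeIn hΦ hε hW (z := fun q : (PhasePoint × Par P) × Config m => q.1)
    measurable_fst Sum.inr (v := fun _ => te) measurable_const T'
  have e1 : {q : (PhasePoint × Par P) × Config m |
      Valid Φ ε P T' q.1.1.2 q.1.2 ∧ tiS Φ ε te P q.1 q.2} =
      {q : (PhasePoint × Par P) × Config m | Valid Φ ε P T' q.1.1.2 q.1.2 ∧
        RealL811.TreeIn Φ ε ((MW.cfg q.2).add (InEq2T.treeW Φ ε P q.1)) P q.1 Sum.inr te} := by
    ext q
    simp only [mem_ofPred_eq]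
    constructor
    · rintro ⟨h1, h2⟩
      refine ⟨h1, ?_⟩
      rw [treeW_eq h1.1]
      exact h2
    · rintro ⟨h1, h2⟩
      refine ⟨h1, ?_⟩
      rw [treeW_eq h1.1] at h2
      exact h2
  rw [e1]
  exact h

/-- The same over the whole gas. -/
theorem measurableSet_tiS_sigma (hΦ : AdmissiblePotential Φ) (hε : 0 < ε) (P : CTree)
    (te T' : ℝ) : MeasurableSet {q : (Σ n : ℕ, Config n) × (PhasePoint × Par P) |
      Valid Φ ε P T' q.2.1.2 q.2.2 ∧ tiS Φ ε te P q.2 q.1.2} := by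
  refine measurableSet_setOfPred.2 (Q1815.measurable_sigma_prod fun n => measurableSet_setOfPred.1 ?_)
  exact measurable_swap (measurableSet_tiS hΦ hε P te T' n)

end

end Crest.Agent.R122.TreeInM823
end

-- ▼ part R122/H5Ti_994
section

/-!
# The good set of the term (A) (row 122, HOLE 4), helper994

* `Gt Φ ε te T' P w z` : the tree is valid (horizon `T'`) and its leaves, inserted in the gas `w`,
  follow the tree up to `te` (helper823's `tiS`).
* `measurableSet_Gt` : it is measurable.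
* `Gt.of_real6` : it holds on helper292's structure `Real6`.
-/

set_option autoImplicit false

open MeasureTheory Set Filter
open scoped ENNReal Topology
open Crest.AnalysisR.Kinetic
open Crest.Agent.R122.Kin796 Crest.Agent.R122.Kin796.CTree Crest.Agent.R122.Tree674
open Crest.Agent.R122.EDefs602 Crest.Agent.R122.TreeLines335
open Crest.Agent.R122.Boost969 (LSt posAt)
open Crest.Agent.R122.Pair292 (Lab PPar PX shM)
open Crest.Agent.R122.PairD292

namespace Crest.Agent.R122.H5994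

noncomputable section

open scoped Classical

/-- **The good set of the term (A)**: a valid tree whose leaves, inserted in the gas, follow the tree
up to `te`. -/
def Gt (Φ : Space3 → ℝ) (ε te T' : ℝ) (P : CTree) (w : Σ n : ℕ, Config n)
    (z : PhasePoint × Par P) : Prop :=
  Valid Φ ε P T' z.1.2 z.2 ∧ TreeInM823.tiS Φ ε te P z w.2

theorem measurableSet_Gt {Φ : Space3 → ℝ} {ε : ℝ} (hΦ : AdmissiblePotential Φ) (hε : 0 < ε)
    (te T' : ℝ) (P : CTree) :
    MeasurableSet {q : (Σ n : ℕ, Config n) × (PhasePoint × Par P) | Gt Φ ε te T' P q.1 q.2} :=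
  TreeInM823.measurableSet_tiS_sigma hΦ hε P te T'

theorem Gt.of_real6 {Φ : Space3 → ℝ} {ε te T' : ℝ} {K : ℕ} {P : CTree}
    {z : PhasePoint × Par P} {m : ℕ} {w : Config m} {θ : Lab × LSt}
    (hΦ : AdmissiblePotential Φ) (hε : 0 < ε) (h : Real6 Φ ε K te T' P z w θ) :
    Gt Φ ε te T' P ⟨m, w⟩ z :=
  ⟨h.valid, R6Tree974.R6.rl1 hΦ hε h te⟩

end

end Crest.Agent.R122.H5994
end

-- ▼ part R122/Pt6Core_811
section

/-!
# StmtPt6 : pointwise inequality of E6 on the real contact structures (row 122), helper811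

* `exists_reb`, `thetaL_reb_d` : the root line reborn at `σ` (a time up to which it has no contact in
  `w₂ + exits`, `w₂ + d + exits`).
* `hitT_eq` : 994's `hitT` is 285's `cT`.
* `tO6`, `tY6` : the literal terms.
* `Base6`, `Enc6` : the deterministic data; `core_old`, `core_young` : the inequalities. `Enc6` is
  used only in the case `Early6`.
-/

set_option autoImplicit false
set_option linter.unusedSectionVars false

open MeasureTheory Set Filter Topology
open scoped ENNReal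
open Crest.AnalysisR.Kinetic
open Crest.Agent.R122.Inf879 Crest.Agent.R122.EDefs602
open Crest.Agent.R122.Kin796 Crest.Agent.R122.Kin796.CTree Crest.Agent.R122.Tree674
open Crest.Agent.R122.TreeLines335 Crest.Agent.R122.Decomp811 Crest.Agent.R122.MWAlg255
open Crest.Agent.R122.MWFam255 Crest.Agent.R122.E6Hyp879 Crest.Agent.R122.Ins45
open Crest.Agent.R122.LineMeas994
open Crest.Agent.R122.Boost969 (LSt)
open Crest.Agent.R122.Pair292 (Lab)
open Crest.Agent.R122.OneC285 (cfT rt cT cB cD cX)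
open Crest.Agent.R122.PairD292

namespace Crest.Agent.R122.Pt6811

noncomputable section

open scoped Classical

/-- The instance used by helper45's theorems. -/
local instance (priority := 2000) othFintype6 {α : Type} [Fintype α] (c : α) : Fintype (Oth c) :=
  Subtype.fintype fun k => k ≠ c

/-! ### The reborn root line -/

section reb

variable {ι κ ξ : Type} [Fintype ι] [Fintype κ] [Fintype ξ] {Φ : Space3 → ℝ} {ε T σ : ℝ} {K : ℕ}

/-- The touch time of the line and of the reborn line, if not later than the exits. -/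
theorem thetaL_reb_of_sub {Y : MW ι} {E : MW ξ} {c : ML} (h : SubRoot Φ ε K T Y E c σ)
    (hΦ : AdmissiblePotential Φ) (hε : 0 < ε) (hT : 0 ≤ T) (h1 : Y.thetaL Φ ε K T c ≤ T)
    (h2 : Y.thetaL Φ ε K T c ≤ Y.theta Φ ε K T E) :
    Y.thetaL Φ ε K T (reb c σ) = Y.thetaL Φ ε K T c := by
  obtain ⟨r, hr, x, k, hc⟩ := MW.exists_contact_le_theta hΦ hε h.y h.yc hT h1
    (by rw [Finset.univ_unique, Finset.sum_singleton]; exact h.cK)
  have hσ := h.lt_of_C hΦ hε h1 h2 hr.2 hc
  exact (h.noCt hΦ hε (hσ.trans_le hr.2).le h1 h2).thetaL_reb (K := K) hΦ hε h.yc T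

variable {w₂ : MW ι} {F : κ → ML} {r : κ} {d e' c' : ML}

/-- In `w₂ + d`. -/
theorem thetaL_reb_d (hΦ : AdmissiblePotential Φ) (hε : 0 < ε) (hT : 0 ≤ T)
    (hE : E6Hyp Φ ε K T w₂ F r d e' c') (hb : ∀ x, 0 ≤ (w₂.ins d).b x) (hK : (F r).2 ≤ K)
    (nc : NoCt Φ ε (Z0 w₂ F r d) (F r) σ) (h1 : (w₂.ins d).thetaL Φ ε K T (F r) ≤ T)
    (h2 : (w₂.ins d).thetaL Φ ε K T (F r) ≤ firstT Φ ε K T (w₂.ins d) F) :
    (w₂.ins d).thetaL Φ ε K T (reb (F r) σ) = (w₂.ins d).thetaL Φ ε K T (F r) := by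
  have hsub : SubRoot Φ ε K T (w₂.ins d) (MW.lines fun i => F (exEmb r i)) (F r) σ :=
    SubRoot.of_fam hΦ hε hT (hE.okE hΦ hε) hE.nl₁ (exEmb r) (fun i => i.2) hb hK nc
  refine thetaL_reb_of_sub hsub hΦ hε hT h1 ?_
  exact le_theta_lines hΦ hε hT (hE.okE hΦ hε) hE.nl₁ (exEmb r) h1
    fun i => h2.trans (firstT_le Φ ε K T (w₂.ins d) F i.1)

/-- Labels of the exits in `w₂ + F`. -/
def othE (ι κ : Type) (r : κ) : ι ⊕ {k : κ // k ≠ r} ≃ Oth (Sum.inr r : ι ⊕ κ) where
  toFun := Sum.elim (fun i => ⟨Sum.inl i, by simp⟩)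
    fun k => ⟨Sum.inr k.1, fun h => k.2 (Sum.inr_injective h)⟩
  invFun x := match x with
    | ⟨Sum.inl i, _⟩ => Sum.inl i
    | ⟨Sum.inr k, hk⟩ => Sum.inr ⟨k, fun h => hk (by rw [h])⟩
  left_inv := by rintro (i | k) <;> rfl
  right_inv := by rintro ⟨i | k, hx⟩ <;> rfl

theorem rest_ex (w₂ : MW ι) (F : κ → ML) (r : κ) :
    (rest (w₂.add (MW.lines F)) (Sum.inr r)).comap (othE ι κ r) =
      w₂.add (MW.lines (exF F r)) := by
  unfold rest MW.add MW.comap MW.lines
  congr 1 <;> · funext x; rcases x with x | x <;> rfl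

/-- In `w₂`: one of the lines, the root reborn at `σ`, realises the first touch time. -/
theorem exists_reb (hΦ : AdmissiblePotential Φ) (hε : 0 < ε) (hT : 0 ≤ T)
    (hE : E6Hyp Φ ε K T w₂ F r d e' c') (hb : ∀ x, 0 ≤ w₂.b x) (hK : (F r).2 ≤ K)
    (nc : NoCt Φ ε (w₂.add (MW.lines (exF F r))) (F r) σ) (h1 : firstT Φ ε K T w₂ F ≤ T) :
    ∃ k, w₂.thetaL Φ ε K T (if k = r then reb (F r) σ else F k) = firstT Φ ε K T w₂ F := by
  obtain ⟨k, hk⟩ := exists_firstT (Z := w₂) (F := F) (Φ := Φ) (ε := ε) (K := K) (T := T)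
    (lt_of_le_of_lt h1 (by linarith))
  refine ⟨k, ?_⟩
  by_cases hkr : k = r
  swap
  · rw [if_neg hkr]
    exact hk
  rw [if_pos hkr, ← hk, hkr]
  rw [hkr] at hk
  let f : {k : κ // k ≠ r} ↪ κ ⊕ Unit :=
    ⟨fun i => Sum.inl i.1, fun i j h => Subtype.ext (Sum.inl_injective h)⟩
  have hsub : SubRoot Φ ε K T w₂ (MW.lines fun i => withD F d (f i))
      (withD F d (Sum.inl r)) σ :=
    SubRoot.of_fam hΦ hε hT hE.ok₁ hE.nl₀ f (fun i h => i.2 (Sum.inl_injective h)) hb hK nc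
  have h4 : w₂.thetaL Φ ε K T (F r) ≤ T := hk.le.trans h1
  refine thetaL_reb_of_sub hsub hΦ hε hT h4 ?_
  exact le_theta_lines hΦ hε hT hE.ok₁ hE.nl₀ f h4
    fun i => hk.le.trans (firstT_le Φ ε K T w₂ F i.1)

end reb

/-! ### The link time -/

theorem hitT_eq (ε : ℝ) {P : CTree} (z : PhasePoint × Par P) (e : ML) :
    H5994.hitT ε z.1 e.1 = cT ε z e := by
  unfold H5994.hitT cT
  have h1 : OneC423.relL z.1 e.1 = (-H5994.rX z.1 e.1, -H5994.rV z.1 e.1) := by
    unfold OneC423.relL H5994.rX H5994.rV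
    refine Prod.ext ?_ ?_
    · simp only [neg_sub]
      congr 1
      unfold back Boost969.posAt
      simp only [zero_sub, neg_smul]
      abel
    · simp only [neg_sub]
  rw [h1]
  have h2 : ∀ x v : Space3, Flux663.tline (-x, -v) = Flux663.tline (x, v) := by
    intro x v
    unfold Flux663.tline
    simp only [inner_neg_neg, norm_neg]
  have h3 : ∀ x v : Space3, ‖Flux663.bline (-x, -v)‖ = ‖Flux663.bline (x, v)‖ := by
    intro x v
    unfold Flux663.bline
    rw [h2]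
    simp only [smul_neg]
    rw [← neg_add', ← sub_eq_add_neg, norm_neg]
  unfold OC663.entT
  rw [h2, h3]
  simp only [norm_neg]

/-! ### The literal terms -/

/-- Term (A): `d` touches `w + V` strictly after a line of the tree touched `w`; with 994's
indicator that one of the lines seen at the link time realises this first touch time. -/
def tA6 (Φ : Space3 → ℝ) (Q : EPar) (K : ℕ) (ε : ℝ) : SF2 := fun P z m w θ =>
  if H5994.rst Φ ε K Q.te P ⟨m, w⟩ z (H5994.hitT ε z.1 θ.2) then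
    termA Φ ε K Q (MW.cfg w) (InEq2T.treeW Φ ε P z) (lineMM Φ ε P z) (dL θ) else 0

/-- Terms (A) and (B) (old contacts). -/
def tO6 (Φ : Space3 → ℝ) (Q : EPar) : ℕ → ℝ → SF2 := fun K ε P z m w θ =>
  tA6 Φ Q K ε P z m w θ + ∑ k ∈ Finset.univ.filter (fun k => k ≠ root P),
    termB Φ ε K Q (MW.cfg w) (dL θ) (lineMM Φ ε P z k)

/-- Young contacts. -/
def tY6 (Φ : Space3 → ℝ) (Q : EPar) : ℕ → ℝ → SF2 := fun K ε P z m w θ =>
  tA6 Φ Q K ε P z m w θ + (MW.cfg w).touchW Φ ε K Q (dL θ)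

/-- The comparison of the weights. -/
def lk6 (Φ : Space3 → ℝ) (Q : EPar) : ℕ → ℝ → SF2 := fun K ε P z _ w θ =>
  (lk Φ ε K Q (MW.cfg w) (RealL811.treeW Φ ε P z) (lineML Φ ε P z) +
    lk Φ ε K Q ((MW.cfg w).ins (dL θ)) (RealL811.treeW Φ ε P z) (lineML Φ ε P z)) *
      touch1 Φ ε K Q (MW.cfg w) (dL θ)

/-! ### The deterministic data -/

/-- The world `w + lines of the tree + d`. -/
abbrev Ld (Φ : Space3 → ℝ) (ε : ℝ) (P : CTree) (z : PhasePoint × Par P) {m : ℕ} (w : Config m)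
    (d : ML) : MW ((Fin m ⊕ Idx P) ⊕ Unit) :=
  ((MW.cfg w).add (MW.lines (lineML Φ ε P z))).ins d

/-- The deterministic data of the pointwise inequality, without the encounter. -/
structure Base6 (Φ : Space3 → ℝ) (ε : ℝ) (K : ℕ) (Q : EPar) (P : CTree) (z : PhasePoint × Par P)
    {m : ℕ} (w : Config m) (θ : Lab × LSt) : Prop where
  hyp : E6Hyp Φ ε K Q.te (MW.cfg w) (lineML Φ ε P z) (root P) (dL θ)
    (outL6 Φ ε P z (eL θ) (some false)) (outL6 Φ ε P z (eL θ) (some true))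
  w_Ld : W1 (firstT Φ ε K Q.te (MW.cfg w) (lineML Φ ε P z))
    ((MW.cfg w).thetaL Φ ε K Q.te (dL θ))
    (((MW.cfg w).add (RealL811.treeW Φ ε P z)).thetaL Φ ε K Q.te (dL θ))

/-- The data of the encounter, `s₁'` = exit time. -/
structure Enc6 (Φ : Space3 → ℝ) (ε : ℝ) (P : CTree) (z : PhasePoint × Par P)
    {m : ℕ} (w : Config m) (θ : Lab × LSt) (s₁' : ℝ) : Prop where
  hit : Hit Φ ε (Ld Φ ε P z w (dL θ)) (eL θ) (Sum.inl (Sum.inr (root P))) (cT ε z (eL θ)) s₁'
  out_e : outL6 Φ ε P z (eL θ) (some false) =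
    outL Φ ε (Ld Φ ε P z w (dL θ)) (eL θ) (Sum.inl (Sum.inr (root P))) s₁'
  out_c : outL6 Φ ε P z (eL θ) (some true) =
    outC Φ ε (Ld Φ ε P z w (dL θ)) (eL θ) (Sum.inl (Sum.inr (root P))) s₁'
  okLe : ((Ld Φ ε P z w (dL θ)).ins (eL θ)).Ok Φ ε
  nc : NoCt Φ ε (Z0 (MW.cfg w) (lineML Φ ε P z) (root P) (dL θ)) (lineML Φ ε P z (root P)) s₁'
  reb_eq : outL6 Φ ε P z (eL θ) none = reb (lineML Φ ε P z (root P)) s₁'

/-- `d` touches `w + V` in the window, not after the first touch of the lines of the tree in the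
gas `w`. -/
structure Early6 (Φ : Space3 → ℝ) (ε : ℝ) (K : ℕ) (Q : EPar) (P : CTree)
    (z : PhasePoint × Par P) {m : ℕ} (w : Config m) (θ : Lab × LSt) : Prop where
  lt : Q.tw < ((MW.cfg w).add (RealL811.treeW Φ ε P z)).thetaL Φ ε K Q.te (dL θ)
  le : ((MW.cfg w).add (RealL811.treeW Φ ε P z)).thetaL Φ ε K Q.te (dL θ) ≤ Q.te
  first : ((MW.cfg w).add (RealL811.treeW Φ ε P z)).thetaL Φ ε K Q.te (dL θ) ≤
    firstT Φ ε K Q.te (MW.cfg w) (lineML Φ ε P z)

variable {Φ : Space3 → ℝ} {ε s₁' T' : ℝ} {K : ℕ} {Q : EPar} {P : CTree}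
  {z : PhasePoint × Par P} {m : ℕ} {w : Config m} {θ : Lab × LSt}

theorem treeW_eq (h : Adm Φ P z.1.2 z.2) : InEq2T.treeW Φ ε P z = RealL811.treeW Φ ε P z := by
  unfold InEq2T.treeW RealL811.treeW
  rw [linesM_of_adm ε h]

theorem lineMM_eq (h : Adm Φ P z.1.2 z.2) : lineMM Φ ε P z = lineML Φ ε P z :=
  funext fun i => lineMM_of_adm ε h i

/-- The root line has no contact in `w + exits` up to the contact with `e`. -/
theorem noCt_exits (hΦ : AdmissiblePotential Φ) (hε : 0 < ε)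
    (hR : Real6 Φ ε K Q.te T' P z w θ) :
    NoCt Φ ε ((MW.cfg w).add (MW.lines (exF (lineML Φ ε P z) (root P))))
      (lineML Φ ε P z (root P)) (cT ε z (eL θ)) := by
  have h1 : NoCt Φ ε (rest ((MW.cfg w).add (MW.lines (lineML Φ ε P z))) (Sum.inr (root P)))
      (lineML Φ ε P z (root P)) (cT ε z (eL θ)) := by
    refine noCt_rest (Z := (MW.cfg w).add (MW.lines (lineML Φ ε P z)))
      (c := Sum.inr (root P)) hΦ hε (cl := lineML Φ ε P z (root P)) ⟨rfl, rfl, rfl⟩ ?_ ?_ ?_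
    · rintro (x | x)
      · exact le_rfl
      · exact rel_nonneg hε.le hR.valid.2 x
    · exact (R6Tree974.R6.rel_lt hε hR (root P)).le
    · intro t k ht hc
      exact root_free (V := cfT Φ ε P z) (e := Relabel674.eP P) hΦ hε (R6Tree974.R6.cT_pos hR)
        (R6Tree974.R6.exX hR) hR.real ht hc
  have h2 := h1.comap hΦ hε (othE (Fin m) (Idx P) (root P))
  rw [rest_ex] at h2
  exact h2

/-- Term (A) in the literal form. -/
theorem termA_le (hΦ : AdmissiblePotential Φ) (hε : 0 < ε) (hte : 0 ≤ Q.te)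
    (hR : Real6 Φ ε K Q.te T' P z w θ) (hK : P.leaves ≤ K) (h : Base6 Φ ε K Q P z w θ) :
    termA Φ ε K Q (MW.cfg w) (RealL811.treeW Φ ε P z) (lineML Φ ε P z) (dL θ) ≤
      tA6 Φ Q K ε P z m w θ := by
  have hadm := hR.valid.1
  unfold tA6
  rw [treeW_eq hadm, lineMM_eq hadm]
  rw [if_pos]
  intro hfT
  unfold H5994.fT at hfT
  rw [lineMM_eq hadm] at hfT
  obtain ⟨k, hk⟩ := exists_reb hΦ hε hte h.hyp (fun _ => le_rfl)
    (by rw [show (lineML Φ ε P z (root P)).2 = P.leaves from mk_root P]; exact hK)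
    (noCt_exits hΦ hε hR) hfT
  refine ⟨k, ?_⟩
  unfold H5994.θ₀ H5994.fT
  rw [lineMM_eq hadm]
  refine Eq.trans ?_ hk
  congr 1
  by_cases hkr : k = root P
  · rw [if_pos hkr, hkr, H5994.lineU_root P z]
    exact congrArg _ (hitT_eq ε z (eL θ))
  · rw [if_neg hkr]
    unfold H5994.lineU
    rw [if_neg hkr, lineMM_eq hadm]

/-- Insertion of `d` and `e` in the world with the tree. -/
theorem lineOf_de (Φ : Space3 → ℝ) (ε : ℝ) {ι : Type} (Z : MW ι) (P : CTree)
    (z : PhasePoint × Par P) (d e : ML) :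
    RealL811.LineOf Φ ε (((Z.add (RealL811.treeW Φ ε P z)).ins d).ins e)
      (((Z.add (MW.lines (lineML Φ ε P z))).ins d).ins e) P z
      (fun k => Sum.inl (Sum.inl (Sum.inr k))) where
  b _ := rfl
  z _ := rfl
  m _ := rfl
  off_b x hx := by
    rcases x with ((x | x) | x) | x
    · rfl
    · exact absurd ⟨x, rfl⟩ hx
    · rfl
    · rfl
  off_z x hx := by
    rcases x with ((x | x) | x) | x
    · rfl
    · exact absurd ⟨x, rfl⟩ hx
    · rfl
    · rfl
  off_m x hx := by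
    rcases x with ((x | x) | x) | x
    · rfl
    · exact absurd ⟨x, rfl⟩ hx
    · rfl
    · rfl

theorem image_DF (ι κ : Type) : (Sum.inl : (ι ⊕ κ) ⊕ Unit → ((ι ⊕ κ) ⊕ Unit) ⊕ Unit) ''
    RealL811.DF ι κ = range fun k : κ => Sum.inl (Sum.inl (Sum.inr k)) := by
  ext x
  constructor
  · rintro ⟨_, ⟨k, rfl⟩, rfl⟩
    exact ⟨k, rfl⟩
  · rintro ⟨k, rfl⟩
    exact ⟨_, ⟨k, rfl⟩, rfl⟩

/-- **The real structure is a `RealHit`.** -/
theorem realHit (hΦ : AdmissiblePotential Φ) (hε : 0 < ε) (hte : 0 ≤ Q.te) (hT : Q.te ≤ T')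
    (hR : Real6 Φ ε K Q.te T' P z w θ) (hK : (eL θ).2 + P.leaves ≤ K)
    (hb : Base6 Φ ε K Q P z w θ) (h : Enc6 Φ ε P z w θ s₁') :
    RealL811.RealHit Φ ε K Q.te (MW.cfg w) (RealL811.treeW Φ ε P z) (lineML Φ ε P z) (root P)
      (dL θ) (eL θ) (outL6 Φ ε P z (eL θ) (some false)) (outL6 Φ ε P z (eL θ) (some true))
      (cT ε z (eL θ)) s₁' where
  hit := h.hit
  out_e := h.out_e
  out_c := h.out_c
  hK := by
    rw [show (lineML Φ ε P z (root P)).2 = P.leaves from mk_root P]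
    exact hK
  rl₁ := RealL811.rl_add_add hΦ hε hR.valid hR.sep hT hte ((Nat.le_add_left _ _).trans hK)
    (R6Tree974.R6.rl2' hΦ hε hR Q.te) (R6Tree974.R6.ok2' hΦ hε hR) (hb.hyp.okLd hΦ hε)
    (fun _ => le_rfl) fun _ => hR.okL.d0.le
  rl₂ := by
    rw [image_DF]
    refine (R6Tree974.toRL (R6Tree974.R6.in3' hΦ hε hR) Q.te).rl hΦ hε hR.valid hR.sep hT
      (lineOf_de Φ ε (MW.cfg w) P z (dL θ) (eL θ)) (R6Tree974.R6.ok3' hΦ hε hR) h.okLe ?_ hte
      ((Nat.le_add_left _ _).trans hK)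
    rintro (((x | x) | x) | x)
    · exact le_rfl
    · exact le_rfl
    · exact hR.okL.d0.le
    · exact hR.okL.e0.le
  m₁ := by
    rintro _ ⟨k, rfl⟩ hb
    exact (R6Tree974.R6.rl2' hΦ hε hR Q.te).size_eq hΦ hε hR.valid hR.sep hT hb
  m₂ := by
    rintro _ ⟨_, ⟨k, rfl⟩, rfl⟩ hb
    exact (R6Tree974.toRL (R6Tree974.R6.in3' hΦ hε hR) Q.te).size_eq hΦ hε hR.valid hR.sep hT hb

theorem leaves_pos' : ∀ P : CTree, 1 ≤ P.leaves
  | leaf => le_rfl
  | node l r => (leaves_pos' l).trans (Nat.le_add_right _ _)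

theorem okL_outP (hR : Real6 Φ ε K Q.te T' P z w θ) (hK : (eL θ).2 + P.leaves ≤ K)
    (h : Enc6 Φ ε P z w θ s₁') (k : Option Bool) : OkL K (outP Φ ε P z θ k) where
  d0 := hR.okL.d0
  d1 := hR.okL.d1
  dK := hR.okL.dK
  e0 := by
    have h1 : 0 < s₁' := (R6Tree974.R6.cT_pos hR).trans_le h.hit.le
    rw [eL_outP]
    rcases k with _ | (_ | _)
    · rw [h.reb_eq]; exact h1
    · rw [h.out_e]; exact h1
    · rw [h.out_c]; exact h1
  e1 := by
    rw [eL_outP]
    have h1 := hR.okL.e1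
    rcases k with _ | (_ | _)
    · exact leaves_pos' P
    · exact h1.trans (Nat.le_add_right _ _)
    · exact h1.trans (Nat.le_add_right _ _)
  eK := by
    rw [eL_outP]
    rcases k with _ | (_ | _)
    · exact (Nat.le_add_left _ _).trans hK
    · exact hK
    · exact hK

/-- **Pointwise inequality, old contacts**; the encounter data is asked only in the case
`Early6`. -/
theorem core_old (hΦ : AdmissiblePotential Φ) (hε : 0 < ε) (hL : 0 < Q.L) (hte : 0 ≤ Q.te)
    (hT : Q.te ≤ T') (hR : Real6 Φ ε K Q.te T' P z w θ) (hK : (eL θ).2 + P.leaves ≤ K)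
    (hb : Base6 Φ ε K Q P z w θ)
    (he : Early6 Φ ε K Q P z w θ → ∃ s₁', Enc6 Φ ε P z w θ s₁') :
    tPK Φ ε K Q (Fin.append (cfT Φ ε P z) w) θ ≤
      tO6 Φ Q K ε P z m w θ + ∑ k : Option Bool, tPK Φ ε K Q w (outP Φ ε P z θ k) +
        lk6 Φ Q K ε P z m w θ := by
  have hKl : P.leaves ≤ K := (Nat.le_add_left _ _).trans hK
  have hA := termA_le hΦ hε hte hR hKl hb
  by_cases hE : Early6 Φ ε K Q P z w θ
  swap
  · rw [R6Tree974.tPK_append hΦ hε, if_pos hR.okL]
    refine le_trans ?_ (hA.trans (le_trans (le_trans (le_self_add (b := ∑ k ∈ Finset.univ.filter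
      (fun k => k ≠ root P), termB Φ ε K Q (MW.cfg w) (dL θ) (lineMM Φ ε P z k)))
        le_self_add) le_self_add))
    unfold MW.touchP
    split_ifs with hc
    · -- case (A)
      have hfT : firstT Φ ε K Q.te (MW.cfg w) (lineML Φ ε P z) <
          ((MW.cfg w).add (RealL811.treeW Φ ε P z)).thetaL Φ ε K Q.te (dL θ) := by
        by_contra hle
        exact hE ⟨hc.1, hc.2.1.trans hc.2.2, not_lt.1 hle⟩
      unfold termA
      rw [if_pos ⟨hfT, hc.2.1.trans hc.2.2⟩]
      exact min_le_left _ _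
    · exact bot_le
  obtain ⟨s₁', h⟩ := he hE
  have hH := realHit hΦ hε hte hT hR hK hb h
  have hz : ∀ x, x ∉ RealL811.DF (Fin m) (Idx P) → (Ld Φ ε P z w (dL θ)).z x =
      (((MW.cfg w).add (RealL811.treeW Φ ε P z)).ins (dL θ)).z x := by
    rintro ((x | x) | x) hx
    · rfl
    · exact absurd ⟨x, rfl⟩ hx
    · rfl
  have hF := RealL811.facts_real hH hΦ hε hte le_rfl hb.hyp hz hb.w_Ld
  have key := touchP_leR hL hF (R6Tree974.relW hΦ hε (dL θ) Q.te)
    (cr := outL6 Φ ε P z (eL θ) none) (fun h1 h2 => by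
      rw [h.reb_eq]
      exact thetaL_reb_d hΦ hε hte hb.hyp (by
        rintro (x | x)
        · exact le_rfl
        · exact hR.okL.d0.le) (by
        rw [show (lineML Φ ε P z (root P)).2 = P.leaves from mk_root P]
        exact hKl) h.nc h1 h2)
  rw [R6Tree974.tPK_append hΦ hε, if_pos hR.okL]
  have hsum : ∑ k : Option Bool, tPK Φ ε K Q w (outP Φ ε P z θ k) =
      (MW.cfg w).touchP Φ ε K Q (dL θ) (outL6 Φ ε P z (eL θ) none) +
      (MW.cfg w).touchP Φ ε K Q (dL θ) (outL6 Φ ε P z (eL θ) (some false)) +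
      (MW.cfg w).touchP Φ ε K Q (dL θ) (outL6 Φ ε P z (eL θ) (some true)) := by
    have h1 : ∀ k, tPK Φ ε K Q w (outP Φ ε P z θ k) =
        (MW.cfg w).touchP Φ ε K Q (dL θ) (outL6 Φ ε P z (eL θ) k) := by
      intro k
      unfold tPK
      rw [if_pos (okL_outP hR hK h k), dL_outP, eL_outP]
    rw [Fintype.sum_option, Fintype.sum_bool, h1, h1, h1]
    ring
  rw [hsum]
  refine key.trans ?_
  unfold tO6 lk6
  rw [lineMM_eq hR.valid.1]
  gcongr

/-- **Pointwise inequality, young contacts.** -/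
theorem core_young (hΦ : AdmissiblePotential Φ) (hε : 0 < ε) (hL : 0 < Q.L) (hte : 0 ≤ Q.te)
    (hR : Real6 Φ ε K Q.te T' P z w θ) (hK : (eL θ).2 + P.leaves ≤ K)
    (h : Base6 Φ ε K Q P z w θ) :
    tPK Φ ε K Q (Fin.append (cfT Φ ε P z) w) θ ≤
      tY6 Φ Q K ε P z m w θ + lk6 Φ Q K ε P z m w θ := by
  have hKl : P.leaves ≤ K := (Nat.le_add_left _ _).trans hK
  have key := touchP_le_youngA (Φ := Φ) (ε := ε) (K := K) (w₂ := MW.cfg w)
    (A := RealL811.treeW Φ ε P z) (F := lineML Φ ε P z) (d := dL θ) (e := eL θ) hL h.w_Ld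
  rw [R6Tree974.tPK_append hΦ hε, if_pos hR.okL]
  refine key.trans ?_
  unfold tY6 lk6
  rw [add_mul]
  exact add_le_add (add_le_add (termA_le hΦ hε hte hR hKl h) le_rfl) le_self_add

end

end Crest.Agent.R122.Pt6811
end

-- ▼ part R122/RealSix_796

/-!
# The contact of `e` with the root of a real cluster, inequality 3 (row 122, helper796)

From `h : Real6 Φ ε K te T' P z w θ` (`V = treeW`, `d = dL θ`, `e = eL θ`, `F = lineML Φ ε P z`,
`r = root P`, `s = cT ε z e`, `q = cD ε z e`):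

* `realIn6` : `RealIn` for `X = w + V + d`, `W = w + lines F + d`.
* `freeFar6` : `e` is far from `w + V + d` before `s`.
* `Enc6` : the encounter event in `Z0 (MW.cfg w) F r d`.
* `okLd6`, `okLde6` : `w + F + d`, `w + F + d + e` are good; `hit6`, `outL6_eq`, `outC6_eq` : the hit
  in the world with lines; `one6` : the field `one` of `E6FactsA` for `A = V`;
  `thetaL_root6` : the root line reborn.
-/

set_option autoImplicit false
set_option linter.unusedSectionVars false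

open MeasureTheory Set Filter Topology
open scoped ENNReal
open Crest.AnalysisR.Kinetic
open Crest.Agent.R122.Flow671 hiding rel
open Crest.Agent.R122.Loc45 Crest.Agent.R122.Causal291 Crest.Agent.R122.MWAlg255
open Crest.Agent.R122.Inf879 Crest.Agent.R122.EDefs602 Crest.Agent.R122.Lines255
open Crest.Agent.R122.Kin796 Crest.Agent.R122.Kin796.CTree Crest.Agent.R122.Tree674
open Crest.Agent.R122.PathFlow968 Crest.Agent.R122.TreeLines335 Crest.Agent.R122.Relabel674
open Crest.Agent.R122.GC311 Crest.Agent.R122.Line285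
open Crest.Agent.R122.Scat818 Crest.Agent.R122.OCout796 Crest.Agent.R122.Ins45
open Crest.Agent.R122.Boost969 (LSt)
open Crest.Agent.R122.Pair292 (Lab)
open Crest.Agent.R122.OneC285 (cT cB cD cX cfT rt)
open Crest.Agent.R122.PairD292 Crest.Agent.R122.R6Tree974

namespace Crest.Agent.R122.One796

noncomputable section

open scoped Classical

variable {Φ : Space3 → ℝ} {ε te T' R : ℝ} {K : ℕ} {P : CTree} {z : PhasePoint × Par P} {m : ℕ}
  {w : Config m} {θ : Lab × LSt}

/-- The real world `w + V + d`. -/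
abbrev X6 (Φ : Space3 → ℝ) (ε : ℝ) (P : CTree) (z : PhasePoint × Par P) {m : ℕ} (w : Config m)
    (d : ML) : MW ((Fin m ⊕ Idx P) ⊕ Unit) :=
  ((MW.cfg w).add (RealL811.treeW Φ ε P z)).ins d

/-- The world `w + F + d` with the lines of the tree. -/
abbrev W6 (Φ : Space3 → ℝ) (ε : ℝ) (P : CTree) (z : PhasePoint × Par P) {m : ℕ} (w : Config m)
    (d : ML) : MW ((Fin m ⊕ Idx P) ⊕ Unit) :=
  ((MW.cfg w).add (MW.lines (lineML Φ ε P z))).ins d

/-- The labels of the tree. -/
abbrev f6 (P : CTree) (m : ℕ) : Idx P → (Fin m ⊕ Idx P) ⊕ Unit := fun k => Sum.inl (Sum.inr k)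

/-- The world `w + d + exits`. -/
abbrev Z6 (Φ : Space3 → ℝ) (ε : ℝ) (P : CTree) (z : PhasePoint × Par P) {m : ℕ} (w : Config m)
    (d : ML) : MW ((Fin m ⊕ Unit) ⊕ {k : Idx P // k ≠ root P}) :=
  Decomp811.Z0 (MW.cfg w) (lineML Φ ε P z) (root P) d

/-- Relabelling of `w + V + d`. -/
abbrev g6 (P : CTree) (m : ℕ) : (Fin m ⊕ Idx P) ⊕ Unit ≃ Fin (P.leaves + m) ⊕ Unit :=
  Equiv.sumCongr (gE P m) (Equiv.refl Unit)

theorem comap6 (d : ML) : ((MW.cfg (Fin.append (cfT Φ ε P z) w)).ins d).comap (g6 P m) =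
    X6 Φ ε P z w d := by
  unfold X6
  rw [← comap1, EquivE416.ins_comap]

theorem lines6 (A : MW (Idx P)) (ls : Idx P → ML) (d : ML) :
    lw (((MW.cfg w).add A).ins d) (f6 P m) ls = ((MW.cfg w).add (MW.lines ls)).ins d := by
  have h1 : lw ((MW.cfg w).add A) (Sum.inr : Idx P → Fin m ⊕ Idx P) ls =
      (MW.cfg w).add (MW.lines ls) := by
    have hinj : Function.Injective (Sum.inr : Idx P → Fin m ⊕ Idx P) := Sum.inr_injective
    have hoff : ∀ x : Fin m, (Sum.inl x : Fin m ⊕ Idx P) ∉ range (Sum.inr : Idx P → _) := by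
      rintro x ⟨y, hy⟩
      cases hy
    have e1 : ∀ x, (lw ((MW.cfg w).add A) (Sum.inr : Idx P → Fin m ⊕ Idx P) ls).b x =
        ((MW.cfg w).add (MW.lines ls)).b x := by
      rintro (x | x)
      · rw [lw_b_off (hoff x)]; rfl
      · exact lw_b hinj x
    have e2 : ∀ x, (lw ((MW.cfg w).add A) (Sum.inr : Idx P → Fin m ⊕ Idx P) ls).z x =
        ((MW.cfg w).add (MW.lines ls)).z x := by
      rintro (x | x)
      · rw [lw_z_off (hoff x)]; rfl
      · exact lw_z hinj x
    have e3 : ∀ x, (lw ((MW.cfg w).add A) (Sum.inr : Idx P → Fin m ⊕ Idx P) ls).m x =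
        ((MW.cfg w).add (MW.lines ls)).m x := by
      rintro (x | x)
      · rw [lw_m_off (hoff x)]; rfl
      · exact lw_m hinj x
    have h2 : ∀ {α : Type} (Y Y' : MW α), (∀ x, Y.b x = Y'.b x) → (∀ x, Y.z x = Y'.z x) →
        (∀ x, Y.m x = Y'.m x) → Y = Y' := by
      intro α Y Y' a1 a2 a3
      cases Y
      cases Y'
      simp only at a1 a2 a3
      rw [MW.mk.injEq]
      exact ⟨funext a1, funext a2, funext a3⟩
    exact h2 _ _ e1 e2 e3
  have h3 := lw_add (Z := (MW.cfg w).add A) (ls := ls)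
    (f := (Sum.inr : Idx P → Fin m ⊕ Idx P)) Sum.inr_injective (MW.line d)
  rw [h1] at h3
  exact h3

/-- The root is far from everybody after its release. -/
theorem far6 (hΦ : AdmissiblePotential Φ) (hε : 0 < ε) (h : Real6 Φ ε K te T' P z w θ) (t : ℝ)
    (ht : rel P z.2 (root P) < t) (hts : t ≤ cT ε z (eL θ)) (x : (Fin m ⊕ Idx P) ⊕ Unit)
    (hx : x ≠ f6 P m (root P)) (hb : (X6 Φ ε P z w (dL θ)).b x ≤ t) :
    ε < dist ((X6 Φ ε P z w (dL θ)).path Φ ε t (f6 P m (root P))).1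
      ((X6 Φ ε P z w (dL θ)).path Φ ε t x).1 := by
  have hc := R6.cut2 hΦ hε h
  have hs := R6.cT_pos h
  have h0 : 0 < t := (rel_nonneg hε.le h.real.valid.2 _).trans_lt ht
  rw [← comap6, EquivE416.path_comap hΦ hε, EquivE416.path_comap hΦ hε]
  rw [← comap6] at hb
  by_contra hle
  rw [not_lt] at hle
  set W0 := (MW.cfg (Fin.append (cfT Φ ε P z) w)).ins (dL θ) with hW0
  have hC : W0.C Φ ε t (g6 P m (f6 P m (root P))) (g6 P m x) :=
    ⟨h0.le, hb, Or.inr (Or.inl h0), hle⟩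
  obtain ⟨y', h1, h2, h3⟩ := hc.closed (root P) t (g6 P m x) h0.le hts
    (by rw [PathFlow968.prot_root]; exact hts) hC
  have h4 : Ct (path Φ ε P z.1 z.2) ε t (root P) y' := h3
  rcases (ct_iff hΦ hε h.real.valid h.real.sep ⟨h0.le, hts⟩).1 h4 with h5 | h5 | h5
  · subst h5
    exact hx ((g6 P m).injective h1)
  · exact absurd ht (not_lt.2 (Ins45.inWindow_rel hε.le h.real.valid.2 h5).1)
  · exact absurd ht (not_lt.2 (Ins45.inWindow_rel hε.le h.real.valid.2 h5).2)

/-- **`RealIn` for `w + V + d`.** -/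
theorem realIn6 (hΦ : AdmissiblePotential Φ) (hε : 0 < ε) (h : Real6 Φ ε K te T' P z w θ) :
    RealIn Φ ε (cT ε z (eL θ)) (X6 Φ ε P z w (dL θ)) (W6 Φ ε P z w (dL θ)) P z (f6 P m) where
  lines := lines6 _ _ _
  ok := R6.ok2' hΦ hε h
  b0 := by
    rintro ((x | x) | x)
    · exact le_rfl
    · exact le_rfl
    · exact h.okL.d0.le
  pos := R6.cT_pos h
  valid := h.real.valid
  tree := R6.in2' hΦ hε h
  far := far6 hΦ hε h

/-- `e` does not meet `w + V + d` before the contact. -/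
theorem freeFar6 (hΦ : AdmissiblePotential Φ) (hε : 0 < ε) (h : Real6 Φ ε K te T' P z w θ) :
    FreeFarW Φ ε (X6 Φ ε P z w (dL θ)) (eL θ) (cT ε z (eL θ)) := by
  have hle := h.meet.le
  rw [h.time] at hle
  have h1 := far_of_lt_mT2 (Φ := Φ) (ε := ε) (T := te)
    (Z := Zd (Fin.append (cfT Φ ε P z) w) θ) (l := eL θ) (s₁ := cT ε z (eL θ)) h.time.ge hle
  intro t k ht hts hk hlt
  rw [← comap6] at hk hlt ⊢
  rw [EquivE416.path_comap hΦ hε]
  have h2 := h1 t (g6 P m k) ht hts hk hlt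
  rw [← lpos_eq]
  exact h2

theorem okXe6 (hΦ : AdmissiblePotential Φ) (hε : 0 < ε) (h : Real6 Φ ε K te T' P z w θ) :
    ((X6 Φ ε P z w (dL θ)).ins (eL θ)).Ok Φ ε := R6.ok3' hΦ hε h

theorem lt6 (h : Real6 Φ ε K te T' P z w θ) : (eL θ).1.1 < cT ε z (eL θ) := by
  have h1 := h.meet.lt
  rwa [h.time] at h1

/-- **The encounter event.** -/
abbrev Enc6 (Φ : Space3 → ℝ) (ε R : ℝ) (P : CTree) (z : PhasePoint × Par P) {m : ℕ}
    (w : Config m) (θ : Lab × LSt) : Prop :=
  EncE Φ ε R (Z6 Φ ε P z w (dL θ)) z.1 (cT ε z (eL θ)) (cD ε z (eL θ))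

theorem rest6 (d : ML) : (rest (W6 Φ ε P z w d) (f6 P m (root P))).comap
    (famE (Fin m) (Idx P) (root P)) = Z6 Φ ε P z w d := rest_fam _ _ _ _

/-- The world `w + F + d` is good. -/
theorem okLd6 (hΦ : AdmissiblePotential Φ) (hε : 0 < ε) (h : Real6 Φ ε K te T' P z w θ)
    (hOk : (Z6 Φ ε P z w (dL θ)).Ok Φ ε) : (W6 Φ ε P z w (dL θ)).Ok Φ ε :=
  (realIn6 hΦ hε h).okLn hΦ hε (rest6 _) hOk

/-- The world `w + F + d + e` is good. -/
theorem okLde6 (hΦ : AdmissiblePotential Φ) (hε : 0 < ε) (h : Real6 Φ ε K te T' P z w θ)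
    (hOk : (Z6 Φ ε P z w (dL θ)).Ok Φ ε) : ((W6 Φ ε P z w (dL θ)).ins (eL θ)).Ok Φ ε :=
  (realIn6 hΦ hε h).okLn_ins hΦ hε (okLd6 hΦ hε h hOk) h.okL.e0.le (lt6 h) (freeFar6 hΦ hε h)
    (okXe6 hΦ hε h)

/-- **The hit in the world `w + F + d`**: `e` meets first the root line; the outgoing lines. -/
theorem hit6 (hΦ : AdmissiblePotential Φ) (hε : 0 < ε) (h : Real6 Φ ε K te T' P z w θ)
    (hOk : (Z6 Φ ε P z w (dL θ)).Ok Φ ε) (hE : Enc6 Φ ε R P z w θ) :
    Hit Φ ε (((MW.cfg w).add (MW.lines (lineML Φ ε P z))).ins (dL θ)) (eL θ)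
      (Sum.inl (Sum.inr (root P))) (cT ε z (eL θ))
      (cT ε z (eL θ) + outT Φ ε (cD ε z (eL θ))) :=
  ((realIn6 hΦ hε h).hit hΦ hε (rest6 _) hOk h.okL.e0.le (lt6 h) (freeFar6 hΦ hε h)
    (okXe6 hΦ hε h) hE).1

theorem outL6_eq (hΦ : AdmissiblePotential Φ) (hε : 0 < ε) (h : Real6 Φ ε K te T' P z w θ)
    (hOk : (Z6 Φ ε P z w (dL θ)).Ok Φ ε) (hE : Enc6 Φ ε R P z w θ) :
    outL6 Φ ε P z (eL θ) (some false) =
      outL Φ ε (((MW.cfg w).add (MW.lines (lineML Φ ε P z))).ins (dL θ)) (eL θ)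
        (Sum.inl (Sum.inr (root P))) (cT ε z (eL θ) + outT Φ ε (cD ε z (eL θ))) :=
  ((realIn6 hΦ hε h).hit hΦ hε (rest6 _) hOk h.okL.e0.le (lt6 h) (freeFar6 hΦ hε h)
    (okXe6 hΦ hε h) hE).2.1.symm

theorem outC6_eq (hΦ : AdmissiblePotential Φ) (hε : 0 < ε) (h : Real6 Φ ε K te T' P z w θ)
    (hOk : (Z6 Φ ε P z w (dL θ)).Ok Φ ε) (hE : Enc6 Φ ε R P z w θ) :
    outL6 Φ ε P z (eL θ) (some true) =
      outC Φ ε (((MW.cfg w).add (MW.lines (lineML Φ ε P z))).ins (dL θ)) (eL θ)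
        (Sum.inl (Sum.inr (root P))) (cT ε z (eL θ) + outT Φ ε (cD ε z (eL θ))) :=
  ((realIn6 hΦ hε h).hit hΦ hε (rest6 _) hOk h.okL.e0.le (lt6 h) (freeFar6 hΦ hε h)
    (okXe6 hΦ hε h) hE).2.2.symm




end

end Crest.Agent.R122.One796
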