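import Crest.Agent.R122.OCflux_663
import Crest.Agent.R122.Omega_969
import Crest.Agent.R122.OneCDefs_285
import Crest.Agent.R122.InEq2Split_311
import Crest.Agent.R122.EBasic_602

-- ▼ part R122/OCfluxC1_663
section

/-!
# Row 122, (OC3): the flux of a point through a moving sphere, `C¹` version

`Γ : ℝ → Space3` is the relative path of the centre of the ball; `FirstHit ε (fun _ => x) Γ τ s`:
the point `x` is at distance `ε` of the centre at time `s`, strictly farther during `(τ, s)`.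

* `lintegral_firstHit_C1_le`: `∫ H ≤ ε² ∫_J ds ∫ (ω · Γ'(s))₊ Φ(s, ω) dω` (`sphM` of helper969);
* `lintegral_firstHit_C1_disc_le`: the same in impact disc form, for a free line of velocity `v` and a
  path `y`;
* velocity integrated forms.
The proof is the area formula for `(s, z) ↦ (‖z‖, ‖z‖ • Γ s + ε • z)` on `ℝ × Space3`.
-/

set_option autoImplicit false

open MeasureTheory Set Filter
open Crest.AnalysisR.Kinetic
open scoped ENNReal Topology

noncomputable section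

namespace Crest.Agent.R122.OC663

open Disc416 Scat818 Flux663 Omega969

/-! ### Determinants of block triangular maps on `ℝ × Space3` -/

/-- `(p, w) ↦ (p, w + p • a)` -/
def shL (a : Space3) : ℝ × Space3 →ₗ[ℝ] ℝ × Space3 :=
  (LinearMap.fst ℝ ℝ Space3).prod (LinearMap.snd ℝ ℝ Space3 + (LinearMap.fst ℝ ℝ Space3).smulRight a)

/-- `(p, w) ↦ (p + n w, w)` -/
def shU (n : Space3 →ₗ[ℝ] ℝ) : ℝ × Space3 →ₗ[ℝ] ℝ × Space3 :=
  (LinearMap.fst ℝ ℝ Space3 + n ∘ₗ LinearMap.snd ℝ ℝ Space3).prod (LinearMap.snd ℝ ℝ Space3)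

@[simp] lemma shL_apply (a : Space3) (p : ℝ × Space3) : shL a p = (p.1, p.2 + p.1 • a) := rfl
@[simp] lemma shU_apply (n : Space3 →ₗ[ℝ] ℝ) (p : ℝ × Space3) : shU n p = (p.1 + n p.2, p.2) := rfl

/-- dilation in the first/second factor -/
def dil (a b : ℝ) (ha : a ≠ 0) (hb : b ≠ 0) : (ℝ × Space3) ≃ₗ[ℝ] (ℝ × Space3) :=
  LinearEquiv.ofLinearMap ((a • LinearMap.id).prodMap (b • LinearMap.id))
    ((a⁻¹ • LinearMap.id).prodMap (b⁻¹ • LinearMap.id))
    (LinearMap.ext fun p => Prod.ext (by simp [ha]) (by simp [smul_smul, hb]))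
    (LinearMap.ext fun p => Prod.ext (by simp [ha]) (by simp [smul_smul, hb]))

lemma dil_apply (a b : ℝ) (ha : a ≠ 0) (hb : b ≠ 0) (p : ℝ × Space3) :
    dil a b ha hb p = (a * p.1, b • p.2) := rfl

lemma dil_symm_apply (a b : ℝ) (ha : a ≠ 0) (hb : b ≠ 0) (p : ℝ × Space3) :
    (dil a b ha hb).symm p = (a⁻¹ * p.1, b⁻¹ • p.2) := rfl

lemma det_eq_one_of_conj {f : ℝ × Space3 →ₗ[ℝ] ℝ × Space3} {g : ℝ × Space3 →ₗ[ℝ] ℝ × Space3}
    (e : (ℝ × Space3) ≃ₗ[ℝ] (ℝ × Space3)) (h1 : g ∘ₗ f = LinearMap.id)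
    (h2 : (e : ℝ × Space3 →ₗ[ℝ] ℝ × Space3) ∘ₗ f ∘ₗ (e.symm : ℝ × Space3 →ₗ[ℝ] ℝ × Space3) =
      f ∘ₗ f) : LinearMap.det f = 1 := by
  have h3 := LinearMap.det_conj f e
  rw [h2, LinearMap.det_comp] at h3
  have h4 : LinearMap.det g * LinearMap.det f = 1 := by
    rw [← LinearMap.det_comp, h1, LinearMap.det_id]
  have h5 : LinearMap.det f ≠ 0 := by
    intro h0; rw [h0, mul_zero] at h4; exact zero_ne_one h4
  exact mul_left_cancel₀ h5 (by rw [h3, mul_one])

lemma det_shL (a : Space3) : LinearMap.det (shL a) = 1 := by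
  refine det_eq_one_of_conj (g := shL (-a)) (dil 1 2 one_ne_zero two_ne_zero) ?_ ?_
  · refine LinearMap.ext fun p => ?_
    simp
  · refine LinearMap.ext fun p => ?_
    simp only [LinearMap.comp_apply, LinearEquiv.coe_coe, dil_apply, dil_symm_apply, shL_apply]
    refine Prod.ext ?_ ?_
    · simp
    · simp only [inv_one, one_mul, smul_add, smul_smul]
      rw [mul_inv_cancel₀ two_ne_zero, one_smul, add_assoc, ← add_smul, two_mul]

lemma det_shU (n : Space3 →ₗ[ℝ] ℝ) : LinearMap.det (shU n) = 1 := by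
  refine det_eq_one_of_conj (g := shU (-n)) (dil 2 1 two_ne_zero one_ne_zero) ?_ ?_
  · refine LinearMap.ext fun p => ?_
    simp
  · refine LinearMap.ext fun p => ?_
    simp only [LinearMap.comp_apply, LinearEquiv.coe_coe, dil_apply, dil_symm_apply, shU_apply]
    refine Prod.ext ?_ ?_
    · simp only [inv_one, one_smul, mul_add, ← mul_assoc]
      rw [mul_inv_cancel₀ two_ne_zero, one_mul, add_assoc, two_mul]
    · simp

/-- The derivative of `(s, z) ↦ (‖z‖, ‖z‖ • Γ s + ε • z)`. -/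
def jacL (n : Space3 →ₗ[ℝ] ℝ) (c a : Space3) (ε : ℝ) : ℝ × Space3 →ₗ[ℝ] ℝ × Space3 :=
  (n ∘ₗ LinearMap.snd ℝ ℝ Space3).prod
    ((n ∘ₗ LinearMap.snd ℝ ℝ Space3).smulRight c + (LinearMap.fst ℝ ℝ Space3).smulRight a +
      ε • LinearMap.snd ℝ ℝ Space3)

lemma jacL_apply (n : Space3 →ₗ[ℝ] ℝ) (c a : Space3) (ε : ℝ) (p : ℝ × Space3) :
    jacL n c a ε p = (n p.2, n p.2 • c + p.1 • a + ε • p.2) := rfl

theorem det_jacL (n : Space3 →ₗ[ℝ] ℝ) (c a : Space3) {ε : ℝ} (hε : ε ≠ 0) :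
    LinearMap.det (jacL n c a ε) = -(n a) * ε ^ 2 := by
  have h : jacL n c a ε = shL c ∘ₗ (shU (ε⁻¹ • n) ∘ₗ
      ((-(ε⁻¹ * n a)) • (LinearMap.id : ℝ →ₗ[ℝ] ℝ)).prodMap (ε • (LinearMap.id : Space3 →ₗ[ℝ] Space3)))
        ∘ₗ shL (ε⁻¹ • a) := by
    refine LinearMap.ext fun p => ?_
    simp only [LinearMap.comp_apply, jacL_apply, shL_apply, shU_apply, LinearMap.prodMap_apply,
      LinearMap.smul_apply, LinearMap.id_apply, smul_eq_mul, map_add, map_smul]
    have h1 : -(ε⁻¹ * n a) * p.1 + (ε * (ε⁻¹ * n p.2) + p.1 * (ε⁻¹ * (ε * (ε⁻¹ * n a)))) =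
        n p.2 := by
      field_simp
      ring
    rw [h1]
    refine Prod.ext rfl ?_
    simp only [smul_smul]
    rw [show p.1 * (ε⁻¹ * ε) = p.1 by field_simp]
    abel
  rw [h, LinearMap.det_comp, LinearMap.det_comp, LinearMap.det_comp, det_shL, det_shL, det_shU,
    LinearMap.det_prodMap, LinearMap.det_smul, LinearMap.det_smul]
  simp only [LinearMap.det_id, Module.finrank_self, finrank_euclideanSpace_fin]
  field_simp

/-! ### The map -/

/-- The map `(s, z) ↦ (‖z‖, ‖z‖ • Γ s + ε • z)`. -/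
def Fm (Γ : ℝ → Space3) (ε : ℝ) (p : ℝ × Space3) : ℝ × Space3 :=
  (‖p.2‖, ‖p.2‖ • Γ p.1 + ε • p.2)

/-- Its derivative. -/
def dFm (Γ Γ' : ℝ → Space3) (ε : ℝ) (p : ℝ × Space3) : ℝ × Space3 →L[ℝ] ℝ × Space3 :=
  LinearMap.toContinuousLinearMap
    (jacL ((‖p.2‖⁻¹ • innerSL ℝ p.2 : Space3 →L[ℝ] ℝ) : Space3 →ₗ[ℝ] ℝ) (Γ p.1)
      (‖p.2‖ • Γ' p.1) ε)

lemma hasFDerivAt_norm' {z : Space3} (hz : z ≠ 0) :
    HasFDerivAt (fun z : Space3 => ‖z‖) (‖z‖⁻¹ • innerSL ℝ z) z := by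
  have h0 : ‖z‖ ^ 2 ≠ 0 := by positivity
  have h1 := (hasStrictFDerivAt_norm_sq z).hasFDerivAt.sqrt h0
  have h2 : (fun z : Space3 => Real.sqrt (‖z‖ ^ 2)) = fun z : Space3 => ‖z‖ := by
    funext z; exact Real.sqrt_sq (norm_nonneg z)
  rw [h2, Real.sqrt_sq (norm_nonneg z)] at h1
  refine h1.congr_fderiv ?_
  refine ContinuousLinearMap.ext fun q => ?_
  have : ‖z‖ ≠ 0 := norm_ne_zero_iff.2 hz
  simp only [smul_apply, innerSL_apply_apply, smul_eq_mul, nsmul_eq_mul, Nat.cast_ofNat]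
  field_simp

lemma hasFDerivAt_Fm {Γ Γ' : ℝ → Space3} {ε : ℝ} {p : ℝ × Space3} (hz : p.2 ≠ 0)
    (hd : HasDerivAt Γ (Γ' p.1) p.1) : HasFDerivAt (Fm Γ ε) (dFm Γ Γ' ε p) p := by
  have h1 : HasFDerivAt (fun q : ℝ × Space3 => ‖q.2‖)
      ((‖p.2‖⁻¹ • innerSL ℝ p.2) ∘L ContinuousLinearMap.snd ℝ ℝ Space3) p :=
    (hasFDerivAt_norm' hz).comp p (hasFDerivAt_snd (p := p))
  have h2 : HasFDerivAt (fun q : ℝ × Space3 => Γ q.1)
      ((ContinuousLinearMap.toSpanSingleton ℝ (Γ' p.1)) ∘L ContinuousLinearMap.fst ℝ ℝ Space3) p :=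
    (hd.hasFDerivAt).comp p (hasFDerivAt_fst (p := p))
  have h3 : HasFDerivAt (fun q : ℝ × Space3 => ε • q.2) (ε • ContinuousLinearMap.snd ℝ ℝ Space3) p :=
    (hasFDerivAt_snd (p := p)).const_smul ε
  have h4 := h1.prodMk ((h1.smul h2).add h3)
  refine h4.congr_fderiv ?_
  refine ContinuousLinearMap.ext fun q => ?_
  refine Prod.ext ?_ ?_
  · simp [dFm, jacL_apply]
  · simp only [dFm, LinearMap.coe_toContinuousLinearMap', jacL_apply]
    simp only [ContinuousLinearMap.prod_apply, add_apply,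
      smul_apply, ContinuousLinearMap.comp_apply,
      ContinuousLinearMap.smulRight_apply, ContinuousLinearMap.coe_fst', ContinuousLinearMap.coe_snd',
      ContinuousLinearMap.toSpanSingleton_apply, ContinuousLinearMap.coe_coe, smul_smul]
    rw [mul_comm q.1 ‖p.2‖]
    abel

lemma det_dFm (Γ Γ' : ℝ → Space3) {ε : ℝ} (hε : ε ≠ 0) {p : ℝ × Space3} :
    (dFm Γ Γ' ε p).det = -(‖p.2‖ * inner ℝ (rproj p.2) (Γ' p.1)) * ε ^ 2 := by
  unfold dFm
  rw [LinearMap.det_toContinuousLinearMap, det_jacL _ _ _ hε]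
  congr 2
  simp only [ContinuousLinearMap.coe_coe, smul_apply, innerSL_apply_apply,
    smul_eq_mul, inner_smul_right, rproj, inner_smul_left, conj_trivial]
  ring

/-! ### Measurability of first hits -/

/-- The set of `(s, x)` such that `x` is farther than `ε` from `Γ` during `(τ, s)`. -/
lemma measurableSet_before {Γ : ℝ → Space3} (hΓ : Continuous Γ) (ε τ : ℝ) :
    MeasurableSet {p : ℝ × Space3 | ∀ r ∈ Ioo τ p.1, ε < ‖p.2 - Γ r‖} := by
  have hcl : ∀ δ : ℝ, IsClosed {p : ℝ × Space3 | ∃ r ∈ Icc (τ + δ) (p.1 - δ), ‖p.2 - Γ r‖ ≤ ε} := by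
    intro δ
    set C : Set (unitInterval × (ℝ × Space3)) :=
      {q | τ + 2 * δ ≤ q.2.1 ∧
        ‖q.2.2 - Γ (τ + δ + (q.1 : ℝ) * (q.2.1 - τ - 2 * δ))‖ ≤ ε} with hC
    have hc0 : Continuous (fun q : unitInterval × (ℝ × Space3) => q.2.1) :=
      continuous_fst.comp continuous_snd
    have hc1 : Continuous (fun q : unitInterval × (ℝ × Space3) =>
        τ + δ + (q.1 : ℝ) * (q.2.1 - τ - 2 * δ)) := by fun_prop
    have hc2 : Continuous (fun q : unitInterval × (ℝ × Space3) => q.2.2) :=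
      continuous_snd.comp continuous_snd
    have hc3 : Continuous (fun q : unitInterval × (ℝ × Space3) =>
        ‖q.2.2 - Γ (τ + δ + (q.1 : ℝ) * (q.2.1 - τ - 2 * δ))‖) := (hc2.sub (hΓ.comp hc1)).norm
    have hA1 : IsClosed {q : unitInterval × (ℝ × Space3) | τ + 2 * δ ≤ q.2.1} :=
      isClosed_le continuous_const hc0
    have hA2 : IsClosed {q : unitInterval × (ℝ × Space3) |
        ‖q.2.2 - Γ (τ + δ + (q.1 : ℝ) * (q.2.1 - τ - 2 * δ))‖ ≤ ε} :=
      isClosed_le hc3 continuous_const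
    have hCc : IsClosed C := hA1.inter hA2
    have h1 := isClosedMap_snd_of_compactSpace (X := unitInterval) (Y := ℝ × Space3) C hCc
    convert h1 using 1
    ext p
    simp only [Set.mem_ofPred_eq, mem_image]
    constructor
    · rintro ⟨r, hr, hx⟩
      have h2 : τ + 2 * δ ≤ p.1 := by linarith [hr.1, hr.2]
      by_cases h3 : p.1 - τ - 2 * δ = 0
      · refine ⟨(0, p), ⟨h2, ?_⟩, rfl⟩
        have hr' : r = τ + δ := le_antisymm (by linarith [hr.2]) hr.1
        simpa [← hr'] using hx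
      · have h4 : 0 < p.1 - τ - 2 * δ := lt_of_le_of_ne (by linarith) (Ne.symm h3)
        refine ⟨(⟨(r - τ - δ) / (p.1 - τ - 2 * δ), ?_, ?_⟩, p), ⟨h2, ?_⟩, rfl⟩
        · exact div_nonneg (by linarith [hr.1]) h4.le
        · rw [div_le_one h4]; linarith [hr.2]
        · simp only
          rw [div_mul_cancel₀ _ h3, show τ + δ + (r - τ - δ) = r by ring]
          exact hx
    · rintro ⟨⟨θ, p'⟩, ⟨h2, hx⟩, rfl⟩
      refine ⟨_, ⟨?_, ?_⟩, hx⟩
      · have := θ.2.1
        have h3 : 0 ≤ p'.1 - τ - 2 * δ := by simp only at h2; linarith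
        have := mul_nonneg this h3
        simp only; linarith
      · have h3 : 0 ≤ p'.1 - τ - 2 * δ := by simp only at h2; linarith
        have := mul_le_mul_of_nonneg_right θ.2.2 h3
        simp only; linarith
  have h2 : {p : ℝ × Space3 | ∀ r ∈ Ioo τ p.1, ε < ‖p.2 - Γ r‖} =
      (⋃ n : ℕ, {p : ℝ × Space3 | ∃ r ∈ Icc (τ + 1 / ((n : ℝ) + 1)) (p.1 - 1 / ((n : ℝ) + 1)),
        ‖p.2 - Γ r‖ ≤ ε})ᶜ := by
    ext p
    simp only [Set.mem_ofPred_eq, mem_compl_iff, mem_iUnion, not_exists, not_and, not_le]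
    constructor
    · intro h n r hr
      have h0 : (0 : ℝ) < 1 / ((n : ℝ) + 1) := Nat.one_div_pos_of_nat
      exact h r ⟨by linarith [hr.1], by linarith [hr.2]⟩
    · intro h r hr
      obtain ⟨n, hn⟩ := exists_nat_one_div_lt (lt_min (sub_pos.2 hr.1) (sub_pos.2 hr.2))
      have h3 := lt_min_iff.1 hn
      exact h n r ⟨by linarith [h3.1], by linarith [h3.2]⟩
  rw [h2]
  exact (MeasurableSet.iUnion fun n => (hcl _).measurableSet).compl

/-- Domain of the change of variables. -/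
def Em (Γ : ℝ → Space3) (ε τ : ℝ) (J : Set ℝ) : Set (ℝ × Space3) :=
  {p | p.1 ∈ J ∧ p.2 ∈ ann ∧ FirstHit ε (fun _ => Γ p.1 + ε • rproj p.2) Γ τ p.1}

lemma measurableSet_Em {Γ : ℝ → Space3} (hΓ : Continuous Γ) {ε : ℝ} (hε : 0 < ε) (τ : ℝ)
    {J : Set ℝ} (hJ : MeasurableSet J) : MeasurableSet (Em Γ ε τ J) := by
  have h1 : Measurable (fun p : ℝ × Space3 => (p.1, Γ p.1 + ε • rproj p.2)) :=
    measurable_fst.prodMk ((hΓ.measurable.comp measurable_fst).add
      ((measurable_rproj.comp measurable_snd).const_smul ε))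
  have h2 : Em Γ ε τ J = (Prod.fst ⁻¹' J) ∩ (Prod.snd ⁻¹' ann) ∩ {p | τ < p.1} ∩
      ((fun p : ℝ × Space3 => (p.1, Γ p.1 + ε • rproj p.2)) ⁻¹'
        {p : ℝ × Space3 | ∀ r ∈ Ioo τ p.1, ε < ‖p.2 - Γ r‖}) := by
    ext p
    simp only [Em, FirstHit, Set.mem_ofPred_eq, mem_inter_iff, mem_preimage]
    constructor
    · rintro ⟨a, b, c, d, e⟩
      exact ⟨⟨⟨a, b⟩, c⟩, e⟩
    · rintro ⟨⟨⟨a, b⟩, c⟩, e⟩
      refine ⟨a, b, c, ?_, e⟩
      rw [add_sub_cancel_left, norm_smul, norm_rproj b, mul_one, Real.norm_eq_abs, abs_of_pos hε]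
  rw [h2]
  exact (((measurable_fst hJ).inter (measurable_snd measurableSet_ann)).inter
    (measurableSet_lt measurable_const measurable_fst)).inter (h1 (measurableSet_before hΓ ε τ))

lemma injOn_Fm {Γ : ℝ → Space3} {ε : ℝ} (hε : 0 < ε) (τ : ℝ) (J : Set ℝ) :
    InjOn (Fm Γ ε) (Em Γ ε τ J) := by
  rintro p ⟨-, hp2, hp3⟩ q ⟨-, hq2, hq3⟩ h
  have hp0 : ‖p.2‖ ≠ 0 := by linarith [hp2.1]
  have hq0 : ‖q.2‖ ≠ 0 := by linarith [hq2.1]
  have h1 : ‖p.2‖ = ‖q.2‖ := congrArg Prod.fst h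
  have h2 : ‖p.2‖ • Γ p.1 + ε • p.2 = ‖q.2‖ • Γ q.1 + ε • q.2 := congrArg Prod.snd h
  have h3 : Γ p.1 + ε • rproj p.2 = Γ q.1 + ε • rproj q.2 := by
    have e1 : Γ p.1 + ε • rproj p.2 = ‖p.2‖⁻¹ • (‖p.2‖ • Γ p.1 + ε • p.2) := by
      unfold rproj
      rw [smul_add, smul_smul ‖p.2‖⁻¹ ‖p.2‖, inv_mul_cancel₀ hp0, one_smul, smul_comm ‖p.2‖⁻¹ ε]
    have e2 : Γ q.1 + ε • rproj q.2 = ‖q.2‖⁻¹ • (‖q.2‖ • Γ q.1 + ε • q.2) := by
      unfold rproj
      rw [smul_add, smul_smul ‖q.2‖⁻¹ ‖q.2‖, inv_mul_cancel₀ hq0, one_smul, smul_comm ‖q.2‖⁻¹ ε]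
    rw [e1, e2, h2, h1]
  have h4 : p.1 = q.1 := by
    rw [h3] at hp3
    exact hp3.unique hq3
  refine Prod.ext h4 ?_
  rw [h1, h4] at h2
  have h5 := add_left_cancel h2
  exact smul_right_injective _ hε.ne' h5

/-- At a first hit the sphere moves towards the point. -/
lemma FirstHit.inner_nonneg {ε : ℝ} (hε : 0 < ε) {Γ : ℝ → Space3} {x Γs : Space3} {τ s : ℝ}
    (h : FirstHit ε (fun _ => x) Γ τ s) (hd : HasDerivAt Γ Γs s) :
    0 ≤ inner ℝ (x - Γ s) Γs := by
  obtain ⟨hτ, hs, hlt⟩ := h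
  by_contra hneg
  push Not at hneg
  have h1 : HasDerivAt (fun r => ‖x - Γ r‖ ^ 2) (2 * inner ℝ (x - Γ s) (-Γs)) s := by
    have := (hd.const_sub x).norm_sq
    simpa using this
  rw [inner_neg_right] at h1
  have hpos : 0 < 2 * -inner ℝ (x - Γ s) Γs := by linarith
  have h2 := (hasDerivAt_iff_tendsto_slope.1 h1).eventually (lt_mem_nhds hpos)
  have h3 : ∀ᶠ r in 𝓝[<] s, 0 < slope (fun r => ‖x - Γ r‖ ^ 2) s r :=
    h2.filter_mono (nhdsWithin_mono s fun r hr => ne_of_lt hr)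
  have h4 : ∀ᶠ r in 𝓝[<] s, r ∈ Ioo τ s := Ioo_mem_nhdsLT hτ
  obtain ⟨r, hr1, hr2⟩ := (h3.and h4).exists
  rw [slope_def_field, div_pos_iff] at hr1
  have h5 := hlt r hr2
  have h6 : ‖x - Γ s‖ ^ 2 < ‖x - Γ r‖ ^ 2 := by
    rw [hs]
    nlinarith [norm_nonneg (x - Γ r)]
  rcases hr1 with ⟨-, hh⟩ | ⟨hh, -⟩
  · linarith [hr2.2]
  · linarith

/-! ### The flux inequality -/

lemma lintegral_ann_rproj {F : Space3 → ℝ≥0∞} (hF : Measurable F) :
    ∫⁻ x in ann, F (rproj x) = ENNReal.ofReal (7 / 3) * ∫⁻ w, F w ∂sphM := by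
  rw [lintegral_sphM hF, ← mul_assoc, ← ENNReal.ofReal_mul (by norm_num)]
  norm_num

/-- **(OC3)(a), `C¹` version.** `H` need not be measurable. -/
theorem lintegral_firstHit_C1_le {ε : ℝ} (hε : 0 < ε) {Γ Γ' : ℝ → Space3} (hΓ : Continuous Γ)
    (hΓ' : Measurable Γ') {J : Set ℝ} (hJ : MeasurableSet J)
    (hd : ∀ s ∈ J, HasDerivAt Γ (Γ' s) s) {τ : ℝ}
    {H : Space3 → ℝ≥0∞} {Φ : ℝ → Space3 → ℝ≥0∞} (hΦ : Measurable (Function.uncurry Φ))
    (hH : ∀ x, H x ≠ 0 → ∃ s ∈ J, FirstHit ε (fun _ => x) Γ τ s)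
    (hHΦ : ∀ x, ∀ s ∈ J, ∀ w, ‖w‖ = 1 → FirstHit ε (fun _ => x) Γ τ s →
      x = Γ s + ε • w → H x ≤ Φ s w) :
    ∫⁻ x, H x ≤ ENNReal.ofReal (ε ^ 2) * ∫⁻ s in J, ∫⁻ w,
      ENNReal.ofReal (inner ℝ w (Γ' s)) * Φ s w ∂sphM := by
  obtain ⟨K, hKm, hKH, hKe⟩ := exists_measurable_le_lintegral_eq volume H
  rw [hKe]
  -- the function on the target
  set f : ℝ × Space3 → ℝ≥0∞ := fun q =>
    (Ioo (1 : ℝ) 2).indicator (fun ρ => ENNReal.ofReal ρ⁻¹) q.1 * K (q.1⁻¹ • q.2) with hf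
  have hfm : Measurable f := by
    refine Measurable.mul ?_ ?_
    · exact (Measurable.indicator (measurable_inv.ennreal_ofReal) measurableSet_Ioo).comp
        measurable_fst
    · exact hKm.comp (measurable_fst.inv.smul measurable_snd)
  have hA : ∫⁻ q, f q = ENNReal.ofReal (7 / 3) * ∫⁻ x, K x := by
    rw [Measure.volume_eq_prod, lintegral_prod _ hfm.aemeasurable]
    have h1 : ∀ ρ : ℝ, ∫⁻ y, f (ρ, y) =
        (Ioo (1 : ℝ) 2).indicator (fun ρ => ENNReal.ofReal (ρ ^ 2) * ∫⁻ x, K x) ρ := by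
      intro ρ
      by_cases hρ : ρ ∈ Ioo (1 : ℝ) 2
      · have hρ0 : 0 < ρ := by linarith [hρ.1]
        simp only [hf, indicator_of_mem hρ]
        rw [lintegral_const_mul' _ _ ENNReal.ofReal_ne_top,
          lintegral_scale3 hρ0 (fun y => K (ρ⁻¹ • y))]
        simp only [smul_smul, inv_mul_cancel₀ hρ0.ne', one_smul]
        rw [← mul_assoc, ← ENNReal.ofReal_mul (by positivity)]
        congr 2
        field_simp
      · simp only [hf, indicator_of_notMem hρ, zero_mul, lintegral_zero]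
    simp only [h1]
    rw [lintegral_indicator measurableSet_Ioo, lintegral_mul_const _ (by fun_prop), int_sq_Ioo]
  -- the support
  have hB : ∀ q, f q ≠ 0 → q ∈ Fm Γ ε '' Em Γ ε τ J := by
    intro q hq
    have h1 : q.1 ∈ Ioo (1 : ℝ) 2 := by
      by_contra hn
      exact hq (by simp only [hf, indicator_of_notMem hn, zero_mul])
    have h2 : K (q.1⁻¹ • q.2) ≠ 0 := by
      intro h0
      exact hq (by simp only [hf, h0, mul_zero])
    have hq0 : 0 < q.1 := by linarith [h1.1]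
    set x := q.1⁻¹ • q.2 with hx
    have h3 : H x ≠ 0 := fun h0 => h2 (le_antisymm (h0 ▸ hKH x) bot_le)
    obtain ⟨s, hs, hfh⟩ := hH x h3
    have hw : ‖ε⁻¹ • (x - Γ s)‖ = 1 := by
      rw [norm_smul, norm_inv, Real.norm_eq_abs, abs_of_pos hε, hfh.2.1, inv_mul_cancel₀ hε.ne']
    set w := ε⁻¹ • (x - Γ s) with hwdef
    have hxw : x = Γ s + ε • w := by
      rw [hwdef, smul_smul, mul_inv_cancel₀ hε.ne', one_smul]; abel
    have hz : ‖q.1 • w‖ = q.1 := by
      rw [norm_smul, hw, mul_one, Real.norm_eq_abs, abs_of_pos hq0]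
    have hr : rproj (q.1 • w) = w := by
      unfold rproj
      rw [hz, smul_smul, inv_mul_cancel₀ hq0.ne', one_smul]
    refine ⟨(s, q.1 • w), ⟨hs, ⟨by rw [hz]; exact h1.1, by rw [hz]; exact h1.2⟩, ?_⟩, ?_⟩
    · simp only [hr, ← hxw]
      exact hfh
    · unfold Fm
      refine Prod.ext hz ?_
      simp only
      rw [hz, smul_comm ε, ← smul_add, ← hxw, hx, smul_smul, mul_inv_cancel₀ hq0.ne', one_smul]
  have hEm := measurableSet_Em hΓ hε τ hJ
  have hHaar : (volume : Measure (ℝ × Space3)).IsAddHaarMeasure := by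
    rw [Measure.volume_eq_prod]
    infer_instance
  have hC : ∫⁻ q, f q ≤ ∫⁻ p in Em Γ ε τ J, ENNReal.ofReal |(dFm Γ Γ' ε p).det| * f (Fm Γ ε p) := by
    rw [← lintegral_image_eq_lintegral_abs_det_fderiv_mul volume hEm
      (fun p hp => (hasFDerivAt_Fm (p := p) (fun h0 => by
        have := hp.2.1.1; rw [h0, norm_zero] at this; linarith) (hd p.1 hp.1)).hasFDerivWithinAt)
      (injOn_Fm hε τ J) f]
    have hI : MeasurableSet (Fm Γ ε '' Em Γ ε τ J) :=
      measurable_image_of_fderivWithin hEm (fun p hp => (hasFDerivAt_Fm (Γ' := Γ') (p := p) (fun h0 => by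
        have := hp.2.1.1; rw [h0, norm_zero] at this; linarith) (hd p.1 hp.1)).hasFDerivWithinAt)
        (injOn_Fm hε τ J)
    rw [← lintegral_indicator hI]
    refine lintegral_mono fun q => ?_
    by_cases hq : f q = 0
    · rw [hq]; exact bot_le
    · rw [indicator_of_mem (hB q hq)]
  -- the integrand
  set g : ℝ × Space3 → ℝ≥0∞ := fun p => ENNReal.ofReal (inner ℝ (rproj p.2) (Γ' p.1)) *
    Φ p.1 (rproj p.2) with hg
  have hgm : Measurable g := by
    refine Measurable.mul ?_ ?_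
    · exact (((measurable_rproj.comp measurable_snd).inner
        (hΓ'.comp measurable_fst))).ennreal_ofReal
    · exact hΦ.comp (measurable_fst.prodMk (measurable_rproj.comp measurable_snd))
  have hD : ∀ p ∈ Em Γ ε τ J, ENNReal.ofReal |(dFm Γ Γ' ε p).det| * f (Fm Γ ε p) ≤
      ENNReal.ofReal (ε ^ 2) * g p := by
    intro p hp
    have hz1 : 0 < ‖p.2‖ := by linarith [hp.2.1.1]
    have hz : p.2 ≠ 0 := norm_pos_iff.1 hz1
    have hfF : f (Fm Γ ε p) = ENNReal.ofReal (‖p.2‖⁻¹) * K (Γ p.1 + ε • rproj p.2) := by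
      have e1 : ‖p.2‖⁻¹ • (‖p.2‖ • Γ p.1 + ε • p.2) = Γ p.1 + ε • rproj p.2 := by
        unfold rproj
        rw [smul_add, smul_smul ‖p.2‖⁻¹ ‖p.2‖, inv_mul_cancel₀ hz1.ne', one_smul, smul_comm ‖p.2‖⁻¹ ε]
      simp only [hf, Fm]
      rw [indicator_of_mem (show ‖p.2‖ ∈ Ioo (1 : ℝ) 2 from ⟨hp.2.1.1, hp.2.1.2⟩), e1]
    have hin : 0 ≤ inner ℝ (rproj p.2) (Γ' p.1) := by
      have h1 := hp.2.2.inner_nonneg hε (hd p.1 hp.1)
      rw [add_sub_cancel_left, inner_smul_left, conj_trivial] at h1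
      exact nonneg_of_mul_nonneg_right h1 hε
    have hK : K (Γ p.1 + ε • rproj p.2) ≤ Φ p.1 (rproj p.2) :=
      (hKH _).trans (hHΦ _ p.1 hp.1 _ (norm_rproj hp.2.1) hp.2.2 rfl)
    rw [det_dFm Γ Γ' hε.ne', hfF, ← mul_assoc, ← ENNReal.ofReal_mul (abs_nonneg _)]
    have h3 : |-(‖p.2‖ * inner ℝ (rproj p.2) (Γ' p.1)) * ε ^ 2| * ‖p.2‖⁻¹ =
        ε ^ 2 * inner ℝ (rproj p.2) (Γ' p.1) := by
      rw [abs_mul, abs_neg, abs_mul, abs_of_nonneg hin, abs_of_pos hz1, abs_of_pos (by positivity)]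
      field_simp
    rw [h3, ENNReal.ofReal_mul (by positivity), mul_assoc]
    simp only [hg]
    gcongr
  have hE : ∫⁻ p in Em Γ ε τ J, ENNReal.ofReal (ε ^ 2) * g p ≤
      ENNReal.ofReal (ε ^ 2) * (ENNReal.ofReal (7 / 3) * ∫⁻ s in J, ∫⁻ w,
        ENNReal.ofReal (inner ℝ w (Γ' s)) * Φ s w ∂sphM) := by
    rw [lintegral_const_mul _ hgm]
    gcongr
    have hsub : Em Γ ε τ J ⊆ J ×ˢ ann := fun p hp => ⟨hp.1, hp.2.1⟩
    calc ∫⁻ p in Em Γ ε τ J, g p ≤ ∫⁻ p in J ×ˢ ann, g p := lintegral_mono_set hsub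
      _ = ∫⁻ s in J, ∫⁻ z in ann, g (s, z) := by
          rw [Measure.volume_eq_prod, ← Measure.prod_restrict, lintegral_prod _ hgm.aemeasurable]
      _ = ENNReal.ofReal (7 / 3) * ∫⁻ s in J, ∫⁻ w,
            ENNReal.ofReal (inner ℝ w (Γ' s)) * Φ s w ∂sphM := by
          rw [← lintegral_const_mul' _ _ ENNReal.ofReal_ne_top]
          refine lintegral_congr fun s => ?_
          have hFm : Measurable (fun w : Space3 => ENNReal.ofReal (inner ℝ w (Γ' s)) * Φ s w) := by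
            refine Measurable.mul ?_ (hΦ.comp (measurable_const.prodMk measurable_id))
            exact (measurable_id.inner measurable_const).ennreal_ofReal
          exact lintegral_ann_rproj hFm
  have hfin := hC.trans ((setLIntegral_mono' hEm hD).trans hE)
  rw [hA, mul_left_comm] at hfin
  exact (ENNReal.mul_le_mul_iff_right (by simp) ENNReal.ofReal_ne_top).1 hfin

/-! ### Lines and impact discs -/

lemma firstHit_iff_rel {ε : ℝ} {x : Space3} {Δ y : ℝ → Space3} {τ s : ℝ} :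
    FirstHit ε (fun r => x + Δ r) y τ s ↔ FirstHit ε (fun _ => x) (fun r => y r - Δ r) τ s := by
  unfold FirstHit
  have h : ∀ r, x + Δ r - y r = x - (y r - Δ r) := fun r => by abel
  simp only [h]

/-- **(OC3)(a), `C¹` version for two moving objects**: `x + Δ(s)` against the ball around `y(s)`. -/
theorem lintegral_firstHit_C1_rel_le {ε : ℝ} (hε : 0 < ε) {Δ Δ' y y' : ℝ → Space3}
    (hy : Continuous y) (hΔ : Continuous Δ) (hy' : Measurable y') (hΔ' : Measurable Δ')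
    {J : Set ℝ} (hJ : MeasurableSet J)
    (hdy : ∀ s ∈ J, HasDerivAt y (y' s) s) (hdΔ : ∀ s ∈ J, HasDerivAt Δ (Δ' s) s) {τ : ℝ}
    {H : Space3 → ℝ≥0∞} {Φ : ℝ → Space3 → ℝ≥0∞} (hΦ : Measurable (Function.uncurry Φ))
    (hH : ∀ x, H x ≠ 0 → ∃ s ∈ J, FirstHit ε (fun r => x + Δ r) y τ s)
    (hHΦ : ∀ x, ∀ s ∈ J, ∀ w, ‖w‖ = 1 → FirstHit ε (fun r => x + Δ r) y τ s →
      x + Δ s = y s + ε • w → H x ≤ Φ s w) :
    ∫⁻ x, H x ≤ ENNReal.ofReal (ε ^ 2) * ∫⁻ s in J, ∫⁻ w,
      ENNReal.ofReal (inner ℝ w (y' s - Δ' s)) * Φ s w ∂sphM := by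
  refine lintegral_firstHit_C1_le hε (hy.sub hΔ) (hy'.sub hΔ') hJ
    (fun s hs => (hdy s hs).sub (hdΔ s hs)) (τ := τ) hΦ ?_ ?_
  · intro x hx
    obtain ⟨s, hs, h⟩ := hH x hx
    exact ⟨s, hs, firstHit_iff_rel.1 h⟩
  · intro x s hs w hw h hx
    refine hHΦ x s hs w hw (firstHit_iff_rel.2 h) ?_
    rw [hx]; simp only [Pi.sub_apply]; abel

/-- **(OC3)(a), `C¹` path `y`, free line of velocity `v`, impact disc form.** -/
theorem lintegral_firstHit_C1_disc_le {ε : ℝ} (hε : 0 < ε) {y y' : ℝ → Space3} {v : Space3}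
    (hy : Continuous y) (hy' : Measurable y') {J : Set ℝ} (hJ : MeasurableSet J)
    (hdy : ∀ s ∈ J, HasDerivAt y (y' s) s) {τ σ : ℝ}
    {H : Space3 → ℝ≥0∞} {Φ : ℝ → Space3 → ℝ≥0∞} (hΦ : Measurable (Function.uncurry Φ))
    (hH : ∀ x, H x ≠ 0 → ∃ s ∈ J, FirstHit ε (fun r => x + (r - σ) • v) y τ s)
    (hHΦ : ∀ x, ∀ s ∈ J, ∀ w, ‖w‖ = 1 → FirstHit ε (fun r => x + (r - σ) • v) y τ s →
      x + (s - σ) • v = y s + ε • w → H x ≤ Φ s w) :
    ∫⁻ x, H x ≤ ENNReal.ofReal (ε ^ 2) * ∫⁻ s in J, ENNReal.ofReal ‖v - y' s‖ *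
      ∫⁻ b in impactDisc (v - y' s), Φ s (entrancePoint b (v - y' s)) ∂μHE[2] := by
  have hdl : ∀ s ∈ J, HasDerivAt (fun r : ℝ => (r - σ) • v) v s := by
    intro s _
    have := ((hasDerivAt_id s).sub_const σ).smul_const v
    simpa using this
  have h := lintegral_firstHit_C1_rel_le hε (Δ := fun r => (r - σ) • v) (Δ' := fun _ => v) hy
    (by fun_prop) hy' measurable_const hJ hdy hdl hΦ hH hHΦ
  refine h.trans (le_of_eq ?_)
  congr 1
  refine lintegral_congr fun s => ?_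
  have hΦs : Measurable (fun w : Space3 => Φ s w) :=
    hΦ.comp (measurable_const.prodMk measurable_id)
  rw [omega_impactDisc (v - y' s) hΦs]
  refine lintegral_congr fun w => ?_
  rw [real_inner_comm, ← inner_neg_left, neg_sub]

lemma aux_swap {J : Set ℝ} {A : ℝ≥0∞} (hA : A ≠ ∞) {k : Space3 → ℝ≥0∞} (hk : Measurable k)
    {K : ℝ → Space3 → ℝ≥0∞} (hKm : Measurable (Function.uncurry K)) {I : Space3 → ℝ≥0∞}
    (hI : ∀ v, I v ≤ A * ∫⁻ s in J, K s v) :
    ∫⁻ v, k v * I v ≤ A * ∫⁻ s in J, ∫⁻ v, k v * K s v := by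
  have h3 : ∀ v, k v * I v ≤ A * ∫⁻ s in J, k v * K s v := by
    intro v
    have hmv : Measurable (fun s : ℝ => K s v) := hKm.comp (measurable_id.prodMk measurable_const)
    have h5 : ∫⁻ s in J, k v * K s v = k v * ∫⁻ s in J, K s v := lintegral_const_mul _ hmv
    rw [h5]
    calc k v * I v ≤ k v * (A * ∫⁻ s in J, K s v) := by
          gcongr
          exact hI v
      _ = _ := by ring
  have hsw : Measurable (Function.uncurry (fun (v : Space3) (s : ℝ) => k v * K s v)) :=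
    (hk.comp measurable_fst).mul (hKm.comp measurable_swap)
  have h6 : ∫⁻ v, ∫⁻ s in J, k v * K s v = ∫⁻ s in J, ∫⁻ v, k v * K s v :=
    lintegral_lintegral_swap (μ := volume) (ν := volume.restrict J) hsw.aemeasurable
  calc ∫⁻ v, k v * I v
      ≤ ∫⁻ v, A * ∫⁻ s in J, k v * K s v := lintegral_mono h3
    _ = A * ∫⁻ v, ∫⁻ s in J, k v * K s v := lintegral_const_mul' _ _ hA
    _ = A * ∫⁻ s in J, ∫⁻ v, k v * K s v := by rw [h6]

/-- **(OC3)(a)**, `C¹` path, integrated over the velocity `v` of the line with weight `k v`. -/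
theorem lintegral_firstHit_C1_vel_le {ε : ℝ} (hε : 0 < ε) {y y' : ℝ → Space3}
    (hy : Continuous y) (hy' : Measurable y') {J : Set ℝ} (hJ : MeasurableSet J)
    (hdy : ∀ s ∈ J, HasDerivAt y (y' s) s) {τ σ : ℝ}
    {H : Space3 → Space3 → ℝ≥0∞} {Φ : ℝ → Space3 → Space3 → ℝ≥0∞}
    (hΦ : Measurable (fun p : ℝ × Space3 × Space3 => Φ p.1 p.2.1 p.2.2))
    {k : Space3 → ℝ≥0∞} (hk : Measurable k)
    (hH : ∀ x v, H x v ≠ 0 → ∃ s ∈ J, FirstHit ε (fun r => x + (r - σ) • v) y τ s)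
    (hHΦ : ∀ x v, ∀ s ∈ J, ∀ w, ‖w‖ = 1 → FirstHit ε (fun r => x + (r - σ) • v) y τ s →
      x + (s - σ) • v = y s + ε • w → H x v ≤ Φ s v w) :
    ∫⁻ v, k v * ∫⁻ x, H x v ≤ ENNReal.ofReal (ε ^ 2) * ∫⁻ s in J, ∫⁻ v, k v *
      (ENNReal.ofReal ‖v - y' s‖ *
        ∫⁻ b in impactDisc (v - y' s), Φ s v (entrancePoint b (v - y' s)) ∂μHE[2]) := by
  have hΦv : ∀ v, Measurable (Function.uncurry (fun (s : ℝ) (w : Space3) => Φ s v w)) := fun v =>
    hΦ.comp (measurable_fst.prodMk (measurable_const.prodMk measurable_snd))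
  have hγ : Measurable (fun p : ℝ × Space3 => p.2 - y' p.1) :=
    measurable_snd.sub (hy'.comp measurable_fst)
  have hm : Measurable (fun p : ℝ × Space3 => ENNReal.ofReal ‖p.2 - y' p.1‖ *
      ∫⁻ b in impactDisc (p.2 - y' p.1), Φ p.1 p.2 (entrancePoint b (p.2 - y' p.1)) ∂μHE[2]) := by
    have h2 : Measurable (Function.uncurry (fun (p : ℝ × Space3) (b : Space3) =>
        Φ p.1 p.2 (entrancePoint b (p.2 - y' p.1)))) := by
      have h3 : Measurable (fun q : (ℝ × Space3) × Space3 =>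
          entrancePoint q.2 (q.1.2 - y' q.1.1)) :=
        measurable_entrancePoint.comp (measurable_snd.prodMk (hγ.comp measurable_fst))
      exact hΦ.comp ((measurable_fst.comp measurable_fst).prodMk
        ((measurable_snd.comp measurable_fst).prodMk h3))
    exact measurable_flux_disc (γ := fun p : ℝ × Space3 => p.2 - y' p.1) hγ h2
  refine aux_swap (J := J) (A := ENNReal.ofReal (ε ^ 2)) ENNReal.ofReal_ne_top hk
    (K := fun s v => ENNReal.ofReal ‖v - y' s‖ *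
      ∫⁻ b in impactDisc (v - y' s), Φ s v (entrancePoint b (v - y' s)) ∂μHE[2])
    hm (I := fun v => ∫⁻ x, H x v) ?_
  intro v
  exact lintegral_firstHit_C1_disc_le hε hy hy' hJ hdy (hΦv v) (fun x => hH x v)
    (fun x => hHΦ x v)


end Crest.Agent.R122.OC663
end
end

-- ▼ part R122/RedFlux_663

/-!
# Row 122 (helper663): flux of errors (helper285's item (3))

The error functionals of the one-contact step, evaluated at the first contact of a free test line with
the gas, are bounded by the real flux form `rfl4`.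

* `lintegral_baseM_le` : iterated upper bound of integrals over test lines born at `τ` (no
  measurability).
* `lintegral_line_firstHit_le` : one particle of a Newton world, functionals of a test line supported on
  first hits of this particle.
* `rf_of_firstHit` : Mecke'd sum over clusters.
-/

set_option autoImplicit false

open MeasureTheory Set Filter
open scoped ENNReal Classical Topology
open Crest.AnalysisR.Kinetic
open Crest.Agent.R122.Kin796 Crest.Agent.R122.GC311 Crest.Agent.R122.Flow671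
open Crest.Agent.R122.EDefs602 Crest.Agent.R122.Loc45 Crest.Agent.R122.OC663
open Crest.Agent.R122.InEq2 Crest.Agent.R122.Relabel674 Crest.Agent.R122.Causal291
open Crest.Agent.R122.EBasic602

noncomputable section

namespace Crest.Agent.R122.RedFlux663

open OneC285

/-! ### Integrals over test lines -/

/-- Iterated upper bound, no measurability. -/
theorem lintegral_baseM_le (τ : ℝ) (F : ML → ℝ≥0∞) :
    ∫⁻ l, F l ∂(OneC423.baseM (Measure.dirac τ)) ≤
      ∑' n : ℕ, ∫⁻ v : Space3, ∫⁻ y : Space3, F ((τ, (y, v)), n) := by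
  unfold OneC423.baseM
  set D : Measure ℝ := Measure.dirac τ with hD
  calc ∫⁻ l, F l ∂((D.prod (volume : Measure PhasePoint)).prod Measure.count)
      = ∫⁻ q : ℕ × (ℝ × PhasePoint), F (q.2, q.1)
          ∂((Measure.count : Measure ℕ).prod (D.prod (volume : Measure PhasePoint))) := by
        rw [← Measure.prod_swap]
        exact lintegral_map_equiv F MeasurableEquiv.prodComm
    _ ≤ ∫⁻ n : ℕ, ∫⁻ e : ℝ × PhasePoint, F (e, n)
          ∂(D.prod (volume : Measure PhasePoint)) ∂Measure.count :=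
        lintegral_prod_le fun q : ℕ × (ℝ × PhasePoint) => F (q.2, q.1)
    _ = ∑' n : ℕ, ∫⁻ e : ℝ × PhasePoint, F (e, n) ∂(D.prod (volume : Measure PhasePoint)) :=
        lintegral_count _
    _ ≤ ∑' n : ℕ, ∫⁻ v : Space3, ∫⁻ y : Space3, F ((τ, (y, v)), n) := by
        refine ENNReal.tsum_le_tsum fun n => ?_
        refine (lintegral_prod_le fun e : ℝ × PhasePoint => F (e, n)).trans ?_
        rw [hD, lintegral_dirac]
        have hv : (volume : Measure PhasePoint) =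
            (volume : Measure Space3).prod (volume : Measure Space3) := rfl
        rw [hv, ← Measure.prod_swap]
        refine le_trans (le_of_eq (lintegral_map_equiv (fun z : PhasePoint => F ((τ, z), n))
          MeasurableEquiv.prodComm)) ?_
        exact lintegral_prod_le fun q : Space3 × Space3 =>
          (fun z : PhasePoint => F ((τ, z), n)) (MeasurableEquiv.prodComm q)

/-- Constant of the flux inequality. -/
def cFlux (g₀ : ℝ) (ρ : ℝ≥0∞) : ℝ≥0∞ :=
  (∑' n : ℕ, ρ ^ n) * (ENNReal.ofReal Real.pi * ∫⁻ v : Space3, wG g₀ v * ENNReal.ofReal (1 + ‖v‖))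

theorem cFlux_ne_top {g₀ : ℝ} (hg : 0 < g₀) {ρ : ℝ≥0∞} (hρ : ρ < 1) : cFlux g₀ ρ ≠ ∞ := by
  unfold cFlux
  refine ENNReal.mul_ne_top ?_ (ENNReal.mul_ne_top ENNReal.ofReal_ne_top ?_)
  · rw [ENNReal.tsum_geometric]
    exact ENNReal.inv_ne_top.2 (tsub_pos_of_lt hρ).ne'
  · have h1 := (Boltz814.integrable_one_add_pow_mul_gauss hg 1).lintegral_lt_top
    refine ne_of_lt (lt_of_eq_of_lt (lintegral_congr fun v => ?_) h1)
    unfold wG
    rw [← ENNReal.ofReal_mul (Real.exp_pos _).le, mul_comm, pow_one, neg_mul]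

variable {Φ : Space3 → ℝ} {ε : ℝ}

theorem markW_le (ρ : ℝ≥0∞) (K n : ℕ) : markW ρ K n ≤ ρ ^ n := by
  unfold markW
  split_ifs
  · exact le_rfl
  · exact bot_le

/-- **Flux inequality for one particle of a Newton world.** The functional `H` of the test line is
supported on first hits of the particle `q` in `(τ, te]` and bounded there by `G` at the hitting
time. -/
theorem lintegral_line_firstHit_le (hΦ : AdmissiblePotential Φ) (hε : 0 < ε) {ι : Type*}
    [Fintype ι] {Z : ι → PhasePoint} (hZ : Z ∈ Dom Φ ι) (q : ι) {γ : ℝ → ℝ} {ρ : ℝ≥0∞} {K : ℕ}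
    {g₀ τ te : ℝ} (hγ : g₀ ≤ γ τ) (hρ : ρ < 1) {G : ℝ → ℝ≥0∞} (hG : Measurable G)
    {H : ML → ℝ≥0∞}
    (hH : ∀ y v n, H ((τ, (y, v)), n) ≠ 0 → ∃ s ∈ Ioc τ te,
      FirstHit ε (fun r => y + (r - τ) • v) (fun s => (flow Φ ε s Z q).1) τ s)
    (hHG : ∀ y v n, ∀ s ∈ Ioc τ te,
      FirstHit ε (fun r => y + (r - τ) • v) (fun s => (flow Φ ε s Z q).1) τ s →
      H ((τ, (y, v)), n) ≤ G s) :
    ∫⁻ l, lineD γ ρ K l * H l ∂(OneC423.baseM (Measure.dirac τ)) ≤
      cFlux g₀ ρ * ∫⁻ s in Ioc τ te,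
        ENNReal.ofReal (ε ^ 2 * (1 + ‖(flow Φ ε s Z q).2‖)) * G s := by
  have hcont : Continuous fun s => flow Φ ε s Z := flow_continuous_time hΦ hε Z
  have hy : Continuous fun s => (flow Φ ε s Z q).1 := ((continuous_apply q).comp hcont).fst
  have hy' : Continuous fun s => (flow Φ ε s Z q).2 := ((continuous_apply q).comp hcont).snd
  have hwm : Measurable fun v : Space3 => wG (γ τ) v := by unfold wG; fun_prop
  have hwt : ∀ v : Space3, wG (γ τ) v ≠ ∞ := fun v => ENNReal.ofReal_ne_top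
  have hwle : ∀ v : Space3, wG (γ τ) v ≤ wG g₀ v := fun v => wG_anti hγ v
  -- the inner disc integral
  have hdisc : ∀ (s : ℝ) (v : Space3),
      ENNReal.ofReal ‖v - (flow Φ ε s Z q).2‖ *
        ∫⁻ _ in impactDisc (v - (flow Φ ε s Z q).2), G s ∂μHE[2] ≤
      ENNReal.ofReal (1 + ‖v‖) * (ENNReal.ofReal Real.pi *
        (ENNReal.ofReal (1 + ‖(flow Φ ε s Z q).2‖) * G s)) := by
    intro s v
    by_cases h0 : v - (flow Φ ε s Z q).2 = 0
    · rw [h0, norm_zero, ENNReal.ofReal_zero, zero_mul]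
      exact bot_le
    rw [lintegral_const, Measure.restrict_apply_univ, Boltz814.hausdorff_impactDisc h0]
    have h1 : ENNReal.ofReal ‖v - (flow Φ ε s Z q).2‖ ≤
        ENNReal.ofReal (1 + ‖v‖) * ENNReal.ofReal (1 + ‖(flow Φ ε s Z q).2‖) := by
      rw [← ENNReal.ofReal_mul (by positivity)]
      refine ENNReal.ofReal_le_ofReal ?_
      have h2 := norm_sub_le v (flow Φ ε s Z q).2
      nlinarith [norm_nonneg v, norm_nonneg (flow Φ ε s Z q).2]
    calc ENNReal.ofReal ‖v - (flow Φ ε s Z q).2‖ * (G s * ENNReal.ofReal Real.pi)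
        ≤ (ENNReal.ofReal (1 + ‖v‖) * ENNReal.ofReal (1 + ‖(flow Φ ε s Z q).2‖)) *
          (G s * ENNReal.ofReal Real.pi) := mul_le_mul_left h1 _
      _ = _ := by ring
  -- one mark
  have hone : ∀ n : ℕ, ∫⁻ v : Space3, wG (γ τ) v * ∫⁻ y : Space3, H ((τ, (y, v)), n) ≤
      (ENNReal.ofReal Real.pi * ∫⁻ v : Space3, wG g₀ v * ENNReal.ofReal (1 + ‖v‖)) *
        ∫⁻ s in Ioc τ te, ENNReal.ofReal (ε ^ 2 * (1 + ‖(flow Φ ε s Z q).2‖)) * G s := by
    intro n
    have h := lintegral_firstHit_C1_vel_le hε hy hy'.measurable (J := Ioc τ te) measurableSet_Ioc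
      (fun s _ => hasDerivAt_pos_flow hΦ hε hZ s q) (τ := τ) (σ := τ)
      (H := fun y v => H ((τ, (y, v)), n)) (Φ := fun s _ _ => G s) (hG.comp measurable_fst)
      (k := fun v => wG (γ τ) v) hwm (fun y v => hH y v n)
      (fun y v s hs _ _ hF _ => hHG y v n s hs hF)
    refine h.trans ?_
    set M : ℝ≥0∞ := ∫⁻ v : Space3, wG g₀ v * ENNReal.ofReal (1 + ‖v‖) with hM
    have hg1 : Measurable fun s => ENNReal.ofReal (1 + ‖(flow Φ ε s Z q).2‖) * G s :=
      (hy'.norm.measurable.const_add 1).ennreal_ofReal.mul hG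
    calc ENNReal.ofReal (ε ^ 2) * ∫⁻ s in Ioc τ te, ∫⁻ v, wG (γ τ) v *
          (ENNReal.ofReal ‖v - (flow Φ ε s Z q).2‖ *
            ∫⁻ _ in impactDisc (v - (flow Φ ε s Z q).2), G s ∂μHE[2])
        ≤ ENNReal.ofReal (ε ^ 2) * ∫⁻ s in Ioc τ te, ∫⁻ v, (wG g₀ v * ENNReal.ofReal (1 + ‖v‖)) *
            (ENNReal.ofReal Real.pi * (ENNReal.ofReal (1 + ‖(flow Φ ε s Z q).2‖) * G s)) := by
          refine mul_le_mul_right (lintegral_mono fun s => lintegral_mono fun v => ?_) _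
          rw [mul_assoc]
          exact mul_le_mul' (hwle v) (hdisc s v)
      _ = ENNReal.ofReal (ε ^ 2) * ∫⁻ s in Ioc τ te, M *
            (ENNReal.ofReal Real.pi * (ENNReal.ofReal (1 + ‖(flow Φ ε s Z q).2‖) * G s)) := by
          congr 1
          refine lintegral_congr fun s => ?_
          rw [lintegral_mul_const]
          unfold wG
          fun_prop
      _ = ENNReal.ofReal (ε ^ 2) * (M * (ENNReal.ofReal Real.pi *
            ∫⁻ s in Ioc τ te, ENNReal.ofReal (1 + ‖(flow Φ ε s Z q).2‖) * G s)) := by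
          rw [lintegral_const_mul _ (hg1.const_mul _), lintegral_const_mul _ hg1]
      _ = (ENNReal.ofReal Real.pi * M) * (ENNReal.ofReal (ε ^ 2) *
            ∫⁻ s in Ioc τ te, ENNReal.ofReal (1 + ‖(flow Φ ε s Z q).2‖) * G s) := by ring
      _ = _ := by
          rw [← lintegral_const_mul _ hg1]
          congr 1
          refine lintegral_congr fun s => ?_
          rw [← mul_assoc, ← ENNReal.ofReal_mul (by positivity)]
  -- all marks
  have hmk : ∀ n, markW ρ K n ≠ ∞ := fun n =>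
    ne_top_of_le_ne_top (ENNReal.pow_ne_top (hρ.trans ENNReal.one_lt_top).ne) (markW_le ρ K n)
  refine (lintegral_baseM_le τ _).trans ?_
  calc ∑' n : ℕ, ∫⁻ v : Space3, ∫⁻ y : Space3,
        lineD γ ρ K ((τ, (y, v)), n) * H ((τ, (y, v)), n)
      = ∑' n : ℕ, markW ρ K n * ∫⁻ v : Space3, wG (γ τ) v *
          ∫⁻ y : Space3, H ((τ, (y, v)), n) := by
        refine tsum_congr fun n => ?_
        rw [← lintegral_const_mul' _ _ (hmk n)]
        refine lintegral_congr fun v => ?_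
        rw [← lintegral_const_mul' _ _ (hwt v), ← lintegral_const_mul' _ _ (hmk n)]
        refine lintegral_congr fun y => ?_
        simp only [lineD]
        ring
    _ ≤ ∑' n : ℕ, ρ ^ n * ((ENNReal.ofReal Real.pi *
          ∫⁻ v : Space3, wG g₀ v * ENNReal.ofReal (1 + ‖v‖)) *
        ∫⁻ s in Ioc τ te, ENNReal.ofReal (ε ^ 2 * (1 + ‖(flow Φ ε s Z q).2‖)) * G s) :=
        ENNReal.tsum_le_tsum fun n => mul_le_mul' (markW_le ρ K n) (hone n)
    _ = _ := by
        rw [ENNReal.tsum_mul_right, cFlux]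
        ring

/-! ### First contact of a test line with the gas -/

theorem lpos_eq (τ : ℝ) (y v : Space3) (n : ℕ) (r : ℝ) :
    lpos ((τ, (y, v)), n) r = y + (r - τ) • v := by
  simp only [lpos, back]
  rw [sub_smul]
  abel

/-- The first contact of the test line is a first hit of the particle met. -/
theorem Meet.firstHit (hΦ : AdmissiblePotential Φ) (hε : 0 < ε) {T : ℝ} {n : ℕ} {w : Config n}
    {l : ML} {i : Fin n} (h : Meet Φ ε T w l i) :
    FirstHit ε (lpos l) (fun s => (flow Φ ε s w i).1) l.1.1 (mT Φ ε w l) := by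
  have hbdd : BddBelow (mSet Φ ε w l) := ⟨l.1.1, fun s hs => hs.1⟩
  have hcont : Continuous fun s => flow Φ ε s w := flow_continuous_time hΦ hε w
  have hy : Continuous fun s => (flow Φ ε s w i).1 := ((continuous_apply i).comp hcont).fst
  have hl : Continuous (lpos l) := by unfold lpos; fun_prop
  have hbef : ∀ r ∈ Ioo l.1.1 (mT Φ ε w l), ε < ‖lpos l r - (flow Φ ε r w i).1‖ := by
    intro r hr
    by_contra hlt
    rw [not_lt, ← dist_eq_norm] at hlt
    exact absurd (csInf_le hbdd (show r ∈ mSet Φ ε w l from ⟨hr.1.le, i, hlt⟩)) (not_le.2 hr.2)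
  refine ⟨h.lt, le_antisymm ?_ ?_, hbef⟩
  · rw [← dist_eq_norm]; exact h.dist
  · -- by continuity
    have hc : Continuous fun r => ‖lpos l r - (flow Φ ε r w i).1‖ := (hl.sub hy).norm
    have h1 : mT Φ ε w l ∈ closure (Ioo l.1.1 (mT Φ ε w l)) := by
      rw [closure_Ioo h.lt.ne]
      exact right_mem_Icc.2 h.lt.le
    exact closure_minimal (fun r hr => (hbef r hr).le) (isClosed_le continuous_const hc) h1

theorem measurableSet_preC_eq {n : ℕ} (w : Config n) (q : Fin n) (D : Finset (Fin n)) :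
    MeasurableSet {s : ℝ | preC Φ ε w s q = D} := by
  have hmono : ∀ s s', s ≤ s' → preC Φ ε w s q ⊆ preC Φ ε w s' q := by
    intro s s' hs k hk
    simp only [preC, Finset.mem_filter, Finset.mem_univ, true_and] at hk ⊢
    rcases hk with hk | ⟨r, h0, hr, hR⟩
    · exact Or.inl hk
    · exact Or.inr ⟨r, h0, hr.trans_le hs, hR⟩
  refine OrdConnected.measurableSet ⟨fun s hs s' hs' r hr => ?_⟩
  have hs1 : preC Φ ε w s q = D := hs
  have hs2 : preC Φ ε w s' q = D := hs'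
  refine Finset.Subset.antisymm ?_ ?_
  · exact (hmono r s' hr.2).trans hs2.le
  · exact hs1.ge.trans (hmono s r hr.1)

theorem block_ne_empty {k m : ℕ} (j : Fin k) : block k m ≠ ∅ := by
  intro h
  have : Fin.castAddEmb m j ∈ block k m := by
    unfold block
    exact Finset.mem_map_of_mem _ (Finset.mem_univ j)
  rw [h] at this
  exact absurd this (Finset.notMem_empty _)

theorem card_block (k m : ℕ) : (block k m).card = k := by
  unfold block
  simp

/-- **Flux of errors** (helper285's item (3)). -/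
theorem rf_of_firstHit (hΦ : AdmissiblePotential Φ) (hε : 0 < ε) {f₀ : PhasePoint → ℝ}
    {γ : ℝ → ℝ} {ρ : ℝ≥0∞} {K : ℕ} {g₀ τ te : ℝ} (hτ : 0 < τ) (hg₀ : 0 < g₀) (hγ : g₀ ≤ γ τ)
    (hρ : ρ < 1) {B : RF} (hB : MeasRF B) :
    ∑' k : ℕ, activity ε ^ k / (k.factorial : ℝ≥0∞) * ∫⁻ V : Config k, gcWeight f₀ ε k V *
      gcE f₀ ε (fun m w => perpInd ε V w * ∑ j : Fin k,
        ∫⁻ l, lineD γ ρ K l * (if clM Φ ε K te (k + m) (Fin.append V w) (Fin.castAdd m j) l =
          block k m then B k m V w j (mT Φ ε (Fin.append V w) l) else 0)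
          ∂(OneC423.baseM (Measure.dirac τ))) ≤
      cFlux g₀ ρ * rfl4 Φ f₀ ε K te B := by
  have hC : cFlux g₀ ρ ≠ ∞ := cFlux_ne_top hg₀ hρ
  -- pointwise inequality
  have key : ∀ (k m : ℕ) (V : Config k) (w : Config m) (j : Fin k), V ∈ PairExcluded ε k →
      w ∈ PairExcluded ε m → Perp ε V w →
      ∫⁻ l, lineD γ ρ K l * (if clM Φ ε K te (k + m) (Fin.append V w) (Fin.castAdd m j) l =
          block k m then B k m V w j (mT Φ ε (Fin.append V w) l) else 0)
          ∂(OneC423.baseM (Measure.dirac τ)) ≤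
      cFlux g₀ ρ * ∫⁻ s in Ioc 0 te,
        ENNReal.ofReal (ε ^ 2 * (1 + ‖(flow Φ ε s (Fin.append V w) (Fin.castAdd m j)).2‖)) *
        (if k ≤ K ∧ preC Φ ε (Fin.append V w) s (Fin.castAdd m j) = block k m then
          B k m V w j s else 0) := by
    intro k m V w j hV hw hp
    set Z : Config (k + m) := Fin.append V w with hZdef
    set q : Fin (k + m) := Fin.castAdd m j with hq
    have hZ : Z ∈ PairExcluded ε (k + m) := (append_mem_pairExcluded_iff V w).2 ⟨hV, hw, hp⟩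
    have hD : Z ∈ Dom Φ (Fin (k + m)) := pairExcluded_subset_Dom hε _ hZ
    set G : ℝ → ℝ≥0∞ := fun s => if k ≤ K ∧ preC Φ ε Z s q = block k m then B k m V w j s else 0
      with hGdef
    have hBm : Measurable fun s => B k m V w j s :=
      (hB k m j).comp (measurable_const.prodMk (measurable_const.prodMk measurable_id))
    have hGm : Measurable G := by
      refine Measurable.ite ?_ hBm measurable_const
      by_cases hk : k ≤ K
      · have : {s : ℝ | k ≤ K ∧ preC Φ ε Z s q = block k m} =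
            {s : ℝ | preC Φ ε Z s q = block k m} := by
          ext s; simp [hk]
        rw [this]
        exact measurableSet_preC_eq Z q _
      · have : {s : ℝ | k ≤ K ∧ preC Φ ε Z s q = block k m} = ∅ := by
          ext s; simp [hk]
        rw [this]
        exact MeasurableSet.empty
    -- consequences of `clM = block`
    have hcl : ∀ l : ML, l.1.1 = τ → clM Φ ε K te (k + m) Z q l = block k m →
        Meet Φ ε te Z l q ∧ k ≤ K ∧ preC Φ ε Z (mT Φ ε Z l) q = block k m := by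
      intro l hl h
      unfold clM at h
      split_ifs at h with hc
      · refine ⟨hc.1, ?_, h⟩
        have hpos : 0 < mT Φ ε Z l := by
          have := hc.1.lt
          rw [hl] at this
          exact hτ.trans this
        have h1 : ¬ K < gasSize Φ ε (k + m) Z (mT Φ ε Z l) q := fun h' =>
          hc.2 ((cfg_inf_iff_size hΦ hε hZ _ _).2 h')
        rw [not_lt] at h1
        have h2 := Finset.card_le_card (preC_subset (Φ := Φ) (ε := ε) Z hpos.le q)
        rw [h, card_block] at h2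
        have h3 : gasSize Φ ε (k + m) Z (mT Φ ε Z l) q =
            (BC (Causal291.Ct (pth Φ ε Z) ε) (mT Φ ε Z l) q).toFinset.card := by
          rw [← ncard_eq_toFinset_card']
          rfl
        rw [← h3] at h2
        exact h2.trans h1
      · exact absurd h.symm (block_ne_empty j)
    have hmain := lintegral_line_firstHit_le hΦ hε hD q (γ := γ) (ρ := ρ) (K := K) (g₀ := g₀)
      (τ := τ) (te := te) hγ hρ hGm
      (H := fun l => if clM Φ ε K te (k + m) Z q l = block k m then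
        B k m V w j (mT Φ ε Z l) else 0) ?_ ?_
    · refine hmain.trans (mul_le_mul_right ?_ _)
      exact lintegral_mono_set (Ioc_subset_Ioc_left hτ.le)
    · intro y v n hne
      have h : clM Φ ε K te (k + m) Z q ((τ, (y, v)), n) = block k m := by
        by_contra h
        exact hne (if_neg h)
      obtain ⟨hM, -, -⟩ := hcl _ rfl h
      refine ⟨mT Φ ε Z ((τ, (y, v)), n), ⟨hM.lt, hM.le⟩, ?_⟩
      have := Meet.firstHit hΦ hε hM
      rwa [show lpos ((τ, (y, v)), n) = fun r => y + (r - τ) • v from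
        funext fun r => lpos_eq τ y v n r] at this
    · intro y v n s hs hF
      show (if clM Φ ε K te (k + m) Z q ((τ, (y, v)), n) = block k m then
        B k m V w j (mT Φ ε Z ((τ, (y, v)), n)) else 0) ≤ G s
      split_ifs with h
      · obtain ⟨hM, hk, hpre⟩ := hcl _ rfl h
        have hF' := Meet.firstHit hΦ hε hM
        rw [show lpos ((τ, (y, v)), n) = fun r => y + (r - τ) • v from
          funext fun r => lpos_eq τ y v n r] at hF'
        have hs' : mT Φ ε Z ((τ, (y, v)), n) = s := hF'.unique hF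
        rw [hs'] at hpre ⊢
        rw [hGdef]
        simp only [hk, hpre, and_self, if_true, le_refl]
      · exact bot_le
  -- the sums
  unfold rfl4
  rw [← ENNReal.tsum_mul_left]
  refine ENNReal.tsum_le_tsum fun k => ?_
  rw [mul_left_comm (cFlux g₀ ρ)]
  refine mul_le_mul_right ?_ _
  rw [← lintegral_const_mul' _ _ hC]
  refine lintegral_mono fun V => ?_
  by_cases hV : V ∈ PairExcluded ε k
  swap
  · have h0 : gcWeight f₀ ε k V = 0 := by simp [gcWeight, Set.indicator_of_notMem hV]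
    rw [h0, zero_mul]
    exact bot_le
  rw [mul_left_comm (cFlux g₀ ρ)]
  refine mul_le_mul_right ?_ _
  rw [← gcE_const_mul f₀ ε hC]
  refine gcE_mono f₀ ε fun m w hw => ?_
  rw [mul_left_comm (cFlux g₀ ρ), Finset.mul_sum (Finset.univ : Finset (Fin k)) _ (cFlux g₀ ρ)]
  unfold perpInd
  by_cases hp : Perp ε V w
  · rw [if_pos hp, one_mul, one_mul]
    exact Finset.sum_le_sum fun j _ => key k m V w j hV hw hp
  · rw [if_neg hp, zero_mul, zero_mul]

end Crest.Agent.R122.RedFlux663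

end
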