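import Crest.Agent.R122.H5S6_994
import Crest.Agent.R122.RedFlux_663
import Crest.Agent.R122.PairDefs_292
import Crest.Agent.R122.PairS6_969
import Crest.Agent.R122.EBasic_602
import Crest.Agent.R122.UnwE_410
import Crest.Agent.R122.Simul2_984

-- ▼ part R122/H5Y1_814
section

/-!
Row 122 (helper814), young contacts of SP-B:

* `By0` : young link event of a root line (no tree);
* `vol_young` : `∫_{ℓ : p ∈ By0 ℓ} wG b ≤ C ε² r (1 + |v_e|)`;
* `le_rhs_vel` : marginal bound of a pair law with the velocity weight of the second line.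
-/

set_option autoImplicit false

open MeasureTheory Set Filter
open scoped ENNReal Topology
open Crest.AnalysisR.Kinetic
open Crest.Agent.R122.Kin796 Crest.Agent.R122.Kin796.CTree Crest.Agent.R122.Tree674
open Crest.Agent.R122.SPV994 Crest.Agent.R122.Boost969
open Crest.Agent.R122.Pair292 Crest.Agent.R122.H5994

noncomputable section

namespace Crest.Agent.R122.H5Y814

/-- young link event of a root line -/
def By0 (ε te r : ℝ) (ℓ : PhasePoint) : Set (Lab × LSt) :=
  {p | LinkEv ε te 0 ℓ p.2 ∧ hitT ε ℓ p.2 - sig p.1 < r}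

theorem measurableSet_By0 (ε te r : ℝ) :
    MeasurableSet {q : PhasePoint × (Lab × LSt) | q.2 ∈ By0 ε te r q.1} := by
  have h1 : MeasurableSet {q : PhasePoint × (Lab × LSt) | LinkEv ε te 0 q.1 q.2.2} :=
    measurableSet_linkEv ε te (ℓ := fun q : PhasePoint × (Lab × LSt) => q.1) (a := fun _ => 0)
      (e := fun q => q.2.2) measurable_fst measurable_const measurable_snd.snd
  have h2 : Measurable fun q : PhasePoint × (Lab × LSt) => hitT ε q.1 q.2.2 - sig q.2.1 :=
    (measurable_hitT' ε (ℓ := fun q : PhasePoint × (Lab × LSt) => q.1)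
      (e := fun q => q.2.2) measurable_fst measurable_snd.snd).sub
      (measurable_sig.comp measurable_snd.fst)
  exact mset_ind_lt h1 h2 measurable_const

theorem By0_of {ε te a r : ℝ} {ℓ : PhasePoint} {p : Lab × LSt}
    (h : LinkEv ε te a ℓ p.2 ∧ hitT ε ℓ p.2 - sig p.1 < r) : p ∈ By0 ε te r ℓ :=
  ⟨⟨h.1.1, h.1.2.1, h.1.2.2.1, h.1.2.1, h.1.2.2.2.2⟩, h.2⟩

/-- volume of the entrance cylinder -/
theorem vol_ent {ε : ℝ} (hε : 0 < ε) {v u c₀ : Space3} (hg : v - u ≠ 0) {J : Set ℝ}
    (hJ : MeasurableSet J) :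
    volume {x : Space3 | ‖Flux663.bline (x - c₀, v - u)‖ ≤ ε ∧ OC663.entT ε (x - c₀, v - u) ∈ J} ≤
      ENNReal.ofReal (ε ^ 2) * (ENNReal.ofReal ‖v - u‖ *
        (volume J * volume (Metric.ball (0 : Disc416.Plane) 1))) := by
  have h1 : volume {x : Space3 | ‖Flux663.bline (x - c₀, v - u)‖ < ε ∧
      OC663.entT ε (x - c₀, v - u) ∈ J} = ENNReal.ofReal (ε ^ 2) * (ENNReal.ofReal ‖v - u‖ *
        (volume J * volume (Metric.ball (0 : Disc416.Plane) 1))) := by
    have hF : Measurable (Function.uncurry fun (s : ℝ) (_ : Space3) =>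
        J.indicator (fun _ => (1 : ℝ≥0∞)) s) :=
      (measurable_const.indicator hJ).comp measurable_fst
    have h2 := OC663.lintegral_ent_line hε c₀ hg hF
    have h3 : ∀ s : ℝ, ∫⁻ _b in impactDisc (v - u),
        J.indicator (fun _ => (1 : ℝ≥0∞)) s ∂μHE[2] =
        J.indicator (fun _ => volume (Metric.ball (0 : Disc416.Plane) 1)) s := by
      intro s
      rw [Disc416.lintegral_impactDisc hg, setLIntegral_const]
      by_cases hs : s ∈ J
      · rw [indicator_of_mem hs, indicator_of_mem hs, one_mul]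
      · rw [indicator_of_notMem hs, indicator_of_notMem hs, zero_mul]
    simp only [h3] at h2
    rw [lintegral_indicator hJ, setLIntegral_const] at h2
    rw [mul_comm (volume J)]
    rw [← h2]
    have hms : MeasurableSet {x : Space3 | ‖Flux663.bline (x - c₀, v - u)‖ < ε ∧
      OC663.entT ε (x - c₀, v - u) ∈ J} := by
      have h0 : Measurable (fun x : Space3 => (x - c₀, v - u)) :=
        (measurable_id.sub_const c₀).prodMk measurable_const
      exact (measurableSet_lt (Flux663.measurable_bline.comp h0).norm measurable_const).inter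
        (((OC663.measurable_entT ε).comp h0) hJ)
    rw [← lintegral_indicator_one hms]
    refine lintegral_congr fun x => ?_
    by_cases hx : ‖Flux663.bline (x - c₀, v - u)‖ < ε
    · by_cases hs : OC663.entT ε (x - c₀, v - u) ∈ J
      · rw [if_pos hx, indicator_of_mem hs, indicator_of_mem
          (show x ∈ {x : Space3 | ‖Flux663.bline (x - c₀, v - u)‖ < ε ∧
            OC663.entT ε (x - c₀, v - u) ∈ J} from ⟨hx, hs⟩)]
        rfl
      · rw [if_pos hx, indicator_of_notMem hs, indicator_of_notMem fun hc => hs hc.2]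
    · rw [if_neg hx, indicator_of_notMem fun hc => hx hc.1]
  rw [← h1]
  refine measure_mono_ae ?_
  have hnull : ∀ᵐ x : Space3, ‖Flux663.bline (x - c₀, v - u)‖ ≠ ε := by
    rw [ae_iff]
    simpa using OC663.volume_grazing hg c₀ hε
  filter_upwards [hnull] with x hx hm
  exact ⟨lt_of_le_of_ne hm.1 hx, hm.2⟩

/-- velocity integral of the Gaussian with flux weight -/
def gV (b : ℝ) : ℝ≥0∞ := ∫⁻ v : Space3, wG b v * ENNReal.ofReal (1 + ‖v‖)

/-- constant of `vol_young` -/
def cV (b : ℝ) : ℝ≥0∞ := gV b * volume (Metric.ball (0 : Disc416.Plane) 1)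

theorem measurable_wG (b : ℝ) : Measurable (wG b : Space3 → ℝ≥0∞) := by
  unfold wG
  fun_prop

theorem norm_sub_le_mul (v u : Space3) : ‖v - u‖ ≤ (1 + ‖v‖) * (1 + ‖u‖) := by
  have h1 := norm_sub_le v u
  have h2 := norm_nonneg v
  have h3 := norm_nonneg u
  nlinarith [mul_nonneg h2 h3]

/-- **Volume of the young links.** -/
theorem vol_young {ε te r : ℝ} (hε : 0 < ε) (b : ℝ) {p : Lab × LSt}
    (hs : sig p.1 ≤ p.2.1) :
    ∫⁻ ℓ in {ℓ : PhasePoint | p ∈ By0 ε te r ℓ}, wG b ℓ.2 ≤
      cV b * (ENNReal.ofReal (ε ^ 2) * (ENNReal.ofReal r * ENNReal.ofReal (1 + ‖p.2.2.2‖))) := by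
  set u := p.2.2.2 with hu
  have hms : MeasurableSet {ℓ : PhasePoint | p ∈ By0 ε te r ℓ} :=
    (measurableSet_By0 ε te r).preimage measurable_prodMk_right
  have hwG : Measurable (fun ℓ : PhasePoint => wG b ℓ.2) := (measurable_wG b).comp measurable_snd
  rw [← lintegral_indicator hms]
  have hi := hwG.indicator hms
  rw [show (volume : Measure PhasePoint) = (volume : Measure Space3).prod volume from rfl,
    lintegral_prod_symm _ hi.aemeasurable]
  have key : ∀ v : Space3, ∫⁻ x : Space3,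
      {ℓ : PhasePoint | p ∈ By0 ε te r ℓ}.indicator (fun ℓ => wG b ℓ.2) (x, v) ≤
      (wG b v * ENNReal.ofReal (1 + ‖v‖)) * (volume (Metric.ball (0 : Disc416.Plane) 1) *
        (ENNReal.ofReal (ε ^ 2) * (ENNReal.ofReal r * ENNReal.ofReal (1 + ‖u‖)))) := by
    intro v
    by_cases hg : v - u = 0
    · have h0 : ∀ x : Space3, {ℓ : PhasePoint | p ∈ By0 ε te r ℓ}.indicator
          (fun ℓ => wG b ℓ.2) (x, v) = 0 := by
        intro x
        refine indicator_of_notMem (fun hc => ?_) _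
        exact hc.1.1.1 hg
      simp only [h0, lintegral_zero]
      exact bot_le
    · have h1 : ∀ x : Space3, {ℓ : PhasePoint | p ∈ By0 ε te r ℓ}.indicator
          (fun ℓ => wG b ℓ.2) (x, v) ≤ wG b v *
          {x : Space3 | ‖Flux663.bline (x - posAt 0 p.2, v - u)‖ ≤ ε ∧
            OC663.entT ε (x - posAt 0 p.2, v - u) ∈ Ioo p.2.1 (sig p.1 + r)}.indicator 1 x := by
        intro x
        by_cases hx : (x, v) ∈ {ℓ : PhasePoint | p ∈ By0 ε te r ℓ}
        · rw [indicator_of_mem hx]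
          have h2 : p ∈ By0 ε te r (x, v) := hx
          have h3 : x ∈ {x : Space3 | ‖Flux663.bline (x - posAt 0 p.2, v - u)‖ ≤ ε ∧
              OC663.entT ε (x - posAt 0 p.2, v - u) ∈ Ioo p.2.1 (sig p.1 + r)} := by
            refine ⟨h2.1.1.2, h2.1.2.2.1, ?_⟩
            have h4 : hitT ε (x, v) p.2 - sig p.1 < r := h2.2
            have h5 : hitT ε (x, v) p.2 = OC663.entT ε (x - posAt 0 p.2, v - u) := rfl
            linarith
          rw [indicator_of_mem h3, Pi.one_apply, mul_one]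
        · rw [indicator_of_notMem hx]
          exact bot_le
      have hms2 : MeasurableSet {x : Space3 | ‖Flux663.bline (x - posAt 0 p.2, v - u)‖ ≤ ε ∧
            OC663.entT ε (x - posAt 0 p.2, v - u) ∈ Ioo p.2.1 (sig p.1 + r)} := by
        have h0 : Measurable (fun x : Space3 => (x - posAt 0 p.2, v - u)) :=
          (measurable_id.sub_const _).prodMk measurable_const
        exact (measurableSet_le (Flux663.measurable_bline.comp h0).norm measurable_const).inter
          (((OC663.measurable_entT ε).comp h0) measurableSet_Ioo)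
      calc ∫⁻ x : Space3, {ℓ : PhasePoint | p ∈ By0 ε te r ℓ}.indicator (fun ℓ => wG b ℓ.2) (x, v)
          ≤ ∫⁻ x : Space3, wG b v *
            {x : Space3 | ‖Flux663.bline (x - posAt 0 p.2, v - u)‖ ≤ ε ∧
            OC663.entT ε (x - posAt 0 p.2, v - u) ∈ Ioo p.2.1 (sig p.1 + r)}.indicator 1 x :=
            lintegral_mono h1
        _ = wG b v * volume {x : Space3 | ‖Flux663.bline (x - posAt 0 p.2, v - u)‖ ≤ ε ∧
            OC663.entT ε (x - posAt 0 p.2, v - u) ∈ Ioo p.2.1 (sig p.1 + r)} := by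
            rw [lintegral_const_mul _ (measurable_one.indicator hms2),
              lintegral_indicator_one hms2]
        _ ≤ wG b v * (ENNReal.ofReal (ε ^ 2) * (ENNReal.ofReal ‖v - u‖ *
            (volume (Ioo p.2.1 (sig p.1 + r)) * volume (Metric.ball (0 : Disc416.Plane) 1)))) :=
            mul_le_mul' le_rfl (vol_ent hε hg measurableSet_Ioo)
        _ ≤ wG b v * (ENNReal.ofReal (ε ^ 2) *
            ((ENNReal.ofReal (1 + ‖v‖) * ENNReal.ofReal (1 + ‖u‖)) *
            (ENNReal.ofReal r * volume (Metric.ball (0 : Disc416.Plane) 1)))) := by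
            have e1 : ENNReal.ofReal ‖v - u‖ ≤
                ENNReal.ofReal (1 + ‖v‖) * ENNReal.ofReal (1 + ‖u‖) := by
              rw [← ENNReal.ofReal_mul (by positivity)]
              exact ENNReal.ofReal_le_ofReal (norm_sub_le_mul v u)
            have e2 : volume (Ioo p.2.1 (sig p.1 + r)) ≤ ENNReal.ofReal r := by
              rw [Real.volume_Ioo]
              exact ENNReal.ofReal_le_ofReal (by linarith)
            gcongr
        _ = _ := by ring
  refine (lintegral_mono key).trans ?_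
  rw [lintegral_mul_const]
  · unfold cV gV
    exact le_of_eq (by ring)
  · exact (measurable_wG b).mul (by fun_prop)

/-! ### Marginal bound with the velocity of the second line -/

/-- velocity weight of the second line, born before the horizon -/
def vI (t' : ℝ) (z : LSt) : ℝ≥0∞ := if z.1 ≤ t' then ENNReal.ofReal (1 + ‖z.2.2‖) else 0

theorem measurable_vI (t' : ℝ) : Measurable (vI t') := by
  unfold vI
  exact Measurable.ite (measurableSet_le measurable_fst measurable_const) (by fun_prop)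
    measurable_const

/-- **Marginal bound**, with the velocity of the second line. -/
theorem le_rhs_vel {P : PPar} {Ξ ν : Measure (Lab × LSt)} {c : ℝ≥0∞} (h : PX P Ξ ν c)
    (hW : GoodW P) {F : ML × ℝ → ℝ≥0∞} (hF : Measurable F) :
    ∫⁻ p, F (p.1.1, p.1.2.1) * vI P.t' p.2 ∂ν ≤
      volume (Metric.ball (0 : Space3) 1) * (2 * (c * P.rhs F)) := by
  have hF' : Measurable fun p : Lab × LSt => F (p.1.1, p.1.2.1) := hF.comp (by fun_prop)
  have hm : Measurable fun p : Lab × LSt => F (p.1.1, p.1.2.1) * vI P.t' p.2 :=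
    hF'.mul ((measurable_vI P.t').comp measurable_snd)
  have hwm : Measurable fun p : Lab × LSt =>
      F (p.1.1, p.1.2.1) * (P.lam₁ ^ p.1.2.2 * P.W p.2) := by
    refine hF'.mul (Measurable.mul ?_ (P.hW.comp measurable_snd))
    exact (Measurable.of_discrete (f := fun n : ℕ => P.lam₁ ^ n)).comp (by fun_prop)
  calc ∫⁻ p, F (p.1.1, p.1.2.1) * vI P.t' p.2 ∂ν
      ≤ ∫⁻ p, avgL sig (fun p => F (p.1.1, p.1.2.1) * vI P.t' p.2) p ∂Ξ := h.spr _ hm
    _ ≤ ∫⁻ p, (volume (Metric.ball (0 : Space3) 1) * 2) *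
          (F (p.1.1, p.1.2.1) * (P.lam₁ ^ p.1.2.2 * P.W p.2)) ∂Ξ := by
        refine lintegral_mono fun p => ?_
        unfold avgL
        calc ∫⁻ u in Metric.ball (0 : Space3) 1,
              F (p.1.1, p.1.2.1) * vI P.t' (gal (sig p.1) u p.2)
            ≤ ∫⁻ _u in Metric.ball (0 : Space3) 1, F (p.1.1, p.1.2.1) * (2 * P.W p.2) := by
              refine setLIntegral_mono' measurableSet_ball fun u hu => ?_
              refine mul_le_mul' le_rfl ?_
              unfold vI gal
              simp only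
              split_ifs with hp
              · have h2 := hW.weight p.2 hp u (by simpa using hu)
                have h3 : (1 : ℝ≥0∞) + ENNReal.ofReal ‖p.2.2.2 + u‖ ≤ 2 * P.W p.2 := by
                  simpa using h2
                rwa [ENNReal.ofReal_add (by norm_num) (norm_nonneg _), ENNReal.ofReal_one]
              · exact bot_le
          _ = (volume (Metric.ball (0 : Space3) 1) * 2) * (F (p.1.1, p.1.2.1) * P.W p.2) := by
              rw [setLIntegral_const]
              ring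
          _ ≤ _ := by
              refine mul_le_mul' le_rfl (mul_le_mul' le_rfl ?_)
              exact le_mul_of_one_le_left' (one_le_pow_of_one_le' P.hlam₁ _)
    _ = (volume (Metric.ball (0 : Space3) 1) * 2) * ∫⁻ p,
          F (p.1.1, p.1.2.1) * (P.lam₁ ^ p.1.2.2 * P.W p.2) ∂Ξ := lintegral_const_mul _ hwm
    _ ≤ (volume (Metric.ball (0 : Space3) 1) * 2) * (c * P.rhs F) :=
        mul_le_mul_right (h.marg F hF) _
    _ = _ := by ring

end Crest.Agent.R122.H5Y814

end
end

-- ▼ part R122/RedFlux6_663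

/-!
# Row 122 (helper663): flux of errors for pair laws (helper292's `StmtRF6a`, `StmtRF6`)

* `hT` : first hitting time (after its birth) of the `ε`-ball around a fixed path by a free line.
* `pair_firstHit_le` : a functional of the pair supported on first hits of a fixed path by the second
  line.
* `rf6a`, `rf6` : `StmtRF6a`, `StmtRF6`.
-/

set_option autoImplicit false

open MeasureTheory Set Filter
open scoped ENNReal Classical Topology
open Crest.AnalysisR.Kinetic
open Crest.Agent.R122.Kin796 Crest.Agent.R122.GC311 Crest.Agent.R122.Flow671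
open Crest.Agent.R122.EDefs602 Crest.Agent.R122.Loc45 Crest.Agent.R122.OC663
open Crest.Agent.R122.InEq2 Crest.Agent.R122.Relabel674 Crest.Agent.R122.Causal291
open Crest.Agent.R122.EBasic602 Crest.Agent.R122.RedFlux663
open Crest.Agent.R122.Boost969 Crest.Agent.R122.Contact969 Crest.Agent.R122.PairS969
open Crest.Agent.R122.Omega969
open Crest.Agent.R122.Pair292 hiding ML
open Crest.Agent.R122.OneC285 (RF MeasRF rfl4 lpos)

noncomputable section

namespace Crest.Agent.R122.RedFlux6

open PairD292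

/-! ### First hitting time of a fixed path -/

/-- Times after the birth of the line at which it is within `ε` of the path (or `≥ te + 1`). -/
def hS (te ε : ℝ) (y : ℝ → Space3) (z : LSt) : Set ℝ :=
  {r | max z.1 0 < r ∧ (dist (posAt r z) (y r) ≤ ε ∨ te + 1 ≤ r)}

/-- First hitting time. -/
def hT (te ε : ℝ) (y : ℝ → Space3) (z : LSt) : ℝ := sInf (hS te ε y z)

variable {te ε : ℝ} {y : ℝ → Space3}

theorem hS_nonempty (te ε : ℝ) (y : ℝ → Space3) (z : LSt) : (hS te ε y z).Nonempty := by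
  refine ⟨max (max z.1 0 + 1) (te + 1), ?_, Or.inr (le_max_right _ _)⟩
  exact lt_of_lt_of_le (by linarith) (le_max_left _ _)

theorem hS_bddBelow (te ε : ℝ) (y : ℝ → Space3) (z : LSt) : BddBelow (hS te ε y z) :=
  ⟨0, fun _ hr => (le_max_right _ _).trans hr.1.le⟩

theorem measurable_hT (hy : Continuous y) (te ε : ℝ) : Measurable (hT te ε y) := by
  refine measurable_of_Iio fun t => ?_
  have key : hT te ε y ⁻¹' Iio t = ⋃ n : ℕ, {z : LSt | ∃ r : Icc (0 : ℝ) t,
      (max z.1 0 + 1 / ((n : ℝ) + 1) ≤ r ∧ (r : ℝ) + 1 / ((n : ℝ) + 1) ≤ t) ∧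
      (dist (posAt r z) (y r) ≤ ε ∨ te + 1 ≤ (r : ℝ))} := by
    ext z
    simp only [mem_preimage, mem_Iio, mem_iUnion, mem_ofPred_eq]
    constructor
    · intro h
      obtain ⟨r, hr, hrt⟩ := exists_lt_of_csInf_lt (hS_nonempty te ε y z) h
      have h1 : 0 < min (r - max z.1 0) (t - r) := lt_min (sub_pos.2 hr.1) (sub_pos.2 hrt)
      obtain ⟨n, hn⟩ := exists_nat_one_div_lt h1
      have h2 := hn.trans_le (min_le_left _ _)
      have h3 := hn.trans_le (min_le_right _ _)
      have h4 : 0 ≤ r := (le_max_right z.1 0).trans hr.1.le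
      exact ⟨n, ⟨r, h4, hrt.le⟩, ⟨by linarith, by linarith⟩, hr.2⟩
    · rintro ⟨n, r, ⟨h1, h2⟩, h3⟩
      have hn : (0 : ℝ) < 1 / ((n : ℝ) + 1) := by positivity
      have hmem : (r : ℝ) ∈ hS te ε y z := ⟨by linarith, h3⟩
      exact lt_of_le_of_lt (csInf_le (hS_bddBelow te ε y z) hmem) (by linarith)
  rw [key]
  refine MeasurableSet.iUnion fun n => ?_
  have hcl : IsClosed {q : LSt × Icc (0 : ℝ) t |
      (max q.1.1 0 + 1 / ((n : ℝ) + 1) ≤ (q.2 : ℝ) ∧ (q.2 : ℝ) + 1 / ((n : ℝ) + 1) ≤ t) ∧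
      (dist (posAt q.2 q.1) (y q.2) ≤ ε ∨ te + 1 ≤ (q.2 : ℝ))} := by
    have hp : Continuous fun q : LSt × Icc (0 : ℝ) t => posAt (q.2 : ℝ) q.1 := by
      unfold posAt
      fun_prop
    have hyc : Continuous fun q : LSt × Icc (0 : ℝ) t => y (q.2 : ℝ) := by fun_prop
    have c1 : IsClosed {q : LSt × Icc (0 : ℝ) t |
        max q.1.1 0 + 1 / ((n : ℝ) + 1) ≤ (q.2 : ℝ)} :=
      isClosed_le (by fun_prop) (by fun_prop)
    have c2 : IsClosed {q : LSt × Icc (0 : ℝ) t | (q.2 : ℝ) + 1 / ((n : ℝ) + 1) ≤ t} :=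
      isClosed_le (by fun_prop) continuous_const
    have c3 : IsClosed {q : LSt × Icc (0 : ℝ) t | dist (posAt q.2 q.1) (y q.2) ≤ ε} :=
      isClosed_le (hp.dist hyc) continuous_const
    have c4 : IsClosed {q : LSt × Icc (0 : ℝ) t | te + 1 ≤ (q.2 : ℝ)} :=
      isClosed_le continuous_const (by fun_prop)
    exact (c1.inter c2).inter (c3.union c4)
  have h2 := isClosedMap_fst_of_compactSpace (X := LSt) (Y := Icc (0 : ℝ) t) _ hcl
  have h3 : {z : LSt | ∃ r : Icc (0 : ℝ) t,
      (max z.1 0 + 1 / ((n : ℝ) + 1) ≤ r ∧ (r : ℝ) + 1 / ((n : ℝ) + 1) ≤ t) ∧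
      (dist (posAt r z) (y r) ≤ ε ∨ te + 1 ≤ (r : ℝ))} = Prod.fst '' {q : LSt × Icc (0 : ℝ) t |
      (max q.1.1 0 + 1 / ((n : ℝ) + 1) ≤ (q.2 : ℝ) ∧ (q.2 : ℝ) + 1 / ((n : ℝ) + 1) ≤ t) ∧
      (dist (posAt q.2 q.1) (y q.2) ≤ ε ∨ te + 1 ≤ (q.2 : ℝ))} := by
    ext z
    simp only [mem_image, mem_ofPred_eq, Prod.exists, exists_and_right, exists_eq_right]
  rw [h3]
  exact h2.measurableSet

/-- At the hitting time the line enters the ball. -/
theorem entr_hT (hy : Continuous y) {z : LSt} (h0 : 0 < z.1) (h1 : z.1 < hT te ε y z)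
    (h2 : hT te ε y z ≤ te) : Entr (fun s => y s - posAt s z) ε 0 (hT te ε y z) := by
  set s := hT te ε y z with hs
  have hmax : max z.1 0 = z.1 := max_eq_left h0.le
  have hp : Continuous fun r : ℝ => posAt r z := by unfold posAt; fun_prop
  have hd : Continuous fun r : ℝ => dist (posAt r z) (y r) := hp.dist hy
  have hbef : ∀ r ∈ Ioo z.1 s, ε < dist (posAt r z) (y r) := by
    intro r hr
    by_contra hle
    have hmem : r ∈ hS te ε y z := ⟨by rw [hmax]; exact hr.1, Or.inl (not_lt.1 hle)⟩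
    exact absurd (csInf_le (hS_bddBelow te ε y z) hmem) (not_le.2 hr.2)
  have hge : ε ≤ dist (posAt s z) (y s) := by
    have h3 : s ∈ closure (Ioo z.1 s) := by
      rw [closure_Ioo h1.ne]
      exact right_mem_Icc.2 h1.le
    exact closure_minimal (fun r hr => (hbef r hr).le) (isClosed_le continuous_const hd) h3
  have hle : dist (posAt s z) (y s) ≤ ε := by
    by_contra hgt
    rw [not_le] at hgt
    have hev : ∀ᶠ r in 𝓝 s, ε < dist (posAt r z) (y r) := hd.continuousAt.eventually (lt_mem_nhds hgt)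
    obtain ⟨δ, hδ, hball⟩ := Metric.eventually_nhds_iff.1 hev
    obtain ⟨r, hr, hrs⟩ := exists_lt_of_csInf_lt (hS_nonempty te ε y z)
      (show sInf (hS te ε y z) < s + min δ (1 / 2) from by
        have : 0 < min δ (1 / 2 : ℝ) := lt_min hδ (by norm_num)
        have h4 : sInf (hS te ε y z) = s := rfl
        linarith)
    have hsr : s ≤ r := csInf_le (hS_bddBelow te ε y z) hr
    have h5 : r < s + δ := hrs.trans_le (by linarith [min_le_left δ (1 / 2 : ℝ)])
    have h6 : r < s + 1 / 2 := hrs.trans_le (by linarith [min_le_right δ (1 / 2 : ℝ)])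
    rcases hr.2 with h7 | h7
    · have := hball (y := r) (by rw [Real.dist_eq, abs_of_nonneg (by linarith)]; linarith)
      exact absurd h7 (not_le.2 this)
    · linarith
  have e : ∀ r, ‖(0 : Space3) - (y r - posAt r z)‖ = dist (posAt r z) (y r) := by
    intro r
    rw [dist_eq_norm, zero_sub, neg_sub]
  refine ⟨?_, z.1, h1, fun r hr => ?_⟩
  · rw [e]; exact le_antisymm hle hge
  · show ε < ‖(0 : Space3) - (y r - posAt r z)‖
    rw [e]
    exact hbef r hr

/-- The hitting time of a first hit. -/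
theorem hT_eq {z : LSt} (h0 : 0 < z.1) {s : ℝ} (hs : s ≤ te)
    (h : FirstHit ε (fun r => posAt r z) y z.1 s) : hT te ε y z = s := by
  have hmax : max z.1 0 = z.1 := max_eq_left h0.le
  have hmem : s ∈ hS te ε y z := ⟨by rw [hmax]; exact h.1, Or.inl (by
    rw [dist_eq_norm]; exact h.2.1.le)⟩
  refine le_antisymm (csInf_le (hS_bddBelow te ε y z) hmem)
    (le_csInf (hS_nonempty te ε y z) fun r hr => ?_)
  by_contra hlt
  rw [not_le] at hlt
  have h1 : z.1 < r := by rw [← hmax]; exact hr.1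
  rcases hr.2 with h2 | h2
  · rw [dist_eq_norm] at h2
    exact absurd (h.2.2 r ⟨h1, hlt⟩) (not_lt.2 h2)
  · linarith

/-! ### The line measure (copied from `LinkS6_969`, helper969) -/

section lines

variable {γ : ℝ → ℝ} {ρ : ℝ≥0∞} {K : ℕ} {T : ℝ}

/-- the mass of the line measure per unit volume, birth times in `S` -/
theorem lineM_rho_le (hγ : Measurable γ) {g : ℝ} (hg : ∀ τ ∈ Ioc 0 T, g ≤ γ τ) {S : Set ℝ}
    (hS : MeasurableSet S) :
    ∫⁻ l, rho0 (posd l) * S.indicator 1 l.1.1 ∂lineM γ ρ K T ≤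
      volume (Ioc 0 T ∩ S) * ((1 - ρ)⁻¹ * ∫⁻ v : Space3, Kin796.wG g v) := by
  have hF : Measurable (fun l : ML => rho0 (posd l) * S.indicator (1 : ℝ → ℝ≥0∞) l.1.1) :=
    (measurable_rho0.comp measurable_posd).mul
      ((measurable_one.indicator hS).comp (measurable_fst.comp measurable_fst))
  rw [lintegral_lineM hγ hF]
  have h1 : ∀ (τ : ℝ) (v : Space3), ∫⁻ y : Space3, ∑' n : ℕ, markW ρ K n *
      (rho0 (posd ((τ, (y, v)), n)) * S.indicator 1 ((((τ, (y, v)), n) : ML)).1.1) =
      S.indicator 1 τ * ∑' n : ℕ, markW ρ K n := by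
    intro τ v
    have h2 : ∀ y : Space3, ∑' n : ℕ, markW ρ K n *
        (rho0 (posd ((τ, (y, v)), n)) * S.indicator 1 ((((τ, (y, v)), n) : ML)).1.1) =
        (S.indicator 1 τ * ∑' n : ℕ, markW ρ K n) * rho0 y := by
      intro y
      have h3 : ∀ n : ℕ, markW ρ K n *
          (rho0 (posd ((τ, (y, v)), n)) * S.indicator 1 ((((τ, (y, v)), n) : ML)).1.1) =
          markW ρ K n * (S.indicator 1 τ * rho0 y) := by
        intro n
        change markW ρ K n * (rho0 y * S.indicator 1 τ) = _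
        ring
      simp only [h3]
      rw [ENNReal.tsum_mul_right]
      ring
    simp only [h2]
    rw [lintegral_const_mul _ measurable_rho0, lintegral_rho0, mul_one]
  simp only [h1]
  calc ∫⁻ τ in Ioc 0 T, (∫⁻ v : Space3, Kin796.wG (γ τ) v *
        (S.indicator 1 τ * ∑' n : ℕ, markW ρ K n))
      ≤ ∫⁻ τ in Ioc 0 T, S.indicator 1 τ * ((1 - ρ)⁻¹ * ∫⁻ v : Space3, Kin796.wG g v) := by
        refine setLIntegral_mono' measurableSet_Ioc fun τ hτ => ?_
        have hm : Measurable (fun v : Space3 => Kin796.wG (γ τ) v) := by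
          unfold Kin796.wG
          exact ENNReal.measurable_ofReal.comp (Continuous.measurable (by fun_prop))
        rw [lintegral_mul_const _ hm]
        calc (∫⁻ v : Space3, Kin796.wG (γ τ) v) * (S.indicator 1 τ * ∑' n : ℕ, markW ρ K n)
            ≤ (∫⁻ v : Space3, Kin796.wG g v) * (S.indicator 1 τ * (1 - ρ)⁻¹) := by
              refine mul_le_mul' (lintegral_mono fun v => ?_) (mul_le_mul_right
                (tsum_markW_le K) _)
              unfold Kin796.wG
              refine ENNReal.ofReal_le_ofReal (Real.exp_le_exp.2 ?_)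
              have := mul_le_mul_of_nonneg_right (hg τ hτ) (sq_nonneg ‖v‖)
              linarith
          _ = _ := by ring
    _ = (∫⁻ τ in Ioc 0 T, S.indicator (1 : ℝ → ℝ≥0∞) τ) *
          ((1 - ρ)⁻¹ * ∫⁻ v : Space3, Kin796.wG g v) :=
        lintegral_mul_const _ (measurable_one.indicator hS)
    _ = _ := by
        rw [setLIntegral_indicator hS]
        simp only [Pi.one_apply, lintegral_one, Measure.restrict_apply MeasurableSet.univ,
          univ_inter]
        rw [inter_comm]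

/-- local mass constant of the line measure -/
def Cline (ρ : ℝ≥0∞) (g T : ℝ) : ℝ≥0∞ :=
  (1 + ENNReal.ofReal T) * ((1 - ρ)⁻¹ * ∫⁻ v : Space3, Kin796.wG g v)

theorem Cline_ne_top {ρ : ℝ≥0∞} (hρ : ρ < 1) {g : ℝ} (hg : 0 < g) (T : ℝ) :
    Cline ρ g T ≠ ∞ := by
  unfold Cline
  refine ENNReal.mul_ne_top (by finiteness) (ENNReal.mul_ne_top ?_ ?_)
  · exact ENNReal.inv_ne_top.2 (tsub_pos_of_lt hρ).ne'
  · have h : ∀ v : Space3, Kin796.wG g v = Kin416.gau g v := by
      intro v
      unfold Kin796.wG Kin416.gau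
      rw [neg_mul]
    simp only [h]
    exact (Kin416.lintegral_gau_lt_top hg).ne

theorem lineM_rho (hγ : Measurable γ) {g : ℝ} (hg : ∀ τ ∈ Ioc 0 T, g ≤ γ τ) :
    ∫⁻ l, rho0 (posd l) ∂lineM γ ρ K T ≤ Cline ρ g T := by
  have h := lineM_rho_le (ρ := ρ) (K := K) hγ hg MeasurableSet.univ
  simp only [indicator_univ, Pi.one_apply, mul_one, inter_univ, Real.volume_Ioc, sub_zero] at h
  refine h.trans ?_
  unfold Cline
  exact mul_le_mul_left le_add_self _

end lines

/-! ### Pair laws -/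

/-- Constant of the flux inequality for pair laws. -/
def cPair (Q : EPar) (g : ℝ) : ℝ≥0∞ :=
  (sphM univ * (volume (Metric.ball (0 : Space3) 1) * 2)) *
    ((1 + ENNReal.ofReal Q.te) * Cline Q.ρ g Q.te)

theorem cPair_ne_top {Q : EPar} {g : ℝ} (hg : 0 < g) (hρ : Q.ρ < 1) : cPair Q g ≠ ∞ := by
  unfold cPair
  refine ENNReal.mul_ne_top (ENNReal.mul_ne_top (measure_ne_top _ _)
    (ENNReal.mul_ne_top measure_ball_lt_top.ne (by norm_num))) (ENNReal.mul_ne_top (by finiteness)
    (Cline_ne_top hρ hg _))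

/-- **Flux of the first hits of a fixed path by the second line of a pair law.** -/
theorem pair_firstHit_le {Q : EPar} {PP : ℕ → PPar} (hPP : PPOk Q PP) (hγm : Measurable Q.γ)
    {g : ℝ} (hg : ∀ τ ∈ Ioc 0 Q.te, g ≤ Q.γ τ) (hε : 0 < ε) {K : ℕ}
    {Ξ ν : Measure (Lab × LSt)} {c : ℝ≥0∞} (h : PX (PP K) Ξ ν c) {y' : ℝ → Space3}
    (hy : Continuous y) (hy' : Measurable y')
    (hyd : ∀ s ∈ Ioc 0 Q.te, HasDerivAt y (y' s) s) {G : ℝ → ℝ≥0∞} (hG : Measurable G)
    {H : Lab × LSt → ℝ≥0∞}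
    (hH : ∀ᵐ θ ∂ν, H θ ≠ 0 → 0 < θ.2.1 ∧ ∃ s ≤ Q.te,
      FirstHit ε (fun r => posAt r θ.2) y θ.2.1 s ∧ H θ ≤ G s) :
    ∫⁻ θ, H θ ∂ν ≤ cPair Q g * (c * ∫⁻ s in Ioc 0 Q.te,
      ENNReal.ofReal (ε ^ 2 * (1 + ‖y' s‖)) * G s) := by
  have hℓe : (PP K).ℓ = lineM Q.γ Q.ρ K Q.te := hPP.ell K
  have ht' : (PP K).t' = Q.te := hPP.hor K
  have : SFinite (PP K).ℓ := by rw [hℓe]; infer_instance
  set T : Lab × LSt → ℝ := fun p => hT Q.te ε y p.2 with hTdef
  have hTm : Measurable T := (measurable_hT hy Q.te ε).comp measurable_snd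
  set X : Set (Lab × LSt) := {p | 0 < p.2.1 ∧ p.2.1 < T p ∧ T p ≤ Q.te} with hXdef
  have hXm : MeasurableSet X := by
    have m1 : Measurable fun p : Lab × LSt => p.2.1 := by fun_prop
    exact ((measurableSet_lt measurable_const m1).inter ((measurableSet_lt m1 hTm).inter
      (measurableSet_le hTm measurable_const)))
  have hX : EntrX y 0 Q.te ε (PP K).t' X T := by
    refine ⟨hXm, hTm, fun p hp => ⟨hp.1.trans hp.2.1, hp.2.2⟩, fun p hp => ?_, fun p hp => ?_⟩
    · exact entr_hT hy hp.1 hp.2.1 hp.2.2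
    · rw [ht']; exact hp.2.1.le.trans hp.2.2
  -- the majorant
  have hle : ∫⁻ θ, H θ ∂ν ≤ ∫⁻ p in X, 1 * G (T p) ∂ν := by
    rw [← lintegral_indicator hXm]
    refine lintegral_mono_ae ?_
    filter_upwards [hH] with θ hθ
    by_cases hz : H θ = 0
    · rw [hz]; exact bot_le
    obtain ⟨h0, s, hs, hF, hle⟩ := hθ hz
    have hTs : T θ = s := hT_eq h0 hs hF
    have hmem : θ ∈ X := ⟨h0, by rw [hTs]; exact hF.1, by rw [hTs]; exact hs⟩
    rw [indicator_of_mem hmem, one_mul, hTs]
    exact hle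
  refine hle.trans ?_
  have hY := PairS969.PX.Y6 h (y := y) (y' := y') (a := 0) (b := Q.te) (X := X) (T := T) hε hX hy.measurable hy'
    hyd (ψ := fun _ => 1) measurable_const (φ := fun q => G q.2) (hG.comp measurable_snd)
    (fun _ _ _ _ => rfl) (Cw := 2) (fun z hz u hu => by
      rw [ht'] at hz
      refine le_trans ?_ (mul_le_mul_right (hPP.vel K z hz) 2)
      rw [one_mul]
      have h1 : ‖z.2.2 + u‖ ≤ ‖z.2.2‖ + 1 := (norm_add_le _ _).trans (by linarith)
      calc 1 + ENNReal.ofReal ‖z.2.2 + u‖ = ENNReal.ofReal (1 + ‖z.2.2 + u‖) := by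
            rw [ENNReal.ofReal_add zero_le_one (norm_nonneg _), ENNReal.ofReal_one]
        _ ≤ ENNReal.ofReal (2 * (1 + ‖z.2.2‖)) := by
            refine ENNReal.ofReal_le_ofReal ?_
            nlinarith [norm_nonneg z.2.2]
        _ = 2 * ENNReal.ofReal (1 + ‖z.2.2‖) := by
            rw [ENNReal.ofReal_mul (by norm_num), ENNReal.ofReal_ofNat])
  refine hY.trans ?_
  -- the right side
  have hR : ∀ s, (PP K).rhs (fun q => rho0 (posd q.1) * G s) ≤
      ((1 + ENNReal.ofReal Q.te) * Cline Q.ρ g Q.te) * G s := by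
    intro s
    have hm : Measurable fun l : ML => rho0 (posd l) := measurable_rho0.comp measurable_posd
    have h1 : ∫⁻ l, rho0 (posd l) ∂(PP K).ℓ ≤ Cline Q.ρ g Q.te := by
      rw [hℓe]
      exact lineM_rho hγm hg
    unfold PPar.rhs
    simp only [setLIntegral_const, Real.volume_Icc, sub_zero, ht']
    rw [lintegral_mul_const _ hm]
    have h2 : ∫⁻ l, rho0 (posd l) * G s * ENNReal.ofReal Q.te ∂(PP K).ℓ =
        (∫⁻ l, rho0 (posd l) ∂(PP K).ℓ) * (G s * ENNReal.ofReal Q.te) := by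
      rw [← lintegral_mul_const _ hm]
      exact lintegral_congr fun l => mul_assoc _ _ _
    rw [h2]
    calc (∫⁻ l, rho0 (posd l) ∂(PP K).ℓ) * G s +
          (∫⁻ l, rho0 (posd l) ∂(PP K).ℓ) * (G s * ENNReal.ofReal Q.te)
        ≤ Cline Q.ρ g Q.te * G s + Cline Q.ρ g Q.te * (G s * ENNReal.ofReal Q.te) := by gcongr
      _ = _ := by ring
  have hdm : Measurable fun s => (1 + ENNReal.ofReal ‖y' s‖) * G s :=
    (hy'.norm.ennreal_ofReal.const_add 1).mul hG
  calc (ENNReal.ofReal (ε ^ 2) * (sphM univ * (volume (Metric.ball (0 : Space3) 1) * (2 * c)))) *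
        ∫⁻ s in Ioc 0 Q.te, (1 + ENNReal.ofReal ‖y' s‖) *
          (PP K).rhs (fun q => rho0 (posd q.1) * G s)
      ≤ (ENNReal.ofReal (ε ^ 2) * (sphM univ * (volume (Metric.ball (0 : Space3) 1) * (2 * c)))) *
        ∫⁻ s in Ioc 0 Q.te, ((1 + ENNReal.ofReal Q.te) * Cline Q.ρ g Q.te) *
          ((1 + ENNReal.ofReal ‖y' s‖) * G s) := by
        refine mul_le_mul_right (lintegral_mono fun s => ?_) _
        calc (1 + ENNReal.ofReal ‖y' s‖) * (PP K).rhs (fun q => rho0 (posd q.1) * G s)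
            ≤ (1 + ENNReal.ofReal ‖y' s‖) *
              (((1 + ENNReal.ofReal Q.te) * Cline Q.ρ g Q.te) * G s) :=
              mul_le_mul_right (hR s) _
          _ = _ := by ring
    _ = cPair Q g * (c * (ENNReal.ofReal (ε ^ 2) *
          ∫⁻ s in Ioc 0 Q.te, (1 + ENNReal.ofReal ‖y' s‖) * G s)) := by
        rw [lintegral_const_mul _ hdm, cPair]
        ring
    _ = _ := by
        rw [← lintegral_const_mul _ hdm]
        congr 2
        refine lintegral_congr fun s => ?_
        rw [ENNReal.ofReal_mul (by positivity), ENNReal.ofReal_add zero_le_one (norm_nonneg _),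
          ENNReal.ofReal_one, mul_assoc]

/-! ### First contacts of the second line -/

variable {Φ : Space3 → ℝ} {n : ℕ} {w : Config n} {θ : Lab × LSt} {K : ℕ} {T : ℝ} {i : Fin n}

theorem lpos_eL (θ : Lab × LSt) (r : ℝ) : lpos (eL θ) r = posAt r θ.2 := by
  simp only [lpos, back, eL, posAt]
  rw [sub_smul]
  abel

/-- The clean gas particle met first, not influenced by `d`, is hit for the first time on its path in
the gas alone. -/
theorem CMeet2.firstHit (hΦ : AdmissiblePotential Φ) (hε : 0 < ε) (hw : w ∈ PairExcluded ε n)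
    (hL : OkL K θ) (hW : OkW Φ ε w θ) (h : CMeet2 Φ ε K T w θ i) :
    FirstHit ε (fun r => posAt r θ.2) (fun s => (flow Φ ε s w i).1) θ.2.1 (tC Φ ε T w θ) := by
  set s := tC Φ ε T w θ with hs
  have he0 : 0 < θ.2.1 := hL.e0
  have hlt : θ.2.1 < s := h.lt
  have hle : s ≤ T := h.le
  have hs0 : 0 < s := he0.trans hlt
  -- the paths agree up to time `s`
  have hpath : ∀ r, 0 ≤ r → r ≤ s → (Zd w θ).path Φ ε r (Sum.inl i) = flow Φ ε r w i := by
    intro r h0 hr
    have hnf : ¬ (MW.cfg w).Fut Φ ε (MW.line (dL θ)) r i := fun hf => h.nofut (fut_mono hr hf)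
    have e1 := MW.path_eq_of_not_fut hΦ hε (Unw410.cfg_ok hΦ hε hw) (A := MW.line (dL θ)) hW.1 h0 hnf
    have e2 : (MW.cfg w).path Φ ε r i = flow Φ ε r w i := by rw [cfg_path hΦ hε w]; rfl
    rw [← e2, e1]
    rfl
  have hcont : Continuous fun s => flow Φ ε s w := flow_continuous_time hΦ hε w
  have hy : Continuous fun s => (flow Φ ε s w i).1 := ((continuous_apply i).comp hcont).fst
  have hp : Continuous fun r : ℝ => posAt r θ.2 := by unfold posAt; fun_prop
  -- the first contact
  have hfirst : ∀ r ∈ Ioo θ.2.1 s, ¬ ∃ j, CtL Φ ε (Zd w θ) (eL θ) r j := by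
    intro r hr hex
    have hrT : r ≤ T := hr.2.le.trans hle
    have h1 : s = sInf {r | r ∈ Icc θ.2.1 T ∧ ∃ j, CtL Φ ε (Zd w θ) (eL θ) r j} := by
      have hex' : ∃ r ∈ Icc (eL θ).1.1 T, ∃ j, CtL Φ ε (Zd w θ) (eL θ) r j :=
        ⟨r, ⟨hr.1.le, hrT⟩, hex⟩
      show mT2 Φ ε T (Zd w θ) (eL θ) = _
      unfold mT2 MeasE416.first
      rw [if_pos hex']
      rfl
    have h2 : s ≤ r := by
      rw [h1]
      exact csInf_le ⟨θ.2.1, fun x hx => hx.1.1⟩ ⟨⟨hr.1.le, hrT⟩, hex⟩
    exact absurd h2 (not_le.2 hr.2)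
  have hbef : ∀ r ∈ Ioo θ.2.1 s, ε < ‖posAt r θ.2 - (flow Φ ε r w i).1‖ := by
    intro r hr
    by_contra hnl
    rw [not_lt, ← dist_eq_norm] at hnl
    have hr0 : 0 < r := he0.trans hr.1
    refine hfirst r hr ⟨Sum.inl i, ?_, hr.1.le, Or.inr hr.1, ?_⟩
    · exact hr0.le
    · rw [lpos_eL, hpath r hr0.le hr.2.le]
      exact hnl
  refine ⟨hlt, le_antisymm ?_ ?_, hbef⟩
  · have h1 := h.ct.2.2.2
    rw [lpos_eL, hpath s hs0.le le_rfl, dist_eq_norm] at h1
    exact h1
  · have hc : Continuous fun r => ‖posAt r θ.2 - (flow Φ ε r w i).1‖ := (hp.sub hy).norm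
    have h1 : s ∈ closure (Ioo θ.2.1 s) := by
      rw [closure_Ioo hlt.ne]
      exact right_mem_Icc.2 hlt.le
    exact closure_minimal (fun r hr => (hbef r hr).le) (isClosed_le continuous_const hc) h1


/-! ### Mecke'd form -/

/-- Null sets of configurations split in two blocks. -/
theorem ae_append {k m : ℕ} {p : Config (k + m) → Prop} (h : ∀ᵐ Z : Config (k + m), p Z) :
    ∀ᵐ V : Config k, ∀ᵐ w : Config m, p (Fin.append V w) := by
  set M : Set (Config (k + m)) := toMeasurable volume {Z | ¬ p Z} with hM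
  have hM0 : volume M = 0 := by
    rw [hM, measure_toMeasurable]
    exact h
  have hMm : MeasurableSet M := measurableSet_toMeasurable _ _
  have h1 : ∫⁻ Z : Config (k + m), M.indicator (fun _ => (1 : ℝ≥0∞)) Z = 0 := by
    rw [lintegral_indicator_const hMm, hM0, mul_zero]
  rw [lintegral_append _ (measurable_const.indicator hMm)] at h1
  have hm2 : Measurable fun V : Config k => ∫⁻ w : Config m,
      M.indicator (fun _ => (1 : ℝ≥0∞)) (Fin.append V w : Config (k + m)) :=
    Measurable.lintegral_prod_right' (f := fun p : Config k × Config m =>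
      M.indicator (fun _ => (1 : ℝ≥0∞)) (Fin.append p.1 p.2 : Config (k + m)))
      ((measurable_const.indicator hMm).comp measurable_append)
  rw [lintegral_eq_zero_iff hm2] at h1
  filter_upwards [h1] with V hV
  have hV' : ∫⁻ w : Config m,
      M.indicator (fun _ => (1 : ℝ≥0∞)) (Fin.append V w : Config (k + m)) = 0 := hV
  have hm3 : Measurable fun w : Config m =>
      M.indicator (fun _ => (1 : ℝ≥0∞)) (Fin.append V w : Config (k + m)) :=
    (measurable_const.indicator hMm).comp (measurable_append_right V)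
  rw [lintegral_eq_zero_iff hm3] at hV'
  filter_upwards [hV'] with w hw
  by_contra hp
  have hmem : (Fin.append V w : Config (k + m)) ∈ M := subset_toMeasurable _ _ hp
  rw [Pi.zero_apply, indicator_of_mem hmem] at hw
  exact one_ne_zero hw

/-- A clean particle which is not influenced by `d` has a small past in the gas alone. -/
theorem CMeet2.card_le (hΦ : AdmissiblePotential Φ) (hε : 0 < ε) (hw : w ∈ PairExcluded ε n)
    (hL : OkL K θ) (hW : OkW Φ ε w θ) (h : CMeet2 Φ ε K T w θ i) :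
    (preC Φ ε w (tC Φ ε T w θ) i).card ≤ K := by
  set s := tC Φ ε T w θ with hs
  have hs0 : 0 < s := hL.e0.trans h.lt
  have h1 : ¬ (Zd w θ).Inf Φ ε K s (Sum.inl i) := fun hi => h.clean ⟨_, h.ct, hi⟩
  have hH := MW.histEq_of_not_fut hΦ hε (Unw410.cfg_ok hΦ hε hw) (A := MW.line (dL θ)) hW.1 hs0.le
    h.nofut
  have h2 : (MW.cfg w).Inf Φ ε K s i ↔ (Zd w θ).Inf Φ ε K s (Sum.inl i) :=
    (MW.com_add (MW.cfg w) (MW.line (dL θ))).coh hH
  have h3 : ¬ K < gasSize Φ ε n w s i := fun h' =>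
    h1 (h2.1 ((cfg_inf_iff_size hΦ hε hw _ _).2 h'))
  rw [not_lt] at h3
  have h4 := Finset.card_le_card (preC_subset (Φ := Φ) (ε := ε) w hs0.le i)
  have h5 : gasSize Φ ε n w s i = (BC (Causal291.Ct (pth Φ ε w) ε) s i).toFinset.card := by
    rw [← ncard_eq_toFinset_card']
    rfl
  rw [← h5] at h4
  exact h4.trans h3

/-- `gcE` and constants (possibly infinite). -/
theorem gcE_const_mul_meas {f₀ : PhasePoint → ℝ} (hf : Measurable f₀) (ε : ℝ) (κ : ℝ≥0∞)
    {F : (n : ℕ) → Config n → ℝ≥0∞} (hF : ∀ n, Measurable (F n)) :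
    gcE f₀ ε (fun n Z => κ * F n Z) = κ * gcE f₀ ε F := by
  unfold gcE
  have h1 : ∀ n : ℕ, activity ε ^ n / (n.factorial : ℝ≥0∞) *
      ∫⁻ Z : Config n, gcWeight f₀ ε n Z * (κ * F n Z) =
      κ * (activity ε ^ n / (n.factorial : ℝ≥0∞) * ∫⁻ Z : Config n, gcWeight f₀ ε n Z * F n Z) := by
    intro n
    have : ∀ Z : Config n, gcWeight f₀ ε n Z * (κ * F n Z) = κ * (gcWeight f₀ ε n Z * F n Z) :=
      fun Z => by ring
    have hm : Measurable fun Z : Config n => gcWeight f₀ ε n Z * F n Z :=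
      (measurable_gcWeight hf ε n).mul (hF n)
    simp_rw [this]
    rw [lintegral_const_mul κ hm]
    ring
  simp_rw [h1]
  rw [ENNReal.tsum_mul_left]
  ring

/-- The real flux functional. -/
def XF (Φ : Space3 → ℝ) (ε : ℝ) (K : ℕ) (te : ℝ) (B : RF) (k m : ℕ) (V : Config k) (w : Config m)
    (j : Fin k) : ℝ≥0∞ :=
  ∫⁻ s in Ioc 0 te,
    ENNReal.ofReal (ε ^ 2 * (1 + ‖(flow Φ ε s (Fin.append V w) (Fin.castAdd m j)).2‖)) *
      (if k ≤ K ∧ preC Φ ε (Fin.append V w) s (Fin.castAdd m j) = block k m then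
        B k m V w j s else 0)

theorem measurable_XF (hΦ : AdmissiblePotential Φ) (hε : 0 < ε) (K : ℕ) (te : ℝ) {B : RF}
    (hB : MeasRF B) (k m : ℕ) (j : Fin k) :
    Measurable fun p : Config k × Config m => XF Φ ε K te B k m p.1 p.2 j := by
  unfold XF
  refine Measurable.lintegral_prod_right' (f := fun q : (Config k × Config m) × ℝ =>
    ENNReal.ofReal (ε ^ 2 * (1 + ‖(flow Φ ε q.2 (Fin.append q.1.1 q.1.2) (Fin.castAdd m j)).2‖)) *
      (if k ≤ K ∧ preC Φ ε (Fin.append q.1.1 q.1.2) q.2 (Fin.castAdd m j) = block k m then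
        B k m q.1.1 q.1.2 j q.2 else 0)) ?_
  have hZ : Measurable fun q : (Config k × Config m) × ℝ =>
      (Fin.append q.1.1 q.1.2 : Config (k + m)) := measurable_append.comp measurable_fst
  have hfl : Measurable fun q : (Config k × Config m) × ℝ =>
      flow Φ ε q.2 (Fin.append q.1.1 q.1.2 : Config (k + m)) :=
    (measurable_flow_joint hΦ hε).comp (measurable_snd.prodMk hZ)
  refine Measurable.mul ?_ (Measurable.ite ?_ ?_ measurable_const)
  · have h1 : Measurable fun q : (Config k × Config m) × ℝ =>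
        (flow Φ ε q.2 (Fin.append q.1.1 q.1.2 : Config (k + m)) (Fin.castAdd m j)).2 :=
      ((measurable_pi_apply _).comp hfl).snd
    exact ((h1.norm.const_add 1).const_mul _).ennreal_ofReal
  · have h2 : {q : (Config k × Config m) × ℝ |
        k ≤ K ∧ preC Φ ε (Fin.append q.1.1 q.1.2) q.2 (Fin.castAdd m j) = block k m} =
        {_q | k ≤ K} ∩ ⋂ x : Fin (k + m), {q : (Config k × Config m) × ℝ |
          x ∈ preC Φ ε (Fin.append q.1.1 q.1.2) q.2 (Fin.castAdd m j) ↔ x ∈ block k m} := by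
      ext q
      simp only [mem_inter_iff, mem_ofPred_eq, mem_iInter, Finset.ext_iff]
    rw [h2]
    refine (MeasurableSet.const _).inter (MeasurableSet.iInter fun x => ?_)
    have h3 := MeasE416.measurableSet_mem_preC hΦ hε hZ
      (σ := fun q : (Config k × Config m) × ℝ => q.2) measurable_snd (Fin.castAdd m j) x
    by_cases hx : x ∈ block k m
    · simp only [hx, iff_true]
      exact h3
    · simp only [hx, iff_false]
      exact h3.compl
  · have h4 : Measurable fun q : (Config k × Config m) × ℝ => (q.1.1, (q.1.2, q.2)) := by fun_prop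
    exact (hB k m j).comp h4

set_option maxHeartbeats 400000 in
/-- Fixed gas and block. -/
theorem rf6_key (hΦ : AdmissiblePotential Φ) {Q : EPar} {PP : ℕ → PPar} (hPP : PPOk Q PP)
    (hγm : Measurable Q.γ) {g : ℝ} (hg : ∀ τ ∈ Ioc 0 Q.te, g ≤ Q.γ τ) (K : ℕ) (hε : 0 < ε)
    {Ξ ν : Measure (Lab × LSt)} {c : ℝ≥0∞} (h : PX (PP K) Ξ ν c) {B : RF} (hB : MeasRF B)
    (k m : ℕ) (V : Config k) (w : Config m) (j : Fin k)
    (hZ : (Fin.append V w : Config (k + m)) ∈ PairExcluded ε (k + m))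
    (hokZ : ∀ᵐ θ ∂ν, OkL K θ → OkW Φ ε (Fin.append V w : Config (k + m)) θ) :
    ∫⁻ θ, (if OkL K θ ∧ clM2 Φ ε K Q.te (k + m) (Fin.append V w) (Fin.castAdd m j) θ = block k m
        then B k m V w j (tC Φ ε Q.te (Fin.append V w) θ) else 0) ∂ν ≤
      cPair Q g * c * XF Φ ε K Q.te B k m V w j := by
  set Z : Config (k + m) := Fin.append V w with hZdef
  set q : Fin (k + m) := Fin.castAdd m j with hq
  have hD : Z ∈ Dom Φ (Fin (k + m)) := pairExcluded_subset_Dom hε _ hZ
  have hcont : Continuous fun s => flow Φ ε s Z := flow_continuous_time hΦ hε Z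
  have hy : Continuous fun s => (flow Φ ε s Z q).1 := ((continuous_apply q).comp hcont).fst
  have hy' : Continuous fun s => (flow Φ ε s Z q).2 := ((continuous_apply q).comp hcont).snd
  set G : ℝ → ℝ≥0∞ := fun s => if k ≤ K ∧ preC Φ ε Z s q = block k m then B k m V w j s else 0
    with hGdef
  have hBm : Measurable fun s => B k m V w j s :=
    (hB k m j).comp (measurable_const.prodMk (measurable_const.prodMk measurable_id))
  have hGm : Measurable G := by
    refine Measurable.ite ?_ hBm measurable_const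
    by_cases hk : k ≤ K
    · have : {s : ℝ | k ≤ K ∧ preC Φ ε Z s q = block k m} =
          {s : ℝ | preC Φ ε Z s q = block k m} := by
        ext s; simp [hk]
      rw [this]
      exact measurableSet_preC_eq Z q _
    · have : {s : ℝ | k ≤ K ∧ preC Φ ε Z s q = block k m} = ∅ := by
        ext s; simp [hk]
      rw [this]
      exact MeasurableSet.empty
  rw [mul_assoc]
  refine pair_firstHit_le hPP hγm hg hε h (y := fun s => (flow Φ ε s Z q).1)
    (y' := fun s => (flow Φ ε s Z q).2) hy hy'.measurable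
    (fun s _ => hasDerivAt_pos_flow hΦ hε hD s q) hGm ?_
  filter_upwards [hokZ] with θ hθ hne
  have hc : OkL K θ ∧ clM2 Φ ε K Q.te (k + m) Z q θ = block k m := by
    by_contra hc
    exact hne (if_neg hc)
  have hcl := hc.2
  unfold clM2 at hcl
  split_ifs at hcl with hM'
  swap
  · exact absurd hcl.symm (block_ne_empty j)
  have hM : CMeet2 Φ ε K Q.te Z θ q := by first | exact hM' | exact hM'.1
  have hcard := CMeet2.card_le hΦ hε hZ hc.1 (hθ hc.1) hM
  rw [hcl, RedFlux663.card_block] at hcard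
  refine ⟨hc.1.e0, tC Φ ε Q.te Z θ, hM.le, CMeet2.firstHit hΦ hε hZ hc.1 (hθ hc.1) hM, ?_⟩
  rw [if_pos hc, hGdef]
  simp only [hcard, hcl, and_self, if_true, le_refl]

set_option maxHeartbeats 400000 in
/-- **`StmtRF6`** (flux of the errors of the reduction, pair laws). -/
theorem rf6 (hΦ : AdmissiblePotential Φ) {f₀ : PhasePoint → ℝ} (hf : Measurable f₀) {Q : EPar}
    (PP : ℕ → PPar) (hγm : Measurable Q.γ) {g : ℝ} (hg : ∀ τ ∈ Ioc 0 Q.te, g ≤ Q.γ τ) :
    StmtRF6 Φ f₀ Q PP (cPair Q g) := by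
  intro hPP K ε hε Ξ ν c h hok B hB
  have := h.sfν
  -- almost every block
  have hae : ∀ k : ℕ, ∀ᵐ V : Config k, ∀ m : ℕ, ∀ᵐ w : Config m, ∀ᵐ θ ∂ν,
      (Fin.append V w : Config (k + m)) ∈ PairExcluded ε (k + m) → OkL K θ →
        OkW Φ ε (Fin.append V w : Config (k + m)) θ := fun k =>
    ae_all_iff.2 fun m => ae_append (Measure.ae_ae_of_ae_prod (hok (k + m)))
  -- the sums
  have hXm : ∀ (k m : ℕ), Measurable fun p : Config k × Config m =>
      perpInd ε p.1 p.2 * ∑ j : Fin k, XF Φ ε K Q.te B k m p.1 p.2 j := fun k m =>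
    (measurable_perpInd ε k m).mul (Finset.measurable_sum _ fun j _ => measurable_XF hΦ hε K Q.te hB k m j)
  have hRF : rfl4 Φ f₀ ε K Q.te B = ∑' k : ℕ, activity ε ^ k / (k.factorial : ℝ≥0∞) *
      ∫⁻ V : Config k, gcWeight f₀ ε k V *
        gcE f₀ ε (fun m w => perpInd ε V w * ∑ j : Fin k, XF Φ ε K Q.te B k m V w j) := by
    simp only [rfl4, XF]
  rw [← mul_assoc, hRF, ← ENNReal.tsum_mul_left]
  refine ENNReal.tsum_le_tsum fun k => ?_
  rw [mul_left_comm (cPair Q g * c)]
  refine mul_le_mul_right ?_ _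
  have hVm : Measurable fun V : Config k => gcWeight f₀ ε k V *
      gcE f₀ ε (fun m w => perpInd ε V w * ∑ j : Fin k, XF Φ ε K Q.te B k m V w j) :=
    (measurable_gcWeight hf ε k).mul (BadHit370.measurable_gcE_param hf ε
      (F := fun m (V : Config k) (w : Config m) => perpInd ε V w *
        ∑ j : Fin k, XF Φ ε K Q.te B k m V w j) fun m => hXm k m)
  rw [← lintegral_const_mul _ hVm]
  refine lintegral_mono_ae ?_
  filter_upwards [hae k] with V hV
  by_cases hVe : V ∈ PairExcluded ε k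
  swap
  · have h0 : gcWeight f₀ ε k V = 0 := by simp [gcWeight, Set.indicator_of_notMem hVe]
    rw [h0, zero_mul]
    exact bot_le
  rw [mul_left_comm (cPair Q g * c)]
  refine mul_le_mul_right ?_ _
  have hwm : ∀ m, Measurable fun w : Config m =>
      perpInd ε V w * ∑ j : Fin k, XF Φ ε K Q.te B k m V w j := by
    intro m
    exact (measurable_perpInd_right ε m V).mul (Finset.measurable_sum _ fun j _ =>
      Measurable.of_uncurry_left (f := fun (V : Config k) (w : Config m) =>
        XF Φ ε K Q.te B k m V w j) (measurable_XF hΦ hε K Q.te hB k m j))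
  rw [← gcE_const_mul_meas hf ε (cPair Q g * c) hwm]
  refine Simul984.gcE_mono_ae f₀ ε fun m => ?_
  filter_upwards [hV m] with w hw hwe
  show perpInd ε V w * _ ≤ cPair Q g * c * (perpInd ε V w * ∑ j : Fin k, XF Φ ε K Q.te B k m V w j)
  rw [mul_left_comm (cPair Q g * c), Finset.mul_sum (Finset.univ : Finset (Fin k)) _ (cPair Q g * c)]
  unfold perpInd
  by_cases hp : Perp ε V w
  · rw [if_pos hp, one_mul, one_mul]
    have hZ : (Fin.append V w : Config (k + m)) ∈ PairExcluded ε (k + m) :=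
      (append_mem_pairExcluded_iff V w).2 ⟨hVe, hwe, hp⟩
    refine Finset.sum_le_sum fun j _ => rf6_key hΦ hPP hγm hg K hε h hB k m V w j hZ ?_
    filter_upwards [hw] with θ hθ using hθ hZ
  · rw [if_neg hp, zero_mul, zero_mul]

end Crest.Agent.R122.RedFlux6

end
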