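import Crest.Agent.R122.Mark3_307
import Crest.Agent.R122.TreeDom_974
import Crest.Agent.R122.TreeLines_335
import Crest.Agent.R122.EBasic_602

-- ▼ part R122/Mark4_307
section

/-!
Row 122, block H7b (helper307), part 4: marks and exit lines.

* `exIdx : Mk P → Idx P` is a bijection onto the non-root particles (`sum_exIdx`).
* `exl` = (release time, state at the release time) of the marked particle, in terms of `fin`, `prot`.
* `reroot_ex` : the re-rooting identity with the exit line as free parameter.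
* energy, box and weight in re-rooted parameters.
-/

set_option autoImplicit false
set_option synthInstance.maxSize 1024

open MeasureTheory Set Filter Topology
open Crest.AnalysisR.Kinetic
open scoped ENNReal

noncomputable section

namespace Crest.Agent.R122.Mark307

open Kin796 Kin796.CTree Disc416 Scat818 Flow671 Flux663 Tree674 TreeDom974 PathFlow968
open TreeLines335 EDefs602
open scoped Classical

variable {Φ : Space3 → ℝ}

/-! ### Marks -/

theorem exIdx_ne_root : {P : CTree} → (m : Mk P) → exIdx m ≠ root P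
  | _, .top l r => Sum.inr_ne_inl
  | _, .inl m r => fun h => exIdx_ne_root m (Sum.inl.inj h)
  | _, .inr l m => Sum.inr_ne_inl

theorem exIdx_injective : {P : CTree} → Function.Injective (exIdx (P := P))
  | _, .top l r, .top _ _, _ => rfl
  | _, .top l r, .inl m _, h => absurd h Sum.inr_ne_inl
  | _, .top l r, .inr _ m, h => absurd (Sum.inr.inj h).symm (exIdx_ne_root m)
  | _, .inl m r, .top _ _, h => absurd h Sum.inl_ne_inr
  | _, .inl m r, .inl m' _, h => by
      rw [exIdx_injective (Sum.inl.inj h)]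
  | _, .inl m r, .inr _ m', h => absurd h Sum.inl_ne_inr
  | _, .inr l m, .top _ _, h => absurd (Sum.inr.inj h) (exIdx_ne_root m)
  | _, .inr l m, .inl m' _, h => absurd h Sum.inr_ne_inl
  | _, .inr l m, .inr _ m', h => by
      rw [exIdx_injective (Sum.inr.inj h)]

theorem exIdx_surj : (P : CTree) → (i : Idx P) → i ≠ root P → ∃ m : Mk P, exIdx m = i
  | leaf, i, h => absurd rfl h
  | node l r, Sum.inl i, h => by
      obtain ⟨m, hm⟩ := exIdx_surj l i fun h' => h (by rw [h']; rfl)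
      exact ⟨.inl m r, congrArg Sum.inl hm⟩
  | node l r, Sum.inr i, h => by
      by_cases hi : i = root r
      · exact ⟨.top l r, congrArg Sum.inr hi.symm⟩
      · obtain ⟨m, hm⟩ := exIdx_surj r i hi
        exact ⟨.inr l m, congrArg Sum.inr hm⟩



instance instFiniteMk (P : CTree) : Finite (Mk P) := Finite.of_injective _ (exIdx_injective (P := P))

instance instFintypeMk (P : CTree) : Fintype (Mk P) := Fintype.ofFinite _



/-- mark of the exit line = number of particles below its last node -/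
def mkN : {P : CTree} → Mk P → ℕ
  | _, .top l r => (node l r).leaves
  | _, .inl m _ => mkN m
  | _, .inr _ m => mkN m

theorem mk_exIdx : {P : CTree} → (m : Mk P) → TreeLines335.mk P (exIdx m) = mkN m
  | _, .top l r => by simp [exIdx, TreeLines335.mk, mkN]
  | _, .inl m r => by
      simp only [exIdx, TreeLines335.mk, mkN, Sum.elim_inl, if_neg (exIdx_ne_root m)]
      exact mk_exIdx m
  | _, .inr l m => by
      simp only [exIdx, TreeLines335.mk, mkN, Sum.elim_inr, if_neg (exIdx_ne_root m)]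
      exact mk_exIdx m

/-- release time of the marked particle -/
def exT : {P : CTree} → Mk P → Par P → ℝ
  | _, .top _ _ => fun p => p.1.1
  | _, .inl m _ => fun p => exT m p.2.1
  | _, .inr _ m => fun p => exT m p.2.2

theorem rel_exIdx : {P : CTree} → (m : Mk P) → (p : Par P) →
    TreeLines335.rel P p (exIdx m) = exT m p
  | _, .top l r, p => by simp [exIdx, TreeLines335.rel, exT]
  | _, .inl m r, p => by
      simp only [exIdx, TreeLines335.rel, exT, Sum.elim_inl, if_neg (exIdx_ne_root m)]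
      exact rel_exIdx m p.2.1
  | _, .inr l m, p => by
      simp only [exIdx, TreeLines335.rel, exT, Sum.elim_inr, if_neg (exIdx_ne_root m)]
      exact rel_exIdx m p.2.2

theorem exl_eq : {P : CTree} → (m : Mk P) → (ε : ℝ) → (ℓ : PhasePoint) → (p : Par P) →
    exl Φ ε m ℓ p = (exT m p, onLine (fin Φ ε P ℓ p (exIdx m)) (exT m p))
  | _, .top l r, ε, ℓ, p => by
      simp only [exl, exT, exIdx, fin, Sum.elim_inr, Function.update_self]
  | _, .inl m r, ε, ℓ, p => by
      have h := exl_eq m ε (inMap Φ ε ℓ p.1).1 p.2.1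
      simp only [exl, exT, exIdx, fin, Sum.elim_inl]
      rw [h, Function.update_of_ne (exIdx_ne_root m)]
  | _, .inr l m, ε, ℓ, p => by
      have h := exl_eq m ε (inMap Φ ε ℓ p.1).2 p.2.2
      simp only [exl, exT, exIdx, fin, Sum.elim_inr]
      rw [h, Function.update_of_ne (exIdx_ne_root m)]

/-- the marked line of 335 -/
theorem lineML_exIdx {P : CTree} (m : Mk P) (ε : ℝ) (z : PhasePoint × Par P) :
    lineML Φ ε P z (exIdx m) = (exl Φ ε m z.1 z.2, mkN m) := by
  unfold lineML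
  rw [rel_exIdx, mk_exIdx, exl_eq]

/-- exit line of the partner of a node -/
def topX (ε : ℝ) (z : PhasePoint × NodeP) : BLine := (z.2.1, onLine (outLine ε z.1 z.2) z.2.1)

theorem measurable_topX (ε : ℝ) : Measurable (topX ε) := by
  have h0 : Measurable fun z : PhasePoint × NodeP => (nb z.1.2 z.2, ng z.1.2 z.2) :=
    measurable_nbng.comp measurable_zv
  have h1 : Measurable fun z : PhasePoint × NodeP =>
      entrancePoint (nb z.1.2 z.2) (ng z.1.2 z.2) := measurable_entrancePoint.comp h0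
  have h3 : Measurable fun z : PhasePoint × NodeP => z.1.1 + z.2.1 • z.1.2 := by fun_prop
  have h4 : Measurable fun z : PhasePoint × NodeP => z.2.1 • z.2.2.1 := by fun_prop
  have h5 : Measurable fun z : PhasePoint × NodeP => z.2.2.1 := by fun_prop
  have h6 := (h3.add (h1.const_smul ε)).sub h4
  exact measurable_snd.fst.prodMk ((h6.add h4).prodMk h5)

/-- measurable version of `exl` -/
def exM (Φ : Space3 → ℝ) (ε : ℝ) : {P : CTree} → Mk P → PhasePoint × Par P → BLine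
  | _, .top _ _ => fun z => topX ε (z.1, z.2.1)
  | _, .inl m _ => fun z => exM Φ ε m ((inM Φ ε (z.1, z.2.1)).1, z.2.2.1)
  | _, .inr _ m => fun z => exM Φ ε m ((inM Φ ε (z.1, z.2.1)).2, z.2.2.2)

theorem exM_eq {ε : ℝ} : {P : CTree} → (m : Mk P) → {z : PhasePoint × Par P} →
    Adm Φ P z.1.2 z.2 → exM Φ ε m z = exl Φ ε m z.1 z.2
  | _, .top l r, z, h => rfl
  | _, .inl m r, z, h => by
      have h1 : inM Φ ε (z.1, z.2.1) = inMap Φ ε z.1 z.2.1 := inM_of_adm (z := (z.1, z.2.1)) h.1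
      simp only [exM, exl, h1]
      exact exM_eq m h.2.1
  | _, .inr l m, z, h => by
      have h1 : inM Φ ε (z.1, z.2.1) = inMap Φ ε z.1 z.2.1 := inM_of_adm (z := (z.1, z.2.1)) h.1
      simp only [exM, exl, h1]
      exact exM_eq m h.2.2

theorem measurable_exM (hΦ : AdmissiblePotential Φ) (ε : ℝ) {P : CTree} (m : Mk P) :
    Measurable (exM Φ ε m) := by
  induction m with
  | top l r =>
      have h1 : Measurable fun z : PhasePoint × Par (node l r) => (z.1, z.2.1) :=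
        measurable_fst.prodMk ((measurable_par1 l r).comp measurable_snd)
      exact (measurable_topX ε).comp h1
  | @inl l m r ih =>
      have h1 : Measurable fun z : PhasePoint × Par (node l r) => (z.1, z.2.1) :=
        measurable_fst.prodMk ((measurable_par1 l r).comp measurable_snd)
      have h2 : Measurable fun z : PhasePoint × Par (node l r) => z.2.2.1 :=
        (measurable_parL l r).comp measurable_snd
      have h3 : Measurable fun z : PhasePoint × Par (node l r) =>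
          ((inM Φ ε (z.1, z.2.1)).1, z.2.2.1) := (((measurable_inM hΦ ε).comp h1).fst).prodMk h2
      exact ih.comp h3
  | @inr l r m ih =>
      have h1 : Measurable fun z : PhasePoint × Par (node l r) => (z.1, z.2.1) :=
        measurable_fst.prodMk ((measurable_par1 l r).comp measurable_snd)
      have h2 : Measurable fun z : PhasePoint × Par (node l r) => z.2.2.2 :=
        (measurable_parR l r).comp measurable_snd
      have h3 : Measurable fun z : PhasePoint × Par (node l r) =>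
          ((inM Φ ε (z.1, z.2.1)).2, z.2.2.2) := (((measurable_inM hΦ ε).comp h1).snd).prodMk h2
      exact ih.comp h3

/-! ### Facts on the support of `vf` -/

theorem mem_GoodL_of_gL {ε T : ℝ} {z : PhasePoint × NodeP} (h : gL Φ ε T z ≠ 0) :
    z ∈ GoodL Φ ε T := by
  by_contra hc
  exact h (indicator_of_notMem hc _)

theorem mem_GoodR_of_gR {ε T : ℝ} {z : PhasePoint × NodeP} (h : gR Φ ε T z ≠ 0) :
    z ∈ GoodR Φ ε T := by
  by_contra hc
  exact h (indicator_of_notMem hc _)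

theorem topLt_of_topI {P : CTree} {q : ℝ × Par P} (h : topI P q ≠ 0) : TopLt P q.1 q.2 := by
  by_contra hc
  exact h (indicator_of_notMem (show q ∉ {q : ℝ × Par P | TopLt P q.1 q.2} from hc) _)

theorem valid_of_vw {ε T : ℝ} {P : CTree} {z : PhasePoint × Par P} (h : vw Φ ε P T z ≠ 0) :
    Valid Φ ε P T z.1.2 z.2 := by
  by_contra hc
  exact h (vw_of_not_valid hc)

/-- unfolding of the support, `inl` -/
theorem vf_inl_ne {ε T : ℝ} {l : CTree} {m : Mk l} {r : CTree} {d : BLine} {q : Fib m}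
    {a : NodeP} {q' : Par r}
    (h : vf Φ ε T (Mk.inl m r) (d, ((q, (a, q')) : Fib m × (NodeP × Par r))) ≠ 0) :
    vf Φ ε T m (d, q) ≠ 0 ∧ ((psi Φ ε T m (d, q)).1, a) ∈ GoodL Φ ε T ∧
      TopLt l a.1 (psi Φ ε T m (d, q)).2 ∧ TopLt r a.1 q' ∧
      Valid Φ ε r T a.2.1 q' := by
  have h' : vf Φ ε T m (d, q) * (gL Φ ε T ((psi Φ ε T m (d, q)).1, a) *
      ENNReal.ofReal ‖(psi Φ ε T m (d, q)).1.2 - a.2.1‖ *
      topI l (a.1, (psi Φ ε T m (d, q)).2) *
      (topI r (a.1, q') * vw Φ ε r T (inLine ε (psi Φ ε T m (d, q)).1 a, q'))) ≠ 0 := h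
  simp only [mul_ne_zero_iff] at h'
  obtain ⟨h1, ⟨⟨⟨h2, _⟩, h3⟩, h4, h5⟩⟩ := h'
  exact ⟨h1, mem_GoodL_of_gL h2, topLt_of_topI h3, topLt_of_topI h4, valid_of_vw h5⟩

/-- unfolding of the support, `inr` -/
theorem vf_inr_ne {ε T : ℝ} {l : CTree} {r : CTree} {m : Mk r} {d : BLine} {q : Fib m}
    {a : NodeP} {q' : Par l}
    (h : vf Φ ε T (Mk.inr l m) (d, ((q, (a, q')) : Fib m × (NodeP × Par l))) ≠ 0) :
    vf Φ ε T m (d, q) ≠ 0 ∧ ((psi Φ ε T m (d, q)).1, a) ∈ GoodR Φ ε T ∧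
      TopLt r a.1 (psi Φ ε T m (d, q)).2 ∧ TopLt l a.1 q' ∧
      Valid Φ ε l T a.2.1 q' := by
  have h' : vf Φ ε T m (d, q) * (gR Φ ε T ((psi Φ ε T m (d, q)).1, a) *
      ENNReal.ofReal ‖(psi Φ ε T m (d, q)).1.2 - a.2.1‖ *
      topI r (a.1, (psi Φ ε T m (d, q)).2) *
      (topI l (a.1, q') * vw Φ ε l T (inLine ε (psi Φ ε T m (d, q)).1 a, q'))) ≠ 0 := h
  simp only [mul_ne_zero_iff] at h'
  obtain ⟨h1, ⟨⟨⟨h2, _⟩, h3⟩, h4, h5⟩⟩ := h'
  exact ⟨h1, mem_GoodR_of_gR h2, topLt_of_topI h3, topLt_of_topI h4, valid_of_vw h5⟩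

/-- outgoing data of a good incoming pair (first orientation) -/
theorem goodL_spec (hΦ : AdmissiblePotential Φ) {ε : ℝ} (hε : 0 < ε) {T : ℝ}
    {ℓ : PhasePoint} {a : NodeP} (h : (ℓ, a) ∈ GoodL Φ ε T) {o : PhasePoint × NodeP}
    (hoo : outD Φ ε T (ℓ, inLine ε ℓ a) = o) :
    o ∈ Vset Φ ε T ∧ inMap Φ ε o.1 o.2 = (ℓ, inLine ε ℓ a) ∧
      inM Φ ε o = (ℓ, inLine ε ℓ a) ∧ Tree674.sin Φ ε o.1.2 o.2 = a.1 ∧ sinM Φ ε o = a.1 ∧
      ‖o.1.2 - o.2.2.1‖ = ‖ℓ.2 - a.2.1‖ ∧ ‖a.2.2‖ < 1 ∧ ℓ.2 ≠ a.2.1 := by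
  have ho : o ∈ Vset Φ ε T := by rw [← hoo]; exact h.2
  have hA : Adm1 Φ o.1.2 o.2 := ho.1
  have h3 : ‖exitVelocity Φ (nb o.1.2 o.2) (ng o.1.2 o.2)‖ = ‖ng o.1.2 o.2‖ :=
    Scat818.norm_exitVelocity hΦ hA.nb_mem hA.ng_ne
  have hin0 : inMap Φ ε (outD Φ ε T (ℓ, inLine ε ℓ a)).1 (outD Φ ε T (ℓ, inLine ε ℓ a)).2 =
    (ℓ, inLine ε ℓ a) := inMap_outD hΦ hε h.2
  have hin : inMap Φ ε o.1 o.2 = (ℓ, inLine ε ℓ a) := by rw [← hoo]; exact hin0
  have hs0 := sin_of_mem_GoodL hΦ hε h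
  have hs : Tree674.sin Φ ε o.1.2 o.2 = a.1 := by rw [← hoo]; exact hs0
  have h1 := inMap_vel_sub (Φ := Φ) ε o.1 o.2
  rw [hin] at h1
  have h2 : ℓ.2 - a.2.1 = exitVelocity Φ (nb o.1.2 o.2) (ng o.1.2 o.2) := h1
  rw [← h2] at h3
  refine ⟨ho, hin, ?_, hs, ?_, h3.symm, h.1.1, h.1.2⟩
  · rw [inM_of_adm ho.1]; exact hin
  · rw [sinM_of_adm ho.1]; exact hs

/-- outgoing data of a good incoming pair (second orientation) -/
theorem goodR_spec (hΦ : AdmissiblePotential Φ) {ε : ℝ} (hε : 0 < ε) {T : ℝ}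
    {ℓ : PhasePoint} {a : NodeP} (h : (ℓ, a) ∈ GoodR Φ ε T) {o : PhasePoint × NodeP}
    (hoo : outD Φ ε T (inLine ε ℓ a, ℓ) = o) :
    o ∈ Vset Φ ε T ∧ inMap Φ ε o.1 o.2 = (inLine ε ℓ a, ℓ) ∧
      inM Φ ε o = (inLine ε ℓ a, ℓ) ∧ Tree674.sin Φ ε o.1.2 o.2 = a.1 ∧ sinM Φ ε o = a.1 ∧
      ‖o.1.2 - o.2.2.1‖ = ‖ℓ.2 - a.2.1‖ ∧ ‖a.2.2‖ < 1 ∧ ℓ.2 ≠ a.2.1 := by
  have ho : o ∈ Vset Φ ε T := by rw [← hoo]; exact h.2
  have hA : Adm1 Φ o.1.2 o.2 := ho.1
  have h3 : ‖exitVelocity Φ (nb o.1.2 o.2) (ng o.1.2 o.2)‖ = ‖ng o.1.2 o.2‖ :=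
    Scat818.norm_exitVelocity hΦ hA.nb_mem hA.ng_ne
  have hin0 : inMap Φ ε (outD Φ ε T (inLine ε ℓ a, ℓ)).1 (outD Φ ε T (inLine ε ℓ a, ℓ)).2 =
    (inLine ε ℓ a, ℓ) := inMap_outD hΦ hε h.2
  have hin : inMap Φ ε o.1 o.2 = (inLine ε ℓ a, ℓ) := by rw [← hoo]; exact hin0
  have hs0 := sin_of_mem_GoodR hΦ hε h
  have hs : Tree674.sin Φ ε o.1.2 o.2 = a.1 := by rw [← hoo]; exact hs0
  have h1 := inMap_vel_sub (Φ := Φ) ε o.1 o.2
  rw [hin] at h1
  have h2 : a.2.1 - ℓ.2 = exitVelocity Φ (nb o.1.2 o.2) (ng o.1.2 o.2) := h1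
  rw [← h2, norm_sub_rev] at h3
  refine ⟨ho, hin, ?_, hs, ?_, h3.symm, h.1.1, h.1.2⟩
  · rw [inM_of_adm ho.1]; exact hin
  · rw [sinM_of_adm ho.1]; exact hs

/-- **The exit line of the re-rooted tree is the free parameter.** -/
theorem exM_psi (hΦ : AdmissiblePotential Φ) {ε : ℝ} (hε : 0 < ε) (T : ℝ) :
    {P : CTree} → (m : Mk P) → {z : BLine × Fib m} → vf Φ ε T m z ≠ 0 →
    exM Φ ε m (psi Φ ε T m z) = z.1
  | _, .top l r, z, _ => by
      obtain ⟨d, q⟩ := z
      simp only [exM, topX, psi, onLine, outLine, sibLine]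
      refine Prod.ext rfl (Prod.ext ?_ rfl)
      simp only
      module
  | _, .inl (l := l) m r, z, h => by
      obtain ⟨d, (q : Fib m × (NodeP × Par r))⟩ := z
      obtain ⟨q, a, q'⟩ := q
      obtain ⟨h1, h2, -⟩ := vf_inl_ne h
      obtain ⟨-, -, h3, -⟩ := goodL_spec hΦ hε h2 rfl
      have e : exM Φ ε (Mk.inl m r) (psi Φ ε T (Mk.inl m r)
          (d, ((q, (a, q')) : Fib m × (NodeP × Par r)))) =
          exM Φ ε m ((inM Φ ε (outD Φ ε T ((psi Φ ε T m (d, q)).1,
            inLine ε (psi Φ ε T m (d, q)).1 a))).1, (psi Φ ε T m (d, q)).2) := rfl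
      rw [e, h3]
      exact exM_psi hΦ hε T m h1
  | _, .inr l (r := r) m, z, h => by
      obtain ⟨d, (q : Fib m × (NodeP × Par l))⟩ := z
      obtain ⟨q, a, q'⟩ := q
      obtain ⟨h1, h2, -⟩ := vf_inr_ne h
      obtain ⟨-, -, h3, -⟩ := goodR_spec hΦ hε h2 rfl
      have e : exM Φ ε (Mk.inr l m) (psi Φ ε T (Mk.inr l m)
          (d, ((q, (a, q')) : Fib m × (NodeP × Par l)))) =
          exM Φ ε m ((inM Φ ε (outD Φ ε T (inLine ε (psi Φ ε T m (d, q)).1 a,
            (psi Φ ε T m (d, q)).1))).2, (psi Φ ε T m (d, q)).2) := rfl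
      rw [e, h3]
      exact exM_psi hΦ hε T m h1

/-- **Re-rooting at the exit line**, with the exit line as argument of the test function. -/
theorem reroot_ex (hΦ : AdmissiblePotential Φ) {ε : ℝ} (hε : 0 < ε) (T : ℝ) {P : CTree}
    (m : Mk P) {F : BLine × (PhasePoint × Par P) → ℝ≥0∞} (hF : Measurable F) :
    ∫⁻ z : PhasePoint × Par P, vw Φ ε P T z * F (exM Φ ε m z, z) =
      ∫⁻ z : BLine × Fib m, vf Φ ε T m z * F (z.1, psi Φ ε T m z) := by
  have hH : Measurable fun z : PhasePoint × Par P => F (exM Φ ε m z, z) :=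
    hF.comp ((measurable_exM hΦ ε m).prodMk measurable_id)
  rw [reroot hΦ hε T m hH]
  refine lintegral_congr fun z => ?_
  by_cases hz : vf Φ ε T m z = 0
  · rw [hz, zero_mul, zero_mul]
  · rw [exM_psi hΦ hε T m hz]

/-- **The weight in re-rooted parameters.** -/
theorem vf_eq (hΦ : AdmissiblePotential Φ) {ε : ℝ} (hε : 0 < ε) (T : ℝ) :
    {P : CTree} → (m : Mk P) → {z : BLine × Fib m} → vf Φ ε T m z ≠ 0 →
    vf Φ ε T m z = vw Φ ε P T (psi Φ ε T m z)
  | _, .top l r, z, _ => rfl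
  | _, .inl (l := l) m r, z, h => by
      obtain ⟨d, (q : Fib m × (NodeP × Par r))⟩ := z
      obtain ⟨q, a, q'⟩ := q
      obtain ⟨h1, h2, h3, h4, h5⟩ := vf_inl_ne h
      have ih := vf_eq hΦ hε T m h1
      obtain ⟨o, ho⟩ : ∃ o, outD Φ ε T ((psi Φ ε T m (d, q)).1,
        inLine ε (psi Φ ε T m (d, q)).1 a) = o := ⟨_, rfl⟩
      obtain ⟨g1, g2, g3, g4, g5, g6, -⟩ := goodL_spec hΦ hε h2 ho
      have e1 : vf Φ ε T (Mk.inl m r) (d, ((q, (a, q')) : Fib m × (NodeP × Par r))) =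
          vf Φ ε T m (d, q) * (gL Φ ε T ((psi Φ ε T m (d, q)).1, a) *
            ENNReal.ofReal ‖(psi Φ ε T m (d, q)).1.2 - a.2.1‖ *
            topI l (a.1, (psi Φ ε T m (d, q)).2) *
            (topI r (a.1, q') * vw Φ ε r T (inLine ε (psi Φ ε T m (d, q)).1 a, q'))) := rfl
      have e2 : vw Φ ε (node l r) T (o.1, ((o.2, ((psi Φ ε T m (d, q)).2, q')) :
          Par (node l r))) =
          vI Φ ε T o * (ENNReal.ofReal ‖o.1.2 - o.2.2.1‖ *
            ((topI l (sinM Φ ε o, (psi Φ ε T m (d, q)).2) *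
              vw Φ ε l T ((inM Φ ε o).1, (psi Φ ε T m (d, q)).2)) *
            (topI r (sinM Φ ε o, q') * vw Φ ε r T ((inM Φ ε o).2, q')))) :=
        vw_node hε (Φ := Φ) (l := l) (r := r) (T := T) o.1 o.2 (psi Φ ε T m (d, q)).2 q'
      have e3 : psi Φ ε T (Mk.inl m r) (d, ((q, (a, q')) : Fib m × (NodeP × Par r))) =
        (o.1, ((o.2, ((psi Φ ε T m (d, q)).2, q')) : Par (node l r))) := by
        rw [← ho]; rfl
      have e4 : vI Φ ε T o = 1 := by
        unfold vI; rw [indicator_of_mem g1]; rfl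
      have e5 : gL Φ ε T ((psi Φ ε T m (d, q)).1, a) = 1 := by
        unfold gL; rw [indicator_of_mem h2]; rfl
      refine e1.trans (Eq.trans ?_ ((congrArg (vw Φ ε (node l r) T) e3).trans e2).symm)
      rw [ih, e4, g3, g5, g6, e5]
      ring
  | _, .inr l (r := r) m, z, h => by
      obtain ⟨d, (q : Fib m × (NodeP × Par l))⟩ := z
      obtain ⟨q, a, q'⟩ := q
      obtain ⟨h1, h2, h3, h4, h5⟩ := vf_inr_ne h
      have ih := vf_eq hΦ hε T m h1
      obtain ⟨o, ho⟩ : ∃ o, outD Φ ε T (inLine ε (psi Φ ε T m (d, q)).1 a,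
        (psi Φ ε T m (d, q)).1) = o := ⟨_, rfl⟩
      obtain ⟨g1, g2, g3, g4, g5, g6, -⟩ := goodR_spec hΦ hε h2 ho
      have e1 : vf Φ ε T (Mk.inr l m) (d, ((q, (a, q')) : Fib m × (NodeP × Par l))) =
          vf Φ ε T m (d, q) * (gR Φ ε T ((psi Φ ε T m (d, q)).1, a) *
            ENNReal.ofReal ‖(psi Φ ε T m (d, q)).1.2 - a.2.1‖ *
            topI r (a.1, (psi Φ ε T m (d, q)).2) *
            (topI l (a.1, q') * vw Φ ε l T (inLine ε (psi Φ ε T m (d, q)).1 a, q'))) := rfl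
      have e2 : vw Φ ε (node l r) T (o.1, ((o.2, (q', (psi Φ ε T m (d, q)).2)) :
          Par (node l r))) =
          vI Φ ε T o * (ENNReal.ofReal ‖o.1.2 - o.2.2.1‖ *
            ((topI l (sinM Φ ε o, q') * vw Φ ε l T ((inM Φ ε o).1, q')) *
            (topI r (sinM Φ ε o, (psi Φ ε T m (d, q)).2) *
              vw Φ ε r T ((inM Φ ε o).2, (psi Φ ε T m (d, q)).2)))) :=
        vw_node hε (Φ := Φ) (l := l) (r := r) (T := T) o.1 o.2 q' (psi Φ ε T m (d, q)).2
      have e3 : psi Φ ε T (Mk.inr l m) (d, ((q, (a, q')) : Fib m × (NodeP × Par l))) =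
        (o.1, ((o.2, (q', (psi Φ ε T m (d, q)).2)) : Par (node l r))) := by
        rw [← ho]; rfl
      have e4 : vI Φ ε T o = 1 := by
        unfold vI; rw [indicator_of_mem g1]; rfl
      have e5 : gR Φ ε T ((psi Φ ε T m (d, q)).1, a) = 1 := by
        unfold gR; rw [indicator_of_mem h2]; rfl
      refine e1.trans (Eq.trans ?_ ((congrArg (vw Φ ε (node l r) T) e3).trans e2).symm)
      rw [ih, e4, g3, g5, g6, e5]
      ring

end Crest.Agent.R122.Mark307

end
private theorem rz_fb0418ce34 : type_of% @_root_.Crest.Agent.R122.Mark307.exM.eq_def := @_root_.Crest.Agent.R122.Mark307.exM.eq_def -- L152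
private theorem rz_ba604a142b : type_of% @_root_.Crest.Agent.R122.Mark307.exM.eq_1 := @_root_.Crest.Agent.R122.Mark307.exM.eq_1 -- L152
private theorem rz_3aa0f072df : type_of% @_root_.Crest.Agent.R122.Mark307.exT.eq_def := @_root_.Crest.Agent.R122.Mark307.exT.eq_def -- L103
private theorem rz_b8afe95601 : type_of% @_root_.Crest.Agent.R122.Mark307.exT.eq_1 := @_root_.Crest.Agent.R122.Mark307.exT.eq_1 -- L103
private theorem rz_a16154300f : type_of% @_root_.Crest.Agent.R122.Mark307.mkN.eq_def := @_root_.Crest.Agent.R122.Mark307.mkN.eq_def -- L88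
private theorem rz_5bbb07d945 : type_of% @_root_.Crest.Agent.R122.Mark307.mkN.eq_1 := @_root_.Crest.Agent.R122.Mark307.mkN.eq_1 -- L88
end

-- ▼ part R122/Mark5_307

/-!
Row 122, block H7b (helper307), part 5: the crude marked exit bound (MT2), uniform in `ε`.
-/

set_option autoImplicit false
set_option synthInstance.maxSize 1024

open MeasureTheory Set Filter Topology
open Crest.AnalysisR.Kinetic
open scoped ENNReal

noncomputable section

namespace Crest.Agent.R122.Mark307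

open Kin796 Kin796.CTree Disc416 Scat818 Flow671 Flux663 Tree674 TreeDom974 PathFlow968
open TreeLines335 EDefs602 EBasic602
open scoped Classical

variable {Φ : Space3 → ℝ}

/-! ### Energy -/

/-- energy of the fibre variables -/
def fibE : {P : CTree} → (m : Mk P) → Fib m → ℝ
  | _, .top l r => fun q => ‖q.1.1‖ ^ 2 + (nodeE l q.2.1 + nodeE r q.2.2)
  | _, .inl m r => fun q => fibE m q.1 + (‖q.2.1.2.1‖ ^ 2 + nodeE r q.2.2)
  | _, .inr l m => fun q => fibE m q.1 + (‖q.2.1.2.1‖ ^ 2 + nodeE l q.2.2)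


/-- energy at a flipped node -/
theorem energy_flip (hΦ : AdmissiblePotential Φ) {ε : ℝ} {o : PhasePoint × NodeP}
    (ho : Adm1 Φ o.1.2 o.2) {q : PhasePoint × PhasePoint} (hq : inMap Φ ε o.1 o.2 = q) :
    ‖o.1.2‖ ^ 2 + ‖o.2.2.1‖ ^ 2 = ‖q.1.2‖ ^ 2 + ‖q.2.2‖ ^ 2 := by
  have h1 := energy_node hΦ ho
  have h2 : (preV Φ o.1.2 o.2).1 = q.1.2 := by rw [← hq]; rfl
  have h3 : (preV Φ o.1.2 o.2).2 = q.2.2 := by rw [← hq]; rfl
  rw [h2, h3] at h1
  exact h1.symm

/-- **Energy of the re-rooted tree.** -/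
theorem energy_psi (hΦ : AdmissiblePotential Φ) {ε : ℝ} (hε : 0 < ε) (T : ℝ) {P : CTree}
    (m : Mk P) : ∀ {z : BLine × Fib m}, vf Φ ε T m z ≠ 0 →
    ‖(psi Φ ε T m z).1.2‖ ^ 2 + nodeE P (psi Φ ε T m z).2 = ‖z.1.2.2‖ ^ 2 + fibE m z.2 := by
  induction m with
  | top l r =>
      intro z _
      show ‖z.2.1.1‖ ^ 2 + (‖z.1.2.2‖ ^ 2 + (nodeE l z.2.2.1 + nodeE r z.2.2.2)) =
        ‖z.1.2.2‖ ^ 2 + (‖z.2.1.1‖ ^ 2 + (nodeE l z.2.2.1 + nodeE r z.2.2.2))
      ring
  | @inl l m r ih =>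
      intro z h
      obtain ⟨d, (q : Fib m × (NodeP × Par r))⟩ := z
      obtain ⟨q, a, q'⟩ := q
      obtain ⟨h1, h2, -⟩ := vf_inl_ne h
      have ih' := ih h1
      obtain ⟨o, ho⟩ : ∃ o, outD Φ ε T ((psi Φ ε T m (d, q)).1,
        inLine ε (psi Φ ε T m (d, q)).1 a) = o := ⟨_, rfl⟩
      obtain ⟨g1, g2, -⟩ := goodL_spec hΦ hε h2 ho
      have e := energy_flip hΦ g1.1 g2
      have e1 : ‖(psi Φ ε T (Mk.inl m r) (d, ((q, (a, q')) : Fib m × (NodeP × Par r)))).1.2‖ ^ 2 +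
          nodeE (node l r) (psi Φ ε T (Mk.inl m r)
            (d, ((q, (a, q')) : Fib m × (NodeP × Par r)))).2 =
          ‖o.1.2‖ ^ 2 + (‖o.2.2.1‖ ^ 2 + (nodeE l (psi Φ ε T m (d, q)).2 + nodeE r q')) := by
        rw [← ho]; rfl
      refine e1.trans ?_
      have e2 : ‖o.1.2‖ ^ 2 + ‖o.2.2.1‖ ^ 2 = ‖(psi Φ ε T m (d, q)).1.2‖ ^ 2 + ‖a.2.1‖ ^ 2 := e
      have e3 : ‖(psi Φ ε T m (d, q)).1.2‖ ^ 2 + nodeE l (psi Φ ε T m (d, q)).2 =
        ‖d.2.2‖ ^ 2 + fibE m q := ih'
      show _ = ‖d.2.2‖ ^ 2 + (fibE m q + (‖a.2.1‖ ^ 2 + nodeE r q'))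
      linarith
  | @inr l r m ih =>
      intro z h
      obtain ⟨d, (q : Fib m × (NodeP × Par l))⟩ := z
      obtain ⟨q, a, q'⟩ := q
      obtain ⟨h1, h2, -⟩ := vf_inr_ne h
      have ih' := ih h1
      obtain ⟨o, ho⟩ : ∃ o, outD Φ ε T (inLine ε (psi Φ ε T m (d, q)).1 a,
        (psi Φ ε T m (d, q)).1) = o := ⟨_, rfl⟩
      obtain ⟨g1, g2, -⟩ := goodR_spec hΦ hε h2 ho
      have e := energy_flip hΦ g1.1 g2
      have e1 : ‖(psi Φ ε T (Mk.inr l m) (d, ((q, (a, q')) : Fib m × (NodeP × Par l)))).1.2‖ ^ 2 +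
          nodeE (node l r) (psi Φ ε T (Mk.inr l m)
            (d, ((q, (a, q')) : Fib m × (NodeP × Par l)))).2 =
          ‖o.1.2‖ ^ 2 + (‖o.2.2.1‖ ^ 2 + (nodeE l q' + nodeE r (psi Φ ε T m (d, q)).2)) := by
        rw [← ho]; rfl
      refine e1.trans ?_
      have e2 : ‖o.1.2‖ ^ 2 + ‖o.2.2.1‖ ^ 2 = ‖a.2.1‖ ^ 2 + ‖(psi Φ ε T m (d, q)).1.2‖ ^ 2 := e
      have e3 : ‖(psi Φ ε T m (d, q)).1.2‖ ^ 2 + nodeE r (psi Φ ε T m (d, q)).2 =
        ‖d.2.2‖ ^ 2 + fibE m q := ih'
      show _ = ‖d.2.2‖ ^ 2 + (fibE m q + (‖a.2.1‖ ^ 2 + nodeE l q'))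
      linarith

/-! ### Box -/

/-- indicator of the unit disc -/
def disc1 (y : Plane) : ℝ≥0∞ := (Metric.ball (0 : Plane) 1).indicator 1 y

theorem disc1_of {y : Plane} (h : ‖y‖ < 1) : disc1 y = 1 := by
  unfold disc1
  rw [indicator_of_mem (by simpa using h)]
  rfl

theorem measurable_disc1 : Measurable disc1 := measurable_one.indicator measurableSet_ball

/-- indicator: impact parameters in the disc, times in `(0, T)` -/
def fibB (T : ℝ) : {P : CTree} → (m : Mk P) → Fib m → ℝ≥0∞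
  | _, .top l r => fun q => disc1 q.1.2 * (boxI T l q.2.1 * boxI T r q.2.2)
  | _, .inl m r => fun q => fibB T m q.1 * (box1 T q.2.1 * boxI T r q.2.2)
  | _, .inr l m => fun q => fibB T m q.1 * (box1 T q.2.1 * boxI T l q.2.2)

theorem box_of_vf (hΦ : AdmissiblePotential Φ) {ε : ℝ} (hε : 0 < ε) {T T' : ℝ} (hT : T' ≤ T)
    {P : CTree} (m : Mk P) : ∀ {z : BLine × Fib m}, vf Φ ε T' m z ≠ 0 →
    fibB T m z.2 = 1 ∧ 0 < z.1.1 ∧ z.1.1 < T' := by
  induction m with
  | top l r =>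
      intro z h
      have hV : Valid Φ ε (node l r) T' (psi Φ ε T' (Mk.top l r) z).1.2
        (psi Φ ε T' (Mk.top l r) z).2 := valid_of_vw h
      obtain ⟨⟨h1, h2, h3⟩, h4, h5, h6, h7⟩ := hV
      have hs := PathFlow968.sin_le (Φ := Φ) hε.le (psi Φ ε T' (Mk.top l r) z).1.2
        (psi Φ ε T' (Mk.top l r) z).2.1
      have e1 := boxI_of_valid hε.le (T := T) ⟨h2, h6⟩ (hs.trans (h4.le.trans hT))
      have e2 := boxI_of_valid hε.le (T := T) ⟨h3, h7⟩ (hs.trans (h4.le.trans hT))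
      refine ⟨?_, h5.trans_le hs, h4⟩
      show disc1 z.2.1.2 * (boxI T l z.2.2.1 * boxI T r z.2.2.2) = 1
      have e3 : boxI T l z.2.2.1 = 1 := e1
      have e4 : boxI T r z.2.2.2 = 1 := e2
      have e5 : disc1 z.2.1.2 = 1 := disc1_of h1.1
      rw [e3, e4, e5, one_mul, one_mul]
  | @inl l m r ih =>
      intro z h
      obtain ⟨d, (q : Fib m × (NodeP × Par r))⟩ := z
      obtain ⟨q, a, q'⟩ := q
      obtain ⟨h1, h2, h3, h4, h5⟩ := vf_inl_ne h
      obtain ⟨i1, i2, i3⟩ := ih h1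
      obtain ⟨g1, -, -, g4, -, -, g7, -⟩ := goodL_spec hΦ hε h2 rfl
      refine ⟨?_, i2, i3⟩
      have ha0 : 0 < a.1 := by rw [← g4]; exact g1.2.2
      have ha1 : a.1 < T' := by
        rw [← g4]
        exact (PathFlow968.sin_le hε.le _ _).trans_lt g1.2.1
      have e1 : box1 T a = 1 := box1_of ⟨ha0, ha1.trans_le hT⟩ g7
      have e2 : boxI T r q' = 1 := boxI_of_valid hε.le h5 hT
      have e3 : fibB T m q = 1 := i1
      show fibB T m q * (box1 T a * boxI T r q') = 1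
      rw [e1, e2, e3, one_mul, one_mul]
  | @inr l r m ih =>
      intro z h
      obtain ⟨d, (q : Fib m × (NodeP × Par l))⟩ := z
      obtain ⟨q, a, q'⟩ := q
      obtain ⟨h1, h2, h3, h4, h5⟩ := vf_inr_ne h
      obtain ⟨i1, i2, i3⟩ := ih h1
      obtain ⟨g1, -, -, g4, -, -, g7, -⟩ := goodR_spec hΦ hε h2 rfl
      refine ⟨?_, i2, i3⟩
      have ha0 : 0 < a.1 := by rw [← g4]; exact g1.2.2
      have ha1 : a.1 < T' := by
        rw [← g4]
        exact (PathFlow968.sin_le hε.le _ _).trans_lt g1.2.1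
      have e1 : box1 T a = 1 := box1_of ⟨ha0, ha1.trans_le hT⟩ g7
      have e2 : boxI T l q' = 1 := boxI_of_valid hε.le h5 hT
      have e3 : fibB T m q = 1 := i1
      show fibB T m q * (box1 T a * boxI T l q') = 1
      rw [e1, e2, e3, one_mul, one_mul]

/-! ### Dominating product -/

/-- Gaussian in the velocity -/
def gE (b : ℝ) (v : Space3) : ℝ≥0∞ := ENNReal.ofReal (Real.exp (-b * ‖v‖ ^ 2))

theorem measurable_gE (b : ℝ) : Measurable (gE b) := by unfold gE; fun_prop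

theorem lintegral_gE_ne_top {b : ℝ} (hb : 0 < b) : ∫⁻ v, gE b v ≠ ∞ := by
  have h := ((Boltz814.integrable_gauss hb).const_mul 1).lintegral_lt_top.ne
  simpa [gE] using h

/-- product majorant on the fibre -/
def domF (b T : ℝ) : {P : CTree} → (m : Mk P) → Fib m → ℝ≥0∞
  | _, .top l r => fun q => (gE b q.1.1 * disc1 q.1.2) * (domP b T l q.2.1 * domP b T r q.2.2)
  | _, .inl m r => fun q => domF b T m q.1 * ((box1 T q.2.1 * gE b q.2.1.2.1) * domP b T r q.2.2)
  | _, .inr l m => fun q => domF b T m q.1 * ((box1 T q.2.1 * gE b q.2.1.2.1) * domP b T l q.2.2)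

theorem gE_add (b x y : ℝ) : ENNReal.ofReal (Real.exp (-b * (x + y))) =
    ENNReal.ofReal (Real.exp (-b * x)) * ENNReal.ofReal (Real.exp (-b * y)) := by
  rw [← ENNReal.ofReal_mul (Real.exp_pos _).le, ← Real.exp_add]
  congr 2
  ring

theorem domF_eq (b T : ℝ) {P : CTree} (m : Mk P) : ∀ q : Fib m,
    domF b T m q = fibB T m q * ENNReal.ofReal (Real.exp (-b * fibE m q)) := by
  induction m with
  | top l r =>
      intro q
      show (gE b q.1.1 * disc1 q.1.2) * (domP b T l q.2.1 * domP b T r q.2.2) =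
        (disc1 q.1.2 * (boxI T l q.2.1 * boxI T r q.2.2)) *
          ENNReal.ofReal (Real.exp (-b * (‖q.1.1‖ ^ 2 + (nodeE l q.2.1 + nodeE r q.2.2))))
      rw [domP_eq, domP_eq, gE_add, gE_add, gE]
      ring
  | @inl l m r ih =>
      intro q
      show domF b T m q.1 * ((box1 T q.2.1 * gE b q.2.1.2.1) * domP b T r q.2.2) =
        (fibB T m q.1 * (box1 T q.2.1 * boxI T r q.2.2)) *
          ENNReal.ofReal (Real.exp (-b * (fibE m q.1 + (‖q.2.1.2.1‖ ^ 2 + nodeE r q.2.2))))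
      rw [ih, domP_eq, gE_add, gE_add, gE]
      ring
  | @inr l r m ih =>
      intro q
      show domF b T m q.1 * ((box1 T q.2.1 * gE b q.2.1.2.1) * domP b T l q.2.2) =
        (fibB T m q.1 * (box1 T q.2.1 * boxI T l q.2.2)) *
          ENNReal.ofReal (Real.exp (-b * (fibE m q.1 + (‖q.2.1.2.1‖ ^ 2 + nodeE l q.2.2))))
      rw [ih, domP_eq, gE_add, gE_add, gE]
      ring

theorem lintegral_prod_mul_le {α β : Type*} [MeasureSpace α] [MeasureSpace β]
    [SFinite (volume : Measure β)] {f : α → ℝ≥0∞} {g : β → ℝ≥0∞} (hf : Measurable f)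
    (hg : Measurable g) : ∫⁻ z : α × β, f z.1 * g z.2 = (∫⁻ x, f x) * ∫⁻ y, g y := by
  rw [Measure.volume_eq_prod]
  exact lintegral_prod_mul hf.aemeasurable hg.aemeasurable

theorem measurable_domF (b T : ℝ) {P : CTree} (m : Mk P) : Measurable (domF b T m) := by
  induction m with
  | top l r =>
      have h1 : Measurable fun q : (Space3 × Plane) × (Par l × Par r) => q.1.1 := by fun_prop
      have h2 : Measurable fun q : (Space3 × Plane) × (Par l × Par r) => q.1.2 := by fun_prop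
      have h3 : Measurable fun q : (Space3 × Plane) × (Par l × Par r) => q.2.1 := by fun_prop
      have h4 : Measurable fun q : (Space3 × Plane) × (Par l × Par r) => q.2.2 := by fun_prop
      exact (((measurable_gE b).comp h1).mul (measurable_disc1.comp h2)).mul
        (((measurable_domP b T l).comp h3).mul ((measurable_domP b T r).comp h4))
  | @inl l m r ih =>
      have h1 : Measurable fun q : Fib m × (NodeP × Par r) => q.1 := measurable_fst
      have h2 : Measurable fun q : Fib m × (NodeP × Par r) => q.2.1 := measurable_snd.fst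
      have h3 : Measurable fun q : Fib m × (NodeP × Par r) => q.2.2 := measurable_snd.snd
      exact (ih.comp h1).mul ((((measurable_box1 T).comp h2).mul
        ((measurable_gE b).comp h2.snd.fst)).mul ((measurable_domP b T r).comp h3))
  | @inr l r m ih =>
      have h1 : Measurable fun q : Fib m × (NodeP × Par l) => q.1 := measurable_fst
      have h2 : Measurable fun q : Fib m × (NodeP × Par l) => q.2.1 := measurable_snd.fst
      have h3 : Measurable fun q : Fib m × (NodeP × Par l) => q.2.2 := measurable_snd.snd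
      exact (ih.comp h1).mul ((((measurable_box1 T).comp h2).mul
        ((measurable_gE b).comp h2.snd.fst)).mul ((measurable_domP b T l).comp h3))

theorem lintegral_node_ne_top {b : ℝ} (hb : 0 < b) (T : ℝ) (P : CTree) :
    ∫⁻ z : NodeP × Par P, (box1 T z.1 * gE b z.1.2.1) * domP b T P z.2 ≠ ∞ := by
  have hm : Measurable fun a : NodeP => box1 T a * gE b a.2.1 :=
    (measurable_box1 T).mul ((measurable_gE b).comp measurable_snd.fst)
  rw [lintegral_prod_mul_le (f := fun a : NodeP => box1 T a * gE b a.2.1)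
    (g := fun p : Par P => domP b T P p) hm (measurable_domP b T P)]
  exact ENNReal.mul_ne_top (lintegral_box_ne_top hb T) (lintegral_domP_ne_top hb T P)

theorem lintegral_domF_ne_top {b : ℝ} (hb : 0 < b) (T : ℝ) {P : CTree} (m : Mk P) :
    ∫⁻ q : Fib m, domF b T m q ≠ ∞ := by
  induction m with
  | top l r =>
      have e : ∫⁻ q : Fib (Mk.top l r), domF b T (Mk.top l r) q =
          ∫⁻ q : (Space3 × Plane) × (Par l × Par r),
            (fun x : Space3 × Plane => gE b x.1 * disc1 x.2) q.1 *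
            (fun y : Par l × Par r => domP b T l y.1 * domP b T r y.2) q.2 := rfl
      have h1 : Measurable fun x : Space3 × Plane => gE b x.1 * disc1 x.2 :=
        ((measurable_gE b).comp measurable_fst).mul (measurable_disc1.comp measurable_snd)
      have h2 : Measurable fun y : Par l × Par r => domP b T l y.1 * domP b T r y.2 :=
        ((measurable_domP b T l).comp measurable_fst).mul
          ((measurable_domP b T r).comp measurable_snd)
      rw [e, lintegral_prod_mul_le h1 h2,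
        lintegral_prod_mul_le (f := gE b) (g := disc1) (measurable_gE b) measurable_disc1,
        lintegral_prod_mul_le (f := domP b T l) (g := domP b T r) (measurable_domP b T l)
          (measurable_domP b T r)]
      refine ENNReal.mul_ne_top (ENNReal.mul_ne_top (lintegral_gE_ne_top hb) ?_)
        (ENNReal.mul_ne_top (lintegral_domP_ne_top hb T l) (lintegral_domP_ne_top hb T r))
      unfold disc1
      rw [lintegral_indicator_one measurableSet_ball]
      exact measure_ball_lt_top.ne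
  | @inl l m r ih =>
      have e : ∫⁻ q : Fib (Mk.inl m r), domF b T (Mk.inl m r) q =
          ∫⁻ q : Fib m × (NodeP × Par r), domF b T m q.1 *
            (fun z : NodeP × Par r => (box1 T z.1 * gE b z.1.2.1) * domP b T r z.2) q.2 := rfl
      have h2 : Measurable fun z : NodeP × Par r => (box1 T z.1 * gE b z.1.2.1) *
          domP b T r z.2 :=
        (((measurable_box1 T).comp measurable_fst).mul
          ((measurable_gE b).comp measurable_fst.snd.fst)).mul
            ((measurable_domP b T r).comp measurable_snd)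
      rw [e, lintegral_prod_mul_le (measurable_domF b T m) h2]
      exact ENNReal.mul_ne_top ih (lintegral_node_ne_top hb T r)
  | @inr l r m ih =>
      have e : ∫⁻ q : Fib (Mk.inr l m), domF b T (Mk.inr l m) q =
          ∫⁻ q : Fib m × (NodeP × Par l), domF b T m q.1 *
            (fun z : NodeP × Par l => (box1 T z.1 * gE b z.1.2.1) * domP b T l z.2) q.2 := rfl
      have h2 : Measurable fun z : NodeP × Par l => (box1 T z.1 * gE b z.1.2.1) *
          domP b T l z.2 :=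
        (((measurable_box1 T).comp measurable_fst).mul
          ((measurable_gE b).comp measurable_fst.snd.fst)).mul
            ((measurable_domP b T l).comp measurable_snd)
      rw [e, lintegral_prod_mul_le (measurable_domF b T m) h2]
      exact ENNReal.mul_ne_top ih (lintegral_node_ne_top hb T l)

/-! ### The crude bound -/

/-- **Pointwise domination in re-rooted parameters.** -/
theorem vf_prod_le (hΦ : AdmissiblePotential Φ) {C b b' : ℝ} (hC : 0 ≤ C) (hb : b' < b)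
    {k : PhasePoint → ℝ≥0∞} (hk : ∀ z, k z ≤ ENNReal.ofReal (C * Real.exp (-b * ‖z.2‖ ^ 2)))
    (P : CTree) :
    ∃ C' : ℝ, 0 ≤ C' ∧ ∀ (ε T T' : ℝ), 0 < ε → T' ≤ T → ∀ (m : Mk P) (z : BLine × Fib m),
      vf Φ ε T' m z * ∏ i, k (lines Φ ε P (psi Φ ε T' m z).1 (psi Φ ε T' m z).2 i) ≤
        ENNReal.ofReal C' * ((Ioo 0 T').indicator 1 z.1.1 * gE b' z.1.2.2) *
          domF b' T m z.2 := by
  obtain ⟨C', hC', H⟩ := le_domG hΦ hC hb hk P
  refine ⟨C', hC', fun ε T T' hε hT m z => ?_⟩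
  by_cases hz : vf Φ ε T' m z = 0
  · rw [hz, zero_mul]; exact bot_le
  obtain ⟨h1, h2, h3⟩ := box_of_vf hΦ hε hT m hz
  have hvw : vw Φ ε P T' (psi Φ ε T' m z) ≠ 0 := by rw [← vf_eq hΦ hε T' m hz]; exact hz
  have hV := valid_of_vw hvw
  have h4 := H ε T T' (psi Φ ε T' m z).1 (psi Φ ε T' m z).2 hε.le hT hV
  have hE := energy_psi hΦ hε T' m hz
  rw [vf_eq hΦ hε T' m hz, vw_of_valid hV]
  refine h4.trans (le_of_eq ?_)
  unfold domG
  rw [boxI_of_valid hε.le hV hT, one_mul, hE, domF_eq, h1, one_mul,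
    indicator_of_mem (show z.1.1 ∈ Ioo 0 T' from ⟨h2, h3⟩), Pi.one_apply, one_mul,
    ENNReal.ofReal_mul hC', gE_add, gE, mul_assoc]

/-- **(MT2) Crude marked exit bound**, uniform in `ε` and in the horizon `T' ≤ T`. -/
theorem crude_exit (hΦ : AdmissiblePotential Φ) {C b b' : ℝ} (hC : 0 ≤ C) (hb' : 0 < b')
    (hb : b' < b) {k : PhasePoint → ℝ≥0∞} (hkm : Measurable k)
    (hk : ∀ z, k z ≤ ENNReal.ofReal (C * Real.exp (-b * ‖z.2‖ ^ 2))) (P : CTree) (T : ℝ) :
    ∃ C' : ℝ≥0∞, C' ≠ ∞ ∧ ∀ (ε T' : ℝ), 0 < ε → T' ≤ T → ∀ (m : Mk P) (φ : BLine → ℝ≥0∞),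
      Measurable φ →
      ∫⁻ z : PhasePoint × Par P, vw Φ ε P T' z *
          ((∏ i, k (lines Φ ε P z.1 z.2 i)) * φ (exl Φ ε m z.1 z.2)) ≤
        C' * ∫⁻ d : BLine, (Ioo 0 T').indicator 1 d.1 * gE b' d.2.2 * φ d := by
  obtain ⟨C', hC', H⟩ := vf_prod_le hΦ hC hb hk P
  have hfin : ∑ m : Mk P, ∫⁻ q : Fib m, domF b' T m q ≠ ∞ := by
    rw [ENNReal.sum_ne_top]
    exact fun m _ => lintegral_domF_ne_top hb' T m
  refine ⟨ENNReal.ofReal C' * ∑ m : Mk P, ∫⁻ q : Fib m, domF b' T m q,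
    ENNReal.mul_ne_top ENNReal.ofReal_ne_top hfin, fun ε T' hε hT m φ hφ => ?_⟩
  -- measurable form
  have hF : Measurable fun w : BLine × (PhasePoint × Par P) =>
      (∏ i, k (linesM Φ ε P w.2.1 w.2.2 i)) * φ w.1 := by
    refine Measurable.mul ?_ (hφ.comp measurable_fst)
    refine Finset.measurable_prod _ fun i _ => ?_
    exact hkm.comp ((measurable_pi_apply i).comp
      ((measurable_linesM hΦ ε P).comp measurable_snd))
  have e1 : ∫⁻ z : PhasePoint × Par P, vw Φ ε P T' z *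
        ((∏ i, k (lines Φ ε P z.1 z.2 i)) * φ (exl Φ ε m z.1 z.2)) =
      ∫⁻ z : PhasePoint × Par P, vw Φ ε P T' z *
        ((∏ i, k (linesM Φ ε P z.1 z.2 i)) * φ (exM Φ ε m z)) := by
    refine lintegral_congr fun z => ?_
    by_cases hz : vw Φ ε P T' z = 0
    · rw [hz, zero_mul, zero_mul]
    · have hV := valid_of_vw hz
      rw [linesM_of_adm ε hV.1, exM_eq m hV.1]
  have hgm : Measurable fun d : BLine => (Ioo 0 T').indicator (1 : ℝ → ℝ≥0∞) d.1 * gE b' d.2.2 *
      φ d := by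
    refine Measurable.mul (Measurable.mul ?_ ((measurable_gE b').comp measurable_snd.snd)) hφ
    exact (measurable_one.indicator measurableSet_Ioo).comp measurable_fst
  rw [e1, reroot_ex hΦ hε T' m hF]
  calc ∫⁻ z : BLine × Fib m, vf Φ ε T' m z *
        ((∏ i, k (linesM Φ ε P (psi Φ ε T' m z).1 (psi Φ ε T' m z).2 i)) * φ z.1)
      ≤ ∫⁻ z : BLine × Fib m, ENNReal.ofReal C' *
          (((Ioo 0 T').indicator (1 : ℝ → ℝ≥0∞) z.1.1 * gE b' z.1.2.2 * φ z.1) *
            domF b' T m z.2) := by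
        refine lintegral_mono fun z => ?_
        by_cases hz : vf Φ ε T' m z = 0
        · rw [hz, zero_mul]; exact bot_le
        have hvw : vw Φ ε P T' (psi Φ ε T' m z) ≠ 0 := by
          rw [← vf_eq hΦ hε T' m hz]; exact hz
        rw [linesM_of_adm ε (valid_of_vw hvw).1, ← mul_assoc]
        calc _ ≤ (ENNReal.ofReal C' * ((Ioo 0 T').indicator 1 z.1.1 * gE b' z.1.2.2) *
              domF b' T m z.2) * φ z.1 := mul_le_mul_left (H ε T T' hε hT m z) _
          _ = _ := by ring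
    _ = ENNReal.ofReal C' * ((∫⁻ d : BLine, (Ioo 0 T').indicator 1 d.1 * gE b' d.2.2 * φ d) *
          ∫⁻ q : Fib m, domF b' T m q) := by
        have hm2 : Measurable fun z : BLine × Fib m =>
            ((Ioo 0 T').indicator (1 : ℝ → ℝ≥0∞) z.1.1 * gE b' z.1.2.2 * φ z.1) *
              domF b' T m z.2 := (hgm.comp measurable_fst).mul
          ((measurable_domF b' T m).comp measurable_snd)
        rw [lintegral_const_mul _ hm2]
        congr 1
        exact lintegral_prod_mul_le hgm (measurable_domF b' T m)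
    _ ≤ ENNReal.ofReal C' * ((∫⁻ d : BLine, (Ioo 0 T').indicator 1 d.1 * gE b' d.2.2 * φ d) *
          ∑ m : Mk P, ∫⁻ q : Fib m, domF b' T m q) := by
        gcongr
        exact Finset.single_le_sum (f := fun m : Mk P => ∫⁻ q : Fib m, domF b' T m q)
          (fun _ _ => bot_le) (Finset.mem_univ m)
    _ = _ := by ring

/-! ### The crude bound against `lineM` -/

theorem gE_eq_wG (b : ℝ) (v : Space3) : gE b v = Kin796.wG b v := by
  unfold gE Kin796.wG
  rw [neg_mul]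

theorem lineM_ge {γ : ℝ → ℝ} (hγm : Measurable γ) {ρ : ℝ≥0∞} (hρ1 : ρ ≤ 1) {K n N : ℕ}
    (hn : 1 ≤ n) (hnK : n ≤ K) (hnN : n ≤ N) {T b' : ℝ} (hγ : ∀ τ ∈ Ioc 0 T, γ τ ≤ b')
    {φ : ML → ℝ≥0∞} (hφ : Measurable φ) :
    ρ ^ N * ∫⁻ d : BLine, (Ioo 0 T).indicator 1 d.1 * gE b' d.2.2 * φ (d, n) ≤
      ∫⁻ l, φ l ∂lineM γ ρ K T := by
  have hm : Measurable fun l : ML => lineD γ ρ K l * φ l := (measurable_lineD hγm).mul hφ
  have hm1 : Measurable fun x : BLine => lineD γ ρ K (x, n) * φ (x, n) :=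
    hm.comp (measurable_id.prodMk measurable_const)
  have hm2 : Measurable fun d : BLine =>
      (Ioo 0 T).indicator (1 : ℝ → ℝ≥0∞) d.1 * gE b' d.2.2 * φ (d, n) := by
    refine Measurable.mul (Measurable.mul ?_ ((measurable_gE b').comp measurable_snd.snd))
      (hφ.comp (measurable_id.prodMk measurable_const))
    exact (measurable_one.indicator measurableSet_Ioo).comp measurable_fst
  have e1 : ∫⁻ l, φ l ∂lineM γ ρ K T = ∫⁻ x, ∑' n : ℕ, lineD γ ρ K (x, n) * φ (x, n)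
      ∂((volume.restrict (Ioc (0 : ℝ) T)).prod (volume : Measure PhasePoint)) := by
    unfold lineM
    rw [lintegral_withDensity_eq_lintegral_mul _ (measurable_lineD hγm) hφ]
    unfold lineV
    simp only [Pi.mul_apply]
    rw [lintegral_prod _ hm.aemeasurable]
    refine lintegral_congr fun x => ?_
    rw [lintegral_count]
  have e2 : ((volume.restrict (Ioc (0 : ℝ) T)).prod (volume : Measure PhasePoint)) =
      (volume : Measure BLine).restrict ((Ioc 0 T) ×ˢ univ) := by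
    rw [Measure.volume_eq_prod ℝ PhasePoint, ← Measure.prod_restrict, Measure.restrict_univ]
  rw [e1, e2, ← lintegral_const_mul _ hm2,
    ← lintegral_indicator (measurableSet_Ioc.prod MeasurableSet.univ)]
  refine lintegral_mono fun d => ?_
  by_cases hd : d.1 ∈ Ioo 0 T
  · have hd' : d ∈ (Ioc (0 : ℝ) T) ×ˢ (univ : Set PhasePoint) := ⟨⟨hd.1, hd.2.le⟩, mem_univ _⟩
    rw [indicator_of_mem hd']
    refine le_trans ?_ (ENNReal.le_tsum n)
    rw [indicator_of_mem hd, Pi.one_apply, one_mul]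
    have h1 : gE b' d.2.2 ≤ Kin796.wG (γ d.1) d.2.2 := by
      rw [gE_eq_wG]
      unfold Kin796.wG
      refine ENNReal.ofReal_le_ofReal (Real.exp_le_exp.2 (neg_le_neg ?_))
      exact mul_le_mul_of_nonneg_right (hγ d.1 ⟨hd.1, hd.2.le⟩) (by positivity)
    have h2 : ρ ^ N ≤ markW ρ K n := by
      unfold markW
      rw [if_pos ⟨hn, hnK⟩]
      exact pow_le_pow_right_of_le_one' hρ1 hnN
    unfold lineD
    calc ρ ^ N * (gE b' d.2.2 * φ (d, n)) = gE b' d.2.2 * ρ ^ N * φ (d, n) := by ring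
      _ ≤ _ := by gcongr
  · rw [indicator_of_notMem hd, zero_mul, zero_mul, mul_zero]
    exact bot_le

/-- **(MT2) against the line measure**: sum over all exits of a tree. -/
theorem crude_exit_lineM (hΦ : AdmissiblePotential Φ) {C b b' : ℝ} (hC : 0 ≤ C) (hb' : 0 < b')
    (hb : b' < b) {k : PhasePoint → ℝ≥0∞} (hkm : Measurable k)
    (hk : ∀ z, k z ≤ ENNReal.ofReal (C * Real.exp (-b * ‖z.2‖ ^ 2))) (P : CTree) {T : ℝ}
    {γ : ℝ → ℝ} (hγm : Measurable γ) (hγ : ∀ τ ∈ Ioc 0 T, γ τ ≤ b') {ρ : ℝ≥0∞} (hρ0 : ρ ≠ 0)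
    (hρ1 : ρ ≤ 1) :
    ∃ C' : ℝ≥0∞, C' ≠ ∞ ∧ ∀ (ε T' : ℝ), 0 < ε → T' ≤ T → ∀ K : ℕ, P.leaves ≤ K →
      ∀ φ : ML → ℝ≥0∞, Measurable φ →
      ∫⁻ z : PhasePoint × Par P, vw Φ ε P T' z * ((∏ i, k (lines Φ ε P z.1 z.2 i)) *
          ∑ m : Mk P, φ (lineML Φ ε P z (exIdx m))) ≤
        C' * ∫⁻ l, φ l ∂lineM γ ρ K T' := by
  obtain ⟨C', hC', H⟩ := crude_exit hΦ hC hb' hb hkm hk P T
  have hρt : ρ ≠ ∞ := (hρ1.trans_lt ENNReal.one_lt_top).ne
  have hp0 : ρ ^ P.leaves ≠ 0 := pow_ne_zero _ hρ0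
  have hpt : ρ ^ P.leaves ≠ ∞ := ENNReal.pow_ne_top hρt
  refine ⟨Fintype.card (Mk P) * (C' * (ρ ^ P.leaves)⁻¹),
    ENNReal.mul_ne_top (ENNReal.natCast_ne_top _)
      (ENNReal.mul_ne_top hC' (ENNReal.inv_ne_top.2 hp0)), fun ε T' hε hT K hK φ hφ => ?_⟩
  have hterm : ∀ m : Mk P, ∫⁻ z : PhasePoint × Par P, vw Φ ε P T' z *
      ((∏ i, k (lines Φ ε P z.1 z.2 i)) * φ (exl Φ ε m z.1 z.2, mkN m)) ≤
      C' * (ρ ^ P.leaves)⁻¹ * ∫⁻ l, φ l ∂lineM γ ρ K T' := by
    intro m
    have h1 := H ε T' hε hT m (fun d => φ (d, mkN m))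
      (hφ.comp (measurable_id.prodMk measurable_const))
    have hmk : mkN m ≤ P.leaves := by rw [← mk_exIdx]; exact mk_le P _
    have hmk1 : 1 ≤ mkN m := by rw [← mk_exIdx]; exact one_le_mk P _
    have h2 := lineM_ge (γ := γ) hγm hρ1 (K := K) (N := P.leaves) hmk1 (hmk.trans hK) hmk
      (T := T') (b' := b') (fun τ hτ => hγ τ ⟨hτ.1, hτ.2.trans hT⟩) hφ
    have h3 : ∫⁻ d : BLine, (Ioo 0 T').indicator 1 d.1 * gE b' d.2.2 * φ (d, mkN m) ≤
        (ρ ^ P.leaves)⁻¹ * ∫⁻ l, φ l ∂lineM γ ρ K T' := by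
      rw [← ENNReal.mul_le_iff_le_inv hp0 hpt]
      exact h2
    calc _ ≤ C' * ∫⁻ d : BLine, (Ioo 0 T').indicator 1 d.1 * gE b' d.2.2 * φ (d, mkN m) := h1
      _ ≤ C' * ((ρ ^ P.leaves)⁻¹ * ∫⁻ l, φ l ∂lineM γ ρ K T') := mul_le_mul_right h3 _
      _ = _ := by ring
  -- measurability of the terms
  have hmeas : ∀ m : Mk P, Measurable fun z : PhasePoint × Par P => vw Φ ε P T' z *
      ((∏ i, k (linesM Φ ε P z.1 z.2 i)) * φ (exM Φ ε m z, mkN m)) := by
    intro m
    refine (measurable_vw hΦ ε P T').mul (Measurable.mul ?_ ?_)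
    · exact Finset.measurable_prod _ fun i _ => hkm.comp ((measurable_pi_apply i).comp
        (measurable_linesM hΦ ε P))
    · exact hφ.comp ((measurable_exM hΦ ε m).prodMk measurable_const)
  have e1 : ∫⁻ z : PhasePoint × Par P, vw Φ ε P T' z * ((∏ i, k (lines Φ ε P z.1 z.2 i)) *
          ∑ m : Mk P, φ (lineML Φ ε P z (exIdx m))) =
      ∑ m : Mk P, ∫⁻ z : PhasePoint × Par P, vw Φ ε P T' z *
      ((∏ i, k (lines Φ ε P z.1 z.2 i)) * φ (exl Φ ε m z.1 z.2, mkN m)) := by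
    have e2 : ∀ m : Mk P, ∫⁻ z : PhasePoint × Par P, vw Φ ε P T' z *
        ((∏ i, k (lines Φ ε P z.1 z.2 i)) * φ (exl Φ ε m z.1 z.2, mkN m)) =
        ∫⁻ z : PhasePoint × Par P, vw Φ ε P T' z *
        ((∏ i, k (linesM Φ ε P z.1 z.2 i)) * φ (exM Φ ε m z, mkN m)) := by
      intro m
      refine lintegral_congr fun z => ?_
      by_cases hz : vw Φ ε P T' z = 0
      · rw [hz, zero_mul, zero_mul]
      · have hV := valid_of_vw hz
        rw [linesM_of_adm ε hV.1, exM_eq m hV.1]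
    simp only [e2]
    rw [← lintegral_finsetSum _ fun m _ => hmeas m]
    refine lintegral_congr fun z => ?_
    by_cases hz : vw Φ ε P T' z = 0
    · simp only [hz, zero_mul, Finset.sum_const_zero]
    · have hV := valid_of_vw hz
      rw [← Finset.mul_sum, ← Finset.mul_sum, linesM_of_adm ε hV.1]
      congr 2
      refine Finset.sum_congr rfl fun m _ => ?_
      rw [lineML_exIdx, exM_eq m hV.1]
  rw [e1]
  refine (Finset.sum_le_sum fun m _ => hterm m).trans (le_of_eq ?_)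
  rw [Finset.sum_const, Finset.card_univ, nsmul_eq_mul]
  ring

end Crest.Agent.R122.Mark307

end
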