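import Crest.Agent.R122.GIVLam_383
import Crest.Agent.R122.BoltzSeg2_814
import Crest.Agent.R122.FluxMeas_491
import Crest.Agent.R122.GIVRecJ_383
import Crest.Agent.R122.FluxDCT2_491
import Crest.Agent.R122.TopF_602
import Crest.Agent.R122.TopV_602
import Crest.Agent.R122.TopR_602
import Crest.Agent.R122.RetTop_424
import Crest.Agent.R122.Nu0C_566
import Crest.Agent.R122.Fin_410
import Crest.Agent.R122.Mark5_307
import Crest.Agent.R122.EMDefs_602
import Crest.Agent.R122.GIVChild_383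
import Crest.Agent.R122.Nu0B_566
import Crest.Agent.R122.D5Main_726

-- ▼ part R122/GIVDamp_383
section

/-!
# Row 122, block F (helper383): (I3), the first-hit identity in the limit

`wgt_mul_dampG` : the integrand of `gain0` in terms of 399's `Wt`; `dampStep : DampStep`.
-/

set_option autoImplicit false
open MeasureTheory Set Filter
open scoped Classical ENNReal Topology NNReal
open Crest.AnalysisR.Kinetic
open Crest.Agent.R122.GC311 Crest.Agent.R122.Causal291 Crest.Agent.R122.Master566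
open Crest.Agent.R122.GIV566 Crest.Agent.R122.Kin796 Crest.Agent.R122.Disc416
open Crest.Agent.R122.Tree674 Crest.Agent.R122.TreeEps399 Crest.Agent.R122.Hid424
open Crest.Agent.R122.Boltz814 (nuF fE damp exists_nuF_le measurable_nuF fE_of_mem)
open Crest.Agent.R122.Kin416 (kapQ)
noncomputable section

namespace Crest.Agent.R122.GIVStep383

open CTree

variable {Φ : Space3 → ℝ} {ι : Type} {β T : ℝ} {f₀ : PhasePoint → ℝ} {f : ℝ → PhasePoint → ℝ}

/-- damping used for the tree weights -/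
def DT (T : ℝ) (f : ℝ → PhasePoint → ℝ) : ℝ → ℝ → Space3 → Space3 → ℝ≥0∞ := Dwin (nuF T f) T

theorem meas4_DT (hf : IsRegularKineticSolution Φ β T f₀ f) : Meas4 (DT T f) := by
  unfold DT
  rw [← Dwin_814']
  exact Seg814.meas4_Dwin (meas4_damp hf) T

theorem prod_fE (hf : IsRegularKineticSolution Φ β T f₀ f) (hT : 0 ≤ T) {P : CTree}
    (L : Idx P → PhasePoint) :
    ∏ j, ENNReal.ofReal (f₀ (L j)) = ∏ j, fE T f 0 (L j).1 (L j).2 := by
  refine Finset.prod_congr rfl fun j _ => ?_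
  rw [fE_of_mem ⟨le_rfl, hT⟩, hf.initial]

/-- the tree weight without damping of the family -/
theorem wt_mul_eexp (hβ : 0 < β) (hT : 0 < T) (hf : IsRegularKineticSolution Φ β T f₀ f)
    {P : CTree} {s : ℝ} (hs : s ∈ Icc 0 T) {x v : Space3} {p : Par P} (hV : Valid Φ 0 P s v p) :
    (wt Φ P v p * ∏ j, ENNReal.ofReal (f₀ (lines Φ 0 P (x - s • v, v) p j))) *
      eexp (LamP Φ (nuF T f) s P s (x - s • v, v) p) =
      TreeF399.Wt Φ (DT T f) (fE T f 0) P s x v p := by
  rw [← TreeF399.weight_eq, indicator_of_mem (by exact hV), prod_fE hf hT.le]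
  unfold DT
  rw [dens_eq (ℓ := (x - s • v, v)) (finRate_nuF hβ hT hf) hT.le _ hs.1 hV.2]
  have h1 : LamP Φ (nuF T f) T P s (x - s • v, v) p =
      LamP Φ (nuF T f) s P s (x - s • v, v) p := by
    unfold LamP
    refine Finset.sum_congr rfl fun j _ => ?_
    have h2 : prot P s p j ≤ s := PathFlow968.prot_le le_rfl P s v p hV.2 j
    rw [min_eq_left h2, min_eq_left (h2.trans hs.2)]
  rw [h1]
  ring

/-- integrand of `gain0` -/
theorem wgt_mul_dampG (hβ : 0 < β) (hT : 0 < T) (hf : IsRegularKineticSolution Φ β T f₀ f)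
    [Fintype ι] {S : Tubes ι} {M : ℝ≥0} (hS : ∀ i, LipschitzOnWith M (S.c i) (Icc 0 T))
    {tw t : ℝ} (htw : 0 ≤ tw) (ht : t ≤ T) (i : ι) {P : CTree} (θ : HPar P) (x : Space3) :
    wgt Φ f₀ tw t S i θ x * dampG T f ((childT0 Φ S i θ).shift x) θ.1 =
      (if θ.1 ∈ Ioc tw t ∧ θ.1 < S.b i then dampG T f (S.shift x) θ.1 else 0) *
        (ENNReal.ofReal ‖θ.2.1 - deriv (S.c i) θ.1‖ * ((Metric.ball (0 : Plane) 1).indicator 1 θ.2.2.1
          * TreeF399.Wt Φ (DT T f) (fE T f 0) P θ.1 (S.c i θ.1 + x) θ.2.1 θ.2.2.2)) := by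
  unfold wgt
  by_cases hV : Valid Φ 0 P θ.1 θ.2.1 θ.2.2.2
  · by_cases h1 : θ.1 ∈ Ioc tw t ∧ θ.1 < S.b i
    · have hs : θ.1 ∈ Icc 0 T := ⟨htw.trans h1.1.1.le, h1.1.2.trans ht⟩
      by_cases h2 : ‖θ.2.2.1‖ < 1
      · have hG : HGood Φ tw t S i θ := ⟨h1.1, h1.2, h2, hV⟩
        rw [if_pos hG, if_pos h1,
          indicator_of_mem (by simpa using h2 : θ.2.2.1 ∈ Metric.ball (0 : Plane) 1),
          dampG_child hβ hT hf hS hs i hV x, ← wt_mul_eexp hβ hT hf hs hV]
        simp only [Pi.one_apply, one_mul]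
        ring
      · rw [if_neg (fun h : HGood Φ tw t S i θ => h2 h.2.2.1),
          indicator_of_notMem (by simpa using h2 : θ.2.2.1 ∉ Metric.ball (0 : Plane) 1)]
        simp
    · rw [if_neg (fun h : HGood Φ tw t S i θ => h1 ⟨h.1, h.2.1⟩), if_neg h1]
      simp
  · have hW : TreeF399.Wt Φ (DT T f) (fE T f 0) P θ.1 (S.c i θ.1 + x) θ.2.1 θ.2.2.2 = 0 := by
      rw [← TreeF399.weight_eq, indicator_of_notMem (by exact hV)]
    rw [if_neg (fun h : HGood Φ tw t S i θ => hV h.2.2.2), hW]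
    simp

/-- continuous version of a curve -/
def cz (T : ℝ) (c : ℝ → Space3) (s : ℝ) : Space3 := c (max 0 (min s T))

theorem cz_eq {c : ℝ → Space3} {s : ℝ} (hs : s ∈ Icc 0 T) : cz T c s = c s := by
  unfold cz
  rw [min_eq_left hs.2, max_eq_right hs.1]

theorem continuous_cz (hT : 0 ≤ T) {c : ℝ → Space3} {M : ℝ≥0}
    (hc : LipschitzOnWith M c (Icc 0 T)) : Continuous (cz T c) := by
  have h1 : Continuous fun s : ℝ => max 0 (min s T) := by fun_prop
  exact hc.continuousOn.comp_continuous h1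
    fun s => ⟨le_max_left _ _, max_le hT (min_le_right _ _)⟩

theorem dampG_anti [Fintype ι] {S : Tubes ι} {s t : ℝ} (hst : s ≤ t) (h : Lam T f S t ≠ ∞) :
    dampG T f S t ≤ dampG T f S s := by
  unfold dampG
  refine ENNReal.ofReal_le_ofReal (Real.exp_le_exp.2 (neg_le_neg ?_))
  exact ENNReal.toReal_mono h (Lam_mono S hst)

/-- the damped trees before `T` -/
theorem F_DT_eq {t : ℝ} (ht : t ∈ Icc 0 T) (f0 : Space3 → Space3 → ℝ≥0∞) (P : CTree)
    (x v : Space3) : F (kapQ Φ) (DT T f) f0 P t x v = F (kapQ Φ) (damp T f) f0 P t x v := by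
  have hD : ∀ s t : ℝ, s ≤ t → t ≤ T → ∀ x v, DT T f s t x v = damp T f s t x v := by
    intro s t hs ht x v
    unfold DT
    rw [← Dwin_814', Seg814.Dwin_eq hs ht]
  induction P generalizing t x v with
  | leaf =>
    show DT T f 0 t x v * f0 (x - t • v) v = damp T f 0 t x v * f0 (x - t • v) v
    rw [hD 0 t ht.1 ht.2]
  | node l r hl hr =>
    show ∫⁻ s in Ioc 0 t, DT T f s t x v * Q (kapQ Φ) (F (kapQ Φ) (DT T f) f0 l s
      (x - (t - s) • v)) (F (kapQ Φ) (DT T f) f0 r s (x - (t - s) • v)) v =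
      ∫⁻ s in Ioc 0 t, damp T f s t x v * Q (kapQ Φ) (F (kapQ Φ) (damp T f) f0 l s
      (x - (t - s) • v)) (F (kapQ Φ) (damp T f) f0 r s (x - (t - s) • v)) v
    refine setLIntegral_congr_fun measurableSet_Ioc fun s hs => ?_
    have hs' : s ∈ Icc 0 T := ⟨hs.1.le, hs.2.trans ht.2⟩
    have e1 : F (kapQ Φ) (DT T f) f0 l s (x - (t - s) • v) =
        F (kapQ Φ) (damp T f) f0 l s (x - (t - s) • v) := funext fun u => hl hs' _ u
    have e2 : F (kapQ Φ) (DT T f) f0 r s (x - (t - s) • v) =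
        F (kapQ Φ) (damp T f) f0 r s (x - (t - s) • v) := funext fun u => hr hs' _ u
    show DT T f s t x v * _ = damp T f s t x v * _
    rw [hD s t hs.2 ht.2, e1, e2]

/-- summation over the trees -/
theorem tsum_lintegral_Wt (hβ : 0 < β) (hT : 0 < T) (hΦ : AdmissiblePotential Φ)
    (hf : IsRegularKineticSolution Φ β T f₀ f) {t : ℝ} (ht : t ∈ Icc 0 T) (x v : Space3) :
    ∑' P : CTree, ∫⁻ p : Par P, TreeF399.Wt Φ (DT T f) (fE T f 0) P t x v p =
      fE T f t x v := by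
  have h1 : ∀ P : CTree, ∫⁻ p : Par P, TreeF399.Wt Φ (DT T f) (fE T f 0) P t x v p =
      TF Φ T f P t x v := by
    intro P
    rw [TreeF399.lintegral_Wt hΦ (meas4_DT hf) (meas_fE_zero hf), F_DT_eq ht]
    rfl
  rw [tsum_congr h1, ← series_eq hβ hT hΦ hf ht, fE_of_mem ht]

/-- fixed hitting time: sum over the trees of the integral over the other parameters -/
theorem tsum_fibre (hβ : 0 < β) (hT : 0 < T) (hΦ : AdmissiblePotential Φ)
    (hf : IsRegularKineticSolution Φ β T f₀ f) {t : ℝ} (ht : t ∈ Icc 0 T) (x V : Space3) :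
    ∑' P : CTree, ∫⁻ q : Space3 × Plane × Par P, ENNReal.ofReal ‖q.1 - V‖ *
      ((Metric.ball (0 : Plane) 1).indicator 1 q.2.1 *
        TreeF399.Wt Φ (DT T f) (fE T f 0) P t x q.1 q.2.2) = nuF T f t x V := by
  have hW : ∀ P : CTree, Measurable fun z : Space3 × Par P =>
      TreeF399.Wt Φ (DT T f) (fE T f 0) P t x z.1 z.2 := by
    intro P
    have h1 : Measurable fun z : Space3 × Par P =>
        (((t, x, z.1), z.2) : (ℝ × Space3 × Space3) × Par P) := by fun_prop
    exact Measurable.comp (TreeF399.measurable_Wt hΦ (meas4_DT hf) (meas_fE_zero hf) P) h1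
  have hI : Measurable ((Metric.ball (0 : Plane) 1).indicator (1 : Plane → ℝ≥0∞)) :=
    measurable_one.indicator measurableSet_ball
  have hP : ∀ P : CTree, ∫⁻ q : Space3 × Plane × Par P, ENNReal.ofReal ‖q.1 - V‖ *
      ((Metric.ball (0 : Plane) 1).indicator 1 q.2.1 *
        TreeF399.Wt Φ (DT T f) (fE T f 0) P t x q.1 q.2.2) =
      ∫⁻ v : Space3, ENNReal.ofReal Real.pi * (ENNReal.ofReal ‖v - V‖ *
        ∫⁻ p : Par P, TreeF399.Wt Φ (DT T f) (fE T f 0) P t x v p) := by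
    intro P
    have hm : Measurable fun q : Space3 × Plane × Par P => ENNReal.ofReal ‖q.1 - V‖ *
      ((Metric.ball (0 : Plane) 1).indicator 1 q.2.1 *
        TreeF399.Wt Φ (DT T f) (fE T f 0) P t x q.1 q.2.2) := by
      refine Measurable.mul (by fun_prop) (Measurable.mul ?_ ?_)
      · exact hI.comp (measurable_fst.comp measurable_snd)
      · exact (hW P).comp (measurable_fst.prodMk (measurable_snd.comp measurable_snd))
    rw [Measure.volume_eq_prod, lintegral_prod _ hm.aemeasurable]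
    refine lintegral_congr fun v => ?_
    show ∫⁻ y : Plane × Par P, ENNReal.ofReal ‖v - V‖ * ((Metric.ball (0 : Plane) 1).indicator 1 y.1
      * TreeF399.Wt Φ (DT T f) (fE T f 0) P t x v y.2) = _
    rw [lintegral_const_mul' _ _ ENNReal.ofReal_ne_top, Measure.volume_eq_prod]
    have h2 := lintegral_prod_mul (μ := (volume : Measure Plane)) (ν := (volume : Measure (Par P)))
      hI.aemeasurable (g := fun p => TreeF399.Wt Φ (DT T f) (fE T f 0) P t x v p)
      ((hW P).comp (measurable_const.prodMk measurable_id)).aemeasurable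
    rw [h2, lintegral_indicator_one measurableSet_ball, EuclideanSpace.volume_ball_fin_two,
      ENNReal.ofReal_one, one_pow, one_mul]
    ring
  rw [tsum_congr hP, ← lintegral_tsum]
  · have h3 : ∀ v : Space3, ∑' P : CTree, ENNReal.ofReal Real.pi * (ENNReal.ofReal ‖v - V‖ *
        ∫⁻ p : Par P, TreeF399.Wt Φ (DT T f) (fE T f 0) P t x v p) =
        ENNReal.ofReal Real.pi * (ENNReal.ofReal ‖V - v‖ * fE T f t x v) := by
      intro v
      rw [ENNReal.tsum_mul_left, ENNReal.tsum_mul_left, tsum_lintegral_Wt hβ hT hΦ hf ht,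
        norm_sub_rev]
    simp only [h3]
    rw [lintegral_const_mul' _ _ ENNReal.ofReal_ne_top]
    rfl
  · intro P
    have h4 : Measurable fun v : Space3 => ∫⁻ p : Par P,
        TreeF399.Wt Φ (DT T f) (fE T f 0) P t x v p := (hW P).lintegral_prod_right'
    exact (((by fun_prop : Measurable fun v : Space3 => ENNReal.ofReal ‖v - V‖).mul
      h4).const_mul _).aemeasurable

/-- velocity, impact and tree factor of the integrand of `gain0` -/
def GI (Φ : Space3 → ℝ) (T : ℝ) (f : ℝ → PhasePoint → ℝ) (S : Tubes ι) (x : Space3) (i : ι)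
    (P : CTree) (s : ℝ) (r : Space3 × Plane × Par P) : ℝ≥0∞ :=
  ENNReal.ofReal ‖r.1 - deriv (S.c i) s‖ * ((Metric.ball (0 : Plane) 1).indicator 1 r.2.1
    * TreeF399.Wt Φ (DT T f) (fE T f 0) P s (cz T (S.c i) s + x) r.1 r.2.2)

/-- damping of the family, time restricted -/
def QI (T : ℝ) (f : ℝ → PhasePoint → ℝ) [Fintype ι] (tw t : ℝ) (S : Tubes ι) (x : Space3) (i : ι)
    (s : ℝ) : ℝ≥0∞ :=
  (Ioc tw t ∩ Iio (S.b i)).indicator (fun s => dampG T f (S.shift x) (max 0 (min s T))) s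

theorem measurable_GI (hT : 0 ≤ T) (hΦ : AdmissiblePotential Φ)
    (hf : IsRegularKineticSolution Φ β T f₀ f) {S : Tubes ι} {M : ℝ≥0}
    (hS : ∀ i, LipschitzOnWith M (S.c i) (Icc 0 T)) (i : ι) (P : CTree) :
    Measurable fun z : (Space3 × ℝ) × (Space3 × Plane × Par P) =>
      GI Φ T f S z.1.1 i P z.1.2 z.2 := by
  unfold GI
  have h0 : Measurable fun z : (Space3 × ℝ) × (Space3 × Plane × Par P) =>
      deriv (S.c i) z.1.2 := (measurable_deriv _).comp (measurable_snd.comp measurable_fst)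
  have hB : Measurable ((Metric.ball (0 : Plane) 1).indicator (1 : Plane → ℝ≥0∞)) :=
    measurable_one.indicator measurableSet_ball
  have hv : Measurable fun z : (Space3 × ℝ) × (Space3 × Plane × Par P) => z.2.1 := by fun_prop
  have hy : Measurable fun z : (Space3 × ℝ) × (Space3 × Plane × Par P) => z.2.2.1 := by fun_prop
  have hp : Measurable fun z : (Space3 × ℝ) × (Space3 × Plane × Par P) => z.2.2.2 := by fun_prop
  have hs : Measurable fun z : (Space3 × ℝ) × (Space3 × Plane × Par P) => z.1.2 := by fun_prop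
  have hx : Measurable fun z : (Space3 × ℝ) × (Space3 × Plane × Par P) => z.1.1 := by fun_prop
  refine Measurable.mul (hv.sub h0).norm.ennreal_ofReal (Measurable.mul (hB.comp hy) ?_)
  have hc := (continuous_cz hT (hS i)).measurable.comp hs
  have h1 : Measurable fun z : (Space3 × ℝ) × (Space3 × Plane × Par P) =>
      (((z.1.2, cz T (S.c i) z.1.2 + z.1.1, z.2.1), z.2.2.2) :
        (ℝ × Space3 × Space3) × Par P) := (hs.prodMk ((hc.add hx).prodMk hv)).prodMk hp
  exact Measurable.comp (TreeF399.measurable_Wt hΦ (meas4_DT hf) (meas_fE_zero hf) P) h1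

theorem measurable_QI (hβ : 0 < β) (hT : 0 < T)
    (hf : IsRegularKineticSolution Φ β T f₀ f) [Fintype ι] {S : Tubes ι} {M : ℝ≥0}
    (hS : ∀ i, LipschitzOnWith M (S.c i) (Icc 0 T)) (tw t : ℝ) (x : Space3) (i : ι) :
    Measurable (QI T f tw t S x i) := by
  have h1 : Antitone fun s => dampG T f (S.shift x) (max 0 (min s T)) := by
    intro s s' hss
    refine dampG_anti (max_le_max_left _ (min_le_min_right _ hss)) ?_
    exact Lam_ne_top hβ hT hf (lipschitz_shift hS x) (max_le hT.le (min_le_right _ _))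
  exact h1.measurable.indicator (measurableSet_Ioc.inter measurableSet_Iio)

theorem QI_of_mem [Fintype ι] {tw t : ℝ} (htw : 0 ≤ tw) (ht : t ≤ T) {S : Tubes ι} {x : Space3}
    {i : ι} {s : ℝ} (hs : s ∈ Ioc tw t) :
    QI T f tw t S x i s = if s < S.b i then dampG T f (S.shift x) s else 0 := by
  have h0 : s ∈ Icc 0 T := ⟨htw.trans hs.1.le, hs.2.trans ht⟩
  unfold QI
  by_cases h : s < S.b i
  · rw [indicator_of_mem (show s ∈ Ioc tw t ∩ Iio (S.b i) from ⟨hs, h⟩), if_pos h,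
      min_eq_left h0.2, max_eq_right h0.1]
  · rw [indicator_of_notMem (show s ∉ Ioc tw t ∩ Iio (S.b i) from fun h' => h h'.2), if_neg h]

theorem QI_of_notMem [Fintype ι] {tw t : ℝ} {S : Tubes ι} {x : Space3}
    {i : ι} {s : ℝ} (hs : s ∉ Ioc tw t) : QI T f tw t S x i s = 0 := by
  unfold QI
  rw [indicator_of_notMem (show s ∉ Ioc tw t ∩ Iio (S.b i) from fun h' => hs h'.1)]

/-- integrand of `gain0` in product form -/
theorem wgt_eq_QI_GI (hβ : 0 < β) (hT : 0 < T) (hf : IsRegularKineticSolution Φ β T f₀ f)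
    [Fintype ι] {S : Tubes ι} {M : ℝ≥0} (hS : ∀ i, LipschitzOnWith M (S.c i) (Icc 0 T))
    {tw t : ℝ} (htw : 0 ≤ tw) (ht : t ≤ T) (i : ι) {P : CTree} (θ : HPar P) (x : Space3) :
    wgt Φ f₀ tw t S i θ x * dampG T f ((childT0 Φ S i θ).shift x) θ.1 =
      QI T f tw t S x i θ.1 * GI Φ T f S x i P θ.1 θ.2 := by
  rw [wgt_mul_dampG hβ hT hf hS htw ht i θ x]
  by_cases h : θ.1 ∈ Ioc tw t
  · have h0 : θ.1 ∈ Icc 0 T := ⟨htw.trans h.1.le, h.2.trans ht⟩
    rw [QI_of_mem htw ht h]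
    unfold GI
    rw [cz_eq h0]
    by_cases h2 : θ.1 < S.b i
    · rw [if_pos ⟨h, h2⟩, if_pos h2]
    · rw [if_neg (fun h' => h2 h'.2), if_neg h2]
  · rw [QI_of_notMem h, if_neg (fun h' => h h'.1), zero_mul, zero_mul]

theorem tsum_GI (hβ : 0 < β) (hT : 0 < T) (hΦ : AdmissiblePotential Φ)
    (hf : IsRegularKineticSolution Φ β T f₀ f) {S : Tubes ι} {s : ℝ} (hs : s ∈ Icc 0 T)
    (x : Space3) (i : ι) :
    ∑' P : CTree, ∫⁻ r : Space3 × Plane × Par P, GI Φ T f S x i P s r =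
      nuF T f s (cz T (S.c i) s + x) (deriv (S.c i) s) :=
  tsum_fibre hβ hT hΦ hf hs _ _

attribute [irreducible] GI QI
attribute [local irreducible] nuF

/-- the integral over the other parameters -/
theorem lintegral_gain0 (hβ : 0 < β) (hT : 0 < T) (hΦ : AdmissiblePotential Φ)
    (hf : IsRegularKineticSolution Φ β T f₀ f) [Fintype ι] {S : Tubes ι} {M : ℝ≥0}
    (hS : ∀ i, LipschitzOnWith M (S.c i) (Icc 0 T)) {tw t : ℝ} (htw : 0 ≤ tw)
    (ht : t ≤ T) (x : Space3) (i : ι) (P : CTree) :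
    ∫⁻ θ : HPar P, wgt Φ f₀ tw t S i θ x * dampG T f ((childT0 Φ S i θ).shift x) θ.1 =
      ∫⁻ s : ℝ, QI T f tw t S x i s * ∫⁻ r : Space3 × Plane × Par P, GI Φ T f S x i P s r := by
  have hG := measurable_GI hT.le hΦ hf hS i P
  have hQ := measurable_QI hβ hT hf hS tw t x i
  have hG2 : Measurable fun z : HPar P => GI Φ T f S x i P z.1 z.2 := by
    have h1 : Measurable fun z : HPar P =>
        (((x, z.1), z.2) : (Space3 × ℝ) × (Space3 × Plane × Par P)) := by fun_prop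
    exact Measurable.comp hG h1
  have hm : Measurable fun z : HPar P => QI T f tw t S x i z.1 * GI Φ T f S x i P z.1 z.2 :=
    (hQ.comp measurable_fst).mul hG2
  have e1 : ∫⁻ θ : HPar P, wgt Φ f₀ tw t S i θ x * dampG T f ((childT0 Φ S i θ).shift x) θ.1 =
      ∫⁻ z : HPar P, QI T f tw t S x i z.1 * GI Φ T f S x i P z.1 z.2 :=
    lintegral_congr fun θ => wgt_eq_QI_GI hβ hT hf hS htw ht i θ x
  rw [e1, Measure.volume_eq_prod, lintegral_prod _ hm.aemeasurable]
  refine lintegral_congr fun s => ?_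
  have h2 : Measurable fun r : Space3 × Plane × Par P => GI Φ T f S x i P s r := by
    have h1 : Measurable fun r : Space3 × Plane × Par P => ((s, r) : HPar P) := by fun_prop
    exact Measurable.comp (g := fun z : HPar P => GI Φ T f S x i P z.1 z.2) hG2 h1
  show ∫⁻ r : Space3 × Plane × Par P, QI T f tw t S x i s * GI Φ T f S x i P s r = _
  rw [lintegral_const_mul _ h2]

/-- sum over the trees, fixed tube -/
theorem tsum_gain0_fix (hβ : 0 < β) (hT : 0 < T) (hΦ : AdmissiblePotential Φ)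
    (hf : IsRegularKineticSolution Φ β T f₀ f) [Fintype ι] {S : Tubes ι} {M : ℝ≥0}
    (hS : ∀ i, LipschitzOnWith M (S.c i) (Icc 0 T)) {tw t : ℝ} (htw : 0 ≤ tw)
    (ht : t ≤ T) (x : Space3) (i : ι) :
    ∑' P : CTree, ∫⁻ θ : HPar P, wgt Φ f₀ tw t S i θ x *
        dampG T f ((childT0 Φ S i θ).shift x) θ.1 =
      ∫⁻ s in Ioc tw t, dampG T f (S.shift x) s *
        (if s < S.b i then nuF T f s (S.c i s + x) (deriv (S.c i) s) else 0) := by
  have hQ := measurable_QI hβ hT hf hS tw t x i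
  rw [tsum_congr (lintegral_gain0 hβ hT hΦ hf hS htw ht x i), ← lintegral_tsum,
    ← lintegral_indicator measurableSet_Ioc]
  · refine lintegral_congr fun s => ?_
    rw [ENNReal.tsum_mul_left]
    by_cases h : s ∈ Ioc tw t
    · have h0 : s ∈ Icc 0 T := ⟨htw.trans h.1.le, h.2.trans ht⟩
      rw [tsum_GI hβ hT hΦ hf h0, indicator_of_mem h, cz_eq h0, QI_of_mem htw ht h]
      split_ifs
      · rfl
      · rw [zero_mul, mul_zero]
    · rw [indicator_of_notMem h, QI_of_notMem h, zero_mul]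
  · intro P
    have hG := measurable_GI hT.le hΦ hf hS i P
    have h1 : Measurable fun z : ℝ × (Space3 × Plane × Par P) =>
        (((x, z.1), z.2) : (Space3 × ℝ) × (Space3 × Plane × Par P)) := by fun_prop
    have h2 : Measurable fun s : ℝ => ∫⁻ r : Space3 × Plane × Par P, GI Φ T f S x i P s r :=
      (Measurable.comp hG h1).lintegral_prod_right'
    exact (hQ.mul h2).aemeasurable

/-- **(I3)** -/
theorem tsum_gain0 (hβ : 0 < β) (hT : 0 < T) (hΦ : AdmissiblePotential Φ)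
    (hf : IsRegularKineticSolution Φ β T f₀ f) [Fintype ι] {S : Tubes ι} {M : ℝ≥0}
    (hS : ∀ i, LipschitzOnWith M (S.c i) (Icc 0 T)) {tw t : ℝ} (htw : 0 ≤ tw)
    (ht : t ≤ T) (x : Space3) :
    ∑' P : CTree, gain0 Φ f₀ f T tw t S P x =
      ∫⁻ s in Ioc tw t, dampG T f (S.shift x) s * lam T f (S.shift x) s := by
  unfold gain0
  rw [Summable.tsum_finsetSum (fun i _ => ENNReal.summable)]
  rw [Finset.sum_congr rfl fun i _ => tsum_gain0_fix hβ hT hΦ hf hS htw ht x i,
    ← lintegral_finsetSum']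
  · refine setLIntegral_congr_fun measurableSet_Ioc fun s hs => ?_
    show ∑ i, dampG T f (S.shift x) s * _ = dampG T f (S.shift x) s * lam T f (S.shift x) s
    rw [← Finset.mul_sum]
    unfold lam
    congr 1
    refine Finset.sum_congr rfl fun i _ => ?_
    rw [deriv_shift]
    rfl
  · intro i _
    have hsub : Ioc tw t ⊆ Icc 0 T := fun s hs => ⟨htw.trans hs.1.le, hs.2.trans ht⟩
    have hQ := measurable_QI hβ hT hf hS tw t x i
    have h2 : Measurable (fun s => QI T f tw t S x i s *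
        nuF T f s (cz T (S.c i) s + x) (deriv (S.c i) s)) := by
      have h3 : Measurable fun s : ℝ => (s, cz T (S.c i) s + x, deriv (S.c i) s) :=
        measurable_id.prodMk (((continuous_cz hT.le (hS i)).measurable.add_const x).prodMk
          (measurable_deriv _))
      have h4 : Measurable fun s : ℝ => nuF T f s (cz T (S.c i) s + x) (deriv (S.c i) s) :=
        Measurable.comp (g := fun p : ℝ × Space3 × Space3 => nuF T f p.1 p.2.1 p.2.2)
          (measurable_nuF hf) h3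
      exact hQ.mul h4
    refine h2.aemeasurable.congr ?_
    filter_upwards [ae_restrict_mem measurableSet_Ioc] with s hs
    rw [QI_of_mem htw ht hs, cz_eq (hsub hs)]
    split_ifs
    · rfl
    · rw [zero_mul, mul_zero]

/-- **(I3)** -/
theorem dampStep (hβ : 0 < β) (hT : 0 < T) (hΦ : AdmissiblePotential Φ)
    (hf : IsRegularKineticSolution Φ β T f₀ f) : DampStep Φ f₀ f T := by
  intro ι _ S M hS tw t htw hle ht x
  rw [tsum_gain0 hβ hT hΦ hf hS htw ht x]
  have hS' := lipschitz_shift hS x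
  have hsub : Ioc tw t ⊆ Icc 0 T := fun s hs => ⟨htw.trans hs.1.le, hs.2.trans ht⟩
  have hr : AEMeasurable (lam T f (S.shift x)) (volume.restrict (Ioc tw t)) :=
    aemeasurable_rateT (meas3_nuF hf) fun i => aemeasurable_curve hS' hsub i
  have hsplit : ∀ s, tw ≤ s → Lam T f (S.shift x) s =
      Lam T f (S.shift x) tw + Prim383.R (lam T f (S.shift x)) tw s := by
    intro s hs
    unfold Lam Prim383.R
    rw [← Ioc_union_Ioc_eq_Ioc htw hs, lintegral_union measurableSet_Ioc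
      (Ioc_disjoint_Ioc_of_le le_rfl)]
  have hfin : ∀ s, s ≤ T → Lam T f (S.shift x) s ≠ ∞ := fun s hs => Lam_ne_top hβ hT hf hS' hs
  have hRfin : ∀ s, tw ≤ s → s ≤ T → Prim383.R (lam T f (S.shift x)) tw s ≠ ∞ := by
    intro s h1 h2
    refine ne_top_of_le_ne_top (hfin s h2) ?_
    rw [hsplit s h1]
    exact le_add_self
  have hd : ∀ s, tw ≤ s → s ≤ T → dampG T f (S.shift x) s = dampG T f (S.shift x) tw *
      ENNReal.ofReal (Real.exp (-(Prim383.R (lam T f (S.shift x)) tw s).toReal)) := by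
    intro s h1 h2
    have h3 := eexp_add (hfin tw (h1.trans h2)) (hRfin s h1 h2)
    rw [dampG_eq_eexp, dampG_eq_eexp, hsplit s h1, h3]
    rfl
  have h1 : ∫⁻ s in Ioc tw t, dampG T f (S.shift x) s * lam T f (S.shift x) s =
      dampG T f (S.shift x) tw * ∫⁻ s in Ioc tw t, lam T f (S.shift x) s *
        ENNReal.ofReal (Real.exp (-(Prim383.R (lam T f (S.shift x)) tw s).toReal)) := by
    rw [← lintegral_const_mul' _ _ (by
      exact ne_top_of_le_ne_top ENNReal.one_ne_top (dampG_le_one _))]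
    refine setLIntegral_congr_fun measurableSet_Ioc fun s hs => ?_
    show dampG T f (S.shift x) s * _ = _
    rw [hd s hs.1.le (hs.2.trans ht)]
    ring
  rw [h1, hd t hle ht, ← mul_add, Prim383.lintegral_exp_neg_prim hle hr (hRfin t hle ht), mul_one]

end Crest.Agent.R122.GIVStep383
end
end

-- ▼ part R122/KinE_383
section

/-!
Row 122 (helper383): exponential moments of the tree series with an energy weight on the initial
data (perturbed datum), and their window form.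
-/

set_option autoImplicit false
set_option linter.unusedSectionVars false
set_option linter.unusedVariables false
open MeasureTheory ProbabilityTheory Set
open scoped ENNReal

noncomputable section

namespace Crest.Agent.R122.KinE383

open Kin796 Kin796.CTree

section main

variable {E : Type*} [NormedAddCommGroup E] [NormedSpace ℝ E] [MeasurableSpace E] [BorelSpace E]
  [SecondCountableTopology E]
variable {κ : Kernel E (E × E)} [IsSFiniteKernel κ] {β T C0 C1 : ℝ} {D : ℝ → ℝ → E → E → ℝ≥0∞}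
  {f : ℝ → E → E → ℝ≥0∞}

/-- exponential moment of the number of collisions, perturbed datum -/
theorem exp_moment_pert (hβ : 0 < β) (hT : 0 < T) (hC0 : 0 ≤ C0) (hC1 : 0 ≤ C1)
    (hκ : KernelBound κ β C1) (hD1 : ∀ s t x v, D s t x v ≤ 1) (hD : Meas4 D) (hf : Meas3 f)
    (hfb : ∀ t ∈ Icc 0 T, ∀ x v, f t x v ≤ ENNReal.ofReal C0 * wG (2 * β) v)
    (hmild : IsMild κ D T f) :
    ∃ lam η₀ : ℝ, 1 < lam ∧ 0 < η₀ ∧ ∀ g : E → E → ℝ≥0∞, (Measurable fun p : E × E => g p.1 p.2) →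
      (∀ x v, g x v ≤ f 0 x v + ENNReal.ofReal η₀ * wG (2 * β) v) → ∀ t ∈ Icc 0 T, ∀ x v,
      ∑' τ : CTree, ENNReal.ofReal lam ^ τ.size * F κ D g τ t x v ≤
        ENNReal.ofReal (C0 + 1) * wG β v := by
  have hf0 : Measurable fun p : E × E => f 0 p.1 p.2 :=
    hf.comp (f := fun p : E × E => ((0 : ℝ), p.1, p.2)) (by fun_prop)
  have hfb' : ∀ s ∈ Icc 0 T, ∀ x v, f s x v ≤
      ENNReal.ofReal C0 * wG (2 * β - β / T * s) v := by
    intro s hs x v
    exact (hfb s hs x v).trans (mul_le_mul' le_rfl (wG_anti (rate_mem hβ hT hs).2 v))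
  obtain ⟨μ, hμ, hpsi⟩ := exists_psi_le (β := β) (T := T)
    (ε := 1 / (8 * (2 * C0 + 1) * C1 + 1)) hβ hT (by positivity)
  have hpsi0 : 0 ≤ psi β T μ := psi_nonneg hμ
  have hpsi' : 2 * (2 * C0 + 1) * C1 * psi β T μ ≤ 1 / 4 := by
    have h2 : 2 * (2 * C0 + 1) * C1 * psi β T μ ≤
        2 * (2 * C0 + 1) * C1 * (1 / (8 * (2 * C0 + 1) * C1 + 1)) :=
      mul_le_mul_of_nonneg_left hpsi (by positivity)
    refine h2.trans ?_
    rw [mul_one_div, div_le_div_iff₀ (by positivity) (by norm_num)]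
    nlinarith [mul_nonneg hC0 hC1]
  set η : ℝ := Real.exp (-(μ * T)) with hη
  have hη0 : 0 < η := Real.exp_pos _
  have hη1 : η ≤ 1 := Real.exp_le_one_iff.2 (by have := mul_nonneg hμ.le hT.le; linarith)
  set δ : ℝ := min 1 (η / (4 * C0 ^ 2 * C1 * psi β T μ + 1)) with hδ
  have hδ0 : 0 < δ := lt_min one_pos (by positivity)
  have hδ1 : δ ≤ 1 := min_le_left _ _
  have hδ2 : δ * (C0 ^ 2 * C1 * psi β T μ) ≤ η / 4 := by
    have h3 : δ ≤ η / (4 * C0 ^ 2 * C1 * psi β T μ + 1) := min_le_right _ _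
    rw [le_div_iff₀ (by positivity)] at h3
    nlinarith
  refine ⟨1 + δ, η / 2, by linarith, by positivity, fun g hg hgb t ht x v => ?_⟩
  rw [tsum_eq_iSup κ hD hg]
  set H : ℝ → E → E → ℝ≥0∞ := fun t x v => f t x v + ENNReal.ofReal η * wT β T μ t v with hH
  have hHb : ∀ t ∈ Icc 0 T, ∀ x v, H t x v ≤ ENNReal.ofReal (C0 + 1) * wG β v := by
    intro t ht x v
    have h1 : ENNReal.ofReal η * wT β T μ t v ≤ ENNReal.ofReal 1 * wG β v := by
      calc ENNReal.ofReal η * wT β T μ t v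
          ≤ ENNReal.ofReal η * (ENNReal.ofReal (Real.exp (μ * T)) * wG β v) :=
            mul_le_mul' le_rfl (wT_le hβ hT hμ ht v)
        _ = ENNReal.ofReal 1 * wG β v := by
            rw [← mul_assoc, ← ENNReal.ofReal_mul hη0.le, hη, ← Real.exp_add]
            simp
    calc H t x v ≤ ENNReal.ofReal C0 * wG β v + ENNReal.ofReal 1 * wG β v :=
          add_le_add ((hfb t ht x v).trans (mul_le_mul' le_rfl (wG_anti (by linarith) v))) h1
      _ = _ := by rw [← add_mul, ← ENNReal.ofReal_add hC0 zero_le_one]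
  refine (iSup_le fun n => ?_).trans (hHb t ht x v)
  refine P_le_super κ (T := T) (fun t ht x v => ?_) n ht x v
  -- supersolution inequality
  set q1 : ℝ → E → E → ℝ≥0∞ := fun s y u => Q κ (f s y) (f s y) u with hq1
  have hq1m : Meas3 q1 := meas_Q κ hf hf
  set A : ℝ := δ * (C0 ^ 2 * C1) + 2 * ((2 * C0 + 1) * η * C1) with hA
  have hA0 : 0 ≤ A := by positivity
  -- pointwise bound of the source
  have hsrc : ∀ s ∈ Icc 0 T, ∀ y u, ENNReal.ofReal (1 + δ) * Q κ (H s y) (H s y) u ≤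
      q1 s y u + ENNReal.ofReal A * gB β T μ s u := by
    intro s hs y u
    have mf := meas_slice hD hf0 hf s y
    have hRm : Meas3 fun s (y : E) (u : E) => ENNReal.ofReal η * wT β T μ s u :=
      meas_mul3 measurable_const (meas_wT β T μ)
    have mR := meas_slice hD hf0 hRm s y
    set R : E → ℝ≥0∞ := fun w => ENNReal.ofReal η * wT β T μ s w with hRdef
    have hRb : ∀ w, R w ≤ ENNReal.ofReal (η * Real.exp (μ * s)) * wG (2 * β - β / T * s) w := by
      intro w
      rw [hRdef]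
      simp only
      rw [wT_eq, ENNReal.ofReal_mul hη0.le, mul_assoc]
    have hRb1 : ∀ w, R w ≤ ENNReal.ofReal 1 * wG (2 * β - β / T * s) w := by
      intro w
      refine (hRb w).trans (mul_le_mul' (ENNReal.ofReal_le_ofReal ?_) le_rfl)
      rw [hη, ← Real.exp_add]
      refine Real.exp_le_one_iff.2 ?_
      have := mul_le_mul_of_nonneg_left hs.2 hμ.le
      linarith
    have hexp : Q κ (H s y) (H s y) u = Q κ (f s y) (f s y) u +
        (Q κ (f s y) R u + (Q κ R (f s y) u + Q κ R R u)) := by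
      have e1 : Q κ (H s y) (H s y) u = Q κ (f s y) (H s y) u + Q κ R (H s y) u :=
        Q_add_left κ mf (mf.add mR) u
      have e2 : Q κ (f s y) (H s y) u = Q κ (f s y) (f s y) u + Q κ (f s y) R u :=
        Q_add_right κ mf mf u
      have e3 : Q κ R (H s y) u = Q κ R (f s y) u + Q κ R R u := Q_add_right κ mR mf u
      rw [e1, e2, e3, add_assoc]
    have b0 := (Q_bound hβ hT hC1 hκ μ hC0 hC0 hs 0 (mul_nonneg hμ.le hs.1) (hfb' s hs y)
      (k := f s y) (by simpa using hfb' s hs y) u).1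
    have b1 := Q_bound hβ hT hC1 hκ μ hC0 hη0.le hs (μ * s) le_rfl (hfb' s hs y) hRb u
    have b2 := (Q_bound hβ hT hC1 hκ μ zero_le_one hη0.le hs (μ * s) le_rfl hRb1 hRb u).1
    have hsum : Q κ (f s y) R u + (Q κ R (f s y) u + Q κ R R u) ≤
        ENNReal.ofReal ((2 * C0 + 1) * η * C1) * gB β T μ s u := by
      calc Q κ (f s y) R u + (Q κ R (f s y) u + Q κ R R u)
          ≤ ENNReal.ofReal (C0 * η * C1) * gB β T μ s u +
            (ENNReal.ofReal (C0 * η * C1) * gB β T μ s u +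
              ENNReal.ofReal (1 * η * C1) * gB β T μ s u) :=
            add_le_add b1.1 (add_le_add b1.2 b2)
        _ = _ := by
            rw [← add_mul, ← add_mul, ← ENNReal.ofReal_add (by positivity) (by positivity),
              ← ENNReal.ofReal_add (by positivity) (by positivity)]
            congr 2; ring
    calc ENNReal.ofReal (1 + δ) * Q κ (H s y) (H s y) u
        = q1 s y u + (ENNReal.ofReal δ * Q κ (f s y) (f s y) u + ENNReal.ofReal (1 + δ) *
          (Q κ (f s y) R u + (Q κ R (f s y) u + Q κ R R u))) := by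
          rw [hexp, mul_add, ENNReal.ofReal_add zero_le_one hδ0.le, ENNReal.ofReal_one]
          rw [add_mul 1, one_mul, hq1]
          ring
      _ ≤ q1 s y u + (ENNReal.ofReal δ * (ENNReal.ofReal (C0 * C0 * C1) * gB β T μ s u) +
          ENNReal.ofReal 2 * (ENNReal.ofReal ((2 * C0 + 1) * η * C1) * gB β T μ s u)) := by
          refine add_le_add le_rfl (add_le_add (mul_le_mul' le_rfl b0)
            (mul_le_mul' (ENNReal.ofReal_le_ofReal (by linarith)) hsum))
      _ = q1 s y u + ENNReal.ofReal A * gB β T μ s u := by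
          rw [← mul_assoc, ← mul_assoc, ← ENNReal.ofReal_mul hδ0.le,
            ← ENNReal.ofReal_mul (by norm_num : (0:ℝ) ≤ 2), ← add_mul,
            ← ENNReal.ofReal_add (by positivity) (by positivity)]
          congr 3
          rw [hA]; ring
  have hfin : η / 2 + A * psi β T μ ≤ η := by
    have e1 : A * psi β T μ = δ * (C0 ^ 2 * C1 * psi β T μ) +
        η * (2 * (2 * C0 + 1) * C1 * psi β T μ) := by rw [hA]; ring
    rw [e1]
    have e2 := mul_le_mul_of_nonneg_left hpsi' hη0.le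
    linarith
  have hgx : D 0 t x v * g (x - t • v) v ≤
      D 0 t x v * f 0 (x - t • v) v + ENNReal.ofReal (η / 2) * wT β T μ t v := by
    calc D 0 t x v * g (x - t • v) v
        ≤ D 0 t x v * (f 0 (x - t • v) v + ENNReal.ofReal (η / 2) * wG (2 * β) v) :=
          mul_le_mul' le_rfl (hgb _ _)
      _ = D 0 t x v * f 0 (x - t • v) v +
          D 0 t x v * (ENNReal.ofReal (η / 2) * wG (2 * β) v) := mul_add _ _ _
      _ ≤ D 0 t x v * f 0 (x - t • v) v + 1 * (ENNReal.ofReal (η / 2) * wT β T μ t v) :=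
          add_le_add le_rfl (mul_le_mul' (hD1 _ _ _ _) (mul_le_mul' le_rfl
            ((wG_anti (rate_mem hβ hT ht).2 v).trans (wG_le_wT hβ hT hμ ht v))))
      _ = _ := by rw [one_mul]
  calc D 0 t x v * g (x - t • v) v + ∫⁻ s in Ioc 0 t, D s t x v *
        (ENNReal.ofReal (1 + δ) * Q κ (H s (x - (t - s) • v)) (H s (x - (t - s) • v)) v)
      ≤ (D 0 t x v * f 0 (x - t • v) v + ENNReal.ofReal (η / 2) * wT β T μ t v) +
          ∫⁻ s in Ioc 0 t, (D s t x v * q1 s (x - (t - s) • v) v +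
          D s t x v * (ENNReal.ofReal A * gB β T μ s v)) := by
        refine add_le_add hgx (setLIntegral_mono' measurableSet_Ioc fun s hs => ?_)
        rw [← mul_add]
        exact mul_le_mul' le_rfl (hsrc s ⟨hs.1.le, hs.2.trans ht.2⟩ _ _)
    _ = (D 0 t x v * f 0 (x - t • v) v + ENNReal.ofReal (η / 2) * wT β T μ t v) +
          ((∫⁻ s in Ioc 0 t, D s t x v * q1 s (x - (t - s) • v) v) +
          ∫⁻ s in Ioc 0 t, D s t x v * (ENNReal.ofReal A * gB β T μ s v)) := by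
        rw [lintegral_add_left (meas_integrand hD hf0 hq1m t x v)]
    _ = f t x v + (ENNReal.ofReal (η / 2) * wT β T μ t v +
          ∫⁻ s in Ioc 0 t, D s t x v * (ENNReal.ofReal A * gB β T μ s v)) := by
        rw [hmild t ht x v]
        ring
    _ ≤ f t x v + (ENNReal.ofReal (η / 2) * wT β T μ t v +
          ENNReal.ofReal (A * psi β T μ) * wT β T μ t v) :=
        add_le_add le_rfl (add_le_add le_rfl (duh_bound hβ hT hμ hA0 hD1 (q := fun s y u =>
          ENNReal.ofReal A * gB β T μ s u) (fun s hs y u => le_rfl) ht x v))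
    _ = f t x v + ENNReal.ofReal (η / 2 + A * psi β T μ) * wT β T μ t v := by
        rw [← add_mul, ← ENNReal.ofReal_add (by positivity) (by positivity)]
    _ ≤ H t x v := add_le_add le_rfl (mul_le_mul' (ENNReal.ofReal_le_ofReal hfin) le_rfl)

end main

/-! ### Instance -/

section inst

open Crest.AnalysisR.Kinetic
open Crest.Agent.R122.Boltz814 Crest.Agent.R122.Kin416 Crest.Agent.R122.Seg814

variable {Φ : Space3 → ℝ} {β T : ℝ} {f₀ : PhasePoint → ℝ} {f : ℝ → PhasePoint → ℝ}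

/-- energy weighted initial datum -/
def fW (T : ℝ) (f : ℝ → PhasePoint → ℝ) (κ : ℝ) (x v : Space3) : ℝ≥0∞ :=
  ENNReal.ofReal (Real.exp (κ * ‖v‖ ^ 2)) * fE T f 0 x v

theorem meas_fW (hf : IsRegularKineticSolution Φ β T f₀ f) (κ : ℝ) :
    Measurable fun p : Space3 × Space3 => fW T f κ p.1 p.2 := by
  unfold fW
  refine Measurable.mul ?_ (meas_fE_zero hf)
  fun_prop

theorem exp_sub_one_mul_le {κ β ρ : ℝ} (hβ : 0 < β) (hκ0 : 0 ≤ κ) (hκ : κ ≤ β / 2) (hρ : 0 ≤ ρ) :
    Real.exp (κ * ρ) ≤ 1 + 2 * κ / β * Real.exp (β * ρ) := by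
  have h1 : Real.exp (κ * ρ) - 1 ≤ κ * ρ * Real.exp (κ * ρ) := by
    have h2 := Real.add_one_le_exp (-(κ * ρ))
    have h3 := Real.exp_pos (κ * ρ)
    have h4 : Real.exp (-(κ * ρ)) * Real.exp (κ * ρ) = 1 := by
      rw [← Real.exp_add]; simp
    nlinarith
  have h5 : β / 2 * ρ ≤ Real.exp ((β - κ) * ρ) := by
    have h6 := Real.add_one_le_exp ((β - κ) * ρ)
    nlinarith
  have h7 : Real.exp ((β - κ) * ρ) * Real.exp (κ * ρ) = Real.exp (β * ρ) := by
    rw [← Real.exp_add]; congr 1; ring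
  have h8 : κ * ρ * Real.exp (κ * ρ) ≤ 2 * κ / β * Real.exp (β * ρ) := by
    rw [← h7]
    have h9 := Real.exp_pos (κ * ρ)
    have e1 : κ * ρ = 2 * κ / β * (β / 2 * ρ) := by field_simp
    calc κ * ρ * Real.exp (κ * ρ) = 2 * κ / β * (β / 2 * ρ) * Real.exp (κ * ρ) := by rw [← e1]
      _ ≤ 2 * κ / β * Real.exp ((β - κ) * ρ) * Real.exp (κ * ρ) := by gcongr
      _ = _ := by ring
  linarith

/-- **Energy weighted window moment.** -/
theorem window_energy_moment (hβ : 0 < β) (hT : 0 < T) (hΦ : AdmissiblePotential Φ)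
    (hf : IsRegularKineticSolution Φ β T f₀ f) :
    ∃ h₀ lam κ C : ℝ, 0 < h₀ ∧ 1 < lam ∧ 0 < κ ∧ 0 ≤ C ∧
      ∀ tw ∈ Icc 0 T, ∀ t ∈ Icc 0 (tw + h₀), ∀ x v,
      ∑' τ : CTree, ENNReal.ofReal lam ^ τ.size *
        F (kapQ Φ) (Dwin (damp T f) tw) (fW T f κ) τ t x v ≤ ENNReal.ofReal C * wG (β / 4) v := by
  have S := Scat818.scatFacts hΦ
  obtain ⟨C0, hC0, hb⟩ := exists_bound hT hf
  have hβ2 : 0 < β / 2 := by positivity
  have hβ4 : 0 < β / 4 := by positivity
  have hfb : ∀ t ∈ Icc 0 T, ∀ x v, fE T f t x v ≤ ENNReal.ofReal C0 * wG (2 * (β / 2)) v :=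
    fun t _ x v => (hb t x v).trans (mul_le_mul' le_rfl (wG_anti (by linarith) v))
  obtain ⟨lam, η, hlam, hη, H⟩ := exp_moment_pert (κ := kapQ Φ) hβ2 hT hC0 (C1G_nonneg (β / 2))
    (kernelBound_kapQ S hβ2) damp_le_one (meas4_damp hf) (meas3_fE hf) hfb (isMild hβ hT hΦ hf)
  obtain ⟨h₀, hh₀, H2⟩ := exists_window_moment (κ := kapQ Φ) (β := β / 4) (C0 := C0 + 1)
    (C1 := C1G (β / 4)) hβ4 (by linarith) (C1G_nonneg _) (kernelBound_kapQ S hβ4) (lam := lam)
    (by linarith)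
  set κ : ℝ := min (β / 2) (β * η / (2 * (C0 + 1))) with hκ
  have hκ0 : 0 < κ := lt_min hβ2 (by positivity)
  have hκ1 : κ ≤ β / 2 := min_le_left _ _
  have hκ2 : C0 * (2 * κ / β) ≤ η := by
    have h1 : κ ≤ β * η / (2 * (C0 + 1)) := min_le_right _ _
    rw [le_div_iff₀ (by positivity)] at h1
    have h2 : C0 * (2 * κ / β) = (C0 * (2 * κ)) / β := by ring
    rw [h2, div_le_iff₀ hβ]
    nlinarith
  have hdat : ∀ x v, fW T f κ x v ≤ fE T f 0 x v + ENNReal.ofReal η * wG (2 * (β / 2)) v := by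
    intro x v
    have h1 := exp_sub_one_mul_le hβ hκ0.le hκ1 (sq_nonneg ‖v‖)
    unfold fW
    calc ENNReal.ofReal (Real.exp (κ * ‖v‖ ^ 2)) * fE T f 0 x v
        ≤ ENNReal.ofReal (1 + 2 * κ / β * Real.exp (β * ‖v‖ ^ 2)) * fE T f 0 x v :=
          mul_le_mul' (ENNReal.ofReal_le_ofReal h1) le_rfl
      _ = fE T f 0 x v + ENNReal.ofReal (2 * κ / β * Real.exp (β * ‖v‖ ^ 2)) * fE T f 0 x v := by
          rw [ENNReal.ofReal_add zero_le_one (by positivity), ENNReal.ofReal_one, add_mul, one_mul]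
      _ ≤ fE T f 0 x v + ENNReal.ofReal (2 * κ / β * Real.exp (β * ‖v‖ ^ 2)) *
          (ENNReal.ofReal C0 * wG (2 * β) v) :=
          add_le_add le_rfl (mul_le_mul' le_rfl (hb 0 x v))
      _ ≤ _ := by
          refine add_le_add le_rfl ?_
          unfold wG
          rw [← ENNReal.ofReal_mul hC0, ← ENNReal.ofReal_mul (by positivity),
            ← ENNReal.ofReal_mul hη.le]
          refine ENNReal.ofReal_le_ofReal ?_
          have e1 : Real.exp (β * ‖v‖ ^ 2) * Real.exp (-(2 * β * ‖v‖ ^ 2)) =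
              Real.exp (-(2 * (β / 2) * ‖v‖ ^ 2)) := by
            rw [← Real.exp_add]; congr 1; ring
          calc 2 * κ / β * Real.exp (β * ‖v‖ ^ 2) * (C0 * Real.exp (-(2 * β * ‖v‖ ^ 2)))
              = C0 * (2 * κ / β) * (Real.exp (β * ‖v‖ ^ 2) * Real.exp (-(2 * β * ‖v‖ ^ 2))) := by
                ring
            _ ≤ η * Real.exp (-(2 * (β / 2) * ‖v‖ ^ 2)) := by
                rw [e1]
                exact mul_le_mul_of_nonneg_right hκ2 (Real.exp_pos _).le
  refine ⟨h₀, lam, κ, 6 * (C0 + 1), hh₀, hlam, hκ0, by positivity, fun tw htw t ht x v => ?_⟩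
  refine H2 damp_le_one (meas4_damp hf) (meas_fW hf κ) (fun t ht x v => ?_) tw htw t ht x v
  rw [show 2 * (β / 4) = β / 2 by ring]
  exact H (fW T f κ) (meas_fW hf κ) hdat t ht x v

/-- smaller weights -/
theorem fW_mono {κ κ' : ℝ} (h : κ' ≤ κ) (x v : Space3) : fW T f κ' x v ≤ fW T f κ x v := by
  unfold fW
  refine mul_le_mul' (ENNReal.ofReal_le_ofReal (Real.exp_le_exp.2 ?_)) le_rfl
  exact mul_le_mul_of_nonneg_right h (sq_nonneg _)

end inst

end Crest.Agent.R122.KinE383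
end
end

-- ▼ part R122/GIVSuper_383
section

/-!
# Row 122, block F (helper383): (I4), the contraction inequality of the window step

The weight of a family is `Awt l S tw t = exp (l * ∫_{tw}^t ∑_i 1[u < b_i] (1 + |c_i'(u)|) du)`.
`contraction`: for a short window the integral over the children of their weight times their
damping up to `tw` is at most one half of the weight of the family times its damping up to `tw`.
-/

set_option autoImplicit false
open MeasureTheory Set Filter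
open scoped Classical ENNReal Topology NNReal
open Crest.AnalysisR.Kinetic
open Crest.Agent.R122.GC311 Crest.Agent.R122.Causal291 Crest.Agent.R122.Master566
open Crest.Agent.R122.GIV566 Crest.Agent.R122.Kin796 Crest.Agent.R122.Disc416
open Crest.Agent.R122.Tree674 Crest.Agent.R122.TreeEps399 Crest.Agent.R122.Hid424
open Crest.Agent.R122.Boltz814 (nuF fE damp exists_nuF_le measurable_nuF fE_of_mem gaussMoment
  gaussMoment_nonneg lintegral_norm_sub_mul_gauss_le)
open Crest.Agent.R122.Kin416 (kapQ)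
open Crest.Agent.R122.KinE383
noncomputable section

namespace Crest.Agent.R122.GIVStep383

open CTree

variable {Φ : Space3 → ℝ} {ι : Type} {β T : ℝ} {f₀ : PhasePoint → ℝ} {f : ℝ → PhasePoint → ℝ}

/-! ### The weight of a family -/

/-- growth exponent -/
def Gx [Fintype ι] (S : Tubes ι) (tw t : ℝ) : ℝ≥0∞ := Prim383.R (rateT aV S) tw t

/-- weight of a family -/
def Awt [Fintype ι] (l : ℝ) (S : Tubes ι) (tw t : ℝ) : ℝ≥0∞ :=
  ENNReal.ofReal (Real.exp (l * (Gx S tw t).toReal))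

theorem Gx_ne_top [Fintype ι] {S : Tubes ι} {M : ℝ≥0}
    (hS : ∀ i, LipschitzOnWith M (S.c i) (Icc 0 T)) {tw t : ℝ} (htw : 0 ≤ tw) (ht : t ≤ T) :
    Gx S tw t ≠ ∞ :=
  lintegral_rateT_ne_top (L := 1) zero_le_one (fun t x v => by rw [one_mul]; rfl) hS htw ht

theorem Awt_ne_top [Fintype ι] {l : ℝ} {S : Tubes ι} {tw t : ℝ} : Awt l S tw t ≠ ∞ :=
  ENNReal.ofReal_ne_top

theorem one_le_Awt [Fintype ι] {l : ℝ} (hl : 0 ≤ l) {S : Tubes ι} {tw t : ℝ} :
    1 ≤ Awt l S tw t := by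
  unfold Awt
  rw [← ENNReal.ofReal_one]
  exact ENNReal.ofReal_le_ofReal (Real.one_le_exp (mul_nonneg hl ENNReal.toReal_nonneg))

theorem lintegral_rateT_aV_tree (hΦ : AdmissiblePotential Φ) {P : CTree} {s : ℝ} {ℓ : PhasePoint}
    {p : Par P} (hV : Valid Φ 0 P s ℓ.2 p) {tw h : ℝ} (hs : s ≤ tw + h) (hh : 0 ≤ h) :
    ∫⁻ u in Ioc tw s, rateT aV (treeT0 Φ P s ℓ p) u ≤
      ENNReal.ofReal (h * (2 * P.leaves + (‖ℓ.2‖ ^ 2 + Tube818.wSq P p))) := by
  have hE : 0 ≤ 2 * (P.leaves : ℝ) + (‖ℓ.2‖ ^ 2 + Tube818.wSq P p) := by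
    have := Tube818.wSq_nonneg P p
    positivity
  have h1 : ∫⁻ u in Ioc tw s, rateT aV (treeT0 Φ P s ℓ p) u ≤
      ∫⁻ _u in Ioc tw s, ENNReal.ofReal (2 * P.leaves + (‖ℓ.2‖ ^ 2 + Tube818.wSq P p)) := by
    refine lintegral_mono_ae (ae_restrict_of_ae ?_)
    filter_upwards [ae_notTime P p] with u hu
    rw [rateT_tree aV P s ℓ p hu]
    exact rateP_aV_le hΦ hV u
  refine h1.trans ?_
  rw [setLIntegral_const, Real.volume_Ioc, ← ENNReal.ofReal_mul hE, mul_comm h]
  exact ENNReal.ofReal_le_ofReal (mul_le_mul_of_nonneg_left (by linarith) hE)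

/-- weight of a child -/
theorem Awt_child_le (hΦ : AdmissiblePotential Φ) [Fintype ι] {S : Tubes ι} {M : ℝ≥0}
    (hS : ∀ i, LipschitzOnWith M (S.c i) (Icc 0 T)) {l tw h : ℝ} (hl : 0 ≤ l) (hh : 0 ≤ h)
    (htw : 0 ≤ tw) (i : ι) {P : CTree} {θ : HPar P} (hs : θ.1 ∈ Icc tw (tw + h)) (hsT : θ.1 ≤ T)
    (hV : Valid Φ 0 P θ.1 θ.2.1 θ.2.2.2) :
    Awt l (childT0 Φ S i θ) tw θ.1 ≤ Awt l S tw θ.1 * ENNReal.ofReal
      (Real.exp (l * h * (2 * P.leaves + (‖θ.2.1‖ ^ 2 + Tube818.wSq P θ.2.2.2)))) := by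
  set E : ℝ := 2 * (P.leaves : ℝ) + (‖θ.2.1‖ ^ 2 + Tube818.wSq P θ.2.2.2) with hE
  have hE0 : 0 ≤ E := by
    have := Tube818.wSq_nonneg P θ.2.2.2
    positivity
  have hsub : Ioc tw θ.1 ⊆ Icc 0 T := fun u hu => ⟨htw.trans hu.1.le, hu.2.trans hsT⟩
  have h1 : Gx (childT0 Φ S i θ) tw θ.1 = Gx S tw θ.1 +
      ∫⁻ u in Ioc tw θ.1, rateT aV (treeT0 Φ P θ.1
        (S.c i θ.1 - θ.1 • θ.2.1, θ.2.1) θ.2.2.2) u := by
    unfold Gx Prim383.R childT0
    simp only [rateT_sum]
    rw [lintegral_add_left' (aemeasurable_rateT meas_aV fun j => aemeasurable_curve hS hsub j)]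
  have h2 := lintegral_rateT_aV_tree hΦ (ℓ := (S.c i θ.1 - θ.1 • θ.2.1, θ.2.1)) hV hs.2 hh
  have hG := Gx_ne_top hS htw hsT
  unfold Awt
  rw [h1, ← ENNReal.ofReal_mul (Real.exp_pos _).le, ← Real.exp_add]
  refine ENNReal.ofReal_le_ofReal (Real.exp_le_exp.2 ?_)
  have h3 : (∫⁻ u in Ioc tw θ.1, rateT aV (treeT0 Φ P θ.1
        (S.c i θ.1 - θ.1 • θ.2.1, θ.2.1) θ.2.2.2) u).toReal ≤ h * E :=
    ENNReal.toReal_le_of_le_ofReal (mul_nonneg hh hE0) h2
  rw [ENNReal.toReal_add hG (ne_top_of_le_ne_top ENNReal.ofReal_ne_top h2)]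
  have h4 := mul_le_mul_of_nonneg_left h3 hl
  linarith

/-! ### Energy weighted tree weights -/

theorem prod_fW (hΦ : AdmissiblePotential Φ) {c : ℝ} {P : CTree} {ℓ : PhasePoint} {p : Par P}
    (hA : Adm Φ P ℓ.2 p) :
    ∏ j, fW T f c (lines Φ 0 P ℓ p j).1 (lines Φ 0 P ℓ p j).2 =
      ENNReal.ofReal (Real.exp (c * (‖ℓ.2‖ ^ 2 + Tube818.wSq P p))) *
        ∏ j, fE T f 0 (lines Φ 0 P ℓ p j).1 (lines Φ 0 P ℓ p j).2 := by
  unfold fW
  rw [Finset.prod_mul_distrib]
  congr 1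
  rw [← ENNReal.ofReal_prod_of_nonneg fun j _ => (Real.exp_pos _).le, ← Real.exp_sum,
    ← Finset.mul_sum, ← Tube818.sum_vels hΦ P ℓ.2 p hA]
  simp only [lines_vel]

/-- the tree weight with damping before `tw` and energy weight -/
theorem wt_mul_eexp' (hΦ : AdmissiblePotential Φ) (hβ : 0 < β) (hT : 0 < T)
    (hf : IsRegularKineticSolution Φ β T f₀ f) {c tw : ℝ} (htw : 0 ≤ tw)
    {P : CTree} {s : ℝ} (hs : 0 ≤ s) {x v : Space3} {p : Par P} (hV : Valid Φ 0 P s v p) :
    (wt Φ P v p * ∏ j, ENNReal.ofReal (f₀ (lines Φ 0 P (x - s • v, v) p j))) *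
      eexp (LamP Φ (nuF T f) tw P s (x - s • v, v) p) *
      ENNReal.ofReal (Real.exp (c * (‖v‖ ^ 2 + Tube818.wSq P p))) =
      TreeF399.Wt Φ (Dwin (nuF T f) tw) (fW T f c) P s x v p := by
  rw [← TreeF399.weight_eq, indicator_of_mem (by exact hV), prod_fE hf hT.le,
    dens_eq (ℓ := (x - s • v, v)) (finRate_nuF hβ hT hf) htw _ hs hV.2,
    prod_fW hΦ (ℓ := (x - s • v, v)) hV.1]
  ring

/-- velocity, impact and tree factor of the contraction integrand -/
def GJ (Φ : Space3 → ℝ) (T : ℝ) (D : ℝ → ℝ → Space3 → Space3 → ℝ≥0∞) (g : Space3 → Space3 → ℝ≥0∞)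
    (S : Tubes ι) (x : Space3) (i : ι) (P : CTree) (s : ℝ) (r : Space3 × Plane × Par P) : ℝ≥0∞ :=
  ENNReal.ofReal ‖r.1 - deriv (S.c i) s‖ * ((Metric.ball (0 : Plane) 1).indicator 1 r.2.1
    * TreeF399.Wt Φ D g P s (cz T (S.c i) s + x) r.1 r.2.2)

theorem measurable_GJ (hT : 0 ≤ T) (hΦ : AdmissiblePotential Φ)
    {D : ℝ → ℝ → Space3 → Space3 → ℝ≥0∞} (hD : Meas4 D) {g : Space3 → Space3 → ℝ≥0∞}
    (hg : Measurable fun p : Space3 × Space3 => g p.1 p.2) {S : Tubes ι} {M : ℝ≥0}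
    (hS : ∀ i, LipschitzOnWith M (S.c i) (Icc 0 T)) (i : ι) (P : CTree) :
    Measurable fun z : (Space3 × ℝ) × (Space3 × Plane × Par P) =>
      GJ Φ T D g S z.1.1 i P z.1.2 z.2 := by
  unfold GJ
  have h0 : Measurable fun z : (Space3 × ℝ) × (Space3 × Plane × Par P) =>
      deriv (S.c i) z.1.2 := (measurable_deriv _).comp (measurable_snd.comp measurable_fst)
  have hB : Measurable ((Metric.ball (0 : Plane) 1).indicator (1 : Plane → ℝ≥0∞)) :=
    measurable_one.indicator measurableSet_ball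
  have hv : Measurable fun z : (Space3 × ℝ) × (Space3 × Plane × Par P) => z.2.1 := by fun_prop
  have hy : Measurable fun z : (Space3 × ℝ) × (Space3 × Plane × Par P) => z.2.2.1 := by fun_prop
  have hp : Measurable fun z : (Space3 × ℝ) × (Space3 × Plane × Par P) => z.2.2.2 := by fun_prop
  have hs : Measurable fun z : (Space3 × ℝ) × (Space3 × Plane × Par P) => z.1.2 := by fun_prop
  have hx : Measurable fun z : (Space3 × ℝ) × (Space3 × Plane × Par P) => z.1.1 := by fun_prop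
  refine Measurable.mul (hv.sub h0).norm.ennreal_ofReal (Measurable.mul (hB.comp hy) ?_)
  have hc := (continuous_cz hT (hS i)).measurable.comp hs
  have h1 : Measurable fun z : (Space3 × ℝ) × (Space3 × Plane × Par P) =>
      (((z.1.2, cz T (S.c i) z.1.2 + z.1.1, z.2.1), z.2.2.2) :
        (ℝ × Space3 × Space3) × Par P) := (hs.prodMk ((hc.add hx).prodMk hv)).prodMk hp
  exact Measurable.comp (TreeF399.measurable_Wt hΦ hD hg P) h1

theorem GJ_def (D : ℝ → ℝ → Space3 → Space3 → ℝ≥0∞) (g : Space3 → Space3 → ℝ≥0∞)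
    (S : Tubes ι) (x : Space3) (i : ι) (P : CTree) (s : ℝ) (r : Space3 × Plane × Par P) :
    GJ Φ T D g S x i P s r = ENNReal.ofReal ‖r.1 - deriv (S.c i) s‖ *
      ((Metric.ball (0 : Plane) 1).indicator 1 r.2.1
        * TreeF399.Wt Φ D g P s (cz T (S.c i) s + x) r.1 r.2.2) := rfl

attribute [irreducible] GJ

/-- the integral of `GJ` over the velocity, the impact parameter and the node parameters -/
theorem lintegral_GJ (hT : 0 ≤ T) (hΦ : AdmissiblePotential Φ)
    {D : ℝ → ℝ → Space3 → Space3 → ℝ≥0∞} (hD : Meas4 D) {g : Space3 → Space3 → ℝ≥0∞}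
    (hg : Measurable fun p : Space3 × Space3 => g p.1 p.2) {S : Tubes ι} {M : ℝ≥0}
    (hS : ∀ i, LipschitzOnWith M (S.c i) (Icc 0 T)) (x : Space3) (i : ι) (P : CTree) (s : ℝ) :
    ∫⁻ r : Space3 × Plane × Par P, GJ Φ T D g S x i P s r =
      ∫⁻ v : Space3, ENNReal.ofReal Real.pi * (ENNReal.ofReal ‖v - deriv (S.c i) s‖ *
        F (kapQ Φ) D g P s (cz T (S.c i) s + x) v) := by
  have hm : Measurable fun r : Space3 × Plane × Par P => GJ Φ T D g S x i P s r := by
    have h1 : Measurable fun r : Space3 × Plane × Par P =>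
        (((x, s), r) : (Space3 × ℝ) × (Space3 × Plane × Par P)) := by fun_prop
    exact Measurable.comp (g := fun z : (Space3 × ℝ) × (Space3 × Plane × Par P) =>
      GJ Φ T D g S z.1.1 i P z.1.2 z.2) (measurable_GJ hT hΦ hD hg hS i P) h1
  rw [Measure.volume_eq_prod, lintegral_prod _ hm.aemeasurable]
  refine lintegral_congr fun v => ?_
  have hI : Measurable ((Metric.ball (0 : Plane) 1).indicator (1 : Plane → ℝ≥0∞)) :=
    measurable_one.indicator measurableSet_ball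
  have hW : Measurable fun p : Par P =>
      TreeF399.Wt Φ D g P s (cz T (S.c i) s + x) v p :=
    TreeF399.measurable_Wt_slice hΦ hD hg P s _ v
  have h0 : ∀ y : Plane × Par P, GJ Φ T D g S x i P s (v, y) =
      ENNReal.ofReal ‖v - deriv (S.c i) s‖ * ((Metric.ball (0 : Plane) 1).indicator 1 y.1
      * TreeF399.Wt Φ D g P s (cz T (S.c i) s + x) v y.2) := fun y => GJ_def _ _ _ _ _ _ _ _
  simp only [h0]
  rw [lintegral_const_mul' _ _ ENNReal.ofReal_ne_top, Measure.volume_eq_prod]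
  have h2 := lintegral_prod_mul (μ := (volume : Measure Plane)) (ν := (volume : Measure (Par P)))
    hI.aemeasurable (g := fun p => TreeF399.Wt Φ D g P s (cz T (S.c i) s + x) v p)
    hW.aemeasurable
  rw [h2, lintegral_indicator_one measurableSet_ball, EuclideanSpace.volume_ball_fin_two,
    ENNReal.ofReal_one, one_pow, one_mul, TreeF399.lintegral_Wt hΦ hD hg]
  ring

theorem TreeF399_F_mono {D : ℝ → ℝ → Space3 → Space3 → ℝ≥0∞} {g g' : Space3 → Space3 → ℝ≥0∞}
    (h : ∀ x v, g x v ≤ g' x v) : ∀ (P : CTree) (t : ℝ) (x v : Space3),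
    F (kapQ Φ) D g P t x v ≤ F (kapQ Φ) D g' P t x v
  | leaf, t, x, v => mul_le_mul' le_rfl (h _ _)
  | node l r, t, x, v => by
      refine lintegral_mono fun s => mul_le_mul' le_rfl ?_
      exact Q_mono _ (fun u => TreeF399_F_mono h l s _ u) (fun u => TreeF399_F_mono h r s _ u) v

theorem sum_lintegral_le {α ι : Type*} [MeasurableSpace α] (μ : Measure α) (s : Finset ι)
    (g : ι → α → ℝ≥0∞) : ∑ i ∈ s, ∫⁻ a, g i a ∂μ ≤ ∫⁻ a, ∑ i ∈ s, g i a ∂μ := by
  induction s using Finset.induction_on with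
  | empty => simp
  | insert q s hq ih =>
    rw [Finset.sum_insert hq]
    refine (add_le_add le_rfl ih).trans ((le_lintegral_add _ _).trans (le_of_eq ?_))
    refine lintegral_congr fun a => ?_
    rw [Finset.sum_insert hq]

/-- bound of the sum over the trees at fixed hitting time -/
theorem fibre_bound (hT : 0 ≤ T) (hΦ : AdmissiblePotential Φ) (hβ : 0 < β)
    {D : ℝ → ℝ → Space3 → Space3 → ℝ≥0∞} (hD : Meas4 D) {g : Space3 → Space3 → ℝ≥0∞}
    (hg : Measurable fun p : Space3 × Space3 => g p.1 p.2) {S : Tubes ι} {M : ℝ≥0}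
    (hS : ∀ i, LipschitzOnWith M (S.c i) (Icc 0 T)) (x : Space3) (i : ι) {s C lam c : ℝ}
    (hC : 0 ≤ C) (hc : Real.exp (2 * c) ≤ lam)
    (hb : ∀ x v, ∑' P : CTree, ENNReal.ofReal lam ^ P.size * F (kapQ Φ) D g P s x v ≤
      ENNReal.ofReal C * wG (β / 4) v) (Ps : Finset CTree) :
    ∑ P ∈ Ps, ENNReal.ofReal (Real.exp (2 * c * P.leaves)) *
      ∫⁻ r : Space3 × Plane × Par P, GJ Φ T D g S x i P s r ≤
      ENNReal.ofReal (Real.exp (2 * c) * Real.pi * C * gaussMoment (β / 4) 1) *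
        ENNReal.ofReal (1 + ‖deriv (S.c i) s‖) := by
  have hlam : 0 ≤ lam := (Real.exp_pos _).le.trans hc
  set V := deriv (S.c i) s with hV
  have hF : ∀ P, Measurable fun v => F (kapQ Φ) D g P s (cz T (S.c i) s + x) v := fun P =>
    meas_slice hD hg (meas_F (kapQ Φ) hD hg P) s _
  have hm : ∀ P : CTree, Measurable fun v : Space3 => ENNReal.ofReal Real.pi *
      (ENNReal.ofReal ‖v - V‖ * F (kapQ Φ) D g P s (cz T (S.c i) s + x) v) := by
    intro P
    exact ((by fun_prop : Measurable fun v : Space3 => ENNReal.ofReal ‖v - V‖).mul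
      (hF P)).const_mul _
  calc ∑ P ∈ Ps, ENNReal.ofReal (Real.exp (2 * c * P.leaves)) *
        ∫⁻ r : Space3 × Plane × Par P, GJ Φ T D g S x i P s r
      = ∑ P ∈ Ps, ∫⁻ v : Space3, ENNReal.ofReal (Real.exp (2 * c * P.leaves)) *
          (ENNReal.ofReal Real.pi *
          (ENNReal.ofReal ‖v - V‖ * F (kapQ Φ) D g P s (cz T (S.c i) s + x) v)) := by
        refine Finset.sum_congr rfl fun P _ => ?_
        rw [lintegral_GJ hT hΦ hD hg hS x i P s, ← lintegral_const_mul' _ _ ENNReal.ofReal_ne_top]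
    _ = ∫⁻ v : Space3, ∑ P ∈ Ps, ENNReal.ofReal (Real.exp (2 * c * P.leaves)) *
          (ENNReal.ofReal Real.pi *
          (ENNReal.ofReal ‖v - V‖ * F (kapQ Φ) D g P s (cz T (S.c i) s + x) v)) := by
        rw [lintegral_finsetSum _ fun P _ => (hm P).const_mul _]
    _ ≤ ∫⁻ v : Space3, ENNReal.ofReal (Real.exp (2 * c) * Real.pi * C) *
          (ENNReal.ofReal ‖V - v‖ * ENNReal.ofReal (Real.exp (-(β / 4) * ‖v‖ ^ 2))) := by
        refine lintegral_mono fun v => ?_
        have h1 : ∑ P ∈ Ps, ENNReal.ofReal (Real.exp (2 * c * P.leaves)) *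
            (ENNReal.ofReal Real.pi *
            (ENNReal.ofReal ‖v - V‖ * F (kapQ Φ) D g P s (cz T (S.c i) s + x) v)) ≤
            ENNReal.ofReal (Real.exp (2 * c)) * (ENNReal.ofReal Real.pi *
              (ENNReal.ofReal ‖v - V‖ * ∑ P ∈ Ps, ENNReal.ofReal lam ^ P.size *
                F (kapQ Φ) D g P s (cz T (S.c i) s + x) v)) := by
          rw [Finset.mul_sum, Finset.mul_sum, Finset.mul_sum]
          refine Finset.sum_le_sum fun P _ => ?_
          have h2 : ENNReal.ofReal (Real.exp (2 * c * P.leaves)) ≤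
              ENNReal.ofReal (Real.exp (2 * c)) * ENNReal.ofReal lam ^ P.size := by
            rw [← ENNReal.ofReal_pow hlam, ← ENNReal.ofReal_mul (Real.exp_pos _).le]
            refine ENNReal.ofReal_le_ofReal ?_
            have h3 : Real.exp (2 * c * P.leaves) =
                Real.exp (2 * c) * Real.exp (2 * c) ^ P.size := by
              rw [← Real.exp_nat_mul, ← Real.exp_add, CTree.leaves_eq]
              congr 1
              push_cast
              ring
            rw [h3]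
            exact mul_le_mul_of_nonneg_left (pow_le_pow_left₀ (Real.exp_pos _).le hc _)
              (Real.exp_pos _).le
          calc ENNReal.ofReal (Real.exp (2 * c * P.leaves)) * (ENNReal.ofReal Real.pi *
                (ENNReal.ofReal ‖v - V‖ * F (kapQ Φ) D g P s (cz T (S.c i) s + x) v))
              ≤ (ENNReal.ofReal (Real.exp (2 * c)) * ENNReal.ofReal lam ^ P.size) *
                (ENNReal.ofReal Real.pi *
                (ENNReal.ofReal ‖v - V‖ * F (kapQ Φ) D g P s (cz T (S.c i) s + x) v)) :=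
                mul_le_mul' h2 le_rfl
            _ = _ := by ring
        refine h1.trans ?_
        have h4 := (ENNReal.sum_le_tsum Ps (f := fun P : CTree => ENNReal.ofReal lam ^ P.size *
            F (kapQ Φ) D g P s (cz T (S.c i) s + x) v)).trans (hb (cz T (S.c i) s + x) v)
        calc ENNReal.ofReal (Real.exp (2 * c)) * (ENNReal.ofReal Real.pi *
              (ENNReal.ofReal ‖v - V‖ * ∑ P ∈ Ps, ENNReal.ofReal lam ^ P.size *
                F (kapQ Φ) D g P s (cz T (S.c i) s + x) v))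
            ≤ ENNReal.ofReal (Real.exp (2 * c)) * (ENNReal.ofReal Real.pi *
              (ENNReal.ofReal ‖v - V‖ * (ENNReal.ofReal C * wG (β / 4) v))) := by
              gcongr
          _ = _ := by
              have hp := Real.pi_pos.le
              rw [ENNReal.ofReal_mul (by positivity : 0 ≤ Real.exp (2 * c) * Real.pi),
                ENNReal.ofReal_mul (Real.exp_pos _).le, norm_sub_rev]
              unfold wG
              rw [← neg_mul]
              ring
    _ ≤ ENNReal.ofReal (Real.exp (2 * c) * Real.pi * C) *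
          ENNReal.ofReal ((1 + ‖V‖) * gaussMoment (β / 4) 1) := by
        rw [lintegral_const_mul' _ _ ENNReal.ofReal_ne_top]
        exact mul_le_mul' le_rfl (lintegral_norm_sub_mul_gauss_le (by positivity) V)
    _ = _ := by
        have hp := Real.pi_pos.le
        have hgm := gaussMoment_nonneg (β / 4) 1
        rw [← ENNReal.ofReal_mul (by positivity), ← ENNReal.ofReal_mul (by positivity)]
        congr 1
        ring

/-! ### Measurability in the translation -/

theorem Lam_shift_eq [Fintype ι] (S : Tubes ι) (x : Space3) {t : ℝ} (ht : t ≤ T) :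
    Lam T f (S.shift x) t = ∫⁻ s in Ioc 0 t, ∑ i, if s < S.b i then
      nuF T f s (cz T (S.c i) s + x) (deriv (S.c i) s) else 0 := by
  unfold Lam
  refine setLIntegral_congr_fun measurableSet_Ioc fun s hs => ?_
  show lam T f (S.shift x) s = _
  unfold lam
  refine Finset.sum_congr rfl fun i _ => ?_
  rw [deriv_shift, cz_eq ⟨hs.1.le, hs.2.trans ht⟩]
  rfl

attribute [local irreducible] nuF

theorem measurable_Lam_shift (hT : 0 ≤ T) (hf : IsRegularKineticSolution Φ β T f₀ f) [Fintype ι]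
    {S : Tubes ι} {M : ℝ≥0} (hS : ∀ i, LipschitzOnWith M (S.c i) (Icc 0 T)) :
    Measurable fun z : Space3 × ℝ => Lam T f (S.shift z.1) (min z.2 T) := by
  have h1 : Measurable fun z : (Space3 × ℝ) × ℝ => ∑ i, if z.2 < S.b i then
      nuF T f z.2 (cz T (S.c i) z.2 + z.1.1) (deriv (S.c i) z.2) else 0 := by
    refine Finset.measurable_sum _ fun i _ => ?_
    refine Measurable.ite (measurableSet_lt measurable_snd measurable_const) ?_ measurable_const
    have h2 : Measurable fun z : (Space3 × ℝ) × ℝ =>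
        (z.2, cz T (S.c i) z.2 + z.1.1, deriv (S.c i) z.2) := by
      have hc := (continuous_cz hT (hS i)).measurable
      have hd := measurable_deriv (S.c i)
      fun_prop
    exact Measurable.comp (g := fun p : ℝ × Space3 × Space3 => nuF T f p.1 p.2.1 p.2.2)
      (measurable_nuF hf) h2
  have h3 : Measurable fun z : (Space3 × ℝ) × ℝ => {z : (Space3 × ℝ) × ℝ |
      0 < z.2 ∧ z.2 ≤ min z.1.2 T}.indicator (fun z : (Space3 × ℝ) × ℝ => ∑ i,
      if z.2 < S.b i then nuF T f z.2 (cz T (S.c i) z.2 + z.1.1) (deriv (S.c i) z.2) else 0) z := by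
    refine h1.indicator ?_
    refine (measurableSet_lt measurable_const measurable_snd).inter
      (measurableSet_le measurable_snd ?_)
    exact (measurable_snd.comp measurable_fst).min measurable_const
  have h4 := h3.lintegral_prod_right' (ν := (volume : Measure ℝ))
  refine Eq.mp (congrArg Measurable (funext fun z => ?_)) h4
  symm
  rw [Lam_shift_eq S z.1 (min_le_right _ _), ← lintegral_indicator measurableSet_Ioc]
  refine lintegral_congr fun s => ?_
  by_cases h : s ∈ Ioc 0 (min z.2 T)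
  · rw [indicator_of_mem h, indicator_of_mem (show ((z, s) : (Space3 × ℝ) × ℝ) ∈
      {z : (Space3 × ℝ) × ℝ | 0 < z.2 ∧ z.2 ≤ min z.1.2 T} from h)]
  · rw [indicator_of_notMem h, indicator_of_notMem (show ((z, s) : (Space3 × ℝ) × ℝ) ∉
      {z : (Space3 × ℝ) × ℝ | 0 < z.2 ∧ z.2 ≤ min z.1.2 T} from h)]

/-- joint measurability of the damping of the family in the translation and the time -/
theorem measurable_dampG_shift (hT : 0 ≤ T) (hf : IsRegularKineticSolution Φ β T f₀ f) [Fintype ι]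
    {S : Tubes ι} {M : ℝ≥0} (hS : ∀ i, LipschitzOnWith M (S.c i) (Icc 0 T)) :
    Measurable fun z : Space3 × ℝ => dampG T f (S.shift z.1) (min z.2 T) := by
  unfold dampG
  exact ((measurable_Lam_shift hT hf hS).ennreal_toReal.neg.exp).ennreal_ofReal

theorem measurable_dampG_fix (hT : 0 ≤ T) (hf : IsRegularKineticSolution Φ β T f₀ f) [Fintype ι]
    {S : Tubes ι} {M : ℝ≥0} (hS : ∀ i, LipschitzOnWith M (S.c i) (Icc 0 T)) {t : ℝ} (ht : t ≤ T) :
    Measurable fun x : Space3 => dampG T f (S.shift x) t := by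
  have h1 : Measurable fun x : Space3 => ((x, t) : Space3 × ℝ) := by fun_prop
  have h2 := (measurable_dampG_shift hT hf hS).comp h1
  simp only [Function.comp_def, min_eq_left ht] at h2
  exact h2

/-! ### The contraction -/

/-- time factor of the contraction integrand -/
def QJ (T l tw t : ℝ) [Fintype ι] (S : Tubes ι) (i : ι) (s : ℝ) : ℝ≥0∞ :=
  (Ioc tw t ∩ Iio (S.b i)).indicator (fun s => Awt l S tw (min s T)) s

theorem measurable_QJ [Fintype ι] {S : Tubes ι} {M : ℝ≥0}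
    (hS : ∀ i, LipschitzOnWith M (S.c i) (Icc 0 T)) {l tw : ℝ} (hl : 0 ≤ l) (htw : 0 ≤ tw) (t : ℝ)
    (i : ι) : Measurable (QJ T l tw t S i) := by
  have h1 : Monotone fun s => Awt l S tw (min s T) := by
    intro s s' hss
    refine ENNReal.ofReal_le_ofReal (Real.exp_le_exp.2 (mul_le_mul_of_nonneg_left ?_ hl))
    exact ENNReal.toReal_mono (Gx_ne_top hS htw (min_le_right _ _))
      (Prim383.R_mono (min_le_min_right _ hss))
  exact h1.measurable.indicator (measurableSet_Ioc.inter measurableSet_Iio)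

theorem QJ_of_mem [Fintype ι] {l tw t : ℝ} (ht : t ≤ T) {S : Tubes ι} {i : ι} {s : ℝ}
    (hs : s ∈ Ioc tw t) : QJ T l tw t S i s = if s < S.b i then Awt l S tw s else 0 := by
  unfold QJ
  by_cases h : s < S.b i
  · rw [indicator_of_mem (show s ∈ Ioc tw t ∩ Iio (S.b i) from ⟨hs, h⟩), if_pos h,
      min_eq_left (hs.2.trans ht)]
  · rw [indicator_of_notMem (show s ∉ Ioc tw t ∩ Iio (S.b i) from fun h' => h h'.2), if_neg h]

theorem QJ_of_notMem [Fintype ι] {l tw t : ℝ} {S : Tubes ι} {i : ι} {s : ℝ}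
    (hs : s ∉ Ioc tw t) : QJ T l tw t S i s = 0 := by
  unfold QJ
  rw [indicator_of_notMem (show s ∉ Ioc tw t ∩ Iio (S.b i) from fun h' => hs h'.1)]

attribute [irreducible] QJ

/-- pointwise bound of the integrand -/
theorem integrand_le (hΦ : AdmissiblePotential Φ) (hβ : 0 < β) (hT : 0 < T)
    (hf : IsRegularKineticSolution Φ β T f₀ f) [Fintype ι] {S : Tubes ι} {M : ℝ≥0}
    (hS : ∀ i, LipschitzOnWith M (S.c i) (Icc 0 T)) {l tw h t : ℝ} (hl : 0 ≤ l) (hh : 0 ≤ h)
    (htw : 0 ≤ tw) (ht : t ≤ tw + h) (htT : t ≤ T) (i : ι) {P : CTree} (θ : HPar P) (x : Space3) :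
    Awt l (childT0 Φ S i θ) tw θ.1 * (wgt Φ f₀ tw t S i θ x *
      dampG T f ((childT0 Φ S i θ).shift x) tw) ≤
      dampG T f (S.shift x) tw * (QJ T l tw t S i θ.1 *
        (ENNReal.ofReal (Real.exp (2 * (l * h) * P.leaves)) *
          GJ Φ T (Dwin (nuF T f) tw) (fW T f (l * h)) S x i P θ.1 θ.2)) := by
  by_cases hG : HGood Φ tw t S i θ
  · obtain ⟨h1, h2, h3, hV⟩ := hG
    have hs0 : 0 ≤ θ.1 := htw.trans h1.1.le
    have hsT : θ.1 ≤ T := h1.2.trans htT
    have hA := Awt_child_le hΦ hS hl hh htw i (θ := θ) ⟨h1.1.le, h1.2.trans ht⟩ hsT hV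
    have hG' : HGood Φ tw t S i θ := ⟨h1, h2, h3, hV⟩
    refine (mul_le_mul' hA le_rfl).trans (le_of_eq ?_)
    rw [QJ_of_mem htT h1, if_pos h2, GJ_def, cz_eq ⟨hs0, hsT⟩,
      indicator_of_mem (by simpa using h3 : θ.2.2.1 ∈ Metric.ball (0 : Plane) 1),
      ← wt_mul_eexp' hΦ hβ hT hf htw hs0 hV,
      dampG_child hβ hT hf hS ⟨htw, h1.1.le.trans hsT⟩ i hV x]
    unfold wgt
    rw [if_pos hG']
    have e1 : Real.exp (l * h * (2 * P.leaves + (‖θ.2.1‖ ^ 2 + Tube818.wSq P θ.2.2.2))) =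
        Real.exp (2 * (l * h) * P.leaves) *
          Real.exp (l * h * (‖θ.2.1‖ ^ 2 + Tube818.wSq P θ.2.2.2)) := by
      rw [← Real.exp_add]
      congr 1
      ring
    rw [e1, ENNReal.ofReal_mul (Real.exp_pos _).le]
    simp only [Pi.one_apply, one_mul]
    ring
  · have h0 : wgt Φ f₀ tw t S i θ x = 0 := by
      unfold wgt
      rw [if_neg hG]
    rw [h0, zero_mul, mul_zero]
    exact bot_le

/-- **(I4)**: contraction for short windows. -/
theorem contraction (hβ : 0 < β) (hT : 0 < T) (hΦ : AdmissiblePotential Φ)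
    (hf : IsRegularKineticSolution Φ β T f₀ f) :
    ∃ h l : ℝ, 0 < h ∧ 0 < l ∧ ∀ tw ∈ Icc 0 T, ∀ t, t ≤ tw + h → t ≤ T →
      ∀ (ι : Type) [Fintype ι] (S : Tubes ι) (M : ℝ≥0),
      (∀ i, LipschitzOnWith M (S.c i) (Icc 0 T)) → ∀ φ : Space3 → ℝ≥0∞, Measurable φ →
      ∀ Ps : Finset CTree,
      ∑ P ∈ Ps, ∑ i, ∫⁻ θ : HPar P, Awt l (childT0 Φ S i θ) tw θ.1 *
        ∫⁻ x, φ x * wgt Φ f₀ tw t S i θ x * dampG T f ((childT0 Φ S i θ).shift x) tw ≤
      2⁻¹ * (Awt l S tw t * ∫⁻ x, φ x * dampG T f (S.shift x) tw) := by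
  obtain ⟨h₀, lam, κ, C, hh₀, hlam, hκ, hC, H⟩ := window_energy_moment hβ hT hΦ hf
  -- the exponent
  set c : ℝ := min κ (Real.log lam / 2) with hc
  have hc0 : 0 < c := lt_min hκ (half_pos (Real.log_pos hlam))
  have hcκ : c ≤ κ := min_le_left _ _
  have hclam : Real.exp (2 * c) ≤ lam := by
    have h1 : c ≤ Real.log lam / 2 := min_le_right _ _
    calc Real.exp (2 * c) ≤ Real.exp (Real.log lam) := Real.exp_le_exp.2 (by linarith)
      _ = lam := Real.exp_log (by linarith)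
  set C2 : ℝ := Real.exp (2 * c) * Real.pi * C * gaussMoment (β / 4) 1 with hC2
  have hC20 : 0 ≤ C2 := by
    have := gaussMoment_nonneg (β / 4) 1
    have := Real.pi_pos.le
    positivity
  set l : ℝ := 2 * C2 + c / h₀ with hl
  have hl0 : 0 < l := by positivity
  have hlC : 2 * C2 ≤ l := by
    have : 0 < c / h₀ := by positivity
    linarith
  set h : ℝ := c / l with hh
  have hh0 : 0 < h := by positivity
  have hlh : l * h = c := by rw [hh]; field_simp
  have hhh : h ≤ h₀ := by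
    rw [hh, div_le_iff₀ hl0, hl, mul_add]
    have h1 : h₀ * (c / h₀) = c := by field_simp
    rw [h1]
    have : 0 ≤ h₀ * (2 * C2) := by positivity
    linarith
  refine ⟨h, l, hh0, hl0, fun tw htw t ht htT ι _ S M hS φ hφ Ps => ?_⟩
  have hD : Meas4 (Dwin (nuF T f) tw) := by
    rw [← Dwin_814']
    exact Seg814.meas4_Dwin (meas4_damp hf) tw
  have hg := meas_fW hf c
  have hb : ∀ s ∈ Icc 0 (tw + h₀), ∀ x v, ∑' P : CTree, ENNReal.ofReal lam ^ P.size *
      F (kapQ Φ) (Dwin (nuF T f) tw) (fW T f c) P s x v ≤ ENNReal.ofReal C * wG (β / 4) v := by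
    intro s hs x v
    refine le_trans (ENNReal.tsum_le_tsum fun P => ?_) (H tw htw s hs x v)
    refine mul_le_mul' le_rfl ?_
    rw [Dwin_814']
    exact TreeF399_F_mono (fW_mono hcκ) P s x v
  have hdm : Measurable fun x : Space3 => dampG T f (S.shift x) tw :=
    measurable_dampG_fix hT.le hf hS htw.2
  -- bound of one term
  have hterm : ∀ P i, ∫⁻ θ : HPar P, Awt l (childT0 Φ S i θ) tw θ.1 *
      ∫⁻ x, φ x * wgt Φ f₀ tw t S i θ x * dampG T f ((childT0 Φ S i θ).shift x) tw ≤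
      ∫⁻ x, φ x * dampG T f (S.shift x) tw * ∫⁻ s : ℝ, QJ T l tw t S i s *
        (ENNReal.ofReal (Real.exp (2 * c * P.leaves)) * ∫⁻ r : Space3 × Plane × Par P,
          GJ Φ T (Dwin (nuF T f) tw) (fW T f c) S x i P s r) := by
    intro P i
    have hGm := measurable_GJ hT.le hΦ hD hg hS i P
    have hQm := measurable_QJ hS hl0.le htw.1 t i
    have hjoint : Measurable fun z : HPar P × Space3 => φ z.2 * (dampG T f (S.shift z.2) tw *
        (QJ T l tw t S i z.1.1 * (ENNReal.ofReal (Real.exp (2 * c * P.leaves)) *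
          GJ Φ T (Dwin (nuF T f) tw) (fW T f c) S z.2 i P z.1.1 z.1.2))) := by
      refine (hφ.comp measurable_snd).mul ((hdm.comp measurable_snd).mul
        ((hQm.comp (measurable_fst.comp measurable_fst)).mul (Measurable.const_mul ?_ _)))
      have h1 : Measurable fun z : HPar P × Space3 =>
          (((z.2, z.1.1), z.1.2) : (Space3 × ℝ) × (Space3 × Plane × Par P)) := by fun_prop
      exact Measurable.comp (g := fun z : (Space3 × ℝ) × (Space3 × Plane × Par P) =>
        GJ Φ T (Dwin (nuF T f) tw) (fW T f c) S z.1.1 i P z.1.2 z.2) hGm h1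
    calc ∫⁻ θ : HPar P, Awt l (childT0 Φ S i θ) tw θ.1 *
          ∫⁻ x, φ x * wgt Φ f₀ tw t S i θ x * dampG T f ((childT0 Φ S i θ).shift x) tw
        ≤ ∫⁻ θ : HPar P, ∫⁻ x, φ x * (dampG T f (S.shift x) tw * (QJ T l tw t S i θ.1 *
            (ENNReal.ofReal (Real.exp (2 * c * P.leaves)) *
              GJ Φ T (Dwin (nuF T f) tw) (fW T f c) S x i P θ.1 θ.2))) := by
          refine lintegral_mono fun θ => ?_
          rw [← lintegral_const_mul' _ _ Awt_ne_top]
          refine lintegral_mono fun x => ?_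
          have h1 := integrand_le hΦ hβ hT hf hS hl0.le hh0.le htw.1 ht htT i θ x
          rw [hlh] at h1
          calc Awt l (childT0 Φ S i θ) tw θ.1 * (φ x * wgt Φ f₀ tw t S i θ x *
                dampG T f ((childT0 Φ S i θ).shift x) tw)
              = φ x * (Awt l (childT0 Φ S i θ) tw θ.1 * (wgt Φ f₀ tw t S i θ x *
                dampG T f ((childT0 Φ S i θ).shift x) tw)) := by ring
            _ ≤ _ := mul_le_mul' le_rfl h1
      _ = ∫⁻ x, ∫⁻ θ : HPar P, φ x * (dampG T f (S.shift x) tw * (QJ T l tw t S i θ.1 *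
            (ENNReal.ofReal (Real.exp (2 * c * P.leaves)) *
              GJ Φ T (Dwin (nuF T f) tw) (fW T f c) S x i P θ.1 θ.2))) :=
          lintegral_lintegral_swap hjoint.aemeasurable
      _ = _ := by
          refine lintegral_congr fun x => ?_
          have h2 : Measurable fun θ : HPar P => QJ T l tw t S i θ.1 *
              (ENNReal.ofReal (Real.exp (2 * c * P.leaves)) *
              GJ Φ T (Dwin (nuF T f) tw) (fW T f c) S x i P θ.1 θ.2) := by
            refine (hQm.comp measurable_fst).mul (Measurable.const_mul ?_ _)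
            have h1 : Measurable fun θ : HPar P =>
              (((x, θ.1), θ.2) : (Space3 × ℝ) × (Space3 × Plane × Par P)) := by fun_prop
            exact Measurable.comp (g := fun z : (Space3 × ℝ) × (Space3 × Plane × Par P) =>
              GJ Φ T (Dwin (nuF T f) tw) (fW T f c) S z.1.1 i P z.1.2 z.2) hGm h1
          have e0 : ∫⁻ θ : HPar P, φ x * (dampG T f (S.shift x) tw * (QJ T l tw t S i θ.1 *
            (ENNReal.ofReal (Real.exp (2 * c * P.leaves)) *
              GJ Φ T (Dwin (nuF T f) tw) (fW T f c) S x i P θ.1 θ.2))) =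
              φ x * dampG T f (S.shift x) tw * ∫⁻ θ : HPar P, QJ T l tw t S i θ.1 *
            (ENNReal.ofReal (Real.exp (2 * c * P.leaves)) *
              GJ Φ T (Dwin (nuF T f) tw) (fW T f c) S x i P θ.1 θ.2) := by
            rw [← lintegral_const_mul _ h2]
            refine lintegral_congr fun θ => ?_
            ring
          rw [e0]
          congr 1
          rw [Measure.volume_eq_prod, lintegral_prod _ h2.aemeasurable]
          refine lintegral_congr fun s => ?_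
          have h3 : Measurable fun r : Space3 × Plane × Par P =>
              GJ Φ T (Dwin (nuF T f) tw) (fW T f c) S x i P s r := by
            have h1 : Measurable fun r : Space3 × Plane × Par P =>
              (((x, s), r) : (Space3 × ℝ) × (Space3 × Plane × Par P)) := by fun_prop
            exact Measurable.comp (g := fun z : (Space3 × ℝ) × (Space3 × Plane × Par P) =>
              GJ Φ T (Dwin (nuF T f) tw) (fW T f c) S z.1.1 i P z.1.2 z.2) hGm h1
          show ∫⁻ r : Space3 × Plane × Par P, QJ T l tw t S i s *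
              (ENNReal.ofReal (Real.exp (2 * c * P.leaves)) *
              GJ Φ T (Dwin (nuF T f) tw) (fW T f c) S x i P s r) = _
          rw [lintegral_const_mul _ (h3.const_mul _), lintegral_const_mul _ h3]
  -- sum of the terms
  have hGm2 : ∀ P i, Measurable fun z : Space3 × ℝ => QJ T l tw t S i z.2 *
        (ENNReal.ofReal (Real.exp (2 * c * P.leaves)) * ∫⁻ r : Space3 × Plane × Par P,
          GJ Φ T (Dwin (nuF T f) tw) (fW T f c) S z.1 i P z.2 r) := by
    intro P i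
    refine ((measurable_QJ hS hl0.le htw.1 t i).comp measurable_snd).mul
      (Measurable.const_mul ?_ _)
    exact (measurable_GJ hT.le hΦ hD hg hS i P).lintegral_prod_right'
  calc ∑ P ∈ Ps, ∑ i, ∫⁻ θ : HPar P, Awt l (childT0 Φ S i θ) tw θ.1 *
        ∫⁻ x, φ x * wgt Φ f₀ tw t S i θ x * dampG T f ((childT0 Φ S i θ).shift x) tw
      ≤ ∑ P ∈ Ps, ∑ i, ∫⁻ x, φ x * dampG T f (S.shift x) tw * ∫⁻ s : ℝ, QJ T l tw t S i s *
        (ENNReal.ofReal (Real.exp (2 * c * P.leaves)) * ∫⁻ r : Space3 × Plane × Par P,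
          GJ Φ T (Dwin (nuF T f) tw) (fW T f c) S x i P s r) :=
        Finset.sum_le_sum fun P _ => Finset.sum_le_sum fun i _ => hterm P i
    _ = ∫⁻ x, φ x * dampG T f (S.shift x) tw * ∑ i, ∫⁻ s : ℝ, QJ T l tw t S i s *
        ∑ P ∈ Ps, (ENNReal.ofReal (Real.exp (2 * c * P.leaves)) *
          ∫⁻ r : Space3 × Plane × Par P,
            GJ Φ T (Dwin (nuF T f) tw) (fW T f c) S x i P s r) := by
        have hm1 : ∀ P i, Measurable fun x : Space3 => φ x * dampG T f (S.shift x) tw *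
            ∫⁻ s : ℝ, QJ T l tw t S i s * (ENNReal.ofReal (Real.exp (2 * c * P.leaves)) *
              ∫⁻ r : Space3 × Plane × Par P,
                GJ Φ T (Dwin (nuF T f) tw) (fW T f c) S x i P s r) := fun P i =>
          (hφ.mul hdm).mul (hGm2 P i).lintegral_prod_right'
        rw [Finset.sum_congr rfl fun P _ => (lintegral_finsetSum _ fun i _ => hm1 P i).symm,
          ← lintegral_finsetSum _ fun P _ => Finset.measurable_sum _ fun i _ => hm1 P i]
        refine lintegral_congr fun x => ?_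
        rw [Finset.mul_sum, Finset.sum_comm]
        refine Finset.sum_congr rfl fun i _ => ?_
        rw [← Finset.mul_sum, ← lintegral_finsetSum]
        · congr 1
          refine lintegral_congr fun s => ?_
          rw [Finset.mul_sum]
        · intro P _
          exact (hGm2 P i).comp (measurable_const.prodMk measurable_id)
    _ ≤ ∫⁻ x, φ x * dampG T f (S.shift x) tw * (2⁻¹ * Awt l S tw t) := by
        refine lintegral_mono fun x => mul_le_mul' le_rfl ?_
        have hs : ∀ i, ∫⁻ s : ℝ, QJ T l tw t S i s *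
            ∑ P ∈ Ps, (ENNReal.ofReal (Real.exp (2 * c * P.leaves)) *
              ∫⁻ r : Space3 × Plane × Par P,
                GJ Φ T (Dwin (nuF T f) tw) (fW T f c) S x i P s r) ≤
            ∫⁻ s in Ioc tw t, ENNReal.ofReal C2 * ((if s < S.b i then
              aV s (S.c i s) (deriv (S.c i) s) else 0) * Awt l S tw s) := by
          intro i
          rw [← lintegral_indicator measurableSet_Ioc]
          refine lintegral_mono fun s => ?_
          by_cases hs : s ∈ Ioc tw t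
          · have hs0 : s ∈ Icc 0 (tw + h₀) :=
              ⟨htw.1.trans hs.1.le, (hs.2.trans ht).trans (by linarith)⟩
            rw [indicator_of_mem hs, QJ_of_mem htT hs]
            have h5 := fibre_bound hT.le hΦ hβ hD hg hS x i hC hclam (hb s hs0) Ps
            rw [← hC2] at h5
            split_ifs with h6
            · calc Awt l S tw s * _ ≤ Awt l S tw s * (ENNReal.ofReal C2 *
                    ENNReal.ofReal (1 + ‖deriv (S.c i) s‖)) := mul_le_mul' le_rfl h5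
                _ = _ := by unfold aV; ring
            · rw [zero_mul]
              exact bot_le
          · rw [indicator_of_notMem hs, QJ_of_notMem hs, zero_mul]
        have hsub : Ioc tw t ⊆ Icc 0 T := fun s hs => ⟨htw.1.trans hs.1.le, hs.2.trans htT⟩
        rcases le_or_gt tw t with htt | htt
        · have hr : AEMeasurable (rateT aV S) (volume.restrict (Ioc tw t)) :=
            aemeasurable_rateT meas_aV fun i => aemeasurable_curve hS hsub i
          calc ∑ i, ∫⁻ s : ℝ, QJ T l tw t S i s *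
                ∑ P ∈ Ps, (ENNReal.ofReal (Real.exp (2 * c * P.leaves)) *
                  ∫⁻ r : Space3 × Plane × Par P,
                    GJ Φ T (Dwin (nuF T f) tw) (fW T f c) S x i P s r)
              ≤ ∑ i, ∫⁻ s in Ioc tw t, ENNReal.ofReal C2 * ((if s < S.b i then
                  aV s (S.c i s) (deriv (S.c i) s) else 0) * Awt l S tw s) :=
                Finset.sum_le_sum fun i _ => hs i
            _ ≤ ∫⁻ s in Ioc tw t, ∑ i, ENNReal.ofReal C2 * ((if s < S.b i then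
                  aV s (S.c i s) (deriv (S.c i) s) else 0) * Awt l S tw s) :=
                sum_lintegral_le _ _ _
            _ = ENNReal.ofReal C2 * ∫⁻ s in Ioc tw t, rateT aV S s *
                  ENNReal.ofReal (Real.exp (l * (Prim383.R (rateT aV S) tw s).toReal)) := by
                rw [← lintegral_const_mul' _ _ ENNReal.ofReal_ne_top]
                refine lintegral_congr fun s => ?_
                rw [← Finset.mul_sum, ← Finset.sum_mul]
                rfl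
            _ ≤ ENNReal.ofReal C2 * (ENNReal.ofReal (1 / l) * Awt l S tw t) := by
                refine mul_le_mul' le_rfl ?_
                exact Prim383.lintegral_exp_prim htt hr (Gx_ne_top hS htw.1 htT) hl0
            _ ≤ 2⁻¹ * Awt l S tw t := by
                rw [← mul_assoc, ← ENNReal.ofReal_mul hC20]
                refine mul_le_mul' ?_ le_rfl
                have e2 : (2⁻¹ : ℝ≥0∞) = ENNReal.ofReal (1 / 2) := by
                  rw [one_div, ENNReal.ofReal_inv_of_pos two_pos]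
                  simp
                rw [e2]
                refine ENNReal.ofReal_le_ofReal ?_
                rw [mul_one_div, div_le_div_iff₀ hl0 two_pos]
                linarith
        · refine (Finset.sum_le_sum fun i _ => hs i).trans ?_
          rw [Ioc_eq_empty (not_lt.2 htt.le)]
          simp
    _ = 2⁻¹ * (Awt l S tw t * ∫⁻ x, φ x * dampG T f (S.shift x) tw) := by
        rw [← mul_assoc, ← lintegral_const_mul' _ _ (ENNReal.mul_ne_top (by simp) Awt_ne_top)]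
        refine lintegral_congr fun x => ?_
        ring

end Crest.Agent.R122.GIVStep383
end
end

-- ▼ part R122/GIVStepA_383
section

/-!
# Row 122, block F (helper383): measurability and domination of the children
-/

set_option autoImplicit false
open MeasureTheory Set Filter
open scoped Classical ENNReal Topology NNReal
open Crest.AnalysisR.Kinetic
open Crest.Agent.R122.GC311 Crest.Agent.R122.Causal291 Crest.Agent.R122.Master566
open Crest.Agent.R122.GIV566 Crest.Agent.R122.Kin796 Crest.Agent.R122.Disc416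
open Crest.Agent.R122.Tree674 Crest.Agent.R122.TreeEps399 Crest.Agent.R122.Hid424
open Crest.Agent.R122.FluxDCT491
open Crest.Agent.R122.Quench815 (absd absd_comm absd_self le_add_absd le_add_absd' absd_le_add
  absd_le_iff absd_triangle absd_mul_le measurable_absd absd_lintegral_le)
noncomputable section

namespace Crest.Agent.R122.GIVStep383

open CTree

variable {Φ : Space3 → ℝ} {ι : Type} {β T : ℝ} {f₀ : PhasePoint → ℝ} {f : ℝ → PhasePoint → ℝ}

/-! ### Elementary facts on `absd` -/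

theorem adiff_eq_absd (a b : ℝ≥0∞) : adiff a b = absd a b := rfl

theorem absd_mul_eq {c : ℝ≥0∞} (hc : c ≠ ∞) (a b : ℝ≥0∞) :
    absd (c * a) (c * b) = c * absd a b := by
  unfold absd
  rw [mul_add, ENNReal.mul_sub (fun _ _ => hc), ENNReal.mul_sub (fun _ _ => hc)]

theorem absd_le_two {a b : ℝ≥0∞} (ha : a ≤ 1) (hb : b ≤ 1) : absd a b ≤ 2 :=
  (absd_le_add a b).trans ((add_le_add ha hb).trans (by norm_num))

theorem wgt_ne_top {tw t : ℝ} {S : Tubes ι} {i : ι} {P : CTree} (θ : HPar P) (x : Space3) :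
    wgt Φ f₀ tw t S i θ x ≠ ∞ := by
  unfold wgt
  split_ifs
  · exact ENNReal.mul_ne_top ENNReal.ofReal_ne_top (ENNReal.mul_ne_top (TreeLim974.wt_ne_top P _ _)
      (ENNReal.prod_ne_top fun _ _ => ENNReal.ofReal_ne_top))
  · simp

theorem wgt_of_not {tw t : ℝ} {S : Tubes ι} {i : ι} {P : CTree} {θ : HPar P}
    (h : ¬ HGood Φ tw t S i θ) (x : Space3) : wgt Φ f₀ tw t S i θ x = 0 := by
  unfold wgt
  rw [if_neg h]

/-! ### Joint measurability of the damped weight -/

theorem measurable_QI2 (hT : 0 < T) (hf : IsRegularKineticSolution Φ β T f₀ f) [Fintype ι]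
    {S : Tubes ι} {M : ℝ≥0} (hS : ∀ i, LipschitzOnWith M (S.c i) (Icc 0 T)) {tw t : ℝ}
    (htw : 0 ≤ tw) (ht : t ≤ T) (i : ι) :
    Measurable fun z : Space3 × ℝ => QI T f tw t S z.1 i z.2 := by
  have h1 := measurable_dampG_shift hT.le hf hS
  have h2 : MeasurableSet (Prod.snd ⁻¹' (Ioc tw t ∩ Iio (S.b i)) : Set (Space3 × ℝ)) :=
    measurable_snd (measurableSet_Ioc.inter measurableSet_Iio)
  have e : (fun z : Space3 × ℝ => QI T f tw t S z.1 i z.2) =
      (Prod.snd ⁻¹' (Ioc tw t ∩ Iio (S.b i)) : Set (Space3 × ℝ)).indicator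
        fun z : Space3 × ℝ => dampG T f (S.shift z.1) (min z.2 T) := by
    funext z
    by_cases hz : z.2 ∈ Ioc tw t
    · rw [QI_of_mem htw ht hz]
      by_cases hb : z.2 < S.b i
      · rw [if_pos hb, indicator_of_mem
          (show z ∈ Prod.snd ⁻¹' (Ioc tw t ∩ Iio (S.b i)) from ⟨hz, hb⟩),
          min_eq_left (hz.2.trans ht)]
      · rw [if_neg hb, indicator_of_notMem
          (show z ∉ Prod.snd ⁻¹' (Ioc tw t ∩ Iio (S.b i)) from fun h => hb h.2)]
    · rw [QI_of_notMem hz, indicator_of_notMem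
        (show z ∉ Prod.snd ⁻¹' (Ioc tw t ∩ Iio (S.b i)) from fun h => hz h.1)]
  rw [e]
  exact h1.indicator h2

theorem measurable_wgt_dampG (hβ : 0 < β) (hT : 0 < T) (hΦ : AdmissiblePotential Φ)
    (hf : IsRegularKineticSolution Φ β T f₀ f) [Fintype ι]
    {S : Tubes ι} {M : ℝ≥0} (hS : ∀ i, LipschitzOnWith M (S.c i) (Icc 0 T)) {tw t : ℝ}
    (htw : 0 ≤ tw) (ht : t ≤ T) (i : ι) (P : CTree) :
    Measurable fun q : Space3 × HPar P => wgt Φ f₀ tw t S i q.2 q.1 *
      dampG T f ((childT0 Φ S i q.2).shift q.1) q.2.1 := by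
  have h1 : Measurable fun q : Space3 × HPar P => QI T f tw t S q.1 i q.2.1 := by
    have h0 : Measurable fun q : Space3 × HPar P => ((q.1, q.2.1) : Space3 × ℝ) := by fun_prop
    exact Measurable.comp (g := fun z : Space3 × ℝ => QI T f tw t S z.1 i z.2)
      (measurable_QI2 hT hf hS htw ht i) h0
  have h2 : Measurable fun q : Space3 × HPar P => GI Φ T f S q.1 i P q.2.1 q.2.2 := by
    have h0 : Measurable fun q : Space3 × HPar P =>
        (((q.1, q.2.1), q.2.2) : (Space3 × ℝ) × (Space3 × Plane × Par P)) := by fun_prop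
    exact Measurable.comp (g := fun z : (Space3 × ℝ) × (Space3 × Plane × Par P) =>
      GI Φ T f S z.1.1 i P z.1.2 z.2) (measurable_GI hT.le hΦ hf hS i P) h0
  have e : (fun q : Space3 × HPar P => wgt Φ f₀ tw t S i q.2 q.1 *
      dampG T f ((childT0 Φ S i q.2).shift q.1) q.2.1) = fun q : Space3 × HPar P =>
        QI T f tw t S q.1 i q.2.1 * GI Φ T f S q.1 i P q.2.1 q.2.2 := by
    funext q
    exact wgt_eq_QI_GI hβ hT hf hS htw ht i q.2 q.1
  rw [e]
  exact h1.mul h2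

theorem measurable_gain0 (hβ : 0 < β) (hT : 0 < T) (hΦ : AdmissiblePotential Φ)
    (hf : IsRegularKineticSolution Φ β T f₀ f) [Fintype ι]
    {S : Tubes ι} {M : ℝ≥0} (hS : ∀ i, LipschitzOnWith M (S.c i) (Icc 0 T)) {tw t : ℝ}
    (htw : 0 ≤ tw) (ht : t ≤ T) (P : CTree) :
    Measurable fun x : Space3 => gain0 Φ f₀ f T tw t S P x := by
  unfold gain0
  refine Finset.measurable_sum _ fun i _ => ?_
  exact (measurable_wgt_dampG hβ hT hΦ hf hS htw ht i P).lintegral_prod_right'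

/-- joint measurability of the weighted difference -/
theorem measurable_wgt_absd (hβ : 0 < β) (hT : 0 < T) (hΦ : AdmissiblePotential Φ)
    (hf : IsRegularKineticSolution Φ β T f₀ f) (hf₀ : Measurable f₀) [Fintype ι]
    {Sk S : Tubes ι} {M : ℝ≥0} (hS : ∀ i, LipschitzOnWith M (S.c i) (Icc 0 T))
    (hSk : ∀ i, ContinuousOn (Sk.c i) (Icc 0 T)) {ε : ℝ} (hε : 0 < ε) {tw t : ℝ}
    (htw : 0 ≤ tw) (ht : t ≤ T) (i : ι) (P : CTree) :
    Measurable fun q : Space3 × HPar P => wgt Φ f₀ tw t S i q.2 q.1 *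
      absd (uG Φ f₀ ε ((childT Φ ε Sk S i q.2).shift q.1) q.2.1)
        (dampG T f ((childT0 Φ S i q.2).shift q.1) q.2.1) := by
  have h1 := measurable_wgt_dampG hβ hT hΦ hf hS htw ht i P
  have h2 := measurable_wgt_uG hΦ hf₀ hε hT.le htw ht hSk i (hS i).continuousOn P
  have e : (fun q : Space3 × HPar P => wgt Φ f₀ tw t S i q.2 q.1 *
      absd (uG Φ f₀ ε ((childT Φ ε Sk S i q.2).shift q.1) q.2.1)
        (dampG T f ((childT0 Φ S i q.2).shift q.1) q.2.1)) = fun q : Space3 × HPar P =>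
      absd (wgt Φ f₀ tw t S i q.2 q.1 * uG Φ f₀ ε ((childT Φ ε Sk S i q.2).shift q.1) q.2.1)
        (wgt Φ f₀ tw t S i q.2 q.1 * dampG T f ((childT0 Φ S i q.2).shift q.1) q.2.1) := by
    funext q
    exact (absd_mul_eq (wgt_ne_top q.2 q.1) _ _).symm
  rw [e]
  exact measurable_absd h2 h1

/-! ### Domination -/

/-- domination of the weight by an integrable function of the parameters -/
theorem exists_dom (hD : KData Φ β T f₀ f) [Fintype ι] {S : Tubes ι} {M : ℝ≥0}
    (hS : ∀ i, LipschitzOnWith M (S.c i) (Icc 0 T)) {tw t : ℝ} (htw : 0 ≤ tw) (ht : t ≤ T)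
    (P : CTree) :
    ∃ D : HPar P → ℝ≥0∞, Measurable D ∧ ∫⁻ θ, D θ ≠ ∞ ∧ ∀ i, ∀ᵐ θ : HPar P, ∀ x,
      wgt Φ f₀ tw t S i θ x ≤ D θ := by
  obtain ⟨C, hC, hk⟩ := exists_bound hD
  have hβ := hD.beta_pos
  obtain ⟨C', hC', hdom⟩ := wE_le_aux (b' := β) hD.adm hC M.2 (by linarith : β < 2 * β) hk T P
  refine ⟨domD C' β T P, measurable_domD hC' β T P, lintegral_domD_ne_top hC' hβ T P, fun i => ?_⟩
  filter_upwards [ae_time_ne P 0, ae_time_ne P T] with θ h0 hT x
  rw [wgt_eq]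
  refine hdom 0 ι S S i _ θ x le_rfl fun hθ => ?_
  have hb := HGood_box (T := T) htw ht θ hθ
  refine ⟨hb.1, hb.2, ?_⟩
  refine norm_deriv_le_of_lipschitzOn (s := Icc 0 T) ?_ (hS i)
  exact Icc_mem_nhds (lt_of_le_of_ne hb.1.1.1 (Ne.symm h0)) (lt_of_le_of_ne hb.1.1.2 hT)

end Crest.Agent.R122.GIVStep383
end
end

-- ▼ part R122/GIVStep_383
section

/-!
# Row 122, block F (helper383): the window step of the ghost avoidance identification

`giv_window` : there is a window length `h > 0` such that, if `0 ≤ tw ≤ t' ≤ T`, `t' ≤ tw + h`, the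
first-hit identity `FluxStep tw t'` holds and `GIV` holds at time `tw`, then `GIV` holds at
time `t'`.
-/

set_option autoImplicit false
open MeasureTheory Set Filter
open scoped Classical ENNReal Topology NNReal
open Crest.AnalysisR.Kinetic
open Crest.Agent.R122.GC311 Crest.Agent.R122.Causal291 Crest.Agent.R122.Master566
open Crest.Agent.R122.GIV566 Crest.Agent.R122.Kin796 Crest.Agent.R122.Disc416
open Crest.Agent.R122.Tree674 Crest.Agent.R122.TreeEps399 Crest.Agent.R122.Hid424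
open Crest.Agent.R122.FluxDCT491 Crest.Agent.R122.GIVRec383
open Crest.Agent.R122.Quench815 (absd absd_comm absd_self le_add_absd le_add_absd' absd_le_add
  absd_le_iff absd_triangle absd_mul_le measurable_absd absd_lintegral_le)
noncomputable section

namespace Crest.Agent.R122.GIVStep383

open CTree

variable {Φ : Space3 → ℝ} {ι κ : Type} {β T : ℝ} {f₀ : PhasePoint → ℝ} {f : ℝ → PhasePoint → ℝ}

/-! ### Elementary inequalities -/

theorem absd_main {a aw b bw gk g0 r0 : ℝ≥0∞} (hgk : gk ≠ ∞) (hg0 : g0 ≠ ∞)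
    (h : b + (g0 + r0) = bw) :
    absd a b ≤ absd (a + gk) aw + (absd aw bw + (absd gk g0 + r0)) := by
  rw [absd_le_iff]
  constructor
  · refine (ENNReal.add_le_add_iff_right hgk).1 ?_
    calc a + gk ≤ aw + absd (a + gk) aw := le_add_absd _ _
      _ ≤ (bw + absd aw bw) + absd (a + gk) aw := by gcongr; exact le_add_absd _ _
      _ = (b + (g0 + r0) + absd aw bw) + absd (a + gk) aw := by rw [h]
      _ ≤ (b + ((gk + absd gk g0) + r0) + absd aw bw) + absd (a + gk) aw := by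
          gcongr; exact le_add_absd' _ _
      _ = b + (absd (a + gk) aw + (absd aw bw + (absd gk g0 + r0))) + gk := by ring
  · refine (ENNReal.add_le_add_iff_right hg0).1 ?_
    calc b + g0 ≤ b + (g0 + r0) := by gcongr; exact le_self_add
      _ = bw := h
      _ ≤ aw + absd aw bw := le_add_absd' _ _
      _ ≤ ((a + gk) + absd (a + gk) aw) + absd aw bw := by gcongr; exact le_add_absd' _ _
      _ ≤ ((a + (g0 + absd gk g0)) + absd (a + gk) aw) + absd aw bw := by
          gcongr; exact le_add_absd _ _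
      _ ≤ ((a + (g0 + absd gk g0)) + absd (a + gk) aw) + absd aw bw + r0 := le_self_add
      _ = a + (absd (a + gk) aw + (absd aw bw + (absd gk g0 + r0))) + g0 := by ring

/-- test functions: measurable, bounded, with bounded support -/
def TFn : Set (Space3 → ℝ≥0∞) :=
  {φ | Measurable φ ∧ ∃ (C : ℝ≥0∞) (R : ℝ), C ≠ ∞ ∧ (∀ x, φ x ≤ C) ∧
    ∀ x, x ∉ Metric.closedBall (0 : Space3) R → φ x = 0}

theorem lintegral_test_le {φ : Space3 → ℝ≥0∞} {C : ℝ≥0∞} {R : ℝ} (hC : C ≠ ∞)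
    (h1 : ∀ x, φ x ≤ C) (h2 : ∀ x, x ∉ Metric.closedBall (0 : Space3) R → φ x = 0)
    (g : Space3 → ℝ≥0∞) :
    ∫⁻ x, φ x * g x ≤ C * ∫⁻ x in Metric.closedBall (0 : Space3) R, g x := by
  rw [← lintegral_const_mul' C _ hC, ← lintegral_indicator Metric.isClosed_closedBall.measurableSet]
  refine lintegral_mono fun x => ?_
  by_cases hx : x ∈ Metric.closedBall (0 : Space3) R
  · rw [indicator_of_mem hx]
    exact mul_le_mul' (h1 x) le_rfl
  · rw [h2 x hx, zero_mul]
    exact bot_le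

theorem lintegral_test_ne_top {φ : Space3 → ℝ≥0∞} (hφ : φ ∈ TFn) : ∫⁻ x, φ x ≠ ∞ := by
  obtain ⟨-, C, R, hC, h1, h2⟩ := hφ
  have h := lintegral_test_le hC h1 h2 (fun _ => 1)
  simp only [mul_one, lintegral_one, Measure.restrict_apply_univ] at h
  exact ne_top_of_le_ne_top (ENNReal.mul_ne_top hC measure_closedBall_lt_top.ne) h

/-! ### States -/

/-- the state of a family -/
def stT (Φ : Space3 → ℝ) (f₀ : PhasePoint → ℝ) (f : ℝ → PhasePoint → ℝ) (T : ℝ) (εk : ℕ → ℝ)
    (l tw : ℝ) [Fintype κ] (Sk : ℕ → Tubes κ) (S : Tubes κ) (t : ℝ) : St Space3 where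
  u := fun k x => uG Φ f₀ (εk k) ((Sk k).shift x) t
  U := fun x => dampG T f (S.shift x) t
  Uw := fun x => dampG T f (S.shift x) tw
  A := Awt l S tw t

/-- the class of the states -/
def CC (Φ : Space3 → ℝ) (f₀ : PhasePoint → ℝ) (f : ℝ → PhasePoint → ℝ) (T : ℝ) (εk : ℕ → ℝ)
    (l tw t' : ℝ) : Set (St Space3) :=
  {c | ∃ (κ : Type) (_ : Fintype κ) (Sk : ℕ → Tubes κ) (S : Tubes κ) (t : ℝ), t ∈ Icc tw t' ∧
    TubeConv T Sk S ∧ Generic T S ∧ (∀ᶠ k in atTop, c.u k = (stT Φ f₀ f T εk l tw Sk S t).u k) ∧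
    c.U = (stT Φ f₀ f T εk l tw Sk S t).U ∧ c.Uw = (stT Φ f₀ f T εk l tw Sk S t).Uw ∧
    c.A = (stT Φ f₀ f T εk l tw Sk S t).A}

theorem limsup_err_congr {c c' : St Space3} (hu : ∀ᶠ k in atTop, c.u k = c'.u k)
    (hU : c.U = c'.U) (φ : Space3 → ℝ≥0∞) :
    limsup (fun k => c.err volume φ k) atTop = limsup (fun k => c'.err volume φ k) atTop := by
  refine limsup_congr ?_
  filter_upwards [hu] with k hk
  unfold St.err
  rw [hk, hU]

/-! ### The base inequality -/

section base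

variable (hD : KData Φ β T f₀ f) {εk : ℕ → ℝ} (hε0 : ∀ k, 0 < εk k)
  (hlim : Tendsto εk atTop (𝓝 0)) {l tw t' : ℝ} (hl : 0 ≤ l) (htT : t' ≤ T)
  (hG : GIV Φ f₀ f T tw)

include hD hε0 hlim hl htT hG

theorem base_stT [Fintype κ] {Sk : ℕ → Tubes κ} {S : Tubes κ} (hc : TubeConv T Sk S)
    (hg : Generic T S) {t : ℝ} (ht : t ∈ Icc tw t') {φ : Space3 → ℝ≥0∞} (hφ : φ ∈ TFn) :
    limsup (fun k => (stT Φ f₀ f T εk l tw Sk S t).err volume φ k) atTop ≤
      2 * ((stT Φ f₀ f T εk l tw Sk S t).A *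
        ∫⁻ x, φ x * (stT Φ f₀ f T εk l tw Sk S t).Uw x) := by
  obtain ⟨hφm, C, R, hC, h1, h2⟩ := hφ
  obtain ⟨M, hlipk, hlip⟩ := hc.lip
  have htwT : tw ≤ T := ht.1.trans (ht.2.trans htT)
  have hmw : Measurable fun x : Space3 => dampG T f (S.shift x) tw :=
    measurable_dampG_fix hD.T_pos.le hD.sol hlip htwT
  have hlimw := hG κ Sk S εk hε0 hlim hc hg R
  have hle : ∀ k, (stT Φ f₀ f T εk l tw Sk S t).err volume φ k ≤
      2 * (∫⁻ x, φ x * dampG T f (S.shift x) tw) +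
        C * ∫⁻ x in Metric.closedBall (0 : Space3) R,
          adiff (uG Φ f₀ (εk k) ((Sk k).shift x) tw) (dampG T f (S.shift x) tw) := by
    intro k
    refine le_trans ?_ (add_le_add le_rfl (lintegral_test_le hC h1 h2 _))
    have hm2 : Measurable fun x : Space3 => 2 * (φ x * dampG T f (S.shift x) tw) :=
      (hφm.mul hmw).const_mul 2
    rw [← lintegral_const_mul' 2 _ (by simp), ← lintegral_add_left hm2]
    refine lintegral_mono fun x => ?_
    have e1 : uG Φ f₀ (εk k) ((Sk k).shift x) t ≤ uG Φ f₀ (εk k) ((Sk k).shift x) tw :=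
      uG_anti ht.1
    have e2 : dampG T f (S.shift x) t ≤ dampG T f (S.shift x) tw :=
      dampG_anti ht.1 (Lam_ne_top hD.beta_pos hD.T_pos hD.sol (lipschitz_shift hlip x)
        (ht.2.trans htT))
    have e3 := le_add_absd (uG Φ f₀ (εk k) ((Sk k).shift x) tw) (dampG T f (S.shift x) tw)
    calc φ x * absd (uG Φ f₀ (εk k) ((Sk k).shift x) t) (dampG T f (S.shift x) t)
        ≤ φ x * (uG Φ f₀ (εk k) ((Sk k).shift x) t + dampG T f (S.shift x) t) := by
          gcongr; exact absd_le_add _ _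
      _ ≤ φ x * ((dampG T f (S.shift x) tw + absd (uG Φ f₀ (εk k) ((Sk k).shift x) tw)
            (dampG T f (S.shift x) tw)) + dampG T f (S.shift x) tw) := by
          gcongr
          exact e1.trans e3
      _ = 2 * (φ x * dampG T f (S.shift x) tw) + φ x *
            adiff (uG Φ f₀ (εk k) ((Sk k).shift x) tw) (dampG T f (S.shift x) tw) := by
          rw [adiff_eq_absd]; ring
  have hlim2 : Tendsto (fun k => 2 * (∫⁻ x, φ x * dampG T f (S.shift x) tw) +
        C * ∫⁻ x in Metric.closedBall (0 : Space3) R,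
          adiff (uG Φ f₀ (εk k) ((Sk k).shift x) tw) (dampG T f (S.shift x) tw)) atTop
      (𝓝 (2 * (∫⁻ x, φ x * dampG T f (S.shift x) tw) + C * 0)) :=
    (ENNReal.Tendsto.const_mul hlimw (Or.inr hC)).const_add _
  rw [mul_zero, add_zero] at hlim2
  refine (limsup_le_limsup (Eventually.of_forall hle)).trans ?_
  rw [hlim2.limsup_eq]
  gcongr 2 * ?_
  refine le_trans ?_ (mul_le_mul' (one_le_Awt hl) le_rfl)
  rw [one_mul]
  exact le_rfl

end base

theorem err_fin_stT [Fintype κ] {εk : ℕ → ℝ} {l tw t : ℝ} {Sk : ℕ → Tubes κ} {S : Tubes κ}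
    {φ : Space3 → ℝ≥0∞} (hφ : φ ∈ TFn) :
    (stT Φ f₀ f T εk l tw Sk S t).A * ∫⁻ x, φ x * (stT Φ f₀ f T εk l tw Sk S t).Uw x ≠ ∞ := by
  refine ENNReal.mul_ne_top Awt_ne_top ?_
  refine ne_top_of_le_ne_top (lintegral_test_ne_top hφ) (lintegral_mono fun x => ?_)
  exact (mul_le_mul' le_rfl (dampG_le_one _)).trans (mul_one _).le

/-! ### The remainder of the series of trees -/

/-- the trees with more than `K` particles -/
def rest (Φ : Space3 → ℝ) (f₀ : PhasePoint → ℝ) (f : ℝ → PhasePoint → ℝ) (T tw t : ℝ)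
    [Fintype ι] (S : Tubes ι) (K : ℕ) (x : Space3) : ℝ≥0∞ :=
  ∑' P : CTree, if P ∈ trees K then 0 else gain0 Φ f₀ f T tw t S P x

theorem sum_add_rest [Fintype ι] {tw t : ℝ} (S : Tubes ι) (K : ℕ) (x : Space3) :
    ∑ P ∈ trees K, gain0 Φ f₀ f T tw t S P x + rest Φ f₀ f T tw t S K x =
      ∑' P : CTree, gain0 Φ f₀ f T tw t S P x := by
  have e : ∑ P ∈ trees K, gain0 Φ f₀ f T tw t S P x =
      ∑' P : CTree, if P ∈ trees K then gain0 Φ f₀ f T tw t S P x else 0 := by
    rw [tsum_eq_sum (s := trees K) fun P hP => if_neg hP]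
    exact Finset.sum_congr rfl fun P hP => (if_pos hP).symm
  rw [e, rest, ← ENNReal.tsum_add]
  refine tsum_congr fun P => ?_
  by_cases h : P ∈ trees K
  · rw [if_pos h, if_pos h, add_zero]
  · rw [if_neg h, if_neg h, zero_add]

theorem measurable_rest (hβ : 0 < β) (hT : 0 < T) (hΦ : AdmissiblePotential Φ)
    (hf : IsRegularKineticSolution Φ β T f₀ f) [Fintype ι]
    {S : Tubes ι} {M : ℝ≥0} (hS : ∀ i, LipschitzOnWith M (S.c i) (Icc 0 T)) {tw t : ℝ}
    (htw : 0 ≤ tw) (ht : t ≤ T) (K : ℕ) : Measurable (rest Φ f₀ f T tw t S K) := by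
  unfold rest
  refine Measurable.tsum fun P => ?_
  by_cases h : P ∈ trees K
  · simp only [if_pos h]; exact measurable_const
  · simp only [if_neg h]; exact measurable_gain0 hβ hT hΦ hf hS htw ht P

theorem rest_small (hβ : 0 < β) (hT : 0 < T) (hΦ : AdmissiblePotential Φ)
    (hf : IsRegularKineticSolution Φ β T f₀ f) [Fintype ι]
    {S : Tubes ι} {M : ℝ≥0} (hS : ∀ i, LipschitzOnWith M (S.c i) (Icc 0 T)) {tw t : ℝ}
    (htw : 0 ≤ tw) (hle : tw ≤ t) (ht : t ≤ T) {φ : Space3 → ℝ≥0∞} (hφ : φ ∈ TFn) {δ : ℝ≥0∞}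
    (hδ : 0 < δ) : ∃ K₁ : ℕ, ∀ K ≥ K₁, ∫⁻ x, φ x * rest Φ f₀ f T tw t S K x ≤ δ := by
  have hm : ∀ P, Measurable fun x : Space3 => gain0 Φ f₀ f T tw t S P x :=
    measurable_gain0 hβ hT hΦ hf hS htw ht
  set a : CTree → ℝ≥0∞ := fun P => ∫⁻ x, φ x * gain0 Φ f₀ f T tw t S P x with ha
  have hsum : ∑' P, a P ≠ ∞ := by
    have e1 : ∑' P, a P = ∫⁻ x, φ x * ∑' P : CTree, gain0 Φ f₀ f T tw t S P x := by
      have hm1 : ∀ P, AEMeasurable (fun x : Space3 => φ x * gain0 Φ f₀ f T tw t S P x) volume :=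
        fun P => (hφ.1.mul (hm P)).aemeasurable
      simp only [ha]
      rw [← lintegral_tsum hm1]
      exact lintegral_congr fun x => ENNReal.tsum_mul_left
    rw [e1]
    refine ne_top_of_le_ne_top (lintegral_test_ne_top hφ) (lintegral_mono fun x => ?_)
    have h1 := dampStep hβ hT hΦ hf ι S M hS tw t htw hle ht x
    calc φ x * ∑' P : CTree, gain0 Φ f₀ f T tw t S P x
        ≤ φ x * dampG T f (S.shift x) tw := by
          gcongr
          rw [← h1]
          exact le_add_self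
      _ ≤ φ x * 1 := by gcongr; exact dampG_le_one _
      _ = φ x := mul_one _
  have htail := ENNReal.tendsto_tsum_compl_atTop_zero hsum
  obtain ⟨s₀, hs₀⟩ := eventually_atTop.1 (htail.eventually_lt_const hδ)
  refine ⟨s₀.sup CTree.leaves, fun K hK => ?_⟩
  have hsub : s₀ ≤ trees K := fun P hP => mem_trees.2 ((Finset.le_sup hP).trans hK)
  refine le_trans (le_of_eq ?_) (hs₀ (trees K) hsub).le
  have e2 : ∫⁻ x, φ x * rest Φ f₀ f T tw t S K x =
      ∑' P : CTree, ∫⁻ x, φ x * (if P ∈ trees K then 0 else gain0 Φ f₀ f T tw t S P x) := by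
    rw [← lintegral_tsum]
    · exact lintegral_congr fun x => ENNReal.tsum_mul_left.symm
    · intro P
      by_cases h : P ∈ trees K
      · simp only [if_pos h, mul_zero]; exact aemeasurable_const
      · simp only [if_neg h]; exact (hφ.1.mul (hm P)).aemeasurable
  have e3 : ∑' b : {P // P ∉ trees K}, a b = ∑' P, ({P | P ∉ trees K} : Set CTree).indicator a P :=
    tsum_subtype {P | P ∉ trees K} a
  rw [e2, e3]
  refine tsum_congr fun P => ?_
  by_cases h : P ∈ trees K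
  · rw [indicator_of_notMem (show P ∉ {P | P ∉ trees K} from fun h' => h' h)]
    simp only [if_pos h, mul_zero, lintegral_zero]
  · rw [indicator_of_mem (show P ∈ {P | P ∉ trees K} from h)]
    simp only [if_neg h, ha]

/-! ### The difference of the gains -/

/-- integrated difference of the children of shape `P` -/
def dgain (Φ : Space3 → ℝ) (f₀ : PhasePoint → ℝ) (f : ℝ → PhasePoint → ℝ) (T ε tw t : ℝ)
    [Fintype ι] (Sk S : Tubes ι) (P : CTree) (x : Space3) : ℝ≥0∞ :=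
  ∑ i, ∫⁻ θ : HPar P, wgt Φ f₀ tw t S i θ x *
    absd (uG Φ f₀ ε ((childT Φ ε Sk S i θ).shift x) θ.1)
      (dampG T f ((childT0 Φ S i θ).shift x) θ.1)

theorem absd_sum_le {α : Type*} (s : Finset α) (g h : α → ℝ≥0∞) :
    absd (∑ a ∈ s, g a) (∑ a ∈ s, h a) ≤ ∑ a ∈ s, absd (g a) (h a) := by
  rw [absd_le_iff, ← Finset.sum_add_distrib, ← Finset.sum_add_distrib]
  exact ⟨Finset.sum_le_sum fun a _ => le_add_absd _ _,
    Finset.sum_le_sum fun a _ => le_add_absd' _ _⟩

theorem absd_gain_le (hβ : 0 < β) (hT : 0 < T) (hΦ : AdmissiblePotential Φ)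
    (hf : IsRegularKineticSolution Φ β T f₀ f) (hf₀ : Measurable f₀) [Fintype ι]
    {Sk S : Tubes ι} {M : ℝ≥0} (hS : ∀ i, LipschitzOnWith M (S.c i) (Icc 0 T))
    (hSk : ∀ i, ContinuousOn (Sk.c i) (Icc 0 T)) {ε : ℝ} (hε : 0 < ε) {tw t : ℝ}
    (htw : 0 ≤ tw) (ht : t ≤ T) (P : CTree) (x : Space3) :
    absd (gain Φ f₀ ε tw t Sk S P x) (gain0 Φ f₀ f T tw t S P x) ≤
      dgain Φ f₀ f T ε tw t Sk S P x := by
  unfold gain gain0 dgain
  refine (absd_sum_le _ _ _).trans (Finset.sum_le_sum fun i _ => ?_)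
  have h1 := (measurable_wgt_dampG hβ hT hΦ hf hS htw ht i P).comp
    (measurable_prodMk_left (x := x))
  have h2 := (measurable_wgt_uG hΦ hf₀ hε hT.le htw ht hSk i (hS i).continuousOn P).comp
    (measurable_prodMk_left (x := x))
  refine (absd_lintegral_le _ h2 h1).trans (lintegral_mono fun θ => ?_)
  exact absd_mul_le _ _ _

theorem gain_ne_top (hD : KData Φ β T f₀ f) [Fintype ι] {Sk S : Tubes ι} {M : ℝ≥0}
    (hS : ∀ i, LipschitzOnWith M (S.c i) (Icc 0 T)) {ε tw t : ℝ} (htw : 0 ≤ tw) (ht : t ≤ T)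
    (P : CTree) (x : Space3) : gain Φ f₀ ε tw t Sk S P x ≠ ∞ := by
  obtain ⟨D, -, hDf, hdom⟩ := exists_dom hD hS htw ht P
  have hfm : Measurable f₀ := hD.contDiff.continuous.measurable
  have h1 : ∫⁻ z, ENNReal.ofReal (f₀ z) ≤ 1 :=
    (FM167.lintegral_density_eq_one hD.nonneg hD.integrable hD.mass).le
  unfold gain
  refine (ENNReal.sum_lt_top.2 fun i _ => ?_).ne
  refine lt_of_le_of_lt (lintegral_mono_ae ?_) hDf.lt_top
  filter_upwards [hdom i] with θ hθ
  exact (mul_le_mul' (hθ x) (uG_le_one hfm h1)).trans (mul_one _).le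

/-- Tonelli for the difference of the gains -/
theorem lintegral_dgain (hβ : 0 < β) (hT : 0 < T) (hΦ : AdmissiblePotential Φ)
    (hf : IsRegularKineticSolution Φ β T f₀ f) (hf₀ : Measurable f₀) [Fintype ι]
    {Sk S : Tubes ι} {M : ℝ≥0} (hS : ∀ i, LipschitzOnWith M (S.c i) (Icc 0 T))
    (hSk : ∀ i, ContinuousOn (Sk.c i) (Icc 0 T)) {ε : ℝ} (hε : 0 < ε) {tw t : ℝ}
    (htw : 0 ≤ tw) (ht : t ≤ T) (P : CTree) {φ : Space3 → ℝ≥0∞} (hφ : Measurable φ) :
    ∫⁻ x, φ x * dgain Φ f₀ f T ε tw t Sk S P x =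
      ∑ i, ∫⁻ θ : HPar P, ∫⁻ x, φ x * wgt Φ f₀ tw t S i θ x *
        absd (uG Φ f₀ ε ((childT Φ ε Sk S i θ).shift x) θ.1)
          (dampG T f ((childT0 Φ S i θ).shift x) θ.1) := by
  have hm := fun i => measurable_wgt_absd hβ hT hΦ hf hf₀ hS hSk hε htw ht i P
  have hmi : ∀ i, Measurable fun x : Space3 => φ x * ∫⁻ θ : HPar P, wgt Φ f₀ tw t S i θ x *
      absd (uG Φ f₀ ε ((childT Φ ε Sk S i θ).shift x) θ.1)
        (dampG T f ((childT0 Φ S i θ).shift x) θ.1) := fun i =>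
    hφ.mul (hm i).lintegral_prod_right'
  unfold dgain
  have e1 : ∀ x, φ x * ∑ i, ∫⁻ θ : HPar P, wgt Φ f₀ tw t S i θ x *
      absd (uG Φ f₀ ε ((childT Φ ε Sk S i θ).shift x) θ.1)
        (dampG T f ((childT0 Φ S i θ).shift x) θ.1) =
      ∑ i, φ x * ∫⁻ θ : HPar P, wgt Φ f₀ tw t S i θ x *
      absd (uG Φ f₀ ε ((childT Φ ε Sk S i θ).shift x) θ.1)
        (dampG T f ((childT0 Φ S i θ).shift x) θ.1) := fun x => Finset.mul_sum _ _ _
  simp only [e1]
  rw [lintegral_finsetSum _ fun i _ => hmi i]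
  refine Finset.sum_congr rfl fun i _ => ?_
  have hj : Measurable fun q : Space3 × HPar P => φ q.1 * wgt Φ f₀ tw t S i q.2 q.1 *
      absd (uG Φ f₀ ε ((childT Φ ε Sk S i q.2).shift q.1) q.2.1)
        (dampG T f ((childT0 Φ S i q.2).shift q.1) q.2.1) := by
    have h0 : Measurable fun q : Space3 × HPar P => φ q.1 * (wgt Φ f₀ tw t S i q.2 q.1 *
      absd (uG Φ f₀ ε ((childT Φ ε Sk S i q.2).shift q.1) q.2.1)
        (dampG T f ((childT0 Φ S i q.2).shift q.1) q.2.1)) :=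
      (hφ.comp measurable_fst).mul (hm i)
    simpa only [mul_assoc] using h0
  rw [lintegral_lintegral_swap
    (f := fun (θ : HPar P) (x : Space3) => φ x * wgt Φ f₀ tw t S i θ x *
      absd (uG Φ f₀ ε ((childT Φ ε Sk S i θ).shift x) θ.1)
        (dampG T f ((childT0 Φ S i θ).shift x) θ.1)) (hj.comp measurable_swap).aemeasurable]
  refine lintegral_congr fun x => ?_
  have hx : Measurable fun θ : HPar P => wgt Φ f₀ tw t S i θ x *
      absd (uG Φ f₀ ε ((childT Φ ε Sk S i θ).shift x) θ.1)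
        (dampG T f ((childT0 Φ S i θ).shift x) θ.1) :=
    (hm i).comp (measurable_prodMk_left (x := x))
  rw [← lintegral_const_mul _ hx]
  exact lintegral_congr fun θ => (mul_assoc _ _ _).symm

/-! ### The step -/

section step

variable (hD : KData Φ β T f₀ f) {εk : ℕ → ℝ} (hε0 : ∀ k, 0 < εk k)
  (hlim : Tendsto εk atTop (𝓝 0)) {l tw t' : ℝ} (htw : 0 ≤ tw) (htT : t' ≤ T)
  (hG : GIV Φ f₀ f T tw) (hF : FluxStep Φ f₀ T tw t')

/-- the states of the children -/
def chT (Φ : Space3 → ℝ) (f₀ : PhasePoint → ℝ) (f : ℝ → PhasePoint → ℝ) (T : ℝ) (εk : ℕ → ℝ)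
    (l tw : ℝ) [Fintype κ] (Sk : ℕ → Tubes κ) (S : Tubes κ) (j : CTree × κ) (θ : HPar j.1) :
    St Space3 :=
  stT Φ f₀ f T εk l tw (fun k => childT Φ (εk k) (Sk k) S j.2 θ) (childT0 Φ S j.2 θ) θ.1

theorem chT_err [Fintype κ] (Sk : ℕ → Tubes κ) (S : Tubes κ) (P : CTree) (i : κ) (θ : HPar P)
    (ψ : Space3 → ℝ≥0∞) (k : ℕ) :
    (chT Φ f₀ f T εk l tw Sk S (P, i) θ).err volume ψ k = ∫⁻ x, ψ x *
      absd (uG Φ f₀ (εk k) ((childT Φ (εk k) (Sk k) S i θ).shift x) θ.1)
        (dampG T f ((childT0 Φ S i θ).shift x) θ.1) := rfl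

theorem exists_delta {C δ : ℝ≥0∞} (hC : C ≠ ∞) (hδ : 0 < δ) (hδ' : δ ≠ ∞) :
    ∃ r : ℝ, 0 < r ∧ C * ENNReal.ofReal r ≤ δ := by
  have hC1 : C + 1 ≠ 0 := by simp
  have hC2 : C + 1 ≠ ∞ := ENNReal.add_ne_top.2 ⟨hC, by simp⟩
  have h1 : δ / (C + 1) ≠ ∞ := ENNReal.div_ne_top hδ' hC1
  have h2 : 0 < δ / (C + 1) := ENNReal.div_pos hδ.ne' hC2
  refine ⟨(δ / (C + 1)).toReal, ENNReal.toReal_pos h2.ne' h1, ?_⟩
  rw [ENNReal.ofReal_toReal h1]
  calc C * (δ / (C + 1)) ≤ (C + 1) * (δ / (C + 1)) := by gcongr; exact le_self_add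
    _ = δ := ENNReal.mul_div_cancel hC1 hC2

include hD hε0 hlim htw htT hG hF

theorem step_limsup [Fintype κ] {Sk : ℕ → Tubes κ} {S : Tubes κ} (hc : TubeConv T Sk S)
    (hg : Generic T S) {t : ℝ} (ht : t ∈ Icc tw t') {φ : Space3 → ℝ≥0∞} (hφ : φ ∈ TFn)
    {δ : ℝ≥0∞} (hδ : 0 < δ) (hδ' : δ ≠ ∞) :
    ∃ K : ℕ, limsup (fun k => (stT Φ f₀ f T εk l tw Sk S t).err volume φ k) atTop ≤
      δ + limsup (fun k => ∑ j ∈ trees K ×ˢ (Finset.univ : Finset κ), ∫⁻ θ : HPar j.1,
        (chT Φ f₀ f T εk l tw Sk S j θ).err volume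
          (fun x => φ x * wgt Φ f₀ tw t S j.2 θ x) k) atTop := by
  have hβ := hD.beta_pos
  have hT := hD.T_pos
  have hΦ := hD.adm
  have hf := hD.sol
  have hfm : Measurable f₀ := hD.contDiff.continuous.measurable
  have htT' : t ≤ T := ht.2.trans htT
  obtain ⟨hφm, C, R, hC, h1, h2⟩ := id hφ
  obtain ⟨M, hlipk, hlip⟩ := hc.lip
  have hδ2 : 0 < δ / 2 := ENNReal.div_pos hδ.ne' (by simp)
  have hδ2' : δ / 2 ≠ ∞ := ENNReal.div_ne_top hδ' (by simp)
  obtain ⟨K₁, hK₁⟩ := rest_small hβ hT hΦ hf hlip htw ht.1 htT' hφ hδ2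
  obtain ⟨r, hr, hCr⟩ := exists_delta hC hδ2 hδ2'
  obtain ⟨K₀, hK₀⟩ := hF κ Sk S εk hε0 hlim hc hg t ht R r hr
  set K := max K₀ K₁ with hK
  have hX := hK₀ K (le_max_left _ _)
  have hρ := hK₁ K (le_max_right _ _)
  have hY := hG κ Sk S εk hε0 hlim hc hg R
  refine ⟨K, ?_⟩
  have hmw : Measurable fun x : Space3 => dampG T f (S.shift x) tw :=
    measurable_dampG_fix hT.le hf hlip (ht.1.trans htT')
  have hmr : Measurable fun x : Space3 => φ x * rest Φ f₀ f T tw t S K x :=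
    hφm.mul (measurable_rest hβ hT hΦ hf hlip htw htT' K)
  have hev : ∀ᶠ k in atTop, (stT Φ f₀ f T εk l tw Sk S t).err volume φ k ≤
      C * (∫⁻ x in Metric.closedBall (0 : Space3) R,
        adiff (uG Φ f₀ (εk k) ((Sk k).shift x) t +
          ∑ P ∈ trees K, gain Φ f₀ (εk k) tw t (Sk k) S P x)
          (uG Φ f₀ (εk k) ((Sk k).shift x) tw)) +
      (C * (∫⁻ x in Metric.closedBall (0 : Space3) R,
          adiff (uG Φ f₀ (εk k) ((Sk k).shift x) tw) (dampG T f (S.shift x) tw)) +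
      ((∑ j ∈ trees K ×ˢ (Finset.univ : Finset κ), ∫⁻ θ : HPar j.1,
        (chT Φ f₀ f T εk l tw Sk S j θ).err volume
          (fun x => φ x * wgt Φ f₀ tw t S j.2 θ x) k) + δ / 2)) := by
    filter_upwards [hlipk] with k hk
    have hSk : ∀ i, ContinuousOn ((Sk k).c i) (Icc 0 T) := fun i => (hk i).continuousOn
    have hmu : Measurable fun x : Space3 => uG Φ f₀ (εk k) ((Sk k).shift x) tw :=
      measurable_uG_shift hfm hΦ (hε0 k) hT.le hSk (ht.1.trans htT')
    have hmY : Measurable fun x : Space3 => φ x *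
        absd (uG Φ f₀ (εk k) ((Sk k).shift x) tw) (dampG T f (S.shift x) tw) :=
      hφm.mul (measurable_absd hmu hmw)
    have hmd : ∀ P, Measurable fun x : Space3 =>
        φ x * dgain Φ f₀ f T (εk k) tw t (Sk k) S P x := by
      intro P
      refine hφm.mul ?_
      unfold dgain
      refine Finset.measurable_sum _ fun i _ => ?_
      exact (measurable_wgt_absd hβ hT hΦ hf hfm hlip hSk (hε0 k) htw htT' i P).lintegral_prod_right'
    have e2 : ∑ j ∈ trees K ×ˢ (Finset.univ : Finset κ), ∫⁻ θ : HPar j.1,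
        (chT Φ f₀ f T εk l tw Sk S j θ).err volume
          (fun x => φ x * wgt Φ f₀ tw t S j.2 θ x) k =
        ∫⁻ x, ∑ P ∈ trees K, φ x * dgain Φ f₀ f T (εk k) tw t (Sk k) S P x := by
      rw [lintegral_finsetSum _ fun P _ => hmd P, Finset.sum_product]
      refine Finset.sum_congr rfl fun P _ => ?_
      rw [lintegral_dgain hβ hT hΦ hf hfm hlip hSk (hε0 k) htw htT' P hφm]
      rfl
    have hms : Measurable fun x : Space3 =>
        ∑ P ∈ trees K, φ x * dgain Φ f₀ f T (εk k) tw t (Sk k) S P x :=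
      Finset.measurable_sum _ fun P _ => hmd P
    calc (stT Φ f₀ f T εk l tw Sk S t).err volume φ k
        = ∫⁻ x, φ x * absd (uG Φ f₀ (εk k) ((Sk k).shift x) t) (dampG T f (S.shift x) t) := rfl
      _ ≤ ∫⁻ x, (φ x * absd (uG Φ f₀ (εk k) ((Sk k).shift x) t +
            ∑ P ∈ trees K, gain Φ f₀ (εk k) tw t (Sk k) S P x)
            (uG Φ f₀ (εk k) ((Sk k).shift x) tw) +
          (φ x * absd (uG Φ f₀ (εk k) ((Sk k).shift x) tw) (dampG T f (S.shift x) tw) +
          ((∑ P ∈ trees K, φ x * dgain Φ f₀ f T (εk k) tw t (Sk k) S P x) +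
            φ x * rest Φ f₀ f T tw t S K x))) := by
          refine lintegral_mono fun x => ?_
          have hgk : ∑ P ∈ trees K, gain Φ f₀ (εk k) tw t (Sk k) S P x ≠ ∞ :=
            (ENNReal.sum_lt_top.2 fun P _ => (gain_ne_top hD hlip htw htT' P x).lt_top).ne
          have hds := dampStep hβ hT hΦ hf κ S M hlip tw t htw ht.1 htT' x
          rw [← sum_add_rest S K x] at hds
          have hg0 : ∑ P ∈ trees K, gain0 Φ f₀ f T tw t S P x ≠ ∞ := by
            refine ne_top_of_le_ne_top ENNReal.one_ne_top (le_trans ?_ (dampG_le_one (T := T)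
              (f := f) (S.shift x) (t := tw)))
            rw [← hds]
            exact le_trans le_self_add le_add_self
          have h3 := absd_main (a := uG Φ f₀ (εk k) ((Sk k).shift x) t)
            (aw := uG Φ f₀ (εk k) ((Sk k).shift x) tw) hgk hg0 hds
          have h4 : absd (∑ P ∈ trees K, gain Φ f₀ (εk k) tw t (Sk k) S P x)
              (∑ P ∈ trees K, gain0 Φ f₀ f T tw t S P x) ≤
              ∑ P ∈ trees K, dgain Φ f₀ f T (εk k) tw t (Sk k) S P x :=
            (absd_sum_le _ _ _).trans (Finset.sum_le_sum fun P _ =>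
              absd_gain_le hβ hT hΦ hf hfm hlip hSk (hε0 k) htw htT' P x)
          refine (mul_le_mul' le_rfl h3).trans ?_
          rw [mul_add, mul_add, mul_add, ← Finset.mul_sum]
          gcongr
      _ = (∫⁻ x, φ x * absd (uG Φ f₀ (εk k) ((Sk k).shift x) t +
            ∑ P ∈ trees K, gain Φ f₀ (εk k) tw t (Sk k) S P x)
            (uG Φ f₀ (εk k) ((Sk k).shift x) tw)) +
          ((∫⁻ x, φ x * absd (uG Φ f₀ (εk k) ((Sk k).shift x) tw) (dampG T f (S.shift x) tw)) +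
          ((∫⁻ x, ∑ P ∈ trees K, φ x * dgain Φ f₀ f T (εk k) tw t (Sk k) S P x) +
            ∫⁻ x, φ x * rest Φ f₀ f T tw t S K x)) := by
          have hm3 : Measurable fun x : Space3 =>
              (φ x * absd (uG Φ f₀ (εk k) ((Sk k).shift x) tw) (dampG T f (S.shift x) tw) +
              ((∑ P ∈ trees K, φ x * dgain Φ f₀ f T (εk k) tw t (Sk k) S P x) +
                φ x * rest Φ f₀ f T tw t S K x)) := hmY.add (hms.add hmr)
          rw [lintegral_add_right _ hm3, lintegral_add_left hmY, lintegral_add_left hms]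
      _ ≤ _ := by
          rw [e2]
          refine add_le_add (lintegral_test_le hC h1 h2 _) (add_le_add
            (lintegral_test_le hC h1 h2 _) (add_le_add le_rfl hρ))
  refine (limsup_le_limsup hev).trans ?_
  refine (limsup_add_le_enn _ _).trans ?_
  have a1 : limsup (fun k => C * ∫⁻ x in Metric.closedBall (0 : Space3) R,
        adiff (uG Φ f₀ (εk k) ((Sk k).shift x) t +
          ∑ P ∈ trees K, gain Φ f₀ (εk k) tw t (Sk k) S P x)
          (uG Φ f₀ (εk k) ((Sk k).shift x) tw)) atTop ≤ δ / 2 := by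
    rw [ENNReal.limsup_const_mul_of_ne_top hC]
    exact (mul_le_mul' le_rfl hX).trans hCr
  have a2 : limsup (fun k => C * ∫⁻ x in Metric.closedBall (0 : Space3) R,
      adiff (uG Φ f₀ (εk k) ((Sk k).shift x) tw) (dampG T f (S.shift x) tw)) atTop = 0 := by
    rw [ENNReal.limsup_const_mul_of_ne_top hC, hY.limsup_eq, mul_zero]
  refine (add_le_add a1 (limsup_add_le_enn _ _)).trans ?_
  rw [a2, zero_add]
  refine (add_le_add le_rfl (limsup_add_le_enn _ _)).trans ?_
  rw [limsup_const]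
  refine le_of_eq ?_
  rw [add_comm (limsup _ _) (δ / 2), ← add_assoc, ENNReal.add_halves]

end step

/-- the contraction inequality, as a hypothesis of the step -/
def ContrHyp (Φ : Space3 → ℝ) (f₀ : PhasePoint → ℝ) (f : ℝ → PhasePoint → ℝ) (T l tw t' : ℝ) :
    Prop :=
  ∀ t ∈ Icc tw t', ∀ (ι : Type) [Fintype ι] (S : Tubes ι) (M : ℝ≥0),
    (∀ i, LipschitzOnWith M (S.c i) (Icc 0 T)) → ∀ φ : Space3 → ℝ≥0∞, Measurable φ →
    ∀ Ps : Finset CTree,
    ∑ P ∈ Ps, ∑ i, ∫⁻ θ : HPar P, Awt l (childT0 Φ S i θ) tw θ.1 *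
      ∫⁻ x, φ x * wgt Φ f₀ tw t S i θ x * dampG T f ((childT0 Φ S i θ).shift x) tw ≤
    2⁻¹ * (Awt l S tw t * ∫⁻ x, φ x * dampG T f (S.shift x) tw)

theorem step_stT (hD : KData Φ β T f₀ f) {εk : ℕ → ℝ} (hε0 : ∀ k, 0 < εk k)
    (hlim : Tendsto εk atTop (𝓝 0)) {l tw t' : ℝ} (htw : 0 ≤ tw) (htT : t' ≤ T)
    (hG : GIV Φ f₀ f T tw) (hF : FluxStep Φ f₀ T tw t') (hC : ContrHyp Φ f₀ f T l tw t')
    {c : St Space3} (hcc : c ∈ CC Φ f₀ f T εk l tw t') {φ : Space3 → ℝ≥0∞} (hφ : φ ∈ TFn)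
    {δ : ℝ≥0∞} (hδ : 0 < δ) (hδ' : δ ≠ ∞) :
    Nonempty (StepJ volume (CC Φ f₀ f T εk l tw t') TFn 2⁻¹ c φ δ) := by
  obtain ⟨κ, _, Sk, S, t, ht, hc, hg, hu, hU, hUw, hA⟩ := hcc
  obtain ⟨K, hK⟩ := step_limsup (l := l) hD hε0 hlim htw htT hG hF hc hg ht hφ hδ hδ'
  have hβ := hD.beta_pos
  have hT := hD.T_pos
  have hΦ := hD.adm
  have hf := hD.sol
  have hfm : Measurable f₀ := hD.contDiff.continuous.measurable
  have hf1 : ∫⁻ z, ENNReal.ofReal (f₀ z) ≤ 1 :=
    (FM167.lintegral_density_eq_one hD.nonneg hD.integrable hD.mass).le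
  have htT' : t ≤ T := ht.2.trans htT
  obtain ⟨hφm, C, R, hCt, h1, h2⟩ := id hφ
  obtain ⟨M, hlipk, hlip⟩ := hc.lip
  choose D hDm hDf hDle using exists_dom hD hlip htw htT'
  refine ⟨{
    J := CTree × κ
    s := trees K ×ˢ Finset.univ
    Θ := fun j => HPar j.1
    mΘ := fun j => inferInstance
    ν := fun j => volume
    w := fun j θ x => wgt Φ f₀ tw t S j.2 θ x
    ch := fun j θ => chT Φ f₀ f T εk l tw Sk S j θ
    good := ?_
    meas := ?_
    dom := fun j θ => (C * (2 * volume (Metric.closedBall (0 : Space3) R))) * D j.1 θ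
    dom_fin := ?_
    le_dom := ?_
    step := ?_
    contr := ?_ }⟩
  · rintro ⟨P, i⟩ -
    have hCh := TubeChild491.childConv hΦ T κ Sk S εk hε0 hlim hc hg i P
    have hfin : ∀ᵐ θ : HPar P, D P θ < ∞ := ae_lt_top (hDm P) (hDf P)
    filter_upwards [hCh, hfin, hDle P i, ae_time_ne P T] with θ a1 a2 a3 a4
    by_cases hgood : HGood Φ tw t S i θ
    swap
    · exact Or.inl fun x => wgt_of_not hgood x
    refine Or.inr ⟨?_, ?_⟩
    · have hb := hgood.1
      have hθ : θ.1 ∈ Ioo 0 T :=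
        ⟨lt_of_le_of_lt htw hb.1, lt_of_le_of_ne (hb.2.trans htT') a4⟩
      obtain ⟨Ck, e1, e2, e3⟩ := a1 hθ hgood.2.1 hgood.2.2.1 hgood.2.2.2
      refine ⟨κ ⊕ Idx P, inferInstance, Ck, childT0 Φ S i θ, θ.1, ⟨hb.1.le, hb.2.trans ht.2⟩,
        e2, e3, ?_, rfl, rfl, rfl⟩
      filter_upwards [e1] with k hk
      show (fun x => uG Φ f₀ (εk k) ((childT Φ (εk k) (Sk k) S i θ).shift x) θ.1) =
        fun x => uG Φ f₀ (εk k) ((Ck k).shift x) θ.1
      rw [hk]
    · refine ⟨?_, C * D P θ, R, ENNReal.mul_ne_top hCt a2.ne, fun x => ?_, fun x hx => ?_⟩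
      · exact hφm.mul ((measurable_wgt hΦ hfm hT.le htw htT' (hlip i).continuousOn P).comp
          (measurable_prodMk_right (y := θ)))
      · exact mul_le_mul' (h1 x) (a3 x)
      · show φ x * wgt Φ f₀ tw t S i θ x = 0
        rw [h2 x hx, zero_mul]
  · rintro ⟨P, i⟩ -
    filter_upwards [hlipk] with k hk
    have hm := measurable_wgt_absd hβ hT hΦ hf hfm hlip (fun i => (hk i).continuousOn) (hε0 k)
      htw htT' i P
    have h0 : Measurable fun q : Space3 × HPar P => φ q.1 * (wgt Φ f₀ tw t S i q.2 q.1 *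
      absd (uG Φ f₀ (εk k) ((childT Φ (εk k) (Sk k) S i q.2).shift q.1) q.2.1)
        (dampG T f ((childT0 Φ S i q.2).shift q.1) q.2.1)) :=
      (hφm.comp measurable_fst).mul hm
    have h3 : Measurable fun θ : HPar P => ∫⁻ x : Space3, φ x * (wgt Φ f₀ tw t S i θ x *
      absd (uG Φ f₀ (εk k) ((childT Φ (εk k) (Sk k) S i θ).shift x) θ.1)
        (dampG T f ((childT0 Φ S i θ).shift x) θ.1)) := h0.lintegral_prod_left'
    have e : (fun θ : HPar P => (chT Φ f₀ f T εk l tw Sk S (P, i) θ).err volume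
        (fun x => φ x * wgt Φ f₀ tw t S i θ x) k) = fun θ : HPar P => ∫⁻ x : Space3,
        φ x * (wgt Φ f₀ tw t S i θ x *
      absd (uG Φ f₀ (εk k) ((childT Φ (εk k) (Sk k) S i θ).shift x) θ.1)
        (dampG T f ((childT0 Φ S i θ).shift x) θ.1)) := by
      funext θ
      rw [chT_err]
      exact lintegral_congr fun x => mul_assoc _ _ _
    show AEMeasurable (fun θ : HPar P => (chT Φ f₀ f T εk l tw Sk S (P, i) θ).err volume
        (fun x => φ x * wgt Φ f₀ tw t S i θ x) k) volume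
    rw [e]
    exact h3.aemeasurable
  · rintro ⟨P, i⟩ -
    show ∫⁻ θ, (C * (2 * volume (Metric.closedBall (0 : Space3) R))) * D P θ ≠ ∞
    have hne : C * (2 * volume (Metric.closedBall (0 : Space3) R)) ≠ ∞ :=
      ENNReal.mul_ne_top hCt (ENNReal.mul_ne_top (by simp) measure_closedBall_lt_top.ne)
    rw [lintegral_const_mul' _ _ hne]
    exact ENNReal.mul_ne_top hne (hDf P)
  · rintro ⟨P, i⟩ -
    refine Eventually.of_forall fun k => ?_
    have hfin : ∀ᵐ θ : HPar P, D P θ < ∞ := ae_lt_top (hDm P) (hDf P)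
    filter_upwards [hDle P i, hfin] with θ a1 a2
    rw [chT_err]
    calc ∫⁻ x, φ x * wgt Φ f₀ tw t S i θ x *
          absd (uG Φ f₀ (εk k) ((childT Φ (εk k) (Sk k) S i θ).shift x) θ.1)
            (dampG T f ((childT0 Φ S i θ).shift x) θ.1)
        ≤ ∫⁻ x, φ x * (D P θ * 2) := by
          refine lintegral_mono fun x => ?_
          rw [mul_assoc]
          exact mul_le_mul' le_rfl (mul_le_mul' (a1 x)
            (absd_le_two (uG_le_one hfm hf1) (dampG_le_one _)))
      _ ≤ C * ∫⁻ _x in Metric.closedBall (0 : Space3) R, D P θ * 2 :=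
          lintegral_test_le hCt h1 h2 _
      _ = (C * (2 * volume (Metric.closedBall (0 : Space3) R))) * D P θ := by
          rw [setLIntegral_const]; ring
  · rw [limsup_err_congr hu hU]
    exact hK
  · rw [hA, hUw, Finset.sum_product]
    exact hC t ht κ S M hlip φ hφm (trees K)

/-- **The window step of the ghost avoidance identification.** -/
theorem giv_window (hD : KData Φ β T f₀ f) : ∃ h : ℝ, 0 < h ∧ ∀ tw t' : ℝ, 0 ≤ tw → tw ≤ t' →
    t' ≤ T → t' ≤ tw + h → FluxStep Φ f₀ T tw t' → GIV Φ f₀ f T tw → GIV Φ f₀ f T t' := by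
  obtain ⟨h, l, hh, hl, hcontr⟩ := contraction hD.beta_pos hD.T_pos hD.adm hD.sol
  refine ⟨h, hh, fun tw t' htw hle htT hsh hF hG => ?_⟩
  intro ι _ Sk S εk hε0 hlim hc hg R
  have hC : ContrHyp Φ f₀ f T l tw t' := fun t ht =>
    hcontr tw ⟨htw, hle.trans htT⟩ t (ht.2.trans hsh) (ht.2.trans htT)
  have hcm : stT Φ f₀ f T εk l tw Sk S t' ∈ CC Φ f₀ f T εk l tw t' :=
    ⟨ι, inferInstance, Sk, S, t', ⟨hle, le_rfl⟩, hc, hg, Eventually.of_forall fun _ => rfl,
      rfl, rfl, rfl⟩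
  have hB : MeasurableSet (Metric.closedBall (0 : Space3) R) :=
    Metric.isClosed_closedBall.measurableSet
  have hφ : (Metric.closedBall (0 : Space3) R).indicator (1 : Space3 → ℝ≥0∞) ∈ TFn := by
    refine ⟨measurable_one.indicator hB, 1, R, by simp, fun x => ?_, fun x hx =>
      indicator_of_notMem hx _⟩
    exact indicator_le_self' (fun _ _ => zero_le) x
  have key := tendsto_errJ (μ := volume) (𝒞 := CC Φ f₀ f T εk l tw t') (𝒯 := TFn) (th := 2⁻¹)
    (ENNReal.inv_lt_one.2 (by norm_num)) ?_ ?_ ?_ hcm hφ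
  · refine key.congr fun k => ?_
    rw [← lintegral_indicator hB]
    unfold St.err
    refine lintegral_congr fun x => ?_
    by_cases hx : x ∈ Metric.closedBall (0 : Space3) R
    · rw [indicator_of_mem hx, indicator_of_mem hx, Pi.one_apply, one_mul]
      rfl
    · rw [indicator_of_notMem hx, indicator_of_notMem hx, zero_mul]
  · rintro c ⟨κ, _, Sk', S', t, ht, hc', hg', hu, hU, hUw, hA⟩ φ hφ'
    rw [limsup_err_congr hu hU, hUw, hA]
    exact base_stT hD hε0 hlim hl.le htT hG hc' hg' ht hφ'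
  · rintro c ⟨κ, _, Sk', S', t, ht, hc', hg', hu, hU, hUw, hA⟩ φ hφ'
    rw [hUw, hA]
    exact err_fin_stT (Sk := Sk') hφ'
  · intro c hcc φ hφ' δ hδ hδ'
    exact step_stT hD hε0 hlim htw htT hG hF hC hcc hφ' hδ hδ'

end Crest.Agent.R122.GIVStep383
end
end

-- ▼ part R122/GIVStepIn_383
section

/-!
# Row 122, block F (helper383): the input `GIVStepIn` of the top skeleton

`givStepIn : KData → GIVStepIn`; `fIn_of` : `BadIn` and `ErrIn` imply `FIn`.
-/

set_option autoImplicit false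

open Crest.AnalysisR.Kinetic
open Crest.Agent.R122.Master566 Crest.Agent.R122.GIV566

noncomputable section

namespace Crest.Agent.R122.Top602

variable {Φ : Space3 → ℝ} {β T : ℝ} {f₀ : PhasePoint → ℝ} {f : ℝ → PhasePoint → ℝ}

/-- The window step of the ghost avoidance identification. -/
theorem givStepIn (hD : KData Φ β T f₀ f) : GIVStepIn Φ f₀ f T := by
  obtain ⟨h, hh, H⟩ := GIVStep383.giv_window hD
  exact ⟨h, hh, fun tw te hw hG hF => H tw te hw.nonneg hw.le hw.le_T hw.short hF hG⟩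

/-- Section F from its two remaining inputs. -/
theorem fIn_of (hD : KData Φ β T f₀ f) (hB : BadIn Φ f₀ f T) (hE : ErrIn Φ f₀ f T) :
    FIn Φ f₀ f T :=
  fIn_of_flux (givStepIn hD) (fluxIn_of hD hB hE)

end Crest.Agent.R122.Top602
end
end

-- ▼ part R122/TopG_602
section

/-!
# Row 122: the open inputs of S0162 (helper602)

* `OpenIn` : the inputs of S0162 that are not proved yet.
* `result_of_open` : S0162 from `OpenIn`.
-/

set_option autoImplicit false

open MeasureTheory Set Filter Topology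
open scoped ENNReal
open Crest.AnalysisR.Kinetic
open Crest.Agent.R122.Master566 Crest.Agent.R122.EDefs602 Crest.Agent.R122.GIV566

namespace Crest.Agent.R122.Top602

noncomputable section

/-- The remaining inputs of S0162. -/
structure OpenIn (Φ : Space3 → ℝ) (β T : ℝ) (f₀ : PhasePoint → ℝ) (f : ℝ → PhasePoint → ℝ) :
    Prop where
  /-- the inequalities of section E -/
  eIn : EIn Φ f₀ f T
  /-- the volume statement of section D5 -/
  vol : D5Vol Φ β
  /-- the input (C) of section F -/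
  err : ErrIn Φ f₀ f T
  /-- the null facts for forests -/
  ret : Ret424.RetFacts Φ f₀ T

/-- **The statement of S0162 from the open inputs.** -/
theorem result_of_open
    (H : ∀ (Φ : Space3 → ℝ) (β T : ℝ) (f₀ : PhasePoint → ℝ) (f : ℝ → PhasePoint → ℝ),
      KData Φ β T f₀ f → OpenIn Φ β T f₀ f)
    (Φ : Space3 → ℝ) (hΦ : AdmissiblePotential Φ) (β : ℝ) (hβ : 0 < β) (T : ℝ) (hT : 0 < T)
    (f₀ : PhasePoint → ℝ) (hf₀ : ∀ z, 0 ≤ f₀ z) (hf₀d : ContDiff ℝ 1 f₀)
    (hf₀i : Integrable f₀) (hf₀m : ∫ z, f₀ z = 1)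
    (hf₀b : HasSummableGaussianBound (2 * β) (fun x v => f₀ (x, v)))
    (hf₀g : HasSummableGaussianBound (2 * β) (fun x v => fderiv ℝ (fun y => f₀ (y, v)) x))
    (f : ℝ → PhasePoint → ℝ) (hf : IsRegularKineticSolution Φ β T f₀ f)
    (Ψ : ℝ → (n : ℕ) → ℝ → Config n → Config n)
    (hΨ : ∀ ε : ℝ, 0 < ε → IsNewtonianEvolution Φ ε (Ψ ε))
    (s : ℕ) (hs : 1 ≤ s) (δ : ℝ) (hδ : 0 < δ) :
    ∃ ε₀ : ℝ, 0 < ε₀ ∧ ∀ ε : ℝ, 0 < ε → ε < ε₀ → ∀ t ∈ Set.Icc 0 T,
      ∀ A : Set (Config s), MeasurableSet A →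
        factorialMarginal f₀ ε (Ψ ε) s t A ≤
            (∫⁻ Z in A, ∏ k, ENNReal.ofReal (f t (Z k))) + ENNReal.ofReal δ ∧
          (∫⁻ Z in A, ∏ k, ENNReal.ofReal (f t (Z k))) ≤
            factorialMarginal f₀ ε (Ψ ε) s t A + ENNReal.ofReal δ :=
  result_of_inputs (fun Φ β T f₀ f hD => (H Φ β T f₀ f hD).eIn)
    (fun Φ β T f₀ f hD => fIn_of hD (badIn_of_vol hD (H Φ β T f₀ f hD).vol)
      (H Φ β T f₀ f hD).err)
    (fun Φ β T f₀ f hD => Ret424.retIn_of_facts hD (H Φ β T f₀ f hD).ret)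
    Φ hΦ β hβ T hT f₀ hf₀ hf₀d hf₀i hf₀m hf₀b hf₀g f hf Ψ hΨ s hs δ hδ

end

end Crest.Agent.R122.Top602
end

-- ▼ part R122/FinPM_566
section

/-!
# Finiteness of the pair mass of `nu0` (row 122, section E)

* `lineInt_le` : mass of the test lines meeting the root line of a structure.
* `first_marginal_le` : first marginal of `nu0` against the measure on lines, uniformly in `ε`, `K`.
* `PE_nu0_ne_top`, `finPM_nu0` : finiteness of the pair mass.
-/

set_option autoImplicit false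
set_option maxHeartbeats 400000
set_option linter.unusedSectionVars false

open MeasureTheory Set Filter
open scoped ENNReal Classical Topology
open Crest.AnalysisR.Kinetic
open Crest.Agent.R122.Kin796 Crest.Agent.R122.Kin796.CTree Crest.Agent.R122.Tree674
open Crest.Agent.R122.GC311 Crest.Agent.R122.EDefs602 Crest.Agent.R122.TreeLines335
open Crest.Agent.R122.OneC285 Crest.Agent.R122.Disc416 Crest.Agent.R122.Nu0566

noncomputable section

namespace Crest.Agent.R122.FinPM566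

variable {Φ : Space3 → ℝ} {f₀ : PhasePoint → ℝ} {ε : ℝ} {K : ℕ} {P : CTree}

/-! ### Elementary bounds -/

theorem one_add_le_exp {δ : ℝ} (hδ : 0 < δ) (t : ℝ) :
    1 + t ≤ (2 + 1 / δ) * Real.exp (δ * t ^ 2) := by
  have h1 : 1 + δ * t ^ 2 ≤ Real.exp (δ * t ^ 2) := by
    have := Real.add_one_le_exp (δ * t ^ 2)
    linarith
  have h2 : 0 < 2 + 1 / δ := by positivity
  have h3 : (2 + 1 / δ) * (1 + δ * t ^ 2) ≤ (2 + 1 / δ) * Real.exp (δ * t ^ 2) :=
    mul_le_mul_of_nonneg_left h1 h2.le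
  have h4 : (2 + 1 / δ) * (1 + δ * t ^ 2) = 2 + 1 / δ + 2 * δ * t ^ 2 + t ^ 2 := by
    field_simp
    ring
  have h5 : 0 ≤ 1 / δ := by positivity
  nlinarith [sq_nonneg (t - 1), mul_nonneg hδ.le (sq_nonneg t)]

/-- Area of the unit disc. -/
def vD : ℝ≥0∞ := volume (Metric.ball (0 : Plane) 1)

theorem vD_ne_top : vD ≠ ∞ := measure_ball_lt_top.ne

/-- Gaussian moment. -/
def gm (g : ℝ) : ℝ≥0∞ := ∫⁻ v : Space3, wG g v * ENNReal.ofReal (1 + ‖v‖)

theorem gm_ne_top {g : ℝ} (hg : 0 < g) : gm g ≠ ∞ := by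
  unfold gm
  have h1 : ∀ v : Space3, wG g v * ENNReal.ofReal (1 + ‖v‖) ≤
      ENNReal.ofReal (2 + 1 / (g / 2)) * Mark307.gE (g / 2) v := by
    intro v
    unfold wG Mark307.gE
    rw [← ENNReal.ofReal_mul (Real.exp_nonneg _), ← ENNReal.ofReal_mul (by positivity)]
    refine ENNReal.ofReal_le_ofReal ?_
    have h2 := one_add_le_exp (half_pos hg) ‖v‖
    calc Real.exp (-(g * ‖v‖ ^ 2)) * (1 + ‖v‖)
        ≤ Real.exp (-(g * ‖v‖ ^ 2)) * ((2 + 1 / (g / 2)) * Real.exp (g / 2 * ‖v‖ ^ 2)) :=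
          mul_le_mul_of_nonneg_left h2 (Real.exp_nonneg _)
      _ = (2 + 1 / (g / 2)) * Real.exp (-(g / 2) * ‖v‖ ^ 2) := by
          rw [mul_left_comm, ← Real.exp_add]
          congr 2
          ring
  refine ne_top_of_le_ne_top ?_ (lintegral_mono h1)
  rw [lintegral_const_mul _ (Mark307.measurable_gE _)]
  exact ENNReal.mul_ne_top ENNReal.ofReal_ne_top (Mark307.lintegral_gE_ne_top (half_pos hg))

/-! ### Test lines meeting the root line -/

theorem flux_one_le (g : ℝ) (u : Space3) :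
    ∫⁻ v : Space3, ENNReal.ofReal ‖v - u‖ * (wG g v *
      ∫⁻ _b in impactDisc (v - u), (1 : ℝ≥0∞) ∂μHE[2]) ≤
      vD * gm g * ENNReal.ofReal (1 + ‖u‖) := by
  have h1 : ∀ v : Space3, ENNReal.ofReal ‖v - u‖ * (wG g v *
      ∫⁻ _b in impactDisc (v - u), (1 : ℝ≥0∞) ∂μHE[2]) ≤
      (vD * ENNReal.ofReal (1 + ‖u‖)) * (wG g v * ENNReal.ofReal (1 + ‖v‖)) := by
    intro v
    have h2 := norm_mul_lintegral_impactDisc (v - u) (fun _ => (1 : ℝ≥0∞))
    have h3 : ∫⁻ _y in Metric.ball (0 : Plane) 1, (1 : ℝ≥0∞) = vD := by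
      rw [lintegral_one, Measure.restrict_apply_univ]
      rfl
    have h4 : ENNReal.ofReal ‖v - u‖ ≤ ENNReal.ofReal (1 + ‖v‖) * ENNReal.ofReal (1 + ‖u‖) := by
      rw [← ENNReal.ofReal_mul (by positivity)]
      refine ENNReal.ofReal_le_ofReal ?_
      have := norm_sub_le v u
      nlinarith [norm_nonneg v, norm_nonneg u, mul_nonneg (norm_nonneg v) (norm_nonneg u)]
    calc ENNReal.ofReal ‖v - u‖ * (wG g v * ∫⁻ _b in impactDisc (v - u), (1 : ℝ≥0∞) ∂μHE[2])
        = wG g v * (ENNReal.ofReal ‖v - u‖ *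
            ∫⁻ _b in impactDisc (v - u), (1 : ℝ≥0∞) ∂μHE[2]) := by ring
      _ = wG g v * (ENNReal.ofReal ‖v - u‖ * vD) := by rw [h2, h3]
      _ ≤ wG g v * ((ENNReal.ofReal (1 + ‖v‖) * ENNReal.ofReal (1 + ‖u‖)) * vD) := by gcongr
      _ = _ := by ring
  refine (lintegral_mono h1).trans (le_of_eq ?_)
  rw [lintegral_const_mul _ (by unfold wG; fun_prop)]
  unfold gm
  ring

theorem tsum_mark_le (ρ : ℝ≥0∞) (K : ℕ) (P : CTree) :
    ∑' n : ℕ, markW ρ K n * (if n + P.leaves ≤ K then (1 : ℝ≥0∞) else 0) ≤ (1 - ρ)⁻¹ := by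
  refine le_trans (ENNReal.tsum_le_tsum fun n => ?_) (EBasic602.tsum_markW_le (ρ := ρ) K)
  split_ifs
  · rw [mul_one]
  · rw [mul_zero]
    exact zero_le

/-- Constant of `lineInt_le`. -/
def cLI (g : ℝ) (ρ : ℝ≥0∞) (te : ℝ) : ℝ≥0∞ := ENNReal.ofReal te * ((1 - ρ)⁻¹ * (vD * gm g))

theorem cLI_ne_top {g : ℝ} (hg : 0 < g) {ρ : ℝ≥0∞} (hρ : ρ < 1) (te : ℝ) : cLI g ρ te ≠ ∞ :=
  ENNReal.mul_ne_top ENNReal.ofReal_ne_top (ENNReal.mul_ne_top
    (ENNReal.inv_ne_top.2 (tsub_pos_of_lt hρ).ne') (ENNReal.mul_ne_top vD_ne_top (gm_ne_top hg)))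

/-- Mass of the test lines meeting the root line of a structure. -/
theorem lineInt_le (hΦ : AdmissiblePotential Φ) (hε : 0 < ε) (g : ℝ) (ρ : ℝ≥0∞) (te : ℝ)
    (z : PhasePoint × Par P) :
    ∫⁻ l, {l : ML | (z, l.1) ∈ OneC423.ctSet Φ ε te P}.indicator
      (fun l => lineD (fun _ => g) ρ K l * smI K P l) l
        ∂(OneC423.baseM (Measure.dirac 0)) ≤
      {z : PhasePoint × Par P | Valid Φ ε P te z.1.2 z.2}.indicator
        (fun z => ENNReal.ofReal (ε ^ 2) * (cLI g ρ te * ENNReal.ofReal (1 + ‖z.1.2‖))) z := by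
  have h0 := lintegral_line_flux (P := P) (K := K) hΦ hε g ρ te 0 z (F := fun _ => (1 : ℝ≥0∞))
    measurable_const
  simp only [mul_one] at h0
  rw [h0]
  by_cases hz : Valid Φ ε P te z.1.2 z.2
  · rw [indicator_of_mem (show z ∈ {z : PhasePoint × Par P | Valid Φ ε P te z.1.2 z.2} from hz)]
    refine mul_le_mul' le_rfl ?_
    have h1 : ∀ s, {s | s ≤ te ∧ Valid Φ ε P s z.1.2 z.2}.indicator
        (fun s => fluxI Φ ε K g ρ P z s fun _ => 1) s ≤
        (1 - ρ)⁻¹ * (vD * gm g * ENNReal.ofReal (1 + ‖z.1.2‖)) := by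
      intro s
      refine indicator_le_self' (fun _ _ => zero_le) s |>.trans ?_
      unfold fluxI
      calc ∑' n : ℕ, markW ρ K n * (if n + P.leaves ≤ K then (1 : ℝ≥0∞) else 0) *
            ∫⁻ v : Space3, ENNReal.ofReal ‖v - z.1.2‖ * (wG g v *
              ∫⁻ _b in impactDisc (v - z.1.2), (1 : ℝ≥0∞) ∂μHE[2])
          ≤ ∑' n : ℕ, markW ρ K n * (if n + P.leaves ≤ K then (1 : ℝ≥0∞) else 0) *
            (vD * gm g * ENNReal.ofReal (1 + ‖z.1.2‖)) :=
            ENNReal.tsum_le_tsum fun n => mul_le_mul' le_rfl (flux_one_le g z.1.2)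
        _ = (∑' n : ℕ, markW ρ K n * (if n + P.leaves ≤ K then (1 : ℝ≥0∞) else 0)) *
            (vD * gm g * ENNReal.ofReal (1 + ‖z.1.2‖)) := ENNReal.tsum_mul_right
        _ ≤ _ := mul_le_mul' (tsum_mark_le ρ K P) le_rfl
    refine (lintegral_mono fun s => h1 s).trans (le_of_eq ?_)
    rw [setLIntegral_const, Real.volume_Ioc, sub_zero]
    unfold cLI
    ring
  · rw [indicator_of_notMem (show z ∉ {z : PhasePoint × Par P | Valid Φ ε P te z.1.2 z.2}
      from hz)]
    have h1 : ∀ s, {s | s ≤ te ∧ Valid Φ ε P s z.1.2 z.2}.indicator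
        (fun s => fluxI Φ ε K g ρ P z s fun _ => 1) s = 0 := by
      intro s
      refine indicator_of_notMem ?_ _
      intro hs
      exact hz ((valid_iff_top hs.1).1 hs.2).1
    simp only [h1, lintegral_zero, mul_zero]
    exact le_rfl

/-! ### The first marginal -/

/-- Initial density with a part of the Gaussian removed. -/
def kδ (f₀ : PhasePoint → ℝ) (δ : ℝ) (z : PhasePoint) : ℝ≥0∞ :=
  ENNReal.ofReal (f₀ z) * ENNReal.ofReal (Real.exp (δ * ‖z.2‖ ^ 2))

theorem measurable_kδ (hf : Measurable f₀) (δ : ℝ) : Measurable (kδ f₀ δ) := by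
  unfold kδ
  fun_prop

theorem kδ_le {C b δ : ℝ} (hC : 0 ≤ C) (hb : ∀ z, f₀ z ≤ C * Real.exp (-(b * ‖z.2‖ ^ 2)))
    (z : PhasePoint) : kδ f₀ δ z ≤ ENNReal.ofReal (C * Real.exp (-(b - δ) * ‖z.2‖ ^ 2)) := by
  unfold kδ
  have h0 : 0 ≤ C * Real.exp (-(b * ‖z.2‖ ^ 2)) := by positivity
  calc ENNReal.ofReal (f₀ z) * ENNReal.ofReal (Real.exp (δ * ‖z.2‖ ^ 2))
      ≤ ENNReal.ofReal (C * Real.exp (-(b * ‖z.2‖ ^ 2))) *
        ENNReal.ofReal (Real.exp (δ * ‖z.2‖ ^ 2)) := by
        gcongr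
        exact hb z
    _ = ENNReal.ofReal (C * Real.exp (-(b - δ) * ‖z.2‖ ^ 2)) := by
        rw [← ENNReal.ofReal_mul h0, mul_assoc, ← Real.exp_add]
        congr 3
        ring

/-- The weight `1 + |u|` of the root is absorbed by the Gaussians. -/
theorem pf_mul_le (hΦ : AdmissiblePotential Φ) {δ : ℝ} (hδ : 0 < δ) {z : PhasePoint × Par P}
    (h : Adm Φ P z.1.2 z.2) :
    ToTree335.pf Φ f₀ ε P z * ENNReal.ofReal (1 + ‖z.1.2‖) ≤
      ENNReal.ofReal (2 + 1 / δ) * ∏ i, kδ f₀ δ (lines Φ ε P z.1 z.2 i) := by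
  have h1 : ENNReal.ofReal (1 + ‖z.1.2‖) ≤ ENNReal.ofReal (2 + 1 / δ) *
      ∏ i, ENNReal.ofReal (Real.exp (δ * ‖(lines Φ ε P z.1 z.2 i).2‖ ^ 2)) := by
    rw [← ENNReal.ofReal_prod_of_nonneg (fun i _ => Real.exp_nonneg _), ← Real.exp_sum,
      ← ENNReal.ofReal_mul (by positivity)]
    refine ENNReal.ofReal_le_ofReal ?_
    refine (one_add_le_exp hδ ‖z.1.2‖).trans ?_
    refine mul_le_mul_of_nonneg_left (Real.exp_le_exp.2 ?_) (by positivity)
    rw [← Finset.mul_sum]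
    refine mul_le_mul_of_nonneg_left ?_ hδ.le
    simp only [Hid424.lines_vel]
    rw [TreeDom974.sum_vels_sq hΦ h]
    have := TreeDom974.nodeE_nonneg P z.2
    linarith
  unfold ToTree335.pf kδ
  rw [Finset.prod_mul_distrib]
  calc (∏ i, ENNReal.ofReal (f₀ (lines Φ ε P z.1 z.2 i))) * ENNReal.ofReal (1 + ‖z.1.2‖)
      ≤ (∏ i, ENNReal.ofReal (f₀ (lines Φ ε P z.1 z.2 i))) * (ENNReal.ofReal (2 + 1 / δ) *
      ∏ i, ENNReal.ofReal (Real.exp (δ * ‖(lines Φ ε P z.1 z.2 i).2‖ ^ 2))) := by gcongr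
    _ = _ := by ring

theorem mem_exS {x : Idx P ⊕ Bool} (hx : x ∈ exS P) : ∃ m : Mark307.Mk P,
    x = Sum.inl (Mark307.exIdx m) := by
  unfold exS at hx
  rw [Finset.mem_map] at hx
  obtain ⟨i, hi, rfl⟩ := hx
  obtain ⟨m, hm⟩ := Mark307.exIdx_surj P i (Finset.mem_filter.1 hi).2
  exact ⟨m, by rw [hm]; rfl⟩

theorem oneLs_exit {x : Idx P ⊕ Bool} {m : Mark307.Mk P} (hx : x = Sum.inl (Mark307.exIdx m))
    (z : PhasePoint × Par P) (l : ML) :
    oneLs Φ ε P z l x = lineML Φ ε P z (Mark307.exIdx m) := by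
  subst hx
  simp only [oneLs, if_neg (Mark307.exIdx_ne_root m)]

theorem measurable_ctInd (hΦ : AdmissiblePotential Φ) (g : ℝ) (ρ : ℝ≥0∞) (te : ℝ)
    (z : PhasePoint × Par P) : Measurable fun l : ML =>
      {l : ML | (z, l.1) ∈ OneC423.ctSet Φ ε te P}.indicator
        (fun l => lineD (fun _ => g) ρ K l * smI K P l) l := by
  have hsm : Measurable fun l : ML => smI K P l := by
    unfold smI
    refine Measurable.ite ?_ measurable_const measurable_const
    exact measurable_snd (measurableSet_le (measurable_of_countable _)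
      measurable_const : MeasurableSet {n : ℕ | n + P.leaves ≤ K})
  refine Measurable.indicator ((MeasE416.measurable_lineD measurable_const ρ K).mul hsm) ?_
  have h : Measurable fun l : ML => ((z, l.1) : (PhasePoint × Par P) × (ℝ × PhasePoint)) :=
    measurable_const.prodMk measurable_fst
  exact h (OneC423.measurableSet_ctSet hΦ ε te P)

/-- One exit of one tree. -/
theorem exit_le (hΦ : AdmissiblePotential Φ) (hε : 0 < ε) {δ : ℝ} (hδ : 0 < δ) {g : ℝ}
    (hg : 0 < g) {ρ : ℝ≥0∞} (hρ : ρ < 1) (te T' : ℝ) {x : Idx P ⊕ Bool} (hx : x ∈ exS P) (F : ML → ℝ≥0∞) :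
    ∫⁻ z : PhasePoint × Par P, {z : PhasePoint × Par P | Valid Φ ε P T' z.1.2 z.2}.indicator
        (fun z => wt Φ P z.1.2 z.2 * (ToTree335.pf Φ f₀ ε P z *
          ∫⁻ l, {l : ML | (z, l.1) ∈ OneC423.ctSet Φ ε te P}.indicator
            (fun l => lineD (fun _ => g) ρ K l * (smI K P l * F (oneLs Φ ε P z l x))) l
              ∂(OneC423.baseM (Measure.dirac 0)))) z ≤
      ENNReal.ofReal (ε ^ 2) * (cLI g ρ te * ENNReal.ofReal (2 + 1 / δ)) *
        ∫⁻ z : PhasePoint × Par P, vw Φ ε P te z *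
          ((∏ i, kδ f₀ δ (lines Φ ε P z.1 z.2 i)) *
            ∑ m : Mark307.Mk P, F (lineML Φ ε P z (Mark307.exIdx m))) := by
  obtain ⟨m, hm⟩ := mem_exS hx
  rw [← lintegral_const_mul' _ _ (ENNReal.mul_ne_top ENNReal.ofReal_ne_top
    (ENNReal.mul_ne_top (cLI_ne_top hg hρ te) ENNReal.ofReal_ne_top) :
      ENNReal.ofReal (ε ^ 2) * (cLI g ρ te * ENNReal.ofReal (2 + 1 / δ)) ≠ ∞)]
  refine lintegral_mono fun z => ?_
  by_cases hz : Valid Φ ε P T' z.1.2 z.2
  swap
  · rw [indicator_of_notMem (show z ∉ {z : PhasePoint × Par P | Valid Φ ε P T' z.1.2 z.2}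
      from hz)]
    exact zero_le
  rw [indicator_of_mem (show z ∈ {z : PhasePoint × Par P | Valid Φ ε P T' z.1.2 z.2} from hz)]
  have h1 : ∫⁻ l, {l : ML | (z, l.1) ∈ OneC423.ctSet Φ ε te P}.indicator
            (fun l => lineD (fun _ => g) ρ K l * (smI K P l * F (oneLs Φ ε P z l x))) l
              ∂(OneC423.baseM (Measure.dirac 0)) =
      F (lineML Φ ε P z (Mark307.exIdx m)) *
        ∫⁻ l, {l : ML | (z, l.1) ∈ OneC423.ctSet Φ ε te P}.indicator
          (fun l => lineD (fun _ => g) ρ K l * smI K P l) l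
            ∂(OneC423.baseM (Measure.dirac 0)) := by
    rw [← lintegral_const_mul _ (measurable_ctInd hΦ g ρ te z)]
    refine lintegral_congr fun l => ?_
    by_cases hl : (z, l.1) ∈ OneC423.ctSet Φ ε te P
    · rw [indicator_of_mem (show l ∈ {l : ML | (z, l.1) ∈ OneC423.ctSet Φ ε te P} from hl),
        indicator_of_mem (show l ∈ {l : ML | (z, l.1) ∈ OneC423.ctSet Φ ε te P} from hl),
        oneLs_exit hm]
      ring
    · rw [indicator_of_notMem (show l ∉ {l : ML | (z, l.1) ∈ OneC423.ctSet Φ ε te P} from hl),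
        indicator_of_notMem (show l ∉ {l : ML | (z, l.1) ∈ OneC423.ctSet Φ ε te P} from hl),
        mul_zero]
  rw [h1]
  have h2 := lineInt_le (K := K) hΦ hε g ρ te z
  have h3 : F (lineML Φ ε P z (Mark307.exIdx m)) ≤
      ∑ m : Mark307.Mk P, F (lineML Φ ε P z (Mark307.exIdx m)) :=
    Finset.single_le_sum (f := fun m => F (lineML Φ ε P z (Mark307.exIdx m)))
      (fun _ _ => zero_le) (Finset.mem_univ m)
  by_cases hz' : Valid Φ ε P te z.1.2 z.2
  · rw [indicator_of_mem (show z ∈ {z : PhasePoint × Par P | Valid Φ ε P te z.1.2 z.2}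
      from hz')] at h2
    have h4 : vw Φ ε P te z = wt Φ P z.1.2 z.2 := by
      unfold vw
      exact indicator_of_mem (show z ∈ {z : PhasePoint × Par P | Valid Φ ε P te z.1.2 z.2}
        from hz') _
    rw [h4]
    calc wt Φ P z.1.2 z.2 * (ToTree335.pf Φ f₀ ε P z *
          (F (lineML Φ ε P z (Mark307.exIdx m)) *
            ∫⁻ l, {l : ML | (z, l.1) ∈ OneC423.ctSet Φ ε te P}.indicator
              (fun l => lineD (fun _ => g) ρ K l * smI K P l) l
                ∂(OneC423.baseM (Measure.dirac 0))))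
        ≤ wt Φ P z.1.2 z.2 * (ToTree335.pf Φ f₀ ε P z *
          ((∑ m : Mark307.Mk P, F (lineML Φ ε P z (Mark307.exIdx m))) *
            (ENNReal.ofReal (ε ^ 2) * (cLI g ρ te * ENNReal.ofReal (1 + ‖z.1.2‖))))) := by
          gcongr
      _ = ENNReal.ofReal (ε ^ 2) * cLI g ρ te * (wt Φ P z.1.2 z.2 *
          ((ToTree335.pf Φ f₀ ε P z * ENNReal.ofReal (1 + ‖z.1.2‖)) *
            ∑ m : Mark307.Mk P, F (lineML Φ ε P z (Mark307.exIdx m)))) := by ring
      _ ≤ ENNReal.ofReal (ε ^ 2) * cLI g ρ te * (wt Φ P z.1.2 z.2 *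
          ((ENNReal.ofReal (2 + 1 / δ) * ∏ i, kδ f₀ δ (lines Φ ε P z.1 z.2 i)) *
            ∑ m : Mark307.Mk P, F (lineML Φ ε P z (Mark307.exIdx m)))) := by
          have := pf_mul_le (f₀ := f₀) (ε := ε) hΦ hδ hz.1
          gcongr
      _ = _ := by ring
  · rw [indicator_of_notMem (show z ∉ {z : PhasePoint × Par P | Valid Φ ε P te z.1.2 z.2}
      from hz')] at h2
    have h5 := le_antisymm h2 zero_le
    rw [h5, mul_zero, mul_zero, mul_zero]
    exact zero_le

/-- **First marginal of `nu0`** against the measure on lines, uniformly in `ε`, `K`, `T'`. -/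
theorem first_marginal_le (hΦ : AdmissiblePotential Φ) (hf : Measurable f₀) {C b b' : ℝ}
    (hC : 0 ≤ C) (hb : ∀ z, f₀ z ≤ C * Real.exp (-(b * ‖z.2‖ ^ 2))) (hb' : 0 < b')
    (hbb : b' < b) (te : ℝ) {γ' : ℝ → ℝ} (hγm : Measurable γ')
    (hγ : ∀ τ ∈ Ioc 0 te, γ' τ ≤ b') {ρ' : ℝ≥0∞} (hρ0 : ρ' ≠ 0) (hρ1 : ρ' ≤ 1) {g : ℝ}
    (hg : 0 < g) {ρ : ℝ≥0∞} (hρ : ρ < 1) (m₀ : ℕ) :
    ∃ c : ℝ≥0∞, c ≠ ∞ ∧ ∀ (ε : ℝ) (K : ℕ) (Q : EPar) (T' : ℝ), 0 < ε → m₀ ≤ K → Q.te = te →
      Q.γ Q.te = g → Q.ρ = ρ → ∀ F : ML → ℝ≥0∞, Measurable F →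
      ∫⁻ p, F p.1 ∂(nu0 Φ f₀ ε K Q T' m₀) ≤ c * ∫⁻ d, F d ∂lineM γ' ρ' K te := by
  set δ : ℝ := (b - b') / 2 with hδ
  have hδ0 : 0 < δ := by rw [hδ]; linarith
  have hk : ∀ z, kδ f₀ δ z ≤ ENNReal.ofReal (C * Real.exp (-(b - δ) * ‖z.2‖ ^ 2)) :=
    kδ_le hC hb
  have hbδ : b' < b - δ := by rw [hδ]; linarith
  have hcr := fun P : CTree => Mark307.crude_exit_lineM hΦ hC hb' hbδ (measurable_kδ hf δ) hk P
    (T := te) hγm hγ hρ0 hρ1
  choose C' hC' hcr using hcr
  set A : ℝ≥0∞ := cLI g ρ te * ENNReal.ofReal (2 + 1 / δ) with hA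
  have hAt : A ≠ ∞ := ENNReal.mul_ne_top (cLI_ne_top hg hρ te) ENNReal.ofReal_ne_top
  set N : CTree → ℝ≥0∞ := fun P => ((exS P).card : ℝ≥0∞) *
    ((Finset.univ : Finset (Idx P ⊕ Bool)).card : ℝ≥0∞) with hN
  refine ⟨∑ P ∈ GIVStep383.trees m₀, N P * (A * C' P), ?_, ?_⟩
  · rw [ENNReal.sum_ne_top]
    intro P _
    exact ENNReal.mul_ne_top (ENNReal.mul_ne_top (ENNReal.natCast_ne_top _)
      (ENNReal.natCast_ne_top _)) (ENNReal.mul_ne_top hAt (hC' P))
  intro ε K Q T' hε hmK hQte hQγ hQρ F hF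
  have hF1 : Measurable fun p : ML × ML => F p.1 := hF.comp measurable_fst
  rw [lintegral_nu0_oneLs hΦ hf Q T' m₀ hF1]
  -- one tree
  have h1 : ∀ P : CTree, (if P.leaves ≤ m₀ then ∑ x ∈ exS P, ∑ y ∈ Finset.univ.erase x,
        ∫⁻ z : PhasePoint × Par P, {z : PhasePoint × Par P | Valid Φ ε P T' z.1.2 z.2}.indicator
          (fun z => wt Φ P z.1.2 z.2 * (ToTree335.pf Φ f₀ ε P z *
            ∫⁻ l, {l : ML | (z, l.1) ∈ OneC423.ctSet Φ ε Q.te P}.indicator
              (fun l => lineD (fun _ => Q.γ Q.te) Q.ρ K l * (smI K P l *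
                F (oneLs Φ ε P z l x, oneLs Φ ε P z l y).1)) l
                  ∂(OneC423.baseM (Measure.dirac 0)))) z
      else 0) ≤ if P ∈ GIVStep383.trees m₀ then
        N P * (ENNReal.ofReal (ε ^ 2) * A * (C' P * ∫⁻ d, F d ∂lineM γ' ρ' K te)) else 0 := by
    intro P
    by_cases hP : P.leaves ≤ m₀
    · rw [if_pos hP, if_pos (GIVStep383.mem_trees.2 hP)]
      have h2 : ∀ x ∈ exS P, ∀ y ∈ Finset.univ.erase x,
          ∫⁻ z : PhasePoint × Par P, {z : PhasePoint × Par P | Valid Φ ε P T' z.1.2 z.2}.indicator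
          (fun z => wt Φ P z.1.2 z.2 * (ToTree335.pf Φ f₀ ε P z *
            ∫⁻ l, {l : ML | (z, l.1) ∈ OneC423.ctSet Φ ε Q.te P}.indicator
              (fun l => lineD (fun _ => Q.γ Q.te) Q.ρ K l * (smI K P l *
                F (oneLs Φ ε P z l x, oneLs Φ ε P z l y).1)) l
                  ∂(OneC423.baseM (Measure.dirac 0)))) z ≤
          ENNReal.ofReal (ε ^ 2) * A * (C' P * ∫⁻ d, F d ∂lineM γ' ρ' K te) := by
        intro x hx y _
        rw [hQte] at *
        rw [hQγ, hQρ]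
        refine (exit_le (K := K) hΦ hε hδ0 hg hρ te T' hx F).trans ?_
        exact mul_le_mul' le_rfl (hcr P ε te hε le_rfl K (hP.trans hmK) F hF)
      calc _ ≤ ∑ x ∈ exS P, ∑ y ∈ Finset.univ.erase x,
            ENNReal.ofReal (ε ^ 2) * A * (C' P * ∫⁻ d, F d ∂lineM γ' ρ' K te) :=
            Finset.sum_le_sum fun x hx => Finset.sum_le_sum fun y hy => h2 x hx y hy
        _ ≤ ∑ x ∈ exS P, ∑ y ∈ (Finset.univ : Finset (Idx P ⊕ Bool)),
            ENNReal.ofReal (ε ^ 2) * A * (C' P * ∫⁻ d, F d ∂lineM γ' ρ' K te) :=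
            Finset.sum_le_sum fun x _ => Finset.sum_le_sum_of_subset (Finset.erase_subset _ _)
        _ = _ := by
            rw [Finset.sum_const, Finset.sum_const, nsmul_eq_mul, nsmul_eq_mul, hN]
            ring
    · rw [if_neg hP, if_neg (fun h => hP (GIVStep383.mem_trees.1 h))]
  calc activity ε * _ ≤ activity ε * ∑' P : CTree, (if P ∈ GIVStep383.trees m₀ then
        N P * (ENNReal.ofReal (ε ^ 2) * A * (C' P * ∫⁻ d, F d ∂lineM γ' ρ' K te)) else 0) :=
        mul_le_mul' le_rfl (ENNReal.tsum_le_tsum h1)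
    _ = activity ε * ∑ P ∈ GIVStep383.trees m₀,
        N P * (ENNReal.ofReal (ε ^ 2) * A * (C' P * ∫⁻ d, F d ∂lineM γ' ρ' K te)) := by
        rw [tsum_eq_sum (s := GIVStep383.trees m₀) fun P hP => if_neg hP]
        congr 1
        exact Finset.sum_congr rfl fun P hP => if_pos hP
    _ = (activity ε * ENNReal.ofReal (ε ^ 2)) * ((∑ P ∈ GIVStep383.trees m₀,
        N P * (A * C' P)) * ∫⁻ d, F d ∂lineM γ' ρ' K te) := by
        rw [Finset.mul_sum, Finset.sum_mul, Finset.mul_sum]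
        refine Finset.sum_congr rfl fun P _ => ?_
        ring
    _ = _ := by rw [Relabel674.activity_mul hε, one_mul]

/-! ### Finiteness -/

variable {β T : ℝ} {f : ℝ → PhasePoint → ℝ}

/-- The pair functional of `nu0` is finite. -/
theorem PE_nu0_ne_top (hD : Master566.KData Φ β T f₀ f) (hε : 0 < ε) (hε1 : ε ≤ 1) {Q : EPar}
    (hL : 0 ≤ Q.L) (hte : 0 ≤ Q.te) (hg : 0 < Q.γ Q.te) (hρ : Q.ρ < 1) (T' : ℝ) {m₀ : ℕ}
    (hm : m₀ ≤ K) : PE Φ f₀ ε K Q (nu0 Φ f₀ ε K Q T' m₀) ≠ ∞ := by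
  have hf : Measurable f₀ := hD.contDiff.continuous.measurable
  have h1 : ∫⁻ z, ENNReal.ofReal (f₀ z) ≤ 1 := by
    rw [← ofReal_integral_eq_lintegral_ofReal hD.integrable
      (Eventually.of_forall fun z => hD.nonneg z), hD.mass, ENNReal.ofReal_one]
  have hβ := hD.beta_pos
  obtain ⟨C, hC, hb⟩ := exists_gaussian_bound hD.gaussian
  have hb' : ∀ z : PhasePoint, f₀ z ≤ C * Real.exp (-(2 * β * ‖z.2‖ ^ 2)) := fun z =>
    (le_abs_self _).trans (hb z.1 z.2)
  obtain ⟨c, hc, h⟩ := first_marginal_le (γ' := fun _ => β) (ρ' := 1 / 2) hD.adm hf hC hb' hβ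
    (by linarith : β < 2 * β) Q.te measurable_const (fun _ _ => le_rfl) (by norm_num)
    (by rw [one_div]; exact ENNReal.inv_le_one.2 (by norm_num)) hg hρ m₀
  exact Unw410.PE_ne_top (γ := fun _ => β) (ρ := 1 / 2) (γ₀ := β) hD.adm hf h1
    (by linarith : 0 < 2 * β) hD.gaussian hε hε1 hL hte measurable_const (fun _ _ => le_rfl)
    (by rw [one_div]; exact ENNReal.inv_lt_one.2 (by norm_num)) hβ hc
    (h ε K Q T' hε hm rfl rfl rfl)

/-- The pair mass of `nu0` (structures with at most `m` leaves, horizon `Th m L tw te`). -/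
def PM0 (Φ : Space3 → ℝ) (f₀ : PhasePoint → ℝ) (γ : ℝ → ℝ) (ρ : ℝ≥0∞)
    (Th : ℕ → ℝ → ℝ → ℝ → ℝ) : Top602.PMass := fun m L tw te K ε =>
  PE Φ f₀ ε K (Top602.epar γ ρ L tw te) (nu0 Φ f₀ ε K (Top602.epar γ ρ L tw te) (Th m L tw te) m)

/-- **Finiteness of the pair mass** (row 14 of the table). -/
theorem finPM_nu0 (hD : Master566.KData Φ β T f₀ f) {g1 : ℝ} {r1 : ℝ≥0∞} {γ : ℝ → ℝ} {ρ : ℝ≥0∞}
    (hl : Top602.LinePar g1 r1 T γ ρ) (Th : ℕ → ℝ → ℝ → ℝ → ℝ) :
    Top602.FinPM Φ f₀ f T γ ρ (PM0 Φ f₀ γ ρ Th) := by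
  intro m
  refine Top602.EvW.of_forall fun h L tw te hh _ hL hw _ => ?_
  refine ⟨m, fun K hK => ⟨1, one_pos, fun ε hε hε1 => ?_⟩⟩
  obtain ⟨g0, κ, hκ, rfl, hpos, -⟩ := hl.lin
  have h0 : 0 ≤ tw := hw.nonneg
  have h1 : tw ≤ te := hw.le
  have h2 : te ≤ T := hw.le_T
  refine PE_nu0_ne_top hD hε hε1.le ?_ ?_ ?_ hl.hi _ hK
  · show 0 ≤ L
    linarith
  · show 0 ≤ te
    linarith
  · show 0 < g0 - κ * te
    nlinarith

end Crest.Agent.R122.FinPM566

end
end

-- ▼ part R122/TopE_602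

/-!
# Row 122: the inputs of section E with the pair mass of helper566 (helper602)

* `PMn γ ρ h₀` : the pair mass of `nu0` at the horizon `tw + h₀`.
* `InHL T Q` : `Q h₀ γ ρ` for all small `h₀` and all admissible line parameters.
* `I1In`, `I2In`, `I3In`, `FPIn` : the four inputs of section E; `eIn_of_parts`.
* `fpIn_of` : the finiteness of the pair mass (helper566).
* `Parts` : the five remaining inputs of S0162; `openIn_of_parts` (D5 is proved, helper726).
-/

set_option autoImplicit false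

open MeasureTheory Set Filter Topology
open scoped ENNReal
open Crest.AnalysisR.Kinetic
open Crest.Agent.R122.Master566 Crest.Agent.R122.EDefs602 Crest.Agent.R122.GIV566

namespace Crest.Agent.R122.Top602

noncomputable section

/-- **The pair mass**: pair functional of helper566's `nu0`, horizon `tw + h₀`. -/
def PMn (Φ : Space3 → ℝ) (f₀ : PhasePoint → ℝ) (γ : ℝ → ℝ) (ρ : ℝ≥0∞) (h₀ : ℝ) : PMass :=
  fun m L tw te K ε => PE Φ f₀ ε K (epar γ ρ L tw te)
    (Nu0566.nu0 Φ f₀ ε K (epar γ ρ L tw te) (tw + h₀) m)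

/-- For all small `h₀` and all admissible line parameters. -/
def InHL (T : ℝ) (Q : ℝ → (ℝ → ℝ) → ℝ≥0∞ → Prop) : Prop :=
  ∃ h₁ : ℝ, 0 < h₁ ∧ ∃ g1 : ℝ, 0 < g1 ∧ ∃ r1 : ℝ≥0∞, r1 < 1 ∧ ∀ h₀ : ℝ, 0 < h₀ → h₀ ≤ h₁ →
    ∀ (γ : ℝ → ℝ) (ρ : ℝ≥0∞), LinePar g1 r1 T γ ρ → Q h₀ γ ρ

theorem InHL.and {T : ℝ} {Q Q' : ℝ → (ℝ → ℝ) → ℝ≥0∞ → Prop} (h : InHL T Q) (h' : InHL T Q') :
    InHL T fun h₀ γ ρ => Q h₀ γ ρ ∧ Q' h₀ γ ρ := by
  obtain ⟨a, ha, g1, hg1, r1, hr1, h⟩ := h
  obtain ⟨b, hb, g2, hg2, r2, hr2, h'⟩ := h'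
  exact ⟨min a b, lt_min ha hb, min g1 g2, lt_min hg1 hg2, max r1 r2, max_lt hr1 hr2,
    fun h₀ h0 hle γ ρ hl =>
    ⟨h h₀ h0 (hle.trans (min_le_left _ _)) γ ρ (hl.mono (min_le_left _ _) (le_max_left _ _)),
      h' h₀ h0 (hle.trans (min_le_right _ _)) γ ρ
        (hl.mono (min_le_right _ _) (le_max_right _ _))⟩⟩

theorem InHL.mono {T : ℝ} {Q Q' : ℝ → (ℝ → ℝ) → ℝ≥0∞ → Prop} (h : InHL T Q)
    (hq : ∀ h₀ γ ρ, 0 < h₀ → (∃ g1 r1, LinePar g1 r1 T γ ρ) → Q h₀ γ ρ → Q' h₀ γ ρ) :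
    InHL T Q' := by
  obtain ⟨a, ha, g1, hg1, r1, hr1, h⟩ := h
  exact ⟨a, ha, g1, hg1, r1, hr1, fun h₀ h0 hle γ ρ hl =>
    hq h₀ γ ρ h0 ⟨g1, r1, hl⟩ (h h₀ h0 hle γ ρ hl)⟩

/-- Restriction of `h₀`. -/
theorem InHL.of_le {T : ℝ} {Q : ℝ → (ℝ → ℝ) → ℝ≥0∞ → Prop} (h : ∃ a : ℝ, 0 < a ∧
    InHL T fun h₀ γ ρ => h₀ ≤ a → Q h₀ γ ρ) : InHL T Q := by
  obtain ⟨a, ha, b, hb, g1, hg1, r1, hr1, h⟩ := h
  exact ⟨min a b, lt_min ha hb, g1, hg1, r1, hr1, fun h₀ h0 hle γ ρ hl =>
    h h₀ h0 (hle.trans (min_le_right _ _)) γ ρ hl (hle.trans (min_le_left _ _))⟩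


/-- INEQUALITY 1. -/
def I1In (Φ : Space3 → ℝ) (f₀ : PhasePoint → ℝ) (f : ℝ → PhasePoint → ℝ) (T : ℝ) : Prop :=
  InHL T fun h₀ γ ρ => Ineq1 Φ f₀ f T γ ρ (PMn Φ f₀ γ ρ h₀)

/-- INEQUALITY 2. -/
def I2In (Φ : Space3 → ℝ) (f₀ : PhasePoint → ℝ) (f : ℝ → PhasePoint → ℝ) (T : ℝ) : Prop :=
  InL T fun γ ρ => Ineq2 Φ f₀ f T γ ρ

/-- INEQUALITY 3. -/
def I3In (Φ : Space3 → ℝ) (f₀ : PhasePoint → ℝ) (f : ℝ → PhasePoint → ℝ) (T : ℝ) : Prop :=
  InHL T fun h₀ γ ρ => Ineq3 Φ f₀ f T γ ρ (PMn Φ f₀ γ ρ h₀)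

/-- Finiteness of the pair mass. -/
def FPIn (Φ : Space3 → ℝ) (f₀ : PhasePoint → ℝ) (f : ℝ → PhasePoint → ℝ) (T : ℝ) : Prop :=
  InHL T fun h₀ γ ρ => FinPM Φ f₀ f T γ ρ (PMn Φ f₀ γ ρ h₀)

variable {Φ : Space3 → ℝ} {β T : ℝ} {f₀ : PhasePoint → ℝ} {f : ℝ → PhasePoint → ℝ}


/-- **Finiteness of the pair mass** (helper566). -/
theorem fpIn_of (hD : KData Φ β T f₀ f) : FPIn Φ f₀ f T :=
  ⟨1, one_pos, 1, one_pos, 0, zero_lt_one, fun h₀ _ _ _ _ hl =>
    FinPM566.finPM_nu0 hD hl fun _ _ tw _ => tw + h₀⟩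

/-- **The input of section E** from its four parts. -/
theorem eIn_of_parts (h1 : I1In Φ f₀ f T) (h2 : I2In Φ f₀ f T) (h3 : I3In Φ f₀ f T)
    (h4 : FPIn Φ f₀ f T) : EIn Φ f₀ f T := by
  obtain ⟨a, ha, g1, hg1, r1, hr1, h⟩ := (h1.and h3).and h4
  obtain ⟨g2, hg2, r2, hr2, h'⟩ := h2
  refine ⟨min g1 g2, lt_min hg1 hg2, max r1 r2, max_lt hr1 hr2, fun γ ρ hl =>
    ⟨PMn Φ f₀ γ ρ a, ?_⟩⟩
  obtain ⟨⟨k1, k3⟩, k4⟩ := h a ha le_rfl γ ρ (hl.mono (min_le_left _ _) (le_max_left _ _))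
  exact ⟨k1, h' γ ρ (hl.mono (min_le_right _ _) (le_max_right _ _)), k3, k4⟩

/-- The remaining inputs of S0162. -/
structure Parts (Φ : Space3 → ℝ) (T : ℝ) (f₀ : PhasePoint → ℝ) (f : ℝ → PhasePoint → ℝ) :
    Prop where
  /-- INEQUALITY 1 -/
  i1 : I1In Φ f₀ f T
  /-- INEQUALITY 2 -/
  i2 : I2In Φ f₀ f T
  /-- INEQUALITY 3 -/
  i3 : I3In Φ f₀ f T
  /-- the input (C) of section F -/
  err : ErrIn Φ f₀ f T
  /-- the null facts for forests -/
  ret : Ret424.RetFacts Φ f₀ T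

theorem openIn_of_parts (hD : KData Φ β T f₀ f) (h : Parts Φ T f₀ f) : OpenIn Φ β T f₀ f :=
  ⟨eIn_of_parts h.i1 h.i2 h.i3 (fpIn_of hD), Chain726.d5Vol_of_kData hD, h.err, h.ret⟩

end

end Crest.Agent.R122.Top602
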