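import Crest.Agent.R122.H5Q_994
import Crest.Agent.R122.QExitBind1_837
import Crest.Agent.R122.QExitF_814
import Crest.Agent.R122.H5EI_994
import Crest.Agent.R122.H5St_994
import Crest.Agent.R122.ForestFatou_399
import Crest.Agent.R122.RedFlux6_663_Mg
import Crest.Agent.R122.H5B_994
import Crest.Agent.R122.PairStep_292
import Crest.Agent.R122.RealSix_796_Mg
import Crest.Agent.R122.Pt6_811
import Crest.Agent.R122.TopE_602

-- ▼ part R122/H5X_814
section

/-!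
Row 122 (helper814), SP-A / SP-B of inequality 3: the **exits part of the quenched input** in the
form of helper994's `qroot`.

* `exS` : sum over the exit lines (measurable lines `lineMM`);
* `qexit_gh` : `QExit814.qexit_gen` with the ghost indicator `gh` and the weight `tws`;
* `qexits` : the exits part of the quenched input, with the flux density `rdL` of the root.
-/

set_option autoImplicit false

open MeasureTheory Set Filter
open scoped ENNReal Topology Classical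
open Crest.AnalysisR.Kinetic
open Crest.Agent.R122.Kin796 Crest.Agent.R122.Kin796.CTree Crest.Agent.R122.Tree674
open Crest.Agent.R122.EDefs602 Crest.Agent.R122.TreeLines335 Crest.Agent.R122.LineMeas994
open Crest.Agent.R122.GC311 Crest.Agent.R122.QDens815 Crest.Agent.R122.Q1815
open Crest.Agent.R122.SPV994 Crest.Agent.R122.H5994 Crest.Agent.R122.QExit814
open Crest.Agent.R122.Master566 Crest.Agent.R122.ToTree335

noncomputable section

namespace Crest.Agent.R122.H5X814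

variable {Φ : Space3 → ℝ} {f₀ : PhasePoint → ℝ} {f : ℝ → PhasePoint → ℝ} {β T : ℝ}

/-- sum of `φ` over the exit lines of the tree -/
def exS (Φ : Space3 → ℝ) (ε : ℝ) (P : CTree) (φ : EDefs602.ML → ℝ≥0∞) (z : PhasePoint × Par P) :
    ℝ≥0∞ := ∑ x : {i : Idx P // i ≠ root P}, φ (lineMM Φ ε P z x)


/-- joint measurability with the gas -/
theorem measurable_exS2 (hΦ : AdmissiblePotential Φ) (ε : ℝ) (P : CTree)
    {Θ : (n : ℕ) → Config n → EDefs602.ML → ℝ≥0∞}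
    (hΘ : ∀ n, Measurable fun q : Config n × EDefs602.ML => Θ n q.1 q.2) :
    Measurable fun q : (Σ n : ℕ, Config n) × (PhasePoint × Par P) =>
      exS Φ ε P (Θ q.1.1 q.1.2) q.2 := by
  unfold exS
  refine Finset.measurable_sum _ fun x _ => ?_
  have hq : Measurable fun q : (Σ n : ℕ, Config n) × (PhasePoint × Par P) =>
      (q.1, (lineMM Φ ε P q.2 x : EDefs602.ML)) :=
    measurable_fst.prodMk ((measurable_lineMM hΦ ε P x).comp measurable_snd)
  have h := (H5994.measurable_sig hΘ).comp hq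
  exact h

/-- pointwise: the exits against the ghost indicator -/
theorem tws_gh_exS_le (hΦ : AdmissiblePotential Φ) {ε : ℝ} (hε : 0 < ε) {T' tw : ℝ} {P : CTree}
    {n : ℕ} (w : Config n) (φ : EDefs602.ML → ℝ≥0∞) (th : PhasePoint × Par P → ℝ≥0∞)
    (z : PhasePoint × Par P) :
    tws Φ f₀ ε T' P z * gh Φ ε tw P z ⟨n, w⟩ * th z * exS Φ ε P φ z ≤
      {z : PhasePoint × Par P | Valid Φ ε P T' z.1.2 z.2}.indicator
          (fun z => wt Φ P z.1.2 z.2 * (∏ i, ENNReal.ofReal (f₀ (lines Φ ε P z.1 z.2 i))) *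
            th z * ES Φ ε (fun Q y => GIV566.unhitInd Φ ε (Q1815.hidM Φ ε Q y.1 y.2) tw w)
              φ P z) z := by
  unfold tws
  by_cases hV : Valid Φ ε P T' z.1.2 z.2 ∧ Sep Φ ε P T' z.1 z.2
  swap
  · rw [if_neg hV, zero_mul, zero_mul, zero_mul]
    exact bot_le
  rw [if_pos hV, indicator_of_mem
    (show z ∈ {z : PhasePoint × Par P | Valid Φ ε P T' z.1.2 z.2} from hV.1),
    tw₀_of_valid hV.1]
  have h1 : exS Φ ε P φ z = ∑ x : {i : Idx P // i ≠ root P}, φ (lineML Φ ε P z x) := by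
    unfold exS
    refine Finset.sum_congr rfl fun x _ => ?_
    rw [lineMM_of_adm ε hV.1.1]
  have h2 := QExit837.ghost_sum_le (tw := tw) (w := w) hΦ hε hV.1 hV.2
    (b := TreeLines335.rel P z.2) (fun _ => le_rfl) φ
  have h3 : gh Φ ε tw P z ⟨n, w⟩ =
      GIV566.unhitInd Φ ε (Hid424.treeT Φ ε P z.1 z.2 (TreeLines335.rel P z.2)) tw w := by
    unfold gh
    rw [ghTM_of_adm hV.1.1]
    rfl
  rw [h1, h3]
  show wt Φ P z.1.2 z.2 * pf Φ f₀ ε P z * _ * th z * _ ≤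
    wt Φ P z.1.2 z.2 * pf Φ f₀ ε P z * th z * ES Φ ε (QExit837.U814 Φ ε tw w) φ P z
  calc wt Φ P z.1.2 z.2 * pf Φ f₀ ε P z *
        GIV566.unhitInd Φ ε (Hid424.treeT Φ ε P z.1 z.2 (TreeLines335.rel P z.2)) tw w * th z *
        ∑ x : {i : Idx P // i ≠ root P}, φ (lineML Φ ε P z x)
      = wt Φ P z.1.2 z.2 * pf Φ f₀ ε P z * th z *
        (GIV566.unhitInd Φ ε (Hid424.treeT Φ ε P z.1 z.2 (TreeLines335.rel P z.2)) tw w *
          ∑ x : {i : Idx P // i ≠ root P}, φ (lineML Φ ε P z x)) := by ring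
    _ ≤ _ := mul_le_mul' le_rfl h2





/-- **`qexit_gen` with the ghost indicator** -/
theorem qexit_gh (hD : KData Φ β T f₀ f) {h₀ kap lam C b : ℝ}
    (hK : Seg814.KinC Φ T f h₀ kap lam C b) (hkap : kap ≤ β) {lam₁ : ℝ} (h1 : 1 < lam₁)
    (h2 : lam₁ < lam) :
    ∃ g₁ : ℝ, 0 < g₁ ∧ ∃ ρ₁ : ℝ≥0∞, ρ₁ < 1 ∧ ∃ C₁ : ℝ≥0∞, C₁ ≠ ∞ ∧
      ∀ (γ : ℝ → ℝ) (ρ : ℝ≥0∞), ρ₁ ≤ ρ → ∀ tw ∈ Icc 0 T, GIV566.GIV Φ f₀ f T tw →
      ∀ T' : ℝ, 0 < T' → T' ≤ tw + h₀ → (∀ τ ∈ Ioc 0 T', γ τ ≤ g₁) → ∀ K : ℕ,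
      ∃ δ : ℝ → ℝ≥0∞, Tendsto δ (𝓝[>] 0) (𝓝 0) ∧ ∀ ε : ℝ, 0 < ε →
      ∀ φ : (n : ℕ) → Config n → EDefs602.ML → ℝ≥0∞, (∀ n w, Measurable (φ n w)) →
        (∀ n w l, φ n w l ≤ 1) →
      ∀ M : ℝ≥0∞, M ≠ ∞ →
      ∀ th : (n : ℕ) → Config n → (P : CTree) → PhasePoint × Par P → ℝ≥0∞,
        (∀ n w P z, Valid Φ ε P T' z.1.2 z.2 → th n w P z ≤ M * ENNReal.ofReal lam₁ ^ P.size *
          ENNReal.ofReal (Real.exp (kap * Seg814.eng Φ P z.1.2 z.2))) →
      gcE f₀ ε (fun n w => ∑' P : CTree, if P.leaves ≤ K then ∫⁻ z : PhasePoint × Par P,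
        tws Φ f₀ ε T' P z * gh Φ ε tw P z ⟨n, w⟩ * th n w P z * exS Φ ε P (φ n w) z else 0) ≤
        M * (C₁ * gcE f₀ ε (fun n w => ∫⁻ l, φ n w l ∂EDefs602.lineM γ ρ K T') + δ ε) := by
  obtain ⟨g₁, hg₁, ρ₁, hρ₁, C₁, hC₁, h⟩ := qexit_gen hD hK hkap h1 h2
  refine ⟨g₁, hg₁, ρ₁, hρ₁, C₁, hC₁, fun γ ρ hρ tw htw hG T' hT'0 hT'h hγ K => ?_⟩
  obtain ⟨δ, hδ, hmain⟩ := h γ ρ hρ tw htw hG T' hT'0 hT'h hγ K
  refine ⟨δ, hδ, fun ε hε φ hφ hφ1 M hM th hth => ?_⟩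
  refine le_trans (gcE_mono f₀ ε fun n w _ => ?_) (hmain ε hε φ hφ hφ1 M hM th hth)
  refine ENNReal.tsum_le_tsum fun P => ?_
  by_cases hP : P.leaves ≤ K
  · rw [if_pos hP, if_pos hP]
    exact lintegral_mono fun z => tws_gh_exS_le hD.adm hε w (φ n w) (th n w P) z
  · rw [if_neg hP, if_neg hP]


end Crest.Agent.R122.H5X814

end
end

-- ▼ part R122/H5XE_814
section

/-!
Row 122 (helper814), SP-A / SP-B of inequality 3: helper994's input `QExitH5` is proved, and the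
quenched input for the shapes in one line (`qEI`).
-/

set_option autoImplicit false

open MeasureTheory Set Filter
open scoped ENNReal Topology Classical
open Crest.AnalysisR.Kinetic
open Crest.Agent.R122.Kin796 Crest.Agent.R122.Kin796.CTree Crest.Agent.R122.Tree674
open Crest.Agent.R122.EDefs602 Crest.Agent.R122.TreeLines335 Crest.Agent.R122.LineMeas994
open Crest.Agent.R122.GC311 Crest.Agent.R122.QDens815 Crest.Agent.R122.Q1815
open Crest.Agent.R122.SPV994 Crest.Agent.R122.H5994 Crest.Agent.R122.QExit814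
open Crest.Agent.R122.Master566 Crest.Agent.R122.ToTree335

noncomputable section

namespace Crest.Agent.R122.H5X814

variable {Φ : Space3 → ℝ} {f₀ : PhasePoint → ℝ} {f : ℝ → PhasePoint → ℝ} {β T : ℝ}

/-- pointwise identity between the two forms of the exit functional -/
theorem tw₀_exitH_eq {ε tw te : ℝ} {K : ℕ} {P : CTree} (hP : P.leaves ≤ K)
    (Θ : (n : ℕ) → Config n → EDefs602.ML → ℝ≥0∞) (z : PhasePoint × Par P)
    (w : Σ n : ℕ, Config n) :
    tw₀ Φ f₀ ε te P z * exitH Φ ε tw te K Θ P z w.1 w.2 =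
      tws Φ f₀ ε te P z * gh Φ ε tw P z w * ENNReal.ofReal (1 + ‖z.1.2‖) *
        exS Φ ε P (Θ w.1 w.2) z := by
  by_cases hV : Valid Φ ε P te z.1.2 z.2
  swap
  · have h1 : tws Φ f₀ ε te P z = 0 := if_neg fun hc => hV hc.1
    rw [tw₀_of_not_valid hV, h1, zero_mul, zero_mul, zero_mul, zero_mul]
  by_cases hS : Sep Φ ε P te z.1 z.2
  swap
  · have h1 : tws Φ f₀ ε te P z = 0 := if_neg fun hc => hS hc.2
    have h2 : exitH Φ ε tw te K Θ P z w.1 w.2 = 0 := if_neg fun hc => hS hc.2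
    rw [h1, h2, mul_zero, zero_mul, zero_mul, zero_mul]
  have h1 : tws Φ f₀ ε te P z = tw₀ Φ f₀ ε te P z := if_pos ⟨hV, hS⟩
  have h2 : exitH Φ ε tw te K Θ P z w.1 w.2 = ENNReal.ofReal (1 + ‖z.1.2‖) *
      (GIV566.unhitInd Φ ε (ghT Φ ε P z) tw w.2 *
      ∑ i ∈ Finset.univ.filter (fun i => i ≠ root P), Θ w.1 w.2 (lineML Φ ε P z i)) :=
    if_pos ⟨hP, hS⟩
  have h3 : gh Φ ε tw P z w = GIV566.unhitInd Φ ε (ghT Φ ε P z) tw w.2 := by
    unfold gh
    rw [ghTM_of_adm hV.1]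
  have h4 : exS Φ ε P (Θ w.1 w.2) z =
      ∑ i ∈ Finset.univ.filter (fun i => i ≠ root P), Θ w.1 w.2 (lineML Φ ε P z i) := by
    unfold exS
    have e1 : ∀ x : {i : Idx P // i ≠ root P}, Θ w.1 w.2 (lineMM Φ ε P z x) =
        Θ w.1 w.2 (lineML Φ ε P z x) := fun x => by rw [lineMM_of_adm ε hV.1]
    rw [Finset.sum_congr rfl fun x _ => e1 x]
    exact (Finset.sum_subtype (Finset.univ.filter (fun i => i ≠ root P)) (by simp)
      (fun i => Θ w.1 w.2 (lineML Φ ε P z i))).symm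
  rw [h1, h2, h3, h4]
  ring

/-- **`QExitH5`** (helper994's input) is true. -/
theorem qexitH5 (hD : KData Φ β T f₀ f) {h₀ kap lam C b : ℝ}
    (hK : Seg814.KinC Φ T f h₀ kap lam C b) (hkap : kap ≤ β) {lam₁ : ℝ} (h1 : 1 < lam₁)
    (h2 : lam₁ < lam) :
    ∃ g₁ : ℝ, 0 < g₁ ∧ ∃ ρ₁ : ℝ≥0∞, ρ₁ < 1 ∧ ∃ C₂ : ℝ≥0∞, C₂ ≠ ∞ ∧
      ∀ (γ : ℝ → ℝ) (ρ : ℝ≥0∞), ρ₁ ≤ ρ → ∀ tw ∈ Icc 0 T, GIV566.GIV Φ f₀ f T tw →
      ∀ te : ℝ, 0 < te → te ≤ tw + h₀ → (∀ τ ∈ Ioc 0 te, γ τ ≤ g₁) →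
      ∃ δ : ℕ → ℝ → ℝ≥0∞, Null δ ∧ QExitH5 Φ f₀ γ ρ tw te C₂ δ := by
  obtain ⟨g₁, hg₁, ρ₁, hρ₁, C₁, hC₁, h⟩ := qexit_gh hD hK hkap h1 h2
  obtain ⟨M, hM, hMb⟩ := exists_wtA_le Φ h1 hK.2.1
  have hf := hD.contDiff.continuous.measurable
  set M' : ℝ≥0∞ := 2 * ENNReal.ofReal M with hM'
  have hM't : M' ≠ ∞ := ENNReal.mul_ne_top (by norm_num) ENNReal.ofReal_ne_top
  refine ⟨g₁, hg₁, ρ₁, hρ₁, M' * C₁, ENNReal.mul_ne_top hM't hC₁,
    fun γ ρ hρ tw htw hG te hte hteh hγ => ?_⟩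
  choose δ hδ hmain using h γ ρ hρ tw htw hG te hte hteh hγ
  refine ⟨fun K ε => M' * δ K ε, (null_iff_tendsto.2 hδ).const_mul hM't,
    fun K ε hε Θ hΘm hΘ => ?_⟩
  have hm1 : ∀ n w, Measurable (Θ n w) := fun n w =>
    (hΘm n).comp (measurable_const.prodMk measurable_id)
  have h3 := hmain K ε hε Θ hm1 hΘ M' hM't
    (fun _ _ P z => ENNReal.ofReal (1 + ‖z.1.2‖))
    (fun n w P z hV => by
      have h4 : ENNReal.ofReal (1 + ‖z.1.2‖) ≤ 2 * wtA Φ P (te, z.1, z.2) :=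
        rootA_le_wtA (s := te) (ℓ := z.1) (p := z.2) hD.adm hV.1
      calc ENNReal.ofReal (1 + ‖z.1.2‖)
          ≤ 2 * (ENNReal.ofReal M * ENNReal.ofReal lam₁ ^ P.size *
            ENNReal.ofReal (Real.exp (kap * Seg814.eng Φ P z.1.2 z.2))) :=
            h4.trans (mul_le_mul' le_rfl (hMb P te z.1 z.2))
        _ = _ := by rw [hM']; ring)
  -- joint measurability
  have hmz : ∀ P : CTree, Measurable fun q : (PhasePoint × Par P) × (Σ n : ℕ, Config n) =>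
      tws Φ f₀ ε te P q.1 * gh Φ ε tw P q.1 q.2 * ENNReal.ofReal (1 + ‖q.1.1.2‖) *
        exS Φ ε P (Θ q.2.1 q.2.2) q.1 := by
    intro P
    have m1 : Measurable fun q : (PhasePoint × Par P) × (Σ n : ℕ, Config n) =>
        tws Φ f₀ ε te P q.1 := (measurable_tws hD.adm hf hε te P).comp measurable_fst
    have m2 : Measurable fun q : (PhasePoint × Par P) × (Σ n : ℕ, Config n) =>
        gh Φ ε tw P q.1 q.2 := (measurable_gh hD.adm hε tw P).comp measurable_swap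
    have m3 : Measurable fun q : (PhasePoint × Par P) × (Σ n : ℕ, Config n) =>
        ENNReal.ofReal (1 + ‖q.1.1.2‖) := by fun_prop
    have m4 : Measurable fun q : (PhasePoint × Par P) × (Σ n : ℕ, Config n) =>
        exS Φ ε P (Θ q.2.1 q.2.2) q.1 := (measurable_exS2 hD.adm ε P hΘm).comp measurable_swap
    have m5 := ((m1.mul m2).mul m3).mul m4
    exact m5
  have h5 : InEq2.TS Φ f₀ ε te (exitH Φ ε tw te K Θ) ≤
      gcE f₀ ε (fun n w => ∑' P : CTree, if P.leaves ≤ K then ∫⁻ z : PhasePoint × Par P,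
        tws Φ f₀ ε te P z * gh Φ ε tw P z ⟨n, w⟩ * ENNReal.ofReal (1 + ‖z.1.2‖) *
            exS Φ ε P (Θ n w) z else 0) := by
    have e1 : gcE f₀ ε (fun n w => ∑' P : CTree, if P.leaves ≤ K then
        ∫⁻ z : PhasePoint × Par P, tws Φ f₀ ε te P z * gh Φ ε tw P z ⟨n, w⟩ *
          ENNReal.ofReal (1 + ‖z.1.2‖) * exS Φ ε P (Θ n w) z else 0) =
        ∑ P ∈ GIVStep383.trees K, gcE f₀ ε (fun n w => ∫⁻ z : PhasePoint × Par P,
          tws Φ f₀ ε te P z * gh Φ ε tw P z ⟨n, w⟩ *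
          ENNReal.ofReal (1 + ‖z.1.2‖) * exS Φ ε P (Θ n w) z) := by
      rw [← gcE_finset_sum hf ε]
      · refine gcE_congr f₀ ε fun n w _ => ?_
        rw [tsum_eq_sum (s := GIVStep383.trees K) fun P hP =>
          if_neg fun hh => hP (GIVStep383.mem_trees.2 hh)]
        exact Finset.sum_congr rfl fun P hP => if_pos (GIVStep383.mem_trees.1 hP)
      · intro P _ n
        have hq : Measurable fun q : Config n × (PhasePoint × Par P) =>
            (q.2, (⟨n, q.1⟩ : Σ n : ℕ, Config n)) :=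
          measurable_snd.prodMk ((measurable_sigmaMk' n).comp measurable_fst)
        have m5 := (hmz P).comp hq
        have m6 : Measurable fun q : Config n × (PhasePoint × Par P) =>
            tws Φ f₀ ε te P q.2 * gh Φ ε tw P q.2 ⟨n, q.1⟩ *
              ENNReal.ofReal (1 + ‖q.2.1.2‖) * exS Φ ε P (Θ n q.1) q.2 := m5
        exact m6.lintegral_prod_right'
    rw [e1, TS_eq]
    have e2 : ∀ P : CTree, P ∉ GIVStep383.trees K →
        (∫⁻ z : PhasePoint × Par P, tw₀ Φ f₀ ε te P z *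
          gcE f₀ ε fun m w => exitH Φ ε tw te K Θ P z m w) = 0 := by
      intro P hP
      have hP' : ¬ P.leaves ≤ K := fun hh => hP (GIVStep383.mem_trees.2 hh)
      have e3 : ∀ z : PhasePoint × Par P,
          (gcE f₀ ε fun m w => exitH Φ ε tw te K Θ P z m w) = 0 := by
        intro z
        rw [gcE_eq_lintegral hf]
        have e4 : ∀ w : Σ n : ℕ, Config n, exitH Φ ε tw te K Θ P z w.1 w.2 = 0 :=
          fun w => if_neg fun hc => hP' hc.1
        simp only [e4, lintegral_zero]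
      simp only [e3, mul_zero, lintegral_zero]
    rw [tsum_eq_sum e2]
    refine Finset.sum_le_sum fun P hP => ?_
    have hP' : P.leaves ≤ K := GIVStep383.mem_trees.1 hP
    rw [gcE_eq_lintegral hf]
    calc (∫⁻ z : PhasePoint × Par P, tw₀ Φ f₀ ε te P z *
          gcE f₀ ε fun m w => exitH Φ ε tw te K Θ P z m w)
        = ∫⁻ z : PhasePoint × Par P, ∫⁻ w : (Σ n : ℕ, Config n), tws Φ f₀ ε te P z *
            gh Φ ε tw P z w * ENNReal.ofReal (1 + ‖z.1.2‖) *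
              exS Φ ε P (Θ w.1 w.2) z ∂gcM f₀ ε := by
          refine lintegral_congr fun z => ?_
          rw [gcE_eq_lintegral hf, ← lintegral_const_mul' _ _ tw₀_ne_top]
          exact lintegral_congr fun w => tw₀_exitH_eq hP' Θ z w
      _ = ∫⁻ w : (Σ n : ℕ, Config n), (∫⁻ z : PhasePoint × Par P, tws Φ f₀ ε te P z *
            gh Φ ε tw P z w * ENNReal.ofReal (1 + ‖z.1.2‖) *
              exS Φ ε P (Θ w.1 w.2) z) ∂gcM f₀ ε :=
          lintegral_lintegral_swap (f := fun (z : PhasePoint × Par P)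
            (w : Σ n : ℕ, Config n) => tws Φ f₀ ε te P z *
            gh Φ ε tw P z w * ENNReal.ofReal (1 + ‖z.1.2‖) *
              exS Φ ε P (Θ w.1 w.2) z) (hmz P).aemeasurable
      _ ≤ _ := le_rfl
  refine h5.trans (h3.trans (le_of_eq ?_))
  rw [mul_add, ← mul_assoc M' C₁]

end Crest.Agent.R122.H5X814

end
end

-- ▼ part R122/H5OS_814
section

/-!
Row 122 (helper814): **binding of the structure integral `OS2` to the shapes** of helper994.

* `linkS_of_ctSet` : a contact of the contact set (after its birth, births positive) is a link event;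
* `OS2_le_link` : `OS2` of `uG · H` is at most `activity` times the sum over the trees with at most `K`
  leaves of the integrals over the link events, trees valid and separated at the horizon `te`.
-/

set_option autoImplicit false

open MeasureTheory Set Filter
open scoped ENNReal Topology Classical
open Crest.AnalysisR.Kinetic
open Crest.Agent.R122.Kin796 Crest.Agent.R122.Kin796.CTree Crest.Agent.R122.Tree674
open Crest.Agent.R122.EDefs602 Crest.Agent.R122.TreeLines335 Crest.Agent.R122.LineMeas994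
open Crest.Agent.R122.GC311 Crest.Agent.R122.QDens815 Crest.Agent.R122.Q1815
open Crest.Agent.R122.SPV994 Crest.Agent.R122.H5994
open Crest.Agent.R122.Boost969 (LSt posAt)
open Crest.Agent.R122.Pair292 (Lab)
open Crest.Agent.R122.PairD292
open Crest.Agent.R122.OneC285 (cfT rt cT cB cD cX lpos uI ptube)

noncomputable section

namespace Crest.Agent.R122.H5OS814

variable {Φ : Space3 → ℝ} {f₀ : PhasePoint → ℝ}

/-- the contact time is the entrance time -/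
theorem entT_relL (ε : ℝ) (ℓ : PhasePoint) (e : LSt) :
    OC663.entT ε (OneC423.relL ℓ e) = hitT ε ℓ e := by
  rw [relL_eq]
  exact entT_neg ε (rX ℓ e, rV ℓ e)

theorem cT_eq_hitT {P : CTree} (ε : ℝ) (z : PhasePoint × Par P) (l : EDefs602.ML) :
    cT ε z l = hitT ε z.1 l.1 := entT_relL ε z.1 l.1

theorem age_eq {P : CTree} (ε : ℝ) (z : PhasePoint × Par P) (θ : Lab × LSt) :
    age ε z θ = hitT ε z.1 θ.2 - Pair292.sig θ.1 := by
  unfold age
  rw [cT_eq_hitT]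
  rfl

/-- **contacts are link events** -/
theorem link_of_ctSet {ε te : ℝ} {P : CTree} {z : PhasePoint × Par P} {e : LSt} (h0 : 0 < e.1)
    (h : (z, e) ∈ OneC423.ctSet Φ ε te P) :
    LinkEv ε te (rel P z.2 (root P)) z.1 e ∧ Valid Φ ε P te z.1.2 z.2 := by
  obtain ⟨h1, h2, h3, h4, h5⟩ := h
  simp only at h1 h2 h3 h4 h5
  rw [entT_relL] at h3 h4 h5
  rw [relL_eq] at h1 h2
  have hu : 0 < hitT ε z.1 e := h0.trans h3
  have h6 := (valid_at hu h4).1 h5
  refine ⟨⟨⟨?_, ?_⟩, hu, h3, h6.2, h4⟩, h6.1⟩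
  · intro hc
    exact h1 (by simp only; rw [hc, neg_zero])
  · have e1 := bline_neg (rX z.1 e, rV z.1 e)
    simp only at e1
    rw [e1, norm_neg] at h2
    exact h2

theorem measurableSet_LinkS (ε te : ℝ) (P : CTree) (z : PhasePoint × Par P) :
    MeasurableSet (LinkS ε te P z) := by
  have h1 : MeasurableSet {p : Lab × LSt | LinkEv ε te (rel P z.2 (root P)) z.1 p.2} :=
    measurableSet_linkEv ε te (ℓ := fun _ : Lab × LSt => z.1) (a := fun _ => rel P z.2 (root P))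
      (e := fun p => p.2) measurable_const measurable_const measurable_snd
  exact h1

theorem uI_eq_gh {ε tw : ℝ} {P : CTree} {z : PhasePoint × Par P} (hA : Adm Φ P z.1.2 z.2)
    {m : ℕ} (w : Config m) : uI Φ ε tw P z w = gh Φ ε tw P z ⟨m, w⟩ := by
  unfold uI gh
  rw [ghTM_of_adm hA]
  rfl

/-- **The binding of `OS2`.** -/
theorem OS2_le_link (hf : Measurable f₀) {ε te T' tw : ℝ} (hT : te ≤ T') {K : ℕ}
    {ν : Measure (Lab × LSt)} {H : SF2}
    {F : (P : CTree) → (Σ n : ℕ, Config n) → PhasePoint × Par P → Lab × LSt → ℝ≥0∞}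
    (hH : ∀ P z m w θ, H P z m w θ ≤
      if Sep Φ ε P T' z.1 z.2 ∧ P.leaves ≤ K then F P ⟨m, w⟩ z θ else 0) :
    OS2 Φ f₀ ε te T' ν (fun P z m w θ => uG Φ ε tw K P z w θ * H P z m w θ) ≤
      activity ε * ∑ P ∈ GIVStep383.trees K, ∫⁻ z : PhasePoint × Par P, ∫⁻ w,
        ∫⁻ θ in LinkS ε te P z, tws Φ f₀ ε te P z * (gh Φ ε tw P z w * F P w z θ)
          ∂ν ∂gcM f₀ ε := by
  unfold OS2
  refine mul_le_mul' le_rfl ?_
  have key : ∀ P : CTree, ∫⁻ z : PhasePoint × Par P,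
      {z : PhasePoint × Par P | Valid Φ ε P T' z.1.2 z.2}.indicator
      (fun z => wt Φ P z.1.2 z.2 * (ToTree335.pf Φ f₀ ε P z *
        gcE f₀ ε (fun m w => ∫⁻ θ, {θ : Lab × LSt | (z, θ.2) ∈ OneC423.ctSet Φ ε te P}.indicator
          (fun θ => uG Φ ε tw K P z w θ * H P z m w θ) θ ∂ν))) z ≤
      if P ∈ GIVStep383.trees K then ∫⁻ z : PhasePoint × Par P, ∫⁻ w,
        ∫⁻ θ in LinkS ε te P z, tws Φ f₀ ε te P z * (gh Φ ε tw P z w * F P w z θ)
          ∂ν ∂gcM f₀ ε else 0 := by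
    intro P
    by_cases hP : P ∈ GIVStep383.trees K
    · rw [if_pos hP]
      refine lintegral_mono fun z => ?_
      by_cases hV : Valid Φ ε P T' z.1.2 z.2
      swap
      · rw [indicator_of_notMem
          (show z ∉ {z : PhasePoint × Par P | Valid Φ ε P T' z.1.2 z.2} from hV)]
        exact bot_le
      rw [indicator_of_mem
        (show z ∈ {z : PhasePoint × Par P | Valid Φ ε P T' z.1.2 z.2} from hV)]
      rw [gcE_eq_lintegral hf, ← mul_assoc]
      have hne : wt Φ P z.1.2 z.2 * ToTree335.pf Φ f₀ ε P z ≠ ∞ := by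
        have h1 := tw₀_of_valid (f₀ := f₀) hV
        rw [← h1]
        exact tw₀_ne_top
      rw [← lintegral_const_mul' _ _ hne]
      refine lintegral_mono fun w => ?_
      rw [← lintegral_const_mul' _ _ hne, ← lintegral_indicator (measurableSet_LinkS ε te P z)]
      refine lintegral_mono fun θ => ?_
      by_cases hc : (z, θ.2) ∈ OneC423.ctSet Φ ε te P
      swap
      · rw [indicator_of_notMem
          (show θ ∉ {θ : Lab × LSt | (z, θ.2) ∈ OneC423.ctSet Φ ε te P} from hc), mul_zero]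
        exact bot_le
      rw [indicator_of_mem
        (show θ ∈ {θ : Lab × LSt | (z, θ.2) ∈ OneC423.ctSet Φ ε te P} from hc)]
      unfold uG
      by_cases hO : OkL K θ ∧ P.leaves ≤ K
      swap
      · rw [if_neg hO, zero_mul, mul_zero]
        exact bot_le
      rw [if_pos hO]
      obtain ⟨hl, hVt⟩ := link_of_ctSet (Φ := Φ) hO.1.e0 hc
      rw [indicator_of_mem (show θ ∈ LinkS ε te P z from hl)]
      have h1 := hH P z w.1 w.2 θ
      by_cases hS : Sep Φ ε P T' z.1 z.2 ∧ P.leaves ≤ K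
      swap
      · rw [if_neg hS] at h1
        rw [le_antisymm h1 bot_le, mul_zero, mul_zero]
        exact bot_le
      rw [if_pos hS] at h1
      have h2 : tws Φ f₀ ε te P z = wt Φ P z.1.2 z.2 * ToTree335.pf Φ f₀ ε P z := by
        unfold tws
        rw [if_pos ⟨hVt, Crest.Agent.R122.Forest399.sep_mono hT hS.1⟩, tw₀_of_valid hVt]
      rw [h2, uI_eq_gh hV.1]
      exact mul_le_mul' le_rfl (mul_le_mul' le_rfl h1)
    · rw [if_neg hP]
      refine le_of_eq ?_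
      have h0 : ∀ z : PhasePoint × Par P,
          {z : PhasePoint × Par P | Valid Φ ε P T' z.1.2 z.2}.indicator
          (fun z => wt Φ P z.1.2 z.2 * (ToTree335.pf Φ f₀ ε P z *
            gcE f₀ ε (fun m w => ∫⁻ θ,
              {θ : Lab × LSt | (z, θ.2) ∈ OneC423.ctSet Φ ε te P}.indicator
              (fun θ => uG Φ ε tw K P z w θ * H P z m w θ) θ ∂ν))) z = 0 := by
        intro z
        by_cases hV : Valid Φ ε P T' z.1.2 z.2
        swap
        · exact indicator_of_notMem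
            (show z ∉ {z : PhasePoint × Par P | Valid Φ ε P T' z.1.2 z.2} from hV) _
        rw [indicator_of_mem
          (show z ∈ {z : PhasePoint × Par P | Valid Φ ε P T' z.1.2 z.2} from hV)]
        have h1 : ∀ (w : Σ n : ℕ, Config n), ∫⁻ θ,
            {θ : Lab × LSt | (z, θ.2) ∈ OneC423.ctSet Φ ε te P}.indicator
            (fun θ => uG Φ ε tw K P z w.2 θ * H P z w.1 w.2 θ) θ ∂ν = 0 := by
          intro w
          have h2 : ∀ θ, {θ : Lab × LSt | (z, θ.2) ∈ OneC423.ctSet Φ ε te P}.indicator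
              (fun θ => uG Φ ε tw K P z w.2 θ * H P z w.1 w.2 θ) θ = 0 := by
            intro θ
            have h3 : uG Φ ε tw K P z w.2 θ = 0 :=
              if_neg fun hh => hP (GIVStep383.mem_trees.2 hh.2)
            by_cases hc : θ ∈ {θ : Lab × LSt | (z, θ.2) ∈ OneC423.ctSet Φ ε te P}
            · rw [indicator_of_mem hc, h3, zero_mul]
            · rw [indicator_of_notMem hc]
          simp only [h2, lintegral_zero]
        rw [gcE_eq_lintegral hf]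
        simp only [h1, lintegral_zero, mul_zero]
      simp only [h0, lintegral_zero]
  refine (ENNReal.tsum_le_tsum key).trans (le_of_eq ?_)
  rw [tsum_eq_sum (s := GIVStep383.trees K) fun P hP => if_neg hP]
  exact Finset.sum_congr rfl fun P hP => if_pos hP

end Crest.Agent.R122.H5OS814

end
end

-- ▼ part R122/H5Y2_814
section

/-!
Row 122 (helper814), young contacts of SP-B: from the trees to the root lines.

* `FYt` : integrand of the young part, `ByS` : young link event of a tree;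
* `shape_le`, `sum_le_root` : the young part against the quenched density `Dw` of the root line at the
  link time.
-/

set_option autoImplicit false

open MeasureTheory Set Filter
open scoped ENNReal Topology
open Crest.AnalysisR.Kinetic
open Crest.Agent.R122.Kin796 Crest.Agent.R122.Kin796.CTree Crest.Agent.R122.Tree674
open Crest.Agent.R122.EDefs602 Crest.Agent.R122.TreeLines335 Crest.Agent.R122.LineMeas994
open Crest.Agent.R122.GC311 Crest.Agent.R122.QDens815 Crest.Agent.R122.Q1815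
open Crest.Agent.R122.SPV994 Crest.Agent.R122.Boost969 Crest.Agent.R122.MeasE416
open Crest.Agent.R122.Pair292 hiding ML
open Crest.Agent.R122.H5994

noncomputable section

namespace Crest.Agent.R122.H5Y814

variable {Φ : Space3 → ℝ} {f₀ : PhasePoint → ℝ}

/-- young link event of a tree -/
def ByS (ε te r : ℝ) (P : CTree) (z : PhasePoint × Par P) : Set (Lab × LSt) :=
  {p | LinkEv ε te (rel P z.2 (root P)) z.1 p.2 ∧ hitT ε z.1 p.2 - sig p.1 < r}

/-- weight of the touch of the first line -/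
def tW (Φ : Space3 → ℝ) (ε : ℝ) (K : ℕ) (Q : EPar) (w : Σ n : ℕ, Config n) (p : Lab × LSt) :
    ℝ≥0∞ := (MW.cfg w.2).touchW Φ ε K Q p.1.1

theorem measurable_tW (hΦ : AdmissiblePotential Φ) {ε : ℝ} (hε : 0 < ε) (K : ℕ) (Q : EPar) :
    Measurable fun q : (Σ n : ℕ, Config n) × (Lab × LSt) => tW Φ ε K Q q.1 q.2 := by
  refine Q1815.measurable_sigma_prod fun n => ?_
  have hq : Measurable fun q : Config n × (Lab × LSt) => (q.1, q.2.1.1) :=
    measurable_fst.prodMk measurable_snd.fst.fst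
  have h := (measurable_touchW_cfg hΦ hε K Q n).comp hq
  exact h

theorem tW_le_one {ε : ℝ} {K : ℕ} {Q : EPar} (hL : 0 ≤ Q.L) (w : Σ n : ℕ, Config n)
    (p : Lab × LSt) : tW Φ ε K Q w p ≤ 1 := EBasic602.touchW_le_one hL _

theorem tW_ne_top {ε : ℝ} {K : ℕ} {Q : EPar} (hL : 0 ≤ Q.L) (w : Σ n : ℕ, Config n)
    (p : Lab × LSt) : tW Φ ε K Q w p ≠ ∞ := ne_top_of_le_ne_top ENNReal.one_ne_top (tW_le_one hL w p)

/-- integrand of the young part -/
def FYt (Φ : Space3 → ℝ) (f₀ : PhasePoint → ℝ) (ε : ℝ) (K : ℕ) (Q : EPar) (P : CTree)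
    (w : Σ n : ℕ, Config n) (z : PhasePoint × Par P) (p : Lab × LSt) : ℝ≥0∞ :=
  tws Φ f₀ ε Q.te P z * (gh Φ ε Q.tw P z w * tW Φ ε K Q w p)

/-- the same with the quenched density of the root line -/
def J (Φ : Space3 → ℝ) (f₀ : PhasePoint → ℝ) (ε : ℝ) (K : ℕ) (Q : EPar) (r : ℝ) (P : CTree)
    (ℓ : PhasePoint) (w : Σ n : ℕ, Config n) (p : Lab × LSt) : ℝ≥0∞ :=
  (By0 ε Q.te r ℓ).indicator (fun p =>
    Dw Φ f₀ P (fun _ => 1) ε Q.tw (hitT ε ℓ p.2) ℓ w.2 * tW Φ ε K Q w p) p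

/-- intermediate integrand -/
def G (Φ : Space3 → ℝ) (f₀ : PhasePoint → ℝ) (ε : ℝ) (K : ℕ) (Q : EPar) (r : ℝ) (P : CTree)
    (z : PhasePoint × Par P) (w : Σ n : ℕ, Config n) (p : Lab × LSt) : ℝ≥0∞ :=
  (By0 ε Q.te r z.1).indicator (fun p =>
    gw Φ f₀ P (fun _ => 1) ε (hitT ε z.1 p.2) z.1 z.2 *
      GIV566.unhitInd Φ ε (Q1815.hidM Φ ε P z.1 z.2) Q.tw w.2 * tW Φ ε K Q w p) p

section

variable (hΦ : AdmissiblePotential Φ) (hf : Measurable f₀) {ε : ℝ} (hε : 0 < ε) {K : ℕ} {Q : EPar}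
  {r : ℝ} {ν : Measure (Lab × LSt)}

theorem mset_pull {α : Type*} [MeasurableSpace α] {ℓ : α → PhasePoint} {p : α → Lab × LSt}
    (ε te r : ℝ) (hℓ : Measurable ℓ) (hp : Measurable p) :
    MeasurableSet {q : α | p q ∈ By0 ε te r (ℓ q)} :=
  (hℓ.prodMk hp) (measurableSet_By0 ε te r)

theorem ind_eq {α β : Type*} (p : α → β) (S : α → Set β) (F : α → β → ℝ≥0∞) :
    (fun q : α => (S q).indicator (fun b => F q b) (p q)) =
      {q : α | p q ∈ S q}.indicator fun q => F q (p q) := by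
  funext q
  by_cases h : p q ∈ S q
  · rw [indicator_of_mem h, indicator_of_mem (show q ∈ {q : α | p q ∈ S q} from h)]
  · rw [indicator_of_notMem h, indicator_of_notMem (show q ∉ {q : α | p q ∈ S q} from h)]

include hΦ hf hε

theorem measurable_G (P : CTree) :
    Measurable fun q : ((PhasePoint × Par P) × (Σ n : ℕ, Config n)) × (Lab × LSt) =>
      G Φ f₀ ε K Q r P q.1.1 q.1.2 q.2 := by
  have hhit : Measurable fun q : ((PhasePoint × Par P) × (Σ n : ℕ, Config n)) × (Lab × LSt) =>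
      hitT ε q.1.1.1 q.2.2 := measurable_hitT' ε measurable_fst.fst.fst measurable_snd.snd
  have h1 : Measurable fun q : ((PhasePoint × Par P) × (Σ n : ℕ, Config n)) × (Lab × LSt) =>
      gw Φ f₀ P (fun _ => 1) ε (hitT ε q.1.1.1 q.2.2) q.1.1.1 q.1.1.2 := by
    have hq : Measurable fun q : ((PhasePoint × Par P) × (Σ n : ℕ, Config n)) × (Lab × LSt) =>
        ((hitT ε q.1.1.1 q.2.2, q.1.1.1), q.1.1.2) :=
      (hhit.prodMk measurable_fst.fst.fst).prodMk measurable_fst.fst.snd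
    have h := (measurable_gw hΦ hf (φ := fun _ => 1) measurable_const ε (P := P)).comp hq
    exact h
  have h2 : Measurable fun q : ((PhasePoint × Par P) × (Σ n : ℕ, Config n)) × (Lab × LSt) =>
      GIV566.unhitInd Φ ε (Q1815.hidM Φ ε P q.1.1.1 q.1.1.2) Q.tw q.1.2.2 := by
    have h := measurable_unhit_hidM hΦ hε P (tw := Q.tw) (W := PhasePoint × Par P)
      (ℓ := fun z => z.1) measurable_fst (p := fun z => z.2) measurable_snd
    have hq : Measurable fun q : ((PhasePoint × Par P) × (Σ n : ℕ, Config n)) × (Lab × LSt) =>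
        (q.1.2, q.1.1) := measurable_fst.snd.prodMk measurable_fst.fst
    have h' := h.comp hq
    exact h'
  have h3 : Measurable fun q : ((PhasePoint × Par P) × (Σ n : ℕ, Config n)) × (Lab × LSt) =>
      tW Φ ε K Q q.1.2 q.2 := by
    have hq : Measurable fun q : ((PhasePoint × Par P) × (Σ n : ℕ, Config n)) × (Lab × LSt) =>
        (q.1.2, q.2) := measurable_fst.snd.prodMk measurable_snd
    have h := (measurable_tW hΦ hε K Q).comp hq
    exact h
  have h4 := ((h1.mul h2).mul h3).indicator (mset_pull ε Q.te r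
    (ℓ := fun q : ((PhasePoint × Par P) × (Σ n : ℕ, Config n)) × (Lab × LSt) => q.1.1.1)
    (p := fun q => q.2) measurable_fst.fst.fst measurable_snd)
  unfold G
  rw [ind_eq (fun q : ((PhasePoint × Par P) × (Σ n : ℕ, Config n)) × (Lab × LSt) => q.2)
    (fun q => By0 ε Q.te r q.1.1.1) (fun q p =>
      gw Φ f₀ P (fun _ => 1) ε (hitT ε q.1.1.1 p.2) q.1.1.1 q.1.1.2 *
      GIV566.unhitInd Φ ε (Q1815.hidM Φ ε P q.1.1.1 q.1.1.2) Q.tw q.1.2.2 *
        tW Φ ε K Q q.1.2 p)]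
  exact h4

theorem measurable_J (P : CTree) :
    Measurable fun q : (PhasePoint × (Σ n : ℕ, Config n)) × (Lab × LSt) =>
      J Φ f₀ ε K Q r P q.1.1 q.1.2 q.2 := by
  have hhit : Measurable fun q : (PhasePoint × (Σ n : ℕ, Config n)) × (Lab × LSt) =>
      hitT ε q.1.1 q.2.2 := measurable_hitT' ε measurable_fst.fst measurable_snd.snd
  have h1 : Measurable fun q : (PhasePoint × (Σ n : ℕ, Config n)) × (Lab × LSt) =>
      Dw Φ f₀ P (fun _ => 1) ε Q.tw (hitT ε q.1.1 q.2.2) q.1.1 q.1.2.2 := by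
    have hq : Measurable fun q : (PhasePoint × (Σ n : ℕ, Config n)) × (Lab × LSt) =>
        (q.1.2, (hitT ε q.1.1 q.2.2, q.1.1)) :=
      measurable_fst.snd.prodMk (hhit.prodMk measurable_fst.fst)
    have h := (measurable_Dw hΦ hf (P := P) (φ := fun _ => 1) measurable_const hε Q.tw).comp hq
    exact h
  have h3 : Measurable fun q : (PhasePoint × (Σ n : ℕ, Config n)) × (Lab × LSt) =>
      tW Φ ε K Q q.1.2 q.2 := by
    have hq : Measurable fun q : (PhasePoint × (Σ n : ℕ, Config n)) × (Lab × LSt) =>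
        (q.1.2, q.2) := measurable_fst.snd.prodMk measurable_snd
    have h := (measurable_tW hΦ hε K Q).comp hq
    exact h
  have h4 := (h1.mul h3).indicator (mset_pull ε Q.te r
    (ℓ := fun q : (PhasePoint × (Σ n : ℕ, Config n)) × (Lab × LSt) => q.1.1)
    (p := fun q => q.2) measurable_fst.fst measurable_snd)
  unfold J
  rw [ind_eq (fun q : (PhasePoint × (Σ n : ℕ, Config n)) × (Lab × LSt) => q.2)
    (fun q => By0 ε Q.te r q.1.1) (fun q p =>
      Dw Φ f₀ P (fun _ => 1) ε Q.tw (hitT ε q.1.1 p.2) q.1.1 q.1.2.2 *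
        tW Φ ε K Q q.1.2 p)]
  exact h4

omit hΦ hf hε in
theorem measurableSet_ByS (ε te r : ℝ) (P : CTree) (z : PhasePoint × Par P) :
    MeasurableSet (ByS ε te r P z) := by
  have h1 : MeasurableSet {p : Lab × LSt | LinkEv ε te (rel P z.2 (root P)) z.1 p.2} :=
    measurableSet_linkEv ε te (ℓ := fun _ : Lab × LSt => z.1) (a := fun _ => rel P z.2 (root P))
      (e := fun p => p.2) measurable_const measurable_const measurable_snd
  have h2 : Measurable fun p : Lab × LSt => hitT ε z.1 p.2 - sig p.1 :=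
    (measurable_hitT' ε (ℓ := fun _ : Lab × LSt => z.1) (e := fun p => p.2) measurable_const
      measurable_snd).sub (measurable_sig.comp measurable_fst)
  exact mset_ind_lt h1 h2 measurable_const

omit hΦ hf in
theorem FYt_le_G (P : CTree) (z : PhasePoint × Par P) (w : Σ n : ℕ, Config n) {p : Lab × LSt}
    (hp : p ∈ ByS ε Q.te r P z) : FYt Φ f₀ ε K Q P w z p ≤ G Φ f₀ ε K Q r P z w p := by
  have h0 : p ∈ By0 ε Q.te r z.1 := By0_of hp
  unfold G
  rw [indicator_of_mem h0]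
  unfold FYt tws
  by_cases hV : Valid Φ ε P Q.te z.1.2 z.2 ∧ Sep Φ ε P Q.te z.1 z.2
  swap
  · rw [if_neg hV, zero_mul]; exact bot_le
  rw [if_pos hV]
  obtain ⟨⟨-, hu0, -, hur, hut⟩, -⟩ := hp
  have hVu : Valid Φ ε P (hitT ε z.1 p.2) z.1.2 z.2 := (valid_at hu0 hut).2 ⟨hV.1, hur⟩
  have h1 : gw Φ f₀ P (fun _ => 1) ε (hitT ε z.1 p.2) z.1 z.2 = tw₀ Φ f₀ ε Q.te P z := by
    unfold tw₀
    rw [gw_of_valid hVu, gw_of_valid hV.1]
  rw [h1, hidM_of_adm (ℓ := z.1) hVu.1, mul_assoc]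
  refine mul_le_mul' le_rfl (mul_le_mul' ?_ le_rfl)
  exact gh_le_hid hε.le hu0 hVu w

/-- one shape -/
theorem shape_le (hL : 0 ≤ Q.L) [SFinite ν] (P : CTree) :
    ∫⁻ z : PhasePoint × Par P, ∫⁻ w, ∫⁻ p in ByS ε Q.te r P z, FYt Φ f₀ ε K Q P w z p
      ∂ν ∂gcM f₀ ε ≤
      ∫⁻ ℓ : PhasePoint, ∫⁻ w, ∫⁻ p, J Φ f₀ ε K Q r P ℓ w p ∂ν ∂gcM f₀ ε := by
  have hG := measurable_G hΦ hf hε (K := K) (Q := Q) (r := r) P
  have hGp : Measurable fun q : (PhasePoint × Par P) × (Σ n : ℕ, Config n) =>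
      ∫⁻ p, G Φ f₀ ε K Q r P q.1 q.2 p ∂ν := hG.lintegral_prod_right'
  have hGw : Measurable fun z : PhasePoint × Par P =>
      ∫⁻ w, ∫⁻ p, G Φ f₀ ε K Q r P z w p ∂ν ∂gcM f₀ ε := hGp.lintegral_prod_right'
  calc ∫⁻ z : PhasePoint × Par P, ∫⁻ w, ∫⁻ p in ByS ε Q.te r P z, FYt Φ f₀ ε K Q P w z p
      ∂ν ∂gcM f₀ ε
      ≤ ∫⁻ z : PhasePoint × Par P, ∫⁻ w, ∫⁻ p, G Φ f₀ ε K Q r P z w p ∂ν ∂gcM f₀ ε := by
        refine lintegral_mono fun z => lintegral_mono fun w => ?_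
        rw [← lintegral_indicator (measurableSet_ByS ε Q.te r P z)]
        refine lintegral_mono fun p => ?_
        by_cases hp : p ∈ ByS ε Q.te r P z
        · rw [indicator_of_mem hp]
          exact FYt_le_G hε P z w hp
        · rw [indicator_of_notMem hp]
          exact bot_le
    _ = ∫⁻ ℓ : PhasePoint, ∫⁻ q : Par P, ∫⁻ w, ∫⁻ p, G Φ f₀ ε K Q r P (ℓ, q) w p
          ∂ν ∂gcM f₀ ε := lintegral_prod _ hGw.aemeasurable
    _ = ∫⁻ ℓ : PhasePoint, ∫⁻ w, ∫⁻ p, J Φ f₀ ε K Q r P ℓ w p ∂ν ∂gcM f₀ ε := by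
        refine lintegral_congr fun ℓ => ?_
        have hs1 : ∫⁻ q : Par P, ∫⁻ w, ∫⁻ p, G Φ f₀ ε K Q r P (ℓ, q) w p ∂ν ∂gcM f₀ ε =
            ∫⁻ w, ∫⁻ q : Par P, ∫⁻ p, G Φ f₀ ε K Q r P (ℓ, q) w p ∂ν ∂volume ∂gcM f₀ ε := by
          refine lintegral_lintegral_swap (f := fun (q : Par P) (w : Σ n : ℕ, Config n) =>
            ∫⁻ p, G Φ f₀ ε K Q r P (ℓ, q) w p ∂ν) ?_
          have hq : Measurable fun x : Par P × (Σ n : ℕ, Config n) => ((ℓ, x.1), x.2) :=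
            (measurable_const.prodMk measurable_fst).prodMk measurable_snd
          exact (hGp.comp hq).aemeasurable
        rw [hs1]
        refine lintegral_congr fun w => ?_
        have hs2 : ∫⁻ q : Par P, ∫⁻ p, G Φ f₀ ε K Q r P (ℓ, q) w p ∂ν =
            ∫⁻ p, ∫⁻ q : Par P, G Φ f₀ ε K Q r P (ℓ, q) w p ∂volume ∂ν := by
          refine lintegral_lintegral_swap (f := fun (q : Par P) (p : Lab × LSt) =>
            G Φ f₀ ε K Q r P (ℓ, q) w p) ?_
          have hq : Measurable fun x : Par P × (Lab × LSt) => (((ℓ, x.1), w), x.2) :=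
            ((measurable_const.prodMk measurable_fst).prodMk measurable_const).prodMk
              measurable_snd
          exact (hG.comp hq).aemeasurable
        rw [hs2]
        refine lintegral_congr fun p => ?_
        unfold J G
        by_cases hp : p ∈ By0 ε Q.te r ℓ
        · simp only [indicator_of_mem hp]
          rw [Dw_eq_M, ← lintegral_mul_const' _ _ (tW_ne_top hL w p)]
        · simp only [indicator_of_notMem hp, lintegral_zero]

/-- all shapes -/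
theorem sum_le_root (hL : 0 ≤ Q.L) [SFinite ν] :
    ∑ P ∈ GIVStep383.trees K, ∫⁻ z : PhasePoint × Par P, ∫⁻ w, ∫⁻ p in ByS ε Q.te r P z,
      FYt Φ f₀ ε K Q P w z p ∂ν ∂gcM f₀ ε ≤
      ∫⁻ ℓ : PhasePoint, ∫⁻ w : (Σ n : ℕ, Config n), ∫⁻ p in By0 ε Q.te r ℓ,
        (∑ P ∈ GIVStep383.trees K, Dw Φ f₀ P (fun _ => 1) ε Q.tw (hitT ε ℓ p.2) ℓ w.2) *
          tW Φ ε K Q w p ∂ν ∂gcM f₀ ε := by
  refine (Finset.sum_le_sum fun P _ => shape_le hΦ hf hε (K := K) (Q := Q) (r := r) (ν := ν) hL P).trans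
    (le_of_eq ?_)
  have hJ := fun P => measurable_J hΦ hf hε (K := K) (Q := Q) (r := r) P
  have hJp : ∀ P, Measurable fun q : PhasePoint × (Σ n : ℕ, Config n) =>
      ∫⁻ p, J Φ f₀ ε K Q r P q.1 q.2 p ∂ν := fun P => (hJ P).lintegral_prod_right'
  have hJw : ∀ P, Measurable fun ℓ : PhasePoint =>
      ∫⁻ w, ∫⁻ p, J Φ f₀ ε K Q r P ℓ w p ∂ν ∂gcM f₀ ε := fun P => (hJp P).lintegral_prod_right'
  rw [← lintegral_finsetSum _ fun P _ => hJw P]
  refine lintegral_congr fun ℓ => ?_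
  have h2 : ∀ P, Measurable fun w : Σ n : ℕ, Config n => ∫⁻ p, J Φ f₀ ε K Q r P ℓ w p ∂ν := by
    intro P
    have hq : Measurable fun w : Σ n : ℕ, Config n => (ℓ, w) :=
      measurable_const.prodMk measurable_id
    have h := (hJp P).comp hq
    exact h
  rw [← lintegral_finsetSum _ fun P _ => h2 P]
  refine lintegral_congr fun w => ?_
  have h3 : ∀ P, Measurable fun p : Lab × LSt => J Φ f₀ ε K Q r P ℓ w p := by
    intro P
    have hq : Measurable fun p : Lab × LSt => ((ℓ, w), p) :=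
      measurable_const.prodMk measurable_id
    have h := (hJ P).comp hq
    exact h
  rw [← lintegral_finsetSum _ fun P _ => h3 P]
  have hB : MeasurableSet (By0 ε Q.te r ℓ) :=
    (measurableSet_By0 ε Q.te r).preimage measurable_prodMk_left
  rw [← lintegral_indicator hB]
  refine lintegral_congr fun p => ?_
  unfold J
  by_cases hp : p ∈ By0 ε Q.te r ℓ
  · simp only [indicator_of_mem hp]
    rw [Finset.sum_mul]
  · simp only [indicator_of_notMem hp, Finset.sum_const_zero]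

end

end Crest.Agent.R122.H5Y814

end
end

-- ▼ part R122/H5Y_814
section

/-!
Row 122 (helper814): the **young part** of the spread terms of inequality 3.

* `excess_le` : the excess of the quenched root density, with the flux weight;
* `young_le` : `Σ_P ∫z ∫w ∫_{young link} tws · gh · touchW (cfg w) d ≤ ε² c (C r XI + C' δ)`.
-/

set_option autoImplicit false

open MeasureTheory Set Filter
open scoped ENNReal Topology
open Crest.AnalysisR.Kinetic
open Crest.Agent.R122.Kin796 Crest.Agent.R122.Kin796.CTree Crest.Agent.R122.Tree674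
open Crest.Agent.R122.EDefs602 Crest.Agent.R122.TreeLines335 Crest.Agent.R122.LineMeas994
open Crest.Agent.R122.GC311 Crest.Agent.R122.QDens815 Crest.Agent.R122.Q1815
open Crest.Agent.R122.SPV994 Crest.Agent.R122.Boost969 Crest.Agent.R122.MeasE416
open Crest.Agent.R122.Pair292 hiding ML
open Crest.Agent.R122.Contact969 Crest.Agent.R122.PairS969 Crest.Agent.R122.Omega969
open Crest.Agent.R122.H5994

noncomputable section

namespace Crest.Agent.R122.H5Y814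

variable {Φ : Space3 → ℝ} {f₀ : PhasePoint → ℝ} {f : ℝ → PhasePoint → ℝ} {β T T₀ tw : ℝ}

/-- quenched density of the root lines of the trees with at most `K` leaves -/
def D1 (Φ : Space3 → ℝ) (f₀ : PhasePoint → ℝ) (ε : ℝ) (K : ℕ) (tw : ℝ) (w : Σ n : ℕ, Config n)
    (u : ℝ) (ℓ : PhasePoint) : ℝ≥0∞ :=
  ∑ P ∈ GIVStep383.trees K, Dw Φ f₀ P (fun _ => 1) ε tw u ℓ w.2

/-- ideal bound of the root density -/
def gI (M C b : ℝ) (ℓ : PhasePoint) : ℝ≥0∞ :=
  (2 * ENNReal.ofReal M) * (ENNReal.ofReal C * wG b ℓ.2)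

/-- the error of the root density -/
def δY (Φ : Space3 → ℝ) (f₀ : PhasePoint → ℝ) (M C b tw te : ℝ) (K : ℕ) (ε : ℝ) : ℝ≥0∞ :=
  gcE f₀ ε fun _ w => ∫⁻ y : ℝ × PhasePoint,
    ((∑' P, Dw Φ f₀ P (cutW K P (rootA P)) ε tw y.1 y.2 w) -
      (2 * ENNReal.ofReal M) * (ENNReal.ofReal C * wG b y.2.2))
        ∂((volume.restrict (Ioc 0 te)).prod volume)

theorem null_δY (X : Ctx Φ β T f₀ f T₀ tw) {h₀ kap lam C b : ℝ}
    (hK : Seg814.KinC Φ T f h₀ kap lam C b) (hkap : kap ≤ β) {te : ℝ} (hte : te ≤ tw + h₀)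
    (hteT : te ≤ T₀) {lam₁ M : ℝ} (_h1 : 1 < lam₁) (h2 : lam₁ ≤ lam)
    (hM : ∀ (P : CTree) (s : ℝ) (ℓ : PhasePoint) (p : Par P),
      wtA Φ P (s, ℓ, p) ≤ ENNReal.ofReal M * ENNReal.ofReal lam₁ ^ P.size *
        ENNReal.ofReal (Real.exp (kap * Seg814.eng Φ P ℓ.2 p))) :
    Null (δY Φ f₀ M C b tw te) := by
  have hβ := X.hβ
  have hM2 : (2 * ENNReal.ofReal M : ℝ≥0∞) ≠ ∞ :=
    ENNReal.mul_ne_top (by norm_num) ENNReal.ofReal_ne_top
  have hA : ∀ (P : CTree) (s : ℝ) (ℓ : PhasePoint) (p : Par P), Adm Φ P ℓ.2 p →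
      rootA P (s, ℓ, p) ≤ (2 * ENNReal.ofReal M) * ENNReal.ofReal lam ^ P.size *
        ENNReal.ofReal (Real.exp (kap * Seg814.eng Φ P ℓ.2 p)) := by
    intro P s ℓ p ha
    calc rootA P (s, ℓ, p) ≤ 2 * wtA Φ P (s, ℓ, p) := rootA_le_wtA X.hΦ ha
      _ ≤ 2 * (ENNReal.ofReal M * ENNReal.ofReal lam₁ ^ P.size *
        ENNReal.ofReal (Real.exp (kap * Seg814.eng Φ P ℓ.2 p))) := mul_le_mul_right (hM P s ℓ p) _
      _ ≤ 2 * (ENNReal.ofReal M * ENNReal.ofReal lam ^ P.size *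
        ENNReal.ofReal (Real.exp (kap * Seg814.eng Φ P ℓ.2 p))) := by
          gcongr
      _ = _ := by ring
  refine null_iff_tendsto.2 fun K => ?_
  have : IsFiniteMeasure ((volume : Measure ℝ).restrict (Ioc 0 te)) := by
    refine ⟨?_⟩
    rw [Measure.restrict_apply_univ, Real.volume_Ioc]
    exact ENNReal.ofReal_lt_top
  refine tendsto_excess X (κ := (volume : Measure ℝ).restrict (Ioc 0 te)) ?_ hK ?_
    (GIVStep383.trees K) (φ := fun P => cutW K P (rootA P)) ?_ ?_ hM2 ?_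
  · exact (ae_restrict_iff' measurableSet_Ioc).2 (Eventually.of_forall fun s hs => hs.2.trans hteT)
  · exact (ae_restrict_iff' measurableSet_Ioc).2
      (Eventually.of_forall fun s hs => ⟨hs.1.le, hs.2.trans hte⟩)
  · exact fun P _ => Wgt.of_le (measurable_cutW (measurable_rootA P)) (by linarith) hM2
      (fun s ℓ p ha => (cutW_le _).trans (hA P s ℓ p ha))
  · intro P hP q
    refine cutW_of_lt ?_ q
    by_contra hc
    exact hP (GIVStep383.mem_trees.2 (not_lt.1 hc))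
  · exact fun P s ℓ p ha => (cutW_le _).trans (hA P s ℓ p ha)

section

variable (hΦ : AdmissiblePotential Φ) (hf : Measurable f₀) {ε : ℝ} (hε : 0 < ε) {K : ℕ}

include hΦ hf hε in
theorem measurable_D1 (tw : ℝ) : Measurable fun q : (Σ n : ℕ, Config n) × ℝ × PhasePoint =>
    D1 Φ f₀ ε K tw q.1 q.2.1 q.2.2 := by
  unfold D1
  refine Finset.measurable_sum _ fun P _ => ?_
  exact measurable_Dw hΦ hf (φ := fun _ => 1) measurable_const hε tw

theorem measurable_gI (M C b : ℝ) : Measurable (gI M C b) := by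
  unfold gI
  exact (((measurable_wG b).comp measurable_snd).const_mul _).const_mul _

/-- `(1 + |v|) D1` is the quenched density with weight `rootA` -/
theorem rootA_D1 {tw : ℝ} {w : Σ n : ℕ, Config n} {u : ℝ} {ℓ : PhasePoint} :
    ∑' P, Dw Φ f₀ P (cutW K P (rootA P)) ε tw u ℓ w.2 =
      ENNReal.ofReal (1 + ‖ℓ.2‖) * D1 Φ f₀ ε K tw w u ℓ := by
  rw [tsum_eq_sum (s := GIVStep383.trees K)]
  · unfold D1
    rw [Finset.mul_sum]
    refine Finset.sum_congr rfl fun P hP => ?_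
    have h1 := Dw_mul_left (Φ := Φ) (f₀ := f₀) (P := P) (φ := fun _ => 1)
      (c := fun _ ℓ => ENNReal.ofReal (1 + ‖ℓ.2‖)) (ε := ε) (tw := tw) (s := u) (ℓ := ℓ) (w := w.2)
      ENNReal.ofReal_ne_top
    rw [← h1]
    congr 1
    funext q
    rw [cutW_of_le (GIVStep383.mem_trees.1 hP), mul_one]
    rfl
  · intro P hP
    refine Dw_zero fun p => cutW_of_lt ?_ _
    by_contra hc
    exact hP (GIVStep383.mem_trees.2 (not_lt.1 hc))

include hΦ hf hε in
/-- **the excess with the flux weight** -/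
theorem excess_le (M C b tw te : ℝ) :
    ∫⁻ ℓ : PhasePoint, ∫⁻ w : (Σ n : ℕ, Config n), ∫⁻ u, rdL te 0 ℓ u *
      (D1 Φ f₀ ε K tw w u ℓ - gI M C b ℓ) ∂volume ∂gcM f₀ ε ≤ δY Φ f₀ M C b tw te K ε := by
  have hD := measurable_D1 hΦ hf hε (K := K) tw
  have hg := measurable_gI M C b
  -- the majorant
  set H : PhasePoint → (Σ n : ℕ, Config n) → ℝ → ℝ≥0∞ := fun ℓ w u =>
    (Ioc 0 te).indicator (fun u => ENNReal.ofReal (1 + ‖ℓ.2‖) * D1 Φ f₀ ε K tw w u ℓ -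
      gI M C b ℓ) u with hH
  have hle : ∀ ℓ w u, rdL te 0 ℓ u * (D1 Φ f₀ ε K tw w u ℓ - gI M C b ℓ) ≤ H ℓ w u := by
    intro ℓ w u
    unfold rdL
    by_cases hu : 0 < u ∧ 0 < u ∧ u ≤ te
    swap
    · rw [if_neg hu, zero_mul]; exact bot_le
    rw [if_pos hu, hH]
    simp only
    rw [indicator_of_mem (show u ∈ Ioc 0 te from ⟨hu.1, hu.2.2⟩),
      ENNReal.mul_sub (fun _ _ => ENNReal.ofReal_ne_top)]
    refine tsub_le_tsub le_rfl ?_
    refine le_mul_of_one_le_left' ?_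
    rw [ENNReal.one_le_ofReal]
    linarith [norm_nonneg ℓ.2]
  have hHm : Measurable fun q : (PhasePoint × (Σ n : ℕ, Config n)) × ℝ => H q.1.1 q.1.2 q.2 := by
    have m1 : Measurable fun q : (PhasePoint × (Σ n : ℕ, Config n)) × ℝ =>
        D1 Φ f₀ ε K tw q.1.2 q.2 q.1.1 := by
      have hq : Measurable fun q : (PhasePoint × (Σ n : ℕ, Config n)) × ℝ =>
          (q.1.2, (q.2, q.1.1)) :=
        measurable_fst.snd.prodMk (measurable_snd.prodMk measurable_fst.fst)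
      have h := hD.comp hq
      exact h
    have m2 : Measurable fun q : (PhasePoint × (Σ n : ℕ, Config n)) × ℝ =>
        ENNReal.ofReal (1 + ‖q.1.1.2‖) := by fun_prop
    have m3 : Measurable fun q : (PhasePoint × (Σ n : ℕ, Config n)) × ℝ =>
        gI M C b q.1.1 := hg.comp measurable_fst.fst
    have m4 : MeasurableSet {q : (PhasePoint × (Σ n : ℕ, Config n)) × ℝ | q.2 ∈ Ioc 0 te} :=
      measurable_snd measurableSet_Ioc
    have m5 := ((m2.mul m1).sub m3).indicator m4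
    have e1 := ind_eq (fun q : (PhasePoint × (Σ n : ℕ, Config n)) × ℝ => q.2)
      (fun _ => Ioc 0 te) (fun q u => ENNReal.ofReal (1 + ‖q.1.1.2‖) *
        D1 Φ f₀ ε K tw q.1.2 u q.1.1 - gI M C b q.1.1)
    rw [hH]
    simp only
    rw [e1]
    exact m5
  have hHu : Measurable fun q : PhasePoint × (Σ n : ℕ, Config n) => ∫⁻ u, H q.1 q.2 u :=
    hHm.lintegral_prod_right'
  calc ∫⁻ ℓ : PhasePoint, ∫⁻ w : (Σ n : ℕ, Config n), ∫⁻ u, rdL te 0 ℓ u *
      (D1 Φ f₀ ε K tw w u ℓ - gI M C b ℓ) ∂volume ∂gcM f₀ ε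
      ≤ ∫⁻ ℓ : PhasePoint, ∫⁻ w : (Σ n : ℕ, Config n), ∫⁻ u, H ℓ w u ∂volume ∂gcM f₀ ε :=
        lintegral_mono fun ℓ => lintegral_mono fun w => lintegral_mono fun u => hle ℓ w u
    _ = ∫⁻ w : (Σ n : ℕ, Config n), ∫⁻ ℓ : PhasePoint, ∫⁻ u, H ℓ w u ∂volume ∂volume
          ∂gcM f₀ ε :=
        lintegral_lintegral_swap (f := fun (ℓ : PhasePoint) (w : Σ n : ℕ, Config n) =>
          ∫⁻ u, H ℓ w u) hHu.aemeasurable
    _ = δY Φ f₀ M C b tw te K ε := by
        unfold δY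
        rw [gcE_eq_lintegral hf]
        refine lintegral_congr fun w => ?_
        have hHw : Measurable fun q : PhasePoint × ℝ => H q.1 w q.2 := by
          have hq : Measurable fun q : PhasePoint × ℝ => ((q.1, w), q.2) :=
            (measurable_fst.prodMk measurable_const).prodMk measurable_snd
          have h := hHm.comp hq
          exact h
        have hs : ∫⁻ ℓ : PhasePoint, ∫⁻ u, H ℓ w u = ∫⁻ u, ∫⁻ ℓ : PhasePoint, H ℓ w u :=
          lintegral_lintegral_swap (f := fun (ℓ : PhasePoint) (u : ℝ) => H ℓ w u)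
            hHw.aemeasurable
        rw [hs]
        have m1 : Measurable fun y : ℝ × PhasePoint =>
            ENNReal.ofReal (1 + ‖y.2.2‖) * D1 Φ f₀ ε K tw w y.1 y.2 - gI M C b y.2 := by
          have hq : Measurable fun y : ℝ × PhasePoint => (w, y) :=
            measurable_const.prodMk measurable_id
          have h := hD.comp hq
          have h2 : Measurable fun y : ℝ × PhasePoint => D1 Φ f₀ ε K tw w y.1 y.2 := h
          have h3 : Measurable fun y : ℝ × PhasePoint => ENNReal.ofReal (1 + ‖y.2.2‖) := by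
            fun_prop
          exact (h3.mul h2).sub (hg.comp measurable_snd)
        have e1 : ∀ y : ℝ × PhasePoint, ((∑' P, Dw Φ f₀ P (cutW K P (rootA P)) ε tw y.1 y.2 w.2) -
            (2 * ENNReal.ofReal M) * (ENNReal.ofReal C * wG b y.2.2)) =
            ENNReal.ofReal (1 + ‖y.2.2‖) * D1 Φ f₀ ε K tw w y.1 y.2 - gI M C b y.2 := by
          intro y
          rw [rootA_D1]
          rfl
        simp only [e1]
        rw [lintegral_prod _ m1.aemeasurable, ← lintegral_indicator measurableSet_Ioc]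
        refine lintegral_congr fun u => ?_
        rw [hH]
        by_cases hu : u ∈ Ioc 0 te
        · simp only [indicator_of_mem hu]
        · simp only [indicator_of_notMem hu, lintegral_zero]

end

/-- constant of the main term -/
def cYm (M C b te : ℝ) : ℝ≥0∞ :=
  (2 * ENNReal.ofReal M) * ENNReal.ofReal C * cV b *
    (volume (Metric.ball (0 : Space3) 1) * (2 * (1 + ENNReal.ofReal te)))

theorem touch_rhs {Pp : PPar} {Q : EPar} {K : ℕ} {ε : ℝ} {w : Σ n : ℕ, Config n}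
    (hℓ : Pp.ℓ = lineM Q.γ Q.ρ K Q.te) (ht : Pp.t' = Q.te)
    (hm : Measurable fun l : EDefs602.ML => (MW.cfg w.2).touchW Φ ε K Q l) :
    Pp.rhs (fun q => (MW.cfg w.2).touchW Φ ε K Q q.1) =
      (1 + ENNReal.ofReal Q.te) *
        ∫⁻ l, (MW.cfg w.2).touchW Φ ε K Q l ∂lineM Q.γ Q.ρ K Q.te := by
  unfold PPar.rhs
  simp only [setLIntegral_const, Real.volume_Icc, sub_zero]
  rw [hℓ, ht, lintegral_mul_const _ hm, add_mul, one_mul, mul_comm (ENNReal.ofReal Q.te)]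

/-- **The young part of the spread terms.** -/
theorem young_le (hΦ : AdmissiblePotential Φ) (hf : Measurable f₀) {ε : ℝ} (hε : 0 < ε) {K : ℕ}
    {Q : EPar} (hL : 0 ≤ Q.L) (hγ : Measurable Q.γ) {Pp : PPar} {Ξ ν : Measure (Lab × LSt)}
    {c : ℝ≥0∞} {r : ℝ} (h : PX Pp Ξ ν c) [SFinite Pp.ℓ] (hℓ : Pp.ℓ = lineM Q.γ Q.ρ K Q.te)
    (ht : Pp.t' = Q.te) (hW : GoodW Pp) (hc : c ≠ ∞)
    (hsig : ∀ᵐ p ∂ν, Pair292.sig p.1 ≤ p.2.1) {Cl : ℝ≥0∞} (hCl : Cl ≠ ∞) (hsph : sphM univ ≠ ∞)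
    (hl1 : ∀ s : ℝ, ∫⁻ l, rho0 (posd l) * (Icc (s - r) s).indicator 1 l.1.1 ∂Pp.ℓ ≤
      Cl * ENNReal.ofReal r) (hl2 : ∫⁻ l, rho0 (posd l) ∂Pp.ℓ ≤ Cl) (M C b : ℝ) :
    ∑ P ∈ GIVStep383.trees K, ∫⁻ z : PhasePoint × Par P, ∫⁻ w, ∫⁻ p in ByS ε Q.te r P z,
      FYt Φ f₀ ε K Q P w z p ∂ν ∂gcM f₀ ε ≤
      ENNReal.ofReal (ε ^ 2) * (c * (cYm M C b Q.te * ENNReal.ofReal r * XI Φ f₀ ε K Q)) +
        c7 ε r Cl c * δY Φ f₀ M C b Q.tw Q.te K ε := by
  have := h.sfν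
  refine (sum_le_root hΦ hf hε (r := r) (ν := ν) hL).trans ?_
  have hT1 : ∀ w p, tW Φ ε K Q w p ≤ 1 := fun w p => tW_le_one hL w p
  have hExm : Measurable fun q : (Σ n : ℕ, Config n) × ℝ × PhasePoint =>
      D1 Φ f₀ ε K Q.tw q.1 q.2.1 q.2.2 - gI M C b q.2.2 :=
    (measurable_D1 hΦ hf hε Q.tw).sub ((measurable_gI M C b).comp measurable_snd.snd)
  have hc7 : c7 ε r Cl c ≠ ∞ := by
    unfold c7
    have h1 : volume (Metric.ball (0 : Space3) 1) ≠ ∞ := measure_ball_lt_top.ne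
    exact ENNReal.mul_ne_top (ENNReal.mul_ne_top ENNReal.ofReal_ne_top
      (ENNReal.mul_ne_top hsph (ENNReal.mul_ne_top h1
        (ENNReal.mul_ne_top (by norm_num) hc)))) (ENNReal.mul_ne_top
          (ENNReal.mul_ne_top (by norm_num) hCl) ENNReal.ofReal_ne_top)
  have htm : ∀ w : Σ n : ℕ, Config n, Measurable fun l : EDefs602.ML =>
      (MW.cfg w.2).touchW Φ ε K Q l := by
    intro w
    have hq : Measurable fun l : EDefs602.ML => (w.2, l) := measurable_const.prodMk measurable_id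
    have h1 := (measurable_touchW_cfg hΦ hε K Q w.1).comp hq
    exact h1
  set X : (Σ n : ℕ, Config n) → ℝ≥0∞ := fun w =>
    ENNReal.ofReal (ε ^ 2) * (c * (cYm M C b Q.te * ENNReal.ofReal r *
      ∫⁻ l, (MW.cfg w.2).touchW Φ ε K Q l ∂lineM Q.γ Q.ρ K Q.te)) with hX
  have hXle : ∀ w, ∫⁻ p, tW Φ ε K Q w p *
      ∫⁻ ℓ in {ℓ : PhasePoint | p ∈ By0 ε Q.te r ℓ}, gI M C b ℓ ∂volume ∂ν ≤ X w := by
    intro w
    set A : ℝ≥0∞ := ((2 * ENNReal.ofReal M) * ENNReal.ofReal C) *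
      (cV b * (ENNReal.ofReal (ε ^ 2) * ENNReal.ofReal r)) with hA
    have h1 : ∀ᵐ p ∂ν, tW Φ ε K Q w p *
        ∫⁻ ℓ in {ℓ : PhasePoint | p ∈ By0 ε Q.te r ℓ}, gI M C b ℓ ∂volume ≤
        A * ((MW.cfg w.2).touchW Φ ε K Q p.1.1 * vI Pp.t' p.2) := by
      filter_upwards [hsig] with p hp
      by_cases hp2 : p.2.1 ≤ Q.te
      · have e1 : ∫⁻ ℓ in {ℓ : PhasePoint | p ∈ By0 ε Q.te r ℓ}, gI M C b ℓ ∂volume =
            ((2 * ENNReal.ofReal M) * ENNReal.ofReal C) *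
              ∫⁻ ℓ in {ℓ : PhasePoint | p ∈ By0 ε Q.te r ℓ}, wG b ℓ.2 := by
          rw [← lintegral_const_mul' _ _ (ENNReal.mul_ne_top (ENNReal.mul_ne_top (by norm_num)
            ENNReal.ofReal_ne_top) ENNReal.ofReal_ne_top)]
          refine lintegral_congr fun ℓ => ?_
          unfold gI
          ring
        have e2 := vol_young (te := Q.te) (r := r) hε b hp
        have e3 : vI Pp.t' p.2 = ENNReal.ofReal (1 + ‖p.2.2.2‖) := by
          unfold vI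
          rw [if_pos (by rw [ht]; exact hp2)]
        rw [e1, e3]
        calc tW Φ ε K Q w p * (((2 * ENNReal.ofReal M) * ENNReal.ofReal C) *
              ∫⁻ ℓ in {ℓ : PhasePoint | p ∈ By0 ε Q.te r ℓ}, wG b ℓ.2)
            ≤ tW Φ ε K Q w p * (((2 * ENNReal.ofReal M) * ENNReal.ofReal C) *
              (cV b * (ENNReal.ofReal (ε ^ 2) *
                (ENNReal.ofReal r * ENNReal.ofReal (1 + ‖p.2.2.2‖))))) := by
              gcongr
          _ = _ := by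
              unfold tW
              rw [hA]
              ring
      · have e1 : {ℓ : PhasePoint | p ∈ By0 ε Q.te r ℓ} = ∅ := by
          ext ℓ
          simp only [Set.mem_ofPred_eq, mem_empty_iff_false, iff_false]
          intro hc'
          have h3 := hc'.1.2.2.1
          have h4 := hc'.1.2.2.2.2
          linarith
        rw [e1, Measure.restrict_empty, lintegral_zero_measure, mul_zero]
        exact bot_le
    have hF : Measurable fun q : EDefs602.ML × ℝ => (MW.cfg w.2).touchW Φ ε K Q q.1 :=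
      (htm w).comp measurable_fst
    have hm : Measurable fun p : Lab × LSt =>
        (MW.cfg w.2).touchW Φ ε K Q p.1.1 * vI Pp.t' p.2 :=
      ((htm w).comp measurable_fst.fst).mul ((measurable_vI Pp.t').comp measurable_snd)
    calc ∫⁻ p, tW Φ ε K Q w p *
          ∫⁻ ℓ in {ℓ : PhasePoint | p ∈ By0 ε Q.te r ℓ}, gI M C b ℓ ∂volume ∂ν
        ≤ ∫⁻ p, A * ((MW.cfg w.2).touchW Φ ε K Q p.1.1 * vI Pp.t' p.2) ∂ν :=
          lintegral_mono_ae h1
      _ = A * ∫⁻ p, (MW.cfg w.2).touchW Φ ε K Q p.1.1 * vI Pp.t' p.2 ∂ν :=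
          lintegral_const_mul _ hm
      _ ≤ A * (volume (Metric.ball (0 : Space3) 1) * (2 * (c *
            Pp.rhs (fun q => (MW.cfg w.2).touchW Φ ε K Q q.1)))) :=
          mul_le_mul' le_rfl (le_rhs_vel h hW hF)
      _ = X w := by
          rw [touch_rhs hℓ ht (htm w), hX, hA]
          unfold cYm
          ring
  have hspY := spY (gcM f₀ ε) (volume : Measure PhasePoint) (volume : Measure ℝ) ν (c₇ := c7 ε r Cl c)
    hc7 (lt := fun ℓ p => hitT ε ℓ p.2) (B := fun ℓ => By0 ε Q.te r ℓ)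
    (measurableSet_By0 ε Q.te r) (rd := fun ℓ => rdL Q.te 0 ℓ)
    (fun ℓ => y6_link h hε ht hW hsig hl1 hl2
      ((measurableSet_By0 ε Q.te r).preimage measurable_prodMk_left) (fun p hp => hp.1)
      (fun p hp => hp.2))
    (D := fun w u ℓ => D1 Φ f₀ ε K Q.tw w u ℓ)
    (Ex := fun w u ℓ => D1 Φ f₀ ε K Q.tw w u ℓ - gI M C b ℓ) (g := gI M C b)
    (measurable_gI M C b) hExm (fun w u ℓ => le_add_tsub)
    (T := fun w p => tW Φ ε K Q w p) (measurable_tW hΦ hε K Q) hT1 (X := X) hXle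
  refine hspY.trans (add_le_add ?_ ?_)
  · have htmeas : EBasic602.TouchMeas Φ ε K Q := measurable_touchW_cfg hΦ hε K Q
    rw [EBasic602.XI_eq hf hγ htmeas, gcE_eq_lintegral hf, hX]
    have hI : Measurable fun w : Σ n : ℕ, Config n =>
        ∫⁻ l, (MW.cfg w.2).touchW Φ ε K Q l ∂lineM Q.γ Q.ρ K Q.te := by
      have hq : Measurable fun q : (Σ n : ℕ, Config n) × EDefs602.ML =>
          (MW.cfg q.1.2).touchW Φ ε K Q q.2 :=
        Q1815.measurable_sigma_prod fun n => measurable_touchW_cfg hΦ hε K Q n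
      exact hq.lintegral_prod_right'
    rw [lintegral_const_mul _ ((hI.const_mul _).const_mul _), lintegral_const_mul _ (hI.const_mul _),
      lintegral_const_mul _ hI]
  · exact mul_le_mul' le_rfl (excess_le hΦ hf hε M C b Q.tw Q.te)

end Crest.Agent.R122.H5Y814

end
end

-- ▼ part R122/H5Fin_994
section

/-!
# StmtSP6: assembly (row 122, helper994)

* `os2_split` : splitting of the spread terms into (A), (B) on old contacts, touch of the first line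
  on young contacts;
* `sp6_le` : the bound of the spread terms for one pair law;
* `stmtSP6_of` : helper292's `StmtSP6`.
-/

set_option autoImplicit false

open MeasureTheory Set Filter
open scoped ENNReal Topology
open Crest.AnalysisR.Kinetic
open Crest.Agent.R122.Kin796 Crest.Agent.R122.Kin796.CTree Crest.Agent.R122.Tree674
open Crest.Agent.R122.EDefs602 Crest.Agent.R122.TreeLines335 Crest.Agent.R122.LineMeas994
open Crest.Agent.R122.GC311 Crest.Agent.R122.QDens815 Crest.Agent.R122.Q1815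
open Crest.Agent.R122.SPV994 Crest.Agent.R122.Decomp811 Crest.Agent.R122.Weight984
open Crest.Agent.R122.MeasE416
open Crest.Agent.R122.Boost969 (LSt posAt)
open Crest.Agent.R122.Pair292 (Lab PPar PX sig shM)
open Crest.Agent.R122.PairD292
open Crest.Agent.R122.OneC285 (cfT rt cT cB cD cX lpos uI ptube)

namespace Crest.Agent.R122.H5994

noncomputable section

open scoped Classical

section pieces

variable {ξ : CTree → Type} [∀ P, Fintype (ξ P)] (A : ∀ P : CTree, PhasePoint × Par P → MW (ξ P))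
  (G : (P : CTree) → (Σ n : ℕ, Config n) → PhasePoint × Par P → Prop)

/-- (A) on valid, separated trees -/
def pA6 (Φ : Space3 → ℝ) (Q : EPar) (T' : ℝ) (K : ℕ) (ε : ℝ) : SF2 := fun P z m w θ =>
  if (Valid Φ ε P T' z.1.2 z.2 ∧ Sep Φ ε P T' z.1 z.2) ∧ P.leaves ≤ K then
    tA6 A G Φ Q K ε P z ⟨m, w⟩ θ else 0

/-- (B) on old contacts -/
def pB6 (Φ : Space3 → ℝ) (Q : EPar) (T' r : ℝ) (K : ℕ) (ε : ℝ) : SF2 := fun P z m w θ =>
  if (Valid Φ ε P T' z.1.2 z.2 ∧ Sep Φ ε P T' z.1 z.2) ∧ P.leaves ≤ K then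
    (if r ≤ hitT ε z.1 θ.2 - sig θ.1 then tB6 Φ Q K ε P z ⟨m, w⟩ θ else 0) else 0

/-- touch of the first line on young contacts -/
def pY6 (Φ : Space3 → ℝ) (Q : EPar) (T' r : ℝ) (K : ℕ) (ε : ℝ) : SF2 := fun P z _m w θ =>
  if (Valid Φ ε P T' z.1.2 z.2 ∧ Sep Φ ε P T' z.1 z.2) ∧ P.leaves ≤ K then
    (if hitT ε z.1 θ.2 - sig θ.1 < r then (MW.cfg w).touchW Φ ε K Q θ.1.1 else 0) else 0

variable {A G}
variable {Φ : Space3 → ℝ} {f₀ : PhasePoint → ℝ} {ε : ℝ} {K : ℕ} {Q : EPar} {T' r : ℝ}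

theorem spI_le (P : CTree) (z : PhasePoint × Par P) (m : ℕ) (w : Config m) (θ : Lab × LSt) :
    (if r ≤ age ε z θ then tO6 A G Φ Q T' K ε P z m w θ else tY6 A G Φ Q T' K ε P z m w θ) ≤
      pA6 A G Φ Q T' K ε P z m w θ + (pB6 Φ Q T' r K ε P z m w θ + pY6 Φ Q T' r K ε P z m w θ) := by
  rw [age_eq]
  by_cases h : (Valid Φ ε P T' z.1.2 z.2 ∧ Sep Φ ε P T' z.1 z.2) ∧ P.leaves ≤ K
  · unfold tO6 tY6 pA6 pB6 pY6
    rw [if_pos h, if_pos h, if_pos h, if_pos h, if_pos h]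
    by_cases ha : r ≤ hitT ε z.1 θ.2 - sig θ.1
    · rw [if_pos ha, if_pos ha]
      exact add_le_add le_rfl le_self_add
    · rw [if_neg ha, if_neg ha, if_pos (not_le.1 ha), zero_add]
  · unfold tO6 tY6
    rw [if_neg h, if_neg h]
    split_ifs <;> exact bot_le

theorem measurableSet_hit (ε r : ℝ) (P : CTree) (m : ℕ) :
    MeasurableSet {q : (PhasePoint × Par P) × (Config m × (Lab × LSt)) |
      r ≤ hitT ε q.1.1 q.2.2.2 - sig q.2.2.1} :=
  measurableSet_le measurable_const ((measurable_hitT' ε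
    (ℓ := fun q : (PhasePoint × Par P) × (Config m × (Lab × LSt)) => q.1.1)
    (e := fun q => q.2.2.2) measurable_fst.fst measurable_snd.snd.snd).sub
    (Pair292.measurable_sig.comp measurable_snd.snd.fst))

theorem measSF2_pA6 (hΦ : AdmissiblePotential Φ) (hε : 0 < ε) (hA : ∀ P, MeasW (A P))
    (hG : ∀ P, MeasurableSet {q : (Σ n : ℕ, Config n) × (PhasePoint × Par P) | G P q.1 q.2}) :
    MeasSF2 (pA6 A G Φ Q T' K ε) := by
  intro P m
  unfold pA6
  exact Measurable.ite (measurableSet_vs hΦ hε P m) (measSF2_tA6 hΦ hε hA hG P m) measurable_const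

theorem measSF2_pB6 (hΦ : AdmissiblePotential Φ) (hε : 0 < ε) :
    MeasSF2 (pB6 Φ Q T' r K ε) := by
  intro P m
  unfold pB6
  exact Measurable.ite (measurableSet_vs hΦ hε P m)
    (Measurable.ite (measurableSet_hit ε r P m) (measSF2_tB6 hΦ hε P m) measurable_const)
    measurable_const

theorem os2_mono {te : ℝ} {ν : Measure (Lab × LSt)} {H H' : SF2}
    (h : ∀ P z m w θ, H P z m w θ ≤ H' P z m w θ) :
    OS2 Φ f₀ ε te T' ν H ≤ OS2 Φ f₀ ε te T' ν H' := by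
  unfold OS2
  refine mul_le_mul_right (ENNReal.tsum_le_tsum fun P => lintegral_mono fun z => ?_) _
  refine indicator_le_indicator ?_
  refine mul_le_mul_right (mul_le_mul_right (gcE_mono f₀ ε fun m w _ => ?_) _) _
  refine lintegral_mono fun θ => ?_
  exact indicator_le_indicator (h P z m w θ)

/-- splitting of the spread terms -/
theorem os2_split (hΦ : AdmissiblePotential Φ) (hf : Measurable f₀) (hε : 0 < ε)
    (hA : ∀ P, MeasW (A P))
    (hG : ∀ P, MeasurableSet {q : (Σ n : ℕ, Config n) × (PhasePoint × Par P) | G P q.1 q.2})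
    {te : ℝ} {ν : Measure (Lab × LSt)} [SFinite ν] :
    OS2 Φ f₀ ε te T' ν (fun P z m w θ => uG Φ ε Q.tw K P z w θ *
      (if r ≤ age ε z θ then tO6 A G Φ Q T' K ε P z m w θ else tY6 A G Φ Q T' K ε P z m w θ)) ≤
    OS2 Φ f₀ ε te T' ν (fun P z m w θ => uG Φ ε Q.tw K P z w θ * pA6 A G Φ Q T' K ε P z m w θ) +
    (OS2 Φ f₀ ε te T' ν (fun P z m w θ => uG Φ ε Q.tw K P z w θ *
        pB6 Φ Q T' r K ε P z m w θ) +
      OS2 Φ f₀ ε te T' ν (fun P z m w θ => uG Φ ε Q.tw K P z w θ *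
        pY6 Φ Q T' r K ε P z m w θ)) := by
  refine (os2_mono fun P z m w θ => mul_le_mul_right (spI_le P z m w θ) _).trans (le_of_eq ?_)
  rw [os2_add hΦ hf hε (measSF2_pA6 hΦ hε hA hG), os2_add hΦ hf hε (measSF2_pB6 hΦ hε)]

end pieces


/-! ## Constants -/

section cst

variable {ε r te : ℝ} {Cl c : ℝ≥0∞}

/-- constant of the old link events, without `ε²` -/
def k6 (r te : ℝ) : ℝ≥0∞ :=
  ENNReal.ofReal (r⁻¹ ^ 3) * (Omega969.sphM univ * 2) * (1 + ENNReal.ofReal te)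

/-- constant of the young link events, without `ε²` -/
def k7 (r : ℝ) (Cl : ℝ≥0∞) : ℝ≥0∞ :=
  (Omega969.sphM univ * (volume (Metric.ball (0 : Space3) 1) * 2)) * (2 * Cl * ENNReal.ofReal r)

theorem c6_eq : c6 ε r te c = ENNReal.ofReal (ε ^ 2) * (c * k6 r te) := by
  unfold c6 k6
  ring

theorem c7_eq : c7 ε r Cl c = ENNReal.ofReal (ε ^ 2) * (c * k7 r Cl) := by
  unfold c7 k7
  ring

theorem k6_ne_top : k6 r te ≠ ∞ := by
  unfold k6
  exact ENNReal.mul_ne_top (ENNReal.mul_ne_top ENNReal.ofReal_ne_top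
    (ENNReal.mul_ne_top (measure_ne_top _ _) (by norm_num))) (by finiteness)

theorem k7_ne_top (hCl : Cl ≠ ∞) : k7 r Cl ≠ ∞ := by
  unfold k7
  exact ENNReal.mul_ne_top (ENNReal.mul_ne_top (measure_ne_top _ _)
    (ENNReal.mul_ne_top measure_ball_lt_top.ne (by norm_num)))
    (ENNReal.mul_ne_top (ENNReal.mul_ne_top (by norm_num) hCl) ENNReal.ofReal_ne_top)

end cst

/-! ## The bound for one pair law -/

section main

variable {ξ : CTree → Type} [∀ P, Fintype (ξ P)] {A : ∀ P : CTree, PhasePoint × Par P → MW (ξ P)}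
  {G : (P : CTree) → (Σ n : ℕ, Config n) → PhasePoint × Par P → Prop}
variable {Φ : Space3 → ℝ} {f₀ : PhasePoint → ℝ} {ε : ℝ} {K : ℕ} {Q : EPar} {T' r : ℝ}

theorem measurableSet_hitz (ε r : ℝ) (ℓ : PhasePoint) :
    MeasurableSet {θ : Lab × LSt | r ≤ hitT ε ℓ θ.2 - sig θ.1} :=
  measurableSet_le measurable_const ((measurable_hitT' ε
    (ℓ := fun _ : Lab × LSt => ℓ) (e := fun θ => θ.2) measurable_const measurable_snd).sub
    (Pair292.measurable_sig.comp measurable_fst))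

theorem setL_old {ν : Measure (Lab × LSt)} {te : ℝ} {P : CTree} (z : PhasePoint × Par P)
    (a g : ℝ≥0∞) (G : Lab × LSt → ℝ≥0∞) :
    ∫⁻ θ in LinkS ε te P z, a * (g * (if r ≤ hitT ε z.1 θ.2 - sig θ.1 then G θ else 0)) ∂ν =
      ∫⁻ θ in {θ | θ ∈ LinkS ε te P z ∧ r ≤ hitT ε z.1 θ.2 - sig θ.1}, a * (g * G θ) ∂ν := by
  have h1 : ∀ θ : Lab × LSt, a * (g * (if r ≤ hitT ε z.1 θ.2 - sig θ.1 then G θ else 0)) =
      {θ : Lab × LSt | r ≤ hitT ε z.1 θ.2 - sig θ.1}.indicator (fun θ => a * (g * G θ)) θ := by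
    intro θ
    by_cases h : r ≤ hitT ε z.1 θ.2 - sig θ.1
    · rw [if_pos h, indicator_of_mem
        (show θ ∈ {θ : Lab × LSt | r ≤ hitT ε z.1 θ.2 - sig θ.1} from h)]
    · rw [if_neg h, indicator_of_notMem
        (show θ ∉ {θ : Lab × LSt | r ≤ hitT ε z.1 θ.2 - sig θ.1} from h), mul_zero, mul_zero]
  simp only [h1]
  rw [setLIntegral_indicator (measurableSet_hitz ε r z.1)]
  have e : {θ : Lab × LSt | r ≤ hitT ε z.1 θ.2 - sig θ.1} ∩ LinkS ε te P z =
      {θ | θ ∈ LinkS ε te P z ∧ r ≤ hitT ε z.1 θ.2 - sig θ.1} := by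
    ext θ
    exact and_comm
  rw [e]

theorem setL_young {ν : Measure (Lab × LSt)} {te : ℝ} {P : CTree} (z : PhasePoint × Par P)
    (a g : ℝ≥0∞) (G : Lab × LSt → ℝ≥0∞) :
    ∫⁻ θ in LinkS ε te P z, a * (g * (if hitT ε z.1 θ.2 - sig θ.1 < r then G θ else 0)) ∂ν =
      ∫⁻ θ in H5Y814.ByS ε te r P z, a * (g * G θ) ∂ν := by
  have h1 : ∀ θ : Lab × LSt, a * (g * (if hitT ε z.1 θ.2 - sig θ.1 < r then G θ else 0)) =
      {θ : Lab × LSt | r ≤ hitT ε z.1 θ.2 - sig θ.1}ᶜ.indicator (fun θ => a * (g * G θ)) θ := by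
    intro θ
    by_cases h : hitT ε z.1 θ.2 - sig θ.1 < r
    · rw [if_pos h, indicator_of_mem
        (show θ ∈ {θ : Lab × LSt | r ≤ hitT ε z.1 θ.2 - sig θ.1}ᶜ from fun h' => absurd h (not_lt.2 h'))]
    · rw [if_neg h, indicator_of_notMem
        (show θ ∉ {θ : Lab × LSt | r ≤ hitT ε z.1 θ.2 - sig θ.1}ᶜ from fun h' => h' (not_lt.1 h)),
        mul_zero, mul_zero]
  simp only [h1]
  rw [setLIntegral_indicator (measurableSet_hitz ε r z.1).compl]
  have e : {θ : Lab × LSt | r ≤ hitT ε z.1 θ.2 - sig θ.1}ᶜ ∩ LinkS ε te P z =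
      H5Y814.ByS ε te r P z := by
    ext θ
    constructor
    · rintro ⟨h1, h2⟩
      exact ⟨h2, not_le.1 h1⟩
    · rintro ⟨h1, h2⟩
      exact ⟨not_le.2 h2, h1⟩
  rw [e]

theorem cut_le {P : CTree} {z : PhasePoint × Par P} {x : ℝ≥0∞} :
    (if (Valid Φ ε P T' z.1.2 z.2 ∧ Sep Φ ε P T' z.1 z.2) ∧ P.leaves ≤ K then x else 0) ≤
      if Sep Φ ε P T' z.1 z.2 ∧ P.leaves ≤ K then x else 0 := by
  by_cases h : (Valid Φ ε P T' z.1.2 z.2 ∧ Sep Φ ε P T' z.1 z.2) ∧ P.leaves ≤ K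
  · rw [if_pos h, if_pos ⟨h.1.2, h.2⟩]
  · rw [if_neg h]
    exact bot_le

theorem alg1 {a e c x y l X : ℝ≥0∞} (h : a * e = 1) :
    a * ((e * (c * x) * l + e * (c * y)) * X) = c * ((x * l + y) * X) := by
  calc a * ((e * (c * x) * l + e * (c * y)) * X) = (a * e) * (c * ((x * l + y) * X)) := by ring
    _ = _ := by rw [h, one_mul]

theorem alg2 {a e c x l X : ℝ≥0∞} (h : a * e = 1) :
    a * (e * (c * x) * l * X) = c * (x * l * X) := by
  calc a * (e * (c * x) * l * X) = (a * e) * (c * (x * l * X)) := by ring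
    _ = _ := by rw [h, one_mul]

theorem alg3 {a e c y X Z : ℝ≥0∞} (h : a * e = 1) :
    a * (e * (c * X) + e * (c * y) * Z) = c * (X + y * Z) := by
  calc a * (e * (c * X) + e * (c * y) * Z) = (a * e) * (c * (X + y * Z)) := by ring
    _ = _ := by rw [h, one_mul]

/-- **The spread terms for one pair law.** -/
theorem sp6_le (hΦ : AdmissiblePotential Φ) (hf : Measurable f₀) (hε : 0 < ε)
    (hA : ∀ P, MeasW (A P))
    (hG : ∀ P, MeasurableSet {q : (Σ n : ℕ, Config n) × (PhasePoint × Par P) | G P q.1 q.2})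
    (hL : 0 < Q.L) (hT : Q.te ≤ T') (hγ : Measurable Q.γ)
    (htw : 0 ≤ Q.tw) (hte : Q.tw ≤ Q.te) (hr : 0 < r)
    {Pp : PPar} {Ξ ν : Measure (Lab × LSt)} {c : ℝ≥0∞} (h : PX Pp Ξ ν c)
    (hℓ : Pp.ℓ = lineM Q.γ Q.ρ K Q.te) (hinv : ∀ x, Pp.ℓ.map (shM x) = Pp.ℓ)
    (ht : Pp.t' = Q.te) (hW : GoodW Pp) (hc : c ≠ ∞)
    (hsig : ∀ᵐ p : Lab × LSt ∂ν, Pair292.sig p.1 ≤ p.2.1) {Cl : ℝ≥0∞} (hCl : Cl ≠ ∞)
    (hl1 : ∀ s : ℝ, ∫⁻ l, PairS969.rho0 (PairS969.posd l) *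
      (Icc (s - r) s).indicator 1 l.1.1 ∂Pp.ℓ ≤ Cl * ENNReal.ofReal r)
    (hl2 : ∫⁻ l, PairS969.rho0 (PairS969.posd l) ∂Pp.ℓ ≤ Cl)
    {CR δR CE δE : ℝ≥0∞}
    (hR : ∀ Θ : (n : ℕ) → Config n → ML → ℝ≥0∞,
      (∀ n, Measurable fun q : Config n × ML => Θ n q.1 q.2) → (∀ n w l, Θ n w l ≤ 1) →
      ∑ P ∈ GIVStep383.trees K, ∫⁻ z : PhasePoint × Par P, ∫⁻ w, ∫⁻ u,
          rootI Φ f₀ ε Q.tw Q.te P Θ w z u ∂volume ∂gcM f₀ ε ≤
        CR * gcE f₀ ε (fun n w => ∫⁻ l, Θ n w l ∂lineM Q.γ Q.ρ K Q.te) + δR)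
    (hE : ∀ Θ : (n : ℕ) → Config n → ML → ℝ≥0∞,
      (∀ n, Measurable fun q : Config n × ML => Θ n q.1 q.2) → (∀ n w l, Θ n w l ≤ 1) →
      InEq2.TS Φ f₀ ε Q.te (exitH Φ ε Q.tw Q.te K Θ) ≤
        CE * gcE f₀ ε (fun n w => ∫⁻ l, Θ n w l ∂lineM Q.γ Q.ρ K Q.te) + δE)
    (M C b : ℝ) :
    OS2 Φ f₀ ε Q.te T' ν (fun P z m w θ => uG Φ ε Q.tw K P z w θ *
      (if r ≤ age ε z θ then tO6 A G Φ Q T' K ε P z m w θ else tY6 A G Φ Q T' K ε P z m w θ)) ≤
    c * ((k6 r Q.te * ENNReal.ofReal (1 / Q.L) + k7 r Cl) *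
        ((CR + ENNReal.ofReal Q.te * CE) * (XI Φ f₀ ε K Q + tnMass Φ f₀ Q.γ Q.ρ ε K Q.tw) +
          (δR + ENNReal.ofReal Q.te * δE) +
          ENNReal.ofReal Q.te * InEq2.TS Φ f₀ ε Q.te (errA A G Φ ε K Q)) +
      (k6 r Q.te * ENNReal.ofReal (1 / Q.L) *
        ((CR + ENNReal.ofReal Q.te * CE) * (XI Φ f₀ ε K Q + errB Φ f₀ ε K Q) +
          (δR + ENNReal.ofReal Q.te * δE)) +
      (H5Y814.cYm M C b Q.te * ENNReal.ofReal r * XI Φ f₀ ε K Q +
        k7 r Cl * H5Y814.δY Φ f₀ M C b Q.tw Q.te K ε))) := by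
  have := h.sfν
  have hsf : SFinite Pp.ℓ := by rw [hℓ]; infer_instance
  have hact : activity ε * ENNReal.ofReal (ε ^ 2) = 1 := act_mul_sq hε
  have h6 : ∀ P z, S6 ν (fun p => p.1.1) (lineM Q.γ Q.ρ K Q.te) volume (c6 ε r Q.te c)
      ((shape hΦ hf hε Q.te Q.tw Q.te r P).lt z) ((shape hΦ hf hε Q.te Q.tw Q.te r P).Bo z)
      ((shape hΦ hf hε Q.te Q.tw Q.te r P).rd z) := by
    intro P z
    have h1 := s6_shape (T := Q.te) (tw := Q.tw) (te := Q.te) hΦ hf hε h hinv hr ht hW P z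
    rwa [hℓ] at h1
  have h7 : ∀ P z, Y6 ν volume (c7 ε r Cl c)
      ((shape hΦ hf hε Q.te Q.tw Q.te r P).lt z) ((shape hΦ hf hε Q.te Q.tw Q.te r P).By z)
      ((shape hΦ hf hε Q.te Q.tw Q.te r P).rd z) := fun P z =>
    y6_shape (T := Q.te) (tw := Q.tw) (te := Q.te) hΦ hf hε h ht hW hsig hl1 hl2 P z
  have hc6 : c6 ε r Q.te c ≠ ∞ := by
    rw [c6_eq]
    exact ENNReal.mul_ne_top ENNReal.ofReal_ne_top (ENNReal.mul_ne_top hc k6_ne_top)
  have hc7 : c7 ε r Cl c ≠ ∞ := by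
    rw [c7_eq]
    exact ENNReal.mul_ne_top ENNReal.ofReal_ne_top (ENNReal.mul_ne_top hc (k7_ne_top hCl))
  have hc1 : c6 ε r Q.te c * ENNReal.ofReal (1 / Q.L) ≠ ∞ :=
    ENNReal.mul_ne_top hc6 ENNReal.ofReal_ne_top
  refine (os2_split hΦ hf hε hA hG).trans ?_
  rw [mul_add c, mul_add c]
  refine add_le_add ?_ (add_le_add ?_ ?_)
  · -- (A)
    refine (H5OS814.OS2_le_link hf hT (F := fun P w z θ => tA6 A G Φ Q K ε P z w θ)
      fun P z m w θ => cut_le).trans ?_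
    have h2 := spa_total hΦ hf hε (K := K) (Q := Q) (r := r) (ν := ν) hA hG hL
      (ENNReal.add_ne_top.2 ⟨hc1, hc7⟩) h6 h7
      (hR _ (fun n => measurable_ΘA hΦ hε n) fun n w l => ΘA_le_one hL.le w l)
      (hE _ (fun n => measurable_ΘA hΦ hε n) fun n w l => ΘA_le_one hL.le w l) hγ htw hte
    refine (mul_le_mul_right h2 _).trans (le_of_eq ?_)
    rw [c6_eq, c7_eq]
    exact alg1 hact
  · -- (B)
    refine (H5OS814.OS2_le_link hf hT (F := fun P w z θ =>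
      if r ≤ hitT ε z.1 θ.2 - sig θ.1 then tB6 Φ Q K ε P z w θ else 0)
      fun P z m w θ => cut_le).trans ?_
    simp only [setL_old]
    have h2 := spb_total hΦ hf hε (K := K) (Q := Q) (r := r) (ν := ν) hL hc1 h6
      (hR _ (fun n => measurable_ΘBg hΦ hε n) fun n w l => ΘBg_le_one hΦ hε hL w l)
      (hE _ (fun n => measurable_ΘBg hΦ hε n) fun n w l => ΘBg_le_one hΦ hε hL w l) hγ
    refine (mul_le_mul_right h2 _).trans (le_of_eq ?_)
    rw [c6_eq]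
    exact alg2 hact
  · -- young
    refine (H5OS814.OS2_le_link hf hT (F := fun P w z θ =>
      if hitT ε z.1 θ.2 - sig θ.1 < r then (MW.cfg w.2).touchW Φ ε K Q θ.1.1 else 0)
      fun P z m w θ => cut_le).trans ?_
    simp only [setL_young]
    have h2 := H5Y814.young_le hΦ hf hε (K := K) (Q := Q) hL.le hγ (r := r) h hℓ ht hW hc hsig
      hCl (measure_ne_top _ _) hl1 hl2 M C b
    refine (mul_le_mul_right h2 _).trans (le_of_eq ?_)
    rw [c7_eq]
    exact alg3 hact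

end main

end

end Crest.Agent.R122.H5994
end

-- ▼ part R122/H5Sp6_994
section

/-!
# StmtSP6 (row 122, helper994)

* `map_shM_lineM`, `lineM_rho_young` : translation invariance and local masses of the line measure
  (from helper969's `LinkS6_969`, helper663's `RedFlux6_663`);
* `Csp` : the constant; `SP6Body` : the bound, uniform over the class; `sp6Body_of` : the theorem.
-/

set_option autoImplicit false

open MeasureTheory Set Filter
open scoped ENNReal Topology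
open Crest.AnalysisR.Kinetic
open Crest.Agent.R122.Kin796 Crest.Agent.R122.Kin796.CTree Crest.Agent.R122.Tree674
open Crest.Agent.R122.EDefs602 Crest.Agent.R122.TreeLines335 Crest.Agent.R122.LineMeas994
open Crest.Agent.R122.GC311 Crest.Agent.R122.QDens815 Crest.Agent.R122.Q1815
open Crest.Agent.R122.SPV994 Crest.Agent.R122.Decomp811 Crest.Agent.R122.Weight984
open Crest.Agent.R122.MeasE416 Crest.Agent.R122.Master566
open Crest.Agent.R122.Boost969 (LSt posAt)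
open Crest.Agent.R122.Pair292 (Lab PPar PX shM)
open Crest.Agent.R122.PairS969 (rho0 posd)
open Crest.Agent.R122.PairD292

namespace Crest.Agent.R122.H5994

noncomputable section

open scoped Classical

/-! ## The line measure -/

section lines

variable {γ : ℝ → ℝ} {ρ : ℝ≥0∞} {K : ℕ} {T : ℝ}

/-- translation invariance of the line measure (helper969) -/
theorem map_shM_lineM (hγ : Measurable γ) (x : Space3) :
    (lineM γ ρ K T).map (shM x) = lineM γ ρ K T := by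
  refine Measure.ext_of_lintegral _ fun F hF => ?_
  have h1 := EBasic602.lintegral_lineM (ρ := ρ) (K := K) (T := T) hγ
    (hF.comp (Pair292.measurable_shM x))
  simp only [Function.comp] at h1
  rw [lintegral_map hF (Pair292.measurable_shM x), EBasic602.lintegral_lineM hγ hF]
  refine h1.trans ?_
  refine lintegral_congr fun τ => lintegral_congr fun v => ?_
  congr 1
  exact lintegral_add_right_eq_self
    (fun y : Space3 => ∑' n : ℕ, markW ρ K n * F ((τ, (y, v)), n)) x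

/-- mass of the young lines (helper969) -/
theorem lineM_rho_young (hγ : Measurable γ) {g : ℝ} (hg : ∀ τ ∈ Ioc 0 T, g ≤ γ τ) (r s : ℝ) :
    ∫⁻ l, rho0 (posd l) * (Icc (s - r) s).indicator 1 l.1.1 ∂lineM γ ρ K T ≤
      RedFlux6.Cline ρ g T * ENNReal.ofReal r := by
  refine (RedFlux6.lineM_rho_le (ρ := ρ) (K := K) hγ hg measurableSet_Icc).trans ?_
  have h1 : volume (Ioc 0 T ∩ Icc (s - r) s) ≤ ENNReal.ofReal r := by
    refine (measure_mono inter_subset_right).trans (le_of_eq ?_)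
    rw [Real.volume_Icc]
    congr 1
    ring
  unfold RedFlux6.Cline
  calc volume (Ioc 0 T ∩ Icc (s - r) s) * ((1 - ρ)⁻¹ * ∫⁻ v : Space3, Kin796.wG g v)
      ≤ ENNReal.ofReal r * ((1 - ρ)⁻¹ * ∫⁻ v : Space3, Kin796.wG g v) := mul_le_mul_left h1 _
    _ ≤ ENNReal.ofReal r * ((1 + ENNReal.ofReal T) * ((1 - ρ)⁻¹ *
          ∫⁻ v : Space3, Kin796.wG g v)) := by
        refine mul_le_mul_right ?_ _
        exact le_mul_of_one_le_left' le_self_add
    _ = _ := by ring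

end lines

/-! ## The statement -/

/-- constant of the spread terms -/
def Csp (r te L : ℝ) (Cl CQ cY : ℝ≥0∞) : ℝ≥0∞ :=
  (k6 r te * ENNReal.ofReal (1 / L) + k7 r Cl) * CQ + k6 r te * ENNReal.ofReal (1 / L) * CQ +
    cY * ENNReal.ofReal r

/-- The bound of `StmtSP6`, uniform over the class. -/
def SP6Body (Φ : Space3 → ℝ) (f₀ : PhasePoint → ℝ) (Q : EPar) (T' r : ℝ) (PP : ℕ → PPar)
    (tO tY : ℕ → ℝ → SF2) (C : ℝ≥0∞) : Prop :=
  ∃ δ : ℕ → ℝ → ℝ≥0∞, Null δ ∧ ∀ (K : ℕ) (ε : ℝ), 0 < ε →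
    ∀ (Ξ ν : Measure (Lab × LSt)) (c : ℝ≥0∞), PX (PP K) Ξ ν c →
    (∀ᵐ θ : Lab × LSt ∂ν, Pair292.sig θ.1 ≤ θ.2.1) →
    OS2 Φ f₀ ε Q.te T' ν (fun P z m w θ => uG Φ ε Q.tw K P z w θ *
      (if r ≤ age ε z θ then tO K ε P z m w θ else tY K ε P z m w θ)) ≤
    c * (C * (XI Φ f₀ ε K Q + tnMass Φ f₀ Q.γ Q.ρ ε K Q.tw) + δ K ε)

/-- The root part of the quenched input. -/
def QRootH5 (Φ : Space3 → ℝ) (f₀ : PhasePoint → ℝ) (γ : ℝ → ℝ) (ρ : ℝ≥0∞) (tw te : ℝ)
    (C : ℝ≥0∞) (δ : ℕ → ℝ → ℝ≥0∞) : Prop :=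
  ∀ K ε, 0 < ε → ∀ Θ : (n : ℕ) → Config n → ML → ℝ≥0∞,
    (∀ n, Measurable fun q : Config n × ML => Θ n q.1 q.2) → (∀ n w l, Θ n w l ≤ 1) →
    ∑ P ∈ GIVStep383.trees K, ∫⁻ z : PhasePoint × Par P, ∫⁻ w, ∫⁻ u,
      rootI Φ f₀ ε tw te P Θ w z u ∂volume ∂gcM f₀ ε ≤
    C * gcE f₀ ε (fun n w => ∫⁻ l, Θ n w l ∂lineM γ ρ K te) + δ K ε

section main

variable {ξ : CTree → Type} [∀ P, Fintype (ξ P)]
  {AA : ℝ → ∀ P : CTree, PhasePoint × Par P → MW (ξ P)}
  {GG : ℝ → (P : CTree) → (Σ n : ℕ, Config n) → PhasePoint × Par P → Prop}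
variable {Φ : Space3 → ℝ} {f₀ : PhasePoint → ℝ} {Q : EPar} {T' r : ℝ}

theorem final_alg {k l x y CQ X tn dQ t eA eB cy rr dY : ℝ≥0∞} :
    (k * l + x) * (CQ * (X + tn) + dQ + t * eA) + (k * l * (CQ * (X + eB) + dQ) +
      (cy * rr * X + x * dY)) ≤
    ((k * l + x) * CQ + k * l * CQ + cy * rr) * (X + tn) +
      ((k * l + x) * (dQ + t * eA) + (k * l * (CQ * eB + dQ) + x * dY) + y) := by
  calc (k * l + x) * (CQ * (X + tn) + dQ + t * eA) + (k * l * (CQ * (X + eB) + dQ) +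
      (cy * rr * X + x * dY))
      ≤ (k * l + x) * (CQ * (X + tn) + dQ + t * eA) + (k * l * (CQ * (X + tn + eB) + dQ) +
      (cy * rr * (X + tn) + x * dY)) + y := by
        refine le_trans ?_ le_self_add
        gcongr <;> exact le_self_add
    _ = _ := by ring

/-- **The spread terms, uniform over the class.** -/
theorem sp6Body_of (hΦ : AdmissiblePotential Φ) (hf : Measurable f₀)
    (hA : ∀ ε, 0 < ε → ∀ P, MeasW (AA ε P))
    (hG : ∀ ε, 0 < ε → ∀ P, MeasurableSet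
      {q : (Σ n : ℕ, Config n) × (PhasePoint × Par P) | GG ε P q.1 q.2}) (hL : 0 < Q.L) (hT : Q.te ≤ T')
    (hγ : Measurable Q.γ) {g : ℝ} (hg0 : 0 < g) (hg : ∀ τ ∈ Ioc 0 Q.te, g ≤ Q.γ τ)
    (hρ : Q.ρ < 1) (htw : 0 ≤ Q.tw) (hte : Q.tw ≤ Q.te) (hr : 0 < r) {PP : ℕ → PPar}
    (hPP : PPOk Q PP) {CR CE : ℝ≥0∞} (hCR : CR ≠ ∞) (hCE : CE ≠ ∞) {δR δE : ℕ → ℝ → ℝ≥0∞}
    (hδR : Null δR) (hδE : Null δE) (hR : QRootH5 Φ f₀ Q.γ Q.ρ Q.tw Q.te CR δR)
    (hE : QExitH5 Φ f₀ Q.γ Q.ρ Q.tw Q.te CE δE) {M C b : ℝ}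
    (hY : Null (H5Y814.δY Φ f₀ M C b Q.tw Q.te))
    (nA : Null fun K ε => InEq2.TS Φ f₀ ε Q.te (errA (AA ε) (GG ε) Φ ε K Q))
    (nB : Null fun K ε => errB Φ f₀ ε K Q) :
    SP6Body Φ f₀ Q T' r PP (fun K ε => tO6 (AA ε) (GG ε) Φ Q T' K ε)
      (fun K ε => tY6 (AA ε) (GG ε) Φ Q T' K ε)
      (Csp r Q.te Q.L (RedFlux6.Cline Q.ρ g Q.te) (CR + ENNReal.ofReal Q.te * CE)
        (H5Y814.cYm M C b Q.te)) := by
  have hCl := RedFlux6.Cline_ne_top hρ hg0 Q.te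
  have hte' : ENNReal.ofReal Q.te ≠ ∞ := ENNReal.ofReal_ne_top
  have hk6 : k6 r Q.te ≠ ∞ := k6_ne_top
  have hk7 : k7 r (RedFlux6.Cline Q.ρ g Q.te) ≠ ∞ := k7_ne_top hCl
  have hk6L : k6 r Q.te * ENNReal.ofReal (1 / Q.L) ≠ ∞ :=
    ENNReal.mul_ne_top hk6 ENNReal.ofReal_ne_top
  have hCQ : CR + ENNReal.ofReal Q.te * CE ≠ ∞ :=
    ENNReal.add_ne_top.2 ⟨hCR, ENNReal.mul_ne_top hte' hCE⟩
  refine ⟨fun K ε => (k6 r Q.te * ENNReal.ofReal (1 / Q.L) +
      k7 r (RedFlux6.Cline Q.ρ g Q.te)) * ((δR K ε + ENNReal.ofReal Q.te * δE K ε) +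
        ENNReal.ofReal Q.te * InEq2.TS Φ f₀ ε Q.te (errA (AA ε) (GG ε) Φ ε K Q)) +
      (k6 r Q.te * ENNReal.ofReal (1 / Q.L) * ((CR + ENNReal.ofReal Q.te * CE) *
        errB Φ f₀ ε K Q + (δR K ε + ENNReal.ofReal Q.te * δE K ε)) +
      k7 r (RedFlux6.Cline Q.ρ g Q.te) * H5Y814.δY Φ f₀ M C b Q.tw Q.te K ε) +
      ENNReal.ofReal ε, ?_, ?_⟩
  · have hQ : Null fun K ε => δR K ε + ENNReal.ofReal Q.te * δE K ε :=
      hδR.add (hδE.const_mul hte')
    have h0 : Null fun (_ : ℕ) (ε : ℝ) => ENNReal.ofReal ε := fun _ δ hδ =>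
      ⟨δ, hδ, fun ε _ h => ENNReal.ofReal_le_ofReal h.le⟩
    exact (((hQ.add (nA.const_mul hte')).const_mul (ENNReal.add_ne_top.2 ⟨hk6L, hk7⟩)).add
      ((((nB.const_mul hCQ).add hQ).const_mul hk6L).add (hY.const_mul hk7))).add h0
  intro K ε hε Ξ ν c hν hsig
  by_cases hc : c = ∞
  · subst hc
    rw [ENNReal.top_mul]
    · exact le_top
    · refine (lt_of_lt_of_le (ENNReal.ofReal_pos.2 hε) ?_).ne'
      exact le_add_self.trans le_add_self
  have hl := hPP.ell K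
  have ht := hPP.hor K
  have hW : GoodW (PP K) := fun z hz => hPP.vel K z (by rw [← ht]; exact hz)
  have hinv : ∀ x, (PP K).ℓ.map (shM x) = (PP K).ℓ := fun x => by
    rw [hl]; exact map_shM_lineM hγ x
  have hl1 : ∀ s : ℝ, ∫⁻ l, rho0 (posd l) * (Icc (s - r) s).indicator 1 l.1.1 ∂(PP K).ℓ ≤
      RedFlux6.Cline Q.ρ g Q.te * ENNReal.ofReal r := fun s => by
    rw [hl]; exact lineM_rho_young hγ hg r s
  have hl2 : ∫⁻ l, rho0 (posd l) ∂(PP K).ℓ ≤ RedFlux6.Cline Q.ρ g Q.te := by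
    rw [hl]; exact RedFlux6.lineM_rho hγ hg
  have h1 := sp6_le hΦ hf hε (hA ε hε) (hG ε hε) hL hT hγ htw hte hr hν hl hinv ht hW hc hsig hCl hl1 hl2
    (hR K ε hε) (hE K ε hε) M C b
  refine h1.trans (mul_le_mul_right ?_ _)
  unfold Csp
  exact final_alg

end main

end

end Crest.Agent.R122.H5994
end

-- ▼ part R122/H5Cut_994
section

/-!
# StmtSP6 and StmtPt6 for the same literal terms (row 122, helper994)

* `AT` : the real cluster; `GT Q T'` : the good set `Gt` of the term (A);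
* `tOc`, `tYc` : the terms of the old, young contacts = `tO6`, `tY6` with `AT`, `GT`;
* `stmtPt6_cut` : the pointwise inequality (helper811) for these terms;
* `sp6Body_cut` : the bound of the spread terms for these terms.
-/

set_option autoImplicit false

open MeasureTheory Set Filter
open scoped ENNReal Topology
open Crest.AnalysisR.Kinetic
open Crest.Agent.R122.Kin796 Crest.Agent.R122.Kin796.CTree Crest.Agent.R122.Tree674
open Crest.Agent.R122.EDefs602 Crest.Agent.R122.TreeLines335 Crest.Agent.R122.LineMeas994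
open Crest.Agent.R122.Decomp811 Crest.Agent.R122.Weight984 Crest.Agent.R122.MeasE416
open Crest.Agent.R122.Master566
open Crest.Agent.R122.Boost969 (LSt posAt)
open Crest.Agent.R122.Pair292 (Lab PPar PX shM)
open Crest.Agent.R122.PairD292

namespace Crest.Agent.R122.H5994

noncomputable section

open scoped Classical

/-- the real cluster, as a marked world -/
def AT (Φ : Space3 → ℝ) (ε : ℝ) (P : CTree) (z : PhasePoint × Par P) : MW (Idx P) :=
  InEq2T.treeW Φ ε P z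

/-- the good set of the term (A) -/
def GT (Φ : Space3 → ℝ) (Q : EPar) (T' : ℝ) (ε : ℝ) (P : CTree) (w : Σ n : ℕ, Config n)
    (z : PhasePoint × Par P) : Prop :=
  Gt Φ ε Q.te T' P w z

/-- terms of the old contacts -/
def tOc (Φ : Space3 → ℝ) (Q : EPar) (T' : ℝ) : ℕ → ℝ → SF2 := fun K ε =>
  tO6 (AT Φ ε) (GT Φ Q T' ε) Φ Q T' K ε

/-- terms of the young contacts -/
def tYc (Φ : Space3 → ℝ) (Q : EPar) (T' : ℝ) : ℕ → ℝ → SF2 := fun K ε =>
  tY6 (AT Φ ε) (GT Φ Q T' ε) Φ Q T' K ε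

/-- error of the term (A) -/
def errAc (Φ : Space3 → ℝ) (Q : EPar) (T' : ℝ) (K : ℕ) (ε : ℝ) :
    (P : CTree) → PhasePoint × Par P → (m : ℕ) → Config m → ℝ≥0∞ :=
  errA (AT Φ ε) (GT Φ Q T' ε) Φ ε K Q

theorem measW_AT {Φ : Space3 → ℝ} (hΦ : AdmissiblePotential Φ) (ε : ℝ) (P : CTree) :
    MeasW (AT Φ ε P) :=
  InEq2T.measW_treeW hΦ ε P

/-- **The bound of the spread terms**, for the terms of the pointwise inequality. -/
theorem sp6Body_cut {Φ : Space3 → ℝ} {f₀ : PhasePoint → ℝ} {Q : EPar} {T' r : ℝ}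
    (hΦ : AdmissiblePotential Φ) (hf : Measurable f₀) (hL : 0 < Q.L) (hT : Q.te ≤ T')
    (hγ : Measurable Q.γ) {g : ℝ} (hg0 : 0 < g) (hg : ∀ τ ∈ Ioc 0 Q.te, g ≤ Q.γ τ)
    (hρ : Q.ρ < 1) (htw : 0 ≤ Q.tw) (hte : Q.tw ≤ Q.te) (hr : 0 < r) {PP : ℕ → PPar}
    (hPP : PPOk Q PP) {CR CE : ℝ≥0∞} (hCR : CR ≠ ∞) (hCE : CE ≠ ∞) {δR δE : ℕ → ℝ → ℝ≥0∞}
    (hδR : Null δR) (hδE : Null δE) (hR : QRootH5 Φ f₀ Q.γ Q.ρ Q.tw Q.te CR δR)
    (hE : QExitH5 Φ f₀ Q.γ Q.ρ Q.tw Q.te CE δE) {M C b : ℝ}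
    (hY : Null (H5Y814.δY Φ f₀ M C b Q.tw Q.te))
    (nA : Null fun K ε => InEq2.TS Φ f₀ ε Q.te (errAc Φ Q T' K ε))
    (nB : Null fun K ε => errB Φ f₀ ε K Q) :
    SP6Body Φ f₀ Q T' r PP (tOc Φ Q T') (tYc Φ Q T')
      (Csp r Q.te Q.L (RedFlux6.Cline Q.ρ g Q.te) (CR + ENNReal.ofReal Q.te * CE)
        (H5Y814.cYm M C b Q.te)) :=
  sp6Body_of (AA := fun ε => AT Φ ε) (GG := fun ε => GT Φ Q T' ε) hΦ hf
    (fun ε _ P => measW_AT hΦ ε P) (fun _ hε P => measurableSet_Gt hΦ hε Q.te T' P) hL hT hγ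
    hg0 hg hρ htw hte hr hPP hCR hCE hδR hδE hR hE hY nA nB


end

end Crest.Agent.R122.H5994
end

-- ▼ part R122/H5Top_814

/-!
Row 122 (helper814): the spread terms of inequality 3 (`StmtSP6`), window form.

* `exists_inputs` : the inputs of helper994's `sp6Body_of` from `KData`, for all admissible line
  parameters and all short windows, with constants which do not depend on the window;
* `Csp_le` : the constant is at most `CY r + K(r) / L`;
* `sp6_win`, `sp6In` : the spread terms for all windows, in the form of helper566's closing.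
-/

set_option autoImplicit false

open MeasureTheory Set Filter
open scoped ENNReal Topology Classical
open Crest.AnalysisR.Kinetic
open Crest.Agent.R122.Kin796 Crest.Agent.R122.Kin796.CTree Crest.Agent.R122.Tree674
open Crest.Agent.R122.EDefs602 Crest.Agent.R122.TreeLines335 Crest.Agent.R122.LineMeas994
open Crest.Agent.R122.GC311 Crest.Agent.R122.QDens815 Crest.Agent.R122.Q1815
open Crest.Agent.R122.SPV994 Crest.Agent.R122.MeasE416 Crest.Agent.R122.Master566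
open Crest.Agent.R122.Boost969 (LSt posAt)
open Crest.Agent.R122.Pair292 (Lab PPar PX)
open Crest.Agent.R122.PairD292
open Crest.Agent.R122.H5994 Crest.Agent.R122.H5Y814 Crest.Agent.R122.Top602

noncomputable section

namespace Crest.Agent.R122.H5Top814

variable {Φ : Space3 → ℝ} {f₀ : PhasePoint → ℝ} {f : ℝ → PhasePoint → ℝ} {β T : ℝ}

/-! ## The inputs -/

/-- The inputs of `StmtSP6` for one window. -/
structure SPInp (Φ : Space3 → ℝ) (f₀ : PhasePoint → ℝ) (Q : EPar) (M C b : ℝ) (CR CE : ℝ≥0∞)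
    (δR δE : ℕ → ℝ → ℝ≥0∞) : Prop where
  nR : Null δR
  nE : Null δE
  nY : Null (δY Φ f₀ M C b Q.tw Q.te)
  root : QRootH5 Φ f₀ Q.γ Q.ρ Q.tw Q.te CR δR
  exit : QExitH5 Φ f₀ Q.γ Q.ρ Q.tw Q.te CE δE

theorem exists_inputs (hD : KData Φ β T f₀ f) :
    ∃ hk : ℝ, 0 < hk ∧ ∃ g1 : ℝ, 0 < g1 ∧ ∃ r1 : ℝ≥0∞, r1 < 1 ∧ ∃ M C b : ℝ, 0 < b ∧
      ∃ CR : ℝ≥0∞, CR ≠ ∞ ∧ ∃ CE : ℝ≥0∞, CE ≠ ∞ ∧
      ∀ (γ : ℝ → ℝ) (ρ : ℝ≥0∞), LinePar g1 r1 T γ ρ →
        ∀ h L tw te : ℝ, 0 < te → h ≤ hk → Win h T tw te → GIV566.GIV Φ f₀ f T tw →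
          ∃ δR δE : ℕ → ℝ → ℝ≥0∞, SPInp Φ f₀ (epar γ ρ L tw te) M C b CR CE δR δE := by
  obtain ⟨h₀, kap, lam, C, b, hK, hkap⟩ := exists_kinC_kdata hD
  have hlam : 1 < lam := hK.2.2.1
  have hb : 0 < b := hK.2.2.2.2.1
  set lam₁ : ℝ := (1 + lam) / 2 with hl1
  have h1 : 1 < lam₁ := by rw [hl1]; linarith
  have h2 : lam₁ < lam := by rw [hl1]; linarith
  obtain ⟨M, hM, hMb⟩ := exists_wtA_le Φ h1 hK.2.1
  obtain ⟨g₁, hg₁, ρ₁, hρ₁, CE, hCE, hE⟩ := H5X814.qexitH5 hD hK hkap h1 h2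
  have hr : ENNReal.ofReal (lam₁ / lam) < 1 := by
    rw [← ENNReal.ofReal_one]
    exact (ENNReal.ofReal_lt_ofReal_iff one_pos).2 ((div_lt_one (by linarith)).2 h2)
  refine ⟨h₀, hK.1, min g₁ b, lt_min hg₁ hb, max ρ₁ (ENNReal.ofReal (lam₁ / lam)), max_lt hρ₁ hr,
    M, C, b, hb, cRoot M lam lam₁ C, cRoot_ne_top _ _ _ _, CE, hCE, fun γ ρ hP => ?_⟩
  obtain ⟨g0, κ, hκ, hγ, hlow, hup⟩ := hP.lin
  intro h L tw te hte hh hW hG
  have hγm : Measurable γ := hP.measurable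
  have htw : tw ∈ Icc 0 T := ⟨hW.nonneg, hW.le.trans hW.le_T⟩
  have X : Ctx Φ β T f₀ f te tw := Ctx.of_kdata hD htw hG hte
  have hteh : te ≤ tw + h₀ := hW.short.trans (by linarith)
  have hub : ∀ τ ∈ Ioc 0 te, γ τ ≤ min g₁ b := by
    intro τ hτ
    rw [hγ]
    have h2 := mul_pos hκ hτ.1
    show g0 - κ * τ ≤ _
    linarith
  obtain ⟨δR, hδR, hR⟩ := qroot X hK hkap hteh le_rfl hγm
    (fun u hu => (hub u hu).trans (min_le_right _ _)) h1 h2.le hMb
    ((le_max_right _ _).trans hP.lo)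
  obtain ⟨δE, hδE, hE'⟩ := hE γ ρ ((le_max_left _ _).trans hP.lo) tw htw hG te hte hteh
    (fun u hu => (hub u hu).trans (min_le_left _ _))
  have hnY := null_δY X hK hkap hteh le_rfl h1 h2.le hMb
  exact ⟨δR, δE, ⟨hδR, hδE, hnY, hR, hE'⟩⟩

/-! ## The constant -/

/-- coefficient of `r` -/
def cYr (Cl CQ cY : ℝ≥0∞) : ℝ≥0∞ :=
  (Omega969.sphM univ * (volume (Metric.ball (0 : Space3) 1) * 2)) * (2 * Cl) * CQ + cY

/-- coefficient of `1 / L` -/
def cLr (r T : ℝ) (CQ : ℝ≥0∞) : ℝ≥0∞ := 2 * (k6 r T * CQ)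

theorem Csp_le {r te L : ℝ} {Cl Cl' CQ CQ' cY cY' : ℝ≥0∞} (hte : te ≤ T) (h1 : Cl ≤ Cl')
    (h2 : CQ ≤ CQ') (h3 : cY ≤ cY') :
    Csp r te L Cl CQ cY ≤ cYr Cl' CQ' cY' * ENNReal.ofReal r +
      cLr r T CQ' * ENNReal.ofReal L⁻¹ := by
  have h6 : k6 r te ≤ k6 r T := by
    unfold k6
    gcongr
  unfold Csp
  calc (k6 r te * ENNReal.ofReal (1 / L) + k7 r Cl) * CQ +
        k6 r te * ENNReal.ofReal (1 / L) * CQ + cY * ENNReal.ofReal r
      ≤ (k6 r T * ENNReal.ofReal (1 / L) + k7 r Cl') * CQ' +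
        k6 r T * ENNReal.ofReal (1 / L) * CQ' + cY' * ENNReal.ofReal r := by
        unfold k7
        gcongr
    _ = _ := by
        rw [one_div]
        unfold cYr cLr k7
        ring

theorem cV_ne_top {b : ℝ} (hb : 0 < b) : cV b ≠ ∞ := by
  have h1 : gV b ≤ QExit814.cA (b / 2) * ∫⁻ v : Space3, wG (b / 2) v := by
    unfold gV
    rw [← lintegral_const_mul _ (measurable_wG _)]
    refine lintegral_mono fun v => ?_
    rw [mul_comm]
    have h2 := QExit814.one_add_wG_le (δ := b / 2) (by positivity) b v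
    rwa [show b - b / 2 = b / 2 by ring] at h2
  have h2 : ∫⁻ v : Space3, wG (b / 2) v ≠ ∞ :=
    (QExit814.lintegral_wG_lt_top (by positivity)).ne
  unfold cV
  exact ENNReal.mul_ne_top (ne_top_of_le_ne_top (ENNReal.mul_ne_top (QExit814.cA_ne_top _) h2) h1)
    measure_ball_lt_top.ne

theorem cYm_mono {M C b te : ℝ} (hte : te ≤ T) : cYm M C b te ≤ cYm M C b T := by
  unfold cYm
  gcongr

theorem cYm_ne_top {M C b : ℝ} (hb : 0 < b) : cYm M C b T ≠ ∞ := by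
  unfold cYm
  have h1 : cV b ≠ ∞ := cV_ne_top hb
  have h2 : volume (Metric.ball (0 : Space3) 1) ≠ ∞ := measure_ball_lt_top.ne
  have h3 : (2 : ℝ≥0∞) * ENNReal.ofReal M ≠ ∞ :=
    ENNReal.mul_ne_top (by norm_num) ENNReal.ofReal_ne_top
  have h4 : (2 : ℝ≥0∞) * (1 + ENNReal.ofReal T) ≠ ∞ :=
    ENNReal.mul_ne_top (by norm_num) (by finiteness)
  exact ENNReal.mul_ne_top (ENNReal.mul_ne_top (ENNReal.mul_ne_top h3 ENNReal.ofReal_ne_top) h1)
    (ENNReal.mul_ne_top h2 h4)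

theorem cYr_ne_top {Cl CQ cY : ℝ≥0∞} (h1 : Cl ≠ ∞) (h2 : CQ ≠ ∞) (h3 : cY ≠ ∞) :
    cYr Cl CQ cY ≠ ∞ := by
  unfold cYr
  have h4 : volume (Metric.ball (0 : Space3) 1) ≠ ∞ := measure_ball_lt_top.ne
  exact ENNReal.add_ne_top.2 ⟨ENNReal.mul_ne_top (ENNReal.mul_ne_top (ENNReal.mul_ne_top
    (measure_ne_top _ _) (ENNReal.mul_ne_top h4 (by norm_num)))
    (ENNReal.mul_ne_top (by norm_num) h1)) h2, h3⟩

theorem cLr_ne_top {r : ℝ} {CQ : ℝ≥0∞} (h : CQ ≠ ∞) : cLr r T CQ ≠ ∞ := by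
  unfold cLr
  exact ENNReal.mul_ne_top (by norm_num) (ENNReal.mul_ne_top k6_ne_top h)

theorem cline_mono {ρ : ℝ≥0∞} {g te : ℝ} (h : te ≤ T) :
    RedFlux6.Cline ρ g te ≤ RedFlux6.Cline ρ g T := by
  unfold RedFlux6.Cline
  gcongr

/-! ## The window form -/

/-- The error terms of SP-A, SP-B are null. -/
structure NullAB (Φ : Space3 → ℝ) (f₀ : PhasePoint → ℝ) (Q : EPar) (T' : ℝ) : Prop where
  /-- SP-A -/
  a : Null fun K ε => InEq2.TS Φ f₀ ε Q.te (errAc Φ Q T' K ε)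
  /-- SP-B -/
  b : Null fun K ε => errB Φ f₀ ε K Q

theorem SP6Body.mono {Q : EPar} {T' r : ℝ} {PP : ℕ → PPar} {tO tY : ℕ → ℝ → SF2}
    {C C' : ℝ≥0∞} (h : SP6Body Φ f₀ Q T' r PP tO tY C) (hC : C ≤ C') :
    SP6Body Φ f₀ Q T' r PP tO tY C' := by
  obtain ⟨δ, hδ, h⟩ := h
  refine ⟨δ, hδ, fun K ε hε Ξ ν c hν hs => (h K ε hε Ξ ν c hν hs).trans ?_⟩
  gcongr

/-- no link event in an empty window -/
theorem sp6Body_zero (hf : Measurable f₀) {Q : EPar} (hte : Q.te ≤ 0) {T' r : ℝ}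
    (hT : Q.te ≤ T') {PP : ℕ → PPar} {C : ℝ≥0∞} :
    SP6Body Φ f₀ Q T' r PP (tOc Φ Q T') (tYc Φ Q T') C := by
  have h0 : ∀ P (z : PhasePoint × Par P) (ε : ℝ), LinkS ε Q.te P z = ∅ := by
    intro P z ε
    refine eq_empty_of_forall_notMem fun p hp => ?_
    have h1 := hp.2.1
    have h2 := hp.2.2.2.2
    linarith
  refine ⟨fun _ _ => 0, Null.zero, fun K ε hε Ξ ν c hν _ => ?_⟩
  refine (H5OS814.OS2_le_link hf hT (K := K) (F := fun P w z θ =>
    if r ≤ age ε z θ then tOc Φ Q T' K ε P z w.1 w.2 θ else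
      tYc Φ Q T' K ε P z w.1 w.2 θ) fun P z m w θ => ?_).trans ?_
  · by_cases h : Tree674.Sep Φ ε P T' z.1 z.2 ∧ P.leaves ≤ K
    · rw [if_pos h]
    · have h1 : ¬ ((Valid Φ ε P T' z.1.2 z.2 ∧ Tree674.Sep Φ ε P T' z.1 z.2) ∧ P.leaves ≤ K) :=
        fun hc => h ⟨hc.1.2, hc.2⟩
      unfold tOc tYc tO6 tY6
      rw [if_neg h1, if_neg h1]
      split_ifs <;> exact bot_le
  · simp only [h0, Measure.restrict_empty, lintegral_zero_measure, lintegral_zero,
      Finset.sum_const_zero, mul_zero]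
    exact bot_le

/-- **The spread terms for all windows.** -/
theorem sp6_win (hD : KData Φ β T f₀ f) :
    ∃ hk : ℝ, 0 < hk ∧ ∃ g1 : ℝ, 0 < g1 ∧ ∃ r1 : ℝ≥0∞, r1 < 1 ∧
      ∀ (γ : ℝ → ℝ) (ρ : ℝ≥0∞), LinePar g1 r1 T γ ρ →
        ∃ CY : ℝ≥0∞, CY ≠ ∞ ∧ ∀ r : ℝ, 0 < r → ∃ CL : ℝ≥0∞, CL ≠ ∞ ∧
        ∀ h L tw te : ℝ, h ≤ hk → 1 ≤ L → Win h T tw te → GIV566.GIV Φ f₀ f T tw →
        ∀ T' : ℝ, te ≤ T' → ∀ PP : ℕ → PPar, PPOk (epar γ ρ L tw te) PP →
        NullAB Φ f₀ (epar γ ρ L tw te) T' →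
        SP6Body Φ f₀ (epar γ ρ L tw te) T' r PP (tOc Φ (epar γ ρ L tw te) T')
          (tYc Φ (epar γ ρ L tw te) T') (CY * ENNReal.ofReal r + CL * ENNReal.ofReal L⁻¹) := by
  obtain ⟨hk, hk0, g1, hg1, r1, hr1, M, C, b, hb, CR, hCR, CE, hCE, H⟩ := exists_inputs hD
  have hf := hD.contDiff.continuous.measurable
  refine ⟨hk, hk0, g1, hg1, r1, hr1, fun γ ρ hP => ?_⟩
  obtain ⟨g0, κ, hκ, hγ, hlow, hup⟩ := hP.lin
  have hCl := RedFlux6.Cline_ne_top hP.hi hlow T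
  have hCQ : CR + ENNReal.ofReal T * CE ≠ ∞ :=
    ENNReal.add_ne_top.2 ⟨hCR, ENNReal.mul_ne_top ENNReal.ofReal_ne_top hCE⟩
  refine ⟨cYr (RedFlux6.Cline ρ (g0 - κ * T) T) (CR + ENNReal.ofReal T * CE) (cYm M C b T),
    cYr_ne_top hCl hCQ (cYm_ne_top hb), fun r hr => ⟨cLr r T (CR + ENNReal.ofReal T * CE),
    cLr_ne_top hCQ, fun h L tw te hh hL hW hG T' hT' PP hPP hN => ?_⟩⟩
  rcases le_or_gt te 0 with h0 | h0
  · exact sp6Body_zero hf h0 hT'
  obtain ⟨δR, δE, hI⟩ := H γ ρ hP h L tw te h0 hh hW hG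
  have hlb : ∀ τ ∈ Ioc 0 te, g0 - κ * T ≤ γ τ := by
    intro τ hτ
    rw [hγ]
    have h2 := mul_le_mul_of_nonneg_left (hτ.2.trans hW.le_T) hκ.le
    show g0 - κ * T ≤ g0 - κ * τ
    linarith
  have h1 := sp6Body_cut (Q := epar γ ρ L tw te) hD.adm hf (show (0 : ℝ) < L by linarith) hT'
    hP.measurable hlow hlb hP.hi hW.nonneg hW.le hr hPP hCR hCE hI.nR hI.nE hI.root hI.exit
    hI.nY hN.a hN.b
  refine SP6Body.mono h1 (Csp_le hW.le_T (cline_mono hW.le_T) ?_ (cYm_mono hW.le_T))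
  show CR + ENNReal.ofReal te * CE ≤ _
  gcongr
  exact hW.le_T

/-- **The spread terms in the form of the closing.** -/
theorem sp6In (hD : KData Φ β T f₀ f) : InHL T fun _h₀ γ ρ => ∃ CY : ℝ≥0∞, CY ≠ ∞ ∧
    ∀ r : ℝ, 0 < r → ∃ o : ℝ → ℝ → ℝ≥0∞, Vanish o ∧ EvW T fun h L tw te =>
      IH Φ f₀ f T γ ρ tw → ∀ T' : ℝ, te ≤ T' → ∀ PP : ℕ → PPar,
        PPOk (epar γ ρ L tw te) PP → NullAB Φ f₀ (epar γ ρ L tw te) T' →
        SP6Body Φ f₀ (epar γ ρ L tw te) T' r PP (tOc Φ (epar γ ρ L tw te) T')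
          (tYc Φ (epar γ ρ L tw te) T') (CY * ENNReal.ofReal r + o h L) := by
  obtain ⟨hk, hk0, g1, hg1, r1, hr1, H⟩ := sp6_win hD
  refine ⟨1, one_pos, g1, hg1, r1, hr1, fun h₀ _ _ γ ρ hP => ?_⟩
  obtain ⟨CY, hCY, H⟩ := H γ ρ hP
  refine ⟨CY, hCY, fun r hr => ?_⟩
  obtain ⟨CL, hCL, H⟩ := H r hr
  refine ⟨fun _ L => CL * ENNReal.ofReal L⁻¹, Vanish.inv_L.const_mul hCL, hk, hk0, 1,
    fun h L tw te _ hh hL _ hW hI T' hT' PP hPP hN => ?_⟩
  exact H h L tw te hh hL hW hI.giv T' hT' PP hPP hN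

/-! ## helper292's `StmtSP6` -/

theorem measSF2_tOc (hΦ : AdmissiblePotential Φ) {Q : EPar} {T' : ℝ} {K : ℕ} {ε : ℝ}
    (hε : 0 < ε) : MeasSF2 (tOc Φ Q T' K ε) :=
  measSF2_tO6 hΦ hε (fun P => measW_AT hΦ ε P) (fun P => measurableSet_Gt hΦ hε Q.te T' P)

theorem measSF2_tYc (hΦ : AdmissiblePotential Φ) {Q : EPar} {T' : ℝ} {K : ℕ} {ε : ℝ}
    (hε : 0 < ε) : MeasSF2 (tYc Φ Q T' K ε) :=
  measSF2_tY6 hΦ hε (fun P => measW_AT hΦ ε P) (fun P => measurableSet_Gt hΦ hε Q.te T' P)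

theorem stmtSP6_of_body (hΦ : AdmissiblePotential Φ) {Q : EPar} {T' r : ℝ} {PP : ℕ → PPar}
    {C : ℝ≥0∞} (h : PPOk Q PP → SP6Body Φ f₀ Q T' r PP (tOc Φ Q T') (tYc Φ Q T') C) :
    StmtSP6 Φ f₀ Q T' r PP (tOc Φ Q T') (tYc Φ Q T') C := by
  intro hPP
  refine ⟨fun K ε hε => ⟨measSF2_tOc hΦ hε, measSF2_tYc hΦ hε⟩, ?_⟩
  obtain ⟨δ, hδ, h⟩ := h hPP
  exact ⟨δ, hδ, fun K ε hε _ Ξ ν c hν hs =>
    h K ε hε Ξ ν c hν (hs.mono fun θ hθ => hθ.2)⟩

/-- **`StmtSP6` for all windows.** -/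
theorem stmtSP6In (hD : KData Φ β T f₀ f) : InHL T fun _h₀ γ ρ => ∃ CY : ℝ≥0∞, CY ≠ ∞ ∧
    ∀ r : ℝ, 0 < r → ∃ o : ℝ → ℝ → ℝ≥0∞, Vanish o ∧ EvW T fun h L tw te =>
      IH Φ f₀ f T γ ρ tw → ∀ T' : ℝ, te ≤ T' → ∀ PP : ℕ → PPar,
        NullAB Φ f₀ (epar γ ρ L tw te) T' →
        StmtSP6 Φ f₀ (epar γ ρ L tw te) T' r PP (tOc Φ (epar γ ρ L tw te) T')
          (tYc Φ (epar γ ρ L tw te) T') (CY * ENNReal.ofReal r + o h L) :=
  (sp6In hD).mono fun _ _ _ _ _ h => by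
    obtain ⟨CY, hCY, h⟩ := h
    refine ⟨CY, hCY, fun r hr => ?_⟩
    obtain ⟨o, ho, h⟩ := h r hr
    exact ⟨o, ho, h.mono fun _ _ _ _ _ _ _ hq hI T' hT' PP hN =>
      stmtSP6_of_body hD.adm fun hPP => hq hI T' hT' PP hPP hN⟩

end Crest.Agent.R122.H5Top814

end
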