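import Crest.Agent.R122.Link6Slots_796
import Crest.Agent.R122.EncSel_741
import Crest.Agent.R122.BirthOut_664

/-!
# Row 122, LINK6 (helper796): the null facts asked from the gateway, with all guards

* `Gx6 R` : the structures of `StmtPt6` on which no gas particle is near the births of `d`, `e` and of
  the outputs (helper664's `BW6`) and helper741's encounter event `EncP` holds with radius `R` (passage,
  `τ ≤ R`, displacement, horizon, gas, members, `d` away from the encounter, no birth of `d` at the exit).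
* `Slots6G` : the null facts, every event with the guard `Gx6 R`, `R` fixed; `Slots6P.slots6G`.
* `FG6 R` : the gateway functional; `bd6_le_FG6` : `bd6 ≤ FG6 R + (encM R + bw)` on `Gd6`.
* `link6G` : from `Slots6G` for every tree and shape: one measurable `bd ≥ bd6` on `Gd6` and
  `NullFacts Φ f₀ Q T' bd (ν j)` for every `j`.
-/

set_option autoImplicit false
set_option linter.unusedSectionVars false

open MeasureTheory Set Filter Topology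
open scoped Classical ENNReal
open Crest.AnalysisR.Kinetic
open Crest.Agent.R122.GC311 Crest.Agent.R122.EDefs602
open Crest.Agent.R122.Kin796 Crest.Agent.R122.Kin796.CTree Crest.Agent.R122.Tree674
open Crest.Agent.R122.TreeLines335 Crest.Agent.R122.MWFam255 Crest.Agent.R122.E6Hyp879
open Crest.Agent.R122.Gate424 Crest.Agent.R122.Gate973
open Crest.Agent.R122.Boost969 (LSt)
open Crest.Agent.R122.Pair292 (Lab PPar PX)
open Crest.Agent.R122.PairD292 Crest.Agent.R122.Pt6811 Crest.Agent.R122.Third741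
open Crest.Agent.R122.PairRep581 Crest.Agent.R122.GateOS2495
open Crest.Agent.R122.OS2Calc495
open Crest.Agent.R122.BirthOut664 (BW6)

noncomputable section

namespace Crest.Agent.R122.Link6796

/-- **The structures with all guards**, `R` = radius of the encounter. -/
structure Gx6 (Φ : Space3 → ℝ) (ε R : ℝ) (K : ℕ) (Q : EPar) (T' : ℝ) (P : CTree)
    (z : PhasePoint × Par P) {m : ℕ} (w : Config m) (θ : Lab × LSt) : Prop where
  gd : Gd6 Φ ε K Q T' P z w θ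
  nb : ¬ BW6 Φ ε P z w θ
  enc : EncP Φ ε R Q.te P z w (dL θ) (eL θ)

variable {Φ : Space3 → ℝ} {f₀ : PhasePoint → ℝ} {ε R T' : ℝ} {K : ℕ} {Q : EPar} {σ : ℝ → ℝ}
  {P : CTree} {z : PhasePoint × Par P} {m : ℕ} {w : Config m} {θ : Lab × LSt}

/-- The lines of the tree and `d` are not touched before `cT + ε R`. -/
structure Unt6 (Φ : Space3 → ℝ) (ε R : ℝ) (K : ℕ) (te : ℝ) (P : CTree)
    (z : PhasePoint × Par P) {m : ℕ} (w : Config m) (d e : ML) : Prop where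
  unt : ∀ j, OneC285.cT ε z e + ε * R < (MW.cfg w).thetaL Φ ε K te (lineML Φ ε P z j)
  untd : OneC285.cT ε z e + ε * R < (MW.cfg w).thetaL Φ ε K te d

/-- Event (S2). -/
def evNearG (Φ : Space3 → ℝ) (Q : EPar) (T' R : ℝ) (K : ℕ) (ε : ℝ) (P : CTree)
    (z : PhasePoint × Par P) (m : ℕ) (w : Config m) (θ : Lab × LSt) : Prop :=
  Gx6 Φ ε R K Q T' P z w θ ∧ Hyp6 Φ ε K Q.te P z w θ ∧
    Late6 Φ ε R K Q.te P z w (dL θ) (eL θ) ∧ ¬ Near6 Φ ε R K P z w (dL θ) (eL θ)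

/-- Event (S1). -/
def evHypG (Φ : Space3 → ℝ) (Q : EPar) (T' R : ℝ) (K : ℕ) (ε : ℝ) (P : CTree)
    (z : PhasePoint × Par P) (m : ℕ) (w : Config m) (θ : Lab × LSt) : Prop :=
  Gx6 Φ ε R K Q T' P z w θ ∧ ¬ Hyp6 Φ ε K Q.te P z w θ

/-- Functional (S4). -/
def fLkG (Φ : Space3 → ℝ) (Q : EPar) (T' R : ℝ) (K : ℕ) (ε : ℝ) : SF2 := fun P z m w θ =>
  if Gx6 Φ ε R K Q T' P z w θ ∧ Hyp6 Φ ε K Q.te P z w θ then min 1 (lkm Φ Q K ε P z m w θ) else 0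

/-- **The gateway functional with all guards.** -/
def FG6 (Φ : Space3 → ℝ) (Q : EPar) (T' R : ℝ) (K : ℕ) (ε : ℝ) : SF2 := fun P z m w θ =>
  ind6 (evHypG Φ Q T' R K ε) P z m w θ + ind6 (evNearG Φ Q T' R K ε) P z m w θ +
    fLkG Φ Q T' R K ε P z m w θ

/-- **The error term of inequality 3**, every radius `R` with `ε R ≤ σ ε`. `bw` : majorant of the
indicator of `BW6`. -/
theorem bd6_le_FG6 (hΦ : AdmissiblePotential Φ) (hε : 0 < ε) (hR : 0 ≤ R) (hs : ε * R ≤ σ ε)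
    (hg : Gd6 Φ ε K Q T' P z w θ) {bw : ℝ≥0∞} (hbw : BW6 Φ ε P z w θ → 1 ≤ bw) :
    bd6 Φ Q σ K ε P z m w θ ≤
      FG6 Φ Q T' R K ε P z m w θ + (bw + encM Φ R K Q.te ε P z m w θ) := by
  have hle1 : bd6 Φ Q σ K ε P z m w θ ≤ 1 := by
    unfold bd6
    split_ifs
    · exact min_le_left _ _
    · exact le_rfl
  have hPK : P.leaves ≤ K := (Nat.le_add_left _ _).trans hg.small
  by_cases hb : BW6 Φ ε P z w θ
  · exact hle1.trans ((hbw hb).trans (le_self_add.trans le_add_self))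
  by_cases he : EncP Φ ε R Q.te P z w (dL θ) (eL θ)
  swap
  · exact hle1.trans ((one_le_encM hΦ hε hR hg.real.exw hg.real.ct hg.real.okL hPK he).trans
      (le_add_self.trans le_add_self))
  have hx : Gx6 Φ ε R K Q T' P z w θ := ⟨hg, hb, he⟩
  refine le_trans ?_ le_self_add
  by_cases hH : Hyp6 Φ ε K Q.te P z w θ
  swap
  · refine hle1.trans ?_
    have h1 : ind6 (evHypG Φ Q T' R K ε) P z m w θ = 1 := if_pos ⟨hx, hH⟩
    unfold FG6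
    rw [h1]
    exact le_self_add.trans le_self_add
  by_cases hN : evNearG Φ Q T' R K ε P z m w θ
  · refine hle1.trans ?_
    have h1 : ind6 (evNearG Φ Q T' R K ε) P z m w θ = 1 := if_pos hN
    unfold FG6
    rw [h1]
    exact le_add_self.trans le_self_add
  have hev : Ev6 Φ ε (σ ε) K Q.te P z w θ := by
    refine ⟨hH, R, hR, hs, fun hor hbad => ?_⟩
    obtain ⟨hL, h1 | h1⟩ := encBad6_split hor hbad
    · exact hN ⟨hx, hH, hL, h1⟩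
    · exact h1 (EncP.encM6 he)
  have h2 : bd6 Φ Q σ K ε P z m w θ = fLkG Φ Q T' R K ε P z m w θ := by
    unfold bd6 fLkG
    rw [if_pos hev, if_pos ⟨hx, hH⟩]
  rw [h2]
  exact le_add_self

/-- **The null facts asked from the gateway, all guards**, for one tree and one shape. -/
structure Slots6G (Φ : Space3 → ℝ) (f₀ : PhasePoint → ℝ) (Q : EPar) (T' : ℝ) (K : ℕ) (P : CTree)
    (S : Shp) : Prop where
  /-- (S1a) worlds -/
  ok : ∀ R : ℝ, 0 ≤ R → GNull f₀ (osP Φ f₀ Q.te T' K P S) (fun ε _ _ q w =>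
    Gx6 Φ ε R K Q T' P q.1 w (S.th ε q.2) ∧ ¬ Ok6 Φ ε P q.1 w (S.th ε q.2))
  /-- (S1b) links, base `w` -/
  nl0 : ∀ R : ℝ, 0 ≤ R → GNull f₀ (osP Φ f₀ Q.te T' K P S) (fun ε _ _ q w =>
    Gx6 Φ ε R K Q T' P q.1 w (S.th ε q.2) ∧ Ok6 Φ ε P q.1 w (S.th ε q.2) ∧
      ¬ Nl0 Φ ε K Q.te P q.1 w (S.th ε q.2))
  /-- (S1c) links of the tree, base `w + d` -/
  nl1 : ∀ R : ℝ, 0 ≤ R → GNull f₀ (osP Φ f₀ Q.te T' K P S) (fun ε _ _ q w =>
    Gx6 Φ ε R K Q T' P q.1 w (S.th ε q.2) ∧ Ok6 Φ ε P q.1 w (S.th ε q.2) ∧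
      Nl0 Φ ε K Q.te P q.1 w (S.th ε q.2) ∧ ¬ Nl1 Φ ε K Q.te P q.1 w (S.th ε q.2))
  /-- (S1d) links of the outputs, base `w + d` -/
  nl2 : ∀ R : ℝ, 0 ≤ R → GNull f₀ (osP Φ f₀ Q.te T' K P S) (fun ε _ _ q w =>
    Gx6 Φ ε R K Q T' P q.1 w (S.th ε q.2) ∧ Ok6 Φ ε P q.1 w (S.th ε q.2) ∧
      Nl0 Φ ε K Q.te P q.1 w (S.th ε q.2) ∧ Nl1 Φ ε K Q.te P q.1 w (S.th ε q.2) ∧
      ¬ Nl2 Φ ε K Q.te P q.1 w (S.th ε q.2))
  /-- (S2) near the root line -/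
  near : ∀ R : ℝ, 0 ≤ R → GNull f₀ (osP Φ f₀ Q.te T' K P S) (fun ε _ n q w =>
    evNearG Φ Q T' R K ε P q.1 n w (S.th ε q.2))
  /-- (S4) the test lines -/
  lk : ∀ R : ℝ, 0 ≤ R → FNull f₀ (osP Φ f₀ Q.te T' K P S)
    (fun ε _ n q w => fLkG Φ Q T' R K ε P q.1 n w (S.th ε q.2))


theorem Slots6G.gNull_hyp {S : Shp} (hf : Measurable f₀) (h : Slots6G Φ f₀ Q T' K P S)
    (hR : 0 ≤ R) : GNull f₀ (osP Φ f₀ Q.te T' K P S)
      (fun ε _ n q w => evHypG Φ Q T' R K ε P q.1 n w (S.th ε q.2)) := by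
  refine ((((h.ok R hR).or hf (h.nl0 R hR)).or hf (h.nl1 R hR)).or hf (h.nl2 R hR)).mono'
    fun ε _ n q w hE => ?_
  obtain ⟨hg, hH⟩ := hE
  by_cases h0 : Ok6 Φ ε P q.1 w (S.th ε q.2)
  swap
  · exact Or.inl (Or.inl (Or.inl ⟨hg, h0⟩))
  by_cases h1 : Nl0 Φ ε K Q.te P q.1 w (S.th ε q.2)
  swap
  · exact Or.inl (Or.inl (Or.inr ⟨hg, h0, h1⟩))
  by_cases h2 : Nl1 Φ ε K Q.te P q.1 w (S.th ε q.2)
  swap
  · exact Or.inl (Or.inr ⟨hg, h0, h1, h2⟩)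
  by_cases h3 : Nl2 Φ ε K Q.te P q.1 w (S.th ε q.2)
  swap
  · exact Or.inr ⟨hg, h0, h1, h2, h3⟩
  exact absurd ⟨h0.ok₁, h0.ok₂, h1, h2, h3⟩ hH

theorem Slots6G.fNull {S : Shp} (hf : Measurable f₀) (h : Slots6G Φ f₀ Q T' K P S) (hR : 0 ≤ R) :
    FNull f₀ (osP Φ f₀ Q.te T' K P S) (pullS Φ Q.te T' K (FG6 Φ Q T' R K) P S) := by
  have h1 := GateOS434.FNull.add hf (GateOS434.FNull.add hf (FNull.ofE (h.gNull_hyp hf hR))
    (FNull.ofE (h.near R hR))) (h.lk R hR)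
  refine h1.mono ⟨1, one_pos, fun ε _ _ _ n q w _ => ?_⟩
  show (if Valid Φ ε P T' q.1.1.2 q.1.2 ∧ q ∈ ctOkS Φ ε K Q.te P S then
    FG6 Φ Q T' R K ε P q.1 n w (S.th ε q.2) else 0) ≤ FG6 Φ Q T' R K ε P q.1 n w (S.th ε q.2)
  by_cases hc : Valid Φ ε P T' q.1.1.2 q.1.2 ∧ q ∈ ctOkS Φ ε K Q.te P S
  · rw [if_pos hc]
  · rw [if_neg hc]
    exact bot_le

/-- **LINK6, all guards.** `bw` : helper664's measurable majorant of the indicator of `BW6`. -/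
theorem link6G (hΦ : AdmissiblePotential Φ) {A : Space3 → ℝ≥0∞} {C b g0 : ℝ}
    (hF₀ : FOk f₀ A C b) {Q : EPar} (hQ : QOk Q g0) {PP : ℕ → PPar} (hP : PPOk Q PP) {T' : ℝ}
    {J : Type} [Countable J] {ι : J → ℕ → Type} [∀ j K, Fintype (ι j K)]
    {ν Ξ : J → ℕ → ℝ → Measure (Lab × LSt)} {S : ∀ j K, ι j K → Shp}
    (hR : ∀ j K, Rep (ν j K) (S j K)) (hB : ∀ j K s, StandardBorelSpace (S j K s).Θ)
    (hν : ∀ j K ε, 0 < ε → SFinite (ν j K ε)) {c : J → ℝ≥0∞} (hc : ∀ j, c j ≠ ∞)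
    {ε₁ : J → ℝ} (hε₁ : ∀ j, 0 < ε₁ j)
    (hPX : ∀ j K ε, 0 < ε → ε < ε₁ j → PX (PP K) (Ξ j K ε) (ν j K ε) (c j))
    {bw : ℕ → ℝ → SF2} (hbm : ∀ K ε, 0 < ε → MeasSF2 (bw K ε))
    (hbw : ∀ (K : ℕ) (ε : ℝ), 0 < ε → ∀ (P : CTree) (z : PhasePoint × Par P) (m : ℕ)
      (w : Config m) (θ : Lab × LSt), w ∈ PairExcluded ε m →
      (z, θ.2) ∈ OneC423.ctSet Φ ε Q.te P → OkL K θ → P.leaves ≤ K → BW6 Φ ε P z w θ →
      1 ≤ bw K ε P z m w θ)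
    {δ : ℕ → ℝ → ℝ≥0∞} (hδ : Null δ) (hbn : ∀ K ε, 0 < ε → ∀ (Ξ ν : Measure (Lab × LSt))
      (c : ℝ≥0∞), c ≠ ∞ → PX (PP K) Ξ ν c → OS2 Φ f₀ ε Q.te T' ν (bw K ε) ≤ c * δ K ε)
    (hS : ∀ j K P s, P.leaves ≤ K → Slots6G Φ f₀ Q T' K P (S j K s))
    {σ : ℝ → ℝ} (hσ : ∀ R : ℕ, ∃ ε₀ : ℝ, 0 < ε₀ ∧ ∀ ε, 0 < ε → ε < ε₀ → ε * R ≤ σ ε)
    (hok : ∀ j K ε, 0 < ε → OkAE Φ ε K (ν j K ε))
    (hbad : ∀ j, Null fun K ε => BAD Φ f₀ ε K Q (ν j K ε)) :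
    ∃ bd : ℕ → ℝ → SF2,
      (∀ (K : ℕ) (ε : ℝ), 0 < ε → ∀ (P : CTree) (z : PhasePoint × Par P) (m : ℕ)
        (w : Config m) (θ : Lab × LSt), Gd6 Φ ε K Q T' P z w θ →
        bd6 Φ Q σ K ε P z m w θ ≤ bd K ε P z m w θ) ∧
      ∀ j, NullFacts Φ f₀ Q T' bd (ν j) := by
  obtain ⟨bd, h1, h2⟩ := nullFacts_encB hΦ hF₀ hQ hP hR hB hν hc hε₁ hPX
    (F := fun R => FG6 Φ Q T' (R : ℝ))
    (fun R j K P s hPK => (hS j K P s hPK).fNull hF₀.meas (Nat.cast_nonneg R)) hbm hδ hbn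
    hσ hok hbad
  refine ⟨bd, fun K ε hε P z m w θ hg => ?_, h2⟩
  have hPK : P.leaves ≤ K := (Nat.le_add_left _ _).trans hg.small
  exact h1 K ε hε P hPK z m w θ hg.real.exw hg.real.valid hg.real.ct hg.real.okL _ fun R hRσ =>
    bd6_le_FG6 hΦ hε (Nat.cast_nonneg R) hRσ hg
      (hbw K ε hε P z m w θ hg.real.exw hg.real.ct hg.real.okL hPK)

end Crest.Agent.R122.Link6796

end
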