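import Mathlib
import Crest.Agent.R122.MWAlg_255
import Crest.Agent.R122.LinkU_255
import Crest.Agent.R122.EW1_879
import Crest.Agent.R122.Rebirth_45

/-!
# Families of lines inserted in a marked world (row 122, block A8)

* `Ok.relabel`: relabelling of good worlds.
* `CF Φ ε K Z A s k`: clean closure of `A` in `Z`; `link_iff`, `link_symm`, `link_comap`.
* `not_link_add`: a union is not linked to `B` if its two parts are not, and are not linked to each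
  other.
* `fam_core`: pairwise unlinked lines; links of groups reduce to pairwise links of single lines in
  the base world.
-/

set_option autoImplicit false
set_option linter.unusedSectionVars false

open MeasureTheory Set Filter Topology
open Crest.AnalysisR.Kinetic
open Crest.Agent.R122.Flow671 Crest.Agent.R122.Loc45 Crest.Agent.R122.Ins45
open Crest.Agent.R122.Inf879 Crest.Agent.R122.EDefs602 Crest.Agent.R122.CausalGen291
open Crest.Agent.R122.MWAlg255 Crest.Agent.R122.LinkU255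

namespace Crest.Agent.R122.MWFam255

noncomputable section

/-! ### Relabelling -/

section relabel

variable {ι₁ ι₂ κ ι₁' ι₂' κ' : Type} {X : Type*}
variable {C₁ : ℝ → ι₁ → ι₁ → Prop} {C₂ : ℝ → ι₂ → ι₂ → Prop}
variable {z₁ : ℝ → ι₁ → X} {z₂ : ℝ → ι₂ → X} {e₁ : κ → ι₁} {e₂ : κ → ι₂}
variable {C₁' : ℝ → ι₁' → ι₁' → Prop} {C₂' : ℝ → ι₂' → ι₂' → Prop}
variable {z₁' : ℝ → ι₁' → X} {z₂' : ℝ → ι₂' → X} {e₁' : κ' → ι₁'} {e₂' : κ' → ι₂'}
variable {a : κ' ≃ κ} {a₁ : ι₁' ≃ ι₁} {a₂ : ι₂' ≃ ι₂}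
variable {P₁ : ℝ → ι₁ → Prop} {P₂ : ℝ → ι₂ → Prop} {P₁' : ℝ → ι₁' → Prop} {P₂' : ℝ → ι₂' → Prop}

theorem cleanB_mp (h : Rel C₁ z₁ C₂ z₂ e₁ e₂ C₁' z₁' C₂' z₂' e₁' e₂' a a₁ a₂)
    (hP₁ : ∀ s j, P₁' s j ↔ P₁ s (a₁ j)) (hP₂ : ∀ s j, P₂' s j ↔ P₂ s (a₂ j)) {t₀ s : ℝ} {k : κ'}
    (hk : CleanB t₀ P₁' P₂' e₁' e₂' s k) : CleanB t₀ P₁ P₂ e₁ e₂ s (a k) := by
  intro u hu hus
  obtain ⟨h1, h2⟩ := hk u hu hus
  rw [hP₁, h.m₁] at h1
  rw [hP₂, h.m₂] at h2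
  exact ⟨h1, h2⟩

theorem cfut_mp (h : Rel C₁ z₁ C₂ z₂ e₁ e₂ C₁' z₁' C₂' z₂' e₁' e₂' a a₁ a₂)
    (hP₁ : ∀ s j, P₁' s j ↔ P₁ s (a₁ j)) (hP₂ : ∀ s j, P₂' s j ↔ P₂ s (a₂ j)) {t₀ s : ℝ} {k : κ'}
    (hk : CFut C₁' z₁' C₂' z₂' e₁' e₂' t₀ P₁' P₂' s k) :
    CFut C₁ z₁ C₂ z₂ e₁ e₂ t₀ P₁ P₂ s (a k) := by
  induction hk with
  | @init s k hz h0 =>
    refine .init ?_ h0
    rw [h.s₁, h.s₂, h.m₁, h.m₂] at hz
    exact hz
  | @new₁ s s' k j hj hc h0 hs hcl =>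
    refine .new₁ (a₁ j) (fun h' => hj (h.range₁.1 h')) ?_ h0 hs (cleanB_mp h hP₁ hP₂ hcl)
    rw [h.c₁, h.m₁] at hc
    exact hc
  | @new₂ s s' k j hj hc h0 hs hcl =>
    refine .new₂ (a₂ j) (fun h' => hj (h.range₂.1 h')) ?_ h0 hs (cleanB_mp h hP₁ hP₂ hcl)
    rw [h.c₂, h.m₂] at hc
    exact hc
  | @chain₁ s s' k l _ hc hs hcl ih =>
    refine .chain₁ ih ?_ hs (cleanB_mp h hP₁ hP₂ hcl)
    rw [h.c₁, h.m₁, h.m₁] at hc
    exact hc
  | @chain₂ s s' k l _ hc hs hcl ih =>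
    refine .chain₂ ih ?_ hs (cleanB_mp h hP₁ hP₂ hcl)
    rw [h.c₂, h.m₂, h.m₂] at hc
    exact hc

theorem cfut_iff (h : Rel C₁ z₁ C₂ z₂ e₁ e₂ C₁' z₁' C₂' z₂' e₁' e₂' a a₁ a₂)
    (hP₁ : ∀ s j, P₁' s j ↔ P₁ s (a₁ j)) (hP₂ : ∀ s j, P₂' s j ↔ P₂ s (a₂ j)) {t₀ s : ℝ}
    {k : κ'} : CFut C₁' z₁' C₂' z₂' e₁' e₂' t₀ P₁' P₂' s k ↔
      CFut C₁ z₁ C₂ z₂ e₁ e₂ t₀ P₁ P₂ s (a k) := by
  refine ⟨cfut_mp h hP₁ hP₂, fun hk => ?_⟩
  have h1 := cfut_mp h.symm (P₁' := P₁) (P₂' := P₂) (P₁ := P₁') (P₂ := P₂')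
    (fun s j => by rw [hP₁, a₁.apply_symm_apply]) (fun s j => by rw [hP₂, a₂.apply_symm_apply]) hk
  rwa [a.symm_apply_apply] at h1

end relabel

variable {Φ : Space3 → ℝ} {ε T s : ℝ} {K : ℕ} {ι κ ι' κ' μ : Type}
variable [Fintype ι] [Fintype κ] [Fintype ι'] [Fintype κ'] [Fintype μ]

/-- Relabelling of good worlds. -/
theorem Ok.relabel (hΦ : AdmissiblePotential Φ) (hε : 0 < ε) {Z : MW ι} (h : Z.Ok Φ ε)
    (e : ι' ≃ ι) : (Z.comap e).Ok Φ ε where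
  bw := by
    have h1 := h.bw.equiv e
    have h2 : (Z.comap e).path Φ ε = fun t i => Z.path Φ ε t (e i) := by
      funext t i
      exact path_comap hΦ hε Z e t i
    rw [h2]
    exact h1
  sep := by
    intro j k hjk hb
    obtain ⟨δ, hδ, h1⟩ := h.sep (e j) (e k) (e.injective.ne hjk) hb
    refine ⟨δ, hδ, fun s hs hs' => ?_⟩
    rw [path_comap hΦ hε, path_comap hΦ hε]
    exact h1 s hs hs'

theorem ok_relabel_iff (hΦ : AdmissiblePotential Φ) (hε : 0 < ε) {Z : MW ι} (e : ι' ≃ ι) :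
    (Z.comap e).Ok Φ ε ↔ Z.Ok Φ ε := by
  refine ⟨fun h => ?_, fun h => Ok.relabel hΦ hε h e⟩
  have h1 := Ok.relabel hΦ hε h e.symm
  have h2 : (Z.comap e).comap e.symm = Z := by
    unfold MW.comap
    simp
  rwa [h2] at h1

/-! ### Clean closures and links -/

/-- Clean closure of `A` in `Z` (helper291's `CFut` for `Z`, `Z + A`). -/
def CF (Φ : Space3 → ℝ) (ε : ℝ) (K : ℕ) (Z : MW ι) (A : MW κ) (s : ℝ) (k : ι) : Prop :=
  CFut (Z.C Φ ε) (Z.path Φ ε) ((Z.add A).C Φ ε) ((Z.add A).path Φ ε) id Sum.inl 0 (Z.Inf Φ ε K)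
    ((Z.add A).Inf Φ ε K) s k

/-- `A` and its clean closure, in `Z + A`. -/
def CI (Φ : Space3 → ℝ) (ε : ℝ) (K : ℕ) (Z : MW ι) (A : MW κ) (s : ℝ) (x : ι ⊕ κ) : Prop :=
  ∀ k, x = Sum.inl k → CF Φ ε K Z A s k

theorem CI.inl {Z : MW ι} {A : MW κ} {k : ι} (h : CI Φ ε K Z A s (Sum.inl k)) :
    CF Φ ε K Z A s k := h k rfl

theorem ci_inl {Z : MW ι} {A : MW κ} {k : ι} (h : CF Φ ε K Z A s k) :
    CI Φ ε K Z A s (Sum.inl k) := by
  intro k' hk'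
  rw [← Sum.inl_injective hk']
  exact h

theorem ci_inr {Z : MW ι} {A : MW κ} {x : κ} : CI Φ ε K Z A s (Sum.inr x) := by
  intro k' hk'
  cases hk'

/-- The clean link, unfolded. -/
theorem link_iff {Z : MW ι} {A : MW κ} {B : MW μ} : Z.LINK Φ ε K A B s ↔
    ∃ u ∈ Icc 0 s, (∃ k, CF Φ ε K Z A u k ∧ CF Φ ε K Z B u k) ∨
      ∃ x y, CI Φ ε K Z A u x ∧ CI Φ ε K Z B u y ∧ MW.CX Φ ε Z A B u x y := Iff.rfl

theorem cx_symm {Z : MW ι} {A : MW κ} {B : MW μ} {x : ι ⊕ κ} {y : ι ⊕ μ}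
    (h : MW.CX Φ ε Z A B s x y) : MW.CX Φ ε Z B A s y x := by
  obtain ⟨h1, h2, h3, h4⟩ := h
  refine ⟨h2, h1, ?_, by rwa [dist_comm]⟩
  rcases h3 with h3 | h3 | h3
  · left
    rcases x with x | x <;> rcases y with y | y
    · have h5 : x = y := Sum.inl_injective (Sum.inl_injective h3)
      rw [h5]
      rfl
    · cases h3
    · cases h3
    · cases h3
  · exact Or.inr (Or.inr h3)
  · exact Or.inr (Or.inl h3)

theorem link_symm {Z : MW ι} {A : MW κ} {B : MW μ} (h : Z.LINK Φ ε K A B s) :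
    Z.LINK Φ ε K B A s := by
  rw [link_iff] at h ⊢
  obtain ⟨u, hu, ⟨k, hk, hk'⟩ | ⟨x, y, hx, hy, hc⟩⟩ := h
  · exact ⟨u, hu, Or.inl ⟨k, hk', hk⟩⟩
  · exact ⟨u, hu, Or.inr ⟨y, x, hy, hx, cx_symm hc⟩⟩

theorem link_comm {Z : MW ι} {A : MW κ} {B : MW μ} : Z.LINK Φ ε K A B s ↔ Z.LINK Φ ε K B A s :=
  ⟨link_symm, link_symm⟩

theorem CF.fut {Z : MW ι} {A : MW κ} {k : ι} (h : CF Φ ε K Z A s k) : Z.Fut Φ ε A s k :=
  CFut.fut h

theorem rel_comap_right (hΦ : AdmissiblePotential Φ) (hε : 0 < ε) (Z : MW ι) (A : MW κ)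
    (f : κ' ≃ κ) :
    Rel (Z.C Φ ε) (Z.path Φ ε) ((Z.add A).C Φ ε) ((Z.add A).path Φ ε) id Sum.inl
      (Z.C Φ ε) (Z.path Φ ε) ((Z.add (A.comap f)).C Φ ε)
      ((Z.add (A.comap f)).path Φ ε) id Sum.inl (Equiv.refl ι) (Equiv.refl ι)
      (Equiv.sumCongr (Equiv.refl ι) f) :=
  rel_comap hΦ hε Z A (Equiv.refl ι) f

theorem add_comap_right (Z : MW ι) (A : MW κ) (f : κ' ≃ κ) :
    Z.add (A.comap f) = (Z.add A).comap (Equiv.sumCongr (Equiv.refl ι) f) :=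
  add_comap Z A (Equiv.refl ι) f

theorem cf_comap (hΦ : AdmissiblePotential Φ) (hε : 0 < ε) (Z : MW ι) (A : MW κ) (f : κ' ≃ κ)
    (s : ℝ) (k : ι) : CF Φ ε K Z (A.comap f) s k ↔ CF Φ ε K Z A s k :=
  cfut_iff (rel_comap_right hΦ hε Z A f) (P₁ := Z.Inf Φ ε K) (P₁' := Z.Inf Φ ε K)
    (P₂ := (Z.add A).Inf Φ ε K) (P₂' := (Z.add (A.comap f)).Inf Φ ε K) (fun _ _ => Iff.rfl)
    fun s j => by
      rw [add_comap_right]
      exact Inf_comap hΦ hε K (Z.add A) (Equiv.sumCongr (Equiv.refl ι) f) s j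

theorem link_comap_mp (hΦ : AdmissiblePotential Φ) (hε : 0 < ε) {Z : MW ι} {A : MW κ}
    {B : MW μ} (f : κ' ≃ κ) (h : Z.LINK Φ ε K (A.comap f) B s) : Z.LINK Φ ε K A B s := by
  rw [link_iff] at h ⊢
  obtain ⟨u, hu, ⟨k, hk, hk'⟩ | ⟨x, y, hx, hy, hc⟩⟩ := h
  · exact ⟨u, hu, Or.inl ⟨k, (cf_comap hΦ hε Z A f u k).1 hk, hk'⟩⟩
  · refine ⟨u, hu, Or.inr ⟨Equiv.sumCongr (Equiv.refl ι) f x, y, ?_, hy, ?_⟩⟩
    · rcases x with x | x
      · exact ci_inl ((cf_comap hΦ hε Z A f u x).1 hx.inl)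
      · exact ci_inr
    · obtain ⟨h1, h2, h3, h4⟩ := hc
      have hp : (Z.add (A.comap f)).path Φ ε u x =
          (Z.add A).path Φ ε u (Equiv.sumCongr (Equiv.refl ι) f x) := by
        rw [add_comap_right]
        exact path_comap hΦ hε (Z.add A) _ u x
      have hb : (Z.add (A.comap f)).b x = (Z.add A).b (Equiv.sumCongr (Equiv.refl ι) f x) := by
        rcases x with x | x <;> rfl
      rw [hp] at h4
      rw [hb] at h1 h3
      refine ⟨h1, h2, h3.imp ?_ id, h4⟩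
      intro h5
      rcases x with x | x <;> rcases y with y | y
      · exact congrArg _ (congrArg _ (Sum.inl_injective (Sum.inl_injective h5)))
      · cases h5
      · cases h5
      · cases h5

/-- Links do not depend on the labels of `A`. -/
theorem link_comap (hΦ : AdmissiblePotential Φ) (hε : 0 < ε) {Z : MW ι} {A : MW κ}
    {B : MW μ} (f : κ' ≃ κ) : Z.LINK Φ ε K (A.comap f) B s ↔ Z.LINK Φ ε K A B s := by
  refine ⟨link_comap_mp hΦ hε f, fun h => ?_⟩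
  have h2 : (A.comap f).comap f.symm = A := by
    unfold MW.comap
    simp
  rw [← h2] at h
  exact link_comap_mp hΦ hε f.symm h

theorem link_comap_right (hΦ : AdmissiblePotential Φ) (hε : 0 < ε) {Z : MW ι} {A : MW κ}
    {B : MW μ} (f : κ' ≃ μ) : Z.LINK Φ ε K A (B.comap f) s ↔ Z.LINK Φ ε K A B s := by
  rw [link_comm, link_comap hΦ hε f, link_comm]

theorem not_link_empty (hΦ : AdmissiblePotential Φ) (hε : 0 < ε) [IsEmpty κ] {Z : MW ι}
    {A : MW κ} {B : MW μ} : ¬ Z.LINK Φ ε K A B s := by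
  rw [link_iff]
  rintro ⟨u, _, ⟨k, hk, _⟩ | ⟨x, y, hx, _, _⟩⟩
  · exact not_fut_empty hΦ hε Z A hk.fut
  · rcases x with x | x
    · exact not_fut_empty hΦ hε Z A hx.inl.fut
    · exact isEmptyElim x

/-! ### Unions -/

/-- The world `Z + (A + B)` is the world `(Z + A) + B`, as a pair with `Z`. -/
theorem rel_assoc (hΦ : AdmissiblePotential Φ) (hε : 0 < ε) (Z : MW ι) (A : MW κ) (B : MW μ) :
    Rel (Z.C Φ ε) (Z.path Φ ε) ((Z.add (A.add B)).C Φ ε) ((Z.add (A.add B)).path Φ ε)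
      id Sum.inl (Z.C Φ ε) (Z.path Φ ε) (((Z.add A).add B).C Φ ε) (((Z.add A).add B).path Φ ε)
      id (fun k : ι => (Sum.inl (Sum.inl k) : (ι ⊕ κ) ⊕ μ)) (Equiv.refl ι)
      (Equiv.refl ι) (Equiv.sumAssoc ι κ μ) where
  c₁ _ _ _ := Iff.rfl
  c₂ s j k := by
    rw [add_assoc_comap]; exact C_comap hΦ hε (Z.add (A.add B)) (Equiv.sumAssoc ι κ μ) s j k
  s₁ _ _ := rfl
  s₂ s j := by
    rw [add_assoc_comap]; exact path_comap hΦ hε (Z.add (A.add B)) (Equiv.sumAssoc ι κ μ) s j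
  m₁ _ := rfl
  m₂ _ := rfl

theorem inf_assoc (hΦ : AdmissiblePotential Φ) (hε : 0 < ε) (Z : MW ι) (A : MW κ) (B : MW μ)
    (s : ℝ) (j : (ι ⊕ κ) ⊕ μ) : ((Z.add A).add B).Inf Φ ε K s j ↔
      (Z.add (A.add B)).Inf Φ ε K s (Equiv.sumAssoc ι κ μ j) := by
  rw [add_assoc_comap]
  exact Inf_comap hΦ hε K (Z.add (A.add B)) (Equiv.sumAssoc ι κ μ) s j

theorem path_assoc (hΦ : AdmissiblePotential Φ) (hε : 0 < ε) (Z : MW ι) (A : MW κ) (B : MW μ)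
    (s : ℝ) (j : (ι ⊕ κ) ⊕ μ) : ((Z.add A).add B).path Φ ε s j =
      (Z.add (A.add B)).path Φ ε s (Equiv.sumAssoc ι κ μ j) := by
  rw [add_assoc_comap]
  exact path_comap hΦ hε (Z.add (A.add B)) (Equiv.sumAssoc ι κ μ) s j

theorem touched_assoc (hΦ : AdmissiblePotential Φ) (hε : 0 < ε) (Z : MW ι) (A : MW κ) (B : MW μ)
    (s : ℝ) : Z.Touched Φ ε K (A.add B) s ↔
      Touched (Z.C Φ ε) (Z.path Φ ε) (((Z.add A).add B).C Φ ε) (((Z.add A).add B).path Φ ε)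
        id (fun k : ι => (Sum.inl (Sum.inl k) : (ι ⊕ κ) ⊕ μ)) (Z.Inf Φ ε K)
        (((Z.add A).add B).Inf Φ ε K) s :=
  ((rel_assoc hΦ hε Z A B).touched_iff (fun _ => Iff.rfl) (inf_assoc hΦ hε Z A B s)).symm

theorem theta_assoc (hΦ : AdmissiblePotential Φ) (hε : 0 < ε) (Z : MW ι) (A : MW κ) (B : MW μ) :
    Z.theta Φ ε K T (A.add B) =
      theta (Z.C Φ ε) (Z.path Φ ε) (((Z.add A).add B).C Φ ε) (((Z.add A).add B).path Φ ε)
        id (fun k : ι => (Sum.inl (Sum.inl k) : (ι ⊕ κ) ⊕ μ)) 0 T (Z.Inf Φ ε K)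
        (((Z.add A).add B).Inf Φ ε K) :=
  ((rel_assoc hΦ hε Z A B).theta_eq (fun _ _ => Iff.rfl) (inf_assoc hΦ hε Z A B)).symm

theorem cf_assoc (hΦ : AdmissiblePotential Φ) (hε : 0 < ε) (Z : MW ι) (A : MW κ) (B : MW μ)
    (s : ℝ) (k : ι) : CF Φ ε K Z (A.add B) s k ↔
      CFut (Z.C Φ ε) (Z.path Φ ε) (((Z.add A).add B).C Φ ε) (((Z.add A).add B).path Φ ε)
        id (fun k : ι => (Sum.inl (Sum.inl k) : (ι ⊕ κ) ⊕ μ)) 0 (Z.Inf Φ ε K)
        (((Z.add A).add B).Inf Φ ε K) s k :=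
  (cfut_iff (rel_assoc hΦ hε Z A B) (fun _ _ => Iff.rfl) (inf_assoc hΦ hε Z A B)).symm

/-- Hypotheses on the four worlds. -/
structure Ok4 (Φ : Space3 → ℝ) (ε : ℝ) (Z : MW ι) (A : MW κ) (B : MW μ) : Prop where
  z : Z.Ok Φ ε
  a : (Z.add A).Ok Φ ε
  b : (Z.add B).Ok Φ ε
  ab : ((Z.add A).add B).Ok Φ ε

theorem Ok4.noLink (hΦ : AdmissiblePotential Φ) (hε : 0 < ε) {Z : MW ι} {A : MW κ} {B : MW μ}
    (h : Ok4 Φ ε Z A B) (hsT : s ≤ T) (hA : s ≤ Z.theta Φ ε K T A) (hB : s ≤ Z.theta Φ ε K T B)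
    (hlk : ¬ Z.LINK Φ ε K A B s) :
    NoLink (MW.four Φ ε Z A B) 0 (Z.Inf Φ ε K) ((Z.add A).Inf Φ ε K) ((Z.add B).Inf Φ ε K) s :=
  noLink_of_le (MW.four_dyn hΦ hε h.z h.a h.b h.ab T) (MW.four_rules h.z h.a h.b h.ab K 0 T)
    le_rfl hsT hA hB hlk

/-- **A union is linked to `B` only if a part is.** -/
theorem not_link_add (hΦ : AdmissiblePotential Φ) (hε : 0 < ε) {Z : MW ι} {A : MW κ} {A' : MW κ'}
    {B : MW μ} (h : Ok4 Φ ε Z A A') (hs0 : 0 ≤ s) (hsT : s ≤ T) (hA : s ≤ Z.theta Φ ε K T A)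
    (hA' : s ≤ Z.theta Φ ε K T A') (hlk : ¬ Z.LINK Φ ε K A A' s) (h1 : ¬ Z.LINK Φ ε K A B s)
    (h2 : ¬ Z.LINK Φ ε K A' B s) : ¬ Z.LINK Φ ε K (A.add A') B s := by
  have hd := MW.four_dyn hΦ hε h.z h.a h.b h.ab T
  have hR := MW.four_rules h.z h.a h.b h.ab K 0 T
  have hn := h.noLink hΦ hε hsT hA hA' hlk
  have hsI : s ∈ Icc 0 T := ⟨hs0, hsT⟩
  have key : ∀ {u : ℝ} {k : ι}, u ≤ s → CF Φ ε K Z (A.add A') u k →
      CF Φ ε K Z A u k ∨ CF Φ ε K Z A' u k := by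
    intro u k hu hk
    exact cfut_union hd hR le_rfl hsI hn hu ((cf_assoc hΦ hε Z A A' u k).1 hk)
  have pA : ∀ {u : ℝ} (x : ι ⊕ κ), u ∈ Icc 0 s → CI Φ ε K Z A u x →
      (Z.add A).path Φ ε u x =
        (Z.add (A.add A')).path Φ ε u (Equiv.sumAssoc ι κ κ' (Sum.inl x)) := by
    intro u x hu hx
    have h3 := glue_of_cia hd hR hsI hn hu (x := x) hx
    exact h3.trans (path_assoc hΦ hε Z A A' u (Sum.inl x))
  have pA' : ∀ {u : ℝ} (x : ι ⊕ κ'), u ∈ Icc 0 s → CI Φ ε K Z A' u x →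
      (Z.add A').path Φ ε u x = (Z.add (A.add A')).path Φ ε u
        (Equiv.sumAssoc ι κ κ' (Sum.elim (Sum.inl ∘ Sum.inl) Sum.inr x)) := by
    intro u x hu hx
    have h3 := glue_of_cil hd hR hsI hn hu (y := x) hx
    exact h3.trans (path_assoc hΦ hε Z A A' u _)
  rw [link_iff]
  rintro ⟨u, hu, ⟨k, hk, hk'⟩ | ⟨x, y, hx, hy, hc⟩⟩
  · rcases key hu.2 hk with h3 | h3
    · exact h1 (link_iff.2 ⟨u, hu, Or.inl ⟨k, h3, hk'⟩⟩)
    · exact h2 (link_iff.2 ⟨u, hu, Or.inl ⟨k, h3, hk'⟩⟩)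
  · obtain ⟨c1, c2, c3, c4⟩ := hc
    rcases x with x | (x | x)
    · rcases key hu.2 hx.inl with h3 | h3
      · refine h1 (link_iff.2 ⟨u, hu, Or.inr ⟨Sum.inl x, y, ci_inl h3, hy, c1, c2, ?_, ?_⟩⟩)
        · refine c3.imp (fun h5 => ?_) id
          rcases y with y | y
          · exact congrArg _ (congrArg _ (Sum.inl_injective (Sum.inl_injective h5)))
          · cases h5
        · rw [pA (Sum.inl x) hu (ci_inl h3)]
          exact c4
      · refine h2 (link_iff.2 ⟨u, hu, Or.inr ⟨Sum.inl x, y, ci_inl h3, hy, c1, c2, ?_, ?_⟩⟩)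
        · refine c3.imp (fun h5 => ?_) id
          rcases y with y | y
          · exact congrArg _ (congrArg _ (Sum.inl_injective (Sum.inl_injective h5)))
          · cases h5
        · rw [pA' (Sum.inl x) hu (ci_inl h3)]
          exact c4
    · refine h1 (link_iff.2 ⟨u, hu, Or.inr ⟨Sum.inr x, y, ci_inr, hy, c1, c2, ?_, ?_⟩⟩)
      · refine c3.imp (fun h5 => ?_) id
        rcases y with y | y <;> cases h5
      · rw [pA (Sum.inr x) hu ci_inr]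
        exact c4
    · refine h2 (link_iff.2 ⟨u, hu, Or.inr ⟨Sum.inr x, y, ci_inr, hy, c1, c2, ?_, ?_⟩⟩)
      · refine c3.imp (fun h5 => ?_) id
        rcases y with y | y <;> cases h5
      · rw [pA' (Sum.inr x) hu ci_inr]
        exact c4

/-- A union touches at `s` if and only if one of its parts touches. -/
theorem touched_add_iff (hΦ : AdmissiblePotential Φ) (hε : 0 < ε) {Z : MW ι} {A : MW κ}
    {A' : MW κ'} (h : Ok4 Φ ε Z A A') (hs0 : 0 ≤ s) (hsT : s ≤ T) (hA : s ≤ Z.theta Φ ε K T A)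
    (hA' : s ≤ Z.theta Φ ε K T A') (hlk : ¬ Z.LINK Φ ε K A A' s) :
    Z.Touched Φ ε K (A.add A') s ↔ Z.Touched Φ ε K A s ∨ Z.Touched Φ ε K A' s := by
  rw [touched_assoc hΦ hε]
  exact touched_union_iff (MW.four_dyn hΦ hε h.z h.a h.b h.ab T) (MW.four_cohX Φ ε Z A A' T)
    (MW.four_rules h.z h.a h.b h.ab K 0 T) le_rfl ⟨hs0, hsT⟩ (h.noLink hΦ hε hsT hA hA' hlk)

/-- **Touch time of a union.** -/
theorem theta_add_eq (hΦ : AdmissiblePotential Φ) (hε : 0 < ε) (hT : 0 ≤ T) {Z : MW ι}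
    {A : MW κ} {A' : MW κ'} (h : Ok4 Φ ε Z A A')
    (hlk : ¬ Z.LINK Φ ε K A A' (min T (min (Z.theta Φ ε K T A) (Z.theta Φ ε K T A')))) :
    Z.theta Φ ε K T (A.add A') = min (Z.theta Φ ε K T A) (Z.theta Φ ε K T A') := by
  rw [theta_assoc hΦ hε]
  exact theta_union (MW.four_dyn hΦ hε h.z h.a h.b h.ab T) (MW.four_cohX Φ ε Z A A' T)
    (MW.four_rules h.z h.a h.b h.ab K 0 T) le_rfl hT hlk


theorem le_theta_iff (hΦ : AdmissiblePotential Φ) (hε : 0 < ε) {Z : MW ι} {A : MW κ}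
    (hZ : Z.Ok Φ ε) (hA : (Z.add A).Ok Φ ε) (hs : s ≤ T) :
    s ≤ Z.theta Φ ε K T A ↔ ∀ u, 0 ≤ u → u < s → ¬ Z.Touched Φ ε K A u := by
  constructor
  · intro h u hu hus ht
    have := (MW.touched_iff hΦ hε hZ hA (T := T) ⟨hu, hus.le.trans hs⟩).1 ht
    exact absurd (h.trans this) (not_le.2 hus)
  · intro h
    exact le_theta_of (a := 0) (hs.trans (by linarith)) fun u hu hus => h u hu.1 hus

/-! ### Families of lines -/

section fam

variable [DecidableEq κ]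

/-- The sub-families of `ls` inserted in `Z` are good worlds. -/
structure OkF (Φ : Space3 → ℝ) (ε : ℝ) (Z : MW ι) (ls : κ → ML) : Prop where
  z : Z.Ok Φ ε
  sub : ∀ S : Finset κ, (Z.add (sub ls S)).Ok Φ ε

theorem OkF.line (hΦ : AdmissiblePotential Φ) (hε : 0 < ε) {Z : MW ι} {ls : κ → ML}
    (h : OkF Φ ε Z ls) (k : κ) : (Z.add (MW.line (ls k))).Ok Φ ε := by
  have h1 : (MWAlg255.sub ls {k}).comap
      ((Equiv.ofUnique Unit ({k} : Finset κ) : Unit ≃ ({k} : Finset κ))) = MW.line (ls k) := rfl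
  rw [← h1, add_comap_right, ok_relabel_iff hΦ hε]
  exact h.sub {k}

theorem OkF.ok4 (hΦ : AdmissiblePotential Φ) (hε : 0 < ε) {Z : MW ι} {ls : κ → ML}
    (h : OkF Φ ε Z ls) {S : Finset κ} {k : κ} (hk : k ∉ S) :
    Ok4 Φ ε Z (MWAlg255.sub ls S) (MW.line (ls k)) where
  z := h.z
  a := h.sub S
  b := h.line hΦ hε k
  ab := by
    have h1 := h.sub (insert k S)
    rw [← ok_relabel_iff hΦ hε (Equiv.sumCongr (Equiv.refl ι) (insertEquiv hk)),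
      ← add_comap_right, sub_insert] at h1
    rw [add_assoc_comap, ok_relabel_iff hΦ hε]
    exact h1

theorem link_sub_insert (hΦ : AdmissiblePotential Φ) (hε : 0 < ε) {Z : MW ι} {ls : κ → ML}
    {S : Finset κ} {k : κ} (hk : k ∉ S) {B : MW μ} :
    Z.LINK Φ ε K (sub ls (insert k S)) B s ↔
      Z.LINK Φ ε K ((sub ls S).add (MW.line (ls k))) B s := by
  rw [← sub_insert ls hk]
  exact (link_comap hΦ hε _).symm


theorem touched_sub_insert (hΦ : AdmissiblePotential Φ) (hε : 0 < ε) {Z : MW ι} {ls : κ → ML}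
    {S : Finset κ} {k : κ} (hk : k ∉ S) :
    Z.Touched Φ ε K (sub ls (insert k S)) s ↔
      Z.Touched Φ ε K ((sub ls S).add (MW.line (ls k))) s := by
  rw [← sub_insert ls hk]
  exact (Touched_comap hΦ hε K Z _ (Equiv.refl ι) (insertEquiv hk) s).symm

theorem not_touched_empty (hΦ : AdmissiblePotential Φ) (hε : 0 < ε) [IsEmpty κ'] (Z : MW ι)
    (A : MW κ') : ¬ Z.Touched Φ ε K A s := by
  rintro (⟨k, hk, _⟩ | ⟨j, hj, _⟩ | ⟨j, hj, _⟩)
  · exact not_fut_empty hΦ hε Z A hk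
  · exact hj ⟨j, rfl⟩
  · refine hj ?_
    rcases j with x | x
    · exact ⟨x, rfl⟩
    · exact isEmptyElim x

/-- **Families of pairwise unlinked lines.** `s ≤ T` is a time before which no line of `S` has
touched `Z`, and up to which (included) no two lines of `S` are linked in `Z`. Then the family `S`
has not touched `Z` before `s`; it is linked with `B` only if a line of `S` is linked with `B`; it
touches at `s` if and only if a line of `S` touches at `s`. -/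
theorem fam_core (hΦ : AdmissiblePotential Φ) (hε : 0 < ε) {Z : MW ι} {ls : κ → ML}
    (hok : OkF Φ ε Z ls) (hs0 : 0 ≤ s) (hsT : s ≤ T) (S : Finset κ)
    (hle : ∀ k ∈ S, s ≤ Z.thetaL Φ ε K T (ls k))
    (hlk : ∀ j ∈ S, ∀ k ∈ S, j ≠ k → ¬ Z.LINK Φ ε K (MW.line (ls j)) (MW.line (ls k)) s) :
    s ≤ Z.theta Φ ε K T (sub ls S) ∧
      (∀ (μ : Type) [Fintype μ] (B : MW μ), (∀ k ∈ S, ¬ Z.LINK Φ ε K (MW.line (ls k)) B s) →
        ¬ Z.LINK Φ ε K (sub ls S) B s) ∧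
      (Z.Touched Φ ε K (sub ls S) s ↔ ∃ k ∈ S, Z.Touched Φ ε K (MW.line (ls k)) s) := by
  induction S using Finset.induction_on with
  | empty =>
    refine ⟨?_, fun μ _ B _ => not_link_empty hΦ hε, ?_⟩
    · rw [theta_empty hΦ hε]
      linarith
    · refine ⟨fun h => absurd h (not_touched_empty hΦ hε Z _), ?_⟩
      rintro ⟨k, hk, _⟩
      exact absurd hk (Finset.notMem_empty k)
  | @insert k S hk ih =>
    obtain ⟨i1, i2, i3⟩ := ih (fun j hj => hle j (Finset.mem_insert_of_mem hj))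
      (fun j hj l hl => hlk j (Finset.mem_insert_of_mem hj) l (Finset.mem_insert_of_mem hl))
    have h4 := hok.ok4 hΦ hε hk
    have hkθ : s ≤ Z.theta Φ ε K T (MW.line (ls k)) := hle k (Finset.mem_insert_self k S)
    have hne : ∀ j ∈ S, j ≠ k := fun j hj h => hk (h ▸ hj)
    have hn : ¬ Z.LINK Φ ε K (sub ls S) (MW.line (ls k)) s :=
      i2 Unit (MW.line (ls k)) fun j hj =>
        hlk j (Finset.mem_insert_of_mem hj) k (Finset.mem_insert_self k S) (hne j hj)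
    refine ⟨?_, fun μ _ B hB => ?_, ?_⟩
    · rw [theta_sub_insert hΦ hε K T Z ls hk]
      refine le_theta_of (a := 0) (hsT.trans (by linarith)) fun u hu hus ht => ?_
      have h5 := (touched_add_iff hΦ hε h4 hu.1 hu.2 (hus.le.trans i1) (hus.le.trans hkθ)
        (fun h => hn (h.mono hus.le))).1 ht
      rcases h5 with h5 | h5
      · exact (le_theta_iff hΦ hε h4.z h4.a hsT).1 i1 u hu.1 hus h5
      · exact (le_theta_iff hΦ hε h4.z h4.b hsT).1 hkθ u hu.1 hus h5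
    · rw [link_sub_insert hΦ hε hk]
      exact not_link_add hΦ hε h4 hs0 hsT i1 hkθ hn
        (i2 μ B fun j hj => hB j (Finset.mem_insert_of_mem hj))
        (hB k (Finset.mem_insert_self k S))
    · rw [touched_sub_insert hΦ hε hk, touched_add_iff hΦ hε h4 hs0 hsT i1 hkθ hn, i3]
      constructor
      · rintro (⟨j, hj, h5⟩ | h5)
        · exact ⟨j, Finset.mem_insert_of_mem hj, h5⟩
        · exact ⟨k, Finset.mem_insert_self k S, h5⟩
      · rintro ⟨j, hj, h5⟩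
        rcases Finset.mem_insert.1 hj with rfl | hj
        · exact Or.inr h5
        · exact Or.inl ⟨j, hj, h5⟩

/-- No two lines of the family `S` are linked in `Z` up to the first touch of a line of `S`. -/
def NoLk (Φ : Space3 → ℝ) (ε : ℝ) (K : ℕ) (T : ℝ) (Z : MW ι) (ls : κ → ML) (S : Finset κ) : Prop :=
  ∀ s, 0 ≤ s → s ≤ T → (∀ i ∈ S, s ≤ Z.thetaL Φ ε K T (ls i)) → ∀ j ∈ S, ∀ k ∈ S, j ≠ k →
    ¬ Z.LINK Φ ε K (MW.line (ls j)) (MW.line (ls k)) s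


/-- Upper bound: a family touches with each of its lines. -/
theorem theta_sub_le (hΦ : AdmissiblePotential Φ) (hε : 0 < ε) (hT : 0 ≤ T) {Z : MW ι}
    {ls : κ → ML} (hok : OkF Φ ε Z ls) {S : Finset κ} (hn : NoLk Φ ε K T Z ls S) {k : κ}
    (hk : k ∈ S) : Z.theta Φ ε K T (sub ls S) ≤ Z.thetaL Φ ε K T (ls k) := by
  obtain ⟨i, hi, hmin⟩ := S.exists_min_image (fun i => Z.thetaL Φ ε K T (ls i)) ⟨k, hk⟩
  refine le_trans ?_ (hmin k hk)
  rcases MW.theta_le_or (K := K) (T := T) hΦ hε hok.z (hok.line hΦ hε i) with h3 | h3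
  · have h0 : 0 ≤ Z.thetaL Φ ε K T (ls i) := MW.theta_nonneg hT
    have h5 := (fam_core hΦ hε hok h0 h3 S hmin (hn _ h0 h3 hmin)).2.2.2
      ⟨i, hi, MW.touched_theta hΦ hε hok.z (hok.line hΦ hε i) hT h3⟩
    exact MW.theta_le_of_touched ⟨h0, h3⟩ h5
  · have h4 : Z.thetaL Φ ε K T (ls i) = T + 1 := h3
    rw [h4]
    exact MW.theta_le


/-- **Links of groups reduce to pairwise links**: two disjoint sub-families. -/
theorem not_link_sub (hΦ : AdmissiblePotential Φ) (hε : 0 < ε) {Z : MW ι} {ls : κ → ML}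
    (hok : OkF Φ ε Z ls) (hs0 : 0 ≤ s) (hsT : s ≤ T) {S S' : Finset κ} (hd : Disjoint S S')
    (hle : ∀ k ∈ S ∪ S', s ≤ Z.thetaL Φ ε K T (ls k))
    (hlk : ∀ j ∈ S ∪ S', ∀ k ∈ S ∪ S', j ≠ k →
      ¬ Z.LINK Φ ε K (MW.line (ls j)) (MW.line (ls k)) s) :
    ¬ Z.LINK Φ ε K (sub ls S) (sub ls S') s := by
  have h1 := (fam_core hΦ hε hok hs0 hsT S (fun k hk => hle k (Finset.mem_union_left _ hk))
    fun j hj k hk => hlk j (Finset.mem_union_left _ hj) k (Finset.mem_union_left _ hk)).2.1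
  have h2 := (fam_core hΦ hε hok hs0 hsT S' (fun k hk => hle k (Finset.mem_union_right _ hk))
    fun j hj k hk => hlk j (Finset.mem_union_right _ hj) k (Finset.mem_union_right _ hk)).2.1
  refine h1 S' (sub ls S') fun j hj h3 => ?_
  refine h2 Unit (MW.line (ls j)) (fun k hk => ?_) (link_symm h3)
  refine hlk k (Finset.mem_union_right _ hk) j (Finset.mem_union_left _ hj) ?_
  rintro rfl
  exact (Finset.disjoint_left.1 hd hj) hk

end fam

end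

end Crest.Agent.R122.MWFam255
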