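import Crest.Agent.R122.E6Facts_879
import Crest.Agent.R122.Reborn_45
import Crest.Agent.R122.MWFam_255
import Crest.Agent.R122.H5Defs_994

/-!
# The root line reborn at the link time (row 122, inequality 3, 994 R3), helper515

* `contact_lift`: if neither `A` nor `B` has touched `Z` before `s` and they are not linked in `Z` up
  to `s`, then a contact of `A` with a particle of `Z` in `Z + A` at a time `t ≤ s` is a contact in
  `Z + A + B`.
* `thetaL_rst`: a line `l` which has no contact with the particles of `Z` in `Z + l + B` up to the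
  time `u` touches `Z` after `u`, at the same time as the line reborn at `u`.
* `rst_of_E6Hyp`: the case of the root line `F r` of the fresh cluster in the world
  `w₂ + lines F + d`, for `θ(w₂, F r) = firstT w₂ F ≤ θ(w₂ + lines F, d)`.
-/

set_option autoImplicit false
set_option linter.unusedSectionVars false

open MeasureTheory Set Filter Topology
open scoped ENNReal
open Crest.AnalysisR.Kinetic
open Crest.Agent.R122.Flow671 Crest.Agent.R122.Loc45 Crest.Agent.R122.Ins45
open Crest.Agent.R122.Causal291 Crest.Agent.R122.CausalGen291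
open Crest.Agent.R122.Inf879 Crest.Agent.R122.EDefs602 Crest.Agent.R122.MWAlg255
open Crest.Agent.R122.MWFam255 (Ok4 PairNL)
open Crest.Agent.R122.E6Hyp879 (withD E6Hyp)

namespace Crest.Agent.R122.Rst515

noncomputable section

open scoped Classical

variable {Φ : Space3 → ℝ} {ε T : ℝ} {K : ℕ} {ι κ μ : Type}
variable [Fintype ι] [Fintype κ] [Fintype μ]

/-- **Contacts of `A` lift to the world with `B`**, as long as nobody has touched and there is no
link. -/
theorem contact_lift (hΦ : AdmissiblePotential Φ) (hε : 0 < ε) {Z : MW ι} {A : MW κ} {B : MW μ}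
    (h4 : Ok4 Φ ε Z A B) {s t : ℝ} (hs : s ∈ Icc 0 T)
    (hn : LinkU255.NoLink (MW.four Φ ε Z A B) 0 (Z.Inf Φ ε K) ((Z.add A).Inf Φ ε K)
      ((Z.add B).Inf Φ ε K) s)
    (ht : t ∈ Icc 0 s) {x : κ} {k : ι} (hc : (Z.add A).C Φ ε t (Sum.inr x) (Sum.inl k)) :
    ((Z.add A).add B).C Φ ε t (Sum.inl (Sum.inr x)) (Sum.inl (Sum.inl k)) := by
  have hd := MW.four_dyn hΦ hε h4.z h4.a h4.b h4.ab T
  have hR := MW.four_rules h4.z h4.a h4.b h4.ab K 0 T
  have htT : t ∈ Icc 0 T := ⟨ht.1, ht.2.trans hs.2⟩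
  have hx : (Sum.inr x : ι ⊕ κ) ∉ range (Sum.inl : ι → ι ⊕ κ) := by
    rintro ⟨y, hy⟩
    cases hy
  have hkL : ∀ v, v < t → k ∉ (MW.four Φ ε Z A B).FL v := by
    intro v hv hk
    have hvs := hv.trans_le ht.2
    have hclL := cleanB_of_fut_lt hR.r₀ hR.rL hs.2 hn.untL hvs hk
    have hclA : CleanB 0 (Z.Inf Φ ε K) ((Z.add A).Inf Φ ε K) (id : ι → ι)
        (Sum.inl : ι → ι ⊕ κ) t k := by
      intro w h0 hw
      have h1 := (hclL w h0 (hw.trans_le ht.2)).1
      exact ⟨h1, fun h' => h1 ((Four.infected_iffA hd hR le_rfl hs.2 hn.untA h0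
        (hw.trans_le ht.2) k).2 h')⟩
    have hA : k ∈ (MW.four Φ ε Z A B).CFA 0 (Z.Inf Φ ε K) ((Z.add A).Inf Φ ε K) t :=
      CFut.new₂ (Sum.inr x) hx hc ht.1 le_rfl hclA
    have hL : k ∈ (MW.four Φ ε Z A B).CFL 0 (Z.Inf Φ ε K) ((Z.add B).Inf Φ ε K) t :=
      CFut.mono (Four.cfl_of_fl hR hs.2 hn.untL hvs hk) hv.le
    exact hn.nl ⟨t, ht, Or.inl ⟨k, hA, hL⟩⟩
  have e1 : (MW.four Φ ε Z A B).zA t (Sum.inr x) =
      (MW.four Φ ε Z A B).z t ((MW.four Φ ε Z A B).fA (Sum.inr x)) :=
    Four.glueL_closed (F := (MW.four Φ ε Z A B).swap) hd.swap hR.swap hs hn.swap.untA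
      hn.swap.untL hn.swap.nl ht fun v hv k' hk' => absurd ⟨k', hk'.symm⟩ hx
  have e2 : (MW.four Φ ε Z A B).zA t (Sum.inl k) =
      (MW.four Φ ε Z A B).z t ((MW.four Φ ε Z A B).fA (Sum.inl k)) := by
    refine Four.glueL_closed (F := (MW.four Φ ε Z A B).swap) hd.swap hR.swap hs hn.swap.untA
      hn.swap.untL hn.swap.nl ht fun v hv k' hk' => ?_
    have h1 : k = k' := Sum.inl_injective hk'
    subst h1
    exact hkL v hv
  exact (hd.pA.coh t htT (Sum.inr x) (Sum.inl k) e1 e2).1 hc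


/-! ### The world `w₂ + lines F + d` -/




open Decomp811 (firstT firstT_le le_firstT exF W1E)

variable {w₂ : MW ι} {F : κ → ML} {r : κ} {d e' c' : ML}



/-! ### The lines of a tree -/

section tree

open Kin796 Kin796.CTree Tree674 PathFlow968 TreeLines335 LineMeas994 H5994



end tree

end

end Crest.Agent.R122.Rst515
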