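import Crest.Agent.R122.PairSplit_292
import Crest.Agent.R122.Rst_515
import Crest.Agent.R122.MeasPair_522
import Crest.Agent.R122.TransLine_151
import Crest.Agent.R122.Simul2_984
import Crest.Agent.R122.PairDefs_292
import Crest.Agent.R122.Direct6b_658
import Crest.Agent.R122.PairKer_292

-- ▼ part R122/PairBad_515
section

/-!
# Bad first contacts of a pair are links (row 122, inequality 3), helper515

(patched by helper664: `Birth` refers to the path of the gas alone.)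

`link_of_bad` : before `d` has touched `Z`, a first contact of the free line `e` with the world
`Z + d` whose partner is `d` itself or a particle influenced by `d` is a clean link between `d` and
`e` in `Z`, not later than both touch times.
-/

set_option autoImplicit false
set_option linter.unusedSectionVars false

open MeasureTheory Set Filter Topology
open scoped ENNReal
open Crest.AnalysisR.Kinetic
open Crest.Agent.R122.Flow671 Crest.Agent.R122.Loc45 Crest.Agent.R122.Ins45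
open Crest.Agent.R122.Causal291 Crest.Agent.R122.CausalGen291
open Crest.Agent.R122.Inf879 Crest.Agent.R122.EDefs602 Crest.Agent.R122.MWAlg255
open Crest.Agent.R122.MWFam255 Crest.Agent.R122.Direct658
open Crest.Agent.R122.PairD292 (CtL mT2)
open Crest.Agent.R122.OneC285 (lpos)

namespace Crest.Agent.R122.PairBad515

noncomputable section

open scoped Classical

variable {Φ : Space3 → ℝ} {ε T : ℝ} {K : ℕ} {ι : Type} [Fintype ι]

/-- Clean closure at a closed time before the touch. -/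
theorem cf_of_fut_closed (hΦ : AdmissiblePotential Φ) (hε : 0 < ε) {κ : Type} [Fintype κ]
    {Z : MW ι} {A : MW κ} (hZ : Z.Ok Φ ε) (hA : (Z.add A).Ok Φ ε) {s : ℝ} (hs0 : 0 ≤ s)
    (hsT : s ≤ T) (hsd : s < Z.theta Φ ε K T A) {k : ι} (hk : Z.Fut Φ ε A s k) :
    CF Φ ε K Z A s k := by
  have h0 : ∀ u, 0 ≤ u → u < s → ¬ Z.Touched Φ ε K A u := fun u hu hus ht =>
    absurd ((MW.touched_iff hΦ hε hZ hA (T := T) ⟨hu, hus.le.trans hsT⟩).1 ht)
      (not_le.2 (hus.trans hsd))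
  have h1 : ¬ Z.Touched Φ ε K A s := fun ht =>
    absurd ((MW.touched_iff hΦ hε hZ hA (T := T) ⟨hs0, hsT⟩).1 ht) (not_le.2 hsd)
  exact CFut.of_not_hit (hZ.rule 0 T K) (hA.rule 0 T K) hsT h0
    (fun hH => h1 (Hit.touched (hZ.rule 0 T K) (hA.rule 0 T K) le_rfl ⟨hs0, hsT⟩ hH)) hk

/-- Particles influenced before a time at which nobody has touched are clean. -/
theorem clean_of_fut_lt (hΦ : AdmissiblePotential Φ) (hε : 0 < ε) {κ : Type} [Fintype κ]
    {Z : MW ι} {A : MW κ} (hZ : Z.Ok Φ ε) (hA : (Z.add A).Ok Φ ε) {s v : ℝ}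
    (hsT : s ≤ T) (hsd : s ≤ Z.theta Φ ε K T A) (hv : v < s) {k : ι} (hk : Z.Fut Φ ε A v k) :
    CleanB 0 (Z.Inf Φ ε K) ((Z.add A).Inf Φ ε K) (id : ι → ι) (Sum.inl : ι → ι ⊕ κ) s k :=
  cleanB_of_fut_lt (hZ.rule 0 T K) (hA.rule 0 T K) hsT
    (fun _ hu hus ht => absurd ((MW.touched_iff hΦ hε hZ hA (T := T)
      ⟨hu, hus.le.trans hsT⟩).1 ht) (not_le.2 (hus.trans_le hsd))) hv hk

/-- No contact of the line `e` in `Z + e` before `s`: it has not touched before `s`. -/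
theorem le_thetaL_of_no_contact (hΦ : AdmissiblePotential Φ) (hε : 0 < ε)
    {Z : MW ι} {e : ML} (hZ : Z.Ok Φ ε) (he : (Z.ins e).Ok Φ ε) (hm : e.2 ≤ K) {s : ℝ}
    (hsT : s ≤ T) (hno : ∀ r k, r < s → ¬ (Z.ins e).C Φ ε r (Sum.inr ()) (Sum.inl k)) :
    s ≤ Z.thetaL Φ ε K T e := by
  refine (le_theta_iff hΦ hε hZ he hsT).2 fun u hu hus => ?_
  refine MW.not_touched_of_no_contact hΦ hε (fun r hr x k hc => ?_)
    (by simpa [MW.line, MW.lines] using hm)
  cases x
  exact hno r k (hr.2.trans_lt hus) hc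

/-- **Bad first contacts are links.** -/
theorem link_of_bad (hΦ : AdmissiblePotential Φ) (hε : 0 < ε) {Z : MW ι} {d e : ML}
    (hZ : Z.Ok Φ ε) (hd : (Z.ins d).Ok Φ ε) (he : (Z.ins e).Ok Φ ε)
    (hb : 0 ≤ e.1.1) (hm : e.2 ≤ K) {s : ℝ} (hsT : s ≤ T)
    (hsd : s < Z.thetaL Φ ε K T d)
    (hbef : ∀ t i, t < s → ¬ CtL Φ ε (Z.ins d) e t i)
    {x : ι ⊕ Unit} (hx : CtL Φ ε (Z.ins d) e s x)
    (hx' : ∀ k, x = Sum.inl k → Z.Fut Φ ε (MW.line d) s k) :
    ∃ t, 0 ≤ t ∧ t ≤ s ∧ t ≤ Z.thetaL Φ ε K T e ∧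
      Z.LINK Φ ε K (MW.line d) (MW.line e) t := by
  have hs0 : 0 ≤ s := hb.trans hx.2.1
  by_cases hex : ∃ r k, r < s ∧ (Z.ins e).C Φ ε r (Sum.inr ()) (Sum.inl k)
  · -- a contact of `e` with `Z` before `s` in `Z + e`
    obtain ⟨r, k, hrs, hc⟩ := hex
    have hr0 : 0 ≤ r := hb.trans (MW.C_born hc)
    set S : Set ℝ := {r' | r' ∈ Icc 0 r ∧ ∃ k, (Z.ins e).C Φ ε r' (Sum.inr ()) (Sum.inl k)} with hS
    have hScl : IsClosed S := by
      have : S = ⋃ k, {r' | r' ∈ Icc 0 r ∧ (Z.ins e).C Φ ε r' (Sum.inr ()) (Sum.inl k)} := by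
        ext r'
        simp only [hS, mem_ofPred_eq, mem_iUnion]
        exact ⟨fun ⟨h1, k, h2⟩ => ⟨k, h1, h2⟩, fun ⟨k, h1, h2⟩ => ⟨h1, k, h2⟩⟩
      rw [this]
      exact isClosed_iUnion_of_finite fun k => he.closed r _ _
    have hSne : S.Nonempty := ⟨r, ⟨hr0, le_rfl⟩, k, hc⟩
    have hSbd : BddBelow S := ⟨0, fun r hr => hr.1.1⟩
    obtain ⟨hr1, k₁, hc₁⟩ := hScl.csInf_mem hSne hSbd
    set r₁ := sInf S with hr₁
    have hno : ∀ r' j, r' < r₁ → ¬ (Z.ins e).C Φ ε r' (Sum.inr ()) (Sum.inl j) := by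
      intro r' j hr hcr
      have h0 : 0 ≤ r' := hb.trans (MW.C_born hcr)
      exact absurd (csInf_le hSbd (show r' ∈ S from ⟨⟨h0, hr.le.trans hr1.2⟩, j, hcr⟩))
        (not_le.2 hr)
    have hr1s : r₁ < s := hr1.2.trans_lt hrs
    have hr1T : r₁ ≤ T := hr1s.le.trans hsT
    have h1 := ins_agree hΦ hε hZ he hno (t := r₁) ⟨hr1.1, le_rfl⟩ k₁
    have h2 := ins_free hΦ hε he hno (t := r₁) ⟨hr1.1, le_rfl⟩
    have hθe : r₁ ≤ Z.thetaL Φ ε K T e := le_thetaL_of_no_contact hΦ hε hZ he hm hr1T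
      fun r' k hr' => hno r' k hr'
    -- the particle `k₁` has another state in `Z + d`
    have hne : Z.path Φ ε r₁ k₁ ≠ (Z.ins d).path Φ ε r₁ (Sum.inl k₁) := by
      intro heq
      refine hbef r₁ (Sum.inl k₁) hr1s ?_
      obtain ⟨c1, c2, c3, c4⟩ := hc₁
      refine ⟨c2, c1, ?_, ?_⟩
      · rcases c3 with c3 | c3 | c3
        · cases c3
        · exact Or.inr c3
        · exact Or.inl c3
      · rw [h2, ← h1] at c4
        rw [← heq]
        exact c4
    have hfut : ∃ v, v < r₁ ∧ Z.Fut Φ ε (MW.line d) v k₁ := by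
      by_contra hno'
      push Not at hno'
      refine hne (agree_of_not_fut_lt (e₁ := id) (e₂ := Sum.inl)
        ((MW.com_add Z (MW.line d)).pair hΦ hε hZ hd T) ⟨hr1.1, hr1T⟩ ?_ fun v _ hv => hno' v hv)
      have e1 : Z.path Φ ε 0 = Z.z := MW.path_zero hΦ hε Z
      have e2 : (Z.add (MW.line d)).path Φ ε 0 = (Z.add (MW.line d)).z :=
        MW.path_zero hΦ hε (Z.add (MW.line d))
      rw [e1, e2]
      rfl
    obtain ⟨v, hv, hk⟩ := hfut
    have hkr : Z.Fut Φ ε (MW.line d) r₁ k₁ := CausalGen291.Fut.mono hk hv.le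
    have hA : CF Φ ε K Z (MW.line d) r₁ k₁ :=
      cf_of_fut_closed hΦ hε hZ hd hr1.1 hr1T (hr1s.trans hsd) hkr
    have hcl := clean_of_fut_lt hΦ hε hZ hd hsT hsd.le (hv.trans hr1s) hk
    have hB : CF Φ ε K Z (MW.line e) r₁ k₁ := by
      refine CFut.new₂ (Sum.inr ()) (by rintro ⟨y, hy⟩; cases hy) hc₁ hr1.1 le_rfl fun u hu hur => ?_
      have h3 := (hcl u hu (hur.trans hr1s)).1
      refine ⟨h3, fun h4 => h3 ?_⟩
      exact (MW.inf_iff_of_lt_theta hΦ hε hZ he ⟨hu, hur.le.trans hr1T⟩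
        (hur.trans_le hθe) k₁).2 h4
    exact ⟨r₁, hr1.1, hr1s.le, hθe, link_iff.2 ⟨r₁, ⟨hr1.1, le_rfl⟩, Or.inl ⟨k₁, hA, hB⟩⟩⟩
  · push Not at hex
    have hno : ∀ r k, r < s → ¬ (Z.ins e).C Φ ε r (Sum.inr ()) (Sum.inl k) :=
      fun r k hr => hex r k hr
    have h2 := ins_free hΦ hε he hno (t := s) ⟨hs0, le_rfl⟩
    have hθe : s ≤ Z.thetaL Φ ε K T e := le_thetaL_of_no_contact hΦ hε hZ he hm hsT hno
    refine ⟨s, hs0, le_rfl, hθe, link_iff.2 ⟨s, ⟨hs0, le_rfl⟩, Or.inr ⟨x, Sum.inr (), ?_,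
      ci_inr, ?_⟩⟩⟩
    · intro k hk
      exact cf_of_fut_closed hΦ hε hZ hd hs0 hsT hsd (hx' k hk)
    · obtain ⟨c1, c2, c3, c4⟩ := hx
      refine ⟨c1, c2, Or.inr c3, ?_⟩
      have h3 : (Z.add (MW.line e)).path Φ ε s (Sum.inr ()) = (fpos e s, e.1.2.2) := h2
      rw [h3, dist_comm]
      exact c4

/-! ### The first contact is attained -/

/-- The first contact time of a free line with a good world is attained. -/
theorem mT2_attained (hΦ : AdmissiblePotential Φ) (hε : 0 < ε) {Z : MW ι} {l : ML}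
    (hZ : Z.Ok Φ ε) (hZl : (Z.ins l).Ok Φ ε) (hb : 0 ≤ l.1.1) (h : mT2 Φ ε T Z l ≤ T) :
    ∃ x, CtL Φ ε Z l (mT2 Φ ε T Z l) x := by
  have hex : ∃ s ∈ Icc l.1.1 T, ∃ i, CtL Φ ε Z l s i := by
    by_contra hno
    unfold mT2 MeasE416.first at h
    rw [if_neg hno] at h
    linarith
  have hm : mT2 Φ ε T Z l = sInf {s | s ∈ Icc l.1.1 T ∧ ∃ i, CtL Φ ε Z l s i} := by
    unfold mT2 MeasE416.first
    rw [if_pos hex]
  set S : Set ℝ := {s | s ∈ Icc l.1.1 T ∧ ∃ i, CtL Φ ε Z l s i} with hS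
  -- contacts of the free line before the first contact of `l` in `Z + l` do not exist
  have key : ∀ s₁ : ℝ, (∀ r k, r < s₁ → ¬ (Z.ins l).C Φ ε r (Sum.inr ()) (Sum.inl k)) →
      ∀ t, t ≤ s₁ → 0 ≤ t → ∀ i, (CtL Φ ε Z l t i ↔
        (Z.ins l).C Φ ε t (Sum.inr ()) (Sum.inl i)) := by
    intro s₁ hno t ht ht0 i
    have h1 := ins_agree hΦ hε hZ hZl hno (t := t) ⟨ht0, ht⟩ i
    have h2 := ins_free hΦ hε hZl hno (t := t) ⟨ht0, ht⟩
    constructor
    · rintro ⟨c1, c2, c3, c4⟩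
      refine ⟨c2, c1, ?_, ?_⟩
      · rcases c3 with c3 | c3
        · exact Or.inr (Or.inr c3)
        · exact Or.inr (Or.inl c3)
      · rw [h2, ← h1]
        exact c4
    · rintro ⟨c1, c2, c3, c4⟩
      refine ⟨c2, c1, ?_, ?_⟩
      · rcases c3 with c3 | c3 | c3
        · cases c3
        · exact Or.inr c3
        · exact Or.inl c3
      · rw [h2, ← h1] at c4
        exact c4
  set SC : Set ℝ := {r | r ∈ Icc 0 T ∧ ∃ k, (Z.ins l).C Φ ε r (Sum.inr ()) (Sum.inl k)} with hSC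
  have hSCcl : IsClosed SC := by
    have : SC = ⋃ k, {r | r ∈ Icc 0 T ∧ (Z.ins l).C Φ ε r (Sum.inr ()) (Sum.inl k)} := by
      ext r
      simp only [hSC, mem_ofPred_eq, mem_iUnion]
      exact ⟨fun ⟨h1, k, h2⟩ => ⟨k, h1, h2⟩, fun ⟨k, h1, h2⟩ => ⟨h1, k, h2⟩⟩
    rw [this]
    exact isClosed_iUnion_of_finite fun k => hZl.closed T _ _
  have hSCbd : BddBelow SC := ⟨0, fun r hr => hr.1.1⟩
  have hSCne : SC.Nonempty := by
    by_contra hne
    rw [not_nonempty_iff_eq_empty] at hne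
    obtain ⟨s, hs, i, hi⟩ := hex
    have hs0 : 0 ≤ s := hb.trans hs.1
    have hno : ∀ r k, r < T → ¬ (Z.ins l).C Φ ε r (Sum.inr ()) (Sum.inl k) := by
      intro r k hr hc
      have : r ∈ SC := ⟨⟨hb.trans (MW.C_born hc), hr.le⟩, k, hc⟩
      rw [hne] at this
      exact this
    have h1 := (key T hno s hs.2 hs0 i).1 hi
    have : s ∈ SC := ⟨⟨hs0, hs.2⟩, i, h1⟩
    rw [hne] at this
    exact this
  obtain ⟨hr1, k₁, hc₁⟩ := hSCcl.csInf_mem hSCne hSCbd
  set r₁ := sInf SC with hr₁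
  have hno : ∀ r j, r < r₁ → ¬ (Z.ins l).C Φ ε r (Sum.inr ()) (Sum.inl j) := by
    intro r j hr hcr
    exact absurd (csInf_le hSCbd (show r ∈ SC from ⟨⟨hb.trans (MW.C_born hcr),
      hr.le.trans hr1.2⟩, j, hcr⟩)) (not_le.2 hr)
  have hSr : r₁ ∈ S := ⟨⟨MW.C_born hc₁, hr1.2⟩, k₁, (key r₁ hno r₁ le_rfl hr1.1 k₁).2 hc₁⟩
  have hlow : ∀ s ∈ S, r₁ ≤ s := by
    rintro s ⟨hs, i, hi⟩
    by_contra hlt
    rw [not_le] at hlt
    exact hno s i hlt ((key r₁ hno s hlt.le (hb.trans hs.1) i).1 hi)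
  have heq : mT2 Φ ε T Z l = r₁ := by
    rw [hm]
    exact le_antisymm (csInf_le ⟨l.1.1, fun s hs => hs.1.1⟩ hSr) (le_csInf ⟨r₁, hSr⟩ hlow)
  rw [heq]
  exact hSr.2

/-! ### The bad first contacts of a pair -/

open PairD292 (OkL OkW BMeet2 CMeet2 DMeet2 tC Zd dL eL)
open Boost969 (LSt)
open Pair292 (Lab)

/-- Contact at the birth of the second line: a gas particle (path in the gas alone) within `ε` of its
birth point. (patch helper664: influenced partners are links) -/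
def Birth (Φ : Space3 → ℝ) (ε : ℝ) {n : ℕ} (w : Config n) (θ : Lab × LSt) : Prop :=
  ∃ i : Fin n, dist (eL θ).1.2.1 (flow Φ ε (eL θ).1.1 w i).1 ≤ ε

/-- **Bad first contacts before the touch of `d` are contacts at the birth of `e` or links between
`d` and `e`.** -/
theorem bad_cases (hΦ : AdmissiblePotential Φ) (hε : 0 < ε) {n : ℕ} {w : Config n}
    {θ : Lab × LSt} (hwP : w ∈ PairExcluded ε n) (hw : (MW.cfg w).Ok Φ ε) (hL : OkL K θ)
    (hW : OkW Φ ε w θ)
    (he : ((MW.cfg w).ins (eL θ)).Ok Φ ε) (hbad : BMeet2 Φ ε K T w θ)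
    (hθ : tC Φ ε T w θ < (MW.cfg w).thetaL Φ ε K T (dL θ)) :
    Birth Φ ε w θ ∨ ¬ MW.NoLink Φ ε K T (MW.cfg w) (MW.line (dL θ)) (MW.line (eL θ)) := by
  obtain ⟨hT, hD, hC⟩ := hbad
  obtain ⟨x, hx⟩ := mT2_attained hΦ hε hW.1 hW.2 hL.e0.le (T := T) hT
  have hclean : ¬ ∃ x, CtL Φ ε (Zd w θ) (eL θ) (tC Φ ε T w θ) x ∧
      (Zd w θ).Inf Φ ε K (tC Φ ε T w θ) x := fun ⟨y, h1, h2⟩ => hD ⟨hT, y, h1, h2⟩
  have hbef : ∀ t i, t < tC Φ ε T w θ → ¬ CtL Φ ε (Zd w θ) (eL θ) t i := fun t i ht =>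
    PairD292.not_ctL_of_lt ht (ht.le.trans hT) i
  have h0 : 0 ≤ tC Φ ε T w θ := hL.e0.le.trans hx.2.1
  have hfin : (∀ k, x = Sum.inl k → (MW.cfg w).Fut Φ ε (MW.line (dL θ)) (tC Φ ε T w θ) k) →
      ¬ MW.NoLink Φ ε K T (MW.cfg w) (MW.line (dL θ)) (MW.line (eL θ)) := by
    intro hx' hnl
    obtain ⟨t, ht0, hts, hte, hlk⟩ := link_of_bad hΦ hε hw hW.1 he hL.e0.le hL.eK hT hθ hbef hx hx'
    exact hnl t ht0 (hts.trans hT) (hts.trans hθ.le) hte hlk
  rcases x with i | y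
  · by_cases hf : (MW.cfg w).Fut Φ ε (MW.line (dL θ)) (tC Φ ε T w θ) i
    · right
      refine hfin fun k hk => ?_
      have hk' : i = k := Sum.inl_injective hk
      subst hk'
      exact hf
    · rcases hx.2.1.lt_or_eq with hlt | heq
      · exact absurd ⟨hlt, hT, hx, hclean, hf⟩ (hC i)
      · left
        refine ⟨i, ?_⟩
        have h4 := hx.2.2.2
        have h5 : tC Φ ε T w θ = (eL θ).1.1 := heq.symm
        have h6 : mT2 Φ ε T (Zd w θ) (eL θ) = (eL θ).1.1 := h5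
        have h7 : lpos (eL θ) (eL θ).1.1 = (eL θ).1.2.1 := by
          rw [← PairD292.fpos_eq_lpos, fpos_eq, sub_self, zero_smul, add_zero]
        have h8 : (MW.cfg w).path Φ ε (tC Φ ε T w θ) i =
            ((MW.cfg w).ins (dL θ)).path Φ ε (tC Φ ε T w θ) (Sum.inl i) := by
          refine agree_of_not_fut_lt (e₁ := id) (e₂ := Sum.inl)
            ((MW.com_add (MW.cfg w) (MW.line (dL θ))).pair hΦ hε hw hW.1 T) ⟨h0, hT⟩ ?_
            fun v _ hv hvf => hf (CausalGen291.Fut.mono hvf hv.le)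
          have e1 : (MW.cfg w).path Φ ε 0 = (MW.cfg w).z := MW.path_zero hΦ hε (MW.cfg w)
          have e2 : ((MW.cfg w).add (MW.line (dL θ))).path Φ ε 0 =
              ((MW.cfg w).add (MW.line (dL θ))).z :=
            MW.path_zero hΦ hε ((MW.cfg w).add (MW.line (dL θ)))
          rw [e1, e2]
          rfl
        rw [h5] at h8
        rw [h6, h7] at h4
        have h9 : (Zd w θ).path Φ ε (eL θ).1.1 (Sum.inl i) = flow Φ ε (eL θ).1.1 w i := by
          have h10 : (Zd w θ).path Φ ε (eL θ).1.1 (Sum.inl i) =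
              (MW.cfg w).path Φ ε (eL θ).1.1 i := h8.symm
          rw [h10, Unw410.path_cfg hΦ hε hwP hL.e0.le]
        rw [h9] at h4
        exact h4
  · right
    exact hfin fun k hk => by cases hk

end

end Crest.Agent.R122.PairBad515
end

-- ▼ part R122/PairBadAsm_515
section

/-!
# The bad first contacts of a pair law (row 122, inequality 3), helper515

`bad_le` : `BAD ≤ birth contacts + links of the pair in the gas`, for every s-finite pair law.
`bad_null` : `NullFacts.bad` from the two null facts.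
-/

set_option autoImplicit false
set_option linter.unusedSectionVars false

open MeasureTheory Set Filter Topology
open scoped ENNReal
open Crest.AnalysisR.Kinetic
open Crest.Agent.R122.GC311
open Crest.Agent.R122.Flow671 Crest.Agent.R122.Ins45
open Crest.Agent.R122.Inf879 Crest.Agent.R122.EDefs602
open Crest.Agent.R122.MeasE416 Crest.Agent.R122.MeasPair522
open Crest.Agent.R122.PairD292
open Crest.Agent.R122.OneC285 (lpos)
open Crest.Agent.R122.Boost969 (LSt)
open Crest.Agent.R122.Pair292 (Lab)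

namespace Crest.Agent.R122.PairBad515

noncomputable section

open scoped Classical

variable {Φ : Space3 → ℝ} {f₀ : PhasePoint → ℝ} {ε : ℝ} {K : ℕ} {Q : EPar}

/-- Contact at the birth of the second line. -/
def BirthE (Φ : Space3 → ℝ) (ε : ℝ) (K : ℕ) (T : ℝ) {n : ℕ} (w : Config n) (θ : Lab × LSt) : Prop :=
  OkL K θ ∧ OkW Φ ε w θ ∧ (eL θ).1.1 ≤ T ∧ Birth Φ ε w θ

/-- Link between the two lines of the pair in the gas, with the touch of the first line in the window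
(which localises the pair: the pair laws are translation invariant). -/
def LinkE (Φ : Space3 → ℝ) (ε : ℝ) (K : ℕ) (Q : EPar) {n : ℕ} (w : Config n) (θ : Lab × LSt) :
    Prop :=
  OkL K θ ∧ OkW Φ ε w θ ∧ T1 Φ ε K Q w θ ∧
    ¬ MW.NoLink Φ ε K Q.te (MW.cfg w) (MW.line (dL θ)) (MW.line (eL θ))

theorem measurableSet_birth (hΦ : AdmissiblePotential Φ) (hε : 0 < ε) (n : ℕ) :
    MeasurableSet {q : Config n × (Lab × LSt) | Birth Φ ε q.1 q.2} := by
  have he : Measurable fun q : Config n × (Lab × LSt) => eL q.2 :=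
    measurable_eL.comp measurable_snd
  have hfl : Measurable fun q : Config n × (Lab × LSt) => flow Φ ε (eL q.2).1.1 q.1 :=
    (measurable_flow_joint hΦ hε).comp (he.fst.fst.prodMk measurable_fst)
  have h1 : {q : Config n × (Lab × LSt) | Birth Φ ε q.1 q.2} =
      ⋃ i : Fin n, {q : Config n × (Lab × LSt) |
        dist (eL q.2).1.2.1 (flow Φ ε (eL q.2).1.1 q.1 i).1 ≤ ε} := by
    ext q
    simp only [Birth, mem_ofPred_eq, mem_iUnion]
  rw [h1]
  refine MeasurableSet.iUnion fun i => measurableSet_le (Measurable.dist he.fst.snd.fst ?_)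
    measurable_const
  exact ((measurable_pi_apply i).comp hfl).fst

theorem measurableSet_birthE (hΦ : AdmissiblePotential Φ) (hε : 0 < ε) (T : ℝ) (n : ℕ) :
    MeasurableSet {q : Config n × (Lab × LSt) | BirthE Φ ε K T q.1 q.2} :=
  (measurableSet_okL K measurable_snd).inter ((measurableSet_okW hΦ hε measurable_fst
    measurable_snd).inter ((measurableSet_le (measurable_eL.comp measurable_snd).fst.fst
      measurable_const).inter (measurableSet_birth hΦ hε n)))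

/-- The world `w + e` is good almost surely. -/
theorem ae_ok_e (hΦ : AdmissiblePotential Φ) (hε : 0 < ε) (ν : Measure (Lab × LSt)) [SFinite ν]
    (n : ℕ) : ∀ᵐ q : Config n × (Lab × LSt) ∂((volume : Measure (Config n)).prod ν),
      q.1 ∈ PairExcluded ε n → OkL K q.2 → ((MW.cfg q.1).ins (eL q.2)).Ok Φ ε := by
  have hm : MeasurableSet {q : Config n × (Lab × LSt) | q.1 ∈ PairExcluded ε n → OkL K q.2 →
      ((MW.cfg q.1).ins (eL q.2)).Ok Φ ε} := by
    have h1 : MeasurableSet {q : Config n × (Lab × LSt) | ((MW.cfg q.1).ins (eL q.2)).Ok Φ ε} :=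
      measurableSet_ok hΦ hε ((MeasW.cfg measurable_fst).ins (measurable_eL.comp measurable_snd))
    have h2 : MeasurableSet {q : Config n × (Lab × LSt) | q.1 ∈ PairExcluded ε n} :=
      measurable_fst (measurableSet_pairExcluded ε n)
    have h3 : MeasurableSet {q : Config n × (Lab × LSt) | OkL K q.2} :=
      measurableSet_okL K measurable_snd
    have h4 : {q : Config n × (Lab × LSt) | q.1 ∈ PairExcluded ε n → OkL K q.2 →
      ((MW.cfg q.1).ins (eL q.2)).Ok Φ ε} = {q : Config n × (Lab × LSt) | q.1 ∈ PairExcluded ε n}ᶜ ∪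
        ({q : Config n × (Lab × LSt) | OkL K q.2}ᶜ ∪
          {q : Config n × (Lab × LSt) | ((MW.cfg q.1).ins (eL q.2)).Ok Φ ε}) := by
      ext q
      simp only [mem_ofPred_eq, mem_union, mem_compl_iff]
      tauto
    rw [h4]
    exact h2.compl.union (h3.compl.union h1)
  have hswap : ∀ᵐ q : (Lab × LSt) × Config n ∂(ν.prod (volume : Measure (Config n))),
      q.2 ∈ PairExcluded ε n → OkL K q.1 → ((MW.cfg q.2).ins (eL q.1)).Ok Φ ε := by
    refine Measure.ae_prod_iff_ae_ae ?_ |>.2 (Eventually.of_forall fun θ => ?_)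
    · exact measurable_swap hm
    · by_cases hL : OkL K θ
      · filter_upwards [TransOk151.ae_ok_line (l := eL θ) hΦ hε hL.e0 n] with w h hw _
        exact h hw
      · exact Eventually.of_forall fun w _ h => absurd h hL
  have h5 := Measure.prod_swap (μ := ν) (ν := (volume : Measure (Config n)))
  rw [← h5]
  exact (ae_map_iff measurable_swap.aemeasurable hm).2 hswap

/-- **The bad first contacts of a pair law are births and links.** -/
theorem bad_le (hΦ : AdmissiblePotential Φ) (hf : Measurable f₀) (hε : 0 < ε)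
    (ν : Measure (Lab × LSt)) [SFinite ν] :
    BAD Φ f₀ ε K Q ν ≤
      gcE f₀ ε (fun _ w => ∫⁻ θ, (if BirthE Φ ε K Q.te w θ then 1 else 0) ∂ν) +
      gcE f₀ ε (fun _ w => ∫⁻ θ, (if LinkE Φ ε K Q w θ then 1 else 0) ∂ν) := by
  have hm : ∀ n, Measurable fun q : Config n × (Lab × LSt) =>
      if BirthE Φ ε K Q.te q.1 q.2 then (1 : ℝ≥0∞) else 0 := fun n =>
    Measurable.ite (measurableSet_birthE hΦ hε Q.te n) measurable_const measurable_const
  rw [← gcE_add hf ε (fun n => (hm n).lintegral_prod_right')]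
  refine Simul984.gcE_mono_ae f₀ ε fun n => ?_
  filter_upwards [Measure.ae_ae_of_ae_prod (ae_ok_e (K := K) hΦ hε ν n)] with w hw hwP
  have hmw : Measurable fun θ : Lab × LSt =>
      if BirthE Φ ε K Q.te w θ then (1 : ℝ≥0∞) else 0 := (hm n).comp measurable_prodMk_left
  rw [← lintegral_add_left (μ := ν) hmw]
  refine lintegral_mono_ae ?_
  filter_upwards [hw] with θ hθ
  by_cases hb : OkL K θ ∧ OkW Φ ε w θ ∧ T1 Φ ε K Q w θ ∧ BMeet2 Φ ε K Q.te w θ ∧
      tC Φ ε Q.te w θ + slk ε < (MW.cfg w).thetaL Φ ε K Q.te (dL θ)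
  · rw [if_pos hb]
    obtain ⟨hL, hW, hT, hB, ht'⟩ := hb
    have ht : tC Φ ε Q.te w θ < (MW.cfg w).thetaL Φ ε K Q.te (dL θ) :=
      lt_of_le_of_lt (le_add_of_nonneg_right (Real.sqrt_nonneg ε)) ht'
    rcases bad_cases hΦ hε hwP (TransOk151.ok_cfg hΦ hε hwP) hL hW (hθ hwP hL) hB ht with h | h
    · have h1 : BirthE Φ ε K Q.te w θ := by
        refine ⟨hL, hW, ?_, h⟩
        obtain ⟨x, hx⟩ := mT2_attained hΦ hε hW.1 hW.2 hL.e0.le (T := Q.te) hB.1
        exact hx.2.1.trans hB.1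
      simp only [if_pos h1]
      exact le_self_add
    · have h1 : LinkE Φ ε K Q w θ := ⟨hL, hW, hT, h⟩
      simp only [if_pos h1]
      exact le_add_self
  · rw [if_neg hb]
    exact zero_le


end

end Crest.Agent.R122.PairBad515
end

-- ▼ part R122/PairBirth_664
section

/-!
# Row 122, section E, inequality 3 (helper664): births of the second line close to the gas

* `PX_le_rhsG` : marginal bound for functionals of the pair with a weight in the velocity of the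
  second line;
* `PX_ball_le` : the mass of the births of the second line within `δ (1 + |v|)` of a given moving
  point, uniformly over all translation invariant spread pair laws;
* `NearB` : the second line is born within `δ (1 + |v|)` of a gas particle (path in the gas alone);
* `nearB_world`, `nearB_gas`, `birth_null` : its mass is `O(n δ³)`, so null for `δ = a ε`.
-/

set_option autoImplicit false
set_option linter.unusedSectionVars false

open MeasureTheory ProbabilityTheory Set Filter Topology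
open scoped ENNReal
open Crest.AnalysisR.Kinetic
open Crest.Agent.R122.Flow671 Crest.Agent.R122.Loc45 Crest.Agent.R122.Causal291
open Crest.Agent.R122.Inf879 Crest.Agent.R122.EDefs602 Crest.Agent.R122.Ins45
open Crest.Agent.R122.GC311 Crest.Agent.R122.Unw410 Crest.Agent.R122.Energy410
open Crest.Agent.R122.MeasE416 Crest.Agent.R122.Boost969 Crest.Agent.R122.EBasic602
open Crest.Agent.R122.Pair292 hiding ML
open Crest.Agent.R122.Conc984 Crest.Agent.R122.Direct658
open Crest.Agent.R122.PairD292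

namespace Crest.Agent.R122.PairBirth664

noncomputable section

open scoped Classical

variable {Φ : Space3 → ℝ} {f₀ : PhasePoint → ℝ} {ε : ℝ} {K : ℕ} {P : PPar}
  {Ξ ν : Measure (Lab × LSt)} {c : ℝ≥0∞}

/-! ## General bounds for pair laws -/

/-- **Marginal bound with a velocity weight.** -/
theorem PX_le_rhsG (h : PX P Ξ ν c) {g : Space3 → ℝ≥0∞} (hg : Measurable g) {Cg : ℝ≥0∞}
    (hgW : ∀ z : LSt, z.1 ≤ P.t' → ∀ u : Space3, ‖u‖ < 1 → g (z.2.2 + u) ≤ Cg * P.W z)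
    {F : ML × ℝ → ℝ≥0∞} (hF : Measurable F) :
    ∫⁻ p, {p : Lab × LSt | p.2.1 ≤ P.t'}.indicator (fun p =>
      g p.2.2.2 * F (p.1.1, p.1.2.1)) p ∂ν ≤ Cg * (v1 * (c * P.rhs F)) := by
  have hset : MeasurableSet {p : Lab × LSt | p.2.1 ≤ P.t'} :=
    measurableSet_le (by fun_prop) measurable_const
  have hF' : Measurable fun p : Lab × LSt => F (p.1.1, p.1.2.1) := hF.comp (by fun_prop)
  have hFV : Measurable fun p : Lab × LSt => g p.2.2.2 * F (p.1.1, p.1.2.1) :=
    (hg.comp (by fun_prop)).mul hF'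
  have hwm : Measurable fun p : Lab × LSt =>
      F (p.1.1, p.1.2.1) * (P.lam₁ ^ p.1.2.2 * P.W p.2) := by
    refine hF'.mul (Measurable.mul ?_ (P.hW.comp measurable_snd))
    exact (Measurable.of_discrete (f := fun n : ℕ => P.lam₁ ^ n)).comp (by fun_prop)
  calc ∫⁻ p, {p : Lab × LSt | p.2.1 ≤ P.t'}.indicator (fun p =>
        g p.2.2.2 * F (p.1.1, p.1.2.1)) p ∂ν
      ≤ ∫⁻ p, avgL sig (fun p => {p : Lab × LSt | p.2.1 ≤ P.t'}.indicator
        (fun p => g p.2.2.2 * F (p.1.1, p.1.2.1)) p) p ∂Ξ :=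
        h.spr _ (hFV.indicator hset)
    _ ≤ ∫⁻ p, (Cg * v1) * (F (p.1.1, p.1.2.1) * (P.lam₁ ^ p.1.2.2 * P.W p.2)) ∂Ξ := by
        refine lintegral_mono fun p => ?_
        unfold avgL
        by_cases hp : p.2.1 ≤ P.t'
        · calc ∫⁻ u in Metric.ball (0 : Space3) 1, {p : Lab × LSt | p.2.1 ≤ P.t'}.indicator
                (fun p => g p.2.2.2 * F (p.1.1, p.1.2.1)) (p.1, gal (sig p.1) u p.2)
              ≤ ∫⁻ _u in Metric.ball (0 : Space3) 1,
                  (Cg * P.W p.2) * F (p.1.1, p.1.2.1) := by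
                refine setLIntegral_mono' measurableSet_ball fun u hu => ?_
                refine Set.indicator_apply_le' (fun _ => ?_) (fun _ => bot_le)
                refine mul_le_mul_left ?_ _
                have h1 : ‖u‖ < 1 := by simpa using hu
                exact hgW p.2 hp u h1
            _ = (Cg * v1) * (F (p.1.1, p.1.2.1) * (1 * P.W p.2)) := by
                rw [setLIntegral_const]
                unfold v1
                ring
            _ ≤ _ := by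
                refine mul_le_mul_right (mul_le_mul_right ?_ _) _
                exact mul_le_mul_left (one_le_pow_of_one_le' P.hlam₁ _) _
        · have h3 : ∀ u : Space3, {p : Lab × LSt | p.2.1 ≤ P.t'}.indicator
              (fun p => g p.2.2.2 * F (p.1.1, p.1.2.1)) (p.1, gal (sig p.1) u p.2) = 0 := by
            intro u
            refine Set.indicator_of_notMem (fun hc => hp ?_) _
            simpa [gal] using hc
          simp only [h3, lintegral_zero]
          exact bot_le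
    _ = (Cg * v1) * ∫⁻ p, F (p.1.1, p.1.2.1) * (P.lam₁ ^ p.1.2.2 * P.W p.2) ∂Ξ :=
        lintegral_const_mul _ hwm
    _ ≤ (Cg * v1) * (c * P.rhs F) := mul_le_mul_right (h.marg F hF) _
    _ = _ := by ring

/-- A probability density on space. -/
def chi (x : Space3) : ℝ≥0∞ := Boost969.cB * (Metric.ball (0 : Space3) 1).indicator 1 x

theorem measurable_chi : Measurable chi := by
  unfold chi
  exact (measurable_one.indicator measurableSet_ball).const_mul _

theorem lintegral_chi : ∫⁻ x, chi x = 1 := by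
  unfold chi
  rw [lintegral_const_mul _ (measurable_one.indicator measurableSet_ball),
    lintegral_indicator_one measurableSet_ball]
  unfold Boost969.cB
  exact ENNReal.inv_mul_cancel vol_ball_ne_zero vol_ball_ne_top

/-- The pair laws are translation invariant families. -/
theorem invFam (h : PX P Ξ ν c) :
    InvFam shP (fun θ : Lab × LSt => θ.2) (fun θ : Lab × LSt => θ.1.1.1.2.1) ν where
  sf := h.sfν
  mT := by
    unfold shP
    have h1 : Measurable fun q : Space3 × (Lab × LSt) => shM q.1 q.2.1.1 :=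
      measurable_shM'.comp (measurable_fst.prodMk
        (measurable_fst.comp (measurable_fst.comp measurable_snd)))
    have h2 : Measurable fun q : Space3 × (Lab × LSt) => shL q.1 q.2.2 :=
      measurable_shL'.comp (measurable_fst.prodMk (measurable_snd.comp measurable_snd))
    exact (h1.prodMk (measurable_snd.comp (measurable_fst.comp measurable_snd))).prodMk h2
  me := measurable_snd
  mpos := by fun_prop
  eT := fun a θ => rfl
  posT := fun a θ => rfl
  inv := h.trans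

/-- Births of the second line within `δ (1 + |v|)` of the moving point `Z`. -/
def bS (P : PPar) (Z : ℝ → Space3) (δ : ℝ) : Set (Lab × LSt) :=
  {θ | θ.2.1 ≤ P.t' ∧ dist θ.2.2.1 (Z θ.2.1) ≤ δ * (1 + ‖θ.2.2.2‖)}

theorem measurableSet_bS {Z : ℝ → Space3} (hZ : Measurable Z) (δ : ℝ) :
    MeasurableSet (bS P Z δ) := by
  have h1 : Measurable fun θ : Lab × LSt => dist θ.2.2.1 (Z θ.2.1) :=
    (by fun_prop : Measurable fun θ : Lab × LSt => θ.2.2.1).dist
      (hZ.comp (measurable_fst.comp measurable_snd))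
  have h2 : Measurable fun θ : Lab × LSt => δ * (1 + ‖θ.2.2.2‖) := by fun_prop
  have h3 : Measurable fun θ : Lab × LSt => θ.2.1 := by fun_prop
  exact (measurableSet_le h3 measurable_const).inter (measurableSet_le h1 h2)

/-- **Births of the second line close to a given moving point**, by translation invariance. -/
theorem PX_ball_le (h : PX P Ξ ν c) {Cg : ℝ≥0∞}
    (hgW : ∀ z : LSt, z.1 ≤ P.t' → ∀ u : Space3, ‖u‖ < 1 →
      ENNReal.ofReal (1 + ‖z.2.2 + u‖) ^ 3 ≤ Cg * P.W z)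
    {Z : ℝ → Space3} (hZ : Measurable Z) {δ : ℝ} (hδ : 0 ≤ δ) :
    ν (bS P Z δ) ≤ (ENNReal.ofReal δ ^ 3 * Sweep815.c3) *
      (Cg * (v1 * (c * P.rhs (fun q => chi q.1.1.2.1)))) := by
  have hset := measurableSet_bS (P := P) hZ δ
  have hset1 : MeasurableSet {θ : Lab × LSt | θ.2.1 ≤ P.t'} :=
    measurableSet_le (by fun_prop) measurable_const
  have hgm : Measurable fun v : Space3 => ENNReal.ofReal (1 + ‖v‖) ^ 3 :=
    (Measurable.ennreal_ofReal (by fun_prop)).pow_const 3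
  rw [← lintegral_indicator_one hset,
    (invFam h).disint measurable_chi lintegral_chi (measurable_one.indicator hset)]
  have h1 : ∀ θ : Lab × LSt, ∫⁻ a : Space3, (bS P Z δ).indicator 1 (shP a θ) =
      (ENNReal.ofReal δ ^ 3 * Sweep815.c3) *
        {θ : Lab × LSt | θ.2.1 ≤ P.t'}.indicator
          (fun θ => ENNReal.ofReal (1 + ‖θ.2.2.2‖) ^ 3) θ := by
    intro θ
    by_cases hθ : θ.2.1 ≤ P.t'
    · have h2 : ∀ a : Space3, (bS P Z δ).indicator (1 : Lab × LSt → ℝ≥0∞) (shP a θ) =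
          (Metric.closedBall (Z θ.2.1 - θ.2.2.1) (δ * (1 + ‖θ.2.2.2‖))).indicator 1 a := by
        intro a
        have h3 : shP a θ ∈ bS P Z δ ↔
            a ∈ Metric.closedBall (Z θ.2.1 - θ.2.2.1) (δ * (1 + ‖θ.2.2.2‖)) := by
          have h4 : dist (θ.2.2.1 + a) (Z θ.2.1) = dist a (Z θ.2.1 - θ.2.2.1) := by
            rw [dist_eq_norm, dist_eq_norm]
            congr 1
            abel
          rw [Metric.mem_closedBall, ← h4]
          constructor
          · exact fun h5 => h5.2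
          · exact fun h5 => ⟨hθ, h5⟩
        by_cases h5 : shP a θ ∈ bS P Z δ
        · rw [indicator_of_mem h5, indicator_of_mem (h3.1 h5)]
          rfl
        · rw [indicator_of_notMem h5, indicator_of_notMem (fun h6 => h5 (h3.2 h6))]
      simp only [h2]
      rw [lintegral_indicator_one Metric.isClosed_closedBall.measurableSet, Sweep815.vol_closedBall,
        indicator_of_mem (show θ ∈ {θ : Lab × LSt | θ.2.1 ≤ P.t'} from hθ),
        ENNReal.ofReal_mul hδ]
      ring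
    · have h2 : ∀ a : Space3,
          (bS P Z δ).indicator (1 : Lab × LSt → ℝ≥0∞) (shP a θ) = 0 := by
        intro a
        exact indicator_of_notMem (fun h5 => hθ h5.1) _
      simp only [h2, lintegral_zero]
      rw [indicator_of_notMem (show θ ∉ {θ : Lab × LSt | θ.2.1 ≤ P.t'} from hθ), mul_zero]
  have h6 : ∀ θ : Lab × LSt, chi θ.1.1.1.2.1 * (∫⁻ a : Space3,
      (bS P Z δ).indicator 1 (shP a θ)) =
      (ENNReal.ofReal δ ^ 3 * Sweep815.c3) *
        {θ : Lab × LSt | θ.2.1 ≤ P.t'}.indicator (fun θ =>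
          ENNReal.ofReal (1 + ‖θ.2.2.2‖) ^ 3 * chi θ.1.1.1.2.1) θ := by
    intro θ
    rw [h1]
    by_cases hθ : θ ∈ {θ : Lab × LSt | θ.2.1 ≤ P.t'}
    · rw [indicator_of_mem hθ, indicator_of_mem hθ]
      ring
    · rw [indicator_of_notMem hθ, indicator_of_notMem hθ, mul_zero, mul_zero]
  have hm : Measurable fun θ : Lab × LSt =>
      ENNReal.ofReal (1 + ‖θ.2.2.2‖) ^ 3 * chi θ.1.1.1.2.1 :=
    (hgm.comp (by fun_prop)).mul (measurable_chi.comp (by fun_prop))
  rw [lintegral_congr h6, lintegral_const_mul _ (hm.indicator hset1)]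
  refine mul_le_mul_right ?_ _
  exact PX_le_rhsG h hgm hgW (F := fun q => chi q.1.1.2.1) (measurable_chi.comp (by fun_prop))

/-! ## Births of the second line close to the gas -/

/-- The second line is born before `T`, within `δ (1 + |v|)` of a gas particle (path in the gas
alone). -/
def NearB (Φ : Space3 → ℝ) (ε T δ : ℝ) {n : ℕ} (w : Config n) (θ : Lab × LSt) : Prop :=
  (eL θ).1.1 ≤ T ∧ ∃ i : Fin n,
    dist (eL θ).1.2.1 (flow Φ ε (eL θ).1.1 w i).1 ≤ δ * (1 + ‖(eL θ).1.2.2‖)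

theorem NearB.mono {T T' δ δ' : ℝ} {n : ℕ} {w : Config n} {θ : Lab × LSt}
    (h : NearB Φ ε T δ w θ) (hT : T ≤ T') (hδ : δ ≤ δ') : NearB Φ ε T' δ' w θ := by
  obtain ⟨h1, i, h2⟩ := h
  refine ⟨h1.trans hT, i, h2.trans ?_⟩
  exact mul_le_mul_of_nonneg_right hδ (by positivity)

/-- **One gas.** -/
theorem nearB_world (hΦ : AdmissiblePotential Φ) (hε : 0 < ε) (h : PX P Ξ ν c) {Cg : ℝ≥0∞}
    (hgW : ∀ z : LSt, z.1 ≤ P.t' → ∀ u : Space3, ‖u‖ < 1 →
      ENNReal.ofReal (1 + ‖z.2.2 + u‖) ^ 3 ≤ Cg * P.W z) {n : ℕ} (w : Config n)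
    {δ : ℝ} (hδ : 0 ≤ δ) :
    ∫⁻ θ, (if NearB Φ ε P.t' δ w θ then 1 else 0) ∂ν ≤
      ((ENNReal.ofReal δ ^ 3 * Sweep815.c3) *
        (Cg * (v1 * (c * P.rhs (fun q => chi q.1.1.2.1))))) * n := by
  have hcont : Continuous fun s => flow Φ ε s w := flow_continuous_time hΦ hε w
  have hZ : ∀ i : Fin n, Measurable fun s : ℝ => (flow Φ ε s w i).1 := fun i =>
    (((continuous_apply i).comp hcont).fst).measurable
  have hS := fun i : Fin n => measurableSet_bS (P := P) (hZ i) δ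
  calc ∫⁻ θ, (if NearB Φ ε P.t' δ w θ then 1 else 0) ∂ν
      ≤ ∫⁻ θ, ∑ i : Fin n, (bS P (fun s => (flow Φ ε s w i).1) δ).indicator 1 θ ∂ν := by
        refine lintegral_mono fun θ => ?_
        by_cases hc : NearB Φ ε P.t' δ w θ
        · obtain ⟨h1, i, h2⟩ := hc
          have h3 : θ ∈ bS P (fun s => (flow Φ ε s w i).1) δ := ⟨h1, h2⟩
          rw [if_pos ⟨h1, i, h2⟩]
          refine le_trans ?_ (Finset.single_le_sum (f := fun i : Fin n =>
            (bS P (fun s => (flow Φ ε s w i).1) δ).indicator (1 : Lab × LSt → ℝ≥0∞) θ)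
            (fun _ _ => bot_le) (Finset.mem_univ i))
          simp only
          rw [indicator_of_mem h3]
          exact le_rfl
        · rw [if_neg hc]
          exact bot_le
    _ = ∑ i : Fin n, ν (bS P (fun s => (flow Φ ε s w i).1) δ) := by
        rw [lintegral_finsetSum _ fun i _ => measurable_one.indicator (hS i)]
        exact Finset.sum_congr rfl fun i _ => lintegral_indicator_one (hS i)
    _ ≤ ∑ _i : Fin n, (ENNReal.ofReal δ ^ 3 * Sweep815.c3) *
          (Cg * (v1 * (c * P.rhs (fun q => chi q.1.1.2.1)))) :=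
        Finset.sum_le_sum fun i _ => PX_ball_le h hgW (hZ i) hδ
    _ = _ := by
        rw [Finset.sum_const, Finset.card_univ, Fintype.card_fin, nsmul_eq_mul, mul_comm]

/-- mass of the unit cube -/
theorem rhs_chi_le {γ : ℝ → ℝ} {ρ : ℝ≥0∞} {T γ₀ : ℝ} (hγ : Measurable γ)
    (hγ₀ : ∀ τ ∈ Ioc 0 T, γ₀ ≤ γ τ) (hℓ : P.ℓ = lineM γ ρ K T) (hPT : P.t' = T) :
    P.rhs (fun q => chi q.1.1.2.1) ≤
      (1 + ENNReal.ofReal T) * (ENNReal.ofReal T * (rhoS ρ * gI γ₀)) := by
  have hm : Measurable fun l : ML => chi l.1.2.1 := measurable_chi.comp (by fun_prop)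
  have h1 : ∫⁻ l : ML, chi l.1.2.1 ∂lineM γ ρ K T ≤ ENNReal.ofReal T * (rhoS ρ * gI γ₀) := by
    rw [lintegral_lineM hγ hm]
    calc ∫⁻ τ in Ioc (0 : ℝ) T, ∫⁻ v : Space3, Kin796.wG (γ τ) v *
          ∫⁻ y : Space3, ∑' n : ℕ, markW ρ K n * chi y
        ≤ ∫⁻ _τ in Ioc (0 : ℝ) T, rhoS ρ * gI γ₀ := by
          refine setLIntegral_mono' measurableSet_Ioc fun τ hτ => ?_
          have h2 : ∫⁻ y : Space3, ∑' n : ℕ, markW ρ K n * chi y = ∑' n : ℕ, markW ρ K n := by
            calc ∫⁻ y : Space3, ∑' n : ℕ, markW ρ K n * chi y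
                = ∫⁻ y : Space3, (∑' n : ℕ, markW ρ K n) * chi y :=
                  lintegral_congr fun y => ENNReal.tsum_mul_right
              _ = (∑' n : ℕ, markW ρ K n) * ∫⁻ y : Space3, chi y :=
                  lintegral_const_mul _ measurable_chi
              _ = _ := by rw [lintegral_chi, mul_one]
          simp only [h2]
          rw [lintegral_mul_const _ (Kin796.meas_wG _), mul_comm]
          refine mul_le_mul' (tsum_markW_le_rhoS _ _) ?_
          refine le_trans ?_ (gI_anti (hγ₀ τ hτ))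
          unfold gI
          exact lintegral_mono fun v => le_mul_of_one_le_right' le_self_add
      _ = _ := by
          rw [setLIntegral_const, Real.volume_Ioc, sub_zero, mul_comm]
  unfold PPar.rhs
  rw [hℓ, hPT]
  have h3 : ∀ l : ML, ∫⁻ _s in Icc 0 T, chi l.1.2.1 = ENNReal.ofReal T * chi l.1.2.1 := by
    intro l
    rw [setLIntegral_const, Real.volume_Icc, sub_zero, mul_comm]
  calc ∫⁻ l : ML, chi l.1.2.1 ∂lineM γ ρ K T +
        ∫⁻ l : ML, (∫⁻ _s in Icc 0 T, chi l.1.2.1) ∂lineM γ ρ K T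
      = (1 + ENNReal.ofReal T) * ∫⁻ l : ML, chi l.1.2.1 ∂lineM γ ρ K T := by
        simp only [h3]
        rw [lintegral_const_mul _ hm, add_mul, one_mul]
    _ ≤ _ := mul_le_mul_right h1 _

/-! ## The gas average -/

/-- Constant of the birth estimate. -/
def cBirth (ρ : ℝ≥0∞) (T γ₀ : ℝ) (Cg : ℝ≥0∞) : ℝ≥0∞ :=
  Sweep815.c3 * (Cg * (v1 * ((1 + ENNReal.ofReal T) * (ENNReal.ofReal T * (rhoS ρ * gI γ₀)))))

theorem cBirth_ne_top {ρ : ℝ≥0∞} (hρ : ρ < 1) {T γ₀ : ℝ} (hγ₀ : 0 < γ₀) {Cg : ℝ≥0∞}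
    (hC : Cg ≠ ∞) : cBirth ρ T γ₀ Cg ≠ ∞ := by
  unfold cBirth
  refine ENNReal.mul_ne_top c3_ne_top (ENNReal.mul_ne_top hC (ENNReal.mul_ne_top v1_ne_top
    (ENNReal.mul_ne_top (ENNReal.add_ne_top.2 ⟨ENNReal.one_ne_top, ENNReal.ofReal_ne_top⟩)
      (ENNReal.mul_ne_top ENNReal.ofReal_ne_top
        (ENNReal.mul_ne_top (rhoS_lt_top hρ).ne (gI_lt_top hγ₀).ne)))))

/-- Velocity weight of the class: from the fourth moment. -/
theorem vel3_of_vel4 {P : PPar} {T : ℝ} {Cv : ℝ≥0∞}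
    (h : ∀ z : LSt, z.1 ≤ T → ENNReal.ofReal ((1 + ‖z.2.2‖) ^ 4) ≤ Cv * P.W z) :
    ∀ z : LSt, z.1 ≤ T → ∀ u : Space3, ‖u‖ < 1 →
      ENNReal.ofReal (1 + ‖z.2.2 + u‖) ^ 3 ≤ 8 * Cv * P.W z := by
  intro z hz u hu
  have h0 := norm_nonneg z.2.2
  have h1 : ‖z.2.2 + u‖ ≤ ‖z.2.2‖ + 1 := (norm_add_le _ _).trans (by linarith)
  calc ENNReal.ofReal (1 + ‖z.2.2 + u‖) ^ 3
      = ENNReal.ofReal ((1 + ‖z.2.2 + u‖) ^ 3) := by
        rw [ENNReal.ofReal_pow (by positivity)]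
    _ ≤ ENNReal.ofReal (8 * (1 + ‖z.2.2‖) ^ 4) := by
        refine ENNReal.ofReal_le_ofReal ?_
        calc (1 + ‖z.2.2 + u‖) ^ 3 ≤ (2 * (1 + ‖z.2.2‖)) ^ 3 := by
              gcongr
              linarith
          _ = 8 * ((1 + ‖z.2.2‖) ^ 3 * 1) := by ring
          _ ≤ 8 * ((1 + ‖z.2.2‖) ^ 3 * (1 + ‖z.2.2‖)) := by
              gcongr
              linarith
          _ = _ := by ring
    _ = 8 * ENNReal.ofReal ((1 + ‖z.2.2‖) ^ 4) := by
        rw [ENNReal.ofReal_mul (by norm_num)]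
        norm_num
    _ ≤ 8 * (Cv * P.W z) := mul_le_mul_right (h z hz) _
    _ = _ := by rw [mul_assoc]

/-- **Births of the second line close to the gas**: mass `O(activity · δ³)`, uniformly over the pair
laws of the class. -/
theorem nearB_gas (hΦ : AdmissiblePotential Φ) (hf : Measurable f₀)
    (h1 : ∫⁻ z, ENNReal.ofReal (f₀ z) ≤ 1) (hε : 0 < ε) {Q : EPar} {γ₀ : ℝ}
    (hγ : Measurable Q.γ) (hγ₀ : ∀ τ ∈ Ioc 0 Q.te, γ₀ ≤ Q.γ τ)
    (hℓ : P.ℓ = lineM Q.γ Q.ρ K Q.te) (hPT : P.t' = Q.te) {Cg : ℝ≥0∞}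
    (hgW : ∀ z : LSt, z.1 ≤ P.t' → ∀ u : Space3, ‖u‖ < 1 →
      ENNReal.ofReal (1 + ‖z.2.2 + u‖) ^ 3 ≤ Cg * P.W z)
    (h : PX P Ξ ν c) {δ : ℝ} (hδ : 0 ≤ δ) :
    gcE f₀ ε (fun _ w => ∫⁻ θ, (if NearB Φ ε Q.te δ w θ then 1 else 0) ∂ν) ≤
      c * (cBirth Q.ρ Q.te γ₀ Cg * (activity ε * ENNReal.ofReal δ ^ 3)) := by
  have hr := rhs_chi_le (P := P) hγ hγ₀ hℓ hPT
  have hpt : ∀ (n : ℕ) (w : Config n), ∫⁻ θ, (if NearB Φ ε Q.te δ w θ then 1 else 0) ∂ν ≤
      (c * (cBirth Q.ρ Q.te γ₀ Cg * ENNReal.ofReal δ ^ 3)) * n := by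
    intro n w
    rw [← hPT]
    refine (nearB_world hΦ hε h hgW w hδ).trans (mul_le_mul_left ?_ _)
    calc (ENNReal.ofReal δ ^ 3 * Sweep815.c3) *
          (Cg * (v1 * (c * P.rhs (fun q => chi q.1.1.2.1))))
        ≤ (ENNReal.ofReal δ ^ 3 * Sweep815.c3) *
          (Cg * (v1 * (c * ((1 + ENNReal.ofReal Q.te) *
            (ENNReal.ofReal Q.te * (rhoS Q.ρ * gI γ₀)))))) := by gcongr
      _ = _ := by
          rw [hPT]
          unfold cBirth
          ring
  -- reduction to the mean number of particles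
  rcases eq_or_ne (c * (cBirth Q.ρ Q.te γ₀ Cg * ENNReal.ofReal δ ^ 3)) ∞ with htop | htop
  · rcases eq_or_ne (ENNReal.ofReal δ) 0 with h0 | h0
    · rw [h0] at htop
      simp at htop
    · have h2 : c * (cBirth Q.ρ Q.te γ₀ Cg * (activity ε * ENNReal.ofReal δ ^ 3)) = ∞ := by
        calc c * (cBirth Q.ρ Q.te γ₀ Cg * (activity ε * ENNReal.ofReal δ ^ 3))
            = activity ε * (c * (cBirth Q.ρ Q.te γ₀ Cg * ENNReal.ofReal δ ^ 3)) := by ring
          _ = ∞ := by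
              rw [htop]
              exact ENNReal.mul_top (activity_ne_zero hε)
      rw [h2]
      exact le_top
  · calc gcE f₀ ε (fun _ w => ∫⁻ θ, (if NearB Φ ε Q.te δ w θ then 1 else 0) ∂ν)
        ≤ gcE f₀ ε (fun n (_ : Config n) =>
            (c * (cBirth Q.ρ Q.te γ₀ Cg * ENNReal.ofReal δ ^ 3)) * (n : ℝ≥0∞)) :=
          gcE_mono f₀ ε fun n w _ => hpt n w
      _ = (c * (cBirth Q.ρ Q.te γ₀ Cg * ENNReal.ofReal δ ^ 3)) *
            gcE f₀ ε (fun n (_ : Config n) => (n : ℝ≥0∞)) := gcE_const_mul f₀ ε htop _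
      _ ≤ (c * (cBirth Q.ρ Q.te γ₀ Cg * ENNReal.ofReal δ ^ 3)) * activity ε :=
          mul_le_mul_right (gcE_card_le hf h1 ε) _
      _ = _ := by ring

/-- **`NullFacts.bad`, births**: null, uniformly over the pair laws of the class, for every radius
`a ε (1 + |v|)`. -/
theorem birth_null (hΦ : AdmissiblePotential Φ) (hf : Measurable f₀)
    (h1 : ∫⁻ z, ENNReal.ofReal (f₀ z) ≤ 1) {Q : EPar} {PP : ℕ → PPar} (hPP : PPOk Q PP)
    {γ₀ : ℝ} (hγp : 0 < γ₀) (hγ : Measurable Q.γ) (hγ₀ : ∀ τ ∈ Ioc 0 Q.te, γ₀ ≤ Q.γ τ)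
    (hρ : Q.ρ < 1) {a : ℝ} (ha : 0 ≤ a) :
    ∃ δ : ℕ → ℝ → ℝ≥0∞, Null δ ∧ ∀ (K : ℕ) (ε : ℝ), 0 < ε →
      ∀ (Ξ ν : Measure (Lab × LSt)) (c : ℝ≥0∞), PX (PP K) Ξ ν c →
      gcE f₀ ε (fun _ w => ∫⁻ θ, (if NearB Φ ε Q.te (a * ε) w θ then 1 else 0) ∂ν) ≤
        c * δ K ε := by
  obtain ⟨Cv, hCv, hv⟩ := hPP.vel4
  set C := cBirth Q.ρ Q.te γ₀ (8 * Cv) * ENNReal.ofReal a ^ 3 with hC
  have hCt : C ≠ ∞ := ENNReal.mul_ne_top
    (cBirth_ne_top hρ hγp (ENNReal.mul_ne_top (by norm_num) hCv))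
    (ENNReal.pow_ne_top ENNReal.ofReal_ne_top)
  refine ⟨fun _ ε => C * ENNReal.ofReal ε, ?_, ?_⟩
  · refine Null.of_tendsto ?_
    have h2 : Tendsto (fun ε : ℝ => ENNReal.ofReal ε) (𝓝[>] 0) (𝓝 0) := by
      have := (ENNReal.continuous_ofReal.tendsto 0).mono_left
        (nhdsWithin_le_nhds : (𝓝[>] (0 : ℝ)) ≤ 𝓝 0)
      rwa [ENNReal.ofReal_zero] at this
    have h3 := ENNReal.Tendsto.const_mul h2 (Or.inr hCt)
    rwa [mul_zero] at h3
  · intro K ε hε Ξ ν c h
    have hv' : ∀ z : LSt, z.1 ≤ (PP K).t' → ∀ u : Space3, ‖u‖ < 1 →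
        ENNReal.ofReal (1 + ‖z.2.2 + u‖) ^ 3 ≤ 8 * Cv * (PP K).W z :=
      vel3_of_vel4 fun z hz => hv K z (by rwa [hPP.hor K] at hz)
    refine (nearB_gas hΦ hf h1 hε hγ hγ₀ (hPP.ell K) (hPP.hor K) hv' h
      (mul_nonneg ha hε.le)).trans (mul_le_mul_right (le_of_eq ?_) _)
    rw [ENNReal.ofReal_mul ha, mul_pow, hC]
    calc cBirth Q.ρ Q.te γ₀ (8 * Cv) *
          (activity ε * (ENNReal.ofReal a ^ 3 * ENNReal.ofReal ε ^ 3))
        = (cBirth Q.ρ Q.te γ₀ (8 * Cv) * ENNReal.ofReal a ^ 3 * ENNReal.ofReal ε) *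
          (activity ε * ENNReal.ofReal ε ^ 2) := by ring
      _ = _ := by rw [activity_mul_sq' hε, mul_one]

end

end Crest.Agent.R122.PairBirth664
end

-- ▼ part R122/PairBirth2_664

/-!
# Row 122, section E, inequality 3 (helper664): `NullFacts.bad` from the link fact

* `birthE_null` : the births of the second line in contact with the gas are null, for every family
  of pair laws of the class;
* `bad_null_px` : `NullFacts.bad` for every family of pair laws of the class, from `Null (LinkE)`.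
-/

set_option autoImplicit false
set_option linter.unusedSectionVars false

open MeasureTheory Set Filter Topology
open scoped ENNReal
open Crest.AnalysisR.Kinetic
open Crest.Agent.R122.GC311
open Crest.Agent.R122.Flow671 Crest.Agent.R122.EDefs602
open Crest.Agent.R122.PairD292 Crest.Agent.R122.PairBad515
open Crest.Agent.R122.Boost969 (LSt)
open Crest.Agent.R122.Pair292 (Lab PPar PX)

namespace Crest.Agent.R122.PairBirth664

noncomputable section

open scoped Classical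

variable {Φ : Space3 → ℝ} {f₀ : PhasePoint → ℝ} {Q : EPar} {PP : ℕ → PPar}
  {ν : ℕ → ℝ → Measure (Lab × LSt)} {c : ℕ → ℝ≥0∞}

theorem nearB_of_birth {ε T : ℝ} (hε : 0 < ε) {n : ℕ} {w : Config n} {θ : Lab × LSt}
    (hT : (eL θ).1.1 ≤ T) (h : Birth Φ ε w θ) : NearB Φ ε T (1 * ε) w θ := by
  obtain ⟨i, hi⟩ := h
  refine ⟨hT, i, hi.trans ?_⟩
  have := norm_nonneg (eL θ).1.2.2
  nlinarith

/-- **Births in contact with the gas are null.** -/
theorem birthE_null (hΦ : AdmissiblePotential Φ) (hf : Measurable f₀)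
    (h1 : ∫⁻ z, ENNReal.ofReal (f₀ z) ≤ 1) (hPP : PPOk Q PP)
    {γ₀ : ℝ} (hγp : 0 < γ₀) (hγ : Measurable Q.γ) (hγ₀ : ∀ τ ∈ Ioc 0 Q.te, γ₀ ≤ Q.γ τ)
    (hρ : Q.ρ < 1) (hc : ∀ K, c K ≠ ∞)
    (hν : ∀ (K : ℕ) (ε : ℝ), 0 < ε → ε ≤ 1 → ∃ Ξ, PX (PP K) Ξ (ν K ε) (c K)) :
    Null fun K ε => gcE f₀ ε fun _ w =>
      ∫⁻ θ, (if BirthE Φ ε K Q.te w θ then 1 else 0) ∂(ν K ε) := by
  obtain ⟨d, hd, hle⟩ := birth_null (a := 1) hΦ hf h1 hPP hγp hγ hγ₀ hρ zero_le_one
  intro K η hη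
  -- `c K * d K ε` is null
  have hcr : 0 < (c K).toReal + 1 := by have := ENNReal.toReal_nonneg (a := c K); linarith
  obtain ⟨ε₀, hε₀, hd'⟩ := hd K (η / ((c K).toReal + 1)) (by positivity)
  refine ⟨min ε₀ 1, lt_min hε₀ one_pos, fun ε hε hlt => ?_⟩
  obtain ⟨Ξ, hX⟩ := hν K ε hε (hlt.le.trans (min_le_right _ _))
  have h2 := hd' ε hε (hlt.trans_le (min_le_left _ _))
  calc gcE f₀ ε (fun _ w => ∫⁻ θ, (if BirthE Φ ε K Q.te w θ then 1 else 0) ∂(ν K ε))
      ≤ gcE f₀ ε (fun _ w => ∫⁻ θ, (if NearB Φ ε Q.te (1 * ε) w θ then 1 else 0) ∂(ν K ε)) := by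
        refine gcE_mono f₀ ε fun n w _ => lintegral_mono fun θ => ?_
        by_cases hb : BirthE Φ ε K Q.te w θ
        · rw [if_pos hb, if_pos (nearB_of_birth hε hb.2.2.1 hb.2.2.2)]
        · rw [if_neg hb]
          exact bot_le
    _ ≤ c K * d K ε := hle K ε hε Ξ (ν K ε) (c K) hX
    _ ≤ ENNReal.ofReal ((c K).toReal + 1) * ENNReal.ofReal (η / ((c K).toReal + 1)) := by
        refine mul_le_mul' ?_ h2
        calc c K = ENNReal.ofReal (c K).toReal := (ENNReal.ofReal_toReal (hc K)).symm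
          _ ≤ _ := ENNReal.ofReal_le_ofReal (by linarith)
    _ = ENNReal.ofReal η := by
        rw [← ENNReal.ofReal_mul hcr.le, mul_div_cancel₀ _ hcr.ne']

/-- **`NullFacts.bad`** for every family of pair laws of the class, from the link fact. -/
theorem bad_null_px (hΦ : AdmissiblePotential Φ) (hf : Measurable f₀)
    (h1 : ∫⁻ z, ENNReal.ofReal (f₀ z) ≤ 1) (hPP : PPOk Q PP)
    {γ₀ : ℝ} (hγp : 0 < γ₀) (hγ : Measurable Q.γ) (hγ₀ : ∀ τ ∈ Ioc 0 Q.te, γ₀ ≤ Q.γ τ)
    (hρ : Q.ρ < 1) (hc : ∀ K, c K ≠ ∞)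
    (hν : ∀ (K : ℕ) (ε : ℝ), 0 < ε → ε ≤ 1 → ∃ Ξ, PX (PP K) Ξ (ν K ε) (c K))
    (hL : Null fun K ε => gcE f₀ ε fun _ w =>
      ∫⁻ θ, (if LinkE Φ ε K Q w θ then 1 else 0) ∂(ν K ε)) :
    Null fun K ε => BAD Φ f₀ ε K Q (ν K ε) := by
  have hB := birthE_null (Φ := Φ) hΦ hf h1 hPP hγp hγ hγ₀ hρ hc hν
  intro K δ hδ
  obtain ⟨ε₁, h1', hB⟩ := hB K (δ / 2) (by linarith)
  obtain ⟨ε₂, h2', hL⟩ := hL K (δ / 2) (by linarith)
  refine ⟨min (min ε₁ ε₂) 1, lt_min (lt_min h1' h2') one_pos, fun ε hε hlt => ?_⟩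
  have hlt' : ε < min ε₁ ε₂ := hlt.trans_le (min_le_left _ _)
  obtain ⟨Ξ, hX⟩ := hν K ε hε (hlt.le.trans (min_le_right _ _))
  have := hX.sfν
  refine (bad_le hΦ hf hε (ν K ε)).trans ?_
  refine (add_le_add (hB ε hε (hlt'.trans_le (min_le_left _ _)))
    (hL ε hε (hlt'.trans_le (min_le_right _ _)))).trans ?_
  rw [← ENNReal.ofReal_add (by linarith) (by linarith), add_halves]

end

end Crest.Agent.R122.PairBirth664
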