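import Crest.Agent.R122.LevGate_581
import Crest.Agent.R122.PairBirth2_664
import Crest.Agent.R122.TouchFlux2_494

-- ▼ part R122/LinkENull_581
section

/-!
# Row 122, inequality 3, null facts of the pair laws (helper581): the link events over all levels

* `ItDet` : the deterministic input for an event over the law of the `j`-th continuation of a shape.
* `gNull_of_itDet` : the gateway.
* `linkE_null` : `LinkE` is null for `bindN (ν K ε) (K3 ..) j`, every `j`, from the deterministic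
  input over the shapes of `ν`.
-/

set_option autoImplicit false
set_option linter.unusedSectionVars false

open MeasureTheory Set Filter Topology
open scoped Classical ENNReal
open Crest.AnalysisR.Kinetic

noncomputable section

namespace Crest.Agent.R122.PairRep581

open Crest.Agent.R122.GC311 Crest.Agent.R122.Kin796 Crest.Agent.R122.Kin796.CTree
open Crest.Agent.R122.Tree674 Crest.Agent.R122.EDefs602
open Crest.Agent.R122.Gate424 Crest.Agent.R122.Gate973 Crest.Agent.R122.LN2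
open Crest.Agent.R122.BH167
open Crest.Agent.R122.TouchFlux494 (Near)
open Crest.Agent.R122.Boost969 (LSt)
open Crest.Agent.R122.Pair292 (Lab shP shL shM bindN)
open Crest.Agent.R122.PairD292
open Crest.Agent.R122.StrN998 (Th Ka itS)
open Crest.Agent.R122.PairBad515 (LinkE)

/-- **Deterministic input** for an event over the law of the `j`-th continuation of a shape, given
up to the null events `Ht` and the bad families `B`: a run (horizon `u`, marks `≤ K'`, length `L`)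
from the structure, a bad partition of gas particles and the structure of some level `k ≤ j`, a bad
hit. -/
def ItDet (f₀ : PhasePoint → ℝ) (S : Shp) (Φ : Space3 → ℝ) (b₀ te : ℝ) (q : ℕ → ℝ≥0∞) (T : ℝ)
    (j : ℕ) (u t₁ : ℝ) (K' : ℕ)
    (E : ℝ → (n : ℕ) → (itS S Φ b₀ te q j).Θ → Config n → Prop) : Prop :=
  ∀ L : ℕ, ∃ (B : ℝ → ℝ → ℝ → Unit → (n : ℕ) → (itS S Φ b₀ te q j).Θ → Config n → Prop)
    (Ht : ℝ → Unit → (n : ℕ) → (itS S Φ b₀ te q j).Θ → Config n → Prop)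
    (N : ℕ) (C C' R₁ T₁ : ℝ) (N' K₁ : ℕ) (A : Finset (itS S Φ b₀ te q j).κ), 0 ≤ T₁ ∧
    BadF f₀ (itS S Φ b₀ te q j).mI B ∧ GNull f₀ (itS S Φ b₀ te q j).mI Ht ∧
    ∀ R > 0, ∀ ς > 0, ∃ ε₁ : ℝ, 0 < ε₁ ∧ ∀ ε : ℝ, 0 < ε → ε < ε₁ → ∀ i n x (w : Config n),
      w ∈ PairExcluded ε n → E ε n x w →
      RunS Φ ε u K' L ((itS S Φ b₀ te q j).b ε x) ((itS S Φ b₀ te q j).z ε x) w ∨
      (BadLv S Φ b₀ te q T C R ς ε N w j x ∨ B R ς ε i n x w) ∨
      BadHitGasN (bpos Φ T₁ t₁) Φ T C' R₁ ε N' K₁ 1 A ((itS S Φ b₀ te q j).b ε x)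
        ((itS S Φ b₀ te q j).z ε x) w ∨ Ht ε i n x w

/-- Constants and hypotheses of the gateway over structure laws. -/
structure ItCtx (Φ : Space3 → ℝ) (f₀ : PhasePoint → ℝ) (γ β β' b₀ T : ℝ) (ρ : Space3 → ℝ≥0∞)
    (q : ℕ → ℝ≥0∞) : Prop where
  adm : AdmissiblePotential Φ
  cn : VLMeas973.ClassNull Φ T
  mf : Measurable f₀
  mass : ∫⁻ z, ENNReal.ofReal (f₀ z) ≤ 1
  env : ∃ C₀, Env f₀ γ ρ C₀
  γ0 : 0 < γ
  γb : γ ≤ b₀
  β'0 : 0 < β'
  ββ : β' < β
  βb : β ≤ b₀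
  hq : ∑' m, q m ≠ ∞
  T0 : 0 ≤ T

variable {Φ : Space3 → ℝ} {f₀ : PhasePoint → ℝ} {γ β β' b₀ T te te' : ℝ} {ρ : Space3 → ℝ≥0∞}
  {q : ℕ → ℝ≥0∞} {S : Shp}

/-- **The gateway**, packaged. -/
theorem gNull_of_itDet (H : ItCtx Φ f₀ γ β β' b₀ T ρ q) (h : ShpOk γ β ρ S) (hte : te' ≤ T)
    {R₂ : ℝ} (j : ℕ) {u t₁ : ℝ} {K' : ℕ}
    {E : ℝ → (n : ℕ) → (itS S Φ b₀ te q j).Θ → Config n → Prop}
    (hnear : ∀ ε n x (w : Config n), 0 < ε → w ∈ PairExcluded ε n → E ε n x w →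
      Near Φ ε R₂ te' w (dL ((itS S Φ b₀ te q j).th ε x)).1)
    (hdet : ItDet f₀ S Φ b₀ te q T j u t₁ K' E) :
    GNull f₀ (itS S Φ b₀ te q j).mI (fun ε _ => E ε) := by
  obtain ⟨C₀, he⟩ := H.env
  exact gNull_itS_of_det h he.meas H.adm H.cn H.mf H.mass he H.γ0 H.γb H.β'0 H.ββ H.βb H.hq H.T0
    hte j (fun ε _ n x w hε hw hE => hnear ε n x w hε hw hE) hdet



end Crest.Agent.R122.PairRep581

end
end

-- ▼ part R122/LinkENB_581

/-!
# Row 122, inequality 3, null facts of the pair laws (helper581): the reborn second line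

* `birth_le_of_link` : a line which is linked before `te` is born before `te`.
* `LinkENB` : `LinkE` off the contacts at the birth of the second line; `linkE_split`.
* `linkE_null_of_nb` : `LinkE` is null for the pair laws of the class if `LinkENB` is null.
* `linkENB_gNull`, `linkENB_null` : the gateway for `LinkENB` over the continued shapes.
-/

set_option autoImplicit false
set_option linter.unusedSectionVars false

open MeasureTheory Set Filter Topology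
open scoped Classical ENNReal
open Crest.AnalysisR.Kinetic

noncomputable section

namespace Crest.Agent.R122.PairRep581

open Crest.Agent.R122.GC311 Crest.Agent.R122.Kin796 Crest.Agent.R122.Kin796.CTree
open Crest.Agent.R122.Tree674 Crest.Agent.R122.EDefs602 Crest.Agent.R122.Ins45
open Crest.Agent.R122.Inf879
open Crest.Agent.R122.Gate424 Crest.Agent.R122.Gate973 Crest.Agent.R122.LN2
open Crest.Agent.R122.BH167 Crest.Agent.R122.MeasPair522
open Crest.Agent.R122.TouchFlux494 (Near)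
open Crest.Agent.R122.Boost969 (LSt)
open Crest.Agent.R122.Pair292 hiding ML
open Crest.Agent.R122.PairD292
open Crest.Agent.R122.StrN998 (Th Ka itS)
open Crest.Agent.R122.PairBad515

/-- A line which is linked before `te` is born before `te`. -/
theorem birth_le_of_link {Φ : Space3 → ℝ} {ε te : ℝ} {K : ℕ} {ι κ₁ : Type} [Fintype ι]
    [Fintype κ₁] (hΦ : AdmissiblePotential Φ) (hε : 0 < ε) {Z : MW ι} {A : MW κ₁} {e : ML}
    (h : ¬ MW.NoLink Φ ε K te Z A (MW.line e)) : e.1.1 ≤ te := by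
  by_contra hlt
  push Not at hlt
  refine h fun s _ hs _ _ hl => ?_
  obtain ⟨u, hu, hl⟩ := hl
  have hue : u < e.1.1 := (hu.2.trans hs).trans_lt hlt
  have hno : ∀ k : ι, ¬ Z.Fut Φ ε (MW.line e) u k := fun k =>
    MW.not_fut_of_no_contact hΦ hε (fun r hr x k hc => by
      have h1 : e.1.1 ≤ r := hc.1
      exact absurd (h1.trans hr.2) (not_le.2 hue)) k
  rcases hl with ⟨k, -, hk⟩ | ⟨x, y, -, hy, hc⟩
  · exact hno k hk.fut
  · rcases y with k | y
    · exact hno k (hy k rfl).fut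
    · have h1 : e.1.1 ≤ u := hc.2.1
      exact absurd h1 (not_le.2 hue)

/-- `LinkE` off the contacts at the birth of the second line. -/
def LinkENB (Φ : Space3 → ℝ) (ε : ℝ) (K : ℕ) (Q : EPar) {n : ℕ} (w : Config n) (θ : Lab × LSt) :
    Prop := LinkE Φ ε K Q w θ ∧ (eL θ).1.1 ≤ Q.te ∧ ¬ Birth Φ ε w θ

theorem linkE_split {Φ : Space3 → ℝ} {ε : ℝ} {K : ℕ} {Q : EPar} (hΦ : AdmissiblePotential Φ)
    (hε : 0 < ε) {n : ℕ} {w : Config n} {θ : Lab × LSt} (h : LinkE Φ ε K Q w θ) :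
    BirthE Φ ε K Q.te w θ ∨ LinkENB Φ ε K Q w θ := by
  have hb := birth_le_of_link hΦ hε h.2.2.2
  by_cases hB : Birth Φ ε w θ
  · exact Or.inl ⟨h.1, h.2.1, hb, hB⟩
  · exact Or.inr ⟨h, hb, hB⟩

variable {Φ : Space3 → ℝ} {f₀ : PhasePoint → ℝ}

theorem linkE_le (hΦ : AdmissiblePotential Φ) (hf : Measurable f₀) {ε : ℝ} (hε : 0 < ε) {K : ℕ}
    {Q : EPar} (ν : Measure (Lab × LSt)) [SFinite ν] :
    gcE f₀ ε (fun _ w => ∫⁻ θ, (if LinkE Φ ε K Q w θ then 1 else 0) ∂ν) ≤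
      gcE f₀ ε (fun _ w => ∫⁻ θ, (if BirthE Φ ε K Q.te w θ then 1 else 0) ∂ν) +
      gcE f₀ ε (fun _ w => ∫⁻ θ, (if LinkENB Φ ε K Q w θ then 1 else 0) ∂ν) := by
  have hm : ∀ n, Measurable fun q : Config n × (Lab × LSt) =>
      if BirthE Φ ε K Q.te q.1 q.2 then (1 : ℝ≥0∞) else 0 := fun n =>
    Measurable.ite (measurableSet_birthE hΦ hε Q.te n) measurable_const measurable_const
  rw [← gcE_add hf ε (fun n => (hm n).lintegral_prod_right')]
  refine gcE_mono f₀ ε fun n w _ => ?_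
  have hmw : Measurable fun θ : Lab × LSt =>
      if BirthE Φ ε K Q.te w θ then (1 : ℝ≥0∞) else 0 := (hm n).comp measurable_prodMk_left
  rw [← lintegral_add_left (μ := ν) hmw]
  refine lintegral_mono fun θ => ?_
  by_cases h : LinkE Φ ε K Q w θ
  · rw [if_pos h]
    rcases linkE_split hΦ hε h with h1 | h1
    · rw [if_pos h1]
      exact le_self_add
    · rw [if_pos h1]
      exact le_add_self
  · rw [if_neg h]
    exact bot_le

/-- **`LinkE` is null for the pair laws of the class** if `LinkENB` is. -/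
theorem linkE_null_of_nb {Q : EPar} {PP : ℕ → PPar} {c : ℕ → ℝ≥0∞}
    {ν : ℕ → ℝ → Measure (Lab × LSt)} (hΦ : AdmissiblePotential Φ) (hf : Measurable f₀)
    (h1 : ∫⁻ z, ENNReal.ofReal (f₀ z) ≤ 1) (hPP : PPOk Q PP)
    {γ₀ : ℝ} (hγp : 0 < γ₀) (hγ : Measurable Q.γ) (hγ₀ : ∀ τ ∈ Ioc 0 Q.te, γ₀ ≤ Q.γ τ)
    (hρ : Q.ρ < 1) (hc : ∀ K, c K ≠ ∞)
    (hν : ∀ (K : ℕ) (ε : ℝ), 0 < ε → ε ≤ 1 → ∃ Ξ, PX (PP K) Ξ (ν K ε) (c K))
    (hL : Null fun K ε => gcE f₀ ε fun _ w =>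
      ∫⁻ θ, (if LinkENB Φ ε K Q w θ then 1 else 0) ∂(ν K ε)) :
    Null fun K ε => gcE f₀ ε fun _ w =>
      ∫⁻ θ, (if LinkE Φ ε K Q w θ then 1 else 0) ∂(ν K ε) := by
  have hB := PairBirth664.birthE_null (Φ := Φ) hΦ hf h1 hPP hγp hγ hγ₀ hρ hc hν
  intro K δ hδ
  obtain ⟨ε₁, h1', hB⟩ := hB K (δ / 2) (by linarith)
  obtain ⟨ε₂, h2', hL⟩ := hL K (δ / 2) (by linarith)
  refine ⟨min (min ε₁ ε₂) 1, lt_min (lt_min h1' h2') one_pos, fun ε hε hlt => ?_⟩
  have hlt' : ε < min ε₁ ε₂ := hlt.trans_le (min_le_left _ _)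
  obtain ⟨Ξ, hX⟩ := hν K ε hε (hlt.le.trans (min_le_right _ _))
  have := hX.sfν
  refine (linkE_le hΦ hf hε (ν K ε)).trans ?_
  refine (add_le_add (hB ε hε (hlt'.trans_le (min_le_left _ _)))
    (hL ε hε (hlt'.trans_le (min_le_right _ _)))).trans ?_
  rw [← ENNReal.ofReal_add (by linarith) (by linarith), add_halves]

variable {γ β β' b₀ T te te' : ℝ} {ρ : Space3 → ℝ≥0∞} {q : ℕ → ℝ≥0∞} {S : Shp}

/-- **The link events, second line not reborn near the gas, over the law of the `j`-th continuation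
of a shape.** -/
theorem linkENB_gNull (H : ItCtx Φ f₀ γ β β' b₀ T ρ q) (h : ShpOk γ β ρ S) {Q : EPar} {K : ℕ}
    (hte0 : 0 ≤ Q.te) (hte : Q.te ≤ T) (j : ℕ) {u t₁ : ℝ} {K' : ℕ}
    (hdet : ItDet f₀ S Φ b₀ Q.te q T j u t₁ K'
      (fun ε _ x w => LinkENB Φ ε K Q w ((itS S Φ b₀ Q.te q j).th ε x))) :
    GNull f₀ (itS S Φ b₀ Q.te q j).mI (fun ε _ _ x w =>
      LinkENB Φ ε K Q w ((itS S Φ b₀ Q.te q j).th ε x)) :=
  gNull_of_itDet H h hte (R₂ := 1) j (fun _ _ _ _ hε hw hE =>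
    TouchFlux494.near_of_T1 H.adm hε hte0 hw hE.1.1 hE.1.2.1 hE.1.2.2.1) hdet



end Crest.Agent.R122.PairRep581

end
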