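import Crest.Agent.R122.QExitBind1_837
import Crest.Agent.R122.InEq2Defs_311
import Crest.Agent.R122.TreeLim_974
import Crest.Agent.R122.QExitF_814
import Crest.Agent.R122.Q1Wgt_815

-- ▼ part R122/QExitBind2_837
section

/-!
# Row 122 (helper837): marked exits in the tree-integral form `TS`

* `gcE_lintegral` : Tonelli for `gcE`.
* `measurable_ESJ` : joint measurability of `ES` in the gas and the tree.
* `TS_le_gcE` : `TS H ≤ gcE (sum over trees of the integrals of th * ES)`.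
-/

set_option autoImplicit false

open MeasureTheory Set Filter Topology
open Crest.AnalysisR.Kinetic
open scoped ENNReal

noncomputable section

open scoped Classical

namespace Crest.Agent.R122.QExit837

open Kin796 Kin796.CTree Disc416 Scat818 Flow671 Flux663 Tree674 Mark307
open Crest.Agent.R122.GIV566 Crest.Agent.R122.TreeLines335 Crest.Agent.R122.QExit814
open Crest.Agent.R122.Hid424 Crest.Agent.R122.RtG302 Crest.Agent.R122.GC311
open Crest.Agent.R122.InEq2 Crest.Agent.R122.ToTree335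

variable {Φ : Space3 → ℝ} {f₀ : PhasePoint → ℝ} {ε : ℝ}

/-- Tonelli for the grand-canonical expectation. -/
theorem gcE_lintegral {α : Type*} [MeasurableSpace α] (ν : Measure α) [SFinite ν]
    (hf : Measurable f₀) {F : α → (n : ℕ) → Config n → ℝ≥0∞}
    (hF : ∀ n, Measurable fun p : α × Config n => F p.1 n p.2) :
    ∫⁻ a, gcE f₀ ε (F a) ∂ν = gcE f₀ ε (fun n w => ∫⁻ a, F a n w ∂ν) := by
  have hW : ∀ n, Measurable fun p : α × Config n => gcWeight f₀ ε n p.2 * F p.1 n p.2 := fun n =>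
    ((measurable_gcWeight hf ε n).comp measurable_snd).mul (hF n)
  have h1 : ∀ n, Measurable fun a => ∫⁻ w : Config n, gcWeight f₀ ε n w * F a n w := fun n =>
    (hW n).lintegral_prod_right'
  have h2 : Measurable fun a => ∑' n : ℕ, activity ε ^ n / (n.factorial : ℝ≥0∞) *
      ∫⁻ w : Config n, gcWeight f₀ ε n w * F a n w :=
    Measurable.tsum fun n => (h1 n).const_mul _
  unfold gcE
  rw [lintegral_const_mul _ h2, lintegral_tsum fun n => ((h1 n).const_mul _).aemeasurable]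
  congr 1
  refine tsum_congr fun n => ?_
  rw [lintegral_const_mul _ (h1 n)]
  congr 1
  rw [lintegral_lintegral_swap (hW n).aemeasurable]
  refine lintegral_congr fun w => ?_
  exact lintegral_const_mul _ ((hF n).comp (measurable_id.prodMk measurable_const))

/-! ### Joint measurability -/

theorem measurable_U814 (hΦ : AdmissiblePotential Φ) (hε : 0 < ε) {tw : ℝ} (m : ℕ) (P : CTree) :
    Measurable fun q : Config m × (PhasePoint × Par P) => U814 Φ ε tw q.1 P q.2 := by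
  have h := Q1815.measurable_unhit_hidM hΦ hε P (tw := tw) (W := PhasePoint × Par P)
    (ℓ := fun q => q.1) measurable_fst (p := fun q => q.2) measurable_snd
  have h2 : Measurable fun q : Config m × (PhasePoint × Par P) =>
      (((⟨m, q.1⟩ : Σ n : ℕ, Config n), q.2) : (Σ n : ℕ, Config n) × (PhasePoint × Par P)) :=
    ((measurable_sigmaMk' m).comp measurable_fst).prodMk measurable_snd
  exact h.comp h2

/-- joint measurability of `ES` -/
theorem measurable_ESJ (hΦ : AdmissiblePotential Φ) {m : ℕ}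
    {U : Config m → ∀ P : CTree, PhasePoint × Par P → ℝ≥0∞}
    (hU : ∀ P, Measurable fun q : Config m × (PhasePoint × Par P) => U q.1 P q.2)
    {φ : Config m → QExit814.ML → ℝ≥0∞}
    (hφ : Measurable fun q : Config m × QExit814.ML => φ q.1 q.2) : ∀ P : CTree,
    Measurable fun q : Config m × (PhasePoint × Par P) => ES Φ ε (U q.1) (φ q.1) P q.2
  | leaf => measurable_const
  | node l r => by
      have h0 : Measurable fun q : Config m × (PhasePoint × Par (node l r)) => q.2 := measurable_snd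
      have hp : Measurable fun z : PhasePoint × Par (node l r) => z.2 := measurable_snd
      have hz : Measurable fun z : PhasePoint × Par (node l r) => (z.1, z.2.1) :=
        measurable_fst.prodMk ((measurable_par1 l r).comp hp)
      have hi := (measurable_inM hΦ ε).comp hz
      have hl := (hi.fst.prodMk ((measurable_parL l r).comp hp)).comp h0
      have hr := (hi.snd.prodMk ((measurable_parR l r).comp hp)).comp h0
      have he : Measurable fun z : PhasePoint × Par (node l r) =>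
          ((exitL ε (z.1, z.2.1), l.leaves + r.leaves) : QExit814.ML) :=
        ((measurable_exitL ε).comp hz).prodMk measurable_const
      have hw : Measurable fun q : Config m × (PhasePoint × Par (node l r)) => q.1 := measurable_fst
      exact ((hφ.comp (hw.prodMk (he.comp h0))).mul (((hU l).comp (hw.prodMk hl)).mul
        ((hU r).comp (hw.prodMk hr)))).add
        ((((measurable_ESJ hΦ hU hφ l).comp (hw.prodMk hl)).mul ((hU r).comp (hw.prodMk hr))).add
          (((hU l).comp (hw.prodMk hl)).mul ((measurable_ESJ hΦ hU hφ r).comp (hw.prodMk hr))))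

/-! ### Tree integrals -/

/-- The majorant integrated over the trees with at most `K` leaves. -/
def QI (Φ : Space3 → ℝ) (f₀ : PhasePoint → ℝ) (ε : ℝ) (K : ℕ) (T tw : ℝ)
    (th : ∀ P : CTree, PhasePoint × Par P → ℝ≥0∞)
    (φ : QExit814.ML → ℝ≥0∞) {κ : Type} [Fintype κ] (w : κ → PhasePoint) : ℝ≥0∞ :=
  ∑' P : CTree, if P.leaves ≤ K then ∫⁻ z : PhasePoint × Par P,
    {z : PhasePoint × Par P | Valid Φ ε P T z.1.2 z.2}.indicator
      (fun z => wt Φ P z.1.2 z.2 * (pf Φ f₀ ε P z * (th P z * ES Φ ε (U814 Φ ε tw w) φ P z))) z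
    else 0

/-- The measurable integrand. -/
def AX (Φ : Space3 → ℝ) (f₀ : PhasePoint → ℝ) (ε : ℝ) (K : ℕ) (T tw : ℝ) (P : CTree)
    (th : PhasePoint × Par P → ℝ≥0∞)
    (φ : QExit814.ML → ℝ≥0∞) {κ : Type} [Fintype κ] (w : κ → PhasePoint)
    (z : PhasePoint × Par P) : ℝ≥0∞ :=
  if P.leaves ≤ K then vw Φ ε P T z * (pfM Φ f₀ ε P z *
      (th z * ES Φ ε (U814 Φ ε tw w) φ P z)) else 0

theorem AX_valid {K : ℕ} {T tw : ℝ} {P : CTree} {th : PhasePoint × Par P → ℝ≥0∞}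
    {φ : QExit814.ML → ℝ≥0∞} {κ : Type} [Fintype κ] {w : κ → PhasePoint}
    {z : PhasePoint × Par P} (hz : Valid Φ ε P T z.1.2 z.2) :
    AX Φ f₀ ε K T tw P th φ w z = (wt Φ P z.1.2 z.2 * pf Φ f₀ ε P z) *
      (if P.leaves ≤ K then th z * ES Φ ε (U814 Φ ε tw w) φ P z else 0) := by
  have hv := vw_of_valid (Φ := Φ) hz
  have hp := pfM_of_adm (Φ := Φ) (f₀ := f₀) (ε := ε) hz.1
  unfold AX
  rw [hv, hp]
  by_cases hP : P.leaves ≤ K
  · rw [if_pos hP, if_pos hP, mul_assoc]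
  · rw [if_neg hP, if_neg hP, mul_zero]

theorem AX_not_valid {K : ℕ} {T tw : ℝ} {P : CTree} {th : PhasePoint × Par P → ℝ≥0∞}
    {φ : QExit814.ML → ℝ≥0∞} {κ : Type} [Fintype κ] {w : κ → PhasePoint}
    {z : PhasePoint × Par P} (hz : ¬ Valid Φ ε P T z.1.2 z.2) :
    AX Φ f₀ ε K T tw P th φ w z = 0 := by
  unfold AX
  rw [vw_of_not_valid (Φ := Φ) hz, zero_mul]
  exact ite_self _

theorem measurable_AX (hΦ : AdmissiblePotential Φ) (hf : Measurable f₀) (hε : 0 < ε) {K : ℕ}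
    {T tw : ℝ} {P : CTree} {th : PhasePoint × Par P → ℝ≥0∞} (hth : Measurable th) {m : ℕ}
    {φ : Config m → QExit814.ML → ℝ≥0∞}
    (hφ : Measurable fun q : Config m × QExit814.ML => φ q.1 q.2) :
    Measurable fun q : (PhasePoint × Par P) × Config m =>
      AX Φ f₀ ε K T tw P th (φ q.2) q.2 q.1 := by
  have h0 : Measurable fun q : (PhasePoint × Par P) × Config m => ((q.2, q.1) :
      Config m × (PhasePoint × Par P)) := measurable_snd.prodMk measurable_fst
  have h1 := measurable_ESJ (ε := ε) hΦ (m := m) (U := fun w => U814 Φ ε tw w)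
      (fun Q => measurable_U814 hΦ hε m Q) hφ P
  have h2 := h1.comp h0
  have h3 : Measurable fun q : (PhasePoint × Par P) × Config m => q.1 := measurable_fst
  have h4 := (measurable_vw hΦ ε P T).comp h3
  have h5 := (measurable_pfM (ε := ε) hΦ hf P).comp h3
  have h6 := hth.comp h3
  unfold AX
  by_cases hP : P.leaves ≤ K
  · simp only [if_pos hP]
    exact h4.mul (h5.mul (h6.mul h2))
  · simp only [if_neg hP]
    exact measurable_const

theorem wtpf_ne_top (P : CTree) (z : PhasePoint × Par P) :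
    wt Φ P z.1.2 z.2 * pf Φ f₀ ε P z ≠ ∞ := by
  refine ENNReal.mul_ne_top (TreeLim974.wt_ne_top P _ _) ?_
  unfold pf
  exact ENNReal.prod_ne_top fun i _ => ENNReal.ofReal_ne_top

/-- one tree, pointwise -/
theorem TS_pt {K : ℕ} {T tw : ℝ} {P : CTree} {H : PhasePoint × Par P → (m : ℕ) → Config m → ℝ≥0∞}
    {th : PhasePoint × Par P → ℝ≥0∞} {φ : (m : ℕ) → Config m → QExit814.ML → ℝ≥0∞}
    (hH : ∀ z m w, Valid Φ ε P T z.1.2 z.2 → H z m w ≤
      if P.leaves ≤ K then th z * ES Φ ε (U814 Φ ε tw w) (φ m w) P z else 0)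
    (z : PhasePoint × Par P) :
    {z : PhasePoint × Par P | Valid Φ ε P T z.1.2 z.2}.indicator
      (fun z => wt Φ P z.1.2 z.2 * (pf Φ f₀ ε P z * gcE f₀ ε fun m w => H z m w)) z ≤
    gcE f₀ ε (fun m w => AX Φ f₀ ε K T tw P th (φ m w) w z) := by
  by_cases hz : Valid Φ ε P T z.1.2 z.2
  · rw [indicator_of_mem (show z ∈ {z : PhasePoint × Par P | Valid Φ ε P T z.1.2 z.2} from hz),
      ← mul_assoc, ← gcE_const_mul f₀ ε (wtpf_ne_top P z)]
    refine gcE_mono f₀ ε fun m w _ => ?_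
    rw [AX_valid hz]
    exact mul_le_mul' le_rfl (hH z m w hz)
  · rw [indicator_of_notMem (show z ∉ {z : PhasePoint × Par P | Valid Φ ε P T z.1.2 z.2} from hz)]
    exact bot_le

theorem QI_eq {K : ℕ} {T tw : ℝ} {th : ∀ P : CTree, PhasePoint × Par P → ℝ≥0∞}
    {φ : QExit814.ML → ℝ≥0∞} {κ : Type} [Fintype κ] {w : κ → PhasePoint} :
    QI Φ f₀ ε K T tw th φ w =
      ∑' P : CTree, ∫⁻ z : PhasePoint × Par P, AX Φ f₀ ε K T tw P (th P) φ w z := by
  unfold QI
  refine tsum_congr fun P => ?_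
  by_cases hP : P.leaves ≤ K
  · rw [if_pos hP]
    refine lintegral_congr fun z => ?_
    by_cases hz : Valid Φ ε P T z.1.2 z.2
    · rw [indicator_of_mem (show z ∈ {z : PhasePoint × Par P | Valid Φ ε P T z.1.2 z.2} from hz),
        AX_valid hz, if_pos hP, mul_assoc]
    · rw [indicator_of_notMem (show z ∉ {z : PhasePoint × Par P | Valid Φ ε P T z.1.2 z.2} from hz),
        AX_not_valid hz]
  · rw [if_neg hP]
    have h0 : ∀ z, AX Φ f₀ ε K T tw P (th P) φ w z = 0 := fun z => if_neg hP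
    simp only [h0, lintegral_zero]

theorem TS_le_gcE (hΦ : AdmissiblePotential Φ) (hf : Measurable f₀) (hε : 0 < ε) {K : ℕ}
    {T tw : ℝ} {H : (P : CTree) → PhasePoint × Par P → (m : ℕ) → Config m → ℝ≥0∞}
    {th : ∀ P : CTree, PhasePoint × Par P → ℝ≥0∞} (hth : ∀ P, Measurable (th P))
    {φ : (m : ℕ) → Config m → QExit814.ML → ℝ≥0∞}
    (hφ : ∀ m, Measurable fun q : Config m × QExit814.ML => φ m q.1 q.2)
    (hH : ∀ P z m w, Valid Φ ε P T z.1.2 z.2 → H P z m w ≤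
      if P.leaves ≤ K then th P z * ES Φ ε (U814 Φ ε tw w) (φ m w) P z else 0) :
    InEq2.TS Φ f₀ ε T H ≤ gcE f₀ ε (fun m w => QI Φ f₀ ε K T tw th (φ m w) w) := by
  have mA : ∀ (P : CTree) (m : ℕ), Measurable fun q : (PhasePoint × Par P) × Config m =>
      AX Φ f₀ ε K T tw P (th P) (φ m q.2) q.2 q.1 := fun P m =>
    measurable_AX hΦ hf hε (hth P) (hφ m)
  have h1 : InEq2.TS Φ f₀ ε T H ≤ ∑' P : CTree, ∫⁻ z : PhasePoint × Par P,
      gcE f₀ ε (fun m w => AX Φ f₀ ε K T tw P (th P) (φ m w) w z) := by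
    unfold InEq2.TS
    exact ENNReal.tsum_le_tsum fun P => lintegral_mono fun z =>
      TS_pt (H := H P) (th := th P) (φ := φ) (fun z m w hz => hH P z m w hz) z
  refine h1.trans (le_of_eq ?_)
  have h2 : ∀ P : CTree, ∫⁻ z : PhasePoint × Par P,
      gcE f₀ ε (fun m w => AX Φ f₀ ε K T tw P (th P) (φ m w) w z) =
      gcE f₀ ε (fun m w => ∫⁻ z : PhasePoint × Par P,
        AX Φ f₀ ε K T tw P (th P) (φ m w) w z) := fun P =>
    gcE_lintegral (volume : Measure (PhasePoint × Par P)) hf (mA P)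
  have h3 : ∀ (P : CTree) (m : ℕ), Measurable fun w : Config m => ∫⁻ z : PhasePoint × Par P,
      AX Φ f₀ ε K T tw P (th P) (φ m w) w z := fun P m => by
    have h := (mA P m).comp (measurable_swap (α := Config m) (β := PhasePoint × Par P))
    exact h.lintegral_prod_right'
  rw [tsum_congr h2, ← gcE_tsum hf ε h3]
  exact gcE_congr f₀ ε fun m w _ => QI_eq.symm

end Crest.Agent.R122.QExit837

end
end

-- ▼ part R122/QExitBind3_837

/-!
# Row 122 (helper837): quenched marked exits, consumer forms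

* `QX` : conclusion of helper814's `qexit_gen` at fixed `ε`.
* `QX.ts` : tree-integral form: `TS H ≤ M (C₁ gcE ∫ φ dlineM + δ)` whenever `H ≤ th * ES` on the
  valid trees with at most `K` leaves.
* `ts_exit_prot`, `ts_exit_rel` : `H = th * ghost * ∑_{x ≠ root} φ (lineML P z x)`, ghost =
  avoidance of the protected tubes (`protT`), or of `(curve, b)` with `b ≥ rel`.
* `exists_wQ` : the weights `wQ` (energy of the leaves) with a size factor.
-/

set_option autoImplicit false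

open MeasureTheory Set Filter Topology
open Crest.AnalysisR.Kinetic
open scoped ENNReal

noncomputable section

open scoped Classical

namespace Crest.Agent.R122.QExit837

open Kin796 Kin796.CTree Disc416 Scat818 Flow671 Flux663 Tree674 Mark307
open Crest.Agent.R122.GIV566 Crest.Agent.R122.TreeLines335 Crest.Agent.R122.QExit814
open Crest.Agent.R122.Hid424 Crest.Agent.R122.RtG302 Crest.Agent.R122.GC311
open Crest.Agent.R122.InEq2 Crest.Agent.R122.ToTree335 Crest.Agent.R122.Boltz814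
open Crest.Agent.R122.EDefs602 Crest.Agent.R122.Master566

variable {Φ : Space3 → ℝ} {f₀ : PhasePoint → ℝ} {f : ℝ → PhasePoint → ℝ} {ε : ℝ}

/-- Conclusion of `qexit_gen` at fixed `ε`. -/
def QX (Φ : Space3 → ℝ) (f₀ : PhasePoint → ℝ) (ε : ℝ) (K : ℕ) (T' tw lam₁ kap : ℝ) (γ : ℝ → ℝ)
    (ρ C₁ δ : ℝ≥0∞) : Prop :=
  ∀ φ : (n : ℕ) → Config n → QExit814.ML → ℝ≥0∞, (∀ n w, Measurable (φ n w)) →
    (∀ n w l, φ n w l ≤ 1) →
  ∀ M : ℝ≥0∞, M ≠ ∞ →
  ∀ th : (n : ℕ) → Config n → (P : CTree) → PhasePoint × Par P → ℝ≥0∞,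
    (∀ n w P z, Valid Φ ε P T' z.1.2 z.2 → th n w P z ≤ M * ENNReal.ofReal lam₁ ^ P.size *
      ENNReal.ofReal (Real.exp (kap * Seg814.eng Φ P z.1.2 z.2))) →
  gcE f₀ ε (fun n w => ∑' P : CTree, if P.leaves ≤ K then ∫⁻ z : PhasePoint × Par P,
    {z : PhasePoint × Par P | Valid Φ ε P T' z.1.2 z.2}.indicator
      (fun z => wt Φ P z.1.2 z.2 * (∏ i, ENNReal.ofReal (f₀ (lines Φ ε P z.1 z.2 i))) *
        th n w P z * ES Φ ε (fun Q y => GIV566.unhitInd Φ ε (Q1815.hidM Φ ε Q y.1 y.2) tw w)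
          (φ n w) P z) z else 0) ≤
    M * (C₁ * gcE f₀ ε (fun n w => ∫⁻ l, φ n w l ∂EDefs602.lineM γ ρ K T') + δ)

/-- The set-up of the consumers: constants uniform in the windows and the horizons `T' ≤ tw + h₀`. -/
theorem exists_qx {β T : ℝ} (hD : KData Φ β T f₀ f) {h₀ kap lam C b : ℝ}
    (hK : Seg814.KinC Φ T f h₀ kap lam C b) (hkap : kap ≤ β) {lam₁ : ℝ} (h1 : 1 < lam₁)
    (h2 : lam₁ < lam) :
    ∃ g₁ : ℝ, 0 < g₁ ∧ ∃ ρ₁ : ℝ≥0∞, ρ₁ < 1 ∧ ∃ C₁ : ℝ≥0∞, C₁ ≠ ∞ ∧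
      ∀ (γ : ℝ → ℝ) (ρ : ℝ≥0∞), ρ₁ ≤ ρ → ∀ tw ∈ Icc 0 T, GIV566.GIV Φ f₀ f T tw →
      ∀ T' : ℝ, 0 < T' → T' ≤ tw + h₀ → (∀ τ ∈ Ioc 0 T', γ τ ≤ g₁) → ∀ K : ℕ,
      ∃ δ : ℝ → ℝ≥0∞, Tendsto δ (𝓝[>] 0) (𝓝 0) ∧ ∀ ε : ℝ, 0 < ε →
        QX Φ f₀ ε K T' tw lam₁ kap γ ρ C₁ (δ ε) :=
  qexit_gen hD hK hkap h1 h2

section ts

variable {K : ℕ} {T' tw lam₁ kap : ℝ} {γ : ℝ → ℝ} {ρ C₁ δ : ℝ≥0∞}

/-- **Tree-integral form.** -/
theorem QX.ts (h : QX Φ f₀ ε K T' tw lam₁ kap γ ρ C₁ δ) (hΦ : AdmissiblePotential Φ)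
    (hf : Measurable f₀) (hε : 0 < ε)
    {φ : (m : ℕ) → Config m → QExit814.ML → ℝ≥0∞}
    (hφ : ∀ m, Measurable fun q : Config m × QExit814.ML => φ m q.1 q.2)
    (hφ1 : ∀ m w l, φ m w l ≤ 1) {M : ℝ≥0∞} (hM : M ≠ ∞)
    {th : ∀ P : CTree, PhasePoint × Par P → ℝ≥0∞} (hth : ∀ P, Measurable (th P))
    (hthM : ∀ P z, Valid Φ ε P T' z.1.2 z.2 → th P z ≤ M * ENNReal.ofReal lam₁ ^ P.size *
      ENNReal.ofReal (Real.exp (kap * Seg814.eng Φ P z.1.2 z.2)))
    {H : (P : CTree) → PhasePoint × Par P → (m : ℕ) → Config m → ℝ≥0∞}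
    (hH : ∀ P z m w, Valid Φ ε P T' z.1.2 z.2 → H P z m w ≤
      if P.leaves ≤ K then th P z * ES Φ ε (U814 Φ ε tw w) (φ m w) P z else 0) :
    InEq2.TS Φ f₀ ε T' H ≤
      M * (C₁ * gcE f₀ ε (fun m w => ∫⁻ l, φ m w l ∂EDefs602.lineM γ ρ K T') + δ) := by
  refine (TS_le_gcE hΦ hf hε hth hφ hH).trans ?_
  refine le_trans (gcE_mono f₀ ε fun m w _ => ?_) (h φ (fun m w => (hφ m).comp
    (measurable_const.prodMk measurable_id)) hφ1 M hM (fun _ _ P z => th P z)
    (fun _ _ P z hz => hthM P z hz))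
  unfold QI
  refine ENNReal.tsum_le_tsum fun P => ?_
  by_cases hP : P.leaves ≤ K
  · rw [if_pos hP, if_pos hP]
    refine lintegral_mono fun z => ?_
    by_cases hz : Valid Φ ε P T' z.1.2 z.2
    · rw [indicator_of_mem (show z ∈ {z : PhasePoint × Par P | Valid Φ ε P T' z.1.2 z.2} from hz),
        indicator_of_mem (show z ∈ {z : PhasePoint × Par P | Valid Φ ε P T' z.1.2 z.2} from hz)]
      refine le_of_eq ?_
      show _ = wt Φ P z.1.2 z.2 * pf Φ f₀ ε P z * th P z * ES Φ ε (U814 Φ ε tw w) (φ m w) P z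
      ring
    · rw [indicator_of_notMem (show z ∉ {z : PhasePoint × Par P | Valid Φ ε P T' z.1.2 z.2} from hz)]
      exact bot_le
  · rw [if_neg hP]
    exact bot_le


/-- Ghost = avoidance of the tubes `(curve, b)`, `b ≥ rel`, separated trees. -/
theorem QX.ts_rel (h : QX Φ f₀ ε K T' tw lam₁ kap γ ρ C₁ δ) (hΦ : AdmissiblePotential Φ)
    (hf : Measurable f₀) (hε : 0 < ε)
    {φ : (m : ℕ) → Config m → QExit814.ML → ℝ≥0∞}
    (hφ : ∀ m, Measurable fun q : Config m × QExit814.ML => φ m q.1 q.2)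
    (hφ1 : ∀ m w l, φ m w l ≤ 1) {M : ℝ≥0∞} (hM : M ≠ ∞)
    {th : ∀ P : CTree, PhasePoint × Par P → ℝ≥0∞} (hth : ∀ P, Measurable (th P))
    (hthM : ∀ P z, Valid Φ ε P T' z.1.2 z.2 → th P z ≤ M * ENNReal.ofReal lam₁ ^ P.size *
      ENNReal.ofReal (Real.exp (kap * Seg814.eng Φ P z.1.2 z.2)))
    {b : (P : CTree) → PhasePoint × Par P → Idx P → ℝ} (hb : ∀ P z i, TreeLines335.rel P z.2 i ≤ b P z i)
    {H : (P : CTree) → PhasePoint × Par P → (m : ℕ) → Config m → ℝ≥0∞}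
    (hH : ∀ P z m w, Valid Φ ε P T' z.1.2 z.2 → H P z m w ≤
      if P.leaves ≤ K ∧ Sep Φ ε P T' z.1 z.2 then
        th P z * (unhitInd Φ ε (treeT Φ ε P z.1 z.2 (b P z)) tw w *
          ∑ x : {i : Idx P // i ≠ root P}, φ m w (lineML Φ ε P z x)) else 0) :
    InEq2.TS Φ f₀ ε T' H ≤
      M * (C₁ * gcE f₀ ε (fun m w => ∫⁻ l, φ m w l ∂EDefs602.lineM γ ρ K T') + δ) := by
  refine h.ts hΦ hf hε hφ hφ1 hM hth hthM fun P z m w hz => (hH P z m w hz).trans ?_
  by_cases hP : P.leaves ≤ K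
  · by_cases hs : Sep Φ ε P T' z.1 z.2
    · rw [if_pos ⟨hP, hs⟩, if_pos hP]
      exact mul_le_mul' le_rfl (ghost_sum_le hΦ hε hz hs (hb P z) (φ m w))
    · rw [if_neg (fun hh => hs hh.2)]
      exact bot_le
  · rw [if_neg (fun hh => hP hh.1)]
    exact bot_le

end ts

/-! ### Weights -/

/-- energy weight with a size factor `1[m ≤ size]`: geometric gain in `m` -/
theorem exists_wQ (Φ : Space3 → ℝ) {lam₀ lam₁ kap : ℝ} (h0 : 1 < lam₀) (h1 : lam₀ < lam₁)
    (hkap : 0 < kap) : ∃ M₀ : ℝ≥0∞, M₀ ≠ ∞ ∧ ∀ (m : ℕ) (ε T' : ℝ) (P : CTree)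
      (z : PhasePoint × Par P), Valid Φ ε P T' z.1.2 z.2 →
      (if m ≤ P.size then wQ Φ ε P z else 0) ≤
        (M₀ * ENNReal.ofReal (lam₀ / lam₁) ^ m) * ENNReal.ofReal lam₁ ^ P.size *
          ENNReal.ofReal (Real.exp (kap * Seg814.eng Φ P z.1.2 z.2)) := by
  obtain ⟨M, hM, h⟩ := Seg814.exists_additive_le (Φ := Φ) h0 hkap
  refine ⟨ENNReal.ofReal M, ENNReal.ofReal_ne_top, fun m ε T' P z hz => ?_⟩
  split_ifs with hm
  · have e1 : wQ Φ ε P z = ∑ i : Idx P, ENNReal.ofReal (1 + ‖vels Φ P z.1.2 z.2 i‖ ^ 2) := by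
      rw [wQ_eq hz.1]
      refine Finset.sum_congr rfl fun i _ => ?_
      rw [Hid424.lines_vel]
    rw [e1]
    refine (h P z.1.2 z.2).trans ?_
    refine mul_le_mul' ?_ le_rfl
    rw [mul_assoc]
    refine mul_le_mul' le_rfl ?_
    have p0 : (0 : ℝ) < lam₀ := by linarith
    have p1 : (0 : ℝ) < lam₁ := by linarith
    obtain ⟨j, hj⟩ := Nat.exists_eq_add_of_le hm
    rw [hj, pow_add, pow_add, ← mul_assoc]
    refine mul_le_mul' ?_ (pow_le_pow_left' (ENNReal.ofReal_le_ofReal h1.le) j)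
    rw [← mul_pow, ← ENNReal.ofReal_mul (by positivity), div_mul_cancel₀ _ p1.ne']
  · exact bot_le

/-- `1 + |v|` of the root is below `2 wQ` -/
theorem root_le_wQ (hΦ : AdmissiblePotential Φ) {P : CTree} {T' : ℝ} {z : PhasePoint × Par P}
    (hz : Valid Φ ε P T' z.1.2 z.2) : ENNReal.ofReal (1 + ‖z.1.2‖) ≤ 2 * wQ Φ ε P z := by
  have h := Q1815.rootA_le_wtA (s := (0 : ℝ)) (ℓ := z.1) hΦ hz.1
  have e : Q1815.wtA Φ P ((0 : ℝ), z.1, z.2) = wQ Φ ε P z := by
    rw [Q1815.wtA_eq_lines (ε := ε), wQ_eq hz.1]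
  rw [e] at h
  exact h

end Crest.Agent.R122.QExit837

end
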