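import Crest.Agent.R122.InEq2Main_311
import Crest.Agent.R122.SizeX1_974
import Crest.Agent.R122.InEq2APt_263
import Crest.Agent.R122.Q1Data_815
import Crest.Agent.R122.TopV_602
import Crest.Agent.R122.D5Main_726
import Crest.Agent.R122.TouchNull_302
import Crest.Agent.R122.OneCDefs_285
import Crest.Agent.R122.ChainFam_726
import Crest.Agent.R122.RtG_302
import Crest.Agent.R122.InEq2Hist_311
import Crest.Agent.R122.Master_566
import Mathlib.MeasureTheory.Measure.Haar.Disintegration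
import Crest.Agent.R122.EMDefs_602

-- ▼ part R122/InEq2M_311
section

/-!
# Row 122, INEQUALITY 2' (helper311): trees with more than `K` leaves (`FM`)

`inB_FM` : the closed clusters of size in `(K, 2K]` which are trees not hit before the window have
small mass, from helper974's two-time tree integrals `JX`.
-/

set_option autoImplicit false

open MeasureTheory Set Filter Topology
open scoped ENNReal
open Crest.AnalysisR.Kinetic
open Crest.Agent.R122.Master566 Crest.Agent.R122.GIV566 Crest.Agent.R122.Top602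
open Crest.Agent.R122.EDefs602 Crest.Agent.R122.GC311 Crest.Agent.R122.Causal291
open Crest.Agent.R122.Kin796 Crest.Agent.R122.Kin796.CTree Crest.Agent.R122.Tree674
open Crest.Agent.R122.TreeBound335 Crest.Agent.R122.ToTree335 Crest.Agent.R122.Band974
open Crest.Agent.R122.TreeLim974 (goodS measurableSet_goodS)
open Crest.Agent.R122.SizeX974 (JX WtT exists_JX_tail JX_small)

noncomputable section

open scoped Classical

namespace Crest.Agent.R122.InEq2

variable {Φ : Space3 → ℝ} {f₀ : PhasePoint → ℝ} {f : ℝ → PhasePoint → ℝ} {ε : ℝ} {K : ℕ}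
  {A : EPar} {T' : ℝ}

/-- Labels of a tree writing the block. -/
theorem exists_equiv_of_range {ι : Type*} {k m : ℕ} {e : ι → Fin (k + m)}
    (hi : Function.Injective e) (hr : range e = ↑(block k m)) :
    ∃ e' : ι ≃ Fin k, ∀ x, e x = Fin.castAdd m (e' x) := by
  have h1 : ∀ x, ∃ a : Fin k, Fin.castAdd m a = e x := by
    intro x
    have hx : e x ∈ (↑(block k m) : Set (Fin (k + m))) := hr ▸ mem_range_self x
    rw [Finset.mem_coe, block, Finset.mem_map] at hx
    obtain ⟨a, -, ha⟩ := hx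
    exact ⟨a, ha⟩
  choose g hg using h1
  refine ⟨Equiv.ofBijective g ⟨fun x y hxy => hi ?_, fun b => ?_⟩, fun x => (hg x).symm⟩
  · rw [← hg x, ← hg y, hxy]
  · have hb : Fin.castAdd m b ∈ (↑(block k m) : Set (Fin (k + m))) := by
      rw [Finset.mem_coe, block, Finset.mem_map]
      exact ⟨b, Finset.mem_univ _, rfl⟩
    rw [← hr] at hb
    obtain ⟨x, hx⟩ := hb
    refine ⟨x, Fin.castAdd_injective k m ?_⟩
    rw [hg x, hx]

theorem card_block (k m : ℕ) : (block k m).card = k := by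
  rw [block, Finset.card_map, Finset.card_univ, Fintype.card_fin]

/-- Joint measurability of the avoidance of the protected tubes. -/
theorem measurable_unhit_goodS (hΦ : AdmissiblePotential Φ) (hε : 0 < ε) (P : CTree) {tw : ℝ}
    (htw : 0 ≤ tw) (T' : ℝ) (m : ℕ) {g : (PhasePoint × Par P) × Config m → ℝ≥0∞}
    (hg : Measurable g) :
    Measurable fun q : (PhasePoint × Par P) × Config m =>
      if q.1 ∈ goodS Φ ε P T' then g q * unhitInd Φ ε (PT Φ ε P T' q.1.1 q.1.2) tw q.2 else 0 := by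
  have hgm := measurableSet_goodS hΦ hε P T'
  set S : (PhasePoint × Par P) × Config m → Tubes (Idx P) := fun q =>
    ⟨fun i s => if q.1 ∈ goodS Φ ε P T' then (pathM Φ ε P s q.1.1 q.1.2 i).1 else 0,
      prot P T' q.1.2⟩ with hS
  have hgm' : MeasurableSet {q : (PhasePoint × Par P) × Config m | q.1 ∈ goodS Φ ε P T'} :=
    measurable_fst hgm
  have hm : Measurable fun q : (PhasePoint × Par P) × Config m =>
      unhitInd Φ ε (S q) tw q.2 := by
    refine GIV566.measurable_unhitInd hΦ hε (T := tw) htw (S := S) (fun q i => ?_)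
      (fun i s => ?_) (fun i => ?_) measurable_const (fun _ => le_rfl) measurable_snd
    · by_cases hz : q.1 ∈ goodS Φ ε P T'
      · have e : (S q).c i = fun s => (path Φ ε P q.1.1 q.1.2 s i).1 := by
          funext s
          simp only [hS, if_pos hz]
          rw [pathM_of_adm hΦ ε s hz.1.1]
        rw [e]
        have h := Tree674.continuous_path hΦ hε hz.1
        exact (continuous_fst.comp ((continuous_apply i).comp h)).continuousOn
      · have e : (S q).c i = fun _ => 0 := by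
          funext s
          simp only [hS, if_neg hz]
        rw [e]
        exact continuousOn_const
    · refine Measurable.ite hgm' ?_ measurable_const
      exact ((Band974.measurable_pathM' hΦ ε P i).comp
        (measurable_fst.prodMk measurable_const)).fst
    · exact (measurable_prot P i).comp (f := fun q : (PhasePoint × Par P) × Config m =>
        (T', q.1.2)) (measurable_const.prodMk measurable_fst.snd)
  have h4 : (fun q : (PhasePoint × Par P) × Config m =>
      if q.1 ∈ goodS Φ ε P T' then g q * unhitInd Φ ε (PT Φ ε P T' q.1.1 q.1.2) tw q.2 else 0) =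
      fun q => if q.1 ∈ goodS Φ ε P T' then g q * unhitInd Φ ε (S q) tw q.2 else 0 := by
    funext q
    by_cases hz : q.1 ∈ goodS Φ ε P T'
    · rw [if_pos hz, if_pos hz]
      congr 2
      simp only [hS, if_pos hz, PT]
      congr 1
      funext i s
      rw [pathM_of_adm hΦ ε s hz.1.1]
    · rw [if_neg hz, if_neg hz]
  rw [h4]
  exact Measurable.ite hgm' (hg.mul hm) measurable_const

/-- The tree functional of `FM`. -/
def HM (Φ : Space3 → ℝ) (ε : ℝ) (K : ℕ) (tw T' : ℝ) (P : CTree) (z : PhasePoint × Par P) (m : ℕ)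
    (w : Config m) : ℝ≥0∞ :=
  if K < P.leaves ∧ P.leaves ≤ 2 * K then
    (if z ∈ goodS Φ ε P T' then
      ((activity ε)⁻¹ * wQ Φ ε P z) * unhitInd Φ ε (PT Φ ε P T' z.1 z.2) tw w else 0) else 0

theorem measTS_HM (hΦ : AdmissiblePotential Φ) (hε : 0 < ε) {tw : ℝ} (htw : 0 ≤ tw) :
    MeasTS (HM Φ ε K tw T') := by
  intro P m
  unfold HM
  by_cases h : K < P.leaves ∧ P.leaves ≤ 2 * K
  · simp only [if_pos h]
    exact measurable_unhit_goodS hΦ hε P htw T' m
      (((measurable_wQ hΦ P).comp measurable_fst).const_mul _)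
  · simp only [if_neg h]
    exact measurable_const

theorem wQ_eq_WtT {P : CTree} {z : PhasePoint × Par P} (h : Adm Φ P z.1.2 z.2) :
    wQ Φ ε P z = WtT Φ P z := by
  rw [wQ_eq h]
  unfold WtT
  refine Finset.sum_congr rfl fun i _ => ?_
  rw [Hid424.lines_vel]

theorem wQ_ne_top (P : CTree) (z : PhasePoint × Par P) : wQ Φ ε P z ≠ ∞ := by
  unfold wQ
  exact (ENNReal.sum_lt_top.2 fun i _ => ENNReal.ofReal_lt_top).ne

theorem act_TS_HM (hε : 0 < ε) (tw T' : ℝ) :
    activity ε * TS Φ f₀ ε T' (HM Φ ε K tw T') = ∑ P ∈ bandT K (2 * K), JX Φ f₀ ε P tw T' := by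
  have ha0 : activity ε ≠ 0 := activity_ne_zero hε
  have hat : activity ε ≠ ∞ := activity_ne_top ε
  have hai : (activity ε)⁻¹ ≠ ∞ := ENNReal.inv_ne_top.2 ha0
  have key : ∀ P : CTree, activity ε * ∫⁻ z : PhasePoint × Par P,
      {z : PhasePoint × Par P | Valid Φ ε P T' z.1.2 z.2}.indicator
        (fun z => wt Φ P z.1.2 z.2 * (pf Φ f₀ ε P z *
          gcE f₀ ε fun m w => HM Φ ε K tw T' P z m w)) z =
      if P ∈ bandT K (2 * K) then JX Φ f₀ ε P tw T' else 0 := by
    intro P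
    by_cases h : K < P.leaves ∧ P.leaves ≤ 2 * K
    · rw [if_pos (mem_bandT.2 h)]
      unfold JX
      rw [← lintegral_const_mul' _ _ hat]
      refine lintegral_congr fun z => ?_
      by_cases hz : z ∈ goodS Φ ε P T'
      · rw [indicator_of_mem (show z ∈ {z : PhasePoint × Par P | Valid Φ ε P T' z.1.2 z.2} from
          hz.1), indicator_of_mem hz]
        have h1 : gcE f₀ ε (fun m w => HM Φ ε K tw T' P z m w) =
            ((activity ε)⁻¹ * wQ Φ ε P z) * uG Φ f₀ ε (PT Φ ε P T' z.1 z.2) tw := by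
          unfold uG
          rw [← gcE_const_mul f₀ ε (ENNReal.mul_ne_top hai (wQ_ne_top P z))]
          refine gcE_congr f₀ ε fun m w _ => ?_
          unfold HM
          rw [if_pos h, if_pos hz]
        rw [h1, wQ_eq_WtT hz.1.1]
        calc activity ε * (wt Φ P z.1.2 z.2 * (pf Φ f₀ ε P z * ((activity ε)⁻¹ * WtT Φ P z *
              uG Φ f₀ ε (PT Φ ε P T' z.1 z.2) tw)))
            = (activity ε * (activity ε)⁻¹) * (wt Φ P z.1.2 z.2 * (pf Φ f₀ ε P z * (WtT Φ P z *
              uG Φ f₀ ε (PT Φ ε P T' z.1 z.2) tw))) := by ring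
          _ = _ := by rw [ENNReal.mul_inv_cancel ha0 hat, one_mul]
      · rw [indicator_of_notMem hz]
        have h1 : gcE f₀ ε (fun m w => HM Φ ε K tw T' P z m w) = 0 := by
          rw [← gcE_zero f₀ ε]
          refine gcE_congr f₀ ε fun m w _ => ?_
          unfold HM
          rw [if_pos h, if_neg hz]
        by_cases hv : z ∈ {z : PhasePoint × Par P | Valid Φ ε P T' z.1.2 z.2}
        · rw [indicator_of_mem hv, h1, mul_zero, mul_zero, mul_zero]
        · rw [indicator_of_notMem hv, mul_zero]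
    · rw [if_neg fun h' => h (mem_bandT.1 h')]
      have h1 : ∀ z : PhasePoint × Par P, {z : PhasePoint × Par P |
          Valid Φ ε P T' z.1.2 z.2}.indicator (fun z => wt Φ P z.1.2 z.2 * (pf Φ f₀ ε P z *
            gcE f₀ ε fun m w => HM Φ ε K tw T' P z m w)) z = 0 := by
        intro z
        by_cases hv : z ∈ {z : PhasePoint × Par P | Valid Φ ε P T' z.1.2 z.2}
        · rw [indicator_of_mem hv]
          have h2 : gcE f₀ ε (fun m w => HM Φ ε K tw T' P z m w) = 0 := by
            rw [← gcE_zero f₀ ε]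
            refine gcE_congr f₀ ε fun m w _ => ?_
            unfold HM
            rw [if_neg h]
          rw [h2, mul_zero, mul_zero]
        · rw [indicator_of_notMem hv]
      simp only [h1, lintegral_zero, mul_zero]
  unfold TS
  rw [← ENNReal.tsum_mul_left, tsum_congr key]
  rw [tsum_eq_sum (s := bandT K (2 * K)) fun P hP => if_neg hP]
  exact Finset.sum_congr rfl fun P hP => if_pos hP

/-- Pointwise bound of `FM`. -/
theorem FM_le_ways (hΦ : AdmissiblePotential Φ) (hε : 0 < ε) (hte : 0 ≤ A.te) (hT' : 0 ≤ T')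
    {k m : ℕ} (V : Config k) (w : Config m) (j : Fin k) :
    FM Φ ε K A T' k m V w j ≤ ways Φ ε T' (fun P z => HM Φ ε K A.tw T' P z m w) V j := by
  unfold FM
  by_cases h : JC Φ ε K A V w j ∧ HTUc Φ ε K A T' V w j
  swap
  · rw [if_neg h]
    exact zero_le
  rw [if_pos h]
  obtain ⟨⟨hblock, hjoin, hK1, hK2⟩, P, ℓ, p, e, hH, hu⟩ := h
  have hσ0 : 0 ≤ sgm Φ ε K A V w j := iTime_nonneg hte _ _
  have hr : range e = ↑(block k m) := by
    rw [hH.range_eq hε hT' hσ0, ← hblock, Set.coe_toFinset]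
  obtain ⟨e', he'⟩ := exists_equiv_of_range hH.inj hr
  have hl : ∀ x, V (e' x) = lines Φ ε P ℓ p x := by
    intro x
    have h1 := hH.lines_eq hΦ hε hT' hσ0 x
    rw [he' x] at h1
    rw [← h1]
    exact (Fin.append_left V w (e' x)).symm
  have hcard : P.leaves = k := by
    have h1 := Fintype.card_congr e'
    rw [Fintype.card_fin] at h1
    rw [← h1]
    exact (Tree674.card_idx P).symm
  have hgas : gasSize Φ ε (k + m) (cat V w) (sgm Φ ε K A V w j) (Fin.castAdd m j) = k := by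
    have h1 : gasSize Φ ε (k + m) (cat V w) (sgm Φ ε K A V w j) (Fin.castAdd m j) =
        (BC (Ct (pth Φ ε (cat V w)) ε) (sgm Φ ε K A V w j) (Fin.castAdd m j)).ncard := rfl
    rw [h1, ← Set.coe_toFinset (BC (Ct (pth Φ ε (cat V w)) ε) (sgm Φ ε K A V w j)
      (Fin.castAdd m j)), hblock, ncard_coe_finset, card_block]
  rw [hgas] at hK1 hK2
  have hj : e' (Tree674.root P) = j := by
    have h1 := hH.root
    rw [he'] at h1
    exact Fin.castAdd_injective k m h1
  refine le_ways_of hΦ hε e' hj hH.valid hl ?_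
  have hgood : (ℓ, p) ∈ goodS Φ ε P T' := ⟨hH.valid, hH.sep⟩
  have hu1 : unhitInd Φ ε (PT Φ ε P T' ℓ p) A.tw w = 1 := if_pos hu
  have h2 : HM Φ ε K A.tw T' P (ℓ, p) m w = (activity ε)⁻¹ * wQ Φ ε P (ℓ, p) := by
    unfold HM
    rw [if_pos (by rw [hcard]; exact ⟨hK1, hK2⟩), if_pos hgood, hu1, mul_one]
  rw [h2]
  unfold bwt
  rw [eW_block (P := P) (z := (ℓ, p)) e' hH.valid.1 hl]

/-- **The closed clusters of size in `(K, 2K]`** which are trees not hit before the window. -/
theorem inB_FM {β T : ℝ} {γ : ℝ → ℝ} {ρ : ℝ≥0∞} (hD : KData Φ β T f₀ f) :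
    ∃ h₁ : ℝ, 0 < h₁ ∧ ∀ h₀ : ℝ, 0 < h₀ → h₀ ≤ h₁ → InB Φ f₀ f T γ ρ h₀ FM := by
  obtain ⟨h₁, r, C, hh₁, hr, hr1, hC, htail⟩ := exists_JX_tail hD
  refine ⟨h₁, hh₁, fun h₀ hh₀ hle => InB.of_small ?_⟩
  refine EvW.of_forall fun h L tw te _ _ _ hwin hIH => ?_
  have htw : tw ∈ Icc 0 T := ⟨hwin.nonneg, hwin.le.trans hwin.le_T⟩
  have hT' : tw + h₀ ∈ Icc 0 (tw + h₁) := ⟨by linarith [hwin.nonneg], by linarith⟩
  have h1 := htail tw htw (tw + h₀) hT' hIH.giv
  refine ⟨fun K ε => ∑ P ∈ bandT K (2 * K), JX Φ f₀ ε P tw (tw + h₀),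
    JX_small (h₀ := h₁) hr hr1 hC h1 (k₁ := fun K => K) (k₂ := fun K => 2 * K) tendsto_id,
    Ev.of_forall fun K ε hε => ?_⟩
  refine Bnd.of_H (H := HM Φ ε K tw (tw + h₀)) (measTS_HM hD.adm hε hwin.nonneg)
    (fun k m V w j _ _ _ => ?_) (act_TS_HM hε tw (tw + h₀)).le
  exact FM_le_ways (A := epar γ ρ L tw te) hD.adm hε (hwin.nonneg.trans hwin.le) hT'.1 V w j

end Crest.Agent.R122.InEq2

end
end

-- ▼ part R122/InEq2BindA_311
section

/-!
# Row 122, INEQUALITY 2' (helper311): the main term `FA`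

`inB_FA` : binding of helper263's flux bound (`fluxA`, `le_ways_HA`).
-/

set_option autoImplicit false

open MeasureTheory Set Filter Topology
open scoped ENNReal
open Crest.AnalysisR.Kinetic
open Crest.Agent.R122.Master566 Crest.Agent.R122.GIV566 Crest.Agent.R122.Top602
open Crest.Agent.R122.EDefs602 Crest.Agent.R122.GC311 Crest.Agent.R122.Causal291
open Crest.Agent.R122.Kin796 Crest.Agent.R122.Kin796.CTree Crest.Agent.R122.Tree674
open Crest.Agent.R122.TreeBound335 Crest.Agent.R122.ToTree335 Crest.Agent.R122.Band974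

noncomputable section

open scoped Classical

namespace Crest.Agent.R122.InEq2

variable {Φ : Space3 → ℝ} {f₀ : PhasePoint → ℝ} {f : ℝ → PhasePoint → ℝ} {ε : ℝ} {K : ℕ}
  {A : EPar} {T' : ℝ}

section basic

variable {k m : ℕ} {V : Config k} {w : Config m} {j : Fin k}

theorem JI.pos (h : JI Φ ε K A V w j) (htw : 0 ≤ A.tw) : 0 < sgm Φ ε K A V w j :=
  htw.trans_lt h.2.1.1

/-- The cluster strictly before the infection time has at most `K` members. -/
theorem JI.le_K (h : JI Φ ε K A V w j) (hΦ : AdmissiblePotential Φ) (hε : 0 < ε)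
    (htw : 0 ≤ A.tw) : k ≤ K := by
  have h1 := card_preC_le (K := K) (T := A.te) (w := cat V w) (q := Fin.castAdd m j) hΦ hε
    (h.pos htw)
  have h2 : preC Φ ε (cat V w) (iTime Φ ε K A.te (cat V w) (Fin.castAdd m j))
      (Fin.castAdd m j) = block k m := h.1
  rw [h2, card_block] at h1
  exact h1

/-- The labels of the tree of the history write the block. -/
theorem JI.range_eq (h : JI Φ ε K A V w j) (hε : 0 < ε) (htw : 0 ≤ A.tw) (hT' : 0 ≤ T')
    {P : CTree} {ℓ : PhasePoint} {p : Par P} {e : Idx P → Fin (k + m)}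
    (hH : HTreeP Φ ε T' (sgm Φ ε K A V w j) (cat V w) (Fin.castAdd m j) P ℓ p e) :
    range e = ↑(block k m) := by
  rw [hH.range_eq hε hT' (h.pos htw), ← h.1]
  ext x
  rw [Finset.mem_coe]
  exact (mem_preC_iff_pre (cat V w) (h.pos htw) (Fin.castAdd m j) x).symm

/-- A particle of `w` infected before is infected at `σ`. -/
theorem iTime_le_of_gInfB (hΦ : AdmissiblePotential Φ) (hε : 0 < ε) {n : ℕ} {Z : Config n}
    {σ : ℝ} (hσ : σ ≤ A.te + 1) {i : Fin n} (h : GInfB Φ ε K Z σ i) :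
    iTime Φ ε K A.te Z i ≤ σ := ((gInfB_iff_sig hΦ hε hσ).1 h).le

end basic

/-- Pointwise bound of `FA` by helper263's functional. -/
theorem FA_le_ways (hΦ : AdmissiblePotential Φ) (hε : 0 < ε) (hL : 0 ≤ A.L) (htw : 0 ≤ A.tw)
    (hT' : 0 ≤ T') (hte : A.te ≤ T') {k m : ℕ} (V : Config k) (w : Config m) (j : Fin k) :
    FA Φ ε K A T' k m V w j ≤ ways Φ ε T' (fun R z => InEq2A263.HA Φ ε K A R z m w) V j := by
  unfold FA
  by_cases h : JI Φ ε K A V w j ∧ Untch Φ ε K A V w j ∧ HTU Φ ε K A T' V w j ∧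
      HitA Φ ε K A V w j
  swap
  · rw [if_neg h]
    exact zero_le
  rw [if_pos h]
  obtain ⟨hJ, -, ⟨P, ℓ, p, e, hH, hu⟩, hfree, l, hl, hd⟩ := h
  have hσe : sgm Φ ε K A V w j ≤ A.te := hJ.2.1.2
  have hroot : pth Φ ε (Fin.append V w) (sgm Φ ε K A V w j) (Fin.castAdd m j) =
      onLine ℓ (sgm Φ ε K A V w j) :=
    hH.free hΦ hε (hJ.pos htw) (hσe.trans hte) hfree
  have h1 := InEq2A263.le_ways_HA (P := A) (K := K) hΦ hε hL hT' (hJ.pos htw) (V := V) (w := w)
    (j := j) (hJ.le_K hΦ hε htw) hJ.2.1.1.le hσe hH (hJ.range_eq hε htw hT' hH) hu hroot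
    (i := l) (iTime_le_of_gInfB (A := A) hΦ hε (by linarith) hl) (by rw [dist_comm]; exact hd)
  rw [← mul_assoc] at h1
  exact h1

/-- **The main term.** -/
theorem inB_FA {β T : ℝ} {γ : ℝ → ℝ} {ρ : ℝ≥0∞} (hD : KData Φ β T f₀ f) :
    ∃ h₁ : ℝ, 0 < h₁ ∧ ∀ h₀ : ℝ, 0 < h₀ → h₀ ≤ h₁ → InB Φ f₀ f T γ ρ h₀ FA := by
  obtain ⟨h₁, hh₁, c, hc, hflux⟩ := InEq2A263.fluxA (f₀ := f₀) hD.adm hD.beta_pos hD.T_pos hD.sol
  refine ⟨h₁, hh₁, fun h₀ hh₀ hle => ?_⟩
  have hcB : c * 2 * ENNReal.ofReal (Unw410.cB Φ) ≠ ∞ :=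
    ENNReal.mul_ne_top (ENNReal.mul_ne_top hc (by norm_num)) ENNReal.ofReal_ne_top
  refine ⟨0, ENNReal.zero_ne_top, fun h _ => (c * 2 * ENNReal.ofReal (Unw410.cB Φ)) *
    ENNReal.ofReal h, Vanish.length.const_mul hcB, ?_⟩
  refine ⟨h₀, hh₀, 1, fun h L tw te hh hhle _ hL1 hwin hIH => ?_⟩
  have htw : tw ∈ Icc 0 T := ⟨hwin.nonneg, hwin.le.trans hwin.le_T⟩
  have hT' : tw + h₀ ∈ Icc 0 (tw + h₁) := ⟨by linarith [hwin.nonneg], by linarith⟩
  have hT'pos : 0 < tw + h₀ := by linarith [hwin.nonneg]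
  have hL : (0 : ℝ) ≤ L := zero_le_one.trans hL1
  obtain ⟨q, hq, hb⟩ := hflux (epar γ ρ L tw te) (tw + h₀) (tw + h₀)
    (Q1815.Ctx.of_ih hD htw hIH hT'pos) hL hwin.le hT' le_rfl
  refine ⟨fun K ε => (c * 2 * ENNReal.ofReal h) * (⨆ s ∈ Icc 0 tw, JE Φ f₀ ε K s) + q K ε,
    (hIH.je.const_mul (ENNReal.mul_ne_top (ENNReal.mul_ne_top hc (by norm_num))
      ENNReal.ofReal_ne_top)).add hq.small, ?_⟩
  refine EvK.ev (EvK.of_eps hh fun K ε hε hlt => ?_)
  refine Bnd.of_H (H := InEq2A263.HA Φ ε K (epar γ ρ L tw te))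
    (InEq2A263.measTS_HA hD.adm hε K _) (fun k m V w j _ _ _ => ?_) ?_
  · refine FA_le_ways hD.adm hε hL hwin.nonneg hT'.1 ?_ V w j
    have := hwin.short
    show te ≤ tw + h₀
    linarith
  · refine (hb K ε hε).trans ?_
    have h1 : ENNReal.ofReal (ε + (te - tw)) ≤ 2 * ENNReal.ofReal h := by
      have h2 : (2 : ℝ≥0∞) * ENNReal.ofReal h = ENNReal.ofReal (2 * h) := by
        rw [ENNReal.ofReal_mul (by norm_num)]
        norm_num
      rw [h2]
      refine ENNReal.ofReal_le_ofReal ?_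
      linarith [hwin.short]
    have h3 : JE Φ f₀ ε K tw ≤ ⨆ s ∈ Icc 0 tw, JE Φ f₀ ε K s :=
      le_iSup₂ (f := fun s (_ : s ∈ Icc 0 tw) => JE Φ f₀ ε K s) tw ⟨hwin.nonneg, le_rfl⟩
    calc c * ENNReal.ofReal (ε + (te - tw)) *
          (JE Φ f₀ ε K tw + ENNReal.ofReal (Unw410.cB Φ) * aE Φ f₀ ε K (epar γ ρ L tw te)) +
          q K ε
        ≤ c * (2 * ENNReal.ofReal h) * ((⨆ s ∈ Icc 0 tw, JE Φ f₀ ε K s) +
          ENNReal.ofReal (Unw410.cB Φ) * aE Φ f₀ ε K (epar γ ρ L tw te)) + q K ε := by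
          gcongr
      _ = _ := by ring

end Crest.Agent.R122.InEq2

end
end

-- ▼ part R122/InEq2NG_311
section

/-!
# Row 122, INEQUALITY 2' (helper311): histories which are not trees (`FNG`, `FNC`)

From D5 (helper726, helper416): the clusters whose history is not a tree have mass `→ 0`.
-/

set_option autoImplicit false

open MeasureTheory Set Filter Topology
open scoped ENNReal
open Crest.AnalysisR.Kinetic
open Crest.Agent.R122.Master566 Crest.Agent.R122.GIV566 Crest.Agent.R122.Top602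
open Crest.Agent.R122.EDefs602 Crest.Agent.R122.GC311 Crest.Agent.R122.Causal291
open Crest.Agent.R122.Kin796 Crest.Agent.R122.Kin796.CTree Crest.Agent.R122.Tree674

noncomputable section

open scoped Classical

namespace Crest.Agent.R122.InEq2

variable {Φ : Space3 → ℝ} {f₀ : PhasePoint → ℝ} {f : ℝ → PhasePoint → ℝ} {ε : ℝ} {K : ℕ}
  {A : EPar} {T' te : ℝ}

/-- **The bad clusters**: a measurable functional of mass `→ 0` which dominates the energy weight
of the clusters with at most `K` members whose history is not a tree. -/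
theorem exists_bad {β T : ℝ} (hD : KData Φ β T f₀ f) (K : ℕ) (hte : 0 ≤ te) (hteT : te < T') :
    ∃ (q : ℝ → ℝ≥0∞) (B : ℝ → (k m : ℕ) → Config k → Config m → Fin k → ℝ≥0∞),
      Tendsto q (𝓝[>] 0) (𝓝 0) ∧ (∀ ε, MeasMS (B ε)) ∧ (∀ ε, 0 < ε → MS f₀ ε (B ε) ≤ q ε) ∧
      ∀ ε, 0 < ε → ∀ (k m : ℕ) (V : Config k) (w : Config m) (j : Fin k), k ≤ K →
        V ∈ PairExcluded ε k → w ∈ PairExcluded ε m → Perp ε V w →
        ((∃ s ∈ Icc 0 te, (BC (Ct (pth Φ ε (cat V w)) ε) s (Fin.castAdd m j)).toFinset =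
            block k m ∧ ¬ ∃ (P : CTree) (ℓ : PhasePoint) (p : Par P) (e : Idx P → Fin (k + m)),
              HTreeC Φ ε T' s (cat V w) (Fin.castAdd m j) P ℓ p e) ∨
          (∃ s ∈ Ioc 0 te, preC Φ ε (cat V w) s (Fin.castAdd m j) = block k m ∧
            ¬ ∃ (P : CTree) (ℓ : PhasePoint) (p : Par P) (e : Idx P → Fin (k + m)),
              HTreeP Φ ε T' s (cat V w) (Fin.castAdd m j) P ℓ p e)) →
        bwt ε V w ≤ B ε k m V w j := by
  have hfm : Measurable f₀ := hD.contDiff.continuous.measurable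
  have h1 : ∫⁻ z, ENNReal.ofReal (f₀ z) ≤ 1 :=
    (FM167.lintegral_density_eq_one hD.nonneg hD.integrable hD.mass).le
  obtain ⟨γ, -, hγ, hvol⟩ := Chain726.d5Vol_of_kData hD
  obtain ⟨N, hNm, -, -, hNb, hN⟩ := NG416.ngin_mecke (Chain726.permCov_badFam hD.adm T' te) hγ
    (hvol te T' hte hteT K) hfm h1 hD.gaussian
  refine ⟨fun ε => (activity ε)⁻¹ * MS f₀ ε (fun k m V w j => NG416.Wt V * N ε k V j),
    fun ε k m V w j => if 0 < ε then (activity ε)⁻¹ * (NG416.Wt V * N ε k V j) else 0, hN,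
    fun ε k m j => ?_, fun ε hε => ?_, fun ε hε k m V w j hk hV hw hp hs => ?_⟩
  · by_cases hε : 0 < ε
    · simp only [if_pos hε]
      exact ((NG416.measurable_Wt.comp measurable_fst).mul
        ((hNm ε k j).comp measurable_fst)).const_mul _
    · simp only [if_neg hε]
      exact measurable_const
  · simp only [if_pos hε]
    exact (MS_const_mul (ENNReal.inv_ne_top.2 (activity_ne_zero hε)) _).le
  · have hdom : (Fin.append V w : Config (k + m)) ∈ Flow671.Dom Φ (Fin (k + m)) :=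
      append_dom hε hV hw hp
    have e : (fun x => (Fin.append V w : Config (k + m)) (Fin.castAddEmb m x)) = V := by
      funext x
      exact Fin.append_left _ _ _
    have key : Chain726.BadCh Φ ε T' te
        (fun x => (Fin.append V w : Config (k + m)) (Fin.castAddEmb m x)) j →
        bwt ε V w ≤ if 0 < ε then (activity ε)⁻¹ * (NG416.Wt V * N ε k V j) else 0 := by
      intro h
      rw [if_pos hε]
      unfold bwt
      rw [show eW (cat V w) (block k m) = NG416.Wt V from SizeX974.eW_append_block V w]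
      refine mul_le_mul_right ?_ _
      rw [e] at h
      exact le_mul_of_one_le_right bot_le (hNb ε hε k hk V hV j ⟨hε, h⟩)
    rcases hs with ⟨s, hs, hb, hno⟩ | ⟨s, hs, hb, hno⟩
    · have hVr : ∀ a, Past (Ct (pth Φ ε (Fin.append V w : Config (k + m))) ε) s
          ((Fin.castAddEmb m) j) 0 a ↔ a ∈ range (Fin.castAddEmb m : Fin k ↪ Fin (k + m)) := by
        intro a
        have h2 : a ∈ (BC (Ct (pth Φ ε (cat V w)) ε) s (Fin.castAdd m j)).toFinset ↔
            a ∈ block k m := by rw [hb]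
        rw [Set.mem_toFinset] at h2
        refine Iff.trans h2 ?_
        rw [mem_block]
        rfl
      rcases Chain726.det_pth (T := T') hD.adm hε hdom hs hteT hVr with ⟨Q, g, ℓ, p, h⟩ | h
      · exact absurd ⟨Q, ℓ, p, _, h⟩ hno
      · exact key h
    · have hVr : ∀ a, a ∈ Inf879.pre (Ct (pth Φ ε (Fin.append V w : Config (k + m))) ε)
          ((Fin.castAddEmb m) j) s 0 ↔ a ∈ range (Fin.castAddEmb m : Fin k ↪ Fin (k + m)) := by
        intro a
        have h2 : a ∈ preC Φ ε (cat V w) s (Fin.castAdd m j) ↔ a ∈ block k m := by rw [hb]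
        rw [mem_preC_iff_pre (cat V w) hs.1] at h2
        refine Iff.trans h2 ?_
        rw [mem_block]
        rfl
      rcases Chain726.det_pth_pre (T := T') hD.adm hε hdom hs hteT hVr with ⟨Q, g, ℓ, p, h⟩ | h
      · exact absurd ⟨Q, ℓ, p, _, h⟩ hno
      · exact key h

/-- **Histories before the infection time which are not trees.** -/
theorem inB_FNG {β T : ℝ} {γ : ℝ → ℝ} {ρ : ℝ≥0∞} (hD : KData Φ β T f₀ f) {h₀ : ℝ}
    (hh₀ : 0 < h₀) : InB Φ f₀ f T γ ρ h₀ FNG := by
  refine InB.of_null ⟨h₀ / 2, half_pos hh₀, 1, fun h L tw te hh hhle _ _ hwin _ K => ?_⟩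
  have hte0 : 0 ≤ te := hwin.nonneg.trans hwin.le
  have hteT : te < tw + h₀ := by linarith [hwin.short]
  obtain ⟨q, B, hq, hBm, hBq, hb⟩ := exists_bad hD K hte0 hteT
  refine ⟨q, hq, ?_⟩
  filter_upwards [self_mem_nhdsWithin] with ε hε
  refine Bnd.of_B (hBm ε) (fun k m V w j hV hw hp => ?_) (hBq ε hε)
  unfold FNG
  by_cases hF : JI Φ ε K (epar γ ρ L tw te) V w j ∧
      ¬ HT Φ ε K (epar γ ρ L tw te) (tw + h₀) V w j
  · rw [if_pos hF]
    have htw : 0 ≤ (epar γ ρ L tw te).tw := hwin.nonneg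
    refine hb ε hε k m V w j (hF.1.le_K hD.adm hε htw) hV hw hp (Or.inr
      ⟨sgm Φ ε K (epar γ ρ L tw te) V w j, ⟨hF.1.pos htw, hF.1.2.1.2⟩, hF.1.1, hF.2⟩)
  · rw [if_neg hF]
    exact zero_le

/-- The closed cluster has at most `2K` members. -/
theorem JC.le {k m : ℕ} {V : Config k} {w : Config m} {j : Fin k} (h : JC Φ ε K A V w j) :
    k ≤ 2 * K := by
  have h1 : gasSize Φ ε (k + m) (cat V w) (sgm Φ ε K A V w j) (Fin.castAdd m j) = k := by
    have h2 : gasSize Φ ε (k + m) (cat V w) (sgm Φ ε K A V w j) (Fin.castAdd m j) =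
        (BC (Ct (pth Φ ε (cat V w)) ε) (sgm Φ ε K A V w j) (Fin.castAdd m j)).ncard := rfl
    rw [h2, ← Set.coe_toFinset (BC (Ct (pth Φ ε (cat V w)) ε) (sgm Φ ε K A V w j)
      (Fin.castAdd m j)), h.1, ncard_coe_finset, card_block]
  have h3 := h.2.2.2
  rw [h1] at h3
  exact h3

/-- **Closed histories which are not trees**, size in `(K, 2K]`. -/
theorem inB_FNC {β T : ℝ} {γ : ℝ → ℝ} {ρ : ℝ≥0∞} (hD : KData Φ β T f₀ f) {h₀ : ℝ}
    (hh₀ : 0 < h₀) : InB Φ f₀ f T γ ρ h₀ FNC := by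
  refine InB.of_null ⟨h₀ / 2, half_pos hh₀, 1, fun h L tw te hh hhle _ _ hwin _ K => ?_⟩
  have hte0 : 0 ≤ te := hwin.nonneg.trans hwin.le
  have hteT : te < tw + h₀ := by linarith [hwin.short]
  obtain ⟨q, B, hq, hBm, hBq, hb⟩ := exists_bad hD (2 * K) hte0 hteT
  refine ⟨q, hq, ?_⟩
  filter_upwards [self_mem_nhdsWithin] with ε hε
  refine Bnd.of_B (hBm ε) (fun k m V w j hV hw hp => ?_) (hBq ε hε)
  unfold FNC
  by_cases hF : JC Φ ε K (epar γ ρ L tw te) V w j ∧
      ¬ HTc Φ ε K (epar γ ρ L tw te) (tw + h₀) V w j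
  · rw [if_pos hF]
    refine hb ε hε k m V w j hF.1.le hV hw hp (Or.inl
      ⟨sgm Φ ε K (epar γ ρ L tw te) V w j, ⟨iTime_nonneg hte0 _ _, hF.1.2.1.2⟩, hF.1.1, hF.2⟩)
  · rw [if_neg hF]
    exact zero_le

end Crest.Agent.R122.InEq2

end
end

-- ▼ part R122/InEq2R_311
section

/-!
# Row 122, INEQUALITY 2' (helper311): real to ghost before the window (`FR`, `FRC`)

From helper302's `rtgIn`.
-/

set_option autoImplicit false

open MeasureTheory Set Filter Topology
open scoped ENNReal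
open Crest.AnalysisR.Kinetic
open Crest.Agent.R122.Master566 Crest.Agent.R122.GIV566 Crest.Agent.R122.Top602
open Crest.Agent.R122.EDefs602 Crest.Agent.R122.GC311 Crest.Agent.R122.Causal291
open Crest.Agent.R122.Kin796 Crest.Agent.R122.Kin796.CTree Crest.Agent.R122.Tree674
open Crest.Agent.R122.Band974 (PT)
open Crest.Agent.R122.RtG302 (RtGMaj LinkNull RetNullT OkNull protT rtgMaj rtgIn)

noncomputable section

open scoped Classical

namespace Crest.Agent.R122.InEq2

variable {Φ : Space3 → ℝ} {f₀ : PhasePoint → ℝ} {f : ℝ → PhasePoint → ℝ} {ε : ℝ} {K : ℕ}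
  {A : EPar} {T' te : ℝ} {β T : ℝ} {γ : ℝ → ℝ} {ρ : ℝ≥0∞} {h₀ : ℝ}

/-- Real to ghost before the window, for all short windows (helper302's majorants). -/
def RtGWin (Φ : Space3 → ℝ) (f₀ : PhasePoint → ℝ) (f : ℝ → PhasePoint → ℝ) (T : ℝ) (γ : ℝ → ℝ)
    (ρ : ℝ≥0∞) (h₀ : ℝ) : Prop :=
  EvW T fun _ _ tw _ => IH Φ f₀ f T γ ρ tw → ∀ K : ℕ, RtGMaj Φ f₀ tw (tw + h₀) K

/-- The labels of the tree of the closed history write the block. -/
theorem JC.range_eq {k m : ℕ} {V : Config k} {w : Config m} {j : Fin k}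
    (h : JC Φ ε K A V w j) (hε : 0 < ε) (hte : 0 ≤ A.te) (hT' : 0 ≤ T')
    {P : CTree} {ℓ : PhasePoint} {p : Par P} {e : Idx P → Fin (k + m)}
    (hH : HTreeC Φ ε T' (sgm Φ ε K A V w j) (cat V w) (Fin.castAdd m j) P ℓ p e) :
    range e = ↑(block k m) := by
  rw [hH.range_eq hε hT' (iTime_nonneg hte _ _), ← h.1, Set.coe_toFinset]

/-- **`FR`.** -/
theorem inB_FR (hD : KData Φ β T f₀ f) (hh₀ : 0 < h₀) (hR : RtGWin Φ f₀ f T γ ρ h₀) :
    InB Φ f₀ f T γ ρ h₀ FR := by
  have hW : EvW T fun h _ _ _ => h ≤ h₀ := ⟨h₀, hh₀, 1, fun _ _ _ _ _ h _ _ _ => h⟩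
  refine InB.of_null ((hR.and hW).mono fun h L tw te hh _ hwin hq hIH K => ?_)
  have hmaj := hq.1 hIH K
  have hle := hq.2
  have htw0 : 0 ≤ tw := hwin.nonneg
  have hteT : te ≤ tw + h₀ := by linarith [hwin.short]
  have hT' : 0 ≤ tw + h₀ := by linarith
  obtain ⟨N, hNm, hN0, hN⟩ := rtgIn hD.adm hmaj htw0 (le_refl tw)
  refine ⟨fun ε => MS f₀ ε (N ε), hN0, ?_⟩
  filter_upwards [self_mem_nhdsWithin] with ε hε
  refine Bnd.of_B (hNm ε) (fun k m V w j hV hw hp => ?_) le_rfl
  unfold FR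
  by_cases hF : JI Φ ε K (epar γ ρ L tw te) V w j ∧
      HT Φ ε K (epar γ ρ L tw te) (tw + h₀) V w j ∧
      ¬ HTU Φ ε K (epar γ ρ L tw te) (tw + h₀) V w j
  swap
  · rw [if_neg hF]
    exact zero_le
  rw [if_pos hF]
  obtain ⟨hJ, ⟨P, ℓ, p, e, hH⟩, hno⟩ := hF
  have htw : 0 ≤ (epar γ ρ L tw te).tw := htw0
  have h1 : tw < sgm Φ ε K (epar γ ρ L tw te) V w j := hJ.2.1.1
  have h2 : sgm Φ ε K (epar γ ρ L tw te) V w j ≤ te := hJ.2.1.2
  rcases hN ε hε k m V w j (hJ.le_K hD.adm hε htw) hV hw hp P ℓ p e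
    (sgm Φ ε K (epar γ ρ L tw te) V w j) (hJ.pos htw).le (h2.trans hteT)
    (hJ.range_eq hε htw hT' hH) (Or.inr ⟨h1, hH⟩) with h3 | h3
  · rw [min_eq_right h1.le] at h3
    exact absurd ⟨P, ℓ, p, e, hH, h3⟩ hno
  · exact h3

/-- **`FRC`.** -/
theorem inB_FRC (hD : KData Φ β T f₀ f) (hh₀ : 0 < h₀) (hR : RtGWin Φ f₀ f T γ ρ h₀) :
    InB Φ f₀ f T γ ρ h₀ FRC := by
  have hW : EvW T fun h _ _ _ => h ≤ h₀ := ⟨h₀, hh₀, 1, fun _ _ _ _ _ h _ _ _ => h⟩
  refine InB.of_null ((hR.and hW).mono fun h L tw te hh _ hwin hq hIH K => ?_)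
  have hmaj := hq.1 hIH (2 * K)
  have hle := hq.2
  have htw0 : 0 ≤ tw := hwin.nonneg
  have hte0 : 0 ≤ te := htw0.trans hwin.le
  have hteT : te ≤ tw + h₀ := by linarith [hwin.short]
  have hT' : 0 ≤ tw + h₀ := by linarith
  obtain ⟨N, hNm, hN0, hN⟩ := rtgIn hD.adm hmaj htw0 (le_refl tw)
  refine ⟨fun ε => MS f₀ ε (N ε), hN0, ?_⟩
  filter_upwards [self_mem_nhdsWithin] with ε hε
  refine Bnd.of_B (hNm ε) (fun k m V w j hV hw hp => ?_) le_rfl
  unfold FRC
  by_cases hF : JC Φ ε K (epar γ ρ L tw te) V w j ∧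
      HTc Φ ε K (epar γ ρ L tw te) (tw + h₀) V w j ∧
      ¬ HTUc Φ ε K (epar γ ρ L tw te) (tw + h₀) V w j
  swap
  · rw [if_neg hF]
    exact zero_le
  rw [if_pos hF]
  obtain ⟨hJ, ⟨P, ℓ, p, e, hH⟩, hno⟩ := hF
  have h1 : tw < sgm Φ ε K (epar γ ρ L tw te) V w j := hJ.2.1.1
  have h2 : sgm Φ ε K (epar γ ρ L tw te) V w j ≤ te := hJ.2.1.2
  rcases hN ε hε k m V w j hJ.le hV hw hp P ℓ p e
    (sgm Φ ε K (epar γ ρ L tw te) V w j) (htw0.trans h1.le) (h2.trans hteT)
    (hJ.range_eq hε hte0 hT' hH) (Or.inl hH) with h3 | h3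
  · rw [min_eq_right h1.le] at h3
    exact absurd ⟨P, ℓ, p, e, hH, h3⟩ hno
  · exact h3

end Crest.Agent.R122.InEq2

end
end

-- ▼ part R122/RedDet_674
section

/-!
# Reduction to good trees, deterministic part (row 122, helper674)

* `hTreeC_of_hTreeP` : the history strictly before `s` is the closed history at `s`, if the top node
  is finished and the root has no contact at `s`.
* `red_det` : a real cluster seen at time `s` is bad (D5), in exact contact (`Tie`), mid-encounter,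
  `TreeBad`, or a real tree with unhit protected tubes.
* `spdW_le_pre` : the speed of the root at time `s` from the initial energies of the strict past.
-/

set_option autoImplicit false
set_option linter.unusedSectionVars false

open MeasureTheory Set Filter Topology
open scoped ENNReal NNReal
open Crest.AnalysisR.Kinetic
open Crest.Agent.R122.Flow671 Crest.Agent.R122.Loc45 Crest.Agent.R122.Causal291
open Crest.Agent.R122.Inf879 Crest.Agent.R122.GC311 Crest.Agent.R122.EDefs602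
open Crest.Agent.R122.Kin796 Crest.Agent.R122.Kin796.CTree Crest.Agent.R122.Tree674
open Crest.Agent.R122.Relabel674 Crest.Agent.R122.PathFlow968 Crest.Agent.R122.InEq2
open Crest.Agent.R122.RtG302 Crest.Agent.R122.TreeLines335 Crest.Agent.R122.OneC285
open Crest.Agent.R122.GIV566

noncomputable section

open scoped Classical

namespace Crest.Agent.R122.Red674

variable {Φ : Space3 → ℝ} {ε T' te tw u₀ s : ℝ}

/-! ### Exact contacts -/

/-- At time `s` the particle `i` is at distance exactly `ε` of another particle. -/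
def Tie (Φ : Space3 → ℝ) (ε : ℝ) {n : ℕ} (X : Config n) (i : Fin n) (s : ℝ) : Prop :=
  ∃ r, r ≠ i ∧ dist (pth Φ ε X s i).1 (pth Φ ε X s r).1 = ε


/-- A contact which is not old is an exact contact. -/
theorem tie_of_new (hΦ : AdmissiblePotential Φ) (hε : 0 < ε) {n : ℕ} {X : Config n} {i r : Fin n}
    (hr : r ≠ i) (hc : Ct (pth Φ ε X) ε s i r) (ho : ¬ OldCt (Ct (pth Φ ε X) ε) s i r) :
    Tie Φ ε X i s := by
  refine ⟨r, hr, le_antisymm hc ?_⟩
  have h1 : ∀ᶠ t in 𝓝[<] s, ε ≤ dist (pth Φ ε X t i).1 (pth Φ ε X t r).1 := by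
    have h2 : ∀ᶠ t in 𝓝[<] s, ¬ Ct (pth Φ ε X) ε t i r := not_frequently.1 ho
    filter_upwards [h2] with t ht
    exact (not_le.1 ht).le
  have h3 : Tendsto (fun t => dist (pth Φ ε X t i).1 (pth Φ ε X t r).1) (𝓝[<] s)
      (𝓝 (dist (pth Φ ε X s i).1 (pth Φ ε X s r).1)) :=
    ((continuous_dist_pth hΦ hε X i r).tendsto s).mono_left nhdsWithin_le_nhds
  exact ge_of_tendsto h3 h1

/-! ### From the strict past to the closed past -/

theorem topLt_iff {P : CTree} {p : Par P} (hs : 0 < s) : TopLt P s p ↔ topOut P p < s := by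
  cases P with
  | leaf => exact ⟨fun _ => hs, fun _ => trivial⟩
  | node l r => exact Iff.rfl

theorem exists_topLt {P : CTree} {p : Par P} (hs : 0 < s) (h : TopLt P s p) :
    ∃ t, 0 ≤ t ∧ t < s ∧ TopLt P t p := by
  have h1 := (topLt_iff hs).1 h
  obtain ⟨t, ht1, ht2⟩ := exists_between (max_lt h1 hs)
  have h0 : 0 < t := (le_max_right _ _).trans_lt ht1
  exact ⟨t, h0.le, ht2, (topLt_iff h0).2 ((le_max_left _ _).trans_lt ht1)⟩

/-- The particles other than the root are released before the end of the top node. -/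
theorem prot_lt_of_topLt (hε : 0 < ε) {P : CTree} {ℓ : PhasePoint} {p : Par P}
    (hv : Valid Φ ε P T' ℓ.2 p) (hs : 0 < s) (hsT : s ≤ T') (h : TopLt P s p) {x : Idx P}
    (hx : x ≠ Tree674.root P) : prot P T' p x < s := by
  obtain ⟨t, ht0, hts, ht⟩ := exists_topLt hs h
  have hvt : Valid Φ ε P t ℓ.2 p := (valid_iff_top (hts.le.trans hsT)).2 ⟨hv, ht⟩
  rw [PathFlow968.prot_eq_of_ne P T' t p hx]
  exact (PathFlow968.prot_le hε.le P t ℓ.2 p hvt.2 x).trans_lt hts

/-- If the root has no contact at `s`, the closed past at `s` is the strict past. -/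
theorem past_of_no_contact {ι : Type*} {C : ℝ → ι → ι → Prop} {i : ι}
    (hno : ∀ r, r ≠ i → ¬ C s i r) {s' : ℝ} {j : ι} (h : Past C s i s' j) :
    j = i ∨ ∃ r < s, s' ≤ r ∧ Past C r i s' j := by
  induction h with
  | root _ => exact Or.inl rfl
  | @step s₂ s₁ j₁ k h1 hc hs ih =>
    rcases ih with rfl | ⟨r, hr, hsr, hp⟩
    · by_cases hk : k = j₁
      · exact Or.inl hk
      · right
        have h2 : s₁ ≤ s := h1.le
        have h3 : s₁ < s := by
          rcases h2.lt_or_eq with h3 | h3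
          · exact h3
          · subst h3
            exact absurd hc (hno k hk)
        exact ⟨s₁, h3, hs, .step (.root le_rfl) hc hs⟩
    · exact Or.inr ⟨r, hr, hs.trans hsr, .step hp hc hs⟩

section hist

variable {κ : Type} [Fintype κ] {Z : κ → PhasePoint} {i : κ} {P : CTree} {ℓ : PhasePoint}
  {p : Par P} {e : Idx P → κ}

/-- **The closed history at `s`** from the history strictly before `s`. -/
theorem hTreeC_of_hTreeP (hΦ : AdmissiblePotential Φ) (hε : 0 < ε) (hs : 0 < s) (hsT : s ≤ T')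
    (h : HTreeP Φ ε T' s Z i P ℓ p e) (ht : TopLt P s p)
    (hno : ∀ r, r ≠ i → ¬ Ct (pth Φ ε Z) ε s i r) : HTreeC Φ ε T' s Z i P ℓ p e := by
  refine ⟨h.valid, h.sep, h.root, h.inj, h.top.le, ?_, ?_⟩
  · intro k t ht0 hts hk
    rcases hts.lt_or_eq with h1 | h1
    · exact h.agree k t ht0 h1 hk
    · subst h1
      have c1 : Continuous fun r => pth Φ ε Z r (e k) := continuous_pth hΦ hε Z (e k)
      have c2 : Continuous fun r => path Φ ε P ℓ p r k :=
        (continuous_apply k).comp (Tree674.continuous_path hΦ hε h.valid)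
      have c3 : ∀ᶠ r in 𝓝[<] t, pth Φ ε Z r (e k) = path Φ ε P ℓ p r k := by
        filter_upwards [self_mem_nhdsWithin, mem_nhdsWithin_of_mem_nhds (lt_mem_nhds hs)] with r
          hr hr0
        exact h.agree k r (le_of_lt hr0) hr ((le_of_lt hr).trans hk)
      have c4 : Tendsto (fun r => pth Φ ε Z r (e k)) (𝓝[<] t) (𝓝 (pth Φ ε Z t (e k))) :=
        (c1.tendsto t).mono_left nhdsWithin_le_nhds
      have c5 : Tendsto (fun r => path Φ ε P ℓ p r k) (𝓝[<] t) (𝓝 (path Φ ε P ℓ p t k)) :=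
        (c2.tendsto t).mono_left nhdsWithin_le_nhds
      exact tendsto_nhds_unique (c4.congr' c3) c5
  · intro t htI j
    rcases htI.2.lt_or_eq with h1 | h1
    · rw [← h.past t htI.1 h1 j]
      constructor
      · intro hp
        rcases past_of_no_contact hno hp with rfl | ⟨r, hr, htr, hp'⟩
        · exact mem_pre_self h1
        · exact ⟨r, ⟨htr, hr⟩, hp'⟩
      · rintro ⟨r, hr, hp⟩
        exact past_root_mono hr.2.le hp
    · subst h1
      constructor
      · intro hp
        rcases past_of_no_contact hno hp with rfl | ⟨r, hr, htr, _⟩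
        · refine ⟨Tree674.root P, h.root, ?_⟩
          rw [Final973.prot_root]
          exact hsT
        · exact absurd htr (not_le.2 hr)
      · rintro ⟨m, rfl, hm⟩
        by_cases hx : m = Tree674.root P
        · subst hx
          rw [h.root]
          exact .root le_rfl
        · exact absurd hm (not_le.2 (prot_lt_of_topLt hε h.valid hs hsT ht hx))

/-- If the top node is not finished at `s`, the root is in its last collision window. -/
theorem mid_of_hTreeP (h : HTreeP Φ ε T' s Z i P ℓ p e) (ht : ¬ TopLt P s p) :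
    Mid317.Mid Φ ε s P ℓ.2 p := by
  cases P with
  | leaf => exact absurd trivial ht
  | node l r =>
    have h1 : ¬ p.1.1 < s := ht
    have h2 : Tree674.sin Φ ε ℓ.2 p.1 < s := h.top
    exact ⟨(valid_node_iff.1 h.valid).1.1, h2.le, not_lt.1 h1⟩

end hist

/-! ### Unhit protected tubes -/

theorem rel_le_of_topLt (hε : 0 < ε) {P : CTree} {ℓ : PhasePoint} {p : Par P}
    (hv : Valid Φ ε P T' ℓ.2 p) (hs : 0 < s) (hsT : s ≤ T') (h : TopLt P s p) (x : Idx P) :
    rel P p x ≤ min (prot P T' p x) s := by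
  by_cases hx : x = Tree674.root P
  · subst hx
    rw [Final973.prot_root]
    cases P with
    | leaf =>
      rw [show rel leaf p (Tree674.root leaf) = 0 from rfl]
      exact le_min (hs.le.trans hsT) hs.le
    | node l r =>
      rw [rel_root_node]
      have h1 : p.1.1 < s := h
      exact le_min (h1.le.trans hsT) h1.le
  · rw [rel_eq_prot P T' p x hx]
    exact le_min le_rfl (prot_lt_of_topLt hε hv hs hsT h hx).le

/-- The protected tubes cut at the end of the top node. -/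
theorem unhit_ptube (hΦ : AdmissiblePotential Φ) (hε : 0 < ε) {P : CTree} {z : PhasePoint × Par P}
    (hv : Valid Φ ε P T' z.1.2 z.2) (hsep : Sep Φ ε P T' z.1 z.2) (hs : 0 < s) (hsT : s ≤ T')
    (ht : TopLt P s z.2) {m : ℕ} {w : Config m}
    (h : unhit Φ ε (protT Φ ε P T' z) (min s tw) w) : unhit Φ ε (ptube Φ ε P z) tw w := by
  intro x j u hu
  have h1 := rel_le_of_topLt hε hv hs hsT ht x
  have hu1 : u ≤ rel P z.2 x := hu.2.trans (min_le_left _ _)
  have hu2 : u ≤ min (prot P T' z.2 x) (min s tw) :=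
    le_min (hu1.trans (h1.trans (min_le_left _ _)))
      (le_min (hu1.trans (h1.trans (min_le_right _ _))) (hu.2.trans (min_le_right _ _)))
  have h2 := h x j u ⟨hu.1, hu2⟩
  have huT : u ≤ T' := (hu2.trans (min_le_right _ _)).trans ((min_le_left _ _).trans hsT)
  have h3 : Hid424.curve Φ ε P z.1 z.2 x u = (path Φ ε P z.1 z.2 u x).1 := by
    unfold Hid424.curve
    rw [PathFlow968.path_eq_flow hΦ hε hv hsep ⟨hu.1, huT⟩]
  show ε < dist (Hid424.curve Φ ε P z.1 z.2 x u) _
  rw [h3]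
  exact h2

/-! ### The dichotomy -/

section det

variable {k m : ℕ} {V : Config k} {w : Config m} {j : Fin k}

/-- An enumeration of the block is a relabelling of the cluster. -/
theorem bad_of_enum (hΦ : AdmissiblePotential Φ) {k' : ℕ} {e : Fin k' ↪ Fin (k + m)} {j' : Fin k'}
    (he : ∀ x, x ∈ block k m ↔ x ∈ range e) (hj : e j' = Fin.castAdd m j)
    (hb : Chain726.badFam Φ T' te ε k' (fun x => (Fin.append V w : Config (k + m)) (e x)) j') :
    Chain726.badFam Φ T' te ε k V j := by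
  have hr : range e = (block k m : Set (Fin (k + m))) := by
    ext x; rw [← he x]; rfl
  have hk : k' = k := by
    have h1 := congrArg Set.ncard hr
    rw [Set.ncard_coe_finset, ← image_univ, ncard_image_of_injective _ e.injective, ncard_univ,
      Nat.card_eq_fintype_card, Fintype.card_fin] at h1
    rw [h1]
    unfold block
    rw [Finset.card_map, Finset.card_univ, Fintype.card_fin]
  subst hk
  have hmem : ∀ x, ∃ y : Fin k', Fin.castAdd m y = e x := by
    intro x
    have h1 : e x ∈ block k' m := (he _).2 ⟨x, rfl⟩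
    unfold block at h1
    obtain ⟨y, _, hy⟩ := Finset.mem_map.1 h1
    exact ⟨y, hy⟩
  choose f hf using hmem
  have hfi : Function.Injective f := fun x y hxy => e.injective (by rw [← hf x, ← hf y, hxy])
  set σ : Equiv.Perm (Fin k') := Equiv.ofBijective f
    ((Finite.injective_iff_bijective).1 hfi) with hσ
  have h1 : (fun x => (Fin.append V w : Config (k' + m)) (e x)) = fun x => V (σ x) := by
    funext x
    rw [← hf x, Fin.append_left]
    rfl
  have h2 : σ j' = j := Fin.castAdd_injective k' m (by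
    rw [← hj]
    exact hf j')
  rw [h1] at hb
  rw [← h2]
  have h3 := Chain726.permCov_badFam hΦ T' te ε k' σ.symm (σ j') (fun x => V (σ x))
    (by rw [Equiv.symm_apply_apply]; exact hb)
  simp only [Equiv.apply_symm_apply] at h3
  exact h3

/-- The good alternative of the reduction. -/
def GoodRed (Φ : Space3 → ℝ) (ε tw T' : ℝ) {k m : ℕ} (V : Config k) (w : Config m) (j : Fin k)
    (s : ℝ) : Prop :=
  ∃ (P : CTree) (e : Idx P ≃ Fin k) (z : PhasePoint × Par P), e (Tree674.root P) = j ∧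
    (∀ x, V (e x) = Tree674.lines Φ ε P z.1 z.2 x) ∧
    Valid Φ ε P T' z.1.2 z.2 ∧ Sep Φ ε P T' z.1 z.2 ∧
    RealTree674.RealTree Φ ε s (Fin.append V w) (Fin.castAdd m j) P z.1 z.2
      (fun x => Fin.castAdd m (e x)) ∧
    GIV566.unhit Φ ε (ptube Φ ε P z) tw w

/-- The cluster is a tree seen in the middle of the last collision of the root. -/
def MidBad (Φ : Space3 → ℝ) (ε T' : ℝ) {k : ℕ} (V : Config k) (j : Fin k) (s : ℝ) : Prop :=
  ∃ (P : CTree) (e : Idx P ≃ Fin k) (z : PhasePoint × Par P), e (Tree674.root P) = j ∧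
    (∀ x, V (e x) = Tree674.lines Φ ε P z.1 z.2 x) ∧
    Valid Φ ε P T' z.1.2 z.2 ∧ Sep Φ ε P T' z.1 z.2 ∧ Mid317.Mid Φ ε s P z.1.2 z.2

/-- **The dichotomy.** -/
theorem red_det (hΦ : AdmissiblePotential Φ) (hε : 0 < ε) (htw0 : 0 ≤ tw) (htw : tw ≤ u₀)
    (hs : 0 < s) (hste : s ≤ te) (hte : te < T') (K' : ℕ)
    (hV : V ∈ PairExcluded ε k) (hw : w ∈ PairExcluded ε m) (hp : Perp ε V w)
    (hpre : preC Φ ε (Fin.append V w : Config (k + m)) s (Fin.castAdd m j) = block k m) :
    Chain726.badFam Φ T' te ε k V j ∨ Tie Φ ε (Fin.append V w : Config (k + m)) (Fin.castAdd m j) s ∨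
      MidBad Φ ε T' V j s ∨ TreeBad Φ ε K' u₀ T' V w j ∨ GoodRed Φ ε tw T' V w j s := by
  set X : Config (k + m) := Fin.append V w with hX
  have hXE : X ∈ PairExcluded ε (k + m) := (append_mem_pairExcluded_iff V w).2 ⟨hV, hw, hp⟩
  have hsT : s ≤ T' := hste.trans hte.le
  have hT0 : 0 ≤ T' := hs.le.trans hsT
  have hpre' : ∀ x, x ∈ Inf879.pre (Ct (pth Φ ε X) ε) (Fin.castAdd m j) s 0 ↔ x ∈ block k m := by
    intro x
    rw [← hpre, mem_preC_iff_pre X hs]
  rcases Chain726.det_fin_pre hΦ hε hXE (T := T') ⟨hs, hste⟩ hte (Fin.castAdd m j) with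
    ⟨P, ℓ, p, e, h⟩ | ⟨k', e, j', _, he, hj, hb⟩
  swap
  · exact Or.inl (bad_of_enum hΦ (fun x => by rw [← hpre' x, he x]) hj hb)
  right
  have hr : range e = (block k m : Set (Fin (k + m))) := by
    rw [h.range_eq hε hT0 hs]
    ext x
    exact hpre' x
  obtain ⟨e₀, he₀⟩ := exists_equiv_block h.inj hr
  have hroot : e₀ (Tree674.root P) = j := Fin.castAdd_injective k m (by
    rw [← h.root, he₀]; rfl)
  have hlines : ∀ x, V (e₀ x) = Tree674.lines Φ ε P ℓ p x := by
    intro x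
    rw [← h.lines_eq hΦ hε hT0 hs x, he₀, hX]
    show _ = (Fin.append V w : Config (k + m)) (Fin.castAdd m (e₀ x))
    rw [Fin.append_left]
  by_cases ht : TopLt P s p
  swap
  · exact Or.inr (Or.inl ⟨P, e₀, (ℓ, p), hroot, hlines, h.valid, h.sep, mid_of_hTreeP h ht⟩)
  have hold : ∀ r, r ≠ Fin.castAdd m j → ¬ OldCt (Ct (pth Φ ε X) ε) s (Fin.castAdd m j) r := by
    intro r hr' ho
    have h1 := (h.mid hΦ hε hs hsT hr' ho).2
    exact absurd ((topLt_iff hs).1 ht) (not_lt.2 h1)
  by_cases htie : Tie Φ ε X (Fin.castAdd m j) s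
  · exact Or.inl htie
  right; right
  have hno : ∀ r, r ≠ Fin.castAdd m j → ¬ Ct (pth Φ ε X) ε s (Fin.castAdd m j) r :=
    fun r hr' hc => htie (tie_of_new hΦ hε hr' hc (hold r hr'))
  have hC := hTreeC_of_hTreeP hΦ hε hs hsT h ht hno
  rcases hTreeC_unhit_or_treeBad (K' := K') hΦ hε hs.le hsT htw0 htw hV hw hp hC hr with h1 | h1
  swap
  · exact Or.inl h1
  right
  have hR := Mid317.realTree_of_hTreeC hε hsT hC ht
  rw [he₀] at hR
  exact ⟨P, e₀, (ℓ, p), hroot, hlines, h.valid, h.sep, hR,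
    unhit_ptube hΦ hε h.valid h.sep hs hsT ht h1⟩

end det

/-! ### Speed of the root -/

/-- The speed at time `s` is bounded by the initial energies of the strict past. -/
theorem spdW_le_pre (hΦ : AdmissiblePotential Φ) (hε : 0 < ε) {n : ℕ} {Z : Config n}
    (hZ : Z ∈ PairExcluded ε n) (hs : 0 < s) (i : Fin n) (M : ℝ≥0) :
    Hit167.spdW Φ ε M Z i s ≤ Mid317.cS Φ M * eW Z (preC Φ ε Z s i) := by
  obtain ⟨s₀, h0, hs0, hBC⟩ := exists_BC_eq_pre (C := Ct (pth Φ ε Z) ε) (i := i) hs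
  have h1 : ∀ᶠ t in 𝓝[<] s, Hit167.spdW Φ ε M Z i t ≤ Mid317.cS Φ M * eW Z (preC Φ ε Z s i) := by
    filter_upwards [self_mem_nhdsWithin, mem_nhdsWithin_of_mem_nhds (lt_mem_nhds hs0)] with t
      hts hst
    have hst' : s₀ < t := hst
    have h2 := Mid317.spdW_le hΦ hε hZ (h0.trans hst'.le) i M
    have h3 : (Master566.bc Φ ε Z t i).toFinset = preC Φ ε Z s i := by
      ext x
      rw [Set.mem_toFinset, mem_preC_iff_pre Z hs]
      show x ∈ BC (Ct (pth Φ ε Z) ε) t i ↔ _
      rw [hBC t hst'.le hts]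
    rw [← h3]
    exact h2
  have h4 : Tendsto (fun t => Hit167.spdW Φ ε M Z i t) (𝓝[<] s) (𝓝 (Hit167.spdW Φ ε M Z i s)) := by
    have h5 : Continuous fun t => Hit167.spdW Φ ε M Z i t := by
      unfold Hit167.spdW
      exact continuous_const.add (continuous_pth hΦ hε Z i).snd.enorm
    exact (h5.tendsto s).mono_left nhdsWithin_le_nhds
  exact le_of_tendsto h4 h1

end Crest.Agent.R122.Red674

end
end

-- ▼ part R122/StmtRed_674
section

/-!
# Reduction to good trees (row 122, helper674): `StmtRed` of `OneCDefs_285`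

* `ae_not_tie` : at a fixed time, a.e. configuration has no pair at distance exactly `ε`.
* `BR` : the majorant: D5 (`N₁`), `TreeBad` (`N₂`), mid-encounter trees, exact contacts.
* `rfl4_BR_le` : its real flux is at most the masses of `N₁`, `N₂` and of the mid-encounter trees.
* `stmtRed` : **`StmtRed`** from `BadVol` and `RtGMaj`.
-/

set_option autoImplicit false
set_option linter.unusedSectionVars false

open MeasureTheory Set Filter Topology
open scoped ENNReal NNReal
open Crest.AnalysisR.Kinetic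
open Crest.Agent.R122.Flow671 Crest.Agent.R122.Loc45 Crest.Agent.R122.Causal291
open Crest.Agent.R122.Inf879 Crest.Agent.R122.GC311 Crest.Agent.R122.EDefs602
open Crest.Agent.R122.Kin796 Crest.Agent.R122.Kin796.CTree Crest.Agent.R122.Tree674
open Crest.Agent.R122.Relabel674 Crest.Agent.R122.PathFlow968 Crest.Agent.R122.InEq2
open Crest.Agent.R122.RtG302 Crest.Agent.R122.TreeLines335 Crest.Agent.R122.OneC285
open Crest.Agent.R122.GIV566 Crest.Agent.R122.TreeBound335 Crest.Agent.R122.ToTree335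

noncomputable section

open scoped Classical

namespace Crest.Agent.R122.Red674

variable {Φ : Space3 → ℝ} {f₀ : PhasePoint → ℝ} {ε T' te tw u₀ : ℝ}

/-! ### Exact contacts are negligible -/

theorem ae_dist_pair_ne (hε : 0 < ε) {n : ℕ} {i r : Fin n} (hir : r ≠ i) :
    ∀ᵐ W : Config n, dist (W i).1 (W r).1 ≠ ε := by
  set L : Config n →ₗ[ℝ] Space3 :=
    (LinearMap.fst ℝ Space3 Space3).comp (LinearMap.proj i) -
      (LinearMap.fst ℝ Space3 Space3).comp (LinearMap.proj r) with hL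
  have hLa : ∀ W : Config n, L W = (W i).1 - (W r).1 := fun W => rfl
  have hsurj : Function.Surjective L := by
    intro y
    refine ⟨Function.update 0 i (y, 0), ?_⟩
    rw [hLa, Function.update_self, Function.update_of_ne hir]
    simp
  have hs : MeasurableSet {y : Space3 | ‖y‖ ≠ ε} :=
    (measurableSet_eq_fun measurable_norm measurable_const).compl
  have h1 : ∀ᵐ y : Space3, y ∈ {y : Space3 | ‖y‖ ≠ ε} := by
    have h2 : volume (Metric.sphere (0 : Space3) ε) = 0 :=
      Measure.addHaar_sphere_of_ne_zero _ _ hε.ne'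
    rw [ae_iff]
    convert h2 using 2
    ext y
    simp
  have h3 := (ae_comp_linearMap_mem_iff L (volume : Measure (Config n))
    (volume : Measure Space3) hsurj hs).2 h1
  filter_upwards [h3] with W hW
  rw [hLa] at hW
  rw [dist_eq_norm]
  exact hW

theorem ae_not_tie (hΦ : AdmissiblePotential Φ) (hε : 0 < ε) {n : ℕ} (i : Fin n) (s : ℝ) :
    ∀ᵐ X : Config n, ¬ Tie Φ ε X i s := by
  have h1 : ∀ᵐ X : Config n, ∀ r : Fin n, r ≠ i →
      dist (pth Φ ε X s i).1 (pth Φ ε X s r).1 ≠ ε := by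
    rw [ae_all_iff]
    intro r
    by_cases hr : r ≠ i
    · have h2 := (measurePreserving_flow (ι := Fin n) hΦ hε s).quasiMeasurePreserving.ae
        (ae_dist_pair_ne hε hr)
      filter_upwards [h2] with X hX _
      exact hX
    · exact Eventually.of_forall fun X h => absurd h hr
  filter_upwards [h1] with X hX
  rintro ⟨r, hr, hd⟩
  exact hX r hr hd

/-- indicator of `Tie` -/
def tieI (Φ : Space3 → ℝ) (ε : ℝ) {n : ℕ} (X : Config n) (i : Fin n) (s : ℝ) : ℝ≥0∞ :=
  if Tie Φ ε X i s then 1 else 0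

theorem measurable_tieI (hΦ : AdmissiblePotential Φ) (hε : 0 < ε) {n : ℕ} (i : Fin n) :
    Measurable fun q : ℝ × Config n => tieI Φ ε q.2 i q.1 := by
  refine Measurable.ite ?_ measurable_const measurable_const
  have h : {q : ℝ × Config n | Tie Φ ε q.2 i q.1} = ⋃ r : Fin n,
      {q : ℝ × Config n | r ≠ i ∧ dist (pth Φ ε q.2 q.1 i).1 (pth Φ ε q.2 q.1 r).1 = ε} := by
    ext q
    simp [Tie]
  rw [h]
  refine MeasurableSet.iUnion fun r => ?_
  by_cases hr : r ≠ i
  · simp only [ne_eq, hr, not_false_eq_true, true_and]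
    exact measurableSet_eq_fun ((measurable_pth_joint hΦ hε i).fst.dist
      (measurable_pth_joint hΦ hε r).fst) measurable_const
  · simp only [hr, false_and]
    simp

theorem ae_lintegral_tie (hΦ : AdmissiblePotential Φ) (hε : 0 < ε) (ν : Measure ℝ) [SFinite ν]
    {n : ℕ} (i : Fin n) : ∀ᵐ X : Config n, ∫⁻ s, tieI Φ ε X i s ∂ν = 0 := by
  have hm := measurable_tieI hΦ hε i
  have h1 : ∫⁻ X : Config n, ∫⁻ s, tieI Φ ε X i s ∂ν = 0 := by
    rw [lintegral_lintegral_swap
      (f := fun (X : Config n) s => tieI Φ ε X i s) (hm.comp measurable_swap).aemeasurable]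
    rw [← lintegral_zero (μ := ν)]
    refine lintegral_congr fun s => ?_
    rw [← lintegral_zero (μ := (volume : Measure (Config n)))]
    refine lintegral_congr_ae ?_
    filter_upwards [ae_not_tie hΦ hε i s] with X hX
    exact if_neg hX
  have h2 : Measurable fun X : Config n => ∫⁻ s, tieI Φ ε X i s ∂ν :=
    (hm.comp measurable_swap).lintegral_prod_right'
  exact (lintegral_eq_zero_iff h2).1 h1

theorem ae_tie_append (hΦ : AdmissiblePotential Φ) (hε : 0 < ε) (ν : Measure ℝ) [SFinite ν]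
    (k : ℕ) : ∀ᵐ V : Config k, ∀ m : ℕ, ∀ᵐ w : Config m, ∀ j : Fin k,
      ∫⁻ s, tieI Φ ε (Fin.append V w : Config (k + m)) (Fin.castAdd m j) s ∂ν = 0 := by
  rw [ae_all_iff]
  intro m
  have h1 : ∀ᵐ p ∂((volume : Measure (Config k)).prod (volume : Measure (Config m))), ∀ j : Fin k,
      ∫⁻ s, tieI Φ ε (Fin.append p.1 p.2 : Config (k + m)) (Fin.castAdd m j) s ∂ν = 0 := by
    rw [ae_all_iff]
    intro j
    exact (FM167.measurePreserving_append (α := PhasePoint) k m).quasiMeasurePreserving.ae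
      (ae_lintegral_tie hΦ hε ν (Fin.castAdd m j))
  exact Measure.ae_ae_of_ae_prod h1

/-- Mecke'd functionals which vanish almost everywhere. -/
theorem MS_eq_zero {F : (k m : ℕ) → Config k → Config m → Fin k → ℝ≥0∞}
    (h : ∀ k, ∀ᵐ V : Config k, ∀ m, ∀ᵐ w : Config m, ∀ j, F k m V w j = 0) :
    MS f₀ ε F = 0 := by
  unfold MS
  rw [ENNReal.tsum_eq_zero]
  intro k
  have h1 : ∫⁻ V : Config k, gcWeight f₀ ε k V *
      gcE f₀ ε (fun m w => perpInd ε V w * ∑ j : Fin k, F k m V w j) = 0 := by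
    rw [← lintegral_zero (μ := (volume : Measure (Config k)))]
    refine lintegral_congr_ae ?_
    filter_upwards [h k] with V hV
    have h2 : gcE f₀ ε (fun m w => perpInd ε V w * ∑ j : Fin k, F k m V w j) = 0 := by
      unfold gcE
      have h3 : ∀ m, ∫⁻ w : Config m, gcWeight f₀ ε m w *
          (perpInd ε V w * ∑ j : Fin k, F k m V w j) = 0 := by
        intro m
        rw [← lintegral_zero (μ := (volume : Measure (Config m)))]
        refine lintegral_congr_ae ?_
        filter_upwards [hV m] with w hw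
        rw [Finset.sum_eq_zero fun j _ => hw j, mul_zero, mul_zero]
      simp only [h3, mul_zero, tsum_zero]
    rw [h2, mul_zero]
  rw [h1, mul_zero]

/-! ### The majorant -/

/-- `ways` with a parameter. -/
theorem measurable_ways_par (hΦ : AdmissiblePotential Φ) (hε : 0 < ε) (T : ℝ) {α : Type*}
    [MeasurableSpace α] {G : α → (P : CTree) → PhasePoint × Par P → ℝ≥0∞}
    (hG : ∀ P, Measurable fun q : (PhasePoint × Par P) × α => G q.2 P q.1) {k : ℕ} (j : Fin k) :
    Measurable fun q : Config k × α => ways Φ ε T (G q.2) q.1 j := by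
  unfold ways
  refine Measurable.tsum fun P => Finset.measurable_sum _ fun e _ => ?_
  have hV : Measurable fun q : Config k × α => (fun x => q.1 (e x) : Idx P → PhasePoint) :=
    measurable_pi_iff.2 fun x => (measurable_pi_apply (e x)).comp measurable_fst
  by_cases he : e (root P) = j
  · have hs : MeasurableSet {q : Config k × α |
        e (root P) = j ∧ (fun x => q.1 (e x)) ∈ Skel Φ ε P T} := by
      have h1 : {q : Config k × α |
          e (root P) = j ∧ (fun x => q.1 (e x)) ∈ Skel Φ ε P T} =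
            (fun q : Config k × α => (fun x => q.1 (e x) : Idx P → PhasePoint)) ⁻¹'
              Skel Φ ε P T := by
        ext q
        simp [he]
      rw [h1]
      exact hV (measurableSet_skel hΦ hε P T)
    refine Measurable.ite hs ?_ measurable_const
    exact (hG P).comp (((measurable_inv hΦ hε P T).comp hV).prodMk measurable_snd)
  · simp only [he, false_and, if_false]
    exact measurable_const

/-- The indicator of the mid-encounter trees as a tree functional. -/
def midZ (Φ : Space3 → ℝ) (ε s : ℝ) (P : CTree) (z : PhasePoint × Par P) : ℝ≥0∞ :=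
  Mid317.indM Φ ε s P (z.1.2, z.2)

theorem measurable_midZ (hΦ : AdmissiblePotential Φ) (ε : ℝ) (P : CTree) :
    Measurable fun q : (PhasePoint × Par P) × ℝ => midZ Φ ε q.2 P q.1 := by
  have h : Measurable fun q : (PhasePoint × Par P) × ℝ => (q.2, (q.1.1.2, q.1.2)) :=
    measurable_snd.prodMk (measurable_fst.fst.snd.prodMk measurable_fst.snd)
  exact (Mid317.measurable_indM hΦ ε P).comp h

/-- **The majorant** of the bad clusters. -/
def BR (Φ : Space3 → ℝ) (ε T' : ℝ) (N₁ : (k : ℕ) → Config k → Fin k → ℝ≥0∞)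
    (N₂ : (k m : ℕ) → Config k → Config m → Fin k → ℝ≥0∞) : RF := fun k m V w j s =>
  N₁ k V j + (N₂ k m V w j + (ways Φ ε T' (fun P z => midZ Φ ε s P z) V j +
    tieI Φ ε (Fin.append V w : Config (k + m)) (Fin.castAdd m j) s))

theorem measRF_BR (hΦ : AdmissiblePotential Φ) (hε : 0 < ε)
    {N₁ : (k : ℕ) → Config k → Fin k → ℝ≥0∞}
    {N₂ : (k m : ℕ) → Config k → Config m → Fin k → ℝ≥0∞}
    (h1 : ∀ k j, Measurable fun V : Config k => N₁ k V j) (h2 : MeasMS N₂) :
    MeasRF (BR Φ ε T' N₁ N₂) := by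
  intro k m j
  have ha : Measurable fun q : Config k × (Config m × ℝ) =>
      ways Φ ε T' (fun P z => midZ Φ ε q.2.2 P z) q.1 j :=
    (measurable_ways_par (Φ := Φ) hΦ hε T' (G := fun s P z => midZ Φ ε s P z)
      (fun P => measurable_midZ hΦ ε P) j).comp (measurable_fst.prodMk measurable_snd.snd)
  have hb : Measurable fun q : Config k × (Config m × ℝ) =>
      tieI Φ ε (Fin.append q.1 q.2.1 : Config (k + m)) (Fin.castAdd m j) q.2.2 := by
    have h30 : Measurable fun q : Config k × (Config m × ℝ) => (q.1, q.2.1) :=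
      measurable_fst.prodMk measurable_snd.fst
    have h31 : Measurable fun q : Config k × (Config m × ℝ) =>
        (Fin.append q.1 q.2.1 : Config (k + m)) :=
      Measurable.comp (g := fun p : Config k × Config m => (Fin.append p.1 p.2 : Config (k + m)))
        GC311.measurable_append h30
    have h32 : Measurable fun q : Config k × (Config m × ℝ) => q.2.2 := measurable_snd.snd
    have h3 := h32.prodMk h31
    have h4 := (measurable_tieI hΦ hε (Fin.castAdd m j)).comp h3
    simpa only [Function.comp_def] using h4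
  have hc : Measurable fun q : Config k × (Config m × ℝ) => N₁ k q.1 j :=
    Measurable.comp (g := fun V : Config k => N₁ k V j) (h1 k j) measurable_fst
  have hd : Measurable fun q : Config k × (Config m × ℝ) => N₂ k m q.1 q.2.1 j :=
    Measurable.comp (g := fun q : Config k × Config m => N₂ k m q.1 q.2 j)
      (f := fun q : Config k × (Config m × ℝ) => (q.1, q.2.1)) (h2 k m j)
      (measurable_fst.prodMk measurable_snd.fst)
  exact hc.add (hd.add (ha.add hb))

/-! ### Mass of the mid-encounter trees -/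

/-- time integral of the mid-encounter indicator -/
def midT (Φ : Space3 → ℝ) (ε te : ℝ) (K : ℕ) (P : CTree) (z : PhasePoint × Par P) : ℝ≥0∞ :=
  if P.leaves ≤ K then ∫⁻ s in Ioc 0 te, midZ Φ ε s P z else 0

theorem measurable_midT (hΦ : AdmissiblePotential Φ) (ε te : ℝ) (K : ℕ) (P : CTree) :
    Measurable (midT Φ ε te K P) := by
  unfold midT
  by_cases h : P.leaves ≤ K
  · simp only [if_pos h]
    exact (measurable_midZ hΦ ε P).lintegral_prod_right'
  · simp only [if_neg h]
    exact measurable_const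

theorem gcE_const_le (hf : Measurable f₀) (h1 : ∫⁻ z, ENNReal.ofReal (f₀ z) ≤ 1) (ε : ℝ)
    (c : ℝ≥0∞) : gcE f₀ ε (fun _ _ => c) ≤ c := by
  by_cases hc : c = ∞
  · rw [hc]; exact le_top
  · exact (gcE_const f₀ ε hf h1 hc).le

theorem TS_midT_le (hΦ : AdmissiblePotential Φ) (hf : Measurable f₀)
    (h1 : ∫⁻ z, ENNReal.ofReal (f₀ z) ≤ 1) (K : ℕ) :
    InEq2.TS Φ f₀ ε T' (fun P z _ _ => wQ Φ ε P z * midT Φ ε te K P z) ≤
      ∑ P ∈ GIVStep383.trees K, ∫⁻ s in Ioc 0 te, Mid317.midI Φ f₀ ε T' s P := by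
  unfold InEq2.TS
  have hz : ∀ P : CTree, P ∉ GIVStep383.trees K →
      ∫⁻ z : PhasePoint × Par P, {z : PhasePoint × Par P | Valid Φ ε P T' z.1.2 z.2}.indicator
        (fun z => wt Φ P z.1.2 z.2 * (pf Φ f₀ ε P z * gcE f₀ ε fun _ _ =>
          wQ Φ ε P z * midT Φ ε te K P z)) z = 0 := by
    intro P hP
    have h2 : ¬ P.leaves ≤ K := fun h => hP (GIVStep383.mem_trees.2 h)
    rw [← lintegral_zero (μ := (volume : Measure (PhasePoint × Par P)))]
    refine lintegral_congr fun z => ?_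
    have h3 : midT Φ ε te K P z = 0 := if_neg h2
    simp only [midT, if_neg h2, mul_zero, gcE_zero, indicator_zero]
  rw [tsum_eq_sum (s := GIVStep383.trees K) hz]
  refine Finset.sum_le_sum fun P hP => ?_
  have hPK : P.leaves ≤ K := GIVStep383.mem_trees.1 hP
  have hmeas := Mid317.measurable_ind2 (f₀ := f₀) hΦ hf ε T' P
  have hsw : ∫⁻ s in Ioc 0 te, Mid317.midI Φ f₀ ε T' s P =
      ∫⁻ z : PhasePoint × Par P, ∫⁻ s in Ioc 0 te,
        {z : PhasePoint × Par P | Valid Φ ε P T' z.1.2 z.2}.indicator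
          (fun z => wt Φ P z.1.2 z.2 * Mid317.gM Φ f₀ ε s P z) z := by
    unfold Mid317.midI
    exact lintegral_lintegral_swap hmeas.aemeasurable
  rw [hsw]
  refine lintegral_mono fun z => ?_
  by_cases hv : z ∈ {z : PhasePoint × Par P | Valid Φ ε P T' z.1.2 z.2}
  swap
  · rw [indicator_of_notMem hv]; exact bot_le
  have e1 : ∀ s, {z : PhasePoint × Par P | Valid Φ ε P T' z.1.2 z.2}.indicator
      (fun z => wt Φ P z.1.2 z.2 * Mid317.gM Φ f₀ ε s P z) z =
      (wt Φ P z.1.2 z.2 * (pf Φ f₀ ε P z * wQ Φ ε P z)) * midZ Φ ε s P z := by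
    intro s
    rw [indicator_of_mem hv]
    unfold Mid317.gM midZ
    rw [pfM_of_adm hv.1]
    show _ * (_ * (wQ Φ ε P z * _)) = _
    ring
  rw [indicator_of_mem hv]
  simp only [e1]
  have hmid : Measurable fun s => midZ Φ ε s P z :=
    (measurable_midZ hΦ ε P).comp (measurable_const.prodMk measurable_id)
  rw [lintegral_const_mul _ hmid]
  calc wt Φ P z.1.2 z.2 * (pf Φ f₀ ε P z * gcE f₀ ε fun _ _ => wQ Φ ε P z * midT Φ ε te K P z)
      ≤ wt Φ P z.1.2 z.2 * (pf Φ f₀ ε P z * (wQ Φ ε P z * midT Φ ε te K P z)) :=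
        mul_le_mul_right (mul_le_mul_right (gcE_const_le hf h1 ε _) _) _
    _ = _ := by
        unfold midT
        rw [if_pos hPK]
        ring

/-! ### The real flux of the majorant -/

theorem activity_inv (hε : 0 < ε) : (activity ε)⁻¹ = ENNReal.ofReal (ε ^ 2) := by
  unfold activity
  rw [ENNReal.ofReal_inv_of_pos (by positivity), inv_inv]

theorem activity_inv_ne_top (hε : 0 < ε) : (activity ε)⁻¹ ≠ ∞ := by
  rw [activity_inv hε]
  exact ENNReal.ofReal_ne_top

theorem eW_append {k m : ℕ} (V : Config k) (w : Config m) :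
    eW (Fin.append V w : Config (k + m)) (block k m) = NG416.Wt V := by
  have h3 := NG416.eW_map (Fin.append V w : Config (k + m)) (Fin.castAddEmb m)
  unfold block
  rw [h3]
  congr 1
  funext x
  exact Fin.append_left V w x

/-- The flux weight of a real cluster. -/
theorem flux_le (hΦ : AdmissiblePotential Φ) (hε : 0 < ε) {k m : ℕ} {V : Config k} {w : Config m}
    {j : Fin k} {s : ℝ} (hs : 0 < s) (hV : V ∈ PairExcluded ε k) (hw : w ∈ PairExcluded ε m)
    (hp : Perp ε V w)
    (hpre : preC Φ ε (Fin.append V w : Config (k + m)) s (Fin.castAdd m j) = block k m) :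
    ENNReal.ofReal (ε ^ 2 *
      (1 + ‖(flow Φ ε s (Fin.append V w : Config (k + m)) (Fin.castAdd m j)).2‖)) ≤
      Mid317.cS Φ 1 * ((activity ε)⁻¹ * NG416.Wt V) := by
  have hXE : (Fin.append V w : Config (k + m)) ∈ PairExcluded ε (k + m) :=
    (append_mem_pairExcluded_iff V w).2 ⟨hV, hw, hp⟩
  have h1 := spdW_le_pre hΦ hε hXE hs (Fin.castAdd m j) 1
  rw [hpre, eW_append] at h1
  have h2 : Hit167.spdW Φ ε 1 (Fin.append V w : Config (k + m)) (Fin.castAdd m j) s =
      ENNReal.ofReal (1 + ‖(flow Φ ε s (Fin.append V w : Config (k + m))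
        (Fin.castAdd m j)).2‖) := by
    unfold Hit167.spdW
    rw [ENNReal.ofReal_add zero_le_one (norm_nonneg _), ofReal_norm, ENNReal.ofReal_one]
    rfl
  rw [h2] at h1
  rw [ENNReal.ofReal_mul (by positivity), ← activity_inv hε]
  calc (activity ε)⁻¹ * _ ≤ (activity ε)⁻¹ * (Mid317.cS Φ 1 * NG416.Wt V) := mul_le_mul_right h1 _
    _ = _ := by ring

section mass

variable {N₁ : (k : ℕ) → Config k → Fin k → ℝ≥0∞}
  {N₂ : (k m : ℕ) → Config k → Config m → Fin k → ℝ≥0∞}

/-- Time integral of the majorant. -/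
theorem lintegral_BR_le (hΦ : AdmissiblePotential Φ) (hε : 0 < ε) {K k m : ℕ} (hk : k ≤ K)
    (V : Config k) (w : Config m) (j : Fin k) :
    ∫⁻ s in Ioc 0 te, BR Φ ε T' N₁ N₂ k m V w j s ≤
      ENNReal.ofReal te * N₁ k V j + (ENNReal.ofReal te * N₂ k m V w j +
        (ways Φ ε T' (fun P z => midT Φ ε te K P z) V j +
          ∫⁻ s in Ioc 0 te, tieI Φ ε (Fin.append V w : Config (k + m)) (Fin.castAdd m j) s)) := by
  have hmid : ∀ (P : CTree) (z : PhasePoint × Par P), Measurable fun s => midZ Φ ε s P z :=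
    fun P z => (measurable_midZ hΦ ε P).comp (measurable_const.prodMk measurable_id)
  have htie : Measurable fun s : ℝ =>
      tieI Φ ε (Fin.append V w : Config (k + m)) (Fin.castAdd m j) s := by
    have h4 : Measurable fun s : ℝ => (s, (Fin.append V w : Config (k + m))) :=
      measurable_id.prodMk measurable_const
    have h5 := (measurable_tieI hΦ hε (Fin.castAdd m j)).comp h4
    simpa only [Function.comp_def] using h5
  have h3 : ∫⁻ s in Ioc 0 te, ways Φ ε T' (fun P z => midZ Φ ε s P z) V j ≤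
      ways Φ ε T' (fun P z => midT Φ ε te K P z) V j := by
    rw [lintegral_ways (volume.restrict (Ioc 0 te)) (G := fun s P z => midZ Φ ε s P z) hmid]
    refine ways_mono fun P e _ _ => ?_
    unfold midT
    have hP : P.leaves ≤ K := by
      rw [← Tree674.card_idx, Fintype.card_congr e, Fintype.card_fin]
      exact hk
    rw [if_pos hP]
  unfold BR
  rw [lintegral_add_left measurable_const, lintegral_add_left measurable_const,
    lintegral_add_right _ htie, setLIntegral_const, setLIntegral_const, Real.volume_Ioc, sub_zero,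
    mul_comm (N₁ k V j), mul_comm (N₂ k m V w j)]
  gcongr

theorem rfl4_BR_le (hΦ : AdmissiblePotential Φ) (hf : Measurable f₀)
    (h1 : ∫⁻ z, ENNReal.ofReal (f₀ z) ≤ 1) (hε : 0 < ε) (K : ℕ) (hm2 : MeasMS N₂) :
    rfl4 Φ f₀ ε K te (BR Φ ε T' N₁ N₂) ≤ Mid317.cS Φ 1 *
      (ENNReal.ofReal te * ((activity ε)⁻¹ * MS f₀ ε (fun k _ V _ j => NG416.Wt V * N₁ k V j)) +
        (ENNReal.ofReal te * massN f₀ ε N₂ +
          ∑ P ∈ GIVStep383.trees K, ∫⁻ s in Ioc 0 te, Mid317.midI Φ f₀ ε T' s P)) := by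
  set a : ℝ≥0∞ := (activity ε)⁻¹ with ha
  have hat : a ≠ ∞ := activity_inv_ne_top hε
  set F1 : (k m : ℕ) → Config k → Config m → Fin k → ℝ≥0∞ := fun k _ V _ j =>
    ENNReal.ofReal te * (a * (NG416.Wt V * N₁ k V j)) with hF1
  set F2 : (k m : ℕ) → Config k → Config m → Fin k → ℝ≥0∞ := fun k m V w j =>
    ENNReal.ofReal te * (a * (NG416.Wt V * N₂ k m V w j)) with hF2
  set F3 : (k m : ℕ) → Config k → Config m → Fin k → ℝ≥0∞ := fun k _ V _ j =>
    a * (NG416.Wt V * ways Φ ε T' (fun P z => midT Φ ε te K P z) V j) with hF3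
  set F4 : (k m : ℕ) → Config k → Config m → Fin k → ℝ≥0∞ := fun k m V w j =>
    a * (NG416.Wt V * ∫⁻ s in Ioc 0 te,
      tieI Φ ε (Fin.append V w : Config (k + m)) (Fin.castAdd m j) s) with hF4
  have hW : ∀ k m : ℕ, Measurable fun q : Config k × Config m => NG416.Wt q.1 := fun k m =>
    NG416.measurable_Wt.comp measurable_fst
  have mF2 : MeasMS F2 := fun k m j => (((hW k m).mul (hm2 k m j)).const_mul a).const_mul _
  have mF3 : MeasMS F3 := fun k m j => by
    have h2 : Measurable fun q : Config k × Config m =>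
        ways Φ ε T' (fun P z => midT Φ ε te K P z) q.1 j :=
      measMS_ways (G := fun P z _ _ => midT Φ ε te K P z) hΦ hε T'
        (fun P m => (measurable_midT hΦ ε te K P).comp measurable_fst) k m j
    exact ((hW k m).mul h2).const_mul a
  have mF4 : MeasMS F4 := fun k m j => by
    have h2 : Measurable fun q : (Config k × Config m) × ℝ =>
        tieI Φ ε (Fin.append q.1.1 q.1.2 : Config (k + m)) (Fin.castAdd m j) q.2 := by
      have h31 : Measurable fun q : (Config k × Config m) × ℝ =>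
          (Fin.append q.1.1 q.1.2 : Config (k + m)) :=
        Measurable.comp (g := fun p : Config k × Config m => (Fin.append p.1 p.2 : Config (k + m)))
          GC311.measurable_append measurable_fst
      have h32 : Measurable fun q : (Config k × Config m) × ℝ => q.2 := measurable_snd
      have h4 := (measurable_tieI hΦ hε (Fin.castAdd m j)).comp (h32.prodMk h31)
      simpa only [Function.comp_def] using h4
    exact ((hW k m).mul h2.lintegral_prod_right').const_mul a
  have mF34 : MeasMS fun k m V w j => F3 k m V w j + F4 k m V w j := fun k m j =>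
    (mF3 k m j).add (mF4 k m j)
  have mF234 : MeasMS fun k m V w j => F2 k m V w j + (F3 k m V w j + F4 k m V w j) :=
    fun k m j => (mF2 k m j).add (mF34 k m j)
  have hle : rfl4 Φ f₀ ε K te (BR Φ ε T' N₁ N₂) ≤ MS f₀ ε (fun k m V w j =>
      Mid317.cS Φ 1 * (F1 k m V w j + (F2 k m V w j + (F3 k m V w j + F4 k m V w j)))) := by
    refine MS_mono (F := fun k m V w j => ∫⁻ s in Ioc 0 te,
      ENNReal.ofReal (ε ^ 2 * (1 + ‖(flow Φ ε s (Fin.append V w : Config (k + m))
        (Fin.castAdd m j)).2‖)) * (if k ≤ K ∧ preC Φ ε (Fin.append V w : Config (k + m)) s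
          (Fin.castAdd m j) = block k m then BR Φ ε T' N₁ N₂ k m V w j s else 0))
      fun k m V w j hV hw hp => ?_
    by_cases hk : k ≤ K
    swap
    · simp only [hk, false_and, if_false, mul_zero, lintegral_zero]
      exact bot_le
    have h2 : ∫⁻ s in Ioc 0 te, ENNReal.ofReal (ε ^ 2 *
        (1 + ‖(flow Φ ε s (Fin.append V w : Config (k + m)) (Fin.castAdd m j)).2‖)) *
          (if k ≤ K ∧ preC Φ ε (Fin.append V w : Config (k + m)) s (Fin.castAdd m j) = block k m
            then BR Φ ε T' N₁ N₂ k m V w j s else 0) ≤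
        ∫⁻ s in Ioc 0 te, (Mid317.cS Φ 1 * (a * NG416.Wt V)) * BR Φ ε T' N₁ N₂ k m V w j s := by
      refine setLIntegral_mono' measurableSet_Ioc fun s hs => ?_
      by_cases hc : k ≤ K ∧
          preC Φ ε (Fin.append V w : Config (k + m)) s (Fin.castAdd m j) = block k m
      · rw [if_pos hc]
        exact mul_le_mul_left (flux_le hΦ hε hs.1 hV hw hp hc.2) _
      · rw [if_neg hc, mul_zero]; exact bot_le
    refine h2.trans ?_
    have hWt : NG416.Wt V ≠ ∞ := ENNReal.sum_ne_top.2 fun _ _ => ENNReal.ofReal_ne_top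
    rw [lintegral_const_mul' _ _ (ENNReal.mul_ne_top (Mid317.cS_ne_top 1)
      (ENNReal.mul_ne_top hat hWt))]
    refine (mul_le_mul_right (lintegral_BR_le hΦ hε hk V w j) _).trans (le_of_eq ?_)
    simp only [hF1, hF2, hF3, hF4]
    ring
  refine hle.trans ?_
  rw [MS_const_mul (Mid317.cS_ne_top 1), MS_add hf mF234, MS_add hf mF34, MS_add hf mF4]
  refine mul_le_mul_right (add_le_add ?_ (add_le_add ?_ ?_)) _
  · simp only [hF1]
    rw [MS_const_mul ENNReal.ofReal_ne_top, MS_const_mul hat]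
  · simp only [hF2]
    rw [MS_const_mul ENNReal.ofReal_ne_top]
    exact le_rfl
  · have h4 : MS f₀ ε F4 = 0 := by
      refine MS_eq_zero fun k => ?_
      filter_upwards [ae_tie_append hΦ hε (volume.restrict (Ioc 0 te)) k] with V hV m
      filter_upwards [hV m] with w hw j
      simp only [hF4]
      rw [hw j, mul_zero, mul_zero]
    rw [h4, add_zero]
    exact (MS_ways_le (G := fun P z _ _ => midT Φ ε te K P z) hΦ hf hε
      (fun P m => (measurable_midT hΦ ε te K P).comp measurable_fst)).trans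
        (TS_midT_le hΦ hf h1 K)

end mass

/-! ### The reduction -/

theorem one_le_add_left {x : ℝ≥0∞} (y : ℝ≥0∞) (h : 1 ≤ x) : 1 ≤ x + y := h.trans le_self_add

theorem one_le_add_right {y : ℝ≥0∞} (x : ℝ≥0∞) (h : 1 ≤ y) : 1 ≤ x + y := h.trans le_add_self

/-- The majorant is at least `1` on the bad clusters. -/
theorem one_le_BR_or (hΦ : AdmissiblePotential Φ) (hε : 0 < ε) (htw0 : 0 ≤ tw) (htw : tw ≤ u₀)
    (hte : te < T') {K K' : ℕ} {N₁ : (k : ℕ) → Config k → Fin k → ℝ≥0∞}
    {N₂ : (k m : ℕ) → Config k → Config m → Fin k → ℝ≥0∞}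
    (h1 : ∀ k ≤ K, ∀ V ∈ PairExcluded ε k, ∀ j, Chain726.badFam Φ T' te ε k V j → 1 ≤ N₁ k V j)
    (h2 : ∀ k m (V : Config k) (w : Config m) (j : Fin k), k ≤ K → w ∈ PairExcluded ε m →
      TreeBad Φ ε K' u₀ T' V w j → 1 ≤ N₂ k m V w j)
    {k m : ℕ} {V : Config k} {w : Config m} {j : Fin k} {s : ℝ} (hV : V ∈ PairExcluded ε k)
    (hw : w ∈ PairExcluded ε m) (hp : Perp ε V w) (hk : k ≤ K) (hs : 0 < s) (hste : s ≤ te)
    (hpre : preC Φ ε (Fin.append V w : Config (k + m)) s (Fin.castAdd m j) = block k m) :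
    1 ≤ BR Φ ε T' N₁ N₂ k m V w j s ∨ GoodRed Φ ε tw T' V w j s := by
  rcases red_det hΦ hε htw0 htw hs hste hte K' hV hw hp hpre with h | h | h | h | h
  · left
    exact one_le_add_left _ (h1 k hk V hV j h)
  · left
    refine one_le_add_right _ (one_le_add_right _ (one_le_add_right _ ?_))
    unfold tieI
    rw [if_pos h]
  · left
    obtain ⟨P, e, z, h0, hl, hv, -, hm⟩ := h
    refine one_le_add_right _ (one_le_add_right _ (one_le_add_left _ ?_))
    have h3 := le_ways (G := fun P z => midZ Φ ε s P z) hΦ hε h0 hv hl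
    refine le_trans (le_of_eq ?_) h3
    unfold midZ Mid317.indM
    rw [if_pos hm]
  · left
    exact one_le_add_right _ (one_le_add_left _ (h2 k m V w j hk hw h))
  · exact Or.inr h

/-- **`StmtRed` of the one-contact step** (`OneCDefs_285`) from the volume bounds of the bad
configurations (D5) and the majorants of the bad trees (H12). -/
theorem stmtRed (hΦ : AdmissiblePotential Φ) (hf : Measurable f₀)
    (h1 : ∫⁻ z, ENNReal.ofReal (f₀ z) ≤ 1) {γ γ₀ : ℝ} (hγ : γ < γ₀) (hγ₀ : 0 < γ₀)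
    (hb : HasSummableGaussianBound γ₀ (fun x v => f₀ (x, v))) (htw0 : 0 ≤ tw) (htw : tw ≤ u₀)
    (hte : te < T') (hvol : ∀ K, NG416.BadVol γ K (Chain726.badFam Φ T' te))
    (hR : ∀ K, RtGMaj Φ f₀ u₀ T' K) : StmtRed Φ f₀ tw te T' := by
  have hN1 : ∀ K : ℕ, _ := fun K =>
    NG416.ngin_mecke (Chain726.permCov_badFam hΦ T' te) hγ (hvol K) hf h1 hb
  choose N₁ hN₁m hN₁p hN₁1 hN₁b hN₁t using hN1
  have hN2 : ∀ K : ℕ, _ := fun K => exists_N (hR K)
  choose N₂ hN₂a hN₂t using hN2
  refine ⟨fun K ε => if 0 < ε then BR Φ ε T' (N₁ K ε) (N₂ K ε) else fun _ _ _ _ _ _ => 0,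
    fun K ε => ?_, fun K ε hε k m V w j s hV hw hp hk hs hste hpre => ?_, ?_⟩
  · by_cases hε : 0 < ε
    · simp only [if_pos hε]
      exact measRF_BR hΦ hε (hN₁m K ε) (hN₂a K ε).1
    · simp only [if_neg hε]
      exact fun _ _ _ => measurable_const
  · simp only [if_pos hε]
    obtain ⟨-, K', hK'⟩ := hN₂a K ε
    exact one_le_BR_or hΦ hε htw0 htw hte (hN₁b K ε hε) hK' hV hw hp hk hs hste hpre
  · rw [null_iff_tendsto]
    intro K
    have hmid : Tendsto (fun ε => ∑ P ∈ GIVStep383.trees K,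
        ∫⁻ s in Ioc 0 te, Mid317.midI Φ f₀ ε T' s P) (𝓝[>] (0 : ℝ)) (𝓝 0) := by
      have h2 : Tendsto (fun ε => ∑ P ∈ GIVStep383.trees K,
          ∫⁻ s in Ioc 0 te, Mid317.midI Φ f₀ ε T' s P) (𝓝[>] (0 : ℝ))
          (𝓝 (∑ _P ∈ GIVStep383.trees K, 0)) := by
        refine tendsto_finsetSum _ fun P _ => ?_
        simp only [← restrict_Ioo_eq_restrict_Ioc]
        exact Mid317.tendsto_lintegral_midI hΦ hf hγ₀ hb T' te P
      rwa [Finset.sum_const_zero] at h2
    have hlim : Tendsto (fun ε => Mid317.cS Φ 1 *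
        (ENNReal.ofReal te * ((activity ε)⁻¹ *
          MS f₀ ε (fun k _ V _ j => NG416.Wt V * N₁ K ε k V j)) +
        (ENNReal.ofReal te * massN f₀ ε (N₂ K ε) +
          ∑ P ∈ GIVStep383.trees K, ∫⁻ s in Ioc 0 te, Mid317.midI Φ f₀ ε T' s P)))
        (𝓝[>] (0 : ℝ)) (𝓝 0) := by
      have h2 := (ENNReal.Tendsto.const_mul (a := ENNReal.ofReal te) (hN₁t K)
        (Or.inr ENNReal.ofReal_ne_top)).add ((ENNReal.Tendsto.const_mul
          (a := ENNReal.ofReal te) (hN₂t K) (Or.inr ENNReal.ofReal_ne_top)).add hmid)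
      rw [mul_zero, zero_add, zero_add] at h2
      have h3 := ENNReal.Tendsto.const_mul (a := Mid317.cS Φ 1) h2
        (Or.inr (Mid317.cS_ne_top 1))
      rw [mul_zero] at h3
      exact h3
    refine tendsto_of_tendsto_of_tendsto_of_le_of_le' tendsto_const_nhds hlim
      (Eventually.of_forall fun _ => bot_le) ?_
    filter_upwards [self_mem_nhdsWithin] with ε hε
    have hε0 : 0 < ε := hε
    simp only [if_pos hε0]
    exact rfl4_BR_le hΦ hf h1 hε0 K (hN₂a K ε).1

end Crest.Agent.R122.Red674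

end
end

-- ▼ part R122/RedW_674

/-!
# Reduction to good trees, window form (row 122, helper674)

* `stmtRed_kData` : `StmtRed` from `KData` and `RtGMaj` (D5 = `Chain726.badVol`).
* `rtgMaj_of_ih` : `RtGMaj` at the end `tw` of the previous windows, from the induction hypothesis
  and the null facts `LinkNull`, `RetNullT`, `OkNull`.
* `stmtRed_evW` : `StmtRed` on all short windows, horizon `tw + h₀`.
-/

set_option autoImplicit false

open MeasureTheory Set Filter Topology
open scoped ENNReal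
open Crest.AnalysisR.Kinetic
open Crest.Agent.R122.Master566 Crest.Agent.R122.EDefs602 Crest.Agent.R122.RtG302
open Crest.Agent.R122.Top602

namespace Crest.Agent.R122.Red674

variable {Φ : Space3 → ℝ} {β T : ℝ} {f₀ : PhasePoint → ℝ} {f : ℝ → PhasePoint → ℝ}
  {γ : ℝ → ℝ} {ρ : ℝ≥0∞} {tw te T' : ℝ}

/-- **`StmtRed`** from `KData` and the majorants of the bad trees. -/
theorem stmtRed_kData (hD : KData Φ β T f₀ f) (htw : 0 ≤ tw) (hte0 : 0 ≤ te) (hte : te < T')
    (hR : ∀ K, RtGMaj Φ f₀ tw T' K) : OneC285.StmtRed Φ f₀ tw te T' :=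
  stmtRed hD.adm hD.contDiff.continuous.measurable
    (FM167.lintegral_density_eq_one hD.nonneg hD.integrable hD.mass).le
    (by linarith [hD.beta_pos] : β < 2 * β) (by linarith [hD.beta_pos]) hD.gaussian htw le_rfl hte
    (fun K => Chain726.badVol hD.adm (hte0.trans hte.le) hD.beta_pos K) hR

/-- **`RtGMaj`** at `tw` from the induction hypothesis at `tw` and the null facts. -/
theorem rtgMaj_of_ih (hD : KData Φ β T f₀ f) {g1 : ℝ} {r1 : ℝ≥0∞} (hg : g1 ≤ β) (hr : 0 < r1)
    (hLP : LinePar g1 r1 T γ ρ) (hIH : IH Φ f₀ f T γ ρ tw)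
    (h2 : ∀ K K', LinkNull Φ f₀ tw T' K K') (h3 : ∀ K K', RetNullT Φ f₀ tw T' K K')
    (h4 : ∀ K, OkNull Φ f₀ T' K) (K : ℕ) : RtGMaj Φ f₀ tw T' K := by
  have hf : Measurable f₀ := hD.contDiff.continuous.measurable
  have hβ := hD.beta_pos
  obtain ⟨C, hC, hb⟩ := GC311.exists_gaussian_bound hD.gaussian
  have hb' : ∀ z : PhasePoint, f₀ z ≤ C * Real.exp (-(2 * β) * ‖z.2‖ ^ 2) := fun z => by
    have h := (le_abs_self _).trans (hb z.1 z.2)
    rw [neg_mul]
    exact h
  have hγb : ∀ τ, 0 < τ → τ ≤ tw → γ τ ≤ β := by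
    intro τ hτ _
    obtain ⟨g0, κ, hκ, hγ, -, hg0⟩ := hLP.lin
    rw [hγ]
    show g0 - κ * τ ≤ β
    have : 0 ≤ κ * τ := by positivity
    linarith
  have hρ0 : ρ ≠ 0 := (hr.trans_le hLP.lo).ne'
  have hρt : ρ ≠ ∞ := (hLP.hi.trans ENNReal.one_lt_top).ne
  exact rtgMaj hD.adm hf
    (TouchN302.touchNull hD.adm hf hC hb' hβ (by linarith : β < 2 * β) hLP.measurable hρ0 hρt hγb
      hIH.tn T' K) (h2 K) (h3 K) (h4 K)

/-- **`StmtRed` on all short windows**, from the induction hypothesis and majorants of the bad trees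
at `tw`, horizon `tw + h₀`. -/
theorem stmtRed_evW_of_maj (hD : KData Φ β T f₀ f) {h₀ : ℝ} (hh : 0 < h₀)
    (hR : EvW T fun _ _ tw _ => IH Φ f₀ f T γ ρ tw → ∀ K, RtGMaj Φ f₀ tw (tw + h₀) K) :
    EvW T fun _ _ tw te => IH Φ f₀ f T γ ρ tw → OneC285.StmtRed Φ f₀ tw te (tw + h₀) := by
  have h1 : EvW T fun h _ _ _ => h ≤ h₀ / 2 :=
    ⟨h₀ / 2, by positivity, 0, fun _ _ _ _ _ hle _ _ _ => hle⟩
  refine (hR.and h1).mono fun h L tw te hh0 hL hW hq hIH => ?_
  have hte : te < tw + h₀ := by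
    have := hW.short
    have := hq.2
    linarith
  exact stmtRed_kData hD hW.nonneg (hW.nonneg.trans hW.le) hte (hq.1 hIH)

/-- **`StmtRed` on all short windows** from the null facts. -/
theorem stmtRed_evW (hD : KData Φ β T f₀ f) {g1 : ℝ} {r1 : ℝ≥0∞} (hg : g1 ≤ β) (hr : 0 < r1)
    (hLP : LinePar g1 r1 T γ ρ) {h₀ : ℝ} (hh : 0 < h₀)
    (h2 : ∀ tw ∈ Icc 0 T, ∀ K K', LinkNull Φ f₀ tw (tw + h₀) K K')
    (h3 : ∀ tw ∈ Icc 0 T, ∀ K K', RetNullT Φ f₀ tw (tw + h₀) K K')
    (h4 : ∀ tw ∈ Icc 0 T, ∀ K, OkNull Φ f₀ (tw + h₀) K) :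
    EvW T fun _ _ tw te => IH Φ f₀ f T γ ρ tw → OneC285.StmtRed Φ f₀ tw te (tw + h₀) := by
  refine stmtRed_evW_of_maj hD hh (EvW.of_forall fun h L tw te _ _ _ hW hIH K => ?_)
  have ht : tw ∈ Icc 0 T := ⟨hW.nonneg, hW.le.trans hW.le_T⟩
  exact rtgMaj_of_ih hD hg hr hLP hIH (h2 tw ht) (h3 tw ht) (h4 tw ht) K

end Crest.Agent.R122.Red674
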