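import Crest.Agent.R122.OneCA_423
import Crest.Agent.R122.TreeDom_974
import Crest.Agent.R122.Mom_974
import Crest.Agent.R122.ToTree_335
import Crest.Agent.R122.CausalMeas_291
import Crest.Agent.R122.BadHit_370
import Crest.Agent.R122.OneCDefs_285
import Crest.Agent.R122.GIVChild_383
import Crest.Agent.R122.TreeLim_974
import Crest.Agent.R122.EBasic_602

-- ▼ part R122/Third_741
section

/-!
# Third particle near an encounter (row 122, GAP-E)

* `volume_near_le` : the set of positions at which a moving point (path `γ`) comes `r`-close to some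
  gas particle during `[a, b]` has volume `≤ 8 c3 r² (r + 2 (b - a) + ∫ |γ'|) * (energy weight)`.
* `Near` : a gas particle is `r`-close to the point `x` at some time of `[s - a, s + a]`; it is
  measurable, its volume in `x` is `O(r² (r + a))`; `near_flux_le` is the flux form of the estimate.
-/

set_option autoImplicit false

open MeasureTheory Set Filter Topology
open scoped ENNReal
open Crest.AnalysisR.Kinetic
open Crest.Agent.R122.Kin796 Crest.Agent.R122.Kin796.CTree Crest.Agent.R122.Tree674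
open Crest.Agent.R122.Disc416 Crest.Agent.R122.Flux663 Crest.Agent.R122.OC663 Crest.Agent.R122.EDefs602
open Crest.Agent.R122.GC311 Crest.Agent.R122.Flow671 Crest.Agent.R122.Loc45 Crest.Agent.R122.Mom974
open Crest.Agent.R122.OneC423 Crest.Agent.R122.TreeDom974

noncomputable section

namespace Crest.Agent.R122.Third741

variable {Φ : Space3 → ℝ} {f₀ : PhasePoint → ℝ} {ε : ℝ}

/-- energy weight of a gas configuration (dominates number and kinetic energy at all times). -/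
def Wt (Φ : Space3 → ℝ) {n : ℕ} (Z : Config n) : ℝ≥0∞ :=
  ENNReal.ofReal (1 + 2 * stabB Φ) * ∑ i, ENNReal.ofReal (1 + ‖(Z i).2‖ ^ 2)

theorem card_le_Wt (Φ : Space3 → ℝ) {n : ℕ} (Z : Config n) : (n : ℝ≥0∞) ≤ Wt Φ Z := by
  have hB := stabB_nonneg Φ
  have h1 : (n : ℝ≥0∞) = ∑ _i : Fin n, (1 : ℝ≥0∞) := by simp
  have h2 : ∑ _i : Fin n, (1 : ℝ≥0∞) ≤ ∑ i, ENNReal.ofReal (1 + ‖(Z i).2‖ ^ 2) := by
    refine Finset.sum_le_sum fun i _ => ?_
    rw [← ENNReal.ofReal_one]
    exact ENNReal.ofReal_le_ofReal (by nlinarith [sq_nonneg ‖(Z i).2‖])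
  have h3 : (1 : ℝ≥0∞) ≤ ENNReal.ofReal (1 + 2 * stabB Φ) := by
    rw [← ENNReal.ofReal_one]
    exact ENNReal.ofReal_le_ofReal (by linarith)
  calc (n : ℝ≥0∞) ≤ 1 * ∑ i, ENNReal.ofReal (1 + ‖(Z i).2‖ ^ 2) := by
        rw [h1, one_mul]; exact h2
    _ ≤ Wt Φ Z := mul_le_mul_left h3 _

/-- **Volume of the positions from which a moving point comes close to the gas.** -/
theorem volume_near_le (hΦ : AdmissiblePotential Φ) (hε : 0 < ε) {n : ℕ} {Z : Config n}
    (hZ : Z ∈ PairExcluded ε n) {a b r : ℝ} (hr : 0 < r) {γ γ' : ℝ → Space3}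
    (hγ : ∀ s ∈ Icc a b, HasDerivAt γ (γ' s) s) (hγ' : Continuous γ') (hγc : Continuous γ) :
    volume {x : Space3 | ∃ i, ∃ s ∈ Icc a b, dist (x + γ s) (flow Φ ε s Z i).1 ≤ r} ≤
      8 * Sweep815.c3 * ENNReal.ofReal r ^ 2 *
        (ENNReal.ofReal r + 2 * ENNReal.ofReal (b - a) +
          ∫⁻ u in Icc a b, ENNReal.ofReal ‖γ' u‖) * Wt Φ Z := by
  have hD : Z ∈ Dom Φ (Fin n) := pairExcluded_subset_Dom hε n hZ
  have hcf := flow_continuous_time hΦ hε Z
  have hcv : ∀ i, Continuous fun s => (flow Φ ε s Z i).2 := fun i =>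
    continuous_snd.comp ((continuous_apply i).comp hcf)
  have hcx : ∀ i, Continuous fun s => (flow Φ ε s Z i).1 := fun i =>
    continuous_fst.comp ((continuous_apply i).comp hcf)
  have hr0 : ENNReal.ofReal r ≠ 0 := (ENNReal.ofReal_pos.2 hr).ne'
  have hrt : ENNReal.ofReal r ≠ ∞ := ENNReal.ofReal_ne_top
  have hcard := card_le_Wt Φ Z
  have hspeed : ∀ u, ∑ i, ENNReal.ofReal ‖(flow Φ ε u Z i).2‖ ≤ 2 * Wt Φ Z := by
    intro u
    refine (Finset.sum_le_sum fun i _ => ENNReal.ofReal_le_ofReal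
      (show ‖(flow Φ ε u Z i).2‖ ≤ 1 + ‖(flow Φ ε u Z i).2‖ by linarith)).trans ?_
    have := speed_flow_le hΦ hε hZ u
    rw [mul_assoc] at this
    exact this
  set g : ℝ≥0∞ := ∫⁻ u in Icc a b, ENNReal.ofReal ‖γ' u‖ with hg
  -- one particle
  have h1 : ∀ i, volume {x : Space3 | ∃ s ∈ Icc a b, dist (x + γ s) (flow Φ ε s Z i).1 ≤ r} ≤
      8 * Sweep815.c3 * ENNReal.ofReal r ^ 2 * (ENNReal.ofReal r + g +
        ∫⁻ u in Icc a b, ENNReal.ofReal ‖(flow Φ ε u Z i).2‖) := by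
    intro i
    refine (Sweep815.volume_translate_le hr hγ
      (fun s _ => hasDerivAt_pos_flow hΦ hε hD s i) hγ' (hcv i) hγc (hcx i)).trans ?_
    have h2 : ENNReal.ofReal (2 * r) ^ 3 * Sweep815.c3 =
        8 * Sweep815.c3 * ENNReal.ofReal r ^ 2 * ENNReal.ofReal r := by
      rw [ENNReal.ofReal_mul (by norm_num), ENNReal.ofReal_ofNat]
      ring
    have h3 : (ENNReal.ofReal r)⁻¹ * (ENNReal.ofReal (2 * r) ^ 3 * Sweep815.c3) =
        8 * Sweep815.c3 * ENNReal.ofReal r ^ 2 := by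
      rw [h2]
      calc (ENNReal.ofReal r)⁻¹ * (8 * Sweep815.c3 * ENNReal.ofReal r ^ 2 * ENNReal.ofReal r)
          = 8 * Sweep815.c3 * ENNReal.ofReal r ^ 2 *
              ((ENNReal.ofReal r)⁻¹ * ENNReal.ofReal r) := by ring
        _ = _ := by rw [ENNReal.inv_mul_cancel hr0 hrt, mul_one]
    rw [h3, h2, ← mul_add, add_assoc]
    gcongr
    rw [hg, ← lintegral_add_left (by fun_prop)]
    refine lintegral_mono fun u => ?_
    rw [← ENNReal.ofReal_add (norm_nonneg _) (norm_nonneg _)]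
    exact ENNReal.ofReal_le_ofReal (norm_sub_le _ _)
  have h4 : {x : Space3 | ∃ i, ∃ s ∈ Icc a b, dist (x + γ s) (flow Φ ε s Z i).1 ≤ r} =
      ⋃ i, {x : Space3 | ∃ s ∈ Icc a b, dist (x + γ s) (flow Φ ε s Z i).1 ≤ r} := by
    ext x; simp
  rw [h4]
  calc volume (⋃ i, {x : Space3 | ∃ s ∈ Icc a b, dist (x + γ s) (flow Φ ε s Z i).1 ≤ r})
      ≤ ∑ i, volume {x : Space3 | ∃ s ∈ Icc a b, dist (x + γ s) (flow Φ ε s Z i).1 ≤ r} :=
        (measure_iUnion_le _).trans (by rw [tsum_fintype])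
    _ ≤ ∑ i, 8 * Sweep815.c3 * ENNReal.ofReal r ^ 2 * (ENNReal.ofReal r + g +
        ∫⁻ u in Icc a b, ENNReal.ofReal ‖(flow Φ ε u Z i).2‖) := Finset.sum_le_sum fun i _ => h1 i
    _ = 8 * Sweep815.c3 * ENNReal.ofReal r ^ 2 * (n * (ENNReal.ofReal r + g) +
        ∫⁻ u in Icc a b, ∑ i, ENNReal.ofReal ‖(flow Φ ε u Z i).2‖) := by
        rw [← Finset.mul_sum, Finset.sum_add_distrib]
        congr 2
        · rw [Finset.sum_const, Finset.card_univ, Fintype.card_fin, nsmul_eq_mul]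
        · rw [lintegral_finsetSum' _ fun i _ => ((hcv i).norm.measurable
            |>.ennreal_ofReal).aemeasurable]
    _ ≤ 8 * Sweep815.c3 * ENNReal.ofReal r ^ 2 * (Wt Φ Z * (ENNReal.ofReal r + g) +
        ∫⁻ _ in Icc a b, 2 * Wt Φ Z) := by
        gcongr with u
        exact hspeed u
    _ = _ := by
        rw [setLIntegral_const, Real.volume_Icc]
        ring

/-! ### The near event -/

/-- Some particle of `w` is `r`-close to `x` at some time of `[s - a, s + a]`. -/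
def Near (Φ : Space3 → ℝ) (ε : ℝ) {n : ℕ} (w : Config n) (s a r : ℝ) (x : Space3) : Prop :=
  ∃ i, ∃ t ∈ Icc (s - a) (s + a), dist x (flow Φ ε t w i).1 ≤ r

theorem Near.mono {n : ℕ} {w : Config n} {s a r r' : ℝ} {x : Space3} (h : Near Φ ε w s a r x)
    (hr : r ≤ r') : Near Φ ε w s a r' x := by
  obtain ⟨i, t, ht, hd⟩ := h
  exact ⟨i, t, ht, hd.trans hr⟩

theorem measurableSet_near (hΦ : AdmissiblePotential Φ) (hε : 0 < ε) (a : ℝ) (n : ℕ) :
    MeasurableSet {q : Config n × (ℝ × (ℝ × Space3)) | Near Φ ε q.1 q.2.1 a q.2.2.1 q.2.2.2} := by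
  have e : {q : Config n × (ℝ × (ℝ × Space3)) | Near Φ ε q.1 q.2.1 a q.2.2.1 q.2.2.2} =
      ⋃ i, {q | ∃ t ∈ Icc (q.2.1 - a) (q.2.1 + a),
        dist q.2.2.2 (flow Φ ε t q.1 i).1 - q.2.2.1 ≤ 0} := by
    ext q
    simp only [Near, mem_iUnion, mem_ofPred_eq, sub_nonpos]
  rw [e]
  refine MeasurableSet.iUnion fun i => ?_
  refine Causal291.measurableSet_exists_Icc (α := fun q : Config n × (ℝ × (ℝ × Space3)) =>
    q.2.1 - a) (β := fun q => q.2.1 + a) (by fun_prop) (by fun_prop)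
    (g := fun q t => dist q.2.2.2 (flow Φ ε t q.1 i).1 - q.2.2.1) (fun q => ?_) (fun t => ?_) 0
  · exact (continuous_const.dist (continuous_fst.comp ((continuous_apply i).comp
      (flow_continuous_time hΦ hε q.1)))).sub continuous_const
  · have h1 : Measurable fun q : Config n × (ℝ × (ℝ × Space3)) => flow Φ ε t q.1 :=
      (measurable_flow_joint hΦ hε).comp (f := fun q : Config n × (ℝ × (ℝ × Space3)) =>
        ((t, q.1) : ℝ × Config n)) (measurable_const.prodMk measurable_fst)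
    have h2 : Measurable fun q : Config n × (ℝ × (ℝ × Space3)) => (flow Φ ε t q.1 i).1 :=
      measurable_fst.comp ((measurable_pi_apply i).comp h1)
    have h3 : Measurable fun q : Config n × (ℝ × (ℝ × Space3)) => q.2.2.2 := by fun_prop
    have h4 : Measurable fun q : Config n × (ℝ × (ℝ × Space3)) => q.2.2.1 := by fun_prop
    exact (h3.dist h2).sub h4

open scoped Classical in
/-- Indicator of the near event. -/
def nearI (Φ : Space3 → ℝ) (ε : ℝ) {n : ℕ} (w : Config n) (s a r : ℝ) (x : Space3) : ℝ≥0∞ :=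
  if Near Φ ε w s a r x then 1 else 0


theorem nearI_of {n : ℕ} {w : Config n} {s a r : ℝ} {x : Space3} (h : Near Φ ε w s a r x) :
    nearI Φ ε w s a r x = 1 := if_pos h

theorem measurable_nearI (hΦ : AdmissiblePotential Φ) (hε : 0 < ε) (a : ℝ) (n : ℕ) :
    Measurable fun q : Config n × (ℝ × (ℝ × Space3)) =>
      nearI Φ ε q.1 q.2.1 a q.2.2.1 q.2.2.2 := by
  unfold nearI
  exact Measurable.ite (measurableSet_near hΦ hε a n) measurable_const measurable_const

theorem lintegral_nearI_le (hΦ : AdmissiblePotential Φ) (hε : 0 < ε) {n : ℕ} {w : Config n}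
    (hw : w ∈ PairExcluded ε n) {s a r : ℝ} (hr : 0 < r) (c : Space3) :
    ∫⁻ x : Space3, nearI Φ ε w s a r (x + c) ≤
      8 * Sweep815.c3 * ENNReal.ofReal r ^ 2 *
        (ENNReal.ofReal r + 4 * ENNReal.ofReal a) * Wt Φ w := by
  have h := volume_near_le hΦ hε hw (a := s - a) (b := s + a) hr (γ := fun _ => c)
    (γ' := fun _ => 0) (fun t _ => hasDerivAt_const t c) continuous_const continuous_const
  have e1 : (fun x : Space3 => nearI Φ ε w s a r (x + c)) =
      {x : Space3 | ∃ i, ∃ t ∈ Icc (s - a) (s + a),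
        dist (x + c) (flow Φ ε t w i).1 ≤ r}.indicator 1 := by
    funext x
    by_cases hx : Near Φ ε w s a r (x + c)
    · rw [nearI_of hx, indicator_of_mem (s := {x : Space3 | ∃ i, ∃ t ∈ Icc (s - a) (s + a),
        dist (x + c) (flow Φ ε t w i).1 ≤ r}) hx]
      rfl
    · unfold nearI
      rw [if_neg hx, indicator_of_notMem (s := {x : Space3 | ∃ i, ∃ t ∈ Icc (s - a) (s + a),
        dist (x + c) (flow Φ ε t w i).1 ≤ r}) hx]
  have hm : MeasurableSet {x : Space3 | ∃ i, ∃ t ∈ Icc (s - a) (s + a),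
        dist (x + c) (flow Φ ε t w i).1 ≤ r} := by
    have h1 : Measurable fun x : Space3 =>
        ((w, (s, (r, x + c))) : Config n × (ℝ × (ℝ × Space3))) := by fun_prop
    exact h1 (measurableSet_near hΦ hε a n)
  rw [e1, lintegral_indicator_one hm]
  refine h.trans (le_of_eq ?_)
  have e2 : ENNReal.ofReal (s + a - (s - a)) = 2 * ENNReal.ofReal a := by
    rw [show s + a - (s - a) = 2 * a by ring, ENNReal.ofReal_mul (by norm_num),
      ENNReal.ofReal_ofNat]
  rw [e2]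
  simp only [norm_zero, ENNReal.ofReal_zero, lintegral_zero, add_zero]
  ring

/-- Expected energy weight. -/
theorem gcE_Wt_le (hf : Measurable f₀) (h1 : ∫⁻ z, ENNReal.ofReal (f₀ z) ≤ 1) (ε : ℝ) :
    gcE f₀ ε (fun _ w => Wt Φ w) ≤ ENNReal.ofReal (1 + 2 * stabB Φ) *
      (activity ε * ∫⁻ z, ENNReal.ofReal (f₀ z) * ENNReal.ofReal (1 + ‖z.2‖ ^ 2)) := by
  have hφ : Measurable fun z : PhasePoint => ENNReal.ofReal (1 + ‖z.2‖ ^ 2) := by fun_prop
  unfold Wt
  rw [gcE_const_mul f₀ ε ENNReal.ofReal_ne_top]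
  exact mul_le_mul_right (gcE_sum_le hf h1 ε _ hφ) _

/-! ### Flux form -/

/-- Integrand of the flux form: a line of velocity `v` enters the ball around the root line (velocity
`u`, at `x + s • u` at time `s`), and a particle of `w` is near. -/
def nfI (Φ : Space3 → ℝ) (ε a : ℝ) (u : Space3) (G : Space3 → ℝ≥0∞) {n : ℕ} (w : Config n)
    (x : Space3) (s : ℝ) (v : Space3) : ℝ≥0∞ :=
  ENNReal.ofReal ‖v - u‖ * (G v * nearI Φ ε w s a (a * (1 + ‖v‖ + ‖u‖)) (x + s • u))

theorem measurable_nfI_joint (hΦ : AdmissiblePotential Φ) (hε : 0 < ε) (a : ℝ)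
    {G : Space3 → ℝ≥0∞} (hG : Measurable G) (n : ℕ) :
    Measurable fun q : (Config n × (Space3 × Space3)) × (ℝ × Space3) =>
      nfI Φ ε a q.1.2.2 G q.1.1 q.1.2.1 q.2.1 q.2.2 := by
  unfold nfI
  have h1 : Measurable fun q : (Config n × (Space3 × Space3)) × (ℝ × Space3) =>
      nearI Φ ε q.1.1 q.2.1 a (a * (1 + ‖q.2.2‖ + ‖q.1.2.2‖)) (q.1.2.1 + q.2.1 • q.1.2.2) :=
    (measurable_nearI hΦ hε a n).comp (f := fun q : (Config n × (Space3 × Space3)) ×
      (ℝ × Space3) => (q.1.1, (q.2.1, (a * (1 + ‖q.2.2‖ + ‖q.1.2.2‖),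
        q.1.2.1 + q.2.1 • q.1.2.2)))) (by fun_prop)
  have h2 : Measurable fun q : (Config n × (Space3 × Space3)) × (ℝ × Space3) => G q.2.2 :=
    hG.comp (by fun_prop)
  have h3 : Measurable fun q : (Config n × (Space3 × Space3)) × (ℝ × Space3) =>
      ENNReal.ofReal ‖q.2.2 - q.1.2.2‖ := by fun_prop
  exact h3.mul (h2.mul h1)

theorem measurable_nfI (hΦ : AdmissiblePotential Φ) (hε : 0 < ε) (a : ℝ) (u : Space3)
    {G : Space3 → ℝ≥0∞} (hG : Measurable G) (n : ℕ) :
    Measurable fun q : (Config n × Space3) × (ℝ × Space3) =>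
      nfI Φ ε a u G q.1.1 q.1.2 q.2.1 q.2.2 :=
  (measurable_nfI_joint hΦ hε a hG n).comp (f := fun q : (Config n × Space3) × (ℝ × Space3) =>
    ((q.1.1, (q.1.2, u)), (q.2.1, q.2.2))) (by fun_prop)

theorem norm_sub_le_mul (v u : Space3) : ‖v - u‖ ≤ (1 + ‖v‖) * (1 + ‖u‖) := by
  have := norm_sub_le v u
  nlinarith [norm_nonneg v, norm_nonneg u, mul_nonneg (norm_nonneg v) (norm_nonneg u)]

/-- Fourth moment. -/
def mom4 (G : Space3 → ℝ≥0∞) : ℝ≥0∞ := ∫⁻ v, G v * ENNReal.ofReal ((1 + ‖v‖) ^ 4)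

/-- **The flux form of the near event, fixed gas.** -/
theorem near_flux_w (hΦ : AdmissiblePotential Φ) (hε : 0 < ε) {n : ℕ} {w : Config n}
    (hw : w ∈ PairExcluded ε n) {a te : ℝ} (ha : 0 < a) (u : Space3)
    {G : Space3 → ℝ≥0∞} (hG : Measurable G) :
    ∫⁻ x : Space3, ∫⁻ s in Ioc 0 te, ∫⁻ v : Space3, nfI Φ ε a u G w x s v ≤
      40 * Sweep815.c3 * ENNReal.ofReal te * ENNReal.ofReal a ^ 3 *
        ENNReal.ofReal ((1 + ‖u‖) ^ 4) * mom4 G * Wt Φ w := by
  have hm := measurable_nfI hΦ hε a u hG n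
  have m1 : Measurable fun q : (Space3 × ℝ) × Space3 => nfI Φ ε a u G w q.1.1 q.1.2 q.2 :=
    hm.comp (f := fun q : (Space3 × ℝ) × Space3 => ((w, q.1.1), (q.1.2, q.2))) (by fun_prop)
  have m2 : Measurable fun q : Space3 × ℝ => ∫⁻ v : Space3, nfI Φ ε a u G w q.1 q.2 v :=
    m1.lintegral_prod_right'
  have m3 : ∀ s : ℝ, Measurable fun q : Space3 × Space3 => nfI Φ ε a u G w q.1 s q.2 := fun s =>
    hm.comp (f := fun q : Space3 × Space3 => ((w, q.1), (s, q.2))) (by fun_prop)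
  rw [lintegral_lintegral_swap (f := fun (x : Space3) (s : ℝ) =>
    ∫⁻ v : Space3, nfI Φ ε a u G w x s v) m2.aemeasurable]
  -- fixed `s`, `v`
  have hpt : ∀ (s : ℝ) (v : Space3), ∫⁻ x : Space3, nfI Φ ε a u G w x s v ≤
      40 * Sweep815.c3 * ENNReal.ofReal a ^ 3 * ENNReal.ofReal ((1 + ‖u‖) ^ 4) * Wt Φ w *
        (G v * ENNReal.ofReal ((1 + ‖v‖) ^ 4)) := by
    intro s v
    set r : ℝ := a * (1 + ‖v‖ + ‖u‖) with hr
    have hv := norm_nonneg v
    have hu := norm_nonneg u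
    have hr0 : 0 < r := by positivity
    have hle : r ≤ a * ((1 + ‖v‖) * (1 + ‖u‖)) := by
      rw [hr]
      have : 0 ≤ ‖v‖ * ‖u‖ := mul_nonneg hv hu
      nlinarith
    have hmx : Measurable fun x : Space3 => nearI Φ ε w s a r (x + s • u) :=
      (measurable_nearI hΦ hε a n).comp (f := fun x : Space3 => (w, (s, (r, x + s • u))))
        (by fun_prop)
    have e1 : ∫⁻ x : Space3, nfI Φ ε a u G w x s v =
        ENNReal.ofReal ‖v - u‖ * (G v * ∫⁻ x : Space3, nearI Φ ε w s a r (x + s • u)) := by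
      unfold nfI
      rw [lintegral_const_mul _ (hmx.const_mul _), lintegral_const_mul _ hmx]
    have h2 := lintegral_nearI_le hΦ hε hw (s := s) (a := a) hr0 (s • u)
    have h3 : ENNReal.ofReal r + 4 * ENNReal.ofReal a ≤
        5 * (ENNReal.ofReal a * ENNReal.ofReal ((1 + ‖v‖) * (1 + ‖u‖))) := by
      rw [← ENNReal.ofReal_mul ha.le, ← ENNReal.ofReal_ofNat 4, ← ENNReal.ofReal_ofNat 5,
        ← ENNReal.ofReal_mul (by norm_num), ← ENNReal.ofReal_mul (by norm_num),
        ← ENNReal.ofReal_add hr0.le (by positivity)]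
      refine ENNReal.ofReal_le_ofReal ?_
      have h4 : (1 : ℝ) ≤ (1 + ‖v‖) * (1 + ‖u‖) := by nlinarith [mul_nonneg hv hu]
      nlinarith
    have h5 : ENNReal.ofReal r ^ 2 ≤
        (ENNReal.ofReal a * ENNReal.ofReal ((1 + ‖v‖) * (1 + ‖u‖))) ^ 2 := by
      rw [← ENNReal.ofReal_mul ha.le]
      exact pow_le_pow_left' (ENNReal.ofReal_le_ofReal hle) 2
    set X : ℝ≥0∞ := ENNReal.ofReal ((1 + ‖v‖) * (1 + ‖u‖)) with hX
    rw [e1]
    calc ENNReal.ofReal ‖v - u‖ * (G v * ∫⁻ x : Space3, nearI Φ ε w s a r (x + s • u))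
        ≤ X * (G v * (8 * Sweep815.c3 * (ENNReal.ofReal a * X) ^ 2 *
            (5 * (ENNReal.ofReal a * X)) * Wt Φ w)) := by
          refine mul_le_mul' (ENNReal.ofReal_le_ofReal (norm_sub_le_mul v u))
            (mul_le_mul' le_rfl (h2.trans ?_))
          gcongr
      _ = 40 * Sweep815.c3 * ENNReal.ofReal a ^ 3 * X ^ 4 * Wt Φ w * G v := by ring
      _ = _ := by
          have e3 : X ^ 4 = ENNReal.ofReal ((1 + ‖v‖) ^ 4) * ENNReal.ofReal ((1 + ‖u‖) ^ 4) := by
            rw [hX, ← ENNReal.ofReal_pow (by positivity), mul_pow,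
              ENNReal.ofReal_mul (by positivity)]
          rw [e3]
          ring
  calc ∫⁻ s in Ioc 0 te, ∫⁻ x : Space3, ∫⁻ v : Space3, nfI Φ ε a u G w x s v
      = ∫⁻ s in Ioc 0 te, ∫⁻ v : Space3, ∫⁻ x : Space3, nfI Φ ε a u G w x s v := by
        refine lintegral_congr fun s => ?_
        exact lintegral_lintegral_swap (m3 s).aemeasurable
    _ ≤ ∫⁻ _ in Ioc 0 te, 40 * Sweep815.c3 * ENNReal.ofReal a ^ 3 *
          ENNReal.ofReal ((1 + ‖u‖) ^ 4) * Wt Φ w * mom4 G := by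
        refine lintegral_mono fun s => ?_
        refine (lintegral_mono fun v => hpt s v).trans (le_of_eq ?_)
        have hGm : Measurable fun v : Space3 => G v * ENNReal.ofReal ((1 + ‖v‖) ^ 4) :=
          hG.mul (by fun_prop)
        rw [lintegral_const_mul _ hGm]
        rfl
    _ = _ := by
        rw [setLIntegral_const, Real.volume_Ioc, sub_zero]
        ring

/-- **The flux form of the near event.** -/
theorem near_flux_le (hΦ : AdmissiblePotential Φ) (hf : Measurable f₀)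
    (h1 : ∫⁻ z, ENNReal.ofReal (f₀ z) ≤ 1) (hε : 0 < ε) {a te : ℝ} (ha : 0 < a) (u : Space3)
    {G : Space3 → ℝ≥0∞} (hG : Measurable G) (hGt : mom4 G ≠ ∞) :
    ∫⁻ x : Space3, gcE f₀ ε (fun _ w => ∫⁻ s in Ioc 0 te, ∫⁻ v : Space3,
        nfI Φ ε a u G w x s v) ≤
      40 * Sweep815.c3 * ENNReal.ofReal te * ENNReal.ofReal a ^ 3 *
        ENNReal.ofReal ((1 + ‖u‖) ^ 4) * mom4 G * (ENNReal.ofReal (1 + 2 * stabB Φ) *
      (activity ε * ∫⁻ z, ENNReal.ofReal (f₀ z) * ENNReal.ofReal (1 + ‖z.2‖ ^ 2))) := by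
  have hc3 : Sweep815.c3 ≠ ∞ := ENNReal.ofReal_ne_top
  have hms : ∀ n, Measurable (Function.uncurry fun (x : Space3) (w : Config n) =>
      ∫⁻ s in Ioc 0 te, ∫⁻ v : Space3, nfI Φ ε a u G w x s v) := by
    intro n
    have hm := measurable_nfI hΦ hε a u hG n
    have m1 : Measurable fun q : ((Space3 × Config n) × ℝ) × Space3 =>
        nfI Φ ε a u G q.1.1.2 q.1.1.1 q.1.2 q.2 :=
      hm.comp (f := fun q : ((Space3 × Config n) × ℝ) × Space3 =>
        ((q.1.1.2, q.1.1.1), (q.1.2, q.2))) (by fun_prop)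
    have m2 : Measurable fun q : (Space3 × Config n) × ℝ =>
        ∫⁻ v : Space3, nfI Φ ε a u G q.1.2 q.1.1 q.2 v := m1.lintegral_prod_right'
    exact m2.lintegral_prod_right'
  rw [BadHit370.lintegral_gcE hf ε volume hms]
  set c : ℝ≥0∞ := 40 * Sweep815.c3 * ENNReal.ofReal te * ENNReal.ofReal a ^ 3 *
        ENNReal.ofReal ((1 + ‖u‖) ^ 4) * mom4 G with hc
  have hct : c ≠ ∞ := by
    rw [hc]
    refine ENNReal.mul_ne_top (ENNReal.mul_ne_top (ENNReal.mul_ne_top (ENNReal.mul_ne_top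
      (ENNReal.mul_ne_top (by norm_num) hc3) ENNReal.ofReal_ne_top)
      (ENNReal.pow_ne_top ENNReal.ofReal_ne_top)) ENNReal.ofReal_ne_top) hGt
  calc gcE f₀ ε (fun n w => ∫⁻ x : Space3, ∫⁻ s in Ioc 0 te, ∫⁻ v : Space3,
        nfI Φ ε a u G w x s v)
      ≤ gcE f₀ ε (fun _ w => c * Wt Φ w) :=
        gcE_mono f₀ ε fun n w hw => near_flux_w hΦ hε hw ha u hG
    _ = c * gcE f₀ ε (fun _ w => Wt Φ w) := gcE_const_mul f₀ ε hct _
    _ ≤ _ := mul_le_mul' le_rfl (gcE_Wt_le hf h1 ε)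

end Crest.Agent.R122.Third741
end
end

-- ▼ part R122/ThirdOS_741

/-!
# Structure integrals of bad encounters (row 122, GAP-E)

* `entT_lineAt`, `entB_lineAt` : contact data of `lineAt`.
* `OS_le` : a structure functional which depends on the line only through the contact time, the
  velocity and the impact parameter.
* `third_OS_le` : third particle near the encounter.
-/

set_option autoImplicit false

open MeasureTheory Set Filter Topology
open scoped ENNReal
open Crest.AnalysisR.Kinetic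
open Crest.Agent.R122.Kin796 Crest.Agent.R122.Kin796.CTree Crest.Agent.R122.Tree674
open Crest.Agent.R122.Disc416 Crest.Agent.R122.Flux663 Crest.Agent.R122.OC663 Crest.Agent.R122.EDefs602
open Crest.Agent.R122.GC311 Crest.Agent.R122.Flow671 Crest.Agent.R122.Loc45 Crest.Agent.R122.Mom974
open Crest.Agent.R122.OneC423 Crest.Agent.R122.TreeDom974 Crest.Agent.R122.OneC285

noncomputable section

namespace Crest.Agent.R122.Third741

variable {Φ : Space3 → ℝ} {f₀ : PhasePoint → ℝ} {ε : ℝ}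

/-! ### Contact data -/

theorem rel_lineAt (s : ℝ) (ℓ : PhasePoint) (τ : ℝ) (v b : Space3) (n : ℕ) :
    relL ℓ (lineAt ε s ℓ τ v b n).1 =
      (ε • entrancePoint b (v - ℓ.2) - s • (v - ℓ.2), v - ℓ.2) := by
  unfold relL lineAt back
  refine Prod.ext ?_ rfl
  simp only [sub_smul, smul_sub]
  abel

theorem tline_ent {g b : Space3} (hg : g ≠ 0) (hb : inner ℝ b g = 0) (s : ℝ) :
    tline (ε • entrancePoint b g - s • g, g) = -(ε * (Real.sqrt (1 - ‖b‖ ^ 2) / ‖g‖) + s) := by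
  have h0 : ‖g‖ ^ 2 ≠ 0 := by positivity
  unfold tline entrancePoint
  simp only [inner_sub_left, inner_smul_left, hb, real_inner_self_eq_norm_sq, conj_trivial]
  field_simp
  ring

theorem bline_ent {g b : Space3} (hg : g ≠ 0) (hb : inner ℝ b g = 0) (s : ℝ) :
    bline (ε • entrancePoint b g - s • g, g) = ε • b := by
  unfold bline
  rw [tline_ent hg hb]
  unfold entrancePoint
  simp only [neg_smul, sub_neg_eq_add, add_smul, smul_sub, smul_smul]
  abel

theorem entT_ent (hε : 0 < ε) {g b : Space3} (hg : g ≠ 0) (hb : b ∈ impactDisc g) (s : ℝ) :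
    entT ε (ε • entrancePoint b g - s • g, g) = s := by
  unfold entT
  rw [tline_ent hg hb.1, bline_ent hg hb.1]
  simp only
  have h1 : ε ^ 2 - ‖ε • b‖ ^ 2 = ε ^ 2 * (1 - ‖b‖ ^ 2) := by
    rw [norm_smul, Real.norm_eq_abs, abs_of_pos hε]
    ring
  rw [h1, Real.sqrt_mul (by positivity), Real.sqrt_sq hε.le]
  ring

theorem entB_ent (hε : 0 < ε) {g b : Space3} (hg : g ≠ 0) (hb : b ∈ impactDisc g) (s : ℝ) :
    entB ε (ε • entrancePoint b g - s • g, g) = b := by
  unfold entB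
  rw [bline_ent hg hb.1, smul_smul, inv_mul_cancel₀ hε.ne', one_smul]

theorem cT_lineAt (hε : 0 < ε) {P : CTree} {z : PhasePoint × Par P} {v b : Space3}
    (hg : v - z.1.2 ≠ 0) (hb : b ∈ impactDisc (v - z.1.2)) (s τ : ℝ) (n : ℕ) :
    cT ε z (lineAt ε s z.1 τ v b n) = s := by
  unfold cT
  rw [rel_lineAt]
  exact entT_ent hε hg hb s

theorem cB_lineAt (hε : 0 < ε) {P : CTree} {z : PhasePoint × Par P} {v b : Space3}
    (hg : v - z.1.2 ≠ 0) (hb : b ∈ impactDisc (v - z.1.2)) (s τ : ℝ) (n : ℕ) :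
    cB ε z (lineAt ε s z.1 τ v b n) = b := by
  unfold cB
  rw [rel_lineAt]
  exact entB_ent hε hg hb s

theorem markW_ne_top {ρ : ℝ≥0∞} (hρ : ρ ≠ ∞) (K n : ℕ) : markW ρ K n ≠ ∞ := by
  unfold markW
  split_ifs
  · exact ENNReal.pow_ne_top hρ
  · exact ENNReal.zero_ne_top

/-- The contact kernel of a functional of the contact time, velocity and impact parameter. -/
theorem ctInt_data (hε : 0 < ε) {P : CTree} (z : PhasePoint × Par P) (s τ : ℝ) (γ : ℝ → ℝ)
    {ρ : ℝ≥0∞} (hρ : ρ ≠ ∞) (K : ℕ) (g : ℝ → Space3 → Space3 → ℝ≥0∞) :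
    ctInt ε s z.1 τ (fun l => lineD γ ρ K l * g (cT ε z l) l.1.2.2 (cB ε z l)) =
      (∑' n : ℕ, markW ρ K n) * ∫⁻ v : Space3, ENNReal.ofReal ‖v - z.1.2‖ *
        (wG (γ τ) v * ∫⁻ b in impactDisc (v - z.1.2), g s v b ∂μHE[2]) := by
  unfold ctInt
  rw [← ENNReal.tsum_mul_right]
  refine tsum_congr fun n => ?_
  have hmt : markW ρ K n ≠ ∞ := markW_ne_top hρ K n
  have hwt : ∀ v : Space3, wG (γ τ) v ≠ ∞ := fun v => ENNReal.ofReal_ne_top
  have h1 : ∀ v : Space3, ENNReal.ofReal ‖v - z.1.2‖ * ∫⁻ b in impactDisc (v - z.1.2),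
      lineD γ ρ K (lineAt ε s z.1 τ v b n) * g (cT ε z (lineAt ε s z.1 τ v b n))
        (lineAt ε s z.1 τ v b n).1.2.2 (cB ε z (lineAt ε s z.1 τ v b n)) ∂μHE[2] =
      markW ρ K n * (ENNReal.ofReal ‖v - z.1.2‖ *
        (wG (γ τ) v * ∫⁻ b in impactDisc (v - z.1.2), g s v b ∂μHE[2])) := by
    intro v
    by_cases hg : v - z.1.2 = 0
    · simp [hg]
    · have h2 : ∫⁻ b in impactDisc (v - z.1.2),
          lineD γ ρ K (lineAt ε s z.1 τ v b n) * g (cT ε z (lineAt ε s z.1 τ v b n))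
          (lineAt ε s z.1 τ v b n).1.2.2 (cB ε z (lineAt ε s z.1 τ v b n)) ∂μHE[2] =
          ∫⁻ b in impactDisc (v - z.1.2), (wG (γ τ) v * markW ρ K n) * g s v b ∂μHE[2] := by
        refine setLIntegral_congr_fun (measurableSet_impactDisc _) fun b hb => ?_
        rw [cT_lineAt hε hg hb, cB_lineAt hε hg hb]
        rfl
      rw [h2, lintegral_const_mul' _ _ (ENNReal.mul_ne_top (hwt v) hmt)]
      ring
  simp only [h1]
  rw [lintegral_const_mul' _ _ hmt]

/-! ### Majorants of the tree integrand -/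

theorem exists_majorant {γ : ℝ} (hb : HasSummableGaussianBound γ (fun x v => f₀ (x, v))) :
    ∃ (A : Space3 → ℝ≥0∞) (C : ℝ), 0 ≤ C ∧ Measurable A ∧ ∫⁻ x, A x ≠ ∞ ∧
      (∀ x, A x ≤ ENNReal.ofReal C) ∧ ∀ z : PhasePoint, ENNReal.ofReal (f₀ z) ≤
        A z.1 * ENNReal.ofReal (Real.exp (-γ * ‖z.2‖ ^ 2)) := by
  obtain ⟨M, hM, hb⟩ := hb
  have hnn : ∀ k, 0 ≤ M k := by
    intro k
    refine le_trans ?_ (hb k (latticePoint k) 0 (by simp))
    positivity
  have hmk : ∀ k : Fin 3 → ℤ, Measurable ((Metric.closedBall (latticePoint k) 1).indicator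
      fun _ => ENNReal.ofReal (M k)) := fun k =>
    measurable_const.indicator Metric.isClosed_closedBall.measurableSet
  have hfin : ∑' k, ENNReal.ofReal (M k) ≠ ∞ := by
    rw [← ENNReal.ofReal_tsum_of_nonneg hnn hM]
    exact ENNReal.ofReal_ne_top
  refine ⟨fun x => ∑' k : Fin 3 → ℤ, (Metric.closedBall (latticePoint k) 1).indicator
    (fun _ => ENNReal.ofReal (M k)) x, ∑' k, M k, tsum_nonneg hnn, Measurable.tsum hmk, ?_,
    fun x => ?_, fun z => ?_⟩
  · rw [lintegral_tsum fun k => (hmk k).aemeasurable]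
    have hv : ∀ k : Fin 3 → ℤ, volume (Metric.closedBall (latticePoint k) 1) = Sweep815.c3 := by
      intro k
      rw [Sweep815.vol_closedBall]
      simp
    simp_rw [lintegral_indicator Metric.isClosed_closedBall.measurableSet, lintegral_const,
      Measure.restrict_apply_univ, hv]
    rw [ENNReal.tsum_mul_right]
    exact ENNReal.mul_ne_top hfin ENNReal.ofReal_ne_top
  · rw [ENNReal.ofReal_tsum_of_nonneg hnn hM]
    exact ENNReal.tsum_le_tsum fun k => indicator_le_self' (fun _ _ => zero_le) x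
  · obtain ⟨k, hk⟩ := exists_lattice_near z.1
    have hmem : z.1 ∈ Metric.closedBall (latticePoint k) 1 := Metric.mem_closedBall.2 hk
    refine le_trans ?_ (mul_le_mul' (ENNReal.le_tsum k) le_rfl)
    rw [indicator_of_mem hmem, ← ENNReal.ofReal_mul (hnn k)]
    refine ENNReal.ofReal_le_ofReal ?_
    have h1 := hb k z.1 z.2 hk
    have h2 : Real.exp (-γ * ‖z.2‖ ^ 2) = (Real.exp (γ * ‖z.2‖ ^ 2))⁻¹ := by
      rw [← Real.exp_neg]; congr 1; ring
    rw [h2, ← div_eq_mul_inv, le_div_iff₀ (Real.exp_pos _), mul_comm]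
    exact (mul_le_mul_of_nonneg_left (le_abs_self _) (Real.exp_pos _).le).trans h1

/-- Majorant of a position and a velocity. -/
structure MajF (f₀ : PhasePoint → ℝ) (A : Space3 → ℝ≥0∞) (C b : ℝ) : Prop where
  C_nonneg : 0 ≤ C
  meas : Measurable A
  fin : ∫⁻ x, A x ≠ ∞
  le_C : ∀ x, A x ≤ ENNReal.ofReal C
  le : ∀ z : PhasePoint, ENNReal.ofReal (f₀ z) ≤
    A z.1 * ENNReal.ofReal (Real.exp (-b * ‖z.2‖ ^ 2))

theorem wt_pf_le (hΦ : AdmissiblePotential Φ) {A : Space3 → ℝ≥0∞} {C b b' : ℝ}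
    (h : MajF f₀ A C b) (hbb : b' < b) (P : CTree) :
    ∃ C' : ℝ, 0 ≤ C' ∧ ∀ (ε T T' : ℝ) (z : PhasePoint × Par P), 0 ≤ ε → T' ≤ T →
      Valid Φ ε P T' z.1.2 z.2 →
      wt Φ P z.1.2 z.2 * ToTree335.pf Φ f₀ ε P z ≤ domG C' b' T P z.1.2 z.2 ∧
      wt Φ P z.1.2 z.2 * ToTree335.pf Φ f₀ ε P z ≤
        A (lines Φ ε P z.1 z.2 (root P)).1 * domG C' b' T P z.1.2 z.2 := by
  classical
  set k : PhasePoint → ℝ≥0∞ := fun z => ENNReal.ofReal ((C + 1) * Real.exp (-b * ‖z.2‖ ^ 2))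
    with hk
  have hC := h.C_nonneg
  have hek : ∀ z : PhasePoint, ENNReal.ofReal (Real.exp (-b * ‖z.2‖ ^ 2)) ≤ k z := by
    intro z
    refine ENNReal.ofReal_le_ofReal ?_
    nlinarith [Real.exp_pos (-b * ‖z.2‖ ^ 2)]
  have hfk : ∀ z : PhasePoint, ENNReal.ofReal (f₀ z) ≤ k z := by
    intro z
    refine (h.le z).trans ((mul_le_mul' (h.le_C _) le_rfl).trans ?_)
    rw [← ENNReal.ofReal_mul hC]
    refine ENNReal.ofReal_le_ofReal ?_
    nlinarith [Real.exp_pos (-b * ‖z.2‖ ^ 2)]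
  obtain ⟨C', hC', hle⟩ := le_domG hΦ (C := C + 1) (b := b) (b' := b') (by linarith) hbb (k := k)
    (fun z => le_rfl) P
  refine ⟨C', hC', fun ε T T' z hε hT hV => ?_⟩
  have h1 := hle ε T T' z.1 z.2 hε hT hV
  have hpf : ToTree335.pf Φ f₀ ε P z ≤ ∏ i, k (lines Φ ε P z.1 z.2 i) :=
    Finset.prod_le_prod' fun i _ => hfk _
  refine ⟨(mul_le_mul' le_rfl hpf).trans h1, ?_⟩
  have hpf' : ToTree335.pf Φ f₀ ε P z ≤
      A (lines Φ ε P z.1 z.2 (root P)).1 * ∏ i, k (lines Φ ε P z.1 z.2 i) := by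
    unfold ToTree335.pf
    rw [← Finset.mul_prod_erase Finset.univ _ (Finset.mem_univ (root P)),
      ← Finset.mul_prod_erase Finset.univ (fun i => k (lines Φ ε P z.1 z.2 i))
        (Finset.mem_univ (root P)), ← mul_assoc]
    refine mul_le_mul' ((h.le _).trans (mul_le_mul' le_rfl (hek _))) ?_
    exact Finset.prod_le_prod' fun i _ => hfk _
  calc wt Φ P z.1.2 z.2 * ToTree335.pf Φ f₀ ε P z
      ≤ wt Φ P z.1.2 z.2 * (A (lines Φ ε P z.1 z.2 (root P)).1 *
          ∏ i, k (lines Φ ε P z.1 z.2 i)) := mul_le_mul' le_rfl hpf'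
    _ = A (lines Φ ε P z.1 z.2 (root P)).1 * (wt Φ P z.1.2 z.2 *
          ∏ i, k (lines Φ ε P z.1 z.2 i)) := by ring
    _ ≤ _ := mul_le_mul' le_rfl h1

/-- Constants of the tree majorant. -/
structure MajT (Φ : Space3 → ℝ) (f₀ : PhasePoint → ℝ) (A : Space3 → ℝ≥0∞) (C' b' : ℝ)
    (P : CTree) : Prop where
  C_nonneg : 0 ≤ C'
  b_pos : 0 < b'
  meas : Measurable A
  fin : ∫⁻ x, A x ≠ ∞
  le_dom : ∀ (ε T T' : ℝ) (z : PhasePoint × Par P), 0 ≤ ε → T' ≤ T →
    Valid Φ ε P T' z.1.2 z.2 →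
    wt Φ P z.1.2 z.2 * ToTree335.pf Φ f₀ ε P z ≤ domG C' b' T P z.1.2 z.2
  le_A : ∀ (ε T T' : ℝ) (z : PhasePoint × Par P), 0 ≤ ε → T' ≤ T →
    Valid Φ ε P T' z.1.2 z.2 →
    wt Φ P z.1.2 z.2 * ToTree335.pf Φ f₀ ε P z ≤
      A (lines Φ ε P z.1 z.2 (root P)).1 * domG C' b' T P z.1.2 z.2

theorem MajF.tree (hΦ : AdmissiblePotential Φ) {A : Space3 → ℝ≥0∞} {C b b' : ℝ}
    (h : MajF f₀ A C b) (hb' : 0 < b') (hbb : b' < b) (P : CTree) :
    ∃ C' : ℝ, MajT Φ f₀ A C' b' P := by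
  obtain ⟨C', hC', hle⟩ := wt_pf_le hΦ h hbb P
  exact ⟨C', hC', hb', h.meas, h.fin, fun ε T T' z hε hT hV => (hle ε T T' z hε hT hV).1,
    fun ε T T' z hε hT hV => (hle ε T T' z hε hT hV).2⟩

variable {A : Space3 → ℝ≥0∞} {C' b' : ℝ} {P : CTree}

/-- Tree integral, position of the root inside. -/
theorem MajT.lintegral_x (h : MajT Φ f₀ A C' b' P) (hε : 0 ≤ ε) (T' : ℝ)
    {F : PhasePoint × Par P → ℝ≥0∞} (hF : Measurable F) :
    ∫⁻ z : PhasePoint × Par P, {z : PhasePoint × Par P | Valid Φ ε P T' z.1.2 z.2}.indicator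
      (fun z => wt Φ P z.1.2 z.2 * (ToTree335.pf Φ f₀ ε P z * F z)) z ≤
      ∫⁻ q : Space3 × Par P, domG C' b' T' P q.1 q.2 * ∫⁻ x : Space3, F ((x, q.1), q.2) := by
  have hd : Measurable fun z : PhasePoint × Par P => domG C' b' T' P z.1.2 z.2 :=
    (measurable_domG h.C_nonneg b' T' P).comp (measurable_fst.snd.prodMk measurable_snd)
  calc ∫⁻ z : PhasePoint × Par P, {z : PhasePoint × Par P | Valid Φ ε P T' z.1.2 z.2}.indicator
        (fun z => wt Φ P z.1.2 z.2 * (ToTree335.pf Φ f₀ ε P z * F z)) z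
      ≤ ∫⁻ z : PhasePoint × Par P, domG C' b' T' P z.1.2 z.2 * F z := by
        refine lintegral_mono fun z => ?_
        by_cases hz : z ∈ {z : PhasePoint × Par P | Valid Φ ε P T' z.1.2 z.2}
        · rw [indicator_of_mem hz, ← mul_assoc]
          exact mul_le_mul' (h.le_dom ε T' T' z hε le_rfl hz) le_rfl
        · rw [indicator_of_notMem hz]
          exact zero_le
    _ = _ := by
        rw [TreeLim974.lintegral_split P (G := fun z => domG C' b' T' P z.1.2 z.2 * F z)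
          (hd.mul hF)]
        refine lintegral_congr fun q => ?_
        have hFq : Measurable fun x : Space3 => F ((x, q.1), q.2) :=
          hF.comp (f := fun x : Space3 => (((x, q.1), q.2) : PhasePoint × Par P)) (by fun_prop)
        simp only
        rw [lintegral_const_mul _ hFq]

/-- Tree integral of a functional which does not depend on the position of the root. -/
theorem MajT.lintegral_u (hΦ : AdmissiblePotential Φ) (h : MajT Φ f₀ A C' b' P) (hε : 0 ≤ ε)
    (T' : ℝ) {F : Space3 × Par P → ℝ≥0∞} (hF : Measurable F) :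
    ∫⁻ z : PhasePoint × Par P, {z : PhasePoint × Par P | Valid Φ ε P T' z.1.2 z.2}.indicator
      (fun z => wt Φ P z.1.2 z.2 * (ToTree335.pf Φ f₀ ε P z * F (z.1.2, z.2))) z ≤
      (∫⁻ x, A x) * ∫⁻ q : Space3 × Par P, domG C' b' T' P q.1 q.2 * F q := by
  have hVm : MeasurableSet {z : PhasePoint × Par P | Valid Φ ε P T' z.1.2 z.2} :=
    measurableSet_valid hΦ ε P T'
  have hd : Measurable fun z : PhasePoint × Par P => domG C' b' T' P z.1.2 z.2 :=
    (measurable_domG h.C_nonneg b' T' P).comp (measurable_fst.snd.prodMk measurable_snd)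
  have hFz : Measurable fun z : PhasePoint × Par P => F (z.1.2, z.2) :=
    hF.comp (measurable_fst.snd.prodMk measurable_snd)
  have hAm : Measurable fun z : PhasePoint × Par P => A (linesM Φ ε P z.1 z.2 (root P)).1 :=
    h.meas.comp (measurable_fst.comp ((measurable_pi_apply (root P)).comp
      (measurable_linesM hΦ ε P)))
  set G : PhasePoint × Par P → ℝ≥0∞ :=
    {z : PhasePoint × Par P | Valid Φ ε P T' z.1.2 z.2}.indicator
      (fun z => A (linesM Φ ε P z.1 z.2 (root P)).1 * (domG C' b' T' P z.1.2 z.2 *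
        F (z.1.2, z.2))) with hG
  have hGm : Measurable G := (hAm.mul (hd.mul hFz)).indicator hVm
  calc ∫⁻ z : PhasePoint × Par P, {z : PhasePoint × Par P | Valid Φ ε P T' z.1.2 z.2}.indicator
        (fun z => wt Φ P z.1.2 z.2 * (ToTree335.pf Φ f₀ ε P z * F (z.1.2, z.2))) z
      ≤ ∫⁻ z : PhasePoint × Par P, G z := by
        refine lintegral_mono fun z => ?_
        by_cases hz : z ∈ {z : PhasePoint × Par P | Valid Φ ε P T' z.1.2 z.2}
        · rw [hG, indicator_of_mem hz, indicator_of_mem hz, ← mul_assoc, ← mul_assoc,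
            linesM_of_adm ε hz.1]
          exact mul_le_mul' (h.le_A ε T' T' z hε le_rfl hz) le_rfl
        · rw [indicator_of_notMem hz]
          exact zero_le
    _ = ∫⁻ q : Space3 × Par P, ∫⁻ x : Space3, G ((x, q.1), q.2) :=
        TreeLim974.lintegral_split P hGm
    _ ≤ ∫⁻ q : Space3 × Par P, (∫⁻ x, A x) * (domG C' b' T' P q.1 q.2 * F q) := by
        refine lintegral_mono fun q => ?_
        by_cases hq : Valid Φ ε P T' q.1 q.2
        · have e1 : ∀ x : Space3, G ((x, q.1), q.2) =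
              A (x + (lines Φ ε P (0, q.1) q.2 (root P)).1) *
                (domG C' b' T' P q.1 q.2 * F q) := by
            intro x
            rw [hG, indicator_of_mem (show (((x, q.1), q.2) : PhasePoint × Par P) ∈
              {z : PhasePoint × Par P | Valid Φ ε P T' z.1.2 z.2} from hq),
              linesM_of_adm ε hq.1, Hid424.lines_shift, add_comm x]
          have hAc : Measurable fun x : Space3 =>
              A (x + (lines Φ ε P (0, q.1) q.2 (root P)).1) :=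
            h.meas.comp (measurable_id.add_const _)
          simp only [e1]
          rw [lintegral_mul_const _ hAc,
            lintegral_add_right_eq_self (μ := (volume : Measure Space3)) A]
        · have e1 : ∀ x : Space3, G ((x, q.1), q.2) = 0 := by
            intro x
            rw [hG, indicator_of_notMem (show (((x, q.1), q.2) : PhasePoint × Par P) ∉
              {z : PhasePoint × Par P | Valid Φ ε P T' z.1.2 z.2} from hq)]
          simp only [e1, lintegral_zero]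
          exact zero_le
    _ = _ := by
        have hdF : Measurable fun q : Space3 × Par P => domG C' b' T' P q.1 q.2 * F q :=
          (measurable_domG h.C_nonneg b' T' P).mul hF
        rw [lintegral_const_mul _ hdF]

/-! ### Structure integrals in entrance coordinates -/

theorem tsum_markW_ne_top {ρ : ℝ≥0∞} (hρ : ρ ≠ ∞) (K : ℕ) : ∑' n : ℕ, markW ρ K n ≠ ∞ := by
  rw [tsum_eq_sum (s := Finset.range (K + 1)) (fun n hn => by
    unfold markW
    rw [if_neg]
    intro h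
    exact hn (Finset.mem_range.2 (by omega)))]
  exact ENNReal.sum_ne_top.2 fun n _ => markW_ne_top hρ K n

/-- Functionals of the tree, the gas, the contact time, the velocity and the impact parameter. -/
abbrev CF : Type := (P : CTree) → PhasePoint × Par P → (m : ℕ) → Config m → ℝ → Space3 → Space3 →
  ℝ≥0∞

/-- Joint measurability. -/
def MeasCF (g : CF) : Prop := ∀ (P : CTree) (m : ℕ), Measurable
  fun q : ((PhasePoint × Par P) × Config m) × (ℝ × (Space3 × Space3)) =>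
    g P q.1.1 m q.1.2 q.2.1 q.2.2.1 q.2.2.2

/-- The structure functional of `g`, small trees. -/
def sfOf (ε : ℝ) (K : ℕ) (g : CF) : SF := fun P z m w l =>
  if P.leaves ≤ K then g P z m w (cT ε z l) l.1.2.2 (cB ε z l) else 0

theorem measurable_cT (ε : ℝ) (P : CTree) :
    Measurable fun q : (PhasePoint × Par P) × ML => cT ε q.1 q.2 := by
  unfold cT
  exact (measurable_entT ε).comp (measurable_relL.comp
    (f := fun q : (PhasePoint × Par P) × ML => (q.1.1, q.2.1)) (by fun_prop))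

theorem measurable_cB (ε : ℝ) (P : CTree) :
    Measurable fun q : (PhasePoint × Par P) × ML => cB ε q.1 q.2 := by
  unfold cB
  exact (measurable_entB ε).comp (measurable_relL.comp
    (f := fun q : (PhasePoint × Par P) × ML => (q.1.1, q.2.1)) (by fun_prop))

theorem measSF_sfOf (ε : ℝ) (K : ℕ) {g : CF} (hg : MeasCF g) : MeasSF (sfOf ε K g) := by
  intro P m
  unfold sfOf
  by_cases hP : P.leaves ≤ K
  · simp only [if_pos hP]
    have h1 : Measurable fun q : (PhasePoint × Par P) × (Config m × ML) => cT ε q.1 q.2.2 :=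
      (measurable_cT ε P).comp (f := fun q : (PhasePoint × Par P) × (Config m × ML) =>
        (q.1, q.2.2)) (measurable_fst.prodMk (measurable_snd.comp measurable_snd))
    have h2 : Measurable fun q : (PhasePoint × Par P) × (Config m × ML) => cB ε q.1 q.2.2 :=
      (measurable_cB ε P).comp (f := fun q : (PhasePoint × Par P) × (Config m × ML) =>
        (q.1, q.2.2)) (measurable_fst.prodMk (measurable_snd.comp measurable_snd))
    have h3 : Measurable fun q : (PhasePoint × Par P) × (Config m × ML) => (q.1, q.2.1) :=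
      measurable_fst.prodMk (measurable_fst.comp measurable_snd)
    have h4 : Measurable fun q : (PhasePoint × Par P) × (Config m × ML) => q.2.2.1.2.2 :=
      measurable_snd.comp (measurable_snd.comp (measurable_fst.comp
        (measurable_snd.comp measurable_snd)))
    exact (hg P m).comp (f := fun q : (PhasePoint × Par P) × (Config m × ML) =>
      ((q.1, q.2.1), (cT ε q.1 q.2.2, (q.2.2.1.2.2, cB ε q.1 q.2.2))))
      (h3.prodMk (h1.prodMk (h4.prodMk h2)))
  · simp only [if_neg hP]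
    exact measurable_const

/-- The flux integrand. -/
def fluxG (te g0 : ℝ) (g : CF) (P : CTree) (z : PhasePoint × Par P) (m : ℕ) (w : Config m) :
    ℝ≥0∞ :=
  ∫⁻ s in Ioc 0 te, ∫⁻ v : Space3, ENNReal.ofReal ‖v - z.1.2‖ *
    (wG g0 v * ∫⁻ b in impactDisc (v - z.1.2), g P z m w s v b ∂μHE[2])

theorem OS_le (hΦ : AdmissiblePotential Φ) (hε : 0 < ε) {K : ℕ} {Q : EPar} {T' g0 : ℝ}
    (hρ : Q.ρ ≠ ∞) (hγm : Measurable Q.γ) (hγ : ∀ τ ∈ Ioc 0 Q.te, g0 ≤ Q.γ τ)
    {κ : Measure ℝ} [IsFiniteMeasure κ] (hκ : ∀ᵐ τ ∂κ, τ ∈ Ioc 0 Q.te)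
    {g : CF} (hg : MeasCF g) {H : SF} (hH : ∀ P z m w l, H P z m w l ≤ sfOf ε K g P z m w l) :
    OS Φ f₀ ε K Q T' κ H ≤ κ univ * (∑' n : ℕ, markW Q.ρ K n) *
      ∑ P ∈ GIVStep383.trees K, ∫⁻ z : PhasePoint × Par P,
        {z : PhasePoint × Par P | Valid Φ ε P T' z.1.2 z.2}.indicator
          (fun z => wt Φ P z.1.2 z.2 * (ToTree335.pf Φ f₀ ε P z *
            gcE f₀ ε (fun m w => fluxG Q.te g0 g P z m w))) z := by
  set S : ℝ≥0∞ := ∑' n : ℕ, markW Q.ρ K n with hS
  have hSt : S ≠ ∞ := tsum_markW_ne_top hρ K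
  set c : ℝ≥0∞ := ENNReal.ofReal (ε ^ 2) * (κ univ * S) with hc
  have hct : c ≠ ∞ := ENNReal.mul_ne_top ENNReal.ofReal_ne_top
    (ENNReal.mul_ne_top (measure_ne_top _ _) hSt)
  -- the inner integral
  have hin : ∀ (P : CTree) (z : PhasePoint × Par P) (m : ℕ) (w : Config m), P.leaves ≤ K →
      ∫⁻ l, {l : ML | (z, l.1) ∈ ctSet Φ ε Q.te P}.indicator
        (fun l => lineD Q.γ Q.ρ K l * H P z m w l) l ∂(baseM κ) ≤
      c * fluxG Q.te g0 g P z m w := by
    intro P z m w hP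
    have hgm : Measurable fun l : ML => g P z m w (cT ε z l) l.1.2.2 (cB ε z l) := by
      have h1 : Measurable fun l : ML => cT ε z l :=
        (measurable_cT ε P).comp (f := fun l : ML => (z, l))
          (measurable_const.prodMk measurable_id)
      have h2 : Measurable fun l : ML => cB ε z l :=
        (measurable_cB ε P).comp (f := fun l : ML => (z, l))
          (measurable_const.prodMk measurable_id)
      have h3 : Measurable fun l : ML => l.1.2.2 :=
        measurable_snd.comp (measurable_snd.comp measurable_fst)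
      have h4 : Measurable fun _ : ML => (z, w) := measurable_const
      exact (hg P m).comp (f := fun l : ML => ((z, w), (cT ε z l, (l.1.2.2, cB ε z l))))
        (h4.prodMk (h1.prodMk (h3.prodMk h2)))
    calc ∫⁻ l, {l : ML | (z, l.1) ∈ ctSet Φ ε Q.te P}.indicator
          (fun l => lineD Q.γ Q.ρ K l * H P z m w l) l ∂(baseM κ)
        ≤ ∫⁻ l, {l : ML | (z, l.1) ∈ ctSet Φ ε Q.te P}.indicator
          (fun l => lineD Q.γ Q.ρ K l * g P z m w (cT ε z l) l.1.2.2 (cB ε z l)) l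
            ∂(baseM κ) := by
          refine lintegral_mono fun l => indicator_le_indicator ?_
          refine mul_le_mul' le_rfl ((hH P z m w l).trans (le_of_eq ?_))
          unfold sfOf
          rw [if_pos hP]
      _ = ENNReal.ofReal (ε ^ 2) * ∫⁻ τ, (∫⁻ s in Ioc τ Q.te,
          {s | s ≤ Q.te ∧ Valid Φ ε P s z.1.2 z.2}.indicator
            (fun s => ctInt ε s z.1 τ (fun l => lineD Q.γ Q.ρ K l *
              g P z m w (cT ε z l) l.1.2.2 (cB ε z l))) s) ∂κ :=
          lintegral_ct hΦ hε z κ ((EBasic602.measurable_lineD hγm).mul hgm)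
      _ ≤ ENNReal.ofReal (ε ^ 2) * ∫⁻ _τ, S * fluxG Q.te g0 g P z m w ∂κ := by
          refine mul_le_mul' le_rfl (lintegral_mono_ae ?_)
          filter_upwards [hκ] with τ hτ
          calc ∫⁻ s in Ioc τ Q.te, {s | s ≤ Q.te ∧ Valid Φ ε P s z.1.2 z.2}.indicator
                (fun s => ctInt ε s z.1 τ (fun l => lineD Q.γ Q.ρ K l *
                  g P z m w (cT ε z l) l.1.2.2 (cB ε z l))) s
              ≤ ∫⁻ s in Ioc τ Q.te, S * ∫⁻ v : Space3, ENNReal.ofReal ‖v - z.1.2‖ *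
                (wG g0 v * ∫⁻ b in impactDisc (v - z.1.2), g P z m w s v b ∂μHE[2]) := by
                refine lintegral_mono fun s => ?_
                refine (indicator_le_self' (fun _ _ => zero_le) s).trans ?_
                simp only
                rw [ctInt_data hε z s τ Q.γ hρ K (fun s v b => g P z m w s v b)]
                refine mul_le_mul' le_rfl (lintegral_mono fun v => mul_le_mul' le_rfl
                  (mul_le_mul' ?_ le_rfl))
                exact Kin796.wG_anti (hγ τ hτ) v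
            _ ≤ ∫⁻ s in Ioc 0 Q.te, S * ∫⁻ v : Space3, ENNReal.ofReal ‖v - z.1.2‖ *
                (wG g0 v * ∫⁻ b in impactDisc (v - z.1.2), g P z m w s v b ∂μHE[2]) :=
                lintegral_mono_set (Ioc_subset_Ioc_left hτ.1.le)
            _ = S * fluxG Q.te g0 g P z m w := lintegral_const_mul' _ _ hSt
      _ = c * fluxG Q.te g0 g P z m w := by
          rw [lintegral_const, hc]
          ring
  unfold OS
  -- sum over the trees
  have hP0 : ∀ P : CTree, P ∉ GIVStep383.trees K →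
      ∫⁻ z : PhasePoint × Par P, {z : PhasePoint × Par P | Valid Φ ε P T' z.1.2 z.2}.indicator
      (fun z => wt Φ P z.1.2 z.2 * (ToTree335.pf Φ f₀ ε P z *
        gcE f₀ ε (fun m w => ∫⁻ l, {l : ML | (z, l.1) ∈ ctSet Φ ε Q.te P}.indicator
          (fun l => lineD Q.γ Q.ρ K l * H P z m w l) l ∂(baseM κ)))) z = 0 := by
    intro P hP
    have hP' : ¬ P.leaves ≤ K := fun h => hP (GIVStep383.mem_trees.2 h)
    have h0 : ∀ (z : PhasePoint × Par P) (m : ℕ) (w : Config m) (l : ML), H P z m w l = 0 := by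
      intro z m w l
      have h1 := hH P z m w l
      unfold sfOf at h1
      rw [if_neg hP'] at h1
      exact le_antisymm h1 zero_le
    simp only [h0, mul_zero, indicator_zero, lintegral_zero, gcE_zero]
  rw [tsum_eq_sum (s := GIVStep383.trees K) (fun P hP => hP0 P hP)]
  calc activity ε * ∑ P ∈ GIVStep383.trees K, ∫⁻ z : PhasePoint × Par P,
        {z : PhasePoint × Par P | Valid Φ ε P T' z.1.2 z.2}.indicator
          (fun z => wt Φ P z.1.2 z.2 * (ToTree335.pf Φ f₀ ε P z *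
            gcE f₀ ε (fun m w => ∫⁻ l, {l : ML | (z, l.1) ∈ ctSet Φ ε Q.te P}.indicator
              (fun l => lineD Q.γ Q.ρ K l * H P z m w l) l ∂(baseM κ)))) z
      ≤ activity ε * ∑ P ∈ GIVStep383.trees K, c * ∫⁻ z : PhasePoint × Par P,
        {z : PhasePoint × Par P | Valid Φ ε P T' z.1.2 z.2}.indicator
          (fun z => wt Φ P z.1.2 z.2 * (ToTree335.pf Φ f₀ ε P z *
            gcE f₀ ε (fun m w => fluxG Q.te g0 g P z m w))) z := by
        refine mul_le_mul' le_rfl (Finset.sum_le_sum fun P hP => ?_)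
        rw [← lintegral_const_mul' _ _ hct]
        refine lintegral_mono fun z => ?_
        by_cases hz : z ∈ {z : PhasePoint × Par P | Valid Φ ε P T' z.1.2 z.2}
        · rw [indicator_of_mem hz, indicator_of_mem hz]
          have h2 : gcE f₀ ε (fun m w => ∫⁻ l, {l : ML | (z, l.1) ∈ ctSet Φ ε Q.te P}.indicator
              (fun l => lineD Q.γ Q.ρ K l * H P z m w l) l ∂(baseM κ)) ≤
              c * gcE f₀ ε (fun m w => fluxG Q.te g0 g P z m w) := by
            rw [← gcE_const_mul f₀ ε hct]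
            exact gcE_mono f₀ ε fun m w _ => hin P z m w (GIVStep383.mem_trees.1 hP)
          refine (mul_le_mul' le_rfl (mul_le_mul' le_rfl h2)).trans (le_of_eq ?_)
          ring
        · rw [indicator_of_notMem hz, indicator_of_notMem hz]
          exact zero_le
    _ = (activity ε * ENNReal.ofReal ε ^ 2) * (κ univ * S *
          ∑ P ∈ GIVStep383.trees K, ∫⁻ z : PhasePoint × Par P,
        {z : PhasePoint × Par P | Valid Φ ε P T' z.1.2 z.2}.indicator
          (fun z => wt Φ P z.1.2 z.2 * (ToTree335.pf Φ f₀ ε P z *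
            gcE f₀ ε (fun m w => fluxG Q.te g0 g P z m w))) z) := by
        rw [← Finset.mul_sum, hc, ENNReal.ofReal_pow hε.le]
        ring
    _ = _ := by rw [activity_mul_sq hε, one_mul]

/-! ### Third particle near the encounter -/

/-- Third particle: some particle of `w` is `a (1 + |v| + |u|)`-close to the root at some time of
`[s - a, s + a]`. -/
def thirdG (Φ : Space3 → ℝ) (ε a : ℝ) : CF := fun _P z _m w s v _b =>
  nearI Φ ε w s a (a * (1 + ‖v‖ + ‖z.1.2‖)) (z.1.1 + s • z.1.2)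

theorem measCF_thirdG (hΦ : AdmissiblePotential Φ) (hε : 0 < ε) (a : ℝ) :
    MeasCF (thirdG Φ ε a) := by
  intro P m
  unfold thirdG
  have hu : Measurable fun q : ((PhasePoint × Par P) × Config m) × (ℝ × (Space3 × Space3)) =>
      q.1.1.1.2 := measurable_snd.comp (measurable_fst.comp (measurable_fst.comp measurable_fst))
  have hx : Measurable fun q : ((PhasePoint × Par P) × Config m) × (ℝ × (Space3 × Space3)) =>
      q.1.1.1.1 := measurable_fst.comp (measurable_fst.comp (measurable_fst.comp measurable_fst))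
  have hs : Measurable fun q : ((PhasePoint × Par P) × Config m) × (ℝ × (Space3 × Space3)) =>
      q.2.1 := measurable_fst.comp measurable_snd
  have hv : Measurable fun q : ((PhasePoint × Par P) × Config m) × (ℝ × (Space3 × Space3)) =>
      q.2.2.1 := measurable_fst.comp (measurable_snd.comp measurable_snd)
  have hw : Measurable fun q : ((PhasePoint × Par P) × Config m) × (ℝ × (Space3 × Space3)) =>
      q.1.2 := measurable_snd.comp measurable_fst
  exact (measurable_nearI hΦ hε a m).comp (f := fun q : ((PhasePoint × Par P) × Config m) ×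
    (ℝ × (Space3 × Space3)) => (q.1.2, (q.2.1, (a * (1 + ‖q.2.2.1‖ + ‖q.1.1.1.2‖),
      q.1.1.1.1 + q.2.1 • q.1.1.1.2))))
    (hw.prodMk (hs.prodMk ((((hv.norm.const_add 1).add hu.norm).const_mul a).prodMk
      (hx.add (hs.smul hu)))))

theorem norm_mul_disc_const (g : Space3) (c d : ℝ≥0∞) :
    ENNReal.ofReal ‖g‖ * (c * ∫⁻ _b in impactDisc g, d ∂μHE[2]) =
      ENNReal.ofReal Real.pi * (ENNReal.ofReal ‖g‖ * (c * d)) := by
  by_cases hg : g = 0
  · simp [hg]
  · rw [setLIntegral_const, measure_impactDisc hg]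
    ring

theorem fluxG_third (te g0 a : ℝ) (P : CTree) (z : PhasePoint × Par P) (m : ℕ)
    (w : Config m) :
    fluxG te g0 (thirdG Φ ε a) P z m w = ENNReal.ofReal Real.pi *
      ∫⁻ s in Ioc 0 te, ∫⁻ v : Space3, nfI Φ ε a z.1.2 (wG g0) w z.1.1 s v := by
  unfold fluxG thirdG nfI
  rw [← lintegral_const_mul' _ _ ENNReal.ofReal_ne_top]
  refine lintegral_congr fun s => ?_
  rw [← lintegral_const_mul' _ _ ENNReal.ofReal_ne_top]
  refine lintegral_congr fun v => ?_
  exact norm_mul_disc_const _ _ _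

theorem measurable_wG1 (g0 : ℝ) : Measurable fun v : Space3 => wG g0 v := by
  unfold wG
  fun_prop

theorem mom4_wG_ne_top {g0 : ℝ} (hg : 0 < g0) : mom4 (fun v => wG g0 v) ≠ ∞ := by
  have h1 := (Boltz814.integrable_one_add_pow_mul_gauss hg 4).lintegral_lt_top
  refine ne_of_lt (lt_of_eq_of_lt (lintegral_congr fun v => ?_) h1)
  unfold wG
  rw [← ENNReal.ofReal_mul (Real.exp_pos _).le, mul_comm, neg_mul]

theorem lintegral_domG_pow_ne_top {C b : ℝ} (hC : 0 ≤ C) (hb : 0 < b) (T : ℝ) (P : CTree)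
    (k : ℕ) :
    ∫⁻ z : Space3 × Par P, domG C b T P z.1 z.2 * ENNReal.ofReal ((1 + ‖z.1‖) ^ k) ≠ ∞ := by
  have hvol : (volume : Measure (Space3 × Par P)) =
      (volume : Measure Space3).prod (volume : Measure (Par P)) := rfl
  have hm : Measurable fun z : Space3 × Par P => domG C b T P z.1 z.2 *
      ENNReal.ofReal ((1 + ‖z.1‖) ^ k) := (measurable_domG hC b T P).mul (by fun_prop)
  rw [hvol, lintegral_prod _ hm.aemeasurable]
  have h2 : ∀ v : Space3, ∫⁻ p : Par P, domG C b T P v p * ENNReal.ofReal ((1 + ‖v‖) ^ k) =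
      ENNReal.ofReal (C * ((1 + ‖v‖) ^ k * Real.exp (-b * ‖v‖ ^ 2))) *
        ∫⁻ p : Par P, domP b T P p := by
    intro v
    rw [lintegral_mul_const' _ _ ENNReal.ofReal_ne_top, lintegral_domG hC]
    rw [show C * ((1 + ‖v‖) ^ k * Real.exp (-b * ‖v‖ ^ 2)) =
      (C * Real.exp (-b * ‖v‖ ^ 2)) * (1 + ‖v‖) ^ k by ring,
      ENNReal.ofReal_mul (by positivity : 0 ≤ C * Real.exp (-b * ‖v‖ ^ 2))]
    ring
  simp only [h2]
  have h1 : Measurable fun v : Space3 =>
      ENNReal.ofReal (C * ((1 + ‖v‖) ^ k * Real.exp (-b * ‖v‖ ^ 2))) := by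
    fun_prop
  rw [lintegral_mul_const _ h1]
  exact ENNReal.mul_ne_top
    ((Boltz814.integrable_one_add_pow_mul_gauss hb k).const_mul C).lintegral_lt_top.ne
    (lintegral_domP_ne_top hb T P)

/-- Standing hypotheses on the initial density. -/
structure FOk (f₀ : PhasePoint → ℝ) (A : Space3 → ℝ≥0∞) (C b : ℝ) : Prop where
  meas : Measurable f₀
  mass : ∫⁻ z, ENNReal.ofReal (f₀ z) ≤ 1
  b_pos : 0 < b
  maj : MajF f₀ A C b
  mom : ∫⁻ z, ENNReal.ofReal (f₀ z) * ENNReal.ofReal (1 + ‖z.2‖ ^ 2) ≠ ∞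

/-- Standing hypotheses on the parameters. -/
structure QOk (Q : EPar) (g0 : ℝ) : Prop where
  ρ_ne : Q.ρ ≠ ∞
  γ_meas : Measurable Q.γ
  g0_pos : 0 < g0
  γ_ge : ∀ τ ∈ Ioc 0 Q.te, g0 ≤ Q.γ τ

/-- Integral over the position of the root, third particle. -/
theorem lintegral_third_x (hΦ : AdmissiblePotential Φ) {A : Space3 → ℝ≥0∞} {C b g0 : ℝ}
    (hF : FOk f₀ A C b) (hg0 : 0 < g0) (hε : 0 < ε) {a : ℝ} (ha : 0 < a) (te : ℝ) (P : CTree)
    (q : Space3 × Par P) :
    ∫⁻ x : Space3, gcE f₀ ε (fun m w => fluxG te g0 (thirdG Φ ε a) P ((x, q.1), q.2) m w) ≤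
      ENNReal.ofReal Real.pi * (40 * Sweep815.c3 * ENNReal.ofReal te * ENNReal.ofReal a ^ 3 *
        ENNReal.ofReal ((1 + ‖q.1‖) ^ 4) * mom4 (fun v => wG g0 v) *
          (ENNReal.ofReal (1 + 2 * stabB Φ) * (activity ε *
            ∫⁻ z, ENNReal.ofReal (f₀ z) * ENNReal.ofReal (1 + ‖z.2‖ ^ 2)))) := by
  have e1 : ∀ x : Space3,
      gcE f₀ ε (fun m w => fluxG te g0 (thirdG Φ ε a) P ((x, q.1), q.2) m w) =
      ENNReal.ofReal Real.pi * gcE f₀ ε (fun _ w => ∫⁻ s in Ioc 0 te, ∫⁻ v : Space3,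
        nfI Φ ε a q.1 (wG g0) w x s v) := by
    intro x
    simp only [fluxG_third]
    exact gcE_const_mul f₀ ε ENNReal.ofReal_ne_top _
  simp only [e1]
  rw [lintegral_const_mul' _ _ ENNReal.ofReal_ne_top]
  exact mul_le_mul' le_rfl (near_flux_le hΦ hF.meas hF.mass hε ha q.1 (measurable_wG1 g0)
    (mom4_wG_ne_top hg0))

theorem measurable_gcE_fluxG {g : CF} (hg : MeasCF g) (hf : Measurable f₀) (te g0 : ℝ)
    (P : CTree) :
    Measurable fun z : PhasePoint × Par P => gcE f₀ ε (fun m w => fluxG te g0 g P z m w) := by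
  refine ToTree335.measurable_gcE_par hf fun m => ?_
  unfold fluxG
  refine Measurable.lintegral_prod_right' (f := fun q : ((PhasePoint × Par P) × Config m) × ℝ =>
    ∫⁻ v : Space3, ENNReal.ofReal ‖v - q.1.1.1.2‖ * (wG g0 v *
      ∫⁻ b in impactDisc (v - q.1.1.1.2), g P q.1.1 m q.1.2 q.2 v b ∂μHE[2])) ?_
  refine Measurable.lintegral_prod_right' (f := fun q : (((PhasePoint × Par P) × Config m) × ℝ) ×
    Space3 => ENNReal.ofReal ‖q.2 - q.1.1.1.1.2‖ * (wG g0 q.2 *
      ∫⁻ b in impactDisc (q.2 - q.1.1.1.1.2), g P q.1.1.1 m q.1.1.2 q.1.2 q.2 b ∂μHE[2])) ?_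
  have hu : Measurable fun q : (((PhasePoint × Par P) × Config m) × ℝ) × Space3 =>
      q.1.1.1.1.2 := measurable_snd.comp (measurable_fst.comp (measurable_fst.comp
        (measurable_fst.comp measurable_fst)))
  have h1 : Measurable fun q : (((PhasePoint × Par P) × Config m) × ℝ) × Space3 =>
      ENNReal.ofReal ‖q.2 - q.1.1.1.1.2‖ * ∫⁻ b in impactDisc (q.2 - q.1.1.1.1.2),
        g P q.1.1.1 m q.1.1.2 q.1.2 q.2 b ∂μHE[2] := by
    refine measurable_flux_disc (α := (((PhasePoint × Par P) × Config m) × ℝ) × Space3)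
      (γ := fun q => q.2 - q.1.1.1.1.2) (measurable_snd.sub hu)
      (f := fun q b => g P q.1.1.1 m q.1.1.2 q.1.2 q.2 b) ?_
    exact (hg P m).comp (f := fun q : ((((PhasePoint × Par P) × Config m) × ℝ) × Space3) ×
      Space3 => (q.1.1.1, (q.1.1.2, (q.1.2, q.2)))) (by fun_prop)
  have h2 : (fun q : (((PhasePoint × Par P) × Config m) × ℝ) × Space3 =>
      ENNReal.ofReal ‖q.2 - q.1.1.1.1.2‖ * (wG g0 q.2 *
      ∫⁻ b in impactDisc (q.2 - q.1.1.1.1.2), g P q.1.1.1 m q.1.1.2 q.1.2 q.2 b ∂μHE[2])) =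
      fun q => wG g0 q.2 * (ENNReal.ofReal ‖q.2 - q.1.1.1.1.2‖ *
        ∫⁻ b in impactDisc (q.2 - q.1.1.1.1.2), g P q.1.1.1 m q.1.1.2 q.1.2 q.2 b ∂μHE[2]) := by
    funext q
    ring
  rw [h2]
  exact ((measurable_wG1 g0).comp measurable_snd).mul h1

/-- **(3w)** Third particle near the encounter: `O(activity * a³)`. -/
theorem third_OS_le (hΦ : AdmissiblePotential Φ) {A : Space3 → ℝ≥0∞} {C b g0 : ℝ}
    (hF : FOk f₀ A C b) {Q : EPar} (hQ : QOk Q g0) (K : ℕ) (T' : ℝ) :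
    ∃ D : ℝ≥0∞, D ≠ ∞ ∧ ∀ (ε : ℝ), 0 < ε → ∀ (a : ℝ), 0 < a → ∀ (κ : Measure ℝ)
      [IsFiniteMeasure κ], (∀ᵐ τ ∂κ, τ ∈ Ioc 0 Q.te) → ∀ H : SF,
      (∀ P z m w l, H P z m w l ≤ sfOf ε K (thirdG Φ ε a) P z m w l) →
      OS Φ f₀ ε K Q T' κ H ≤ κ univ * D * (activity ε * ENNReal.ofReal a ^ 3) := by
  have hb2 := half_pos hF.b_pos
  choose C' hC' using fun P : CTree => hF.maj.tree hΦ hb2 (half_lt_self hF.b_pos) P
  set m2 : ℝ≥0∞ := ∫⁻ z, ENNReal.ofReal (f₀ z) * ENNReal.ofReal (1 + ‖z.2‖ ^ 2) with hm2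
  set S : ℝ≥0∞ := ∑' n : ℕ, markW Q.ρ K n with hS
  set c1 : ℝ≥0∞ := ENNReal.ofReal Real.pi * (40 * Sweep815.c3 * ENNReal.ofReal Q.te *
    mom4 (fun v => wG g0 v) * (ENNReal.ofReal (1 + 2 * stabB Φ) * m2)) with hc1
  have hSt : S ≠ ∞ := tsum_markW_ne_top hQ.ρ_ne K
  have hc3 : Sweep815.c3 ≠ ∞ := ENNReal.ofReal_ne_top
  have hc1t : c1 ≠ ∞ := by
    rw [hc1]
    refine ENNReal.mul_ne_top ENNReal.ofReal_ne_top (ENNReal.mul_ne_top (ENNReal.mul_ne_top
      (ENNReal.mul_ne_top (ENNReal.mul_ne_top (by norm_num) hc3) ENNReal.ofReal_ne_top)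
      (mom4_wG_ne_top hQ.g0_pos)) (ENNReal.mul_ne_top ENNReal.ofReal_ne_top hF.mom))
  refine ⟨S * ∑ P ∈ GIVStep383.trees K, c1 * ∫⁻ q : Space3 × Par P,
    domG (C' P) (b / 2) T' P q.1 q.2 * ENNReal.ofReal ((1 + ‖q.1‖) ^ 4), ?_, ?_⟩
  · refine ENNReal.mul_ne_top hSt (ENNReal.sum_ne_top.2 fun P _ => ENNReal.mul_ne_top hc1t ?_)
    exact lintegral_domG_pow_ne_top (hC' P).C_nonneg hb2 T' P 4
  · intro ε hε a ha κ _ hκ H hH
    refine (OS_le hΦ hε hQ.ρ_ne hQ.γ_meas hQ.γ_ge hκ (measCF_thirdG hΦ hε a) hH).trans ?_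
    rw [mul_assoc (κ univ), mul_assoc (κ univ), mul_assoc S, Finset.sum_mul]
    refine mul_le_mul' le_rfl (mul_le_mul' le_rfl (Finset.sum_le_sum fun P _ => ?_))
    refine ((hC' P).lintegral_x hε.le T'
      (F := fun z => gcE f₀ ε (fun m w => fluxG Q.te g0 (thirdG Φ ε a) P z m w))
      (measurable_gcE_fluxG (measCF_thirdG hΦ hε a) hF.meas Q.te g0 P)).trans ?_
    calc ∫⁻ q : Space3 × Par P, domG (C' P) (b / 2) T' P q.1 q.2 * ∫⁻ x : Space3,
          gcE f₀ ε (fun m w => fluxG Q.te g0 (thirdG Φ ε a) P ((x, q.1), q.2) m w)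
        ≤ ∫⁻ q : Space3 × Par P, (c1 * (activity ε * ENNReal.ofReal a ^ 3)) *
          (domG (C' P) (b / 2) T' P q.1 q.2 * ENNReal.ofReal ((1 + ‖q.1‖) ^ 4)) := by
          refine lintegral_mono fun q => ?_
          refine (mul_le_mul' le_rfl
            (lintegral_third_x hΦ hF hQ.g0_pos hε ha Q.te P q)).trans (le_of_eq ?_)
          rw [hc1]
          ring
      _ = (c1 * (activity ε * ENNReal.ofReal a ^ 3)) * ∫⁻ q : Space3 × Par P,
          (domG (C' P) (b / 2) T' P q.1 q.2 * ENNReal.ofReal ((1 + ‖q.1‖) ^ 4)) :=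
          lintegral_const_mul' _ _ (ENNReal.mul_ne_top hc1t (ENNReal.mul_ne_top
            (activity_ne_top ε) (ENNReal.pow_ne_top ENNReal.ofReal_ne_top)))
      _ = _ := by ring

end Crest.Agent.R122.Third741
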