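import Crest.Agent.R122.Ineq1A_815
import Crest.Agent.R122.GasE4b_285
import Crest.Agent.R122.YoungX_763
import Crest.Agent.R122.OSCalc_495
import Crest.Agent.R122.Line3_285
import Crest.Agent.R122.Direct4_658
import Crest.Agent.R122.RedFlux_663
import Crest.Agent.R122.Nu0B_566
import Crest.Agent.R122.OneC_423
import Crest.Agent.R122.EMDefs_602
import Crest.Agent.R122.Q1Data_815
import Crest.Agent.R122.QExitBind3_837
import Crest.Agent.R122.OneCDefs_285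
import Crest.Agent.R122.SizeCross_815
import Crest.Agent.R122.MeasOC_434
import Crest.Agent.R122.TopE_602
import Crest.Agent.R122.Line3G_984
import Crest.Agent.R122.ThirdOS_741
import Crest.Agent.R122.RedW_674_Mg

-- ▼ part R122/Ineq1B_815
section

/-!
helper815, row 122, INEQUALITY 1, closing part B: the error calculus along the windows.

* `RawIn` : the pointwise form with the errors of `Ineq1Pt_285`;
* `ptIn_of_raw` : `RawIn → PtIn`.
-/

set_option autoImplicit false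

open MeasureTheory Set Filter
open scoped ENNReal Topology
open Crest.AnalysisR.Kinetic
open Crest.Agent.R122.Master566 Crest.Agent.R122.EDefs602 Crest.Agent.R122.GIV566
  Crest.Agent.R122.Top602 Crest.Agent.R122.Young763 Crest.Agent.R122.Unw410

noncomputable section

namespace Crest.Agent.R122.Ineq1815

variable {Φ : Space3 → ℝ} {f₀ : PhasePoint → ℝ} {f : ℝ → PhasePoint → ℝ} {β T : ℝ}
  {γ : ℝ → ℝ} {ρ : ℝ≥0∞} {PM : PMass}


theorem PtIneq.mono {ε : ℝ} {K : ℕ} {P : EPar} {C : ℝ} {A A' : ℝ≥0∞} {S S' : ℝ → ℝ≥0∞}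
    (h : PtIneq Φ f₀ ε K P C A S) (hA : ∀ τ, S τ + A ≤ S' τ + A') :
    PtIneq Φ f₀ ε K P C A' S' := by
  unfold PtIneq at h ⊢
  filter_upwards [h] with τ hτ
  exact hτ.trans (add_le_add (hA τ) le_rfl)

/-- `JE` at the time `tw` is small under the induction hypothesis -/
theorem small_JE {tw : ℝ} (htw : 0 ≤ tw) (h : JSup Φ f₀ tw) :
    Small fun K ε => JE Φ f₀ ε K tw :=
  Small.mono h fun K ε _ => le_iSup₂ (f := fun s (_ : s ∈ Icc 0 tw) => JE Φ f₀ ε K s) tw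
    ⟨htw, le_rfl⟩


end Crest.Agent.R122.Ineq1815

end
end

-- ▼ part R122/Asm1_285
section

/-!
# INEQUALITY 1 (row 122, board H2), assembly, part 1: densities and kernels

* `XG_le` : comparison of densities.
* `thetaL_late` : lines born after the horizon do not touch.
* `GB` : indicator of a touch before `tw`; `lintegral_GB_le` : its mass is at most `tnMass tw`.
* `volG` : Volterra term of a functional; `lintegral_volG_le` : its integral over the birth times.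
-/

set_option autoImplicit false
set_option linter.unusedSectionVars false

open MeasureTheory Set Filter
open scoped ENNReal Classical Topology
open Crest.AnalysisR.Kinetic
open Crest.Agent.R122.GC311 Crest.Agent.R122.Flow671
open Crest.Agent.R122.EDefs602 Crest.Agent.R122.Unw410 Crest.Agent.R122.Line285
open Crest.Agent.R122.Volt796

noncomputable section

namespace Crest.Agent.R122.OneC285

variable {Φ : Space3 → ℝ} {f₀ : PhasePoint → ℝ} {ε : ℝ} {K : ℕ} {Q : EPar} {ρ : ℝ≥0∞}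

theorem XG_le {G G' : LF} {s : ℝ} {v : Space3}
    (h : ∀ (m : ℕ) (w : Config m), w ∈ PairExcluded ε m → ∀ l : ML, l.1.1 = s → l.1.2.2 = v →
      1 ≤ l.2 → l.2 ≤ K → (∀ i, (flow Φ ε s w i).1 ≠ l.1.2.1) → G m w l ≤ G' m w l) :
    XG f₀ ε K ρ G s v ≤ XG f₀ ε K ρ G' s v := by
  unfold XG
  refine gcE_mono f₀ ε fun m w hw => ?_
  have hae : ∀ᵐ y : Space3, ∀ i, (flow Φ ε s w i).1 ≠ y := by
    rw [ae_all_iff]
    intro i
    have : {y : Space3 | ¬ (flow Φ ε s w i).1 ≠ y} = {(flow Φ ε s w i).1} := by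
      ext y
      simp only [ne_eq, not_not, mem_ofPred_eq, mem_singleton_iff]
      exact eq_comm
    rw [ae_iff, this]
    exact measure_singleton _
  refine lintegral_mono_ae ?_
  filter_upwards [hae] with y hy
  refine ENNReal.tsum_le_tsum fun k => ?_
  by_cases hk : 1 ≤ k ∧ k ≤ K
  · exact mul_le_mul' le_rfl (h m w hw ((s, (y, v)), k) rfl rfl hk.1 hk.2 hy)
  · unfold markW
    rw [if_neg hk, zero_mul, zero_mul]

theorem XG_zero {s : ℝ} {v : Space3} : XG f₀ ε K ρ (fun _ _ _ => 0) s v = 0 := by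
  unfold XG
  simp [gcE_zero]

/-- A line born after the horizon does not touch. -/
theorem thetaL_late (hΦ : AdmissiblePotential Φ) (hε : 0 < ε) {T : ℝ} {n : ℕ} {w : Config n}
    {l : ML} (hT : T < l.1.1) (hm : l.2 ≤ K) : (MW.cfg w).thetaL Φ ε K T l = T + 1 := by
  refine MW.theta_eq_of_not_touched fun r hr => ?_
  refine MW.not_touched_of_no_contact hΦ hε (fun r' hr' x k hc => ?_) ?_
  · have h2 : ((MW.cfg w).add (MW.line l)).b (Sum.inr x) ≤ r' := MW.C_born hc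
    have h3 : l.1.1 ≤ r' := h2
    linarith [hr'.2, hr.2]
  · rw [Finset.univ_unique, Finset.sum_singleton]; exact hm

theorem touchW_late (hΦ : AdmissiblePotential Φ) (hε : 0 < ε) {n : ℕ} {w : Config n}
    {l : ML} (hT : Q.te < l.1.1) (hm : l.2 ≤ K) : (MW.cfg w).touchW Φ ε K Q l = 0 := by
  unfold MW.touchW
  rw [if_neg]
  rw [thetaL_late hΦ hε hT hm]
  intro h
  linarith [h.2]

/-- Indicator of a touch before `tw`. -/
def GB (Φ : Space3 → ℝ) (ε : ℝ) (K : ℕ) (Q : EPar) : LF := fun _ w l =>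
  tB Q.tw ((MW.cfg w).thetaL Φ ε K Q.te l)

/-- The touch functional as a functional of a line. -/
def GW (Φ : Space3 → ℝ) (ε : ℝ) (K : ℕ) (Q : EPar) : LF := fun _ w l =>
  (MW.cfg w).touchW Φ ε K Q l

theorem measLF_GW (hΦ : AdmissiblePotential Φ) (hε : 0 < ε) (K : ℕ) (Q : EPar) :
    MeasLF (GW Φ ε K Q) := fun m => MeasE416.measurable_touchW_cfg hΦ hε K Q m

theorem measurable_tB (tw : ℝ) : Measurable (tB tw) := by
  unfold tB
  exact Measurable.ite measurableSet_Iic measurable_const measurable_const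

theorem measLF_GB (hΦ : AdmissiblePotential Φ) (hε : 0 < ε) (K : ℕ) (Q : EPar) :
    MeasLF (GB Φ ε K Q) := fun m =>
  (measurable_tB Q.tw).comp (MeasE416.measurable_thetaL_cfg hΦ hε K Q.te m)

theorem GB_le_one (Φ : Space3 → ℝ) (ε : ℝ) (K : ℕ) (Q : EPar) (m : ℕ) (w : Config m) (l : ML) :
    GB Φ ε K Q m w l ≤ 1 := by
  unfold GB tB
  split_ifs
  · exact le_rfl
  · exact zero_le_one

theorem GW_le_one (hL : 0 ≤ Q.L) (m : ℕ) (w : Config m) (l : ML) : GW Φ ε K Q m w l ≤ 1 :=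
  touchW_le_one hL _ _

theorem XG_GW_late (hΦ : AdmissiblePotential Φ) (hε : 0 < ε) {s : ℝ} (hs : Q.te < s) (v : Space3) :
    XG f₀ ε K ρ (GW Φ ε K Q) s v = 0 := by
  refine le_antisymm ?_ zero_le
  rw [← XG_zero (f₀ := f₀) (ε := ε) (K := K) (ρ := ρ) (s := s) (v := v)]
  exact XG_le (Φ := Φ) fun m w _ l hl _ _ hm _ => (touchW_late hΦ hε (by rw [hl]; exact hs) hm).le

theorem GB_eq_zero (hΦ : AdmissiblePotential Φ) (hε : 0 < ε) (htw : Q.tw ≤ Q.te) {n : ℕ}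
    {w : Config n} (hw : w ∈ PairExcluded ε n) {l : ML} (hl : 0 < l.1.1) (hs : Q.tw < l.1.1)
    (hm : l.2 ≤ K) (hne : ∀ i, (flow Φ ε l.1.1 w i).1 ≠ l.1.2.1) : GB Φ ε K Q n w l = 0 := by
  unfold GB tB
  rw [if_neg]
  intro h
  rcases lt_or_ge Q.te l.1.1 with h1 | h1
  · rw [thetaL_late hΦ hε h1 hm] at h
    linarith
  · have h2 := MW.birth_le_theta (T := Q.te) (K := K) hΦ hε (cfg_ok hΦ hε hw)
      (ins_ok hΦ hε hw hl hne) (A := MW.line l) (τ := l.1.1) h1 (fun x => le_rfl)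
      (by rw [Finset.univ_unique, Finset.sum_singleton]; exact hm)
    rcases h2 with h2 | h2
    · have h3 : l.1.1 ≤ (MW.cfg w).thetaL Φ ε K Q.te l := h2
      linarith
    · linarith

theorem XG_GB_late (hΦ : AdmissiblePotential Φ) (hε : 0 < ε) (htw0 : 0 ≤ Q.tw)
    (htw : Q.tw ≤ Q.te) {s : ℝ} (hs : Q.tw < s) (v : Space3) :
    XG f₀ ε K ρ (GB Φ ε K Q) s v = 0 := by
  refine le_antisymm ?_ zero_le
  rw [← XG_zero (f₀ := f₀) (ε := ε) (K := K) (ρ := ρ) (s := s) (v := v)]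
  refine XG_le (Φ := Φ) fun m w hw l hl _ _ hm hne => ?_
  exact (GB_eq_zero hΦ hε htw hw (by rw [hl]; linarith) (by rw [hl]; exact hs) hm
    (by rw [hl]; exact hne)).le



/-- The mass of the lines touching before `tw` is at most `tnMass tw`. -/
theorem lintegral_GB_le (hΦ : AdmissiblePotential Φ) (hf : Measurable f₀) (hε : 0 < ε)
    (hγ : Measurable Q.γ) (htw0 : 0 ≤ Q.tw) (htw : Q.tw ≤ Q.te) :
    gcE f₀ ε (fun m w => ∫⁻ l, GB Φ ε K Q m w l ∂(lineM Q.γ Q.ρ K Q.te)) ≤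
      tnMass Φ f₀ Q.γ Q.ρ ε K Q.tw := by
  have hG := measLF_GB hΦ hε K Q
  rw [← EBasic602.lintegral_dens_lineM hf hγ hG]
  -- the target as an integral
  set G1 : LF := fun _ w l => if (MW.cfg w).thetaL Φ ε K Q.tw l ≤ Q.tw then 1 else 0 with hG1
  have hG1m : MeasLF G1 := fun m => Measurable.ite
    (measurableSet_le (MeasE416.measurable_thetaL_cfg hΦ hε K Q.tw m) measurable_const)
    measurable_const measurable_const
  have ht : tnMass Φ f₀ Q.γ Q.ρ ε K Q.tw =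
      ∫⁻ τ in Ioc (0 : ℝ) Q.tw, ∫⁻ v : Space3, Kin796.wG (Q.γ τ) v *
        EBasic602.dens f₀ ε K Q.ρ G1 τ v := by
    rw [EBasic602.lintegral_dens_lineM hf hγ hG1m]
    unfold tnMass
    refine gcE_congr f₀ ε fun m w _ => ?_
    have h1 : MeasurableSet {l : ML | (MW.cfg w).thetaL Φ ε K Q.tw l ≤ Q.tw} :=
      measurableSet_le ((MeasE416.measurable_thetaL_cfg hΦ hε K Q.tw m).comp
        (f := fun l : ML => (w, l)) (measurable_const.prodMk measurable_id)) measurable_const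
    rw [← lintegral_indicator_one h1]
    rfl
  rw [ht]
  have hsub : ∀ τ ∈ Ioc (0 : ℝ) Q.te, ∫⁻ v : Space3, Kin796.wG (Q.γ τ) v *
      EBasic602.dens f₀ ε K Q.ρ (GB Φ ε K Q) τ v ≤
      (Iic Q.tw).indicator (fun τ => ∫⁻ v : Space3, Kin796.wG (Q.γ τ) v *
        EBasic602.dens f₀ ε K Q.ρ G1 τ v) τ := by
    intro τ hτ
    by_cases h : τ ≤ Q.tw
    · rw [indicator_of_mem (show τ ∈ Iic Q.tw from h)]
      refine lintegral_mono fun v => mul_le_mul' le_rfl ?_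
      refine XG_le (Φ := Φ) fun m w hw l hl _ _ hm hne => ?_
      show tB Q.tw ((MW.cfg w).thetaL Φ ε K Q.te l) ≤
        if (MW.cfg w).thetaL Φ ε K Q.tw l ≤ Q.tw then 1 else 0
      unfold tB
      by_cases hθ : (MW.cfg w).thetaL Φ ε K Q.te l ≤ Q.tw
      · rw [if_pos hθ, if_pos]
        have hl0 : 0 < l.1.1 := by rw [hl]; exact hτ.1
        have h1 := MW.touched_theta (K := K) hΦ hε (cfg_ok hΦ hε hw)
          (ins_ok hΦ hε hw hl0 (by rw [hl]; exact hne)) (A := MW.line l) (T := Q.te)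
          (htw0.trans htw) (hθ.trans htw)
        have h2 : 0 ≤ (MW.cfg w).theta Φ ε K Q.te (MW.line l) :=
          EBasic602.theta_nonneg (htw0.trans htw)
        exact (EBasic602.theta_le_of_touched ⟨h2, hθ⟩ h1).trans hθ
      · rw [if_neg hθ]; exact zero_le
    · rw [indicator_of_notMem (show τ ∉ Iic Q.tw from h)]
      have hz : ∀ v, EBasic602.dens f₀ ε K Q.ρ (GB Φ ε K Q) τ v = 0 := fun v =>
        XG_GB_late hΦ hε htw0 htw (not_le.1 h) v
      simp only [hz, mul_zero, lintegral_zero, le_refl]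
  refine (setLIntegral_mono' measurableSet_Ioc hsub).trans (le_of_eq ?_)
  rw [setLIntegral_indicator measurableSet_Iic]
  congr 2
  ext τ
  simp only [mem_inter_iff, mem_Iic, mem_Ioc]
  constructor
  · rintro ⟨h1, h2, h3⟩; exact ⟨h2, h1⟩
  · rintro ⟨h1, h2⟩; exact ⟨h2, h1, h2.trans htw⟩

/-- Volterra term of a functional. -/
def volG (f₀ : PhasePoint → ℝ) (ε : ℝ) (K : ℕ) (Q : EPar) (C : ℝ) (G : LF) (τ : ℝ) : ℝ≥0∞ :=
  ∫⁻ s in Ioc τ Q.te, ∫⁻ v : Space3, ENNReal.ofReal (C * (1 + ‖v‖)) *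
    (Kin796.wG (Q.γ τ) v * XG f₀ ε K Q.ρ G s v)

/-- The Volterra term of `StmtNS` in the form `volG`. -/
theorem vol_le_volG {C : ℝ≥0∞} (hC : C ≠ ∞) {G : LF} {τ : ℝ}
    (hG : ∀ s v, Q.te < s → XG f₀ ε K Q.ρ G s v = 0) :
    C * ∫⁻ s in Ioi τ, ∫⁻ v : Space3, ENNReal.ofReal (1 + ‖v‖) *
      (Kin796.wG (Q.γ τ) v * XG f₀ ε K Q.ρ G s v) ≤ volG f₀ ε K Q C.toReal G τ := by
  have h1 : ∫⁻ s in Ioi τ, ∫⁻ v : Space3, ENNReal.ofReal (1 + ‖v‖) *
      (Kin796.wG (Q.γ τ) v * XG f₀ ε K Q.ρ G s v) =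
      ∫⁻ s in Ioc τ Q.te, ∫⁻ v : Space3, ENNReal.ofReal (1 + ‖v‖) *
      (Kin796.wG (Q.γ τ) v * XG f₀ ε K Q.ρ G s v) := by
    have h2 : ∀ s ∈ Ioi τ, ∫⁻ v : Space3, ENNReal.ofReal (1 + ‖v‖) *
        (Kin796.wG (Q.γ τ) v * XG f₀ ε K Q.ρ G s v) = (Iic Q.te).indicator (fun s =>
        ∫⁻ v : Space3, ENNReal.ofReal (1 + ‖v‖) *
          (Kin796.wG (Q.γ τ) v * XG f₀ ε K Q.ρ G s v)) s := by
      intro s _
      by_cases h : s ≤ Q.te
      · rw [indicator_of_mem (show s ∈ Iic Q.te from h)]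
      · rw [indicator_of_notMem (show s ∉ Iic Q.te from h)]
        simp only [hG s _ (not_le.1 h), mul_zero, lintegral_zero]
    rw [setLIntegral_congr_fun measurableSet_Ioi h2, setLIntegral_indicator measurableSet_Iic]
    congr 2
    ext s
    simp only [mem_inter_iff, mem_Iic, mem_Ioi, mem_Ioc]
    exact and_comm
  rw [h1, ← lintegral_const_mul' _ _ hC]
  unfold volG
  refine lintegral_mono fun s => ?_
  rw [← lintegral_const_mul' _ _ hC]
  refine lintegral_mono fun v => ?_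
  rw [ENNReal.ofReal_mul ENNReal.toReal_nonneg, ENNReal.ofReal_toReal hC, mul_assoc]

/-- Integral of the Volterra term over the birth times. -/
theorem lintegral_volG_le (hf : Measurable f₀) {γ₀ κ C : ℝ} (hγ : Q.γ = fun τ => γ₀ - κ * τ)
    (hκ : 0 < κ) (hC : 0 ≤ C) (hte : 0 ≤ Q.te) {G : LF} (hG : MeasLF G) :
    ∫⁻ τ in Ioc (0 : ℝ) Q.te, volG f₀ ε K Q C G τ ≤
      ENNReal.ofReal (C * (Q.te + 3 * (Real.sqrt κ)⁻¹ * Real.sqrt Q.te)) *
        gcE f₀ ε (fun m w => ∫⁻ l, G m w l ∂(lineM Q.γ Q.ρ K Q.te)) := by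
  have hγm : Measurable Q.γ := Young763.gam_meas hγ
  rw [← EBasic602.lintegral_dens_lineM hf hγm hG]
  rcases hte.eq_or_lt with h0 | h0
  · rw [← h0]; simp
  set X : ℝ → ℝ≥0∞ := fun s => ∫⁻ v : Space3, Kin796.wG (Q.γ s) v * XG f₀ ε K Q.ρ G s v with hX
  have hXm : Measurable X := by
    have h1 : Measurable fun p : ℝ × Space3 =>
        Kin796.wG (Q.γ p.1) p.2 * EBasic602.dens f₀ ε K Q.ρ G p.1 p.2 :=
      (EBasic602.measurable_wG2 hγm).mul (EBasic602.measurable_dens hf hG)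
    exact h1.lintegral_prod_right'
  have h1 : ∀ τ : ℝ, volG f₀ ε K Q C G τ ≤
      ∫⁻ s in Ioc τ Q.te, ENNReal.ofReal (C * sk κ (s - τ)) * X s := by
    intro τ
    unfold volG
    refine setLIntegral_mono' measurableSet_Ioc fun s hs => ?_
    have h2 := weight_absorb (volume : Measure Space3) (XG f₀ ε K Q.ρ G s) (γ₀ := γ₀) hκ hC hs.1
    simp only [hX, hγ]
    exact h2
  have h2 : ∫⁻ τ in Ioc (0 : ℝ) Q.te, volG f₀ ε K Q C G τ ≤
      ∫⁻ τ in Icc (0 : ℝ) Q.te, 1 * ∫⁻ s in Ioc τ Q.te, ENNReal.ofReal (C * sk κ (s - τ)) * X s := by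
    refine (lintegral_mono fun τ => h1 τ).trans ?_
    simp only [one_mul]
    exact lintegral_mono' (Measure.restrict_mono Ioc_subset_Icc_self le_rfl) le_rfl
  refine h2.trans ?_
  rw [volterra_swap hXm (w := fun _ => 1) measurable_const measurableSet_Icc]
  have h3 : ∀ s : ℝ, ∫⁻ τ in Icc (0 : ℝ) Q.te, (Iio s).indicator
      (fun τ => 1 * ENNReal.ofReal (C * sk κ (s - τ))) τ ≤
      ENNReal.ofReal (C * (Q.te + 3 * (Real.sqrt κ)⁻¹ * Real.sqrt Q.te)) := by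
    intro s
    have h4 := sk_short (a := 0) (b := Q.te) (s := s) hκ h0
    rw [sub_zero] at h4
    calc ∫⁻ τ in Icc (0 : ℝ) Q.te, (Iio s).indicator
          (fun τ => 1 * ENNReal.ofReal (C * sk κ (s - τ))) τ
        = ENNReal.ofReal C * ∫⁻ τ in Icc (0 : ℝ) Q.te, (Iio s).indicator
          (fun τ => ENNReal.ofReal (sk κ (s - τ))) τ := by
          rw [← lintegral_const_mul' _ _ ENNReal.ofReal_ne_top]
          refine lintegral_congr fun τ => ?_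
          by_cases h : τ ∈ Iio s
          · rw [indicator_of_mem h, indicator_of_mem h, one_mul, ENNReal.ofReal_mul hC]
          · rw [indicator_of_notMem h, indicator_of_notMem h, mul_zero]
      _ ≤ ENNReal.ofReal C * ENNReal.ofReal (Q.te + 3 * (Real.sqrt κ)⁻¹ * Real.sqrt Q.te) :=
          mul_le_mul' le_rfl h4
      _ = _ := (ENNReal.ofReal_mul hC).symm
  calc ∫⁻ s, (∫⁻ τ in Icc (0 : ℝ) Q.te, (Iio s).indicator
        (fun τ => 1 * ENNReal.ofReal (C * sk κ (s - τ))) τ) * (Iic Q.te).indicator X s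
      = ∫⁻ s in Ioc (0 : ℝ) Q.te, (∫⁻ τ in Icc (0 : ℝ) Q.te, (Iio s).indicator
        (fun τ => 1 * ENNReal.ofReal (C * sk κ (s - τ))) τ) * X s := by
        rw [← lintegral_indicator measurableSet_Ioc]
        refine lintegral_congr fun s => ?_
        by_cases h : s ∈ Ioc (0 : ℝ) Q.te
        · rw [indicator_of_mem h, indicator_of_mem (show s ∈ Iic Q.te from h.2)]
        · rw [indicator_of_notMem h]
          by_cases h5 : s ≤ Q.te
          · have h6 : s ≤ 0 := by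
              by_contra h7
              exact h ⟨not_le.1 h7, h5⟩
            have h7 : ∫⁻ τ in Icc (0 : ℝ) Q.te, (Iio s).indicator
                (fun τ => 1 * ENNReal.ofReal (C * sk κ (s - τ))) τ = 0 := by
              rw [setLIntegral_congr_fun (g := fun _ => 0) measurableSet_Icc, lintegral_zero]
              intro τ hτ
              exact indicator_of_notMem (fun h8 => by
                have h9 : τ < s := h8
                linarith [hτ.1]) _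
            rw [h7, zero_mul]
          · rw [indicator_of_notMem (show s ∉ Iic Q.te from h5), mul_zero]
    _ ≤ ∫⁻ s in Ioc (0 : ℝ) Q.te,
          ENNReal.ofReal (C * (Q.te + 3 * (Real.sqrt κ)⁻¹ * Real.sqrt Q.te)) * X s :=
        lintegral_mono fun s => mul_le_mul' (h3 s) le_rfl
    _ = _ := by
        rw [lintegral_const_mul' _ _ ENNReal.ofReal_ne_top]
        rfl

end Crest.Agent.R122.OneC285

end
end

-- ▼ part R122/OSMaj_495
section

/-!
# The structure integral of the majorant `majT` (row 122, board H2)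

* `xcF`, `nsF`, `exF` : the integrands of `StmtXC`, `StmtNS`, `StmtEX`.
* `OS_majT` : `OS κ (majT m₀ bd)` is the sum of the structure integrals of the pieces.
* `lintegral_OS_*` : each piece is the integral in the birth time of its `dirac` version.
-/

set_option autoImplicit false
set_option linter.unusedSectionVars false

open MeasureTheory Set Filter
open scoped ENNReal Classical Topology
open Crest.AnalysisR.Kinetic
open Crest.Agent.R122.Kin796 Crest.Agent.R122.Kin796.CTree Crest.Agent.R122.Tree674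
open Crest.Agent.R122.GC311 Crest.Agent.R122.EDefs602 Crest.Agent.R122.TreeLines335
open Crest.Agent.R122.OneC285 Crest.Agent.R122.MeasE416 Crest.Agent.R122.Line285
open Crest.Agent.R122.GSCalc495

noncomputable section

namespace Crest.Agent.R122.GSCalc495

/-- Switch on a condition measurable on valid trees. -/
theorem MeasVP.ite_val {Φ : Space3 → ℝ} {ε T' : ℝ} {P : CTree} {α : Type*} [MeasurableSpace α]
    {F F' : PF P α} {p : ∀ (_ : PhasePoint × Par P) (m : ℕ) (_ : Config m) (_ : α), Prop}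
    (hp : ∀ m, MeasurableSet {q : (PhasePoint × Par P) × (Config m × α) |
      Valid Φ ε P T' q.1.1.2 q.1.2 ∧ p q.1 m q.2.1 q.2.2})
    (h : MeasVP Φ ε T' P F) (h' : MeasVP Φ ε T' P F') :
    MeasVP Φ ε T' P (fun z m w l => if p z m w l then F z m w l else F' z m w l) := by
  intro m
  have h2 : (fun q : (PhasePoint × Par P) × (Config m × α) =>
      if Valid Φ ε P T' q.1.1.2 q.1.2 then
        (if p q.1 m q.2.1 q.2.2 then F q.1 m q.2.1 q.2.2 else F' q.1 m q.2.1 q.2.2) else 0) =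
      fun q => if Valid Φ ε P T' q.1.1.2 q.1.2 ∧ p q.1 m q.2.1 q.2.2 then
        (if Valid Φ ε P T' q.1.1.2 q.1.2 then F q.1 m q.2.1 q.2.2 else 0) else
        (if Valid Φ ε P T' q.1.1.2 q.1.2 then F' q.1 m q.2.1 q.2.2 else 0) := by
    funext q
    by_cases hv : Valid Φ ε P T' q.1.1.2 q.1.2
    · by_cases hq : p q.1 m q.2.1 q.2.2
      · rw [if_pos hv, if_pos hq, if_pos ⟨hv, hq⟩, if_pos hv]
      · rw [if_pos hv, if_neg hq, if_neg fun h => hq h.2, if_pos hv]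
    · rw [if_neg hv, if_neg fun h => hv h.1, if_neg hv]
  rw [h2]
  exact Measurable.ite (hp m) (h m) (h' m)

end Crest.Agent.R122.GSCalc495

namespace Crest.Agent.R122.OSCalc495

variable {Φ : Space3 → ℝ} {f₀ : PhasePoint → ℝ} {ε : ℝ} {K : ℕ} {Q : EPar} {T' : ℝ}
  {κ : Measure ℝ} {P : CTree}

/-- Integrand of `StmtXC`. -/
def xcF (Φ : Space3 → ℝ) (ε : ℝ) (K : ℕ) (tw : ℝ) : SF := fun P z _ w l =>
  (if P.leaves ≤ K ∧ K < l.2 + P.leaves then 1 else 0) * uI Φ ε tw P z w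

/-- Integrand of `StmtNS`. -/
def nsF (Φ : Space3 → ℝ) (ε : ℝ) (K : ℕ) (tw : ℝ) (G : LF) (k : ∀ P : CTree, Idx P ⊕ Bool) :
    SF := fun P z m w l =>
  smI K P l * (uI Φ ε tw P z w * G m w (oneLs Φ ε P z l (k P)))

/-- Integrand of `StmtEX`. -/
def exF (Φ : Space3 → ℝ) (ε : ℝ) (K : ℕ) (tw T' : ℝ) (m₀ : ℕ) (G : LF) : SF := fun P z m w l =>
  (if m₀ < P.leaves ∧ Sep Φ ε P T' z.1 z.2 then smI K P l else 0) * (uI Φ ε tw P z w *
    ∑ i ∈ Finset.univ.filter (fun i : Idx P => i ≠ root P), G m w (lineML Φ ε P z i))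

/-- Integrand of `OSP`. -/
def spF (Φ : Space3 → ℝ) (ε : ℝ) (K : ℕ) (Q : EPar) (m₀ : ℕ) : SF := fun P z _ w l =>
  (if P.leaves ≤ m₀ then smI K P l else 0) *
    ∑ d ∈ exS P, ∑ e ∈ Finset.univ.erase d,
      (MW.cfg w).touchP Φ ε K Q (oneLs Φ ε P z l d) (oneLs Φ ε P z l e)

/-- The three successors, for every shape. -/
def k₁ (P : CTree) : Idx P ⊕ Bool := Sum.inl (root P)
/-- The line `l'`. -/
def k₂ (P : CTree) : Idx P ⊕ Bool := Sum.inr false
/-- The line `c'`. -/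
def k₃ (P : CTree) : Idx P ⊕ Bool := Sum.inr true

/-- Touch functional as a functional of the gas and of a line. -/
def gW (Φ : Space3 → ℝ) (ε : ℝ) (K : ℕ) (Q : EPar) : LF := fun _ w l =>
  (MW.cfg w).touchW Φ ε K Q l

/-- Early touch as a functional of the gas and of a line. -/
def gB (Φ : Space3 → ℝ) (ε : ℝ) (K : ℕ) (Q : EPar) : LF := fun _ w l =>
  tB Q.tw ((MW.cfg w).thetaL Φ ε K Q.te l)

theorem measLF_gW (hΦ : AdmissiblePotential Φ) (hε : 0 < ε) (K : ℕ) (Q : EPar) :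
    MeasLF (gW Φ ε K Q) := measLF_touchW hΦ hε K Q

theorem measLF_gB (hΦ : AdmissiblePotential Φ) (hε : 0 < ε) (K : ℕ) (Q : EPar) :
    MeasLF (gB Φ ε K Q) := measLF_tB hΦ hε K Q.te Q.tw



theorem measV_xcF (hΦ : AdmissiblePotential Φ) (hε : 0 < ε) (K : ℕ) (tw : ℝ) :
    MeasV Φ ε T' (xcF Φ ε K tw) := fun P =>
  (measVP_mark hΦ (P := P) fun n => if P.leaves ≤ K ∧ K < n + P.leaves then 1 else 0).mul
    (measVP_uI hΦ hε tw P)

theorem measV_nsF (hΦ : AdmissiblePotential Φ) (hε : 0 < ε) (K : ℕ) (tw : ℝ) {G : LF}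
    (hG : MeasLF G) (k : ∀ P : CTree, Idx P ⊕ Bool) : MeasV Φ ε T' (nsF Φ ε K tw G k) := fun P =>
  (measVP_smI hΦ K P).mul ((measVP_uI hΦ hε tw P).mul (measVP_oneLs hΦ hG P (k P)))

/-- The separation switch. -/
theorem measVP_sep (hΦ : AdmissiblePotential Φ) (hε : 0 < ε) (c : Prop) [Decidable c] {α : Type*}
    [MeasurableSpace α] {F : PF P α} (hF : MeasVP Φ ε T' P F) :
    MeasVP Φ ε T' P (fun z m w l => if c ∧ Sep Φ ε P T' z.1 z.2 then F z m w l else 0) := by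
  have h := MeasVP.ite_val (P := P) (F := F) (F' := fun _ _ _ _ => 0)
    (p := fun z _ _ _ => c ∧ Sep Φ ε P T' z.1 z.2) (fun m => ?_) hF MeasVP.zero
  · convert h
  by_cases hc : c
  · have h1 : {q : (PhasePoint × Par P) × (Config m × α) | Valid Φ ε P T' q.1.1.2 q.1.2 ∧
        (c ∧ Sep Φ ε P T' q.1.1 q.1.2)} = Prod.fst ⁻¹' {z : PhasePoint × Par P |
        Valid Φ ε P T' z.1.2 z.2 ∧ Sep Φ ε P T' z.1 z.2} := by
      ext q
      exact ⟨fun h => ⟨h.1, h.2.2⟩, fun h => ⟨h.1, hc, h.2⟩⟩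
    rw [h1]
    exact measurable_fst (measurableSet_validSep hΦ hε P T')
  · have h1 : {q : (PhasePoint × Par P) × (Config m × α) | Valid Φ ε P T' q.1.1.2 q.1.2 ∧
        (c ∧ Sep Φ ε P T' q.1.1 q.1.2)} = ∅ := by
      ext q
      exact ⟨fun h => hc h.2.1, fun h => h.elim⟩
    rw [h1]
    exact MeasurableSet.empty

theorem measV_exF (hΦ : AdmissiblePotential Φ) (hε : 0 < ε) (K : ℕ) (tw : ℝ) (m₀ : ℕ) {G : LF}
    (hG : MeasLF G) : MeasV Φ ε T' (exF Φ ε K tw T' m₀ G) := fun P =>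
  (measVP_sep hΦ hε (m₀ < P.leaves) (measVP_smI hΦ K P)).mul
    ((measVP_uI hΦ hε tw P).mul (MeasVP.sum _ fun i _ => measVP_lineML hΦ hG P i))

theorem measV_spF (hΦ : AdmissiblePotential Φ) (hε : 0 < ε) (K : ℕ) (Q : EPar) (m₀ : ℕ) :
    MeasV Φ ε T' (spF Φ ε K Q m₀) := fun P =>
  (MeasVP.ite_const (P.leaves ≤ m₀) (measVP_smI hΦ K P) MeasVP.zero).mul
    (MeasVP.sum _ fun d _ => MeasVP.sum _ fun e _ => measVP_touchP hΦ hε K Q P d e)

/-- Measurability of the majorant on valid trees. -/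
theorem majT_eq (m₀ : ℕ) (bd : SF) (P : CTree) (z : PhasePoint × Par P) (m : ℕ) (w : Config m)
    (l : ML) : majT Φ ε K Q T' m₀ bd P z m w l =
      xcF Φ ε K Q.tw P z m w l +
      ((nsF Φ ε K Q.tw (gW Φ ε K Q) k₁ P z m w l + nsF Φ ε K Q.tw (gB Φ ε K Q) k₁ P z m w l) +
      ((nsF Φ ε K Q.tw (gW Φ ε K Q) k₂ P z m w l + nsF Φ ε K Q.tw (gB Φ ε K Q) k₂ P z m w l) +
      ((nsF Φ ε K Q.tw (gW Φ ε K Q) k₃ P z m w l + nsF Φ ε K Q.tw (gB Φ ε K Q) k₃ P z m w l) +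
      (exF Φ ε K Q.tw T' m₀ (gW Φ ε K Q) P z m w l +
      (spF Φ ε K Q m₀ P z m w l +
      (exF Φ ε K Q.tw T' 0 (gB Φ ε K Q) P z m w l +
      (1 + ENNReal.ofReal Q.L) * bd P z m w l)))))) := by
  have hs : sucT Φ ε K Q P z w l =
      (gW Φ ε K Q m w (oneLs Φ ε P z l (k₁ P)) + gB Φ ε K Q m w (oneLs Φ ε P z l (k₁ P))) +
      ((gW Φ ε K Q m w (oneLs Φ ε P z l (k₂ P)) + gB Φ ε K Q m w (oneLs Φ ε P z l (k₂ P))) +
      (gW Φ ε K Q m w (oneLs Φ ε P z l (k₃ P)) + gB Φ ε K Q m w (oneLs Φ ε P z l (k₃ P)))) := by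
    unfold sucT suc
    rw [Finset.sum_insert (by simp), Finset.sum_insert (by simp), Finset.sum_singleton]
    rfl
  unfold majT
  rw [hs]
  unfold xcF nsF exF spF exT exB pairT gW gB
  ring

theorem OS_majT (hΦ : AdmissiblePotential Φ) (hε : 0 < ε) (hf : Measurable f₀)
    (hγ : Measurable Q.γ) [SFinite κ] (m₀ : ℕ) (bd : SF) :
    OS Φ f₀ ε K Q T' κ (majT Φ ε K Q T' m₀ bd) =
      OS Φ f₀ ε K Q T' κ (xcF Φ ε K Q.tw) +
      ((OS Φ f₀ ε K Q T' κ (nsF Φ ε K Q.tw (gW Φ ε K Q) k₁) +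
        OS Φ f₀ ε K Q T' κ (nsF Φ ε K Q.tw (gB Φ ε K Q) k₁)) +
      ((OS Φ f₀ ε K Q T' κ (nsF Φ ε K Q.tw (gW Φ ε K Q) k₂) +
        OS Φ f₀ ε K Q T' κ (nsF Φ ε K Q.tw (gB Φ ε K Q) k₂)) +
      ((OS Φ f₀ ε K Q T' κ (nsF Φ ε K Q.tw (gW Φ ε K Q) k₃) +
        OS Φ f₀ ε K Q T' κ (nsF Φ ε K Q.tw (gB Φ ε K Q) k₃)) +
      (OS Φ f₀ ε K Q T' κ (exF Φ ε K Q.tw T' m₀ (gW Φ ε K Q)) +
      (OSP Φ f₀ ε K Q T' m₀ κ +
      (OS Φ f₀ ε K Q T' κ (exF Φ ε K Q.tw T' 0 (gB Φ ε K Q)) +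
      (1 + ENNReal.ofReal Q.L) * OS Φ f₀ ε K Q T' κ bd)))))) := by
  have hW := measLF_gW hΦ hε K Q
  have hB := measLF_gB hΦ hε K Q
  have hns : ∀ {G : LF}, MeasLF G → ∀ k : ∀ P : CTree, Idx P ⊕ Bool,
      MeasV Φ ε T' (nsF Φ ε K Q.tw G k) := fun hG k => measV_nsF hΦ hε K Q.tw hG k
  have hc : (1 + ENNReal.ofReal Q.L) ≠ ∞ := ENNReal.add_ne_top.2
    ⟨ENNReal.one_ne_top, ENNReal.ofReal_ne_top⟩
  have h0 : OS Φ f₀ ε K Q T' κ (majT Φ ε K Q T' m₀ bd) = OS Φ f₀ ε K Q T' κ _ :=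
    OS_congr_on fun P z m w l _ _ => majT_eq m₀ bd P z m w l
  rw [h0, OS_add hΦ hf hγ (measV_xcF hΦ hε K Q.tw),
    OS_add hΦ hf hγ ((hns hW k₁).add (hns hB k₁)), OS_add hΦ hf hγ (hns hW k₁),
    OS_add hΦ hf hγ ((hns hW k₂).add (hns hB k₂)), OS_add hΦ hf hγ (hns hW k₂),
    OS_add hΦ hf hγ ((hns hW k₃).add (hns hB k₃)), OS_add hΦ hf hγ (hns hW k₃),
    OS_add hΦ hf hγ (measV_exF hΦ hε K Q.tw m₀ hW), OS_add hΦ hf hγ (measV_spF hΦ hε K Q m₀),
    OS_add hΦ hf hγ (measV_exF hΦ hε K Q.tw 0 hB), OS_const_mul hc]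
  rfl

end Crest.Agent.R122.OSCalc495

end
end

-- ▼ part R122/Ineq1Pt_285
section

/-!
# INEQUALITY 1 (row 122, board H2): pointwise form in the birth time

* `majAt_cut` : the majorant `majT` dominates the touch functional on real structures.
* `XE_le` : `XE τ ≤ born + (direct + (OS (dirac τ) majT + flux of errors))`.
* `ineq1_pt` : helper763's `PtIneq`, with a small source, for `K` large and `ε` small.
-/

set_option autoImplicit false
set_option linter.unusedSectionVars false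

open MeasureTheory Set Filter
open scoped ENNReal Classical Topology
open Crest.AnalysisR.Kinetic
open Crest.Agent.R122.Kin796 Crest.Agent.R122.Kin796.CTree Crest.Agent.R122.Tree674
open Crest.Agent.R122.GC311 Crest.Agent.R122.Flow671
open Crest.Agent.R122.EDefs602 Crest.Agent.R122.Unw410 Crest.Agent.R122.Line285
open Crest.Agent.R122.Volt796 Crest.Agent.R122.OC285 Crest.Agent.R122.OSCalc495
open Crest.Agent.R122.GSCalc495 Crest.Agent.R122.Direct658 Crest.Agent.R122.Master566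

noncomputable section

namespace Crest.Agent.R122.OneC285

variable {Φ : Space3 → ℝ} {f₀ : PhasePoint → ℝ} {ε : ℝ} {K : ℕ} {Q : EPar} {T' : ℝ}

/-! ## The majorant -/



theorem measV_majT (hΦ : AdmissiblePotential Φ) (hε : 0 < ε) (m₀ : ℕ) {bd : SF}
    (hbd : MeasSF bd) : MeasV Φ ε T' (majT Φ ε K Q T' m₀ bd) := by
  have hW := measLF_gW hΦ hε K Q
  have hB := measLF_gB hΦ hε K Q
  have hns : ∀ {G : LF}, MeasLF G → ∀ k : ∀ P : CTree, Idx P ⊕ Bool,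
      MeasV Φ ε T' (nsF Φ ε K Q.tw G k) := fun hG k => measV_nsF hΦ hε K Q.tw hG k
  refine ((measV_xcF hΦ hε K Q.tw).add (((hns hW k₁).add (hns hB k₁)).add
    (((hns hW k₂).add (hns hB k₂)).add (((hns hW k₃).add (hns hB k₃)).add
    ((measV_exF hΦ hε K Q.tw m₀ hW).add ((measV_spF hΦ hε K Q m₀).add
    ((measV_exF hΦ hε K Q.tw 0 hB).add ((OSCalc495.MeasSF.measV hΦ hbd).const_mul
      (1 + ENNReal.ofReal Q.L)))))))) : MeasV Φ ε T' _).congr
    fun P z m w l _ => ?_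
  exact majT_eq m₀ bd P z m w l

/-- Constant of the lines born in contact. -/
def cBorn (g₀ : ℝ) (ρ : ℝ≥0∞) (ε : ℝ) : ℝ≥0∞ :=
  rhoS ρ * (∫⁻ v : Space3, wG g₀ v) * (ENNReal.ofReal ε * Sweep815.c3)

theorem wG_int_ne_top {g₀ : ℝ} (h : 0 < g₀) : ∫⁻ v : Space3, wG g₀ v ≠ ∞ := by
  refine ne_top_of_le_ne_top (gI_lt_top h).ne (lintegral_mono fun v => ?_)
  calc wG g₀ v = wG g₀ v * 1 := (mul_one _).symm
    _ ≤ _ := mul_le_mul' le_rfl le_self_add

theorem measurable_wG (g : ℝ) : Measurable fun v : Space3 => wG g v := by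
  unfold Kin796.wG
  fun_prop


/-! ## Pointwise inequality at fixed `K`, `ε` -/

theorem volG_mul {c : ℝ≥0∞} (hc : c ≠ ∞) {C : ℝ} {G : LF} {τ : ℝ} :
    c * volG f₀ ε K Q C G τ = volG f₀ ε K Q (c.toReal * C) G τ := by
  unfold volG
  rw [← lintegral_const_mul' _ _ hc]
  refine lintegral_congr fun s => ?_
  rw [← lintegral_const_mul' _ _ hc]
  refine lintegral_congr fun v => ?_
  rw [mul_assoc c.toReal, ENNReal.ofReal_mul ENNReal.toReal_nonneg, ENNReal.ofReal_toReal hc,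
    mul_assoc]

/-- The source of the pointwise inequality. -/
def srcT (Φ : Space3 → ℝ) (f₀ : PhasePoint → ℝ) (ε : ℝ) (K : ℕ) (Q : EPar) (T' : ℝ)
    (g₀ h C : ℝ) (C0 sX sN sE sE0 : ℝ≥0∞) (B : RF) (bd : SF) (τ : ℝ) : ℝ≥0∞ :=
  (cBorn g₀ Q.ρ ε + (Direct658.cD g₀ Q.ρ * ENNReal.ofReal (2 * h) * JE Φ f₀ ε K Q.tw +
    (sX + (6 * sN + (sE + (sE0 + (C0 * tnMass Φ f₀ Q.γ Q.ρ ε K Q.tw +
      RedFlux663.cFlux g₀ Q.ρ * rfl4 Φ f₀ ε K Q.te B))))))) +
  ((1 + ENNReal.ofReal Q.L) * OS Φ f₀ ε K Q T' (Measure.dirac τ) bd +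
    volG f₀ ε K Q (3 * C) (GB Φ ε K Q) τ)


/-! ## Eventual form -/

theorem null_ofReal : Null fun _ ε => ENNReal.ofReal ε :=
  fun _ δ hδ => ⟨δ, hδ, fun _ _ h => ENNReal.ofReal_le_ofReal h.le⟩

theorem null_cBorn {g₀ : ℝ} (hg₀ : 0 < g₀) {ρ : ℝ≥0∞} (hρ : ρ < 1) :
    Null fun _ ε => cBorn g₀ ρ ε := by
  unfold cBorn
  refine (null_ofReal.mul_const (c := Sweep815.c3) ?_).const_mul
    (ENNReal.mul_ne_top (rhoS_lt_top hρ).ne (wG_int_ne_top hg₀))
  unfold Sweep815.c3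
  exact ENNReal.ofReal_ne_top

/-- The constant part of the source. -/
def srcC (Φ : Space3 → ℝ) (f₀ : PhasePoint → ℝ) (ε : ℝ) (K : ℕ) (Q : EPar)
    (g₀ h : ℝ) (C0 sX sN sE sE0 : ℝ≥0∞) (B : RF) : ℝ≥0∞ :=
  cBorn g₀ Q.ρ ε + (Direct658.cD g₀ Q.ρ * ENNReal.ofReal (2 * h) * JE Φ f₀ ε K Q.tw +
    (sX + (6 * sN + (sE + (sE0 + (C0 * tnMass Φ f₀ Q.γ Q.ρ ε K Q.tw +
      RedFlux663.cFlux g₀ Q.ρ * rfl4 Φ f₀ ε K Q.te B))))))

/-- Integral of the source over the birth times. -/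
theorem lintegral_srcT_le (hΦ : AdmissiblePotential Φ) (hf : Measurable f₀) (hε : 0 < ε)
    {γ₀ κ : ℝ} (hγ : Q.γ = fun τ => γ₀ - κ * τ) (hκ : 0 < κ) (htw0 : 0 ≤ Q.tw)
    (htw : Q.tw ≤ Q.te) {g₀ h C : ℝ} (hC : 0 ≤ C) {C0 sX sN sE sE0 : ℝ≥0∞} {B : RF} {bd : SF}
    (hbd : MeasSF bd) :
    ∫⁻ τ in Ioc 0 Q.te, srcT Φ f₀ ε K Q T' g₀ h C C0 sX sN sE sE0 B bd τ ≤
      ENNReal.ofReal Q.te * srcC Φ f₀ ε K Q g₀ h C0 sX sN sE sE0 B +
      ((1 + ENNReal.ofReal Q.L) * OS Φ f₀ ε K Q T' (volume.restrict (Ioc 0 Q.te)) bd +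
        ENNReal.ofReal (3 * C * (Q.te + 3 * (Real.sqrt κ)⁻¹ * Real.sqrt Q.te)) *
          tnMass Φ f₀ Q.γ Q.ρ ε K Q.tw) := by
  have hγm : Measurable Q.γ := Young763.gam_meas hγ
  have hc : (1 + ENNReal.ofReal Q.L) ≠ ∞ := ENNReal.add_ne_top.2
    ⟨ENNReal.one_ne_top, ENNReal.ofReal_ne_top⟩
  have hm : Measurable fun τ => OS Φ f₀ ε K Q T' (Measure.dirac τ) bd :=
    measurable_OS_dirac hΦ hf hγm (OSCalc495.MeasSF.measV hΦ hbd)
  have h0 : ∀ τ, srcT Φ f₀ ε K Q T' g₀ h C C0 sX sN sE sE0 B bd τ =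
      srcC Φ f₀ ε K Q g₀ h C0 sX sN sE sE0 B +
        ((1 + ENNReal.ofReal Q.L) * OS Φ f₀ ε K Q T' (Measure.dirac τ) bd +
        volG f₀ ε K Q (3 * C) (GB Φ ε K Q) τ) := fun τ => rfl
  simp only [h0]
  rw [lintegral_add_left measurable_const, lintegral_add_left (hm.const_mul _),
    lintegral_const_mul _ hm, lintegral_OS_Ioc hΦ hf hγm (OSCalc495.MeasSF.measV hΦ hbd)]
  refine add_le_add (le_of_eq ?_) (add_le_add le_rfl ?_)
  · rw [setLIntegral_const, Real.volume_Ioc, sub_zero, mul_comm]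
  · refine (lintegral_volG_le hf hγ hκ (by positivity) (htw0.trans htw)
      (measLF_GB hΦ hε K Q)).trans ?_
    exact mul_le_mul' le_rfl (lintegral_GB_le hΦ hf hε hγm htw0 htw)

/-- The master part of the source. -/
def mastA (Φ : Space3 → ℝ) (f₀ : PhasePoint → ℝ) (ε : ℝ) (K : ℕ) (Q : EPar) (T' g₀ h : ℝ)
    (Cm : ℝ≥0∞) (m₀ : ℕ) : ℝ≥0∞ :=
  Cm * XI Φ f₀ ε K Q + (Direct658.cD g₀ Q.ρ * ENNReal.ofReal (2 * h) *
    ENNReal.ofReal (Unw410.cB Φ) * aE Φ f₀ ε K Q +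
    PE Φ f₀ ε K Q (Nu0566.nu0 Φ f₀ ε K Q T' m₀))


end Crest.Agent.R122.OneC285

end
end

-- ▼ part R122/OneCW_423
section

/-!
# Statement (NS) of the one-contact step in the windows (row 122, board H1)

* `stmtNS_win` : with the constants of the kinetic bounds; all windows of length at most `h₀`.
* `stmtNS_evW` : for line parameters `LinePar g1 r1 T γ ρ` there is one constant such that, for all
  short windows at whose beginning the induction hypothesis holds, `OneC285.StmtNS` is true.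
-/

set_option autoImplicit false

open MeasureTheory Set Filter Topology
open scoped ENNReal
open Crest.AnalysisR.Kinetic
open Crest.Agent.R122.EDefs602 Crest.Agent.R122.Master566 Crest.Agent.R122.Top602
open Crest.Agent.R122.Q1815 Crest.Agent.R122.OneC285

noncomputable section

namespace Crest.Agent.R122.OneNS423

variable {Φ : Space3 → ℝ} {β T : ℝ} {f₀ : PhasePoint → ℝ} {f : ℝ → PhasePoint → ℝ}

/-- **(NS) for all windows**, with the constants of the kinetic bounds. -/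
theorem stmtNS_win (hD : KData Φ β T f₀ f) {h₀ kap lam C b : ℝ}
    (hK : Seg814.KinC Φ T f h₀ kap lam C b) (hkap : kap ≤ β) :
    ∃ g1 : ℝ, 0 < g1 ∧ ∃ r1 : ℝ≥0∞, r1 < 1 ∧
      ∀ (γ : ℝ → ℝ) (ρ : ℝ≥0∞), LinePar g1 r1 T γ ρ → ∃ CN : ℝ≥0∞, CN ≠ ∞ ∧
        ∀ h L tw te : ℝ, Win h T tw te → te ≤ tw + h₀ → GIV566.GIV Φ f₀ f T tw →
          ∀ T' : ℝ, StmtNS Φ f₀ (epar γ ρ L tw te) T' CN := by
  obtain ⟨-, hkap0, hlam, -, hb, -⟩ := id hK
  set lam₁ : ℝ := (1 + lam) / 2 with hlam₁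
  have h1 : 1 < lam₁ := by rw [hlam₁]; linarith
  have h1' : 0 < lam₁ := by linarith
  have h2 : lam₁ < lam := by rw [hlam₁]; linarith
  have hlam0 : 0 < lam := by linarith
  obtain ⟨M, -, hM⟩ := exists_wtA_le Φ h1 hkap0
  have hr : lam₁ / lam < 1 := (div_lt_one hlam0).2 h2
  have hr0 : 0 < lam₁ / lam := by positivity
  refine ⟨b, hb, ENNReal.ofReal ((1 + lam₁ / lam) / 2), ?_, ?_⟩
  · rw [← ENNReal.ofReal_one]
    exact (ENNReal.ofReal_lt_ofReal_iff one_pos).2 (by linarith)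
  intro γ ρ hl
  obtain ⟨γ₀, hγ₀, hlow⟩ := hl.lower
  have hρ : ENNReal.ofReal (lam₁ / lam) < ρ :=
    lt_of_lt_of_le ((ENNReal.ofReal_lt_ofReal_iff (by positivity)).2 (by linarith)) hl.lo
  refine ⟨CN lam lam₁ C γ₀ M ρ, CN_ne_top hγ₀ hρ hl.hi, ?_⟩
  intro h L tw te hw hte hG T'
  have htw : tw ∈ Icc 0 T := ⟨hw.nonneg, hw.le.trans hw.le_T⟩
  have X : Ctx Φ β T f₀ f T tw := Ctx.of_kdata hD htw hG hD.T_pos
  have hup : ∀ τ ∈ Ioc (0 : ℝ) te, γ τ ≤ b := by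
    obtain ⟨g0, κ, hκ, hγ, -, hg⟩ := hl.lin
    intro τ hτ
    rw [hγ]
    have := mul_nonneg hκ.le hτ.1.le
    show g0 - κ * τ ≤ b
    linarith
  exact stmtNS (Q := epar γ ρ L tw te) X hK (by linarith [hD.beta_pos]) h1' h2.le
    (fun P s ℓ p => hM P s ℓ p) hte hw.le_T hl.measurable hγ₀
    (fun τ hτ => hlow τ (hτ.2.trans hw.le_T)) hup hρ hl.hi T'


end Crest.Agent.R122.OneNS423

end
end

-- ▼ part R122/StmtEX_837
section

/-!
# Row 122 (helper837): `StmtEX`, the exits of a contact structure (INEQUALITY 1)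

* `ex_inner_le` : flux of the test line integrated out, at fixed tree and gas.
* `os_ex_le_ts` : the structure integral of the exits is below a tree integral `TS`.
* `lintegral_lineM_cut` : lines born before `te` in `lineM .. T'`.
* `stmtEX` : `StmtEX Φ f₀ Q T' m₀ (C₀ r^m₀)`, constants uniform in the windows and horizons.
-/

set_option autoImplicit false

open MeasureTheory Set Filter Topology
open Crest.AnalysisR.Kinetic
open scoped ENNReal

noncomputable section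

open scoped Classical

namespace Crest.Agent.R122.QExit837

open Kin796 Kin796.CTree Disc416 Scat818 Flow671 Flux663 Tree674 Mark307
open Crest.Agent.R122.GIV566 Crest.Agent.R122.TreeLines335 Crest.Agent.R122.QExit814
open Crest.Agent.R122.Hid424 Crest.Agent.R122.RtG302 Crest.Agent.R122.GC311
open Crest.Agent.R122.InEq2 Crest.Agent.R122.ToTree335 Crest.Agent.R122.Boltz814
open Crest.Agent.R122.EDefs602 Crest.Agent.R122.Master566 Crest.Agent.R122.OneC285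
open Crest.Agent.R122.OneC423 Crest.Agent.R122.XC815

variable {Φ : Space3 → ℝ} {f₀ : PhasePoint → ℝ} {f : ℝ → PhasePoint → ℝ} {ε : ℝ}

/-! ### Lines born before `te` -/

/-- cut-off of a test functional: lines born before `te` -/
def cutG (te : ℝ) (G : LF) : LF := fun m w l => if l.1.1 ≤ te then G m w l else 0

theorem measLF_cutG {te : ℝ} {G : LF} (hG : MeasLF G) : MeasLF (cutG te G) := by
  intro m
  unfold cutG
  refine Measurable.ite ?_ (hG m) measurable_const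
  exact measurableSet_le (measurable_snd.fst.fst) measurable_const

theorem cutG_le {te : ℝ} {G : LF} (m : ℕ) (w : Config m) (l : EDefs602.ML) :
    cutG te G m w l ≤ G m w l := by
  unfold cutG
  split_ifs
  · exact le_rfl
  · exact bot_le

/-- Lines born before `te` in `lineM γ ρ K T'`. -/
theorem lintegral_lineM_cut {γ : ℝ → ℝ} (hγ : Measurable γ) (ρ : ℝ≥0∞) (K : ℕ) {te T' : ℝ}
    {g : EDefs602.ML → ℝ≥0∞} (hg : Measurable g) :
    ∫⁻ l, (if l.1.1 ≤ te then g l else 0) ∂(lineM γ ρ K T') ≤ ∫⁻ l, g l ∂(lineM γ ρ K te) := by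
  have hD : Measurable (lineD γ ρ K) := EBasic602.measurable_lineD hγ
  have hc : Measurable fun l : EDefs602.ML => if l.1.1 ≤ te then g l else 0 :=
    Measurable.ite (measurableSet_le (measurable_fst.fst) measurable_const) hg measurable_const
  unfold lineM
  rw [lintegral_withDensity_eq_lintegral_mul _ hD hc, lintegral_withDensity_eq_lintegral_mul _ hD hg]
  unfold lineV
  have m1 : Measurable fun l : EDefs602.ML => (lineD γ ρ K * fun l : EDefs602.ML =>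
      if l.1.1 ≤ te then g l else 0) l := hD.mul hc
  have m2 : Measurable fun l : EDefs602.ML => (lineD γ ρ K * g) l := hD.mul hg
  rw [lintegral_prod _ m1.aemeasurable, lintegral_prod _ m2.aemeasurable]
  have n1 : Measurable fun q : ℝ × PhasePoint => ∫⁻ n : ℕ, (lineD γ ρ K * fun l : EDefs602.ML =>
      if l.1.1 ≤ te then g l else 0) (q, n) ∂Measure.count := m1.lintegral_prod_right'
  have n2 : Measurable fun q : ℝ × PhasePoint => ∫⁻ n : ℕ, (lineD γ ρ K * g) (q, n)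
      ∂Measure.count := m2.lintegral_prod_right'
  rw [lintegral_prod _ n1.aemeasurable, lintegral_prod _ n2.aemeasurable]
  rw [← lintegral_indicator measurableSet_Ioc, ← lintegral_indicator measurableSet_Ioc]
  refine lintegral_mono fun τ => ?_
  by_cases h1 : τ ∈ Ioc 0 T'
  · rw [indicator_of_mem h1]
    by_cases h2 : τ ≤ te
    · rw [indicator_of_mem (show τ ∈ Ioc 0 te from ⟨h1.1, h2⟩)]
      refine le_of_eq (lintegral_congr fun y => lintegral_congr fun n => ?_)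
      show lineD γ ρ K ((τ, y), n) * (if τ ≤ te then g ((τ, y), n) else 0) = _
      rw [if_pos h2]
      rfl
    · have h0 : ∫⁻ y : PhasePoint, ∫⁻ n : ℕ, (lineD γ ρ K * fun l : EDefs602.ML =>
          if l.1.1 ≤ te then g l else 0) ((τ, y), n) ∂Measure.count = 0 := by
        have h3 : ∀ (y : PhasePoint) (n : ℕ), (lineD γ ρ K * fun l : EDefs602.ML =>
            if l.1.1 ≤ te then g l else 0) ((τ, y), n) = 0 := by
          intro y n
          show lineD γ ρ K ((τ, y), n) * (if τ ≤ te then g ((τ, y), n) else 0) = 0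
          rw [if_neg h2, mul_zero]
        simp only [h3, lintegral_zero]
      rw [h0]
      exact bot_le
  · rw [indicator_of_notMem h1]
    exact bot_le

/-! ### The flux of the test line -/

/-- The exit lines are born before the contact. -/
theorem rel_le_of_ct (hε : 0 ≤ ε) {P : CTree} {te : ℝ} {z : PhasePoint × Par P} {e : ℝ × PhasePoint}
    (h : (z, e) ∈ ctSet Φ ε te P) {i : Idx P} (hi : i ≠ root P) : TreeLines335.rel P z.2 i ≤ te := by
  have hv : Valid Φ ε P te z.1.2 z.2 := valid_of_mem_ctSet h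
  rw [rel_eq_prot P te z.2 i hi]
  exact PathFlow968.prot_le hε P te z.1.2 z.2 hv.2 i

theorem sum_filter_eq {P : CTree} (g : Idx P → ℝ≥0∞) :
    ∑ i ∈ Finset.univ.filter (fun i : Idx P => i ≠ root P), g i =
      ∑ x : {i : Idx P // i ≠ root P}, g x :=
  Finset.sum_subtype _ (fun x => by simp) g

theorem tsum_markW_le (ρ : ℝ≥0∞) (K : ℕ) : ∑' n : ℕ, markW ρ K n ≤ (1 - ρ)⁻¹ := by
  rw [← ENNReal.tsum_geometric]
  exact ENNReal.tsum_le_tsum fun n => EBasic602.markW_le K n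

/-- constant of the flux -/
def cF (te g0 : ℝ) (ρ : ℝ≥0∞) : ℝ≥0∞ :=
  ENNReal.ofReal te * ENNReal.ofReal Real.pi * cV g0 * (1 - ρ)⁻¹

theorem cF_ne_top {te g0 : ℝ} (hg : 0 < g0) {ρ : ℝ≥0∞} (hρ : ρ < 1) : cF te g0 ρ ≠ ∞ := by
  unfold cF
  refine ENNReal.mul_ne_top (ENNReal.mul_ne_top (ENNReal.mul_ne_top ENNReal.ofReal_ne_top
    ENNReal.ofReal_ne_top) (cV_ne_top hg)) ?_
  rw [Ne, ENNReal.inv_eq_top, tsub_eq_zero_iff_le]
  exact not_le.2 hρ

theorem cF_mono {te te' g0 : ℝ} (h : te ≤ te') (ρ : ℝ≥0∞) : cF te g0 ρ ≤ cF te' g0 ρ := by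
  unfold cF
  have := ENNReal.ofReal_le_ofReal h
  gcongr

/-- The exits of a tree and the ghost indicator. -/
def exG (Φ : Space3 → ℝ) (ε tw te : ℝ) (G : LF) (P : CTree) (z : PhasePoint × Par P) (m : ℕ)
    (w : Config m) : ℝ≥0∞ :=
  unhitInd Φ ε (treeT Φ ε P z.1 z.2 (TreeLines335.rel P z.2)) tw w *
    ∑ x : {i : Idx P // i ≠ root P}, cutG te G m w (lineML Φ ε P z x)

theorem exG_ne_top {tw te : ℝ} {G : LF} (hG1 : ∀ m w l, G m w l ≤ 1) {P : CTree}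
    {z : PhasePoint × Par P} {m : ℕ} {w : Config m} : exG Φ ε tw te G P z m w ≠ ∞ := by
  unfold exG
  refine ENNReal.mul_ne_top (ne_top_of_le_ne_top ENNReal.one_ne_top unhitInd_le_one) ?_
  refine ENNReal.sum_ne_top.2 fun x _ => ?_
  exact ne_top_of_le_ne_top ENNReal.one_ne_top ((cutG_le m w _).trans (hG1 m w _))

/-- the integrand of `StmtEX` -/
def HEX (Φ : Space3 → ℝ) (ε : ℝ) (K : ℕ) (Q : EPar) (T' : ℝ) (m₀ : ℕ) (G : LF) : SF :=
  fun P z m w l => (if m₀ < P.leaves ∧ Sep Φ ε P T' z.1 z.2 then smI K P l else 0) *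
    (uI Φ ε Q.tw P z w *
      ∑ i ∈ Finset.univ.filter (fun i : Idx P => i ≠ root P), G m w (lineML Φ ε P z i))

/-- majorant after integration of the test line -/
def HTS (Φ : Space3 → ℝ) (ε : ℝ) (K : ℕ) (Q : EPar) (T' : ℝ) (m₀ : ℕ) (g0 : ℝ) (G : LF)
    (P : CTree) (z : PhasePoint × Par P) (m : ℕ) (w : Config m) : ℝ≥0∞ :=
  if P.leaves ≤ K ∧ Sep Φ ε P T' z.1 z.2 then
    (if m₀ ≤ P.size then cF Q.te g0 Q.ρ * ENNReal.ofReal (1 + ‖z.1.2‖) else 0) *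
      exG Φ ε Q.tw Q.te G P z m w else 0

theorem ex_inner_le (hΦ : AdmissiblePotential Φ) (hε : 0 < ε) {K : ℕ} {Q : EPar}
    (hγ : Measurable Q.γ) {g0 τ : ℝ} (hτ : 0 < τ) (hg : g0 ≤ Q.γ τ) {T' : ℝ} {m₀ : ℕ} {G : LF}
    (hG1 : ∀ m w l, G m w l ≤ 1) {P : CTree} (z : PhasePoint × Par P) (m : ℕ) (w : Config m) :
    ∫⁻ l, {l : EDefs602.ML | (z, l.1) ∈ ctSet Φ ε Q.te P}.indicator
      (fun l => lineD Q.γ Q.ρ K l * HEX Φ ε K Q T' m₀ G P z m w l) l ∂(baseM (Measure.dirac τ)) ≤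
      ENNReal.ofReal (ε ^ 2) * HTS Φ ε K Q T' m₀ g0 G P z m w := by
  by_cases hc : (m₀ < P.leaves ∧ Sep Φ ε P T' z.1 z.2) ∧ P.leaves ≤ K
  · obtain ⟨⟨hm, hs⟩, hK⟩ := hc
    have hsz : m₀ ≤ P.size := by
      have := CTree.leaves_eq P
      omega
    have hpt : ∀ l : EDefs602.ML, {l : EDefs602.ML | (z, l.1) ∈ ctSet Φ ε Q.te P}.indicator
        (fun l => lineD Q.γ Q.ρ K l * HEX Φ ε K Q T' m₀ G P z m w l) l ≤
        {l : EDefs602.ML | (z, l.1) ∈ ctSet Φ ε Q.te P}.indicator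
          (fun l => lineD Q.γ Q.ρ K l * (fun _ : ℕ => (1 : ℝ≥0∞)) l.2) l *
          exG Φ ε Q.tw Q.te G P z m w := by
      intro l
      by_cases hl : l ∈ {l : EDefs602.ML | (z, l.1) ∈ ctSet Φ ε Q.te P}
      · rw [indicator_of_mem hl, indicator_of_mem hl, mul_one]
        refine mul_le_mul' le_rfl ?_
        unfold HEX
        rw [if_pos ⟨hm, hs⟩]
        have h1 : smI K P l ≤ 1 := by
          unfold smI
          split_ifs
          · exact le_rfl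
          · exact bot_le
        refine (mul_le_mul' h1 le_rfl).trans (le_of_eq ?_)
        rw [one_mul, sum_filter_eq]
        unfold exG
        congr 1
        refine Finset.sum_congr rfl fun x _ => ?_
        unfold cutG
        rw [if_pos (show (lineML Φ ε P z x).1.1 ≤ Q.te from rel_le_of_ct hε.le hl x.2)]
      · rw [indicator_of_notMem hl]
        exact bot_le
    refine (lintegral_mono hpt).trans ?_
    rw [lintegral_mul_const' _ _ (exG_ne_top hG1)]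
    have hfl := ct_flux_le hΦ hε z (te := Q.te) hτ hγ hg Q.ρ K (fun _ : ℕ => (1 : ℝ≥0∞))
    refine (mul_le_mul' hfl le_rfl).trans ?_
    have h2 : ∑' n : ℕ, markW Q.ρ K n * (1 : ℝ≥0∞) ≤ (1 - Q.ρ)⁻¹ := by
      simp only [mul_one]
      exact tsum_markW_le Q.ρ K
    unfold HTS
    rw [if_pos ⟨hK, hs⟩, if_pos hsz]
    unfold cF
    calc ENNReal.ofReal (ε ^ 2) * (ENNReal.ofReal Q.te * ENNReal.ofReal Real.pi * cV g0 *
          (ENNReal.ofReal (1 + ‖z.1.2‖) * ∑' n : ℕ, markW Q.ρ K n * (1 : ℝ≥0∞))) *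
          exG Φ ε Q.tw Q.te G P z m w
        ≤ ENNReal.ofReal (ε ^ 2) * (ENNReal.ofReal Q.te * ENNReal.ofReal Real.pi * cV g0 *
          (ENNReal.ofReal (1 + ‖z.1.2‖) * (1 - Q.ρ)⁻¹)) *
          exG Φ ε Q.tw Q.te G P z m w := by gcongr
      _ = _ := by ring
  · have h0 : ∀ l : EDefs602.ML, {l : EDefs602.ML | (z, l.1) ∈ ctSet Φ ε Q.te P}.indicator
        (fun l => lineD Q.γ Q.ρ K l * HEX Φ ε K Q T' m₀ G P z m w l) l = 0 := by
      intro l
      by_cases hl : l ∈ {l : EDefs602.ML | (z, l.1) ∈ ctSet Φ ε Q.te P}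
      · rw [indicator_of_mem hl]
        have h1 : HEX Φ ε K Q T' m₀ G P z m w l = 0 := by
          unfold HEX
          by_cases h2 : m₀ < P.leaves ∧ Sep Φ ε P T' z.1 z.2
          · have h3 : ¬ P.leaves ≤ K := fun h => hc ⟨h2, h⟩
            have h4 : smI K P l = 0 := by
              unfold smI
              rw [if_neg]
              omega
            rw [if_pos h2, h4, zero_mul]
          · rw [if_neg h2, zero_mul]
        rw [h1, mul_zero]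
      · rw [indicator_of_notMem hl]
    simp only [h0, lintegral_zero]
    exact bot_le

/-- **The structure integral of the exits is a tree integral.** -/
theorem os_ex_le_ts (hΦ : AdmissiblePotential Φ) (hε : 0 < ε) {K : ℕ} {Q : EPar}
    (hγ : Measurable Q.γ) {g0 τ : ℝ} (hτ : 0 < τ) (hg : g0 ≤ Q.γ τ) {T' : ℝ} {m₀ : ℕ} {G : LF}
    (hG1 : ∀ m w l, G m w l ≤ 1) :
    OS Φ f₀ ε K Q T' (Measure.dirac τ) (HEX Φ ε K Q T' m₀ G) ≤
      InEq2.TS Φ f₀ ε T' (HTS Φ ε K Q T' m₀ g0 G) := by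
  have hact : activity ε * ENNReal.ofReal (ε ^ 2) = 1 := by
    unfold activity
    rw [← ENNReal.ofReal_mul (by positivity), inv_mul_cancel₀ (by positivity),
      ENNReal.ofReal_one]
  unfold OS InEq2.TS
  rw [← ENNReal.tsum_mul_left]
  refine ENNReal.tsum_le_tsum fun P => ?_
  rw [← lintegral_const_mul' _ _ (show activity ε ≠ ∞ from ENNReal.ofReal_ne_top)]
  refine lintegral_mono fun z => ?_
  by_cases hV : Valid Φ ε P T' z.1.2 z.2
  · rw [indicator_of_mem (show z ∈ {z : PhasePoint × Par P | Valid Φ ε P T' z.1.2 z.2} from hV),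
      indicator_of_mem (show z ∈ {z : PhasePoint × Par P | Valid Φ ε P T' z.1.2 z.2} from hV)]
    have h1 : gcE f₀ ε (fun m w => ∫⁻ l, {l : EDefs602.ML | (z, l.1) ∈ ctSet Φ ε Q.te P}.indicator
        (fun l => lineD Q.γ Q.ρ K l * HEX Φ ε K Q T' m₀ G P z m w l) l
          ∂(baseM (Measure.dirac τ))) ≤
        ENNReal.ofReal (ε ^ 2) * gcE f₀ ε (fun m w => HTS Φ ε K Q T' m₀ g0 G P z m w) := by
      rw [← gcE_const_mul f₀ ε ENNReal.ofReal_ne_top]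
      exact gcE_mono f₀ ε fun m w _ => ex_inner_le hΦ hε hγ hτ hg hG1 z m w
    calc activity ε * (wt Φ P z.1.2 z.2 * (ToTree335.pf Φ f₀ ε P z * gcE f₀ ε (fun m w =>
          ∫⁻ l, {l : EDefs602.ML | (z, l.1) ∈ ctSet Φ ε Q.te P}.indicator
            (fun l => lineD Q.γ Q.ρ K l * HEX Φ ε K Q T' m₀ G P z m w l) l
              ∂(baseM (Measure.dirac τ)))))
        ≤ activity ε * (wt Φ P z.1.2 z.2 * (ToTree335.pf Φ f₀ ε P z *
            (ENNReal.ofReal (ε ^ 2) *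
              gcE f₀ ε (fun m w => HTS Φ ε K Q T' m₀ g0 G P z m w)))) := by
          gcongr
      _ = (activity ε * ENNReal.ofReal (ε ^ 2)) * (wt Φ P z.1.2 z.2 *
            (ToTree335.pf Φ f₀ ε P z *
              gcE f₀ ε (fun m w => HTS Φ ε K Q T' m₀ g0 G P z m w))) := by ring
      _ = _ := by rw [hact, one_mul]
  · rw [indicator_of_notMem (show z ∉ {z : PhasePoint × Par P | Valid Φ ε P T' z.1.2 z.2} from hV),
      mul_zero]
    exact bot_le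

/-! ### The statement -/

/-- **(EX)** : `StmtEX` of `OneCDefs_285`, constants uniform in the windows, the horizons and the
size cut-off. -/
theorem stmtEX {β T : ℝ} (hD : KData Φ β T f₀ f) {h₀ kap lam C b : ℝ}
    (hK : Seg814.KinC Φ T f h₀ kap lam C b) (hkap : kap ≤ β) :
    ∃ g₁ : ℝ, 0 < g₁ ∧ ∃ ρ₁ : ℝ≥0∞, ρ₁ < 1 ∧ ∃ r : ℝ≥0∞, r < 1 ∧
      ∀ (γ : ℝ → ℝ) (ρ : ℝ≥0∞), Measurable γ → ρ₁ ≤ ρ → ρ < 1 →
      ∀ g0 : ℝ, 0 < g0 → ∃ C₀ : ℝ≥0∞, C₀ ≠ ∞ ∧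
      ∀ (Q : EPar), Q.γ = γ → Q.ρ = ρ → Q.tw ∈ Icc 0 T → GIV566.GIV Φ f₀ f T Q.tw → Q.te ≤ T →
      (∀ τ ∈ Ioc 0 Q.te, g0 ≤ γ τ) →
      ∀ T' : ℝ, 0 < T' → T' ≤ Q.tw + h₀ → (∀ τ ∈ Ioc 0 T', γ τ ≤ g₁) →
      ∀ m₀ : ℕ, StmtEX Φ f₀ Q T' m₀ (C₀ * r ^ m₀) := by
  have hΦ := hD.adm
  have hf : Measurable f₀ := hD.contDiff.continuous.measurable
  have hlam : 1 < lam := hK.2.2.1
  have hkap0 : 0 < kap := hK.2.1
  -- `1 < lam₀ < lam₁ < lam`
  set lam₁ : ℝ := (1 + lam) / 2 with hl₁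
  set lam₀ : ℝ := (1 + lam₁) / 2 with hl₀
  have h1 : 1 < lam₁ := by rw [hl₁]; linarith
  have h2 : lam₁ < lam := by rw [hl₁]; linarith
  have h3 : 1 < lam₀ := by rw [hl₀]; linarith
  have h4 : lam₀ < lam₁ := by rw [hl₀]; linarith
  obtain ⟨g₁, hg₁, ρ₁, hρ₁, C₁, hC₁, hQ⟩ := exists_qx hD hK hkap h1 h2
  obtain ⟨M₀, hM₀, hw⟩ := exists_wQ Φ h3 h4 hkap0
  refine ⟨g₁, hg₁, ρ₁, hρ₁, ENNReal.ofReal (lam₀ / lam₁), ?_, ?_⟩
  · rw [← ENNReal.ofReal_one]
    exact (ENNReal.ofReal_lt_ofReal_iff one_pos).2 ((div_lt_one (by linarith)).2 h4)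
  intro γ ρ hγ hρ hρ1 g0 hg0
  set c : ℝ≥0∞ := cF T g0 ρ * (2 * M₀) with hc
  have hct : c ≠ ∞ := ENNReal.mul_ne_top (cF_ne_top hg0 hρ1)
    (ENNReal.mul_ne_top (by norm_num) hM₀)
  refine ⟨c * C₁, ENNReal.mul_ne_top hct hC₁, ?_⟩
  intro Q hQγ hQρ htw hG hte hlow T' hT' hT'h hup m₀
  have hδ := fun K => hQ γ ρ hρ Q.tw htw hG T' hT' hT'h hup K
  choose δ hδ0 hδ1 using hδ
  set r : ℝ≥0∞ := ENNReal.ofReal (lam₀ / lam₁) with hr
  have hrt : r ≠ ∞ := ENNReal.ofReal_ne_top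
  have hMt : c * r ^ m₀ ≠ ∞ := ENNReal.mul_ne_top hct (ENNReal.pow_ne_top hrt)
  refine ⟨fun K ε => c * r ^ m₀ * δ K ε, ?_, ?_⟩
  · -- nullity
    intro K a ha
    have h := ENNReal.Tendsto.const_mul (a := c * r ^ m₀) (hδ0 K) (Or.inr hMt)
    rw [mul_zero] at h
    have h5 : ∀ᶠ x in 𝓝[>] (0 : ℝ), c * r ^ m₀ * δ K x ≤ ENNReal.ofReal a :=
      (h.eventually (gt_mem_nhds (ENNReal.ofReal_pos.2 ha))).mono fun _ h => le_of_lt h
    rw [eventually_nhdsWithin_iff, Metric.eventually_nhds_iff] at h5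
    obtain ⟨η, hη, h6⟩ := h5
    refine ⟨η, hη, fun x hx hxη => h6 ?_ hx⟩
    rw [Real.dist_eq, sub_zero, abs_of_pos hx]
    exact hxη
  · intro K ε hε G hGm hG1 τ hτ
    have hγQ : Measurable Q.γ := by rw [hQγ]; exact hγ
    have hgτ : g0 ≤ Q.γ τ := by rw [hQγ]; exact hlow τ hτ
    have s1 := os_ex_le_ts (f₀ := f₀) hΦ hε (K := K) (T' := T') (m₀ := m₀) hγQ hτ.1 hgτ hG1
    have hQX := hδ1 K ε hε
    have s2 : InEq2.TS Φ f₀ ε T' (HTS Φ ε K Q T' m₀ g0 G) ≤ (c * r ^ m₀) *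
        (C₁ * gcE f₀ ε (fun m w => ∫⁻ l, cutG Q.te G m w l ∂EDefs602.lineM γ ρ K T') +
          δ K ε) := by
      refine hQX.ts_rel hΦ hf hε (φ := cutG Q.te G) (measLF_cutG hGm)
        (fun m w l => (cutG_le m w l).trans (hG1 m w l)) hMt
        (th := fun P z => if m₀ ≤ P.size then cF Q.te g0 Q.ρ * (2 * wQ Φ ε P z) else 0)
        (fun P => ?_) (fun P z hz => ?_) (b := fun P z => TreeLines335.rel P z.2)
        (fun P z i => le_rfl) (fun P z m w hz => ?_)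
      · by_cases hP : m₀ ≤ P.size
        · simp only [if_pos hP]
          exact ((measurable_wQ hΦ P).const_mul 2).const_mul _
        · simp only [if_neg hP]
          exact measurable_const
      · have h7 := hw m₀ ε T' P z hz
        by_cases hP : m₀ ≤ P.size
        · rw [if_pos hP] at h7
          show (if m₀ ≤ P.size then cF Q.te g0 Q.ρ * (2 * wQ Φ ε P z) else 0) ≤ _
          rw [if_pos hP]
          have h8 : cF Q.te g0 Q.ρ ≤ cF T g0 ρ := by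
            rw [hQρ]
            exact cF_mono hte ρ
          calc cF Q.te g0 Q.ρ * (2 * wQ Φ ε P z) ≤ cF T g0 ρ * (2 * (M₀ * r ^ m₀ *
                ENNReal.ofReal lam₁ ^ P.size *
                ENNReal.ofReal (Real.exp (kap * Seg814.eng Φ P z.1.2 z.2)))) := by gcongr
            _ = _ := by rw [hc]; ring
        · show (if m₀ ≤ P.size then cF Q.te g0 Q.ρ * (2 * wQ Φ ε P z) else 0) ≤ _
          rw [if_neg hP]
          exact bot_le
      · unfold HTS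
        by_cases hcs : P.leaves ≤ K ∧ Sep Φ ε P T' z.1 z.2
        · rw [if_pos hcs, if_pos hcs]
          refine mul_le_mul' ?_ le_rfl
          by_cases hP : m₀ ≤ P.size
          · rw [if_pos hP, if_pos hP]
            exact mul_le_mul' le_rfl (root_le_wQ hΦ hz)
          · rw [if_neg hP, if_neg hP]
        · rw [if_neg hcs, if_neg hcs]
    refine (s1.trans s2).trans ?_
    rw [mul_add]
    refine add_le_add ?_ le_rfl
    have h9 : gcE f₀ ε (fun m w => ∫⁻ l, cutG Q.te G m w l ∂EDefs602.lineM γ ρ K T') ≤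
        gcE f₀ ε (fun m w => ∫⁻ l, G m w l ∂(lineM Q.γ Q.ρ K Q.te)) := by
      refine gcE_mono f₀ ε fun m w _ => ?_
      rw [hQγ, hQρ]
      exact lintegral_lineM_cut hγ ρ K ((hGm m).comp (measurable_const.prodMk measurable_id))
    calc c * r ^ m₀ * (C₁ * gcE f₀ ε (fun m w => ∫⁻ l, cutG Q.te G m w l
          ∂EDefs602.lineM γ ρ K T'))
        ≤ c * r ^ m₀ * (C₁ * gcE f₀ ε (fun m w => ∫⁻ l, G m w l ∂(lineM Q.γ Q.ρ K Q.te))) := by
          gcongr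
      _ = _ := by ring

end Crest.Agent.R122.QExit837

end
end

-- ▼ part R122/StmtEXW_837
section

/-!
# Row 122 (helper837): `StmtEX` in the window form of helper602

* `stmtEX_win` : for admissible line parameters (`LinePar`) and all windows.
-/

set_option autoImplicit false

open MeasureTheory Set Filter Topology
open Crest.AnalysisR.Kinetic
open scoped ENNReal

noncomputable section

namespace Crest.Agent.R122.QExit837

open Crest.Agent.R122.EDefs602 Crest.Agent.R122.Master566 Crest.Agent.R122.OneC285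
open Crest.Agent.R122.Top602

variable {Φ : Space3 → ℝ} {f₀ : PhasePoint → ℝ} {f : ℝ → PhasePoint → ℝ}

theorem LinePar.measurable {g1 : ℝ} {r1 : ℝ≥0∞} {T : ℝ} {γ : ℝ → ℝ} {ρ : ℝ≥0∞}
    (h : LinePar g1 r1 T γ ρ) : Measurable γ := by
  obtain ⟨g0, κ, -, hγ, -, -⟩ := h.lin
  rw [hγ]
  fun_prop

/-- **`StmtEX` for all windows.** -/
theorem stmtEX_win {β T : ℝ} (hD : KData Φ β T f₀ f) {h₀ kap lam C b : ℝ}
    (hK : Seg814.KinC Φ T f h₀ kap lam C b) (hkap : kap ≤ β) :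
    ∃ g1 : ℝ, 0 < g1 ∧ ∃ r1 : ℝ≥0∞, r1 < 1 ∧ ∃ r : ℝ≥0∞, r < 1 ∧
      ∀ (γ : ℝ → ℝ) (ρ : ℝ≥0∞), LinePar g1 r1 T γ ρ → ∃ C₀ : ℝ≥0∞, C₀ ≠ ∞ ∧
        ∀ h L tw te : ℝ, Win h T tw te → GIV566.GIV Φ f₀ f T tw →
        ∀ T' : ℝ, 0 < T' → T' ≤ tw + h₀ →
        ∀ m₀ : ℕ, StmtEX Φ f₀ (epar γ ρ L tw te) T' m₀ (C₀ * r ^ m₀) := by
  obtain ⟨g₁, hg₁, ρ₁, hρ₁, r, hr, H⟩ := stmtEX hD hK hkap
  refine ⟨g₁, hg₁, ρ₁, hρ₁, r, hr, fun γ ρ hP => ?_⟩
  obtain ⟨g0, κ, hκ, hγ, hlow, hup⟩ := hP.lin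
  obtain ⟨C₀, hC₀, H'⟩ := H γ ρ (LinePar.measurable hP) hP.lo hP.hi (g0 - κ * T) hlow
  refine ⟨C₀, hC₀, fun h L tw te hW hG T' hT' hT'h m₀ => ?_⟩
  refine H' (epar γ ρ L tw te) rfl rfl ⟨hW.nonneg, hW.le.trans hW.le_T⟩ hG hW.le_T
    (fun τ hτ => ?_) T' hT' hT'h (fun τ hτ => ?_) m₀
  · rw [hγ]
    have h1 : τ ≤ T := hτ.2.trans hW.le_T
    have h2 := mul_le_mul_of_nonneg_left h1 hκ.le
    show g0 - κ * T ≤ g0 - κ * τ
    linarith
  · rw [hγ]
    have h2 := mul_pos hκ hτ.1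
    show g0 - κ * τ ≤ g₁
    linarith

end Crest.Agent.R122.QExit837

end
end

-- ▼ part R122/IneqW1_423
section

/-!
# The gas-independent inputs of inequality 1 in the windows (row 122, board H1)

`pieces_evW` : successors (NS), size crossings (XC) and exits (EX) of the one-contact step, with one
horizon `T' = tw + h0` and constants independent of the window.
-/

set_option autoImplicit false

open MeasureTheory Set Filter Topology
open scoped ENNReal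
open Crest.AnalysisR.Kinetic
open Crest.Agent.R122.EDefs602 Crest.Agent.R122.Master566 Crest.Agent.R122.Top602
open Crest.Agent.R122.Q1815 Crest.Agent.R122.OneC285

noncomputable section

namespace Crest.Agent.R122.OneNS423

variable {Φ : Space3 → ℝ} {β T : ℝ} {f₀ : PhasePoint → ℝ} {f : ℝ → PhasePoint → ℝ}

/-- **(NS), (XC), (EX) in the windows**, horizon `T' = tw + h0`. -/
theorem pieces_evW (hD : KData Φ β T f₀ f) : ∃ h1 : ℝ, 0 < h1 ∧ ∃ g1 : ℝ, 0 < g1 ∧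
    ∃ r1 : ℝ≥0∞, r1 < 1 ∧ ∀ (γ : ℝ → ℝ) (ρ : ℝ≥0∞), LinePar g1 r1 T γ ρ →
      ∃ CN : ℝ≥0∞, CN ≠ ∞ ∧ ∃ C0 : ℝ≥0∞, C0 ≠ ∞ ∧ ∃ r : ℝ≥0∞, r < 1 ∧
        ∀ h0 : ℝ, 0 < h0 → h0 ≤ h1 → EvW T fun _ L tw te => IH Φ f₀ f T γ ρ tw →
          te < tw + h0 ∧ StmtNS Φ f₀ (epar γ ρ L tw te) (tw + h0) CN ∧
            StmtXC Φ f₀ (epar γ ρ L tw te) (tw + h0) ∧
              ∀ m : ℕ, StmtEX Φ f₀ (epar γ ρ L tw te) (tw + h0) m (C0 * r ^ m) := by
  obtain ⟨ha, kap, lam, C, b, hK, hkap⟩ := exists_kinC_kdata hD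
  obtain ⟨kap', b', M, -, -, hM⟩ := KinL1.exists_kinM hD.beta_pos hD.T_pos hD.adm hD.sol
    hD.gaussian hK
  have hK0 : 0 < ha := hK.1
  obtain ⟨g1, hg1, r1, hr1, H1⟩ := stmtNS_win hD hK hkap
  obtain ⟨g2, hg2, r2, hr2, r, hr, H2⟩ := QExit837.stmtEX_win hD hK hkap
  refine ⟨ha, hK0, min g1 g2, lt_min hg1 hg2, max r1 r2, max_lt hr1 hr2,
    fun γ ρ hl => ?_⟩
  obtain ⟨CN, hCN, HN⟩ := H1 γ ρ (hl.mono (min_le_left _ _) (le_max_left _ _))
  obtain ⟨C0, hC0, HE⟩ := H2 γ ρ (hl.mono (min_le_right _ _) (le_max_right _ _))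
  obtain ⟨γ₀, hγ₀, hlow⟩ := hl.lower
  refine ⟨CN, hCN, C0, hC0, r, hr, fun h0 hh0 hh1 => ⟨h0 / 2, by positivity, 1, ?_⟩⟩
  intro h L tw te hh hhle _ _ hw hIH
  have hte : te ≤ tw + h0 / 2 := hw.short.trans (by linarith)
  have hta : tw + h0 ≤ tw + ha := by linarith
  have hpos : 0 < tw + h0 := by
    have := hw.nonneg
    linarith
  refine ⟨by linarith, HN h L tw te hw (by linarith) hIH.giv (tw + h0), ?_, ?_⟩
  · exact XC815.stmtXC (Q := epar γ ρ L tw te) hD ⟨hw.nonneg, hw.le.trans hw.le_T⟩ hIH.giv hM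
      hpos hta hl.measurable hγ₀ (fun τ hτ => hlow τ (hτ.2.trans hw.le_T)) hl.hi
  · exact HE h L tw te hw hIH.giv (tw + h0) hpos hta

end Crest.Agent.R122.OneNS423

end
end

-- ▼ part R122/Ineq1C_815
section

/-!
helper815, row 122, INEQUALITY 1, closing part C: the assembly.
-/

set_option autoImplicit false

open MeasureTheory Set Filter
open scoped ENNReal Topology
open Crest.AnalysisR.Kinetic
open Crest.Agent.R122.Master566 Crest.Agent.R122.EDefs602 Crest.Agent.R122.GIV566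
  Crest.Agent.R122.Top602 Crest.Agent.R122.Young763 Crest.Agent.R122.Unw410
  Crest.Agent.R122.OneC285

noncomputable section

namespace Crest.Agent.R122.Ineq1815

variable {Φ : Space3 → ℝ} {f₀ : PhasePoint → ℝ} {f : ℝ → PhasePoint → ℝ} {β T : ℝ}
  {γ : ℝ → ℝ} {ρ : ℝ≥0∞} {PM : PMass}


/-- The pointwise form of inequality 1, for all small horizons and all line parameters. -/
def PtAll (Φ : Space3 → ℝ) (f₀ : PhasePoint → ℝ) (f : ℝ → PhasePoint → ℝ) (T : ℝ) : Prop :=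
  InHL T fun h₀ γ ρ => PtIn Φ f₀ f T γ ρ (PMn Φ f₀ γ ρ h₀)

/-- **INEQUALITY 1** from its pointwise form. -/
theorem i1In_of_ptAll (hD : KData Φ β T f₀ f) (h : PtAll Φ f₀ f T) : I1In Φ f₀ f T :=
  h.mono fun _ _ _ _ hl hp => by
    obtain ⟨g1, r1, hl⟩ := hl
    exact ineq1_of_ptIn hD hl hp



end Crest.Agent.R122.Ineq1815

end
end

-- ▼ part R122/Ineq1Pt4_285
section

/-!
# INEQUALITY 1 (row 122, board H2): pointwise form in the birth time, version 4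

Version of `Ineq1Pt_285` for the branch `Alt4` (an exit touched before the contact), helper984's
`majT4`, `StmtLink4`, and `StmtEXW` (exits, contact time in the window).

* `XE_leM` : `XE τ ≤ born + (direct + (OS (dirac τ) M + flux of errors))`, any majorant `M`.
* `ineq1_pt4` : helper763's `PtIneq`, with a small source, for `K` large and `ε` small.
-/

set_option autoImplicit false
set_option linter.unusedSectionVars false

open MeasureTheory Set Filter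
open scoped ENNReal Classical Topology
open Crest.AnalysisR.Kinetic
open Crest.Agent.R122.Kin796 Crest.Agent.R122.Kin796.CTree Crest.Agent.R122.Tree674
open Crest.Agent.R122.GC311 Crest.Agent.R122.Flow671 Crest.Agent.R122.TreeLines335
open Crest.Agent.R122.EDefs602 Crest.Agent.R122.Unw410 Crest.Agent.R122.Line285
open Crest.Agent.R122.Volt796 Crest.Agent.R122.OC285 Crest.Agent.R122.OSCalc495
open Crest.Agent.R122.GSCalc495 Crest.Agent.R122.Direct658 Crest.Agent.R122.Master566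

noncomputable section

namespace Crest.Agent.R122.OneC285

variable {Φ : Space3 → ℝ} {f₀ : PhasePoint → ℝ} {ε : ℝ} {K : ℕ} {Q : EPar} {T' : ℝ}

/-! ## Any majorant -/

theorem XE_leM (hΦ : AdmissiblePotential Φ) (hf : Measurable f₀)
    (h1 : ∫⁻ z, ENNReal.ofReal (f₀ z) ≤ 1) (hε : 0 < ε) (hγ : Measurable Q.γ) (hL : 0 < Q.L)
    (htw0 : 0 ≤ Q.tw) (htw : Q.tw ≤ Q.te) (hρ : Q.ρ < 1) {g₀ : ℝ} (hg₀ : 0 < g₀)
    {B : RF} (hBm : MeasRF B) (hB : RedAt Φ ε K Q.tw Q.te T' B) {M : SF}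
    (hMm : MeasV Φ ε T' M) (hM : MajAt Φ ε K Q T' M) {τ : ℝ} (hτ : 0 < τ) (hgτ : g₀ ≤ Q.γ τ) :
    XE Φ f₀ ε K Q τ ≤ cBorn g₀ Q.ρ ε + (Direct658.cD g₀ Q.ρ *
        ENNReal.ofReal (ε + (Q.te - Q.tw)) *
        (JE Φ f₀ ε K Q.tw + ENNReal.ofReal (Unw410.cB Φ) * aE Φ f₀ ε K Q) +
      (OS Φ f₀ ε K Q T' (Measure.dirac τ) M +
        RedFlux663.cFlux g₀ Q.ρ * rfl4 Φ f₀ ε K Q.te B)) := by
  have hcl := MeasOC434.pClusterMap_clM hΦ hε K Q.te
  have hmT := MeasOC434.measurable_mT hΦ hε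
  have hM' : MajAt Φ ε K Q T' (cut Φ ε T' M) := by
    intro P z m w l hPK hr hu
    have h1 : cut Φ ε T' M P z m w l = M P z m w l := if_pos hr.valid
    rw [h1]
    exact hM P z m w l hPK hr hu
  refine (XE_split hΦ hf hε hγ hL.le hτ hcl).trans ?_
  refine add_le_add ?_ (add_le_add ?_ ?_)
  · have h2 := born4 (Φ := Φ) (K := K) hf h1 hε τ (measurable_wG (Q.γ τ))
      (wG_int_ne_top (hg₀.trans_le hgτ)) (ρ := Q.ρ)
      (ne_top_of_le_ne_top (rhoS_lt_top hρ).ne (tsum_markW_le_rhoS _ _))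
    have h3 : gcE f₀ ε (fun n (w : Config n) => gInt Q.γ Q.ρ K τ fun l =>
        if BornIn Φ ε w l then 1 else 0) =
        gcE f₀ ε (fun n (w : Config n) => ∫⁻ v : Space3, wG (Q.γ τ) v * ∫⁻ y : Space3,
        ∑' m : ℕ, markW Q.ρ K m * (if ∃ i, dist y (flow Φ ε τ w i).1 ≤ ε then 1 else 0)) := by
      refine gcE_congr f₀ ε fun n w _ => ?_
      unfold gInt
      refine lintegral_congr fun v => ?_
      congr 1
      refine lintegral_congr fun y => tsum_congr fun m => ?_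
      congr 1
      exact if_congr Iff.rfl rfl rfl
    rw [h3]
    refine h2.trans ?_
    unfold cBorn
    exact mul_le_mul' (mul_le_mul' (tsum_markW_le_rhoS _ _)
      (lintegral_mono fun v => Kin796.wG_anti hgτ v)) le_rfl
  · exact direct4_unif hΦ hf hε hL.le htw0 htw hρ hg₀ hτ hgτ
  · have h3 := clus_tree hΦ hf hε hL.le hγ (Measure.dirac τ) hcl hmT hBm hB
      (M := cut Φ ε T' M) hMm.cut hM'
    rw [OS_cut] at h3
    refine h3.trans (add_le_add le_rfl ?_)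
    exact RedFlux663.rf_of_firstHit hΦ hε hτ hg₀ hgτ hρ hBm

/-! ## The pieces of `majT` -/

/-- **`OS (majT)` at a fixed birth time** : source, master terms, Volterra term. -/
theorem OS_majT_le (hΦ : AdmissiblePotential Φ) (hf : Measurable f₀) (hε : 0 < ε)
    (hγ : Measurable Q.γ) (hL : 0 < Q.L) (htw0 : 0 ≤ Q.tw) (htw : Q.tw ≤ Q.te)
    (hanti : ∀ τ ∈ Ioc 0 Q.te, Q.γ Q.te ≤ Q.γ τ) {m₀ : ℕ} {bd : SF}
    {C Cm C0 sX sN sE sE0 : ℝ≥0∞} (hC : C ≠ ∞)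
    (hXC : ∀ τ ∈ Ioc 0 Q.te, OS Φ f₀ ε K Q T' (Measure.dirac τ) (xcF Φ ε K Q.tw) ≤ sX)
    (hNS : ∀ G : LF, MeasLF G → (∀ m w l, G m w l ≤ 1) → ∀ τ ∈ Ioc 0 Q.te,
      ∀ k : ∀ P : CTree, Idx P ⊕ Bool,
      ((∀ P, k P = Sum.inl (root P)) ∨ (∀ P, k P = Sum.inr false) ∨
        (∀ P, k P = Sum.inr true)) →
      OS Φ f₀ ε K Q T' (Measure.dirac τ) (nsF Φ ε K Q.tw G k) ≤
      C * (∫⁻ s in Ioi τ, ∫⁻ v : Space3, ENNReal.ofReal (1 + ‖v‖) *
        (wG (Q.γ τ) v * XG f₀ ε K Q.ρ G s v)) + sN)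
    (hEX : ∀ τ ∈ Ioc 0 Q.te, OS Φ f₀ ε K Q T' (Measure.dirac τ)
      (exF Φ ε K Q.tw T' m₀ (GW Φ ε K Q)) ≤
      Cm * gcE f₀ ε (fun m w => ∫⁻ l, GW Φ ε K Q m w l ∂(lineM Q.γ Q.ρ K Q.te)) + sE)
    (hEX0 : ∀ τ ∈ Ioc 0 Q.te, OS Φ f₀ ε K Q T' (Measure.dirac τ)
      (exF Φ ε K Q.tw T' 0 (GB Φ ε K Q)) ≤
      C0 * gcE f₀ ε (fun m w => ∫⁻ l, GB Φ ε K Q m w l ∂(lineM Q.γ Q.ρ K Q.te)) + sE0)
    {τ : ℝ} (hτ : τ ∈ Ioc 0 Q.te) :
    OS Φ f₀ ε K Q T' (Measure.dirac τ) (majT Φ ε K Q T' m₀ bd) ≤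
      ((sX + (6 * sN + (sE + (sE0 + C0 * tnMass Φ f₀ Q.γ Q.ρ ε K Q.tw)))) +
        ((1 + ENNReal.ofReal Q.L) * OS Φ f₀ ε K Q T' (Measure.dirac τ) bd +
          volG f₀ ε K Q (3 * C.toReal) (GB Φ ε K Q) τ)) +
      ((Cm * XI Φ f₀ ε K Q + PE Φ f₀ ε K Q (Nu0566.nu0 Φ f₀ ε K Q T' m₀)) +
        volG f₀ ε K Q (3 * C.toReal) (GW Φ ε K Q) τ) := by
  have hte : 0 ≤ Q.te := htw0.trans htw
  rw [OS_majT hΦ hε hf hγ m₀ bd]
  -- the pieces
  have nsW : ∀ k : ∀ P : CTree, Idx P ⊕ Bool, ((∀ P, k P = Sum.inl (root P)) ∨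
      (∀ P, k P = Sum.inr false) ∨ (∀ P, k P = Sum.inr true)) →
      OS Φ f₀ ε K Q T' (Measure.dirac τ) (nsF Φ ε K Q.tw (gW Φ ε K Q) k) ≤
        volG f₀ ε K Q C.toReal (GW Φ ε K Q) τ + sN := fun k hk =>
    (hNS _ (measLF_GW hΦ hε K Q) (GW_le_one hL.le) τ hτ k hk).trans
      (add_le_add (vol_le_volG hC fun s v hs => XG_GW_late hΦ hε hs v) le_rfl)
  have nsB : ∀ k : ∀ P : CTree, Idx P ⊕ Bool, ((∀ P, k P = Sum.inl (root P)) ∨
      (∀ P, k P = Sum.inr false) ∨ (∀ P, k P = Sum.inr true)) →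
      OS Φ f₀ ε K Q T' (Measure.dirac τ) (nsF Φ ε K Q.tw (gB Φ ε K Q) k) ≤
        volG f₀ ε K Q C.toReal (GB Φ ε K Q) τ + sN := fun k hk =>
    (hNS _ (measLF_GB hΦ hε K Q) (GB_le_one Φ ε K Q) τ hτ k hk).trans
      (add_le_add (vol_le_volG hC fun s v hs =>
        XG_GB_late hΦ hε htw0 htw (htw.trans_lt hs) v) le_rfl)
  have e1 : (∀ P, k₁ P = Sum.inl (root P)) ∨ (∀ P, k₁ P = Sum.inr false) ∨
      (∀ P, k₁ P = Sum.inr true) := Or.inl fun P => rfl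
  have e2 : (∀ P, k₂ P = Sum.inl (root P)) ∨ (∀ P, k₂ P = Sum.inr false) ∨
      (∀ P, k₂ P = Sum.inr true) := Or.inr (Or.inl fun P => rfl)
  have e3 : (∀ P, k₃ P = Sum.inl (root P)) ∨ (∀ P, k₃ P = Sum.inr false) ∨
      (∀ P, k₃ P = Sum.inr true) := Or.inr (Or.inr fun P => rfl)
  have hexW : OS Φ f₀ ε K Q T' (Measure.dirac τ) (exF Φ ε K Q.tw T' m₀ (gW Φ ε K Q)) ≤
      Cm * XI Φ f₀ ε K Q + sE := by
    refine (hEX τ hτ).trans (le_of_eq ?_)
    rw [EBasic602.XI_eq hf hγ fun n => MeasE416.measurable_touchW_cfg hΦ hε K Q n]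
    rfl
  have hexB : OS Φ f₀ ε K Q T' (Measure.dirac τ) (exF Φ ε K Q.tw T' 0 (gB Φ ε K Q)) ≤
      C0 * tnMass Φ f₀ Q.γ Q.ρ ε K Q.tw + sE0 :=
    (hEX0 τ hτ).trans (add_le_add (mul_le_mul' le_rfl
      (lintegral_GB_le hΦ hf hε hγ htw0 htw)) le_rfl)
  have hsp : OSP Φ f₀ ε K Q T' m₀ (Measure.dirac τ) ≤
      PE Φ f₀ ε K Q (Nu0566.nu0 Φ f₀ ε K Q T' m₀) :=
    Nu0566.osp_le hΦ hf hε hγ hτ.1.le (hanti τ hτ) m₀
  have e3v : ∀ G : LF, volG f₀ ε K Q (3 * C.toReal) G τ = 3 * volG f₀ ε K Q C.toReal G τ := by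
    intro G
    rw [volG_mul (by norm_num)]
    norm_num
  rw [e3v, e3v]
  set vW := volG f₀ ε K Q C.toReal (GW Φ ε K Q) τ
  set vB := volG f₀ ε K Q C.toReal (GB Φ ε K Q) τ
  set ob := OS Φ f₀ ε K Q T' (Measure.dirac τ) bd
  refine (add_le_add (hXC τ hτ) (add_le_add (add_le_add (nsW _ e1) (nsB _ e1))
    (add_le_add (add_le_add (nsW _ e2) (nsB _ e2)) (add_le_add (add_le_add (nsW _ e3) (nsB _ e3))
    (add_le_add hexW (add_le_add hsp (add_le_add hexB le_rfl))))))).trans (le_of_eq ?_)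
  ring

/-! ## The new piece -/

/-- Integrand of `StmtEXW`. -/
def exWF (Φ : Space3 → ℝ) (ε : ℝ) (K : ℕ) (tw T' : ℝ) (m₀ : ℕ) (G : LF) : SF :=
  fun P z m w l => (if P.leaves ≤ m₀ ∧ Sep Φ ε P T' z.1 z.2 ∧ tw < cT ε z l then
      smI K P l else 0) * (uI Φ ε tw P z w *
    ∑ i ∈ Finset.univ.filter (fun i : Idx P => i ≠ root P), G m w (lineML Φ ε P z i))

theorem measV_exWF (hΦ : AdmissiblePotential Φ) (hε : 0 < ε) (K : ℕ) (tw : ℝ) (m₀ : ℕ) {G : LF}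
    (hG : MeasLF G) : MeasV Φ ε T' (exWF Φ ε K tw T' m₀ G) := by
  intro P
  have h1 : MeasVP Φ ε T' P (fun z (m : ℕ) (_ : Config m) (l : ML) =>
      if P.leaves ≤ m₀ ∧ Sep Φ ε P T' z.1 z.2 ∧ tw < cT ε z l then smI K P l else 0) := by
    have h := MeasVP.ite_val (P := P) (F := fun _ _ _ (l : ML) => smI K P l)
      (F' := fun _ _ _ _ => 0)
      (p := fun z _ _ (l : ML) => P.leaves ≤ m₀ ∧ Sep Φ ε P T' z.1 z.2 ∧ tw < cT ε z l)
      (fun m => ?_) (measVP_smI hΦ K P) (MeasVP.zero (Φ := Φ) (ε := ε) (T' := T'))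
    · convert h
    by_cases hc : P.leaves ≤ m₀
    · have h2 : {q : (PhasePoint × Par P) × (Config m × ML) | Valid Φ ε P T' q.1.1.2 q.1.2 ∧
          (P.leaves ≤ m₀ ∧ Sep Φ ε P T' q.1.1 q.1.2 ∧ tw < cT ε q.1 q.2.2)} =
          Prod.fst ⁻¹' {z : PhasePoint × Par P | Valid Φ ε P T' z.1.2 z.2 ∧
            Sep Φ ε P T' z.1 z.2} ∩ {q | tw < cT ε q.1 q.2.2} := by
        ext q
        exact ⟨fun h => ⟨⟨h.1, h.2.2.1⟩, h.2.2.2⟩, fun h => ⟨h.1.1, hc, h.1.2, h.2⟩⟩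
      rw [h2]
      exact (measurable_fst (measurableSet_validSep hΦ hε P T')).inter
        (measurableSet_lt measurable_const (MeasOC434.measurable_cT_of ε measurable_fst
          (measurable_snd.comp measurable_snd)))
    · have h2 : {q : (PhasePoint × Par P) × (Config m × ML) | Valid Φ ε P T' q.1.1.2 q.1.2 ∧
          (P.leaves ≤ m₀ ∧ Sep Φ ε P T' q.1.1 q.1.2 ∧ tw < cT ε q.1 q.2.2)} = ∅ := by
        ext q
        exact ⟨fun h => hc h.2.1, fun h => h.elim⟩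
      rw [h2]
      exact MeasurableSet.empty
  exact h1.mul ((measVP_uI hΦ hε tw P).mul (MeasVP.sum _ fun i _ => measVP_lineML hΦ hG P i))

theorem majT4_eq (m₀ : ℕ) (bd : SF) : majT4 Φ ε K Q T' m₀ bd = fun P z m w l =>
    majT Φ ε K Q T' m₀ bd P z m w l + exWF Φ ε K Q.tw T' m₀ (GW Φ ε K Q) P z m w l := by
  funext P z m w l
  rfl

theorem measV_majT4 (hΦ : AdmissiblePotential Φ) (hε : 0 < ε) (m₀ : ℕ) {bd : SF}
    (hbd : MeasSF bd) : MeasV Φ ε T' (majT4 Φ ε K Q T' m₀ bd) := by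
  rw [majT4_eq]
  exact (measV_majT hΦ hε m₀ hbd).add (measV_exWF hΦ hε K Q.tw m₀ (measLF_GW hΦ hε K Q))

/-- The pointwise part of `StmtLink4` at fixed `K`, `ε`. -/
def LinkAt4 (Φ : Space3 → ℝ) (ε : ℝ) (K : ℕ) (Q : EPar) (T' : ℝ) (bd : SF) : Prop :=
  ∀ (P : CTree) (z : PhasePoint × Par P) (m : ℕ) (w : Config m)
    (l : ML), l.2 + P.leaves ≤ K → Real4 Φ ε K Q.te T' P z w l →
    GIV566.unhit Φ ε (ptube Φ ε P z) Q.tw w → err4 Φ ε K Q P z w l ≤ bd P z m w l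

theorem majAt4 (hΦ : AdmissiblePotential Φ) (hε : 0 < ε) (hL : 0 < Q.L) (m₀ : ℕ) {bd : SF}
    (h : LinkAt4 Φ ε K Q T' bd) : MajAt Φ ε K Q T' (majT4 Φ ε K Q T' m₀ bd) :=
  fun P z m w l hPK hr hu => line3b4 hΦ hε hL m₀ hPK hr hu fun hl => h P z m w l hl hr hu

/-! ## Eventual form -/

/-- **INEQUALITY 1, pointwise in the birth time (version with `StmtLink4`, `StmtEXW`).** -/
theorem ineq1_pt4 (hΦ : AdmissiblePotential Φ) (hf : Measurable f₀)
    (h1 : ∫⁻ z, ENNReal.ofReal (f₀ z) ≤ 1) {γ₀ κ g₀ : ℝ} (hγ : Q.γ = fun τ => γ₀ - κ * τ)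
    (hκ : 0 < κ) (hg₀ : 0 < g₀) (hg : g₀ ≤ γ₀ - κ * Q.te) (hρ : Q.ρ < 1) (hL : 0 < Q.L)
    (htw0 : 0 ≤ Q.tw) (htw : Q.tw ≤ Q.te) {h : ℝ} (hh0 : 0 < h) (hh : Q.te - Q.tw ≤ h) (m₀ : ℕ)
    (hRed : StmtRed Φ f₀ Q.tw Q.te T') (hLink : StmtLink4 Φ f₀ Q T')
    {C : ℝ≥0∞} (hC : C ≠ ∞) (hNS : StmtNS Φ f₀ Q T' C) (hXC : StmtXC Φ f₀ Q T')
    {Cm Cw C0 : ℝ≥0∞} (hEX : StmtEX Φ f₀ Q T' m₀ Cm) (hEXW : StmtEXW Φ f₀ Q T' m₀ Cw)
    (hC0 : C0 ≠ ∞) (hEX0 : StmtEX Φ f₀ Q T' 0 C0)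
    (hTN : TN Φ f₀ Q.γ Q.ρ Q.tw) (hJ : JS Φ f₀ Q.tw) :
    ∃ S : ℕ → ℝ → ℝ → ℝ≥0∞, Small (fun K ε => ∫⁻ τ in Ioc 0 Q.te, S K ε τ) ∧
      Ev fun K ε => Young763.PtIneq Φ f₀ ε K Q (3 * C.toReal)
        (mastA Φ f₀ ε K Q T' g₀ h (Cm + Cw * ENNReal.ofReal (Q.te - Q.tw)) m₀) (S K ε) := by
  obtain ⟨B, hBm, hB, hBn⟩ := hRed
  obtain ⟨bd, hbm, hbd, hbn⟩ := hLink
  obtain ⟨δN, hδN, hNS⟩ := hNS
  obtain ⟨sX, hsX, hXC⟩ := hXC
  obtain ⟨δE, hδE, hEX⟩ := hEX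
  obtain ⟨δW, hδW, hEXW⟩ := hEXW
  obtain ⟨δE0, hδE0, hEX0⟩ := hEX0
  have hγm : Measurable Q.γ := Young763.gam_meas hγ
  have hte : 0 ≤ Q.te := htw0.trans htw
  have hgτ : ∀ τ ∈ Ioc 0 Q.te, g₀ ≤ Q.γ τ := by
    intro τ hτ
    rw [hγ]
    have := mul_le_mul_of_nonneg_left hτ.2 hκ.le
    show g₀ ≤ γ₀ - κ * τ
    linarith
  have hanti : ∀ τ ∈ Ioc 0 Q.te, Q.γ Q.te ≤ Q.γ τ := by
    intro τ hτ
    rw [hγ]
    have := mul_le_mul_of_nonneg_left hτ.2 hκ.le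
    show γ₀ - κ * Q.te ≤ γ₀ - κ * τ
    linarith
  have hc3 : (1 + ENNReal.ofReal Q.L) ≠ ∞ := ENNReal.add_ne_top.2
    ⟨ENNReal.one_ne_top, ENNReal.ofReal_ne_top⟩
  refine ⟨fun K ε => srcT Φ f₀ ε K Q T' g₀ h C.toReal C0 (sX K ε) (δN K ε) (δE K ε + δW K ε)
    (δE0 K ε) (B K ε) (bd K ε), ?_, ?_⟩
  · have hsm : Small fun K ε =>
        ENNReal.ofReal Q.te * srcC Φ f₀ ε K Q g₀ h C0 (sX K ε) (δN K ε) (δE K ε + δW K ε)
          (δE0 K ε) (B K ε) + ((1 + ENNReal.ofReal Q.L) *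
          OS Φ f₀ ε K Q T' (volume.restrict (Ioc 0 Q.te)) (bd K ε) +
        ENNReal.ofReal (3 * C.toReal * (Q.te + 3 * (Real.sqrt κ)⁻¹ * Real.sqrt Q.te)) *
          tnMass Φ f₀ Q.γ Q.ρ ε K Q.tw) := by
      have hTN' : Small fun K ε => tnMass Φ f₀ Q.γ Q.ρ ε K Q.tw := hTN
      have hJ' : Small fun K ε => JE Φ f₀ ε K Q.tw := hJ
      refine Small.add (Small.const_mul ?_ ENNReal.ofReal_ne_top)
        (Small.add (hbn.small.const_mul hc3) (hTN'.const_mul ENNReal.ofReal_ne_top))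
      unfold srcC
      refine Small.add (null_cBorn hg₀ hρ).small (Small.add (hJ'.const_mul
        (ENNReal.mul_ne_top (Direct658.cD_ne_top hg₀ hρ) ENNReal.ofReal_ne_top))
        (Small.add hsX (Small.add (hδN.small.const_mul (by norm_num))
        (Small.add (hδE.small.add hδW.small) (Small.add hδE0.small (Small.add (hTN'.const_mul hC0)
        (hBn.small.const_mul (RedFlux663.cFlux_ne_top hg₀ hρ))))))))
    refine hsm.mono fun K ε hε => ?_
    exact lintegral_srcT_le hΦ hf hε hγ hκ htw0 htw ENNReal.toReal_nonneg (hbm K ε)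
  · refine EvK.ev (EvK.of_eps hh0 fun K ε hε hεh => ?_)
    unfold Young763.PtIneq
    refine (ae_restrict_iff' measurableSet_Ioc).2 (Eventually.of_forall fun τ hτ => ?_)
    have hxe := XE_leM hΦ hf h1 hε hγm hL htw0 htw hρ hg₀ (hBm K ε)
      (fun k m V w j s => hB K ε hε k m V w j s)
      (measV_majT4 hΦ hε m₀ (hbm K ε)) (majAt4 hΦ hε hL m₀ (T' := T') (bd := bd K ε)
        fun P z m w l => hbd K ε hε P z m w l) hτ.1 (hgτ τ hτ)
    refine hxe.trans ?_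
    rw [majT4_eq, OS_add hΦ hf hγm (measV_majT hΦ hε m₀ (hbm K ε))]
    have hmaj := OS_majT_le (m₀ := m₀) (bd := bd K ε) hΦ hf hε hγm hL htw0 htw hanti hC
      (hXC K ε hε)
      (fun G hG hG1 τ hτ k hk => hNS K ε hε G hG hG1 τ hτ k hk)
      (fun τ hτ => hEX K ε hε _ (measLF_GW hΦ hε K Q) (GW_le_one hL.le) τ hτ)
      (fun τ hτ => hEX0 K ε hε _ (measLF_GB hΦ hε K Q) (GB_le_one Φ ε K Q) τ hτ) hτ
    have hexw : OS Φ f₀ ε K Q T' (Measure.dirac τ) (exWF Φ ε K Q.tw T' m₀ (GW Φ ε K Q)) ≤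
        Cw * ENNReal.ofReal (Q.te - Q.tw) * XI Φ f₀ ε K Q + δW K ε := by
      refine (hEXW K ε hε _ (measLF_GW hΦ hε K Q) (GW_le_one hL.le) τ hτ).trans (le_of_eq ?_)
      rw [EBasic602.XI_eq hf hγm fun n => MeasE416.measurable_touchW_cfg hΦ hε K Q n]
      rfl
    have hdir : Direct658.cD g₀ Q.ρ * ENNReal.ofReal (ε + (Q.te - Q.tw)) *
        (JE Φ f₀ ε K Q.tw + ENNReal.ofReal (Unw410.cB Φ) * aE Φ f₀ ε K Q) ≤
        Direct658.cD g₀ Q.ρ * ENNReal.ofReal (2 * h) * JE Φ f₀ ε K Q.tw +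
        Direct658.cD g₀ Q.ρ * ENNReal.ofReal (2 * h) *
          ENNReal.ofReal (Unw410.cB Φ) * aE Φ f₀ ε K Q := by
      refine (mul_le_mul' (mul_le_mul' le_rfl (ENNReal.ofReal_le_ofReal (q := 2 * h)
        (by linarith))) le_rfl).trans (le_of_eq ?_)
      ring
    refine (add_le_add le_rfl (add_le_add hdir (add_le_add (add_le_add hmaj hexw)
      le_rfl))).trans (le_of_eq ?_)
    show _ = srcT Φ f₀ ε K Q T' g₀ h C.toReal C0 (sX K ε) (δN K ε) (δE K ε + δW K ε) (δE0 K ε)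
      (B K ε) (bd K ε) τ + mastA Φ f₀ ε K Q T' g₀ h (Cm + Cw * ENNReal.ofReal (Q.te - Q.tw)) m₀ +
      volG f₀ ε K Q (3 * C.toReal) (GW Φ ε K Q) τ
    unfold srcT mastA
    ring

end Crest.Agent.R122.OneC285

end
end

-- ▼ part R122/OneEXW_837
section

/-!
# Row 122 (helper837): exits of the structures whose contact occurs after `tw`

* `ct_flux_w_le` : flux of the test line, contact after `tw`.
* `exWF`, `StmtEXW` : the exits, with the factor `1[tw < cT]`, constant `C (te - tw)`.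
* `stmtEXW`, `stmtEXW_win` : proof, constants uniform in windows and horizons.
-/

set_option autoImplicit false

open MeasureTheory Set Filter Topology
open Crest.AnalysisR.Kinetic
open scoped ENNReal

noncomputable section

open scoped Classical

namespace Crest.Agent.R122.QExit837

open Kin796 Kin796.CTree Disc416 Scat818 Flow671 Flux663 Tree674 Mark307
open Crest.Agent.R122.GIV566 Crest.Agent.R122.TreeLines335 Crest.Agent.R122.QExit814
open Crest.Agent.R122.Hid424 Crest.Agent.R122.RtG302 Crest.Agent.R122.GC311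
open Crest.Agent.R122.InEq2 Crest.Agent.R122.ToTree335 Crest.Agent.R122.Boltz814
open Crest.Agent.R122.EDefs602 Crest.Agent.R122.Master566 Crest.Agent.R122.OneC285
open Crest.Agent.R122.OneC423 Crest.Agent.R122.XC815 Crest.Agent.R122.Top602

variable {Φ : Space3 → ℝ} {f₀ : PhasePoint → ℝ} {f : ℝ → PhasePoint → ℝ} {ε : ℝ}

/-! ### Flux of the test line, contact after `tw` -/

/-- weight of the marks, contact after `tw` -/
def HLW (ε tw : ℝ) (γ : ℝ → ℝ) (ρ : ℝ≥0∞) (K : ℕ) {P : CTree} (z : PhasePoint × Par P)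
    (l : EDefs602.ML) : ℝ≥0∞ := lineD γ ρ K l * (if tw < cT ε z l then 1 else 0)

theorem measurable_HLW (ε tw : ℝ) {γ : ℝ → ℝ} (hγ : Measurable γ) (ρ : ℝ≥0∞) (K : ℕ) {P : CTree}
    (z : PhasePoint × Par P) : Measurable (HLW ε tw γ ρ K z) := by
  unfold HLW
  refine (EBasic602.measurable_lineD hγ).mul ?_
  refine Measurable.ite ?_ measurable_const measurable_const
  have h1 : Measurable fun l : EDefs602.ML => cT ε z l :=
    (Third741.measurable_cT ε P).comp (f := fun l : EDefs602.ML => (z, l))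
      (measurable_const.prodMk measurable_id)
  exact measurableSet_lt measurable_const h1

/-- one velocity and one mark -/
theorem ct_y_w_le (hΦ : AdmissiblePotential Φ) (hε : 0 < ε) {P : CTree}
    (z : PhasePoint × Par P) {te tw τ : ℝ} {γ : ℝ → ℝ} (hγ : Measurable γ) {g0 : ℝ}
    (hg : g0 ≤ γ τ) (ρ : ℝ≥0∞) (K : ℕ) (v : Space3) (n : ℕ) :
    ∫⁻ y : Space3, {l : EDefs602.ML | (z, l.1) ∈ ctSet Φ ε te P}.indicator
      (HLW ε tw γ ρ K z) ((τ, (y, v)), n) ≤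
      (ENNReal.ofReal (ε ^ 2) * (ENNReal.ofReal (te - tw) *
        ENNReal.ofReal Real.pi * ENNReal.ofReal (1 + ‖z.1.2‖)) * markW ρ K n) *
          (wG g0 v * ENNReal.ofReal (1 + ‖v‖)) := by
  rw [lintegral_ct_y hΦ hε z τ v n (measurable_HLW ε tw hγ ρ K z)]
  by_cases hvu : v - z.1.2 = 0
  · rw [hvu, norm_zero, ENNReal.ofReal_zero, zero_mul, mul_zero]
    exact bot_le
  have hin : ∀ s : ℝ, ∫⁻ b in impactDisc (v - z.1.2), HLW ε tw γ ρ K z
      (lineAt ε s z.1 τ v b n) ∂μHE[2] =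
      (Ioi tw).indicator (fun _ => wG (γ τ) v * markW ρ K n * ENNReal.ofReal Real.pi) s := by
    intro s
    have h1 : ∫⁻ b in impactDisc (v - z.1.2), HLW ε tw γ ρ K z
        (lineAt ε s z.1 τ v b n) ∂μHE[2] =
        ∫⁻ _ in impactDisc (v - z.1.2), (wG (γ τ) v * markW ρ K n) *
          (if tw < s then (1 : ℝ≥0∞) else 0) ∂μHE[2] := by
      refine setLIntegral_congr_fun (Disc416.measurableSet_impactDisc _) fun b hb => ?_
      unfold HLW
      rw [Third741.cT_lineAt hε hvu hb]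
      rfl
    rw [h1, lintegral_const, Measure.restrict_apply_univ, measure_impactDisc hvu]
    by_cases hs : tw < s
    · rw [if_pos hs, indicator_of_mem (show s ∈ Ioi tw from hs), mul_one]
    · rw [if_neg hs, indicator_of_notMem (show s ∉ Ioi tw from hs), mul_zero, zero_mul]
  simp only [hin]
  have hvol : ∫⁻ s in {s | τ < s ∧ s ≤ te ∧ Valid Φ ε P s z.1.2 z.2},
      (Ioi tw).indicator (fun _ => wG (γ τ) v * markW ρ K n * ENNReal.ofReal Real.pi) s ≤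
      wG (γ τ) v * markW ρ K n * ENNReal.ofReal Real.pi * ENNReal.ofReal (te - tw) := by
    have h2 : ∫⁻ s in {s | τ < s ∧ s ≤ te ∧ Valid Φ ε P s z.1.2 z.2},
        (Ioi tw).indicator (fun _ => wG (γ τ) v * markW ρ K n * ENNReal.ofReal Real.pi) s ≤
        ∫⁻ s in Iic te,
          (Ioi tw).indicator (fun _ => wG (γ τ) v * markW ρ K n * ENNReal.ofReal Real.pi) s :=
      lintegral_mono_set fun s hs => hs.2.1
    refine h2.trans ?_
    rw [setLIntegral_indicator measurableSet_Ioi, setLIntegral_const,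
      show Ioi tw ∩ Iic te = Ioc tw te from rfl, Real.volume_Ioc]
  have h3 := XC815.norm_sub_le_mul v z.1.2
  have h4 := Kin796.wG_anti hg v
  calc ENNReal.ofReal (ε ^ 2) * (ENNReal.ofReal ‖v - z.1.2‖ *
        ∫⁻ s in {s | τ < s ∧ s ≤ te ∧ Valid Φ ε P s z.1.2 z.2},
          (Ioi tw).indicator (fun _ => wG (γ τ) v * markW ρ K n * ENNReal.ofReal Real.pi) s)
      ≤ ENNReal.ofReal (ε ^ 2) * ((ENNReal.ofReal (1 + ‖v‖) * ENNReal.ofReal (1 + ‖z.1.2‖)) *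
        (wG g0 v * markW ρ K n * ENNReal.ofReal Real.pi * ENNReal.ofReal (te - tw))) := by
        refine mul_le_mul' le_rfl (mul_le_mul' h3 (hvol.trans ?_))
        gcongr
    _ = _ := by ring

/-- **Flux of the test line born at time `τ`, contact after `tw`.** -/
theorem ct_flux_w_le (hΦ : AdmissiblePotential Φ) (hε : 0 < ε) {P : CTree}
    (z : PhasePoint × Par P) {te tw τ : ℝ} {γ : ℝ → ℝ} (hγ : Measurable γ) {g0 : ℝ}
    (hg : g0 ≤ γ τ) (ρ : ℝ≥0∞) (K : ℕ) :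
    ∫⁻ l, {l : EDefs602.ML | (z, l.1) ∈ ctSet Φ ε te P}.indicator (HLW ε tw γ ρ K z) l
        ∂(baseM (Measure.dirac τ)) ≤
      ENNReal.ofReal (ε ^ 2) * (ENNReal.ofReal (te - tw) * ENNReal.ofReal Real.pi * cV g0 *
        (ENNReal.ofReal (1 + ‖z.1.2‖) * ∑' n : ℕ, markW ρ K n)) := by
  have hH : Measurable (HLW ε tw γ ρ K z) := measurable_HLW ε tw hγ ρ K z
  have hms : MeasurableSet {l : EDefs602.ML | (z, l.1) ∈ ctSet Φ ε te P} :=
    (measurable_const.prodMk measurable_fst : Measurable fun l : EDefs602.ML =>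
      ((z, l.1) : (PhasePoint × Par P) × (ℝ × PhasePoint))) (measurableSet_ctSet hΦ ε te P)
  rw [lintegral_baseM _ (hH.indicator hms), lintegral_dirac' _ ?_]
  swap
  · have h2 : ∀ n : ℕ, Measurable fun q : ℝ × (Space3 × Space3) =>
        {l : EDefs602.ML | (z, l.1) ∈ ctSet Φ ε te P}.indicator (HLW ε tw γ ρ K z)
          ((q.1, (q.2.2, q.2.1)), n) := fun n =>
      (hH.indicator hms).comp (by fun_prop : Measurable fun q : ℝ × (Space3 × Space3) =>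
        (((q.1, (q.2.2, q.2.1)), n) : EDefs602.ML))
    refine Measurable.tsum fun n => ?_
    have h3 : Measurable fun q : (ℝ × Space3) × Space3 =>
        {l : EDefs602.ML | (z, l.1) ∈ ctSet Φ ε te P}.indicator (HLW ε tw γ ρ K z)
          ((q.1.1, (q.2, q.1.2)), n) :=
      (h2 n).comp (f := fun q : (ℝ × Space3) × Space3 => (q.1.1, (q.1.2, q.2))) (by fun_prop)
    have h4 : Measurable fun q : ℝ × Space3 => ∫⁻ y : Space3,
        {l : EDefs602.ML | (z, l.1) ∈ ctSet Φ ε te P}.indicator (HLW ε tw γ ρ K z)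
          ((q.1, (y, q.2)), n) := h3.lintegral_prod_right'
    exact h4.lintegral_prod_right'
  have hone : ∀ n : ℕ, ∫⁻ v : Space3, ∫⁻ y : Space3,
      {l : EDefs602.ML | (z, l.1) ∈ ctSet Φ ε te P}.indicator (HLW ε tw γ ρ K z)
        ((τ, (y, v)), n) ≤ (ENNReal.ofReal (ε ^ 2) * (ENNReal.ofReal (te - tw) *
          ENNReal.ofReal Real.pi * cV g0 * ENNReal.ofReal (1 + ‖z.1.2‖))) * markW ρ K n := by
    intro n
    refine (lintegral_mono fun v => ct_y_w_le hΦ hε z (tw := tw) hγ hg ρ K v n).trans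
      (le_of_eq ?_)
    have hm : Measurable fun v : Space3 => wG g0 v * ENNReal.ofReal (1 + ‖v‖) := by
      unfold wG
      fun_prop
    rw [lintegral_const_mul _ hm]
    unfold cV
    ring
  refine (ENNReal.tsum_le_tsum hone).trans (le_of_eq ?_)
  rw [ENNReal.tsum_mul_left]
  ring

/-! ### The exits, contact after `tw` -/

/-- The exits of the structures, contact after `tw`. -/
def HW (Φ : Space3 → ℝ) (ε : ℝ) (K : ℕ) (Q : EPar) (T' : ℝ) (G : LF) : SF :=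
  fun P z m w l => (if Sep Φ ε P T' z.1 z.2 then smI K P l else 0) *
    ((if Q.tw < cT ε z l then 1 else 0) * (uI Φ ε Q.tw P z w *
      ∑ i ∈ Finset.univ.filter (fun i : Idx P => i ≠ root P), G m w (lineML Φ ε P z i)))

/-- The integrand of `StmtEXW` (helper285's text): sizes `≤ m₀`. -/
def exWF (Φ : Space3 → ℝ) (ε : ℝ) (K : ℕ) (tw T' : ℝ) (m₀ : ℕ) (G : LF) : SF := fun P z m w l =>
  (if P.leaves ≤ m₀ ∧ tw < cT ε z l ∧ Sep Φ ε P T' z.1 z.2 then smI K P l else 0) *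
    (uI Φ ε tw P z w *
      ∑ i ∈ Finset.univ.filter (fun i : Idx P => i ≠ root P), G m w (lineML Φ ε P z i))

/-- (EXW) the exits of the small separated trees, contact after `tw` (helper285's text). -/
def StmtEXW (Φ : Space3 → ℝ) (f₀ : PhasePoint → ℝ) (Q : EPar) (T' : ℝ) (m₀ : ℕ) (C : ℝ≥0∞) :
    Prop :=
  ∃ δ : ℕ → ℝ → ℝ≥0∞, Null δ ∧ ∀ (K : ℕ) (ε : ℝ), 0 < ε → ∀ G : LF, MeasLF G →
    (∀ m w l, G m w l ≤ 1) → ∀ τ ∈ Ioc 0 Q.te,
    OS Φ f₀ ε K Q T' (Measure.dirac τ) (exWF Φ ε K Q.tw T' m₀ G) ≤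
    C * ENNReal.ofReal (Q.te - Q.tw) *
      gcE f₀ ε (fun m w => ∫⁻ l, G m w l ∂(lineM Q.γ Q.ρ K Q.te)) + δ K ε

theorem exWF_le_HW {K : ℕ} {Q : EPar} {T' : ℝ} {m₀ : ℕ} {G : LF} (P : CTree)
    (z : PhasePoint × Par P) (m : ℕ) (w : Config m) (l : EDefs602.ML) :
    exWF Φ ε K Q.tw T' m₀ G P z m w l ≤ HW Φ ε K Q T' G P z m w l := by
  unfold exWF HW
  by_cases h : P.leaves ≤ m₀ ∧ Q.tw < cT ε z l ∧ Sep Φ ε P T' z.1 z.2
  · rw [if_pos h, if_pos h.2.2, if_pos h.2.1, one_mul]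
  · rw [if_neg h, zero_mul]
    exact bot_le

/-- (EXW), all sizes. -/
def EXWs (Φ : Space3 → ℝ) (f₀ : PhasePoint → ℝ) (Q : EPar) (T' : ℝ) (C : ℝ≥0∞) : Prop :=
  ∃ δ : ℕ → ℝ → ℝ≥0∞, Null δ ∧ ∀ (K : ℕ) (ε : ℝ), 0 < ε → ∀ G : LF, MeasLF G →
    (∀ m w l, G m w l ≤ 1) → ∀ τ ∈ Ioc 0 Q.te,
    OS Φ f₀ ε K Q T' (Measure.dirac τ) (HW Φ ε K Q T' G) ≤
    C * ENNReal.ofReal (Q.te - Q.tw) *
      gcE f₀ ε (fun m w => ∫⁻ l, G m w l ∂(lineM Q.γ Q.ρ K Q.te)) + δ K ε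

/-- majorant after integration of the test line -/
def HTW (Φ : Space3 → ℝ) (ε : ℝ) (K : ℕ) (Q : EPar) (T' : ℝ) (g0 : ℝ) (G : LF)
    (P : CTree) (z : PhasePoint × Par P) (m : ℕ) (w : Config m) : ℝ≥0∞ :=
  if P.leaves ≤ K ∧ Sep Φ ε P T' z.1 z.2 then
    (cF (Q.te - Q.tw) g0 Q.ρ * ENNReal.ofReal (1 + ‖z.1.2‖)) *
      exG Φ ε Q.tw Q.te G P z m w else 0

theorem exw_inner_le (hΦ : AdmissiblePotential Φ) (hε : 0 < ε) {K : ℕ} {Q : EPar}
    (hγ : Measurable Q.γ) {g0 τ : ℝ} (hg : g0 ≤ Q.γ τ) {T' : ℝ} {G : LF}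
    (hG1 : ∀ m w l, G m w l ≤ 1) {P : CTree} (z : PhasePoint × Par P) (m : ℕ) (w : Config m) :
    ∫⁻ l, {l : EDefs602.ML | (z, l.1) ∈ ctSet Φ ε Q.te P}.indicator
      (fun l => lineD Q.γ Q.ρ K l * HW Φ ε K Q T' G P z m w l) l ∂(baseM (Measure.dirac τ)) ≤
      ENNReal.ofReal (ε ^ 2) * HTW Φ ε K Q T' g0 G P z m w := by
  by_cases hc : Sep Φ ε P T' z.1 z.2 ∧ P.leaves ≤ K
  · obtain ⟨hs, hK⟩ := hc
    have hpt : ∀ l : EDefs602.ML, {l : EDefs602.ML | (z, l.1) ∈ ctSet Φ ε Q.te P}.indicator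
        (fun l => lineD Q.γ Q.ρ K l * HW Φ ε K Q T' G P z m w l) l ≤
        {l : EDefs602.ML | (z, l.1) ∈ ctSet Φ ε Q.te P}.indicator
          (HLW ε Q.tw Q.γ Q.ρ K z) l * exG Φ ε Q.tw Q.te G P z m w := by
      intro l
      by_cases hl : l ∈ {l : EDefs602.ML | (z, l.1) ∈ ctSet Φ ε Q.te P}
      · rw [indicator_of_mem hl, indicator_of_mem hl]
        unfold HLW
        rw [mul_assoc]
        refine mul_le_mul' le_rfl ?_
        unfold HW
        rw [if_pos hs]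
        have h1 : smI K P l ≤ 1 := by
          unfold smI
          split_ifs
          · exact le_rfl
          · exact bot_le
        refine (mul_le_mul' h1 le_rfl).trans ?_
        rw [one_mul]
        refine mul_le_mul' le_rfl (le_of_eq ?_)
        rw [sum_filter_eq]
        unfold exG
        congr 1
        refine Finset.sum_congr rfl fun x _ => ?_
        unfold cutG
        rw [if_pos (show (lineML Φ ε P z x).1.1 ≤ Q.te from rel_le_of_ct hε.le hl x.2)]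
      · rw [indicator_of_notMem hl]
        exact bot_le
    refine (lintegral_mono hpt).trans ?_
    rw [lintegral_mul_const' _ _ (exG_ne_top hG1)]
    have hfl := ct_flux_w_le hΦ hε z (te := Q.te) (tw := Q.tw) hγ hg Q.ρ K
    refine (mul_le_mul' hfl le_rfl).trans ?_
    have h2 : ∑' n : ℕ, markW Q.ρ K n ≤ (1 - Q.ρ)⁻¹ := tsum_markW_le Q.ρ K
    unfold HTW
    rw [if_pos ⟨hK, hs⟩]
    unfold cF
    calc ENNReal.ofReal (ε ^ 2) * (ENNReal.ofReal (Q.te - Q.tw) * ENNReal.ofReal Real.pi *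
          cV g0 * (ENNReal.ofReal (1 + ‖z.1.2‖) * ∑' n : ℕ, markW Q.ρ K n)) *
          exG Φ ε Q.tw Q.te G P z m w
        ≤ ENNReal.ofReal (ε ^ 2) * (ENNReal.ofReal (Q.te - Q.tw) * ENNReal.ofReal Real.pi *
          cV g0 * (ENNReal.ofReal (1 + ‖z.1.2‖) * (1 - Q.ρ)⁻¹)) *
          exG Φ ε Q.tw Q.te G P z m w := by gcongr
      _ = _ := by ring
  · have h0 : ∀ l : EDefs602.ML, {l : EDefs602.ML | (z, l.1) ∈ ctSet Φ ε Q.te P}.indicator
        (fun l => lineD Q.γ Q.ρ K l * HW Φ ε K Q T' G P z m w l) l = 0 := by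
      intro l
      by_cases hl : l ∈ {l : EDefs602.ML | (z, l.1) ∈ ctSet Φ ε Q.te P}
      · rw [indicator_of_mem hl]
        have h1 : HW Φ ε K Q T' G P z m w l = 0 := by
          unfold HW
          by_cases h2 : Sep Φ ε P T' z.1 z.2
          · have h3 : ¬ P.leaves ≤ K := fun h => hc ⟨h2, h⟩
            have h4 : smI K P l = 0 := by
              unfold smI
              rw [if_neg]
              omega
            rw [if_pos h2, h4, zero_mul]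
          · rw [if_neg h2, zero_mul]
        rw [h1, mul_zero]
      · rw [indicator_of_notMem hl]
    simp only [h0, lintegral_zero]
    exact bot_le

/-- **The structure integral of the exits is a tree integral.** -/
theorem os_exw_le_ts (hΦ : AdmissiblePotential Φ) (hε : 0 < ε) {K : ℕ} {Q : EPar}
    (hγ : Measurable Q.γ) {g0 τ : ℝ} (hg : g0 ≤ Q.γ τ) {T' : ℝ} {G : LF}
    (hG1 : ∀ m w l, G m w l ≤ 1) :
    OS Φ f₀ ε K Q T' (Measure.dirac τ) (HW Φ ε K Q T' G) ≤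
      InEq2.TS Φ f₀ ε T' (HTW Φ ε K Q T' g0 G) := by
  have hact : activity ε * ENNReal.ofReal (ε ^ 2) = 1 := by
    unfold activity
    rw [← ENNReal.ofReal_mul (by positivity), inv_mul_cancel₀ (by positivity),
      ENNReal.ofReal_one]
  unfold OS InEq2.TS
  rw [← ENNReal.tsum_mul_left]
  refine ENNReal.tsum_le_tsum fun P => ?_
  rw [← lintegral_const_mul' _ _ (show activity ε ≠ ∞ from ENNReal.ofReal_ne_top)]
  refine lintegral_mono fun z => ?_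
  by_cases hV : Valid Φ ε P T' z.1.2 z.2
  · rw [indicator_of_mem (show z ∈ {z : PhasePoint × Par P | Valid Φ ε P T' z.1.2 z.2} from hV),
      indicator_of_mem (show z ∈ {z : PhasePoint × Par P | Valid Φ ε P T' z.1.2 z.2} from hV)]
    have h1 : gcE f₀ ε (fun m w => ∫⁻ l, {l : EDefs602.ML | (z, l.1) ∈ ctSet Φ ε Q.te P}.indicator
        (fun l => lineD Q.γ Q.ρ K l * HW Φ ε K Q T' G P z m w l) l
          ∂(baseM (Measure.dirac τ))) ≤
        ENNReal.ofReal (ε ^ 2) * gcE f₀ ε (fun m w => HTW Φ ε K Q T' g0 G P z m w) := by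
      rw [← gcE_const_mul f₀ ε ENNReal.ofReal_ne_top]
      exact gcE_mono f₀ ε fun m w _ => exw_inner_le hΦ hε hγ hg hG1 z m w
    calc activity ε * (wt Φ P z.1.2 z.2 * (ToTree335.pf Φ f₀ ε P z * gcE f₀ ε (fun m w =>
          ∫⁻ l, {l : EDefs602.ML | (z, l.1) ∈ ctSet Φ ε Q.te P}.indicator
            (fun l => lineD Q.γ Q.ρ K l * HW Φ ε K Q T' G P z m w l) l
              ∂(baseM (Measure.dirac τ)))))
        ≤ activity ε * (wt Φ P z.1.2 z.2 * (ToTree335.pf Φ f₀ ε P z *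
            (ENNReal.ofReal (ε ^ 2) *
              gcE f₀ ε (fun m w => HTW Φ ε K Q T' g0 G P z m w)))) := by
          gcongr
      _ = (activity ε * ENNReal.ofReal (ε ^ 2)) * (wt Φ P z.1.2 z.2 *
            (ToTree335.pf Φ f₀ ε P z *
              gcE f₀ ε (fun m w => HTW Φ ε K Q T' g0 G P z m w))) := by ring
      _ = _ := by rw [hact, one_mul]
  · rw [indicator_of_notMem (show z ∉ {z : PhasePoint × Par P | Valid Φ ε P T' z.1.2 z.2} from hV),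
      mul_zero]
    exact bot_le

theorem cF_eq (t g0 : ℝ) (ρ : ℝ≥0∞) : cF t g0 ρ = ENNReal.ofReal t * cF 1 g0 ρ := by
  unfold cF
  rw [ENNReal.ofReal_one]
  ring

/-- `StmtEXW` from the form without size cut-off. -/
theorem EXWs.stmt {Q : EPar} {T' : ℝ} {C : ℝ≥0∞} (h : EXWs Φ f₀ Q T' C) (m₀ : ℕ) :
    StmtEXW Φ f₀ Q T' m₀ C := by
  obtain ⟨δ, hδ, h⟩ := h
  exact ⟨δ, hδ, fun K ε hε G hG hG1 τ hτ =>
    (OSCalc495.OS_mono fun P z m w l => exWF_le_HW P z m w l).trans (h K ε hε G hG hG1 τ hτ)⟩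

/-- **(EXW)** : the exits, contact after `tw`; constants uniform in the windows, the horizons. -/
theorem exws {β T : ℝ} (hD : KData Φ β T f₀ f) {h₀ kap lam C b : ℝ}
    (hK : Seg814.KinC Φ T f h₀ kap lam C b) (hkap : kap ≤ β) :
    ∃ g₁ : ℝ, 0 < g₁ ∧ ∃ ρ₁ : ℝ≥0∞, ρ₁ < 1 ∧
      ∀ (γ : ℝ → ℝ) (ρ : ℝ≥0∞), Measurable γ → ρ₁ ≤ ρ → ρ < 1 →
      ∀ g0 : ℝ, 0 < g0 → ∃ C₀ : ℝ≥0∞, C₀ ≠ ∞ ∧
      ∀ (Q : EPar), Q.γ = γ → Q.ρ = ρ → Q.tw ∈ Icc 0 T → GIV566.GIV Φ f₀ f T Q.tw → Q.te ≤ T →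
      (∀ τ ∈ Ioc 0 Q.te, g0 ≤ γ τ) →
      ∀ T' : ℝ, 0 < T' → T' ≤ Q.tw + h₀ → (∀ τ ∈ Ioc 0 T', γ τ ≤ g₁) →
      EXWs Φ f₀ Q T' C₀ := by
  have hΦ := hD.adm
  have hf : Measurable f₀ := hD.contDiff.continuous.measurable
  have hlam : 1 < lam := hK.2.2.1
  have hkap0 : 0 < kap := hK.2.1
  set lam₁ : ℝ := (1 + lam) / 2 with hl₁
  set lam₀ : ℝ := (1 + lam₁) / 2 with hl₀
  have h1 : 1 < lam₁ := by rw [hl₁]; linarith
  have h2 : lam₁ < lam := by rw [hl₁]; linarith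
  have h3 : 1 < lam₀ := by rw [hl₀]; linarith
  have h4 : lam₀ < lam₁ := by rw [hl₀]; linarith
  obtain ⟨g₁, hg₁, ρ₁, hρ₁, C₁, hC₁, hQ⟩ := exists_qx hD hK hkap h1 h2
  obtain ⟨M₀, hM₀, hw⟩ := exists_wQ Φ h3 h4 hkap0
  refine ⟨g₁, hg₁, ρ₁, hρ₁, ?_⟩
  intro γ ρ hγ hρ hρ1 g0 hg0
  set c : ℝ≥0∞ := cF 1 g0 ρ * (2 * M₀) with hc
  have hct : c ≠ ∞ := ENNReal.mul_ne_top (cF_ne_top hg0 hρ1)
    (ENNReal.mul_ne_top (by norm_num) hM₀)
  refine ⟨c * C₁, ENNReal.mul_ne_top hct hC₁, ?_⟩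
  intro Q hQγ hQρ htw hG hte hlow T' hT' hT'h hup
  have hδ := fun K => hQ γ ρ hρ Q.tw htw hG T' hT' hT'h hup K
  choose δ hδ0 hδ1 using hδ
  set o : ℝ≥0∞ := ENNReal.ofReal (Q.te - Q.tw) with ho
  have hMt : c * o ≠ ∞ := ENNReal.mul_ne_top hct ENNReal.ofReal_ne_top
  refine ⟨fun K ε => c * o * δ K ε, ?_, ?_⟩
  · -- nullity
    intro K a ha
    have h := ENNReal.Tendsto.const_mul (a := c * o) (hδ0 K) (Or.inr hMt)
    rw [mul_zero] at h
    have h5 : ∀ᶠ x in 𝓝[>] (0 : ℝ), c * o * δ K x ≤ ENNReal.ofReal a :=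
      (h.eventually (gt_mem_nhds (ENNReal.ofReal_pos.2 ha))).mono fun _ h => le_of_lt h
    rw [eventually_nhdsWithin_iff, Metric.eventually_nhds_iff] at h5
    obtain ⟨η, hη, h6⟩ := h5
    refine ⟨η, hη, fun x hx hxη => h6 ?_ hx⟩
    rw [Real.dist_eq, sub_zero, abs_of_pos hx]
    exact hxη
  · intro K ε hε G hGm hG1 τ hτ
    have hγQ : Measurable Q.γ := by rw [hQγ]; exact hγ
    have hgτ : g0 ≤ Q.γ τ := by rw [hQγ]; exact hlow τ hτ
    have s1 := os_exw_le_ts (f₀ := f₀) hΦ hε (K := K) (T' := T') hγQ hgτ hG1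
    have hQX := hδ1 K ε hε
    have s2 : InEq2.TS Φ f₀ ε T' (HTW Φ ε K Q T' g0 G) ≤ (c * o) *
        (C₁ * gcE f₀ ε (fun m w => ∫⁻ l, cutG Q.te G m w l ∂EDefs602.lineM γ ρ K T') +
          δ K ε) := by
      refine hQX.ts_rel hΦ hf hε (φ := cutG Q.te G) (measLF_cutG hGm)
        (fun m w l => (cutG_le m w l).trans (hG1 m w l)) hMt
        (th := fun P z => cF (Q.te - Q.tw) g0 Q.ρ * (2 * wQ Φ ε P z))
        (fun P => ((measurable_wQ hΦ P).const_mul 2).const_mul _) (fun P z hz => ?_)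
        (b := fun P z => TreeLines335.rel P z.2) (fun P z i => le_rfl) (fun P z m w hz => ?_)
      · have h7 := hw 0 ε T' P z hz
        rw [if_pos (Nat.zero_le _), pow_zero, mul_one] at h7
        have h8 : cF (Q.te - Q.tw) g0 Q.ρ = o * cF 1 g0 ρ := by
          rw [cF_eq, hQρ]
        show cF (Q.te - Q.tw) g0 Q.ρ * (2 * wQ Φ ε P z) ≤ _
        rw [h8]
        calc o * cF 1 g0 ρ * (2 * wQ Φ ε P z) ≤ o * cF 1 g0 ρ * (2 * (M₀ *
              ENNReal.ofReal lam₁ ^ P.size *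
              ENNReal.ofReal (Real.exp (kap * Seg814.eng Φ P z.1.2 z.2)))) := by gcongr
          _ = _ := by rw [hc]; ring
      · unfold HTW
        by_cases hcs : P.leaves ≤ K ∧ Sep Φ ε P T' z.1 z.2
        · rw [if_pos hcs, if_pos hcs]
          exact mul_le_mul' (mul_le_mul' le_rfl (root_le_wQ hΦ hz)) le_rfl
        · rw [if_neg hcs, if_neg hcs]
    refine (s1.trans s2).trans ?_
    rw [mul_add]
    refine add_le_add ?_ le_rfl
    have h9 : gcE f₀ ε (fun m w => ∫⁻ l, cutG Q.te G m w l ∂EDefs602.lineM γ ρ K T') ≤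
        gcE f₀ ε (fun m w => ∫⁻ l, G m w l ∂(lineM Q.γ Q.ρ K Q.te)) := by
      refine gcE_mono f₀ ε fun m w _ => ?_
      rw [hQγ, hQρ]
      exact lintegral_lineM_cut hγ ρ K ((hGm m).comp (measurable_const.prodMk measurable_id))
    calc c * o * (C₁ * gcE f₀ ε (fun m w => ∫⁻ l, cutG Q.te G m w l
          ∂EDefs602.lineM γ ρ K T'))
        ≤ c * o * (C₁ * gcE f₀ ε (fun m w => ∫⁻ l, G m w l ∂(lineM Q.γ Q.ρ K Q.te))) := by
          gcongr
      _ = _ := by ring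

/-- **(EXW)** : `StmtEXW`. -/
theorem stmtEXW {β T : ℝ} (hD : KData Φ β T f₀ f) {h₀ kap lam C b : ℝ}
    (hK : Seg814.KinC Φ T f h₀ kap lam C b) (hkap : kap ≤ β) :
    ∃ g₁ : ℝ, 0 < g₁ ∧ ∃ ρ₁ : ℝ≥0∞, ρ₁ < 1 ∧
      ∀ (γ : ℝ → ℝ) (ρ : ℝ≥0∞), Measurable γ → ρ₁ ≤ ρ → ρ < 1 →
      ∀ g0 : ℝ, 0 < g0 → ∃ C₀ : ℝ≥0∞, C₀ ≠ ∞ ∧
      ∀ (Q : EPar), Q.γ = γ → Q.ρ = ρ → Q.tw ∈ Icc 0 T → GIV566.GIV Φ f₀ f T Q.tw → Q.te ≤ T →
      (∀ τ ∈ Ioc 0 Q.te, g0 ≤ γ τ) →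
      ∀ T' : ℝ, 0 < T' → T' ≤ Q.tw + h₀ → (∀ τ ∈ Ioc 0 T', γ τ ≤ g₁) →
      ∀ m₀ : ℕ, StmtEXW Φ f₀ Q T' m₀ C₀ := by
  obtain ⟨g₁, hg₁, ρ₁, hρ₁, H⟩ := exws hD hK hkap
  refine ⟨g₁, hg₁, ρ₁, hρ₁, fun γ ρ hγ hρ hρ1 g0 hg0 => ?_⟩
  obtain ⟨C₀, hC₀, H'⟩ := H γ ρ hγ hρ hρ1 g0 hg0
  exact ⟨C₀, hC₀, fun Q h1 h2 h3 h4 h5 h6 T' h7 h8 h9 m₀ =>
    (H' Q h1 h2 h3 h4 h5 h6 T' h7 h8 h9).stmt m₀⟩

/-- **(EXW) for all windows.** -/
theorem stmtEXW_win {β T : ℝ} (hD : KData Φ β T f₀ f) {h₀ kap lam C b : ℝ}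
    (hK : Seg814.KinC Φ T f h₀ kap lam C b) (hkap : kap ≤ β) :
    ∃ g1 : ℝ, 0 < g1 ∧ ∃ r1 : ℝ≥0∞, r1 < 1 ∧
      ∀ (γ : ℝ → ℝ) (ρ : ℝ≥0∞), LinePar g1 r1 T γ ρ → ∃ C₀ : ℝ≥0∞, C₀ ≠ ∞ ∧
        ∀ h L tw te : ℝ, Win h T tw te → GIV566.GIV Φ f₀ f T tw →
        ∀ T' : ℝ, 0 < T' → T' ≤ tw + h₀ →
        ∀ m₀ : ℕ, StmtEXW Φ f₀ (epar γ ρ L tw te) T' m₀ C₀ := by
  obtain ⟨g₁, hg₁, ρ₁, hρ₁, H⟩ := stmtEXW hD hK hkap
  refine ⟨g₁, hg₁, ρ₁, hρ₁, fun γ ρ hP => ?_⟩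
  obtain ⟨g0, κ, hκ, hγ, hlow, hup⟩ := hP.lin
  obtain ⟨C₀, hC₀, H'⟩ := H γ ρ (LinePar.measurable hP) hP.lo hP.hi (g0 - κ * T) hlow
  refine ⟨C₀, hC₀, fun h L tw te hW hG T' hT' hT'h m₀ => ?_⟩
  refine H' (epar γ ρ L tw te) rfl rfl ⟨hW.nonneg, hW.le.trans hW.le_T⟩ hG hW.le_T
    (fun τ hτ => ?_) T' hT' hT'h (fun τ hτ => ?_) m₀
  · rw [hγ]
    have h1 : τ ≤ T := hτ.2.trans hW.le_T
    have h2 := mul_le_mul_of_nonneg_left h1 hκ.le
    show g0 - κ * T ≤ g0 - κ * τ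
    linarith
  · rw [hγ]
    have h2 := mul_pos hκ hτ.1
    show g0 - κ * τ ≤ g₁
    linarith

end Crest.Agent.R122.QExit837

end
end

-- ▼ part R122/EXWBind_285
section

/-!
# Binding of `StmtEXW` (row 122, INEQUALITY 1)

The two literal forms of `StmtEXW` (helper837's `OneEXW_837`, helper984's `Line3G_984`) agree.
-/

set_option autoImplicit false

open MeasureTheory Set Filter
open scoped ENNReal Classical Topology
open Crest.AnalysisR.Kinetic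
open Crest.Agent.R122.Kin796 Crest.Agent.R122.Kin796.CTree Crest.Agent.R122.Tree674
open Crest.Agent.R122.EDefs602 Crest.Agent.R122.TreeLines335 Crest.Agent.R122.OneC285

namespace Crest.Agent.R122.OneC285

variable {Φ : Space3 → ℝ} {f₀ : PhasePoint → ℝ} {Q : EPar} {T' : ℝ}

theorem stmtEXW_of_837 {m₀ : ℕ} {C : ℝ≥0∞} (h : QExit837.StmtEXW Φ f₀ Q T' m₀ C) :
    StmtEXW Φ f₀ Q T' m₀ C := by
  obtain ⟨δ, hδ, h⟩ := h
  refine ⟨δ, hδ, fun K ε hε G hG hG1 τ hτ => ?_⟩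
  refine le_of_eq_of_le ?_ (h K ε hε G hG hG1 τ hτ)
  congr 1
  funext P z m w l
  unfold QExit837.exWF
  congr 1
  refine if_congr ?_ rfl rfl
  tauto

end Crest.Agent.R122.OneC285
end

-- ▼ part R122/Ineq1D_815
section

/-!
helper815, row 122, INEQUALITY 1, closing part D: the assembly with the branch of the exits touched
before the contact (`StmtLink4`, `StmtEXW`).

* `exw_evW` : `StmtEXW` in the windows;
* `RL4In` : the two remaining inputs, `StmtRed` and `StmtLink4`, in the windows;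
* `ptAll_of_rl4`, `i1In_of_rl4` : inequality 1.
-/

set_option autoImplicit false

open MeasureTheory Set Filter
open scoped ENNReal Topology
open Crest.AnalysisR.Kinetic
open Crest.Agent.R122.Master566 Crest.Agent.R122.EDefs602 Crest.Agent.R122.GIV566
  Crest.Agent.R122.Top602 Crest.Agent.R122.Young763 Crest.Agent.R122.Unw410
  Crest.Agent.R122.OneC285 Crest.Agent.R122.Q1815

noncomputable section

namespace Crest.Agent.R122.Ineq1815

variable {Φ : Space3 → ℝ} {f₀ : PhasePoint → ℝ} {f : ℝ → PhasePoint → ℝ} {β T : ℝ}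
  {γ : ℝ → ℝ} {ρ : ℝ≥0∞} {PM : PMass}

/-- **(EXW) in the windows**, horizon `T' = tw + h0`. -/
theorem exw_evW (hD : KData Φ β T f₀ f) : ∃ h1 : ℝ, 0 < h1 ∧ ∃ g1 : ℝ, 0 < g1 ∧
    ∃ r1 : ℝ≥0∞, r1 < 1 ∧ ∀ (γ : ℝ → ℝ) (ρ : ℝ≥0∞), LinePar g1 r1 T γ ρ →
      ∃ CW : ℝ≥0∞, CW ≠ ∞ ∧ ∀ h0 : ℝ, 0 < h0 → h0 ≤ h1 → EvW T fun _ L tw te =>
        IH Φ f₀ f T γ ρ tw → ∀ m : ℕ, StmtEXW Φ f₀ (epar γ ρ L tw te) (tw + h0) m CW := by
  obtain ⟨ha, kap, lam, C, b, hK, hkap⟩ := exists_kinC_kdata hD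
  have hK0 : 0 < ha := hK.1
  obtain ⟨g1, hg1, r1, hr1, H⟩ := QExit837.stmtEXW_win hD hK hkap
  refine ⟨ha, hK0, g1, hg1, r1, hr1, fun γ ρ hl => ?_⟩
  obtain ⟨CW, hCW, HW⟩ := H γ ρ hl
  refine ⟨CW, hCW, fun h0 hh0 hh1 => EvW.of_forall fun h L tw te _ _ _ hw hIH m => ?_⟩
  refine stmtEXW_of_837 (HW h L tw te hw hIH.giv (tw + h0) ?_ (by linarith) m)
  have := hw.nonneg
  linarith

/-- The two remaining inputs of inequality 1 : the reduction to good trees and the long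
connections, along the windows. -/
def RL4In (Φ : Space3 → ℝ) (f₀ : PhasePoint → ℝ) (f : ℝ → PhasePoint → ℝ) (T : ℝ) : Prop :=
  InHL T fun h₀ γ ρ => EvW T fun _ L tw te => IH Φ f₀ f T γ ρ tw →
    StmtRed Φ f₀ tw te (tw + h₀) ∧ StmtLink4 Φ f₀ (epar γ ρ L tw te) (tw + h₀)

/-- **The pointwise form** from the reduction to good trees and the long connections. -/
theorem ptAll_of_rl4 (hD : KData Φ β T f₀ f) (h : RL4In Φ f₀ f T) : PtAll Φ f₀ f T := by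
  obtain ⟨a, ha, g1, hg1, r1, hr1, h⟩ := h
  obtain ⟨b, hb, g2, hg2, r2, hr2, hP⟩ := OneNS423.pieces_evW hD
  obtain ⟨c, hc, g3, hg3, r3, hr3, hX⟩ := exw_evW hD
  refine ⟨min a (min b c), lt_min ha (lt_min hb hc), min g1 (min g2 g3),
    lt_min hg1 (lt_min hg2 hg3), max r1 (max r2 r3), max_lt hr1 (max_lt hr2 hr3),
    fun h₀ h0 hle γ ρ hl => ?_⟩
  have hl1 := hl.mono (min_le_left _ _) (le_max_left _ _)
  have hl' := hl.mono (min_le_right _ _) (le_max_right _ _)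
  have hRL := h h₀ h0 (hle.trans (min_le_left _ _)) γ ρ hl1
  obtain ⟨CN, hCN, C0, hC0, r, hr, hPc⟩ := hP γ ρ (hl'.mono (min_le_left _ _) (le_max_left _ _))
  have hPc := hPc h₀ h0 (hle.trans ((min_le_right _ _).trans (min_le_left _ _)))
  obtain ⟨CW, hCW, hXc⟩ := hX γ ρ (hl'.mono (min_le_right _ _) (le_max_right _ _))
  have hXc := hXc h₀ h0 (hle.trans ((min_le_right _ _).trans (min_le_right _ _)))
  obtain ⟨γ₀, κ, hκ, hγ, hpos, -⟩ := hl.lin
  have hf : Measurable f₀ := hD.contDiff.continuous.measurable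
  have hmass : ∫⁻ z, ENNReal.ofReal (f₀ z) ≤ 1 :=
    (FM167.lintegral_density_eq_one hD.nonneg hD.integrable hD.mass).le
  set g₀ : ℝ := γ₀ - κ * T with hg₀
  set cd : ℝ≥0∞ := Direct658.cD g₀ ρ * ENNReal.ofReal (Unw410.cB Φ) with hcd
  have hcdt : cd ≠ ∞ :=
    ENNReal.mul_ne_top (Direct658.cD_ne_top hpos hl.hi) ENNReal.ofReal_ne_top
  refine ⟨3 * CN.toReal, by positivity, fun m => C0 * r ^ m, ?_, ?_, ?_⟩
  · have := ENNReal.Tendsto.const_mul (a := C0) (ENNReal.tendsto_pow_atTop_nhds_zero_of_lt_one hr)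
      (Or.inr hC0)
    rwa [mul_zero] at this
  · exact fun m => ENNReal.mul_ne_top hC0 (ENNReal.pow_ne_top (hr.trans ENNReal.one_lt_top).ne)
  intro m
  refine ⟨1, ENNReal.one_ne_top, fun y _ => (cd + CW) * ENNReal.ofReal (2 * y), ?_, ?_⟩
  · refine Vanish.const_mul ?_ (ENNReal.add_ne_top.2 ⟨hcdt, hCW⟩)
    exact Vanish.of_length (u := fun y => 2 * y) (by
      have : Tendsto (fun y : ℝ => 2 * y) (𝓝 0) (𝓝 (2 * 0)) :=
        ((continuous_const (y := (2 : ℝ))).mul continuous_id).tendsto (0 : ℝ)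
      rw [mul_zero] at this
      exact this.mono_left nhdsWithin_le_nhds)
  refine ((hRL.and hPc).and hXc).mono fun y L tw te hy hL hw hq hIH => ?_
  obtain ⟨hRed, hLink⟩ := hq.1.1 hIH
  obtain ⟨-, hNS, hXC, hEX⟩ := hq.1.2 hIH
  have hEXW := hq.2 hIH
  have hg : g₀ ≤ γ₀ - κ * te := by
    have := mul_le_mul_of_nonneg_left hw.le_T hκ.le
    linarith
  have hEX0 : StmtEX Φ f₀ (epar γ ρ L tw te) (tw + h₀) 0 C0 := by
    have := hEX 0
    rwa [pow_zero, mul_one] at this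
  have hte : te - tw ≤ y := by
    have := hw.short
    linarith
  obtain ⟨S, hS, hE⟩ := ineq1_pt4 (Q := epar γ ρ L tw te) (T' := tw + h₀) hD.adm hf hmass hγ hκ
    hpos hg hl.hi (zero_lt_one.trans_le hL) hw.nonneg hw.le hy hte m hRed hLink hCN hNS hXC
    (hEX m) (hEXW m) hC0 hEX0 hIH.tn (small_JE hw.nonneg hIH.je)
  refine ⟨S, hS, hE.mono fun K ε _ hh => PtIneq.mono hh fun τ => ?_⟩
  unfold mastA PMn
  set X := XI Φ f₀ ε K (epar γ ρ L tw te)
  set E := aE Φ f₀ ε K (epar γ ρ L tw te)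
  set P := PE Φ f₀ ε K (epar γ ρ L tw te) (Nu0566.nu0 Φ f₀ ε K (epar γ ρ L tw te) (tw + h₀) m)
  have h1 : ENNReal.ofReal (te - tw) ≤ ENNReal.ofReal (2 * y) :=
    ENNReal.ofReal_le_ofReal (by linarith)
  show S K ε τ + ((C0 * r ^ m + CW * ENNReal.ofReal (te - tw)) * X +
    (Direct658.cD g₀ ρ * ENNReal.ofReal (2 * y) * ENNReal.ofReal (Unw410.cB Φ) * E + P)) ≤ _
  calc _ ≤ S K ε τ + ((C0 * r ^ m + CW * ENNReal.ofReal (2 * y)) * X +
        (Direct658.cD g₀ ρ * ENNReal.ofReal (2 * y) * ENNReal.ofReal (Unw410.cB Φ) * E + P)) := by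
        gcongr
    _ ≤ S K ε τ + ((C0 * r ^ m + CW * ENNReal.ofReal (2 * y)) * X +
        (Direct658.cD g₀ ρ * ENNReal.ofReal (2 * y) * ENNReal.ofReal (Unw410.cB Φ) * E + P)) +
          (cd * ENNReal.ofReal (2 * y) * X + CW * ENNReal.ofReal (2 * y) * E) := le_self_add
    _ = _ := by
        rw [hcd]
        ring

/-- **INEQUALITY 1** from the reduction to good trees and the long connections. -/
theorem i1In_of_rl4 (hD : KData Φ β T f₀ f) (h : RL4In Φ f₀ f T) : I1In Φ f₀ f T :=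
  i1In_of_ptAll hD (ptAll_of_rl4 hD h)

end Crest.Agent.R122.Ineq1815

end
end

-- ▼ part R122/Ineq1E_815

/-!
helper815, row 122, INEQUALITY 1: the literal input `Top602.I1In` from its two open parts.

* `I1Parts` : `rtg` = majorants of the bad trees (`RtGWin`, shared with inequality 2),
  `link` = `StmtLink4` in the windows;
* `i1In_of_parts` : `I1Parts → Top602.I1In`; `ptAll_of_parts` for the young lines.
-/

set_option autoImplicit false

open MeasureTheory Set Filter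
open scoped ENNReal Topology
open Crest.AnalysisR.Kinetic
open Crest.Agent.R122.Master566 Crest.Agent.R122.EDefs602 Crest.Agent.R122.Top602
  Crest.Agent.R122.OneC285

noncomputable section

namespace Crest.Agent.R122.Ineq1815

variable {Φ : Space3 → ℝ} {f₀ : PhasePoint → ℝ} {f : ℝ → PhasePoint → ℝ} {β T : ℝ}

/-- `StmtLink4` in the windows. -/
def Link4In (Φ : Space3 → ℝ) (f₀ : PhasePoint → ℝ) (f : ℝ → PhasePoint → ℝ) (T : ℝ) : Prop :=
  InHL T fun h₀ γ ρ => EvW T fun _ L tw te => IH Φ f₀ f T γ ρ tw →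
    StmtLink4 Φ f₀ (epar γ ρ L tw te) (tw + h₀)

/-- The open parts of INEQUALITY 1. -/
structure I1Parts (Φ : Space3 → ℝ) (f₀ : PhasePoint → ℝ) (f : ℝ → PhasePoint → ℝ) (T : ℝ) :
    Prop where
  /-- the majorants of the bad trees -/
  rtg : InHL T fun h₀ γ ρ => InEq2.RtGWin Φ f₀ f T γ ρ h₀
  /-- the long connections -/
  link : Link4In Φ f₀ f T

theorem rl4In_of_parts (hD : KData Φ β T f₀ f) (h : I1Parts Φ f₀ f T) : RL4In Φ f₀ f T :=
  (h.rtg.and h.link).mono fun _ _ _ h0 _ hq =>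
    ((Red674.stmtRed_evW_of_maj hD h0 hq.1).and hq.2).mono fun _ _ _ _ _ _ _ hp hIH =>
      ⟨hp.1 hIH, hp.2 hIH⟩

/-- The pointwise form of INEQUALITY 1 from its open parts. -/
theorem ptAll_of_parts (hD : KData Φ β T f₀ f) (h : I1Parts Φ f₀ f T) : PtAll Φ f₀ f T :=
  ptAll_of_rl4 hD (rl4In_of_parts hD h)

/-- **INEQUALITY 1** from its open parts. -/
theorem i1In_of_parts (hD : KData Φ β T f₀ f) (h : I1Parts Φ f₀ f T) : I1In Φ f₀ f T :=
  i1In_of_rl4 hD (rl4In_of_parts hD h)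



end Crest.Agent.R122.Ineq1815

end
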