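import Crest.Agent.R122.PairStepK_85
import Crest.Agent.R122.Ineq1A_815
import Crest.Agent.R122.Ineq1E_815
import Crest.Agent.R122.TopE_602

-- ▼ part R122/PairIter_566
section

/-!
# Inequality 3, closing part A (row 122, helper566)

* `PELK_le_XI` : crude bound of the pair mass of a spread law by `XI`;
* `iterate` : iteration of a contracting inequality with `Small` errors;
* `iterate6` : iteration of the one-step inequality `Step6` in one window.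
-/

set_option autoImplicit false

open MeasureTheory ProbabilityTheory Set Filter
open scoped ENNReal Classical Topology
open Crest.AnalysisR.Kinetic
open Crest.Agent.R122.GC311 Crest.Agent.R122.EDefs602 Crest.Agent.R122.EBasic602
open Crest.Agent.R122.Boost969 (LSt posAt)
open Crest.Agent.R122.Pair292 hiding ML
open Crest.Agent.R122.PairD292

noncomputable section

namespace Crest.Agent.R122.PairIter566

set_option maxHeartbeats 400000

variable {Φ : Space3 → ℝ} {f₀ : PhasePoint → ℝ} {ε : ℝ} {K : ℕ} {Q : EPar}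

/-! ### Crude bound of the pair mass -/

theorem thetaL_late' {ι : Type} [Fintype ι] (hΦ : AdmissiblePotential Φ) (hε : 0 < ε) {T : ℝ}
    {Z : MW ι} {l : ML} (hT : T < l.1.1) (hm : l.2 ≤ K) : Z.thetaL Φ ε K T l = T + 1 := by
  refine MW.theta_eq_of_not_touched fun r hr => ?_
  refine MW.not_touched_of_no_contact hΦ hε (fun r' hr' x k hc => ?_) ?_
  · have h2 : (Z.add (MW.line l)).b (Sum.inr x) ≤ r' := MW.C_born hc
    have h3 : l.1.1 ≤ r' := h2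
    linarith [hr'.2, hr.2]
  · rw [Finset.univ_unique, Finset.sum_singleton]; exact hm

/-- The pair functional is bounded by the touch functional of the first line. -/
theorem tPK_le (hΦ : AdmissiblePotential Φ) (hε : 0 < ε) (hL : 0 ≤ Q.L) {n : ℕ} (w : Config n)
    (θ : Lab × LSt) : tPK Φ ε K Q w θ ≤
      if θ.2.1 ≤ Q.te then (MW.cfg w).touchW Φ ε K Q (dL θ) else 0 := by
  unfold tPK
  by_cases hO : OkL K θ
  · rw [if_pos hO]
    split_ifs with h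
    · exact touchP_le_touchW hL _ _
    · unfold MW.touchP
      rw [if_neg]
      rintro ⟨_, _, h3⟩
      rw [thetaL_late' hΦ hε (l := eL θ) (not_le.1 h) hO.eK] at h3
      linarith
  · rw [if_neg hO]; exact zero_le

theorem rhs_touch (hΦ : AdmissiblePotential Φ) (hε : 0 < ε) {PP : ℕ → PPar} (hPP : PPOk Q PP)
    {n : ℕ} (w : Config n) :
    (PP K).rhs (fun p : ML × ℝ => (MW.cfg w).touchW Φ ε K Q p.1) =
      (1 + ENNReal.ofReal Q.te) * ∫⁻ l, (MW.cfg w).touchW Φ ε K Q l ∂lineM Q.γ Q.ρ K Q.te := by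
  have hm : Measurable fun l : ML => (MW.cfg w).touchW Φ ε K Q l :=
    (MeasE416.measurable_touchW_cfg hΦ hε K Q n).comp
      (f := fun l : ML => ((w, l) : Config n × ML)) (measurable_const.prodMk measurable_id)
  unfold PPar.rhs
  rw [hPP.ell K, hPP.hor K]
  have h2 : ∀ l : ML, ∫⁻ _s in Icc 0 Q.te, (MW.cfg w).touchW Φ ε K Q l =
      ENNReal.ofReal Q.te * (MW.cfg w).touchW Φ ε K Q l := by
    intro l
    rw [setLIntegral_const, Real.volume_Icc, sub_zero, mul_comm]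
  simp only [h2]
  rw [lintegral_const_mul _ hm]
  ring

theorem lintegral_tPK_le (hΦ : AdmissiblePotential Φ) (hε : 0 < ε) (hL : 0 ≤ Q.L)
    {PP : ℕ → PPar} (hPP : PPOk Q PP) {Ξ ν : Measure (Lab × LSt)} {c : ℝ≥0∞}
    (h : PX (PP K) Ξ ν c) {n : ℕ} (w : Config n) :
    ∫⁻ θ, tPK Φ ε K Q w θ ∂ν ≤ volume (Metric.ball (0 : Space3) 1) *
      (c * ((1 + ENNReal.ofReal Q.te) *
        ∫⁻ l, (MW.cfg w).touchW Φ ε K Q l ∂lineM Q.γ Q.ρ K Q.te)) := by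
  have hm : Measurable fun l : ML => (MW.cfg w).touchW Φ ε K Q l :=
    (MeasE416.measurable_touchW_cfg hΦ hε K Q n).comp
      (f := fun l : ML => ((w, l) : Config n × ML)) (measurable_const.prodMk measurable_id)
  have hFm : Measurable fun p : ML × ℝ => (MW.cfg w).touchW Φ ε K Q p.1 := hm.comp measurable_fst
  rw [← rhs_touch hΦ hε hPP w]
  refine h.le_rhs (G := fun θ => tPK Φ ε K Q w θ) hFm fun p => ?_
  rw [hPP.hor K]
  exact tPK_le hΦ hε hL w p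

/-- **Crude bound of the pair mass of a spread law.** -/
theorem PELK_le_XI (hΦ : AdmissiblePotential Φ) (hf : Measurable f₀) (hε : 0 < ε) (hL : 0 ≤ Q.L)
    (hγ : Measurable Q.γ) {PP : ℕ → PPar} (hPP : PPOk Q PP) {Ξ ν : Measure (Lab × LSt)} {c : ℝ≥0∞}
    (hc : c ≠ ∞) (h : PX (PP K) Ξ ν c) :
    PELK Φ f₀ ε K Q ν ≤ volume (Metric.ball (0 : Space3) 1) *
      (c * (1 + ENNReal.ofReal Q.te)) * XI Φ f₀ ε K Q := by
  have hVt : volume (Metric.ball (0 : Space3) 1) * (c * (1 + ENNReal.ofReal Q.te)) ≠ ∞ :=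
    ENNReal.mul_ne_top measure_ball_lt_top.ne
    (ENNReal.mul_ne_top hc (ENNReal.add_ne_top.2 ⟨ENNReal.one_ne_top, ENNReal.ofReal_ne_top⟩))
  have hTM : TouchMeas Φ ε K Q := fun n => MeasE416.measurable_touchW_cfg hΦ hε K Q n
  have e1 := gcE_const_mul f₀ ε hVt (F := fun _ w =>
    ∫⁻ l, (MW.cfg w).touchW Φ ε K Q l ∂lineM Q.γ Q.ρ K Q.te)
  rw [XI_eq hf hγ hTM, ← e1]
  unfold PELK
  refine gcE_mono f₀ ε fun n w _ => ?_
  refine (lintegral_tPK_le hΦ hε hL hPP h w).trans (le_of_eq ?_)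
  ring

/-! ### Iteration with `Small` errors -/

/-- **Iteration of a contracting inequality.** -/
theorem iterate {R : ℕ → ℝ → ℝ≥0∞} {c r0 : ℝ≥0∞} {p : ℕ → ℕ → ℝ → ℝ≥0∞}
    (hstep : ∀ j, ∃ S : ℕ → ℝ → ℝ≥0∞, Small S ∧ Ev fun K ε =>
      p j K ε ≤ r0 ^ j * c * R K ε + p (j + 1) K ε + S K ε) (M : ℕ) :
    ∃ S : ℕ → ℝ → ℝ≥0∞, Small S ∧ Ev fun K ε =>
      p 0 K ε ≤ c * (∑ j ∈ Finset.range M, r0 ^ j) * R K ε + p M K ε + S K ε := by
  induction M with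
  | zero =>
    refine ⟨fun _ _ => 0, Small.zero, Ev.of_forall fun K ε _ => ?_⟩
    simp
  | succ M ih =>
    obtain ⟨S, hS, h⟩ := ih
    obtain ⟨S', hS', h'⟩ := hstep M
    refine ⟨fun K ε => S K ε + S' K ε, hS.add hS', (h.and h').mono fun K ε _ hh => ?_⟩
    refine hh.1.trans ?_
    calc c * (∑ j ∈ Finset.range M, r0 ^ j) * R K ε + p M K ε + S K ε
        ≤ c * (∑ j ∈ Finset.range M, r0 ^ j) * R K ε +
          (r0 ^ M * c * R K ε + p (M + 1) K ε + S' K ε) + S K ε := by gcongr; exact hh.2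
      _ = _ := by
          rw [Finset.sum_range_succ]
          ring

theorem sum_geom_le {r0 : ℝ≥0∞} (h : r0 ≤ 2⁻¹) (M : ℕ) : ∑ j ∈ Finset.range M, r0 ^ j ≤ 2 := by
  calc ∑ j ∈ Finset.range M, r0 ^ j ≤ ∑ j ∈ Finset.range M, (2⁻¹ : ℝ≥0∞) ^ j :=
        Finset.sum_le_sum fun j _ => pow_le_pow_left' h j
    _ ≤ ∑' j : ℕ, (2⁻¹ : ℝ≥0∞) ^ j := ENNReal.sum_le_tsum _
    _ = 2 := by
        rw [ENNReal.tsum_geometric]
        norm_num

/-! ### Iteration of the one-step inequality -/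

theorem tPK_eq_zero (h : Q.te ≤ Q.tw) {n : ℕ} (w : Config n) (θ : Lab × LSt) :
    tPK Φ ε K Q w θ = 0 := by
  unfold tPK
  split_ifs
  · unfold MW.touchP
    rw [if_neg]
    rintro ⟨h1, h2, h3⟩
    linarith
  · rfl

theorem PELK_eq_zero (h : Q.te ≤ Q.tw) (ν : Measure (Lab × LSt)) : PELK Φ f₀ ε K Q ν = 0 := by
  unfold PELK
  simp only [tPK_eq_zero h, lintegral_zero]
  exact gcE_zero f₀ ε

set_option maxHeartbeats 800000 in
/-- **Iteration of the one-step inequality in one window.** -/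
theorem iterate6 {T' r b₀ : ℝ} {q : ℕ → ℕ → ℝ≥0∞} {PP : ℕ → PPar} {bd : ℕ → ℝ → SF2}
    {C₁ C₂ : ℝ≥0∞} (hΦ : AdmissiblePotential Φ) (hf : Measurable f₀) (hγ : Measurable Q.γ)
    (hL : 0 ≤ Q.L) (hPP : PPOk Q PP) {Kd : ℕ → ℝ → Kernel (Lab × LSt) (Lab × LSt)} {r0 : ℝ≥0∞}
    (hr0 : r0 ≤ 2⁻¹) (hK : ∀ K ε, 0 < ε → StepK (PP K) (K3 Φ ε b₀ Q.te (q K)) (Kd K ε) r0)
    (hS : Step6 Φ f₀ Q T' r b₀ q PP bd C₁ C₂) {Ξ ν : ℕ → ℝ → Measure (Lab × LSt)} {c : ℝ≥0∞}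
    (hc : c ≠ ∞) (hPX : ∀ K ε, 0 < ε → PX (PP K) (Ξ K ε) (ν K ε) c)
    (hsg : ∀ j K ε, 0 < ε → ∀ᵐ θ : Lab × LSt ∂(bindN (ν K ε) (K3 Φ ε b₀ Q.te (q K)) j),
      0 ≤ sig θ.1 ∧ sig θ.1 ≤ θ.2.1)
    (hN : ∀ j, NullFacts Φ f₀ Q T' bd fun K ε => bindN (ν K ε) (K3 Φ ε b₀ Q.te (q K)) j)
    (M : ℕ) : ∃ S : ℕ → ℝ → ℝ≥0∞, Small S ∧ Ev fun K ε =>
      PELK Φ f₀ ε K Q (ν K ε) ≤ 2 * c * (C₁ * XI Φ f₀ ε K Q +
        C₂ * XJ Φ f₀ ε K Q (Ioc (max 0 (Q.tw - r)) Q.te)) +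
        2⁻¹ ^ M * (volume (Metric.ball (0 : Space3) 1) * (c * (1 + ENNReal.ofReal Q.te))) *
          XI Φ f₀ ε K Q + S K ε := by
  rcases le_or_gt Q.te Q.tw with hw | hw
  · exact ⟨fun _ _ => 0, Small.zero, Ev.of_forall fun K ε _ => by
      rw [PELK_eq_zero hw]; exact zero_le⟩
  have hr0t : r0 ≠ ∞ := ne_top_of_le_ne_top (by norm_num) hr0
  have hr1 : r0 ≤ 1 := hr0.trans (by norm_num)
  obtain ⟨S₀, hS₀, hstep⟩ := hS
  have hPXj : ∀ j K ε, 0 < ε → PX (PP K) (bindN (Ξ K ε) (Kd K ε) j)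
      (bindN (ν K ε) (K3 Φ ε b₀ Q.te (q K)) j) (r0 ^ j * c) := fun j K ε hε =>
    (hPX K ε hε).bindN (hK K ε hε) j
  have h1 := iterate (r0 := r0) (c := c)
    (R := fun K ε => C₁ * XI Φ f₀ ε K Q + C₂ * XJ Φ f₀ ε K Q (Ioc (max 0 (Q.tw - r)) Q.te))
    (p := fun j K ε => PELK Φ f₀ ε K Q (bindN (ν K ε) (K3 Φ ε b₀ Q.te (q K)) j))
    (fun j => by
      refine ⟨fun K ε => r0 ^ j * c * S₀ K ε +
        (BAD Φ f₀ ε K Q (bindN (ν K ε) (K3 Φ ε b₀ Q.te (q K)) j) +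
          OS2 Φ f₀ ε Q.te T' (bindN (ν K ε) (K3 Φ ε b₀ Q.te (q K)) j)
            (fun P z m w θ => uG Φ ε Q.tw K P z w θ * bd K ε P z m w θ)),
        (hS₀.const_mul (ENNReal.mul_ne_top (ENNReal.pow_ne_top hr0t) hc)).add
          ((hN j).bad.add (hN j).link).small, ?_⟩
      refine (EvK.of_eps (lt_min one_pos (pow_pos (sub_pos.2 hw) 2)) fun K ε hε hε1 => ?_).ev
      have hsl : slk ε ≤ Q.te - Q.tw :=
        Real.sqrt_le_iff.2 ⟨(sub_pos.2 hw).le, hε1.le.trans (min_le_right _ _)⟩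
      have h2 := hstep K ε hε (hε1.le.trans (min_le_left _ _)) hsl
        _ _ _ (hPXj j K ε hε) (hsg j K ε hε) ((hN j).ok K ε hε)
      refine h2.trans (le_of_eq ?_)
      change _ = r0 ^ j * c * _ + PELK Φ f₀ ε K Q
        ((bindN (ν K ε) (K3 Φ ε b₀ Q.te (q K)) j).bind (K3 Φ ε b₀ Q.te (q K))) + _
      ring) M
  obtain ⟨S, hSs, hE⟩ := h1
  refine ⟨S, hSs, hE.mono fun K ε hε h2 => ?_⟩
  have h3 : PELK Φ f₀ ε K Q (bindN (ν K ε) (K3 Φ ε b₀ Q.te (q K)) M) ≤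
      2⁻¹ ^ M * (volume (Metric.ball (0 : Space3) 1) * (c * (1 + ENNReal.ofReal Q.te))) *
        XI Φ f₀ ε K Q := by
    refine (PELK_le_XI hΦ hf hε hL hγ hPP (ENNReal.mul_ne_top (ENNReal.pow_ne_top hr0t) hc)
      (hPXj M K ε hε)).trans ?_
    calc volume (Metric.ball (0 : Space3) 1) * (r0 ^ M * c * (1 + ENNReal.ofReal Q.te)) *
          XI Φ f₀ ε K Q
        = r0 ^ M * (volume (Metric.ball (0 : Space3) 1) * (c * (1 + ENNReal.ofReal Q.te))) *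
          XI Φ f₀ ε K Q := by ring
      _ ≤ _ := mul_le_mul_left (mul_le_mul_left (pow_le_pow_left' hr0 M) _) _
  calc PELK Φ f₀ ε K Q (ν K ε)
      ≤ c * (∑ j ∈ Finset.range M, r0 ^ j) * (C₁ * XI Φ f₀ ε K Q +
          C₂ * XJ Φ f₀ ε K Q (Ioc (max 0 (Q.tw - r)) Q.te)) +
        PELK Φ f₀ ε K Q (bindN (ν K ε) (K3 Φ ε b₀ Q.te (q K)) M) + S K ε := h2
    _ ≤ c * 2 * (C₁ * XI Φ f₀ ε K Q +
          C₂ * XJ Φ f₀ ε K Q (Ioc (max 0 (Q.tw - r)) Q.te)) +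
        2⁻¹ ^ M * (volume (Metric.ball (0 : Space3) 1) * (c * (1 + ENNReal.ofReal Q.te))) *
          XI Φ f₀ ε K Q + S K ε :=
        add_le_add (add_le_add (mul_le_mul_left (mul_le_mul_right (sum_geom_le hr0 M) _) _) h3)
          le_rfl
    _ = _ := by ring

end Crest.Agent.R122.PairIter566
end
end

-- ▼ part R122/PairClose_566
section

/-!
# Inequality 3, closing part B (row 122, helper566)

* `Base3` : the base law of a window and its null facts;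
* `ineq3_of` : `Top602.Ineq3` from the one-step inequality `Step6` of all windows, the base law, the
  step property of the continuation kernels and the pointwise inequality 1 (young lines).
-/

set_option autoImplicit false

open MeasureTheory ProbabilityTheory Set Filter
open scoped ENNReal Classical Topology
open Crest.AnalysisR.Kinetic
open Crest.Agent.R122.GC311 Crest.Agent.R122.EDefs602 Crest.Agent.R122.EBasic602
open Crest.Agent.R122.Boost969 (LSt posAt)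
open Crest.Agent.R122.Pair292 hiding ML
open Crest.Agent.R122.PairD292 Crest.Agent.R122.Top602 Crest.Agent.R122.Ineq1815
open Crest.Agent.R122.Master566 (KData)

noncomputable section

namespace Crest.Agent.R122.PairIter566

set_option maxHeartbeats 400000

variable {Φ : Space3 → ℝ} {β T : ℝ} {f₀ : PhasePoint → ℝ} {f : ℝ → PhasePoint → ℝ}

/-- **The base law of one window**: a family `ν K ε` of the class with constant `c`, which dominates
the pair mass up to `Small` errors, together with the null facts of all its continuations. -/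
def Base3 (Φ : Space3 → ℝ) (f₀ : PhasePoint → ℝ) (Q : EPar) (T' b₀ : ℝ) (q : ℕ → ℕ → ℝ≥0∞)
    (PP : ℕ → PPar) (bd : ℕ → ℝ → SF2) (c : ℝ≥0∞) (PM : ℕ → ℝ → ℝ≥0∞) : Prop :=
  ∃ Ξ ν : ℕ → ℝ → Measure (Lab × LSt),
    (∀ K ε, 0 < ε → PX (PP K) (Ξ K ε) (ν K ε) c) ∧
    (∃ S : ℕ → ℝ → ℝ≥0∞, Small S ∧ Ev fun K ε => PM K ε ≤ PELK Φ f₀ ε K Q (ν K ε) + S K ε) ∧
    (∀ j K ε, 0 < ε → ∀ᵐ θ : Lab × LSt ∂(bindN (ν K ε) (K3 Φ ε b₀ Q.te (q K)) j),
      0 ≤ sig θ.1 ∧ sig θ.1 ≤ θ.2.1) ∧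
    ∀ j, NullFacts Φ f₀ Q T' bd fun K ε => bindN (ν K ε) (K3 Φ ε b₀ Q.te (q K)) j

theorem tendsto_half : Tendsto (fun r : ℝ => r / 2) (𝓝[>] 0) (𝓝[>] 0) := by
  refine tendsto_nhdsWithin_iff.2 ⟨?_, ?_⟩
  · have h : Tendsto (fun r : ℝ => r / 2) (𝓝 0) (𝓝 (0 / 2)) :=
      (continuous_id.div_const 2).tendsto 0
    rw [zero_div] at h
    exact h.mono_left nhdsWithin_le_nhds
  · filter_upwards [self_mem_nhdsWithin] with r hr
    exact half_pos (show (0 : ℝ) < r from hr)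

theorem sqrt_add_le' {a b : ℝ} (ha : 0 ≤ a) (hb : 0 ≤ b) : √(a + b) ≤ √a + √b := by
  refine Real.sqrt_le_iff.2 ⟨add_nonneg (Real.sqrt_nonneg _) (Real.sqrt_nonneg _), ?_⟩
  have h1 := Real.sq_sqrt ha
  have h2 := Real.sq_sqrt hb
  have h3 := mul_nonneg (Real.sqrt_nonneg a) (Real.sqrt_nonneg b)
  nlinarith

/-- **INEQUALITY 3** from its inputs. -/
theorem ineq3_of (hD : KData Φ β T f₀ f) {γ : ℝ → ℝ} {ρ : ℝ≥0∞} {g1 : ℝ} {r1 : ℝ≥0∞}
    (hl : LinePar g1 r1 T γ ρ) {PM : PMass} (hPt : PtIn Φ f₀ f T γ ρ PM) {h₀ b₀ : ℝ}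
    {q : ℕ → ℕ → ℝ≥0∞} {PP : ℝ → ℕ → PPar}
    (hPP : ∀ L tw te : ℝ, te ≤ T → PPOk (epar γ ρ L tw te) (PP te))
    {Kd : ℕ → ℝ → Kernel (Lab × LSt) (Lab × LSt)} {r0 : ℝ≥0∞} (hr0 : r0 ≤ 2⁻¹)
    (hK : ∀ te, te ≤ T → ∀ K ε, 0 < ε → StepK (PP te K) (K3 Φ ε b₀ te (q K)) (Kd K ε) r0)
    {C₂ : ℝ≥0∞} (hC₂ : C₂ ≠ ∞) {σ₁ : ℝ → ℝ≥0∞} (hσ₁ : Tendsto σ₁ (𝓝[>] 0) (𝓝 0))
    (hSB : ∀ m : ℕ, ∃ c : ℝ≥0∞, c ≠ ∞ ∧ ∀ r : ℝ, 0 < r → r < 1 → ∃ o₁ : ℝ → ℝ → ℝ≥0∞,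
      Vanish o₁ ∧ EvW T fun h L tw te => IH Φ f₀ f T γ ρ tw → ∃ bd : ℕ → ℝ → SF2,
        Step6 Φ f₀ (epar γ ρ L tw te) (tw + h₀) r b₀ q (PP te) bd (σ₁ r + o₁ h L) C₂ ∧
        Base3 Φ f₀ (epar γ ρ L tw te) (tw + h₀) b₀ q (PP te) bd c (PM m L tw te)) :
    Ineq3 Φ f₀ f T γ ρ PM := by
  have hf : Measurable f₀ := hD.contDiff.continuous.measurable
  intro m
  obtain ⟨c, hc, hBm⟩ := hSB m
  obtain ⟨Cy, hCy, hY⟩ := youngX_of_ptIn hD hl hPt m
  set V : ℝ≥0∞ := volume (Metric.ball (0 : Space3) 1) * (c * (1 + ENNReal.ofReal T)) with hV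
  have hVt : V ≠ ∞ := ENNReal.mul_ne_top measure_ball_lt_top.ne
    (ENNReal.mul_ne_top hc (ENNReal.add_ne_top.2 ⟨ENNReal.one_ne_top, ENNReal.ofReal_ne_top⟩))
  have h2c : 2 * c ≠ ∞ := ENNReal.mul_ne_top (by norm_num) hc
  have hcy : 2 * c * (C₂ * Cy) ≠ ∞ := ENNReal.mul_ne_top h2c (ENNReal.mul_ne_top hC₂ hCy)
  refine ⟨fun r => 2 * c * σ₁ (r / 2) + (2 * c * (C₂ * Cy) * ENNReal.ofReal (√(r / 2)) +
    ENNReal.ofReal r * V), ?_, fun r hr hr1 => ?_⟩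
  · have e1 : Tendsto (fun r : ℝ => 2 * c * σ₁ (r / 2)) (𝓝[>] 0) (𝓝 0) := by
      have := ENNReal.Tendsto.const_mul (a := 2 * c) (hσ₁.comp tendsto_half) (Or.inr h2c)
      rwa [mul_zero] at this
    have e2 : Tendsto (fun r : ℝ => 2 * c * (C₂ * Cy) * ENNReal.ofReal (√(r / 2))) (𝓝[>] 0)
        (𝓝 0) := by
      have h0 : Tendsto (fun r : ℝ => ENNReal.ofReal (√(r / 2))) (𝓝[>] 0) (𝓝 0) := by
        have h1 : Tendsto (fun r : ℝ => ENNReal.ofReal (√(r / 2))) (𝓝 0)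
            (𝓝 (ENNReal.ofReal (√(0 / 2)))) :=
          (ENNReal.continuous_ofReal.comp
            (Real.continuous_sqrt.comp (continuous_id.div_const 2))).tendsto 0
        rw [zero_div, Real.sqrt_zero, ENNReal.ofReal_zero] at h1
        exact h1.mono_left nhdsWithin_le_nhds
      have := ENNReal.Tendsto.const_mul (a := 2 * c * (C₂ * Cy)) h0 (Or.inr hcy)
      rwa [mul_zero] at this
    have e3 : Tendsto (fun r : ℝ => ENNReal.ofReal r * V) (𝓝[>] 0) (𝓝 0) := by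
      have h0 : Tendsto (fun r : ℝ => ENNReal.ofReal r) (𝓝[>] 0) (𝓝 0) := by
        have h1 := ENNReal.continuous_ofReal.tendsto 0
        rw [ENNReal.ofReal_zero] at h1
        exact h1.mono_left nhdsWithin_le_nhds
      have := ENNReal.Tendsto.mul_const (b := V) h0 (Or.inr hVt)
      rwa [zero_mul] at this
    have := e1.add (e2.add e3)
    simpa using this
  have hr2 : 0 < r / 2 := half_pos hr
  have hr2' : r / 2 < 1 := by linarith
  obtain ⟨o₁, ho₁, hSr⟩ := hBm (r / 2) hr2 hr2'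
  obtain ⟨M, hM⟩ : ∃ M : ℕ, (2⁻¹ : ℝ≥0∞) ^ M ≤ ENNReal.ofReal r := by
    have h1 := ENNReal.tendsto_pow_atTop_nhds_zero_of_lt_one (r := 2⁻¹) (by norm_num)
    have h2 : (0 : ℝ≥0∞) < ENNReal.ofReal r := ENNReal.ofReal_pos.2 hr
    exact ((h1.eventually (gt_mem_nhds h2)).exists).imp fun _ h => le_of_lt h
  refine ⟨fun h L => 2 * c * o₁ h L + 2 * c * (C₂ * Cy) * ENNReal.ofReal (√h),
    (ho₁.const_mul h2c).add (Vanish.sqrt_length.const_mul hcy), ?_⟩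
  refine (hSr.and (hY (r / 2) hr2.le hr2')).mono fun h L tw te hh hL1 hw hq hIH => ?_
  obtain ⟨hq1, hq3⟩ := hq
  obtain ⟨bd, hq1, hq2⟩ := hq1 hIH
  have hL0 : 0 ≤ (epar γ ρ L tw te).L := zero_le_one.trans hL1
  obtain ⟨Ξ, ν, hPX, ⟨S₁, hS₁, hE₁⟩, hsg, hN⟩ := hq2
  obtain ⟨S₂, hS₂, hE₂⟩ := iterate6 (Q := epar γ ρ L tw te) hD.adm hf hl.measurable hL0
    (hPP L tw te hw.le_T) hr0 (hK te hw.le_T) hq1 hc hPX hsg hN M
  obtain ⟨S₃, hS₃, hE₃⟩ := hq3 hIH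
  refine ⟨fun K ε => S₁ K ε + (S₂ K ε + 2 * c * (C₂ * S₃ K ε)), hS₁.add (hS₂.add
    ((hS₃.const_mul hC₂).const_mul h2c)), (hE₁.and (hE₂.and hE₃)).mono fun K ε hε hh => ?_⟩
  obtain ⟨h1, h2, h3⟩ := hh
  set X := XI Φ f₀ ε K (epar γ ρ L tw te) with hX
  set A := aE Φ f₀ ε K (epar γ ρ L tw te) with hA
  set P := PM m L tw te K ε with hP
  set J := XJ Φ f₀ ε K (epar γ ρ L tw te) (Ioc (max 0 (tw - r / 2)) te) with hJ
  have hXle : X ≤ X + A + P := le_self_add.trans le_self_add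
  have hsq : ENNReal.ofReal (√(r / 2 + h)) ≤ ENNReal.ofReal (√(r / 2)) + ENNReal.ofReal (√h) := by
    rw [← ENNReal.ofReal_add (Real.sqrt_nonneg _) (Real.sqrt_nonneg _)]
    exact ENNReal.ofReal_le_ofReal (sqrt_add_le' hr2.le hh.le)
  have hteT : (1 + ENNReal.ofReal (epar γ ρ L tw te).te) ≤ 1 + ENNReal.ofReal T :=
    add_le_add le_rfl (ENNReal.ofReal_le_ofReal hw.le_T)
  have hJle : J ≤ S₃ K ε + Cy * (ENNReal.ofReal (√(r / 2)) + ENNReal.ofReal (√h)) *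
      (X + A + P) := h3.trans (add_le_add le_rfl (mul_le_mul_left (mul_le_mul_right hsq _) _))
  calc P ≤ PELK Φ f₀ ε K (epar γ ρ L tw te) (ν K ε) + S₁ K ε := h1
    _ ≤ (2 * c * ((σ₁ (r / 2) + o₁ h L) * X + C₂ * J) +
          2⁻¹ ^ M * (volume (Metric.ball (0 : Space3) 1) *
            (c * (1 + ENNReal.ofReal (epar γ ρ L tw te).te))) * X + S₂ K ε) + S₁ K ε :=
        add_le_add h2 le_rfl
    _ ≤ (2 * c * ((σ₁ (r / 2) + o₁ h L) * (X + A + P) + C₂ * (S₃ K ε +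
          Cy * (ENNReal.ofReal (√(r / 2)) + ENNReal.ofReal (√h)) * (X + A + P))) +
          ENNReal.ofReal r * V * (X + A + P) + S₂ K ε) + S₁ K ε := by
        refine add_le_add (add_le_add (add_le_add ?_ ?_) le_rfl) le_rfl
        · exact mul_le_mul_right (add_le_add (mul_le_mul_right hXle _)
            (mul_le_mul_right hJle _)) _
        · exact mul_le_mul' (mul_le_mul' hM (mul_le_mul_right (mul_le_mul_right hteT _) _)) hXle
    _ = _ := by ring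

end Crest.Agent.R122.PairIter566
end
end

-- ▼ part R122/I3In_566
section

/-!
# Inequality 3: constants and windows (row 122, helper566)

* `Adm3` : admissible constants of inequality 3; `exists_adm3` : they exist for all small horizons and
  all line parameters.
* `parW` : class parameters of the window end `te`.
* `SlotSB` : the literal slot (one-step inequality, base law); `i3In_of_slots`.
-/

set_option autoImplicit false

open MeasureTheory ProbabilityTheory Set Filter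
open scoped ENNReal Classical Topology
open Crest.AnalysisR.Kinetic
open Crest.Agent.R122.GC311 Crest.Agent.R122.EDefs602 Crest.Agent.R122.EBasic602
open Crest.Agent.R122.Boost969 (LSt posAt)
open Crest.Agent.R122.Pair292 hiding ML
open Crest.Agent.R122.PairD292 Crest.Agent.R122.Top602 Crest.Agent.R122.Ineq1815
open Crest.Agent.R122.Master566 (KData)
open Crest.Agent.R122.Mark307 (BPar)
open Crest.Agent.R122.CaseC658 (qK)
open Crest.Agent.R122.PairIter566 (Base3 ineq3_of)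

noncomputable section

namespace Crest.Agent.R122.I3In566

set_option maxHeartbeats 400000

variable {Φ : Space3 → ℝ} {β T : ℝ} {f₀ : PhasePoint → ℝ} {f : ℝ → PhasePoint → ℝ}

/-- **Admissible constants** of inequality 3, for the line parameters `γ`, `ρ` and the horizon
`h₀` : constants `kap`, `lam`, `C`, `B.b₀` of the kinetic bounds, lower rate `g` of the line
measure, class parameters `B`. -/
structure Adm3 (Φ : Space3 → ℝ) (β T : ℝ) (f : ℝ → PhasePoint → ℝ) (γ : ℝ → ℝ) (ρ : ℝ≥0∞)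
    (h₀ kap lam C g : ℝ) (B : BPar) : Prop where
  /-- admissible class parameters -/
  ok : B.Ok
  /-- kinetic constants -/
  kin : Seg814.KinC Φ T f h₀ kap lam C B.b₀
  /-- energy weight -/
  kap_le : kap ≤ β
  /-- horizons `T' = tw + h₀` are allowed -/
  hor : T + h₀ ≤ B.T
  /-- rate of the class below the rate `2 * β` of `f₀` -/
  bs : B.bs ≤ β
  /-- line rate -/
  gam : B.γ = γ
  /-- mark factor -/
  rho : B.ρ = ρ
  /-- mark weight -/
  lam1 : 1 < B.lam₁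
  /-- mark weight and mark factor -/
  rl : B.ρ * B.lam₁ < 1
  /-- weight above the fourth power of the velocity -/
  v4 : ∃ Cv : ℝ≥0∞, Cv ≠ ∞ ∧ ∀ z : LSt, z.1 ≤ B.T →
    ENNReal.ofReal ((1 + ‖z.2.2‖) ^ 4) ≤ Cv * B.W z
  /-- positive lower rate -/
  g0 : 0 < g
  /-- fresh partners are slower than the lower rate -/
  bg : B.b₀ ≤ g
  /-- lower rate -/
  rate : ∀ τ : ℝ, τ ≤ T → g ≤ γ τ
  /-- contraction constant of the continuation kernels -/
  cst : ∀ K, 3 * (B.lam * ∑' m, B.lam₁ ^ m * qK C lam K m) ≤ 2⁻¹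

theorem kinC_hor {h₀ h₁ kap lam C b : ℝ} (h : Seg814.KinC Φ T f h₁ kap lam C b) (h0 : 0 < h₀)
    (hle : h₀ ≤ h₁) : Seg814.KinC Φ T f h₀ kap lam C b := by
  obtain ⟨h1, h2, h3, h4, h5, h6⟩ := h
  exact ⟨h0, h2, h3, h4, h5, fun tw htw t ht =>
    h6 tw htw t ⟨ht.1, ht.2.trans (add_le_add le_rfl hle)⟩⟩

/-- **The constants exist.** -/
theorem exists_adm3 (hD : KData Φ β T f₀ f) :
    InHL T fun h₀ γ ρ => h₀ ≤ 1 ∧ ∃ (kap lam C g : ℝ) (B : BPar), Adm3 Φ β T f γ ρ h₀ kap lam C g B := by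
  obtain ⟨h₁, kap, lam, C, b, hK, hkap⟩ := Q1815.exists_kinC_kdata hD
  obtain ⟨hh₁, -, hlam, hC, hb, -⟩ := id hK
  refine ⟨min h₁ 1, lt_min hh₁ one_pos, β, hD.beta_pos, 2⁻¹, by norm_num,
    fun h₀ h0 hle γ ρ hl => ⟨hle.trans (min_le_right _ _), ?_⟩⟩
  obtain ⟨γ₀, κ, hκ, hγ, hpos, hγ₀⟩ := hl.lin
  set g : ℝ := γ₀ - κ * T with hg
  have hρ0 : ρ ≠ 0 := by
    have h1 : (2⁻¹ : ℝ≥0∞) ≤ ρ := hl.lo
    intro h2
    rw [h2] at h1
    simp at h1
  have hρ1 : ρ < 1 := hl.hi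
  have hρt : ρ ≠ ∞ := (hρ1.trans_le le_top).ne
  have hbβ : min (min b g) β ≤ β := min_le_right _ _
  have hb' : 0 < min (min b g) β := lt_min (lt_min hb hpos) hD.beta_pos
  -- the mark weight
  obtain ⟨lam₁, hl1, hl2, hl3⟩ : ∃ lam₁ : ℝ, 1 < lam₁ ∧ lam₁ < lam ∧
      ρ * ENNReal.ofReal lam₁ < 1 := by
    have hρr : ρ.toReal < 1 := by
      have := (ENNReal.toReal_lt_toReal hρt ENNReal.one_ne_top).2 hρ1
      simpa using this
    have hρp : 0 < ρ.toReal := ENNReal.toReal_pos hρ0 hρt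
    have h1 : 1 < min lam (1 / ρ.toReal) := by
      refine lt_min hlam ?_
      rw [lt_div_iff₀ hρp, one_mul]
      exact hρr
    obtain ⟨x, hx1, hx2⟩ := exists_between h1
    refine ⟨x, hx1, hx2.trans_le (min_le_left _ _), ?_⟩
    have h2 : x < 1 / ρ.toReal := hx2.trans_le (min_le_right _ _)
    have h3 : ρ.toReal * x < 1 := by
      rw [lt_div_iff₀ hρp] at h2
      linarith
    rw [← ENNReal.ofReal_toReal hρt, ← ENNReal.ofReal_mul hρp.le, ← ENNReal.ofReal_one]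
    exact (ENNReal.ofReal_lt_ofReal_iff one_pos).2 h3
  have hγs : ∀ τ ∈ Ioc 0 (T + 1), γ τ ≤ β := by
    intro τ hτ
    rw [hγ]
    have := mul_pos hκ hτ.1
    simp only
    linarith
  obtain ⟨B, hB, hBT, hBb, hBs, hBγ, hBρ, hBl, hB4, hBc⟩ := StepK85.exists_B (C := C)
    (T := T + 1) (b₀ := min (min b g) β) (bs := β) (lam := lam) (lam₁ := lam₁) (γ := γ) (ρ := ρ)
    (by linarith [hD.T_pos]) hb' hbβ hl1 hl2 hl.measurable hγs hρ0 hρ1.le (θ := 2⁻¹)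
    (by norm_num)
  refine ⟨kap, lam, C, g, B, hB, ?_, hkap, ?_, hBs.le, hBγ, hBρ, ?_, ?_, hB4, hpos, ?_, ?_,
    hBc⟩
  · rw [hBb]
    exact StepK85.kinC_mono (kinC_hor hK h0 (hle.trans (min_le_left _ _))) hb'
      ((min_le_left _ _).trans (min_le_left _ _))
  · rw [hBT]
    linarith [hle.trans (min_le_right h₁ 1)]
  · rw [hBl, ← ENNReal.ofReal_one]
    exact (ENNReal.ofReal_lt_ofReal_iff (by linarith)).2 hl1
  · rw [hBρ, hBl]
    exact hl3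
  · rw [hBb]
    exact (min_le_left _ _).trans (min_le_right _ _)
  · intro τ hτ
    rw [hγ, hg]
    have := mul_le_mul_of_nonneg_left hτ hκ.le
    simp only
    linarith

/-! ### Class parameters of a window -/

/-- Class parameters with the line measure at horizon `te` (at `B.T` if `te > B.T`). -/
def parW (B : BPar) (hB : B.Ok) (te : ℝ) : ℕ → PPar :=
  if h : te ≤ B.T then StepK85.parB B hB h else StepK85.parB B hB le_rfl

theorem parW_of_le {B : BPar} (hB : B.Ok) {te : ℝ} (h : te ≤ B.T) :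
    parW B hB te = StepK85.parB B hB h := dif_pos h

section adm

variable {γ : ℝ → ℝ} {ρ : ℝ≥0∞} {h₀ kap lam C g : ℝ} {B : BPar}

theorem Adm3.h0 (h : Adm3 Φ β T f γ ρ h₀ kap lam C g B) : 0 < h₀ := h.kin.1



theorem Adm3.b0 (h : Adm3 Φ β T f γ ρ h₀ kap lam C g B) : 0 < B.b₀ := h.ok.b0

theorem Adm3.le_BT (h : Adm3 Φ β T f γ ρ h₀ kap lam C g B) {te : ℝ} (hte : te ≤ T) :
    te ≤ B.T := by linarith [h.hor, h.h0]

theorem Adm3.ppOk (h : Adm3 Φ β T f γ ρ h₀ kap lam C g B) {L tw te : ℝ} (hte : te ≤ T) :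
    PPOk (epar γ ρ L tw te) (parW B h.ok te) := by
  rw [parW_of_le h.ok (h.le_BT hte)]
  exact StepK85.ppOk_parB h.ok (Q := epar γ ρ L tw te) (h.le_BT hte) h.gam.symm h.rho.symm h.lam1
    h.v4

theorem qK_ne_top (C lam : ℝ) (K m : ℕ) : qK C lam K m ≠ ∞ := by
  unfold qK
  split_ifs
  · exact ENNReal.mul_ne_top ENNReal.ofReal_ne_top (ENNReal.pow_ne_top ENNReal.ofReal_ne_top)
  · exact ENNReal.zero_ne_top

theorem Adm3.stepK (hΦ : AdmissiblePotential Φ) (h : Adm3 Φ β T f γ ρ h₀ kap lam C g B) {te : ℝ}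
    (hte : te ≤ T) (K : ℕ) {ε : ℝ} (hε : 0 < ε) :
    StepK (parW B h.ok te K) (K3 Φ ε B.b₀ te (qK C lam K)) (StepK85.K3d hΦ ε B.b₀ (qK C lam K))
      2⁻¹ := by
  rw [parW_of_le h.ok (h.le_BT hte)]
  exact (StepK85.stepK_parB hΦ h.ok (h.le_BT hte) hε.le (fun K m => qK_ne_top C lam K m) K).mono
    (h.cst K)

end adm

/-! ### The slot -/

/-- The one-step inequality and the base law of all windows. -/
def SlotSB (Φ : Space3 → ℝ) (f₀ : PhasePoint → ℝ) (f : ℝ → PhasePoint → ℝ) (T : ℝ) (γ : ℝ → ℝ)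
    (ρ : ℝ≥0∞) (h₀ lam C : ℝ) (B : BPar) (hB : B.Ok) : Prop :=
  ∃ C₂ : ℝ≥0∞, C₂ ≠ ∞ ∧ ∃ σ₁ : ℝ → ℝ≥0∞, Tendsto σ₁ (𝓝[>] 0) (𝓝 0) ∧
    ∀ m : ℕ, ∃ c : ℝ≥0∞, c ≠ ∞ ∧ ∀ r : ℝ, 0 < r → r < 1 → ∃ o₁ : ℝ → ℝ → ℝ≥0∞, Vanish o₁ ∧
      EvW T fun h L tw te => IH Φ f₀ f T γ ρ tw → ∃ bd : ℕ → ℝ → SF2,
        Step6 Φ f₀ (epar γ ρ L tw te) (tw + h₀) r B.b₀ (qK C lam) (parW B hB te) bd
          (σ₁ r + o₁ h L) C₂ ∧
        Base3 Φ f₀ (epar γ ρ L tw te) (tw + h₀) B.b₀ (qK C lam) (parW B hB te) bd c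
          (PMn Φ f₀ γ ρ h₀ m L tw te)

/-- **INEQUALITY 3** from the pointwise form of inequality 1 and the slot. -/
theorem i3In_of_slots (hD : KData Φ β T f₀ f) (hPt : PtAll Φ f₀ f T)
    (h : InHL T fun h₀ γ ρ => ∀ (kap lam C g : ℝ) (B : BPar)
      (hA : Adm3 Φ β T f γ ρ h₀ kap lam C g B), SlotSB Φ f₀ f T γ ρ h₀ lam C B hA.ok) :
    I3In Φ f₀ f T := by
  refine ((hPt.and (exists_adm3 hD)).and h).mono fun h₀ γ ρ h0 hl hh => ?_
  obtain ⟨g1, r1, hl⟩ := hl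
  obtain ⟨⟨hP, -, kap, lam, C, g, B, hA⟩, hS⟩ := hh
  obtain ⟨C₂, hC₂, σ₁, hσ₁, hSB⟩ := hS kap lam C g B hA
  exact ineq3_of hD hl hP (PP := parW B hA.ok) (fun L tw te hte => hA.ppOk hte) le_rfl
    (fun te hte K ε hε => hA.stepK hD.adm hte K hε) hC₂ hσ₁ hSB

end Crest.Agent.R122.I3In566
end
end

-- ▼ part R122/WinZero_814

/-!
Row 122 (helper814): the unknowns of section E vanish on empty windows (`te ≤ tw`).
-/

set_option autoImplicit false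

open MeasureTheory Set Filter
open scoped ENNReal Topology
open Crest.AnalysisR.Kinetic
open Crest.Agent.R122.GC311 Crest.Agent.R122.EDefs602 Crest.Agent.R122.Top602

noncomputable section

namespace Crest.Agent.R122.WinZero814

variable {Φ : Space3 → ℝ} {f₀ : PhasePoint → ℝ} {ε : ℝ} {K : ℕ} {Q : EPar}


theorem touchP_eq_zero {ι : Type} [Fintype ι] (h : Q.te ≤ Q.tw) (Z : MW ι) (d e : ML) :
    Z.touchP Φ ε K Q d e = 0 := by
  unfold MW.touchP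
  exact if_neg fun hc => absurd (hc.1.trans_le (hc.2.1.trans hc.2.2)) (not_lt.2 h)

theorem PE_eq_zero (h : Q.te ≤ Q.tw) (ν : Measure (ML × ML)) : PE Φ f₀ ε K Q ν = 0 := by
  unfold PE
  simp only [touchP_eq_zero h, lintegral_zero]
  exact gcE_zero f₀ ε

theorem PMn_eq_zero {γ : ℝ → ℝ} {ρ : ℝ≥0∞} {h₀ L tw te : ℝ} (h : te ≤ tw) (m : ℕ) :
    PMn Φ f₀ γ ρ h₀ m L tw te K ε = 0 :=
  PE_eq_zero (Q := epar γ ρ L tw te) h _

end Crest.Agent.R122.WinZero814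

end
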