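import Mathlib
import Crest.Agent.R122.BirthsEvo_45
import Crest.Agent.R122.PairDefs_292
import Crest.Agent.R122.UnwE_410
import Crest.Agent.R122.MWFam_255

-- ▼ part R122/PairOk_735
section

/-!
# Row 122 (helper735), good worlds with two lines: the deterministic part

* `bworld_append` : a world with births plus one more particle born last, not on top of anybody.
* `ins_bw`, `path_ins_inl`, `path_ins_inr` : `Z.ins l`, if `l` is born last.
* `birthSep_pair` : two particles born at the same instant at distance `≥ ε`, moving apart.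
* `okW_of` : the worlds `w + d`, `w + d + e` are good.
-/

set_option autoImplicit false
set_option linter.unusedSectionVars false

open MeasureTheory Set Filter Topology
open scoped ENNReal
open Crest.AnalysisR.Kinetic
open Crest.Agent.R122.Flow671 Crest.Agent.R122.Loc45 Crest.Agent.R122.Causal291
open Crest.Agent.R122.Ins45
open Crest.Agent.R122.Inf879 Crest.Agent.R122.GC311
open Crest.Agent.R122.EDefs602
open Crest.Agent.R122.Unw410
open Crest.Agent.R122.Boost969 (LSt)
open Crest.Agent.R122.Pair292 (Lab sig)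
open Crest.Agent.R122.PairD292

noncomputable section

namespace Crest.Agent.R122.PairOk735

variable {ι : Type} [Fintype ι] {Φ : Space3 → ℝ} {ε : ℝ}

/-- free line which is at `z` at time `τ` -/
def fline (τ : ℝ) (z : PhasePoint) (t : ℝ) : PhasePoint := (z.1 + (t - τ) • z.2, z.2)

theorem fline_self (τ : ℝ) (z : PhasePoint) : fline τ z τ = z := by
  unfold fline; simp

theorem hasDerivAt_fline (τ : ℝ) (z : PhasePoint) (t : ℝ) :
    HasDerivAt (fline τ z) (z.2, 0) t := by
  unfold fline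
  have h1 : HasDerivAt (fun t : ℝ => (t - τ) • z.2) z.2 t := by
    have := ((hasDerivAt_id t).sub_const τ).smul_const z.2
    simpa using this
  exact (h1.const_add z.1).prodMk (hasDerivAt_const t z.2)

theorem fline_zero (l : LSt) : fline l.1 l.2 0 = back l := by
  unfold fline back
  refine Prod.ext ?_ rfl
  simp only [zero_sub, neg_smul]
  abel

/-- A world with births plus one particle, born last and not on top of anybody. -/
theorem bworld_append (hΦ : AdmissiblePotential Φ) (hε : 0 < ε) {b : ι → ℝ} {s τ : ℝ}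
    (hsτ : s ≤ τ) {X : ℝ → ι → PhasePoint} (hX : BWorld Φ ε b s X) (hb : ∀ i, b i ≤ τ)
    {z : PhasePoint} (hne : ContDiff ℝ 2 Φ ∨ ∀ i, (X τ i).1 ≠ z.1) :
    ∃ Y : ℝ → ι ⊕ Unit → PhasePoint, BWorld Φ ε (Sum.elim b fun _ => τ) s Y ∧
      ∀ t ∈ Icc s τ, Y t = Sum.elim (X t) fun _ => fline τ z t := by
  set b' : ι ⊕ Unit → ℝ := Sum.elim b fun _ => τ with hb'
  set W₀ : ι ⊕ Unit → PhasePoint := Sum.elim (X τ) fun _ => z with hW₀
  have hbi : ∀ i, b' (Sum.inl i) = b i := fun _ => rfl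
  have hbx : ∀ x, b' (Sum.inr x) = τ := fun _ => rfl
  have hD : BDom Φ b' τ W₀ := by
    rcases hX.dom τ hsτ with h | h
    · exact Or.inl h
    rcases hne with h' | h'
    · exact Or.inl h'
    refine Or.inr ?_
    rintro (i | x) (j | y) hij _ _
    · exact h i j (fun h => hij (congrArg _ h)) (hb i) (hb j)
    · exact h' i
    · exact (h' j).symm
    · exact absurd rfl hij
  have hbτ : ∀ k, b' k ≤ τ := by
    rintro (i | x)
    · exact hb i
    · exact le_rfl
  have h₂ : BWorld Φ ε b' τ fun t => evo Φ ε b' τ t W₀ :=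
    bworld_evo hΦ hε hD fun i hi => absurd (hbτ i) (not_le.2 hi)
  set Y : ℝ → ι ⊕ Unit → PhasePoint := fun t =>
    if t < τ then Sum.elim (X t) (fun _ => fline τ z t) else evo Φ ε b' τ t W₀ with hY
  have hY₁ : ∀ t ≤ τ, Y t = Sum.elim (X t) fun _ => fline τ z t := by
    intro t ht
    rcases ht.lt_or_eq with h | h
    · simp only [hY, if_pos h]
    · subst h
      simp only [hY, lt_irrefl, if_false]
      rw [evo_self hΦ hε, fline_self]
  have hY₂ : ∀ t, τ ≤ t → Y t = evo Φ ε b' τ t W₀ := fun t ht => by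
    simp only [hY, if_neg (not_lt.2 ht)]
  refine ⟨Y, ⟨?_, ?_, ?_⟩, fun t ht => hY₁ t ht.2⟩
  · have h3 : Ici s = Icc s τ ∪ Ici τ := by
      ext t
      simp only [mem_Ici, mem_union, mem_Icc]
      constructor
      · intro h
        rcases le_total t τ with h' | h'
        · exact Or.inl ⟨h, h'⟩
        · exact Or.inr h'
      · rintro (h | h)
        · exact h.1
        · exact hsτ.trans h
    rw [h3]
    refine ContinuousOn.union_of_isClosed ?_ ?_ isClosed_Icc isClosed_Ici
    · refine ContinuousOn.congr (f := fun t => Sum.elim (X t) fun _ : Unit => fline τ z t) ?_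
        fun t ht => hY₁ t ht.2
      refine continuousOn_pi.2 ?_
      rintro (i | x)
      · exact (hX.cont_apply i).mono Icc_subset_Ici_self
      · exact (continuous_iff_continuousAt.2 fun t =>
          (hasDerivAt_fline τ z t).continuousAt).continuousOn
    · exact h₂.cont.congr fun t ht => hY₂ t ht
  · intro t ht
    rcases lt_or_ge t τ with h | h
    · have h1 : HasDerivWithinAt (fun t => Sum.elim (X t) fun _ : Unit => fline τ z t)
          (bf Φ ε b' t (Sum.elim (X t) fun _ => fline τ z t)) (Ici t) t := by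
        refine hasDerivWithinAt_pi.2 ?_
        rintro (i | x)
        · have h2 : bf Φ ε b' t (Sum.elim (X t) fun _ => fline τ z t) (Sum.inl i) =
              bf Φ ε b t (X t) i := by
            classical
            unfold bf
            simp only [hbi, Sum.elim_inl, Fintype.sum_sum_type, hbx, Finset.univ_unique,
              Finset.sum_singleton, if_neg (not_le.2 h), add_zero]
          rw [h2]
          exact hasDerivWithinAt_pi.1 (hX.der t ht) i
        · have h2 : bf Φ ε b' t (Sum.elim (X t) fun _ => fline τ z t) (Sum.inr x) = (z.2, 0) := by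
            rw [bf_of_unborn Φ ε _ (by rw [hbx]; exact h)]
            rfl
          rw [h2]
          exact (hasDerivAt_fline τ z t).hasDerivWithinAt
      rw [hY₁ t h.le]
      refine h1.congr_of_eventuallyEq ?_ (hY₁ t h.le)
      have h4 : Icc t τ ∈ 𝓝[≥] t := Icc_mem_nhdsGE h
      filter_upwards [h4] with u hu
      exact hY₁ u hu.2
    · rw [hY₂ t h]
      exact (h₂.der t h).congr (fun u hu => hY₂ u (h.trans hu)) (hY₂ t h)
  · intro t ht
    rcases lt_or_ge t τ with h | h
    · rw [hY₁ t h.le]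
      refine (hX.dom t ht).imp id fun h' => ?_
      rintro (i | x) (j | y) hij hi hj
      · exact h' i j (fun h => hij (congrArg _ h)) hi hj
      · exact absurd hj (not_le.2 (by rw [hbx]; exact h))
      · exact absurd hi (not_le.2 (by rw [hbx]; exact h))
      · exact absurd rfl hij
    · rw [hY₂ t h]
      exact h₂.dom t h

/-- two particles at distance `≥ ε` and, if at distance `ε`, moving apart, separate -/
theorem birthSep_pair {b : ι → ℝ} {t₀ τ : ℝ} {X : ℝ → ι → PhasePoint} (hX : BWorld Φ ε b t₀ X)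
    (h0 : t₀ ≤ τ) {i j : ι} (hε : 0 < ε) (hd : ε ≤ dist (X τ i).1 (X τ j).1)
    (ho : dist (X τ i).1 (X τ j).1 = ε →
      0 < inner ℝ ((X τ i).1 - (X τ j).1) ((X τ i).2 - (X τ j).2)) :
    ∃ δ > 0, ∀ s, τ < s → s < τ + δ → ε < dist (X s i).1 (X s j).1 := by
  have hder : ∀ k, HasDerivWithinAt (fun t => (X t k).1) (X τ k).2 (Ici τ) τ := fun k =>
    (hasDerivWithinAt_pi.1 (hX.der τ h0) k).fst
  have hg : HasDerivWithinAt (fun t => ‖(X t i).1 - (X t j).1‖ ^ 2)
      (2 * inner ℝ ((X τ i).1 - (X τ j).1) ((X τ i).2 - (X τ j).2)) (Ici τ) τ :=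
    ((hder i).sub (hder j)).norm_sq
  have key : ∀ᶠ s in 𝓝[>] τ, ε ^ 2 < ‖(X s i).1 - (X s j).1‖ ^ 2 := by
    rcases hd.lt_or_eq with h | h
    · have h1 : ε ^ 2 < ‖(X τ i).1 - (X τ j).1‖ ^ 2 := by
        rw [← dist_eq_norm]
        exact pow_lt_pow_left₀ h hε.le two_ne_zero
      exact (hg.continuousWithinAt.mono Ioi_subset_Ici_self).eventually (lt_mem_nhds h1)
    · have hpos := ho h.symm
      have h1 := (hasDerivWithinAt_iff_tendsto_slope' (by simp)).1
        (hg.mono Ioi_subset_Ici_self)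
      have h2 : ∀ᶠ s in 𝓝[>] τ, 0 < slope (fun t => ‖(X t i).1 - (X t j).1‖ ^ 2) τ s :=
        h1.eventually (lt_mem_nhds (by linarith))
      filter_upwards [h2, self_mem_nhdsWithin] with s hs hτs
      have hτs' : 0 < s - τ := sub_pos.2 hτs
      rw [slope_def_field, div_pos_iff_of_pos_right hτs'] at hs
      have h3 : ε ^ 2 = ‖(X τ i).1 - (X τ j).1‖ ^ 2 := by rw [← dist_eq_norm, ← h]
      rw [h3]
      linarith
  obtain ⟨c, hc, hcs⟩ := mem_nhdsGT_iff_exists_Ioo_subset.1 key
  refine ⟨c - τ, sub_pos.2 hc, fun s hs hs' => ?_⟩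
  have h1 := hcs ⟨hs, by linarith⟩
  rw [dist_eq_norm]
  exact lt_of_pow_lt_pow_left₀ 2 (norm_nonneg _) h1

/-- Galilean boost of a world with births, fixing positions at time `σ`. -/
theorem bworld_boost {b : ι → ℝ} {t₀ : ℝ} {X : ℝ → ι → PhasePoint} (hX : BWorld Φ ε b t₀ X)
    (σ : ℝ) (u : Space3) :
    BWorld Φ ε b t₀ fun t i => ((X t i).1 + (t - σ) • u, (X t i).2 + u) where
  cont := by
    refine continuousOn_pi.2 fun i => ?_
    have h1 := hX.cont_apply i
    have h2 : Continuous fun t : ℝ => (t - σ) • u := by fun_prop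
    exact (h1.fst.add h2.continuousOn).prodMk (h1.snd.add continuousOn_const)
  der t ht := by
    refine hasDerivWithinAt_pi.2 fun i => ?_
    have h1 := hasDerivWithinAt_pi.1 (hX.der t ht) i
    have h2 : HasDerivWithinAt (fun t : ℝ => (t - σ) • u) u (Ici t) t := by
      have := ((hasDerivAt_id t).sub_const σ).smul_const u
      simpa using this.hasDerivWithinAt
    have e1 : HasDerivWithinAt (fun t => (X t i).1) (bf Φ ε b t (X t) i).1 (Ici t) t := h1.fst
    have e2 : HasDerivWithinAt (fun t => (X t i).2) (bf Φ ε b t (X t) i).2 (Ici t) t := h1.snd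
    have h3 : HasDerivWithinAt (fun x => ((X x i).1 + (x - σ) • u, (X x i).2 + u))
        ((bf Φ ε b t (X t) i).1 + u, (bf Φ ε b t (X t) i).2 + 0) (Ici t) t :=
      HasDerivWithinAt.prodMk (e1.add h2) (e2.add (hasDerivWithinAt_const t (Ici t) u))
    have h4 : bf Φ ε b t (fun i => ((X t i).1 + (t - σ) • u, (X t i).2 + u)) i =
        ((bf Φ ε b t (X t) i).1 + u, (bf Φ ε b t (X t) i).2 + 0) := by
      classical
      unfold bf
      simp only [add_sub_add_right_eq_sub, add_zero]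
    rw [h4]
    exact h3
  dom t ht := (hX.dom t ht).imp id fun h' i j hij hi hj h => h' i j hij hi hj (add_right_cancel h)

/-! ### Marked worlds -/

/-- **One more line, born last.** -/
theorem ins_bw (hΦ : AdmissiblePotential Φ) (hε : 0 < ε) {Z : MW ι}
    (hZ : BWorld Φ ε Z.b 0 (Z.path Φ ε)) {l : ML} (hl : 0 ≤ l.1.1) (hb : ∀ i, Z.b i ≤ l.1.1)
    (hne : ContDiff ℝ 2 Φ ∨ ∀ i, (Z.path Φ ε l.1.1 i).1 ≠ l.1.2.1) :
    BWorld Φ ε (Z.ins l).b 0 ((Z.ins l).path Φ ε) ∧
      ∀ t ∈ Icc 0 l.1.1, (Z.ins l).path Φ ε t =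
        Sum.elim (Z.path Φ ε t) fun _ => fline l.1.1 l.1.2 t := by
  obtain ⟨Y, hY, hY1⟩ := bworld_append hΦ hε hl hZ hb hne
  have h0 : Y 0 = (Z.ins l).z := by
    rw [hY1 0 ⟨le_rfl, hl⟩, MW.path_zero hΦ hε, fline_zero]
    rfl
  have h1 : ∀ t, 0 ≤ t → (Z.ins l).path Φ ε t = Y t := by
    intro t ht
    rw [hY.eq_evo hΦ hε ht, h0]
    rfl
  exact ⟨hY.congr h1, fun t ht => (h1 t ht.1).trans (hY1 t ht)⟩

/-- birth separation with one more line -/
theorem ins_sep {Z : MW ι} (hε : 0 < ε) {l : ML} (hl : 0 ≤ l.1.1) (hb0 : ∀ i, 0 ≤ Z.b i)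
    (hbw : BWorld Φ ε (Z.ins l).b 0 ((Z.ins l).path Φ ε))
    (hpath : ∀ t ∈ Icc 0 l.1.1, (Z.ins l).path Φ ε t =
        Sum.elim (Z.path Φ ε t) fun _ => fline l.1.1 l.1.2 t)
    (hsep : BirthSep Z.b (Z.path Φ ε) ε)
    (hlt : ∀ j k, j ≠ k → Z.b j = Z.b k → Z.b j < l.1.1)
    (hnew : ∀ j, Z.b j = l.1.1 → ε ≤ dist (Z.path Φ ε l.1.1 j).1 l.1.2.1 ∧
      (dist (Z.path Φ ε l.1.1 j).1 l.1.2.1 = ε →
        0 < inner ℝ ((Z.path Φ ε l.1.1 j).1 - l.1.2.1) ((Z.path Φ ε l.1.1 j).2 - l.1.2.2))) :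
    BirthSep (Z.ins l).b ((Z.ins l).path Φ ε) ε := by
  have hbi : ∀ i, (Z.ins l).b (Sum.inl i) = Z.b i := fun _ => rfl
  have hbx : ∀ x, (Z.ins l).b (Sum.inr x) = l.1.1 := fun _ => rfl
  have hτ := hpath l.1.1 ⟨hl, le_rfl⟩
  have hnew' : ∀ (j : ι) (x : Unit), Z.b j = l.1.1 → ∃ δ > 0, ∀ s, l.1.1 < s → s < l.1.1 + δ →
      ε < dist ((Z.ins l).path Φ ε s (Sum.inl j)).1 ((Z.ins l).path Φ ε s (Sum.inr x)).1 := by
    intro j x hj
    obtain ⟨h1, h2⟩ := hnew j hj
    refine birthSep_pair hbw hl hε ?_ ?_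
    · rw [hτ]
      simp only [Sum.elim_inl, Sum.elim_inr, fline_self]
      exact h1
    · rw [hτ]
      simp only [Sum.elim_inl, Sum.elim_inr, fline_self]
      exact h2
  rintro (j | x) (k | y) hjk hb
  · rw [hbi, hbi] at hb
    have hjk' : j ≠ k := fun h => hjk (congrArg _ h)
    obtain ⟨δ, hδ, h⟩ := hsep j k hjk' hb
    have hlt' := hlt j k hjk' hb
    refine ⟨min δ (l.1.1 - Z.b j), lt_min hδ (sub_pos.2 hlt'), fun s hs hs' => ?_⟩
    rw [hbi] at hs hs'
    have hs1 : s < Z.b j + δ := hs'.trans_le (add_le_add le_rfl (min_le_left _ _))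
    have hs2 : s < l.1.1 := by
      have := hs'.trans_le (add_le_add le_rfl (min_le_right δ (l.1.1 - Z.b j)))
      linarith
    rw [hpath s ⟨(hb0 j).trans hs.le, hs2.le⟩]
    exact h s hs hs1
  · rw [hbi, hbx] at hb
    rw [hbi]
    obtain ⟨δ, hδ, h⟩ := hnew' j y hb
    rw [hb]
    exact ⟨δ, hδ, h⟩
  · rw [hbi, hbx] at hb
    rw [hbx]
    obtain ⟨δ, hδ, h⟩ := hnew' k x hb.symm
    refine ⟨δ, hδ, fun s hs hs' => ?_⟩
    rw [dist_comm]
    exact h s hs hs'
  · exact absurd rfl hjk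

/-! ### Two lines -/

/-- exchange of the two inserted lines -/
def exch (ι : Type) : (ι ⊕ Unit) ⊕ Unit ≃ (ι ⊕ Unit) ⊕ Unit where
  toFun x := match x with
    | Sum.inl (Sum.inl i) => Sum.inl (Sum.inl i)
    | Sum.inl (Sum.inr y) => Sum.inr y
    | Sum.inr y => Sum.inl (Sum.inr y)
  invFun x := match x with
    | Sum.inl (Sum.inl i) => Sum.inl (Sum.inl i)
    | Sum.inl (Sum.inr y) => Sum.inr y
    | Sum.inr y => Sum.inl (Sum.inr y)
  left_inv x := by rcases x with (i | y) | y <;> rfl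
  right_inv x := by rcases x with (i | y) | y <;> rfl

/-- Siblings separate: distance at least `ε`, moving apart if it is `ε`. -/
def SibS (ε : ℝ) (d e : LSt) : Prop :=
  ε ≤ dist d.2.1 e.2.1 ∧ (dist d.2.1 e.2.1 = ε → 0 < inner ℝ (d.2.1 - e.2.1) (d.2.2 - e.2.2))

/-- one line in the gas -/
theorem ok_one (hΦ : AdmissiblePotential Φ) (hε : 0 < ε) {n : ℕ} {w : Config n}
    (hw : w ∈ PairExcluded ε n) {d : ML} (hd : 0 < d.1.1)
    (h1 : ∀ i, ((MW.cfg w).path Φ ε d.1.1 i).1 ≠ d.1.2.1) :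
    ((MW.cfg w).ins d).Ok Φ ε ∧ ∀ t ∈ Icc 0 d.1.1, ((MW.cfg w).ins d).path Φ ε t =
        Sum.elim ((MW.cfg w).path Φ ε t) fun _ => fline d.1.1 d.1.2 t := by
  have hok := cfg_ok hΦ hε hw
  obtain ⟨hbw, hp⟩ := ins_bw hΦ hε hok.bw hd.le (fun _ => hd.le) (Or.inr h1)
  exact ⟨⟨hbw, ins_sep hε hd.le (fun _ => le_rfl) hbw hp hok.sep (fun _ _ _ _ => hd)
    fun j hj => absurd hj hd.ne⟩, hp⟩

/-- two lines in the gas, the first one born first (or both at the same time) -/
theorem ok_two (hΦ : AdmissiblePotential Φ) (hε : 0 < ε) {n : ℕ} {w : Config n}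
    (hw : w ∈ PairExcluded ε n) {d e : ML} (hd : 0 < d.1.1) (hde : d.1.1 ≤ e.1.1)
    (h1 : ∀ i, ((MW.cfg w).path Φ ε d.1.1 i).1 ≠ d.1.2.1)
    (h2 : ∀ i, ((MW.cfg w).path Φ ε e.1.1 i).1 ≠ e.1.2.1)
    (h3 : d.1.1 < e.1.1 → ∀ x, (((MW.cfg w).ins d).path Φ ε e.1.1 x).1 ≠ e.1.2.1)
    (h4 : d.1.1 = e.1.1 → SibS ε d.1 e.1) :
    (((MW.cfg w).ins d).ins e).Ok Φ ε := by
  obtain ⟨hok, hp⟩ := ok_one hΦ hε hw hd h1
  have he : 0 < e.1.1 := hd.trans_le hde
  have hpe : d.1.1 = e.1.1 → ((MW.cfg w).ins d).path Φ ε e.1.1 =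
      Sum.elim ((MW.cfg w).path Φ ε e.1.1) fun _ => d.1.2 := by
    intro h
    rw [hp e.1.1 ⟨he.le, h.ge⟩, ← h]
    simp only [fline_self]
  have hne : ∀ x, (((MW.cfg w).ins d).path Φ ε e.1.1 x).1 ≠ e.1.2.1 := by
    rcases hde.lt_or_eq with h | h
    · exact h3 h
    · rw [hpe h]
      rintro (i | x)
      · exact h2 i
      · have h5 := (h4 h).1
        intro h6
        change d.1.2.1 = e.1.2.1 at h6
        rw [h6, dist_self] at h5
        linarith
  have hb : ∀ x, ((MW.cfg w).ins d).b x ≤ e.1.1 := by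
    rintro (i | x)
    · exact he.le
    · exact hde
  have hb0 : ∀ x, 0 ≤ ((MW.cfg w).ins d).b x := by
    rintro (i | x)
    · exact le_rfl
    · exact hd.le
  obtain ⟨hbw, hp2⟩ := ins_bw hΦ hε hok.bw he.le hb (Or.inr hne)
  refine ⟨hbw, ins_sep hε he.le hb0 hbw hp2 hok.sep ?_ ?_⟩
  · rintro (j | x) (k | y) hjk hbb
    · exact he
    · exact he
    · change d.1.1 = 0 at hbb
      exact absurd hbb hd.ne'
    · exact absurd rfl hjk
  · rintro (j | x) hbb
    · change (0 : ℝ) = e.1.1 at hbb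
      exact absurd hbb he.ne
    · change d.1.1 = e.1.1 at hbb
      rw [hpe hbb]
      exact h4 hbb

/-- **The worlds `w + d`, `w + d + e` are good.** -/
theorem okW_of (hΦ : AdmissiblePotential Φ) (hε : 0 < ε) {n : ℕ} {w : Config n}
    (hw : w ∈ PairExcluded ε n) {θ : Lab × LSt} (hd : 0 < (dL θ).1.1) (he : 0 < (eL θ).1.1)
    (h1 : ∀ i, ((MW.cfg w).path Φ ε (dL θ).1.1 i).1 ≠ (dL θ).1.2.1)
    (h2 : ∀ i, ((MW.cfg w).path Φ ε (eL θ).1.1 i).1 ≠ (eL θ).1.2.1)
    (h3 : (dL θ).1.1 < (eL θ).1.1 →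
      ∀ x, (((MW.cfg w).ins (dL θ)).path Φ ε (eL θ).1.1 x).1 ≠ (eL θ).1.2.1)
    (h4 : (eL θ).1.1 < (dL θ).1.1 →
      ∀ x, (((MW.cfg w).ins (eL θ)).path Φ ε (dL θ).1.1 x).1 ≠ (dL θ).1.2.1)
    (h5 : (dL θ).1.1 = (eL θ).1.1 → SibS ε (dL θ).1 (eL θ).1) : OkW Φ ε w θ := by
  refine ⟨(ok_one hΦ hε hw hd h1).1, ?_⟩
  rcases le_total (dL θ).1.1 (eL θ).1.1 with h | h
  · exact ok_two hΦ hε hw hd h h1 h2 h3 h5
  · have h6 : (((MW.cfg w).ins (eL θ)).ins (dL θ)).Ok Φ ε := by
      refine ok_two hΦ hε hw he h h2 h1 h4 fun h7 => ?_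
      obtain ⟨a, b⟩ := h5 h7.symm
      unfold SibS
      rw [dist_comm]
      refine ⟨a, fun h8 => ?_⟩
      have h9 := b h8
      have h10 : inner ℝ ((eL θ).1.2.1 - (dL θ).1.2.1) ((eL θ).1.2.2 - (dL θ).1.2.2) =
          inner ℝ ((dL θ).1.2.1 - (eL θ).1.2.1) ((dL θ).1.2.2 - (eL θ).1.2.2) := by
        rw [← neg_sub (dL θ).1.2.1, ← neg_sub (dL θ).1.2.2, inner_neg_neg]
      rw [h10]
      exact h9
    have h7 : ((Zd w θ).ins (eL θ)) =
        (((MW.cfg w).ins (eL θ)).ins (dL θ)).comap (exch (Fin n)) := by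
      unfold Zd MW.ins MW.add MW.comap
      congr 1 <;> funext x <;> rcases x with (i | y) | y <;> rfl
    rw [h7]
    exact MWFam255.Ok.relabel hΦ hε h6 _

/-- the world `w + e` is good -/
theorem okE_of (hΦ : AdmissiblePotential Φ) (hε : 0 < ε) {n : ℕ} {w : Config n}
    (hw : w ∈ PairExcluded ε n) {θ : Lab × LSt} (he : 0 < (eL θ).1.1)
    (h2 : ∀ i, ((MW.cfg w).path Φ ε (eL θ).1.1 i).1 ≠ (eL θ).1.2.1) :
    ((MW.cfg w).ins (eL θ)).Ok Φ ε := (ok_one hΦ hε hw he h2).1

/-! ### Boosts -/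

/-- boost of a configuration, fixing positions at time `σ` -/
def bst (σ : ℝ) (u : Space3) (w : ι → PhasePoint) : ι → PhasePoint :=
  fun i => ((w i).1 - σ • u, (w i).2 + u)

theorem path_boost (hΦ : AdmissiblePotential Φ) (hε : 0 < ε) {Z : MW ι}
    (hZ : BWorld Φ ε Z.b 0 (Z.path Φ ε)) (σ : ℝ) (u : Space3) {Z' : MW ι} (hb : Z'.b = Z.b)
    (hz : Z'.z = bst σ u Z.z) {t : ℝ} (ht : 0 ≤ t) :
    Z'.path Φ ε t = fun i => ((Z.path Φ ε t i).1 + (t - σ) • u, (Z.path Φ ε t i).2 + u) := by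
  have h1 := (bworld_boost hZ σ u).eq_evo hΦ hε ht
  rw [h1]
  unfold MW.path
  rw [hb, hz]
  congr 1
  funext i
  have h2 := MW.path_zero hΦ hε Z
  unfold MW.path at h2
  rw [h2]
  unfold bst
  simp only [zero_sub, neg_smul]
  rw [← sub_eq_add_neg]

theorem back_gal (σ : ℝ) (u : Space3) (z : LSt) :
    back (Boost969.gal σ u z) = ((back z).1 - σ • u, (back z).2 + u) := by
  unfold back Boost969.gal
  refine Prod.ext ?_ rfl
  simp only
  rw [sub_smul, smul_add]
  abel

theorem bst_mem_pairExcluded {n : ℕ} {σ : ℝ} {u : Space3} {w : Config n} :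
    bst σ u w ∈ PairExcluded ε n ↔ w ∈ PairExcluded ε n := by
  have h : ∀ i j, dist (bst σ u w i).1 (bst σ u w j).1 = dist (w i).1 (w j).1 := fun i j => by
    unfold bst
    exact dist_sub_right _ _ _
  constructor
  · intro hw i j hij
    rw [← h]
    exact hw i j hij
  · intro hw i j hij
    rw [h]
    exact hw i j hij

end Crest.Agent.R122.PairOk735
end
end

-- ▼ part R122/PairOk2_735

/-!
# Row 122 (helper735), good worlds with two lines: almost everywhere part

* `ae_notMem_of_spr` : null sets of the product of a measure and a labelled spread measure;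
* `measurePreserving_bst`, `ae_prod_bst` : boosts of the gas;
* **`okAE_of_spr`**, **`okAE_of_PX`** : for a spread pair law with turning time before both births and
  separating siblings, the worlds `w + d` and `w + d + e` are good almost everywhere.
-/

set_option autoImplicit false
set_option linter.unusedSectionVars false

open MeasureTheory Set Filter Topology
open scoped ENNReal
open Crest.AnalysisR.Kinetic
open Crest.Agent.R122.Flow671 Crest.Agent.R122.Loc45 Crest.Agent.R122.Causal291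
open Crest.Agent.R122.Ins45
open Crest.Agent.R122.Inf879
open Crest.Agent.R122.GC311 hiding sig
open Crest.Agent.R122.EDefs602
open Crest.Agent.R122.Unw410
open Crest.Agent.R122.Boost969 (LSt gal SprL avgL measurable_galL)
open Crest.Agent.R122.Pair292 (Lab sig measurable_sig PPar PX)
open Crest.Agent.R122.PairD292

noncomputable section

namespace Crest.Agent.R122.PairOk735

/-! ### Null sets and spread measures -/

section spr

variable {Ω : Type*} [MeasurableSpace Ω] {μ : Measure Ω} [SFinite μ]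

theorem ae_notMem_of_spr {Ξ ν : Measure (Lab × LSt)} [SFinite Ξ] [SFinite ν]
    (h : SprL sig Ξ ν) {B : Set (Ω × (Lab × LSt))} (hB : MeasurableSet B)
    (hp : ∀ p : Lab × LSt, ∀ᵐ r : Ω × Space3 ∂(μ.prod volume),
      (r.1, (p.1, gal (sig p.1) r.2 p.2)) ∉ B) :
    ∀ᵐ q ∂(μ.prod ν), q ∉ B := by
  rw [ae_iff]
  have e : {q | ¬ q ∉ B} = B := by ext q; simp
  rw [e, Measure.prod_apply hB]
  set F : Ω → Lab × LSt → ℝ≥0∞ := fun w => (Prod.mk w ⁻¹' B).indicator 1 with hF
  have hFm : ∀ w, Measurable (F w) := fun w =>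
    measurable_const.indicator (measurable_prodMk_left hB)
  have h0 : ∀ w, ν (Prod.mk w ⁻¹' B) ≤ ∫⁻ p, avgL sig (F w) p ∂Ξ := by
    intro w
    rw [← lintegral_indicator_one (measurable_prodMk_left hB)]
    exact h (F w) (hFm w)
  refine le_antisymm ((lintegral_mono h0).trans (le_of_eq ?_)) zero_le
  have hm : Measurable fun r : (Ω × (Lab × LSt)) × Space3 =>
      B.indicator (1 : Ω × (Lab × LSt) → ℝ≥0∞) (r.1.1, (r.1.2.1, gal (sig r.1.2.1) r.2 r.1.2.2)) := by
    have h1 : Measurable fun r : (Ω × (Lab × LSt)) × Space3 =>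
        ((r.1.2.1, gal (sig r.1.2.1) r.2 r.1.2.2) : Lab × LSt) :=
      (measurable_galL measurable_sig).comp
        ((measurable_snd.comp measurable_fst).prodMk measurable_snd)
    exact (measurable_const.indicator hB).comp ((measurable_fst.comp measurable_fst).prodMk h1)
  have e1 : ∀ (w : Ω) (p : Lab × LSt), avgL sig (F w) p =
      ∫⁻ u in Metric.ball (0 : Space3) 1,
        B.indicator (1 : Ω × (Lab × LSt) → ℝ≥0∞) (w, (p.1, gal (sig p.1) u p.2)) := fun w p => rfl
  simp only [e1]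
  have hm2 : Measurable fun r : Ω × (Lab × LSt) => ∫⁻ u in Metric.ball (0 : Space3) 1,
      B.indicator (1 : Ω × (Lab × LSt) → ℝ≥0∞) (r.1, (r.2.1, gal (sig r.2.1) u r.2.2)) :=
    hm.lintegral_prod_right' (ν := volume.restrict (Metric.ball (0 : Space3) 1))
  rw [lintegral_lintegral_swap (f := fun (w : Ω) (p : Lab × LSt) =>
    ∫⁻ u in Metric.ball (0 : Space3) 1,
      B.indicator (1 : Ω × (Lab × LSt) → ℝ≥0∞) (w, (p.1, gal (sig p.1) u p.2))) hm2.aemeasurable]
  refine lintegral_eq_zero_of_ae_eq_zero (Eventually.of_forall fun p => ?_)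
  have hg : Measurable fun r : Ω × Space3 => (r.1, (p.1, gal (sig p.1) r.2 p.2)) :=
    measurable_fst.prodMk ((measurable_galL measurable_sig).comp
      ((measurable_const (a := p)).prodMk measurable_snd))
  have hD : MeasurableSet {r : Ω × Space3 | (r.1, (p.1, gal (sig p.1) r.2 p.2)) ∈ B} := hg hB
  have h1 : (μ.prod (volume : Measure Space3))
      {r : Ω × Space3 | (r.1, (p.1, gal (sig p.1) r.2 p.2)) ∈ B} = 0 := by
    have := hp p
    rw [ae_iff] at this
    simpa using this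
  rw [Measure.prod_apply hD] at h1
  refine le_antisymm (le_trans (lintegral_mono fun w => ?_) h1.le) zero_le
  refine (setLIntegral_le_lintegral _ _).trans (le_of_eq ?_)
  rw [← lintegral_indicator_one (measurable_prodMk_left hD)]
  rfl

end spr

/-! ### Boosts of the gas -/

theorem measurable_bst {ι : Type} [Fintype ι] (σ : ℝ) :
    Measurable fun r : (ι → PhasePoint) × Space3 => bst σ r.2 r.1 := by
  unfold bst
  refine measurable_pi_iff.2 fun i => ?_
  have h1 : Measurable fun r : (ι → PhasePoint) × Space3 => r.1 i :=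
    (measurable_pi_apply i).comp measurable_fst
  exact (h1.fst.sub (measurable_snd.const_smul σ)).prodMk (h1.snd.add measurable_snd)

theorem measurePreserving_bst {n : ℕ} (σ : ℝ) (u : Space3) :
    MeasurePreserving (bst σ u : Config n → Config n) volume volume := by
  have h : (bst σ u : Config n → Config n) = fun w => w + fun _ => ((-(σ • u), u) : PhasePoint) := by
    funext w i
    refine Prod.ext ?_ rfl
    show (w i).1 - σ • u = (w i).1 + -(σ • u)
    exact sub_eq_add_neg _ _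
  rw [h]
  exact measurePreserving_add_right volume _

/-- null sets of `(w, u)` after the change of variables `w ↦ bst σ u w` -/
theorem ae_prod_bst {n : ℕ} {D : Set (Config n × Space3)} (hD : MeasurableSet D) (σ : ℝ)
    (h : ∀ w : Config n, ∀ᵐ u : Space3, (bst σ u w, u) ∉ D) :
    ∀ᵐ r : Config n × Space3 ∂((volume : Measure (Config n)).prod volume), r ∉ D := by
  rw [ae_iff]
  have e : {q | ¬ q ∉ D} = D := by ext q; simp
  rw [e, Measure.prod_apply_symm hD]
  have hT : Measurable fun r : Config n × Space3 => (bst σ r.2 r.1, r.2) :=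
    (measurable_bst σ).prodMk measurable_snd
  have hD' : MeasurableSet {r : Config n × Space3 | (bst σ r.2 r.1, r.2) ∈ D} := hT hD
  have h1 : ∀ u : Space3, (volume : Measure (Config n)) ((fun w => (w, u)) ⁻¹' D) =
      volume ((fun w => (w, u)) ⁻¹' {r : Config n × Space3 | (bst σ r.2 r.1, r.2) ∈ D}) := fun u =>
    ((measurePreserving_bst σ u).measure_preimage
      (measurable_prodMk_right hD).nullMeasurableSet).symm
  simp only [h1]
  rw [← Measure.prod_apply_symm hD', Measure.prod_apply hD']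
  refine lintegral_eq_zero_of_ae_eq_zero (Eventually.of_forall fun w => ?_)
  have := h w
  rw [ae_iff] at this
  simpa using this

theorem ae_smul_ne {c : ℝ} (hc : c ≠ 0) (y z : Space3) : ∀ᵐ u : Space3, y + c • u ≠ z := by
  have hs : Set.Subsingleton {u : Space3 | y + c • u = z} := by
    intro u hu v hv
    have h1 : c • u = c • v := add_left_cancel (hu.trans hv.symm)
    exact smul_right_injective _ hc h1
  have := hs.measure_zero (volume : Measure Space3)
  rw [ae_iff]
  simpa using this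

/-! ### Measurability of paths -/

theorem measurable_dL : Measurable dL := measurable_fst.fst

theorem measurable_eL : Measurable eL := measurable_snd.prodMk measurable_fst.snd.snd

theorem measurable_back : Measurable back := by
  unfold back
  exact (measurable_snd.fst.sub (measurable_fst.smul measurable_snd.snd)).prodMk measurable_snd.snd

variable {Φ : Space3 → ℝ} {ε : ℝ} {n : ℕ}

theorem measurable_path_cfg (hΦ : AdmissiblePotential Φ) (hε : 0 < ε) {δ : Type*}
    [MeasurableSpace δ] {w : δ → Config n} {t : δ → ℝ} (hw : Measurable w) (ht : Measurable t) :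
    Measurable fun x => (MW.cfg (w x)).path Φ ε (t x) :=
  measurable_evo hΦ hε (fun _ => measurable_const) measurable_const ht hw

theorem measurable_path_ins (hΦ : AdmissiblePotential Φ) (hε : 0 < ε) {δ : Type*}
    [MeasurableSpace δ] {w : δ → Config n} {l : δ → ML} {t : δ → ℝ} (hw : Measurable w)
    (hl : Measurable l) (ht : Measurable t) :
    Measurable fun x => ((MW.cfg (w x)).ins (l x)).path Φ ε (t x) := by
  refine measurable_evo hΦ hε (fun i => ?_) measurable_const ht ?_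
  · rcases i with i | i
    · exact measurable_const
    · exact hl.fst.fst
  · refine measurable_pi_iff.2 fun i => ?_
    rcases i with i | i
    · exact (measurable_pi_apply i).comp hw
    · exact measurable_back.comp hl.fst

/-! ### The theorem -/

/-- the line is not born on top of a gas particle -/
theorem ae_birth (hΦ : AdmissiblePotential Φ) (hε : 0 < ε) {ν : Measure (Lab × LSt)} [SFinite ν]
    {l : Lab × LSt → ML} (hl : Measurable l) :
    ∀ᵐ q : Config n × (Lab × LSt) ∂((volume : Measure (Config n)).prod ν),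
      ∀ i, ((MW.cfg q.1).path Φ ε (l q.2).1.1 i).1 ≠ (l q.2).1.2.1 := by
  rw [ae_all_iff]
  intro i
  have hl' : Measurable fun q : Config n × (Lab × LSt) => l q.2 := hl.comp measurable_snd
  have hp := measurable_path_cfg hΦ hε (n := n) (measurable_fst : Measurable
    (Prod.fst : Config n × (Lab × LSt) → Config n)) hl'.fst.fst
  have hB : MeasurableSet {q : Config n × (Lab × LSt) |
      ((MW.cfg q.1).path Φ ε (l q.2).1.1 i).1 = (l q.2).1.2.1} :=
    measurableSet_eq_fun (((measurable_pi_apply i).comp hp).fst) hl'.fst.snd.fst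
  rw [ae_iff]
  simp only [ne_eq, not_not]
  rw [Measure.prod_apply_symm hB]
  refine lintegral_eq_zero_of_ae_eq_zero (Eventually.of_forall fun θ => ?_)
  show (volume : Measure (Config n)) {w | ((MW.cfg w).path Φ ε (l θ).1.1 i).1 = (l θ).1.2.1} = 0
  have h1 := (measurePreserving_evo (ι := Fin n) hΦ hε (fun _ => (0 : ℝ)) 0 (l θ).1.1)
  have h2 : (volume : Measure (Config n)) {w : Config n | (w i).1 = (l θ).1.2.1} = 0 := by
    have h5 : (volume : Measure PhasePoint) {z | z.1 = (l θ).1.2.1} = 0 := by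
      have e : {z : PhasePoint | z.1 = (l θ).1.2.1} = {(l θ).1.2.1} ×ˢ (univ : Set Space3) := by
        ext z; simp
      rw [e, Measure.volume_eq_prod, Measure.prod_prod]
      simp
    exact Measure.pi_eval_preimage_null (fun _ : Fin n => (volume : Measure PhasePoint)) h5
  have h3 : MeasurableSet {w : Config n | (w i).1 = (l θ).1.2.1} :=
    (measurable_pi_apply i).fst (measurableSet_singleton _)
  have h4 := h1.measure_preimage h3.nullMeasurableSet
  rw [h2] at h4
  exact h4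



/-- Fubini, null sections -/
theorem ae_prod_of_ae {Ω Θ : Type*} [MeasurableSpace Ω] [MeasurableSpace Θ] {μ : Measure Ω}
    {ν : Measure Θ} [SFinite ν] {B : Set (Ω × Θ)} (hB : MeasurableSet B)
    (h : ∀ w, ∀ᵐ θ ∂ν, (w, θ) ∉ B) : ∀ᵐ q ∂(μ.prod ν), q ∉ B := by
  rw [ae_iff]
  have e : {q | ¬ q ∉ B} = B := by ext q; simp
  rw [e, Measure.prod_apply hB]
  refine lintegral_eq_zero_of_ae_eq_zero (Eventually.of_forall fun w => ?_)
  have h2 := h w
  rw [ae_iff] at h2
  have e2 : {a | ¬ (w, a) ∉ B} = Prod.mk w ⁻¹' B := by ext a; simp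
  rw [e2] at h2
  exact h2

/-- **The second line, born after the first line, is not born on top of anybody.** -/
theorem ae_e_after (hΦ : AdmissiblePotential Φ) (hε : 0 < ε) {Ξ ν : Measure (Lab × LSt)}
    [SFinite Ξ] [SFinite ν] (h : SprL sig Ξ ν) (hs : ∀ᵐ θ : Lab × LSt ∂ν, sig θ.1 ≤ (eL θ).1.1)
    (hna : ∀ Z : ML × ℝ → Space3, Measurable Z → ∀ᵐ θ ∂ν, (dL θ).1.1 < sig θ.1 →
      (eL θ).1.1 = sig θ.1 → (eL θ).1.2.1 ≠ Z (dL θ, sig θ.1)) :
    ∀ᵐ q : Config n × (Lab × LSt) ∂((volume : Measure (Config n)).prod ν),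
      (dL q.2).1.1 < (eL q.2).1.1 →
        ∀ x, (((MW.cfg q.1).ins (dL q.2)).path Φ ε (eL q.2).1.1 x).1 ≠ (eL q.2).1.2.1 := by
  have hd : Measurable fun q : Config n × (Lab × LSt) => dL q.2 := measurable_dL.comp measurable_snd
  have he : Measurable fun q : Config n × (Lab × LSt) => eL q.2 := measurable_eL.comp measurable_snd
  have hsg : Measurable fun q : Config n × (Lab × LSt) => sig q.2.1 :=
    measurable_sig.comp measurable_snd.fst
  have hp := measurable_path_ins hΦ hε (n := n) (measurable_fst : Measurable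
    (Prod.fst : Config n × (Lab × LSt) → Config n)) hd he.fst.fst
  have key : ∀ x : Fin n ⊕ Unit, ∀ᵐ q : Config n × (Lab × LSt)
      ∂((volume : Measure (Config n)).prod ν), (dL q.2).1.1 < (eL q.2).1.1 →
      (((MW.cfg q.1).ins (dL q.2)).path Φ ε (eL q.2).1.1 x).1 ≠ (eL q.2).1.2.1 := by
    intro x
    have hE : MeasurableSet {q : Config n × (Lab × LSt) |
        (((MW.cfg q.1).ins (dL q.2)).path Φ ε (eL q.2).1.1 x).1 = (eL q.2).1.2.1} :=
      measurableSet_eq_fun (((measurable_pi_apply x).comp hp).fst) he.fst.snd.fst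
    set B₁ : Set (Config n × (Lab × LSt)) := {q | sig q.2.1 < (eL q.2).1.1} ∩
      {q | (((MW.cfg q.1).ins (dL q.2)).path Φ ε (eL q.2).1.1 x).1 = (eL q.2).1.2.1} with hB₁
    set B₂ : Set (Config n × (Lab × LSt)) := {q | (dL q.2).1.1 < sig q.2.1} ∩
      ({q | (eL q.2).1.1 = sig q.2.1} ∩
      {q | (((MW.cfg q.1).ins (dL q.2)).path Φ ε (eL q.2).1.1 x).1 = (eL q.2).1.2.1}) with hB₂
    have hm₁ : MeasurableSet B₁ := (measurableSet_lt hsg he.fst.fst).inter hE
    have hm₂ : MeasurableSet B₂ := (measurableSet_lt hd.fst.fst hsg).inter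
      ((measurableSet_eq_fun he.fst.fst hsg).inter hE)
    have h₁ : ∀ᵐ q ∂((volume : Measure (Config n)).prod ν), q ∉ B₁ := by
      refine ae_notMem_of_spr h hm₁ fun p => ?_
      by_cases hc : sig p.1 < p.2.1
      · have hmg : Measurable fun r : Config n × Space3 => (r.1, (p.1, gal (sig p.1) r.2 p.2)) :=
          measurable_fst.prodMk ((measurable_galL measurable_sig).comp
            ((measurable_const (a := p)).prodMk measurable_snd))
        refine ae_prod_of_ae (hmg hm₁) fun w => ?_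
        have h2 := ae_smul_ne (c := p.2.1 - sig p.1) (sub_ne_zero.2 hc.ne') p.2.2.1
          ((((MW.cfg w).ins p.1.1).path Φ ε p.2.1 x).1)
        filter_upwards [h2] with u hu h3
        exact hu h3.2.symm
      · exact Eventually.of_forall fun r hr => hc hr.1
    have h₂ : ∀ᵐ q ∂((volume : Measure (Config n)).prod ν), q ∉ B₂ := by
      refine ae_prod_of_ae hm₂ fun w => ?_
      have hZ : Measurable fun r : ML × ℝ => (((MW.cfg w).ins r.1).path Φ ε r.2 x).1 :=
        ((measurable_pi_apply x).comp (measurable_path_ins hΦ hε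
          (measurable_const (a := w)) measurable_fst measurable_snd)).fst
      filter_upwards [hna _ hZ] with θ hθ h3
      have h4 : (((MW.cfg w).ins (dL θ)).path Φ ε (eL θ).1.1 x).1 = (eL θ).1.2.1 := h3.2.2
      have h5 : (eL θ).1.1 = sig θ.1 := h3.2.1
      refine hθ h3.1 h5 ?_
      rw [← h4, h5]
    have hs' : ∀ᵐ q : Config n × (Lab × LSt) ∂((volume : Measure (Config n)).prod ν),
        sig q.2.1 ≤ (eL q.2).1.1 :=
      Measure.quasiMeasurePreserving_snd.ae hs
    filter_upwards [h₁, h₂, hs'] with q a₁ a₂ a₃ a₄ a₅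
    rcases a₃.lt_or_eq with a₆ | a₆
    · exact a₁ ⟨a₆, a₅⟩
    · exact a₂ ⟨a₄.trans_le a₆.ge, a₆.symm, a₅⟩
  filter_upwards [ae_all_iff.2 key] with q hq h1 x
  exact hq x h1

/-- boosted gas and boosted line -/
theorem ins_boost_z (σ : ℝ) (u : Space3) (w : Config n) (l : ML) :
    ((MW.cfg (bst σ u w)).ins ((gal σ u l.1, l.2) : ML)).z =
      bst σ u ((MW.cfg w).ins l).z := by
  funext x
  rcases x with i | y
  · rfl
  · exact back_gal σ u l.1

/-- **The first line, born after the second line, is not born on top of anybody.** -/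
theorem ae_d_after (hΦ : AdmissiblePotential Φ) (hε : 0 < ε) {Ξ ν : Measure (Lab × LSt)}
    [SFinite Ξ] [SFinite ν] (h : SprL sig Ξ ν) (hs : ∀ᵐ θ : Lab × LSt ∂ν, sig θ.1 ≤ (eL θ).1.1) :
    ∀ᵐ q : Config n × (Lab × LSt) ∂((volume : Measure (Config n)).prod ν),
      q.1 ∈ PairExcluded ε n → 0 < (eL q.2).1.1 → (eL q.2).1.1 < (dL q.2).1.1 →
        ∀ x, (((MW.cfg q.1).ins (eL q.2)).path Φ ε (dL q.2).1.1 x).1 ≠ (dL q.2).1.2.1 := by
  have hd : Measurable fun q : Config n × (Lab × LSt) => dL q.2 := measurable_dL.comp measurable_snd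
  have he : Measurable fun q : Config n × (Lab × LSt) => eL q.2 := measurable_eL.comp measurable_snd
  have hsg : Measurable fun q : Config n × (Lab × LSt) => sig q.2.1 :=
    measurable_sig.comp measurable_snd.fst
  have hp := measurable_path_ins hΦ hε (n := n) (measurable_fst : Measurable
    (Prod.fst : Config n × (Lab × LSt) → Config n)) he hd.fst.fst
  have hp2 := measurable_path_cfg hΦ hε (n := n) (measurable_fst : Measurable
    (Prod.fst : Config n × (Lab × LSt) → Config n)) he.fst.fst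
  have key : ∀ x : Fin n ⊕ Unit, ∀ᵐ q : Config n × (Lab × LSt)
      ∂((volume : Measure (Config n)).prod ν), q.1 ∈ PairExcluded ε n → 0 < (eL q.2).1.1 →
      (eL q.2).1.1 < (dL q.2).1.1 →
      (((MW.cfg q.1).ins (eL q.2)).path Φ ε (dL q.2).1.1 x).1 ≠ (dL q.2).1.2.1 := by
    intro x
    have hE : MeasurableSet {q : Config n × (Lab × LSt) |
        (((MW.cfg q.1).ins (eL q.2)).path Φ ε (dL q.2).1.1 x).1 = (dL q.2).1.2.1} :=
      measurableSet_eq_fun (((measurable_pi_apply x).comp hp).fst) hd.fst.snd.fst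
    have hG : MeasurableSet {q : Config n × (Lab × LSt) |
        ∀ i, ((MW.cfg q.1).path Φ ε (eL q.2).1.1 i).1 ≠ (eL q.2).1.2.1} := by
      rw [ofPred_forall]
      refine MeasurableSet.iInter fun i => ?_
      exact (measurableSet_eq_fun (((measurable_pi_apply i).comp hp2).fst) he.fst.snd.fst).compl
    set B : Set (Config n × (Lab × LSt)) := {q | q.1 ∈ PairExcluded ε n} ∩
      ({q | 0 < (eL q.2).1.1 ∧ 0 < (dL q.2).1.1} ∩ ({q | sig q.2.1 < (dL q.2).1.1} ∩
      ({q | ∀ i, ((MW.cfg q.1).path Φ ε (eL q.2).1.1 i).1 ≠ (eL q.2).1.2.1} ∩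
      {q | (((MW.cfg q.1).ins (eL q.2)).path Φ ε (dL q.2).1.1 x).1 = (dL q.2).1.2.1}))) with hB
    have hm : MeasurableSet B :=
      (measurable_fst (measurableSet_pairExcluded ε n)).inter
        (((measurableSet_lt measurable_const he.fst.fst).inter
          (measurableSet_lt measurable_const hd.fst.fst)).inter
          ((measurableSet_lt hsg hd.fst.fst).inter (hG.inter hE)))
    have hB' : ∀ᵐ q ∂((volume : Measure (Config n)).prod ν), q ∉ B := by
      refine ae_notMem_of_spr h hm fun p => ?_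
      have hmg : Measurable fun r : Config n × Space3 => (r.1, (p.1, gal (sig p.1) r.2 p.2)) :=
        measurable_fst.prodMk ((measurable_galL measurable_sig).comp
          ((measurable_const (a := p)).prodMk measurable_snd))
      refine ae_prod_bst (hmg hm) (sig p.1) fun w => ?_
      set σ := sig p.1 with hσ
      set l : ML := eL p with hl
      by_cases hc : w ∈ PairExcluded ε n ∧ 0 < l.1.1 ∧ σ < (dL p).1.1 ∧
          ∀ i, ((MW.cfg w).path Φ ε l.1.1 i).1 ≠ l.1.2.1
      · obtain ⟨hw, h0, hlt, hne⟩ := hc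
        have hok := (ok_one hΦ hε hw h0 hne).1
        have h2 := ae_smul_ne (c := (dL p).1.1 - σ) (sub_ne_zero.2 hlt.ne')
          ((((MW.cfg w).ins l).path Φ ε (dL p).1.1 x).1) (dL p).1.2.1
        filter_upwards [h2] with u hu h3
        have ht : 0 < (dL p).1.1 := h3.2.1.2
        have h4 : (((MW.cfg (bst σ u w)).ins ((gal σ u l.1, l.2) : ML)).path Φ ε
            (dL p).1.1 x).1 = (dL p).1.2.1 := h3.2.2.2.2
        have h5 := path_boost hΦ hε hok.bw σ u
          (Z' := (MW.cfg (bst σ u w)).ins ((gal σ u l.1, l.2) : ML)) rfl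
          (ins_boost_z σ u w l) ht.le
        rw [h5] at h4
        exact hu h4
      · refine Eventually.of_forall fun u h3 => hc ⟨?_, h3.2.1.1, h3.2.2.1, fun i hi => ?_⟩
        · exact bst_mem_pairExcluded.1 h3.1
        · have h0 : 0 < l.1.1 := h3.2.1.1
          have h4 : ((MW.cfg (bst σ u w)).path Φ ε l.1.1 i).1 ≠ l.1.2.1 + (l.1.1 - σ) • u :=
            h3.2.2.2.1 i
          have hw : w ∈ PairExcluded ε n := bst_mem_pairExcluded.1 h3.1
          have h5 := path_boost hΦ hε (cfg_ok hΦ hε hw).bw σ u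
            (Z' := MW.cfg (bst σ u w)) rfl rfl h0.le
          rw [h5] at h4
          exact h4 (by rw [← hi])
    have hne : ∀ᵐ q : Config n × (Lab × LSt) ∂((volume : Measure (Config n)).prod ν),
      ∀ i, ((MW.cfg q.1).path Φ ε (eL q.2).1.1 i).1 ≠ (eL q.2).1.2.1 :=
      ae_birth hΦ hε measurable_eL
    have hs' : ∀ᵐ q : Config n × (Lab × LSt) ∂((volume : Measure (Config n)).prod ν),
        sig q.2.1 ≤ (eL q.2).1.1 :=
      Measure.quasiMeasurePreserving_snd.ae hs
    filter_upwards [hB', hne, hs'] with q a₁ a₂ a₃ a₄ a₅ a₆ a₇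
    exact a₁ ⟨a₄, ⟨a₅, a₅.trans a₆⟩, a₃.trans_lt a₆, a₂, a₇⟩
  filter_upwards [ae_all_iff.2 key] with q hq h1 h2 h3 x
  exact hq x h1 h2 h3

/-- The worlds `w + d`, `w + e`, `w + d + e` are good almost surely. -/
def OkAE' (Φ : Space3 → ℝ) (ε : ℝ) (K : ℕ) (ν : Measure (Lab × LSt)) : Prop :=
  ∀ n : ℕ, ∀ᵐ q : Config n × (Lab × LSt) ∂((volume : Measure (Config n)).prod ν),
    q.1 ∈ PairExcluded ε n → OkL K q.2 →
      OkW Φ ε q.1 q.2 ∧ ((MW.cfg q.1).ins (eL q.2)).Ok Φ ε

/-- **Good worlds for a spread pair law.** -/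
theorem okAE'_of_spr (hΦ : AdmissiblePotential Φ) (hε : 0 < ε) {K : ℕ}
    {Ξ ν : Measure (Lab × LSt)} [SFinite Ξ] [SFinite ν] (h : SprL sig Ξ ν)
    (hs : ∀ᵐ θ : Lab × LSt ∂ν, sig θ.1 ≤ (eL θ).1.1)
    (hna : ∀ Z : ML × ℝ → Space3, Measurable Z → ∀ᵐ θ ∂ν, (dL θ).1.1 < sig θ.1 →
      (eL θ).1.1 = sig θ.1 → (eL θ).1.2.1 ≠ Z (dL θ, sig θ.1))
    (hb : ∀ᵐ θ ∂ν, (dL θ).1.1 = (eL θ).1.1 → SibS ε (dL θ).1 (eL θ).1) :
    OkAE' Φ ε K ν := by
  intro n
  have hb' : ∀ᵐ q : Config n × (Lab × LSt) ∂((volume : Measure (Config n)).prod ν),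
      (dL q.2).1.1 = (eL q.2).1.1 → SibS ε (dL q.2).1 (eL q.2).1 :=
    Measure.quasiMeasurePreserving_snd.ae hb
  filter_upwards [ae_birth hΦ hε (n := n) (ν := ν) measurable_dL,
    ae_birth hΦ hε (n := n) (ν := ν) measurable_eL, ae_e_after hΦ hε h hs hna,
    ae_d_after hΦ hε h hs, hb'] with q a₁ a₂ a₃ a₄ a₅ hw hL
  exact ⟨okW_of hΦ hε hw hL.d0 hL.e0 a₁ a₂ a₃ (a₄ hw hL.e0) a₅, okE_of hΦ hε hw hL.e0 a₂⟩

theorem OkAE'.okAE {K : ℕ} {ν : Measure (Lab × LSt)} (h : OkAE' Φ ε K ν) : OkAE Φ ε K ν := by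
  intro n
  filter_upwards [h n] with q hq hw hL
  exact (hq hw hL).1

theorem OkAE'.mono {K : ℕ} {ν ν' : Measure (Lab × LSt)} [SFinite ν] (h : OkAE' Φ ε K ν)
    (hle : ν' ≪ ν) : OkAE' Φ ε K ν' := fun n =>
  (Measure.AbsolutelyContinuous.rfl.prod hle).ae_le (h n)

end Crest.Agent.R122.PairOk735
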