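import Mathlib
import Crest.Agent.R122.PairOk2_735
import Crest.Agent.R122.PairKer_292
import Crest.Agent.R122.BirthOut_664
import Crest.Agent.R122.EncSel_741
import Crest.Agent.R122.Link6G_796
import Crest.Agent.R122.PairBirth2_664
import Crest.Agent.R122.GateOS2_495
import Crest.Agent.R122.StdB_495
import Crest.Agent.R122.ShpOkN_998
import Crest.Agent.R122.PairB_307
import Crest.Agent.R122.PairStepK_85
import Crest.Agent.R122.LinkENB_581
import Crest.Agent.R122.I3Fin_478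
import Crest.Agent.R122.NuOk_735
import Crest.Agent.R122.NuC_85

-- ▼ part R122/PairOk3_735
section

/-!
# Row 122 (helper735), good worlds with two lines: continuation steps

* `AuxK` : almost sure facts of a continuation kernel; `auxK_stO`, `AuxK.add`;
* `AuxK.bind`, `auxS_bindN` : after one step the second line is born strictly after the turning time
  and not at the birth of the first line;
* **`okAE'_bindN`** : the worlds `w + d`, `w + e`, `w + d + e` are good for all the laws `bindN ν κ j`.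
-/

set_option autoImplicit false
set_option linter.unusedSectionVars false

open MeasureTheory ProbabilityTheory Set Filter
open scoped ENNReal
open Crest.AnalysisR.Kinetic
open Crest.Agent.R122.EDefs602
open Crest.Agent.R122.Boost969 (LSt SprL)
open Crest.Agent.R122.Pair292 hiding ML
open Crest.Agent.R122.PairD292

noncomputable section

namespace Crest.Agent.R122.PairOk735

/-- Almost sure facts of a continuation step: the first line and the turning time are kept, the new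
line is born strictly later and not at the birth time of the first line. -/
def AuxK (κ : Kernel (Lab × LSt) (Lab × LSt)) : Prop :=
  ∀ p, ∀ᵐ p' ∂κ p, p'.1.1 = p.1.1 ∧ sig p'.1 = sig p.1 ∧ p.2.1 < p'.2.1 ∧ p'.2.1 ≠ p.1.1.1.1

theorem AuxK.add {κ κ' : Kernel (Lab × LSt) (Lab × LSt)} (h : AuxK κ) (h' : AuxK κ') :
    AuxK (κ + κ') := by
  intro p
  rw [add_apply]
  exact ae_add_measure_iff.2 ⟨h p, h' p⟩

theorem ae_mC_ne {te : ℝ} {T : Space3 × Disc416.Plane → ℝ} (hT : Measurable T) (a : ℝ) :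
    ∀ᵐ c : CDat ∂mC te, c.1 + T c.2 ≠ a := by
  have hB : MeasurableSet {c : CDat | c.1 + T c.2 = a} :=
    measurableSet_eq_fun (measurable_fst.add (hT.comp measurable_snd)) measurable_const
  rw [ae_iff]
  simp only [ne_eq, not_not]
  unfold mC
  rw [Measure.prod_apply_symm hB]
  refine lintegral_eq_zero_of_ae_eq_zero (Eventually.of_forall fun c => ?_)
  have hs : ((fun s : ℝ => ((s, c) : CDat)) ⁻¹' {c : CDat | c.1 + T c.2 = a}) ⊆ {a - T c} := by
    intro s hs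
    have h1 : s + T c = a := hs
    rw [mem_singleton_iff]
    linarith
  exact measure_mono_null hs (by simp)

variable {Φ : Space3 → ℝ} {ε : ℝ}

theorem auxK_stO (hΦ : AdmissiblePotential Φ) (hε : 0 ≤ ε) {out : ℝ → Space3 → OCout796.CD → LSt}
    (h : OutMap out) (ht : ∀ s y q, (out s y q).1 = s + OCout796.outT Φ ε q) (b₀ te : ℝ)
    (f : ℕ → ℕ → ℕ) {q : ℕ → ℝ≥0∞} (hq : ∀ m, q m ≠ ∞) : AuxK (stO ε b₀ te out f q) := by
  intro p
  set G : Set (Lab × LSt) := {p' | p'.1.1 = p.1.1 ∧ sig p'.1 = sig p.1 ∧ p.2.1 < p'.2.1 ∧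
    p'.2.1 ≠ p.1.1.1.1} with hG
  have hGm : MeasurableSet G := by
    refine MeasurableSet.inter (measurableSet_eq_fun measurable_fst.fst measurable_const)
      (MeasurableSet.inter (measurableSet_eq_fun (measurable_sig.comp measurable_fst)
        measurable_const) (MeasurableSet.inter (measurableSet_lt measurable_const
          measurable_snd.fst) (measurableSet_eq_fun measurable_snd.fst measurable_const).compl))
  have h1 := lintegral_stO h ε b₀ te f hq p (F := Gᶜ.indicator 1)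
    (measurable_one.indicator hGm.compl)
  rw [lintegral_indicator_one hGm.compl] at h1
  show (stO ε b₀ te out f q p) Gᶜ = 0
  rw [h1, ENNReal.tsum_eq_zero]
  intro m
  have h2 : ∫⁻ c, dens b₀ p.2 c * Gᶜ.indicator (1 : Lab × LSt → ℝ≥0∞)
      (incM f m p.1, outC out ε p.2 c) ∂mC te = 0 := by
    have hT : Measurable fun c : Space3 × Disc416.Plane =>
        OCout796.outT Φ ε (cdC p.2 ((0 : ℝ), c)) :=
      (OCout796.measurable_outT hΦ ε).comp (measurable_cdC.comp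
        ((measurable_const (a := p.2)).prodMk ((measurable_const (a := (0 : ℝ))).prodMk
          measurable_id)))
    refine lintegral_eq_zero_of_ae_eq_zero ?_
    filter_upwards [ae_mC_ne (te := te) hT p.1.1.1.1] with c hc
    show dens b₀ p.2 c * Gᶜ.indicator (1 : Lab × LSt → ℝ≥0∞)
      (incM f m p.1, outC out ε p.2 c) = 0
    by_cases hz : p.2.1 < c.1
    · have h3 : (outC out ε p.2 c).1 = c.1 + OCout796.outT Φ ε (cdC p.2 c) := ht _ _ _
      have h4 : (incM f m p.1, outC out ε p.2 c) ∈ G := by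
        refine ⟨rfl, rfl, ?_, ?_⟩
        · show p.2.1 < (outC out ε p.2 c).1
          rw [h3]
          have := OCout796.outT_nonneg (Φ := Φ) hε (cdC p.2 c)
          linarith
        · show (outC out ε p.2 c).1 ≠ p.1.1.1.1
          have h6 : cdC p.2 ((0 : ℝ), c.2) = cdC p.2 c := by
            unfold cdC bC
            rfl
          rw [h3, ← h6]
          exact hc
      rw [indicator_of_notMem (notMem_compl_iff.2 h4), mul_zero]
    · have h5 : dens b₀ p.2 c = 0 := by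
        unfold dens rate
        rw [if_neg hz, zero_mul]
      rw [h5, zero_mul]
  rw [h2, mul_zero]

/-- After a step. -/
structure AuxS (ν : Measure (Lab × LSt)) : Prop where
  sg : ∀ᵐ θ : Lab × LSt ∂ν, sig θ.1 < (eL θ).1.1
  ne : ∀ᵐ θ : Lab × LSt ∂ν, (dL θ).1.1 ≠ (eL θ).1.1

theorem AuxK.bind {κ : Kernel (Lab × LSt) (Lab × LSt)} (hκ : AuxK κ) {ν : Measure (Lab × LSt)}
    (hs : ∀ᵐ θ : Lab × LSt ∂ν, sig θ.1 ≤ (eL θ).1.1) : AuxS (ν.bind κ) := by
  have hm1 : MeasurableSet {θ : Lab × LSt | ¬ sig θ.1 < (eL θ).1.1} :=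
    (measurableSet_lt (measurable_sig.comp measurable_fst) measurable_snd.fst).compl
  have hm2 : MeasurableSet {θ : Lab × LSt | ¬ (dL θ).1.1 ≠ (eL θ).1.1} :=
    (measurableSet_eq_fun measurable_fst.fst.fst.fst measurable_snd.fst).compl.compl
  refine ⟨?_, ?_⟩
  · rw [ae_iff, Measure.bind_apply hm1 (Kernel.aemeasurable κ)]
    refine lintegral_eq_zero_of_ae_eq_zero ?_
    filter_upwards [hs] with p hp
    show κ p {θ : Lab × LSt | ¬ sig θ.1 < (eL θ).1.1} = 0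
    rw [← ae_iff (p := fun θ : Lab × LSt => sig θ.1 < (eL θ).1.1)]
    filter_upwards [hκ p] with p' hp'
    rw [hp'.2.1]
    exact hp.trans_lt hp'.2.2.1
  · rw [ae_iff, Measure.bind_apply hm2 (Kernel.aemeasurable κ)]
    refine lintegral_eq_zero_of_ae_eq_zero (Eventually.of_forall fun p => ?_)
    show κ p {θ : Lab × LSt | ¬ (dL θ).1.1 ≠ (eL θ).1.1} = 0
    rw [← ae_iff (p := fun θ : Lab × LSt => (dL θ).1.1 ≠ (eL θ).1.1)]
    filter_upwards [hκ p] with p' hp'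
    have h1 : (dL p').1.1 = p.1.1.1.1 := by
      unfold dL
      rw [hp'.1]
    rw [h1]
    exact fun h2 => hp'.2.2.2 h2.symm

theorem auxS_bindN {κ : Kernel (Lab × LSt) (Lab × LSt)} (hκ : AuxK κ) {ν : Measure (Lab × LSt)}
    (hs : ∀ᵐ θ : Lab × LSt ∂ν, sig θ.1 ≤ (eL θ).1.1) (j : ℕ) : AuxS (bindN ν κ (j + 1)) := by
  induction j with
  | zero => exact hκ.bind hs
  | succ j ih =>
    refine hκ.bind (ν := bindN ν κ (j + 1)) ?_
    filter_upwards [ih.sg] with θ hθ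
    exact hθ.le

theorem AuxS.okAE' (hΦ : AdmissiblePotential Φ) (hε : 0 < ε) {K : ℕ} {Ξ ν : Measure (Lab × LSt)}
    [SFinite Ξ] [SFinite ν] (h : SprL sig Ξ ν) (ha : AuxS ν) : OkAE' Φ ε K ν := by
  refine okAE'_of_spr hΦ hε h ?_ (fun Z _ => ?_) ?_
  · filter_upwards [ha.sg] with θ hθ
    exact hθ.le
  · filter_upwards [ha.sg] with θ hθ _ h2
    exact absurd h2 hθ.ne'
  · filter_upwards [ha.ne] with θ hθ h1
    exact absurd h1 hθ

/-- **Good worlds for all the laws of the iteration.** -/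
theorem okAE'_bindN (hΦ : AdmissiblePotential Φ) (hε : 0 < ε) {K : ℕ} {P : PPar}
    {Ξ ν : Measure (Lab × LSt)} {c : ℝ≥0∞} (h : PX P Ξ ν c)
    {κ κ' : Kernel (Lab × LSt) (Lab × LSt)} {r₀ : ℝ≥0∞} (hK : StepK P κ κ' r₀) (hκ : AuxK κ)
    (hs : ∀ᵐ θ : Lab × LSt ∂ν, sig θ.1 ≤ (eL θ).1.1)
    (hna : ∀ Z : ML × ℝ → Space3, Measurable Z → ∀ᵐ θ ∂ν, (dL θ).1.1 < sig θ.1 →
      (eL θ).1.1 = sig θ.1 → (eL θ).1.2.1 ≠ Z (dL θ, sig θ.1))
    (hb : ∀ᵐ θ ∂ν, (dL θ).1.1 = (eL θ).1.1 → SibS ε (dL θ).1 (eL θ).1) (j : ℕ) :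
    OkAE' Φ ε K (bindN ν κ j) := by
  have hj := h.bindN hK j
  have := hj.sfν
  have := hj.sfΞ
  cases j with
  | zero => exact okAE'_of_spr hΦ hε hj.spr hs hna hb
  | succ j => exact (auxS_bindN hκ hs j).okAE' hΦ hε hj.spr

end Crest.Agent.R122.PairOk735
end
end

-- ▼ part R122/BirthSlot_664
section

/-!
# The birth functional of inequality 3, measurable form, and the selection over the radius with
the encounter and the birth events (row 122, E6, board 13f)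

* `bw6 Φ K ε` : indicator of `BW6` (labels `OkL`, `|P| ≤ K`), `measSF2_bw6`, `bw6_OS2_le`.
* `nullFacts_bw6` : 741's `nullFacts_encB` with `B = bw6`.
-/

set_option autoImplicit false
set_option linter.unusedSectionVars false

open MeasureTheory Set Filter Topology
open scoped Classical ENNReal
open Crest.AnalysisR.Kinetic
open Crest.Agent.R122.Kin796 Crest.Agent.R122.Kin796.CTree Crest.Agent.R122.Tree674
open Crest.Agent.R122.GC311 Crest.Agent.R122.EDefs602 Crest.Agent.R122.GSCalc495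
open Crest.Agent.R122.Flow671
open Crest.Agent.R122.Gate424 Crest.Agent.R122.Gate973 Crest.Agent.R122.OS2Calc495
open Crest.Agent.R122.Boost969 (LSt)
open Crest.Agent.R122.Pair292 (Lab PPar PX)
open Crest.Agent.R122.PairD292 Crest.Agent.R122.PairRep581 Crest.Agent.R122.GateOS2495
open Crest.Agent.R122.Third741

noncomputable section

namespace Crest.Agent.R122.BirthOut664

variable {Φ : Space3 → ℝ} {f₀ : PhasePoint → ℝ} {ε : ℝ}

/-! ### Measurability -/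

theorem near0_iff {m : ℕ} {w : Config m} {s r : ℝ} {x : Space3} :
    Near Φ ε w s 0 r x ↔ ∃ i, dist x (flow Φ ε s w i).1 ≤ r := by
  constructor
  · rintro ⟨i, t, ⟨h1, h2⟩, hd⟩
    have h3 : t = s := le_antisymm (by simpa using h2) (by simpa using h1)
    subst h3
    exact ⟨i, hd⟩
  · rintro ⟨i, hd⟩
    exact ⟨i, s, ⟨by simp, by simp⟩, hd⟩

theorem measurableSet_birth (hΦ : AdmissiblePotential Φ) (hε : 0 < ε) {α : Type*}
    [MeasurableSpace α] {m : ℕ} {W : α → Config m} (hW : Measurable W) {l : α → LSt}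
    (hl : Measurable l) :
    MeasurableSet {q : α | ∃ i : Fin m, dist (l q).2.1 (flow Φ ε (l q).1 (W q) i).1 ≤ ε} := by
  have h1 : Measurable fun q : α => ((W q, ((l q).1, (ε, (l q).2.1))) :
      Config m × (ℝ × (ℝ × Space3))) :=
    hW.prodMk (hl.fst.prodMk (measurable_const.prodMk hl.snd.fst))
  have h2 := h1 (measurableSet_near hΦ hε 0 m)
  have e : {q : α | ∃ i : Fin m, dist (l q).2.1 (flow Φ ε (l q).1 (W q) i).1 ≤ ε} =
      (fun q : α => ((W q, ((l q).1, (ε, (l q).2.1))) : Config m × (ℝ × (ℝ × Space3)))) ⁻¹'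
        {q : Config m × (ℝ × (ℝ × Space3)) | Near Φ ε q.1 q.2.1 0 q.2.2.1 q.2.2.2} := by
    ext q
    exact near0_iff.symm
  rw [e]
  exact h2

theorem measurableSet_bW6 (hΦ : AdmissiblePotential Φ) (hε : 0 < ε) (P : CTree) (m : ℕ) :
    MeasurableSet {q : (PhasePoint × Par P) × (Config m × (Lab × LSt)) |
      BW6 Φ ε P q.1 q.2.1 q.2.2} := by
  have hw : Measurable fun q : (PhasePoint × Par P) × (Config m × (Lab × LSt)) => q.2.1 :=
    measurable_fst.comp measurable_snd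
  have hθ : Measurable fun q : (PhasePoint × Par P) × (Config m × (Lab × LSt)) => q.2.2 :=
    measurable_snd.comp measurable_snd
  have hd : Measurable fun q : (PhasePoint × Par P) × (Config m × (Lab × LSt)) =>
      (dL q.2.2).1 := hθ.fst.fst.fst
  have he : Measurable fun q : (PhasePoint × Par P) × (Config m × (Lab × LSt)) =>
      (eL q.2.2).1 := hθ.snd
  have heL : Measurable fun q : (PhasePoint × Par P) × (Config m × (Lab × LSt)) =>
      eL q.2.2 := hθ.snd.prodMk hθ.fst.snd.snd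
  have ho : ∀ k : Option Bool, Measurable fun q : (PhasePoint × Par P) ×
      (Config m × (Lab × LSt)) => (outL6 Φ ε P q.1 (eL q.2.2) k).1 := fun k =>
    (measurable_outL6 hΦ ε P k).fst.comp (f := fun q : (PhasePoint × Par P) ×
      (Config m × (Lab × LSt)) => (q.1, eL q.2.2)) (measurable_fst.prodMk heL)
  have e : {q : (PhasePoint × Par P) × (Config m × (Lab × LSt)) | BW6 Φ ε P q.1 q.2.1 q.2.2} =
      {q | ∃ i : Fin m, dist (dL q.2.2).1.2.1 (flow Φ ε (dL q.2.2).1.1 q.2.1 i).1 ≤ ε} ∪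
      ({q | ∃ i : Fin m, dist (eL q.2.2).1.2.1 (flow Φ ε (eL q.2.2).1.1 q.2.1 i).1 ≤ ε} ∪
      ⋃ k : Option Bool, {q | ∃ i : Fin m, dist (outL6 Φ ε P q.1 (eL q.2.2) k).1.2.1
        (flow Φ ε (outL6 Φ ε P q.1 (eL q.2.2) k).1.1 q.2.1 i).1 ≤ ε}) := by
    ext q
    simp only [BW6, BOut, mem_ofPred_eq, mem_union, mem_iUnion]
  rw [e]
  exact (measurableSet_birth hΦ hε hw hd).union ((measurableSet_birth hΦ hε hw he).union
    (MeasurableSet.iUnion fun k => measurableSet_birth hΦ hε hw (ho k)))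

/-- **The birth functional** (`0` for `ε ≤ 0`). -/
def bw6 (Φ : Space3 → ℝ) (K : ℕ) (ε : ℝ) : SF2 := fun P z _m w θ =>
  if 0 < ε ∧ OkL K θ ∧ P.leaves ≤ K ∧ BW6 Φ ε P z w θ then 1 else 0

theorem measSF2_bw6 (hΦ : AdmissiblePotential Φ) (K : ℕ) (ε : ℝ) : MeasSF2 (bw6 Φ K ε) := by
  intro P m
  unfold bw6
  by_cases hε : 0 < ε
  · simp only [hε, true_and]
    refine Measurable.ite ?_ measurable_const measurable_const
    by_cases hP : P.leaves ≤ K
    · simp only [hP, true_and]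
      exact ((measurable_snd.comp measurable_snd) (measurableSet_OkL K)).inter
        (measurableSet_bW6 hΦ hε P m)
    · simp only [hP, false_and, and_false]
      exact MeasurableSet.empty
  · simp only [hε, false_and, if_false]
    exact measurable_const

theorem bw6_eq_one (hε : 0 < ε) {K : ℕ} {P : CTree} {z : PhasePoint × Par P} {m : ℕ}
    {w : Config m} {θ : Lab × LSt} (hok : OkL K θ) (hK : P.leaves ≤ K)
    (hB : BW6 Φ ε P z w θ) : bw6 Φ K ε P z m w θ = 1 := if_pos ⟨hε, hok, hK, hB⟩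


/-- **The birth functional is null**, uniformly over the laws `PX`. -/
theorem bw6_OS2_le (hΦ : AdmissiblePotential Φ) {A : Space3 → ℝ≥0∞} {C b g0 : ℝ}
    (hF : FOk f₀ A C b) {Q : EPar} (hQ : QOk Q g0) {PP : ℕ → PPar} (hP : PPOk Q PP) (T' : ℝ) :
    ∃ δ : ℕ → ℝ → ℝ≥0∞, Null δ ∧ ∀ (K : ℕ) (ε : ℝ), 0 < ε →
      ∀ (Ξ ν : Measure (Lab × LSt)) (c : ℝ≥0∞), PX (PP K) Ξ ν c →
      OS2 Φ f₀ ε Q.te T' ν (bw6 Φ K ε) ≤ c * δ K ε := by
  obtain ⟨δ, h1, h2⟩ := bW6_null hΦ hF hQ hP T'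
  refine ⟨δ, h1, fun K ε hε Ξ ν c hPX => h2 K ε hε Ξ ν c hPX _ fun P z m w θ _ => ?_⟩
  unfold bw6
  by_cases h : OkL K θ ∧ P.leaves ≤ K ∧ BW6 Φ ε P z w θ
  · rw [if_pos ⟨hε, h⟩, if_pos h]
  · rw [if_neg fun h' => h h'.2]
    exact zero_le


end Crest.Agent.R122.BirthOut664

end
end

-- ▼ part R122/Link6F_796
section

/-!
# Row 122, LINK6 (helper796), final form

`link6F` : `NullFacts` of a countable family of pair laws and one measurable `bd ≥ bd6` on `Gd6`, from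
`Slots6G` for every tree and shape (helper664's `bw6`, helper741's `encM`, slack `slk`).
-/

set_option autoImplicit false
set_option linter.unusedSectionVars false

open MeasureTheory Set Filter Topology
open scoped Classical ENNReal
open Crest.AnalysisR.Kinetic
open Crest.Agent.R122.GC311 Crest.Agent.R122.EDefs602
open Crest.Agent.R122.Kin796 Crest.Agent.R122.Kin796.CTree Crest.Agent.R122.Tree674
open Crest.Agent.R122.Gate424 Crest.Agent.R122.Gate973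
open Crest.Agent.R122.Boost969 (LSt)
open Crest.Agent.R122.Pair292 (Lab PPar PX)
open Crest.Agent.R122.PairD292 Crest.Agent.R122.Pt6811 Crest.Agent.R122.Third741
open Crest.Agent.R122.PairRep581 Crest.Agent.R122.GateOS2495
open Crest.Agent.R122.BirthOut664

noncomputable section

namespace Crest.Agent.R122.Link6796

variable {Φ : Space3 → ℝ} {f₀ : PhasePoint → ℝ}

/-- **LINK6, final form.** -/
theorem link6F (hΦ : AdmissiblePotential Φ) {A : Space3 → ℝ≥0∞} {C b g0 : ℝ}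
    (hF₀ : FOk f₀ A C b) {Q : EPar} (hQ : QOk Q g0) {PP : ℕ → PPar} (hP : PPOk Q PP) {T' : ℝ}
    {J : Type} [Countable J] {ι : J → ℕ → Type} [∀ j K, Fintype (ι j K)]
    {ν Ξ : J → ℕ → ℝ → Measure (Lab × LSt)} {S : ∀ j K, ι j K → Shp}
    (hR : ∀ j K, Rep (ν j K) (S j K)) (hB : ∀ j K s, StandardBorelSpace (S j K s).Θ)
    (hν : ∀ j K ε, 0 < ε → SFinite (ν j K ε)) {c : J → ℝ≥0∞} (hc : ∀ j, c j ≠ ∞)
    {ε₁ : J → ℝ} (hε₁ : ∀ j, 0 < ε₁ j)
    (hPX : ∀ j K ε, 0 < ε → ε < ε₁ j → PX (PP K) (Ξ j K ε) (ν j K ε) (c j))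
    (hS : ∀ j K P s, P.leaves ≤ K → Slots6G Φ f₀ Q T' K P (S j K s))
    (hok : ∀ j K ε, 0 < ε → OkAE Φ ε K (ν j K ε))
    (hbad : ∀ j, Null fun K ε => BAD Φ f₀ ε K Q (ν j K ε)) :
    ∃ bd : ℕ → ℝ → SF2,
      (∀ (K : ℕ) (ε : ℝ), 0 < ε → ∀ (P : CTree) (z : PhasePoint × Par P) (m : ℕ)
        (w : Config m) (θ : Lab × LSt), (eL θ).2 + P.leaves ≤ K → Real6 Φ ε K Q.te T' P z w θ →
        GIV566.unhit Φ ε (OneC285.ptube Φ ε P z) Q.tw w →
        bd6 Φ Q slk K ε P z m w θ ≤ bd K ε P z m w θ) ∧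
      ∀ j, NullFacts Φ f₀ Q T' bd (ν j) := by
  obtain ⟨δ, hδ, hle⟩ := bw6_OS2_le hΦ hF₀ hQ hP T'
  obtain ⟨bd, h1, h2⟩ := link6G hΦ hF₀ hQ hP hR hB hν hc hε₁ hPX (bw := bw6 Φ)
    (fun K ε _ => measSF2_bw6 hΦ K ε)
    (fun K ε hε P z m w θ _ _ hL hPK hb => (bw6_eq_one hε hL hPK hb).ge) hδ
    (fun K ε hε Ξ ν c _ hx => hle K ε hε Ξ ν c hx) hS (σ := slk) sqrt_slot hok hbad
  exact ⟨bd, fun K ε hε P z m w θ hK hR6 hu => h1 K ε hε P z m w θ ⟨hK, hR6, hu⟩, h2⟩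

end Crest.Agent.R122.Link6796

end
end

-- ▼ part R122/NullSkel_837
section

/-!
# Null facts of the continued pair laws, assembly (row 122, inequality 3, 13i), helper837

* `auxK_K3`, `okAE_K3`, `sig_K3` : the worlds are good, the turning time is before the birth of the
  second line, for all the laws `bindN ν (K3 ..) j`.
* `bad_K3` : `NullFacts.bad` of all continuations, from the pair links.
* `linkE_of_rep` : the pair links from the gateway form over the shapes.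
* `nullFacts_K3` : `NullFacts` of all continuations, one functional `bd`, from the gateway forms over
  the shapes `itS` (functional `F` without measurability).
* `badNB_K3`, `null6_K3` : the same from helper581's `LinkENB` and helper796's `Slots6G`, with
  the functional `bd6` of LINK6.
-/

set_option autoImplicit false
set_option linter.unusedSectionVars false

open MeasureTheory ProbabilityTheory Set Filter Topology
open scoped ENNReal Classical
open Crest.AnalysisR.Kinetic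
open Crest.Agent.R122.GC311 Crest.Agent.R122.EDefs602
open Crest.Agent.R122.Kin796 Crest.Agent.R122.Kin796.CTree Crest.Agent.R122.Tree674
open Crest.Agent.R122.Boost969 (LSt SprL)
open Crest.Agent.R122.Pair292 hiding ML
open Crest.Agent.R122.PairD292 Crest.Agent.R122.PairBad515 Crest.Agent.R122.PairOk735
open Crest.Agent.R122.StepK85
open Crest.Agent.R122.Gate424 Crest.Agent.R122.Gate973 Crest.Agent.R122.PairRep581
open Crest.Agent.R122.GateOS2495
open Crest.Agent.R122.StrN998 (itS)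

noncomputable section

namespace Crest.Agent.R122.NullSkel837

variable {Φ : Space3 → ℝ} {f₀ : PhasePoint → ℝ} {ε b₀ te : ℝ}

/-! ### Good worlds -/

theorem outO_fst (k : Option Bool) (s : ℝ) (y : Space3) (q : OCout796.CD) :
    (outO Φ ε k s y q).1 = s + OCout796.outT Φ ε q := by
  rcases k with _ | (_ | _) <;> rfl

theorem auxK_K3 (hΦ : AdmissiblePotential Φ) (hε : 0 ≤ ε) {q : ℕ → ℝ≥0∞} (hq : ∀ m, q m ≠ ∞) :
    AuxK (K3 Φ ε b₀ te q) := by
  have h : ∀ k : Option Bool, AuxK (KO Φ ε b₀ te q k) := fun k =>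
    auxK_stO hΦ hε (outMap_outO hΦ ε k) (outO_fst k) b₀ te (outF k) hq
  exact (h none).add ((h (some false)).add (h (some true)))

/-- **Good worlds for all continuations.** -/
theorem okAE_K3 (hΦ : AdmissiblePotential Φ) (hε : 0 < ε) {K : ℕ} {P : PPar}
    {Ξ ν : Measure (Lab × LSt)} {c : ℝ≥0∞} (h : PX P Ξ ν c) {q : ℕ → ℝ≥0∞} (hq : ∀ m, q m ≠ ∞)
    {Kd : Kernel (Lab × LSt) (Lab × LSt)} {r₀ : ℝ≥0∞} (hK : StepK P (K3 Φ ε b₀ te q) Kd r₀)
    (ha : Mark307.Aux ε ν) (j : ℕ) : OkAE Φ ε K (bindN ν (K3 Φ ε b₀ te q) j) := by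
  refine (okAE'_bindN hΦ hε h hK (auxK_K3 hΦ hε.le hq) ?_ ha.na ha.sb j).okAE
  filter_upwards [ha.sg] with θ hθ
  exact hθ.2

/-- **Turning times of all continuations.** -/
theorem sig_K3 (hΦ : AdmissiblePotential Φ) (hε : 0 < ε) {ν : Measure (Lab × LSt)}
    {q : ℕ → ℝ≥0∞} (hq : ∀ m, q m ≠ ∞) (ha : Mark307.Aux ε ν) (j : ℕ) :
    ∀ᵐ θ : Lab × LSt ∂(bindN ν (K3 Φ ε b₀ te q) j), sig θ.1 ≤ θ.2.1 := by
  have h0 : ∀ᵐ θ : Lab × LSt ∂ν, sig θ.1 ≤ (eL θ).1.1 := by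
    filter_upwards [ha.sg] with θ hθ
    exact hθ.2
  cases j with
  | zero => exact h0
  | succ j =>
    filter_upwards [(auxS_bindN (auxK_K3 (b₀ := b₀) (te := te) hΦ hε.le hq) h0 j).sg] with θ hθ
    exact hθ.le

/-- The turning times stay nonnegative. -/
theorem sig0_bind {κ : Kernel (Lab × LSt) (Lab × LSt)} (hκ : AuxK κ) {ν : Measure (Lab × LSt)}
    (h : ∀ᵐ θ : Lab × LSt ∂ν, 0 ≤ sig θ.1) : ∀ᵐ θ : Lab × LSt ∂(ν.bind κ), 0 ≤ sig θ.1 := by
  have hm : MeasurableSet {θ : Lab × LSt | ¬ 0 ≤ sig θ.1} :=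
    (measurableSet_le measurable_const (measurable_sig.comp measurable_fst)).compl
  rw [ae_iff, Measure.bind_apply hm (Kernel.aemeasurable κ)]
  refine lintegral_eq_zero_of_ae_eq_zero ?_
  filter_upwards [h] with p hp
  show κ p {θ : Lab × LSt | ¬ 0 ≤ sig θ.1} = 0
  rw [← ae_iff (p := fun θ : Lab × LSt => 0 ≤ sig θ.1)]
  filter_upwards [hκ p] with p' hp'
  rw [hp'.2.1]
  exact hp

/-- **Turning times of all continuations**, the literal hypothesis of `Step6`. -/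
theorem sig6_K3 (hΦ : AdmissiblePotential Φ) (hε : 0 < ε) {ν : Measure (Lab × LSt)}
    {q : ℕ → ℝ≥0∞} (hq : ∀ m, q m ≠ ∞) (ha : Mark307.Aux ε ν) (j : ℕ) :
    ∀ᵐ θ : Lab × LSt ∂(bindN ν (K3 Φ ε b₀ te q) j), 0 ≤ sig θ.1 ∧ sig θ.1 ≤ θ.2.1 := by
  have h0 : ∀ᵐ θ : Lab × LSt ∂(bindN ν (K3 Φ ε b₀ te q) j), 0 ≤ sig θ.1 := by
    induction j with
    | zero =>
      filter_upwards [ha.sg] with θ hθ
      exact hθ.1
    | succ j ih => exact sig0_bind (auxK_K3 hΦ hε.le hq) ih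
  filter_upwards [h0, sig_K3 (b₀ := b₀) (te := te) hΦ hε hq ha j] with θ h1 h2
  exact ⟨h1, h2⟩

/-! ### Bad first contacts -/

variable {Q : EPar} {T' : ℝ} {q : ℕ → ℕ → ℝ≥0∞} {PP : ℕ → PPar}

/-- The law of the `j`-th continuation. -/
abbrev nuJ (Φ : Space3 → ℝ) (b₀ te : ℝ) (q : ℕ → ℕ → ℝ≥0∞) (ν : ℕ → ℝ → Measure (Lab × LSt))
    (j K : ℕ) (ε : ℝ) : Measure (Lab × LSt) := bindN (ν K ε) (K3 Φ ε b₀ te (q K)) j


/-- **`NullFacts.bad` of all continuations.** -/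
theorem bad_K3 (hΦ : AdmissiblePotential Φ) (hf : Measurable f₀)
    (h1 : ∫⁻ z, ENNReal.ofReal (f₀ z) ≤ 1) (hPP : PPOk Q PP) {γ₀ : ℝ} (hγp : 0 < γ₀)
    (hγ : Measurable Q.γ) (hγ₀ : ∀ τ ∈ Ioc 0 Q.te, γ₀ ≤ Q.γ τ) (hρ : Q.ρ < 1)
    {Kd : ℕ → ℝ → Kernel (Lab × LSt) (Lab × LSt)} {r₀ : ℝ≥0∞} (hr₀ : r₀ ≠ ∞)
    (hK : ∀ K ε, 0 < ε → StepK (PP K) (K3 Φ ε b₀ Q.te (q K)) (Kd K ε) r₀)
    {Ξ ν : ℕ → ℝ → Measure (Lab × LSt)} {c : ℝ≥0∞} (hc : c ≠ ∞)
    (hPX : ∀ K ε, 0 < ε → PX (PP K) (Ξ K ε) (ν K ε) c) (j : ℕ)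
    (hL : Null fun K ε => gcE f₀ ε fun _ w =>
      ∫⁻ θ, (if LinkE Φ ε K Q w θ then 1 else 0) ∂(nuJ Φ b₀ Q.te q ν j K ε)) :
    Null fun K ε => BAD Φ f₀ ε K Q (nuJ Φ b₀ Q.te q ν j K ε) :=
  PairBirth664.bad_null_px hΦ hf h1 hPP hγp hγ hγ₀ hρ (c := fun _ => r₀ ^ j * c)
    (fun _ => ENNReal.mul_ne_top (ENNReal.pow_ne_top hr₀) hc)
    (fun K ε hε _ => ⟨_, (hPX K ε hε).bindN (hK K ε hε) j⟩) hL

/-! ### All null facts -/


/-- **The pair links from the gateway form**, second line not reborn near the gas (helper581's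
`LinkENB`). -/
theorem linkENB_of_rep (hf : Measurable f₀) {ι : ℕ → Type} [∀ K, Fintype (ι K)]
    {ν : ℕ → ℝ → Measure (Lab × LSt)} {S : ∀ K, ι K → Shp} (h : ∀ K, Rep (ν K) (S K))
    (hE : ∀ K s, GNull f₀ (S K s).mI
      (fun ε _ _ x w => LinkENB Φ ε K Q w ((S K s).th ε x))) :
    Null fun K ε => gcE f₀ ε fun _ w => ∫⁻ θ, (if LinkENB Φ ε K Q w θ then 1 else 0) ∂(ν K ε) :=
  null_of_rep_E hf h (E := fun K ε _ w θ => LinkENB Φ ε K Q w θ) hE

/-- **`NullFacts.bad` of all continuations** from `LinkENB` over the shapes. -/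
theorem badNB_K3 (hΦ : AdmissiblePotential Φ) (hf : Measurable f₀)
    (h1 : ∫⁻ z, ENNReal.ofReal (f₀ z) ≤ 1) (hPP : PPOk Q PP) {γ₀ : ℝ} (hγp : 0 < γ₀)
    (hγ : Measurable Q.γ) (hγ₀ : ∀ τ ∈ Ioc 0 Q.te, γ₀ ≤ Q.γ τ) (hρ : Q.ρ < 1)
    (hq : ∀ K m, q K m ≠ ∞)
    {Kd : ℕ → ℝ → Kernel (Lab × LSt) (Lab × LSt)} {r₀ : ℝ≥0∞} (hr₀ : r₀ ≠ ∞)
    (hK : ∀ K ε, 0 < ε → StepK (PP K) (K3 Φ ε b₀ Q.te (q K)) (Kd K ε) r₀)
    {Ξ ν : ℕ → ℝ → Measure (Lab × LSt)} {c : ℝ≥0∞} (hc : c ≠ ∞)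
    (hPX : ∀ K ε, 0 < ε → PX (PP K) (Ξ K ε) (ν K ε) c)
    {ι : ℕ → Type} [∀ K, Fintype (ι K)] {S : ∀ K, ι K → Shp} {γs βs : ℝ} {ρs : Space3 → ℝ≥0∞}
    (hR : ∀ K, Rep (ν K) (S K)) (hS : ∀ K s, ShpOk γs βs ρs (S K s)) (j : ℕ)
    (hL : ∀ K s, GNull f₀ (itS (S K s) Φ b₀ Q.te (q K) j).mI
      (fun ε _ _ x w => LinkENB Φ ε K Q w ((itS (S K s) Φ b₀ Q.te (q K) j).th ε x))) :
    Null fun K ε => BAD Φ f₀ ε K Q (nuJ Φ b₀ Q.te q ν j K ε) := by
  have hcj : ∀ K : ℕ, (fun _ : ℕ => r₀ ^ j * c) K ≠ ∞ := fun _ =>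
    ENNReal.mul_ne_top (ENNReal.pow_ne_top hr₀) hc
  have hPXj : ∀ (K : ℕ) (ε : ℝ), 0 < ε → ε ≤ 1 →
      ∃ Ξ, PX (PP K) Ξ (nuJ Φ b₀ Q.te q ν j K ε) (r₀ ^ j * c) := fun K ε hε _ =>
    ⟨_, (hPX K ε hε).bindN (hK K ε hε) j⟩
  exact bad_K3 hΦ hf h1 hPP hγp hγ hγ₀ hρ hr₀ hK hc hPX j
    (linkE_null_of_nb hΦ hf h1 hPP hγp hγ hγ₀ hρ hcj hPXj
      (linkENB_of_rep hf (fun K => StrN998.rep_itS_D (γ := fun _ => γs) (β := fun _ => βs) (hR K)
        (hS K) hΦ (hq K) j) hL))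

/-- **`NullFacts` of all continuations, with the functional `bd6` of LINK6** (helper796's `link6F`), from
the gateway facts over the shapes `itS`. -/
theorem null6_K3 (hΦ : AdmissiblePotential Φ) {A : Space3 → ℝ≥0∞} {C b g0 : ℝ}
    (hF₀ : Third741.FOk f₀ A C b) (hQ : Third741.QOk Q g0) (hρ : Q.ρ < 1) (hPP : PPOk Q PP)
    (hq : ∀ K m, q K m ≠ ∞)
    {Kd : ℕ → ℝ → Kernel (Lab × LSt) (Lab × LSt)} {r₀ : ℝ≥0∞} (hr₀ : r₀ ≠ ∞)
    (hK : ∀ K ε, 0 < ε → StepK (PP K) (K3 Φ ε b₀ Q.te (q K)) (Kd K ε) r₀)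
    {Ξ ν : ℕ → ℝ → Measure (Lab × LSt)} {c : ℝ≥0∞} (hc : c ≠ ∞)
    (hPX : ∀ K ε, 0 < ε → PX (PP K) (Ξ K ε) (ν K ε) c)
    (hA : ∀ K ε, 0 < ε → Mark307.Aux ε (ν K ε))
    {ι : ℕ → Type} [∀ K, Fintype (ι K)] {S : ∀ K, ι K → Shp} {γs βs : ℝ} {ρs : Space3 → ℝ≥0∞}
    (hR : ∀ K, Rep (ν K) (S K)) (hS : ∀ K s, ShpOk γs βs ρs (S K s))
    (hB : ∀ K s, StandardBorelSpace (S K s).Θ)
    (hL : ∀ j K s, GNull f₀ (itS (S K s) Φ b₀ Q.te (q K) j).mI
      (fun ε _ _ x w => LinkENB Φ ε K Q w ((itS (S K s) Φ b₀ Q.te (q K) j).th ε x)))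
    (hF : ∀ j K P s, P.leaves ≤ K →
      Link6796.Slots6G Φ f₀ Q T' K P (itS (S K s) Φ b₀ Q.te (q K) j)) :
    ∃ bd : ℕ → ℝ → SF2,
      (∀ (K : ℕ) (ε : ℝ), 0 < ε → ∀ (P : CTree) (z : PhasePoint × Par P) (m : ℕ)
        (w : Config m) (θ : Lab × LSt), (eL θ).2 + P.leaves ≤ K → Real6 Φ ε K Q.te T' P z w θ →
        GIV566.unhit Φ ε (OneC285.ptube Φ ε P z) Q.tw w →
        Pt6811.bd6 Φ Q slk K ε P z m w θ ≤ bd K ε P z m w θ) ∧
      ∀ j, NullFacts Φ f₀ Q T' bd (nuJ Φ b₀ Q.te q ν j) := by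
  have hRj : ∀ j K, Rep (nuJ Φ b₀ Q.te q ν j K) (fun s => itS (S K s) Φ b₀ Q.te (q K) j) :=
    fun j K => StrN998.rep_itS_D (γ := fun _ => γs) (β := fun _ => βs) (hR K) (hS K) hΦ (hq K) j
  have hPXj : ∀ j K ε, 0 < ε → PX (PP K) (bindN (Ξ K ε) (Kd K ε) j)
      (nuJ Φ b₀ Q.te q ν j K ε) (r₀ ^ j * c) := fun j K ε hε => (hPX K ε hε).bindN (hK K ε hε) j
  refine Link6796.link6F hΦ hF₀ hQ hPP (J := ℕ) (ι := fun _ K => ι K)
    (Ξ := fun j K ε => bindN (Ξ K ε) (Kd K ε) j) hRj (fun j K s => ?_)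
    (fun j K ε hε => (hPXj j K ε hε).sfν) (c := fun j => r₀ ^ j * c)
    (fun j => ENNReal.mul_ne_top (ENNReal.pow_ne_top hr₀) hc) (ε₁ := fun _ => 1)
    (fun _ => one_pos) (fun j K ε hε _ => hPXj j K ε hε) (fun j K P s hP => hF j K P s hP)
    (fun j K ε hε => okAE_K3 hΦ hε (hPX K ε hε) (hq K) (hK K ε hε) (hA K ε hε) j)
    fun j => badNB_K3 hΦ hF₀.meas hF₀.mass hPP hQ.g0_pos hQ.γ_meas hQ.γ_ge hρ hq hr₀ hK hc hPX
      hR hS j (hL j)
  have := hB K s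
  exact StdB495.standardBorel_th j

end Crest.Agent.R122.NullSkel837

end
end

-- ▼ part R122/I3Slots_837

/-!
# Inequality 3: the base law and the null facts of the windows (row 122), helper837

* `I3Leaves` : the gateway facts over the shapes of all continuations; `I3LeavesIn` : in all windows.
* `base3W_win` : helper478's `Base3W` of a window from helper85's `BaseLaw` and `I3Leaves`.
* `base3In_of_leaves` : `Base3In` from `I3LeavesIn`.
-/

set_option autoImplicit false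
set_option linter.unusedSectionVars false

open MeasureTheory ProbabilityTheory Set Filter Topology
open scoped ENNReal Classical
open Crest.AnalysisR.Kinetic
open Crest.Agent.R122.GC311 Crest.Agent.R122.EDefs602
open Crest.Agent.R122.Kin796 Crest.Agent.R122.Kin796.CTree Crest.Agent.R122.Tree674
open Crest.Agent.R122.Boost969 (LSt)
open Crest.Agent.R122.Pair292 hiding ML
open Crest.Agent.R122.PairD292 Crest.Agent.R122.Top602
open Crest.Agent.R122.Gate424 Crest.Agent.R122.Gate973 Crest.Agent.R122.PairRep581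
open Crest.Agent.R122.StrN998 (itS)
open Crest.Agent.R122.NuL735 (NPar nuL Ix famB)
open Crest.Agent.R122.Master566 (KData)
open Crest.Agent.R122.Mark307 (BPar Aux)
open Crest.Agent.R122.CaseC658 (qK)
open Crest.Agent.R122.PairIter566 (Base3)
open Crest.Agent.R122.I3In566 (Adm3 parW)
open Crest.Agent.R122.NuC85 (BaseLaw nW)
open Crest.Agent.R122.I3Fin478 (Base3W Base3In)

noncomputable section

namespace Crest.Agent.R122.I3Slots837

variable {Φ : Space3 → ℝ} {β T : ℝ} {f₀ : PhasePoint → ℝ} {f : ℝ → PhasePoint → ℝ}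

/-- **The gateway facts** over the shapes of all continuations of the base law. -/
structure I3Leaves (Φ : Space3 → ℝ) (f₀ : PhasePoint → ℝ) (Q : EPar) (T' b₀ : ℝ)
    (q : ℕ → ℕ → ℝ≥0∞) (N : NPar) : Prop where
  /-- pair links -/
  linkN : ∀ (j K : ℕ) (s : Ix N.m₀), GNull f₀ (itS (famB Φ K N s) Φ b₀ Q.te (q K) j).mI
    (fun ε _ _ x w => LinkENB Φ ε K Q w ((itS (famB Φ K N s) Φ b₀ Q.te (q K) j).th ε x))
  /-- the null facts of LINK6 -/
  slots6 : ∀ (j K : ℕ) (P : CTree) (s : Ix N.m₀), P.leaves ≤ K →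
    Link6796.Slots6G Φ f₀ Q T' K P (itS (famB Φ K N s) Φ b₀ Q.te (q K) j)

/-- **The gateway facts of all windows**: the open input. -/
def I3LeavesIn (Φ : Space3 → ℝ) (β : ℝ) (f₀ : PhasePoint → ℝ) (f : ℝ → PhasePoint → ℝ) (T : ℝ) :
    Prop :=
  InHL T fun h₀ γ ρ => ∀ (kap lam C g : ℝ) (B : BPar), Adm3 Φ β T f γ ρ h₀ kap lam C g B →
    ∀ (Cf : ℝ) (m : ℕ), EvW T fun _ L tw te => IH Φ f₀ f T γ ρ tw → tw < te → te < tw + h₀ →
      I3Leaves Φ f₀ (epar γ ρ L tw te) (tw + h₀) B.b₀ (qK C lam) (nW β Cf g ρ h₀ m tw te)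

/-! ### One window -/

theorem qOk_epar {g1 : ℝ} {r1 ρ : ℝ≥0∞} {γ : ℝ → ℝ} (hl : LinePar g1 r1 T γ ρ)
    {h₀ kap lam C g : ℝ} {B : BPar} (hA : Adm3 Φ β T f γ ρ h₀ kap lam C g B) {L tw te : ℝ}
    (hte : te ≤ T) : Third741.QOk (epar γ ρ L tw te) g :=
  ⟨(hl.hi.trans_le le_top).ne, hl.measurable, hA.g0, fun τ hτ => hA.rate τ (hτ.2.trans hte)⟩

/-- **The base law and the null facts of one window.** -/
theorem base3W_win (hD : KData Φ β T f₀ f) {g1 : ℝ} {r1 ρ : ℝ≥0∞} {γ : ℝ → ℝ}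
    (hl : LinePar g1 r1 T γ ρ) {h₀ kap lam C g : ℝ} {B : BPar}
    (hA : Adm3 Φ β T f γ ρ h₀ kap lam C g B) {L tw te : ℝ} (hte : te ≤ T) {Cf : ℝ} {m : ℕ}
    {c : ℝ≥0∞} (hc : c ≠ ∞) {PM : ℕ → ℝ → ℝ≥0∞} {ν : ℕ → ℝ → Measure (Lab × LSt)}
    (hν : BaseLaw Φ f₀ (epar γ ρ L tw te) (parW B hA.ok te) (nW β Cf g ρ h₀ m tw te) c PM ν)
    (hlv : I3Leaves Φ f₀ (epar γ ρ L tw te) (tw + h₀) B.b₀ (qK C lam)
      (nW β Cf g ρ h₀ m tw te)) :
    Base3W Φ f₀ (epar γ ρ L tw te) (tw + h₀) B.b₀ (qK C lam) (parW B hA.ok te) c PM := by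
  have hΦ := hD.adm
  have hρt : ρ ≠ ∞ := (hl.hi.trans_le le_top).ne
  obtain ⟨A, C₀, hF₀⟩ := Third741.FOk.of_kdata hD
  have hQ := qOk_epar hl hA (L := L) (tw := tw) hte
  have hPP : PPOk (epar γ ρ L tw te) (parW B hA.ok te) := hA.ppOk hte
  have hb0 : 0 < B.b₀ := hA.b0
  have hb2 : B.b₀ ≤ 2 * β := by
    have h1 := hA.ok.b0s
    have h2 := hA.bs
    have h3 := hD.beta_pos
    linarith
  have hbg := hA.bg
  have hg0 := hA.g0
  have hS : ∀ (K : ℕ) (s : Ix (nW β Cf g ρ h₀ m tw te).m₀),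
      ShpOk B.b₀ (B.b₀ / 2) (fun _ => 0) (famB Φ K (nW β Cf g ρ h₀ m tw te) s) := fun K s =>
    NuL735.shpOk_base hΦ K (nW β Cf g ρ h₀ m tw te) (γ := B.b₀) (β := B.b₀ / 2) hb2 hbg
      (by show B.b₀ / 2 < 2 * β; linarith) (by show B.b₀ / 2 < g; linarith) hρt
      measurable_const s
  have hR : ∀ K : ℕ, Rep (ν K) (famB Φ K (nW β Cf g ρ h₀ m tw te)) := fun K =>
    NuL735.rep_of_le (NuL735.rep_base hΦ (nW β Cf g ρ h₀ m tw te)) fun ε hε => hν.le K ε hε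
  choose Ξ hΞ using hν.px
  set Ξ' : ℕ → ℝ → Measure (Lab × LSt) := fun K ε => if h : 0 < ε then Ξ K ε h else 0 with hΞ'
  have hPX : ∀ K ε, 0 < ε → PX (parW B hA.ok te K) (Ξ' K ε) (ν K ε) c := by
    intro K ε hε
    rw [hΞ']
    simp only [dif_pos hε]
    exact hΞ K ε hε
  obtain ⟨bd, h1, h2⟩ := NullSkel837.null6_K3 (T' := tw + h₀) hΦ hF₀ hQ hl.hi hPP
    (q := qK C lam) (fun K n => I3In566.qK_ne_top C lam K n) (b₀ := B.b₀)
    (Kd := fun K ε => StepK85.K3d hΦ ε B.b₀ (qK C lam K)) (r₀ := 2⁻¹) (by norm_num)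
    (fun K ε hε => hA.stepK hΦ hte K hε) hc hPX hν.aux hR hS
    (fun K s => NuL735.stdB_base K _ s) (fun j K s => hlv.linkN j K s)
    fun j K P s hP => hlv.slots6 j K P s hP
  refine ⟨bd, fun K ε hε P z n w θ hg => h1 K ε hε P z n w θ hg.small hg.real hg.unhit, Ξ', ν,
    hPX, hν.mass, fun j K ε hε => ?_, h2⟩
  exact NullSkel837.sig6_K3 hΦ hε (fun n => I3In566.qK_ne_top C lam K n) (hν.aux K ε hε) j

/-! ### All windows -/

/-- **The base laws of all windows** from the gateway facts. -/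
theorem base3In_of_leaves (hD : KData Φ β T f₀ f) (h : I3LeavesIn Φ β f₀ f T) :
    Base3In Φ β f₀ f T := by
  refine h.mono fun h₀ γ ρ h0 hl hlv kap lam C g B hA m => ?_
  obtain ⟨g1, r1, hl⟩ := hl
  obtain ⟨Cf, c, -, -, hc, hBL⟩ := NuC85.baseLaw hD (hl.hi.trans_le le_top).ne hA m
  refine ⟨c, hc, (hlv kap lam C g B hA Cf m).mono fun _ L tw te _ hL hw hq hI hlt hT' => ?_⟩
  exact base3W_win hD hl hA hw.le_T hc
    (hBL L tw te (zero_le_one.trans hL) hw.nonneg hw.le hw.le_T hT'.le) (hq hI hlt hT')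


end Crest.Agent.R122.I3Slots837

end
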