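import Crest.Agent.R122.InfRule_879
import Crest.Agent.R122.ClusterPre_311
import Crest.Agent.R122.HitG1_167

-- ▼ part R122/InEq2Case_311
section

/-!
# Row 122, INEQUALITY 2' (helper311): the contact alternative at an infection time

At the infection time `σ` of `q`, if at most one pair enters contact at `σ` (`OneNew`), then one of
the following holds:

* (A) `q` is in contact with nobody just before `σ` and enters contact with a particle which was
  infected before `σ`;
* (B) `q` is in the middle of an encounter with `r ≠ q`, and some `p` in the old contact cluster of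
  `q` enters contact with a particle which was infected before `σ`;
* (C) the whole contact cluster of `q` is clean before `σ` and `K < size ≤ 2K` at `σ`.
-/

set_option autoImplicit false

open Set Filter Topology MeasureTheory
open Crest.AnalysisR.Kinetic

namespace Crest.Agent.R122.InEq2

open Causal291 Inf879

section rel

variable {ι : Type*} {C : ℝ → ι → ι → Prop} {σ : ℝ}

/-- `j` and `k` are in contact at times arbitrarily close to `σ` before `σ`. -/
def OldCt (C : ℝ → ι → ι → Prop) (σ : ℝ) (j k : ι) : Prop := ∃ᶠ s in 𝓝[<] σ, C s j k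

/-- `j` and `k` are in contact at `σ`, but not just before. -/
def NewCt (C : ℝ → ι → ι → Prop) (σ : ℝ) (j k : ι) : Prop := C σ j k ∧ ¬ OldCt C σ j k

/-- At most one pair enters contact at time `σ`. -/
def OneNew (C : ℝ → ι → ι → Prop) (σ : ℝ) : Prop :=
  ∀ a b c d, a ≠ b → NewCt C σ a b → c ≠ d → NewCt C σ c d → (a = c ∧ b = d) ∨ (a = d ∧ b = c)

theorem OldCt.symm (hs : ∀ s j k, C s j k → C s k j) {j k : ι} (h : OldCt C σ j k) :
    OldCt C σ k j := Frequently.mono h fun s => hs s j k

theorem NewCt.symm (hs : ∀ s j k, C s j k → C s k j) {j k : ι} (h : NewCt C σ j k) :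
    NewCt C σ k j := ⟨hs _ _ _ h.1, fun h' => h.2 (h'.symm hs)⟩

theorem OldCt.ct (hC : ∀ j k, IsClosed {s | C s j k}) {j k : ι} (h : OldCt C σ j k) : C σ j k := by
  have h1 : ∃ᶠ s in 𝓝 σ, s ∈ {s | C s j k} := Frequently.filter_mono h nhdsWithin_le_nhds
  exact (hC j k).mem_of_frequently_of_tendsto h1 tendsto_id

theorem OldCt.exists_between {j k : ι} (h : OldCt C σ j k) {a : ℝ} (ha : a < σ) :
    ∃ s, a < s ∧ s < σ ∧ C s j k := by
  have h1 : ∀ᶠ s in 𝓝[<] σ, a < s ∧ s < σ := by
    filter_upwards [self_mem_nhdsWithin, mem_nhdsWithin_of_mem_nhds (lt_mem_nhds ha)] with s h1 h2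
    exact ⟨h2, h1⟩
  obtain ⟨s, h2, h3⟩ := (h.and_eventually h1).exists
  exact ⟨s, h3.1, h3.2, h2⟩

theorem OldCt.pre_subset {j k : ι} (h : OldCt C σ j k) {s : ℝ} :
    pre C k σ s ⊆ pre C j σ s := by
  rintro i ⟨r, hr, hp⟩
  obtain ⟨u, hu, huσ, hc⟩ := h.exists_between hr.2
  refine ⟨u, ⟨hr.1.trans hu.le, huσ⟩, ?_⟩
  exact Past.trans (Past.contact (.root le_rfl) hc) (past_root_mono hu.le hp)

/-- Particles in old contact have the same exploration just before `σ`. -/
theorem OldCt.pre_eq (hs : ∀ s j k, C s j k → C s k j) {j k : ι} (h : OldCt C σ j k) {s : ℝ} :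
    pre C j σ s = pre C k σ s := (h.symm hs).pre_subset.antisymm h.pre_subset

theorem mem_pre_of_oldCt {j k : ι} (h : OldCt C σ j k) {s : ℝ} (hsσ : s < σ) :
    k ∈ pre C j σ s := h.pre_subset (mem_pre_self hsσ)

theorem mem_pre_of_chain (hs : ∀ s j k, C s j k → C s k j) {j k : ι}
    (h : Relation.ReflTransGen (OldCt C σ) j k) {s : ℝ} (hsσ : s < σ) : k ∈ pre C j σ s := by
  induction h with
  | refl => exact mem_pre_self hsσ
  | @tail k l hjk hc ih =>
    have h1 : pre C j σ s = pre C k σ s := by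
      clear ih hc
      induction hjk with
      | refl => rfl
      | tail _ hc ih => exact ih.trans (hc.pre_eq hs)
    rw [h1]
    exact mem_pre_of_oldCt hc hsσ

/-- The contact cluster of `q` at time `σ`. -/
theorem past_self_iff {q j : ι} :
    Past C σ q σ j ↔ Relation.ReflTransGen (C σ) q j := by
  constructor
  · intro h
    have key : ∀ {s : ℝ} {j : ι}, Past C σ q s j → σ ≤ s → Relation.ReflTransGen (C σ) q j := by
      intro s j h
      induction h with
      | root _ => exact fun _ => .refl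
      | @step s s' j k hj hc hss' ih =>
        intro hσ
        have h1 : s' = σ := le_antisymm (Past.le hj) (hσ.trans hss')
        subst h1
        exact .tail (ih le_rfl) hc
    exact key h le_rfl
  · intro h
    induction h with
    | refl => exact .root le_rfl
    | tail _ hc ih => exact ih.contact hc

end rel

section inf

variable {ι : Type*} [Fintype ι] {C : ℝ → ι → ι → Prop} {σ : ℝ} {m : ι → ℕ} {K : ℕ}

/-- Infected strictly before `σ`. -/
def InfB (C : ℝ → ι → ι → Prop) (m : ι → ℕ) (K : ℕ) (σ : ℝ) (j : ι) : Prop :=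
  ∃ u < σ, Infd C m K u j

theorem InfB.old {j k : ι} (h : OldCt C σ j k) (hk : InfB C m K σ k) : InfB C m K σ j := by
  obtain ⟨u, hu, hi⟩ := hk
  obtain ⟨s, hs, hsσ, hc⟩ := h.exists_between hu
  exact ⟨s, hsσ, (hi.mono hs.le).of_past (Past.contact (.root le_rfl) hc)⟩

theorem InfB.chain {j k : ι} (h : Relation.ReflTransGen (OldCt C σ) j k)
    (hk : InfB C m K σ k) : InfB C m K σ j := by
  induction h with
  | refl => exact hk
  | tail _ hc ih => exact ih (hk.old hc)

omit [Fintype ι] in
theorem pre_chain (hs : ∀ s j k, C s j k → C s k j) {j k : ι}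
    (h : Relation.ReflTransGen (OldCt C σ) j k) {s : ℝ} : pre C j σ s = pre C k σ s := by
  induction h with
  | refl => rfl
  | tail _ hc ih => exact ih.trans (hc.pre_eq hs)


/-- If at most one pair enters contact at `σ`, the contact cluster of `q` is covered by the old
cluster of `q` and the old cluster of one new partner. -/
theorem cluster_cases (h1 : OneNew C σ) (q : ι) :
    (∀ j, Past C σ q σ j → Relation.ReflTransGen (OldCt C σ) q j) ∨
    ∃ a b, Relation.ReflTransGen (OldCt C σ) q a ∧ NewCt C σ a b ∧ a ≠ b ∧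
      ∀ j, Past C σ q σ j → Relation.ReflTransGen (OldCt C σ) q j ∨
        Relation.ReflTransGen (OldCt C σ) b j := by
  classical
  by_cases hall : ∀ j, Past C σ q σ j → Relation.ReflTransGen (OldCt C σ) q j
  · exact Or.inl hall
  right
  -- first exit from the old cluster
  have key : ∀ j, Relation.ReflTransGen (C σ) q j →
      Relation.ReflTransGen (OldCt C σ) q j ∨ ∃ a b, Relation.ReflTransGen (OldCt C σ) q a ∧
        ¬ Relation.ReflTransGen (OldCt C σ) q b ∧ C σ a b := by
    intro j hj
    induction hj with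
    | refl => exact Or.inl .refl
    | @tail b c _ hc ih =>
      rcases ih with ih | ih
      · by_cases h : Relation.ReflTransGen (OldCt C σ) q c
        · exact Or.inl h
        · exact Or.inr ⟨b, c, ih, h, hc⟩
      · exact Or.inr ih
  push Not at hall
  obtain ⟨j₀, hj₀, hj₀'⟩ := hall
  obtain ⟨a, b, ha, hb, hab⟩ := (key j₀ (past_self_iff.1 hj₀)).resolve_left hj₀'
  have hnew : NewCt C σ a b := ⟨hab, fun h => hb (ha.tail h)⟩
  have hne : a ≠ b := by
    rintro rfl
    exact hb ha
  refine ⟨a, b, ha, hnew, hne, fun j hj => ?_⟩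
  have hj' := past_self_iff.1 hj
  induction hj' with
  | refl => exact Or.inl .refl
  | @tail c d hc hcd ih =>
    have ih := ih (past_self_iff.2 hc)
    by_cases hcd' : c = d
    · rw [← hcd']; exact ih
    by_cases hold : OldCt C σ c d
    · rcases ih with ih | ih
      · exact Or.inl (ih.tail hold)
      · exact Or.inr (ih.tail hold)
    · rcases h1 a b c d hne hnew hcd' ⟨hcd, hold⟩ with ⟨-, rfl⟩ | ⟨rfl, -⟩
      · exact Or.inr .refl
      · exact Or.inl ha

/-- **Contact alternative at the infection time.** -/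
theorem infection_cases (hs : ∀ s j k, C s j k → C s k j)
    (hC : ∀ j k, IsClosed {s | C s j k}) (hσ : 0 < σ) {q : ι} (hq : Infd C m K σ q)
    (hcl : ¬ InfB C m K σ q) (h1 : OneNew C σ) :
    ((∀ r, r ≠ q → ¬ OldCt C σ q r) ∧ ∃ j, NewCt C σ q j ∧ InfB C m K σ j) ∨
    (∃ r p j, r ≠ q ∧ OldCt C σ q r ∧ Relation.ReflTransGen (OldCt C σ) q p ∧ NewCt C σ p j ∧
      InfB C m K σ j) ∨
    (msize C m σ q ≤ 2 * K ∧ ∀ j, Past C σ q σ j → ¬ InfB C m K σ j) := by
  classical
  by_cases hinf : ∃ j, Past C σ q σ j ∧ InfB C m K σ j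
  · obtain ⟨j, hj, hji⟩ := hinf
    rcases cluster_cases h1 q with hall | ⟨a, b, ha, hab, hne, hcov⟩
    · exact absurd (hji.chain (hall j hj)) hcl
    · have hb : InfB C m K σ b := by
        rcases hcov j hj with h | h
        · exact absurd (hji.chain h) hcl
        · exact hji.chain h
      by_cases hold : ∃ r, r ≠ q ∧ OldCt C σ q r
      · obtain ⟨r, hr, hqr⟩ := hold
        exact Or.inr (Or.inl ⟨r, a, b, hr, hqr, ha, hab, hb⟩)
      · push Not at hold
        have hqa : ∀ x, Relation.ReflTransGen (OldCt C σ) q x → x = q := by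
          intro x hx
          induction hx with
          | refl => rfl
          | @tail x y _ hxy ih =>
            subst ih
            by_contra hyx
            exact hold y hyx hxy
        have := hqa a ha
        subst this
        exact Or.inl ⟨hold, b, hab, hb⟩
  · right; right
    have hcl' : ∀ j, Past C σ q σ j → ¬ InfB C m K σ j := fun j hj hi => hinf ⟨j, hj, hi⟩
    refine ⟨?_, hcl'⟩
    have hle : ∀ j, Past C σ q σ j → msizePre C m σ j ≤ K := fun j hj =>
      (msizePre_le_iff hσ j).2 fun u hu hi => hcl' j hj ⟨u, hu, hi⟩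
    have hBC : BC C σ q = ⋃ j ∈ Act C σ q σ, pre C j σ 0 := Act_eq_biUnion_pre hC hσ
    -- the cluster is covered by two pasts
    obtain ⟨b, hb, hsub⟩ : ∃ b, Past C σ q σ b ∧ BC C σ q ⊆ pre C q σ 0 ∪ pre C b σ 0 := by
      rcases cluster_cases h1 q with hall | ⟨a, b, ha, hab, hne, hcov⟩
      · refine ⟨q, .root le_rfl, ?_⟩
        rw [hBC]
        intro k hk
        simp only [mem_iUnion, exists_prop] at hk
        obtain ⟨j, hj, hk⟩ := hk
        rw [pre_chain hs (hall j hj)]
        exact Or.inl hk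
      · have hab' : Past C σ q σ b := by
          refine past_self_iff.2 (Relation.ReflTransGen.tail ?_ hab.1)
          exact Relation.ReflTransGen.lift id (fun x y hxy => OldCt.ct hC hxy) q a ha
        refine ⟨b, hab', ?_⟩
        rw [hBC]
        intro k hk
        simp only [mem_iUnion, exists_prop] at hk
        obtain ⟨j, hj, hk⟩ := hk
        rcases hcov j hj with h | h
        · rw [pre_chain hs h]
          exact Or.inl hk
        · rw [pre_chain hs h]
          exact Or.inr hk
    have h2 : msize C m σ q ≤ msizePre C m σ q + msizePre C m σ b := by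
      unfold msize msizePre
      rw [← Finset.sum_add_distrib]
      refine Finset.sum_le_sum fun k _ => ?_
      by_cases hk : k ∈ BC C σ q
      · rw [if_pos hk]
        rcases hsub hk with h | h
        · rw [if_pos h]; exact Nat.le_add_right _ _
        · rw [if_pos h]; exact Nat.le_add_left _ _
      · rw [if_neg hk]; exact Nat.zero_le _
    calc msize C m σ q ≤ msizePre C m σ q + msizePre C m σ b := h2
      _ ≤ K + K := Nat.add_le_add (hle q (.root le_rfl)) (hle b hb)
      _ = 2 * K := (two_mul K).symm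

end inf

end Crest.Agent.R122.InEq2
end

-- ▼ part R122/InEq2World_311

/-!
# Row 122, INEQUALITY 2' (helper311): worlds `w` and `V ∪ w`

`TchV s`: at time `s` a particle of `w` influenced by `V` (or a particle of `V`) is infected in one
of the worlds `w`, `V ∪ w` (gas worlds, all marks `1`).  If `V` is untouched before `σ`, then every
particle of `V ∪ w` infected before `σ` is a particle of `w`, infected before `σ` in the world `w`
alone, with the same trajectory up to `σ`.
-/

set_option autoImplicit false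

open Set Filter Topology MeasureTheory
open Crest.AnalysisR.Kinetic

namespace Crest.Agent.R122.InEq2

open Causal291 Inf879 Flow671 Loc45 GC311

variable {Φ : Space3 → ℝ} {ε : ℝ}

/-- Infected in the gas `Z` at time `s` (all marks are `1`). -/
def GInf (Φ : Space3 → ℝ) (ε : ℝ) (K : ℕ) {n : ℕ} (Z : Config n) (s : ℝ) (i : Fin n) : Prop :=
  Infd (Ct (pth Φ ε Z) ε) (fun _ => 1) K s i

/-- Infected strictly before `σ` in the gas `Z`. -/
def GInfB (Φ : Space3 → ℝ) (ε : ℝ) (K : ℕ) {n : ℕ} (Z : Config n) (σ : ℝ) (i : Fin n) : Prop :=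
  InfB (Ct (pth Φ ε Z) ε) (fun _ => 1) K σ i

theorem gInf_iff {K n : ℕ} {Z : Config n} {s : ℝ} {i : Fin n} :
    GInf Φ ε K Z s i ↔ K < gasSize Φ ε n Z s i := by
  unfold GInf Infd gasSize
  rw [msize_one]

theorem gInfB_iff_sig (hΦ : AdmissiblePotential Φ) (hε : 0 < ε) {K n : ℕ} {Z : Config n}
    {σ b : ℝ} (hσ : σ ≤ b) {i : Fin n} :
    GInfB Φ ε K Z σ i ↔ sig (gasSize Φ ε) K b n Z i < σ := by
  constructor
  · rintro ⟨u, hu, hi⟩
    have h0 : 0 ≤ u := Infd.nonneg hi
    exact (utime_le_of_mem h0 (gInf_iff.1 hi)).trans_lt hu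
  · intro h
    obtain ⟨u, hu1, hu2⟩ := exists_between h
    exact ⟨u, hu2, gInf_iff.2 (lt_size_of_sig_lt (sizeFam_gasSize hΦ hε) (hu2.le.trans hσ) hu1)⟩

/-- The infection time is attained. -/
theorem gInf_sig (hΦ : AdmissiblePotential Φ) (hε : 0 < ε) {K n : ℕ} {Z : Config n}
    {b : ℝ} {i : Fin n} (h : sig (gasSize Φ ε) K b n Z i < b) :
    GInf Φ ε K Z (sig (gasSize Φ ε) K b n Z i) i := by
  have hcl : IsClosed {t | GInf Φ ε K Z t i} := isClosed_infd (isClosed_ct_pth hΦ hε Z) i
  set σ := sig (gasSize Φ ε) K b n Z i with hσ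
  have hlim : Tendsto (fun n : ℕ => σ + (b - σ) / ((n : ℝ) + 1)) atTop (𝓝 σ) := by
    have h1 : Tendsto (fun n : ℕ => (b - σ) * (1 / ((n : ℝ) + 1))) atTop (𝓝 ((b - σ) * 0)) :=
      tendsto_one_div_add_atTop_nhds_zero_nat.const_mul (b - σ)
    have h2 := h1.const_add σ
    simpa [div_eq_mul_inv, mul_comm] using h2
  refine hcl.mem_of_tendsto hlim (Eventually.of_forall fun n => ?_)
  refine gInf_iff.2 (lt_size_of_sig_lt (b := b) (sizeFam_gasSize hΦ hε) ?_ ?_)
  · have h3 : (b - σ) / ((n : ℝ) + 1) ≤ b - σ :=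
      div_le_self (by linarith) (by linarith [Nat.cast_nonneg (α := ℝ) n])
    linarith
  · have h3 : 0 < (b - σ) / ((n : ℝ) + 1) := div_pos (by linarith) (by positivity)
    linarith

/-- The set of particles infected before the infection time does not contain the particle. -/
theorem not_gInfB_sig {K n : ℕ} {Z : Config n} {b : ℝ} {i : Fin n} :
    ¬ GInfB Φ ε K Z (sig (gasSize Φ ε) K b n Z i) i := by
  rintro ⟨u, hu, hi⟩
  have h0 : 0 ≤ u := Infd.nonneg hi
  exact absurd (utime_le_of_mem h0 (gInf_iff.1 hi)) (not_le.2 hu)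

/-- `V` (as an inserted object) touches the infection of the gas `w` before or at time `s`. -/
def TchV (Φ : Space3 → ℝ) (ε : ℝ) (K : ℕ) {k m : ℕ} (V : Config k) (w : Config m) (s : ℝ) : Prop :=
  Touched (pth Φ ε w) (pth Φ ε (Fin.append V w)) (Fin.natAdd k) ε
    (fun s l => GInf Φ ε K w s l) (fun s j => GInf Φ ε K (Fin.append V w) s j) s

theorem dom_append_right {k m : ℕ} {V : Config k} {w : Config m}
    (hVW : Fin.append V w ∈ Dom Φ (Fin (k + m))) : w ∈ Dom Φ (Fin m) := by
  have := dom_comp hVW (e := Fin.natAdd k) (Fin.natAdd_injective m k)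
  simpa using this


/-- If `V` does not touch before or at `s`, then a particle infected at `s` in `V ∪ w` is a particle
of `w`, infected at `s` in `w`, with the same trajectory up to `s`. -/
theorem inf_of_not_tchV (hΦ : AdmissiblePotential Φ) (hε : 0 < ε) {K k m : ℕ} {V : Config k}
    {w : Config m} (hVW : Fin.append V w ∈ Dom Φ (Fin (k + m))) {s : ℝ}
    (h : ¬ TchV Φ ε K V w s) {p : Fin (k + m)} (hp : GInf Φ ε K (Fin.append V w) s p) :
    ∃ l : Fin m, p = Fin.natAdd k l ∧ GInf Φ ε K w s l ∧
      ∀ s' ∈ Icc 0 s, pth Φ ε w s' l = pth Φ ε (Fin.append V w) s' (Fin.natAdd k l) := by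
  have h0 : 0 ≤ s := Infd.nonneg hp
  induction p using Fin.addCases with
  | left i =>
    exfalso
    refine h (Or.inr ⟨Fin.castAdd m i, ?_, hp⟩)
    rintro ⟨l, hl⟩
    have := congrArg Fin.val hl
    simp only [Fin.val_natAdd, Fin.val_castAdd] at this
    omega
  | right l =>
    have hf : ¬ Fut (pth Φ ε w) (pth Φ ε (Fin.append V w)) id (Fin.natAdd k) ε s l :=
      fun hf => h (Or.inl ⟨l, hf, Or.inr hp⟩)
    have hw : w ∈ Dom Φ (Fin m) := dom_append_right hVW
    have hist : HistEq (pth Φ ε w) (pth Φ ε (Fin.append V w)) id (Fin.natAdd k) ε s l :=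
      histEq_of_not_fut (T := s) (fun j => (continuous_pth hΦ hε w j).continuousOn)
        (fun j => (continuous_pth hΦ hε _ j).continuousOn) (locUniq_pth hΦ hε s hw hVW)
        (Fin.natAdd_injective m k) ⟨h0, le_rfl⟩ hf
    refine ⟨l, rfl, ?_, fun s' hs' => agree_append hΦ hε hVW le_rfl hf hs'⟩
    exact (infd_iff_of_histEq Function.injective_id (Fin.natAdd_injective m k)
      (m₁ := fun _ => 1) (m₂ := fun _ => 1) (fun _ => rfl) hist K).2 hp

/-- **Untouched case**: partners infected before `σ` are particles of `w` alone. -/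
theorem infB_of_untouched (hΦ : AdmissiblePotential Φ) (hε : 0 < ε) {K k m : ℕ} {V : Config k}
    {w : Config m} (hVW : Fin.append V w ∈ Dom Φ (Fin (k + m))) {σ : ℝ}
    (h : ∀ s < σ, ¬ TchV Φ ε K V w s) {p : Fin (k + m)}
    (hp : GInfB Φ ε K (Fin.append V w) σ p) :
    ∃ l : Fin m, p = Fin.natAdd k l ∧ GInfB Φ ε K w σ l ∧
      ∀ s ∈ Icc 0 σ, pth Φ ε w s l = pth Φ ε (Fin.append V w) s (Fin.natAdd k l) := by
  obtain ⟨u, hu, hi⟩ := hp
  obtain ⟨l, rfl, hl, hag⟩ := inf_of_not_tchV hΦ hε hVW (h u hu) hi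
  have h0 : 0 ≤ u := Infd.nonneg hi
  refine ⟨l, rfl, ⟨u, hu, hl⟩, ?_⟩
  have key : ∀ s ∈ Ico 0 σ, pth Φ ε w s l = pth Φ ε (Fin.append V w) s (Fin.natAdd k l) := by
    intro s hs
    rcases le_total s u with hsu | hsu
    · exact hag s ⟨hs.1, hsu⟩
    · obtain ⟨l', hl', -, hag'⟩ := inf_of_not_tchV hΦ hε hVW (h s hs.2) (Infd.mono hi hsu)
      have : l = l' := Fin.natAdd_injective m k hl'
      subst this
      exact hag' s ⟨hs.1, le_rfl⟩
  have hσ0 : 0 < σ := h0.trans_lt hu
  intro s hs
  rcases hs.2.lt_or_eq with hsσ | rfl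
  · exact key s ⟨hs.1, hsσ⟩
  · exact (Hit167.agree_at_end (T := s) (continuous_pth hΦ hε w l).continuousOn
      (continuous_pth hΦ hε _ (Fin.natAdd k l)).continuousOn hσ0 le_rfl key)

end Crest.Agent.R122.InEq2
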