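import Crest.Agent.R122.InEq2Hist_311
import Crest.Agent.R122.Simul2_984
import Crest.Agent.R122.Band1_974
import Crest.Agent.R122.InEq2World_311
import Crest.Agent.R122.InEq2Split_311
import Crest.Agent.R122.ClusterBC_311

-- ▼ part R122/InEq2Bnd_311
section

/-!
# Row 122, INEQUALITY 2' (helper311): the majorant calculus

`Bnd F q` : the Mecke'd functional `F` (not necessarily measurable) is at most a measurable functional
of ONE valid tree writing the cluster plus a measurable error, with total mass at most `q`.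

* `Bnd.add`, `Bnd.mono`, `Bnd.MS_le` (`Bnd F q → MS F ≤ q`), `Bnd.of_ae`.
* `JI`, `FaI`, `FT`, `FNG`, `FR`, `FL`, `FA`, `FB` : the functionals of inequality 2', and
  `bnd_split` : the whole is bounded by the parts.
-/

set_option autoImplicit false

open MeasureTheory Set Filter Topology
open scoped ENNReal
open Crest.AnalysisR.Kinetic
open Crest.Agent.R122.Flow671 Crest.Agent.R122.Loc45 Crest.Agent.R122.Causal291
open Crest.Agent.R122.Inf879 Crest.Agent.R122.GC311 Crest.Agent.R122.EDefs602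
open Crest.Agent.R122.Kin796 Crest.Agent.R122.Kin796.CTree Crest.Agent.R122.Tree674
open Crest.Agent.R122.Relabel674 Crest.Agent.R122.TreeBound335 Crest.Agent.R122.ToTree335

noncomputable section

open scoped Classical

namespace Crest.Agent.R122.InEq2

variable {Φ : Space3 → ℝ} {f₀ : PhasePoint → ℝ} {ε : ℝ}

/-! ### The calculus -/

theorem ways_add {T : ℝ} (G G' : (P : CTree) → PhasePoint × Par P → ℝ≥0∞) {k : ℕ} (V : Config k)
    (j : Fin k) : ways Φ ε T (fun P z => G P z + G' P z) V j =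
      ways Φ ε T G V j + ways Φ ε T G' V j := by
  unfold ways
  rw [← ENNReal.tsum_add]
  refine tsum_congr fun P => ?_
  rw [← Finset.sum_add_distrib]
  refine Finset.sum_congr rfl fun e _ => ?_
  by_cases h : e (Tree674.root P) = j ∧ (fun x => V (e x)) ∈ Skel Φ ε P T
  · rw [if_pos h, if_pos h, if_pos h]
  · rw [if_neg h, if_neg h, if_neg h, add_zero]

theorem ways_zero {T : ℝ} {k : ℕ} (V : Config k) (j : Fin k) :
    ways Φ ε T (fun _ _ => 0) V j = 0 := by
  unfold ways
  simp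

/-- The functional `F` has a majorant (trees + measurable error) of mass at most `q`. -/
def Bnd (Φ : Space3 → ℝ) (f₀ : PhasePoint → ℝ) (ε T' : ℝ)
    (F : (k m : ℕ) → Config k → Config m → Fin k → ℝ≥0∞) (q : ℝ≥0∞) : Prop :=
  ∃ (H : (P : CTree) → PhasePoint × Par P → (m : ℕ) → Config m → ℝ≥0∞)
    (B : (k m : ℕ) → Config k → Config m → Fin k → ℝ≥0∞), MeasTS H ∧ MeasMS B ∧
    (∀ (k m : ℕ) (V : Config k) (w : Config m) (j : Fin k),
      V ∈ PairExcluded ε k → w ∈ PairExcluded ε m → Perp ε V w →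
      F k m V w j ≤ ways Φ ε T' (fun P z => H P z m w) V j + B k m V w j) ∧
    activity ε * TS Φ f₀ ε T' H + MS f₀ ε B ≤ q

variable {T' : ℝ} {F G : (k m : ℕ) → Config k → Config m → Fin k → ℝ≥0∞} {q q' : ℝ≥0∞}

theorem Bnd.MS_le (hΦ : AdmissiblePotential Φ) (hf : Measurable f₀) (hε : 0 < ε)
    (h : Bnd Φ f₀ ε T' F q) : MS f₀ ε F ≤ q := by
  obtain ⟨H, B, hH, hB, hpt, hq⟩ := h
  exact (to_tree1 hΦ hf hε hH hB hpt).trans hq

theorem Bnd.mono_le (h : Bnd Φ f₀ ε T' F q) (hq : q ≤ q') : Bnd Φ f₀ ε T' F q' := by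
  obtain ⟨H, B, hH, hB, hpt, hq0⟩ := h
  exact ⟨H, B, hH, hB, hpt, hq0.trans hq⟩

theorem Bnd.mono (h : Bnd Φ f₀ ε T' G q)
    (hFG : ∀ (k m : ℕ) (V : Config k) (w : Config m) (j : Fin k), V ∈ PairExcluded ε k →
      w ∈ PairExcluded ε m → Perp ε V w → F k m V w j ≤ G k m V w j) : Bnd Φ f₀ ε T' F q := by
  obtain ⟨H, B, hH, hB, hpt, hq0⟩ := h
  exact ⟨H, B, hH, hB, fun k m V w j hV hw hp => (hFG k m V w j hV hw hp).trans
    (hpt k m V w j hV hw hp), hq0⟩

theorem Bnd.add (hΦ : AdmissiblePotential Φ) (hf : Measurable f₀) (h : Bnd Φ f₀ ε T' F q)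
    (h' : Bnd Φ f₀ ε T' G q') :
    Bnd Φ f₀ ε T' (fun k m V w j => F k m V w j + G k m V w j) (q + q') := by
  obtain ⟨H, B, hH, hB, hpt, hq⟩ := h
  obtain ⟨H', B', hH', hB', hpt', hq'⟩ := h'
  refine ⟨fun P z m w => H P z m w + H' P z m w, fun k m V w j => B k m V w j + B' k m V w j,
    fun P m => (hH P m).add (hH' P m), fun k m j => (hB k m j).add (hB' k m j), ?_, ?_⟩
  · intro k m V w j hV hw hp
    rw [ways_add (fun P z => H P z m w) (fun P z => H' P z m w)]
    calc F k m V w j + G k m V w j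
        ≤ (ways Φ ε T' (fun P z => H P z m w) V j + B k m V w j) +
          (ways Φ ε T' (fun P z => H' P z m w) V j + B' k m V w j) :=
        add_le_add (hpt k m V w j hV hw hp) (hpt' k m V w j hV hw hp)
      _ = _ := by ring
  · rw [TS_add hΦ hf hH, MS_add hf hB']
    calc activity ε * (TS Φ f₀ ε T' H + TS Φ f₀ ε T' H') + (MS f₀ ε B + MS f₀ ε B')
        = (activity ε * TS Φ f₀ ε T' H + MS f₀ ε B) +
          (activity ε * TS Φ f₀ ε T' H' + MS f₀ ε B') := by ring
      _ ≤ q + q' := add_le_add hq hq'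

theorem MS_zero : MS f₀ ε (fun _ _ _ _ _ => 0) = 0 := by
  unfold MS
  simp [gcE_zero]

theorem TS_zero {T : ℝ} : TS Φ f₀ ε T (fun _ _ _ _ => 0) = 0 := by
  unfold TS
  simp [gcE_zero]

/-- A bound by a functional of trees. -/
theorem Bnd.of_H {H : (P : CTree) → PhasePoint × Par P → (m : ℕ) → Config m → ℝ≥0∞}
    (hH : MeasTS H)
    (hpt : ∀ (k m : ℕ) (V : Config k) (w : Config m) (j : Fin k), V ∈ PairExcluded ε k →
      w ∈ PairExcluded ε m → Perp ε V w → F k m V w j ≤ ways Φ ε T' (fun P z => H P z m w) V j)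
    (hq : activity ε * TS Φ f₀ ε T' H ≤ q) : Bnd Φ f₀ ε T' F q := by
  refine ⟨H, fun _ _ _ _ _ => 0, hH, fun k m j => measurable_const, ?_, ?_⟩
  · intro k m V w j hV hw hp
    rw [add_zero]
    exact hpt k m V w j hV hw hp
  · rw [MS_zero, add_zero]
    exact hq

/-- A bound by a measurable functional. -/
theorem Bnd.of_B {B : (k m : ℕ) → Config k → Config m → Fin k → ℝ≥0∞} (hB : MeasMS B)
    (hpt : ∀ (k m : ℕ) (V : Config k) (w : Config m) (j : Fin k), V ∈ PairExcluded ε k →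
      w ∈ PairExcluded ε m → Perp ε V w → F k m V w j ≤ B k m V w j)
    (hq : MS f₀ ε B ≤ q) : Bnd Φ f₀ ε T' F q := by
  refine ⟨fun _ _ _ _ => 0, B, fun P m => measurable_const, hB, ?_, ?_⟩
  · intro k m V w j hV hw hp
    rw [ways_zero, zero_add]
    exact hpt k m V w j hV hw hp
  · rw [TS_zero, mul_zero, zero_add]
    exact hq

theorem Bnd.zero : Bnd Φ f₀ ε T' (fun _ _ _ _ _ => 0) 0 :=
  Bnd.of_B (fun _ _ _ => measurable_const) (fun _ _ _ _ _ _ _ _ => le_rfl) MS_zero.le

theorem Bnd.const_mul (h : Bnd Φ f₀ ε T' F q) {c : ℝ≥0∞}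
    (hc : c ≠ ∞) : Bnd Φ f₀ ε T' (fun k m V w j => c * F k m V w j) (c * q) := by
  obtain ⟨H, B, hH, hB, hpt, hq⟩ := h
  refine ⟨fun P z m w => c * H P z m w, fun k m V w j => c * B k m V w j,
    fun P m => (hH P m).const_mul c, fun k m j => (hB k m j).const_mul c, ?_, ?_⟩
  · intro k m V w j hV hw hp
    have h1 := mul_le_mul_right (hpt k m V w j hV hw hp) c
    rw [mul_add, mul_ways] at h1
    exact h1
  · rw [TS_const_mul hc, MS_const_mul hc]
    calc activity ε * (c * TS Φ f₀ ε T' H) + c * MS f₀ ε B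
        = c * (activity ε * TS Φ f₀ ε T' H + MS f₀ ε B) := by ring
      _ ≤ c * q := mul_le_mul_right hq c

/-- Null sets of configurations do not matter. -/
theorem Bnd.of_ae (hΦ : AdmissiblePotential Φ) (hf : Measurable f₀)
    {Good : (n : ℕ) → Config n → Prop} (hGood : ∀ n, ∀ᵐ Z : Config n, Good n Z)
    (h : Bnd Φ f₀ ε T' G q)
    (hFG : ∀ (k m : ℕ) (V : Config k) (w : Config m) (j : Fin k), V ∈ PairExcluded ε k →
      w ∈ PairExcluded ε m → Perp ε V w → Good (k + m) (Fin.append V w) →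
      F k m V w j ≤ G k m V w j) : Bnd Φ f₀ ε T' F q := by
  set M : (n : ℕ) → Set (Config n) := fun n => toMeasurable volume {Z | ¬ Good n Z} with hM
  have hM0 : ∀ n, volume (M n) = 0 := by
    intro n
    rw [hM, measure_toMeasurable]
    exact hGood n
  have hMm : ∀ n, MeasurableSet (M n) := fun n => measurableSet_toMeasurable _ _
  have hsub : ∀ n Z, ¬ Good n Z → Z ∈ M n := fun n Z hZ => subset_toMeasurable _ _ hZ
  set B₀ : (k m : ℕ) → Config k → Config m → Fin k → ℝ≥0∞ := fun k m V w _ =>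
    (M (k + m)).indicator (fun _ => (∞ : ℝ≥0∞)) (Fin.append V w : Config (k + m)) with hB₀
  have hB₀m : MeasMS B₀ := fun k m j =>
    (measurable_const.indicator (hMm (k + m))).comp measurable_append
  have hB₀0 : MS f₀ ε B₀ = 0 := by
    unfold MS
    rw [ENNReal.tsum_eq_zero]
    intro k
    refine mul_eq_zero_of_right _ ?_
    have hz : ∀ m, ∀ᵐ V : Config k, ∀ᵐ w : Config m, (Fin.append V w : Config (k + m)) ∉ M (k + m) := by
      intro m
      have h1 : ∫⁻ Z : Config (k + m), (M (k + m)).indicator (fun _ => (1 : ℝ≥0∞)) Z = 0 := by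
        rw [lintegral_indicator_const (hMm _), hM0, mul_zero]
      rw [lintegral_append _ (measurable_const.indicator (hMm _))] at h1
      have hm2 : Measurable fun V : Config k => ∫⁻ w : Config m,
          (M (k + m)).indicator (fun _ => (1 : ℝ≥0∞)) (Fin.append V w : Config (k + m)) :=
        Measurable.lintegral_prod_right' (f := fun p : Config k × Config m =>
          (M (k + m)).indicator (fun _ => (1 : ℝ≥0∞)) (Fin.append p.1 p.2 : Config (k + m)))
          ((measurable_const.indicator (hMm _)).comp measurable_append)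
      rw [lintegral_eq_zero_iff hm2] at h1
      filter_upwards [h1] with V hV
      have hV' : ∫⁻ w : Config m,
          (M (k + m)).indicator (fun _ => (1 : ℝ≥0∞)) (Fin.append V w : Config (k + m)) = 0 := hV
      have hm3 : Measurable fun w : Config m =>
          (M (k + m)).indicator (fun _ => (1 : ℝ≥0∞)) (Fin.append V w : Config (k + m)) :=
        (measurable_const.indicator (hMm _)).comp (measurable_append_right V)
      rw [lintegral_eq_zero_iff hm3] at hV'
      filter_upwards [hV'] with w hw hmem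
      rw [Pi.zero_apply, indicator_of_mem hmem] at hw
      exact one_ne_zero hw
    have hz' : ∀ᵐ V : Config k, ∀ m, ∀ᵐ w : Config m,
        (Fin.append V w : Config (k + m)) ∉ M (k + m) := ae_all_iff.2 hz
    rw [lintegral_congr_ae (g := fun _ => 0) ?_]
    · simp
    filter_upwards [hz'] with V hV
    refine mul_eq_zero_of_right _ ?_
    refine Simul984.gcE_eq_zero_of_ae f₀ ε fun m => ?_
    filter_upwards [hV m] with w hw
    simp [hB₀, indicator_of_notMem hw]
  have hsum : Bnd Φ f₀ ε T' (fun k m V w j => G k m V w j + B₀ k m V w j) (q + 0) :=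
    h.add hΦ hf (Bnd.of_B hB₀m (fun _ _ _ _ _ _ _ _ => le_rfl) hB₀0.le)
  rw [add_zero] at hsum
  refine hsum.mono fun k m V w j hV hw hp => ?_
  by_cases hg : Good (k + m) (Fin.append V w)
  · exact (hFG k m V w j hV hw hp hg).trans le_self_add
  · have h1 : (Fin.append V w : Config (k + m)) ∈ M (k + m) := hsub _ _ hg
    have h2 : B₀ k m V w j = ∞ := by
      rw [hB₀]
      exact indicator_of_mem h1 _
    rw [h2, add_top]
    exact le_top

/-- One tree is enough (`HTreeP` writes the cluster). -/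
theorem le_ways_of (hΦ : AdmissiblePotential Φ) (hε : 0 < ε) {k : ℕ} {V : Config k} {j : Fin k}
    {c : ℝ≥0∞} {H : (P : CTree) → PhasePoint × Par P → ℝ≥0∞} {P : CTree} {ℓ : PhasePoint}
    {p : Par P} (e : Idx P ≃ Fin k) (h0 : e (Tree674.root P) = j) (hv : Valid Φ ε P T' ℓ.2 p)
    (hV : ∀ x, V (e x) = lines Φ ε P ℓ p x) (hc : c ≤ H P (ℓ, p)) :
    c ≤ ways Φ ε T' H V j := hc.trans (le_ways hΦ hε h0 hv hV)

end Crest.Agent.R122.InEq2

end
end

-- ▼ part R122/InEq2Fun_311

/-!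
# Row 122, INEQUALITY 2' (helper311): the functionals of the joinings

Open part (`aI`, past strictly before the infection time): `FaI ≤ FT + FNG + FR + FL + FA + FB`.
Closed part (`mC`, clusters of size in `(K, 2K]`): `FmC ≤ FNC + FRC + FM`.
-/

set_option autoImplicit false

open MeasureTheory Set Filter Topology
open scoped ENNReal
open Crest.AnalysisR.Kinetic
open Crest.Agent.R122.Flow671 Crest.Agent.R122.Loc45 Crest.Agent.R122.Causal291
open Crest.Agent.R122.Inf879 Crest.Agent.R122.GC311 Crest.Agent.R122.EDefs602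
open Crest.Agent.R122.Kin796 Crest.Agent.R122.Kin796.CTree Crest.Agent.R122.Tree674
open Crest.Agent.R122.Relabel674 Crest.Agent.R122.TreeBound335 Crest.Agent.R122.ToTree335
open Crest.Agent.R122.GIV566 (unhit unhitInd)
open Crest.Agent.R122.Band974 (PT)

noncomputable section

open scoped Classical

namespace Crest.Agent.R122.InEq2

/-! ### Definitions -/

section defs

variable (Φ : Space3 → ℝ) (ε : ℝ) (K : ℕ) (A : EPar) (T' : ℝ) {k m : ℕ} (V : Config k)
  (w : Config m) (j : Fin k)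

/-- The joint gas. -/
abbrev cat {k m : ℕ} (V : Config k) (w : Config m) : Config (k + m) := Fin.append V w

/-- Infection time of the particle `j` of `V` in the joint gas. -/
def sgm : ℝ := iTime Φ ε K A.te (cat V w) (Fin.castAdd m j)

/-- `V` is the past strictly before the infection time of `j`, which joins in the window by a
contact with infected particles. -/
def JI : Prop :=
  preC Φ ε (cat V w) (sgm Φ ε K A V w j) (Fin.castAdd m j) = block k m ∧
  Joins Φ ε K A (cat V w) (Fin.castAdd m j) ∧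
  2 * K < gasSize Φ ε (k + m) (cat V w) (sgm Φ ε K A V w j) (Fin.castAdd m j)

/-- `V` is the closed past at the infection time of `j`, which joins in the window, of size in
`(K, 2K]`. -/
def JC : Prop :=
  (BC (Ct (pth Φ ε (cat V w)) ε) (sgm Φ ε K A V w j) (Fin.castAdd m j)).toFinset = block k m ∧
  Joins Φ ε K A (cat V w) (Fin.castAdd m j) ∧
  K < gasSize Φ ε (k + m) (cat V w) (sgm Φ ε K A V w j) (Fin.castAdd m j) ∧
  gasSize Φ ε (k + m) (cat V w) (sgm Φ ε K A V w j) (Fin.castAdd m j) ≤ 2 * K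

/-- Energy weight of the cluster. -/
def bwt : ℝ≥0∞ := (activity ε)⁻¹ * eW (cat V w) (block k m)

/-- Weight of the joint gas at the infection time. -/
def wmZ : ℝ≥0∞ := (MW.cfg (cat V w)).Wm Φ ε K A (sgm Φ ε K A V w j)

/-- Weight of the rest of the gas at the infection time. -/
def wmw : ℝ≥0∞ := (MW.cfg w).Wm Φ ε K A (sgm Φ ε K A V w j)

/-- `V` does not touch the infection of `w` before the infection time. -/
def Untch : Prop := ∀ s < sgm Φ ε K A V w j, ¬ TchV Φ ε K V w s

/-- The history strictly before the infection time is a tree. -/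
def HT : Prop := ∃ (P : CTree) (ℓ : PhasePoint) (p : Par P) (e : Idx P → Fin (k + m)),
  HTreeP Φ ε T' (sgm Φ ε K A V w j) (cat V w) (Fin.castAdd m j) P ℓ p e

/-- The same with the protected tubes not hit by the rest of the gas before the window. -/
def HTU : Prop := ∃ (P : CTree) (ℓ : PhasePoint) (p : Par P) (e : Idx P → Fin (k + m)),
  HTreeP Φ ε T' (sgm Φ ε K A V w j) (cat V w) (Fin.castAdd m j) P ℓ p e ∧
    unhit Φ ε (PT Φ ε P T' ℓ p) A.tw w

/-- The closed history is a tree. -/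
def HTc : Prop := ∃ (P : CTree) (ℓ : PhasePoint) (p : Par P) (e : Idx P → Fin (k + m)),
  HTreeC Φ ε T' (sgm Φ ε K A V w j) (cat V w) (Fin.castAdd m j) P ℓ p e

/-- The same with the protected tubes not hit by the rest of the gas before the window. -/
def HTUc : Prop := ∃ (P : CTree) (ℓ : PhasePoint) (p : Par P) (e : Idx P → Fin (k + m)),
  HTreeC Φ ε T' (sgm Φ ε K A V w j) (cat V w) (Fin.castAdd m j) P ℓ p e ∧
    unhit Φ ε (PT Φ ε P T' ℓ p) A.tw w

/-- The root is free and meets a particle of `w` infected in `w` before. -/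
def HitA : Prop :=
  (∀ r, r ≠ Fin.castAdd m j →
    ¬ OldCt (Ct (pth Φ ε (cat V w)) ε) (sgm Φ ε K A V w j) (Fin.castAdd m j) r) ∧
  ∃ l : Fin m, GInfB Φ ε K w (sgm Φ ε K A V w j) l ∧
    dist (pth Φ ε w (sgm Φ ε K A V w j) l).1
      (pth Φ ε (cat V w) (sgm Φ ε K A V w j) (Fin.castAdd m j)).1 ≤ ε

/-- The root is in an old contact, and a member `p` of its old contact cluster meets a particle of
`w` infected in `w` before. -/
def HitB : Prop :=
  ∃ (r p : Fin (k + m)) (l : Fin m), r ≠ Fin.castAdd m j ∧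
    OldCt (Ct (pth Φ ε (cat V w)) ε) (sgm Φ ε K A V w j) (Fin.castAdd m j) r ∧
    Relation.ReflTransGen (OldCt (Ct (pth Φ ε (cat V w)) ε) (sgm Φ ε K A V w j))
      (Fin.castAdd m j) p ∧ GInfB Φ ε K w (sgm Φ ε K A V w j) l ∧
    dist (pth Φ ε w (sgm Φ ε K A V w j) l).1
      (pth Φ ε (cat V w) (sgm Φ ε K A V w j) p).1 ≤ ε

end defs

section functionals

variable (Φ : Space3 → ℝ) (ε : ℝ) (K : ℕ) (A : EPar) (T' : ℝ)

/-- Integrand of `aI`. -/
def FaI (k m : ℕ) (V : Config k) (w : Config m) (j : Fin k) : ℝ≥0∞ :=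
  if JI Φ ε K A V w j then bwt ε V w * wmZ Φ ε K A V w j else 0

/-- Touched half (335). -/
def FT (k m : ℕ) (V : Config k) (w : Config m) (j : Fin k) : ℝ≥0∞ :=
  if JI Φ ε K A V w j ∧ ¬ Untch Φ ε K A V w j then bwt ε V w * wmZ Φ ε K A V w j else 0

/-- The history is not a tree (726, 416). -/
def FNG (k m : ℕ) (V : Config k) (w : Config m) (j : Fin k) : ℝ≥0∞ :=
  if JI Φ ε K A V w j ∧ ¬ HT Φ ε K A T' V w j then bwt ε V w else 0

/-- Real to ghost before the window (302). -/
def FR (k m : ℕ) (V : Config k) (w : Config m) (j : Fin k) : ℝ≥0∞ :=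
  if JI Φ ε K A V w j ∧ HT Φ ε K A T' V w j ∧ ¬ HTU Φ ε K A T' V w j then bwt ε V w else 0

/-- The two weights (335). -/
def FL (k m : ℕ) (V : Config k) (w : Config m) (j : Fin k) : ℝ≥0∞ :=
  if JI Φ ε K A V w j ∧ Untch Φ ε K A V w j ∧ HTU Φ ε K A T' V w j then
    bwt ε V w * (wmZ Φ ε K A V w j - wmw Φ ε K A V w j) else 0

/-- Main term: the root meets the infection of `w` (263, 815). -/
def FA (k m : ℕ) (V : Config k) (w : Config m) (j : Fin k) : ℝ≥0∞ :=
  if JI Φ ε K A V w j ∧ Untch Φ ε K A V w j ∧ HTU Φ ε K A T' V w j ∧ HitA Φ ε K A V w j then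
    bwt ε V w * wmw Φ ε K A V w j else 0

/-- The root is in the middle of its last encounter (263). -/
def FB (k m : ℕ) (V : Config k) (w : Config m) (j : Fin k) : ℝ≥0∞ :=
  if JI Φ ε K A V w j ∧ Untch Φ ε K A V w j ∧ HTU Φ ε K A T' V w j ∧ HitB Φ ε K A V w j then
    bwt ε V w else 0

/-- Integrand of `mC`. -/
def FmC (k m : ℕ) (V : Config k) (w : Config m) (j : Fin k) : ℝ≥0∞ :=
  if JC Φ ε K A V w j then bwt ε V w else 0

/-- The closed history is not a tree (726, 416, level `2K`). -/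
def FNC (k m : ℕ) (V : Config k) (w : Config m) (j : Fin k) : ℝ≥0∞ :=
  if JC Φ ε K A V w j ∧ ¬ HTc Φ ε K A T' V w j then bwt ε V w else 0

/-- Real to ghost before the window, closed history of size in `(K, 2K]` (302). -/
def FRC (k m : ℕ) (V : Config k) (w : Config m) (j : Fin k) : ℝ≥0∞ :=
  if JC Φ ε K A V w j ∧ HTc Φ ε K A T' V w j ∧ ¬ HTUc Φ ε K A T' V w j then bwt ε V w else 0

/-- Trees with more than `K` leaves, not hit before the window (974). -/
def FM (k m : ℕ) (V : Config k) (w : Config m) (j : Fin k) : ℝ≥0∞ :=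
  if JC Φ ε K A V w j ∧ HTUc Φ ε K A T' V w j then bwt ε V w else 0

end functionals

variable {Φ : Space3 → ℝ} {f₀ : PhasePoint → ℝ} {ε : ℝ} {K : ℕ} {A : EPar} {T' : ℝ}

/-! ### Mecke -/

theorem aI_eq_MS (hΦ : AdmissiblePotential Φ) (hf : Measurable f₀) (hε : 0 < ε)
    (hWm : ∀ (n : ℕ) (q : Fin n), Measurable fun w : Config n =>
      (MW.cfg w).Wm Φ ε K A (iTime Φ ε K A.te w q))
    (hWe : ∀ (n : ℕ) (σ : Equiv.Perm (Fin n)) (w : Config n) (s : ℝ), w ∈ PairExcluded ε n →
      (MW.cfg w).Wm Φ ε K A s = (MW.cfg fun i => w (σ i)).Wm Φ ε K A s) :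
    aI Φ f₀ ε K A = MS f₀ ε (FaI Φ ε K A) := by
  rw [aI_mecke hΦ hf hε hWm hWe]
  unfold MS
  refine tsum_congr fun k => ?_
  congr 1
  refine lintegral_congr fun V => ?_
  congr 2
  funext m w
  congr 1
  refine Finset.sum_congr rfl fun j _ => ?_
  unfold FaI JI bwt wmZ sgm
  by_cases h1 : preC Φ ε (Fin.append V w : Config (k + m))
      (iTime Φ ε K A.te (Fin.append V w : Config (k + m)) (Fin.castAdd m j))
      (Fin.castAdd m j) = block k m
  · rw [if_pos h1]
    by_cases h2 : Joins Φ ε K A (Fin.append V w : Config (k + m)) (Fin.castAdd m j) ∧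
        2 * K < gasSize Φ ε (k + m) (Fin.append V w)
          (iTime Φ ε K A.te (Fin.append V w : Config (k + m)) (Fin.castAdd m j))
          (Fin.castAdd m j)
    · rw [if_pos h2, if_pos ⟨h1, h2⟩, mul_assoc]
    · rw [if_neg h2, if_neg fun h => h2 h.2]
  · rw [if_neg h1, if_neg fun h => h1 h.1]

theorem iTime_nonneg {T : ℝ} (hT : 0 ≤ T) {n : ℕ} (w : Config n) (q : Fin n) :
    0 ≤ iTime Φ ε K T w q := by
  unfold iTime sig utime
  refine le_csInf ⟨T + 1, Or.inr (mem_Ici.2 le_rfl)⟩ ?_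
  rintro x (hx | hx)
  · exact hx.2
  · exact (by linarith : (0 : ℝ) ≤ T + 1).trans hx

theorem mC_eq_MS (hΦ : AdmissiblePotential Φ) (hf : Measurable f₀) (hε : 0 < ε)
    (hte : 0 ≤ A.te) : mC Φ f₀ ε K A = MS f₀ ε (FmC Φ ε K A) := by
  set F : (n : ℕ) → (Fin 1 → Fin n) → Finset (Fin n) → Config n → ℝ≥0∞ := fun n ι B w =>
    if Joins Φ ε K A w (ι 0) ∧ K < gasSize Φ ε n w (iTime Φ ε K A.te w (ι 0)) (ι 0) ∧
        gasSize Φ ε n w (iTime Φ ε K A.te w (ι 0)) (ι 0) ≤ 2 * K then
      (activity ε)⁻¹ * eW w B else 0 with hF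
  have hcl := clusterMap_bcU (r := 1) (t := fun n Z ι j => iTime Φ ε K A.te Z (ι j)) hΦ hε
    (fun n Z ι j _ => iTime_nonneg hte Z (ι j)) (fun n ι j => measurable_iTime hΦ hε A.te (ι j))
    (fun n σ Z ι j hZ => iTime_equiv hΦ hε A.te σ hZ (ι j))
  have hFe : MarkedEquiv ε 1 F := by
    intro n σ ι B w hw
    have e1 : iTime Φ ε K A.te w (σ (ι 0)) = iTime Φ ε K A.te (fun i => w (σ i)) (ι 0) :=
      iTime_equiv hΦ hε A.te σ hw (ι 0)
    have e2 : ∀ s, gasSize Φ ε n w s (σ (ι 0)) = gasSize Φ ε n (fun i => w (σ i)) s (ι 0) :=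
      fun s => gasSize_equiv hΦ hε n σ w s (ι 0)
    simp only [hF, Joins, e1, e2, eW_equiv]
    congr
  have hFm : ∀ n ι B, Measurable (F n ι B) := by
    intro n ι B
    have h1 := measurable_iTime (K := K) hΦ hε A.te (ι 0)
    have h2 := measurable_gasSize_at (ε := ε) hΦ hε (ι 0) h1
    refine Measurable.ite ?_ ((measurable_eW B).const_mul _) measurable_const
    exact ((measurableSet_lt measurable_const h1).inter
      (measurableSet_le h1 measurable_const)).inter
        ((measurableSet_lt measurable_const h2).inter (measurableSet_le h2 measurable_const))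
  have hmeck := cluster_mecke hf hcl hFe hFm
  have e0 : ∀ (n : ℕ) (w : Config n) (ι : Fin 1 → Fin n),
      bcU Φ ε (fun n Z ι j => iTime Φ ε K A.te Z (ι j)) n w ι =
        (BC (Ct (pth Φ ε w) ε) (iTime Φ ε K A.te w (ι 0)) (ι 0)).toFinset := by
    intro n w ι
    ext k
    rw [mem_bcU, Set.mem_toFinset]
    constructor
    · rintro ⟨j, hj⟩
      rwa [Subsingleton.elim j 0] at hj
    · intro h
      exact ⟨0, h⟩
  have e1 : mC Φ f₀ ε K A = gcE f₀ ε (fun n w => ∑ ι : Fin 1 → Fin n,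
      F n ι (bcU Φ ε (fun n Z ι j => iTime Φ ε K A.te Z (ι j)) n w ι) w) := by
    unfold mC
    congr 1
    funext n w
    rw [Finset.mul_sum]
    rw [← sum_fin_one (fun q : Fin n => (activity ε)⁻¹ *
      if Joins Φ ε K A w q ∧ K < gasSize Φ ε n w (iTime Φ ε K A.te w q) q ∧
          gasSize Φ ε n w (iTime Φ ε K A.te w q) q ≤ 2 * K then
        eW w (BC (Ct (pth Φ ε w) ε) (iTime Φ ε K A.te w q) q).toFinset else 0)]
    refine Finset.sum_congr rfl fun ι _ => ?_
    rw [e0]
    simp only [hF]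
    rw [mul_ite, mul_zero]
  rw [e1, hmeck]
  unfold MS
  refine tsum_congr fun k => ?_
  congr 1
  refine lintegral_congr fun V => ?_
  congr 2
  funext m w
  congr 1
  rw [← sum_fin_one (fun j : Fin k => FmC Φ ε K A k m V w j)]
  refine Finset.sum_congr rfl fun ι _ => ?_
  rw [e0]
  unfold FmC JC bwt sgm
  by_cases h1 : (BC (Ct (pth Φ ε (Fin.append V w : Config (k + m))) ε)
      (iTime Φ ε K A.te (Fin.append V w : Config (k + m)) (Fin.castAdd m (ι 0)))
      (Fin.castAdd m (ι 0))).toFinset = block k m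
  · rw [if_pos h1]
    by_cases h2 : Joins Φ ε K A (Fin.append V w : Config (k + m)) (Fin.castAdd m (ι 0)) ∧
        K < gasSize Φ ε (k + m) (Fin.append V w)
          (iTime Φ ε K A.te (Fin.append V w : Config (k + m)) (Fin.castAdd m (ι 0)))
          (Fin.castAdd m (ι 0)) ∧
        gasSize Φ ε (k + m) (Fin.append V w)
          (iTime Φ ε K A.te (Fin.append V w : Config (k + m)) (Fin.castAdd m (ι 0)))
          (Fin.castAdd m (ι 0)) ≤ 2 * K
    · rw [if_pos ⟨h1, h2⟩]
      simp only [hF]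
      rw [if_pos h2]
    · rw [if_neg fun h => h2 h.2]
      simp only [hF]
      rw [if_neg h2]
  · rw [if_neg h1, if_neg fun h => h1 h.1]

/-! ### Pointwise splitting -/

/-- No two different pairs enter contact at the same time. -/
theorem oneNew_of_noSimul (hΦ : AdmissiblePotential Φ) (hε : 0 < ε) {κ : Type*} [Fintype κ]
    {Z : κ → PhasePoint} (h : ∀ t : ℝ, Simul984.NoSimul ε (flow Φ ε t Z)) (σ : ℝ) :
    OneNew (Ct (pth Φ ε Z) ε) σ := by
  have key : ∀ a b : κ, NewCt (Ct (pth Φ ε Z) ε) σ a b →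
      dist (flow Φ ε σ Z a).1 (flow Φ ε σ Z b).1 = ε := by
    rintro a b ⟨h1, h2⟩
    refine le_antisymm h1 ?_
    unfold OldCt at h2
    rw [not_frequently] at h2
    have hc : Continuous fun t => dist (pth Φ ε Z t a).1 (pth Φ ε Z t b).1 :=
      ((continuous_pth hΦ hε Z a).fst).dist ((continuous_pth hΦ hε Z b).fst)
    have h3 : Tendsto (fun t => dist (pth Φ ε Z t a).1 (pth Φ ε Z t b).1) (𝓝[<] σ)
        (𝓝 (dist (pth Φ ε Z σ a).1 (pth Φ ε Z σ b).1)) :=
      (hc.tendsto σ).mono_left nhdsWithin_le_nhds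
    refine ge_of_tendsto h3 ?_
    filter_upwards [h2] with t ht
    exact (not_le.1 ht).le
  intro a b c d hab hnab hcd hncd
  by_contra hne
  have hs : s(a, b) ≠ s(c, d) := by
    intro h3
    rw [Sym2.eq_iff] at h3
    exact hne h3
  exact h σ a b c d hab hcd hs (key a b hnab) (key c d hncd)

theorem wmZ_le_one (hL : 0 ≤ A.L) {k m : ℕ} (V : Config k) (w : Config m) (j : Fin k) :
    wmZ Φ ε K A V w j ≤ 1 := wm_le_one hL _ _

theorem append_dom (hε : 0 < ε) {k m : ℕ} {V : Config k} {w : Config m}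
    (hV : V ∈ PairExcluded ε k) (hw : w ∈ PairExcluded ε m) (hp : Perp ε V w) :
    (cat V w) ∈ Dom Φ (Fin (k + m)) :=
  pairExcluded_subset_Dom hε _ ((append_mem_pairExcluded_iff V w).2 ⟨hV, hw, hp⟩)

/-- The alternative at an infection time, any world. -/
theorem hit_cases_aux (hΦ : AdmissiblePotential Φ) (hε : 0 < ε) {k m : ℕ}
    {V : Config k} {w : Config m} {i : Fin (k + m)} {σ : ℝ} (hσ0 : 0 < σ)
    (hD : (Fin.append V w : Config (k + m)) ∈ Dom Φ (Fin (k + m)))
    (hns : ∀ t : ℝ, Simul984.NoSimul ε (flow Φ ε t (Fin.append V w : Config (k + m))))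
    (hinf : GInf Φ ε K (Fin.append V w : Config (k + m)) σ i)
    (hcl : ¬ GInfB Φ ε K (Fin.append V w : Config (k + m)) σ i)
    (hbig : 2 * K < gasSize Φ ε (k + m) (Fin.append V w) σ i)
    (hU : ∀ s < σ, ¬ TchV Φ ε K V w s) :
    ((∀ r, r ≠ i → ¬ OldCt (Ct (pth Φ ε (Fin.append V w : Config (k + m))) ε) σ i r) ∧
      ∃ l : Fin m, GInfB Φ ε K w σ l ∧
        dist (pth Φ ε w σ l).1 (pth Φ ε (Fin.append V w : Config (k + m)) σ i).1 ≤ ε) ∨
    ∃ (r p : Fin (k + m)) (l : Fin m), r ≠ i ∧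
      OldCt (Ct (pth Φ ε (Fin.append V w : Config (k + m))) ε) σ i r ∧
      Relation.ReflTransGen (OldCt (Ct (pth Φ ε (Fin.append V w : Config (k + m))) ε) σ) i p ∧
      GInfB Φ ε K w σ l ∧
      dist (pth Φ ε w σ l).1 (pth Φ ε (Fin.append V w : Config (k + m)) σ p).1 ≤ ε := by
  have hdist : ∀ {p l'}, NewCt (Ct (pth Φ ε (Fin.append V w : Config (k + m))) ε) σ p l' →
      GInfB Φ ε K (Fin.append V w : Config (k + m)) σ l' → ∃ l : Fin m, GInfB Φ ε K w σ l ∧
        dist (pth Φ ε w σ l).1 (pth Φ ε (Fin.append V w : Config (k + m)) σ p).1 ≤ ε := by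
    intro p l' hn hi
    obtain ⟨l, rfl, hl, hag⟩ := infB_of_untouched hΦ hε hD hU hi
    refine ⟨l, hl, ?_⟩
    rw [hag _ ⟨hσ0.le, le_rfl⟩, dist_comm]
    exact hn.1
  rcases infection_cases (C := Ct (pth Φ ε (Fin.append V w : Config (k + m))) ε)
    (m := fun _ => 1) (K := K) (q := i) (fun s j k h => Ct.symm h) (isClosed_ct_pth hΦ hε _) hσ0
    hinf hcl (oneNew_of_noSimul hΦ hε hns σ) with ⟨hfree, l', hn, hi⟩ | ⟨r, p, l', hr, ho, hch, hn, hi⟩ |
      ⟨hsz, -⟩
  · exact Or.inl ⟨hfree, hdist hn hi⟩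
  · obtain ⟨l, hl, hd⟩ := hdist hn hi
    exact Or.inr ⟨r, p, l, hr, ho, hch, hl, hd⟩
  · exfalso
    have h9 : gasSize Φ ε (k + m) (Fin.append V w) σ i =
        msize (Ct (pth Φ ε (Fin.append V w : Config (k + m))) ε) (fun _ => 1) σ i :=
      (msize_one σ i).symm
    rw [h9] at hbig
    exact not_lt.2 hsz hbig

/-- **The alternative at the infection time.** -/
theorem hit_cases (hΦ : AdmissiblePotential Φ) (hε : 0 < ε) (htw : 0 ≤ A.tw) {k m : ℕ}
    {V : Config k} {w : Config m} {j : Fin k} (hD : cat V w ∈ Dom Φ (Fin (k + m)))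
    (hns : ∀ t : ℝ, Simul984.NoSimul ε (flow Φ ε t (cat V w)))
    (hJ : JI Φ ε K A V w j) (hU : Untch Φ ε K A V w j) :
    HitA Φ ε K A V w j ∨ HitB Φ ε K A V w j := by
  have hσ0 : 0 < sgm Φ ε K A V w j := htw.trans_lt hJ.2.1.1
  have hσe : sgm Φ ε K A V w j ≤ A.te := hJ.2.1.2
  have heq : sgm Φ ε K A V w j =
      sig (gasSize Φ ε) K (A.te + 1) (k + m) (cat V w) (Fin.castAdd m j) := rfl
  have hinf : GInf Φ ε K (cat V w) (sgm Φ ε K A V w j) (Fin.castAdd m j) := by
    rw [heq]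
    refine gInf_sig hΦ hε ?_
    rw [← heq]
    linarith
  have hcl : ¬ GInfB Φ ε K (cat V w) (sgm Φ ε K A V w j) (Fin.castAdd m j) := by
    rw [heq]
    exact not_gInfB_sig
  exact hit_cases_aux hΦ hε hσ0 hD hns hinf hcl hJ.2.2 hU

/-- **Pointwise splitting of the joinings.** -/
theorem split_aI (hΦ : AdmissiblePotential Φ) (hε : 0 < ε) (htw : 0 ≤ A.tw) (hL : 0 ≤ A.L)
    {k m : ℕ} {V : Config k} {w : Config m} {j : Fin k} (hD : cat V w ∈ Dom Φ (Fin (k + m)))
    (hns : ∀ t : ℝ, Simul984.NoSimul ε (flow Φ ε t (cat V w))) :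
    FaI Φ ε K A k m V w j ≤ FT Φ ε K A k m V w j + FNG Φ ε K A T' k m V w j +
      FR Φ ε K A T' k m V w j + FL Φ ε K A T' k m V w j + FA Φ ε K A T' k m V w j +
      FB Φ ε K A T' k m V w j := by
  by_cases hJ : JI Φ ε K A V w j
  swap
  · unfold FaI
    rw [if_neg hJ]
    exact zero_le
  have h0 : FaI Φ ε K A k m V w j = bwt ε V w * wmZ Φ ε K A V w j := if_pos hJ
  have hle : bwt ε V w * wmZ Φ ε K A V w j ≤ bwt ε V w :=
    (mul_le_mul_right (wmZ_le_one hL V w j) _).trans (mul_one _).le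
  rw [h0]
  by_cases hU : Untch Φ ε K A V w j
  swap
  · have h1 : FT Φ ε K A k m V w j = bwt ε V w * wmZ Φ ε K A V w j := if_pos ⟨hJ, hU⟩
    rw [h1]
    simp only [add_assoc]
    exact le_self_add
  by_cases hH : HT Φ ε K A T' V w j
  swap
  · have h1 : FNG Φ ε K A T' k m V w j = bwt ε V w := if_pos ⟨hJ, hH⟩
    rw [h1]
    refine hle.trans ?_
    rw [add_comm (FT Φ ε K A k m V w j)]
    simp only [add_assoc]
    exact le_self_add
  by_cases hHU : HTU Φ ε K A T' V w j
  swap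
  · have h1 : FR Φ ε K A T' k m V w j = bwt ε V w := if_pos ⟨hJ, hH, hHU⟩
    rw [h1]
    refine hle.trans ?_
    rw [add_comm (FT Φ ε K A k m V w j + FNG Φ ε K A T' k m V w j)]
    simp only [add_assoc]
    exact le_self_add
  rcases hit_cases hΦ hε htw hD hns hJ hU with hA | hB
  · have h1 : FL Φ ε K A T' k m V w j =
        bwt ε V w * (wmZ Φ ε K A V w j - wmw Φ ε K A V w j) := if_pos ⟨hJ, hU, hHU⟩
    have h2 : FA Φ ε K A T' k m V w j = bwt ε V w * wmw Φ ε K A V w j :=
      if_pos ⟨hJ, hU, hHU, hA⟩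
    have h3 : bwt ε V w * wmZ Φ ε K A V w j ≤
        FL Φ ε K A T' k m V w j + FA Φ ε K A T' k m V w j := by
      rw [h1, h2, ← mul_add]
      exact mul_le_mul_right le_tsub_add _
    refine h3.trans ?_
    rw [add_assoc (FT Φ ε K A k m V w j + FNG Φ ε K A T' k m V w j + FR Φ ε K A T' k m V w j)]
    exact le_add_self.trans le_self_add
  · have h1 : FB Φ ε K A T' k m V w j = bwt ε V w := if_pos ⟨hJ, hU, hHU, hB⟩
    rw [h1]
    exact hle.trans le_add_self

theorem split_mC {k m : ℕ} (V : Config k) (w : Config m) (j : Fin k) :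
    FmC Φ ε K A k m V w j ≤ FNC Φ ε K A T' k m V w j + FRC Φ ε K A T' k m V w j +
      FM Φ ε K A T' k m V w j := by
  by_cases hJ : JC Φ ε K A V w j
  swap
  · unfold FmC
    rw [if_neg hJ]
    exact zero_le
  have h0 : FmC Φ ε K A k m V w j = bwt ε V w := if_pos hJ
  rw [h0]
  by_cases hHU : HTUc Φ ε K A T' V w j
  · have h1 : FM Φ ε K A T' k m V w j = bwt ε V w := if_pos ⟨hJ, hHU⟩
    rw [h1]
    exact le_add_self
  by_cases hH : HTc Φ ε K A T' V w j
  · have h1 : FRC Φ ε K A T' k m V w j = bwt ε V w := if_pos ⟨hJ, hH, hHU⟩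
    rw [h1]
    exact le_add_self.trans le_self_add
  · have h1 : FNC Φ ε K A T' k m V w j = bwt ε V w := if_pos ⟨hJ, hH⟩
    rw [h1, add_assoc]
    exact le_self_add

/-! ### The parts give the whole -/



end Crest.Agent.R122.InEq2

end
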