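import Crest.Agent.R122.InEq2TPt_335
import Crest.Agent.R122.InEq2Fun_311

/-!
# Row 122, INEQUALITY 2', touched half (helper335): integration

* `lineM_restrict` : the measure on lines restricted to the births `≤ T`.
* `bnd_FT`, `bnd_FL` : majorants (`InEq2.Bnd`) of helper311's functionals `FT`, `FL`.
-/

set_option autoImplicit false
set_option linter.unusedSectionVars false

open MeasureTheory Set Filter Topology
open scoped ENNReal
open Crest.AnalysisR.Kinetic
open Crest.Agent.R122.Flow671 Crest.Agent.R122.Causal291 Crest.Agent.R122.Loc45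
open Crest.Agent.R122.Inf879 Crest.Agent.R122.GC311 Crest.Agent.R122.EDefs602
open Crest.Agent.R122.InEq2 Crest.Agent.R122.EBasic602
open Crest.Agent.R122.Kin796 Crest.Agent.R122.Kin796.CTree Crest.Agent.R122.Tree674
open Crest.Agent.R122.PathFlow968 Crest.Agent.R122.TreeLines335 Crest.Agent.R122.LineMeas994
open Crest.Agent.R122.RtG302 Crest.Agent.R122.Weight984 Crest.Agent.R122.MeasE416
open Crest.Agent.R122.TreeBound335 Crest.Agent.R122.ToTree335

namespace Crest.Agent.R122.InEq2T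

noncomputable section

open scoped Classical

variable {Φ : Space3 → ℝ} {f₀ : PhasePoint → ℝ} {ε : ℝ} {K : ℕ} {Q : EPar} {T' : ℝ}

/-! ### Restriction of the births -/

theorem lineV_restrict {T T' : ℝ} (h : T ≤ T') :
    (lineV T').restrict {l : ML | l.1.1 ≤ T} = lineV T := by
  have h1 : {l : ML | l.1.1 ≤ T} = ((Iic T ×ˢ (univ : Set PhasePoint)) ×ˢ (univ : Set ℕ)) := by
    ext l
    simp
  unfold lineV
  rw [h1, ← Measure.prod_restrict, ← Measure.prod_restrict, Measure.restrict_univ,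
    Measure.restrict_univ, Measure.restrict_restrict measurableSet_Iic]
  congr 3
  ext x
  simp only [mem_inter_iff, mem_Iic, mem_Ioc]
  constructor
  · rintro ⟨h2, h3, -⟩
    exact ⟨h3, h2⟩
  · rintro ⟨h2, h3⟩
    exact ⟨h3, h2, h3.trans h⟩

theorem measurableSet_birth (T : ℝ) : MeasurableSet {l : ML | l.1.1 ≤ T} :=
  measurableSet_le measurable_fst.fst measurable_const

theorem lineM_restrict {γ : ℝ → ℝ} {ρ : ℝ≥0∞} {T T' : ℝ} (h : T ≤ T') :
    (lineM γ ρ K T').restrict {l : ML | l.1.1 ≤ T} = lineM γ ρ K T := by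
  unfold lineM
  rw [restrict_withDensity (measurableSet_birth T), lineV_restrict h]

theorem lintegral_birth {γ : ℝ → ℝ} {ρ : ℝ≥0∞} {T T' : ℝ} (h : T ≤ T') (F : ML → ℝ≥0∞) :
    ∫⁻ l, (if l.1.1 ≤ T then F l else 0) ∂lineM γ ρ K T' = ∫⁻ l, F l ∂lineM γ ρ K T := by
  rw [← lineM_restrict h, ← lintegral_indicator (measurableSet_birth T)]
  refine lintegral_congr fun l => ?_
  by_cases hl : l.1.1 ≤ T
  · rw [if_pos hl, indicator_of_mem (show l ∈ {l : ML | l.1.1 ≤ T} from hl)]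
  · rw [if_neg hl, indicator_of_notMem (show l ∉ {l : ML | l.1.1 ≤ T} from hl)]

theorem lintegral_phi1 (hteT : Q.te ≤ T') (m : ℕ) (w : Config m) :
    ∫⁻ l, phi1 Φ ε K Q m w l ∂lineM Q.γ Q.ρ K T' =
      ∫⁻ l, (MW.cfg w).touchW Φ ε K Q l ∂lineM Q.γ Q.ρ K Q.te := by
  unfold phi1
  exact lintegral_birth hteT _

theorem lintegral_phi2 (hΦ : AdmissiblePotential Φ) (hε : 0 < ε) (htwT : Q.tw ≤ T') (m : ℕ)
    (w : Config m) :
    ∫⁻ l, phi2 Φ ε K Q m w l ∂lineM Q.γ Q.ρ K T' =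
      lineM Q.γ Q.ρ K Q.tw {l | (MW.cfg w).thetaL Φ ε K Q.tw l ≤ Q.tw} := by
  set A : Set ML := {l : ML | (MW.cfg w).thetaL Φ ε K Q.tw l ≤ Q.tw} with hA
  have h1 : ∀ l : ML, phi2 Φ ε K Q m w l = if l.1.1 ≤ Q.tw then
      A.indicator (fun _ => (1 : ℝ≥0∞)) l else 0 := by
    intro l
    unfold phi2
    by_cases h2 : l.1.1 ≤ Q.tw
    · rw [if_pos h2]
      by_cases h3 : l ∈ A
      · rw [if_pos ⟨h2, h3⟩, indicator_of_mem h3]
      · rw [if_neg fun h => h3 h.2, indicator_of_notMem h3]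
    · rw [if_neg fun h => h2 h.1, if_neg h2]
  have hm : MeasurableSet A := by
    have h0 : Measurable fun l : ML => ((w, l) : Config m × ML) :=
      measurable_const.prodMk measurable_id
    have h2 : Measurable fun l : ML => (MW.cfg w).thetaL Φ ε K Q.tw l :=
      Measurable.comp (g := fun p : Config m × ML => (MW.cfg p.1).thetaL Φ ε K Q.tw p.2)
        (f := fun l : ML => ((w, l) : Config m × ML)) (measurable_thetaL_cfg hΦ hε K Q.tw m) h0
    exact measurableSet_le h2 measurable_const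
  have h3 : ∫⁻ l, phi2 Φ ε K Q m w l ∂lineM Q.γ Q.ρ K T' =
      ∫⁻ l, (if l.1.1 ≤ Q.tw then A.indicator (fun _ => (1 : ℝ≥0∞)) l else 0)
        ∂lineM Q.γ Q.ρ K T' := lintegral_congr h1
  rw [h3, lintegral_birth htwT, lintegral_indicator_const hm, one_mul]

/-! ### The bounds -/

/-- The bound on the exit lines (helper814, helper837), for one `K` and one `ε`: the sum over the
exit lines of a functional `φ ≤ 1` is at most `C` times the integral of `φ` over all lines, up to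
`δ`. -/
def QXE (Φ : Space3 → ℝ) (f₀ : PhasePoint → ℝ) (ε : ℝ) (K : ℕ) (T' tw : ℝ) (γ : ℝ → ℝ)
    (ρ C δ : ℝ≥0∞) : Prop :=
  ∀ φ : (m : ℕ) → Config m → ML → ℝ≥0∞, (∀ m, Measurable fun p : Config m × ML => φ m p.1 p.2) →
    (∀ m w l, φ m w l ≤ 1) →
    TS Φ f₀ ε T' (HX Φ ε K T' tw φ) ≤
      C * gcE f₀ ε (fun m w => ∫⁻ l, φ m w l ∂lineM γ ρ K T') + δ

/-- Weighted tree functional with at most `K` leaves. -/
def HN (Φ : Space3 → ℝ) (ε : ℝ) (K : ℕ) (T : ℝ)
    (N : (P : CTree) → PhasePoint × Par P → (m : ℕ) → Config m → ℝ≥0∞)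
    (P : CTree) (z : PhasePoint × Par P) (m : ℕ) (w : Config m) : ℝ≥0∞ :=
  vsI Φ ε K T P z * (pI Φ ε P z w * (wQ Φ ε P z * N P z m w))

theorem measTS_HN (hΦ : AdmissiblePotential Φ) (hε : 0 < ε) (K : ℕ) (T : ℝ)
    {N : (P : CTree) → PhasePoint × Par P → (m : ℕ) → Config m → ℝ≥0∞} (hN : MeasTS N) :
    MeasTS (HN Φ ε K T N) := by
  intro P m
  unfold HN
  exact ((measurable_vsI hΦ hε K T P).comp measurable_fst).mul
    ((measurable_pI hΦ ε P m).mul (((measurable_wQ hΦ P).comp measurable_fst).mul (hN P m)))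



theorem act_TS (hε : 0 < ε) (H : (P : CTree) → PhasePoint × Par P → (m : ℕ) → Config m → ℝ≥0∞) :
    activity ε * TS Φ f₀ ε T' (fun P z m w => (activity ε)⁻¹ * H P z m w) = TS Φ f₀ ε T' H := by
  rw [TS_const_mul (ENNReal.inv_ne_top.2 (activity_ne_zero hε)), ← mul_assoc,
    ENNReal.mul_inv_cancel (activity_ne_zero hε) (activity_ne_top ε), one_mul]



/-! ### helper311's functionals -/





end

end Crest.Agent.R122.InEq2T
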