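import Crest.Agent.R122.QExitBind3_837
import Crest.Agent.R122.InEq2TInt_335
import Crest.Agent.R122.EMDefs_602
import Crest.Agent.R122.InEq2Main_311
import Crest.Agent.R122.Q1Data_815
import Crest.Agent.R122.RtG_302

-- ▼ part R122/QXE_837
section

/-!
# Row 122 (helper837): `QXE` of helper335 (touched half of INEQUALITY 2)

* `null_of_tendsto` : a family tending to `0` for every `K` is `Null`.
* `qxe` : `QXE Φ f₀ ε K T' tw γ ρ C (δ K ε)`, `C` uniform in the windows, `K` and `ε`; `δ` null.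
* `qxe_win` : the same for `LinePar` and windows.
-/

set_option autoImplicit false

open MeasureTheory Set Filter Topology
open Crest.AnalysisR.Kinetic
open scoped ENNReal

noncomputable section

open scoped Classical

namespace Crest.Agent.R122.QExit837

open Kin796 Kin796.CTree Disc416 Scat818 Flow671 Flux663 Tree674 Mark307
open Crest.Agent.R122.GIV566 Crest.Agent.R122.TreeLines335 Crest.Agent.R122.QExit814
open Crest.Agent.R122.Hid424 Crest.Agent.R122.RtG302 Crest.Agent.R122.GC311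
open Crest.Agent.R122.InEq2 Crest.Agent.R122.ToTree335 Crest.Agent.R122.Boltz814
open Crest.Agent.R122.EDefs602 Crest.Agent.R122.Master566 Crest.Agent.R122.Top602

variable {Φ : Space3 → ℝ} {f₀ : PhasePoint → ℝ} {f : ℝ → PhasePoint → ℝ} {ε : ℝ}

theorem null_of_tendsto {δ : ℕ → ℝ → ℝ≥0∞} (h : ∀ K, Tendsto (δ K) (𝓝[>] 0) (𝓝 0)) : Null δ := by
  intro K a ha
  have h5 : ∀ᶠ x in 𝓝[>] (0 : ℝ), δ K x ≤ ENNReal.ofReal a :=
    ((h K).eventually (gt_mem_nhds (ENNReal.ofReal_pos.2 ha))).mono fun _ h => le_of_lt h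
  rw [eventually_nhdsWithin_iff, Metric.eventually_nhds_iff] at h5
  obtain ⟨η, hη, h6⟩ := h5
  refine ⟨η, hη, fun x hx hxη => h6 ?_ hx⟩
  rw [Real.dist_eq, sub_zero, abs_of_pos hx]
  exact hxη

/-- **`QXE`**, constants uniform in the windows and horizons. -/
theorem qxe {β T : ℝ} (hD : KData Φ β T f₀ f) {h₀ kap lam C b : ℝ}
    (hK : Seg814.KinC Φ T f h₀ kap lam C b) (hkap : kap ≤ β) :
    ∃ g₁ : ℝ, 0 < g₁ ∧ ∃ ρ₁ : ℝ≥0∞, ρ₁ < 1 ∧ ∃ C₀ : ℝ≥0∞, C₀ ≠ ∞ ∧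
      ∀ (γ : ℝ → ℝ) (ρ : ℝ≥0∞), ρ₁ ≤ ρ → ∀ tw ∈ Icc 0 T, GIV566.GIV Φ f₀ f T tw →
      ∀ T' : ℝ, 0 < T' → T' ≤ tw + h₀ → (∀ τ ∈ Ioc 0 T', γ τ ≤ g₁) →
      ∃ δ : ℕ → ℝ → ℝ≥0∞, Null δ ∧ ∀ (K : ℕ) (ε : ℝ), 0 < ε →
        InEq2T.QXE Φ f₀ ε K T' tw γ ρ C₀ (δ K ε) := by
  have hΦ := hD.adm
  have hf : Measurable f₀ := hD.contDiff.continuous.measurable
  have hlam : 1 < lam := hK.2.2.1
  have hkap0 : 0 < kap := hK.2.1
  set lam₁ : ℝ := (1 + lam) / 2 with hl₁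
  set lam₀ : ℝ := (1 + lam₁) / 2 with hl₀
  have h1 : 1 < lam₁ := by rw [hl₁]; linarith
  have h2 : lam₁ < lam := by rw [hl₁]; linarith
  have h3 : 1 < lam₀ := by rw [hl₀]; linarith
  have h4 : lam₀ < lam₁ := by rw [hl₀]; linarith
  obtain ⟨g₁, hg₁, ρ₁, hρ₁, C₁, hC₁, hQ⟩ := exists_qx hD hK hkap h1 h2
  obtain ⟨M₀, hM₀, hw⟩ := exists_wQ Φ h3 h4 hkap0
  refine ⟨g₁, hg₁, ρ₁, hρ₁, M₀ * C₁, ENNReal.mul_ne_top hM₀ hC₁, ?_⟩
  intro γ ρ hρ tw htw hG T' hT' hT'h hup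
  have hδ := fun K => hQ γ ρ hρ tw htw hG T' hT' hT'h hup K
  choose δ hδ0 hδ1 using hδ
  refine ⟨fun K ε => M₀ * δ K ε, null_of_tendsto fun K => ?_, ?_⟩
  · have h := ENNReal.Tendsto.const_mul (a := M₀) (hδ0 K) (Or.inr hM₀)
    rw [mul_zero] at h
    exact h
  · intro K ε hε φ hφ hφ1
    have hQX := hδ1 K ε hε
    have s2 : InEq2.TS Φ f₀ ε T' (InEq2T.HX Φ ε K T' tw φ) ≤ M₀ *
        (C₁ * gcE f₀ ε (fun m w => ∫⁻ l, φ m w l ∂EDefs602.lineM γ ρ K T') + δ K ε) := by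
      refine hQX.ts_rel hΦ hf hε (φ := φ) hφ hφ1 hM₀ (th := fun P z => wQ Φ ε P z)
        (fun P => measurable_wQ hΦ P) (fun P z hz => ?_)
        (b := fun P z => TreeLines335.rel P z.2) (fun P z i => le_rfl) (fun P z m w hz => ?_)
      · have h7 := hw 0 ε T' P z hz
        rw [if_pos (Nat.zero_le _), pow_zero, mul_one] at h7
        exact h7
      · unfold InEq2T.HX InEq2T.vsI
        by_cases hcs : P.leaves ≤ K ∧ Sep Φ ε P T' z.1 z.2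
        · rw [if_pos ⟨hcs.1, hz, hcs.2⟩, if_pos hcs, one_mul]
          refine mul_le_mul' le_rfl (le_of_eq ?_)
          unfold InEq2T.gI InEq2T.exS
          rw [H5994.ghTM_of_adm hz.1]
          have h9 : ∀ x : {x : Idx P // x ≠ root P}, φ m w (LineMeas994.lineMM Φ ε P z x) =
              φ m w (lineML Φ ε P z x) := fun x => by rw [LineMeas994.lineMM_of_adm ε hz.1]
          rw [Finset.sum_congr rfl fun x _ => h9 x]
          rfl
        · rw [if_neg (fun hh => hcs ⟨hh.1, hh.2.2⟩), zero_mul]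
          exact bot_le
    refine s2.trans (le_of_eq ?_)
    ring

/-- `QXE` for admissible line parameters and all windows. -/
theorem qxe_win {β T : ℝ} (hD : KData Φ β T f₀ f) {h₀ kap lam C b : ℝ}
    (hK : Seg814.KinC Φ T f h₀ kap lam C b) (hkap : kap ≤ β) :
    ∃ g1 : ℝ, 0 < g1 ∧ ∃ r1 : ℝ≥0∞, r1 < 1 ∧ ∃ C₀ : ℝ≥0∞, C₀ ≠ ∞ ∧
      ∀ (γ : ℝ → ℝ) (ρ : ℝ≥0∞), LinePar g1 r1 T γ ρ →
        ∀ h tw te : ℝ, Win h T tw te → GIV566.GIV Φ f₀ f T tw →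
        ∀ T' : ℝ, 0 < T' → T' ≤ tw + h₀ →
        ∃ δ : ℕ → ℝ → ℝ≥0∞, Null δ ∧ ∀ (K : ℕ) (ε : ℝ), 0 < ε →
          InEq2T.QXE Φ f₀ ε K T' tw γ ρ C₀ (δ K ε) := by
  obtain ⟨g₁, hg₁, ρ₁, hρ₁, C₀, hC₀, H⟩ := qxe hD hK hkap
  refine ⟨g₁, hg₁, ρ₁, hρ₁, C₀, hC₀, fun γ ρ hP h tw te hW hG T' hT' hT'h => ?_⟩
  obtain ⟨g0, κ, hκ, hγ, hlow, hup⟩ := hP.lin
  refine H γ ρ hP.lo tw ⟨hW.nonneg, hW.le.trans hW.le_T⟩ hG T' hT' hT'h (fun τ hτ => ?_)
  rw [hγ]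
  have h2 := mul_pos hκ hτ.1
  show g0 - κ * τ ≤ g₁
  linarith

end Crest.Agent.R122.QExit837

end
end

-- ▼ part R122/InEq2TInB_718

/-!
# Row 122, INEQUALITY 2', touched half (helper718, second hand of helper335): the bounds `InB`

* `LNln` : (input) the mass of the lines linked to a tree is null.
* `ExN` : (input) the exceptional events of the exit lines are null (`TNull` of helper302).
* `inB_FLg` : the weight comparison of the untouched case.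
* `inB_FTg` : the touched half, mass `Small + C · XI`.
-/

set_option autoImplicit false
set_option maxHeartbeats 400000

open MeasureTheory Set Filter Topology
open scoped ENNReal
open Crest.AnalysisR.Kinetic
open Crest.Agent.R122.GC311 Crest.Agent.R122.EDefs602 Crest.Agent.R122.InEq2
open Crest.Agent.R122.Kin796 Crest.Agent.R122.Kin796.CTree Crest.Agent.R122.Tree674
open Crest.Agent.R122.RtG302 Crest.Agent.R122.GIV566 Crest.Agent.R122.Master566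
open Crest.Agent.R122.Top602 Crest.Agent.R122.QExit837

namespace Crest.Agent.R122.InEq2T

noncomputable section

open scoped Classical

variable {Φ : Space3 → ℝ} {f₀ : PhasePoint → ℝ} {f : ℝ → PhasePoint → ℝ} {ε : ℝ} {K : ℕ}
  {T T' : ℝ} {γ : ℝ → ℝ} {ρ : ℝ≥0∞} {h₀ : ℝ}

/-! ### Null functions from `δ`-forms -/

/-- A monotone family of bounds which holds at every `δ > 0` for small `ε` holds at a null
function. -/
theorem exists_null_of_delta {B : ℝ → ℝ≥0∞ → Prop}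
    (hm : ∀ ε a b, a ≤ b → B ε a → B ε b)
    (h : ∀ δ : ℝ, 0 < δ → ∃ ε₀ : ℝ, 0 < ε₀ ∧ ∀ ε : ℝ, 0 < ε → ε < ε₀ → B ε (ENNReal.ofReal δ)) :
    ∃ q : ℝ → ℝ≥0∞, Tendsto q (𝓝[>] 0) (𝓝 0) ∧ ∀ᶠ ε in 𝓝[>] (0 : ℝ), B ε (q ε) := by
  refine ⟨fun ε => sInf {a | B ε a} + ENNReal.ofReal ε, ?_, ?_⟩
  · rw [ENNReal.tendsto_nhds_zero]
    intro η hη
    rcases eq_or_ne η ∞ with rfl | hηt
    · exact Eventually.of_forall fun _ => le_top
    have hη2 : 0 < η.toReal / 2 := by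
      have := ENNReal.toReal_pos hη.ne' hηt
      positivity
    obtain ⟨ε₀, hε₀, hb⟩ := h (η.toReal / 2) hη2
    have h1 : Ioo (0 : ℝ) (min ε₀ (η.toReal / 2)) ∈ 𝓝[>] (0 : ℝ) :=
      Ioo_mem_nhdsGT (lt_min hε₀ hη2)
    filter_upwards [h1] with ε hε
    have h2 : sInf {a | B ε a} ≤ ENNReal.ofReal (η.toReal / 2) :=
      sInf_le (hb ε hε.1 (hε.2.trans_le (min_le_left _ _)))
    calc sInf {a | B ε a} + ENNReal.ofReal ε
        ≤ ENNReal.ofReal (η.toReal / 2) + ENNReal.ofReal (η.toReal / 2) :=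
          add_le_add h2 (ENNReal.ofReal_le_ofReal (hε.2.le.trans (min_le_right _ _)))
      _ = ENNReal.ofReal η.toReal := by
          rw [← ENNReal.ofReal_add hη2.le hη2.le, add_halves]
      _ = η := ENNReal.ofReal_toReal hηt
  · obtain ⟨ε₀, hε₀, hb⟩ := h 1 one_pos
    have h1 : Ioo (0 : ℝ) ε₀ ∈ 𝓝[>] (0 : ℝ) := Ioo_mem_nhdsGT hε₀
    filter_upwards [h1] with ε hε
    have h2 : sInf {a | B ε a} ≤ ENNReal.ofReal 1 := sInf_le (hb ε hε.1 hε.2)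
    have h3 : sInf {a | B ε a} ≠ ∞ := ne_top_of_le_ne_top ENNReal.ofReal_ne_top h2
    have h4 : sInf {a | B ε a} < sInf {a | B ε a} + ENNReal.ofReal ε :=
      ENNReal.lt_add_right h3 (by simpa using hε.1)
    obtain ⟨a, ha, hlt⟩ := sInf_lt_iff.1 h4
    exact hm ε a _ hlt.le ha

/-- Null functions of `TNull`. -/
theorem TNull.exists_fun {E : TEv} (h : TNull Φ f₀ T' K E) :
    ∃ q : ℝ → ℝ≥0∞, Tendsto q (𝓝[>] 0) (𝓝 0) ∧ ∀ᶠ ε in 𝓝[>] (0 : ℝ), ∃ G, TMaj Φ ε T' K E G ∧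
      TS Φ f₀ ε T' (fun P z m w => wQ Φ ε P z * G P z m w) ≤ q ε :=
  exists_null_of_delta (B := fun ε a => ∃ G, TMaj Φ ε T' K E G ∧
      TS Φ f₀ ε T' (fun P z m w => wQ Φ ε P z * G P z m w) ≤ a)
    (fun _ _ _ hab ⟨G, hG, hm⟩ => ⟨G, hG, hm.trans hab⟩) h

theorem TNull.or (hΦ : AdmissiblePotential Φ) (hf : Measurable f₀) {E E' : TEv}
    (h : TNull Φ f₀ T' K E) (h' : TNull Φ f₀ T' K E') :
    TNull Φ f₀ T' K fun ε P z m w => E ε P z m w ∨ E' ε P z m w := by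
  intro δ hδ
  obtain ⟨K₀, h1⟩ := (h.to2.or hΦ hf h'.to2) δ hδ
  exact h1 K₀ le_rfl

/-! ### The inputs -/





theorem TS_HN_le {G : (P : CTree) → PhasePoint × Par P → (m : ℕ) → Config m → ℝ≥0∞} :
    TS Φ f₀ ε T' (HN Φ ε K T' G) ≤ TS Φ f₀ ε T' fun P z m w => wQ Φ ε P z * G P z m w := by
  refine TS_mono fun P z m w _ _ => ?_
  unfold HN vsI pI
  split_ifs
  · rw [one_mul, one_mul]
  · rw [zero_mul, mul_zero]
    exact bot_le
  · rw [zero_mul]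
    exact bot_le
  · rw [zero_mul]
    exact bot_le

theorem evK_of_forall {p : ℕ → ℝ → Prop} (h : ∀ K, ∀ᶠ ε in 𝓝[>] (0 : ℝ), p K ε) : EvK p := by
  intro K
  have h1 := h K
  rw [eventually_nhdsWithin_iff, Metric.eventually_nhds_iff] at h1
  obtain ⟨ε₀, hε₀, h2⟩ := h1
  exact ⟨ε₀, hε₀, fun ε hε hlt => h2 (by rw [Real.dist_eq, sub_zero, abs_of_pos hε]; exact hlt) hε⟩

theorem tendsto_const_mul {q : ℝ → ℝ≥0∞} {c : ℝ≥0∞} (hc : c ≠ ∞)
    (h : Tendsto q (𝓝[>] 0) (𝓝 0)) : Tendsto (fun ε => c * q ε) (𝓝[>] 0) (𝓝 0) := by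
  have := ENNReal.Tendsto.const_mul (a := c) h (Or.inr hc)
  rwa [mul_zero] at this

/-- Measurability of the Gaussian rate. -/
theorem measurable_rate {g1 : ℝ} {r1 : ℝ≥0∞} (h : LinePar g1 r1 T γ ρ) : Measurable γ := by
  obtain ⟨g0, κ, -, rfl, -, -⟩ := h.lin
  fun_prop

/-! ### The bounds -/



end

end Crest.Agent.R122.InEq2T
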