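import Crest.Agent.R122.LNRetB_383
import Crest.Agent.R122.LNTreeB_410
import Crest.Agent.R122.OneCDefs_285

/-!
# Row 122, LN1 events (helper383), part 3: the tubes of a tree

* `tubeOf_tree` : tubes which are the paths of a tree (`TreeIn` of helper410) are tubes of the
  members of its part; instances `tubeOf_protT` (helper302), `tubeOf_ptube` (helper285).
* `vct_own` : at its release time a member of a tree is in contact with another member.
-/

set_option autoImplicit false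
set_option linter.unusedSectionVars false

open MeasureTheory Set Filter Topology
open scoped ENNReal
open Crest.AnalysisR.Kinetic
open Crest.Agent.R122.GIV566 Crest.Agent.R122.VL581 Crest.Agent.R122.LN304
open Crest.Agent.R122.LNg410 Crest.Agent.R122.LNEv968
open Crest.Agent.R122.Kin796 Crest.Agent.R122.Kin796.CTree Crest.Agent.R122.Tree674
open Crest.Agent.R122.PathFlow968 Crest.Agent.R122.TreeLines335
open Crest.Agent.R122.RtG302 (protT)
open Crest.Agent.R122.LNTree410
open scoped Classical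

namespace Crest.Agent.R122.LNEv383

noncomputable section

variable {κ J : Type} [Fintype J] {M : VSys J κ} {Zc : J → PhasePoint} {Λ : Finset (Finset J)}
  {T T' : ℝ} {P : CTree} {z : PhasePoint × Par P} {e : Idx P ↪ J} {c : ℝ}

/-- **Tubes along the paths of a tree.** -/
theorem tubeOf_tree (hΦ : AdmissiblePotential M.Φ) (hε : 0 < M.ε)
    (h : TreeIn M Zc T' P z.1 z.2 e) (hπ : part e ∈ Λ) (hT : T ≤ T') {O : Tubes (Idx P)}
    (hO : ∀ i, ∀ v ∈ Icc 0 T, v ≤ O.b i → O.c i v = (path M.Φ M.ε P z.1 z.2 v i).1) :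
    TubeOf M Zc Λ O T (fun _ => part e) e where
  part _ := hπ
  mem i := mem_part_self i
  obs i := h.o i
  path i v hv hb := by
    have hv' : v ∈ Icc 0 T' := ⟨hv.1, hv.2.trans hT⟩
    refine ⟨part e, subset_rfl, mem_part_self i, h.ok_tree hΦ hε (hv'.1.trans hv'.2) v, ?_⟩
    rw [hO i v hv hb, h.st_tree hΦ hε hv' i]

/-- The protected tubes of helper302. -/
theorem tubeOf_protT (hΦ : AdmissiblePotential M.Φ) (hε : 0 < M.ε)
    (h : TreeIn M Zc T' P z.1 z.2 e) (hπ : part e ∈ Λ) (hT : T ≤ T') (T₂ : ℝ) :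
    TubeOf M Zc Λ (protT M.Φ M.ε P T₂ z) T (fun _ => part e) e :=
  tubeOf_tree hΦ hε h hπ hT fun _ _ _ _ => rfl

/-- The protected tubes of helper285 (also of the root, up to the last release time). -/
theorem tubeOf_ptube (hΦ : AdmissiblePotential M.Φ) (hε : 0 < M.ε)
    (h : TreeIn M Zc T' P z.1 z.2 e) (hπ : part e ∈ Λ) (hT : T ≤ T') :
    TubeOf M Zc Λ (OneC285.ptube M.Φ M.ε P z) T (fun _ => part e) e :=
  tubeOf_tree hΦ hε h hπ hT fun i v hv _ =>
    Hid424.curve_eq_path (X := z.1.1) (v := z.1.2) hΦ hε h.valid h.sep ⟨hv.1, hv.2.trans hT⟩ i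

/-- **Contact of a member with another member at its release time.** -/
theorem vct_own [Nonempty κ] (hΦ : AdmissiblePotential M.Φ) (hε : 0 < M.ε) (hc : 1 ≤ c)
    (h : TreeIn M Zc T' P z.1 z.2 e) (hT : 0 < T') (hP : P ≠ leaf) (x : Idx P) :
    ∃ g ∈ part e, g ≠ e x ∧ M.VCt c (part e) (e x) g (TreeLines335.rel P z.2 x) Zc := by
  obtain ⟨j, hj, hw⟩ := exists_window_rel (Φ := M.Φ) hε.le P z.1.2 z.2 hP x
  have h0 : TreeLines335.rel P z.2 x ∈ Icc 0 T' :=
    ⟨rel_nonneg hε.le h.valid.2 x, (rel_lt hε.le hT h.valid.2 x).le⟩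
  refine ⟨e j, mem_part_self j, fun h' => hj (e.injective h'), ?_⟩
  have hd := (h.ct_tree hΦ hε hj.symm h0).2 hw
  refine LNEv968.vct_of_st subset_rfl subset_rfl (mem_part_self x) (mem_part_self j)
    (h.ok_tree hΦ hε hT.le _) (h.ok_tree hΦ hε hT.le _) (h.o x) (h.o j) (hd.trans ?_)
  nlinarith

/-- The own-tube condition of `RetHyp` for an exit of a tree and the tubes `protT`. -/
theorem own_protT [Nonempty κ] (hΦ : AdmissiblePotential M.Φ) (hε : 0 < M.ε) (hc : 1 ≤ c)
    (h : TreeIn M Zc T' P z.1 z.2 e) (hT : 0 < T') {x : Idx P} (hx : x ≠ root P) {T₂ : ℝ} :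
    ∀ k, e k = e x → (protT M.Φ M.ε P T₂ z).b k ≤ (lineML M.Φ M.ε P z x).1.1 ∧
      ((lineML M.Φ M.ε P z x).1.1 ≤ T → ∃ g ∈ part e, g ≠ e x ∧
        M.VCt c (part e) (e x) g (lineML M.Φ M.ε P z x).1.1 Zc) := by
  intro k hk
  have hkx : k = x := e.injective hk
  subst hkx
  have hb : (lineML M.Φ M.ε P z k).1.1 = TreeLines335.rel P z.2 k := rfl
  rw [hb]
  refine ⟨?_, fun _ => vct_own hΦ hε hc h hT ?_ k⟩
  · rw [rel_eq_prot P T₂ z.2 k hx]
    exact le_rfl
  · rintro rfl
    exact hx rfl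


end

end Crest.Agent.R122.LNEv383
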