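import Crest.Agent.R122.Simul2_984
import Crest.Agent.R122.Rebirth_45
import Mathlib
import Crest.Prelude.Def_KineticLimit
import Crest.Agent.R122.NewtonFlow_671
import Crest.Agent.R122.FlowLip_671
import Crest.Agent.R122.EFam_879

-- ▼ part R122/Fl_151
section

/-!
# Two decoupled groups (row 122, item (4) of the H12 plan), helper151

* `fl Φ ε G₁ G₂ t Z`: the particles of `G₁` interact among themselves, those of `G₂` among
  themselves, the others fly freely. `fl_zero`, `fl_add`, `measurePreserving_fl`.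
* `Inj Z`: pairwise different positions; `ae_inj_fl`: for a.e. `Z`, `Inj (fl t Z)` for ALL times `t`.
* `flowA_subtype`: restriction to a sub-type.
* `bworld_cons`: a world with births, one step with constant set of living particles.
* `BWorld.shift`: time shift.
-/

set_option autoImplicit false
set_option linter.unusedSectionVars false

open MeasureTheory Set Filter Topology
open scoped ENNReal NNReal
open Crest.AnalysisR.Kinetic
open Crest.Agent.R122.Flow671 Crest.Agent.R122.Loc45 Crest.Agent.R122.Ins45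
open Crest.Agent.R122.Simul984 Crest.Agent.R122.Sweep815

namespace Crest.Agent.R122.TransOk151

noncomputable section

open scoped Classical

variable {Φ : Space3 → ℝ} {ε : ℝ} {κ : Type*} [Fintype κ]

/-! ### The decoupled flow -/

/-- `G₁` and `G₂` evolve separately, the others fly freely. -/
def fl (Φ : Space3 → ℝ) (ε : ℝ) (G₁ G₂ : Finset κ) (t : ℝ) (Z : κ → PhasePoint) : κ → PhasePoint :=
  fun k => if k ∈ G₁ then flowA Φ ε G₁ t Z k else flowA Φ ε G₂ t Z k

variable {G₁ G₂ : Finset κ}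

theorem fl_mem₁ (t : ℝ) (Z : κ → PhasePoint) {k : κ} (h : k ∈ G₁) :
    fl Φ ε G₁ G₂ t Z k = flow Φ ε t (fun a : G₁ => Z a) ⟨k, h⟩ := by
  unfold fl
  rw [if_pos h, flowA_mem _ _ _ h]

theorem fl_mem₂ (t : ℝ) (Z : κ → PhasePoint) {k : κ} (h₁ : k ∉ G₁) (h : k ∈ G₂) :
    fl Φ ε G₁ G₂ t Z k = flow Φ ε t (fun a : G₂ => Z a) ⟨k, h⟩ := by
  unfold fl
  rw [if_neg h₁, flowA_mem _ _ _ h]

theorem fl_free (t : ℝ) (Z : κ → PhasePoint) {k : κ} (h₁ : k ∉ G₁) (h₂ : k ∉ G₂) :
    fl Φ ε G₁ G₂ t Z k = ((Z k).1 + t • (Z k).2, (Z k).2) := by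
  unfold fl
  rw [if_neg h₁, flowA_not_mem _ _ _ h₂]

theorem fl_restrict₁ (t : ℝ) (Z : κ → PhasePoint) :
    (fun a : G₁ => fl Φ ε G₁ G₂ t Z a) = flow Φ ε t (fun a : G₁ => Z a) := by
  funext a
  rw [fl_mem₁ t Z a.2]

theorem fl_restrict₂ (hd : Disjoint G₁ G₂) (t : ℝ) (Z : κ → PhasePoint) :
    (fun a : G₂ => fl Φ ε G₁ G₂ t Z a) = flow Φ ε t (fun a : G₂ => Z a) := by
  funext a
  rw [fl_mem₂ t Z (fun h => Finset.disjoint_left.1 hd h a.2) a.2]

theorem fl_zero (hΦ : AdmissiblePotential Φ) (hε : 0 < ε) (Z : κ → PhasePoint) :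
    fl Φ ε G₁ G₂ 0 Z = Z := by
  funext k
  unfold fl
  split_ifs <;> rw [flowA_zero hΦ hε]

theorem fl_add (hΦ : AdmissiblePotential Φ) (hε : 0 < ε) (hd : Disjoint G₁ G₂) (s t : ℝ)
    (Z : κ → PhasePoint) : fl Φ ε G₁ G₂ (s + t) Z = fl Φ ε G₁ G₂ t (fl Φ ε G₁ G₂ s Z) := by
  funext k
  by_cases h₁ : k ∈ G₁
  · rw [fl_mem₁ _ _ h₁, fl_mem₁ _ _ h₁, fl_restrict₁, flow_add hΦ hε]
  by_cases h₂ : k ∈ G₂
  · rw [fl_mem₂ _ _ h₁ h₂, fl_mem₂ _ _ h₁ h₂, fl_restrict₂ hd, flow_add hΦ hε]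
  · rw [fl_free _ _ h₁ h₂, fl_free _ _ h₁ h₂, fl_free _ _ h₁ h₂]
    simp only [add_smul, add_assoc]

theorem fl_eq_comp (hd : Disjoint G₁ G₂) (t : ℝ)
    (Z : κ → PhasePoint) : fl Φ ε G₁ G₂ t Z =
      flowA Φ ε G₁ t (flowA Φ ε (∅ : Finset κ) (-t) (flowA Φ ε G₂ t Z)) := by
  funext k
  by_cases h₁ : k ∈ G₁
  · rw [fl_mem₁ _ _ h₁, flowA_mem _ _ _ h₁]
    congr 1
    funext a
    have ha : (a : κ) ∉ G₂ := fun h => Finset.disjoint_left.1 hd a.2 h
    rw [flowA_not_mem _ _ _ (Finset.notMem_empty _), flowA_not_mem _ _ _ ha]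
    ext1
    · simp
    · rfl
  · rw [flowA_not_mem _ _ _ h₁, flowA_not_mem _ _ _ (Finset.notMem_empty _)]
    unfold fl
    rw [if_neg h₁]
    ext1
    · simp
    · rfl

theorem measurePreserving_fl (hΦ : AdmissiblePotential Φ) (hε : 0 < ε) (hd : Disjoint G₁ G₂)
    (t : ℝ) : MeasurePreserving (fl (κ := κ) Φ ε G₁ G₂ t) volume volume := by
  have h := (measurePreserving_flowA hΦ hε G₁ t).comp
    ((measurePreserving_flowA hΦ hε (∅ : Finset κ) (-t)).comp (measurePreserving_flowA hΦ hε G₂ t))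
  have h2 : fl (κ := κ) Φ ε G₁ G₂ t = flowA Φ ε G₁ t ∘ (flowA Φ ε (∅ : Finset κ) (-t) ∘
      flowA Φ ε G₂ t) := by
    funext Z
    exact fl_eq_comp hd t Z
  rw [h2]
  exact h

theorem continuous_fl (hΦ : AdmissiblePotential Φ) (hε : 0 < ε) (Z : κ → PhasePoint) :
    Continuous fun t => fl Φ ε G₁ G₂ t Z := by
  refine continuous_pi fun k => ?_
  unfold fl
  by_cases h : k ∈ G₁
  · simp only [if_pos h]
    exact (continuous_apply k).comp (continuous_flowA hΦ hε G₁ Z)
  · simp only [if_neg h]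
    exact (continuous_apply k).comp (continuous_flowA hΦ hε G₂ Z)

/-! ### Different positions -/

/-- Pairwise different positions. -/
def Inj (Z : κ → PhasePoint) : Prop := ∀ i j, i ≠ j → (Z i).1 ≠ (Z j).1

theorem Inj.dom {Z : κ → PhasePoint} (h : Inj Z) (G : Finset κ) :
    (fun a : G => Z a) ∈ Dom Φ G :=
  Or.inr fun i j hij => h i j fun h' => hij (Subtype.ext h')

/-- The two groups are regular. -/
def DomG (Φ : Space3 → ℝ) (G₁ G₂ : Finset κ) (Z : κ → PhasePoint) : Prop :=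
  (fun a : G₁ => Z a) ∈ Dom Φ G₁ ∧ (fun a : G₂ => Z a) ∈ Dom Φ G₂

theorem Inj.domG {Z : κ → PhasePoint} (h : Inj Z) : DomG Φ G₁ G₂ Z := ⟨h.dom _, h.dom _⟩

theorem DomG.fl (hΦ : AdmissiblePotential Φ) (hε : 0 < ε) (hd : Disjoint G₁ G₂)
    {Z : κ → PhasePoint} (h : DomG Φ G₁ G₂ Z) (t : ℝ) : DomG Φ G₁ G₂ (fl Φ ε G₁ G₂ t Z) := by
  refine ⟨?_, ?_⟩
  · rw [fl_restrict₁]
    exact flow_mem hΦ hε h.1 t
  · rw [fl_restrict₂ hd]
    exact flow_mem hΦ hε h.2 t

/-- Positions move with the velocities. -/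
theorem hasDerivAt_pos_fl (hΦ : AdmissiblePotential Φ) (hε : 0 < ε)
    {Z : κ → PhasePoint} (h : DomG Φ G₁ G₂ Z) (t : ℝ) (k : κ) :
    HasDerivAt (fun s => (fl Φ ε G₁ G₂ s Z k).1) (fl Φ ε G₁ G₂ t Z k).2 t := by
  by_cases h₁ : k ∈ G₁
  · simp only [fl_mem₁ _ _ h₁]
    exact hasDerivAt_pos_flow hΦ hε h.1 t ⟨k, h₁⟩
  by_cases h₂ : k ∈ G₂
  · simp only [fl_mem₂ _ _ h₁ h₂]
    exact hasDerivAt_pos_flow hΦ hε h.2 t ⟨k, h₂⟩
  · simp only [fl_free _ _ h₁ h₂]
    have h4 : HasDerivAt (fun s : ℝ => s • (Z k).2) ((1 : ℝ) • (Z k).2) t :=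
      (hasDerivAt_id t).smul_const _
    rw [one_smul] at h4
    exact h4.const_add _

theorem ae_inj : ∀ᵐ Z : κ → PhasePoint, Inj Z := by
  have key : ∀ i j : κ, i ≠ j → ∀ᵐ Z : κ → PhasePoint, (Z i).1 ≠ (Z j).1 := fun i j hij =>
    ae_pos_ne hij
  simp only [Inj, ae_all_iff]
  exact key

theorem volume_pair_le (N : ℝ) {η : ℝ} {a a' : κ} (h : a ≠ a') :
    volume {Z : κ → PhasePoint | (∀ i, Z i ∈ box N) ∧ dist (Z a).1 (Z a').1 ≤ η} ≤
      ENNReal.ofReal η ^ 3 * c3 * volume (Metric.closedBall (0 : Space3) N) *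
        (1 + volume (box N)) ^ Fintype.card κ := by
  have hms : MeasurableSet {Z : κ → PhasePoint | |dist (Z a).1 (Z a').1 - 0| ≤ η} :=
    measurableSet_shell a a' 0 η
  have hσ : ∀ y : Space3, ((volume : Measure PhasePoint).restrict (box N))
      {z | |dist z.1 y - 0| ≤ η} ≤
        ENNReal.ofReal η ^ 3 * c3 * volume (Metric.closedBall (0 : Space3) N) := by
    intro y
    have hms : MeasurableSet {z : PhasePoint | |dist z.1 y - 0| ≤ η} := by
      have h : Continuous fun z : PhasePoint => |dist z.1 y - 0| := by fun_prop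
      exact measurableSet_le h.measurable measurable_const
    rw [Measure.restrict_apply hms]
    have hsub : {z : PhasePoint | |dist z.1 y - 0| ≤ η} ∩ box N ⊆
        Metric.closedBall y η ×ˢ Metric.closedBall (0 : Space3) N := by
      intro z hz
      refine ⟨?_, by simpa using hz.2.2⟩
      have h1 : |dist z.1 y - 0| ≤ η := hz.1
      rw [sub_zero, abs_of_nonneg dist_nonneg] at h1
      exact h1
    refine (measure_mono hsub).trans ?_
    rw [Measure.volume_eq_prod, Measure.prod_prod, vol_closedBall]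
  have h1 := one_shell_le ((volume : Measure PhasePoint).restrict (box N)) hσ h
  rw [← Measure.restrict_pi_pi, Measure.restrict_apply hms, Measure.restrict_apply_univ,
    ← volume_pi] at h1
  refine le_trans (measure_mono ?_) h1
  intro Z hZ
  refine ⟨?_, fun i _ => hZ.1 i⟩
  show |dist (Z a).1 (Z a').1 - 0| ≤ η
  rw [sub_zero, abs_of_nonneg dist_nonneg]
  exact hZ.2

theorem ae_inj_fl_aux (hΦ : AdmissiblePotential Φ) (hε : 0 < ε) (hd : Disjoint G₁ G₂) {T : ℝ}
    (hT : 0 < T) {a a' : κ} (haa' : a ≠ a') :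
    ∀ᵐ Z : κ → PhasePoint, Inj Z → ∀ t ∈ Icc (-T) T,
      (fl Φ ε G₁ G₂ t Z a).1 ≠ (fl Φ ε G₁ G₂ t Z a').1 := by
  set Bad : ℕ → Set (κ → PhasePoint) := fun N => {Z | Inj Z ∧
    (∀ t ∈ Icc (-T) T, ∀ i, ‖(fl Φ ε G₁ G₂ t Z i).1‖ ≤ N ∧ ‖(fl Φ ε G₁ G₂ t Z i).2‖ ≤ N) ∧
    ∃ t ∈ Icc (-T) T, (fl Φ ε G₁ G₂ t Z a).1 = (fl Φ ε G₁ G₂ t Z a').1} with hBad
  have key : ∀ N : ℕ, volume (Bad N) = 0 := by
    intro N
    set C : ℝ≥0∞ := ENNReal.ofReal (4 * N * T) ^ 3 * c3 *
      volume (Metric.closedBall (0 : Space3) N) * (1 + volume (box N)) ^ Fintype.card κ with hC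
    have hc3 : c3 ≠ ∞ := by
      intro h
      have h1 := vol_closedBall 0 1
      rw [h, ENNReal.ofReal_one, one_pow, one_mul] at h1
      exact measure_closedBall_lt_top.ne h1
    have hCtop : C ≠ ∞ := by
      refine ENNReal.mul_ne_top (ENNReal.mul_ne_top (ENNReal.mul_ne_top
        (ENNReal.pow_ne_top ENNReal.ofReal_ne_top) hc3) measure_closedBall_lt_top.ne)
        (ENNReal.pow_ne_top (ENNReal.add_ne_top.2 ⟨ENNReal.one_ne_top, (volume_box_lt_top N).ne⟩))
    have hM : ∀ M : ℕ, 0 < M → volume (Bad N) ≤ 2 * C * ENNReal.ofReal (1 / M) := by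
      intro M hM0
      have hMr : (0 : ℝ) < M := by exact_mod_cast hM0
      have hM1 : (1 : ℝ) ≤ M := by exact_mod_cast hM0
      set η : ℝ := 4 * N * T / M with hη
      have hη0 : 0 ≤ η := by positivity
      set A : Set (κ → PhasePoint) := {Z | (∀ i, Z i ∈ box N) ∧ dist (Z a).1 (Z a').1 ≤ η} with hA
      have hAm : MeasurableSet A := by
        have h1 : MeasurableSet {Z : κ → PhasePoint | ∀ i, Z i ∈ box N} := by
          have : {Z : κ → PhasePoint | ∀ i, Z i ∈ box N} = univ.pi fun _ => box N := by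
            ext Z; simp
          rw [this]
          exact MeasurableSet.univ_pi fun _ => measurableSet_box _
        refine h1.inter ?_
        have h2 : Measurable fun Z : κ → PhasePoint => dist (Z a).1 (Z a').1 :=
          (measurable_pi_apply a).fst.dist (measurable_pi_apply a').fst
        exact measurableSet_le h2 measurable_const
      set δ : ℝ := 2 * T / M with hδdef
      have hδ : 0 < δ := by positivity
      set u : ℕ → ℝ := fun k => -T + k * δ with hu
      have hsub : Bad N ⊆ ⋃ k ∈ Finset.range (M + 1), (fl Φ ε G₁ G₂ (u k)) ⁻¹' A := by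
        rintro Z ⟨hI, hb, t, ht, h1⟩
        set k : ℕ := ⌊(t + T) / δ⌋₊ with hk
        have hx0 : 0 ≤ (t + T) / δ := div_nonneg (by linarith [ht.1]) hδ.le
        have hk1 : (k : ℝ) ≤ (t + T) / δ := Nat.floor_le hx0
        have hk2 : (t + T) / δ < k + 1 := Nat.lt_floor_add_one _
        have hkM : k ≤ M := by
          have h3 : (t + T) / δ ≤ M := by
            rw [div_le_iff₀ hδ]
            have : (M : ℝ) * δ = 2 * T := by rw [hδdef]; field_simp
            rw [this]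
            linarith [ht.2]
          exact_mod_cast (hk1.trans h3)
        have huk : u k ≤ t := by
          rw [le_div_iff₀ hδ] at hk1
          simp only [hu]; linarith
        have hukt : t - u k ≤ δ := by
          rw [div_lt_iff₀ hδ] at hk2
          simp only [hu]; linarith
        have hu0 : -T ≤ u k := by
          simp only [hu]; linarith [mul_nonneg (Nat.cast_nonneg (α := ℝ) k) hδ.le]
        have hD : DomG Φ G₁ G₂ Z := hI.domG
        have hcl : ∀ i, dist (fl Φ ε G₁ G₂ (u k) Z i).1 (fl Φ ε G₁ G₂ t Z i).1 ≤ N * δ := by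
          intro i
          have h3 := norm_image_sub_le_of_norm_deriv_right_le_segment
            (f := fun s => (fl Φ ε G₁ G₂ s Z i).1) (f' := fun s => (fl Φ ε G₁ G₂ s Z i).2)
            (a := u k) (b := t) (C := N)
            (fun s _ => (hasDerivAt_pos_fl hΦ hε hD s i).continuousAt.continuousWithinAt)
            (fun s _ => (hasDerivAt_pos_fl hΦ hε hD s i).hasDerivWithinAt)
            (fun s hs => (hb s ⟨hu0.trans hs.1, hs.2.le.trans ht.2⟩ i).2) t ⟨huk, le_rfl⟩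
          rw [dist_comm, dist_eq_norm]
          exact h3.trans (by gcongr)
        simp only [mem_iUnion, Finset.mem_range]
        refine ⟨k, by omega, fun i => hb (u k) ⟨hu0, huk.trans ht.2⟩ i, ?_⟩
        calc dist (fl Φ ε G₁ G₂ (u k) Z a).1 (fl Φ ε G₁ G₂ (u k) Z a').1
            ≤ dist (fl Φ ε G₁ G₂ (u k) Z a).1 (fl Φ ε G₁ G₂ t Z a).1 +
              dist (fl Φ ε G₁ G₂ t Z a).1 (fl Φ ε G₁ G₂ (u k) Z a').1 := dist_triangle _ _ _
          _ ≤ N * δ + N * δ := by
              refine add_le_add (hcl a) ?_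
              rw [h1, dist_comm]
              exact hcl a'
          _ = η := by rw [hη, hδdef]; ring
      calc volume (Bad N) ≤ volume (⋃ k ∈ Finset.range (M + 1), (fl Φ ε G₁ G₂ (u k)) ⁻¹' A) :=
            measure_mono hsub
        _ ≤ ∑ k ∈ Finset.range (M + 1), volume ((fl Φ ε G₁ G₂ (u k)) ⁻¹' A) :=
            measure_biUnion_finset_le _ _
        _ = ∑ _k ∈ Finset.range (M + 1), volume A := by
            refine Finset.sum_congr rfl fun k _ => ?_
            exact (measurePreserving_fl hΦ hε hd (u k)).measure_preimage hAm.nullMeasurableSet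
        _ = (M + 1 : ℝ≥0∞) * volume A := by
            rw [Finset.sum_const, Finset.card_range, nsmul_eq_mul]; push_cast; rfl
        _ ≤ (M + 1 : ℝ≥0∞) * (ENNReal.ofReal η ^ 3 * c3 *
              volume (Metric.closedBall (0 : Space3) N) *
              (1 + volume (box N)) ^ Fintype.card κ) := by
            gcongr
            exact volume_pair_le N haa'
        _ ≤ 2 * C * ENNReal.ofReal (1 / M) := by
            have e1 : ENNReal.ofReal η =
                ENNReal.ofReal (4 * N * T) * ENNReal.ofReal (1 / M) := by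
              rw [← ENNReal.ofReal_mul (by positivity)]
              congr 1
              rw [hη]; ring
            have e2 : (M + 1 : ℝ≥0∞) * ENNReal.ofReal (1 / M) ≤ 2 := by
              have : (M + 1 : ℝ≥0∞) = ENNReal.ofReal (M + 1) := by
                rw [ENNReal.ofReal_add hMr.le zero_le_one, ENNReal.ofReal_natCast,
                  ENNReal.ofReal_one]
              rw [this, ← ENNReal.ofReal_mul (by positivity)]
              have h2 : (2 : ℝ≥0∞) = ENNReal.ofReal 2 := by simp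
              rw [h2]
              refine ENNReal.ofReal_le_ofReal ?_
              rw [mul_one_div, div_le_iff₀ hMr]
              linarith
            have e3 : ENNReal.ofReal (1 / (M : ℝ)) ≤ 1 := by
              rw [← ENNReal.ofReal_one]
              refine ENNReal.ofReal_le_ofReal ?_
              rw [div_le_one hMr]
              exact hM1
            rw [e1, hC]
            set p := ENNReal.ofReal (4 * N * T)
            set q := ENNReal.ofReal (1 / (M : ℝ))
            set v := volume (Metric.closedBall (0 : Space3) N)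
            set w := (1 + volume (box N)) ^ Fintype.card κ
            calc (M + 1 : ℝ≥0∞) * ((p * q) ^ 3 * c3 * v * w)
                = ((M + 1 : ℝ≥0∞) * q) * (p ^ 3 * c3 * v * w) * q * q := by ring
              _ ≤ 2 * (p ^ 3 * c3 * v * w) * q * 1 := by gcongr
              _ = 2 * (p ^ 3 * c3 * v * w) * q := by rw [mul_one]
    have hlim : Tendsto (fun M : ℕ => 2 * C * ENNReal.ofReal (1 / (M : ℝ))) atTop (𝓝 0) := by
      have h1 : Tendsto (fun M : ℕ => ENNReal.ofReal (1 / (M : ℝ))) atTop (𝓝 0) := by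
        have := ENNReal.tendsto_ofReal (tendsto_one_div_atTop_nhds_zero_nat (𝕜 := ℝ))
        simpa using this
      have h2 := ENNReal.Tendsto.const_mul h1 (a := 2 * C)
        (Or.inr (ENNReal.mul_ne_top (by simp) hCtop))
      simpa using h2
    refine le_antisymm (ge_of_tendsto hlim ?_) bot_le
    filter_upwards [eventually_gt_atTop 0] with M h2 using hM M h2
  have hunion : volume (⋃ N, Bad N) = 0 := measure_iUnion_null key
  have hae : ∀ᵐ Z : κ → PhasePoint, Z ∉ ⋃ N, Bad N := measure_eq_zero_iff_ae_notMem.1 hunion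
  filter_upwards [hae] with Z hZ hI t ht h1
  -- boundedness on the compact interval
  have hbd : ∃ N : ℕ, ∀ t ∈ Icc (-T) T, ∀ i, ‖(fl Φ ε G₁ G₂ t Z i).1‖ ≤ N ∧
      ‖(fl Φ ε G₁ G₂ t Z i).2‖ ≤ N := by
    obtain ⟨M, hM⟩ := isCompact_Icc.exists_bound_of_continuousOn
      (continuous_fl (G₁ := G₁) (G₂ := G₂) hΦ hε Z).continuousOn (s := Icc (-T) T)
    obtain ⟨N, hN⟩ := exists_nat_ge M
    refine ⟨N, fun t ht i => ?_⟩
    have h1 : ‖fl Φ ε G₁ G₂ t Z i‖ ≤ N := (norm_le_pi_norm _ i).trans ((hM t ht).trans hN)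
    exact ⟨(norm_fst_le _).trans h1, (norm_snd_le _).trans h1⟩
  obtain ⟨N, hN⟩ := hbd
  exact hZ (mem_iUnion.2 ⟨N, hI, hN, t, ht, h1⟩)

/-- **No coincidences at all times.** -/
theorem ae_inj_fl (hΦ : AdmissiblePotential Φ) (hε : 0 < ε) (hd : Disjoint G₁ G₂) :
    ∀ᵐ Z : κ → PhasePoint, ∀ t : ℝ, Inj (fl Φ ε G₁ G₂ t Z) := by
  have key : ∀ᵐ Z : κ → PhasePoint, ∀ (n : ℕ) (a a' : κ), a ≠ a' → Inj Z →
      ∀ t ∈ Icc (-((n : ℝ) + 1)) ((n : ℝ) + 1),
      (fl Φ ε G₁ G₂ t Z a).1 ≠ (fl Φ ε G₁ G₂ t Z a').1 := by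
    simp only [ae_all_iff]
    intro n a a' h
    exact ae_inj_fl_aux hΦ hε hd (by positivity) h
  filter_upwards [key, ae_inj] with Z hZ hI t a a' haa'
  obtain ⟨n, hn⟩ := exists_nat_ge |t|
  refine hZ n a a' haa' hI t ?_
  have := abs_le.1 hn
  exact ⟨by linarith [this.1], by linarith [this.2]⟩

/-! ### Restriction to a sub-type -/

theorem flowA_subtype (hΦ : AdmissiblePotential Φ) (hε : 0 < ε) {M G : Finset κ} (hG : G ⊆ M)
    (t : ℝ) (Z : κ → PhasePoint) (z : M → PhasePoint) (hz : ∀ m : M, (m : κ) ∈ G → z m = Z m)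
    {m : M} (hm : (m : κ) ∈ G) :
    flowA Φ ε (G.subtype (· ∈ M)) t z m = flowA Φ ε G t Z m := by
  have hm' : m ∈ G.subtype (· ∈ M) := Finset.mem_subtype.2 hm
  rw [flowA_mem _ _ _ hm', flowA_mem _ _ _ hm]
  let e : (G.subtype (· ∈ M)) ≃ G :=
    { toFun := fun a => ⟨a.1.1, Finset.mem_subtype.1 a.2⟩
      invFun := fun a => ⟨⟨a.1, hG a.2⟩, Finset.mem_subtype.2 a.2⟩
      left_inv := fun _ => rfl
      right_inv := fun _ => rfl }
  have h := congrFun (flow_equiv hΦ hε e t (fun a : G => Z a)) ⟨m, hm'⟩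
  have h2 : (fun a : (G.subtype (· ∈ M)) => z a) = fun a => Z (e a) := by
    funext a
    exact hz a.1 (Finset.mem_subtype.1 a.2)
  rw [h2]
  exact h

/-! ### One step of a world with births -/

theorem bworld_cons {ι : Type*} [Fintype ι] (hΦ : AdmissiblePotential Φ) (hε : 0 < ε)
    {b : ι → ℝ} {s s' : ℝ} (hss' : s < s') {Z : ι → PhasePoint} {A : Finset ι}
    (hA : ∀ t ∈ Ico s s', ∀ i, i ∈ A ↔ b i ≤ t) (hZ : (fun a : A => Z a) ∈ Dom Φ A)
    {X₂ : ℝ → ι → PhasePoint} (h₂ : BWorld Φ ε b s' X₂) (h0 : X₂ s' = flowA Φ ε A (s' - s) Z) :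
    ∃ Y : ℝ → ι → PhasePoint, BWorld Φ ε b s Y ∧ Y s = Z ∧ ∀ t, s' ≤ t → Y t = X₂ t := by
  set Y : ℝ → ι → PhasePoint := fun t => if t < s' then flowA Φ ε A (t - s) Z else X₂ t with hY
  have hY₁ : ∀ t ∈ Icc s s', Y t = flowA Φ ε A (t - s) Z := by
    intro t ht
    rcases ht.2.lt_or_eq with h | h
    · simp only [hY, if_pos h]
    · subst h
      simp only [hY, lt_irrefl, if_false]
      exact h0
  have hY₂ : ∀ t, s' ≤ t → Y t = X₂ t := fun t ht => by
    simp only [hY, if_neg (not_lt.2 ht)]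
  refine ⟨Y, ?_, ?_, hY₂⟩
  · refine BWorld.glue (X₁ := fun t => flowA Φ ε A (t - s) Z) hss'.le ?_ ?_ ?_ h₂ hY₁ hY₂
    · exact (continuous_flowA hΦ hε A Z).comp (continuous_id.sub continuous_const)
    · intro t ht
      have h1 := hasDerivAt_flowA hΦ hε A hZ (hA t ht) (t - s)
      have h2 := h1.scomp t ((hasDerivAt_id t).sub_const s)
      rw [one_smul] at h2
      exact h2
    · intro t ht
      refine (flow_mem hΦ hε hZ (t - s)).imp id fun h' i j hij hi hj => ?_
      have hi' := (hA t ht i).2 hi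
      have hj' := (hA t ht j).2 hj
      have h3 := h' ⟨i, hi'⟩ ⟨j, hj'⟩ fun h => hij (congrArg Subtype.val h)
      rwa [flowA_mem _ _ Z hi', flowA_mem _ _ Z hj']
  · rw [hY₁ s ⟨le_rfl, hss'.le⟩, sub_self, flowA_zero hΦ hε]

/-- Time shift of a world with births. -/
theorem bworld_shift {ι : Type*} [Fintype ι] {b : ι → ℝ} {t₀ : ℝ} {X : ℝ → ι → PhasePoint}
    (h : BWorld Φ ε b t₀ X) (c : ℝ) :
    BWorld Φ ε (fun i => b i + c) (t₀ + c) (fun t => X (t - c)) where
  cont := h.cont.comp (continuous_id.sub continuous_const).continuousOn fun t ht => by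
    simp only [mem_Ici] at ht ⊢
    linarith
  der t ht := by
    have h1 := h.der (t - c) (by linarith)
    have h2 : bf Φ ε (fun i => b i + c) t (X (t - c)) = bf Φ ε b (t - c) (X (t - c)) := by
      funext i
      unfold bf
      simp only [le_sub_iff_add_le]
    rw [h2]
    have h3 : HasDerivWithinAt (fun t : ℝ => t - c) 1 (Ici t) t :=
      ((hasDerivAt_id t).sub_const c).hasDerivWithinAt
    have h4 := h1.scomp t h3 (fun s hs => by
      simp only [mem_Ici] at hs ⊢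
      linarith)
    rw [one_smul] at h4
    exact h4
  dom t ht := (h.dom (t - c) (by linarith)).imp id fun h' i j hij hi hj =>
    h' i j hij (by linarith) (by linarith)

end

end Crest.Agent.R122.TransOk151
end

-- ▼ part R122/TransDefs_151
section

/-!
# Release data (row 122, item (4) of the H12 plan), helper151

`Rel ε b S σ T X`: `X` is a motion of the particles `α` (births `b`), `σ i` (`i ∈ S`) is a release
time: at time `σ i` the particle `i` is at distance exactly `ε` from another particle born and moves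
away from it, and afterwards, up to time `T`, it is at distance more than `ε` from everybody.

`StartSep ε z z'`: two states at distance more than `ε`, or exactly `ε` and moving away from each
other.
-/

set_option autoImplicit false

open Set
open Crest.AnalysisR.Kinetic

namespace Crest.Agent.R122.TransOk151

/-- Release data. -/
structure Rel {α : Type*} (ε : ℝ) (b : α → ℝ) (S : Set α) (σ : α → ℝ) (T : ℝ)
    (X : ℝ → α → PhasePoint) : Prop where
  pos : ∀ i ∈ S, 0 < σ i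
  le : ∀ i ∈ S, σ i ≤ T
  born : ∀ i ∈ S, b i ≤ σ i
  exit : ∀ i ∈ S, ∃ p, p ≠ i ∧ b p ≤ σ i ∧ dist (X (σ i) i).1 (X (σ i) p).1 = ε ∧
    0 < inner ℝ ((X (σ i) i).1 - (X (σ i) p).1) ((X (σ i) i).2 - (X (σ i) p).2)
  free : ∀ i ∈ S, ∀ t ∈ Ioc (σ i) T, ∀ j, j ≠ i → b j ≤ t → ε < dist (X t i).1 (X t j).1

/-- Two states which separate at once. -/
def StartSep (ε : ℝ) (z z' : PhasePoint) : Prop :=
  ε < dist z.1 z'.1 ∨ (dist z.1 z'.1 = ε ∧ 0 < inner ℝ (z.1 - z'.1) (z.2 - z'.2))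

end Crest.Agent.R122.TransOk151
end

-- ▼ part R122/NonSing_942
section

/-!
# Non-singularity of maps evaluated at an implicitly defined time (row 122, helper942, for 151)

`R (c, X)`, `H (c, X)` locally Lipschitz, `H` strictly increasing in `c` at a definite rate: then the
set of values `R (c, X)` over the points with `H (c, X) = 0` and `X` in a null set is null.
-/

set_option autoImplicit false

open MeasureTheory Set Filter Topology
open scoped NNReal ENNReal

namespace Crest.Agent.R122.NonSing942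

variable {E E' : Type*} [NormedAddCommGroup E] [NormedSpace ℝ E] [FiniteDimensional ℝ E]
  [MeasurableSpace E] [BorelSpace E]
  [NormedAddCommGroup E'] [NormedSpace ℝ E'] [FiniteDimensional ℝ E']
  [MeasurableSpace E'] [BorelSpace E']

/-- Lipschitz images of null sets are null, between spaces of the same dimension. -/
theorem image_null {μ : Measure E} [μ.IsAddHaarMeasure] {ν : Measure E'} [ν.IsAddHaarMeasure]
    (hd : Module.finrank ℝ E' = Module.finrank ℝ E) {S : Set E} (hS : μ S = 0) {g : E → E'}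
    {K : ℝ≥0} (hg : LipschitzOnWith K g S) : ν (g '' S) = 0 := by
  have h1 : (μH[(Module.finrank ℝ E : ℝ)] : Measure E) S = 0 := by
    have hac : (μH[(Module.finrank ℝ E : ℝ)] : Measure E) ≪ μ :=
      Measure.absolutelyContinuous_isAddHaarMeasure _ _
    exact hac hS
  have h2 : (μH[(Module.finrank ℝ E : ℝ)] : Measure E') (g '' S) = 0 := by
    have := hg.hausdorffMeasure_image_le (d := (Module.finrank ℝ E : ℝ)) (by positivity)
    rw [h1, mul_zero] at this
    exact le_antisymm this bot_le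
  rw [← hd] at h2
  have hac : ν ≪ (μH[(Module.finrank ℝ E' : ℝ)] : Measure E') :=
    Measure.absolutelyContinuous_isAddHaarMeasure _ _
  exact hac h2

/-- **Lemma NS, global form.**  `V ⊆ ℝ × E` is a set on which `R` and `H` are Lipschitz and `H` is
increasing in the first variable at rate at least `m`. -/
theorem null_of_lipschitzOn {μ : Measure E} [μ.IsAddHaarMeasure] {ν : Measure E'}
    [ν.IsAddHaarMeasure] (hd : Module.finrank ℝ E' = Module.finrank ℝ E)
    {N : Set E} (hN : μ N = 0) {I : Set ℝ} {D : Set E} {R : ℝ × E → E'} {H : ℝ × E → ℝ}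
    {K K' : ℝ≥0} {m : ℝ} (hm : 0 < m)
    (hR : LipschitzOnWith K R (I ×ˢ D)) (hH : LipschitzOnWith K' H (I ×ˢ D))
    (hmono : ∀ X ∈ D, ∀ c ∈ I, ∀ c' ∈ I, c < c' → m * (c' - c) ≤ H (c', X) - H (c, X)) :
    ν {y | ∃ p : ℝ × E, p ∈ I ×ˢ D ∧ p.2 ∈ N ∧ H p = 0 ∧ R p = y} = 0 := by
  classical
  set S : Set E := {X | X ∈ N ∧ X ∈ D ∧ ∃ c ∈ I, H (c, X) = 0} with hS
  have hSN : μ S = 0 := measure_mono_null (fun X hX => hX.1) hN
  -- the implicit time
  set τ : E → ℝ := fun X => if h : ∃ c ∈ I, H (c, X) = 0 then h.choose else 0 with hτ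
  have hτI : ∀ X ∈ S, τ X ∈ I ∧ H (τ X, X) = 0 := by
    intro X hX
    have h := hX.2.2
    simp only [hτ, dif_pos h]
    exact h.choose_spec
  have huniq : ∀ X ∈ D, ∀ c ∈ I, ∀ c' ∈ I, H (c, X) = 0 → H (c', X) = 0 → c = c' := by
    intro X hX c hc c' hc' h h'
    rcases lt_trichotomy c c' with hlt | heq | hgt
    · have := hmono X hX c hc c' hc' hlt
      rw [h, h'] at this
      nlinarith
    · exact heq
    · have := hmono X hX c' hc' c hc hgt
      rw [h, h'] at this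
      nlinarith
  -- the time is Lipschitz
  have hkey : ∀ X ∈ S, ∀ X' ∈ S, τ X < τ X' → m * (τ X' - τ X) ≤ K' * dist X X' := by
    intro X hX X' hX' hlt
    have h1 := hmono X hX.2.1 _ (hτI X hX).1 _ (hτI X' hX').1 hlt
    have h2 := hH.dist_le_mul (τ X', X) ⟨(hτI X' hX').1, hX.2.1⟩ (τ X', X')
      ⟨(hτI X' hX').1, hX'.2.1⟩
    rw [(hτI X hX).2, sub_zero] at h1
    rw [(hτI X' hX').2, Prod.dist_eq, dist_self, max_eq_right dist_nonneg, Real.dist_eq,
      sub_zero] at h2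
    exact h1.trans ((le_abs_self _).trans h2)
  have hτL : ∀ X ∈ S, ∀ X' ∈ S, dist (τ X) (τ X') ≤ (K' / m) * dist X X' := by
    intro X hX X' hX'
    rw [div_mul_eq_mul_div, le_div_iff₀ hm, Real.dist_eq]
    rcases lt_trichotomy (τ X) (τ X') with hlt | heq | hgt
    · rw [abs_of_neg (by linarith)]
      have := hkey X hX X' hX' hlt
      linarith
    · rw [heq, sub_self, abs_zero, zero_mul]
      positivity
    · rw [abs_of_pos (by linarith)]
      have := hkey X' hX' X hX hgt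
      rw [dist_comm X' X] at this
      linarith
  have hA : 0 ≤ (K : ℝ) * ((K' : ℝ) / m + 1) := by positivity
  have hg : LipschitzOnWith ⟨(K : ℝ) * ((K' : ℝ) / m + 1), hA⟩ (fun X => R (τ X, X)) S := by
    refine LipschitzOnWith.of_dist_le_mul fun X hX X' hX' => ?_
    change _ ≤ (K : ℝ) * ((K' : ℝ) / m + 1) * _
    have h1 := hR.dist_le_mul (τ X, X) ⟨(hτI X hX).1, hX.2.1⟩ (τ X', X')
      ⟨(hτI X' hX').1, hX'.2.1⟩
    refine h1.trans ?_
    have h2 : dist ((τ X, X) : ℝ × E) (τ X', X') ≤ ((K' : ℝ) / m + 1) * dist X X' := by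
      rw [Prod.dist_eq]
      refine max_le ?_ ?_
      · refine (hτL X hX X' hX').trans ?_
        nlinarith [dist_nonneg (x := X) (y := X')]
      · change dist X X' ≤ _
        have : 0 ≤ (K' : ℝ) / m := by positivity
        nlinarith [dist_nonneg (x := X) (y := X')]
    have h3 : (K : ℝ) * dist ((τ X, X) : ℝ × E) (τ X', X')
        ≤ K * (((K' : ℝ) / m + 1) * dist X X') := by gcongr
    exact h3.trans (le_of_eq (by ring))
  have himg := image_null (μ := μ) (ν := ν) hd hSN hg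
  refine measure_mono_null ?_ himg
  rintro y ⟨⟨c, X⟩, ⟨hc, hX⟩, hXN, hH0, rfl⟩
  have hXS : X ∈ S := ⟨hXN, hX, c, hc, hH0⟩
  refine ⟨X, hXS, ?_⟩
  have : τ X = c := huniq X hX _ (hτI X hXS).1 c hc (hτI X hXS).2 hH0
  change R (τ X, X) = R (c, X)
  rw [this]

/-- **Lemma NS, local form.**  Every point of `P` has a neighbourhood on which `R`, `H` are
Lipschitz and `H` increases in the first variable at a positive rate. -/
theorem null_of_local {μ : Measure E} [μ.IsAddHaarMeasure] {ν : Measure E'}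
    [ν.IsAddHaarMeasure] (hd : Module.finrank ℝ E' = Module.finrank ℝ E)
    {N : Set E} (hN : μ N = 0) {P : Set (ℝ × E)} {R : ℝ × E → E'} {H : ℝ × E → ℝ}
    (hR : ∀ p ∈ P, ∃ K : ℝ≥0, ∃ V ∈ 𝓝 p, LipschitzOnWith K R V)
    (hH : ∀ p ∈ P, ∃ K : ℝ≥0, ∃ V ∈ 𝓝 p, LipschitzOnWith K H V)
    (hmono : ∀ p ∈ P, ∃ m : ℝ, 0 < m ∧ ∃ V ∈ 𝓝 p, ∀ X c c', (c, X) ∈ V → (c', X) ∈ V → c < c' →
      m * (c' - c) ≤ H (c', X) - H (c, X)) :
    ν {y | ∃ p ∈ P, p.2 ∈ N ∧ H p = 0 ∧ R p = y} = 0 := by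
  classical
  have hloc : ∀ p ∈ P, ∃ W ∈ 𝓝[P] p,
      ν {y | ∃ q ∈ W, q.2 ∈ N ∧ H q = 0 ∧ R q = y} = 0 := by
    intro p hp
    obtain ⟨K, V₁, hV₁, hR₁⟩ := hR p hp
    obtain ⟨K', V₂, hV₂, hH₂⟩ := hH p hp
    obtain ⟨m, hm, V₃, hV₃, hm₃⟩ := hmono p hp
    have hV : V₁ ∩ V₂ ∩ V₃ ∈ 𝓝 p := inter_mem (inter_mem hV₁ hV₂) hV₃
    obtain ⟨I, hI, D, hD, hsub⟩ := mem_nhds_prod_iff.1 hV
    refine ⟨I ×ˢ D, mem_nhdsWithin_of_mem_nhds (prod_mem_nhds hI hD), ?_⟩
    exact null_of_lipschitzOn hd hN hm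
      (hR₁.mono fun q hq => (hsub hq).1.1) (hH₂.mono fun q hq => (hsub hq).1.2)
      (fun X hX c hc c' hc' hlt => hm₃ X c c' (hsub ⟨hc, hX⟩).2 (hsub ⟨hc', hX⟩).2 hlt)
  choose! W hW hWn using hloc
  obtain ⟨t, htP, htc, hcov⟩ := TopologicalSpace.countable_cover_nhdsWithin hW
  have hn : ν (⋃ p ∈ t, {y | ∃ q ∈ W p, q.2 ∈ N ∧ H q = 0 ∧ R q = y}) = 0 := by
    rw [measure_biUnion_null_iff htc]
    exact fun p hp => hWn p (htP hp)
  refine measure_mono_null ?_ hn
  rintro y ⟨q, hq, hqN, hq0, rfl⟩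
  obtain ⟨p, hp, hqp⟩ := mem_iUnion₂.1 (hcov hq)
  exact mem_iUnion₂.2 ⟨p, hp, q, hqp, hqN, hq0, rfl⟩

/-- The monotonicity hypothesis from a derivative which is positive and continuous at the point. -/
theorem exists_mono_of_hasDerivAt {E : Type*} [TopologicalSpace E] {H H' : ℝ × E → ℝ} {p : ℝ × E}
    (hd : ∀ᶠ q in 𝓝 p, HasDerivAt (fun c => H (c, q.2)) (H' q) q.1)
    (hc : ContinuousAt H' p) (hpos : 0 < H' p) :
    ∃ m : ℝ, 0 < m ∧ ∃ V ∈ 𝓝 p, ∀ X c c', (c, X) ∈ V → (c', X) ∈ V → c < c' →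
      m * (c' - c) ≤ H (c', X) - H (c, X) := by
  refine ⟨H' p / 2, by positivity, ?_⟩
  have h1 : ∀ᶠ q in 𝓝 p, H' p / 2 < H' q :=
    hc.eventually (lt_mem_nhds (by linarith))
  obtain ⟨U, hU, D, hD, hsub⟩ := mem_nhds_prod_iff.1 (inter_mem hd h1)
  obtain ⟨δ, hδ, hball⟩ := Metric.mem_nhds_iff.1 hU
  refine ⟨Metric.ball p.1 δ ×ˢ D, prod_mem_nhds (Metric.ball_mem_nhds _ hδ) hD, ?_⟩
  rintro X c c' ⟨hc1, hX⟩ ⟨hc2, -⟩ hlt
  have hconv : Convex ℝ (Metric.ball p.1 δ) := convex_ball _ _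
  have hmem : ∀ s ∈ Metric.ball p.1 δ, HasDerivAt (fun c => H (c, X)) (H' (s, X)) s ∧
      H' p / 2 < H' (s, X) := fun s hs => by
    have := hsub (show (s, X) ∈ U ×ˢ D from ⟨hball hs, hX⟩)
    exact ⟨this.1, this.2⟩
  have := hconv.mul_sub_le_image_sub_of_le_deriv (f := fun c => H (c, X)) (C := H' p / 2)
    (fun s hs => (hmem s hs).1.continuousAt.continuousWithinAt)
    (fun s hs => by
      rw [Metric.isOpen_ball.interior_eq] at hs
      exact (hmem s hs).1.differentiableAt.differentiableWithinAt)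
    (fun s hs => by
      rw [Metric.isOpen_ball.interior_eq] at hs
      rw [(hmem s hs).1.deriv]
      exact (hmem s hs).2.le)
    c hc1 c' hc2 hlt.le
  exact this

/-- **Lemma NS, derivative form**: `R`, `H` locally Lipschitz near the points of `P`, `H`
differentiable in the first variable with a derivative `H'` which is continuous and positive at the
points of `P`. -/
theorem null_of_hasDerivAt {μ : Measure E} [μ.IsAddHaarMeasure] {ν : Measure E'}
    [ν.IsAddHaarMeasure] (hd : Module.finrank ℝ E' = Module.finrank ℝ E)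
    {N : Set E} (hN : μ N = 0) {P : Set (ℝ × E)} {R : ℝ × E → E'} {H H' : ℝ × E → ℝ}
    (hR : ∀ p ∈ P, ∃ K : ℝ≥0, ∃ V ∈ 𝓝 p, LipschitzOnWith K R V)
    (hH : ∀ p ∈ P, ∃ K : ℝ≥0, ∃ V ∈ 𝓝 p, LipschitzOnWith K H V)
    (hd' : ∀ p ∈ P, ∀ᶠ q in 𝓝 p, HasDerivAt (fun c => H (c, q.2)) (H' q) q.1)
    (hc : ∀ p ∈ P, ContinuousAt H' p) (hpos : ∀ p ∈ P, 0 < H' p) :
    ν {y | ∃ p ∈ P, p.2 ∈ N ∧ H p = 0 ∧ R p = y} = 0 :=
  null_of_local hd hN hR hH fun p hp => exists_mono_of_hasDerivAt (hd' p hp) (hc p hp) (hpos p hp)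



end Crest.Agent.R122.NonSing942
end

-- ▼ part R122/FlowLL_942
section

/-!
# The Newton flow is locally Lipschitz in (time, state) (row 122, helper942, for 151)
-/

set_option autoImplicit false
set_option linter.unusedSectionVars false

open MeasureTheory Set Filter Topology
open scoped NNReal ENNReal
open Crest.AnalysisR.Kinetic

namespace Crest.Agent.R122.Flow671

section General

variable {E : Type*} [NormedAddCommGroup E] [NormedSpace ℝ E] [CompleteSpace E]

/-- The flow of a globally Lipschitz field is Lipschitz on `[-T, T] × ball x₀ r`. -/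
theorem lipschitzOn_gflow {F : E → E} {K : ℝ≥0} (hL : LipschitzWith K F) (x₀ : E) (T r : ℝ) :
    ∃ C : ℝ≥0, LipschitzOnWith C (fun p : ℝ × E => gflow F univ p.1 p.2)
      (Icc (-T) T ×ˢ Metric.ball x₀ r) := by
  have hc := complete_of_lipschitz hL
  -- bound of the speed along the trajectory of `x₀`
  have hcont : ContinuousOn (fun s => ‖F (gflow F univ s x₀)‖) (Icc (-T) T) :=
    (hL.continuous.comp (hc.isSol (mem_univ x₀)).continuous).norm.continuousOn
  obtain ⟨B, hB⟩ := (isCompact_Icc.image_of_continuousOn hcont).bddAbove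
  have hB' : ∀ s ∈ Icc (-T) T, ‖F (gflow F univ s x₀)‖ ≤ B := fun s hs =>
    hB (mem_image_of_mem _ hs)
  set A : ℝ := Real.exp (K * |T|) with hA
  have hA0 : 0 < A := Real.exp_pos _
  have hexp : ∀ s ∈ Icc (-T) T, Real.exp (K * |s|) ≤ A := by
    intro s hs
    refine Real.exp_le_exp.2 (mul_le_mul_of_nonneg_left ?_ K.2)
    exact (abs_le.2 ⟨hs.1, hs.2⟩).trans (le_abs_self T)
  set M : ℝ := |B| + K * (A * |r|) with hM
  have hM0 : 0 ≤ M := by positivity
  have hspeed : ∀ s ∈ Icc (-T) T, ∀ x ∈ Metric.ball x₀ r, ‖F (gflow F univ s x)‖ ≤ M := by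
    intro s hs x hx
    have h1 : dist (F (gflow F univ s x)) (F (gflow F univ s x₀)) ≤ K * (A * |r|) := by
      refine (hL.dist_le_mul _ _).trans (mul_le_mul_of_nonneg_left ?_ K.2)
      refine (dist_flow_le hL s x x₀).trans ?_
      exact mul_le_mul (hexp s hs) ((Metric.mem_ball.1 hx).le.trans (le_abs_self r)) dist_nonneg
        hA0.le
    have h2 : ‖F (gflow F univ s x)‖ ≤ ‖F (gflow F univ s x₀)‖ +
        ‖F (gflow F univ s x) - F (gflow F univ s x₀)‖ := by
      have := norm_add_le (F (gflow F univ s x₀)) (F (gflow F univ s x) - F (gflow F univ s x₀))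
      simpa using this
    rw [dist_eq_norm] at h1
    have h3 := (hB' s hs).trans (le_abs_self B)
    linarith
  refine ⟨⟨A + M, by positivity⟩, LipschitzOnWith.of_dist_le_mul ?_⟩
  rintro ⟨t, x⟩ ⟨ht, hx⟩ ⟨t', x'⟩ ⟨ht', hx'⟩
  change dist (gflow F univ t x) (gflow F univ t' x') ≤ (A + M) * dist ((t, x) : ℝ × E) (t', x')
  have h1 : dist (gflow F univ t x) (gflow F univ t x') ≤ A * dist x x' :=
    (dist_flow_le hL t x x').trans (mul_le_mul_of_nonneg_right (hexp t ht) dist_nonneg)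
  have h2 : dist (gflow F univ t x') (gflow F univ t' x') ≤ M * dist t t' := by
    have := (convex_Icc (-T) T).norm_image_sub_le_of_norm_hasDerivWithin_le
      (f := fun s => gflow F univ s x') (f' := fun s => F (gflow F univ s x')) (C := M)
      (fun s _ => (hc.hasDerivAt (mem_univ x') s).hasDerivWithinAt)
      (fun s hs => hspeed s hs x' hx') ht' ht
    rw [dist_eq_norm, dist_eq_norm]
    exact this
  have h3 : dist t t' ≤ dist ((t, x) : ℝ × E) (t', x') := le_max_left _ _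
  have h4 : dist x x' ≤ dist ((t, x) : ℝ × E) (t', x') := le_max_right _ _
  calc dist (gflow F univ t x) (gflow F univ t' x')
      ≤ dist (gflow F univ t x) (gflow F univ t x') + dist (gflow F univ t x') (gflow F univ t' x') :=
        dist_triangle _ _ _
    _ ≤ A * dist ((t, x) : ℝ × E) (t', x') + M * dist ((t, x) : ℝ × E) (t', x') :=
        add_le_add (h1.trans (mul_le_mul_of_nonneg_left h4 hA0.le))
          (h2.trans (mul_le_mul_of_nonneg_left h3 hM0))
    _ = (A + M) * dist ((t, x) : ℝ × E) (t', x') := by ring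

end General

section Newton

variable {ι : Type*} [Fintype ι] {Φ : Space3 → ℝ} {ε : ℝ}

/-- **(LL)**: the Newton flow is Lipschitz on `[-T, T] × ball Z₀ r` for a small ball inside `Dom`. -/
theorem exists_lipschitzOn_flow (hΦ : AdmissiblePotential Φ) (hε : 0 < ε)
    {Z₀ : ι → PhasePoint} (hZ₀ : Z₀ ∈ Dom Φ ι) (T : ℝ) :
    ∃ r : ℝ, 0 < r ∧ Metric.ball Z₀ r ⊆ Dom Φ ι ∧ ∃ C : ℝ≥0,
      LipschitzOnWith C (fun p : ℝ × (ι → PhasePoint) => flow Φ ε p.1 p.2)
        (Icc (-T) T ×ˢ Metric.ball Z₀ r) := by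
  obtain ⟨M, hM, hlow⟩ := exists_lower hΦ
  obtain ⟨L, hL, hZL⟩ := exists_Low (Φ := Φ) (ε := ε) (M := M) hZ₀
  obtain ⟨K, hK⟩ := (cut_nice hΦ hL).nf_lipschitz (ι := ι) hε
  obtain ⟨r, hr, hball⟩ := Metric.isOpen_iff.1 (isOpen_Low hΦ hε M L) Z₀ hZL
  obtain ⟨C, hC⟩ := lipschitzOn_gflow hK Z₀ T r
  refine ⟨r, hr, fun Z hZ => (hball hZ).1, C, ?_⟩
  intro p hp q hq
  have := hC hp hq
  change edist (flow Φ ε p.1 p.2) (flow Φ ε q.1 q.2) ≤ _
  rw [show flow Φ ε p.1 p.2 = gflow (nf (cut Φ L) ε) univ p.1 p.2 from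
      flow_eq_cut hΦ hε hM hlow hL (hball hp.2) p.1,
    show flow Φ ε q.1 q.2 = gflow (nf (cut Φ L) ε) univ q.1 q.2 from
      flow_eq_cut hΦ hε hM hlow hL (hball hq.2) q.1]
  exact this





end Newton

end Crest.Agent.R122.Flow671
end

-- ▼ part R122/TransStep_151
section

/-!
# The transfer step is non-singular (row 122, item (4) of the H12 plan), helper151

At a state-dependent time `β`, at which two particles `i, j` are at distance exactly `ε` and move
apart, the decoupled groups `G₁, G₂` are replaced by `H₁, H₂`. The map "state at time `0` ↦ state at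
the fixed time `q`" is non-singular: `transfer_null`.
-/

set_option autoImplicit false
set_option linter.unusedSectionVars false

open MeasureTheory Set Filter Topology
open scoped ENNReal NNReal
open Crest.AnalysisR.Kinetic
open Crest.Agent.R122.Flow671 Crest.Agent.R122.Loc45 Crest.Agent.R122.Ins45

namespace Crest.Agent.R122.TransOk151

noncomputable section

open scoped Classical

/-! ### Locally Lipschitz maps at a point -/

/-- Lipschitz near `p`. -/
def LL {E F : Type*} [PseudoEMetricSpace E] [PseudoEMetricSpace F] (f : E → F) (p : E) : Prop :=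
  ∃ K : ℝ≥0, ∃ V ∈ 𝓝 p, LipschitzOnWith K f V

section LL

variable {E F G : Type*} [PseudoEMetricSpace E] [PseudoEMetricSpace F] [PseudoEMetricSpace G]

theorem LL.continuousAt {f : E → F} {p : E} (h : LL f p) : ContinuousAt f p := by
  obtain ⟨K, V, hV, hK⟩ := h
  exact (hK.continuousOn).continuousAt hV

theorem LL.comp {g : F → G} {f : E → F} {p : E} (hg : LL g (f p)) (hf : LL f p) :
    LL (fun x => g (f x)) p := by
  obtain ⟨K, V, hV, hK⟩ := hg
  obtain ⟨K', V', hV', hK'⟩ := hf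
  have h1 : f ⁻¹' V ∈ 𝓝 p := (LL.continuousAt ⟨K', V', hV', hK'⟩) hV
  refine ⟨K * K', V' ∩ f ⁻¹' V, inter_mem hV' h1, ?_⟩
  exact hK.comp (hK'.mono inter_subset_left) fun x hx => hx.2

theorem LL.prodMk {f : E → F} {g : E → G} {p : E} (hf : LL f p) (hg : LL g p) :
    LL (fun x => (f x, g x)) p := by
  obtain ⟨K, V, hV, hK⟩ := hf
  obtain ⟨K', V', hV', hK'⟩ := hg
  refine ⟨max K K', V ∩ V', inter_mem hV hV', ?_⟩
  exact (hK.mono inter_subset_left).prodMk (hK'.mono inter_subset_right)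

theorem LL.pi {ι : Type*} [Fintype ι] {X : ι → Type*} [∀ i, PseudoEMetricSpace (X i)]
    {f : E → ∀ i, X i} {p : E} (h : ∀ i, LL (fun x => f x i) p) : LL f p := by
  choose K V hV hK using h
  refine ⟨∑ i, K i, ⋂ i, V i, (Filter.iInter_mem).2 hV, ?_⟩
  intro x hx y hy
  rw [edist_pi_le_iff]
  intro i
  refine (hK i (mem_iInter.1 hx i) (mem_iInter.1 hy i)).trans ?_
  gcongr
  exact Finset.single_le_sum (f := K) (fun _ _ => zero_le) (Finset.mem_univ i)


theorem LL.of_contDiff {E F : Type*} [NormedAddCommGroup E] [NormedSpace ℝ E]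
    [NormedAddCommGroup F] [NormedSpace ℝ F] {f : E → F} (h : ContDiff ℝ 1 f) (p : E) :
    LL f p := by
  obtain ⟨K, t, ht, hK⟩ := (h.contDiffAt (x := p)).exists_lipschitzOnWith
  exact ⟨K, t, ht, hK⟩

end LL

variable {Φ : Space3 → ℝ} {ε : ℝ} {κ : Type*} [Fintype κ] {G₁ G₂ H₁ H₂ : Finset κ}

theorem LL_flow (hΦ : AdmissiblePotential Φ) (hε : 0 < ε) {ι : Type*} [Fintype ι] {t : ℝ}
    {Z : ι → PhasePoint} (hZ : Z ∈ Dom Φ ι) :
    LL (fun p : ℝ × (ι → PhasePoint) => flow Φ ε p.1 p.2) (t, Z) := by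
  obtain ⟨r, hr, -, C, hC⟩ := exists_lipschitzOn_flow hΦ hε hZ (|t| + 1)
  refine ⟨C, _, prod_mem_nhds (Icc_mem_nhds ?_ ?_) (Metric.ball_mem_nhds _ hr), hC⟩
  · linarith [neg_abs_le t]
  · linarith [le_abs_self t]

/-- The decoupled flow is locally Lipschitz in time and state. -/
theorem LL_fl (hΦ : AdmissiblePotential Φ) (hε : 0 < ε) {t : ℝ} {Z : κ → PhasePoint}
    (hZ : DomG Φ G₁ G₂ Z) :
    LL (fun p : ℝ × (κ → PhasePoint) => fl Φ ε G₁ G₂ p.1 p.2) (t, Z) := by
  refine LL.pi fun k => ?_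
  by_cases h₁ : k ∈ G₁
  · simp only [fl_mem₁ _ _ h₁]
    have h2 : LL (fun p : ℝ × (κ → PhasePoint) => (p.1, fun a : G₁ => p.2 a)) (t, Z) :=
      LL.of_contDiff (by fun_prop) _
    have h3 := LL.comp (g := fun p : ℝ × (G₁ → PhasePoint) => flow Φ ε p.1 p.2)
      (f := fun p : ℝ × (κ → PhasePoint) => (p.1, fun a : G₁ => p.2 a)) (LL_flow hΦ hε hZ.1) h2
    exact LL.comp (g := fun x : G₁ → PhasePoint => x ⟨k, h₁⟩)
      (LL.of_contDiff (by fun_prop) _) h3
  by_cases h₂ : k ∈ G₂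
  · simp only [fl_mem₂ _ _ h₁ h₂]
    have h2 : LL (fun p : ℝ × (κ → PhasePoint) => (p.1, fun a : G₂ => p.2 a)) (t, Z) :=
      LL.of_contDiff (by fun_prop) _
    have h3 := LL.comp (g := fun p : ℝ × (G₂ → PhasePoint) => flow Φ ε p.1 p.2)
      (f := fun p : ℝ × (κ → PhasePoint) => (p.1, fun a : G₂ => p.2 a)) (LL_flow hΦ hε hZ.2) h2
    exact LL.comp (g := fun x : G₂ → PhasePoint => x ⟨k, h₂⟩)
      (LL.of_contDiff (by fun_prop) _) h3
  · simp only [fl_free _ _ h₁ h₂]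
    exact LL.of_contDiff (by fun_prop) _

theorem isOpen_domG (Φ : Space3 → ℝ) (G₁ G₂ : Finset κ) :
    IsOpen {Z : κ → PhasePoint | DomG Φ G₁ G₂ Z} := by
  have h : ∀ G : Finset κ, IsOpen {Z : κ → PhasePoint | (fun a : G => Z a) ∈ Dom Φ G} := by
    intro G
    have h1 : Continuous fun (Z : κ → PhasePoint) (a : G) => Z a :=
      continuous_pi fun a => continuous_apply (a : κ)
    exact (isOpen_Dom (ι := G) Φ).preimage h1
  exact (h G₁).inter (h G₂)

/-- The backward evolution of the second pair of groups. -/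
def Wm (Φ : Space3 → ℝ) (ε : ℝ) (H₁ H₂ : Finset κ) (q : ℝ) (p : ℝ × (κ → PhasePoint)) :
    κ → PhasePoint := fl Φ ε H₁ H₂ (p.1 - q) p.2

/-- The backward evolution to time `0`. -/
def Rm (Φ : Space3 → ℝ) (ε : ℝ) (G₁ G₂ H₁ H₂ : Finset κ) (q : ℝ) (p : ℝ × (κ → PhasePoint)) :
    κ → PhasePoint := fl Φ ε G₁ G₂ (-p.1) (Wm Φ ε H₁ H₂ q p)

/-- `|x_i - x_j|² - ε²`. -/
def hm (ε : ℝ) (i j : κ) (Z : κ → PhasePoint) : ℝ := ‖(Z i).1 - (Z j).1‖ ^ 2 - ε ^ 2

/-- Its time derivative. -/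
def hm' (i j : κ) (Z : κ → PhasePoint) : ℝ :=
  2 * inner ℝ ((Z i).1 - (Z j).1) ((Z i).2 - (Z j).2)

theorem contDiff_hm (ε : ℝ) (i j : κ) : ContDiff ℝ 1 (hm (κ := κ) ε i j) := by
  have h2 : ContDiff ℝ 1 fun Z : κ → PhasePoint => (Z i).1 - (Z j).1 := by fun_prop
  exact (h2.norm_sq ℝ).sub contDiff_const

theorem continuous_hm' (i j : κ) : Continuous (hm' (κ := κ) i j) := by
  unfold hm'
  fun_prop

theorem LL_Wm (hΦ : AdmissiblePotential Φ) (hε : 0 < ε) {q : ℝ} {p : ℝ × (κ → PhasePoint)}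
    (hp : DomG Φ H₁ H₂ p.2) : LL (Wm Φ ε H₁ H₂ q) p := by
  have h1 : LL (fun p : ℝ × (κ → PhasePoint) => (p.1 - q, p.2)) p :=
    LL.of_contDiff (by fun_prop) _
  exact LL.comp (g := fun p : ℝ × (κ → PhasePoint) => fl Φ ε H₁ H₂ p.1 p.2)
    (f := fun p : ℝ × (κ → PhasePoint) => (p.1 - q, p.2)) (LL_fl hΦ hε hp) h1

theorem LL_Rm (hΦ : AdmissiblePotential Φ) (hε : 0 < ε) {q : ℝ} {p : ℝ × (κ → PhasePoint)}
    (hp : DomG Φ H₁ H₂ p.2) (hp' : DomG Φ G₁ G₂ (Wm Φ ε H₁ H₂ q p)) :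
    LL (Rm Φ ε G₁ G₂ H₁ H₂ q) p := by
  have h1 : LL (fun p : ℝ × (κ → PhasePoint) => (-p.1, Wm Φ ε H₁ H₂ q p)) p :=
    LL.prodMk (LL.of_contDiff (by fun_prop) _) (LL_Wm hΦ hε hp)
  exact LL.comp (g := fun p : ℝ × (κ → PhasePoint) => fl Φ ε G₁ G₂ p.1 p.2)
    (f := fun p : ℝ × (κ → PhasePoint) => (-p.1, Wm Φ ε H₁ H₂ q p)) (LL_fl hΦ hε hp') h1

theorem hasDerivAt_hm (hΦ : AdmissiblePotential Φ) (hε : 0 < ε) {q : ℝ} (i j : κ)
    {p : ℝ × (κ → PhasePoint)} (hp : DomG Φ H₁ H₂ p.2) :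
    HasDerivAt (fun c => hm ε i j (Wm Φ ε H₁ H₂ q (c, p.2))) (hm' i j (Wm Φ ε H₁ H₂ q p)) p.1 := by
  have h2 : ∀ k, HasDerivAt (fun c => (Wm Φ ε H₁ H₂ q (c, p.2) k).1)
      (Wm Φ ε H₁ H₂ q p k).2 p.1 := by
    intro k
    have h3 := hasDerivAt_pos_fl hΦ hε hp (p.1 - q) k
    have h4 := h3.scomp p.1 ((hasDerivAt_id p.1).sub_const q)
    rw [one_smul] at h4
    exact h4
  exact (((h2 i).sub (h2 j)).norm_sq).sub_const (ε ^ 2)

theorem transfer_null_aux (hΦ : AdmissiblePotential Φ) (hε : 0 < ε) (q : ℝ)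
    {N : Set (κ → PhasePoint)} (hN : volume N = 0) (i j : κ) :
    volume {y : κ → PhasePoint | ∃ p ∈ {p : ℝ × (κ → PhasePoint) |
      DomG Φ H₁ H₂ p.2 ∧ DomG Φ G₁ G₂ (Wm Φ ε H₁ H₂ q p) ∧
      0 < hm' i j (Wm Φ ε H₁ H₂ q p)}, p.2 ∈ N ∧
      hm ε i j (Wm Φ ε H₁ H₂ q p) = 0 ∧ Rm Φ ε G₁ G₂ H₁ H₂ q p = y} = 0 := by
  refine NonSing942.null_of_hasDerivAt (μ := volume) (ν := volume) rfl hN
    (R := Rm Φ ε G₁ G₂ H₁ H₂ q) (H := fun p => hm ε i j (Wm Φ ε H₁ H₂ q p))
    (H' := fun p => hm' i j (Wm Φ ε H₁ H₂ q p)) ?_ ?_ ?_ ?_ ?_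
  · intro p hp
    exact LL_Rm hΦ hε hp.1 hp.2.1
  · intro p hp
    exact LL.comp (g := hm ε i j) (f := Wm Φ ε H₁ H₂ q) (LL.of_contDiff (contDiff_hm ε i j) _)
      (LL_Wm hΦ hε hp.1)
  · intro p hp
    have h1 : ∀ᶠ p' in 𝓝 p, DomG Φ H₁ H₂ p'.2 :=
      continuous_snd.continuousAt.eventually ((isOpen_domG Φ H₁ H₂).mem_nhds hp.1)
    filter_upwards [h1] with p' hp'
    exact hasDerivAt_hm hΦ hε i j hp'
  · intro p hp
    exact (continuous_hm' i j).continuousAt.comp (LL_Wm hΦ hε hp.1).continuousAt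
  · intro p hp
    exact hp.2.2

/-- **The transfer step is non-singular.** -/
theorem transfer_null (hΦ : AdmissiblePotential Φ) (hε : 0 < ε) (hG : Disjoint G₁ G₂)
    (hH : Disjoint H₁ H₂) (q : ℝ) {N : Set (κ → PhasePoint)} (hN : volume N = 0) :
    volume {Z : κ → PhasePoint | ∃ β : ℝ, ∃ i j : κ, Inj (fl Φ ε G₁ G₂ β Z) ∧
      dist (fl Φ ε G₁ G₂ β Z i).1 (fl Φ ε G₁ G₂ β Z j).1 = ε ∧
      0 < inner ℝ ((fl Φ ε G₁ G₂ β Z i).1 - (fl Φ ε G₁ G₂ β Z j).1)
        ((fl Φ ε G₁ G₂ β Z i).2 - (fl Φ ε G₁ G₂ β Z j).2) ∧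
      fl Φ ε H₁ H₂ (q - β) (fl Φ ε G₁ G₂ β Z) ∈ N} = 0 := by
  refine measure_mono_null ?_ (measure_iUnion_null fun i : κ => measure_iUnion_null fun j : κ =>
    transfer_null_aux (G₁ := G₁) (G₂ := G₂) (H₁ := H₁) (H₂ := H₂) hΦ hε q hN i j)
  rintro Z ⟨β, i, j, hI, hd, hin, hZN⟩
  have hWp : Wm Φ ε H₁ H₂ q (β, fl Φ ε H₁ H₂ (q - β) (fl Φ ε G₁ G₂ β Z)) =
      fl Φ ε G₁ G₂ β Z := by
    unfold Wm
    rw [← fl_add hΦ hε hH]
    have : q - β + (β - q) = 0 := by ring
    rw [this, fl_zero hΦ hε]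
  simp only [mem_iUnion]
  refine ⟨i, j, (β, fl Φ ε H₁ H₂ (q - β) (fl Φ ε G₁ G₂ β Z)),
    ⟨hI.domG.fl hΦ hε hH _, ?_, ?_⟩, hZN, ?_, ?_⟩
  · rw [hWp]; exact hI.domG
  · rw [hWp]; exact mul_pos two_pos hin
  · rw [hWp]
    unfold hm
    rw [← dist_eq_norm, hd, sub_self]
  · unfold Rm
    rw [hWp, ← fl_add hΦ hε hG]
    show fl Φ ε G₁ G₂ (β + -β) Z = Z
    rw [add_neg_cancel, fl_zero hΦ hε]

end

end Crest.Agent.R122.TransOk151
end

-- ▼ part R122/TransInd_151
section

/-!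
# Induction over the releases (row 122, item (4) of the H12 plan), helper151

`κ` : all particles, `A : Finset κ` the isolated group, the others form the world; `b` the (fixed)
births of everybody. `M ⊇ Aᶜ`: the particles of the final world; the particles of `A ∩ M` are
released at state-dependent times `σ`.

* `Good Φ ε M A b Z`: for all release data, the final world (births `wb A b σ`) started from `Z` is
  a world with births.
* `ae_good`: a.e. `Z` is good.
-/

set_option autoImplicit false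
set_option linter.unusedSectionVars false

open MeasureTheory Set Filter Topology
open scoped ENNReal NNReal
open Crest.AnalysisR.Kinetic
open Crest.Agent.R122.Flow671 Crest.Agent.R122.Loc45 Crest.Agent.R122.Ins45
open Crest.Agent.R122.Simul984

namespace Crest.Agent.R122.TransOk151

noncomputable section

open scoped Classical

variable {Φ : Space3 → ℝ} {ε : ℝ} {κ : Type*} [Fintype κ] {M A : Finset κ} {b σ : κ → ℝ}

/-- Births of the final world. -/
def wb (A : Finset κ) (b σ : κ → ℝ) (m : κ) : ℝ := if m ∈ A then σ m else b m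

/-- State of the final world at time `s`, when nobody of `A` has been released: the particles of `A`
are on their lines, the others in the state `Z`. -/
def wz (A : Finset κ) (σ : κ → ℝ) (X : ℝ → A → PhasePoint) (Z : κ → PhasePoint) (s : ℝ) (k : κ) :
    PhasePoint :=
  if h : k ∈ A then lineAt (σ k) (X (σ k) ⟨k, h⟩) s else Z k

/-- For all release data the final world started from `Z` is a world with births. -/
def Good (Φ : Space3 → ℝ) (ε : ℝ) (M A : Finset κ) (b : κ → ℝ) (Z : κ → PhasePoint) : Prop :=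
  ∀ (σ : κ → ℝ) (T : ℝ) (X : ℝ → A → PhasePoint), BWorld Φ ε (fun a : A => b a) 0 X →
    (∀ a : A, X 0 a = Z a) →
    Rel ε (fun a : A => b a) {a : A | (a : κ) ∈ M} (fun a : A => σ a) T X →
    ∃ Y : ℝ → M → PhasePoint, BWorld Φ ε (fun m : M => wb A b σ m) 0 Y ∧
      ∀ m : M, Y 0 m = wz A σ X Z 0 m

/-- living particles of the isolated group -/
def gr₁ (A : Finset κ) (b : κ → ℝ) : Finset κ := A.filter fun k => b k ≤ 0

/-- living particles of the world -/
def gr₂ (A : Finset κ) (b : κ → ℝ) : Finset κ := Aᶜ.filter fun k => b k ≤ 0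

theorem mem_gr₁ {k : κ} : k ∈ gr₁ A b ↔ k ∈ A ∧ b k ≤ 0 := by simp [gr₁]

theorem mem_gr₂ {k : κ} : k ∈ gr₂ A b ↔ k ∉ A ∧ b k ≤ 0 := by simp [gr₂]

theorem disjoint_gr : Disjoint (gr₁ A b) (gr₂ A b) := by
  rw [Finset.disjoint_left]
  intro k h1 h2
  exact (mem_gr₂.1 h2).1 (mem_gr₁.1 h1).1

theorem not_mem_gr₁ {k : κ} (h : k ∉ A) : k ∉ gr₁ A b := fun h' => h (mem_gr₁.1 h').1

theorem not_mem_gr₂ {k : κ} (h : k ∈ A) : k ∉ gr₂ A b := fun h' => (mem_gr₂.1 h').1 h

theorem lineAt_free (τ s t : ℝ) (z : PhasePoint) :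
    ((lineAt τ z s).1 + (t - s) • (lineAt τ z s).2, (lineAt τ z s).2) = lineAt τ z t := by
  rw [← lineAt_lineAt τ s t z]
  rfl

/-- Before the first birth the isolated group is given by `fl`. -/
theorem X_eq_fl (hΦ : AdmissiblePotential Φ) (hε : 0 < ε) {X : ℝ → A → PhasePoint}
    {Z : κ → PhasePoint} (hX : BWorld Φ ε (fun a : A => b a) 0 X) (h0 : ∀ a : A, X 0 a = Z a)
    {t : ℝ} (ht : 0 ≤ t) (hb : ∀ k, 0 < b k → t ≤ b k) (a : A) :
    X t a = fl Φ ε (gr₁ A b) (gr₂ A b) t Z a := by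
  have h1 := hX.eq_flowA hΦ hε ht (fun i hi => hb i hi)
  have hal : alive (fun a : A => b a) 0 = (gr₁ A b).subtype (· ∈ A) := by
    ext x
    rw [mem_alive, Finset.mem_subtype, mem_gr₁]
    exact ⟨fun h => ⟨x.2, h⟩, fun h => h.2⟩
  rw [sub_zero, hal] at h1
  have h2 : gr₁ A b ⊆ A := Finset.filter_subset _ _
  rw [h1]
  by_cases ha : (a : κ) ∈ gr₁ A b
  · rw [flowA_subtype hΦ hε h2 t Z (X 0) (fun m _ => h0 m) ha, flowA_mem _ _ _ ha,
      fl_mem₁ _ _ ha]
  · rw [flowA_not_mem _ _ _ (fun h => ha (Finset.mem_subtype.1 h)),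
      fl_free _ _ ha (not_mem_gr₂ a.2), h0]

/-- First step of the world: nobody is born or released before `c`. -/
theorem world_step (hΦ : AdmissiblePotential Φ) (hε : 0 < ε) {X : ℝ → A → PhasePoint}
    {Z : κ → PhasePoint} (hM : ∀ k, k ∉ A → k ∈ M) (hI : Inj Z) {c : ℝ} (hc : 0 < c)
    (hb : ∀ k, 0 < b k → c ≤ b k) (hσ : ∀ k ∈ A, k ∈ M → c ≤ σ k)
    {Y₂ : ℝ → M → PhasePoint} (h₂ : BWorld Φ ε (fun m : M => wb A b σ m) c Y₂)
    (h0 : ∀ m : M, Y₂ c m = wz A σ X (fl Φ ε (gr₁ A b) (gr₂ A b) c Z) c m) :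
    ∃ Y : ℝ → M → PhasePoint, BWorld Φ ε (fun m : M => wb A b σ m) 0 Y ∧
      ∀ m : M, Y 0 m = wz A σ X Z 0 m := by
  have hsub : gr₂ A b ⊆ M := fun k hk => hM k (mem_gr₂.1 hk).1
  set z0 : M → PhasePoint := fun m => wz A σ X Z 0 m with hz0
  have hz0' : ∀ m : M, (m : κ) ∉ A → z0 m = Z m := by
    intro m hm
    simp only [hz0, wz, dif_neg hm]
  have hA : ∀ t ∈ Ico 0 c, ∀ m : M, m ∈ (gr₂ A b).subtype (· ∈ M) ↔ wb A b σ m ≤ t := by
    intro t ht m
    rw [Finset.mem_subtype, mem_gr₂]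
    by_cases hm : (m : κ) ∈ A
    · simp only [wb, if_pos hm]
      constructor
      · exact fun h => absurd hm h.1
      · intro h
        exact absurd ((hσ m hm m.2).trans h) (not_le.2 ht.2)
    · simp only [wb, if_neg hm]
      constructor
      · exact fun h => h.2.trans ht.1
      · intro h
        refine ⟨hm, ?_⟩
        by_contra hcon
        exact absurd ((hb m (not_le.1 hcon)).trans h) (not_le.2 ht.2)
  have hZ : (fun a : (gr₂ A b).subtype (· ∈ M) => z0 a) ∈ Dom Φ ((gr₂ A b).subtype (· ∈ M)) := by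
    refine Or.inr fun i j hij => ?_
    have hi : (i.1 : κ) ∉ A := (mem_gr₂.1 (Finset.mem_subtype.1 i.2)).1
    have hj : (j.1 : κ) ∉ A := (mem_gr₂.1 (Finset.mem_subtype.1 j.2)).1
    show (z0 i).1 ≠ (z0 j).1
    rw [hz0' _ hi, hz0' _ hj]
    exact hI _ _ fun h => hij (Subtype.ext (Subtype.ext h))
  have hY₂ : Y₂ c = flowA Φ ε ((gr₂ A b).subtype (· ∈ M)) (c - 0) z0 := by
    funext m
    rw [h0, sub_zero]
    by_cases hm : (m : κ) ∈ A
    · have h1 : m ∉ (gr₂ A b).subtype (· ∈ M) := fun h =>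
        not_mem_gr₂ hm (Finset.mem_subtype.1 h)
      rw [flowA_not_mem _ _ _ h1]
      simp only [hz0, wz, dif_pos hm]
      have := lineAt_free (σ m) 0 c (X (σ m) ⟨m, hm⟩)
      rw [sub_zero] at this
      exact this.symm
    · have h2 : wz A σ X (fl Φ ε (gr₁ A b) (gr₂ A b) c Z) c m =
          fl Φ ε (gr₁ A b) (gr₂ A b) c Z m := by simp only [wz, dif_neg hm]
      rw [h2]
      by_cases hb' : (m : κ) ∈ gr₂ A b
      · rw [flowA_subtype hΦ hε hsub c Z z0 (fun m' hm' => hz0' m' (mem_gr₂.1 hm').1) hb',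
          flowA_mem _ _ _ hb', fl_mem₂ _ _ (not_mem_gr₁ hm) hb']
      · rw [flowA_not_mem _ _ _ (fun h => hb' (Finset.mem_subtype.1 h)), hz0' m hm,
          fl_free _ _ (not_mem_gr₁ hm) hb']
  obtain ⟨Y, hY, hY0, -⟩ := bworld_cons hΦ hε hc hA hZ h₂ hY₂
  exact ⟨Y, hY, fun m => by rw [hY0]⟩

/-- Step over an external birth at time `c`. -/
theorem step_ext (hΦ : AdmissiblePotential Φ) (hε : 0 < ε) {Z : κ → PhasePoint}
    (hM : ∀ k, k ∉ A → k ∈ M) (hI : Inj Z) {c : ℝ} (hc : 0 < c)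
    (hb : ∀ k, 0 < b k → c ≤ b k)
    (hG : Good Φ ε M A (fun k => b k - c) (fl Φ ε (gr₁ A b) (gr₂ A b) c Z))
    {T : ℝ} {X : ℝ → A → PhasePoint} (hX : BWorld Φ ε (fun a : A => b a) 0 X)
    (h0 : ∀ a : A, X 0 a = Z a)
    (hR : Rel ε (fun a : A => b a) {a : A | (a : κ) ∈ M} (fun a : A => σ a) T X)
    (hσ : ∀ k ∈ A, k ∈ M → c < σ k) :
    ∃ Y : ℝ → M → PhasePoint, BWorld Φ ε (fun m : M => wb A b σ m) 0 Y ∧
      ∀ m : M, Y 0 m = wz A σ X Z 0 m := by
  have hX' : BWorld Φ ε (fun a : A => b a - c) 0 (fun t => X (t + c)) := by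
    have h1 := bworld_shift (hX.mono hc.le) (-c)
    simp only [sub_neg_eq_add, add_neg_cancel] at h1
    simpa only [← sub_eq_add_neg] using h1
  have hR' : Rel ε (fun a : A => b a - c) {a : A | (a : κ) ∈ M} (fun a : A => σ a - c) (T - c)
      (fun t => X (t + c)) := by
    refine ⟨fun i hi => ?_, fun i hi => ?_, fun i hi => ?_, fun i hi => ?_, fun i hi t ht j hj hbj => ?_⟩
    · linarith [hσ i i.2 hi]
    · linarith [hR.le i hi]
    · linarith [hR.born i hi]
    · obtain ⟨p, h1, h2, h3, h4⟩ := hR.exit i hi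
      refine ⟨p, h1, by linarith, ?_, ?_⟩
      · simpa only [sub_add_cancel] using h3
      · simpa only [sub_add_cancel] using h4
    · exact hR.free i hi (t + c) ⟨by linarith [ht.1], by linarith [ht.2]⟩ j hj (by linarith)
  obtain ⟨Y', hY', hY0⟩ := hG (fun k => σ k - c) (T - c) (fun t => X (t + c)) hX'
    (fun a => by
      rw [zero_add]
      exact X_eq_fl hΦ hε hX h0 hc.le hb a) hR'
  have h1 := bworld_shift hY' c
  rw [zero_add] at h1
  have h2 : (fun m : M => wb A (fun k => b k - c) (fun k => σ k - c) m + c) =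
      fun m : M => wb A b σ m := by
    funext m
    unfold wb
    split_ifs <;> ring
  rw [h2] at h1
  refine world_step (X := X) hΦ hε hM hI hc hb (fun k hk hkM => (hσ k hk hkM).le) h1 fun m => ?_
  rw [sub_self, hY0]
  unfold wz
  by_cases hm : (m : κ) ∈ A
  · rw [dif_pos hm, dif_pos hm]
    simp only [sub_add_cancel]
    unfold lineAt
    congr 3
    ring
  · rw [dif_neg hm, dif_neg hm]

/-- Before the next external birth, after the release of `B` at time `β`, the remaining group is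
given by `fl`. -/
theorem X_after (hΦ : AdmissiblePotential Φ) (hε : 0 < ε) {X : ℝ → A → PhasePoint}
    {Z : κ → PhasePoint} (hX : BWorld Φ ε (fun a : A => b a) 0 X) (h0 : ∀ a : A, X 0 a = Z a)
    (hI : Inj Z) {B : Finset κ} {β q T : ℝ} (hβ : 0 < β) (hβq : β < q) (hqT : q ≤ T)
    (hb : ∀ k, 0 < b k → q < b k)
    (hfree : ∀ i : A, (i : κ) ∈ B → ∀ t ∈ Ioc β T, ∀ j : A, j ≠ i → b j ≤ t →
      ε < dist (X t i).1 (X t j).1) {a : A} (ha : (a : κ) ∉ B) :
    X q a = fl Φ ε (gr₁ A b \ B) (gr₂ A b ∪ B) (q - β)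
      (fl Φ ε (gr₁ A b) (gr₂ A b) β Z) a := by
  have hq : 0 ≤ q := (hβ.trans hβq).le
  have hfl : ∀ t, 0 ≤ t → t ≤ q → ∀ a : A, X t a = fl Φ ε (gr₁ A b) (gr₂ A b) t Z a :=
    fun t ht htq a => X_eq_fl hΦ hε hX h0 ht (fun k hk => htq.trans (hb k hk).le) a
  rw [hfl q hq le_rfl]
  by_cases h1 : (a : κ) ∈ gr₁ A b
  · have h1' : (a : κ) ∈ gr₁ A b \ B := Finset.mem_sdiff.2 ⟨h1, ha⟩
    rw [fl_mem₁ _ _ h1, fl_mem₁ _ _ h1']
    let e : ↥(gr₁ A b \ B) ↪ ↥(gr₁ A b) :=
      ⟨fun x => ⟨x.1, (Finset.mem_sdiff.1 x.2).1⟩, fun x y h => Subtype.ext (by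
        simpa using congrArg Subtype.val h)⟩
    have hcross : ∀ t ∈ Ioc β q, ∀ i : ↥(gr₁ A b \ B), ∀ j : ↥(gr₁ A b), j ∉ range e →
        ε ≤ dist (flow Φ ε t (fun a : gr₁ A b => Z a) (e i)).1
          (flow Φ ε t (fun a : gr₁ A b => Z a) j).1 := by
      intro t ht i j hj
      have hjB : (j : κ) ∈ B := by
        by_contra hcon
        exact hj ⟨⟨j.1, Finset.mem_sdiff.2 ⟨j.2, hcon⟩⟩, rfl⟩
      have hjA : (j : κ) ∈ A := (mem_gr₁.1 j.2).1
      have hiA : (i : κ) ∈ A := (mem_gr₁.1 (Finset.mem_sdiff.1 i.2).1).1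
      have h2 := hfree ⟨j, hjA⟩ hjB t ⟨ht.1, ht.2.trans hqT⟩ ⟨i, hiA⟩ (fun h => by
        have h3 : (i : κ) = j := congrArg Subtype.val h
        exact (Finset.mem_sdiff.1 i.2).2 (h3 ▸ hjB))
        (((mem_gr₁.1 (Finset.mem_sdiff.1 i.2).1).2).trans (hβ.trans ht.1).le)
      rw [hfl t (hβ.trans ht.1).le ht.2, hfl t (hβ.trans ht.1).le ht.2] at h2
      have e1 : fl Φ ε (gr₁ A b) (gr₂ A b) t Z (i : κ) =
          flow Φ ε t (fun a : gr₁ A b => Z a) (e i) := fl_mem₁ t Z (Finset.mem_sdiff.1 i.2).1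
      have e2 : fl Φ ε (gr₁ A b) (gr₂ A b) t Z (j : κ) =
          flow Φ ε t (fun a : gr₁ A b => Z a) j := fl_mem₁ t Z j.2
      rw [← e1, ← e2, dist_comm]
      exact h2.le
    have hcross' : ∀ t ∈ Icc β q, CrossFar ε e (flow Φ ε t (fun a : gr₁ A b => Z a)) := by
      intro t ht i j hj
      rcases ht.1.lt_or_eq with h2 | h2
      · exact hcross t ⟨h2, ht.2⟩ i j hj
      · subst h2
        have hc : Continuous fun t => dist (flow Φ ε t (fun a : gr₁ A b => Z a) (e i)).1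
            (flow Φ ε t (fun a : gr₁ A b => Z a) j).1 := by
          have h3 : ∀ k : gr₁ A b, Continuous fun t => (flow Φ ε t (fun a : gr₁ A b => Z a) k).1 :=
            fun k => continuous_fst.comp ((continuous_apply k).comp
              (flow_continuous_time hΦ hε _))
          exact (h3 _).dist (h3 _)
        have h4 : ∀ᶠ s in 𝓝[>] β, ε ≤ dist (flow Φ ε s (fun a : gr₁ A b => Z a) (e i)).1
            (flow Φ ε s (fun a : gr₁ A b => Z a) j).1 := by
          filter_upwards [Ioc_mem_nhdsGT hβq] with s hs using hcross s hs i j hj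
        exact ge_of_tendsto (hc.continuousWithinAt (s := Ioi β)) h4
    have h5 := flow_comp hΦ hε e (hI.dom (gr₁ A b)) (t₀ := β) (a := β) (b := q)
      ⟨le_rfl, hβq.le⟩ hcross' (t := q) ⟨hβq.le, le_rfl⟩
    have h6 := congrFun h5 ⟨a, h1'⟩
    have h7 : (fun i : ↥(gr₁ A b \ B) => flow Φ ε β (fun a : gr₁ A b => Z a) (e i)) =
        fun i : ↥(gr₁ A b \ B) => fl Φ ε (gr₁ A b) (gr₂ A b) β Z i := by
      funext i
      exact (fl_mem₁ β Z (Finset.mem_sdiff.1 i.2).1).symm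
    rw [h7] at h6
    exact h6
  · have h2 : (a : κ) ∉ gr₂ A b := not_mem_gr₂ a.2
    have h3 : (a : κ) ∉ gr₁ A b \ B := fun h => h1 (Finset.mem_sdiff.1 h).1
    have h4 : (a : κ) ∉ gr₂ A b ∪ B := fun h => (Finset.mem_union.1 h).elim h2 ha
    rw [fl_free _ _ h1 h2, fl_free _ _ h3 h4, fl_free _ _ h1 h2]
    refine Prod.ext ?_ rfl
    simp only
    rw [add_assoc, ← add_smul]
    congr 2
    ring

/-- Step over the release of `B` at time `β`. -/
theorem step_rel (hΦ : AdmissiblePotential Φ) (hε : 0 < ε) {Z : κ → PhasePoint}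
    (hM : ∀ k, k ∉ A → k ∈ M) (hI : Inj Z) {B : Finset κ} (hBA : B ⊆ A) (hBM : B ⊆ M)
    {β q : ℝ} (hβ : 0 < β) (hβq : β < q) (hb : ∀ k, 0 < b k → q < b k)
    (hIβ : Inj (fl Φ ε (gr₁ A b) (gr₂ A b) β Z))
    (hbB : ∀ k ∈ B, b k ≤ 0) (hσB : ∀ k ∈ B, σ k = β)
    (hσ : ∀ k ∈ A, k ∈ M → k ∉ B → q < σ k)
    (hG : Good Φ ε M (A \ B) (fun k => b k - q)
      (fl Φ ε (gr₁ A b \ B) (gr₂ A b ∪ B) (q - β) (fl Φ ε (gr₁ A b) (gr₂ A b) β Z)))
    (hW : BWorld Φ ε (fun a : ↥(A \ B) => b a - q) 0 fun t =>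
      evo Φ ε (fun a : ↥(A \ B) => b a - q) 0 t fun a : ↥(A \ B) =>
        fl Φ ε (gr₁ A b \ B) (gr₂ A b ∪ B) (q - β) (fl Φ ε (gr₁ A b) (gr₂ A b) β Z) a)
    {T : ℝ} {X : ℝ → A → PhasePoint} (hX : BWorld Φ ε (fun a : A => b a) 0 X)
    (h0 : ∀ a : A, X 0 a = Z a)
    (hR : Rel ε (fun a : A => b a) {a : A | (a : κ) ∈ M} (fun a : A => σ a) T X) :
    ∃ Y : ℝ → M → PhasePoint, BWorld Φ ε (fun m : M => wb A b σ m) 0 Y ∧
      ∀ m : M, Y 0 m = wz A σ X Z 0 m := by
  set Zβ := fl Φ ε (gr₁ A b) (gr₂ A b) β Z with hZβ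
  set Z' := fl Φ ε (gr₁ A b \ B) (gr₂ A b ∪ B) (q - β) Zβ with hZ'
  set X' : ℝ → ↥(A \ B) → PhasePoint := fun t =>
    evo Φ ε (fun a : ↥(A \ B) => b a - q) 0 t fun a : ↥(A \ B) => Z' a with hX'
  have hfreeB : ∀ i : A, (i : κ) ∈ B → ∀ t ∈ Ioc β T, ∀ j : A, j ≠ i → b j ≤ t →
      ε < dist (X t i).1 (X t j).1 := by
    intro i hi t ht j hj hbj
    refine hR.free i (hBM hi) t ?_ j hj hbj
    show t ∈ Ioc (σ i) T
    rw [hσB i hi]
    exact ht
  -- the motion of the remaining group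
  have hag : ∀ t ∈ Icc q T, ∀ a : ↥(A \ B), X' (t - q) a = X t ⟨a, (Finset.mem_sdiff.1 a.2).1⟩ := by
    intro t ht a
    have hW' : BWorld Φ ε (fun a : ↥(A \ B) => b a) q (fun t => X' (t - q)) := by
      have h1 := bworld_shift hW q
      simp only [sub_add_cancel, zero_add] at h1
      exact h1
    have hsub : ∀ a : ↥(A \ B), (a : κ) ∈ A := fun a => (Finset.mem_sdiff.1 a.2).1
    have key := BWorld.agree hΦ hε hX hW' (μ := ↥(A \ B))
      (e := fun a => ⟨a, hsub a⟩) (f := id)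
      (fun x y h => Subtype.ext (by simpa using congrArg Subtype.val h)) Function.injective_id
      (S := univ) (A := ∅) (a := q) (T := T) (hβ.trans hβq).le le_rfl
      (fun _ _ _ _ => Iff.rfl) (fun _ h => absurd h (notMem_empty _)) ?_ ?_ ?_
    · exact (key a (mem_univ _) t ht).symm
    · intro m _
      have h1 : X' (q - q) m = Z' m := by
        rw [sub_self]
        simp only [hX']
        rw [evo_self hΦ hε]
      show X q ⟨m, hsub m⟩ = X' (q - q) m
      rw [h1, X_after hΦ hε hX h0 hI hβ hβq (ht.1.trans ht.2) hb hfreeB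
        (a := ⟨m, hsub m⟩) (Finset.mem_sdiff.1 m.2).2]
    · intro t' ht' m _ hbm k hbk hk
      have hkB : (k : κ) ∈ B := by
        by_contra hcon
        exact hk ⟨k, Finset.mem_sdiff.2 ⟨k.2, hcon⟩⟩ (Or.inl (mem_univ _)) rfl
      rw [dist_comm]
      refine (hfreeB k hkB t' ⟨hβq.trans_le ht'.1, ht'.2.le⟩ ⟨m, hsub m⟩ (fun h => ?_) hbm).le
      have h3 : (m : κ) = k := congrArg Subtype.val h
      exact (Finset.mem_sdiff.1 m.2).2 (h3 ▸ hkB)
    · intro t' _ m _ _ k _ hk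
      exact absurd rfl (hk k (Or.inl (mem_univ _)))
  have hX'0 : ∀ a : ↥(A \ B), X' 0 a = Z' a := by
    intro a
    simp only [hX']
    rw [evo_self hΦ hε]
  have hR' : Rel ε (fun a : ↥(A \ B) => b a - q) {a : ↥(A \ B) | (a : κ) ∈ M}
      (fun a : ↥(A \ B) => σ a - q) (T - q) X' := by
    have hq : ∀ i : ↥(A \ B), (i : κ) ∈ M → q < σ i := fun i hi =>
      hσ i (Finset.mem_sdiff.1 i.2).1 hi (Finset.mem_sdiff.1 i.2).2
    have hT : ∀ i : ↥(A \ B), (i : κ) ∈ M → σ i ≤ T := fun i hi =>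
      hR.le ⟨i, (Finset.mem_sdiff.1 i.2).1⟩ hi
    refine ⟨fun i hi => ?_, fun i hi => ?_, fun i hi => ?_, fun i hi => ?_,
      fun i hi t ht j hj hbj => ?_⟩
    · linarith [hq i hi]
    · linarith [hT i hi]
    · linarith [hR.born ⟨i, (Finset.mem_sdiff.1 i.2).1⟩ hi]
    · obtain ⟨p, h1, h2, h3, h4⟩ := hR.exit ⟨i, (Finset.mem_sdiff.1 i.2).1⟩ hi
      have hpB : (p : κ) ∉ B := by
        intro hp
        have h5 := hfreeB p hp (σ i) ⟨hβq.trans (hq i hi), hT i hi⟩
          ⟨i, (Finset.mem_sdiff.1 i.2).1⟩ h1.symm (hR.born ⟨i, (Finset.mem_sdiff.1 i.2).1⟩ hi)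
        rw [dist_comm] at h5
        exact absurd h3 h5.ne'
      have h5 := hag (σ i) ⟨(hq i hi).le, hT i hi⟩ i
      have h6 := hag (σ i) ⟨(hq i hi).le, hT i hi⟩ ⟨p, Finset.mem_sdiff.2 ⟨p.2, hpB⟩⟩
      refine ⟨⟨p, Finset.mem_sdiff.2 ⟨p.2, hpB⟩⟩, fun h => h1 ?_, ?_, ?_, ?_⟩
      · exact Subtype.ext (show (p : κ) = i from congrArg (fun x : ↥(A \ B) => (x : κ)) h)
      · show b p - q ≤ σ i - q
        linarith [h2]
      · rw [h5, h6]; exact h3
      · rw [h5, h6]; exact h4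
    · have ht1 : σ i - q < t := ht.1
      have ht2 : t ≤ T - q := ht.2
      have hqi := hq i hi
      have h7 : t + q ∈ Icc q T := ⟨by linarith, by linarith⟩
      have h5 := hag (t + q) h7 i
      have h6 := hag (t + q) h7 j
      rw [add_sub_cancel_right] at h5 h6
      rw [h5, h6]
      refine hR.free ⟨i, (Finset.mem_sdiff.1 i.2).1⟩ hi (t + q)
        ⟨by show σ i < t + q; linarith, h7.2⟩ ⟨j, (Finset.mem_sdiff.1 j.2).1⟩ (fun h => hj ?_) ?_
      · have h8 : (⟨j, (Finset.mem_sdiff.1 j.2).1⟩ : A) = ⟨i, (Finset.mem_sdiff.1 i.2).1⟩ := h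
        exact Subtype.ext (show (j : κ) = i from congrArg (fun x : A => (x : κ)) h8)
      · show b j ≤ t + q
        linarith [hbj]
  obtain ⟨Y', hY', hY'0⟩ := hG (fun k => σ k - q) (T - q) X' hW hX'0 hR'
  -- from `q` on
  have h1 := bworld_shift hY' q
  rw [zero_add] at h1
  have h2 : BWorld Φ ε (fun m : M => wb A b σ m) q (fun t => Y' (t - q)) := by
    refine h1.congr_births fun m t ht => ?_
    unfold wb
    by_cases hmA : (m : κ) ∈ A
    · by_cases hmB : (m : κ) ∈ B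
      · rw [if_neg (fun h => (Finset.mem_sdiff.1 h).2 hmB), if_pos hmA, hσB m hmB]
        constructor
        · intro _; exact hβq.le.trans ht
        · intro _; linarith [hbB m hmB, hβ.trans hβq]
      · rw [if_pos (Finset.mem_sdiff.2 ⟨hmA, hmB⟩), if_pos hmA, sub_add_cancel]
    · rw [if_neg (fun h => hmA (Finset.mem_sdiff.1 h).1), if_neg hmA, sub_add_cancel]
  -- from `β` to `q`
  have hXβ : ∀ a : A, X β a = Zβ a := fun a =>
    X_eq_fl hΦ hε hX h0 hβ.le (fun k hk => hβq.le.trans (hb k hk).le) a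
  set zβ : M → PhasePoint := fun m => wz A σ X Zβ β m with hzβ
  have hzβ' : ∀ m : M, (m : κ) ∈ gr₂ A b ∪ B → zβ m = Zβ m := by
    intro m hm
    simp only [hzβ, wz]
    by_cases hmA : (m : κ) ∈ A
    · have hmB : (m : κ) ∈ B := (Finset.mem_union.1 hm).resolve_left (not_mem_gr₂ hmA)
      rw [dif_pos hmA, hσB m hmB, lineAt_self, hXβ]
    · rw [dif_neg hmA]
  have hsub : gr₂ A b ∪ B ⊆ M := fun k hk => (Finset.mem_union.1 hk).elim
    (fun h => hM k (mem_gr₂.1 h).1) fun h => hBM h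
  have hA₂ : ∀ t ∈ Ico β q, ∀ m : M, m ∈ (gr₂ A b ∪ B).subtype (· ∈ M) ↔ wb A b σ m ≤ t := by
    intro t ht m
    rw [Finset.mem_subtype, Finset.mem_union, mem_gr₂]
    unfold wb
    by_cases hmA : (m : κ) ∈ A
    · rw [if_pos hmA]
      constructor
      · rintro (h | h)
        · exact absurd hmA h.1
        · rw [hσB m h]; exact ht.1
      · intro h
        right
        by_contra hcon
        exact absurd ((hσ m hmA m.2 hcon).le.trans h) (not_le.2 ht.2)
    · rw [if_neg hmA]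
      constructor
      · rintro (h | h)
        · exact h.2.trans (hβ.le.trans ht.1)
        · exact absurd (hBA h) hmA
      · intro h
        refine Or.inl ⟨hmA, ?_⟩
        by_contra hcon
        exact absurd ((hb m (not_le.1 hcon)).le.trans h) (not_le.2 ht.2)
  have hZ₂ : (fun a : (gr₂ A b ∪ B).subtype (· ∈ M) => zβ a) ∈
      Dom Φ ((gr₂ A b ∪ B).subtype (· ∈ M)) := by
    refine Or.inr fun i j hij => ?_
    show (zβ i).1 ≠ (zβ j).1
    rw [hzβ' _ (Finset.mem_subtype.1 i.2), hzβ' _ (Finset.mem_subtype.1 j.2)]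
    exact hIβ _ _ fun h => hij (Subtype.ext (Subtype.ext h))
  have hY₂ : Y' (q - q) = flowA Φ ε ((gr₂ A b ∪ B).subtype (· ∈ M)) (q - β) zβ := by
    funext m
    rw [sub_self, hY'0]
    by_cases hm : (m : κ) ∈ gr₂ A b ∪ B
    · have hmAB : (m : κ) ∉ A \ B := fun h => (Finset.mem_union.1 hm).elim
        (fun h' => (mem_gr₂.1 h').1 (Finset.mem_sdiff.1 h).1) fun h' =>
          (Finset.mem_sdiff.1 h).2 h'
      have hm1 : (m : κ) ∉ gr₁ A b \ B := fun h => hmAB
        (Finset.mem_sdiff.2 ⟨(mem_gr₁.1 (Finset.mem_sdiff.1 h).1).1, (Finset.mem_sdiff.1 h).2⟩)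
      rw [flowA_subtype hΦ hε hsub (q - β) Zβ zβ (fun m' hm' => hzβ' m' hm') hm,
        flowA_mem _ _ _ hm]
      unfold wz
      rw [dif_neg hmAB, hZ', fl_mem₂ _ _ hm1 hm]
    · have hmB : (m : κ) ∉ B := fun h => hm (Finset.mem_union_right _ h)
      have hm2 : (m : κ) ∉ gr₂ A b := fun h => hm (Finset.mem_union_left _ h)
      rw [flowA_not_mem _ _ _ (fun h => hm (Finset.mem_subtype.1 h))]
      by_cases hmA : (m : κ) ∈ A
      · have hmAB : (m : κ) ∈ A \ B := Finset.mem_sdiff.2 ⟨hmA, hmB⟩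
        simp only [hzβ]
        unfold wz
        rw [dif_pos hmAB, dif_pos hmA, lineAt_free]
        have h5 := hag (σ m) ⟨(hσ m hmA m.2 hmB).le, hR.le ⟨m, hmA⟩ m.2⟩ ⟨m, hmAB⟩
        rw [h5]
        unfold lineAt
        congr 3
        ring
      · have hmAB : (m : κ) ∉ A \ B := fun h => hmA (Finset.mem_sdiff.1 h).1
        have hm1 : (m : κ) ∉ gr₁ A b \ B := fun h => hmA (mem_gr₁.1 (Finset.mem_sdiff.1 h).1).1
        simp only [hzβ]
        unfold wz
        rw [dif_neg hmAB, dif_neg hmA, hZ', fl_free _ _ hm1 hm]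
  obtain ⟨Y₂, hYw, hYβ, -⟩ := bworld_cons hΦ hε hβq hA₂ hZ₂ h2 hY₂
  refine world_step (X := X) hΦ hε hM hI hβ (fun k hk => hβq.le.trans (hb k hk).le)
    (fun k hk hkM => ?_) hYw fun m => ?_
  · by_cases hkB : k ∈ B
    · rw [hσB k hkB]
    · exact hβq.le.trans (hσ k hk hkM hkB).le
  · rw [hYβ]

theorem ae_restrict {M : Finset κ} {p : (M → PhasePoint) → Prop} (h : ∀ᵐ z, p z) :
    ∀ᵐ Z : κ → PhasePoint, p (fun m : M => Z m) := by
  set E := MeasurableEquiv.piEquivPiSubtypeProd (fun _ : κ => PhasePoint) (fun i => i ∈ M) with hE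
  have he : MeasurePreserving E volume
      ((volume : Measure ({i // i ∈ M} → PhasePoint)).prod
        (volume : Measure ({i // i ∉ M} → PhasePoint))) := by
    have h0 := volume_preserving_piEquivPiSubtypeProd (fun _ : κ => PhasePoint) (fun i => i ∈ M)
    rw [Measure.volume_eq_prod] at h0
    convert h0
    rfl
  have h1 := (Measure.quasiMeasurePreserving_fst
    (μ := (volume : Measure ({i // i ∈ M} → PhasePoint)))
    (ν := (volume : Measure ({i // i ∉ M} → PhasePoint)))).comp he.quasiMeasurePreserving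
  exact h1.ae h

theorem ae_noEq (hΦ : AdmissiblePotential Φ) (hε : 0 < ε) :
    ∀ᵐ Z : κ → PhasePoint, NoEq ε Z := by
  filter_upwards [ae_noEq_evo (ι := κ) hΦ hε (fun _ => 0) 0 0] with Z h
  rwa [evo_self hΦ hε] at h

theorem ae_good_base (hΦ : AdmissiblePotential Φ) (hε : 0 < ε) (hAM : A ∩ M = ∅) :
    ∀ᵐ Z : κ → PhasePoint, Good Φ ε M A b Z := by
  have h1 : ∀ᵐ Z : κ → PhasePoint, BWorld Φ ε (fun m : M => b m) 0
      (fun t => evo Φ ε (fun m : M => b m) 0 t (fun m : M => Z m)) :=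
    ae_restrict (ae_bworld (ι := M) hΦ hε (fun m : M => b m) 0)
  filter_upwards [h1] with Z hZ σ T X _ _ _
  have hnot : ∀ m : M, (m : κ) ∉ A := by
    intro m hm
    have : (m : κ) ∈ A ∩ M := Finset.mem_inter.2 ⟨hm, m.2⟩
    rw [hAM] at this
    exact absurd this (Finset.notMem_empty _)
  refine ⟨_, hZ.congr_births fun m t _ => ?_, fun m => ?_⟩
  · unfold wb
    rw [if_neg (hnot m)]
  · rw [evo_self hΦ hε]
    unfold wz
    rw [dif_neg (hnot m)]

theorem ae_good_aux (hΦ : AdmissiblePotential Φ) (hε : 0 < ε) (M : Finset κ) :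
    ∀ (n : ℕ) (A : Finset κ) (b : κ → ℝ), (∀ k, k ∉ A → k ∈ M) →
      (A ∩ M).card + (Finset.univ.filter fun k => 0 < b k).card ≤ n →
      ∀ᵐ Z : κ → PhasePoint, Good Φ ε M A b Z := by
  intro n
  induction n with
  | zero =>
    intro A b _ hn
    refine ae_good_base hΦ hε (Finset.card_eq_zero.1 (by omega))
  | succ n ih =>
    intro A b hM hn
    by_cases hAM : A ∩ M = ∅
    · exact ae_good_base hΦ hε hAM
    have hd : Disjoint (gr₁ A b) (gr₂ A b) := disjoint_gr
    have g1 := ae_inj_fl (κ := κ) hΦ hε hd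
    have g2 : ∀ᵐ Z : κ → PhasePoint, ∀ k, 0 < b k → (∀ k', 0 < b k' → b k ≤ b k') →
        Good Φ ε M A (fun l => b l - b k) (fl Φ ε (gr₁ A b) (gr₂ A b) (b k) Z) ∧
        NoEq ε (fl Φ ε (gr₁ A b) (gr₂ A b) (b k) Z) := by
      rw [ae_all_iff]; intro k
      by_cases hk : 0 < b k ∧ ∀ k', 0 < b k' → b k ≤ b k'
      · have h1 : ∀ᵐ Z : κ → PhasePoint, Good Φ ε M A (fun l => b l - b k) Z := by
          refine ih A _ hM ?_
          have hlt : (Finset.univ.filter fun l => 0 < b l - b k).card <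
              (Finset.univ.filter fun l => 0 < b l).card := by
            refine Finset.card_lt_card ?_
            rw [Finset.ssubset_iff_of_subset]
            · exact ⟨k, by simp [hk.1], by simp⟩
            · intro l hl
              simp only [Finset.mem_filter, Finset.mem_univ, true_and] at hl ⊢
              linarith [hk.1]
          omega
        have h2 := (measurePreserving_fl (κ := κ) hΦ hε hd (b k)).quasiMeasurePreserving.ae
          (h1.and (ae_noEq hΦ hε))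
        filter_upwards [h2] with Z hZ _ _ using hZ
      · exact Eventually.of_forall fun Z h1 h2 => absurd ⟨h1, h2⟩ hk
    have g3 : ∀ᵐ Z : κ → PhasePoint, ∀ B : Finset κ, B ⊆ A → B ⊆ M → B.Nonempty →
        ∀ q : ℚ, (0 : ℝ) < q → ∀ β : ℝ, ∀ i j : κ,
        Inj (fl Φ ε (gr₁ A b) (gr₂ A b) β Z) →
        dist (fl Φ ε (gr₁ A b) (gr₂ A b) β Z i).1 (fl Φ ε (gr₁ A b) (gr₂ A b) β Z j).1 = ε →
        0 < inner ℝ ((fl Φ ε (gr₁ A b) (gr₂ A b) β Z i).1 - (fl Φ ε (gr₁ A b) (gr₂ A b) β Z j).1)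
          ((fl Φ ε (gr₁ A b) (gr₂ A b) β Z i).2 - (fl Φ ε (gr₁ A b) (gr₂ A b) β Z j).2) →
        Good Φ ε M (A \ B) (fun k => b k - q)
          (fl Φ ε (gr₁ A b \ B) (gr₂ A b ∪ B) (q - β) (fl Φ ε (gr₁ A b) (gr₂ A b) β Z)) ∧
        BWorld Φ ε (fun a : ↥(A \ B) => b a - q) 0 fun t =>
          evo Φ ε (fun a : ↥(A \ B) => b a - q) 0 t fun a : ↥(A \ B) =>
            fl Φ ε (gr₁ A b \ B) (gr₂ A b ∪ B) (q - β) (fl Φ ε (gr₁ A b) (gr₂ A b) β Z) a := by
      rw [ae_all_iff]; intro B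
      rw [ae_all_iff]; intro hBA
      rw [ae_all_iff]; intro hBM
      rw [ae_all_iff]; intro hBn
      rw [ae_all_iff]; intro q
      rw [ae_all_iff]; intro hq
      have hd' : Disjoint (gr₁ A b \ B) (gr₂ A b ∪ B) := by
        rw [Finset.disjoint_left]
        intro k h1 h2
        rcases Finset.mem_union.1 h2 with h3 | h3
        · exact (mem_gr₂.1 h3).1 (mem_gr₁.1 (Finset.mem_sdiff.1 h1).1).1
        · exact (Finset.mem_sdiff.1 h1).2 h3
      have h1 : ∀ᵐ Z : κ → PhasePoint, Good Φ ε M (A \ B) (fun k => b k - q) Z := by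
        refine ih (A \ B) _ (fun k hk => ?_) ?_
        · by_cases hkB : k ∈ B
          · exact hBM hkB
          · exact hM k fun h => hk (Finset.mem_sdiff.2 ⟨h, hkB⟩)
        · have hlt : ((A \ B) ∩ M).card < (A ∩ M).card := by
            refine Finset.card_lt_card ?_
            rw [Finset.ssubset_iff_of_subset]
            · obtain ⟨k, hk⟩ := hBn
              refine ⟨k, Finset.mem_inter.2 ⟨hBA hk, hBM hk⟩, fun h => ?_⟩
              exact (Finset.mem_sdiff.1 (Finset.mem_inter.1 h).1).2 hk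
            · intro k hk
              rw [Finset.mem_inter, Finset.mem_sdiff] at hk
              exact Finset.mem_inter.2 ⟨hk.1.1, hk.2⟩
          have hle : (Finset.univ.filter fun l => 0 < b l - (q : ℝ)).card ≤
              (Finset.univ.filter fun l => 0 < b l).card := by
            refine Finset.card_le_card fun l hl => ?_
            simp only [Finset.mem_filter, Finset.mem_univ, true_and] at hl ⊢
            linarith
          omega
      have h2 : ∀ᵐ Z : κ → PhasePoint, BWorld Φ ε (fun a : ↥(A \ B) => b a - q) 0 fun t =>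
          evo Φ ε (fun a : ↥(A \ B) => b a - q) 0 t fun a : ↥(A \ B) => Z a :=
        ae_restrict (ae_bworld (ι := ↥(A \ B)) hΦ hε (fun a : ↥(A \ B) => b a - q) 0)
      have h3 := transfer_null (G₁ := gr₁ A b) (G₂ := gr₂ A b) (H₁ := gr₁ A b \ B)
        (H₂ := gr₂ A b ∪ B) hΦ hε hd hd' q (ae_iff.1 (h1.and h2))
      filter_upwards [measure_eq_zero_iff_ae_notMem.1 h3] with Z hZ β i j hI hdist hin
      by_contra hcon
      exact hZ ⟨β, i, j, hI, hdist, hin, hcon⟩
    filter_upwards [g1, g2, g3] with Z hg1 hg2 hg3 σ T X hX h0 hR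
    have hI : Inj Z := by
      have := hg1 0
      rwa [fl_zero hΦ hε] at this
    obtain ⟨i₀, hi₀, hmin⟩ := Finset.exists_min_image (A ∩ M) σ
      (Finset.nonempty_iff_ne_empty.2 hAM)
    have hi₀A : i₀ ∈ A := (Finset.mem_inter.1 hi₀).1
    have hi₀M : i₀ ∈ M := (Finset.mem_inter.1 hi₀).2
    set β := σ i₀ with hβ
    have hβ0 : 0 < β := hR.pos ⟨i₀, hi₀A⟩ hi₀M
    have hmin' : ∀ k ∈ A, k ∈ M → β ≤ σ k := fun k hk hkM => hmin k (Finset.mem_inter.2 ⟨hk, hkM⟩)
    obtain ⟨p, hpi, hbp, hpd, hpin⟩ := hR.exit ⟨i₀, hi₀A⟩ hi₀M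
    by_cases hex : ∃ k, 0 < b k ∧ b k ≤ β
    · -- an external birth comes first
      obtain ⟨k₁, hk₁, hk₁β⟩ := hex
      obtain ⟨k₀, hk₀, hk₀min⟩ := Finset.exists_min_image (Finset.univ.filter fun k => 0 < b k) b
        ⟨k₁, by simp [hk₁]⟩
      have hk₀0 : 0 < b k₀ := (Finset.mem_filter.1 hk₀).2
      have hk₀m : ∀ k', 0 < b k' → b k₀ ≤ b k' := fun k' hk' => hk₀min k' (by simp [hk'])
      have hle : b k₀ ≤ β := (hk₀m k₁ hk₁).trans hk₁β
      obtain ⟨hG, hNE⟩ := hg2 k₀ hk₀0 hk₀m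
      have hlt : b k₀ < β := by
        refine lt_of_le_of_ne hle fun he => ?_
        have h1 : ∀ a : A, X β a = fl Φ ε (gr₁ A b) (gr₂ A b) (b k₀) Z a := by
          intro a
          rw [← he]
          exact X_eq_fl hΦ hε hX h0 hk₀0.le hk₀m a
        rw [h1, h1] at hpd
        exact hNE _ _ (fun h => hpi (Subtype.ext h.symm)) hpd
      exact step_ext hΦ hε hM hI hk₀0 hk₀m hG hX h0 hR
        (fun k hk hkM => hlt.trans_le (hmin' k hk hkM))
    · -- a release comes first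
      push Not at hex
      set B : Finset κ := (A ∩ M).filter fun k => σ k = β with hB
      have hBmem : ∀ k, k ∈ B ↔ (k ∈ A ∧ k ∈ M) ∧ σ k = β := by
        intro k
        rw [hB, Finset.mem_filter, Finset.mem_inter]
      have hBA : B ⊆ A := fun k hk => ((hBmem k).1 hk).1.1
      have hBM : B ⊆ M := fun k hk => ((hBmem k).1 hk).1.2
      have hev : ∀ᶠ x in 𝓝[>] β, (∀ k, 0 < b k → x < b k) ∧
          (∀ k, k ∈ A → k ∈ M → k ∉ B → x < σ k) := by
        refine (Filter.eventually_all.2 fun k => ?_).and (Filter.eventually_all.2 fun k => ?_)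
        · by_cases hk : 0 < b k
          · exact mem_of_superset (Ioo_mem_nhdsGT (hex k hk)) fun x hx _ => hx.2
          · exact Eventually.of_forall fun x h => absurd h hk
        · by_cases hk : k ∈ A ∧ k ∈ M ∧ k ∉ B
          · have hlt : β < σ k := by
              refine lt_of_le_of_ne (hmin' k hk.1 hk.2.1) fun he => ?_
              exact hk.2.2 ((hBmem k).2 ⟨⟨hk.1, hk.2.1⟩, he.symm⟩)
            exact mem_of_superset (Ioo_mem_nhdsGT hlt) fun x hx _ _ _ => hx.2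
          · exact Eventually.of_forall fun x h1 h2 h3 => absurd ⟨h1, h2, h3⟩ hk
      obtain ⟨r, hr, hrs⟩ := (mem_nhdsGT_iff_exists_Ioo_subset).1 hev
      obtain ⟨q, hq1, hq2⟩ := exists_rat_btwn (show β < r from hr)
      obtain ⟨hqb, hqσ⟩ := hrs ⟨hq1, hq2⟩
      have hXβ : ∀ a : A, X β a = fl Φ ε (gr₁ A b) (gr₂ A b) β Z a := fun a =>
        X_eq_fl hΦ hε hX h0 hβ0.le (fun k hk => (hex k hk).le) a
      rw [hXβ, hXβ] at hpd hpin
      obtain ⟨hG, hW⟩ := hg3 B hBA hBM ⟨i₀, (hBmem i₀).2 ⟨⟨hi₀A, hi₀M⟩, rfl⟩⟩ q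
        (hβ0.trans hq1) β i₀ p (hg1 β) hpd hpin
      refine step_rel hΦ hε hM hI hBA hBM hβ0 hq1 hqb (hg1 β) (fun k hk => ?_)
        (fun k hk => ((hBmem k).1 hk).2) hqσ hG hW hX h0 hR
      by_contra hcon
      have h1 := hR.born ⟨k, hBA hk⟩ (hBM hk)
      have h2 : b k ≤ σ k := h1
      rw [((hBmem k).1 hk).2] at h2
      exact absurd h2 (not_le.2 (hex k (not_le.1 hcon)))

/-- **A.e. configuration is good**: for all release data of the isolated group `A` the final world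
is a world with births. -/
theorem ae_good (hΦ : AdmissiblePotential Φ) (hε : 0 < ε) {M A : Finset κ}
    (hM : ∀ k, k ∉ A → k ∈ M) (b : κ → ℝ) : ∀ᵐ Z : κ → PhasePoint, Good Φ ε M A b Z :=
  ae_good_aux hΦ hε M _ A b hM le_rfl

end

end Crest.Agent.R122.TransOk151
end

-- ▼ part R122/TransOk_151

/-!
# Worlds with released lines are good (row 122, item (4) of the H12 plan), helper151

* `ae_world`: isolated group `α` (births `bα`), world `ω` (births `bω`): for a.e. time-0 state, for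
  all release data, the world `ω +` released lines is a world with births.
* `birthSep_of`: `BirthSep` from the start states (`StartSep`).
* `SepB`, `ok_of`: `MW.Ok` from `BWorld` and `SepB`.
* `ae_okFam`: `MW.OkFam` for a marked world with random states and the released lines.
* `ae_okFam_cfg`: the same for the gas world `cfg w` and the Newton flow of the isolated group.
-/

set_option autoImplicit false
set_option linter.unusedSectionVars false

open MeasureTheory Set Filter Topology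
open scoped ENNReal NNReal
open Crest.AnalysisR.Kinetic
open Crest.Agent.R122.Flow671 Crest.Agent.R122.Loc45 Crest.Agent.R122.Ins45
open Crest.Agent.R122.Simul984 Crest.Agent.R122.Inf879 Crest.Agent.R122.EDefs602
open Crest.Agent.R122.MWAlg255

namespace Crest.Agent.R122.TransOk151

noncomputable section

open scoped Classical

variable {Φ : Space3 → ℝ} {ε : ℝ}

section world

variable {α ω : Type} [Fintype α] [Fintype ω]

/-- the isolated group in `α ⊕ ω` -/
def grA (α ω : Type) [Fintype α] [Fintype ω] : Finset (α ⊕ ω) :=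
  Finset.univ.filter fun k => k.isLeft = true

/-- the final world in `α ⊕ ω` -/
def grM (ω : Type) [Fintype ω] (S : Finset α) : Finset (α ⊕ ω) :=
  Finset.univ.filter fun k => ∀ a, k = Sum.inl a → a ∈ S

theorem inl_mem_grA (a : α) : (Sum.inl a : α ⊕ ω) ∈ grA α ω := by simp [grA]

theorem inr_not_mem_grA (x : ω) : (Sum.inr x : α ⊕ ω) ∉ grA α ω := by simp [grA]

theorem inr_mem_grM (S : Finset α) (x : ω) : (Sum.inr x : α ⊕ ω) ∈ grM ω S := by simp [grM]

theorem inl_mem_grM {S : Finset α} {a : α} : (Sum.inl a : α ⊕ ω) ∈ grM ω S ↔ a ∈ S := by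
  simp [grM]

def eqA : ↥(grA α ω) ≃ α where
  toFun x := x.1.getLeft (Finset.mem_filter.1 x.2).2
  invFun a := ⟨Sum.inl a, inl_mem_grA a⟩
  left_inv := by
    rintro ⟨x | x, hx⟩
    · rfl
    · exact absurd hx (inr_not_mem_grA x)
  right_inv a := rfl

theorem inl_eqA (x : ↥(grA α ω)) : (Sum.inl (eqA x) : α ⊕ ω) = x := by
  have h := eqA.symm_apply_apply x
  exact congrArg Subtype.val h

def eqM (S : Finset α) : ω ⊕ S ≃ ↥(grM ω S) where
  toFun x := Sum.elim (fun y => ⟨Sum.inr y, inr_mem_grM S y⟩)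
    (fun s => ⟨Sum.inl s.1, inl_mem_grM.2 s.2⟩) x
  invFun x := match x with
    | ⟨Sum.inl a, ha⟩ => Sum.inr ⟨a, inl_mem_grM.1 ha⟩
    | ⟨Sum.inr y, _⟩ => Sum.inl y
  left_inv := by rintro (x | x) <;> rfl
  right_inv := by rintro ⟨x | x, hx⟩ <;> rfl

/-- **Worlds with released lines**, joint statement on `α ⊕ ω`. -/
theorem ae_world (hΦ : AdmissiblePotential Φ) (hε : 0 < ε) (bα : α → ℝ) (bω : ω → ℝ) :
    ∀ᵐ Z : α ⊕ ω → PhasePoint, ∀ (S : Finset α) (σ : α → ℝ) (T : ℝ) (X : ℝ → α → PhasePoint),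
      BWorld Φ ε bα 0 X → (∀ a, X 0 a = Z (Sum.inl a)) → Rel ε bα {a | a ∈ S} σ T X →
      ∃ Y : ℝ → ω ⊕ S → PhasePoint, BWorld Φ ε (Sum.elim bω fun i : S => σ i) 0 Y ∧
        Y 0 = Sum.elim (fun x => Z (Sum.inr x)) fun i : S => lineAt (σ i) (X (σ i) i) 0 := by
  rw [ae_all_iff]
  intro S
  have hM : ∀ k : α ⊕ ω, k ∉ grA α ω → k ∈ grM ω S := by
    rintro (k | k) hk
    · exact absurd (inl_mem_grA k) hk
    · exact inr_mem_grM S k
  filter_upwards [ae_good (κ := α ⊕ ω) hΦ hε hM (Sum.elim bα bω)] with Z hZ σ T X hX h0 hR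
  have hb : (fun a : ↥(grA α ω) => Sum.elim bα bω (a : α ⊕ ω)) = fun a => bα (eqA a) := by
    funext a
    rw [← inl_eqA a]
    rfl
  have hσ : (fun a : ↥(grA α ω) => Sum.elim σ (fun _ : ω => (0 : ℝ)) (a : α ⊕ ω)) =
      fun a => σ (eqA a) := by
    funext a
    rw [← inl_eqA a]
    rfl
  obtain ⟨Y, hY, hY0⟩ := hZ (Sum.elim σ fun _ => 0) T (fun t a => X t (eqA a)) (by
      rw [hb]
      exact hX.equiv eqA) (fun a => by rw [h0, inl_eqA]) (by
      rw [hb, hσ]
      refine ⟨fun i hi => ?_, fun i hi => ?_, fun i hi => ?_, fun i hi => ?_,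
        fun i hi t ht j hj hbj => ?_⟩
      all_goals
        have hi' : (i : α ⊕ ω) ∈ grM ω S := hi
        rw [← inl_eqA i, inl_mem_grM] at hi'
      · exact hR.pos _ hi'
      · exact hR.le _ hi'
      · exact hR.born _ hi'
      · obtain ⟨p, h1, h2, h3, h4⟩ := hR.exit _ hi'
        refine ⟨eqA.symm p, fun h => h1 ?_, ?_, ?_, ?_⟩
        · rw [← h, Equiv.apply_symm_apply]
        · simpa only [Equiv.apply_symm_apply] using h2
        · simpa only [Equiv.apply_symm_apply] using h3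
        · simpa only [Equiv.apply_symm_apply] using h4
      · exact hR.free _ hi' t ht _ (fun h => hj (eqA.injective h)) hbj)
  refine ⟨fun t x => Y t (eqM S x), ?_, ?_⟩
  · have h1 := hY.equiv (eqM S)
    have h2 : (fun x : ω ⊕ S => wb (grA α ω) (Sum.elim bα bω) (Sum.elim σ fun _ => 0)
        (eqM S x : α ⊕ ω)) = Sum.elim bω fun i : S => σ i := by
      funext x
      rcases x with x | x
      · show wb _ _ _ (Sum.inr x) = _
        unfold wb
        rw [if_neg (inr_not_mem_grA x)]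
        rfl
      · show wb _ _ _ (Sum.inl x.1) = _
        unfold wb
        rw [if_pos (inl_mem_grA x.1)]
        rfl
    rw [h2] at h1
    exact h1
  · funext x
    show Y 0 (eqM S x) = _
    rw [hY0]
    rcases x with x | x
    · show wz _ _ _ _ _ (Sum.inr x) = _
      unfold wz
      rw [dif_neg (inr_not_mem_grA x)]
      rfl
    · show wz _ _ _ _ _ (Sum.inl x.1) = _
      unfold wz
      rw [dif_pos (inl_mem_grA x.1)]
      rfl

/-- Product form. -/
theorem ae_world_prod (hΦ : AdmissiblePotential Φ) (hε : 0 < ε) (bα : α → ℝ) (bω : ω → ℝ) :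
    ∀ᵐ p ∂((volume : Measure (α → PhasePoint)).prod (volume : Measure (ω → PhasePoint))),
      ∀ (S : Finset α) (σ : α → ℝ) (T : ℝ) (X : ℝ → α → PhasePoint),
      BWorld Φ ε bα 0 X → X 0 = p.1 → Rel ε bα {a | a ∈ S} σ T X →
      ∃ Y : ℝ → ω ⊕ S → PhasePoint, BWorld Φ ε (Sum.elim bω fun i : S => σ i) 0 Y ∧
        Y 0 = Sum.elim p.2 fun i : S => lineAt (σ i) (X (σ i) i) 0 := by
  have he := (volume_measurePreserving_sumPiEquivProdPi_symm
    (fun _ : α ⊕ ω => PhasePoint)).quasiMeasurePreserving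
  have h1 := he.ae (ae_world (ω := ω) hΦ hε bα bω)
  rw [Measure.volume_eq_prod] at h1
  filter_upwards [h1] with p hp S σ T X hX h0 hR
  exact hp S σ T X hX (fun a => by rw [h0]; rfl) hR

end world

/-! ### Separation of simultaneous births -/

section sep

variable {ι κ κ' : Type} [Fintype ι] [Fintype κ] [Fintype κ']

theorem startSep_eventually {s : ℝ} {x y : ℝ → PhasePoint}
    (hx : HasDerivWithinAt (fun t => (x t).1) (x s).2 (Ici s) s)
    (hy : HasDerivWithinAt (fun t => (y t).1) (y s).2 (Ici s) s)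
    (h : StartSep ε (x s) (y s)) : ∃ δ > 0, ∀ t, s < t → t < s + δ →
      ε < dist (x t).1 (y t).1 := by
  have key : ∀ᶠ t in 𝓝[>] s, ε < dist (x t).1 (y t).1 := by
    rcases h with h | ⟨h, hin⟩
    · have h1 : ContinuousWithinAt (fun t => dist (x t).1 (y t).1) (Ioi s) s :=
        (hx.continuousWithinAt.mono Ioi_subset_Ici_self).dist
          (hy.continuousWithinAt.mono Ioi_subset_Ici_self)
      exact h1.eventually (Ioi_mem_nhds h)
    · have h1 : HasDerivWithinAt (fun t => ‖(x t).1 - (y t).1‖ ^ 2)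
          (2 * inner ℝ ((x s).1 - (y s).1) ((x s).2 - (y s).2)) (Ici s) s :=
        (hx.sub hy).norm_sq
      rw [← hasDerivWithinAt_Ioi_iff_Ici, hasDerivWithinAt_iff_tendsto_slope' (by simp)] at h1
      have h2 : ∀ᶠ t in 𝓝[>] s, 0 < slope (fun t => ‖(x t).1 - (y t).1‖ ^ 2) s t :=
        h1.eventually (Ioi_mem_nhds (by positivity))
      filter_upwards [h2, self_mem_nhdsWithin] with t ht hst
      have hst' : s < t := hst
      rw [slope_def_field, div_pos_iff_of_pos_right (by linarith)] at ht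
      rw [← dist_eq_norm, ← dist_eq_norm, h] at ht
      have h3 : ε ^ 2 < dist (x t).1 (y t).1 ^ 2 := by linarith
      exact lt_of_pow_lt_pow_left₀ 2 dist_nonneg h3
  obtain ⟨r, hr, hrs⟩ := (mem_nhdsGT_iff_exists_Ioo_subset).1 key
  refine ⟨r - s, by linarith [show s < r from hr], fun t h1 h2 => hrs ⟨h1, by linarith⟩⟩

/-- Particles with equal births start separated. -/
def SepB (ε : ℝ) (Z : MW ι) : Prop :=
  ∀ i j, i ≠ j → Z.b i = Z.b j →
    StartSep ε (lineAt 0 (Z.z i) (Z.b i)) (lineAt 0 (Z.z j) (Z.b j))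

theorem bworld_start (hΦ : AdmissiblePotential Φ) (hε : 0 < ε) {b : ι → ℝ}
    {X : ℝ → ι → PhasePoint} (hX : BWorld Φ ε b 0 X) (hb : ∀ i, 0 ≤ b i) (i : ι) :
    X (b i) i = lineAt 0 (X 0 i) (b i) := by
  rw [hX.free_of_unborn hΦ hε i (hb i) le_rfl]
  rfl

theorem birthSep_of (hΦ : AdmissiblePotential Φ) (hε : 0 < ε) {Z : MW ι} (hb : ∀ i, 0 ≤ Z.b i)
    (hX : BWorld Φ ε Z.b 0 (Z.path Φ ε)) (hS : SepB ε Z) : BirthSep Z.b (Z.path Φ ε) ε := by
  intro i j hij hbij
  have h1 := bworld_start hΦ hε hX hb i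
  have h2 := bworld_start hΦ hε hX hb j
  rw [MW.path_zero hΦ hε] at h1 h2
  rw [← hbij] at h2
  refine startSep_eventually (x := fun t => Z.path Φ ε t i) (y := fun t => Z.path Φ ε t j)
    (bworld_deriv_pos hX (hb i) i) (bworld_deriv_pos hX (hb i) j) ?_
  rw [h1, h2]
  have := hS i j hij hbij
  rwa [← hbij] at this

/-- `MW.Ok` from a world with births starting at the right state. -/
theorem ok_of (hΦ : AdmissiblePotential Φ) (hε : 0 < ε) {Z : MW ι} (hb : ∀ i, 0 ≤ Z.b i)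
    {Y : ℝ → ι → PhasePoint} (hY : BWorld Φ ε Z.b 0 Y) (hY0 : Y 0 = Z.z) (hS : SepB ε Z) :
    Z.Ok Φ ε := by
  have hX : BWorld Φ ε Z.b 0 (Z.path Φ ε) := hY.congr fun t ht => by
    rw [hY.eq_evo hΦ hε ht, hY0]
    rfl
  exact ⟨hX, birthSep_of hΦ hε hb hX hS⟩



theorem SepB.comap {Z : MW ι} (h : SepB ε Z) {e : κ → ι} (he : Function.Injective e) :
    SepB ε (Z.comap e) := fun i j hij hb => h (e i) (e j) (fun h' => hij (he h')) hb

theorem sepB_cfg {n : ℕ} {w : Config n} (hw : w ∈ PairExcluded ε n) : SepB ε (MW.cfg w) := by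
  intro i j hij _
  left
  have := hw i j hij
  simpa [MW.cfg, lineAt] using this

/-- The gas world is good. -/
theorem ok_cfg (hΦ : AdmissiblePotential Φ) (hε : 0 < ε) {n : ℕ} {w : Config n}
    (hw : w ∈ PairExcluded ε n) : (MW.cfg w).Ok Φ ε := by
  have hD : w ∈ Dom Φ (Fin n) := pairExcluded_subset_Dom (Φ := Φ) hε n hw
  refine ok_of hΦ hε (fun _ => le_rfl)
    (World.bworld (world_flow hΦ hε hD) fun _ => le_rfl) ?_ (sepB_cfg hw)
  exact Flow671.flow_zero hΦ hε w

theorem back_eq (l : ℝ × PhasePoint) : back l = lineAt l.1 l.2 0 := by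
  unfold back lineAt
  refine Prod.ext ?_ rfl
  simp only
  rw [zero_sub, neg_smul, sub_eq_add_neg]

/-- `SepB` for a world and lines. -/
theorem sepB_add_lines {Z : MW ι} {ls : κ → ML} (hZ : SepB ε Z)
    (hl : ∀ x y, x ≠ y → (ls x).1.1 = (ls y).1.1 → StartSep ε (ls x).1.2 (ls y).1.2)
    (hZl : ∀ i x, Z.b i = (ls x).1.1 → StartSep ε (lineAt 0 (Z.z i) (Z.b i)) (ls x).1.2) :
    SepB ε (Z.add (MW.lines ls)) := by
  have hline : ∀ x, lineAt 0 (back (ls x).1) (ls x).1.1 = (ls x).1.2 := by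
    intro x
    rw [back_eq, lineAt_lineAt, lineAt_self]
  have hsymm : ∀ {z z' : PhasePoint}, StartSep ε z z' → StartSep ε z' z := by
    rintro z z' (h | ⟨h, h'⟩)
    · exact Or.inl (by rwa [dist_comm])
    · refine Or.inr ⟨by rwa [dist_comm], ?_⟩
      rw [← neg_sub z.1 z'.1, ← neg_sub z.2 z'.2, inner_neg_neg]
      exact h'
  rintro (i | x) (j | y) hij hb
  · exact hZ i j (fun h => hij (by rw [h])) hb
  · show StartSep ε _ (lineAt 0 (back (ls y).1) (ls y).1.1)
    rw [hline]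
    exact hZl i y hb
  · show StartSep ε (lineAt 0 (back (ls x).1) (ls x).1.1) _
    rw [hline]
    exact hsymm (hZl j x hb.symm)
  · show StartSep ε (lineAt 0 (back (ls x).1) (ls x).1.1) (lineAt 0 (back (ls y).1) (ls y).1.1)
    rw [hline, hline]
    exact hl x y (fun h => hij (by rw [h])) hb

end sep

/-! ### Families of released lines -/

section fam

variable {α ω : Type} [Fintype α] [Fintype ω]

/-- **A.e. all sub-families of released lines give good worlds.** `W` : marked world with births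
`bω` and states `p.2`; `α`: isolated group with births `bα` and states `p.1`, motion `X`; `j x` the
particle of the line `ls x`, released at time `σ (j x)`. -/
theorem ae_okFam (hΦ : AdmissiblePotential Φ) (hε : 0 < ε) (bα : α → ℝ) (bω : ω → ℝ)
    (hbω : ∀ x, 0 ≤ bω x) :
    ∀ᵐ p ∂((volume : Measure (α → PhasePoint)).prod (volume : Measure (ω → PhasePoint))),
      ∀ (σ : α → ℝ) (T : ℝ) (X : ℝ → α → PhasePoint), BWorld Φ ε bα 0 X → X 0 = p.1 →
      ∀ (κ : Type) [Fintype κ] (j : κ → α) (ls : κ → ML) (W : MW ω), Function.Injective j →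
      Rel ε bα (range j) σ T X → (∀ x, (ls x).1 = (σ (j x), X (σ (j x)) (j x))) →
      W.b = bω → W.z = p.2 → SepB ε (W.add (MW.lines ls)) → MW.OkFam Φ ε W ls := by
  filter_upwards [ae_world_prod (α := α) hΦ hε bα bω] with p hp σ T X hX h0 κ _ j ls W hj hR hls hWb
    hWz hSep S
  set S' : Finset α := S.image j with hS'
  have hR' : Rel ε bα {a | a ∈ S'} σ T X := by
    have hsub : ∀ a ∈ {a | a ∈ S'}, a ∈ range j := by
      intro a ha
      obtain ⟨x, _, hx⟩ := Finset.mem_image.1 (show a ∈ S.image j from ha)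
      exact ⟨x, hx⟩
    exact ⟨fun i hi => hR.pos i (hsub i hi), fun i hi => hR.le i (hsub i hi),
      fun i hi => hR.born i (hsub i hi), fun i hi => hR.exit i (hsub i hi),
      fun i hi => hR.free i (hsub i hi)⟩
  obtain ⟨Y, hY, hY0⟩ := hp S' σ T X hX h0 hR'
  let e : ω ⊕ S ≃ ω ⊕ S' := Equiv.sumCongr (Equiv.refl ω)
    { toFun := fun x => ⟨j x, Finset.mem_image_of_mem j x.2⟩
      invFun := fun a => ⟨(Finset.mem_image.1 a.2).choose, (Finset.mem_image.1 a.2).choose_spec.1⟩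
      left_inv := fun x => Subtype.ext (hj
        (Finset.mem_image.1 (Finset.mem_image_of_mem j x.2)).choose_spec.2)
      right_inv := fun a => Subtype.ext (Finset.mem_image.1 a.2).choose_spec.2 }
  have hY' := hY.equiv e
  have hb : (fun x : ω ⊕ S => (Sum.elim bω fun i : S' => σ i) (e x)) =
      (W.add (sub ls S)).b := by
    funext x
    rcases x with x | x
    · show bω x = W.b x
      rw [hWb]
    · show σ (j x) = (ls x).1.1
      rw [hls]
  rw [hb] at hY'
  refine ok_of hΦ hε ?_ hY' ?_ ?_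
  · rintro (x | x)
    · show 0 ≤ W.b x
      rw [hWb]
      exact hbω x
    · show 0 ≤ (ls x).1.1
      rw [hls]
      exact (hR.pos _ ⟨x, rfl⟩).le
  · funext x
    show Y 0 (e x) = _
    rw [hY0]
    rcases x with x | x
    · show p.2 x = W.z x
      rw [hWz]
    · show lineAt (σ (j x)) (X (σ (j x)) (j x)) 0 = back (ls x).1
      rw [back_eq, hls]
  · have h1 := hSep.comap (e := Sum.map id (fun x : S => (x : κ)))
      (Function.injective_id.sumMap Subtype.val_injective)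
    have h2 : (W.add (MW.lines ls)).comap (Sum.map id (fun x : S => (x : κ))) =
        W.add (sub ls S) := by
      unfold sub MW.comap MW.add MW.lines
      congr 1 <;> · funext x; rcases x with x | x <;> rfl
    rwa [h2] at h1

/-- **Gas version**: the isolated group moves with the Newton flow, the world is the gas. -/
theorem ae_okFam_cfg (hΦ : AdmissiblePotential Φ) (hε : 0 < ε) (n : ℕ) :
    ∀ᵐ p ∂((volume : Measure (α → PhasePoint)).prod (volume : Measure (Config n))),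
      p.2 ∈ PairExcluded ε n →
      ∀ (σ : α → ℝ) (T : ℝ) (κ : Type) [Fintype κ] (j : κ → α) (ls : κ → ML),
      Function.Injective j → Rel ε (fun _ => 0) (range j) σ T (fun t => flow Φ ε t p.1) →
      (∀ x, (ls x).1 = (σ (j x), flow Φ ε (σ (j x)) p.1 (j x))) →
      (∀ x y, x ≠ y → (ls x).1.1 = (ls y).1.1 → StartSep ε (ls x).1.2 (ls y).1.2) →
      MW.OkFam Φ ε (MW.cfg p.2) ls := by
  have hinj : ∀ᵐ p ∂((volume : Measure (α → PhasePoint)).prod (volume : Measure (Config n))),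
      Inj p.1 := Measure.quasiMeasurePreserving_fst.ae ae_inj
  filter_upwards [ae_okFam (α := α) (ω := Fin n) hΦ hε (fun _ => 0) (fun _ => 0) fun _ => le_rfl,
    hinj] with p hp hI hw σ T κ _ j ls hj hR hls hsep
  have hD : p.1 ∈ Dom Φ α := Or.inr hI
  refine hp σ T (fun t => flow Φ ε t p.1)
    (World.bworld (world_flow hΦ hε hD) fun _ => le_rfl) (Flow671.flow_zero hΦ hε p.1) κ j ls
    (MW.cfg p.2) hj hR hls rfl rfl (sepB_add_lines (sepB_cfg hw) hsep fun i x h => ?_)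
  have h1 : (0 : ℝ) = (ls x).1.1 := h
  rw [hls] at h1
  exact absurd h1 (hR.pos _ ⟨x, rfl⟩).ne

end fam

end

end Crest.Agent.R122.TransOk151
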