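import Crest.Agent.R122.InEq2Main_311
import Crest.Agent.R122.InEq2TPt_335
import Crest.Agent.R122.InEq2APt_263
import Crest.Agent.R122.Q1Data_815
import Crest.Agent.R122.InEq2B_263
import Crest.Agent.R122.GIVChild_383
import Crest.Agent.R122.HitGate_522
import Crest.Agent.R122.BHGate_167
import Crest.Agent.R122.BadVolP_350_Mg
import Crest.Agent.R122.TreeGate_302
import Crest.Agent.R122.LNPart_424
import Crest.Agent.R122.PWInst2_442
import Crest.Agent.R122.ForGate_424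
import Crest.Agent.R122.LNBind_302
import Crest.Agent.R122.LNRetT_383
import Crest.Agent.R122.TransOk_151
import Crest.Agent.R122.LNTreeA_410
import Crest.Agent.R122.RetNull_424
import Crest.Agent.R122.ForGate2_424
import Crest.Agent.R122.BHPull_726
import Crest.Agent.R122.RetTop_424
import Crest.Agent.R122.InEq2TX_335
import Crest.Agent.R122.InEq2TXN_718
import Crest.Agent.R122.InEq2TInB_718

-- ▼ part R122/InEq2Adapt_311
section

/-!
# Row 122, INEQUALITY 2' (helper311): adaptation of helper335's functionals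

`FT ≤ FTg + FNG + FR` and `FL ≤ FLg`.
-/

set_option autoImplicit false

open MeasureTheory Set Filter Topology
open scoped ENNReal
open Crest.AnalysisR.Kinetic
open Crest.Agent.R122.Master566 Crest.Agent.R122.GIV566 Crest.Agent.R122.Top602
open Crest.Agent.R122.EDefs602 Crest.Agent.R122.GC311 Crest.Agent.R122.Causal291
open Crest.Agent.R122.Kin796 Crest.Agent.R122.Kin796.CTree Crest.Agent.R122.Tree674

noncomputable section

open scoped Classical

namespace Crest.Agent.R122.InEq2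

open Crest.Agent.R122.InEq2T (FTg FLg JT HisG HisP TchB)

variable {Φ : Space3 → ℝ} {f₀ : PhasePoint → ℝ} {f : ℝ → PhasePoint → ℝ} {ε : ℝ} {K : ℕ}
  {A : EPar} {T' : ℝ}

section pt

variable {k m : ℕ} {V : Config k} {w : Config m} {j : Fin k}

theorem JI.jt (h : JI Φ ε K A V w j) : JT Φ ε K A V w j := ⟨h.1, h.2.1⟩

theorem tchB_of_not_untch (h : ¬ Untch Φ ε K A V w j) : TchB Φ ε K A V w j := by
  unfold Untch at h
  push Not at h
  obtain ⟨s, hs, ht⟩ := h
  exact ⟨s, hs, ht⟩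

theorem Untch.not_tchB (h : Untch Φ ε K A V w j) : ¬ TchB Φ ε K A V w j := by
  rintro ⟨s, hs, ht⟩
  exact h s hs ht

theorem HTU.hisG (h : HTU Φ ε K A T' V w j) : HisG Φ ε K A T' V w j := by
  obtain ⟨P, ℓ, p, e, hH, hu⟩ := h
  exact ⟨P, (ℓ, p), e, hH, hu⟩

theorem HTU.hisP (h : HTU Φ ε K A T' V w j) : HisP Φ ε K A T' V w j := by
  obtain ⟨P, ℓ, p, e, hH, -⟩ := h
  exact ⟨P, (ℓ, p), e, hH⟩

end pt

theorem FT_le_FTg (hL : 0 ≤ A.L) {k m : ℕ} (V : Config k) (w : Config m) (j : Fin k) :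
    FT Φ ε K A k m V w j ≤ FTg Φ ε K A T' k m V w j + FNG Φ ε K A T' k m V w j +
      FR Φ ε K A T' k m V w j := by
  by_cases h : JI Φ ε K A V w j ∧ ¬ Untch Φ ε K A V w j
  swap
  · unfold FT
    rw [if_neg h]
    exact zero_le
  have h0 : FT Φ ε K A k m V w j = bwt ε V w * wmZ Φ ε K A V w j := if_pos h
  have hle : bwt ε V w * wmZ Φ ε K A V w j ≤ bwt ε V w :=
    (mul_le_mul_right (wmZ_le_one hL V w j) _).trans (mul_one _).le
  rw [h0]
  by_cases hH : HT Φ ε K A T' V w j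
  swap
  · have h1 : FNG Φ ε K A T' k m V w j = bwt ε V w := if_pos ⟨h.1, hH⟩
    rw [h1]
    exact hle.trans (le_add_self.trans le_self_add)
  by_cases hHU : HTU Φ ε K A T' V w j
  swap
  · have h1 : FR Φ ε K A T' k m V w j = bwt ε V w := if_pos ⟨h.1, hH, hHU⟩
    rw [h1]
    exact hle.trans le_add_self
  have h1 : FTg Φ ε K A T' k m V w j = (activity ε)⁻¹ *
      (eW (Fin.append V w : Config (k + m)) (block k m) *
      (MW.cfg (Fin.append V w : Config (k + m))).Wm Φ ε K A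
        (iTime Φ ε K A.te (Fin.append V w : Config (k + m)) (Fin.castAdd m j))) :=
    if_pos ⟨h.1.jt, tchB_of_not_untch h.2, hHU.hisG⟩
  rw [h1, add_assoc]
  refine le_trans (le_of_eq ?_) le_self_add
  unfold bwt wmZ sgm cat
  rw [mul_assoc]

theorem FL_le_FLg {k m : ℕ} (V : Config k) (w : Config m) (j : Fin k) :
    FL Φ ε K A T' k m V w j ≤ FLg Φ ε K A T' k m V w j := by
  by_cases h : JI Φ ε K A V w j ∧ Untch Φ ε K A V w j ∧ HTU Φ ε K A T' V w j
  swap
  · unfold FL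
    rw [if_neg h]
    exact zero_le
  have h0 : FL Φ ε K A T' k m V w j =
      bwt ε V w * (wmZ Φ ε K A V w j - wmw Φ ε K A V w j) := if_pos h
  have h1 : FLg Φ ε K A T' k m V w j = (activity ε)⁻¹ *
      (eW (Fin.append V w : Config (k + m)) (block k m) *
      ((MW.cfg (Fin.append V w : Config (k + m))).Wm Φ ε K A
        (iTime Φ ε K A.te (Fin.append V w : Config (k + m)) (Fin.castAdd m j)) -
      (MW.cfg w).Wm Φ ε K A
        (iTime Φ ε K A.te (Fin.append V w : Config (k + m)) (Fin.castAdd m j)))) :=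
    if_pos ⟨h.1.jt, h.2.1.not_tchB, h.2.2.hisP⟩
  rw [h0, h1]
  refine le_of_eq ?_
  unfold bwt wmZ wmw sgm cat
  rw [mul_assoc]

theorem InB.mono {F G : Fun} {T : ℝ} {γ : ℝ → ℝ} {ρ : ℝ≥0∞} {h₀ : ℝ}
    (h : InB Φ f₀ f T γ ρ h₀ G)
    (hFG : ∀ (ε L tw te T' : ℝ) (K : ℕ), 1 ≤ L → ∀ (k m : ℕ) (V : Config k) (w : Config m)
      (j : Fin k), F Φ ε K (epar γ ρ L tw te) T' k m V w j ≤
        G Φ ε K (epar γ ρ L tw te) T' k m V w j) :
    InB Φ f₀ f T γ ρ h₀ F := by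
  obtain ⟨C, hC, o, ho, hw⟩ := h
  refine ⟨C, hC, o, ho, hw.mono fun x L tw te _ hL _ hq hIH => ?_⟩
  obtain ⟨S, hS, hb⟩ := hq hIH
  refine ⟨S, hS, hb.mono fun K ε _ hB => hB.mono fun k m V w j _ _ _ => ?_⟩
  exact hFG ε L tw te (tw + h₀) K hL k m V w j

/-- The touched part from helper335's tree form. -/
theorem inB_FT_of {T : ℝ} {γ : ℝ → ℝ} {ρ : ℝ≥0∞} {h₀ : ℝ} (hΦ : AdmissiblePotential Φ)
    (hf : Measurable f₀) (hT : InB Φ f₀ f T γ ρ h₀ FTg) (hN : InB Φ f₀ f T γ ρ h₀ FNG)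
    (hR : InB Φ f₀ f T γ ρ h₀ FR) : InB Φ f₀ f T γ ρ h₀ fun Φ ε K A _ => FT Φ ε K A :=
  InB.mono ((hT.add hΦ hf hN).add hΦ hf hR) fun _ _ _ _ _ _ hL _ _ V w j =>
    FT_le_FTg (zero_le_one.trans hL) V w j

/-- The difference of the weights from helper335's tree form. -/
theorem inB_FL_of {T : ℝ} {γ : ℝ → ℝ} {ρ : ℝ≥0∞} {h₀ : ℝ} (hL : InB Φ f₀ f T γ ρ h₀ FLg) :
    InB Φ f₀ f T γ ρ h₀ FL :=
  InB.mono hL fun _ _ _ _ _ _ _ _ _ V w j => FL_le_FLg V w j

end Crest.Agent.R122.InEq2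

end
end

-- ▼ part R122/InEq2AIn_263
section

/-!
# Row 122, INEQUALITY 2': the untouched flux term `InB FA` (helper263)

* `card_le_of_JI`, `range_of_JI` : the cluster of a joining has at most `K` particles, the labelling
  of its history covers the block.
* `FA_le_ways` : `FA ≤ ways (HA)` pointwise.
* `inB_FA` : **`InB FA`** for all horizons `h₀ ≤ h₁` (`h₁` from the data).
-/

set_option autoImplicit false

open MeasureTheory Set Filter
open scoped ENNReal Topology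
open Crest.AnalysisR.Kinetic
open Crest.Agent.R122.Flow671 Crest.Agent.R122.Loc45 Crest.Agent.R122.Causal291
open Crest.Agent.R122.Inf879 Crest.Agent.R122.GC311 Crest.Agent.R122.EDefs602
open Crest.Agent.R122.Kin796 Crest.Agent.R122.Kin796.CTree Crest.Agent.R122.Tree674
open Crest.Agent.R122.InEq2 Crest.Agent.R122.GIV566 Crest.Agent.R122.TreeBound335
open Crest.Agent.R122.Master566 Crest.Agent.R122.Top602 Crest.Agent.R122.Unw410

noncomputable section

open scoped Classical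

namespace Crest.Agent.R122.InEq2A263

section pt

variable {Φ : Space3 → ℝ} {ε : ℝ} {K : ℕ} {A : EPar} {T' : ℝ} {k m : ℕ} {V : Config k}
  {w : Config m} {j : Fin k}

theorem sgm_pos (htw : 0 ≤ A.tw) (h : JI Φ ε K A V w j) : 0 < sgm Φ ε K A V w j :=
  htw.trans_lt h.2.1.1

theorem sgm_le (h : JI Φ ε K A V w j) : sgm Φ ε K A V w j ≤ A.te := h.2.1.2

/-- The cluster of a joining has at most `K` particles. -/
theorem card_le_of_JI (hΦ : AdmissiblePotential Φ) (hε : 0 < ε) (htw : 0 ≤ A.tw)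
    (h : JI Φ ε K A V w j) : k ≤ K := by
  have h1 : (preC Φ ε (cat V w) (sgm Φ ε K A V w j) (Fin.castAdd m j)).card ≤ K :=
    card_preC_le hΦ hε (sgm_pos htw h)
  rw [h.1, card_block] at h1
  exact h1

/-- The labelling of the history covers the block. -/
theorem range_of_JI (hε : 0 < ε) (hT : 0 ≤ T') (htw : 0 ≤ A.tw)
    (h : JI Φ ε K A V w j) {R : CTree} {ℓ : PhasePoint} {p : Par R} {e : Idx R → Fin (k + m)}
    (ht : HTreeP Φ ε T' (sgm Φ ε K A V w j) (cat V w) (Fin.castAdd m j) R ℓ p e) :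
    range e = ((block k m : Finset (Fin (k + m))) : Set (Fin (k + m))) := by
  rw [ht.range_eq hε hT (sgm_pos htw h), ← h.1]
  ext q
  rw [Finset.mem_coe]
  exact (mem_preC_iff_pre _ (sgm_pos htw h) _ _).symm

/-- **Pointwise**: `FA` is at most `ways (HA)`. -/
theorem FA_le_ways (hΦ : AdmissiblePotential Φ) (hε : 0 < ε) (hL : 0 ≤ A.L) (htw : 0 ≤ A.tw)
    (hT : A.te ≤ T') (V : Config k) (w : Config m) (j : Fin k) :
    FA Φ ε K A T' k m V w j ≤ ways Φ ε T' (fun R z => HA Φ ε K A R z m w) V j := by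
  unfold FA
  split_ifs with h
  swap
  · exact bot_le
  obtain ⟨hJ, -, ⟨R, ℓ, p, e, ht, hun⟩, hfree, l, hl, hd⟩ := h
  have hσ := sgm_pos htw hJ
  have hσe := sgm_le hJ
  have h0 : 0 ≤ T' := (hσ.le.trans hσe).trans hT
  have hfr := ht.free hΦ hε hσ (hσe.trans hT) hfree
  have hl' : iTime Φ ε K A.te w l ≤ sgm Φ ε K A V w j :=
    ((gInfB_iff_sig hΦ hε (b := A.te + 1) (hσe.trans (by linarith))).1 hl).le
  rw [dist_comm] at hd
  refine le_trans (le_of_eq ?_) (le_ways_HA hΦ hε hL h0 hσ (card_le_of_JI hΦ hε htw hJ)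
    hJ.2.1.1.le hσe ht (range_of_JI hε h0 htw hJ ht) hun hfr hl' hd)
  unfold bwt wmw
  rw [mul_assoc]

end pt

variable {Φ : Space3 → ℝ} {f₀ : PhasePoint → ℝ} {f : ℝ → PhasePoint → ℝ} {β T : ℝ}

/-- **`InB FA`.** -/
theorem inB_FA (hD : KData Φ β T f₀ f) :
    ∃ h₁ : ℝ, 0 < h₁ ∧ ∀ (γ : ℝ → ℝ) (ρ : ℝ≥0∞) (h₀ : ℝ), 0 < h₀ → h₀ ≤ h₁ →
      InB Φ f₀ f T γ ρ h₀ FA := by
  have hΦ := hD.adm
  have hf : Measurable f₀ := hD.contDiff.continuous.measurable
  obtain ⟨h₁, hh₁, c, hc, hfl⟩ := fluxA (f₀ := f₀) hΦ hD.beta_pos hD.T_pos hD.sol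
  refine ⟨h₁, hh₁, fun γ ρ h₀ hh₀ hle => ?_⟩
  refine ⟨0, ENNReal.zero_ne_top, fun x _ => (c * ENNReal.ofReal (cB Φ) * 2) * ENNReal.ofReal x,
    Vanish.length.const_mul (ENNReal.mul_ne_top (ENNReal.mul_ne_top hc ENNReal.ofReal_ne_top)
      (by norm_num)), h₀, hh₀, 1, fun h L tw te hh hhle _ hL hw hIH => ?_⟩
  have htw : 0 ≤ tw := hw.nonneg
  have hteT : te ≤ tw + h₀ := hw.short.trans (by linarith)
  have hX := Q1815.Ctx.of_ih hD (tw := tw) ⟨htw, hw.le.trans hw.le_T⟩ hIH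
    (T₀ := tw + h₀) (by linarith)
  obtain ⟨q, hq, hb⟩ := hfl (epar γ ρ L tw te) (tw + h₀) (tw + h₀) hX
    (zero_le_one.trans hL) hw.le ⟨by linarith, by show tw + h₀ ≤ tw + h₁; linarith⟩ le_rfl
  have hJ : Small fun K ε => JE Φ f₀ ε K tw := by
    refine Small.mono hIH.je fun K ε _ => ?_
    exact le_iSup₂_of_le tw ⟨htw, le_rfl⟩ le_rfl
  refine ⟨fun K ε => (c * ENNReal.ofReal (1 + h)) * JE Φ f₀ ε K tw + q K ε,
    (hJ.const_mul (ENNReal.mul_ne_top hc ENNReal.ofReal_ne_top)).add hq.small, ?_⟩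
  refine ⟨0, fun K _ => ⟨min 1 h, lt_min one_pos hh, fun ε hε hεlt => ?_⟩⟩
  have hε1 : ε ≤ 1 := hεlt.le.trans (min_le_left _ _)
  have hεh : ε ≤ h := hεlt.le.trans (min_le_right _ _)
  refine Bnd.of_H (measTS_HA hΦ hε K (epar γ ρ L tw te)) (fun k m V w j _ _ _ =>
    FA_le_ways hΦ hε (zero_le_one.trans hL) htw hteT V w j) ?_
  refine (hb K ε hε).trans ?_
  have h1 : ENNReal.ofReal (ε + ((epar γ ρ L tw te).te - (epar γ ρ L tw te).tw)) ≤
      ENNReal.ofReal (1 + h) := ENNReal.ofReal_le_ofReal (by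
        show ε + (te - tw) ≤ 1 + h
        linarith [hw.short])
  have h2 : ENNReal.ofReal (ε + ((epar γ ρ L tw te).te - (epar γ ρ L tw te).tw)) ≤
      2 * ENNReal.ofReal h := by
    have e2 : (2 : ℝ≥0∞) * ENNReal.ofReal h = ENNReal.ofReal (2 * h) := by
      rw [ENNReal.ofReal_mul (by norm_num), ENNReal.ofReal_ofNat]
    rw [e2]
    refine ENNReal.ofReal_le_ofReal ?_
    show ε + (te - tw) ≤ 2 * h
    linarith [hw.short]
  rw [zero_mul, zero_add]
  calc c * ENNReal.ofReal (ε + ((epar γ ρ L tw te).te - (epar γ ρ L tw te).tw)) *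
        (JE Φ f₀ ε K tw + ENNReal.ofReal (cB Φ) * aE Φ f₀ ε K (epar γ ρ L tw te)) + q K ε
      = c * ENNReal.ofReal (ε + ((epar γ ρ L tw te).te - (epar γ ρ L tw te).tw)) *
        JE Φ f₀ ε K tw + c * ENNReal.ofReal (ε + ((epar γ ρ L tw te).te -
        (epar γ ρ L tw te).tw)) * (ENNReal.ofReal (cB Φ) * aE Φ f₀ ε K (epar γ ρ L tw te)) +
        q K ε := by ring
    _ ≤ c * ENNReal.ofReal (1 + h) * JE Φ f₀ ε K tw + c * (2 * ENNReal.ofReal h) *
        (ENNReal.ofReal (cB Φ) * aE Φ f₀ ε K (epar γ ρ L tw te)) + q K ε := by gcongr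
    _ = _ := by ring

end Crest.Agent.R122.InEq2A263

end
end

-- ▼ part R122/InEq2BIn_263
section

/-!
# Row 122, INEQUALITY 2': the old-contact term `InB FB` (helper263)

* `HB` : `[leaves ≤ K] act⁻¹ wQ 1[z separated, TopHit]`, `measTS_HB`, `TS_HB_le`.
* `FB_le_ways` : `FB ≤ ways (HB)` pointwise (`HTreeP.mid`, `HTreeP.chain_state` of helper311).
* `inB_FB` : **`InB FB`** for every horizon.
-/

set_option autoImplicit false

open MeasureTheory Set Filter
open scoped ENNReal Topology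
open Crest.AnalysisR.Kinetic
open Crest.Agent.R122.Flow671 Crest.Agent.R122.Loc45 Crest.Agent.R122.Causal291
open Crest.Agent.R122.Inf879 Crest.Agent.R122.GC311 Crest.Agent.R122.EDefs602
open Crest.Agent.R122.Kin796 Crest.Agent.R122.Kin796.CTree Crest.Agent.R122.Tree674
open Crest.Agent.R122.InEq2 Crest.Agent.R122.GIV566 Crest.Agent.R122.TreeBound335
open Crest.Agent.R122.Master566 Crest.Agent.R122.Top602 Crest.Agent.R122.Unw410
open Crest.Agent.R122.InEq2A263 Crest.Agent.R122.InEq2B263 Crest.Agent.R122.TreeLim974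
open Crest.Agent.R122.ToTree335

noncomputable section

open scoped Classical

namespace Crest.Agent.R122.InEq2BIn263

variable {Φ : Space3 → ℝ} {f₀ : PhasePoint → ℝ} {f : ℝ → PhasePoint → ℝ} {β T : ℝ} {ε : ℝ}
  {K : ℕ} {A : EPar} {T' : ℝ}

/-- The tree functional of the old-contact term. -/
def HB (Φ : Space3 → ℝ) (ε : ℝ) (K : ℕ) (A : EPar) (T' : ℝ) (R : CTree) (z : PhasePoint × Par R)
    (m : ℕ) (w : Config m) : ℝ≥0∞ :=
  if R.leaves ≤ K ∧ (z ∈ goodS Φ ε R T' ∧ TopHit Φ ε A.tw A.te R w z) then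
    (activity ε)⁻¹ * wQ Φ ε R z else 0

theorem measurableSet_hb (hΦ : AdmissiblePotential Φ) (hε : 0 < ε) (A : EPar) (T' : ℝ) (R : CTree)
    (m : ℕ) : MeasurableSet {q : (PhasePoint × Par R) × Config m |
      q.1 ∈ goodS Φ ε R T' ∧ TopHit Φ ε A.tw A.te R q.2 q.1} :=
  measurable_swap (measurableSet_topHit (κ := Fin m) hΦ hε R T')

theorem measTS_HB (hΦ : AdmissiblePotential Φ) (hε : 0 < ε) (K : ℕ) (A : EPar) (T' : ℝ) :
    MeasTS (HB Φ ε K A T') := by
  intro R m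
  unfold HB
  refine Measurable.ite ((MeasurableSet.const _).inter (measurableSet_hb hΦ hε A T' R m))
    (((measurable_wQ hΦ R).comp measurable_fst).const_mul _) measurable_const

/-- Measurable form of the integrand of (B)-null. -/
def gB (Φ : Space3 → ℝ) (f₀ : PhasePoint → ℝ) (ε : ℝ) (A : EPar) (T' : ℝ) (R : CTree) (m : ℕ)
    (z : PhasePoint × Par R) (w : Config m) : ℝ≥0∞ :=
  {q : (PhasePoint × Par R) × Config m |
      q.1 ∈ goodS Φ ε R T' ∧ TopHit Φ ε A.tw A.te R q.2 q.1}.indicator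
    (fun q => wtM Φ R q.1.1.2 q.1.2 * (pfM Φ f₀ ε R q.1 * wQ Φ ε R q.1)) (z, w)

theorem measurable_gB (hΦ : AdmissiblePotential Φ) (hf : Measurable f₀) (hε : 0 < ε) (A : EPar)
    (T' : ℝ) (R : CTree) (m : ℕ) :
    Measurable fun q : (PhasePoint × Par R) × Config m => gB Φ f₀ ε A T' R m q.1 q.2 := by
  unfold gB
  refine Measurable.indicator ?_ (measurableSet_hb hΦ hε A T' R m)
  have h1 : Measurable fun q : (PhasePoint × Par R) × Config m => wtM Φ R q.1.1.2 q.1.2 :=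
    (measurable_wtM hΦ R).comp (f := fun q : (PhasePoint × Par R) × Config m => (q.1.1.2, q.1.2))
      (measurable_fst.fst.snd.prodMk measurable_fst.snd)
  exact h1.mul (((measurable_pfM hΦ hf R).comp measurable_fst).mul
    ((measurable_wQ hΦ R).comp measurable_fst))

theorem gB_eq {R : CTree} {m : ℕ} (z : PhasePoint × Par R) (w : Config m) :
    gB Φ f₀ ε A T' R m z w = (goodS Φ ε R T').indicator (fun z =>
        tA Φ (fun z => ENNReal.ofReal (f₀ z)) ε R z * wQ Φ ε R z *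
          {z | TopHit Φ ε A.tw A.te R w z}.indicator 1 z) z := by
  unfold gB
  by_cases hz : z ∈ goodS Φ ε R T'
  · rw [indicator_of_mem hz]
    by_cases ht : TopHit Φ ε A.tw A.te R w z
    · rw [indicator_of_mem (show (z, w) ∈ {q : (PhasePoint × Par R) × Config m |
        q.1 ∈ goodS Φ ε R T' ∧ TopHit Φ ε A.tw A.te R q.2 q.1} from ⟨hz, ht⟩),
        indicator_of_mem (show z ∈ {z | TopHit Φ ε A.tw A.te R w z} from ht), Pi.one_apply, mul_one]
      simp only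
      rw [wtM_of_adm hz.1.1, pfM_of_adm hz.1.1]
      unfold tA pf
      ring
    · rw [indicator_of_notMem (show (z, w) ∉ {q : (PhasePoint × Par R) × Config m |
        q.1 ∈ goodS Φ ε R T' ∧ TopHit Φ ε A.tw A.te R q.2 q.1} from fun h => ht h.2),
        indicator_of_notMem (show z ∉ {z | TopHit Φ ε A.tw A.te R w z} from ht), mul_zero]
  · rw [indicator_of_notMem hz, indicator_of_notMem (show (z, w) ∉ {q : (PhasePoint × Par R) ×
      Config m | q.1 ∈ goodS Φ ε R T' ∧ TopHit Φ ε A.tw A.te R q.2 q.1} from fun h => hz h.1)]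

/-- One tree shape: the integrand of `act · TS`. -/
theorem integrand_le (hε : 0 < ε) (R : CTree) (hR : R.leaves ≤ K)
    (z : PhasePoint × Par R) :
    activity ε * {z : PhasePoint × Par R | Valid Φ ε R T' z.1.2 z.2}.indicator
      (fun z => wt Φ R z.1.2 z.2 * (pf Φ f₀ ε R z * gcE f₀ ε fun m w => HB Φ ε K A T' R z m w)) z ≤
    gcE f₀ ε fun n w => gB Φ f₀ ε A T' R n z w := by
  by_cases hz : Valid Φ ε R T' z.1.2 z.2
  swap
  · rw [indicator_of_notMem (show z ∉ {z : PhasePoint × Par R | Valid Φ ε R T' z.1.2 z.2} from hz),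
      mul_zero]
    exact bot_le
  rw [indicator_of_mem (show z ∈ {z : PhasePoint × Par R | Valid Φ ε R T' z.1.2 z.2} from hz)]
  have hact : (activity ε)⁻¹ ≠ ∞ := ENNReal.inv_ne_top.2 (activity_ne_zero hε)
  have hQ : wQ Φ ε R z ≠ ∞ := by
    unfold wQ
    exact ENNReal.sum_ne_top.2 fun _ _ => ENNReal.ofReal_ne_top
  have hpf : pf Φ f₀ ε R z ≠ ∞ := ENNReal.prod_ne_top fun _ _ => ENNReal.ofReal_ne_top
  have hwt : wt Φ R z.1.2 z.2 ≠ ∞ := Forest399.wt_ne_top R _ _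
  set X : ℝ≥0∞ := gcE f₀ ε fun m w =>
    {q : (PhasePoint × Par R) × Config m |
      q.1 ∈ goodS Φ ε R T' ∧ TopHit Φ ε A.tw A.te R q.2 q.1}.indicator 1 (z, w) with hX
  have e1 : (gcE f₀ ε fun m w => HB Φ ε K A T' R z m w) = ((activity ε)⁻¹ * wQ Φ ε R z) * X := by
    rw [hX, ← gcE_const_mul f₀ ε (ENNReal.mul_ne_top hact hQ)]
    refine gcE_congr f₀ ε fun m w _ => ?_
    unfold HB
    by_cases h : z ∈ goodS Φ ε R T' ∧ TopHit Φ ε A.tw A.te R w z
    · rw [if_pos ⟨hR, h⟩, indicator_of_mem (show (z, w) ∈ {q : (PhasePoint × Par R) × Config m |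
        q.1 ∈ goodS Φ ε R T' ∧ TopHit Φ ε A.tw A.te R q.2 q.1} from h), Pi.one_apply, mul_one]
    · rw [if_neg fun h' => h h'.2, indicator_of_notMem (show (z, w) ∉ {q : (PhasePoint × Par R) ×
        Config m | q.1 ∈ goodS Φ ε R T' ∧ TopHit Φ ε A.tw A.te R q.2 q.1} from h), mul_zero]
  have e2 : (gcE f₀ ε fun n w => gB Φ f₀ ε A T' R n z w) =
      (wt Φ R z.1.2 z.2 * (pf Φ f₀ ε R z * wQ Φ ε R z)) * X := by
    rw [hX, ← gcE_const_mul f₀ ε (ENNReal.mul_ne_top hwt (ENNReal.mul_ne_top hpf hQ))]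
    refine gcE_congr f₀ ε fun m w _ => ?_
    unfold gB
    by_cases h : z ∈ goodS Φ ε R T' ∧ TopHit Φ ε A.tw A.te R w z
    · rw [indicator_of_mem (show (z, w) ∈ {q : (PhasePoint × Par R) × Config m |
        q.1 ∈ goodS Φ ε R T' ∧ TopHit Φ ε A.tw A.te R q.2 q.1} from h),
        indicator_of_mem (show (z, w) ∈ {q : (PhasePoint × Par R) × Config m |
        q.1 ∈ goodS Φ ε R T' ∧ TopHit Φ ε A.tw A.te R q.2 q.1} from h), Pi.one_apply, mul_one]
      simp only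
      rw [wtM_of_adm hz.1, pfM_of_adm hz.1]
    · rw [indicator_of_notMem (show (z, w) ∉ {q : (PhasePoint × Par R) ×
        Config m | q.1 ∈ goodS Φ ε R T' ∧ TopHit Φ ε A.tw A.te R q.2 q.1} from h),
        indicator_of_notMem (show (z, w) ∉ {q : (PhasePoint × Par R) ×
        Config m | q.1 ∈ goodS Φ ε R T' ∧ TopHit Φ ε A.tw A.te R q.2 q.1} from h), mul_zero]
  rw [e1, e2]
  refine le_of_eq ?_
  calc activity ε * (wt Φ R z.1.2 z.2 * (pf Φ f₀ ε R z *
        (((activity ε)⁻¹ * wQ Φ ε R z) * X)))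
      = (activity ε * (activity ε)⁻¹) * ((wt Φ R z.1.2 z.2 * (pf Φ f₀ ε R z * wQ Φ ε R z)) * X) := by
        ring
    _ = _ := by
        rw [ENNReal.mul_inv_cancel (activity_ne_zero hε) (activity_ne_top ε), one_mul]

/-- **The tree integral of `HB`** is the quantity of (B)-null. -/
theorem TS_HB_le (hΦ : AdmissiblePotential Φ) (hf : Measurable f₀) (hε : 0 < ε) :
    activity ε * InEq2.TS Φ f₀ ε T' (HB Φ ε K A T') ≤
      gcE f₀ ε (fun _ w => ∑ R ∈ GIVStep383.trees K, ∫⁻ z, (goodS Φ ε R T').indicator (fun z =>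
        tA Φ (fun z => ENNReal.ofReal (f₀ z)) ε R z * wQ Φ ε R z *
          {z | TopHit Φ ε A.tw A.te R w z}.indicator 1 z) z) := by
  have e0 : ∀ R ∉ GIVStep383.trees K, (activity ε * ∫⁻ z : PhasePoint × Par R,
      {z : PhasePoint × Par R | Valid Φ ε R T' z.1.2 z.2}.indicator
      (fun z => wt Φ R z.1.2 z.2 * (pf Φ f₀ ε R z * gcE f₀ ε fun m w => HB Φ ε K A T' R z m w)) z)
      = 0 := by
    intro R hR
    have hR' : ¬ R.leaves ≤ K := fun hh => hR (GIVStep383.mem_trees.2 hh)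
    have e3 : ∀ z : PhasePoint × Par R, (gcE f₀ ε fun m w => HB Φ ε K A T' R z m w) = 0 := by
      intro z
      rw [← gcE_zero f₀ ε]
      congr 1
      funext m w
      unfold HB
      exact if_neg fun hh => hR' hh.1
    simp only [e3, mul_zero, indicator_zero, lintegral_zero]
  unfold InEq2.TS
  rw [← ENNReal.tsum_mul_left, tsum_eq_sum e0]
  have e1 : (gcE f₀ ε (fun (_ : ℕ) (w : Config _) => ∑ R ∈ GIVStep383.trees K,
      ∫⁻ z, (goodS Φ ε R T').indicator (fun z =>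
        tA Φ (fun z => ENNReal.ofReal (f₀ z)) ε R z * wQ Φ ε R z *
          {z | TopHit Φ ε A.tw A.te R w z}.indicator 1 z) z)) =
      ∑ R ∈ GIVStep383.trees K, gcE f₀ ε (fun n w => ∫⁻ z, gB Φ f₀ ε A T' R n z w) := by
    rw [← gcE_finset_sum hf ε (GIVStep383.trees K)
      (F := fun R n w => ∫⁻ z, gB Φ f₀ ε A T' R n z w)
      fun R _ n => ((measurable_gB hΦ hf hε A T' R n).comp measurable_swap).lintegral_prod_right']
    refine gcE_congr f₀ ε fun m w _ => Finset.sum_congr rfl fun R _ => lintegral_congr fun z => ?_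
    exact (gB_eq z w).symm
  rw [e1]
  refine Finset.sum_le_sum fun R hR => ?_
  rw [← lintegral_const_mul' _ _ (activity_ne_top ε)]
  refine (lintegral_mono fun z => integrand_le hε R (GIVStep383.mem_trees.1 hR) z).trans
    (le_of_eq ?_)
  refine BadHit370.lintegral_gcE hf ε (volume : Measure (PhasePoint × Par R))
      (F := fun n z w => gB Φ f₀ ε A T' R n z w) fun n => ?_
  exact measurable_gB hΦ hf hε A T' R n

/-- **The tree integral of `HB` is null**, uniformly in the window. -/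
theorem exists_TS_HB (hD : KData Φ β T f₀ f) (K : ℕ) {T' : ℝ} (hT' : 0 ≤ T') :
    ∃ q : ℝ → ℝ≥0∞, Tendsto q (𝓝[>] 0) (𝓝 0) ∧ ∀ ε, 0 < ε → ∀ A : EPar,
      activity ε * InEq2.TS Φ f₀ ε T' (HB Φ ε K A T') ≤ q ε := by
  have hΦ := hD.adm
  have hf : Measurable f₀ := hD.contDiff.continuous.measurable
  have h1 : ∫⁻ z, ENNReal.ofReal (f₀ z) ≤ 1 := (Q1815.lintegral_mass hD).le
  have hβ := hD.beta_pos
  have hmom := (Mom974.lintegral_f0_weight_ne_top (by linarith : 0 < 2 * β) hD.gaussian).1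
  obtain ⟨C, hC, hb⟩ := exists_gaussian_bound hD.gaussian
  have hk : ∀ z, ENNReal.ofReal (f₀ z) ≤
      ENNReal.ofReal (C * Real.exp (-(2 * β) * ‖z.2‖ ^ 2)) := by
    intro z
    refine ENNReal.ofReal_le_ofReal ?_
    have h2 := hb z.1 z.2
    have h3 : f₀ z ≤ ‖f₀ (z.1, z.2)‖ := le_abs_self _
    refine h3.trans (h2.trans (le_of_eq ?_))
    rw [neg_mul]
  obtain ⟨Cφ, hCφ, hw⟩ := exists_energy_weight_le hΦ (GIVStep383.trees K) hβ 1
  obtain ⟨q, hq, hle⟩ := bnull_tree hΦ hf h1 hmom hC hk (GIVStep383.trees K) hT' hCφ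
    (by linarith : β < 2 * β)
  refine ⟨q, hq, fun ε hε A => (TS_HB_le hΦ hf hε).trans
    (hle ε hε A.tw A.te (fun R z => wQ Φ ε R z) fun R hR z hz => ?_)⟩
  have h4 := hw R hR z.1.2 z.2 hz.1.1
  rw [pow_one] at h4
  refine le_trans (le_of_eq ?_) h4
  rw [wQ_eq hz.1.1]
  refine Finset.sum_congr rfl fun i _ => ?_
  rw [Hid424.lines_vel]

/-! ### Pointwise -/

/-- **Pointwise**: `FB` is at most `ways (HB)`. -/
theorem FB_le_ways (hΦ : AdmissiblePotential Φ) (hε : 0 < ε) (htw : 0 ≤ A.tw)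
    (hT : A.te ≤ T') {k m : ℕ} (V : Config k) (w : Config m) (j : Fin k) :
    FB Φ ε K A T' k m V w j ≤ ways Φ ε T' (fun R z => HB Φ ε K A T' R z m w) V j := by
  unfold FB
  split_ifs with h
  swap
  · exact bot_le
  obtain ⟨hJ, -, ⟨R, ℓ, p, e, ht, -⟩, r, q, l, hr, hold, hch, hl, hd⟩ := h
  have hσ := sgm_pos htw hJ
  have hσe := sgm_le hJ
  have h0 : 0 ≤ T' := (hσ.le.trans hσe).trans hT
  obtain ⟨e', he'⟩ := exists_equiv_block ht.inj (range_of_JI hε h0 htw hJ ht)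
  have hlines : ∀ x, V (e' x) = lines Φ ε R ℓ p x := by
    intro x
    have h3 := ht.lines_eq hΦ hε h0 hσ x
    rw [he' x] at h3
    rw [← h3]
    exact (Fin.append_left V w (e' x)).symm
  have hroot : e' (Tree674.root R) = j := by
    apply Fin.castAdd_injective k m
    rw [← he', ht.root]
  have hleaves : R.leaves ≤ K := by
    have h3 : Fintype.card (Idx R) = k := by
      rw [Fintype.card_congr e', Fintype.card_fin]
    rw [card_idx] at h3
    rw [h3]
    exact card_le_of_JI hΦ hε htw hJ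
  refine le_trans ?_ (le_ways hΦ hε (G := fun R z => HB Φ ε K A T' R z m w) hroot ht.valid hlines)
  have hgood : ((ℓ, p) : PhasePoint × Par R) ∈ goodS Φ ε R T' := ⟨ht.valid, ht.sep⟩
  have hmid := ht.mid hΦ hε hσ (hσe.trans hT) hr hold
  obtain ⟨x, -, hx⟩ := ht.chain_state hΦ hε hσ hch
  have hhit : TopHit Φ ε A.tw A.te R w (ℓ, p) := by
    refine ⟨sgm Φ ε K A V w j, ⟨hJ.2.1.1.le, hσe⟩, ?_, x, l, ?_⟩
    · cases R with
      | leaf =>
        -- the root of a leaf tree has no partner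
        exfalso
        have h3 : r ∈ pre (Ct (pth Φ ε (cat V w)) ε) (Fin.castAdd m j) (sgm Φ ε K A V w j) 0 :=
          mem_pre_of_oldCt hold hσ
        obtain ⟨y, hy, -⟩ := (ht.past 0 le_rfl hσ r).1 h3
        have h4 : y = Tree674.root leaf :=
          @Subsingleton.elim (Idx leaf) (inferInstanceAs (Subsingleton Unit)) _ _
        rw [h4, ht.root] at hy
        exact hr hy.symm
      | node R₁ R₂ => exact hmid
    · show dist (path Φ ε R ℓ p (sgm Φ ε K A V w j) x).1 (pth Φ ε w (sgm Φ ε K A V w j) l).1 ≤ ε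
      rw [← hx, dist_comm]
      exact hd
  show bwt ε V w ≤ HB Φ ε K A T' R (ℓ, p) m w
  unfold HB bwt
  rw [if_pos ⟨hleaves, hgood, hhit⟩]
  exact le_of_eq (congrArg _ (eW_block e' ht.valid.1 hlines))

/-- **`InB FB`.** -/
theorem inB_FB (hD : KData Φ β T f₀ f) (γ : ℝ → ℝ) (ρ : ℝ≥0∞) {h₀ : ℝ} (hh₀ : 0 < h₀) :
    InB Φ f₀ f T γ ρ h₀ FB := by
  have hΦ := hD.adm
  refine InB.of_null ⟨h₀, hh₀, 1, fun h L tw te hh hhle _ hL hw _ K => ?_⟩
  have htw : 0 ≤ tw := hw.nonneg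
  have hteT : te ≤ tw + h₀ := hw.short.trans (by linarith)
  obtain ⟨q, hq, hb⟩ := exists_TS_HB hD K (T' := tw + h₀) (by linarith)
  refine ⟨q, hq, eventually_nhdsWithin_of_forall fun ε hε => ?_⟩
  have hε' : 0 < ε := hε
  exact Bnd.of_H (measTS_HB hΦ hε' K (epar γ ρ L tw te) (tw + h₀)) (fun k m V w j _ _ _ =>
    FB_le_ways hΦ hε' htw hteT V w j) (hb ε hε' _)

end Crest.Agent.R122.InEq2BIn263

end
end

-- ▼ part R122/LNForest_424
section

/-!
# Row 122, LN1 (helper424): a forest and the gas as a virtual system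

* `fM`, `fZ`, `fe`, `fΛ` : the virtual system of the gas `w` and the forest `q`, its parts.
* `forest` : `Forest` (helper442); `parts` : `LN304.Parts`; `sparts` : `SParts`.
* `gd0`, `gd1` : the data of the glued worlds of `cfg w` and `(cfg w).ins l`, `l` an exit line.
-/

set_option autoImplicit false
set_option linter.unusedSectionVars false

open MeasureTheory Set Filter Topology
open scoped Classical ENNReal
open Crest.AnalysisR.Kinetic
open Crest.Agent.R122.VL581 Crest.Agent.R122.EDefs602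
open Crest.Agent.R122.Kin796 Crest.Agent.R122.Kin796.CTree Crest.Agent.R122.Tree674
open Crest.Agent.R122.TreeLines335 Crest.Agent.R122.LNTree410 Crest.Agent.R122.PWInst442
open Crest.Agent.R122.PWGlue491 Crest.Agent.R122.LN304
open Crest.Agent.R122.LNPart424 Crest.Agent.R122.Ret424 Crest.Agent.R122.Gate424
open Crest.Agent.R122.RtG302 (AllOk)
open Crest.Agent.R122.Forest399 (FIdx FPar flines FValid FVS)

noncomputable section

namespace Crest.Agent.R122.LNFor424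

variable {Φ : Space3 → ℝ} {ε t : ℝ} {s n : ℕ} {Ps : Fin s → CTree} {q : FPar Ps} {w : Config n}

/-- Labels: gas particles and the particles of the forest. -/
abbrev FJ (n : ℕ) (Ps : Fin s → CTree) : Type := Fin n ⊕ FIdx Ps

/-- The virtual system of the gas and the forest. -/
abbrev fM (Φ : Space3 → ℝ) (ε t : ℝ) (n : ℕ) (Ps : Fin s → CTree) : VSys (FJ n Ps) Unit :=
  gsys Φ t ε n (b0 Ps)

/-- The states at time `0`. -/
abbrev fZ (Φ : Space3 → ℝ) (ε : ℝ) (q : FPar Ps) (w : Config n) : FJ n Ps → PhasePoint :=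
  Sum.elim w (flines Φ ε Ps q)

/-- The labels of the tree `i`. -/
def fe (n : ℕ) (Ps : Fin s → CTree) (i : Fin s) : Idx (Ps i) ↪ FJ n Ps where
  toFun j := Sum.inr ⟨i, j⟩
  inj' j k h := by
    have h1 := Sum.inr_injective h
    simpa using h1

@[simp] theorem fe_apply (i : Fin s) (j : Idx (Ps i)) : fe n Ps i j = Sum.inr ⟨i, j⟩ := rfl

/-- The labels of the gas. -/
def fg (n : ℕ) (Ps : Fin s → CTree) : Fin n ↪ FJ n Ps := ⟨Sum.inl, Sum.inl_injective⟩

@[simp] theorem fg_apply (i : Fin n) : fg n Ps i = Sum.inl i := rfl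

/-- The parts. -/
def fΛ (n : ℕ) (Ps : Fin s → CTree) : Finset (Finset (FJ n Ps)) :=
  Finset.univ.image fun i => part (fe n Ps i)

theorem mem_fΛ {π : Finset (FJ n Ps)} : π ∈ fΛ n Ps ↔ ∃ i, part (fe n Ps i) = π := by
  simp [fΛ]

theorem part_mem (i : Fin s) : part (fe n Ps i) ∈ fΛ n Ps := mem_fΛ.2 ⟨i, rfl⟩

theorem mem_part_fe {i : Fin s} {x : FJ n Ps} :
    x ∈ part (fe n Ps i) ↔ ∃ j, x = Sum.inr ⟨i, j⟩ := by
  rw [mem_part]
  exact ⟨fun ⟨j, h⟩ => ⟨j, h.symm⟩, fun ⟨j, h⟩ => ⟨j, h.symm⟩⟩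

theorem inl_notMem_part (i : Fin s) (k : Fin n) : (Sum.inl k : FJ n Ps) ∉ part (fe n Ps i) := by
  rw [mem_part_fe]
  rintro ⟨j, h⟩
  cases h

theorem inr_mem_part {i : Fin s} {k : FIdx Ps} :
    (Sum.inr k : FJ n Ps) ∈ part (fe n Ps i) ↔ k.1 = i := by
  rw [mem_part_fe]
  constructor
  · rintro ⟨j, h⟩
    rw [Sum.inr_injective h]
  · rintro rfl
    exact ⟨k.2, rfl⟩

theorem mem_uni_fΛ {x : FJ n Ps} : x ∈ uni (fΛ n Ps) ↔ ∃ k, x = Sum.inr k := by
  rw [mem_uni]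
  constructor
  · rintro ⟨π, hπ, hx⟩
    obtain ⟨i, rfl⟩ := mem_fΛ.1 hπ
    obtain ⟨j, rfl⟩ := mem_part_fe.1 hx
    exact ⟨_, rfl⟩
  · rintro ⟨k, rfl⟩
    exact ⟨_, part_mem k.1, inr_mem_part.2 rfl⟩

/-- The forest sits in the virtual system. -/
theorem forest (hq : q ∈ FVS Φ ε Ps t) :
    Forest (fM Φ ε t n Ps) (fZ Φ ε q w) Ps q (fe n Ps) where
  tree i := {
    b := fun _ => le_rfl
    Z := fun _ => rfl
    o := fun _ => by simp [VLMeas973.vsys]
    valid := hq.1 i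
    sep := hq.2.1 i }
  disj i i' hii x y h := by
    have h1 := Sum.inr_injective h
    exact hii (congrArg Sigma.fst h1)

theorem Sp_inl (i : Fin n) : Sp (fe n Ps) (Sum.inl i) = ∅ :=
  Sp_empty fun a => inl_notMem_part a i

theorem Sp_inr (hq : q ∈ FVS Φ ε Ps t) (k : FIdx Ps) :
    Sp (fe n Ps) (Sum.inr k) = part (fe n Ps k.1) :=
  (forest (n := n) (w := fun _ => 0) hq).Sp_of_mem (inr_mem_part.2 rfl)

/-- Admissible structure parts. -/
theorem sparts : SParts s (Finset.univ : Finset (FIdx Ps)) (fΛ n Ps) where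
  disj π hπ π' hπ' hne := by
    obtain ⟨i, rfl⟩ := mem_fΛ.1 hπ
    obtain ⟨i', rfl⟩ := mem_fΛ.1 hπ'
    rw [Finset.disjoint_left]
    intro x hx hx'
    obtain ⟨j, rfl⟩ := mem_part_fe.1 hx
    have h1 : i = i' := inr_mem_part.1 hx'
    exact hne (by rw [h1])
  cov y := ⟨_, part_mem y.1, inr_mem_part.2 rfl⟩
  anch π hπ := by
    obtain ⟨i, rfl⟩ := mem_fΛ.1 hπ
    exact ⟨⟨i, root (Ps i)⟩, Finset.mem_univ _, inr_mem_part.2 rfl⟩
  card := Finset.card_image_le.trans (by simp)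

variable (hΦ : AdmissiblePotential Φ) (hε : 0 < ε)
include hΦ hε

/-- The parts are connected. -/
theorem conn_parts {c : ℝ} (hc : 1 ≤ c) (hq : q ∈ FVS Φ ε Ps t) (π : Finset (FJ n Ps))
    (hπ : π ∈ fΛ n Ps) : (fM Φ ε t n Ps).Conn c π (fZ Φ ε q w) := by
  obtain ⟨i, rfl⟩ := mem_fΛ.1 hπ
  exact ((forest hq).tree i).Conn_tree hΦ hε le_rfl hc

/-- **The parts of the forest** in the sense of helper304. -/
theorem parts {c : ℝ} (hc : 1 ≤ c) (hq : q ∈ FVS Φ ε Ps t) (hw : w ∈ PairExcluded ε n) :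
    Parts (fM Φ ε t n Ps) c (fZ Φ ε q w) (fΛ n Ps) where
  conn := conn_parts hΦ hε hc hq
  gas_o i _ := by simp [VLMeas973.vsys]
  gas_b i hi := by
    rcases i with i | k
    · exact le_rfl
    · exact absurd (inr_mem_part.2 rfl) (hi _ (part_mem k.1))
  gas_sep i j hi hj hij := by
    rcases i with i | k
    · rcases j with j | k
      · exact hw i j fun h => hij (by rw [h])
      · exact absurd (inr_mem_part.2 rfl) (hj _ (part_mem k.1))
    · exact absurd (inr_mem_part.2 rfl) (hi _ (part_mem k.1))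

/-- The glued world of the gas. -/
theorem gd0 (ht : 0 ≤ t) (hq : q ∈ FVS Φ ε Ps t) (hW : (MW.cfg w).Ok Φ ε) :
    GD (fM Φ ε t n Ps) (fZ Φ ε q w) (Sp (fe n Ps)) (bD (MW.cfg w) (fg n Ps)) (labs (fg n Ps))
      (XD (MW.cfg w) (fg n Ps) Φ ε) :=
  gd_of_lab (M := fM Φ ε t n Ps) hΦ hε (cover_forest hΦ hε ht (forest hq)) hW
    (lab_cfg (fun i => Sp_inl i) (fun i => by simp [VLMeas973.vsys]) (fun i => le_rfl)
      fun i => rfl)

/-- The labels of `(cfg w).ins l`, `l` the line of the label `k` of the forest. -/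
abbrev fgx (n : ℕ) (k : FIdx Ps) : Fin n ⊕ Unit ↪ FJ n Ps :=
  insF (fg n Ps) (Sum.inr k) fun i h => by cases h

/-- The glued world of the gas and an exit line. -/
theorem gd1 (ht : 0 < t) (hq : q ∈ FVS Φ ε Ps t) (k : FIdx Ps)
    (hW : ((MW.cfg w).ins (lineML Φ ε (Ps k.1) (q k.1) k.2)).Ok Φ ε) :
    GD (fM Φ ε t n Ps) (fZ Φ ε q w) (Sp (fe n Ps))
      (bD ((MW.cfg w).ins (lineML Φ ε (Ps k.1) (q k.1) k.2)) (fgx n k)) (labs (fgx n k))
      (XD ((MW.cfg w).ins (lineML Φ ε (Ps k.1) (q k.1) k.2)) (fgx n k) Φ ε) :=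
  gd_of_lab (M := fM Φ ε t n Ps) hΦ hε (cover_forest hΦ hε ht.le (forest hq)) hW
    (lab_ins (lab_cfg (fun i => Sp_inl i) (fun i => by simp [VLMeas973.vsys])
      (fun i => le_rfl) fun i => rfl) (fun i h => by cases h)
      (lab_lineML hΦ hε ht (forest hq) k.1 k.2))

end Crest.Agent.R122.LNFor424

end
end

-- ▼ part R122/LNTreeIn_317
section

/-!
# Row 122, EVENTS (helper317): one tree inside an arbitrary master system

`TreeIn` (helper410): a tree with the labels `e` in the master system `M`, `part e` is a part.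
* `RI`, `partR_in` : contacts of the isolated tree as a connecting family (helper302's `PartR`).
* `exits_apart_in` : two exits of the tree do not meet each other.
* `not_retB_in` : no return of an exit to the protected tubes of its tree.
-/

set_option autoImplicit false
set_option linter.unusedSectionVars false

open MeasureTheory Set Filter Topology
open Crest.AnalysisR.Kinetic
open Crest.Agent.R122.GIV566 Crest.Agent.R122.VL581 Crest.Agent.R122.LNg410
open Crest.Agent.R122.LN304 Crest.Agent.R122.Ins45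
open Crest.Agent.R122.Inf879 Crest.Agent.R122.EDefs602 Crest.Agent.R122.MWFam255
open Crest.Agent.R122.LNEv968 Crest.Agent.R122.LNEv818 Crest.Agent.R122.LNEv383
open Crest.Agent.R122.LNTree410 Crest.Agent.R122.Bind302
open Crest.Agent.R122.TreeLines335 Crest.Agent.R122.Kin796 Crest.Agent.R122.Kin796.CTree
open Crest.Agent.R122.Tree674 Crest.Agent.R122.PathFlow968
open Crest.Agent.R122.RtG302 (near protT)
open scoped Classical

noncomputable section

namespace Crest.Agent.R122.TreeIn317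

variable {J κ : Type} [Fintype J] [Nonempty κ] {M : VSys J κ} {Zc : J → PhasePoint}
  {Λ : Finset (Finset J)} {Φ : Space3 → ℝ} {ε T t u v c ℓ ς : ℝ} {N K : ℕ} {P : CTree}
  {z : PhasePoint × Par P} {e : Idx P ↪ J}

/-- Contacts of the isolated part. -/
def RI (M : VSys J κ) (Zc : J → PhasePoint) (π : Finset J) (r : ℝ) (j k : J) : Prop :=
  dist (M.st π r Zc j).1 (M.st π r Zc k).1 ≤ M.ε

theorem lineAt_lineML (Φ : Space3 → ℝ) (ε : ℝ) (P : CTree) (z : PhasePoint × Par P) (x : Idx P)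
    (u : ℝ) : Ins45.lineAt (lineML Φ ε P z x).1.1 (lineML Φ ε P z x).1.2 u =
      onLine (fin Φ ε P z.1 z.2 x) u := by
  unfold Ins45.lineAt lineML onLine
  refine Prod.ext ?_ rfl
  simp only
  rw [add_assoc, ← add_smul]
  congr 2
  ring

section

variable (hΦ : AdmissiblePotential Φ) (hε : 0 < ε) (hMΦ : M.Φ = Φ) (hMε : M.ε = ε)
  (h : TreeIn M Zc M.T P z.1 z.2 e)
include hΦ hε hMΦ hMε h

theorem st_eq_lineAt (i : Idx P) (ht : rel P z.2 i ≤ t) (htT : t ≤ M.T) :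
    M.st (part e) t Zc (e i) =
      Ins45.lineAt (lineML Φ ε P z i).1.1 (lineML Φ ε P z i).1.2 t := by
  subst hMΦ hMε
  rw [lineAt_lineML]
  exact h.line_tree hΦ hε i ht htT

theorem far_of_rel {i : Idx P} {k : J} (hk : k ∈ part e) (hki : k ≠ e i)
    (ht : rel P z.2 i < t) (htT : t ≤ M.T) :
    ε < dist (M.st (part e) t Zc (e i)).1 (M.st (part e) t Zc k).1 := by
  subst hMΦ hMε
  exact h.exit_tree hΦ hε hk hki ht htT

theorem rI_le_rel {r : ℝ} {i : Idx P} {k : J} (hk : k ∈ part e) (hki : k ≠ e i)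
    (hr : r ∈ Icc 0 M.T) (hR : RI M Zc (part e) r (e i) k) : r ≤ rel P z.2 i := by
  by_contra hcon
  refine absurd hR (not_le.2 ?_)
  rw [hMε]
  exact far_of_rel hΦ hε hMΦ hMε h hk hki (not_le.1 hcon) hr.2

/-- **The contacts of the isolated tree connect its part.** -/
theorem partR_in (hT : 0 ≤ M.T) (hc : 1 ≤ c) :
    PartR M c Zc (part e) (RI M Zc (part e)) := by
  subst hMΦ hMε
  refine ⟨(h.conn_tree hΦ hε).mono fun i _ j _ _ h => Or.inl (by
      obtain ⟨r, hr, _, _, hd⟩ := h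
      exact ⟨r, hr, hd⟩), fun r j k h => ?_, fun r _ j hj k hk _ h' => ?_⟩
  · unfold RI at h ⊢
    rwa [dist_comm]
  · have ho : ∀ j ∈ part e, M.o ≠ some j := fun j hj => by
      obtain ⟨i, rfl⟩ := mem_part.1 hj
      exact h.o i
    refine vct_of_st subset_rfl subset_rfl hj hk (h.ok_tree hΦ hε hT r)
      (h.ok_tree hΦ hε hT r) (ho j hj) (ho k hk) (le_trans h' ?_)
    nlinarith

variable {ι : Type} [Fintype ι] {Z : MW ι} {lab : ι → J}

/-- **Two exits of one tree do not meet each other.** -/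
theorem exits_apart_in (hπ : part e ∈ Λ) (hT0 : 0 ≤ M.T) (hTM : T ≤ M.T) (hc : 1 ≤ c)
    (hℓς : 2 * ℓ ≤ ς) {x y : Idx P} (hxy : x ≠ y) (hlx : ∀ g, lab g ≠ e x)
    (hly : ∀ g, lab g ≠ e y) (hZ : Z.Ok Φ ε) (hZx : (Z.ins (lineML Φ ε P z x)).Ok Φ ε)
    (hZy : (Z.ins (lineML Φ ε P z y)).Ok Φ ε)
    (hRx : ReachAll (Reach M c Zc Λ (part e) (e x) N) Φ ε K T Z lab (lineML Φ ε P z x) (e x))
    (hRy : ReachAll (Reach M c Zc Λ (part e) (e y) N) Φ ε K T Z lab (lineML Φ ε P z y) (e y))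
    (hNB : NoBad M c ℓ ς Zc Λ (N + N + (N + N))) (hu : u ∈ Icc 0 T)
    (hux : u ≤ Z.thetaL Φ ε K T (lineML Φ ε P z x)) (huy : u ≤ Z.thetaL Φ ε K T (lineML Φ ε P z y))
    (hbx : (lineML Φ ε P z x).1.1 ≤ u) (hby : (lineML Φ ε P z y).1.1 ≤ u)
    (hb : (lineML Φ ε P z x).1.1 < u ∨ (lineML Φ ε P z y).1.1 < u) :
    ε < dist ((Z.add (MW.line (lineML Φ ε P z x))).path Φ ε u (Sum.inr ())).1
      ((Z.add (MW.line (lineML Φ ε P z y))).path Φ ε u (Sum.inr ())).1 := by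
  have hR := partR_in (c := c) hΦ hε hMΦ hMε h hT0 hc
  have hne : e x ≠ e y := fun h' => hxy (e.injective h')
  refine exits_apart hΦ hε hMε hTM hc hℓς hR hπ hZ hZx hZy hRx hRy hlx hly hNB (mem_part_self x)
    (mem_part_self y) hne (fun r hr h' => ⟨rI_le_rel hΦ hε hMΦ hMε h (mem_part_self y) hne.symm hr
      h', rI_le_rel hΦ hε hMΦ hMε h (mem_part_self x) hne hr (hR.symm r _ _ h')⟩) ?_ hu hux huy
    hbx hby hb
  intro t ht h1 h2 h3
  rw [← st_eq_lineAt hΦ hε hMΦ hMε h x h1 ht.2, ← st_eq_lineAt hΦ hε hMΦ hMε h y h2 ht.2]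
  rcases h3 with h3 | h3
  · exact far_of_rel hΦ hε hMΦ hMε h (mem_part_self y) hne.symm h3 ht.2
  · rw [dist_comm]
    exact far_of_rel hΦ hε hMΦ hMε h (mem_part_self x) hne h3 ht.2

/-- **No return of an exit to the protected tubes of its tree.** -/
theorem not_retB_in (hπ : part e ∈ Λ) (hT0 : 0 < M.T) (hTM : T ≤ M.T) (hc : 1 ≤ c)
    (hℓς : 2 * ℓ ≤ ς) {x : Idx P} (hx : x ≠ root P) (hlx : ∀ g, lab g ≠ e x)
    (hlb : ∀ i y, lab i = e y → prot P T z.2 y ≤ Z.b i)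
    (hZ : Z.Ok Φ ε) (hZx : (Z.ins (lineML Φ ε P z x)).Ok Φ ε)
    (hRx : ReachAll (Reach M c Zc Λ (part e) (e x) N) Φ ε K T Z lab (lineML Φ ε P z x) (e x))
    (hNB : NoBad M c ℓ ς Zc Λ (N + (N + N))) :
    ¬ RetB Φ ε ε K T Z (lineML Φ ε P z x) (protT Φ ε P T z) := by
  have hR := partR_in (c := c) hΦ hε hMΦ hMε h hT0.le hc
  refine not_retB_of hΦ hε (ξ := Idx P) hMε hTM hc hℓς hR hπ hZ hZx hRx hlx hNB
    (mem_part_self x) ?_
  intro y v hv hbv hvy
  have hvT : v ∈ Icc 0 M.T := ⟨hv.1, hv.2.trans hTM⟩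
  have hbv' : rel P z.2 x < v := hbv
  have hc' : (protT Φ ε P T z).c y v = (M.st (part e) v Zc (e y)).1 := by
    subst hMΦ hMε
    rw [h.st_tree hΦ hε hvT]
    rfl
  have hxy : y ≠ x := by
    rintro rfl
    have h1 : v ≤ rel P z.2 y := by rw [rel_eq_prot P T z.2 y hx]; exact hvy
    exact absurd hbv' (not_lt.2 h1)
  have hne : e y ≠ e x := fun h => hxy (e.injective h)
  refine ⟨e y, mem_part_self y, hne, h.o y, ?_, hc',
    fun i hi => (show v ≤ prot P T z.2 y from hvy).trans (hlb i y hi),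
    fun r hr h' => rI_le_rel hΦ hε hMΦ hMε h (mem_part_self y) hne hr h', ?_⟩
  · subst hMΦ hMε
    exact h.ok_tree hΦ hε hT0.le v
  · rw [hc', ← st_eq_lineAt hΦ hε hMΦ hMε h x hbv'.le hvT.2, dist_comm]
    exact far_of_rel hΦ hε hMΦ hMε h (mem_part_self y) hne hbv' hvT.2

end

end Crest.Agent.R122.TreeIn317

end
end

-- ▼ part R122/LNForBind_317
section

/-!
# Row 122, EVENTS (helper317): the events of a forest from `ReachAll`

* `RAllF` : everything which is influenced by an exit line of the forest up to its touch time is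
  reached (`LNEv818.ReachAll` for every exit line, base world `cfg w`).
* `FOut` : output of the deterministic theory for a forest (`NoBad`, `NoTwo`, `RAllF`).
* `FOut.pairNL`, `FOut.not_linkEv` : exit lines are pairwise unlinked.
* `FOut.not_retEv` : no return to the protected tubes of the trees.
-/

set_option autoImplicit false
set_option linter.unusedSectionVars false

open MeasureTheory Set Filter Topology
open Crest.AnalysisR.Kinetic
open Crest.Agent.R122.GIV566 Crest.Agent.R122.VL581 Crest.Agent.R122.LNg410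
open Crest.Agent.R122.LN304 Crest.Agent.R122.Ins45
open Crest.Agent.R122.Inf879 Crest.Agent.R122.EDefs602 Crest.Agent.R122.MWFam255
open Crest.Agent.R122.LNEv968 Crest.Agent.R122.LNEv818 Crest.Agent.R122.LNEv383
open Crest.Agent.R122.LNTree410 Crest.Agent.R122.Bind302 Crest.Agent.R122.TreeIn317
open Crest.Agent.R122.TreeLines335 Crest.Agent.R122.Kin796 Crest.Agent.R122.Kin796.CTree
open Crest.Agent.R122.Tree674 Crest.Agent.R122.PathFlow968
open Crest.Agent.R122.Ret424 Crest.Agent.R122.LNFor424 Crest.Agent.R122.LNPart424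
open Crest.Agent.R122.Forest399 (FIdx FPar flines FValid FVS)
open Crest.Agent.R122.RtG302 (near protT AllOk RetL RetM)
open scoped Classical

noncomputable section

namespace Crest.Agent.R122.ForBind317

variable {Φ : Space3 → ℝ} {ε t c ℓ ς : ℝ} {s n N K : ℕ} {Ps : Fin s → CTree} {q : FPar Ps}
  {w : Config n}

/-- Everything which is influenced by an exit line of the forest up to its touch time is
reached. -/
def RAllF (Φ : Space3 → ℝ) (t c ε : ℝ) (K N : ℕ) (q : FPar Ps) (w : Config n) : Prop :=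
  ∀ x : FEx Ps, ReachAll (Reach (fM Φ ε t n Ps) c (fZ Φ ε q w) (fΛ n Ps)
    (part (fe n Ps x.1.1)) (Sum.inr x.1) N) Φ ε K t (MW.cfg w) Sum.inl (fexL Φ ε Ps q x)
      (Sum.inr x.1)

/-- Output of the deterministic theory for a forest. -/
structure FOut (Φ : Space3 → ℝ) (t c ℓ ς ε : ℝ) (K N : ℕ) (q : FPar Ps) (w : Config n) : Prop where
  nb : NoBad (fM Φ ε t n Ps) c ℓ ς (fZ Φ ε q w) (fΛ n Ps) (N + N + (N + N))
  nt : NoTwo (fM Φ ε t n Ps) c (fZ Φ ε q w) (fΛ n Ps) (N + N)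
  reach : RAllF Φ t c ε K N q w

theorem part_inj {i j : Fin s} (h : part (fe n Ps i) = part (fe n Ps j)) : i = j := by
  have h1 : (Sum.inr ⟨i, root (Ps i)⟩ : FJ n Ps) ∈ part (fe n Ps j) := by
    rw [← h]
    exact inr_mem_part.2 rfl
  exact inr_mem_part.1 h1

theorem noTwo_mono {J κ : Type} [Fintype J] {M : VSys J κ} {Z : J → PhasePoint}
    {Λ : Finset (Finset J)} {N N' : ℕ} (h : NoTwo M c Z Λ N') (hN : N ≤ N') :
    NoTwo M c Z Λ N := fun P h1 h2 => h P h1 (h2.trans hN)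

/-- A forest with an exit has a positive horizon. -/
theorem pos_of_exit (hε : 0 < ε) (hq : q ∈ FVS Φ ε Ps t) (x : FEx Ps) : 0 < t := by
  have hV : Valid Φ ε (Ps x.1.1) t (q x.1.1).1.2 (q x.1.1).2 := hq.1 x.1.1
  refine (rel_pos hε.le hV.2 x.1.2 x.2).trans_le ?_
  rw [rel_eq_prot (Ps x.1.1) t (q x.1.1).2 x.1.2 x.2]
  exact prot_le hε.le (Ps x.1.1) t (q x.1.1).1.2 (q x.1.1).2 hV.2 x.1.2

namespace FOut

variable (h : FOut Φ t c ℓ ς ε K N q w) (hΦ : AdmissiblePotential Φ) (hε : 0 < ε)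
  (hq : q ∈ FVS Φ ε Ps t) (hOk : AllOk Φ ε w (fexL Φ ε Ps q)) (hc : 1 ≤ c) (hℓς : 2 * ℓ ≤ ς)
include h hΦ hε hq hOk hc hℓς

/-- **Exit lines of a forest are pairwise unlinked.** -/
theorem pairNL : PairNL Φ ε K t (MW.cfg w) (fexL Φ ε Ps q) := by
  have hok := MWFam255.okF_of_okFam hΦ hε hOk
  refine pairNL_of_reach hΦ hε (M := fM Φ ε t n Ps) (c := c) (ℓ := ℓ) (ς := ς)
    (Zc := fZ Φ ε q w) (Λ := fΛ n Ps) (N := N) rfl le_rfl hc (conn_parts hΦ hε hc hq)
    (noBad_mono h.nb (Nat.le_add_right _ _)) h.nt Sum.inl_injective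
    (P := fun x => part (fe n Ps x.1.1)) (p := fun x => Sum.inr x.1)
    (fun x => part_mem x.1.1) (fun x => inr_mem_part.2 rfl)
    (fun x y hxy => Subtype.ext (Sum.inr_injective hxy)) ?_ h.reach ?_
  · rintro x ⟨k, hk⟩
    cases hk
  · rintro ⟨⟨i, a⟩, ha⟩ ⟨⟨j, b⟩, hb⟩ hxy hP u hu hux huy hbx hby hlt
    have hij : i = j := part_inj hP
    subst hij
    have hab : a ≠ b := by
      rintro rfl
      exact hxy rfl
    have ht : 0 < t := pos_of_exit hε hq ⟨⟨i, a⟩, ha⟩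
    exact exits_apart_in (M := fM Φ ε t n Ps) (Zc := fZ Φ ε q w) (Λ := fΛ n Ps) (c := c) (ℓ := ℓ)
      (ς := ς) (P := Ps i) (z := q i) (e := fe n Ps i) hΦ hε rfl rfl ((forest hq).tree i)
      (part_mem i) ht.le le_rfl hc hℓς hab (fun g h' => by cases h') (fun g h' => by cases h')
      hok.z (hok.line hΦ hε ⟨⟨i, a⟩, ha⟩) (hok.line hΦ hε ⟨⟨i, b⟩, hb⟩)
      (h.reach ⟨⟨i, a⟩, ha⟩) (h.reach ⟨⟨i, b⟩, hb⟩) h.nb hu hux huy hbx hby hlt

/-- **Exit lines of a forest are not linked.** -/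
theorem not_linkEv {x y : FEx Ps} (hxy : x ≠ y) : ¬ LinkEv Φ K Ps x y ε t n q w := by
  unfold LinkEv
  rw [not_not]
  exact h.pairNL hΦ hε hq hOk hc hℓς x y hxy

theorem retHyp (x : FEx Ps) (i : Fin s) :
    RetHyp (fM Φ ε t n Ps) c ℓ ς (fZ Φ ε q w) (fΛ n Ps) (part (fe n Ps x.1.1)) (Sum.inr x.1) N
      (protT Φ ε (Ps i) t (q i)) t (fun _ => part (fe n Ps i)) (fe n Ps i)
      (Sum.inl : Fin n → FJ n Ps) (fexL Φ ε Ps q x) ε where
  tube := tubeOf_protT (M := fM Φ ε t n Ps) hΦ hε ((forest hq).tree i) (part_mem i) le_rfl t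
  hTM := le_rfl
  hr := by
    change ε ≤ c * ε
    nlinarith
  hℓς := hℓς
  conn := conn_parts hΦ hε hc hq
  noBad := noBad_mono h.nb (by omega)
  noTwo := noTwo_mono h.nt (by omega)
  part := part_mem x.1.1
  mem := inr_mem_part.2 rfl
  lab k h' := by cases h'
  own k hk := by
    obtain ⟨⟨j, a⟩, ha⟩ := x
    have h1 : (⟨i, k⟩ : FIdx Ps) = ⟨j, a⟩ := Sum.inr_injective hk
    obtain ⟨rfl, h2⟩ := Sigma.mk.inj h1
    obtain rfl := eq_of_heq h2
    have ht : 0 < t := pos_of_exit hε hq ⟨⟨i, k⟩, ha⟩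
    exact own_protT (M := fM Φ ε t n Ps) (T := t) hΦ hε hc ((forest hq).tree i) ht ha k rfl

/-- **No return to the protected tubes.** -/
theorem not_retEv (x : FEx Ps) (i : Fin s) : ¬ RetEv Φ K Ps x i ε t n q w := by
  have hok := MWFam255.okF_of_okFam hΦ hε hOk
  have ht : 0 < t := pos_of_exit hε hq x
  have hH := h.retHyp hΦ hε hq hOk hc hℓς x i
  rintro (h' | h')
  · exact hH.not_retA hΦ hε hok.z (hok.line hΦ hε x) (h.reach x) ((retL_iff hΦ hε _ _ _ _).1 h')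
  · have h2 := (retM_iff _ _ _ _).1 h'
    by_cases hi : i = x.1.1
    · subst hi
      exact not_retB_in (M := fM Φ ε t n Ps) (Zc := fZ Φ ε q w) (Λ := fΛ n Ps) (c := c) (ℓ := ℓ)
        (ς := ς) (P := Ps x.1.1) (z := q x.1.1) (e := fe n Ps x.1.1) hΦ hε rfl rfl
        ((forest hq).tree x.1.1) (part_mem x.1.1) ht le_rfl hc hℓς x.2 (lab := Sum.inl)
        (fun g h' => by cases h') (fun g y h' => by cases h') hok.z (hok.line hΦ hε x) (h.reach x)
        (noBad_mono h.nb (by omega)) h2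
    · refine hH.not_retB hΦ hε hok.z (hok.line hΦ hε x) (h.reach x) (fun k hk => ?_) h2
      exact absurd (part_inj hk) hi

end FOut

end Crest.Agent.R122.ForBind317

end
end

-- ▼ part R122/ForOk_424
section

/-!
# Row 122 (helper424): `ForOk`: almost surely the worlds with exit lines of a forest are good

* `exit_of_window` : at the release time the partner of the last collision is at distance exactly
  `ε` and moves away.
* `rel_forest` : release data (helper151's `Rel`) of the exit lines of a valid separated forest.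
* `forOk` : **`ForOk Φ T`** for every admissible potential.
-/

set_option autoImplicit false
set_option linter.unusedSectionVars false

open MeasureTheory Set Filter Topology
open scoped ENNReal
open Crest.AnalysisR.Kinetic
open Crest.Agent.R122.Flow671 (Dom flow)
open Crest.Agent.R122.Loc45 Crest.Agent.R122.EDefs602
open Crest.Agent.R122.Kin796 Crest.Agent.R122.Kin796.CTree Crest.Agent.R122.Tree674
open Crest.Agent.R122.Disc416
open Crest.Agent.R122.TreeLines335 Crest.Agent.R122.GC311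
open Crest.Agent.R122.TransOk151
open Crest.Agent.R122.RtG302 (AllOk)
open Crest.Agent.R122.Forest399 (FIdx FPar flines fpath FValid FSep FVS)
open Crest.Agent.R122.Final973 (PerpC)

noncomputable section

open scoped Classical

namespace Crest.Agent.R122.Ret424

variable {Φ : Space3 → ℝ} {ε : ℝ} {s : ℕ} {Ps : Fin s → CTree} {t T : ℝ} {q : FPar Ps}

/-! ### The last collision -/

theorem exit_top (hε : 0 < ε) {ℓ : PhasePoint} {a : NodeP} (hA : Adm1 Φ ℓ.2 a) :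
    dist (onLine ℓ a.1).1 (onLine (outLine ε ℓ a) a.1).1 = ε ∧
      0 < inner ℝ ((onLine ℓ a.1).1 - (onLine (outLine ε ℓ a) a.1).1)
        ((onLine ℓ a.1).2 - (onLine (outLine ε ℓ a) a.1).2) := by
  refine ⟨Final973.dist_out hε hA ℓ rfl, ?_⟩
  obtain ⟨hb, hg⟩ := TreeEps399.adm1_disc hA
  have e1 : (onLine ℓ a.1).1 - (onLine (outLine ε ℓ a) a.1).1 =
      ε • (-entrancePoint (nb ℓ.2 a) (ng ℓ.2 a)) := by
    simp only [onLine, outLine]
    module
  have e2 : (onLine ℓ a.1).2 - (onLine (outLine ε ℓ a) a.1).2 = ng ℓ.2 a := by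
    simp only [onLine, outLine, ng]
  rw [e1, e2, real_inner_smul_left, inner_neg_left]
  have := Scat818.inner_entrance_neg hb hg
  have h2 : 0 < -inner ℝ (entrancePoint (nb ℓ.2 a) (ng ℓ.2 a)) (ng ℓ.2 a) := by linarith
  exact mul_pos hε h2

/-- **At the release time the partner of the last collision is at distance exactly `ε` and moves
away.** -/
theorem exit_of_window (hε : 0 < ε) : ∀ (P : CTree) (T : ℝ) (ℓ : PhasePoint) (p : Par P),
    Valid Φ ε P T ℓ.2 p → ∀ (i j : Idx P) (u : ℝ), InWindow Φ ε P ℓ.2 p i j u →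
      (u = rel P p i ∨ u = rel P p j) →
      dist (path Φ ε P ℓ p u i).1 (path Φ ε P ℓ p u j).1 = ε ∧
        0 < inner ℝ ((path Φ ε P ℓ p u i).1 - (path Φ ε P ℓ p u j).1)
          ((path Φ ε P ℓ p u i).2 - (path Φ ε P ℓ p u j).2)
  | leaf, _, _, _, _, _, _, _, h, _ => h.elim
  | node l r, T, ℓ, p, hv, i, j, u, h, hu => by
      have h1 := PathFlow968.sin_le hε.le ℓ.2 p.1 (Φ := Φ)
      have h1' := PathFlow968.sin_lt hε hv.1.1 (Φ := Φ)
      rcases h with ⟨rfl, rfl, -, hle⟩ | ⟨i', j', rfl, rfl, h⟩ | ⟨i', j', rfl, rfl, h⟩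
      · have hu' : u = p.1.1 := by
          rcases hu with hu | hu
          · simpa only [rel, Sum.elim_inl, if_true] using hu
          · simpa only [rel, Sum.elim_inr, if_true] using hu
        subst hu'
        rw [Final973.path_node_of_lt h1', TreeEps399.colPath_out le_rfl]
        simp only [Sum.elim_inl, Sum.elim_inr, Function.update_self]
        exact exit_top hε hv.1.1
      · have hO := (PathFlow968.Valid.left hv).2
        have h3 := (PathFlow968.InWindow.mem hε.le l _ _ p.2.1 hO i' j' u h).2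
        have hu' : u = rel l p.2.1 i' ∨ u = rel l p.2.1 j' := by
          simp only [rel, Sum.elim_inl] at hu
          rcases hu with hu | hu
          · left
            by_cases hi : i' = root l
            · rw [if_pos hi] at hu
              exact absurd (h3.trans_le h1) (by rw [hu]; exact lt_irrefl _)
            · rwa [if_neg hi] at hu
          · right
            by_cases hi : j' = root l
            · rw [if_pos hi] at hu
              exact absurd (h3.trans_le h1) (by rw [hu]; exact lt_irrefl _)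
            · rwa [if_neg hi] at hu
        rw [Final973.path_node_of_le h3.le]
        simp only [Sum.elim_inl]
        exact exit_of_window hε l _ (inMap Φ ε ℓ p.1).1 p.2.1 (PathFlow968.Valid.left hv) i' j' u h hu'
      · have hO := (PathFlow968.Valid.right hv).2
        have h3 := (PathFlow968.InWindow.mem hε.le r _ _ p.2.2 hO i' j' u h).2
        have hu' : u = rel r p.2.2 i' ∨ u = rel r p.2.2 j' := by
          simp only [rel, Sum.elim_inr] at hu
          rcases hu with hu | hu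
          · left
            by_cases hi : i' = root r
            · rw [if_pos hi] at hu
              exact absurd (h3.trans_le h1) (by rw [hu]; exact lt_irrefl _)
            · rwa [if_neg hi] at hu
          · right
            by_cases hi : j' = root r
            · rw [if_pos hi] at hu
              exact absurd (h3.trans_le h1) (by rw [hu]; exact lt_irrefl _)
            · rwa [if_neg hi] at hu
        rw [Final973.path_node_of_le h3.le]
        simp only [Sum.elim_inr]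
        exact exit_of_window hε r _ (inMap Φ ε ℓ p.1).2 p.2.2 (PathFlow968.Valid.right hv) i' j' u h hu'

theorem inner_swap (a b c d : Space3) :
    inner ℝ (a - b) (c - d) = (inner ℝ (b - a) (d - c) : ℝ) := by
  rw [← neg_sub a b, ← neg_sub c d, inner_neg_neg]

/-- **The exit data of a released particle of a tree.** -/
theorem exists_exitT (hε : 0 < ε) {P : CTree} {T : ℝ} {ℓ : PhasePoint} {p : Par P}
    (hv : Valid Φ ε P T ℓ.2 p) {i : Idx P} (hi : i ≠ root P) :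
    ∃ j, j ≠ i ∧ dist (path Φ ε P ℓ p (rel P p i) i).1 (path Φ ε P ℓ p (rel P p i) j).1 = ε ∧
      0 < inner ℝ ((path Φ ε P ℓ p (rel P p i) i).1 - (path Φ ε P ℓ p (rel P p i) j).1)
        ((path Φ ε P ℓ p (rel P p i) i).2 - (path Φ ε P ℓ p (rel P p i) j).2) := by
  have hP : P ≠ leaf := by
    rintro rfl
    exact hi rfl
  obtain ⟨j, hj, h | h⟩ := LNTree410.exists_window_rel (Φ := Φ) hε.le P ℓ.2 p hP i
  · exact ⟨j, hj, exit_of_window hε P T ℓ p hv i j _ h (Or.inl rfl)⟩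
  · obtain ⟨h1, h2⟩ := exit_of_window hε P T ℓ p hv j i _ h (Or.inr rfl)
    exact ⟨j, hj, by rwa [dist_comm], by rwa [inner_swap]⟩

/-- Two particles of a tree at a release time of one of them. -/
theorem startSep_tree (hε : 0 < ε) {P : CTree} {T : ℝ} {ℓ : PhasePoint} {p : Par P}
    (hv : Valid Φ ε P T ℓ.2 p) (hs : Sep Φ ε P T ℓ p) {i j : Idx P} (hij : i ≠ j) {u : ℝ}
    (hu : u ∈ Icc 0 T) (h : u = rel P p i ∨ u = rel P p j) :
    StartSep ε (path Φ ε P ℓ p u i) (path Φ ε P ℓ p u j) := by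
  by_cases h1 : InWindow Φ ε P ℓ.2 p i j u
  · exact Or.inr (exit_of_window hε P T ℓ p hv i j u h1 h)
  · by_cases h2 : InWindow Φ ε P ℓ.2 p j i u
    · obtain ⟨h3, h4⟩ := exit_of_window hε P T ℓ p hv j i u h2 h.symm
      exact Or.inr ⟨by rwa [dist_comm], by rwa [inner_swap]⟩
    · exact Or.inl (hs i j hij u hu h1 h2)

/-! ### Forests -/

theorem flow_flines (hΦ : AdmissiblePotential Φ) (hε : 0 < ε) (hv : FValid Φ ε Ps t q)
    (hs : FSep Φ ε Ps t q) {u : ℝ} (hu : u ∈ Icc 0 t) :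
    flow Φ ε u (flines Φ ε Ps q) = fpath Φ ε Ps q u := Final973.pth_flines hΦ hε hv hs hu

theorem rel_mem (hε : 0 < ε) (hT : 0 ≤ t) (hv : FValid Φ ε Ps t q) {k : FIdx Ps}
    (hk : k.2 ≠ root (Ps k.1)) : rel (Ps k.1) (q k.1).2 k.2 ∈ Icc 0 t := by
  rw [rel_eq_prot (Ps k.1) t (q k.1).2 k.2 hk]
  exact ⟨Final973.prot_nonneg' hε.le hT hv k, Final973.prot_le' hε.le hv k⟩

/-- **Release data of the exit lines of a forest.** -/
theorem rel_forest (hΦ : AdmissiblePotential Φ) (hε : 0 < ε) (ht : 0 ≤ t)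
    (hv : FValid Φ ε Ps t q) (hs : FSep Φ ε Ps t q) :
    Rel ε (fun _ => 0) (range (Subtype.val : FEx Ps → FIdx Ps))
      (fun k => rel (Ps k.1) (q k.1).2 k.2) t (fun u => flow Φ ε u (flines Φ ε Ps q)) := by
  have hm : ∀ x : FEx Ps, rel (Ps x.1.1) (q x.1.1).2 x.1.2 ∈ Icc 0 t := fun x =>
    rel_mem hε ht hv x.2
  refine ⟨?_, ?_, ?_, ?_, ?_⟩
  · rintro _ ⟨x, rfl⟩
    exact rel_pos hε.le (hv x.1.1).2 x.1.2 x.2
  · rintro _ ⟨x, rfl⟩
    exact (hm x).2
  · rintro _ ⟨x, rfl⟩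
    exact (hm x).1
  · rintro _ ⟨x, rfl⟩
    obtain ⟨j, hj, h1, h2⟩ := exists_exitT hε (hv x.1.1) (ℓ := (q x.1.1).1) x.2
    refine ⟨⟨x.1.1, j⟩, fun h => hj ?_, (hm x).1, ?_, ?_⟩
    · exact eq_of_heq (Sigma.mk.inj_iff.1 h).2
    · rw [flow_flines hΦ hε hv hs (hm x)]
      exact h1
    · rw [flow_flines hΦ hε hv hs (hm x)]
      exact h2
  · rintro _ ⟨x, rfl⟩ u hu j hj -
    have hu' : u ∈ Icc 0 t := ⟨(hm x).1.trans hu.1.le, hu.2⟩
    simp only [flow_flines hΦ hε hv hs hu']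
    obtain ⟨i, j⟩ := j
    by_cases hii : x.1.1 = i
    · subst hii
      have hj' : j ≠ x.1.2 := fun h => hj (by rw [h])
      exact LNTree410.lt_dist_of_rel hε.le (hv x.1.1).2 (hs.1 x.1.1) hj' hu.1 hu.2
    · exact hs.2 x.1.1 i hii x.1.2 j u hu'

/-- The states of the exit lines. -/
theorem fexL_eq (hΦ : AdmissiblePotential Φ) (hε : 0 < ε) (ht : 0 ≤ t)
    (hv : FValid Φ ε Ps t q) (hs : FSep Φ ε Ps t q) (x : FEx Ps) :
    (fexL Φ ε Ps q x).1 = (rel (Ps x.1.1) (q x.1.1).2 x.1.2,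
      flow Φ ε (rel (Ps x.1.1) (q x.1.1).2 x.1.2) (flines Φ ε Ps q) x.1) := by
  rw [flow_flines hΦ hε hv hs (rel_mem hε ht hv x.2)]
  refine Prod.ext rfl ?_
  show onLine _ _ = path Φ ε (Ps x.1.1) (q x.1.1).1 (q x.1.1).2 _ x.1.2
  rw [LNTree410.path_rel hε (Ps x.1.1) t (q x.1.1).1 (q x.1.1).2 (hv x.1.1) x.1.2 _ le_rfl]

theorem startSep_forest (hΦ : AdmissiblePotential Φ) (hε : 0 < ε) (ht : 0 ≤ t)
    (hv : FValid Φ ε Ps t q) (hs : FSep Φ ε Ps t q) (x y : FEx Ps) (hxy : x ≠ y)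
    (h : (fexL Φ ε Ps q x).1.1 = (fexL Φ ε Ps q y).1.1) :
    StartSep ε (fexL Φ ε Ps q x).1.2 (fexL Φ ε Ps q y).1.2 := by
  have h' : rel (Ps x.1.1) (q x.1.1).2 x.1.2 = rel (Ps y.1.1) (q y.1.1).2 y.1.2 := h
  have hx := rel_mem hε ht hv x.2
  rw [fexL_eq hΦ hε ht hv hs x, fexL_eq hΦ hε ht hv hs y, ← h', flow_flines hΦ hε hv hs hx]
  obtain ⟨⟨i, j⟩, hj⟩ := x
  obtain ⟨⟨i', j'⟩, hj'⟩ := y
  by_cases hii : i = i'
  · subst hii
    have hne : j ≠ j' := fun hh => hxy (by subst hh; rfl)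
    exact startSep_tree hε (hv i) (hs.1 i) hne hx (Or.inl rfl)
  · exact Or.inl (hs.2 i i' hii j j' _ hx)

/-- A null property of the initial configuration of a forest. -/
theorem ae_flines (hΦ : AdmissiblePotential Φ) (hε : 0 < ε) (Ps : Fin s → CTree) (t : ℝ)
    {G : (FIdx Ps → PhasePoint) → Prop} (hG : ∀ᵐ V : FIdx Ps → PhasePoint, G V) :
    ∀ᵐ q : FPar Ps, q ∈ FVS Φ ε Ps t → (∏ i, wt Φ (Ps i) (q i).1.2 (q i).2) ≠ 0 →
      G (flines Φ ε Ps q) := by
  obtain ⟨N, hN, hNm, hN0⟩ := exists_measurable_superset_of_null (ae_iff.1 hG)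
  have h1 := Forest399.forestMeasure_sep hΦ hε Ps t
    (H := fun z : FPar Ps × (FIdx Ps → PhasePoint) => N.indicator 1 z.2)
    ((measurable_one.indicator hNm).comp measurable_snd)
  have h2 : ∫⁻ V : FIdx Ps → PhasePoint, (Forest399.FSkelS Φ ε Ps t).indicator
      (fun V => N.indicator 1 V) V ≤ 0 := by
    calc ∫⁻ V : FIdx Ps → PhasePoint, (Forest399.FSkelS Φ ε Ps t).indicator
          (fun V => N.indicator 1 V) V ≤ ∫⁻ V : FIdx Ps → PhasePoint, N.indicator 1 V :=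
          lintegral_mono fun V => indicator_le_self _ _ _
      _ = 0 := by rw [lintegral_indicator_one hNm, hN0]
  have h3 : ∫⁻ q : FPar Ps, (FVS Φ ε Ps t).indicator
      (fun q => (∏ i, wt Φ (Ps i) (q i).1.2 (q i).2) * N.indicator 1 (flines Φ ε Ps q)) q = 0 := by
    have h4 := h1.trans_le h2
    rw [nonpos_iff_eq_zero, mul_eq_zero] at h4
    rcases h4 with h4 | h4
    · exact absurd h4 (pow_ne_zero _ (ENNReal.ofReal_pos.2 (by positivity)).ne')
    · exact h4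
  have hm : Measurable fun q : FPar Ps => (FVS Φ ε Ps t).indicator
      (fun q => (∏ i, wt Φ (Ps i) (q i).1.2 (q i).2) * N.indicator 1 (flines Φ ε Ps q)) q := by
    have h := Final973.measurable_FVS_ind (G := N.indicator 1) (H := fun _ => 1) hΦ hε Ps t
      (measurable_one.indicator hNm) measurable_const
    simpa only [mul_one] using h
  have h5 := (lintegral_eq_zero_iff hm).1 h3
  filter_upwards [h5] with q hq hqV hwt
  by_contra hcon
  have hmem : flines Φ ε Ps q ∈ N := hN hcon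
  have h6 : (∏ i, wt Φ (Ps i) (q i).1.2 (q i).2) * N.indicator 1 (flines Φ ε Ps q) = 0 := by
    have h7 := hq
    simp only [Pi.zero_apply] at h7
    rwa [indicator_of_mem hqV] at h7
  rw [indicator_of_mem hmem, Pi.one_apply, mul_one] at h6
  exact hwt h6

/-- **Almost surely all the worlds with exit lines of a forest are good.** -/
theorem forOk (hΦ : AdmissiblePotential Φ) (T : ℝ) : ForOk Φ T := by
  intro s Ps ε hε t ht
  have h1 : ∀ᵐ V : FIdx Ps → PhasePoint, ∀ n : ℕ, ∀ᵐ w : Config n, w ∈ PairExcluded ε n →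
      ∀ (σ : FIdx Ps → ℝ) (T : ℝ) (κ : Type) [Fintype κ] (j : κ → FIdx Ps) (ls : κ → ML),
      Function.Injective j → Rel ε (fun _ => 0) (range j) σ T (fun t => flow Φ ε t V) →
      (∀ x, (ls x).1 = (σ (j x), flow Φ ε (σ (j x)) V (j x))) →
      (∀ x y, x ≠ y → (ls x).1.1 = (ls y).1.1 → StartSep ε (ls x).1.2 (ls y).1.2) →
      MW.OkFam Φ ε (MW.cfg w) ls := by
    rw [ae_all_iff]
    intro n
    exact Measure.ae_ae_of_ae_prod (ae_okFam_cfg (α := FIdx Ps) hΦ hε n)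
  filter_upwards [ae_flines hΦ hε Ps t h1] with q hq hqV hwt n
  filter_upwards [hq hqV hwt n] with w hw hwE _
  exact hw hwE (fun k => rel (Ps k.1) (q k.1).2 k.2) t (FEx Ps) Subtype.val (fexL Φ ε Ps q)
    Subtype.val_injective (rel_forest hΦ hε ht.1 hqV.1 hqV.2)
    (fexL_eq hΦ hε ht.1 hqV.1 hqV.2) (startSep_forest hΦ hε ht.1 hqV.1 hqV.2)

end Crest.Agent.R122.Ret424

end
end

-- ▼ part R122/LNForDet_317
section

/-!
# Row 122, LN1 (helper317): the deterministic theorem for forests and `RetFacts`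

* `Hit0`, `Hit1` : bad hits in the glued worlds of `cfg w` and `(cfg w).ins l`.
* `RAF` : the reachability theorem for forests (one of the alternatives, or `RAllF`).
* `fOut_or` : `FOut`, or one of the alternatives of the gateway.
* `retFacts_of_raf` : `RetFacts` from `RAF`.
-/

set_option autoImplicit false
set_option linter.unusedSectionVars false
set_option linter.unusedVariables false

open MeasureTheory Set Filter Topology
open scoped Classical ENNReal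
open Crest.AnalysisR.Kinetic
open Crest.Agent.R122.VL581 Crest.Agent.R122.EDefs602 Crest.Agent.R122.LN2
open Crest.Agent.R122.Kin796 Crest.Agent.R122.Kin796.CTree Crest.Agent.R122.Tree674
open Crest.Agent.R122.TreeLines335 Crest.Agent.R122.LNTree410 Crest.Agent.R122.PWInst442
open Crest.Agent.R122.PWGlue491 Crest.Agent.R122.LN304 Crest.Agent.R122.BH167
open Crest.Agent.R122.LNPart424 Crest.Agent.R122.Ret424 Crest.Agent.R122.LNFor424
open Crest.Agent.R122.Gate424 Crest.Agent.R122.ForBind317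
open Crest.Agent.R122.RtG302 (AllOk)
open Crest.Agent.R122.Forest399 (FIdx FPar flines FValid FVS)
open Crest.Agent.R122.Final973 (PerpC)

noncomputable section

namespace Crest.Agent.R122.ForDet317

variable {Φ : Space3 → ℝ} {f₀ : PhasePoint → ℝ} {ε t T c ℓ ς : ℝ} {s n K L N : ℕ}
  {Ps : Fin s → CTree} {q : FPar Ps} {w : Config n}

/-- Bad hit in the glued world of `W`. -/
def HitF (Φ : Space3 → ℝ) (t c ε : ℝ) (N : ℕ) (q : FPar Ps) (w : Config n) {ι : Type} [Fintype ι]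
    (W : MW ι) (f : ι ↪ FJ n Ps) : Prop :=
  BadHit (fM Φ ε t n Ps) c (fZ Φ ε q w)
    (XG (fM Φ ε t n Ps) (fZ Φ ε q w) (Sp (fe n Ps)) (bD W f) (labs f) (XD W f Φ ε))
    (CG (fM Φ ε t n Ps) (fZ Φ ε q w) (Sp (fe n Ps)) (bD W f) (labs f) (XD W f Φ ε)) (fΛ n Ps) N

/-- **Reachability for forests.** -/
def RAF (Φ : Space3 → ℝ) (K : ℕ) (Ps : Fin s → CTree) : Prop :=
  ∀ L : ℕ, ∃ N N' : ℕ, N + N + (N + N) ≤ N' ∧ ∀ (ε t ℓ ς : ℝ), 0 < ε → 0 < t → 2 * ℓ ≤ ς →
    ∀ (q : FPar Ps) (n : ℕ) (w : Config n), q ∈ FVS Φ ε Ps t → w ∈ PairExcluded ε n →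
      AllOk Φ ε w (fexL Φ ε Ps q) →
      NoBad (fM Φ ε t n Ps) 1 ℓ ς (fZ Φ ε q w) (fΛ n Ps) N' →
      NoTwo (fM Φ ε t n Ps) 1 (fZ Φ ε q w) (fΛ n Ps) N' →
      ¬ HitF Φ t 1 ε N' q w (MW.cfg w) (fg n Ps) →
      (∀ x : FEx Ps, ¬ HitF Φ t 1 ε N' q w ((MW.cfg w).ins (fexL Φ ε Ps q x)) (fgx n x.1)) →
      ¬ RunS Φ ε t K L (b0 Ps) (flines Φ ε Ps q) w → RAllF Φ t 1 ε K N q w

/-- **`FOut` or one of the alternatives.** -/
theorem fOut_or (hΦ : AdmissiblePotential Φ) (hR : RAF Φ K Ps) (L : ℕ) :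
    ∃ N N' : ℕ, ∀ R > 0, ∀ ς > 0, ∃ ε₁ : ℝ, 0 < ε₁ ∧ ∀ ε : ℝ, 0 < ε → ε < ε₁ →
      2 * (R * ε) ≤ ς ∧ ∀ (t : Icc (0 : ℝ) T), 0 < (t : ℝ) →
        ∀ (n : ℕ) (q : FPar Ps) (w : Config n), w ∈ PairExcluded ε n → q ∈ FVS Φ ε Ps t →
        AllOk Φ ε w (fexL Φ ε Ps q) → FOut Φ t 1 (R * ε) ς ε K N q w ∨
          RunS Φ ε t K L (b0 Ps) (flines Φ ε Ps q) w ∨
          BadGas Φ T 1 R ς ε N' s Finset.univ (b0 Ps) (flines Φ ε Ps q) w ∨
          BadHitGas (BPos Φ T) Φ T 1 1 ε N' N' s Finset.univ (b0 Ps) (flines Φ ε Ps q) w := by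
  obtain ⟨N, N', hN, h⟩ := hR L
  refine ⟨N, N', fun R hR0 ς hς => ⟨ς / (2 * R), by positivity, fun ε hε hlt => ?_⟩⟩
  have hℓ : 2 * (R * ε) ≤ ς := by
    have h1 := (lt_div_iff₀ (by positivity : (0 : ℝ) < 2 * R)).1 hlt
    nlinarith
  refine ⟨hℓ, fun t ht n q w hw hq hok => ?_⟩
  by_cases hrun : RunS Φ ε t K L (b0 Ps) (flines Φ ε Ps q) w
  · exact Or.inr (Or.inl hrun)
  by_cases hbad : BadGas Φ T 1 R ς ε N' s Finset.univ (b0 Ps) (flines Φ ε Ps q) w
  · exact Or.inr (Or.inr (Or.inl hbad))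
  by_cases hhit : BadHitGas (BPos Φ T) Φ T 1 1 ε N' N' s Finset.univ (b0 Ps) (flines Φ ε Ps q) w
  · exact Or.inr (Or.inr (Or.inr hhit))
  left
  have hok' := MWFam255.okF_of_okFam hΦ hε hok
  have htT : (t : ℝ) ≤ T := t.2.2
  have hNB : NoBad (fM Φ ε t n Ps) 1 (R * ε) ς (fZ Φ ε q w) (fΛ n Ps) N' := by
    by_contra hc
    exact hbad (badGas_of_not hΦ hε htT sparts (conn_parts hΦ hε le_rfl hq) (Or.inl hc))
  have hNT : NoTwo (fM Φ ε t n Ps) 1 (fZ Φ ε q w) (fΛ n Ps) N' := by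
    by_contra hc
    exact hbad (badGas_of_not (R := R) (ς := ς) hΦ hε htT sparts (conn_parts hΦ hε le_rfl hq)
      (Or.inr hc))
  have hP := parts (n := n) (w := w) hΦ hε (le_refl (1 : ℝ)) hq hw
  have h0 : ¬ HitF Φ t 1 ε N' q w (MW.cfg w) (fg n Ps) := fun hc =>
    hhit (Chain726.badHitGas_of_badHit hΦ hε htT le_rfl (by linarith : T < T + 1) sparts hP
      (gd0 hΦ hε ht.le hq hok'.z) (fun i => Sp_inl i) hc)
  have h1 : ∀ x : FEx Ps, ¬ HitF Φ t 1 ε N' q w ((MW.cfg w).ins (fexL Φ ε Ps q x))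
      (fgx n x.1) := fun x hc =>
    hhit (Chain726.badHitGas_of_badHit hΦ hε htT le_rfl (by linarith : T < T + 1) sparts hP
      (gd1 hΦ hε ht hq x.1 (hok'.line hΦ hε x)) (fun i => Sp_inl i) hc)
  exact {
    nb := Bind302.noBad_mono hNB hN
    nt := noTwo_mono hNT (le_trans (by omega) hN)
    reach := h ε t (R * ε) ς hε ht hℓ q n w hq hw hok hNB hNT h0 h1 hrun }

/-- The gateway input from `RAF`. -/
theorem forNull_of_raf {β : ℝ} {f : ℝ → PhasePoint → ℝ} (hD : Master566.KData Φ β T f₀ f)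
    (hR : RAF Φ K Ps) {E : (ε t : ℝ) → (m : ℕ) → FPar Ps → Config m → Prop}
    (hpos : ∀ (ε t : ℝ) (n : ℕ) (q : FPar Ps) (w : Config n), 0 < ε → q ∈ FVS Φ ε Ps t →
      E ε t n q w → 0 < t)
    (hE : ∀ (ε t ℓ ς : ℝ) (N n : ℕ) (q : FPar Ps) (w : Config n), 0 < ε → 2 * ℓ ≤ ς →
      q ∈ FVS Φ ε Ps t → AllOk Φ ε w (fexL Φ ε Ps q) → FOut Φ t 1 ℓ ς ε K N q w →
      ¬ E ε t n q w) : ForNull Φ f₀ T Ps E := by
  refine forNull_of_det2 hD (K := K) fun L => ?_
  obtain ⟨N, N', h⟩ := fOut_or (T := T) hD.adm hR L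
  refine ⟨N', 1, 1, N', N', fun R hR0 ς hς => ?_⟩
  obtain ⟨ε₁, h0, h⟩ := h R hR0 ς hς
  refine ⟨ε₁, h0, fun ε hε hlt t n q w hw hq _ hok hEv => ?_⟩
  obtain ⟨hℓ, h⟩ := h ε hε hlt
  rcases h t (hpos ε t n q w hε hq hEv) n q w hw hq hok with h1 | h1
  · exact absurd hEv (hE ε t (R * ε) ς N n q w hε hℓ hq hok h1)
  · exact h1

/-- **`RetFacts` from the reachability theorem for forests.** -/
theorem retFacts_of_raf {β : ℝ} {f : ℝ → PhasePoint → ℝ} (hD : Master566.KData Φ β T f₀ f)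
    (hR : ∀ (s : ℕ) (Ps : Fin s → CTree) (K : ℕ), RAF Φ K Ps) : RetFacts Φ f₀ T where
  ok := forOk hD.adm T
  link s Ps x y hxy K := forNull_of_raf hD (hR s Ps K)
    (fun ε t n q w hε hq _ => pos_of_exit hε hq x)
    (fun ε t ℓ ς N n q w hε hℓ hq hok h => h.not_linkEv hD.adm hε hq hok le_rfl hℓ hxy)
  ret s Ps x i K := forNull_of_raf hD (hR s Ps K)
    (fun ε t n q w hε hq _ => pos_of_exit hε hq x)
    (fun ε t ℓ ς N n q w hε hℓ hq hok h => h.not_retEv hD.adm hε hq hok le_rfl hℓ x i)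

end Crest.Agent.R122.ForDet317

end
end

-- ▼ part R122/InEq2TXInt_335
section

/-!
# Row 122, INEQUALITY 2', touched half, v3 (helper335): pointwise bounds and integration

* `treeIn_of_hTreeP` : helper311's history gives helper811's `TreeIn` at every earlier time.
* `thV_le_theta` : the tree touches the gas not later than its lines (root included).
* `thetaL_add_le` : a good line which touches `w` before the tree touches `w + V` not later.
* `wm_append_le3`, `wm_touched_le3` : comparison of the weights.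
* `bnd_FTg3`, `bnd_FLg3`, `bnd_FT3`, `bnd_FL3`.
-/

set_option autoImplicit false
set_option linter.unusedSectionVars false

open MeasureTheory Set Filter Topology
open scoped ENNReal
open Crest.AnalysisR.Kinetic
open Crest.Agent.R122.Flow671 hiding rel
open Crest.Agent.R122.Causal291 Crest.Agent.R122.Loc45
open Crest.Agent.R122.Inf879 Crest.Agent.R122.GC311 Crest.Agent.R122.EDefs602
open Crest.Agent.R122.InEq2 Crest.Agent.R122.EBasic602
open Crest.Agent.R122.Kin796 Crest.Agent.R122.Kin796.CTree Crest.Agent.R122.Tree674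
open Crest.Agent.R122.PathFlow968 Crest.Agent.R122.TreeLines335 Crest.Agent.R122.LineMeas994
open Crest.Agent.R122.RtG302 Crest.Agent.R122.Weight984 Crest.Agent.R122.MeasE416
open Crest.Agent.R122.TreeBound335 Crest.Agent.R122.ToTree335
open Crest.Agent.R122.MWFam255 (PairNL)
open Crest.Agent.R122.MWFam255
open Crest.Agent.R122.E6Hyp879 (withD)

namespace Crest.Agent.R122.InEq2T

noncomputable section

open scoped Classical

variable {Φ : Space3 → ℝ} {f₀ : PhasePoint → ℝ} {ε : ℝ} {K : ℕ} {Q : EPar} {T' σ v te : ℝ}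

section det3

variable {k m : ℕ} {V : Config k} {w : Config m} {P : CTree} {z : PhasePoint × Par P}

/-- Labels of `w + V`. -/
def gV (m : ℕ) (e : Idx P ≃ Fin k) : Fin m ⊕ Idx P ≃ Fin (k + m) :=
  (Equiv.sumCongr (Equiv.refl (Fin m)) e).trans (appE k m)

theorem comap_gV (e : Idx P ≃ Fin k) (hV : ∀ x, V (e x) = lines Φ ε P z.1 z.2 x) :
    (MW.cfg (Fin.append V w : Config (k + m))).comap (gV m e) =
      (MW.cfg w).add (RealL811.treeW Φ ε P z) := by
  unfold MW.comap MW.add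
  congr 1
  · funext x
    rcases x with x | x <;> rfl
  · funext x
    rcases x with x | x
    · exact Fin.append_right V w x
    · exact (Fin.append_left V w (e x)).trans (hV x)
  · funext x
    rcases x with x | x <;> rfl

theorem comap_e (e : Idx P ≃ Fin k) (hV : ∀ x, V (e x) = lines Φ ε P z.1 z.2 x) :
    (MW.cfg V).comap e = RealL811.treeW Φ ε P z := by
  unfold MW.comap
  congr 1
  funext x
  exact hV x

theorem ok_gV (hΦ : AdmissiblePotential Φ) (hε : 0 < ε)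
    (hX : (Fin.append V w : Config (k + m)) ∈ PairExcluded ε (k + m)) (e : Idx P ≃ Fin k)
    (hV : ∀ x, V (e x) = lines Φ ε P z.1 z.2 x) :
    ((MW.cfg w).add (RealL811.treeW Φ ε P z)).Ok Φ ε := by
  rw [← comap_gV e hV]
  exact (Unw410.cfg_ok hΦ hε hX).comap hΦ hε _

theorem wm_gV (hΦ : AdmissiblePotential Φ) (hε : 0 < ε) (e : Idx P ≃ Fin k)
    (hV : ∀ x, V (e x) = lines Φ ε P z.1 z.2 x) (s : ℝ) :
    (MW.cfg (Fin.append V w : Config (k + m))).Wm Φ ε K Q s =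
      ((MW.cfg w).add (RealL811.treeW Φ ε P z)).Wm Φ ε K Q s := by
  rw [← comap_gV e hV, EquivE416.Wm_comap hΦ hε]

theorem thV_eq (hΦ : AdmissiblePotential Φ) (hε : 0 < ε) (e : Idx P ≃ Fin k)
    (hV : ∀ x, V (e x) = lines Φ ε P z.1 z.2 x) :
    thV Φ ε K te V w = (MW.cfg w).theta Φ ε K te (RealL811.treeW Φ ε P z) := by
  unfold thV
  rw [← comap_e e hV, MWAlg255.theta_comap_right hΦ hε]

/-- **The history is a tree of the world `w + V`** up to every time before `σ`. -/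
theorem treeIn_of_hTreeP (hΦ : AdmissiblePotential Φ) (hε : 0 < ε)
    (hX : (Fin.append V w : Config (k + m)) ∈ PairExcluded ε (k + m)) (e : Idx P ≃ Fin k)
    {i : Fin (k + m)}
    (h : HTreeP Φ ε T' σ (Fin.append V w : Config (k + m)) i P z.1 z.2 (Fin.castAdd m ∘ e))
    (hV : ∀ x, V (e x) = lines Φ ε P z.1 z.2 x) (hσT : σ ≤ T') (hv : v < σ) :
    RealL811.TreeIn Φ ε ((MW.cfg w).add (RealL811.treeW Φ ε P z)) P z Sum.inr v := by
  have hpr : ∀ x : Idx P, ∀ u, u < σ → u ≤ rel P z.2 x → u ≤ prot P T' z.2 x := by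
    intro x u hu hx
    by_cases hi : x = root P
    · rw [hi, PathFlow968.prot_root]
      exact hu.le.trans hσT
    · rw [← rel_eq_prot P T' z.2 x hi]
      exact hx
  have hag : ∀ (x : Idx P) (u : ℝ), 0 ≤ u → u ≤ v → u ≤ rel P z.2 x →
      pth Φ ε (Fin.append V w : Config (k + m)) u (gV m e (Sum.inr x)) =
        path Φ ε P z.1 z.2 u x := fun x u h0 hu hx =>
    h.agree x u h0 (hu.trans_lt hv) (hpr x u (hu.trans_lt hv) hx)
  refine ⟨Sum.inr_injective, fun _ => rfl, fun _ => rfl, fun x u h0 hu hx => ?_,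
    fun x u y h0 hu hx hc => ?_⟩
  · rw [← comap_gV e hV, EquivE416.path_comap hΦ hε]
    show (MW.cfg (Fin.append V w : Config (k + m))).path Φ ε u (gV m e (Sum.inr x)) = _
    rw [EBasic602.cfg_path hΦ hε]
    exact hag x u h0 hu hx
  · rw [← comap_gV e hV, EquivE416.C_comap hΦ hε] at hc
    have hc' := (EBasic602.cfg_C_iff hΦ hε hX h0 _ _).1 hc
    have huσ : u < σ := hu.trans_lt hv
    have h1 : gV m e (Sum.inr x) ∈
        pre (Ct (pth Φ ε (Fin.append V w : Config (k + m))) ε) i σ u :=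
      (h.past u h0 huσ _).2 ⟨x, rfl, hpr x u huσ hx⟩
    obtain ⟨r, hr, hp⟩ := h1
    obtain ⟨y', hy', hy2⟩ := (h.past u h0 huσ _).1 ⟨r, hr, hp.contact hc'⟩
    have hyy : y = Sum.inr y' := (gV m e).injective (by rw [← hy']; rfl)
    subst hyy
    refine ⟨y', rfl, ?_⟩
    by_cases hi : y' = root P
    · have h2 : dist (pth Φ ε (Fin.append V w : Config (k + m)) u (gV m e (Sum.inr x))).1
          (pth Φ ε (Fin.append V w : Config (k + m)) u (gV m e (Sum.inr y'))).1 ≤ ε := hc'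
      have h3 : pth Φ ε (Fin.append V w : Config (k + m)) u (gV m e (Sum.inr y')) =
          path Φ ε P z.1 z.2 u y' := h.agree y' u h0 huσ hy2
      rw [hag x u h0 hu hx, h3] at h2
      have hw := (ct_iff hΦ hε h.valid h.sep ⟨h0, huσ.le.trans hσT⟩).1 h2
      rcases hw with rfl | hw | hw
      · exact hx
      · exact (RealL811.inWindow_rel hε.le h.valid.2 hw).2.2
      · exact (RealL811.inWindow_rel hε.le h.valid.2 hw).2.1
    · rw [rel_eq_prot P T' z.2 y' hi]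
      exact hy2

/-! ### Good trees -/

theorem GoodT.exits (hΦ : AdmissiblePotential Φ) (hε : 0 < ε) (h : GoodT Φ ε K te P z w) :
    AllOk Φ ε w (exL Φ ε P z) ∧ ¬ LinkEx Φ ε K te w (exL Φ ε P z) := by
  exact ⟨MWFam255.okFam_comp hΦ hε h.1 ⟨Subtype.val, Subtype.val_injective⟩,
    not_not.2 (h.2.comp ⟨Subtype.val, Subtype.val_injective⟩)⟩

/-- Standing data of the pointwise comparison. -/
structure PD (Φ : Space3 → ℝ) (ε : ℝ) (K : ℕ) (T' σ te : ℝ) {k m : ℕ} (V : Config k)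
    (w : Config m) (P : CTree) (z : PhasePoint × Par P) (e : Idx P ≃ Fin k)
    (i : Fin (k + m)) : Prop where
  hX : (Fin.append V w : Config (k + m)) ∈ PairExcluded ε (k + m)
  hw : w ∈ PairExcluded ε m
  h : HTreeP Φ ε T' σ (Fin.append V w : Config (k + m)) i P z.1 z.2 (Fin.castAdd m ∘ e)
  ln : ∀ x, V (e x) = lines Φ ε P z.1 z.2 x
  card : P.leaves ≤ K
  perp : Perp ε V w
  te0 : 0 ≤ te
  σte : σ ≤ te
  σT : σ ≤ T'
  good : GoodT Φ ε K te P z w

namespace PD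

variable {e : Idx P ≃ Fin k} {i : Fin (k + m)}

theorem tree (h : PD Φ ε K T' σ te V w P z e i) (hΦ : AdmissiblePotential Φ) (hε : 0 < ε)
    {v : ℝ} (hv : v < σ) :
    RealL811.TreeIn Φ ε ((MW.cfg w).add (RealL811.treeW Φ ε P z)) P z Sum.inr v :=
  treeIn_of_hTreeP hΦ hε h.hX e h.h h.ln h.σT hv

theorem okA (h : PD Φ ε K T' σ te V w P z e i) (hΦ : AdmissiblePotential Φ) (hε : 0 < ε) :
    ((MW.cfg w).add (RealL811.treeW Φ ε P z)).Ok Φ ε := ok_gV hΦ hε h.hX e h.ln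

theorem sep0 (h : PD Φ ε K T' σ te V w P z e i) (hΦ : AdmissiblePotential Φ) (hε : 0 < ε)
    (x : Idx P) (y : Fin m) (_ : (MW.cfg w).b y ≤ 0) :
    ε < dist (((MW.cfg w).add (RealL811.treeW Φ ε P z)).path Φ ε 0 (Sum.inr x)).1
      (((MW.cfg w).add (RealL811.treeW Φ ε P z)).path Φ ε 0 (Sum.inl y)).1 := by
  rw [MW.path_zero hΦ hε]
  have h1 := h.perp (e x) y
  rw [h.ln x] at h1
  exact h1

/-- The tree touches the gas not later than its lines (root included). -/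
theorem thV_le (h : PD Φ ε K T' σ te V w P z e i) (hΦ : AdmissiblePotential Φ) (hε : 0 < ε)
    (hlt : (MW.cfg w).theta Φ ε K te (MW.lines (lineML Φ ε P z)) < σ) :
    thV Φ ε K te V w ≤ (MW.cfg w).theta Φ ε K te (MW.lines (lineML Φ ε P z)) := by
  set t0 := (MW.cfg w).theta Φ ε K te (MW.lines (lineML Φ ε P z)) with ht0
  have h0 : 0 ≤ t0 := MW.theta_nonneg h.te0
  have hte : t0 ≤ te := hlt.le.trans h.σte
  have hnf := MWFam255.noLinkFam hΦ hε h.te0 h.good.1 h.good.2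
  have hF : FamNL Φ ε K te (MW.cfg w) (lineML Φ ε P z) t0 :=
    famNL_of_pair h.good.1 h.good.2 h0 hte fun x =>
      MW.theta_lines_le hΦ hε h.good.1 hnf h.te0 x
  have h1 : (MW.cfg w).Touched Φ ε K (MW.lines (lineML Φ ε P z)) t0 :=
    (MW.touched_iff hΦ hε (Unw410.cfg_ok hΦ hε h.hw) (h.good.1.lines hΦ hε) ⟨h0, hte⟩).2 le_rfl
  have h2 := (LinkVh335.touched_tree_iff hΦ hε h.h.valid h.h.sep h.card (hlt.le.trans h.σT)
    (fun _ => le_rfl) (h.tree hΦ hε hlt) (h.okA hΦ hε) hF).2 h1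
  rw [thV_eq hΦ hε e h.ln]
  exact MW.theta_le_of_touched ⟨h0, hte⟩ h2

/-- **A good line** which touches `w` before the tree touches `w + V` not later. -/
theorem thetaL_le (h : PD Φ ε K T' σ te V w P z e i) (hΦ : AdmissiblePotential Φ) (hε : 0 < ε)
    {l : ML} (hl : GoodX Φ ε K te P z w l) (hl0 : 0 ≤ l.1.1)
    (hlσ : (MW.cfg w).thetaL Φ ε K te l < σ)
    (hF : ∀ x, (MW.cfg w).thetaL Φ ε K te l ≤ (MW.cfg w).thetaL Φ ε K te (lineML Φ ε P z x)) :
    ((MW.cfg w).add (RealL811.treeW Φ ε P z)).thetaL Φ ε K te l ≤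
      (MW.cfg w).thetaL Φ ε K te l := by
  have hNL : PairNL Φ ε K te (MW.cfg w) (withD (lineML Φ ε P z) l) := by
    rintro (x | x) (y | y) hxy
    · exact h.good.2 x y fun h' => hxy (congrArg Sum.inl h')
    · exact hl.nl x
    · exact MW.NoLink.symm (hl.nl y)
    · exact absurd rfl hxy
  exact LinkVh335.thetaL_le hΦ hε h.h.valid h.h.sep h.card (v := (MW.cfg w).thetaL Φ ε K te l)
    (hlσ.le.trans h.σT) h.te0 (fun _ => le_rfl) hl0 (h.tree hΦ hε hlσ) (h.okA hΦ hε) hl.okr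
    (h.sep0 hΦ hε) hl.ok hNL hl.ret le_rfl (hlσ.le.trans h.σte) hF

end PD

/-- Lines born at negative times are not charged. -/
theorem lineM_neg (γ : ℝ → ℝ) (ρ : ℝ≥0∞) (K : ℕ) (T : ℝ) :
    lineM γ ρ K T {l : ML | l.1.1 < 0} = 0 := by
  have h1 : lineV T {l : ML | l.1.1 < 0} = 0 := by
    have h2 : {l : ML | l.1.1 < 0} = ((Iio 0 ×ˢ (univ : Set PhasePoint)) ×ˢ (univ : Set ℕ)) := by
      ext l
      simp
    unfold lineV
    rw [h2, Measure.prod_prod, Measure.prod_prod, Measure.restrict_apply measurableSet_Iio]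
    have h3 : Iio (0 : ℝ) ∩ Ioc 0 T = ∅ := by
      ext x
      simp only [mem_inter_iff, mem_Iio, mem_Ioc, mem_empty_iff_false, iff_false]
      rintro ⟨h3, h4, -⟩
      exact absurd h3 (not_lt.2 h4.le)
    rw [h3]
    simp
  exact withDensity_absolutelyContinuous _ _ h1

theorem mul_min_le {L : ℝ≥0∞} {a W W' : ℝ≥0∞} (h1 : W' ≤ W + L * a) (h2 : W' ≤ 1) :
    W' ≤ W + (1 + L) * min 1 a := by
  rcases le_total 1 a with h | h
  · rw [min_eq_left h, mul_one]
    exact h2.trans (le_self_add.trans le_add_self)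
  · rw [min_eq_right h]
    exact h1.trans (add_le_add le_rfl (mul_le_mul_left (le_add_self) _))

/-- **Comparison of the weights** at a time `t₁ ≤ σ` before which the lines of the tree do not
touch. -/
theorem PD.wm_le {e : Idx P ≃ Fin k} {i : Fin (k + m)} (h : PD Φ ε K T' σ Q.te V w P z e i)
    (hΦ : AdmissiblePotential Φ) (hε : 0 < ε) (hL : 0 < Q.L) {t₁ : ℝ} (ht₁ : t₁ ≤ σ)
    (hF : ∀ x, t₁ ≤ (MW.cfg w).thetaL Φ ε K Q.te (lineML Φ ε P z x)) :
    (MW.cfg (Fin.append V w : Config (k + m))).Wm Φ ε K Q σ ≤ (MW.cfg w).Wm Φ ε K Q t₁ +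
      (1 + ENNReal.ofReal Q.L) * min 1 (lineM Q.γ Q.ρ K Q.te (lkX Φ ε K Q.te P z w)) := by
  refine mul_min_le ?_ (wm_le_one hL.le _ _)
  rw [wm_gV hΦ hε e h.ln]
  refine (Weight984.W_anti hL.le (XRm_mono ht₁)).trans (W_le_add hL ?_)
  set Y := MW.cfg w with hY
  set YA := (MW.cfg w).add (RealL811.treeW Φ ε P z) with hYA
  have hsub : {l : ML | Y.thetaL Φ ε K Q.te l < t₁} ⊆
      {l : ML | YA.thetaL Φ ε K Q.te l < t₁} ∪ (lkX Φ ε K Q.te P z w ∪ {l : ML | l.1.1 < 0}) := by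
    intro l hl
    have hl' : Y.thetaL Φ ε K Q.te l < t₁ := hl
    by_cases h1 : l ∈ lkX Φ ε K Q.te P z w
    · exact Or.inr (Or.inl h1)
    by_cases h2 : l.1.1 < 0
    · exact Or.inr (Or.inr h2)
    left
    have h3 : GoodX Φ ε K Q.te P z w l := not_not.1 h1
    exact (h.thetaL_le hΦ hε h3 (not_lt.1 h2) (hl'.trans_le ht₁) fun x =>
      hl'.le.trans (hF x)).trans_lt hl'
  refine (measure_mono hsub).trans ((measure_union_le _ _).trans (add_le_add le_rfl ?_))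
  refine (measure_union_le _ _).trans ?_
  rw [lineM_neg, add_zero]

/-- **The weight at the infection time**, untouched case. -/
theorem PD.wm_untouched {e : Idx P ≃ Fin k} {i : Fin (k + m)}
    (h : PD Φ ε K T' σ Q.te V w P z e i) (hΦ : AdmissiblePotential Φ) (hε : 0 < ε)
    (hL : 0 < Q.L) (hun : σ ≤ thV Φ ε K Q.te V w) :
    (MW.cfg (Fin.append V w : Config (k + m))).Wm Φ ε K Q σ ≤ (MW.cfg w).Wm Φ ε K Q σ +
      (1 + ENNReal.ofReal Q.L) * min 1 (lineM Q.γ Q.ρ K Q.te (lkX Φ ε K Q.te P z w)) := by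
  refine h.wm_le hΦ hε hL le_rfl fun x => ?_
  have hnf := MWFam255.noLinkFam hΦ hε h.te0 h.good.1 h.good.2
  refine le_trans ?_ (MW.theta_lines_le hΦ hε h.good.1 hnf h.te0 x)
  by_contra hlt
  push Not at hlt
  exact absurd (h.thV_le hΦ hε hlt) (not_le.2 (hlt.trans_le hun))

/-- **The weight at the infection time**, touched case. -/
theorem PD.wm_touched {e : Idx P ≃ Fin k} {i : Fin (k + m)}
    (h : PD Φ ε K T' σ Q.te V w P z e i) (hΦ : AdmissiblePotential Φ) (hε : 0 < ε)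
    (hT : 0 ≤ T') (hL : 0 < Q.L) (htw : 0 ≤ Q.tw) (htwe : Q.tw ≤ Q.te) (hteT : Q.te ≤ T')
    {s : ℝ} (hs : s < σ) (ht : TchV Φ ε K V w s) :
    (MW.cfg (Fin.append V w : Config (k + m))).Wm Φ ε K Q σ ≤
      (∑ x, (phi1 Φ ε K Q m w (exL Φ ε P z x) + phi2 Φ ε K Q m w (exL Φ ε P z x))) +
        (1 + ENNReal.ofReal Q.L) * min 1 (lineM Q.γ Q.ρ K Q.te (lkX Φ ε K Q.te P z w)) := by
  have h0 : 0 ≤ s := tchV_nonneg hΦ hε ht
  have hte : 0 ≤ Q.te := h.te0
  obtain ⟨hOk, hLk⟩ := h.good.exits hΦ hε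
  set θ := thV Φ ε K Q.te V w with hθ
  have hθs : θ ≤ s := thV_le_of_tchV hΦ hε h.hw h.hX ⟨h0, hs.le.trans h.σte⟩ ht
  have hθσ : θ < σ := hθs.trans_lt hs
  obtain ⟨x₀, hx₀⟩ := exists_exit_touch hΦ hε hT h.hX h.hw e h.h h.card h.σte hteT hOk hLk hs ht
  rw [← hθ] at hx₀
  have : Nonempty {x : Idx P // x ≠ root P} := ⟨x₀⟩
  obtain ⟨x, hmin⟩ := Finite.exists_min fun x => (MW.cfg w).thetaL Φ ε K Q.te (exL Φ ε P z x)
  set θx := (MW.cfg w).thetaL Φ ε K Q.te (exL Φ ε P z x) with hθx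
  have hx : θx ≤ θ := (hmin x₀).trans hx₀
  have hnf := MWFam255.noLinkFam hΦ hε h.te0 h.good.1 h.good.2
  have hF : (MW.cfg w).theta Φ ε K Q.te (MW.lines (lineML Φ ε P z)) ≤ θx :=
    MW.theta_lines_le hΦ hε h.good.1 hnf h.te0 x.1
  have hall : ∀ y, θx ≤ (MW.cfg w).thetaL Φ ε K Q.te (lineML Φ ε P z y) := fun y =>
    (hx.trans (h.thV_le hΦ hε (hF.trans_lt (hx.trans_lt hθσ)))).trans
      (MW.theta_lines_le hΦ hε h.good.1 hnf h.te0 y)
  have hok := MWFam255.okF_of_okFam hΦ hε hOk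
  have hbirth : (exL Φ ε P z x).1.1 ≤ θx := by
    have h1 := MW.birth_le_theta (K := K) (T := Q.te) hΦ hε hok.z (hok.line hΦ hε x)
      (τ := min (exL Φ ε P z x).1.1 Q.te) (min_le_right _ _) (fun _ => min_le_left _ _) (by
        show ∑ _y : Unit, (exL Φ ε P z x).2 ≤ K
        rw [Finset.univ_unique, Finset.sum_singleton]
        exact (mk_le P x.1).trans h.card)
    have hb0 : 0 ≤ (exL Φ ε P z x).1.1 := TreeLines335.rel_nonneg hε.le h.h.valid.2 x.1
    rcases h1 with h1 | h1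
    · rcases min_le_iff.1 h1 with h2 | h2
      · exact h2
      · exact absurd ((h2.trans hx).trans_lt hθσ) (not_lt.2 h.σte)
    · exact absurd h1 (not_lt.2 (le_min hb0 hte))
  refine (h.wm_le hΦ hε hL (hx.trans hθσ.le) hall).trans (add_le_add ?_ le_rfl)
  refine le_trans ?_ (Finset.single_le_sum (f := fun x => phi1 Φ ε K Q m w (exL Φ ε P z x) +
    phi2 Φ ε K Q m w (exL Φ ε P z x)) (fun _ _ => bot_le) (Finset.mem_univ x))
  rcases lt_or_ge Q.tw θx with h3 | h3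
  · refine le_trans ?_ le_self_add
    unfold phi1
    rw [if_pos (hbirth.trans ((hx.trans hθσ.le).trans h.σte))]
    unfold MW.touchW
    rw [if_pos ⟨h3, (hx.trans hθσ.le).trans h.σte⟩]
  · refine le_trans ?_ le_add_self
    unfold phi2
    have h4 : (MW.cfg w).thetaL Φ ε K Q.tw (exL Φ ε P z x) ≤ Q.tw :=
      (MW.theta_le_iff_horizon hΦ hε hok.z (hok.line hΦ hε x) htw htwe le_rfl).1 h3
    rw [if_pos ⟨hbirth.trans h3, h4⟩]
    exact Weight984.W_le_one hL.le _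

end det3

/-! ### Pointwise bounds by tree functionals -/

section point3

variable {k m : ℕ} {V : Config k} {w : Config m} {j : Fin k}
  {NL N : (P : CTree) → PhasePoint × Par P → (m : ℕ) → Config m → ℝ≥0∞}

theorem perpT_of {P : CTree} {z : PhasePoint × Par P} (e : Idx P → Fin k)
    (h : Adm Φ P z.1.2 z.2) (hV : ∀ x, V (e x) = lines Φ ε P z.1 z.2 x) (hp : Perp ε V w) :
    PerpT Φ ε P z w := by
  intro x i
  rw [linesM_of_adm ε h, ← hV x]
  exact hp (e x) i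

/-- **Touched half, pointwise**, v3. -/
theorem FTg_le3 (hΦ : AdmissiblePotential Φ) (hε : 0 < ε) (hT : 0 ≤ T') (hL : 0 < Q.L)
    (htw : 0 ≤ Q.tw) (htwe : Q.tw ≤ Q.te) (hteT : Q.te ≤ T')
    (hNL : LnMaj Φ ε K T' Q.te Q.γ Q.ρ NL) (hN : ExMajR Φ ε K T' Q.te N)
    (hV : V ∈ PairExcluded ε k) (hw : w ∈ PairExcluded ε m) (hp : Perp ε V w) :
    FTg Φ ε K Q T' k m V w j ≤ ways Φ ε T' (fun P z => (activity ε)⁻¹ *
      (HX Φ ε K T' Q.tw (phi1 Φ ε K Q) P z m w + HX Φ ε K T' Q.tw (phi2 Φ ε K Q) P z m w +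
        (1 + ENNReal.ofReal Q.L) * HN Φ ε K T' NL P z m w + HN Φ ε K T' N P z m w)) V j := by
  unfold FTg
  split_ifs with hall
  swap
  · exact bot_le
  obtain ⟨hJ, ⟨s, hs, hts⟩, P, z, e', h, hun⟩ := hall
  obtain ⟨hPK, e, he, hroot, hlines⟩ := tree_data hΦ hε hT htw hJ h
  have hX := append_mem hV hw hp
  refine le_trans ?_ (le_ways (Φ := Φ) (V := V) (j := j) (P := P) (e := e) (ℓ := z.1) (p := z.2)
    hΦ hε hroot h.valid hlines)
  refine mul_le_mul_right ?_ _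
  have hvs : vsI Φ ε K T' P z = 1 := by
    unfold vsI
    rw [if_pos ⟨hPK, h.valid, h.sep⟩]
  have hpt := perpT_of e h.valid.1 hlines hp
  have hg : gI Φ ε Q.tw P z w = 1 := gI_eq_one hΦ hε h.valid h.sep (htwe.trans hteT) hun
  show _ ≤ HX Φ ε K T' Q.tw (phi1 Φ ε K Q) P z m w + HX Φ ε K T' Q.tw (phi2 Φ ε K Q) P z m w +
    (1 + ENNReal.ofReal Q.L) * HN Φ ε K T' NL P z m w + HN Φ ε K T' N P z m w
  unfold HX HN
  rw [hvs, hg, pI_eq_one e h.valid.1 hlines hp, exS_eq h.valid.1, exS_eq h.valid.1,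
    eW_block e h.valid.1 hlines]
  simp only [one_mul]
  set a := wQ Φ ε P z with ha
  by_cases hgood : GoodT Φ ε K Q.te P z w
  · rw [he] at h
    have hD : PD Φ ε K T' _ Q.te V w P z e (Fin.castAdd m j) :=
      ⟨hX, hw, h, hlines, hPK, hp, htw.trans htwe, hJ.2.2, hJ.2.2.trans hteT, hgood⟩
    have h1 := hD.wm_touched (Q := Q) hΦ hε hT hL htw htwe hteT hs hts
    rw [Finset.sum_add_distrib] at h1
    have h2 := hNL P z m w hPK h.valid h.sep hw hpt
    refine (mul_le_mul_right (h1.trans (add_le_add le_rfl (mul_le_mul_right h2 _))) a).trans ?_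
    rw [mul_add, mul_add]
    refine le_trans (le_of_eq ?_) le_self_add
    ring
  · refine le_trans ?_ le_add_self
    refine mul_le_mul_right ?_ a
    exact (wm_le_one hL.le _ _).trans (hN P z m w hPK h.valid h.sep hw hpt hgood)

/-- **Weight comparison, pointwise**, v3. -/
theorem FLg_le3 (hΦ : AdmissiblePotential Φ) (hε : 0 < ε) (hT : 0 ≤ T') (hL : 0 < Q.L)
    (htw : 0 ≤ Q.tw) (htwe : Q.tw ≤ Q.te) (hteT : Q.te ≤ T')
    (hNL : LnMaj Φ ε K T' Q.te Q.γ Q.ρ NL) (hN : ExMajR Φ ε K T' Q.te N)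
    (hV : V ∈ PairExcluded ε k) (hw : w ∈ PairExcluded ε m) (hp : Perp ε V w) :
    FLg Φ ε K Q T' k m V w j ≤ ways Φ ε T' (fun P z => (activity ε)⁻¹ *
      ((1 + ENNReal.ofReal Q.L) * HN Φ ε K T' NL P z m w + HN Φ ε K T' N P z m w)) V j := by
  unfold FLg
  split_ifs with hall
  swap
  · exact bot_le
  obtain ⟨hJ, hnt, P, z, e', h⟩ := hall
  obtain ⟨hPK, e, he, hroot, hlines⟩ := tree_data hΦ hε hT htw hJ h
  have hX := append_mem hV hw hp
  refine le_trans ?_ (le_ways (Φ := Φ) (V := V) (j := j) (P := P) (e := e) (ℓ := z.1) (p := z.2)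
    hΦ hε hroot h.valid hlines)
  refine mul_le_mul_right ?_ _
  have hvs : vsI Φ ε K T' P z = 1 := by
    unfold vsI
    rw [if_pos ⟨hPK, h.valid, h.sep⟩]
  have hpt := perpT_of e h.valid.1 hlines hp
  show _ ≤ (1 + ENNReal.ofReal Q.L) * HN Φ ε K T' NL P z m w + HN Φ ε K T' N P z m w
  unfold HN
  rw [hvs, pI_eq_one e h.valid.1 hlines hp, eW_block e h.valid.1 hlines]
  simp only [one_mul]
  set a := wQ Φ ε P z with ha
  have hσ0 : 0 ≤ iTime Φ ε K Q.te (Fin.append V w : Config (k + m)) (Fin.castAdd m j) :=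
    htw.trans hJ.2.1.le
  have hle : iTime Φ ε K Q.te (Fin.append V w : Config (k + m)) (Fin.castAdd m j) ≤
      thV Φ ε K Q.te V w :=
    le_thV hΦ hε hw hX hσ0 hJ.2.2 fun s hs ht => hnt ⟨s, hs, ht⟩
  by_cases hgood : GoodT Φ ε K Q.te P z w
  · rw [he] at h
    have hD : PD Φ ε K T' _ Q.te V w P z e (Fin.castAdd m j) :=
      ⟨hX, hw, h, hlines, hPK, hp, htw.trans htwe, hJ.2.2, hJ.2.2.trans hteT, hgood⟩
    have h1 := hD.wm_untouched (Q := Q) hΦ hε hL hle
    have h2 := hNL P z m w hPK h.valid h.sep hw hpt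
    refine le_trans ?_ le_self_add
    rw [mul_left_comm]
    refine mul_le_mul_right ?_ a
    rw [tsub_le_iff_left]
    exact h1.trans (add_le_add le_rfl (mul_le_mul_right h2 _))
  · refine le_trans ?_ le_add_self
    refine mul_le_mul_right ?_ a
    exact (tsub_le_self.trans (wm_le_one hL.le _ _)).trans
      (hN P z m w hPK h.valid h.sep hw hpt hgood)

end point3

/-! ### The bounds -/

/-- **The touched half** for histories with unhit protected tubes, v3. -/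
theorem bnd_FTg3 (hΦ : AdmissiblePotential Φ) (hf : Measurable f₀) (hε : 0 < ε) (hT : 0 ≤ T')
    (hL : 0 < Q.L) (hγ : Measurable Q.γ) (htw : 0 ≤ Q.tw) (htwe : Q.tw ≤ Q.te) (hteT : Q.te ≤ T')
    {C δ : ℝ≥0∞} (hQ : QXE Φ f₀ ε K T' Q.tw Q.γ Q.ρ C δ)
    {NL : (P : CTree) → PhasePoint × Par P → (m : ℕ) → Config m → ℝ≥0∞} (hNL : MeasTS NL)
    (hNLE : LnMaj Φ ε K T' Q.te Q.γ Q.ρ NL)
    {N : (P : CTree) → PhasePoint × Par P → (m : ℕ) → Config m → ℝ≥0∞} (hN : MeasTS N)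
    (hNE : ExMajR Φ ε K T' Q.te N) :
    Bnd Φ f₀ ε T' (FTg Φ ε K Q T') (C * XI Φ f₀ ε K Q + C * tnMass Φ f₀ Q.γ Q.ρ ε K Q.tw +
      2 * δ + (1 + ENNReal.ofReal Q.L) * TS Φ f₀ ε T' (HN Φ ε K T' NL) +
      TS Φ f₀ ε T' (HN Φ ε K T' N)) := by
  have m1 := measTS_HX (φ := phi1 Φ ε K Q) hΦ hε K T' Q.tw (measurable_phi1 hΦ hε K Q)
  have m2 := measTS_HX (φ := phi2 Φ ε K Q) hΦ hε K T' Q.tw (measurable_phi2 hΦ hε K Q)
  have m3 : MeasTS fun P z m w => (1 + ENNReal.ofReal Q.L) * HN Φ ε K T' NL P z m w := fun P m =>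
    (measTS_HN hΦ hε K T' hNL P m).const_mul _
  have m4 := measTS_HN hΦ hε K T' hN
  have m12 : MeasTS fun P z m w => HX Φ ε K T' Q.tw (phi1 Φ ε K Q) P z m w +
      HX Φ ε K T' Q.tw (phi2 Φ ε K Q) P z m w := fun P m => (m1 P m).add (m2 P m)
  have m123 : MeasTS fun P z m w => HX Φ ε K T' Q.tw (phi1 Φ ε K Q) P z m w +
      HX Φ ε K T' Q.tw (phi2 Φ ε K Q) P z m w +
      (1 + ENNReal.ofReal Q.L) * HN Φ ε K T' NL P z m w := fun P m => (m12 P m).add (m3 P m)
  have hne : (1 + ENNReal.ofReal Q.L) ≠ ∞ := ENNReal.add_ne_top.2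
    ⟨ENNReal.one_ne_top, ENNReal.ofReal_ne_top⟩
  refine Bnd.of_H (H := fun P z m w => (activity ε)⁻¹ *
      (HX Φ ε K T' Q.tw (phi1 Φ ε K Q) P z m w + HX Φ ε K T' Q.tw (phi2 Φ ε K Q) P z m w +
        (1 + ENNReal.ofReal Q.L) * HN Φ ε K T' NL P z m w + HN Φ ε K T' N P z m w))
    (fun P m => ((m123 P m).add (m4 P m)).const_mul _) ?_ ?_
  · intro k m V w j hV hw hp
    exact FTg_le3 hΦ hε hT hL htw htwe hteT hNLE hNE hV hw hp
  · rw [act_TS (Φ := Φ) (f₀ := f₀) (T' := T') hε (fun P z m w =>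
      HX Φ ε K T' Q.tw (phi1 Φ ε K Q) P z m w + HX Φ ε K T' Q.tw (phi2 Φ ε K Q) P z m w +
        (1 + ENNReal.ofReal Q.L) * HN Φ ε K T' NL P z m w + HN Φ ε K T' N P z m w)]
    rw [TS_add hΦ hf m123, TS_add hΦ hf m12, TS_add hΦ hf m1, TS_const_mul hne]
    refine add_le_add (add_le_add ?_ le_rfl) le_rfl
    have e1 := hQ (phi1 Φ ε K Q) (measurable_phi1 hΦ hε K Q) (phi1_le_one hL.le)
    have e2 := hQ (phi2 Φ ε K Q) (measurable_phi2 hΦ hε K Q) phi2_le_one
    simp only [lintegral_phi1 hteT] at e1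
    simp only [lintegral_phi2 hΦ hε (htwe.trans hteT)] at e2
    rw [← XI_eq hf hγ (measurable_touchW_cfg hΦ hε K Q)] at e1
    refine (add_le_add e1 e2).trans (le_of_eq ?_)
    unfold tnMass
    ring

/-- **The weight comparison** (untouched case), v3. -/
theorem bnd_FLg3 (hΦ : AdmissiblePotential Φ) (hf : Measurable f₀) (hε : 0 < ε) (hT : 0 ≤ T')
    (hL : 0 < Q.L) (htw : 0 ≤ Q.tw) (htwe : Q.tw ≤ Q.te) (hteT : Q.te ≤ T')
    {NL : (P : CTree) → PhasePoint × Par P → (m : ℕ) → Config m → ℝ≥0∞} (hNL : MeasTS NL)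
    (hNLE : LnMaj Φ ε K T' Q.te Q.γ Q.ρ NL)
    {N : (P : CTree) → PhasePoint × Par P → (m : ℕ) → Config m → ℝ≥0∞} (hN : MeasTS N)
    (hNE : ExMajR Φ ε K T' Q.te N) :
    Bnd Φ f₀ ε T' (FLg Φ ε K Q T') ((1 + ENNReal.ofReal Q.L) * TS Φ f₀ ε T' (HN Φ ε K T' NL) +
      TS Φ f₀ ε T' (HN Φ ε K T' N)) := by
  have m3 : MeasTS fun P z m w => (1 + ENNReal.ofReal Q.L) * HN Φ ε K T' NL P z m w := fun P m =>
    (measTS_HN hΦ hε K T' hNL P m).const_mul _
  have m4 := measTS_HN hΦ hε K T' hN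
  have hne : (1 + ENNReal.ofReal Q.L) ≠ ∞ := ENNReal.add_ne_top.2
    ⟨ENNReal.one_ne_top, ENNReal.ofReal_ne_top⟩
  refine Bnd.of_H (H := fun P z m w => (activity ε)⁻¹ *
      ((1 + ENNReal.ofReal Q.L) * HN Φ ε K T' NL P z m w + HN Φ ε K T' N P z m w))
    (fun P m => ((m3 P m).add (m4 P m)).const_mul _) ?_ ?_
  · intro k m V w j hV hw hp
    exact FLg_le3 hΦ hε hT hL htw htwe hteT hNLE hNE hV hw hp
  · rw [act_TS (Φ := Φ) (f₀ := f₀) (T' := T') hε (fun P z m w =>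
      (1 + ENNReal.ofReal Q.L) * HN Φ ε K T' NL P z m w + HN Φ ε K T' N P z m w),
      TS_add hΦ hf m3, TS_const_mul hne]



end

end Crest.Agent.R122.InEq2T
end

-- ▼ part R122/InEq2TInX_718

/-!
# Row 122, INEQUALITY 2', touched half, v3 (helper718): the bounds `InB` of `FTg` and `FLg`

* `inB_FLg3`, `inB_FTg3` : the weight comparison and the touched half.
* `inHL_FLg`, `inHL_FTg` : the same with the quantifiers of helper311's `I2Parts`.
-/

set_option autoImplicit false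
set_option maxHeartbeats 400000

open MeasureTheory Set Filter Topology
open scoped ENNReal
open Crest.AnalysisR.Kinetic
open Crest.Agent.R122.GC311 Crest.Agent.R122.EDefs602 Crest.Agent.R122.InEq2
open Crest.Agent.R122.Kin796 Crest.Agent.R122.Kin796.CTree Crest.Agent.R122.Tree674
open Crest.Agent.R122.RtG302 Crest.Agent.R122.GIV566 Crest.Agent.R122.Master566
open Crest.Agent.R122.Top602 Crest.Agent.R122.QExit837

namespace Crest.Agent.R122.InEq2T

noncomputable section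

open scoped Classical

variable {Φ : Space3 → ℝ} {f₀ : PhasePoint → ℝ} {f : ℝ → PhasePoint → ℝ} {ε : ℝ} {K : ℕ}
  {T T' : ℝ} {γ : ℝ → ℝ} {ρ : ℝ≥0∞} {h₀ : ℝ}

/-! ### The bounds -/

/-- **Weight comparison** (untouched case): null. -/
theorem inB_FLg3 (hΦ : AdmissiblePotential Φ) (hf : Measurable f₀) (hh : 0 < h₀)
    (hLn : LnN Φ f₀ f T γ ρ h₀) (hEx : ExR Φ f₀ f T γ ρ h₀) : InB Φ f₀ f T γ ρ h₀ FLg := by
  have hW : EvW T fun h _ _ _ => h ≤ h₀ := ⟨h₀, hh, 1, fun h _ _ _ _ hle _ _ _ => hle⟩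
  refine InB.of_null (((hLn.and hEx).and hW).mono fun h L tw te hh hL hwin hq hIH K => ?_)
  obtain ⟨⟨hq1, hq2⟩, hhle⟩ := hq
  obtain ⟨q, hq0, hqb⟩ := hq1 hIH K
  obtain ⟨q', hq0', hqb'⟩ := hq2 hIH K
  have hc : (1 : ℝ≥0∞) + ENNReal.ofReal L ≠ ∞ :=
    ENNReal.add_ne_top.2 ⟨ENNReal.one_ne_top, ENNReal.ofReal_ne_top⟩
  refine ⟨fun ε => (1 + ENNReal.ofReal L) * q ε + q' ε, ?_, ?_⟩
  · have := (tendsto_const_mul hc hq0).add hq0'
    rwa [add_zero] at this
  · filter_upwards [hqb, hqb', self_mem_nhdsWithin] with ε hb hb' hε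
    obtain ⟨NL, hNL, hNLM, hm⟩ := hb
    obtain ⟨N, hN, hNM, hm'⟩ := hb'
    have hT : (0 : ℝ) ≤ tw + h₀ := by linarith [hwin.nonneg]
    have hteT : te ≤ tw + h₀ := by linarith [hwin.short]
    have hL0 : (0 : ℝ) < (epar γ ρ L tw te).L := lt_of_lt_of_le one_pos hL
    exact (bnd_FLg3 (Q := epar γ ρ L tw te) hΦ hf hε hT hL0 hwin.nonneg hwin.le hteT hNL hNLM hN
      hNM).mono_le (add_le_add (mul_le_mul_right hm _) hm')

/-- **The touched half.** -/
theorem inB_FTg3 {β : ℝ} (hD : KData Φ β T f₀ f) :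
    ∃ h₁ : ℝ, 0 < h₁ ∧ ∃ g1 : ℝ, 0 < g1 ∧ ∃ r1 : ℝ≥0∞, r1 < 1 ∧
      ∀ h₀ : ℝ, 0 < h₀ → h₀ ≤ h₁ → ∀ (γ : ℝ → ℝ) (ρ : ℝ≥0∞), LinePar g1 r1 T γ ρ →
        LnN Φ f₀ f T γ ρ h₀ → ExR Φ f₀ f T γ ρ h₀ → InB Φ f₀ f T γ ρ h₀ FTg := by
  have hΦ := hD.adm
  have hf : Measurable f₀ := hD.contDiff.continuous.measurable
  obtain ⟨h₁, kap, lam, C, b, hK, hkap⟩ := Q1815.exists_kinC_kdata hD
  obtain ⟨g₁, hg₁, ρ₁, hρ₁, C₀, hC₀, hqx⟩ := qxe_win hD hK hkap
  refine ⟨h₁, hK.1, g₁, hg₁, ρ₁, hρ₁, fun h₀ hh₀ hle γ ρ hpar hLn hEx => ?_⟩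
  have hγ : Measurable γ := measurable_rate hpar
  refine ⟨C₀, hC₀, fun _ _ => 0, Vanish.zero, ?_⟩
  have hW : EvW T fun h _ _ _ => h ≤ h₀ := ⟨h₀, hh₀, 1, fun h _ _ _ _ hle _ _ _ => hle⟩
  refine ((hLn.and hEx).and hW).mono fun h L tw te hh hL hwin hq hIH => ?_
  obtain ⟨⟨hq1, hq2⟩, hhle⟩ := hq
  have hT' : 0 < tw + h₀ := by linarith [hwin.nonneg]
  have hteT : te ≤ tw + h₀ := by linarith [hwin.short]
  have hL0 : (0 : ℝ) < (epar γ ρ L tw te).L := lt_of_lt_of_le one_pos hL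
  have hc : (1 : ℝ≥0∞) + ENNReal.ofReal L ≠ ∞ :=
    ENNReal.add_ne_top.2 ⟨ENNReal.one_ne_top, ENNReal.ofReal_ne_top⟩
  -- the null functions
  obtain ⟨δ, hδ0, hδ1⟩ := hqx γ ρ hpar h tw te hwin hIH.giv (tw + h₀) hT' (by linarith)
  choose qL hqL0 hqL1 using hq1 hIH
  choose qE hqE0 hqE1 using hq2 hIH
  refine ⟨fun K ε => C₀ * tnMass Φ f₀ γ ρ ε K tw + 2 * δ K ε +
    (1 + ENNReal.ofReal L) * qL K ε + qE K ε, ?_, ?_⟩
  · exact (((Small.const_mul hIH.tn hC₀).add (hδ0.small.const_mul (by norm_num))).add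
      ((null_of_tendsto hqL0).small.const_mul hc)).add (null_of_tendsto hqE0).small
  · refine EvK.ev (evK_of_forall fun K => ?_)
    filter_upwards [hqL1 K, hqE1 K, self_mem_nhdsWithin] with ε hbL hbE hε
    obtain ⟨NL, hNL, hNLM, hm⟩ := hbL
    obtain ⟨N, hN, hNM, hm'⟩ := hbE
    refine (bnd_FTg3 (Q := epar γ ρ L tw te) hΦ hf hε hT'.le hL0 hγ hwin.nonneg hwin.le hteT
      (hδ1 K ε hε) hNL hNLM hN hNM).mono_le ?_
    calc _ ≤ C₀ * XI Φ f₀ ε K (epar γ ρ L tw te) + C₀ * tnMass Φ f₀ γ ρ ε K tw + 2 * δ K ε +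
          (1 + ENNReal.ofReal L) * qL K ε + qE K ε :=
          add_le_add (add_le_add le_rfl (mul_le_mul_right hm _)) hm'
      _ = _ := by
          rw [zero_mul, add_zero]
          ring

/-! ### Quantifiers of `I2Parts` -/

theorem inHL_FTg {β : ℝ} (hD : KData Φ β T f₀ f)
    (hLn : InHL T fun h₀ γ ρ => LnN Φ f₀ f T γ ρ h₀)
    (hEx : InHL T fun h₀ γ ρ => ExR Φ f₀ f T γ ρ h₀) :
    InHL T fun h₀ γ ρ => InB Φ f₀ f T γ ρ h₀ FTg := by
  have h1 : InHL T fun h₀ γ ρ => LnN Φ f₀ f T γ ρ h₀ → ExR Φ f₀ f T γ ρ h₀ →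
      InB Φ f₀ f T γ ρ h₀ FTg := inB_FTg3 hD
  obtain ⟨a, ha, g1, hg1, r1, hr1, hq⟩ := (h1.and hLn).and hEx
  exact ⟨a, ha, g1, hg1, r1, hr1, fun h₀ h0 hle γ ρ hLP =>
    (hq h₀ h0 hle γ ρ hLP).1.1 (hq h₀ h0 hle γ ρ hLP).1.2 (hq h₀ h0 hle γ ρ hLP).2⟩

theorem inHL_FLg {β : ℝ} (hD : KData Φ β T f₀ f)
    (hLn : InHL T fun h₀ γ ρ => LnN Φ f₀ f T γ ρ h₀)
    (hEx : InHL T fun h₀ γ ρ => ExR Φ f₀ f T γ ρ h₀) :
    InHL T fun h₀ γ ρ => InB Φ f₀ f T γ ρ h₀ FLg := by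
  obtain ⟨a, ha, g1, hg1, r1, hr1, hq⟩ := hLn.and hEx
  exact ⟨a, ha, g1, hg1, r1, hr1, fun h₀ h0 hle γ ρ hLP =>
    inB_FLg3 hD.adm hD.contDiff.continuous.measurable h0 (hq h₀ h0 hle γ ρ hLP).1
      (hq h₀ h0 hle γ ρ hLP).2⟩

end

end Crest.Agent.R122.InEq2T
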