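import Crest.Agent.R122.InEq2TInX_718_Mg
import Crest.Agent.R122.LNFam_255
import Crest.Agent.R122.LNPartS3_291
import Crest.Agent.R122.PWPast_365
import Crest.Agent.R122.LNReachGD_818

-- ▼ part R122/LNForFam_317
section

/-!
# Row 122, LN1 (helper317): forests, exit data of the glued worlds

Master system `fM` of helper424 (gas and a forest, `q ∈ FVS`), worlds `cfg w` and
`(cfg w).ins l`, `l` an exit line.
* `fam` : the contacts of a tree are a connecting family of its part (helper968's `Fam`).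
* `partS0`, `partS1`, `partD0`, `partD1` : helper304's exit conditions.
* `cleanB0`, `cleanB1` : clean births (helper365).
* `Sp_sub_uni` : the classes are in the structure.
-/

set_option autoImplicit false
set_option linter.unusedSectionVars false

open MeasureTheory Set Filter Topology
open scoped Classical ENNReal
open Crest.AnalysisR.Kinetic
open Crest.Agent.R122.VL581 Crest.Agent.R122.EDefs602
open Crest.Agent.R122.Kin796 Crest.Agent.R122.Kin796.CTree Crest.Agent.R122.Tree674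
open Crest.Agent.R122.TreeLines335 Crest.Agent.R122.LNTree410 Crest.Agent.R122.PWInst442
open Crest.Agent.R122.PWGlue491 Crest.Agent.R122.LN304 Crest.Agent.R122.LNGraft410
open Crest.Agent.R122.LNPart424 Crest.Agent.R122.Ret424 Crest.Agent.R122.LNFor424
open Crest.Agent.R122.LNFam255 Crest.Agent.R122.PW365 Crest.Agent.R122.LNPartS291
open Crest.Agent.R122.Forest399 (FIdx FPar flines FValid FVS)

noncomputable section

namespace Crest.Agent.R122.LNForFam317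

variable {Φ : Space3 → ℝ} {ε t c : ℝ} {s n : ℕ} {Ps : Fin s → CTree} {q : FPar Ps} {w : Config n}

/-- Exit times of the labels. -/
def bF (n : ℕ) (q : FPar Ps) : FJ n Ps → ℝ :=
  Sum.elim (fun _ => 0) fun k => rel (Ps k.1) (q k.1).2 k.2

variable (hΦ : AdmissiblePotential Φ) (hε : 0 < ε)
include hΦ hε

theorem cls (ht : 0 < t) (hq : q ∈ FVS Φ ε Ps t) (i : Fin s) :
    Cls (fM Φ ε t n Ps) (fZ Φ ε q w) (part (fe n Ps i)) (bF n q) :=
  Cls.of_tree (M := fM Φ ε t n Ps) hΦ hε ht ((forest hq).tree i) fun _ => rfl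

/-- **The contacts of a tree are a connecting family.** -/
theorem fam (hc : 1 ≤ c) (ht : 0 < t) (hq : q ∈ FVS Φ ε Ps t) (i : Fin s) :
    LNEv968.Fam (fM Φ ε t n Ps) c (fZ Φ ε q w) (part (fe n Ps i))
      (RC' (fM Φ ε t n Ps) (fZ Φ ε q w) (part (fe n Ps i))) :=
  famC (cls hΦ hε ht hq i) hε hc

omit hΦ hε in
theorem Sp_of_part (hq : q ∈ FVS Φ ε Ps t) {i : Fin s} {j : FJ n Ps} (hj : j ∈ part (fe n Ps i)) :
    Sp (fe n Ps) j = part (fe n Ps i) :=
  (forest (n := n) (w := fun _ => 0) hq).Sp_of_mem hj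

omit hΦ hε in
theorem Sp_sub_uni (hq : q ∈ FVS Φ ε Ps t) (j : FJ n Ps) : Sp (fe n Ps) j ⊆ uni (fΛ n Ps) := by
  rcases j with k | k
  · rw [Sp_inl]
    exact Finset.empty_subset _
  · rw [Sp_inr hq]
    intro x hx
    exact LNPart424.mem_uni.2 ⟨_, part_mem k.1, hx⟩

omit hΦ hε in
theorem fgx_cases (k : FIdx Ps) {j : FJ n Ps} (hj : j ∈ labs (fgx n k)) :
    (∃ i, j = Sum.inl i) ∨ j = Sum.inr k := by
  obtain ⟨i, rfl⟩ := (mem_labs _).1 hj
  rcases i with i | i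
  · exact Or.inl ⟨i, rfl⟩
  · exact Or.inr rfl

omit hΦ hε in
theorem fg_cases {j : FJ n Ps} (hj : j ∈ labs (fg n Ps)) : ∃ i, j = Sum.inl i := by
  obtain ⟨i, rfl⟩ := (mem_labs _).1 hj
  exact ⟨i, rfl⟩

/-! ### The gas alone -/

section gas

variable (hc : 1 ≤ c) (ht : 0 < t) (hq : q ∈ FVS Φ ε Ps t) (hW : (MW.cfg w).Ok Φ ε)
include hc ht hq hW

theorem partS0 (i : Fin s) : LN304.PartS (fM Φ ε t n Ps) c (fZ Φ ε q w)
    (CG (fM Φ ε t n Ps) (fZ Φ ε q w) (Sp (fe n Ps)) (bD (MW.cfg w) (fg n Ps)) (labs (fg n Ps))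
      (XD (MW.cfg w) (fg n Ps) Φ ε)) (part (fe n Ps i)) :=
  partS_lab (M := fM Φ ε t n Ps) (gd0 hΦ hε ht.le hq hW)
    (fun j hj => (Sp_of_part hq hj).le) (fun j hj => absurd hj (inl_notMem_part i j))
    (fam hΦ hε hc ht hq i) (fun j _ hj => absurd hj (inl_notMem_part i j))


omit hc in
theorem cleanB0 (u : ℝ) : CleanB (fM Φ ε t n Ps) (fZ Φ ε q w) (Sp (fe n Ps))
    (bD (MW.cfg w) (fg n Ps)) (labs (fg n Ps)) (XD (MW.cfg w) (fg n Ps) Φ ε) u := by
  refine cleanB_of (gd0 hΦ hε ht.le hq hW) (fun y hy _ e _ he => ?_) (fun i hi hne => ?_)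
  · obtain ⟨i, rfl⟩ := fg_cases hy
    rw [Sp_inl] at he
    exact absurd he (Finset.notMem_empty _)
  · obtain ⟨i, rfl⟩ := fg_cases hi
    rw [Sp_inl] at hne
    exact absurd hne Finset.not_nonempty_empty

end gas

/-! ### The gas and an exit line -/

section exit

variable (hc : 1 ≤ c) (ht : 0 < t) (hq : q ∈ FVS Φ ε Ps t) (k : FIdx Ps)
  (hW : ((MW.cfg w).ins (lineML Φ ε (Ps k.1) (q k.1) k.2)).Ok Φ ε)
include hc ht hq hW

omit hΦ hε hc ht hq hW in
theorem inr_of_fgx {i : Fin s} {j : Fin n ⊕ Unit} (h : fgx n k j ∈ part (fe n Ps i)) :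
    ∃ u, j = Sum.inr u := by
  rcases j with j | j
  · exact absurd h (inl_notMem_part i j)
  · exact ⟨j, rfl⟩

theorem partS1 (i : Fin s) : LN304.PartS (fM Φ ε t n Ps) c (fZ Φ ε q w)
    (CG (fM Φ ε t n Ps) (fZ Φ ε q w) (Sp (fe n Ps))
      (bD ((MW.cfg w).ins (lineML Φ ε (Ps k.1) (q k.1) k.2)) (fgx n k)) (labs (fgx n k))
      (XD ((MW.cfg w).ins (lineML Φ ε (Ps k.1) (q k.1) k.2)) (fgx n k) Φ ε))
      (part (fe n Ps i)) :=
  partS_lab (M := fM Φ ε t n Ps) (gd1 hΦ hε ht hq k hW)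
    (fun _ hj => (Sp_of_part hq hj).le) (fun _ hj => ⟨_, by
      rw [Sp_of_part hq hj]
      exact hj⟩)
    (fam hΦ hε hc ht hq i) (fun j j' hj hj' hjj => by
      obtain ⟨⟨⟩, rfl⟩ := inr_of_fgx k hj
      obtain ⟨⟨⟩, rfl⟩ := inr_of_fgx k hj'
      exact absurd rfl hjj)

theorem partD1 (i : Fin s) {a : FJ n Ps} (ha : a ∈ part (fe n Ps i)) :
    LN304.PartD (fM Φ ε t n Ps) c (fZ Φ ε q w)
    (CG (fM Φ ε t n Ps) (fZ Φ ε q w) (Sp (fe n Ps))
      (bD ((MW.cfg w).ins (lineML Φ ε (Ps k.1) (q k.1) k.2)) (fgx n k)) (labs (fgx n k))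
      (XD ((MW.cfg w).ins (lineML Φ ε (Ps k.1) (q k.1) k.2)) (fgx n k) Φ ε))
      (LNEv818.CL Φ ε ((MW.cfg w).ins (lineML Φ ε (Ps k.1) (q k.1) k.2)) (fgx n k))
      (part (fe n Ps i)) a :=
  partD_lab (M := fM Φ ε t n Ps) (gd1 hΦ hε ht hq k hW) hΦ hε ht.le
    (fam hΦ hε hc ht hq i) (fun j j' hj hj' hjj => by
      obtain ⟨⟨⟩, rfl⟩ := inr_of_fgx k hj
      obtain ⟨⟨⟩, rfl⟩ := inr_of_fgx k hj'
      exact absurd rfl hjj) ha

omit hc in
theorem cleanB1 (u : ℝ) : CleanB (fM Φ ε t n Ps) (fZ Φ ε q w) (Sp (fe n Ps))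
    (bD ((MW.cfg w).ins (lineML Φ ε (Ps k.1) (q k.1) k.2)) (fgx n k)) (labs (fgx n k))
      (XD ((MW.cfg w).ins (lineML Φ ε (Ps k.1) (q k.1) k.2)) (fgx n k) Φ ε) u := by
  refine cleanB_of (gd1 hΦ hε ht hq k hW) (fun y hy _ e hA he hne => ?_)
    (fun i hi hne _ hpos j hj hij hb => ?_)
  · rcases fgx_cases k hy with ⟨i, rfl⟩ | rfl
    · rw [Sp_inl] at he
      exact absurd he (Finset.notMem_empty _)
    · rw [Sp_inr hq] at he
      rcases fgx_cases k hA with ⟨i, rfl⟩ | rfl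
      · exact absurd he (inl_notMem_part k.1 i)
      · exact absurd rfl hne
  · rcases fgx_cases k hi with ⟨i, rfl⟩ | rfl
    · rw [Sp_inl] at hne
      exact absurd hne Finset.not_nonempty_empty
    · rcases fgx_cases k hj with ⟨i, rfl⟩ | rfl
      · have h1 : bD ((MW.cfg w).ins (lineML Φ ε (Ps k.1) (q k.1) k.2)) (fgx n k)
            (Sum.inl i : FJ n Ps) = 0 :=
          bD_apply ((MW.cfg w).ins (lineML Φ ε (Ps k.1) (q k.1) k.2)) (fgx n k) (Sum.inl i)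
        rw [hb, h1] at hpos
        exact absurd hpos (lt_irrefl _)
      · exact absurd rfl hij

end exit

end Crest.Agent.R122.LNForFam317

end
end

-- ▼ part R122/LNForRA_317

/-!
# Row 122, LN1 (helper317): reachability for forests, and `RetFacts`

* `runS_of_runD` : a run from a group of labels of one tree of the forest.
* `raf` : **`RAF`** from helper818's `reachAll_of_glue`.
* `retFacts` : **`RetFacts`** from `KData`.
-/

set_option autoImplicit false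
set_option linter.unusedSectionVars false
set_option linter.unusedVariables false

open MeasureTheory Set Filter Topology
open scoped Classical ENNReal
open Crest.AnalysisR.Kinetic
open Crest.Agent.R122.VL581 Crest.Agent.R122.EDefs602 Crest.Agent.R122.LNEv818
open Crest.Agent.R122.Kin796 Crest.Agent.R122.Kin796.CTree Crest.Agent.R122.Tree674
open Crest.Agent.R122.TreeLines335 Crest.Agent.R122.LNTree410 Crest.Agent.R122.PWInst442
open Crest.Agent.R122.PWGlue491 Crest.Agent.R122.LN304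
open Crest.Agent.R122.LNPart424 Crest.Agent.R122.Ret424 Crest.Agent.R122.LNFor424
open Crest.Agent.R122.Gate424 Crest.Agent.R122.ForBind317 Crest.Agent.R122.ForDet317
open Crest.Agent.R122.LNForFam317
open Crest.Agent.R122.RtG302 (AllOk)
open Crest.Agent.R122.Forest399 (FIdx FPar flines FValid FVS)

noncomputable section

namespace Crest.Agent.R122.ForRA317

variable {Φ : Space3 → ℝ} {f₀ : PhasePoint → ℝ} {ε t T c ℓ ς : ℝ} {s n K L N : ℕ}
  {Ps : Fin s → CTree} {q : FPar Ps} {w : Config n}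

theorem ok_sub (hΦ : AdmissiblePotential Φ) (hε : 0 < ε) (ht : 0 ≤ t) (hq : q ∈ FVS Φ ε Ps t)
    {i : Fin s} {D : Finset (FJ n Ps)} (hD : D ⊆ part (fe n Ps i)) (u : ℝ) :
    (fM Φ ε t n Ps).ok D u (fZ Φ ε q w) := by
  rw [LNBridge968.ok_iff_of_births_nonpos (fun j hj => ?_) (fun j hj h => ?_)]
  · intro _ a ha b hb hab
    obtain ⟨a, rfl⟩ := mem_part_fe.1 (hD ha)
    obtain ⟨b, rfl⟩ := mem_part_fe.1 (hD hb)
    exact PathFlow968.Sep.zero hε.le ht (hq.1 i).2 (hq.2.1 i) fun h => hab (congrArg (fun v => (Sum.inr ⟨i, v⟩ : FJ n Ps)) h)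
  · obtain ⟨a, rfl⟩ := mem_part_fe.1 (hD hj)
    exact le_rfl
  · have h1 : (none : Option (FJ n Ps)) = some _ := h
    exact absurd h1 (by simp)

/-- **Runs from a group of labels of one tree.** -/
theorem runS_of_runD (hΦ : AdmissiblePotential Φ) (hε : 0 < ε) (ht : 0 ≤ t)
    (hq : q ∈ FVS Φ ε Ps t) {i : Fin s} {a : FJ n Ps}
    (h : RunD (fM Φ ε t n Ps) (fZ Φ ε q w) (part (fe n Ps i)) a K L w) :
    RunS Φ ε t K L (b0 Ps) (flines Φ ε Ps q) w := by
  obtain ⟨D, hD, ha, h⟩ := h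
  set D' : Finset (FIdx Ps) := Finset.univ.filter fun x => (Sum.inr x : FJ n Ps) ∈ D with hD'
  obtain ⟨b, rfl⟩ := mem_part_fe.1 (hD ha)
  have hb : (⟨i, b⟩ : FIdx Ps) ∈ D' := Finset.mem_filter.2 ⟨Finset.mem_univ _, ha⟩
  refine ⟨D', ⟨⟨i, b⟩, hb⟩, h D' (sMW (b0 Ps) (flines Φ ε Ps q) D')
    ⟨fun x => Sum.inr x.1, fun x y hxy => Subtype.ext (Sum.inr_injective hxy)⟩ ⟨⟨i, b⟩, hb⟩ ?_ rfl⟩
  refine ⟨fun x => rfl, fun x => rfl, fun x h => ?_, fun j => ⟨fun hj => ?_, ?_⟩,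
    ok_sub hΦ hε ht hq hD _⟩
  · have h1 : (none : Option (FJ n Ps)) = some _ := h
    exact absurd h1 (by simp)
  · obtain ⟨y, rfl⟩ := mem_part_fe.1 (hD hj)
    exact ⟨⟨⟨i, y⟩, Finset.mem_filter.2 ⟨Finset.mem_univ _, hj⟩⟩, rfl⟩
  · rintro ⟨x, rfl⟩
    exact (Finset.mem_filter.1 x.2).2

theorem card_uni_le (n : ℕ) (Ps : Fin s → CTree) :
    (uni (fΛ n Ps)).card ≤ Fintype.card (FIdx Ps) := by
  have h1 : uni (fΛ n Ps) ⊆ (Finset.univ : Finset (FIdx Ps)).map ⟨Sum.inr, Sum.inr_injective⟩ := by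
    intro x hx
    obtain ⟨k, rfl⟩ := mem_uni_fΛ.1 hx
    exact Finset.mem_map.2 ⟨k, Finset.mem_univ _, rfl⟩
  refine (Finset.card_le_card h1).trans ?_
  rw [Finset.card_map, Finset.card_univ]

/-- **Reachability for forests.** -/
theorem raf (hΦ : AdmissiblePotential Φ) (K : ℕ) (Ps : Fin s → CTree) : RAF Φ K Ps := by
  intro L
  refine ⟨Fintype.card (FIdx Ps) + 2 * K * (L + 2), 4 * (Fintype.card (FIdx Ps) + 2 * K * (L + 2)),
    by omega, ?_⟩
  intro ε t ℓ ς hε ht hℓς q n w hq hw hok hNB hNT h0 h1 hrun x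
  have hok' := MWFam255.okF_of_okFam hΦ hε hok
  have hcard := card_uni_le n Ps
  have ha : ∀ i, fg n Ps i ≠ (Sum.inr x.1 : FJ n Ps) := fun i h => by cases h
  have hWx : ((MW.cfg w).ins (lineML Φ ε (Ps x.1.1) (q x.1.1) x.1.2)).Ok Φ ε :=
    hok'.line hΦ hε x
  have G : GD2 (fM Φ ε t n Ps) (fZ Φ ε q w) (Sp (fe n Ps)) (MW.cfg w) (fexL Φ ε Ps q x)
      (fg n Ps) (Sum.inr x.1) ha :=
    ⟨gd0 hΦ hε ht.le hq hok'.z, gd1 hΦ hε ht hq x.1 hWx, hok'.z, hWx⟩
  have hN : (uni (fΛ n Ps)).card + 2 * K * (L + 2) ≤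
      4 * (Fintype.card (FIdx Ps) + 2 * K * (L + 2)) := by omega
  have hR := G.reachAll_of_glue (c := 1) (ℓ := ℓ) (ς := ς) (Λ := fΛ n Ps)
    (π := part (fe n Ps x.1.1)) (N := 4 * (Fintype.card (FIdx Ps) + 2 * K * (L + 2))) (K := K)
    (T := t) hΦ hε ht.le le_rfl le_rfl hℓς
    ⟨cleanB0 hΦ hε ht hq hok'.z t, cleanB1 hΦ hε ht hq x.1 hWx t⟩ (Sp_sub_uni hq)
    (fun _ _ => le_rfl) (parts hΦ hε le_rfl hq hw) hNB hNT
    (fun b => by
      cases b
      · exact h0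
      · exact h1 x) (part_mem x.1.1) (inr_mem_part.2 rfl)
    (fun b => by
      cases b
      · exact partS0 hΦ hε le_rfl ht hq hok'.z x.1.1
      · exact partS1 hΦ hε le_rfl ht hq x.1 hWx x.1.1)
    (partD1 hΦ hε le_rfl ht hq x.1 hWx x.1.1 (inr_mem_part.2 rfl)) (w := w) (g := fg n Ps)
    (fun i => rfl) (fun i => rfl)
    (fun i h => by
      have h1 : (none : Option (FJ n Ps)) = some _ := h
      exact absurd h1 (by simp))
    (fun i hi => by
      rcases i with i | i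
      · exact ⟨i, rfl⟩
      · exact absurd (mem_uni_fΛ.2 ⟨i, rfl⟩) hi) (fun i => ⟨i, rfl⟩) L hN
  rcases hR with hR | hR
  · exact absurd (runS_of_runD hΦ hε ht.le hq hR) hrun
  · intro u hu hθ y hy hb
    obtain ⟨h2, h3⟩ := hR u hu hθ y hy hb
    exact ⟨h2.mono (by omega), fun k hk => (h3 k hk).mono (by omega)⟩

/-- **`RetFacts`.** -/
theorem retFacts {β : ℝ} {f : ℝ → PhasePoint → ℝ} (hD : Master566.KData Φ β T f₀ f) :
    RetFacts Φ f₀ T :=
  retFacts_of_raf hD fun _ Ps K => raf hD.adm K Ps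


end Crest.Agent.R122.ForRA317

end
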