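import Crest.Agent.R122.TreeGate2_302
import Crest.Agent.R122.LNTreeHitA_399
import Crest.Agent.R122.AllOkTree_663
import Crest.Agent.R122.OkAE_302
import Crest.Agent.R122.InEq2TX_335

/-!
# Row 122 (helper291): all lines of a tree, root line included

* `ok_of_zero`, `okFam_leaf` : worlds with all births `0`.
* `nOkR_null` : the families of all lines of a tree (root line included, leaf trees included) give
  good worlds, off a null event.
* `ratR_of_ratA`, `ratR_of_ratX` : helper302's `RATR` from helper399's `RATA`, `RATX`.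
* `linkR_null_of_ratR`, `tNull_goodT` : `InEq2T.GoodT` off a null event, from `RATR`.
-/

set_option autoImplicit false
set_option linter.unusedSectionVars false

open MeasureTheory Set Filter Topology
open scoped ENNReal Classical
open Crest.AnalysisR.Kinetic
open Crest.Agent.R122.Flow671 Crest.Agent.R122.Loc45
open Crest.Agent.R122.GC311 Crest.Agent.R122.EDefs602
open Crest.Agent.R122.Kin796 Crest.Agent.R122.Kin796.CTree Crest.Agent.R122.Tree674
open Crest.Agent.R122.TreeLines335 Crest.Agent.R122.LineMeas994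
open Crest.Agent.R122.LN2 Crest.Agent.R122.Gate424 Crest.Agent.R122.BH167
open Crest.Agent.R122.RtG302 Crest.Agent.R122.Excl302
open Crest.Agent.R122.LNTree399 Crest.Agent.R122.TreeGate302 Crest.Agent.R122.TreeGate2302

noncomputable section

namespace Crest.Agent.R122.LNRoot291

variable {Φ : Space3 → ℝ} {f₀ : PhasePoint → ℝ} {ε T' t c : ℝ} {K n : ℕ}

/-! ### Worlds with all births `0` -/

/-- A world with all births `0` and separated initial positions is good. -/
theorem ok_of_zero {ι : Type} [Fintype ι] (hΦ : AdmissiblePotential Φ) (hε : 0 < ε) {Z : MW ι}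
    (hb : ∀ i, Z.b i = 0) (hd : ∀ i j, i ≠ j → ε < dist (Z.z i).1 (Z.z j).1) : Z.Ok Φ ε := by
  have hD : Z.z ∈ Dom Φ ι := Or.inr fun i j hij h => by
    have := hd i j hij
    rw [h, dist_self] at this
    linarith
  refine TransOk151.ok_of hΦ hε (fun i => (hb i).ge)
    (Ins45.World.bworld (world_flow hΦ hε hD) fun i => (hb i).le) (flow_zero hΦ hε _) ?_
  intro i j hij _
  left
  rw [hb i, hb j]
  simpa [Ins45.lineAt] using hd i j hij

theorem okFam_leaf (hΦ : AdmissiblePotential Φ) (hε : 0 < ε) (z : PhasePoint × Par leaf)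
    (w : Config n) (h : Exc Φ ε leaf z w) :
    MW.OkFam Φ ε (MW.cfg w) (lineML Φ ε leaf z) := by
  intro S
  have hz : ∀ x : Idx leaf, back (lineML Φ ε leaf z x).1 = lines Φ ε leaf z.1 z.2 x := by
    intro x
    have h1 : (lineML Φ ε leaf z x).1 = ((0 : ℝ), onLine z.1 0) := rfl
    rw [h1]
    unfold back onLine
    simp only [zero_smul, sub_zero, add_zero]
    rfl
  refine ok_of_zero hΦ hε ?_ ?_
  · rintro (i | x)
    · rfl
    · rfl
  · rintro (i | x) (j | y) hij
    · exact h.2.1 i j fun h' => hij (by rw [h'])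
    · have h1 := h.2.2 y.1 i
      rw [dist_comm]
      show ε < dist (back (lineML Φ ε leaf z y.1).1).1 (w i).1
      rw [hz]
      exact h1
    · have h1 := h.2.2 x.1 j
      show ε < dist (back (lineML Φ ε leaf z x.1).1).1 (w j).1
      rw [hz]
      exact h1
    · exfalso
      refine hij ?_
      have h1 : x.1 = y.1 := rfl
      exact congrArg _ (Subtype.ext h1)

/-- **Worlds of all lines of a tree** (root line included, leaf trees included). -/
theorem nOkR_null (hΦ : AdmissiblePotential Φ) {γ : ℝ} (hγ : 0 < γ) (hf : Continuous f₀)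
    (H : HasSummableGaussianBound γ (fun x v => f₀ (x, v)))
    (h1 : ∫⁻ z, ENNReal.ofReal (f₀ z) ≤ 1) (hT : 0 ≤ T') :
    TNull Φ f₀ T' K (NOkR Φ) := by
  refine tNull_of_exc hΦ hγ hf H h1 hT (E' := fun ε P z m w => P ≠ leaf ∧ NOkR Φ ε P z m w) ?_ ?_
  · refine OkAE302.tNull_of_ae one_pos fun ε hε _ P _ m => ?_
    filter_upwards [AllOk663.ae_okFam_tree hΦ hε P T' m] with q hq hV hS hw h
    exact h.2 (hq hV hS hw (Idx P) id Function.injective_id fun h' => absurd h' h.1)
  · intro ε P z m w hε _ _ hE h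
    refine ⟨?_, h⟩
    rintro rfl
    exact h (okFam_leaf hΦ hε z w hE)

/-! ### `RATR` from helper399's `RATA`, `RATX` -/



/-! ### Good trees -/

/-- **All lines of a tree (root line included) are pairwise unlinked**, from `RATR`. -/
theorem linkR_null_of_ratR (hΦ : AdmissiblePotential Φ) {γ : ℝ} (hγ : 0 < γ) (hf : Continuous f₀)
    (H : HasSummableGaussianBound γ (fun x v => f₀ (x, v)))
    (h1 : ∫⁻ z, ENNReal.ofReal (f₀ z) ≤ 1) (hT : 0 < T') {u₀ : ℝ} (hu : u₀ ≤ T') {K' : ℕ}
    (hR : RATR Φ T' K K') : TNull Φ f₀ T' K (LinkR Φ K' u₀) := by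
  obtain ⟨ρ, C₀, he⟩ := LN2.exists_env (le_refl γ) H
  have hCN : VLMeas973.ClassNull Φ T' := VLMeas973.class_null hΦ hT (VL581.vc hΦ) (VL581.vlu hΦ)
  exact linkR_null hΦ hγ hf H h1 hT.le hu hCN (nOkR_null hΦ hγ hf H h1 hT.le) hR
    (Ht := fun N ε P z m w => HitR Φ T' 1 ε N z w)
    (fun N => tNull_hitR hΦ hγ hf.measurable h1 he le_rfl K T' N)
    fun N ε _ P z n w _ _ hS _ hok h => ⟨hS, hok, h⟩

/-- **`GoodT`** (helper335) off a null event, from `RATR`. -/
theorem tNull_goodT (hΦ : AdmissiblePotential Φ) {γ : ℝ} (hγ : 0 < γ) (hf : Continuous f₀)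
    (H : HasSummableGaussianBound γ (fun x v => f₀ (x, v)))
    (h1 : ∫⁻ z, ENNReal.ofReal (f₀ z) ≤ 1) (hT : 0 < T') {te : ℝ} (hte : te ≤ T') {K' : ℕ}
    (hR : RATR Φ T' K K') :
    TNull Φ f₀ T' K fun ε P z _ w => ¬ InEq2T.GoodT Φ ε K' te P z w := by
  refine tNull_mono (tNull_or hΦ hf.measurable (nOkR_null hΦ hγ hf H h1 hT.le)
    (linkR_null_of_ratR hΦ hγ hf H h1 hT hte hR)) fun ε P z m w h => ?_
  by_cases h2 : MW.OkFam Φ ε (MW.cfg w) (lineML Φ ε P z)
  · exact Or.inr fun h3 => h ⟨h2, h3⟩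
  · exact Or.inl h2

end Crest.Agent.R122.LNRoot291

end
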