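import Crest.Agent.R122.LNTreeRA_399
import Crest.Agent.R122.LNPartS3_291
import Crest.Agent.R122.LNFam_255
import Crest.Agent.R122.LNTreeDef_399
import Crest.Agent.R122.LinkR_331
import Crest.Agent.R122.LNTreeHitA_399
import Crest.Agent.R122.LinkC_331_Mg
import Crest.Agent.R122.PWPast_365
import Crest.Agent.R122.LinkX_331
import Crest.Agent.R122.TreeGate2_302

-- ▼ part R122/LNTreeFam_370
section

/-!
# Exit data of the tree instance of LN1 (row 122, helper370)

* `fam_tree` : the real contacts of the isolated tree are a connecting family of its part.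
* `partS_cfg`, `partS_ins`, `partD_ins` : `LN304.PartS`, `LN304.PartD` for the glued worlds of the gas
  and of the gas and one exit line.
-/

set_option autoImplicit false
set_option linter.unusedSectionVars false
open MeasureTheory Set Filter
open scoped Classical ENNReal Topology
open Crest.AnalysisR.Kinetic
open Crest.Agent.R122.GIV566 Crest.Agent.R122.VL581 Crest.Agent.R122.LN304
open Crest.Agent.R122.LNTree410 Crest.Agent.R122.PWInst442 Crest.Agent.R122.PWGlue491
open Crest.Agent.R122.EDefs602 Crest.Agent.R122.TreeLines335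
open Crest.Agent.R122.Kin796 Crest.Agent.R122.Kin796.CTree Crest.Agent.R122.Tree674
open Crest.Agent.R122.LNTree399

noncomputable section

namespace Crest.Agent.R122.LNTreeFam370

variable {Φ : Space3 → ℝ} {ε t c : ℝ} {n : ℕ} {P : CTree} {z : PhasePoint × Par P} {w : Config n}

/-- The real contacts of the isolated tree. -/
abbrev RT (Φ : Space3 → ℝ) (t ε : ℝ) (n : ℕ) (P : CTree) (w : Config n) (z : PhasePoint × Par P) :
    ℝ → Fin n ⊕ Idx P → Fin n ⊕ Idx P → Prop :=
  LNFam255.RC' (Mt Φ t ε n P) (Zt Φ ε w z) (pT n P)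

/-- The exit times on the labels. -/
def relT (n : ℕ) (P : CTree) (p : Par P) : Fin n ⊕ Idx P → ℝ :=
  Sum.elim (fun _ => 0) fun i => rel P p i

theorem sp_of_mem {i : Fin n ⊕ Idx P} (hi : i ∈ pT n P) :
    Sp (fun _ : Unit => eT n P) i = pT n P := by
  have h : ∃ _ : Unit, i ∈ part (eT n P) := ⟨(), hi⟩
  unfold Sp
  rw [dif_pos h]

/-- The classes inside the part are contained in the part. -/
theorem sp_sub (i : Fin n ⊕ Idx P) (hi : i ∈ pT n P) : Sp (fun _ : Unit => eT n P) i ⊆ pT n P := by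
  rw [sp_of_mem hi]

theorem sp_nonempty {i : Fin n ⊕ Idx P} (hi : i ∈ pT n P) :
    (Sp (fun _ : Unit => eT n P) i).Nonempty := by
  rw [sp_of_mem hi]
  exact ⟨_, hi⟩

section

variable (hΦ : AdmissiblePotential Φ) (hε : 0 < ε) (ht : 0 < t)
  (hV : Valid Φ ε P t z.1.2 z.2) (hS : Sep Φ ε P t z.1 z.2)
include hΦ hε ht hV hS

/-- **The real contacts of the isolated tree are a connecting family of its part.** -/
theorem fam_tree (hc : 1 ≤ c) :
    LNEv968.Fam (Mt Φ t ε n P) c (Zt Φ ε w z) (pT n P) (RT Φ t ε n P w z) :=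
  LNFam255.famC (LNGraft410.Cls.of_tree (bD := relT n P z.2) hΦ hε ht (treeIn hV hS)
    fun _ => rfl) hε hc

/-- `PartS` in the glued world of the gas. -/
theorem partS_cfg (hc : 1 ≤ c) (hok : (MW.cfg w).Ok Φ ε) :
    LN304.PartS (Mt Φ t ε n P) c (Zt Φ ε w z)
      (CG (Mt Φ t ε n P) (Zt Φ ε w z) (Sp fun _ : Unit => eT n P) (bD (MW.cfg w) (eG n P))
        (labs (eG n P)) (XD (MW.cfg w) (eG n P) Φ ε)) (pT n P) :=
  LNPartS291.partS_lab ((glue_cfg hV hS hok).gd hΦ hε ht) sp_sub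
    (fun i h => absurd h (inl_not_mem i)) (fam_tree hΦ hε ht hV hS hc)
    fun i _ h => absurd h (inl_not_mem i)

/-- `PartS` in the glued world of the gas and one exit line. -/
theorem partS_ins (hc : 1 ≤ c) (x : Idx P)
    (hok : ((MW.cfg w).ins (lineML Φ ε P z x)).Ok Φ ε) :
    LN304.PartS (Mt Φ t ε n P) c (Zt Φ ε w z)
      (CG (Mt Φ t ε n P) (Zt Φ ε w z) (Sp fun _ : Unit => eT n P)
        (bD ((MW.cfg w).ins (lineML Φ ε P z x)) (eX n P x)) (labs (eX n P x))
        (XD ((MW.cfg w).ins (lineML Φ ε P z x)) (eX n P x) Φ ε)) (pT n P) := by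
  refine LNPartS291.partS_lab ((glue_ins hV hS x hok).gd hΦ hε ht) sp_sub
    (fun i h => ?_) (fam_tree hΦ hε ht hV hS hc) fun i i' h h' hne => ?_
  · exact sp_nonempty h
  · rcases i with i | i
    · exact absurd h (inl_not_mem i)
    · rcases i' with i' | i'
      · exact absurd h' (inl_not_mem i')
      · exact absurd rfl hne

/-- `PartD` in the glued world of the gas and one exit line. -/
theorem partD_ins (hc : 1 ≤ c) (x : Idx P)
    (hok : ((MW.cfg w).ins (lineML Φ ε P z x)).Ok Φ ε) :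
    LN304.PartD (Mt Φ t ε n P) c (Zt Φ ε w z)
      (CG (Mt Φ t ε n P) (Zt Φ ε w z) (Sp fun _ : Unit => eT n P)
        (bD ((MW.cfg w).ins (lineML Φ ε P z x)) (eX n P x)) (labs (eX n P x))
        (XD ((MW.cfg w).ins (lineML Φ ε P z x)) (eX n P x) Φ ε))
      (LNEv818.CL Φ ε ((MW.cfg w).ins (lineML Φ ε P z x)) (eX n P x)) (pT n P) (Sum.inr x) := by
  refine LNPartS291.partD_lab ((glue_ins hV hS x hok).gd hΦ hε ht) hΦ hε ht.le
    (fam_tree hΦ hε ht hV hS hc) (fun i i' h h' hne => ?_) (inr_mem x)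
  rcases i with i | i
  · exact absurd h (inl_not_mem i)
  · rcases i' with i' | i'
    · exact absurd h' (inl_not_mem i')
    · exact absurd rfl hne

/-- `PartD` in the glued world of the gas. -/
theorem partD_cfg (hc : 1 ≤ c) (hok : (MW.cfg w).Ok Φ ε) (a : Fin n ⊕ Idx P) (ha : a ∈ pT n P) :
    LN304.PartD (Mt Φ t ε n P) c (Zt Φ ε w z)
      (CG (Mt Φ t ε n P) (Zt Φ ε w z) (Sp fun _ : Unit => eT n P) (bD (MW.cfg w) (eG n P))
        (labs (eG n P)) (XD (MW.cfg w) (eG n P) Φ ε)) (LNEv818.CL Φ ε (MW.cfg w) (eG n P))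
      (pT n P) a :=
  LNPartS291.partD_lab ((glue_cfg hV hS hok).gd hΦ hε ht) hΦ hε ht.le
    (fam_tree hΦ hε ht hV hS hc) (fun i _ h => absurd h (inl_not_mem i)) ha

end

end Crest.Agent.R122.LNTreeFam370

end
end

-- ▼ part R122/LNTreeRun_399
section

/-!
# Row 122, LN1, tree instance: runs (helper399)

* `ok_sub` : every sub-world of the tree is ok.
* `runS_of_grp` : helper331's run from a group `D` of labels of the tree gives `RunS`.
-/

set_option autoImplicit false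
set_option linter.unusedSectionVars false
open MeasureTheory Set Filter
open scoped Classical ENNReal Topology
open Crest.AnalysisR.Kinetic
open Crest.Agent.R122.GIV566 Crest.Agent.R122.VL581 Crest.Agent.R122.LN304
open Crest.Agent.R122.LNTree410 Crest.Agent.R122.PWInst442 Crest.Agent.R122.PWGlue491
open Crest.Agent.R122.LNPart424 Crest.Agent.R122.EDefs602 Crest.Agent.R122.TreeLines335
open Crest.Agent.R122.Kin796 Crest.Agent.R122.Kin796.CTree Crest.Agent.R122.Tree674
open Crest.Agent.R122.RtG302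

noncomputable section

namespace Crest.Agent.R122.LNTree399

variable {Φ : Space3 → ℝ} {ε t : ℝ} {n : ℕ} {P : CTree} {z : PhasePoint × Par P}
  {w : Config n}

theorem ok_sub (hΦ : AdmissiblePotential Φ) (hε : 0 < ε) (ht : 0 ≤ t)
    (hV : Valid Φ ε P t z.1.2 z.2) (hS : Sep Φ ε P t z.1 z.2) {D : Finset (Fin n ⊕ Idx P)}
    (hD : D ⊆ pT n P) (s : ℝ) : (Mt Φ t ε n P).ok D s (Zt Φ ε w z) := by
  rw [LNBridge968.ok_iff_of_births_nonpos (fun i hi => ?_) (fun i hi h => ?_)]
  · intro _ i hi j hj hij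
    obtain ⟨i, rfl⟩ := mem_pT.1 (hD hi)
    obtain ⟨j, rfl⟩ := mem_pT.1 (hD hj)
    exact PathFlow968.Sep.zero hε.le ht hV.2 hS fun h => hij (by rw [h])
  · obtain ⟨i, rfl⟩ := mem_pT.1 (hD hi)
    exact le_rfl
  · have h1 : (none : Option (Fin n ⊕ Idx P)) = some _ := h
    exact absurd h1 (by simp)

/-- **Runs from a group of labels of the tree.** -/
theorem runS_of_grp (hΦ : AdmissiblePotential Φ) (hε : 0 < ε) (ht : 0 ≤ t)
    (hV : Valid Φ ε P t z.1.2 z.2) (hS : Sep Φ ε P t z.1 z.2) {K L : ℕ}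
    {D : Finset (Fin n ⊕ Idx P)} (hD : D ⊆ pT n P) {a : Fin n ⊕ Idx P} (ha : a ∈ D)
    (h : ∀ (G : Type) [Fintype G] (W : MW G) (f : G ↪ Fin n ⊕ Idx P) (x : G),
      LinkD331.Grp (Mt Φ t ε n P) (Zt Φ ε w z) W f D → f x = a →
        LinkM547.Run Φ ε t K L W x w) : RunS Φ t K L ε z w := by
  set D' : Finset (Idx P) := Finset.univ.filter fun x => (Sum.inr x : Fin n ⊕ Idx P) ∈ D with hD'
  obtain ⟨b, rfl⟩ := mem_pT.1 (hD ha)
  have hb : b ∈ D' := Finset.mem_filter.2 ⟨Finset.mem_univ _, ha⟩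
  refine ⟨D', ⟨b, hb⟩, h D' (sT Φ ε z D') ⟨fun x => Sum.inr x.1, fun x y hxy =>
    Subtype.ext (Sum.inr_injective hxy)⟩ ⟨b, hb⟩ ?_ rfl⟩
  refine ⟨fun x => rfl, fun x => rfl, fun x h => ?_, fun j => ⟨fun hj => ?_, ?_⟩,
    ok_sub hΦ hε ht hV hS hD _⟩
  · have h1 : (none : Option (Fin n ⊕ Idx P)) = some _ := h
    exact absurd h1 (by simp)
  · obtain ⟨y, rfl⟩ := mem_pT.1 (hD hj)
    exact ⟨⟨y, Finset.mem_filter.2 ⟨Finset.mem_univ _, hj⟩⟩, rfl⟩
  · rintro ⟨x, rfl⟩
    exact (Finset.mem_filter.1 x.2).2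

end Crest.Agent.R122.LNTree399

end
end

-- ▼ part R122/LNTreeRAT_399
section

/-!
# Row 122, LN1, tree instance: reachability (helper399)

Base world `cfg w`, inserted line `x` of the tree (root or exit).

* `cleanB_cfg`, `cleanB_ins` : clean births.
* `Xb`, `Cb` : the two glued worlds; `twoW`, `bindW` : helper818's structures.
-/

set_option autoImplicit false
set_option linter.unusedSectionVars false
open MeasureTheory Set Filter
open scoped Classical ENNReal Topology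
open Crest.AnalysisR.Kinetic
open Crest.Agent.R122.GIV566 Crest.Agent.R122.VL581 Crest.Agent.R122.LN304
open Crest.Agent.R122.LNTree410 Crest.Agent.R122.PWInst442 Crest.Agent.R122.PWGlue491
open Crest.Agent.R122.LNPart424 Crest.Agent.R122.EDefs602 Crest.Agent.R122.TreeLines335
open Crest.Agent.R122.Kin796 Crest.Agent.R122.Kin796.CTree Crest.Agent.R122.Tree674
open Crest.Agent.R122.RtG302 Crest.Agent.R122.LNEv818 Crest.Agent.R122.LinkD331
open Crest.Agent.R122.PW365 Crest.Agent.R122.LNTreeFam370 Crest.Agent.R122.VLInst442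
open Crest.Agent.R122.Causal291

noncomputable section

namespace Crest.Agent.R122.LNTree399

variable {Φ : Space3 → ℝ} {ε t c ℓ ς u₀ : ℝ} {n N K : ℕ} {P : CTree} {z : PhasePoint × Par P}
  {w : Config n} {x : Idx P}

/-- Paths of the two glued worlds: gas; gas and the line `x`. -/
def Xb (Φ : Space3 → ℝ) (t ε : ℝ) {n : ℕ} {P : CTree} (z : PhasePoint × Par P) (w : Config n)
    (x : Idx P) : Bool → ℝ → Fin n ⊕ Idx P → PhasePoint
  | false => Xg Φ t ε z w (MW.cfg w) (eG n P)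
  | true => Xg Φ t ε z w ((MW.cfg w).ins (lineML Φ ε P z x)) (eX n P x)

/-- Contacts of the two glued worlds. -/
def Cb (Φ : Space3 → ℝ) (t ε : ℝ) {n : ℕ} {P : CTree} (z : PhasePoint × Par P) (w : Config n)
    (x : Idx P) : Bool → ℝ → Fin n ⊕ Idx P → Fin n ⊕ Idx P → Prop
  | false => Cg Φ t ε z w (MW.cfg w) (eG n P)
  | true => Cg Φ t ε z w ((MW.cfg w).ins (lineML Φ ε P z x)) (eX n P x)

theorem Sp_sub_uni (j : Fin n ⊕ Idx P) : Sp (fun _ : Unit => eT n P) j ⊆ uni (Lt n P) := by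
  rw [uni_Lt]
  by_cases hj : j ∈ pT n P
  · rw [sp_of_mem hj]
  · rw [Sp_empty fun _ => hj]
    exact Finset.empty_subset _

theorem not_mem_labs_eG (y : Idx P) : (Sum.inr y : Fin n ⊕ Idx P) ∉ labs (eG n P) := by
  rw [mem_labs]
  rintro ⟨i, hi⟩
  cases hi

theorem eq_of_mem_labs_eX {y : Idx P} (h : (Sum.inr y : Fin n ⊕ Idx P) ∈ labs (eX n P x)) :
    y = x := by
  rw [mem_labs] at h
  obtain ⟨i, hi⟩ := h
  rcases i with i | i
  · cases hi
  · exact (Sum.inr_injective hi).symm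


theorem bD_ins_inl (i : Fin n) :
    bD ((MW.cfg w).ins (lineML Φ ε P z x)) (eX n P x) (Sum.inl i) = 0 :=
  bD_apply (W := (MW.cfg w).ins (lineML Φ ε P z x)) (f := eX n P x) (Sum.inl i)

theorem cleanB_cfg {u : ℝ} (H : GD (Mt Φ t ε n P) (Zt Φ ε w z) (Sp fun _ : Unit => eT n P)
    (bD (MW.cfg w) (eG n P)) (labs (eG n P)) (XD (MW.cfg w) (eG n P) Φ ε)) :
    CleanB (Mt Φ t ε n P) (Zt Φ ε w z) (Sp fun _ : Unit => eT n P)
      (bD (MW.cfg w) (eG n P)) (labs (eG n P)) (XD (MW.cfg w) (eG n P) Φ ε) u := by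
  refine cleanB_of H ?_ ?_
  · rintro (y | y) hy _ e he heS
    · rw [Sp_inl] at heS
      exact absurd heS (Finset.notMem_empty _)
    · exact absurd hy (not_mem_labs_eG y)
  · rintro (y | y) hy hne
    · rw [Sp_inl] at hne
      exact absurd hne Finset.not_nonempty_empty
    · exact absurd hy (not_mem_labs_eG y)

theorem cleanB_ins {u : ℝ} (H : GD (Mt Φ t ε n P) (Zt Φ ε w z) (Sp fun _ : Unit => eT n P)
    (bD ((MW.cfg w).ins (lineML Φ ε P z x)) (eX n P x)) (labs (eX n P x))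
    (XD ((MW.cfg w).ins (lineML Φ ε P z x)) (eX n P x) Φ ε)) :
    CleanB (Mt Φ t ε n P) (Zt Φ ε w z) (Sp fun _ : Unit => eT n P)
      (bD ((MW.cfg w).ins (lineML Φ ε P z x)) (eX n P x)) (labs (eX n P x))
      (XD ((MW.cfg w).ins (lineML Φ ε P z x)) (eX n P x) Φ ε) u := by
  refine cleanB_of H ?_ ?_
  · rintro (y | y) hy _ e he heS
    · rw [Sp_inl] at heS
      exact absurd heS (Finset.notMem_empty _)
    · intro hne
      rw [sp_of_mem (inr_mem y)] at heS
      obtain ⟨e', rfl⟩ := mem_pT.1 heS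
      exact absurd (by rw [eq_of_mem_labs_eX hy, eq_of_mem_labs_eX he]) hne
  · rintro (y | y) hy hne _ hpos j hj hij hb hjS
    · rw [Sp_inl] at hne
      exact absurd hne Finset.not_nonempty_empty
    · rcases j with j | j
      · rw [bD_ins_inl] at hb
        exact absurd hb hpos.ne'
      · rw [sp_of_mem (inr_mem y)] at hjS
        exact absurd (inr_mem j) hjS

section main

variable (hΦ : AdmissiblePotential Φ) (hε : 0 < ε) (ht : 0 < t) (hc : 1 ≤ c) (hℓς : 2 * ℓ ≤ ς)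
  (hV : Valid Φ ε P t z.1.2 z.2) (hS : Sep Φ ε P t z.1 z.2) (hw : w ∈ PairExcluded ε n)
  (hok : (MW.cfg w).Ok Φ ε) (hokx : ((MW.cfg w).ins (lineML Φ ε P z x)).Ok Φ ε)
include hΦ hε ht hc hℓς hV hS hw hok hokx

/-- **Two real worlds over one master system.** -/
theorem twoW (hNB : NoBad (Mt Φ t ε n P) c ℓ ς (Zt Φ ε w z) (Lt n P) N)
    (h0 : ¬ HitW Φ t c ε N z w (MW.cfg w) (eG n P))
    (h1 : ¬ HitW Φ t c ε N z w ((MW.cfg w).ins (lineML Φ ε P z x)) (eX n P x)) :
    TwoW (Mt Φ t ε n P) c ℓ ς (Zt Φ ε w z) (Xb Φ t ε z w x) (Cb Φ t ε z w x)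
      (cmL (Mt Φ t ε n P) (MW.cfg w) (lineML Φ ε P z x) Sum.inl (Sum.inr x))
      (fjL (Mt Φ t ε n P) (MW.cfg w) (lineML Φ ε P z x) Sum.inl (Sum.inr x))
      (Lt n P) (pT n P) (Sum.inr x) N where
  hΦ := hΦ
  hε := hε
  hc := hc
  hℓς := hℓς
  rw b := by
    cases b
    · exact ((glue_cfg hV hS hok).gd hΦ hε ht).rw hΦ hε ht.le
    · exact ((glue_ins hV hS x hokx).gd hΦ hε ht).rw hΦ hε ht.le
  parts := parts hΦ hε hc hV hS hw
  noBad := hNB
  noTwo := noTwo N
  noHit b := by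
    cases b
    · exact h0
    · exact h1
  hπ := mem_Lt.2 rfl
  ha := inr_mem x
  partS b := by
    cases b
    · exact partS_cfg hΦ hε ht hV hS hc hok
    · exact partS_ins hΦ hε ht hV hS hc x hokx
  sub b s j k _ h := by
    cases b
    · exact LNPartS291.cg_of_cl ((glue_cfg hV hS hok).gd hΦ hε ht) h
    · exact LNPartS291.cg_of_cl ((glue_ins hV hS x hokx).gd hΦ hε ht) h
  exit b d v hd hda hv _ h := by
    cases b
    · exact partD_cfg hΦ hε ht hV hS hc hok _ (inr_mem x) d v hd hda hv h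
    · exact partD_ins hΦ hε ht hV hS hc x hokx d v hd hda hv h
  obs h := by
    have h1 : (none : Option (Fin n ⊕ Idx P)) = some _ := h
    exact absurd h1 (by simp)
  out s k h := by
    obtain ⟨i, j, _, hi, _⟩ := h
    cases hi

omit hℓς hw hc in
/-- **The marked worlds in the real worlds.** -/
theorem bindW (hu : u₀ ≤ t) :
    BindW (Mt Φ t ε n P) (Xb Φ t ε z w x) (Cb Φ t ε z w x) (Lt n P) (MW.cfg w)
      (lineML Φ ε P z x) Sum.inl (Sum.inr x) K u₀ where
  inj := (eX n P x).injective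
  nonneg y := by
    rcases y with y | y
    · exact le_rfl
    · exact rel_nonneg hε.le hV.2 x
  ok := hok
  okA := hokx
  le := hu
  path0 s _ k _ := GDMW.xg_eq ((glue_cfg hV hS hok).gd hΦ hε ht) (i := k) fun h => by
    have h1 : Sp (fun _ : Unit => eT n P) (eG n P k) = ∅ := Sp_inl k
    rw [h1] at h
    exact absurd h Finset.not_nonempty_empty
  path1 s _ y hy := GDMW.xg_eq ((glue_ins hV hS x hokx).gd hΦ hε ht) (i := y) fun _ => hy
  size0 v _ k h := card_preF_le ((glue_cfg hV hS hok).gd hΦ hε ht)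
    (cleanB_cfg ((glue_cfg hV hS hok).gd hΦ hε ht)) (le_refl v) Sp_sub_uni (fun k _ => le_rfl) h
  size1 v _ y h := card_preF_le ((glue_ins hV hS x hokx).gd hΦ hε ht)
    (cleanB_ins ((glue_ins hV hS x hokx).gd hΦ hε ht)) (le_refl v) Sp_sub_uni (fun k hk => by
      rcases k with k | k
      · exact le_rfl
      · exact absurd (by rw [uni_Lt]; exact inr_mem x) hk) h

/-! ### Runs -/

omit hc hℓς hw in
/-- The pasts in the marked worlds of a gas particle which is not influenced. -/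
theorem bc_eq_of_not_fj {r : ℝ} (hr : 0 ≤ r) {i : Fin n}
    (h : ¬ fjL (Mt Φ t ε n P) (MW.cfg w) (lineML Φ ε P z x) Sum.inl (Sum.inr x) r (Sum.inl i)) :
    BC (cmL (Mt Φ t ε n P) (MW.cfg w) (lineML Φ ε P z x) Sum.inl (Sum.inr x) true) r
        (Sum.inl i) =
      BC (cmL (Mt Φ t ε n P) (MW.cfg w) (lineML Φ ε P z x) Sum.inl (Sum.inr x) false) r
        (Sum.inl i) := by
  have hfut : ¬ (MW.cfg w).Fut Φ ε (MW.line (lineML Φ ε P z x)) r i := by
    intro hf
    refine h ?_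
    have h1 := fj_of_fut (C := CM Φ ε (MW.cfg w) (MW.line (lineML Φ ε P z x))
      (Sum.inl : Fin n → Fin n ⊕ Idx P) (fun _ : Unit => Sum.inr x))
      (S := {(Sum.inr x : Fin n ⊕ Idx P)}) (f := (Sum.inl : Fin n → Fin n ⊕ Idx P))
      (g := fun _ : Unit => Sum.inr x) hΦ hε
      (fun _ i j hij hc => ⟨i, j, hij, rfl, rfl, hc⟩) (fun _ x y hxy hc => ⟨x, y, hxy, rfl, rfl, hc⟩)
      (fun _ => rfl) hf
    exact h1
  have hh := MW.histEq_of_not_fut hΦ hε hok hokx hr hfut
  have e1 := bc_cl (Φ := Φ) (ε := ε) (W := MW.cfg w) (f := (Sum.inl : Fin n → Fin n ⊕ Idx P))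
    Sum.inl_injective r i
  have e2 := bc_cl (Φ := Φ) (ε := ε) (W := (MW.cfg w).add (MW.line (lineML Φ ε P z x)))
    (f := (Sum.elim Sum.inl (fun _ : Unit => Sum.inr x) : Fin n ⊕ Unit → Fin n ⊕ Idx P))
    (eX n P x).injective r (Sum.inl i)
  change BC (CL Φ ε (MW.cfg w) Sum.inl) r (Sum.inl i) = _ at e1
  change BC (CL Φ ε ((MW.cfg w).add (MW.line (lineML Φ ε P z x)))
    (Sum.elim Sum.inl (fun _ : Unit => Sum.inr x))) r (Sum.inl i) = _ at e2
  change BC (CL Φ ε ((MW.cfg w).add (MW.line (lineML Φ ε P z x)))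
    (Sum.elim Sum.inl (fun _ : Unit => Sum.inr x))) r (Sum.inl i) =
      BC (CL Φ ε (MW.cfg w) Sum.inl) r (Sum.inl i)
  rw [e1, e2]
  ext j
  constructor
  · rintro ⟨y, hy, rfl⟩
    obtain ⟨k, rfl⟩ := hh.sub₂ 0 y le_rfl hy
    exact ⟨k, (hh.iff 0 k le_rfl).2 hy, rfl⟩
  · rintro ⟨k, hk, rfl⟩
    exact ⟨Sum.inl k, (hh.iff 0 k le_rfl).1 hk, rfl⟩


omit hc hℓς hw in
/-- Contacts of a gas particle in the glued worlds are contacts in the marked worlds. -/
theorem gas_contact (b : Bool) (s : ℝ) {j k : Fin n ⊕ Idx P} (hjk : j ≠ k)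
    (hj : j ∉ uni (Lt n P)) (h : Cb Φ t ε z w x b s j k) :
    cmL (Mt Φ t ε n P) (MW.cfg w) (lineML Φ ε P z x) Sum.inl (Sum.inr x) b s j k := by
  rw [uni_Lt] at hj
  rcases j with j | j
  swap
  · exact absurd (inr_mem j) hj
  cases b
  · have H := (glue_cfg hV hS hok).gd hΦ hε ht
    have hs : 0 < s := by
      obtain ⟨_, _, _, _, h1, _⟩ := (H.rw hΦ hε ht.le).geo s (Sum.inl j) k hjk h
      rcases h1 with h1 | h1
      · exact (bb_nonneg _ _).trans_lt h1
      · exact (bb_nonneg _ _).trans_lt h1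
    rcases k with k | k
    · have h2 := GDMW.C_of_cg_gas H (i := j) (j := k) (Sp_inl k) (Or.inr (Or.inl hs)) h
      exact ⟨j, k, fun h3 => hjk (by rw [h3]), rfl, rfl, h2⟩
    · have h3 := GDMW.part_of_cg H (i := j) (k := Sum.inr k) (not_mem_labs_eG k) h
      have h4 : Sp (fun _ : Unit => eT n P) (eG n P j) = ∅ := Sp_inl j
      rw [h4] at h3
      exact absurd h3.1 (Finset.notMem_empty _)
  · have H := (glue_ins hV hS x hokx).gd hΦ hε ht
    have hs : 0 < s := by
      obtain ⟨_, _, _, _, h1, _⟩ := (H.rw hΦ hε ht.le).geo s (Sum.inl j) k hjk h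
      rcases h1 with h1 | h1
      · exact (bb_nonneg _ _).trans_lt h1
      · exact (bb_nonneg _ _).trans_lt h1
    have key : ∀ y : Fin n ⊕ Unit, Sum.inl j ≠ y → eX n P x y = k →
        cmL (Mt Φ t ε n P) (MW.cfg w) (lineML Φ ε P z x) Sum.inl (Sum.inr x) true s
          (Sum.inl j) k := by
      intro y hy hyk
      subst hyk
      have h5 := GDMW.C_of_cg_gas H (i := y) (j := Sum.inl j) (Sp_inl j) (Or.inr (Or.inr hs))
        (H.cG_symm h)
      exact ⟨Sum.inl j, y, hy, rfl, rfl, MW.C_symm _ h5⟩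
    rcases k with k | k
    · exact key (Sum.inl k) (fun h3 => hjk (congrArg Sum.inl (Sum.inl_injective h3))) rfl
    · by_cases hkx : k = x
      · subst hkx
        exact key (Sum.inr ()) (by simp) rfl
      · have h3 := GDMW.part_of_cg H (i := Sum.inl j) (k := Sum.inr k)
          (fun h' => hkx (eq_of_mem_labs_eX h')) h
        have h4 : Sp (fun _ : Unit => eT n P) (eX n P x (Sum.inl j)) = ∅ := Sp_inl j
        rw [h4] at h3
        exact absurd h3.1 (Finset.notMem_empty _)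

/-- **Long entry chains which end before the touch time give runs.** -/
theorem runS_of_long (hNB : NoBad (Mt Φ t ε n P) c ℓ ς (Zt Φ ε w z) (Lt n P) N)
    (h0 : ¬ HitW Φ t c ε N z w (MW.cfg w) (eG n P))
    (h1 : ¬ HitW Φ t c ε N z w ((MW.cfg w).ins (lineML Φ ε P z x)) (eX n P x))
    (hu : u₀ ≤ t) {m : ℕ} (hN : (uni (Lt n P)).card + 2 * K * (m + 4) ≤ N)
    {L' : List (Fin n ⊕ Idx P)} {s : ℝ}
    (hL : EC (cmL (Mt Φ t ε n P) (MW.cfg w) (lineML Φ ε P z x) Sum.inl (Sum.inr x))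
      (fjL (Mt Φ t ε n P) (MW.cfg w) (lineML Φ ε P z x) Sum.inl (Sum.inr x)) (Sum.inr x) L' s)
    (hsθ : s < (MW.cfg w).thetaL Φ ε K u₀ (lineML Φ ε P z x)) (hsu : s < u₀)
    (hlen : m + 2 ≤ L'.length) : RunS Φ t K m ε z w := by
  have H := twoW hΦ hε ht hc hℓς hV hS hw hok hokx hNB h0 h1
  have B := bindW (K := K) hΦ hε ht hV hS hok hokx hu
  obtain ⟨L, s', hL1, hs', hm, -⟩ := hL.drop (m := m + 1) hlen
  set u : ℝ := min ((MW.cfg w).thetaL Φ ε K u₀ (lineML Φ ε P z x)) u₀ with hu'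
  have hsu' : s' < u := hs'.trans_lt (lt_min hsθ hsu)
  have hs0 : 0 ≤ s' := hL1.nonneg
  set v : ℝ := (s' + u) / 2 with hv
  have hsv : s' < v := by rw [hv]; linarith
  have hvu : v < u := by rw [hv]; linarith
  have huu : u ≤ u₀ := min_le_right _ _
  have hmem : ∀ y ∈ L, fjL (Mt Φ t ε n P) (MW.cfg w) (lineML Φ ε P z x) Sum.inl (Sum.inr x)
      s' y := fun y hy => hL1.fj (Set.mem_singleton _) hy
  suffices hex : ∃ D : Finset (Fin n ⊕ Idx P), D ⊆ pT n P ∧ Sum.inr x ∈ D ∧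
      ∀ (G : Type) [Fintype G] (W : MW G) (f : G ↪ Fin n ⊕ Idx P) (y : G),
        LinkD331.Grp (Mt Φ t ε n P) (Zt Φ ε w z) W f D → f y = Sum.inr x →
          LinkM547.Run Φ ε t K m W y w by
    obtain ⟨D, hDπ, haD, hrun⟩ := hex
    exact runS_of_grp hΦ hε ht.le hV hS hDπ haD hrun
  refine run_of_ecm (M := Mt Φ t ε n P) (C := Cb Φ t ε z w x)
    (CM := cmL (Mt Φ t ε n P) (MW.cfg w) (lineML Φ ε P z x) Sum.inl (Sum.inr x))
    (X := Xb Φ t ε z w x) (π := pT n P) (a := Sum.inr x) (N := N) (v := v) (K := K) (m := m)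
    (g := eG n P) (w := w) (L := L) (s := s')
    hΦ hε hc hℓς H.rw H.parts H.noBad H.noTwo H.noHit H.hπ H.ha (H.partS true) H.sub
    (fun b s j k hjk hj h => gas_contact hΦ hε ht hV hS hok hokx b s hjk hj h)
    (fun b s j k h => cm_symm h) (fun s k _ => H.out s k)
    ⟨hs0.trans_lt hsv, (hvu.le.trans huu).trans hu⟩ ?_ (fun i => rfl) (fun i => rfl)
    (fun i h => ?_) (fun i hi => ?_) hL1 hsv.le (fun y hy hya => ?_) (fun y hy b hb => ?_)
    (by rw [hm]; exact hN) hm
  · intro b r k hr _ hk hF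
    rw [uni_Lt] at hk
    rcases k with k | k
    · have h2 := bc_eq_of_not_fj hΦ hε ht hV hS hok hokx hr hF
      cases b
      · exact h2
      · exact h2.symm
    · exact absurd (inr_mem k) hk
  · have h2 : (none : Option (Fin n ⊕ Idx P)) = some _ := h
    exact absurd h2 (by simp)
  · rw [uni_Lt] at hi
    rcases i with i | i
    · exact ⟨i, rfl⟩
    · exact absurd (inr_mem i) hi
  · obtain ⟨y', rfl⟩ := B.exists_of_fj (hmem y hy)
    rcases y' with i | i
    · rw [uni_Lt]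
      exact inl_not_mem i
    · exact absurd rfl hya
  · obtain ⟨y', rfl⟩ := B.exists_of_fj (hmem y hy)
    exact B.size_of_fj (min_le_left _ _) huu hsu' (hmem _ hy) ⟨hs0.trans hsv.le, hvu.le⟩ b hb

/-- **Everything which is influenced by a line of the tree up to its touch time is reached.** -/
theorem reachAll_tree (hNB : NoBad (Mt Φ t ε n P) c ℓ ς (Zt Φ ε w z) (Lt n P) N)
    (h0 : ¬ HitW Φ t c ε N z w (MW.cfg w) (eG n P))
    (h1 : ¬ HitW Φ t c ε N z w ((MW.cfg w).ins (lineML Φ ε P z x)) (eX n P x))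
    (hu : u₀ ≤ t) {m : ℕ} (hN : (uni (Lt n P)).card + 2 * K * (m + 4) ≤ N)
    (hrun : ¬ RunS Φ t K m ε z w) : RAllX Φ t c ε K N u₀ z w x := by
  have H := twoW hΦ hε ht hc hℓς hV hS hw hok hokx hNB h0 h1
  have B := bindW (K := K) hΦ hε ht hV hS hok hokx hu
  have h2 : 2 * K * (m + 2) ≤ 2 * K * (m + 4) := Nat.mul_le_mul_left _ (by omega)
  have h3 := reachAll_core (m := m) B H (fun L' s hL hsθ hsu => by
    by_contra hcon
    exact hrun (runS_of_long hΦ hε ht hc hℓς hV hS hw hok hokx hNB h0 h1 hu hN hL hsθ hsu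
      (by omega))) (by omega)
  intro v hv hθ y hy hb
  obtain ⟨h4, h5⟩ := h3 v hv hθ y hy hb
  exact ⟨h4.mono (by omega), fun k hk => (h5 k hk).mono (by omega)⟩

end main

/-- The excluded case `t ≤ 0`. -/
theorem reachAll_zero (hΦ : AdmissiblePotential Φ) (hε : 0 < ε) (ht : t ≤ 0)
    (hV : Valid Φ ε P t z.1.2 z.2) (hu : u₀ ≤ t) (hN : P.leaves ≤ N) :
    RAllX Φ t c ε K N u₀ z w x := by
  cases P with
  | node l r =>
    have h1 := hV.2.1
    have h2 := hV.2.2.1
    have h3 := sin_le hε.le (Φ := Φ) z.1.2 z.2.1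
    linarith
  | leaf =>
    intro u hu' hθ y hy hb
    have hu0 : u = 0 := le_antisymm (hu'.2.trans (hu.trans ht)) hu'.1
    subst hu0
    rcases y with k | y
    · exfalso
      have h1 := fj_of_ci_cm (f := (Sum.inl : Fin n → Fin n ⊕ Idx leaf))
        (g := fun _ : Unit => Sum.inr x) hΦ hε hy
      have h2 := FJ.pos (fun b s j k hc _ => cm_pos (fun y => by
        rcases y with y | y
        · exact le_rfl
        · exact le_rfl) hc) h1 (by
          rintro ⟨_, h⟩
          cases h)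
      exact absurd h2 (lt_irrefl _)
    · refine ⟨?_, fun k hk => by cases hk⟩
      let _ : DecidableEq (Fin n ⊕ Idx leaf) := fun a b => Classical.propDecidable (a = b)
      refine ⟨{Sum.inr x}, LNEv968.Grp.single (fun h => ?_) ?_, Finset.mem_singleton_self _,
        {Sum.inr x}, Finset.subset_union_right, Finset.mem_singleton_self _, ?_, ?_⟩
      · have h1 : (none : Option (Fin n ⊕ Idx leaf)) = some _ := h
        exact absurd h1 (by simp)
      · rw [Finset.insert_eq_of_mem (by rw [uni_Lt]; exact inr_mem x), uni_Lt]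
        change (Finset.univ.map (eT n leaf)).card ≤ N
        rw [Finset.card_map, Finset.card_univ, card_idx]
        exact hN
      · intro i hi ho b j hj hj' hji hbj
        rw [Finset.mem_singleton] at hi hj
        exact absurd (hj.trans hi.symm) hji
      · have h1 : ((MW.cfg w).add (MW.line (lineML Φ ε leaf z x))).path Φ ε 0 (Sum.inr y) =
            PathFlow968.fin Φ ε leaf z.1 z.2 x := by
          rw [MW.path_zero hΦ hε]
          exact back_lineML Φ ε leaf z x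
        rw [h1, st_nonpos _ le_rfl, fl_zero]
        rfl

/-- **The deterministic alternative for one line of a tree.** -/
theorem ratX (hΦ : AdmissiblePotential Φ) (K K₂ : ℕ) : RATX Φ t K K₂ := by
  intro L
  refine ⟨K + 2 * K₂ * (L + 4), ?_⟩
  intro c ε ℓ ς u₀ hc hε _ hς hu P z n w hP hV hS hw _ x hok hokx
  by_cases h1 : RunS Φ t K₂ L ε z w
  · exact Or.inl h1
  by_cases h2 : NoBad (Mt Φ t ε n P) c ℓ ς (Zt Φ ε w z) (Lt n P)
    ((K + 2 * K₂ * (L + 4)) + (K + 2 * K₂ * (L + 4)))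
  swap
  · exact Or.inr (Or.inl h2)
  by_cases h3 : HitW Φ t c ε (K + 2 * K₂ * (L + 4)) z w (MW.cfg w) (eG n P)
  · exact Or.inr (Or.inr (Or.inl h3))
  by_cases h4 : HitW Φ t c ε (K + 2 * K₂ * (L + 4)) z w ((MW.cfg w).ins (lineML Φ ε P z x))
    (eX n P x)
  · exact Or.inr (Or.inr (Or.inr (Or.inl h4)))
  refine Or.inr (Or.inr (Or.inr (Or.inr ?_)))
  have hcard : (uni (Lt n P)).card ≤ K := by
    rw [uni_Lt]
    change (Finset.univ.map (eT n P)).card ≤ K
    rw [Finset.card_map, Finset.card_univ, card_idx]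
    exact hP
  by_cases ht : 0 < t
  · exact reachAll_tree hΦ hε ht hc hς hV hS hw hok hokx
      (fun Q h1 h2' h3 => h2 Q h1 h2' (h3.trans (by omega))) h3 h4 hu (by omega) h1
  · exact reachAll_zero hΦ hε (not_lt.1 ht) hV hu (hP.trans (Nat.le_add_right _ _))

/-- **`RAT` holds.** -/
theorem rat (hΦ : AdmissiblePotential Φ) (K K₂ : ℕ) : RAT Φ t K K₂ :=
  rat_of_ratX hΦ (ratX hΦ K K₂)

/-- **`RATA` holds**, root line included. -/
theorem ratA (hΦ : AdmissiblePotential Φ) (K K₂ : ℕ) : RATA Φ t K K₂ :=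
  ratA_of_ratX hΦ (ratX hΦ K K₂)

end Crest.Agent.R122.LNTree399

end
end

-- ▼ part R122/LNTreeRATR_399

/-!
# Row 122, LN1, tree instance: helper302's form (helper399)

* `ratR` : `TreeGate2302.RATR` (root line included).
-/

set_option autoImplicit false
open Crest.AnalysisR.Kinetic
open Crest.Agent.R122.LN304 Crest.Agent.R122.LNTree399

noncomputable section

namespace Crest.Agent.R122.LNTree399

variable {Φ : Space3 → ℝ} {t : ℝ}

/-- **`RATR` holds**: helper302's form, root line included. -/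
theorem ratR (hΦ : AdmissiblePotential Φ) (K K₂ : ℕ) : TreeGate2302.RATR Φ t K K₂ := by
  intro L
  obtain ⟨N, h⟩ := ratA (t := t) hΦ K K₂ L
  exact ⟨N, fun c ε ℓ ς hc hε hℓ hς P z n w hP hV hS hw hp hok =>
    h c ε ℓ ς t hc hε hℓ hς le_rfl P z n w hP hV hS hw hp hok⟩

end Crest.Agent.R122.LNTree399

end
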