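import Crest.Agent.R122.RedW_674_Mg
import Crest.Agent.R122.InEq2TInX_718_Mg
import Crest.Agent.R122.TopE_602
import Crest.Agent.R122.TreeNull_302
import Crest.Agent.R122.F3RAT_370
import Crest.Agent.R122.LNTreeHit_399
import Crest.Agent.R122.TreeGate2_302

-- ▼ part R122/Ineq2_311
section

/-!
# Row 122: INEQUALITY 2 (helper311)

* `rtGWin_of` : `RtGWin` from the null facts `LinkNull`, `RetNullT`, `OkNull` (helper302, helper674).
* `i2In_of_parts` : INEQUALITY 2 (`Top602.I2In`) from the touched half, the weight comparison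
  (helper335, helper718) and `RtGWin`.
-/

set_option autoImplicit false

open MeasureTheory Set Filter Topology
open scoped ENNReal
open Crest.AnalysisR.Kinetic
open Crest.Agent.R122.Master566 Crest.Agent.R122.GIV566 Crest.Agent.R122.Top602
open Crest.Agent.R122.EDefs602 Crest.Agent.R122.GC311
open Crest.Agent.R122.InEq2T (FTg FLg)
open Crest.Agent.R122.RtG302 (RtGMaj LinkNull RetNullT OkNull)

noncomputable section

open scoped Classical

namespace Crest.Agent.R122.InEq2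

variable {Φ : Space3 → ℝ} {f₀ : PhasePoint → ℝ} {f : ℝ → PhasePoint → ℝ} {β T : ℝ} {γ : ℝ → ℝ}
  {ρ : ℝ≥0∞} {h₀ : ℝ}

/-- `RtGWin` for one pair of line parameters. -/
theorem rtGWin_of (hD : KData Φ β T f₀ f) {g1 : ℝ} {r1 : ℝ≥0∞} (hg : g1 ≤ β) (hr : 0 < r1)
    (hLP : LinePar g1 r1 T γ ρ)
    (h2 : ∀ tw ∈ Icc 0 T, ∀ K K', LinkNull Φ f₀ tw (tw + h₀) K K')
    (h3 : ∀ tw ∈ Icc 0 T, ∀ K K', RetNullT Φ f₀ tw (tw + h₀) K K')
    (h4 : ∀ tw ∈ Icc 0 T, ∀ K, OkNull Φ f₀ (tw + h₀) K) : RtGWin Φ f₀ f T γ ρ h₀ := by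
  refine EvW.of_forall fun h L tw te _ _ _ hW hIH K => ?_
  have ht : tw ∈ Icc 0 T := ⟨hW.nonneg, hW.le.trans hW.le_T⟩
  exact Red674.rtgMaj_of_ih hD hg hr hLP hIH (h2 tw ht) (h3 tw ht) (h4 tw ht) K

/-- `RtGWin` for all small `h₀` and all admissible line parameters. -/
theorem inHL_rtGWin (hD : KData Φ β T f₀ f) {h₁ : ℝ} (hh₁ : 0 < h₁)
    (h2 : ∀ h₀, 0 < h₀ → h₀ ≤ h₁ → ∀ tw ∈ Icc 0 T, ∀ K K', LinkNull Φ f₀ tw (tw + h₀) K K')
    (h3 : ∀ h₀, 0 < h₀ → h₀ ≤ h₁ → ∀ tw ∈ Icc 0 T, ∀ K K', RetNullT Φ f₀ tw (tw + h₀) K K')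
    (h4 : ∀ h₀, 0 < h₀ → h₀ ≤ h₁ → ∀ tw ∈ Icc 0 T, ∀ K, OkNull Φ f₀ (tw + h₀) K) :
    InHL T fun h₀ γ ρ => RtGWin Φ f₀ f T γ ρ h₀ :=
  ⟨h₁, hh₁, β, hD.beta_pos, 1 / 2, by norm_num, fun h₀ h0 hle _ _ hLP =>
    rtGWin_of hD le_rfl (by norm_num) hLP (h2 h₀ h0 hle) (h3 h₀ h0 hle) (h4 h₀ h0 hle)⟩

/-- The open parts of INEQUALITY 2. -/
structure I2Parts (Φ : Space3 → ℝ) (f₀ : PhasePoint → ℝ) (f : ℝ → PhasePoint → ℝ) (T : ℝ) :
    Prop where
  /-- the touched half -/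
  touched : InHL T fun h₀ γ ρ => InB Φ f₀ f T γ ρ h₀ FTg
  /-- the weight comparison -/
  weight : InHL T fun h₀ γ ρ => InB Φ f₀ f T γ ρ h₀ FLg
  /-- real to ghost before the window -/
  rtg : InHL T fun h₀ γ ρ => RtGWin Φ f₀ f T γ ρ h₀

/-- **INEQUALITY 2** from its open parts. -/
theorem i2In_of_parts (hD : KData Φ β T f₀ f) (h : I2Parts Φ f₀ f T) : I2In Φ f₀ f T := by
  obtain ⟨a, ha, g1, hg1, r1, hr1, hq⟩ := (h.touched.and h.weight).and h.rtg
  refine ⟨g1, hg1, r1, hr1, fun γ ρ hLP => ?_⟩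
  have hΦ := hD.adm
  have hf : Measurable f₀ := hD.contDiff.continuous.measurable
  obtain ⟨b, hb, hM⟩ := inB_FM (γ := γ) (ρ := ρ) hD
  obtain ⟨c, hc, hA⟩ := inB_FA (γ := γ) (ρ := ρ) hD
  set h₀ : ℝ := min a (min b c) with hh₀
  have h0 : 0 < h₀ := lt_min ha (lt_min hb hc)
  have h1 : h₀ ≤ a := min_le_left _ _
  have h2 : h₀ ≤ b := (min_le_right _ _).trans (min_le_left _ _)
  have h3 : h₀ ≤ c := (min_le_right _ _).trans (min_le_right _ _)
  obtain ⟨⟨kT, kL⟩, kR⟩ := hq h₀ h0 h1 γ ρ hLP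
  have hN := inB_FNG (γ := γ) (ρ := ρ) hD h0
  have hR := inB_FR hD h0 kR
  exact ineq2_of hD (inB_FT_of hΦ hf kT hN hR) hN hR (inB_FL_of kL) (hA h₀ h0 h3)
    (InEq2BIn263.inB_FB hD γ ρ h0) (inB_FNC hD h0) (inB_FRC hD h0 kR) (hM h₀ h0 h2)

end Crest.Agent.R122.InEq2

end
end

-- ▼ part R122/TopI_602
section

/-!
# Row 122: the null facts for trees and what follows from them (helper602)

* `TreeFacts` : links, returns and non-good worlds of the exit lines of one tree are null.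
* `rtgIn_of` : H12 (`RtGWin`) for all windows.
* `redIn_of` : the reduction to good trees (`StmtRed`) for all windows.
* `treeNull_of` : `F3Fin370.TreeNull` at any time where `TN` holds.
-/

set_option autoImplicit false

open MeasureTheory Set Filter Topology
open scoped ENNReal
open Crest.AnalysisR.Kinetic
open Crest.Agent.R122.Master566 Crest.Agent.R122.EDefs602 Crest.Agent.R122.GIV566
open Crest.Agent.R122.RtG302 (RtGMaj LinkNull RetNullT OkNull TouchNull)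

namespace Crest.Agent.R122.Top602

noncomputable section

/-- **The null facts for trees**: links between exit lines, returns to the protected tubes, worlds
which are not good. -/
structure TreeFacts (Φ : Space3 → ℝ) (f₀ : PhasePoint → ℝ) : Prop where
  link : ∀ u T' : ℝ, 0 ≤ u → u ≤ T' → ∀ K K' : ℕ, LinkNull Φ f₀ u T' K K'
  ret : ∀ u T' : ℝ, 0 ≤ u → u ≤ T' → ∀ K K' : ℕ, RetNullT Φ f₀ u T' K K'
  ok : ∀ T' : ℝ, 0 ≤ T' → ∀ K : ℕ, OkNull Φ f₀ T' K

variable {Φ : Space3 → ℝ} {β T : ℝ} {f₀ : PhasePoint → ℝ} {f : ℝ → PhasePoint → ℝ}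
  {γ : ℝ → ℝ} {ρ : ℝ≥0∞}

/-- H12 on all short windows. -/
theorem rtgIn_of (hD : KData Φ β T f₀ f) (h : TreeFacts Φ f₀) :
    InHL T fun h₀ γ ρ => InEq2.RtGWin Φ f₀ f T γ ρ h₀ :=
  InEq2.inHL_rtGWin hD one_pos
    (fun h₀ h0 _ tw ht K K' => h.link tw (tw + h₀) ht.1 (by linarith) K K')
    (fun h₀ h0 _ tw ht K K' => h.ret tw (tw + h₀) ht.1 (by linarith) K K')
    (fun h₀ h0 _ tw ht K => h.ok (tw + h₀) (by linarith [ht.1]) K)

/-- The reduction to good trees on all short windows. -/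
theorem redIn_of (hD : KData Φ β T f₀ f) (h : TreeFacts Φ f₀) :
    InHL T fun h₀ γ ρ => EvW T fun _ _ tw te => IH Φ f₀ f T γ ρ tw →
      OneC285.StmtRed Φ f₀ tw te (tw + h₀) :=
  ⟨1, one_pos, β, hD.beta_pos, 1 / 2, by norm_num, fun h₀ h0 _ _ _ hLP =>
    Red674.stmtRed_evW hD le_rfl (by norm_num) hLP h0
      (fun tw ht K K' => h.link tw (tw + h₀) ht.1 (by linarith) K K')
      (fun tw ht K K' => h.ret tw (tw + h₀) ht.1 (by linarith) K K')
      (fun tw ht K => h.ok (tw + h₀) (by linarith [ht.1]) K)⟩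


end

end Crest.Agent.R122.Top602
end

-- ▼ part R122/ErrIn_370
section

/-!
# `Top602.ErrIn` (row 122, helper370)

* `hitPN` : the bad hits of trees are null, unconditional (167, 416, 350, 726, 399).
* `errIn_of_rat` : `ErrIn` from `RAT`, `LinkNull`, `RetNullT`, `OkNull`.
* `errIn_of_treeFacts` : `ErrIn` from `RAT` and `TreeFacts`.
-/

set_option autoImplicit false
set_option linter.unusedSectionVars false
open MeasureTheory Set Filter
open scoped Classical ENNReal Topology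
open Crest.AnalysisR.Kinetic
open Crest.Agent.R122.RtG302 Crest.Agent.R122.EDefs602 Crest.Agent.R122.LNTree399
open Crest.Agent.R122.CEReach370 Crest.Agent.R122.F3RAT370
open Crest.Agent.R122.Master566 Crest.Agent.R122.Top602
noncomputable section

namespace Crest.Agent.R122.ErrIn370

variable {Φ : Space3 → ℝ} {f₀ : PhasePoint → ℝ} {f : ℝ → PhasePoint → ℝ} {β T t : ℝ}

/-- **The bad hits of trees are null.** -/
theorem hitPN (hΦ : AdmissiblePotential Φ) {γ : ℝ} (hγ : 0 < γ) (hf : Measurable f₀)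
    (H : HasSummableGaussianBound γ (fun x v => f₀ (x, v)))
    (h1 : ∫⁻ z, ENNReal.ofReal (f₀ z) ≤ 1) (t : ℝ) : HitPN Φ f₀ t := by
  obtain ⟨ρ, C₀, he⟩ := LN2.exists_env (le_refl γ) H
  intro P N δ hδ
  refine pMaj_of_gLe hΦ hf ((gNull_hitS hΦ hγ hf h1 he le_rfl P t N _
    (ENNReal.ofReal_pos.2 hδ)).mono le_rfl ⟨1, one_pos, fun ε _ _ i n z w _ h => ?_⟩)
  exact ⟨h.2.1, h.2.2⟩

/-- **`ErrIn`** from the tree instance of LN1 and the null facts at `(t, t)`. -/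
theorem errIn_of_rat (hD : KData Φ β T f₀ f) (hRAT : ∀ t ∈ Ioc 0 T, ∀ K K₂, RAT Φ t K K₂)
    (h2 : ∀ t ∈ Ioc 0 T, ∀ K K', LinkNull Φ f₀ t t K K')
    (h3 : ∀ t ∈ Ioc 0 T, ∀ K K', RetNullT Φ f₀ t t K K')
    (h4 : ∀ t ∈ Ioc 0 T, ∀ K, OkNull Φ f₀ t K) : ErrIn Φ f₀ f T := by
  have hβ := hD.beta_pos
  have hmass : ∫⁻ z, ENNReal.ofReal (f₀ z) ≤ 1 :=
    (FM167.lintegral_density_eq_one hD.nonneg hD.integrable hD.mass).le
  exact errIn_of hD hRAT (fun t _ => hitPN hD.adm (by linarith : (0 : ℝ) < 2 * β)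
    hD.contDiff.continuous.measurable hD.gaussian hmass t) h2 h3 h4

/-- **`ErrIn`** from the tree instance of LN1 and `TreeFacts`. -/
theorem errIn_of_treeFacts (hD : KData Φ β T f₀ f) (hTF : TreeFacts Φ f₀)
    (hRAT : ∀ t ∈ Ioc 0 T, ∀ K K₂, RAT Φ t K K₂) : ErrIn Φ f₀ f T :=
  errIn_of_rat hD hRAT (fun t ht => hTF.link t t ht.1.le le_rfl)
    (fun t ht => hTF.ret t t ht.1.le le_rfl) fun t ht => hTF.ok t ht.1.le

end Crest.Agent.R122.ErrIn370
end
end

-- ▼ part R122/TreeFin_302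

/-!
# The null facts of trees from `RAT` and `OkNull` (row 122, helper302)

* `linkNull_of_rat`, `retNullT_of_rat` : `LinkNull`, `RetNullT` for `KData`.
* `hitPN` : helper370's `HitPN`, unconditional.
* `errIn_of_rat` : `Top602.ErrIn` from `RAT` and `OkNull`.
* `rtg_of_rat` : `RtGWin` for all small `h₀` from `RAT` and `OkNull`.
* `linkR_of_ratR` : pairwise links of all lines of the tree, root line included.
-/

set_option autoImplicit false
set_option linter.unusedSectionVars false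

open MeasureTheory Set Filter Topology
open scoped ENNReal
open Crest.AnalysisR.Kinetic
open Crest.Agent.R122.GC311 Crest.Agent.R122.EDefs602
open Crest.Agent.R122.Kin796 Crest.Agent.R122.Kin796.CTree Crest.Agent.R122.Tree674
open Crest.Agent.R122.TreeLines335 Crest.Agent.R122.LineMeas994
open Crest.Agent.R122.LN2 Crest.Agent.R122.Master566 Crest.Agent.R122.Top602
open Crest.Agent.R122.Gate424 Crest.Agent.R122.RtG302 Crest.Agent.R122.Excl302
open Crest.Agent.R122.LNTree399 Crest.Agent.R122.TreeGate2302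
open Crest.Agent.R122.PWInst442 Crest.Agent.R122.InEq2

noncomputable section

open scoped Classical

namespace Crest.Agent.R122.TreeFin302

variable {Φ : Space3 → ℝ} {β T : ℝ} {f₀ : PhasePoint → ℝ} {f : ℝ → PhasePoint → ℝ}
  {T' u₀ : ℝ} {K K' : ℕ}

theorem classNull (hΦ : AdmissiblePotential Φ) (hT : 0 < T') : VLMeas973.ClassNull Φ T' :=
  VLMeas973.class_null hΦ hT (VL581.vc hΦ) (VL581.vlu hΦ)

theorem mass_le (hD : KData Φ β T f₀ f) : ∫⁻ z, ENNReal.ofReal (f₀ z) ≤ 1 :=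
  (FM167.lintegral_density_eq_one hD.nonneg hD.integrable hD.mass).le

/-- Links and returns of the exit lines are null. -/
theorem lr_of_rat (hD : KData Φ β T f₀ f) (hT : 0 ≤ T') (hu : u₀ ≤ T')
    (hok : OkNull Φ f₀ T' K) (hR : 0 < T' → RAT Φ T' K K') :
    TNull Φ f₀ T' K (LREv Φ K' u₀ T') := by
  have hγ : (0 : ℝ) < 2 * β := by linarith [hD.beta_pos]
  obtain ⟨ρ, C₀, he⟩ := exists_env (le_refl (2 * β)) hD.gaussian
  exact lr_null' hD.adm hγ hD.contDiff.continuous hD.gaussian (mass_le hD) hT hu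
    (classNull hD.adm) hok (Ht := fun N ε _ z _ w => HitS Φ T' 1 ε N z w)
    (fun h => ⟨hR h, fun N ε _ P z n w _ _ hS _ hOk hh => ⟨hS, hOk, hh⟩⟩)
    fun N => tNull_hitS hD.adm hγ hD.contDiff.continuous.measurable (mass_le hD) he le_rfl K T' N

/-- **`LinkNull`** from `RAT` and `OkNull`. -/
theorem linkNull_of_rat (hD : KData Φ β T f₀ f) (hT : 0 ≤ T') (hu : u₀ ≤ T')
    (hok : OkNull Φ f₀ T' K) (hR : 0 < T' → RAT Φ T' K K') : LinkNull Φ f₀ u₀ T' K K' :=
  tNull_mono (lr_of_rat hD hT hu hok hR) fun _ _ _ _ _ h => Or.inl h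

/-- **`RetNullT`** from `RAT` and `OkNull`. -/
theorem retNullT_of_rat (hD : KData Φ β T f₀ f) (hT : 0 ≤ T') (hu : u₀ ≤ T')
    (hok : OkNull Φ f₀ T' K) (hR : 0 < T' → RAT Φ T' K K') : RetNullT Φ f₀ u₀ T' K K' :=
  tNull_mono (lr_of_rat hD hT hu hok hR) fun _ _ _ _ _ h => Or.inr h





/-! ### Root line included -/




end Crest.Agent.R122.TreeFin302
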