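import Crest.Agent.R122.LNTreeRATR_399
import Crest.Agent.R122.TreeFin_302_Mg
import Crest.Agent.R122.AllOkTree_663

/-!
# Row 122: the facts for one tree, unconditional (helper302)

* `treeFacts` : `Top602.TreeFacts` from `KData`.
* `errIn` : `Top602.ErrIn` from `KData`.
* `rtgIn`, `redIn` : the inputs of inequalities 1 and 2 of the same kind.
-/

set_option autoImplicit false

open MeasureTheory Set Filter Topology
open scoped ENNReal
open Crest.AnalysisR.Kinetic
open Crest.Agent.R122.Master566 Crest.Agent.R122.EDefs602 Crest.Agent.R122.GIV566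
open Crest.Agent.R122.Top602

namespace Crest.Agent.R122.TreeFacts302

noncomputable section

variable {Φ : Space3 → ℝ} {β T : ℝ} {f₀ : PhasePoint → ℝ} {f : ℝ → PhasePoint → ℝ}

/-- **The null facts for trees.** -/
theorem treeFacts (hD : KData Φ β T f₀ f) : TreeFacts Φ f₀ where
  link _ T' h0 hu K K' := TreeFin302.linkNull_of_rat hD (h0.trans hu) hu
    (AllOk663.okNull hD.adm f₀ T' K) fun _ => LNTree399.rat hD.adm K K'
  ret _ T' h0 hu K K' := TreeFin302.retNullT_of_rat hD (h0.trans hu) hu
    (AllOk663.okNull hD.adm f₀ T' K) fun _ => LNTree399.rat hD.adm K K'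
  ok T' _ K := AllOk663.okNull hD.adm f₀ T' K

/-- **The input (C) of section F.** -/
theorem errIn (hD : KData Φ β T f₀ f) : ErrIn Φ f₀ f T :=
  ErrIn370.errIn_of_treeFacts hD (treeFacts hD) fun _ _ K K₂ => LNTree399.rat hD.adm K K₂

/-- Real unhit trees are ghost unhit, on all short windows. -/
theorem rtgIn (hD : KData Φ β T f₀ f) :
    InHL T fun h₀ γ ρ => InEq2.RtGWin Φ f₀ f T γ ρ h₀ := rtgIn_of hD (treeFacts hD)

/-- The reduction to good trees, on all short windows. -/
theorem redIn (hD : KData Φ β T f₀ f) :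
    InHL T fun h₀ γ ρ => EvW T fun _ _ tw te => IH Φ f₀ f T γ ρ tw →
      OneC285.StmtRed Φ f₀ tw te (tw + h₀) := redIn_of hD (treeFacts hD)

end

end Crest.Agent.R122.TreeFacts302
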