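import Crest.Agent.R122.TreeFin_302_Mg
import Crest.Agent.R122.Ineq1E_815
import Crest.Agent.R122.TreeFacts_302
import Crest.Agent.R122.LNForRA_317
import Crest.Agent.R122.LNRoot_291
import Crest.Agent.R122.LNTreeRATR_399
import Crest.Agent.R122.InEq2TInX_718_Mg

-- ▼ part R122/TopJ_602
section

/-!
# Row 122: the open inputs of S0162, current list (helper602)

* `Open122` : what is not proved yet; `parts_of_open`.
* `result_of_open122` : S0162 from `Open122`.
-/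

set_option autoImplicit false

open MeasureTheory Set Filter Topology
open scoped ENNReal
open Crest.AnalysisR.Kinetic
open Crest.Agent.R122.Master566 Crest.Agent.R122.EDefs602 Crest.Agent.R122.GIV566

namespace Crest.Agent.R122.Top602

noncomputable section

/-- The open inputs of S0162. -/
structure Open122 (Φ : Space3 → ℝ) (T : ℝ) (f₀ : PhasePoint → ℝ) (f : ℝ → PhasePoint → ℝ) :
    Prop where
  /-- links and bad encounters of the one-contact structures -/
  link4 : Ineq1815.Link4In Φ f₀ f T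
  /-- the touched half of INEQUALITY 2 -/
  ftg : InHL T fun h₀ γ ρ => InEq2.InB Φ f₀ f T γ ρ h₀ InEq2T.FTg
  /-- the weight comparison of INEQUALITY 2 -/
  flg : InHL T fun h₀ γ ρ => InEq2.InB Φ f₀ f T γ ρ h₀ InEq2T.FLg
  /-- INEQUALITY 3 -/
  i3 : I3In Φ f₀ f T

theorem parts_of_open {Φ : Space3 → ℝ} {β T : ℝ} {f₀ : PhasePoint → ℝ}
    {f : ℝ → PhasePoint → ℝ} (hD : KData Φ β T f₀ f) (h : Open122 Φ T f₀ f) :
    Parts Φ T f₀ f :=
  ⟨Ineq1815.i1In_of_parts hD ⟨TreeFacts302.rtgIn hD, h.link4⟩,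
    InEq2.i2In_of_parts hD ⟨h.ftg, h.flg, TreeFacts302.rtgIn hD⟩, h.i3, TreeFacts302.errIn hD,
    ForRA317.retFacts hD⟩

/-- **The statement of S0162 from the open inputs.** -/
theorem result_of_open122
    (H : ∀ (Φ : Space3 → ℝ) (β T : ℝ) (f₀ : PhasePoint → ℝ) (f : ℝ → PhasePoint → ℝ),
      KData Φ β T f₀ f → Open122 Φ T f₀ f)
    (Φ : Space3 → ℝ) (hΦ : AdmissiblePotential Φ) (β : ℝ) (hβ : 0 < β) (T : ℝ) (hT : 0 < T)
    (f₀ : PhasePoint → ℝ) (hf₀ : ∀ z, 0 ≤ f₀ z) (hf₀d : ContDiff ℝ 1 f₀)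
    (hf₀i : Integrable f₀) (hf₀m : ∫ z, f₀ z = 1)
    (hf₀b : HasSummableGaussianBound (2 * β) (fun x v => f₀ (x, v)))
    (hf₀g : HasSummableGaussianBound (2 * β) (fun x v => fderiv ℝ (fun y => f₀ (y, v)) x))
    (f : ℝ → PhasePoint → ℝ) (hf : IsRegularKineticSolution Φ β T f₀ f)
    (Ψ : ℝ → (n : ℕ) → ℝ → Config n → Config n)
    (hΨ : ∀ ε : ℝ, 0 < ε → IsNewtonianEvolution Φ ε (Ψ ε))
    (s : ℕ) (hs : 1 ≤ s) (δ : ℝ) (hδ : 0 < δ) :
    ∃ ε₀ : ℝ, 0 < ε₀ ∧ ∀ ε : ℝ, 0 < ε → ε < ε₀ → ∀ t ∈ Set.Icc 0 T,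
      ∀ A : Set (Config s), MeasurableSet A →
        factorialMarginal f₀ ε (Ψ ε) s t A ≤
            (∫⁻ Z in A, ∏ k, ENNReal.ofReal (f t (Z k))) + ENNReal.ofReal δ ∧
          (∫⁻ Z in A, ∏ k, ENNReal.ofReal (f t (Z k))) ≤
            factorialMarginal f₀ ε (Ψ ε) s t A + ENNReal.ofReal δ :=
  result_of_open (fun Φ β T f₀ f hD => openIn_of_parts hD (parts_of_open hD (H Φ β T f₀ f hD)))
    Φ hΦ β hβ T hT f₀ hf₀ hf₀d hf₀i hf₀m hf₀b hf₀g f hf Ψ hΨ s hs δ hδ

end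

end Crest.Agent.R122.Top602
end

-- ▼ part R122/LNSkel_291

/-!
# Row 122 (helper291): the inputs of S0162, what is closed and what is open

Closed, for `KData` only (from helper399's `rat`, `ratR`, helper317's `retFacts`, helper663's a.e.
good worlds):
* `treeFacts` : `Top602.TreeFacts`; `errIn` : `Top602.ErrIn`; `rtgIn` : `RtGWin` on short windows;
  `redIn` : the reduction to good trees; `exRIn` : helper718's `ExR` on short windows.

Open: `Open3` = `Link4In`, `LnN`, `I3In`; `parts_of_open3` : `Top602.Parts`.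
-/

set_option autoImplicit false
set_option linter.unusedSectionVars false

open MeasureTheory Set Filter Topology
open scoped ENNReal Classical
open Crest.AnalysisR.Kinetic
open Crest.Agent.R122.GC311 Crest.Agent.R122.EDefs602 Crest.Agent.R122.Master566
open Crest.Agent.R122.GIV566 Crest.Agent.R122.Top602
open Crest.Agent.R122.Kin796 Crest.Agent.R122.Kin796.CTree Crest.Agent.R122.Tree674
open Crest.Agent.R122.RtG302 Crest.Agent.R122.Excl302
open Crest.Agent.R122.LNTree399 Crest.Agent.R122.TreeGate2302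
open Crest.Agent.R122.LNRoot291

noncomputable section

namespace Crest.Agent.R122.LNSkel291

variable {Φ : Space3 → ℝ} {f₀ : PhasePoint → ℝ} {f : ℝ → PhasePoint → ℝ} {β T : ℝ}

/-- **`TreeFacts`**: links, returns and non-good worlds of the exit lines of one tree are null. -/
theorem treeFacts (hD : KData Φ β T f₀ f) : TreeFacts Φ f₀ := by
  have hΦ := hD.adm
  have hβ := hD.beta_pos
  have hγ : (0 : ℝ) < 2 * β := by linarith
  have hf := hD.contDiff.continuous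
  have h1 : ∫⁻ z, ENNReal.ofReal (f₀ z) ≤ 1 :=
    (FM167.lintegral_density_eq_one hD.nonneg hD.integrable hD.mass).le
  obtain ⟨ρ, C₀, he⟩ := LN2.exists_env (le_refl (2 * β)) hD.gaussian
  have hCN : ∀ T' : ℝ, 0 < T' → VLMeas973.ClassNull Φ T' := fun T' hT =>
    VLMeas973.class_null hΦ hT (VL581.vc hΦ) (VL581.vlu hΦ)
  have hTD : ∀ (T' : ℝ) (K K' : ℕ), 0 < T' →
      TreeDet Φ T' K K' (fun N ε P z m w => HitS Φ T' 1 ε N z w) := fun T' K K' _ =>
    ⟨rat hΦ K K', fun N ε _ P z n w _ _ hS _ hok h => ⟨hS, hok, h⟩⟩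
  have hH : ∀ (T' : ℝ) (K N : ℕ), TNull Φ f₀ T' K (fun ε P z m w => HitS Φ T' 1 ε N z w) :=
    fun T' K N => tNull_hitS hΦ hγ hf.measurable h1 he le_rfl K T' N
  refine ⟨fun u T' hu huT K K' => ?_, fun u T' hu huT K K' => ?_,
    fun T' _ K => AllOk663.okNull hΦ f₀ T' K⟩
  · exact linkNull hΦ hγ hf hD.gaussian h1 (hu.trans huT) huT (hCN T')
      (AllOk663.okNull hΦ f₀ T' K) (hTD T' K K') (hH T' K)
  · exact retNullT hΦ hγ hf hD.gaussian h1 (hu.trans huT) huT (hCN T')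
      (AllOk663.okNull hΦ f₀ T' K) (hTD T' K K') (hH T' K)


/-- **H12** (`RtGWin`) on all short windows. -/
theorem rtgIn (hD : KData Φ β T f₀ f) :
    InHL T fun h₀ γ ρ => InEq2.RtGWin Φ f₀ f T γ ρ h₀ := rtgIn_of hD (treeFacts hD)

/-- **The reduction to good trees** on all short windows. -/
theorem redIn (hD : KData Φ β T f₀ f) :
    InHL T fun h₀ γ ρ => EvW T fun _ _ tw te => IH Φ f₀ f T γ ρ tw →
      OneC285.StmtRed Φ f₀ tw te (tw + h₀) := redIn_of hD (treeFacts hD)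

/-- **`ExR`** (helper718): the exceptional events of the tree are null, root line included. -/
theorem exR (hD : KData Φ β T f₀ f) {h₀ : ℝ} (h0 : 0 < h₀) (γ : ℝ → ℝ) (ρ : ℝ≥0∞) :
    InEq2T.ExR Φ f₀ f T γ ρ h₀ := by
  have hβ := hD.beta_pos
  have hγ : (0 : ℝ) < 2 * β := by linarith
  have h1 : ∫⁻ z, ENNReal.ofReal (f₀ z) ≤ 1 :=
    (FM167.lintegral_density_eq_one hD.nonneg hD.integrable hD.mass).le
  refine ⟨h₀, h0, 1, fun h L tw te _ hh _ _ hW _ K => ?_⟩
  have hte : te ≤ tw + h₀ := hW.short.trans (by linarith)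
  have hT : 0 < tw + h₀ := by linarith [hW.nonneg]
  obtain ⟨q, hq, hE⟩ := InEq2T.TNull.exists_fun (tNull_goodT (K := K) hD.adm hγ
    hD.contDiff.continuous hD.gaussian h1 hT hte (ratR hD.adm K K))
  refine ⟨q, hq, hE.mono fun ε h => ?_⟩
  obtain ⟨G, hG, hm⟩ := h
  exact ⟨G, hG.meas, fun P z m w h1 h2 h3 h4 _ h5 => hG.maj P z m w h1 h2 h3 h4 h5,
    InEq2T.TS_HN_le.trans hm⟩

/-- **`ExR`** on all short windows. -/
theorem exRIn (hD : KData Φ β T f₀ f) :
    InHL T fun h₀ γ ρ => InEq2T.ExR Φ f₀ f T γ ρ h₀ :=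
  ⟨1, one_pos, 1, one_pos, 1 / 2, ENNReal.half_lt_self one_ne_zero ENNReal.one_ne_top,
    fun _ h0 _ γ ρ _ => exR hD h0 γ ρ⟩



/-- The open inputs of S0162. -/
structure Open3 (Φ : Space3 → ℝ) (T : ℝ) (f₀ : PhasePoint → ℝ) (f : ℝ → PhasePoint → ℝ) :
    Prop where
  /-- links and bad encounters of the one-contact structures -/
  link4 : Ineq1815.Link4In Φ f₀ f T
  /-- the lines which are not good for a tree -/
  ln : InHL T fun h₀ γ ρ => InEq2T.LnN Φ f₀ f T γ ρ h₀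
  /-- INEQUALITY 3 -/
  i3 : I3In Φ f₀ f T



end Crest.Agent.R122.LNSkel291

end
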