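import Crest.Agent.R122.CaseC_658
import Crest.Agent.R122.Direct6c_658
import Crest.Agent.R122.PairStep_292
import Crest.Agent.R122.PairStepK_85
import Crest.Agent.R122.H5Top_814
import Crest.Agent.R122.RedFlux6_663_Mg
import Crest.Agent.R122.LNSkel_291

-- ▼ part R122/CaseC6_658
section

/-!
# Row 122, section E, case (C) (helper658): the literal slot `StmtCC6` of helper292
-/

set_option autoImplicit false
set_option linter.unusedSectionVars false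

open MeasureTheory ProbabilityTheory Set Filter Topology
open scoped ENNReal
open Crest.AnalysisR.Kinetic
open Crest.Agent.R122.EDefs602
open Crest.Agent.R122.Boost969 (LSt posAt)
open Crest.Agent.R122.Pair292 (Lab CDat PPar PX sig stO OutMap)
open Crest.Agent.R122.PairD292

namespace Crest.Agent.R122.CaseC658

noncomputable section

open scoped Classical

variable {Φ : Space3 → ℝ} {β T : ℝ} {f₀ : PhasePoint → ℝ} {f : ℝ → PhasePoint → ℝ}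

theorem KO_eq (Φ : Space3 → ℝ) (ε b te : ℝ) (q : ℕ → ℝ≥0∞) (k : Option Bool) :
    KO Φ ε b te q k = stO ε b te (outK Φ ε k) (mrk k) q := by
  rcases k with _ | _ | _ <;> rfl

/-- **Case (C)**, the literal slot of `PairStep_292`. -/
theorem stmtCC6 (hD : Master566.KData Φ β T f₀ f) {h₀ kap lam C b : ℝ}
    (hK : Seg814.KinC Φ T f h₀ kap lam C b) {Q : EPar} (htw : Q.tw ∈ Icc 0 T)
    (hG : GIV566.GIV Φ f₀ f T Q.tw) (hte : Q.te ≤ Q.tw + h₀) (hL : 0 ≤ Q.L)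
    (hγ : Measurable Q.γ) {g0 : ℝ} (hg0 : 0 < g0) (hγ0 : ∀ τ ∈ Ioc (0 : ℝ) Q.te, g0 ≤ Q.γ τ)
    (hρ : Q.ρ < 1) (T' : ℝ) (PP : ℕ → PPar) :
    StmtCC6 Φ f₀ Q T' b (qK C lam) PP := by
  intro hPP
  obtain ⟨δ, hδ, h⟩ := caseC hD hK htw hG hte hL hγ hg0 hγ0 hρ hPP
  refine ⟨δ, hδ, fun K ε hε k Ξ ν c hX => ?_⟩
  rw [KO_eq]
  exact h k T' K ε hε Ξ ν c hX

/-- **Case (C)**, in a window of section E. -/
theorem stmtCC6_win (hD : Master566.KData Φ β T f₀ f) {h₀ kap lam C b : ℝ}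
    (hK : Seg814.KinC Φ T f h₀ kap lam C b) {g1 : ℝ} {r1 : ℝ≥0∞} {γ : ℝ → ℝ} {ρ : ℝ≥0∞}
    (hl : Top602.LinePar g1 r1 T γ ρ) {L tw te h : ℝ} (hL : 0 ≤ L) (hw : Top602.Win h T tw te)
    (hh : h ≤ h₀) (hG : GIV566.GIV Φ f₀ f T tw) (T' : ℝ) (PP : ℕ → PPar) :
    StmtCC6 Φ f₀ (Top602.epar γ ρ L tw te) T' b (qK C lam) PP := by
  obtain ⟨hγ, γ₀, hγp, hγ₀⟩ := Direct658.exists_rate hl
  have h1 : te ≤ tw + h₀ := hw.short.trans (by linarith)
  exact stmtCC6 hD hK (Q := Top602.epar γ ρ L tw te) ⟨hw.nonneg, hw.le.trans hw.le_T⟩ hG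
    h1 hL hγ hγp (fun τ hτ => hγ₀ τ (hτ.2.trans hw.le_T)) hl.hi T' PP

end

end Crest.Agent.R122.CaseC658
end

-- ▼ part R122/I3Step_478

/-!
# Inequality 3 of section E: the one-step inequality in the windows (row 122, helper478)

* `NullABIn` : the null facts of the spread terms in the windows.
* `step6_win` : 292's `Step6` in one window.
* `step6In` : the one-step inequality for all small `h₀`, all line parameters and short windows.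
-/

set_option autoImplicit false
set_option linter.unusedSectionVars false

open MeasureTheory ProbabilityTheory Set Filter
open scoped ENNReal Classical Topology
open Crest.AnalysisR.Kinetic
open Crest.Agent.R122.Kin796 Crest.Agent.R122.Kin796.CTree Crest.Agent.R122.Tree674
open Crest.Agent.R122.GC311 Crest.Agent.R122.EDefs602 Crest.Agent.R122.Master566
open Crest.Agent.R122.Boost969 (LSt)
open Crest.Agent.R122.Pair292 (Lab PPar PX sig)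
open Crest.Agent.R122.OneC285 (rfl4 StmtRed)
open Crest.Agent.R122.PairD292 Crest.Agent.R122.Top602

noncomputable section

namespace Crest.Agent.R122.I3Step478

variable {Φ : Space3 → ℝ} {β T : ℝ} {f₀ : PhasePoint → ℝ} {f : ℝ → PhasePoint → ℝ}

/-- The null facts of the spread terms (`errA`, `errB`) in the windows. -/
def NullABIn (Φ : Space3 → ℝ) (f₀ : PhasePoint → ℝ) (f : ℝ → PhasePoint → ℝ) (T : ℝ) : Prop :=
  InHL T fun h₀ γ ρ => EvW T fun _ L tw te => IH Φ f₀ f T γ ρ tw →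
    H5Top814.NullAB Φ f₀ (epar γ ρ L tw te) (tw + h₀)

theorem evW_le {T a : ℝ} (ha : 0 < a) : EvW T fun h _ _ _ => h ≤ a :=
  ⟨a, ha, 1, fun _ _ _ _ _ h _ _ _ => h⟩

theorem evW_vanish {T : ℝ} {o : ℝ → ℝ → ℝ≥0∞} (ho : Vanish o) :
    EvW T fun h L _ _ => o h L ≠ ∞ := by
  obtain ⟨a, ha, l, hl⟩ := ho 1 one_pos
  exact ⟨a, ha, l, fun h L _ _ h0 h1 h2 _ _ =>
    ne_top_of_le_ne_top ENNReal.one_ne_top (hl h L h0 h1 h2)⟩

theorem Step6.mono {Q : EPar} {T' r b₀ : ℝ} {q : ℕ → ℕ → ℝ≥0∞} {PP : ℕ → PPar}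
    {bd : ℕ → ℝ → SF2} {C₁ C₁' C₂ : ℝ≥0∞} (h : Step6 Φ f₀ Q T' r b₀ q PP bd C₁ C₂)
    (hC : C₁ ≤ C₁') : Step6 Φ f₀ Q T' r b₀ q PP bd C₁' C₂ := by
  obtain ⟨S, hS, h⟩ := h
  refine ⟨S, hS, fun K ε hε hε1 hεw Ξ ν c hν hsig hok => ?_⟩
  refine (h K ε hε hε1 hεw Ξ ν c hν hsig hok).trans ?_
  gcongr

/-- The one-step inequality in one window. -/
theorem step6_win (hD : KData Φ β T f₀ f) {hk kap kap' lam C b b' M : ℝ}
    (hK : Seg814.KinC Φ T f hk kap lam C b) (hM : KinL1.KinM Φ T f hk kap' lam b' M)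
    {h₀ : ℝ} (hle : h₀ ≤ hk) {g1 : ℝ} {r1 ρ : ℝ≥0∞} {γ : ℝ → ℝ}
    (hl : LinePar g1 r1 T γ ρ) {h L tw te : ℝ} (hh : 0 < h) (hL : 1 ≤ L) (hw : Win h T tw te)
    (hhh : h ≤ h₀ / 2) (hIH : IH Φ f₀ f T γ ρ tw) (hred : StmtRed Φ f₀ tw te (tw + h₀))
    {r : ℝ} (hr : 0 < r) {Csp : ℝ≥0∞} (hCsp : Csp ≠ ∞) {PP : ℕ → PPar}
    (hPP : PPOk (epar γ ρ L tw te) PP)
    (hsp : StmtSP6 Φ f₀ (epar γ ρ L tw te) (tw + h₀) r PP
      (H5994.tOc Φ (epar γ ρ L tw te) (tw + h₀)) (H5994.tYc Φ (epar γ ρ L tw te) (tw + h₀)) Csp)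
    {bd : ℕ → ℝ → SF2} (hbdm : ∀ K ε, 0 < ε → MeasSF2 (bd K ε))
    (hpt : StmtPt6 Φ (epar γ ρ L tw te) (tw + h₀) r (H5994.tOc Φ (epar γ ρ L tw te) (tw + h₀))
            (H5994.tYc Φ (epar γ ρ L tw te) (tw + h₀)) bd) :
    Step6 Φ f₀ (epar γ ρ L tw te) (tw + h₀) r b (CaseC658.qK C lam) PP bd
      (Csp + (Direct658.v1 * ENNReal.ofReal r + Direct658.oDIR Φ f₀ T r h)) Direct658.v1 := by
  have hΦ := hD.adm
  have hf : Measurable f₀ := hD.contDiff.continuous.measurable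
  obtain ⟨hγ, γ₀, hγp, hγ₀⟩ := Direct658.exists_rate hl
  have hte : te ≤ tw + h₀ := by linarith [hw.short]
  have htw : tw ∈ Icc 0 T := ⟨hw.nonneg, hw.le.trans hw.le_T⟩
  have hL0 : 0 < L := by linarith
  have hte0 : 0 ≤ te := hw.nonneg.trans hw.le
  have hγ0' : ∀ τ ∈ Ioc (0 : ℝ) te, γ₀ ≤ γ τ := fun τ hτ => hγ₀ τ (hτ.2.trans hw.le_T)
  have k1 : StmtDIR Φ f₀ (epar γ ρ L tw te) r PP (Direct658.cDIR Φ f₀ te r (te - tw))
      Direct658.v1 := Direct658.stmtDIR_of_kdata hD hl hL0 hw hr PP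
  have k2 : StmtXC6 Φ f₀ (epar γ ρ L tw te) (tw + h₀) PP :=
    XC815.stmtXC6 hD (Q := epar γ ρ L tw te) htw hIH.giv hM (by linarith [hw.nonneg])
      (by change tw + h₀ ≤ tw + hk; linarith) hγ hγp hγ0' hl.hi PP
  have k3 : StmtRF6 Φ f₀ (epar γ ρ L tw te) PP (RedFlux6.cPair (epar γ ρ L tw te) γ₀) :=
    RedFlux6.rf6 hΦ hf (Q := epar γ ρ L tw te) PP hγ hγ0'
  have k4 : StmtCC6 Φ f₀ (epar γ ρ L tw te) (tw + h₀) b (CaseC658.qK C lam) PP :=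
    CaseC658.stmtCC6_win hD hK hl hL0.le hw (by linarith) hIH.giv (tw + h₀) PP
  have k5 : RedFlux6.cPair (epar γ ρ L tw te) γ₀ ≠ ∞ := RedFlux6.cPair_ne_top hγp hl.hi
  have key := step6_of hΦ hf (Q := epar γ ρ L tw te) (T' := tw + h₀) (r := r) (PP := PP)
    (b₀ := b) (q := CaseC658.qK C lam) (bd := bd) hte0 hL0.le (CaseC658.qK_ne_top C lam) hPP
    hCsp k5 hIH.tn hred hpt hbdm hsp k1 k2 k3 k4
  refine Step6.mono key (add_le_add le_rfl ?_)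
  exact Direct658.cDIR_le (Φ := Φ) (f₀ := f₀) (te := te) (T := T) (r := r) (h := h)
    (h' := te - tw) hw.le_T hr.le (by linarith [hw.short]) hh.le

/-- **The one-step inequality in the windows**, for all kinetic constants. -/
theorem step6In (hD : KData Φ β T f₀ f) (hAB : NullABIn Φ f₀ f T) :
    InHL T fun h₀ γ ρ => ∀ kap lam C b₀ : ℝ, Seg814.KinC Φ T f h₀ kap lam C b₀ →
      ∃ σ : ℝ → ℝ≥0∞, Tendsto σ (𝓝[>] 0) (𝓝 0) ∧ ∀ r : ℝ, 0 < r →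
        ∃ o : ℝ → ℝ → ℝ≥0∞, Vanish o ∧ EvW T fun h L tw te => IH Φ f₀ f T γ ρ tw →
          ∀ PP : ℕ → PPar, PPOk (epar γ ρ L tw te) PP →
          ∀ bd : ℕ → ℝ → SF2, (∀ K ε, 0 < ε → MeasSF2 (bd K ε)) →
          StmtPt6 Φ (epar γ ρ L tw te) (tw + h₀) r (H5994.tOc Φ (epar γ ρ L tw te) (tw + h₀))
            (H5994.tYc Φ (epar γ ρ L tw te) (tw + h₀)) bd →
          Step6 Φ f₀ (epar γ ρ L tw te) (tw + h₀) r b₀ (CaseC658.qK C lam) PP bd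
            (σ r + o h L) Direct658.v1 := by
  refine (((H5Top814.stmtSP6In hD).and hAB).and (LNSkel291.redIn hD)).mono ?_
  rintro h₀ γ ρ h0 ⟨g1, r1, hl⟩ ⟨⟨⟨CY, hCY, hS⟩, hE⟩, hR⟩ kap lam C b₀ hK
  obtain ⟨kap', b', M, hkap', hb', hM⟩ := KinL1.exists_kinM hD.beta_pos hD.T_pos hD.adm hD.sol
    hD.gaussian hK
  refine ⟨fun r => (CY + Direct658.v1) * ENNReal.ofReal r, ?_, fun r hr => ?_⟩
  · have h1 : Tendsto (fun r : ℝ => ENNReal.ofReal r) (𝓝[>] 0) (𝓝 0) := by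
      have := (ENNReal.continuous_ofReal.tendsto 0).mono_left
        (nhdsWithin_le_nhds : (𝓝[>] (0 : ℝ)) ≤ 𝓝 0)
      rwa [ENNReal.ofReal_zero] at this
    have h2 := ENNReal.Tendsto.const_mul h1 (Or.inr
      (ENNReal.add_ne_top.2 ⟨hCY, Direct658.v1_ne_top⟩) : (0 : ℝ≥0∞) ≠ 0 ∨ CY + Direct658.v1 ≠ ∞)
    rwa [mul_zero] at h2
  obtain ⟨o, ho, hSo⟩ := hS r hr
  have hmean := (Crest.Agent.R122.Conc984.mean_en_ne_top
    (by linarith [hD.beta_pos] : 0 < 2 * β) hD.gaussian).1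
  refine ⟨fun h L => o h L + Direct658.oDIR Φ f₀ T r h, ho.add (Direct658.vanish_oDIR hmean T r),
    ?_⟩
  refine ((hSo.and hE).and (hR.and ((evW_le (half_pos h0)).and (evW_vanish ho)))).mono ?_
  rintro h L tw te hh hL hw ⟨⟨hs, he⟩, hr', hhh, hof⟩ hIH PP hPP bd hbdm hpt
  have hte : te ≤ tw + h₀ := by linarith [hw.short]
  have hsp := hs hIH (tw + h₀) hte PP (he hIH)
  refine Step6.mono (step6_win hD hK hM le_rfl hl hh hL hw hhh hIH (hr' hIH) hr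
    (ENNReal.add_ne_top.2 ⟨ENNReal.mul_ne_top hCY ENNReal.ofReal_ne_top, hof⟩) hPP hsp
    hbdm hpt) (le_of_eq ?_)
  ring

end Crest.Agent.R122.I3Step478

end
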