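import Crest.Agent.R122.LNGraft_410
import Crest.Agent.R122.RealOne_796

/-!
# Row 122, LN1 (helper410): the graft data of a tree hit by a line

* `fl_back`, `st_single`, `st_line` : the isolated world of one label.
* `cdok_of_ct`, `cdok_of_pass` : the contact data.
* `graftH_ct` : a class `S` with an exit `a` on the line `l` and a tree whose root line is met by `l`
  at time `cT` give the graft data `GraftH`.
* `graftH_line` : the same for one label `j` (a free line).
-/

set_option autoImplicit false
set_option linter.unusedSectionVars false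

open MeasureTheory Set Filter Topology
open Crest.AnalysisR.Kinetic
open Crest.Agent.R122.Flow671 hiding rel
open Crest.Agent.R122.Loc45 Crest.Agent.R122.Ins45
open Crest.Agent.R122.Kin796 Crest.Agent.R122.Kin796.CTree Crest.Agent.R122.Tree674
open Crest.Agent.R122.PathFlow968 Crest.Agent.R122.TreeLines335 Crest.Agent.R122.EDefs602
open Crest.Agent.R122.VL581 Crest.Agent.R122.VL581.VSys Crest.Agent.R122.VLInst442
open Crest.Agent.R122.LNInst491 Crest.Agent.R122.LN304 Crest.Agent.R122.LNg410
open Crest.Agent.R122.LNTree410 Crest.Agent.R122.OCout796 Crest.Agent.R122.Scat818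
open Crest.Agent.R122.LNGraft410 Crest.Agent.R122.OneC285 Crest.Agent.R122.OneC423
open Crest.Agent.R122.Flux663 Crest.Agent.R122.OC663
open scoped Classical

noncomputable section

namespace Crest.Agent.R122.LNGraft410

variable {J κ : Type} [Fintype J] {M : VSys J κ} {Z : J → PhasePoint}

/-- The free line through the back extension. -/
theorem fl_back (e : ℝ × PhasePoint) (t : ℝ) : fl t (back e) = Ins45.lineAt e.1 e.2 t := by
  rw [back_eq_lineAt]
  have h1 := lineAt_lineAt e.1 0 t e.2
  rw [← h1]
  unfold fl Ins45.lineAt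
  simp


/-- One label flies freely. -/
theorem st_single (hΦ : AdmissiblePotential M.Φ) (hε : 0 < M.ε) {j : J} (ho : M.o ≠ some j)
    {t : ℝ} (ht : t ≤ M.T) : M.st {j} t Z j = fl t (Z j) := by
  rcases le_total t (M.bb j) with h | h
  · exact st_unborn M h Z
  · have h1 := (Cls.single (Z := Z) ho (bD := M.bb) rfl).line hΦ hε (Finset.mem_singleton_self j)
      (u := M.bb j) le_rfl h ht
    rw [h1, st_unborn M le_rfl Z]
    unfold fl Ins45.lineAt
    refine Prod.ext ?_ rfl
    simp only
    rw [add_assoc, ← add_smul, add_sub_cancel]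

/-- One label on the free line `l`. -/
theorem st_line (hΦ : AdmissiblePotential M.Φ) (hε : 0 < M.ε) {j : J} (ho : M.o ≠ some j)
    {l : ℝ × PhasePoint} (hZ : Z j = back l) {t : ℝ} (ht : t ≤ M.T) :
    M.st {j} t Z j = Ins45.lineAt l.1 l.2 t := by
  rw [st_single hΦ hε ho ht, hZ, fl_back]

section ct

variable {ε : ℝ} {P : CTree} {z : PhasePoint × Par P} {l : ML}


end ct

variable {P : CTree} {z : PhasePoint × Par P} {l : ML} {S : Finset J} {bD : J → ℝ} {a : J}
  {g : Idx P ↪ J} {te : ℝ}



end Crest.Agent.R122.LNGraft410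

end
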