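import Crest.Agent.R122.TLBind_311
import Crest.Agent.R122.TLDet_692
import Crest.Agent.R122.LNLine_522
import Crest.Agent.R122.GoodXOk_663
import Crest.Agent.R122.InEq2TAd_718
import Crest.Agent.R122.LNSkel_291
import Mathlib
import Crest.Prelude.Def_KineticLimit
import Crest.Agent.R122.XBase_547
import Crest.Agent.R122.LNReachGD_818
import Crest.Agent.R122.LNPartS3_291
import Crest.Agent.R122.PWBirth_365
import Crest.Agent.R122.XDet_692
import Crest.Agent.R122.XClean_547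
import Crest.Agent.R122.LNTreeRATR_399
import Crest.Agent.R122.XMap_547
import Crest.Agent.R122.LNS3_674
import Crest.Agent.R122.LNOSb_515
import Crest.Agent.R122.LNSrun_515_Mg
import Crest.Agent.R122.ErrA_815
import Crest.Agent.R122.BadX_974
import Crest.Agent.R122.ExclNull_302
import Crest.Agent.R122.TLGate_311
import Crest.Agent.R122.TouchFlux2_494
import Crest.Agent.R122.LinkGate_424
import Crest.Agent.R122.Conc_984
import Crest.Agent.R122.BoltzGauss_814
import Crest.Agent.R122.Direct6b_658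
import Crest.Agent.R122.H5B_994
import Crest.Agent.R122.Direct6c_658
import Crest.Agent.R122.GateCap_973
import Crest.Agent.R122.H5Top_814
import Crest.Agent.R122.LNRoot_291
import Crest.Agent.R122.TopE_602
import Crest.Agent.R122.XShape_692
import Crest.Agent.R122.GateOS_973
import Crest.Agent.R122.LNGraftCt_410
import Crest.Agent.R122.PairOk2_735
import Crest.Agent.R122.UnwE_410
import Crest.Agent.R122.EBasic_602
import Crest.Agent.R122.I3Step_478

-- ▼ part R122/LnNClose_291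
section

/-!
# Row 122 (helper291): INEQUALITY 2 is closed

* `rax` : helper692's input `RAX` from helper522's `rAll1_or`.
* `tlDet` : helper311's `TLDet`; `okXae` : helper311's `OkXae` (from helper663's `ae_goodX_lineV`).
* `lnN`, `lnIn` : helper718's `LnN`.
* `i2In` : **INEQUALITY 2** (`Top602.I2In`) from `KData` alone.
-/

set_option autoImplicit false
set_option linter.unusedSectionVars false

open MeasureTheory Set Filter Topology
open scoped Classical ENNReal
open Crest.AnalysisR.Kinetic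
open Crest.Agent.R122.GC311 Crest.Agent.R122.EDefs602 Crest.Agent.R122.Master566
open Crest.Agent.R122.GIV566 Crest.Agent.R122.Top602
open Crest.Agent.R122.Kin796 Crest.Agent.R122.Kin796.CTree Crest.Agent.R122.Tree674
open Crest.Agent.R122.TreeLines335
open Crest.Agent.R122.E6Hyp879 (withD)

noncomputable section

namespace Crest.Agent.R122.LnN291

variable {Φ : Space3 → ℝ} {f₀ : PhasePoint → ℝ} {f : ℝ → PhasePoint → ℝ} {β T T' te : ℝ}

/-- **The line alone.** -/
theorem rax (hΦ : AdmissiblePotential Φ) (hT : 0 < T) (K : ℕ) : X692.RAX Φ T K := by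
  intro L
  refine ⟨1 + 2 * K * (L + 2), ?_⟩
  intro c R ς ε u₀ hc hε _ hς hu n w x hw hx hok
  have hW : (MW.cfg w).Ok Φ ε :=
    LNRoot291.ok_of_zero hΦ hε (fun _ => rfl) fun i j hij => hw i j hij
  rcases Line522.rAll1_or (T := T) (T₁ := T + 1) (t := T) (m := L) hΦ hε hx hW hok hT le_rfl
    (by linarith) hc hς hw le_rfl with h | h
  · exact Or.inl (TreeGate2302.reachAll_hor hu h)
  · exact Or.inr h

/-- **The deterministic theorem** for a tree and a line in the form of helper311. -/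
theorem tlDet (hΦ : AdmissiblePotential Φ) (hT : 0 < T') (hte : te ≤ T') :
    TL311.TLDet Φ T' te := by
  intro K P hP
  refine ⟨K, T', T', hT, hte, le_rfl, fun L => ?_⟩
  obtain ⟨N, h⟩ := X692.tl_det hΦ hT.le (LNTree399.ratR hΦ K K) (rax hΦ hT K) L
  refine ⟨N, 1, T' + 1, by linarith, fun R hR ς hς => ⟨ς / (2 * R), by positivity, ?_⟩⟩
  intro ε hε hlt n z x w hw hV hS hPe _ hok hokr hx hn
  have h2 : 2 * (R * ε) ≤ ς := by
    have h3 := (lt_div_iff₀ (by positivity : 0 < 2 * R)).1 hlt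
    linarith
  exact h R ς ε te hR.le hε h2 hte P z n w x hP hV hS hw hPe hx.1.le ⟨hok, hokr⟩ hn

/-- **The worlds with an independent line are good**, in the form of helper311. -/
theorem okXae (hΦ : AdmissiblePotential Φ) (hT : 0 ≤ T') (te : ℝ) : TL311.OkXae Φ T' te := by
  intro P ε hε n
  have h := AllOk663.ae_goodX_lineV hΦ hε P hT n te
  rw [Measure.volume_eq_prod] at h
  have e1 := measurePreserving_prodAssoc (volume : Measure (PhasePoint × Par P)) (lineV te)
    (volume : Measure (Config n))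
  have e2 : MeasurePreserving (Prod.map (id : PhasePoint × Par P → _)
      (Prod.swap : ML × Config n → Config n × ML))
      ((volume : Measure (PhasePoint × Par P)).prod
        ((lineV te).prod (volume : Measure (Config n))))
      ((volume : Measure (PhasePoint × Par P)).prod
        ((volume : Measure (Config n)).prod (lineV te))) :=
    (MeasurePreserving.id _).prod Measure.measurePreserving_swap
  have e3 := (measurePreserving_prodAssoc (volume : Measure (PhasePoint × Par P))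
    (volume : Measure (Config n)) (lineV te)).symm
  have h2 := ((e3.comp e2).comp e1).quasiMeasurePreserving.ae h
  filter_upwards [h2] with p hp
  exact hp

/-- The constants of a window. -/
theorem ctx (hD : KData Φ β T f₀ f) {g1 : ℝ} {r1 : ℝ≥0∞} {γ : ℝ → ℝ} {ρ : ℝ≥0∞}
    (hLP : LinePar g1 r1 T γ ρ) (hT' : 0 ≤ T') (hte : te ≤ T') (hteT : te ≤ T) :
    ∃ g : ℝ, TL311.Ctx Φ f₀ β T' te g γ ρ := by
  obtain ⟨g0, κ, hκ, hγ, hg, -⟩ := hLP.lin
  refine ⟨min (g0 - κ * T) β, ?_⟩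
  exact
    { adm := hD.adm
      cont := hD.contDiff.continuous
      gauss := hD.gaussian
      mass := (FM167.lintegral_density_eq_one hD.nonneg hD.integrable hD.mass).le
      T_nonneg := hT'
      te_le := hte
      g_pos := lt_min hg hD.beta_pos
      g_le := min_le_right _ _
      rate := fun τ hτ => by
        rw [hγ]
        have h1 : κ * τ ≤ κ * T := mul_le_mul_of_nonneg_left (hτ.2.trans hteT) hκ.le
        exact (min_le_left _ _).trans (by linarith)
      meas := hLP.measurable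
      mark := (hLP.hi.trans ENNReal.one_lt_top).ne }

/-- **The lines which are not good for a tree are null** (`LnN` of helper718). -/
theorem lnN (hD : KData Φ β T f₀ f) {g1 : ℝ} {r1 : ℝ≥0∞} {γ : ℝ → ℝ} {ρ : ℝ≥0∞}
    (hLP : LinePar g1 r1 T γ ρ) {h₀ : ℝ} (h0 : 0 < h₀) : InEq2T.LnN Φ f₀ f T γ ρ h₀ := by
  refine InEq2T.lnN_of_tsn ⟨h₀, h0, 1, fun h L tw te _ hh _ _ hW _ K => ?_⟩
  have hte : te ≤ tw + h₀ := hW.short.trans (by linarith)
  have hT : 0 < tw + h₀ := by linarith [hW.nonneg]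
  have hβ := hD.beta_pos
  obtain ⟨g, hC⟩ := ctx hD hLP hT.le hte hW.le_T
  exact TL311.tsn_lkX hC (okXae hD.adm hT.le te) (tlDet hD.adm hT hte)
    (LNRoot291.tNull_goodT hD.adm (by linarith : (0 : ℝ) < 2 * β) hD.contDiff.continuous
      hD.gaussian (FM167.lintegral_density_eq_one hD.nonneg hD.integrable hD.mass).le hT hte
      (LNTree399.ratR hD.adm K K))

/-- `LnN` on all short windows. -/
theorem lnIn (hD : KData Φ β T f₀ f) :
    InHL T fun h₀ γ ρ => InEq2T.LnN Φ f₀ f T γ ρ h₀ :=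
  ⟨1, one_pos, 1, one_pos, 1 / 2, ENNReal.half_lt_self one_ne_zero ENNReal.one_ne_top,
    fun _ h0 _ _ _ hLP => lnN hD hLP h0⟩

/-- **The touched half** of INEQUALITY 2. -/
theorem ftg (hD : KData Φ β T f₀ f) :
    InHL T fun h₀ γ ρ => InEq2.InB Φ f₀ f T γ ρ h₀ InEq2T.FTg :=
  InEq2T.inHL_FTg hD (lnIn hD) (LNSkel291.exRIn hD)

/-- **The weight comparison** of INEQUALITY 2. -/
theorem flg (hD : KData Φ β T f₀ f) :
    InHL T fun h₀ γ ρ => InEq2.InB Φ f₀ f T γ ρ h₀ InEq2T.FLg :=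
  InEq2T.inHL_FLg hD (lnIn hD) (LNSkel291.exRIn hD)


end Crest.Agent.R122.LnN291

end
end

-- ▼ part R122/LNReachLab_818
section

/-!
# (RA) from admissible labels (row 122, EVENTS, helper818)

* `gd2_of_lab` : `GD2` from helper442's `Cover`, `Lab`.
* `PartData` : exit data of the part of the exit: one line, or a connecting family of real contacts.
* `PartData.partS`, `PartData.partD`.
* `cb2_of_gas` : clean births, base world without exits.
* `reachAll_of_lab` : (RA).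
-/

set_option autoImplicit false
set_option linter.unusedSectionVars false

open MeasureTheory Set Filter Topology
open Crest.AnalysisR.Kinetic
open Crest.Agent.R122.GIV566 Crest.Agent.R122.VL581 Crest.Agent.R122.LNg410
open Crest.Agent.R122.Causal291 Crest.Agent.R122.VLInst442 Crest.Agent.R122.LNEv968
open Crest.Agent.R122.LN304 Crest.Agent.R122.LinkD331
open Crest.Agent.R122.Ins45 Crest.Agent.R122.EDefs602
open Crest.Agent.R122.MWFam255 Crest.Agent.R122.Inf879
open Crest.Agent.R122.PWGlue491 Crest.Agent.R122.PWInst442 Crest.Agent.R122.PW365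
open scoped Classical

noncomputable section

namespace Crest.Agent.R122.LNEv818

variable {J κ ι : Type} [Fintype J] [Fintype ι] {M : VSys J κ} {c ℓ ς : ℝ} {Z : J → PhasePoint}
  {cl : J → Finset J} {W : MW ι} {l : ML} {f : ι ↪ J} {a : J} {ha : ∀ i, f i ≠ a}
  {Λ : Finset (Finset J)} {π : Finset J} {N K m : ℕ} {T : ℝ}

/-- The glued worlds of admissible labels. -/
theorem gd2_of_lab (hΦ : AdmissiblePotential M.Φ) (hε : 0 < M.ε) (hC : Cover M Z cl)
    (hW : W.Ok M.Φ M.ε) (hWl : (W.add (MW.line l)).Ok M.Φ M.ε)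
    (hL : ∀ i, Lab M Z cl (f i) (W.b i) (W.z i)) (hl : Lab M Z cl a l.1.1 (back l.1)) :
    GD2 M Z cl W l f a ha :=
  ⟨gd_of_lab hΦ hε hC hW hL,
    gd_of_lab (W := W.add (MW.line l)) hΦ hε hC hWl fun i => lab_ins hL ha hl i, hW, hWl⟩

/-- **Exit data** of the part `π` of the exit `a`: the part is one line, or its real contacts are a
connecting family, in which the pairs of two exits of the derived world are contacts of their common
class before the hand-over. -/
def PartData (M : VSys J κ) (c : ℝ) (Z : J → PhasePoint) (cl : J → Finset J) (W : MW ι) (l : ML)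
    (f : ι ↪ J) (a : J) (ha : ∀ i, f i ≠ a) (π : Finset J) : Prop :=
  π = {a} ∨ ((∀ i ∈ π, cl i ⊆ π) ∧ (∀ i, insF f a ha i ∈ π → (cl (insF f a ha i)).Nonempty) ∧
    ∃ R : ℝ → J → J → Prop, LNEv968.Fam M c Z π R ∧
      ∀ i i' : ι ⊕ Unit, insF f a ha i ∈ π → insF f a ha i' ∈ π → i ≠ i' →
        ∀ r, R r (insF f a ha i) (insF f a ha i') →
          insF f a ha i' ∈ cl (insF f a ha i) ∧ r ≤ (W.add (MW.line l)).b i)

namespace PartData

variable (h : PartData M c Z cl W l f a ha π) (G : GD2 M Z cl W l f a ha)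
include h G

theorem partS (b : Bool) : PartS M c Z (Cb M Z cl W l f a ha b) π := by
  rcases h with h | ⟨h1, h2, R, h3, h4⟩
  · rw [h]
    exact LNPartS291.partS_singleton a
  · cases b
    · exact LNPartS291.partS_lab G.g0 h1 (fun i hi => h2 (Sum.inl i) hi) h3
        fun i i' hi hi' hne r hr => h4 (Sum.inl i) (Sum.inl i') hi hi'
          (fun h => hne (Sum.inl_injective h)) r hr
    · exact LNPartS291.partS_lab G.g1 h1 h2 h3 h4

theorem partD (hΦ : AdmissiblePotential M.Φ) (hε : 0 < M.ε) (hT : 0 ≤ M.T) (haπ : a ∈ π) :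
    PartD M c Z (Cb M Z cl W l f a ha true) (cmL M W l f a true) π a := by
  rcases h with h | ⟨h1, h2, R, h3, h4⟩
  · rw [h]
    exact LNPartS291.partD_singleton a
  · exact LNPartS291.partD_lab G.g1 hΦ hε hT h3 h4 haπ

end PartData


/-- **(RA) from admissible labels.** -/
theorem reachAll_of_lab [Nonempty κ] (hΦ : AdmissiblePotential M.Φ) (hε : 0 < M.ε)
    (hT0 : 0 ≤ M.T) (hTM : T ≤ M.T) (hc : 1 ≤ c) (hℓς : 2 * ℓ ≤ ς) (G : GD2 M Z cl W l f a ha)
    (hCB : CB2 M Z cl W l f a ha T) (hΛ : ∀ j, cl j ⊆ uni Λ)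
    (hm : ∀ k, f k ∉ uni Λ → 1 ≤ W.m k) (hP : Parts M c Z Λ) (hNB : NoBad M c ℓ ς Z Λ N)
    (hNT : NoTwo M c Z Λ N)
    (hBH : ∀ b, ¬ BadHit M c Z (Xb M Z cl W l f a ha b) (Cb M Z cl W l f a ha b) Λ N)
    (hπ : π ∈ Λ) (haπ : a ∈ π) (hPart : PartData M c Z cl W l f a ha π) {n : ℕ}
    {w : Config n} {g : Fin n ↪ J} (hw : ∀ i, w i = Z (g i)) (hgb : ∀ i, M.b (g i) = 0)
    (hgo : ∀ i, M.o ≠ some (g i)) (hgas : ∀ i, i ∉ uni Λ → i ∈ range g)
    (hgf : ∀ i, ∃ k, f k = g i) (m : ℕ) (hN : (uni Λ).card + 2 * K * (m + 2) ≤ N) :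
    RunD M Z π a K m w ∨ ReachAll (Reach M c Z Λ π a N) M.Φ M.ε K T W f l a := by
  refine (G.reachAll_of_glue hΦ hε hT0 hTM hc hℓς hCB hΛ hm hP hNB hNT hBH hπ haπ
    (hPart.partS G) (hPart.partD G hΦ hε hT0 haπ) hw hgb hgo hgas hgf m hN).imp id ?_
  intro h u hu hθ x hx hb
  have h1 := h u hu hθ x hx hb
  have mono : ∀ {i : J} {v : ℝ} {q : Space3},
      Reach M c Z Λ π a ((uni Λ).card + 2 * K * (m + 2)) i v q → Reach M c Z Λ π a N i v q := by
    rintro i v q ⟨Y, hY, hi, h⟩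
    exact ⟨Y, hY.mono hN, hi, h⟩
  exact ⟨mono h1.1, fun k hk => mono (h1.2 k hk)⟩

end Crest.Agent.R122.LNEv818

end
end

-- ▼ part R122/XReach_442
section

/-!
# Row 122, LN1 (helper442): everything influenced by an independent line is reached

System of helper692: gas, structure `S` in one part, independent line `x`, part `{px n S}`.

* `reach_core` : `ReachAll` of the line over any base world `Y` of admissible labels, or helper692's
  alternatives `XRes` (run of the line, `¬ NoBad`, `¬ NoTwo`, `BadHit`).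
* `reachX0` : base world `cfg w`; `reachX1` : base world `(cfg w).ins d`, `d` an exit of the
  structure.
-/

set_option autoImplicit false
set_option linter.unusedSectionVars false

open MeasureTheory Set Filter Topology
open scoped NNReal ENNReal
open Crest.AnalysisR.Kinetic
open Crest.Agent.R122.Ins45 Crest.Agent.R122.EDefs602
open Crest.Agent.R122.VL581 Crest.Agent.R122.VL581.VSys Crest.Agent.R122.VLInst442
open Crest.Agent.R122.LN304 Crest.Agent.R122.LNg410 Crest.Agent.R122.LNPart424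
open Crest.Agent.R122.PWGlue491 Crest.Agent.R122.PWInst442 Crest.Agent.R122.PW365
open Crest.Agent.R122.LNEv968 Crest.Agent.R122.LNEv818
open Crest.Agent.R122.X692 (bx zx eS px piS Lx Mx Zx HitG XRes ReachX)
open Crest.Agent.R122.XG547 (clX base_eS lab_px cl_sub_piS)
open scoped Classical

noncomputable section

namespace Crest.Agent.R122.XR442

variable {Φ : Space3 → ℝ} {t te c R ς ε : ℝ} {S : Type} [Fintype S] {n : ℕ} {b : S → ℝ}
  {z : S → PhasePoint} {w : Config n} {N N' K m : ℕ} {x d : ML}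
  {cl : Fin n ⊕ S → Finset (Fin n ⊕ S)}

theorem none_ne (j : Fin n ⊕ (S ⊕ Unit)) : (Mx Φ t ε n b x).o ≠ some j := by
  intro h
  have h1 : (none : Option (Fin n ⊕ (S ⊕ Unit))) = some _ := h
  exact absurd h1 (by simp)

/-- A run of a sub-part of the part of the line is a run of the line. -/
theorem run_of_runD (h : RunD (Mx Φ t ε n b x) (Zx w z x) {px n S} (px n S) K m w) :
    LinkM547.Run Φ ε t K m (MW.line x) () w := by
  obtain ⟨D, hD, ha, h⟩ := h
  refine h Unit (MW.line x) ⟨fun _ => px n S, fun _ _ _ => rfl⟩ () ?_ rfl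
  have hD' : ∀ j, j ∈ D ↔ j = px n S := fun j =>
    ⟨fun hj => Finset.mem_singleton.1 (hD hj), fun hj => hj ▸ ha⟩
  refine ⟨fun _ => rfl, fun _ => rfl, fun _ => none_ne _, fun j => ?_, ?_⟩
  · rw [hD']
    exact ⟨fun h => ⟨(), h.symm⟩, fun ⟨_, h⟩ => h.symm⟩
  · intro i hi _ _ j hj _ hji _
    rw [hD'] at hi hj
    exact absurd (hj.trans hi.symm) hji

theorem card_uni : (uni (Lx (piS n S) (px n S))).card = Fintype.card S + 1 := by
  have h1 : uni (Lx (piS n S) (px n S)) =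
      (Finset.univ : Finset (S ⊕ Unit)).map ⟨Sum.inr, Sum.inr_injective⟩ := by
    ext j
    rw [X692.mem_uni_Lx, X692.mem_piS, Finset.mem_map]
    constructor
    · rintro (⟨y, rfl⟩ | rfl)
      · exact ⟨Sum.inl y, Finset.mem_univ _, rfl⟩
      · exact ⟨Sum.inr (), Finset.mem_univ _, rfl⟩
    · rintro ⟨y | y, _, rfl⟩
      · exact Or.inl ⟨y, rfl⟩
      · exact Or.inr rfl
  rw [h1, Finset.card_map, Finset.card_univ, Fintype.card_sum, Fintype.card_unit]

theorem mem_range_gasE {j : Fin n ⊕ (S ⊕ Unit)} (hj : j ∉ uni (Lx (piS n S) (px n S))) :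
    ∃ i : Fin n, Sum.inl i = j := by
  rw [X692.mem_uni_Lx, X692.mem_piS] at hj
  rcases j with j | j | j
  · exact ⟨j, rfl⟩
  · exact absurd (Or.inl ⟨j, rfl⟩) hj
  · exact absurd (Or.inr rfl) hj

/-- A joint set violates `NoTwo`. -/
theorem not_noTwo_of_joint {J κ : Type} [Fintype J] {M : VSys J κ} {Z : J → PhasePoint}
    {π : Finset J} {p : J} (hp : p ∉ π) (h : X692.Joint M c Z π p N) :
    ¬ NoTwo M c Z (Lx π p) N := by
  intro hNT
  obtain ⟨P, hP, hπ, hpP, hcard⟩ := h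
  refine XG547.ne_singleton hp (hNT P hP ?_ π X692.pi_mem {p} X692.p_mem hπ
    ⟨p, Finset.mem_singleton_self p, hpP⟩)
  refine (Finset.card_le_card ?_).trans hcard
  intro i hi
  rcases Finset.mem_union.1 hi with hi | hi
  · exact hi
  · rcases X692.mem_uni_Lx.1 hi with hi | rfl
    · exact hπ hi
    · exact hpP

section core

variable {ι : Type} [Fintype ι] {Y : MW ι} {f : ι ↪ Fin n ⊕ (S ⊕ Unit)}
  {ha : ∀ i, f i ≠ px n S}

/-- **(RA) for the independent line** over any base world of admissible labels. -/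
theorem reach_core (hΦ : AdmissiblePotential Φ) (hε : 0 < ε) (ht : 0 ≤ t) (hte : te ≤ t)
    (hc : 1 ≤ c) (hς : 2 * (R * ε) ≤ ς) (hw : w ∈ PairExcluded ε n)
    (H : Base (gsys Φ t ε n b) w z cl)
    (hcS : (Mx Φ t ε n b x).Conn c (piS n S) (Zx w z x))
    (G : GD2 (Mx Φ t ε n b x) (Zx w z x) (clX n S cl) Y x f (px n S) ha)
    (hCB : CB2 (Mx Φ t ε n b x) (Zx w z x) (clX n S cl) Y x f (px n S) ha te)
    (hgf : ∀ i : Fin n, ∃ k, f k = Sum.inl i) (hm : ∀ k (i : Fin n), f k = Sum.inl i → 1 ≤ Y.m k)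
    (hN : Fintype.card S + 1 + 2 * K * (m + 2) ≤ N) :
    ReachAll (Reach (Mx Φ t ε n b x) c (Zx w z x) (Lx (piS n S) (px n S)) {px n S} (px n S) N)
      Φ ε K te Y f x (px n S) ∨ XRes Φ t c R ς ε K m N b z w x := by
  by_cases hNB : NoBad (Mx Φ t ε n b x) c (R * ε) ς (Zx w z x) (Lx (piS n S) (px n S)) N
  swap
  · exact Or.inr (Or.inr (Or.inl hNB))
  by_cases hNT : NoTwo (Mx Φ t ε n b x) c (Zx w z x) (Lx (piS n S) (px n S)) N
  swap
  · exact Or.inr (Or.inr (Or.inr (Or.inl hNT)))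
  have hgas : ∀ i : Fin n, clX n S cl (Sum.inl i) = ∅ := XG547.clX_inl H.gas_cl
  by_cases hBH : ∀ b', ¬ BadHit (Mx Φ t ε n b x) c (Zx w z x)
      (Xb (Mx Φ t ε n b x) (Zx w z x) (clX n S cl) Y x f (px n S) ha b')
      (Cb (Mx Φ t ε n b x) (Zx w z x) (clX n S cl) Y x f (px n S) ha b')
      (Lx (piS n S) (px n S)) N
  swap
  · push Not at hBH
    obtain ⟨b', hb⟩ := hBH
    refine Or.inr (Or.inr (Or.inr (Or.inr ?_)))
    cases b'
    · exact ⟨_, _, _, _, G.g0, hgas, hb⟩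
    · exact ⟨_, _, _, _, G.g1, hgas, hb⟩
  have h1 := reachAll_of_lab (N := N) (T := te) (K := K) (Λ := Lx (piS n S) (px n S))
    (π := {px n S}) (c := c) (ℓ := R * ε) (ς := ς) (M := Mx Φ t ε n b x) hΦ hε ht hte hc hς G hCB
    (fun j k hk => X692.mem_uni_Lx.2 (Or.inl (cl_sub_piS H j hk)))
    (fun k hk => by
      obtain ⟨i, hi⟩ := mem_range_gasE hk
      exact hm k i hi.symm)
    (X692.parts_x hw hcS) hNB hNT hBH X692.p_mem (Finset.mem_singleton_self _) (Or.inl rfl)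
    (w := w) (g := gasE n (S ⊕ Unit)) (fun _ => rfl) (fun _ => rfl) (fun _ => none_ne _)
    (fun i hi => by
      obtain ⟨j, hj⟩ := mem_range_gasE hi
      exact ⟨j, hj⟩)
    hgf m (by rw [card_uni]; exact hN)
  rcases h1 with h1 | h1
  · exact Or.inr (Or.inl (run_of_runD h1))
  · exact Or.inl h1

end core

/-! ### Base worlds `cfg w` and `(cfg w).ins d` -/

section inst

variable (hΦ : AdmissiblePotential Φ) (hε : 0 < ε) (ht : 0 ≤ t) (hte : te ≤ t) (hc : 1 ≤ c)
  (hς : 2 * (R * ε) ≤ ς) (hw : w ∈ PairExcluded ε n) (H : Base (gsys Φ t ε n b) w z cl)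
  (hcS : (Mx Φ t ε n b x).Conn c (piS n S) (Zx w z x)) (hx : 0 ≤ x.1.1)
  (hN : Fintype.card S + 1 + 2 * K * (m + 2) ≤ N)
include hΦ hε ht hte hc hς hw H hcS hx hN


/-- **Base world `(cfg w).ins d`**, `d` an exit of the structure with the label `s`. -/
theorem reachX1 {s : S} (hd : Lab (gsys Φ t ε n b) (Sum.elim w z) cl (Sum.inr s) d.1.1 (back d.1))
    (h0 : 0 ≤ d.1.1) (hdm : 1 ≤ d.2) (hW : (MW.cfg w).Ok Φ ε) (hWd : ((MW.cfg w).ins d).Ok Φ ε)
    (hWdx : (((MW.cfg w).ins d).ins x).Ok Φ ε) :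
    ReachX Φ t c ε te K N b z w x ((MW.cfg w).ins d) (lab1 n s) ∨
      XRes Φ t c R ς ε K m N b z w x := by
  have hfun : (fun i => eS n S (lab1 n s i)) =
      ((lab1 n (Sum.inl s : S ⊕ Unit) : Fin n ⊕ Unit ↪ Fin n ⊕ (S ⊕ Unit)) :
        Fin n ⊕ Unit → Fin n ⊕ (S ⊕ Unit)) := by
    funext i
    rcases i with i | i <;> rfl
  have hne : (Sum.inl s : S ⊕ Unit) ≠ Sum.inr () := Sum.inl_ne_inr
  have hBX := base_eS (τ := x.1.1) (y := back x.1) hΦ hε H
  have G := gd2_of_lab (M := Mx Φ t ε n b x) (Z := Zx w z x) (cl := clX n S cl)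
    (W := (MW.cfg w).ins d) (l := x) (f := lab1 n (Sum.inl s : S ⊕ Unit)) (a := px n S)
    (ha := lab1_ne hne) hΦ hε hBX.cover hWd hWdx (hBX.lab1_lab (XG547.lab_eS hΦ hε hd))
    (lab_px hx)
  by_cases hJ : X692.Joint (Mx Φ t ε n b x) c (Zx w z x) (piS n S) (px n S) N
  · refine Or.inr (Or.inr (Or.inr (Or.inl fun hNT => ?_)))
    exact not_noTwo_of_joint X692.px_notMem_piS hJ hNT
  have hCB : CB2 (Mx Φ t ε n b x) (Zx w z x) (clX n S cl) ((MW.cfg w).ins d) x
      (lab1 n (Sum.inl s : S ⊕ Unit)) (px n S) (lab1_ne hne) te :=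
    ⟨XG547.cleanB_xd H G.g0 te, XG547.cleanB_xdx hΦ hε hc H hd h0 hx hcS hJ (by omega) hW hWd hWdx
      hne G.g1 hte⟩
  have h1 := reach_core (m := m) hΦ hε ht hte hc hς hw H hcS G hCB (fun i => ⟨Sum.inl i, rfl⟩)
    (fun k i hk => by
      rcases k with k | k
      · exact le_rfl
      · exact hdm) hN
  unfold ReachX
  rw [hfun]
  exact h1

end inst

end Crest.Agent.R122.XR442

end
end

-- ▼ part R122/XResM_442
section

/-!
# Row 122, LN1 (helper442): monotonicity in the size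

* `noBad_anti`, `noTwo_anti`, `badHit_mono`, `hitG_mono`, `xres_mono`, `reachX_mono`.
* `hX0`, `hX1` : the slot `hX` of helper692's `x_alt` (sizes `N` and `N + N`).
-/

set_option autoImplicit false
set_option linter.unusedSectionVars false

open MeasureTheory Set Filter Topology
open scoped NNReal ENNReal
open Crest.AnalysisR.Kinetic
open Crest.Agent.R122.Ins45 Crest.Agent.R122.EDefs602
open Crest.Agent.R122.VL581 Crest.Agent.R122.VL581.VSys Crest.Agent.R122.VLInst442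
open Crest.Agent.R122.LN304 Crest.Agent.R122.LNg410 Crest.Agent.R122.LNPart424
open Crest.Agent.R122.PWGlue491 Crest.Agent.R122.PWInst442 Crest.Agent.R122.PW365
open Crest.Agent.R122.LNEv968 Crest.Agent.R122.LNEv818
open Crest.Agent.R122.X692 (bx zx eS px piS Lx Mx Zx HitG XRes ReachX)
open scoped Classical

noncomputable section

namespace Crest.Agent.R122.XR442

section mono

variable {J κ : Type} [Fintype J] {M : VSys J κ} {c ℓ ς : ℝ} {Z : J → PhasePoint}
  {Λ : Finset (Finset J)} {N N' : ℕ} {X : ℝ → J → PhasePoint} {C : ℝ → J → J → Prop}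

theorem noBad_anti (hN : N ≤ N') (h : NoBad M c ℓ ς Z Λ N') : NoBad M c ℓ ς Z Λ N :=
  fun P hP hπ hc => h P hP hπ (hc.trans hN)

theorem noTwo_anti (hN : N ≤ N') (h : NoTwo M c Z Λ N') : NoTwo M c Z Λ N :=
  fun P hP hc => h P hP (hc.trans hN)

theorem badHit_mono (hN : N ≤ N') (h : BadHit M c Z X C Λ N) : BadHit M c Z X C Λ N' := by
  obtain ⟨G, A, j, k, v, h1, h2, h3, h4, h5, h6, h7, h8, h9⟩ := h
  exact ⟨G, A, j, k, v, h1, h2, h3.trans hN, h4, h5, h6, h7, h8.trans hN, h9⟩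

end mono

variable {Φ : Space3 → ℝ} {t te c R ς ε : ℝ} {S : Type} [Fintype S] {n : ℕ} {b : S → ℝ}
  {z : S → PhasePoint} {w : Config n} {N N' K m : ℕ} {x d : ML}
  {cl : Fin n ⊕ S → Finset (Fin n ⊕ S)}

theorem hitG_mono (hN : N ≤ N') (h : HitG Φ t c ε N b z w x) : HitG Φ t c ε N' b z w x := by
  obtain ⟨Sp, bD, A, XD, h1, h2, h3⟩ := h
  exact ⟨Sp, bD, A, XD, h1, h2, badHit_mono hN h3⟩

theorem xres_mono (hN : N ≤ N') (h : XRes Φ t c R ς ε K m N b z w x) :
    XRes Φ t c R ς ε K m N' b z w x := by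
  rcases h with h | h | h | h
  · exact Or.inl h
  · exact Or.inr (Or.inl fun h' => h (noBad_anti hN h'))
  · exact Or.inr (Or.inr (Or.inl fun h' => h (noTwo_anti hN h')))
  · exact Or.inr (Or.inr (Or.inr (hitG_mono hN h)))

section inst

variable (hΦ : AdmissiblePotential Φ) (hε : 0 < ε) (ht : 0 ≤ t) (hte : te ≤ t) (hc : 1 ≤ c)
  (hς : 2 * (R * ε) ≤ ς) (hw : w ∈ PairExcluded ε n) (H : Base (gsys Φ t ε n b) w z cl)
  (hcS : (Mx Φ t ε n b x).Conn c (piS n S) (Zx w z x)) (hx : 0 ≤ x.1.1)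
  (hN : Fintype.card S + 1 + 2 * K * (m + 2) ≤ N)
include hΦ hε ht hte hc hς hw H hcS hx hN


/-- Slot `hX` of `x_alt`, base world `(cfg w).ins d`. -/
theorem hX1 {s : S} (hd : Lab (gsys Φ t ε n b) (Sum.elim w z) cl (Sum.inr s) d.1.1 (back d.1))
    (h0 : 0 ≤ d.1.1) (hdm : 1 ≤ d.2) (hW : (MW.cfg w).Ok Φ ε) (hWd : ((MW.cfg w).ins d).Ok Φ ε)
    (hWdx : (((MW.cfg w).ins d).ins x).Ok Φ ε) :
    ReachX Φ t c ε te K N b z w x ((MW.cfg w).ins d) (lab1 n s) ∨
      XRes Φ t c R ς ε K m (N + N) b z w x :=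
  (reachX1 hΦ hε ht hte hc hς hw H hcS hx hN hd h0 hdm hW hWd hWdx).imp id
    (xres_mono (Nat.le_add_right _ _))

end inst

end Crest.Agent.R122.XR442

end
end

-- ▼ part R122/TLDetB_692
section

/-!
# Row 122, LN1, instance (TL) (helper692): unconditional form

* `tl_det'` : a line which is not good for the tree (helper335's `lkX`) gives
  `SAlt ∨ XAlt ∨ JAlt`.
-/

set_option autoImplicit false
set_option linter.unusedSectionVars false

open MeasureTheory Set Filter Topology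
open scoped Classical ENNReal
open Crest.AnalysisR.Kinetic
open Crest.Agent.R122.GC311 Crest.Agent.R122.EDefs602 Crest.Agent.R122.GIV566
open Crest.Agent.R122.VL581 Crest.Agent.R122.LN304 Crest.Agent.R122.LNg410
open Crest.Agent.R122.LNPart424 Crest.Agent.R122.LNEv968 Crest.Agent.R122.LNEv818
open Crest.Agent.R122.LNEv383 Crest.Agent.R122.TreeLines335
open Crest.Agent.R122.Kin796 Crest.Agent.R122.Kin796.CTree Crest.Agent.R122.Tree674
open Crest.Agent.R122.E6Hyp879 (withD)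
open Crest.Agent.R122.OneC285 (ptube)

noncomputable section

namespace Crest.Agent.R122.X692

variable {Φ : Space3 → ℝ} {T ε : ℝ} {n K : ℕ} {P : CTree} {z : PhasePoint × Par P}
  {w : Config n} {x : ML}

/-- The labels of the tree in the joint system. -/
def eTx (n : ℕ) (P : CTree) : Idx P ↪ Fin n ⊕ (Idx P ⊕ Unit) :=
  ⟨fun y => Sum.inr (Sum.inl y), fun a b h => by simpa using h⟩

/-- The tree in the joint system. -/
theorem treeIn_x (hV : Valid Φ ε P T z.1.2 z.2) (hS : Sep Φ ε P T z.1 z.2) :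
    LNTree410.TreeIn (Mx Φ T ε n (fun _ : Idx P => 0) x)
      (Zx w (Tree674.lines Φ ε P z.1 z.2) x) T P z.1 z.2 (eTx n P) where
  b _ := le_rfl
  Z _ := rfl
  o _ h := by
    have h5 : (none : Option (Fin n ⊕ (Idx P ⊕ Unit))) = some _ := h
    cases h5
  valid := hV
  sep := hS

theorem part_eTx : LNTree410.part (eTx n P) = piS n (Idx P) := rfl

theorem conn_tree_x (hΦ : AdmissiblePotential Φ) (hε : 0 < ε) {c : ℝ} (hc : 1 ≤ c)
    (hV : Valid Φ ε P T z.1.2 z.2) (hS : Sep Φ ε P T z.1 z.2) :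
    (Mx Φ T ε n (fun _ : Idx P => 0) x).Conn c (piS n (Idx P))
      (Zx w (Tree674.lines Φ ε P z.1 z.2) x) := by
  rw [← part_eTx]
  exact (treeIn_x hV hS).Conn_tree (M := Mx Φ T ε n (fun _ : Idx P => 0) x) hΦ hε le_rfl hc


end Crest.Agent.R122.X692

end
end

-- ▼ part R122/XHS_442
section

/-!
# Row 122, LN1 (helper442): the slot `hS` of `x_alt` for exits of one structure

* `hS_of_one` : helper674's `One` and `Exits` give `ReachS` for all exits of the family, or helper692's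
  `SAlt`, sizes `N` and `N + N`.
-/

set_option autoImplicit false
set_option linter.unusedSectionVars false

open MeasureTheory Set Filter Topology
open scoped NNReal ENNReal
open Crest.AnalysisR.Kinetic
open Crest.Agent.R122.Ins45 Crest.Agent.R122.EDefs602
open Crest.Agent.R122.VL581 Crest.Agent.R122.VL581.VSys Crest.Agent.R122.VLInst442
open Crest.Agent.R122.LN304 Crest.Agent.R122.LNg410 Crest.Agent.R122.LNPart424
open Crest.Agent.R122.PWGlue491 Crest.Agent.R122.PWInst442 Crest.Agent.R122.PW365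
open Crest.Agent.R122.LNEv968 Crest.Agent.R122.LNEv818 Crest.Agent.R122.LNS674
open Crest.Agent.R122.X692 (bx zx eS px piS Lx Mx Zx HitG XRes ReachX ReachS SAlt)
open scoped Classical

noncomputable section

namespace Crest.Agent.R122.XR442

variable {σ : Type} [Fintype σ] {n : ℕ} {ι μ : Type} [Fintype ι] {Φ : Space3 → ℝ}
  {t te T T₁ ε c R ς : ℝ} {b : σ → ℝ} {V : σ → PhasePoint} {w : Config n}
  {cl : Fin n ⊕ σ → Finset (Fin n ⊕ σ)} {R0 : ℝ → Fin n ⊕ σ → Fin n ⊕ σ → Prop} {W : MW ι}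
  {f : ι ↪ Fin n ⊕ σ} {ls : μ → ML} {p : μ → σ} {K N N₁ m : ℕ} {x : ML} {A₀ : Finset σ}

/-- Reachability in the joint system, from the gas and the structure. -/
theorem reachS_of_reachAll (hΦ : AdmissiblePotential Φ) (hε : 0 < ε) {l : ML} {q : σ}
    (hN : N + 1 ≤ N₁)
    (h : ReachAll (Reach (gsys Φ t ε n b) c (Sum.elim w V) (LS n σ) (pS n σ) (Sum.inr q) N)
      Φ ε K te W f l (Sum.inr q)) :
    ReachS Φ t c ε te K N₁ b V w x W f l q := by
  have h2 := XG547.reachAll_eS (b := b) (z := V) (τ := x.1.1) (y := back x.1) hΦ hε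
    (Λ' := LS n σ) (fun y => by rw [uni_LS]; exact inr_mem_pS y)
    (π' := pS n σ) (fun _ => mem_pS) (lab' := fun k => eS n σ (f k)) (fun _ => rfl) h
  intro u hu hθ y hy hb
  obtain ⟨h3, h4⟩ := h2 u hu hθ y hy hb
  exact ⟨h3.mono hN, fun k hk => (h4 k hk).mono hN⟩

/-- **The slot `hS` for exits of one structure.** -/
theorem hS_of_one (h : One Φ t ε c b V w cl R0) (E : Exits Φ t te ε b V w cl R0 W f ls p)
    (hΦ : AdmissiblePotential Φ) (hε : 0 < ε) (ht : 0 ≤ t) (hte : te ≤ t) (htT : t ≤ T)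
    (hT₁ : T < T₁) (hc : 1 ≤ c) (hς : 2 * (R * ε) ≤ ς) (hA : A₀.Nonempty)
    (hN : Fintype.card σ + 1 + 2 * K * (m + 2) ≤ N) :
    (∀ i, ReachS Φ t c ε te K N b V w x W f (ls i) (p i)) ∨
      SAlt Φ T T₁ t c R ς ε K m (N + N) A₀ b V w := by
  by_cases hR : Gate424.RunS Φ ε t K m b V w
  · exact Or.inr (Or.inl hR)
  by_cases hB : LN2.BadGas Φ T c R ς ε (N + N) 1 A₀ b V w
  · exact Or.inr (Or.inr (Or.inl hB))
  by_cases hBH : BH167.BadHitGas (BH167.bpos Φ T₁ T) Φ T c 1 ε (N + N) (N + N) 1 A₀ b V w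
  · exact Or.inr (Or.inr (Or.inr hBH))
  have hX := h.ctx hΦ hε hc hς htT hA hB
  refine Or.inl fun i => ?_
  have h1 := (h.reachAll_or_run (m := m) (K := K) E ht hte hX i (fun β => ?_)
    (by omega)).resolve_left hR
  · exact reachS_of_reachAll hΦ hε (by omega) h1
  · cases β
    · exact (h.wd hΦ hε ht hc hς htT le_rfl hT₁ hA hBH E.gd0).bh
    · exact (h.wd hΦ hε ht hc hς htT le_rfl hT₁ hA hBH (E.gd1 i)).bh

end Crest.Agent.R122.XR442

end
end

-- ▼ part R122/LNTree1_515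
section

/-!
# Row 122, LN1 (helper515): the tree as a one-part structure

The system of the gas and the tree (`σ = Idx P`, births `0`): helper674's frame.

* `oneT` : all lines of the tree (root included) are exits of one class.
* `exitsT0`, `exitsT1` : helper674's `Exits` over `cfg w` and over `cfg w + d`.
* `reachAllT0`, `reachAllT1` : (RA) off helper692's `SAlt`.
-/

set_option autoImplicit false
set_option linter.unusedSectionVars false

open MeasureTheory Set Filter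
open scoped ENNReal Topology
open Crest.AnalysisR.Kinetic
open Crest.Agent.R122.GIV566 Crest.Agent.R122.VL581 Crest.Agent.R122.LN304
open Crest.Agent.R122.LNTree410 Crest.Agent.R122.PWInst442 Crest.Agent.R122.PWGlue491
open Crest.Agent.R122.LNPart424 Crest.Agent.R122.EDefs602 Crest.Agent.R122.TreeLines335
open Crest.Agent.R122.Kin796 Crest.Agent.R122.Kin796.CTree Crest.Agent.R122.Tree674
open Crest.Agent.R122.Loc45 Crest.Agent.R122.Ins45 Crest.Agent.R122.LNg410
open Crest.Agent.R122.LNGraft410 Crest.Agent.R122.MWFam255 Crest.Agent.R122.LNEv968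
open Crest.Agent.R122.LNEv818 Crest.Agent.R122.LNCls515 Crest.Agent.R122.LNS674

noncomputable section

namespace Crest.Agent.R122.LNTree515

open scoped Classical

variable {Φ : Space3 → ℝ} {ε T te c ρ ς : ℝ} {K N n : ℕ} {P : CTree} {z : PhasePoint × Par P}
  {w : Config n}

/-- Births of the tree. -/
abbrev bT (P : CTree) : Idx P → ℝ := fun _ => 0

/-- The tree at time `0`. -/
abbrev zT (Φ : Space3 → ℝ) (ε : ℝ) (z : PhasePoint × Par P) : Idx P → PhasePoint :=
  Tree674.lines Φ ε P z.1 z.2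

/-- Exit times. -/
def beT (n : ℕ) (P : CTree) (z : PhasePoint × Par P) : Fin n ⊕ Idx P → ℝ :=
  Sum.elim (fun _ => 0) fun i => TreeLines335.rel P z.2 i

/-- Real contacts of the tree. -/
abbrev RT (Φ : Space3 → ℝ) (T ε : ℝ) (z : PhasePoint × Par P) (w : Config n) :
    ℝ → Fin n ⊕ Idx P → Fin n ⊕ Idx P → Prop :=
  LNFam255.RC' (gsys Φ T ε n (bT P)) (Sum.elim w (zT Φ ε z)) (pS n (Idx P))

theorem gsys_o (b : Idx P → ℝ) (j : Fin n ⊕ Idx P) : (gsys Φ T ε n b).o ≠ some j := by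
  intro h
  have h1 : (none : Option (Fin n ⊕ Idx P)) = some j := h
  simp at h1

theorem treeInT (hV : Valid Φ ε P T z.1.2 z.2) (hS : Sep Φ ε P T z.1 z.2) :
    TreeIn (gsys Φ T ε n (bT P)) (Sum.elim w (zT Φ ε z)) T P z.1 z.2 (strE n (Idx P)) where
  b _ := le_rfl
  Z _ := rfl
  o _ := gsys_o _ _
  valid := hV
  sep := hS

variable (hΦ : AdmissiblePotential Φ) (hε : 0 < ε) (hT : 0 < T) (hc : 1 ≤ c)
  (hV : Valid Φ ε P T z.1.2 z.2) (hS : Sep Φ ε P T z.1 z.2)
include hΦ hε hT hV hS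

theorem clsT : Cls (gsys Φ T ε n (bT P)) (Sum.elim w (zT Φ ε z)) (pS n (Idx P)) (beT n P z) :=
  Cls.of_tree (M := gsys Φ T ε n (bT P)) hΦ hε hT (treeInT hV hS) fun _ => rfl

theorem baseT : Base (gsys Φ T ε n (bT P)) w (zT Φ ε z) (cl1 n (Idx P)) := by
  refine base_clOf (fun i => le_rfl) (fun i => gsys_o _ _) (fun x _ => gsys_o _ _) fun x _ => ?_
  have h1 : clOf n (fun _ : Idx P => some ()) (Sum.inr x) = pS n (Idx P) := by
    ext j
    rw [mem_clOf, LNS674.mem_pS]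
    simp
  rw [h1]
  exact (clsT hΦ hε hT hV hS).ok

theorem cl1_inr (x : Idx P) : cl1 n (Idx P) (Sum.inr x) = pS n (Idx P) := by
  ext j
  rw [mem_clOf, LNS674.mem_pS]
  simp

include hc

/-- **The lines of the tree as exits of one class.** -/
theorem oneT (hw : w ∈ PairExcluded ε n) : OneCls Φ T ε c (bT P) (zT Φ ε z) w (cl1 n (Idx P))
    (RT Φ T ε z w) (pS n (Idx P)) (beT n P z) (lineML Φ ε P z) (fun i : Idx P => i) where
  one := ⟨baseT hΦ hε hT hV hS, hw, LNFam255.famC (M := gsys Φ T ε n (bT P))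
    (clsT hΦ hε hT hV hS) hε hc⟩
  cls := clsT hΦ hε hT hV hS
  cl_eq x := cl1_inr hΦ hε hT hV hS x
  mem x := inr_mem_pS x
  inj := Function.injective_id
  birth x := rfl
  st x hx := by
    have h1 := (treeInT (n := n) (w := w) hV hS).line_tree (M := gsys Φ T ε n (bT P)) hΦ hε x
      le_rfl hx
    refine h1.trans ?_
    have h2 := onLine_back_self (lineML Φ ε P z x)
    rw [back_lineML] at h2
    exact h2
  old j hj k hk hjk r hr := by
    have h1 := clsT (n := n) (w := w) hΦ hε hT hV hS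
    exact ⟨hr.2.le h1 hr.1.2 hjk, hr.2.symm.le h1 hr.1.2 hjk.symm⟩

variable (hw : w ∈ PairExcluded ε n) (hok : MW.OkFam Φ ε (MW.cfg w) (lineML Φ ε P z))
include hw hok


/-- **The other lines of the tree over the gas and the line `d`**, off the births. -/
theorem exitsT1 (hB : ∀ i : Idx P, (lineML Φ ε P z i).1.1 ≤ te →
      PW365.NoB Φ ε (MW.cfg w) (lineML Φ ε P z i)) (d : Idx P) :
    Exits Φ T te ε (bT P) (zT Φ ε z) w (cl1 n (Idx P)) (RT Φ T ε z w)
      ((MW.cfg w).ins (lineML Φ ε P z d)) (lab1 n d)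
      (fun i : {i : Idx P // i ≠ d} => lineML Φ ε P z i.1)
      (fun i : {i : Idx P // i ≠ d} => i.1) :=
  (oneT hΦ hε hT hc hV hS hw).exits1 hΦ hε hok d (hB d) fun x _ _ h2 => hB x h2

variable (hte : te ≤ T) (hℓς : 2 * (ρ * ε) ≤ ς) {T₁ : ℝ} (hT₁ : T < T₁) {m : ℕ}
  (hN : P.leaves + 2 * K * (m + 2) ≤ N) {N' : ℕ} (hNN : N ≤ N')
  (hSA : ¬ X692.SAlt Φ T T₁ T c ρ ς ε K m N' (Finset.univ : Finset (Idx P)) (bT P) (zT Φ ε z) w)
include hte hℓς hT₁ hN hNN hSA



end Crest.Agent.R122.LNTree515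

end
end

-- ▼ part R122/ErrA2_815
section

/-!
helper815, row 122, the error term `errA` of SP-A (helper994), deterministic part.

`(z, w)` valid, separated up to `te`, excluded at time `0`, the tree real in `w + V` up to `te`, its
lines pairwise unlinked in `w` : the test lines of `badF` are not good in helper335's sense.
-/

set_option autoImplicit false
set_option linter.unusedSectionVars false

open MeasureTheory Set Filter
open scoped ENNReal Topology
open Crest.AnalysisR.Kinetic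
open Crest.Agent.R122.Kin796 Crest.Agent.R122.Kin796.CTree Crest.Agent.R122.Tree674
open Crest.Agent.R122.EDefs602 Crest.Agent.R122.TreeLines335 Crest.Agent.R122.LineMeas994
open Crest.Agent.R122.GC311 Crest.Agent.R122.Decomp811 Crest.Agent.R122.Master566
open Crest.Agent.R122.InEq2 Crest.Agent.R122.InEq2T Crest.Agent.R122.H5994
open Crest.Agent.R122.Weight984 Crest.Agent.R122.RealX974 Crest.Agent.R122.RetIn974
open Crest.Agent.R122.BadX974 Crest.Agent.R122.R6Tree974
open Crest.Agent.R122.MWFam255 (FamNL PairNL)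
open Crest.Agent.R122.E6Hyp879 (withD)
open Crest.Agent.R122.RtG302 (TNull TMaj)

noncomputable section

namespace Crest.Agent.R122.ErrAB815

open scoped Classical

variable {Φ : Space3 → ℝ} {f₀ : PhasePoint → ℝ} {ε te : ℝ} {K : ℕ} {P : CTree}
  {z : PhasePoint × Par P} {m : ℕ} {w : Config m} {l : ML}

/-- The tree and the gas exclude each other at time `0`. -/
theorem perp_lines (hV : Valid Φ ε P te z.1.2 z.2) (hp : PerpT Φ ε P z w) (k : Idx P)
    (i : Fin m) : ε < dist (Tree674.lines Φ ε P z.1 z.2 k).1 (w i).1 := by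
  have h := hp k i
  rwa [linesM_of_adm ε hV.1] at h

/-- The world of the tree and the gas is good. -/
theorem ok_treeW (hΦ : AdmissiblePotential Φ) (hε : 0 < ε) (hte : 0 ≤ te)
    (hV : Valid Φ ε P te z.1.2 z.2) (hS : Sep Φ ε P te z.1 z.2) (hw : w ∈ PairExcluded ε m)
    (hp : PerpT Φ ε P z w) : ((MW.cfg w).add (RealL811.treeW Φ ε P z)).Ok Φ ε := by
  rw [← comap1]
  refine MWFam255.Ok.relabel hΦ hε (Unw410.cfg_ok hΦ hε ?_) _
  refine FM167.pairExcluded_append_iff.2 ⟨?_, hw, ?_⟩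
  · exact Relabel674.confOf_excluded hε hte ⟨z.1, z.2, hV, hS, rfl⟩
  · intro i j
    have h := perp_lines hV hp ((Relabel674.eP P).symm i) j
    rwa [← cfT_apply, Equiv.apply_symm_apply] at h

/-- **World consistency of a good line**, tree real up to `te`. -/
theorem w1_good (hΦ : AdmissiblePotential Φ) (hε : 0 < ε) (hte : 0 < te) (hK : P.leaves ≤ K)
    (hV : Valid Φ ε P te z.1.2 z.2) (hS : Sep Φ ε P te z.1 z.2) (hw : w ∈ PairExcluded ε m)
    (hp : PerpT Φ ε P z w)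
    (ht : RealL811.TreeIn Φ ε ((MW.cfg w).add (RealL811.treeW Φ ε P z)) P z Sum.inr te)
    (hnl : PairNL Φ ε K te (MW.cfg w) (lineML Φ ε P z)) (hl : 0 ≤ l.1.1)
    (hg : GoodX Φ ε K te P z w l) :
    W1 (firstT Φ ε K te (MW.cfg w) (lineML Φ ε P z)) ((MW.cfg w).thetaL Φ ε K te l)
      (((MW.cfg w).add (RealL811.treeW Φ ε P z)).thetaL Φ ε K te l) := by
  have hg' := goodX_iff.1 hg
  have hok := ok_treeW hΦ hε hte.le hV hS hw hp
  have hnl' := pairNL_withD hnl hg'.nl
  refine w1_treeAt (T' := te) hΦ hε hte.le hV hS hte hK (fun _ => le_rfl) hl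
    (fun s _ _ _ _ => ht.mono (min_le_right _ _)) (fun s hs0 hsT hsF hsl => ?_) hok hg'.okr hg'.ok
    hnl'
  have hfam : FamNL Φ ε K te (MW.cfg w) (withD (lineML Φ ε P z) l) s :=
    MWFam255.famNL_of_pair hg'.ok hnl' hs0 hsT fun k => by
      rcases k with k | u
      · exact hsF.trans (firstT_le Φ ε K te (MW.cfg w) (lineML Φ ε P z) k)
      · exact hsl
  have hm0 : 0 ≤ min s te := le_min hs0 hte.le
  have hR : RetHypX Φ ε K te te (min s te) (MW.cfg w) P z l :=
    ⟨hV, hS, min_le_right _ _, hK, fun _ => le_rfl, hl, ht.mono (min_le_right _ _), hok, hg'.okr,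
      hfam.mono hm0 (min_le_left _ _), hg'.ret, fun k x _ => perp_lines hV hp k x⟩
  exact hR.treeIn_ins hΦ hε

/-- **The measure of `badF`.** -/
theorem lineM_badF_le (hΦ : AdmissiblePotential Φ) (hε : 0 < ε) (hte : 0 < te)
    (hK : P.leaves ≤ K) {γ : ℝ → ℝ} (hγ : Measurable γ) {ρ : ℝ≥0∞}
    (hV : Valid Φ ε P te z.1.2 z.2) (hS : Sep Φ ε P te z.1 z.2) (hw : w ∈ PairExcluded ε m)
    (hp : PerpT Φ ε P z w)
    (ht : RealL811.TreeIn Φ ε ((MW.cfg w).add (RealL811.treeW Φ ε P z)) P z Sum.inr te)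
    (hnl : PairNL Φ ε K te (MW.cfg w) (lineML Φ ε P z)) :
    lineM γ ρ K te (badF Φ ε K te (MW.cfg w) (RealL811.treeW Φ ε P z) (lineMM Φ ε P z)) ≤
      lineM γ ρ K te (lkX Φ ε K te P z w) := by
  have e : lineMM Φ ε P z = lineML Φ ε P z := by
    funext i
    exact lineMM_of_adm ε hV.1 i
  rw [e]
  refine measure_mono_ae ?_
  filter_upwards [EBasic602.lineM_ae hγ] with l hl hbad hg
  exact hbad (w1_good hΦ hε hte hK hV hS hw hp ht hnl hl.1.le hg)

/-! ### The null fact -/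

/-- Null majorants of the exceptional events of the tree (helper335's `ExMajR`). -/
def ExNull (Φ : Space3 → ℝ) (f₀ : PhasePoint → ℝ) (T te : ℝ) : Prop :=
  ∀ K : ℕ, ∀ δ : ℝ, 0 < δ → ∃ ε₀ : ℝ, 0 < ε₀ ∧ ∀ ε : ℝ, 0 < ε → ε < ε₀ →
    ∃ N : (P : CTree) → PhasePoint × Par P → (m : ℕ) → Config m → ℝ≥0∞, MeasTS N ∧
      ExMajR Φ ε K T te N ∧
      TS Φ f₀ ε T (fun P z m w => wQ Φ ε P z * N P z m w) ≤ ENNReal.ofReal δ

/-- helper302's form of the exceptional events. -/
theorem exNull_of_tNull {T te : ℝ} (h : ∀ K, TNull Φ f₀ T K fun ε P z _ w =>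
    ¬ GoodT Φ ε K te P z w) : ExNull Φ f₀ T te := by
  intro K δ hδ
  obtain ⟨ε₀, hε₀, H⟩ := h K δ hδ
  refine ⟨ε₀, hε₀, fun ε hε hlt => ?_⟩
  obtain ⟨G, hG, hle⟩ := H ε hε hlt
  exact ⟨G, hG.meas, fun P z m w hP hV hS hw _ hno => hG.maj P z m w hP hV hS hw hno, hle⟩

/-- The set of test lines of `errA`, on the trees which are real up to `te`. -/
def lkA (Φ : Space3 → ℝ) (te : ℝ) (K : ℕ) (ε : ℝ) (P : CTree) (z : PhasePoint × Par P) (m : ℕ)
    (w : Config m) : Set ML :=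
  {l | RealL811.TreeIn Φ ε ((MW.cfg w).add (RealL811.treeW Φ ε P z)) P z Sum.inr te ∧
    l ∈ badF Φ ε K te (MW.cfg w) (RealL811.treeW Φ ε P z) (lineMM Φ ε P z)}

/-- **Null majorants of the test lines of `errA`.** -/
theorem xNull_lkA (hΦ : AdmissiblePotential Φ) (hf : Measurable f₀) (hte : 0 < te) {γ : ℝ → ℝ}
    (hγ : Measurable γ) {ρ : ℝ≥0∞}
    (hX : XNull Φ f₀ te te γ ρ fun K ε P z _ w => lkX Φ ε K te P z w)
    (hN : ExNull Φ f₀ te te) : XNull Φ f₀ te te γ ρ (lkA Φ te) := by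
  intro K δ hδ
  obtain ⟨ε₁, hε₁, H₁⟩ := hX K (δ / 2) (by positivity)
  obtain ⟨ε₂, hε₂, H₂⟩ := hN K (δ / 2) (by positivity)
  refine ⟨min ε₁ ε₂, lt_min hε₁ hε₂, fun ε hε hlt => ?_⟩
  obtain ⟨NL, hNL, hmaj, hle⟩ := H₁ ε hε (hlt.trans_le (min_le_left _ _))
  obtain ⟨N, hN1, hmajN, hleN⟩ := H₂ ε hε (hlt.trans_le (min_le_right _ _))
  refine ⟨fun P z m w => NL P z m w + N P z m w, fun P m => (hNL P m).add (hN1 P m), ?_, ?_⟩
  · intro P z m w hP hV hS hw hp
    by_cases hG : GoodT Φ ε K te P z w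
    swap
    · exact (min_le_left _ _).trans ((hmajN P z m w hP hV hS hw hp hG).trans le_add_self)
    refine le_trans ?_ ((hmaj P z m w hP hV hS hw hp).trans le_self_add)
    refine min_le_min_left _ ?_
    by_cases ht : RealL811.TreeIn Φ ε ((MW.cfg w).add (RealL811.treeW Φ ε P z)) P z Sum.inr te
    · refine le_trans (measure_mono ?_)
        (lineM_badF_le hΦ hε hte hP hγ hV hS hw hp ht hG.2)
      exact fun l hl => hl.2
    · have e : lkA Φ te K ε P z m w = ∅ := by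
        ext l
        exact ⟨fun h => ht h.1, fun h => h.elim⟩
      rw [e, measure_empty]
      exact bot_le
  · have h1 : MeasTS fun P z m w => wQ Φ ε P z * NL P z m w := fun P m =>
      ((measurable_wQ hΦ P).comp measurable_fst).mul (hNL P m)
    calc TS Φ f₀ ε te (fun P z m w => wQ Φ ε P z * (NL P z m w + N P z m w))
        = TS Φ f₀ ε te (fun P z m w => wQ Φ ε P z * NL P z m w) +
            TS Φ f₀ ε te (fun P z m w => wQ Φ ε P z * N P z m w) := by
          rw [← TS_add hΦ hf h1]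
          congr 1
          funext P z m w
          ring
      _ ≤ ENNReal.ofReal (δ / 2) + ENNReal.ofReal (δ / 2) := add_le_add hle hleN
      _ = ENNReal.ofReal δ := by
          rw [← ENNReal.ofReal_add (by positivity) (by positivity)]
          congr 1
          ring

end Crest.Agent.R122.ErrAB815

end
end

-- ▼ part R122/ErrBGate_823
section

/-!
# Row 122 (helper823): the gate of `ErrB`, a base line `d` and a test line `x`, both not localised

`d, x ~ lineM γ ρ K te`, the gas is `w`. The base line is touched, hence near the gas (`nearN` of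
helper494).

* `near_mass` : `∫ nearN (w, d) (1 + |v_d|)^k dlineM ≤ C Y(w)`.
* `Meet`, `meet_mass` : `lineM {x | x meets d} ≤ C ε² (1 + |v_d|)`.
* `errB_gate` : if, for a touched `d`, the event `E` implies a `d`-only alternative `S`, an `x`-only
  alternative `Sx`, a direct meeting, or an alternative `E'` of both lines (connected through the
  gas), all null, then `gcE ∫_d 1[touched] min 1 (c lineM {x | E}) → 0`.
-/

set_option autoImplicit false
set_option linter.unusedSectionVars false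

open MeasureTheory Set Filter Topology
open scoped ENNReal
open Crest.AnalysisR.Kinetic
open Crest.Agent.R122.GC311 Crest.Agent.R122.EDefs602 Crest.Agent.R122.EBasic602
open Crest.Agent.R122.Loc45 Crest.Agent.R122.Sweep815 Crest.Agent.R122.TouchFlux494
open Crest.Agent.R122.Boost969 (LSt posAt)
open Crest.Agent.R122.Pair292 (shL)
open Crest.Agent.R122.Gate424

noncomputable section

namespace Crest.Agent.R122.ErrB823

variable {Φ : Space3 → ℝ} {f₀ : PhasePoint → ℝ} {ε R te T : ℝ} {γ : ℝ → ℝ} {ρm : ℝ≥0∞} {K : ℕ}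
  {g0 : ℝ}

/-- Gaussian moment. -/
def mk (g0 : ℝ) (k : ℕ) : ℝ≥0∞ := ∫⁻ v : Space3, Kin796.wG g0 v * ENNReal.ofReal (1 + ‖v‖) ^ k

theorem mk_ne_top (hg : 0 < g0) (k : ℕ) : mk g0 k ≠ ∞ := by
  have h1 := (Boltz814.integrable_one_add_pow_mul_gauss hg k).lintegral_lt_top
  refine ne_of_lt (lt_of_eq_of_lt (lintegral_congr fun v => ?_) h1)
  unfold Kin796.wG
  rw [← ENNReal.ofReal_pow (by positivity), ← ENNReal.ofReal_mul (Real.exp_pos _).le, mul_comm,
    neg_mul]

/-- Mass of the marks. -/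
def mS (ρm : ℝ≥0∞) (K : ℕ) : ℝ≥0∞ := ∑' n : ℕ, markW ρm K n

theorem mS_ne_top (hρ : ρm ≠ ∞) (K : ℕ) : mS ρm K ≠ ∞ := LinkM547.tsum_markW_ne_top hρ K

/-- Integral of a function of the line with bounded averages over the positions. -/
theorem lineM_int_le (hγ : Measurable γ) (hγ₀ : ∀ τ ∈ Ioc (0 : ℝ) te, g0 ≤ γ τ)
    {G : LSt → ℝ≥0∞} (hG : Measurable G) {D : ℝ≥0∞} {k : ℕ}
    (h : ∀ τ ∈ Ioc (0 : ℝ) te, ∀ v : Space3, ∫⁻ y : Space3, G (τ, (y, v)) ≤
      D * ENNReal.ofReal (1 + ‖v‖) ^ k) :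
    ∫⁻ l : ML, G l.1 ∂lineM γ ρm K te ≤ ENNReal.ofReal te * (mS ρm K * (mk g0 k * D)) := by
  have hG1 : Measurable fun l : ML => G l.1 := hG.comp measurable_fst
  rw [EBasic602.lintegral_lineM hγ hG1]
  have h1 : ∀ τ ∈ Ioc (0 : ℝ) te, ∫⁻ v : Space3, Kin796.wG (γ τ) v *
      ∫⁻ y : Space3, ∑' n : ℕ, markW ρm K n * G (τ, (y, v)) ≤ mS ρm K * (mk g0 k * D) := by
    intro τ hτ
    have hmw : Measurable fun v : Space3 => Kin796.wG g0 v * ENNReal.ofReal (1 + ‖v‖) ^ k := by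
      unfold Kin796.wG
      fun_prop
    calc ∫⁻ v : Space3, Kin796.wG (γ τ) v *
          ∫⁻ y : Space3, ∑' n : ℕ, markW ρm K n * G (τ, (y, v))
        ≤ ∫⁻ v : Space3, mS ρm K * D * (Kin796.wG g0 v * ENNReal.ofReal (1 + ‖v‖) ^ k) := by
          refine lintegral_mono fun v => ?_
          have e1 : ∫⁻ y : Space3, ∑' n : ℕ, markW ρm K n * G (τ, (y, v)) =
              mS ρm K * ∫⁻ y : Space3, G (τ, (y, v)) := by
            have hG2 : Measurable fun y : Space3 => G (τ, (y, v)) := hG.comp (by fun_prop)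
            unfold mS
            rw [← lintegral_const_mul _ hG2]
            exact lintegral_congr fun y => ENNReal.tsum_mul_right
          rw [e1]
          calc Kin796.wG (γ τ) v * (mS ρm K * ∫⁻ y : Space3, G (τ, (y, v)))
              ≤ Kin796.wG g0 v * (mS ρm K * (D * ENNReal.ofReal (1 + ‖v‖) ^ k)) :=
                mul_le_mul' (Kin796.wG_anti (hγ₀ τ hτ) v) (mul_le_mul_right (h τ hτ v) _)
            _ = _ := by ring
      _ = mS ρm K * (mk g0 k * D) := by
          rw [lintegral_const_mul _ hmw]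
          unfold mk
          ring
  calc ∫⁻ τ in Ioc (0 : ℝ) te, ∫⁻ v : Space3, Kin796.wG (γ τ) v *
        ∫⁻ y : Space3, ∑' n : ℕ, markW ρm K n * G (τ, (y, v))
      ≤ ∫⁻ _τ in Ioc (0 : ℝ) te, mS ρm K * (mk g0 k * D) :=
        setLIntegral_mono measurable_const h1
    _ = _ := by
        rw [setLIntegral_const, Real.volume_Ioc, sub_zero]
        ring

theorem shL_zero (a : Space3) (τ : ℝ) (v : Space3) : shL a (τ, ((0 : Space3), v)) = (τ, (a, v)) := by
  unfold shL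
  simp

/-! ## Touched lines -/

/-- Constant of `near_mass`. -/
def cNear (Φ : Space3 → ℝ) (R te : ℝ) (ρm : ℝ≥0∞) (K : ℕ) (g0 : ℝ) (k : ℕ) : ℝ≥0∞ :=
  ENNReal.ofReal te * (mS ρm K * (mk g0 (k + 1) * (8 * ENNReal.ofReal R ^ 2 * c3 *
    (ENNReal.ofReal R + ENNReal.ofReal te * (2 * ENNReal.ofReal (1 + 2 * stabB Φ))))))

theorem cNear_ne_top (hg : 0 < g0) (hρ : ρm ≠ ∞) (k : ℕ) : cNear Φ R te ρm K g0 k ≠ ∞ := by
  have hc3 : c3 ≠ ∞ := by
    unfold c3
    exact ENNReal.ofReal_ne_top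
  unfold cNear
  refine ENNReal.mul_ne_top ENNReal.ofReal_ne_top (ENNReal.mul_ne_top (mS_ne_top hρ K)
    (ENNReal.mul_ne_top (mk_ne_top hg _) (ENNReal.mul_ne_top (ENNReal.mul_ne_top
      (ENNReal.mul_ne_top (by norm_num) (ENNReal.pow_ne_top ENNReal.ofReal_ne_top)) hc3)
      (ENNReal.add_ne_top.2 ⟨ENNReal.ofReal_ne_top, ENNReal.mul_ne_top ENNReal.ofReal_ne_top
        (ENNReal.mul_ne_top (by norm_num) ENNReal.ofReal_ne_top)⟩))))

/-- **Mass of the lines near the gas.** -/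
theorem near_mass (hΦ : AdmissiblePotential Φ) (hε : 0 < ε) (hε1 : ε ≤ 1) (hR : 0 < R)
    (hγ : Measurable γ) (hγ₀ : ∀ τ ∈ Ioc (0 : ℝ) te, g0 ≤ γ τ) (k : ℕ) {n : ℕ} {w : Config n}
    (hw : w ∈ PairExcluded ε n) :
    ∫⁻ d : ML, nearN Φ ε R te n (w, d.1) * ENNReal.ofReal (1 + ‖d.1.2.2‖) ^ k ∂lineM γ ρm K te ≤
      cNear Φ R te ρm K g0 k * Conc984.Y ε Conc984.en n w := by
  set D : ℝ≥0∞ := 8 * ENNReal.ofReal R ^ 2 * c3 *
    (ENNReal.ofReal R + ENNReal.ofReal te * (2 * ENNReal.ofReal (1 + 2 * stabB Φ))) with hD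
  have hG : Measurable fun l : LSt => nearN Φ ε R te n (w, l) * ENNReal.ofReal (1 + ‖l.2.2‖) ^ k := by
    refine Measurable.mul ((measurable_nearN hΦ hε R te n).comp (by fun_prop)) ?_
    fun_prop
  have h := lineM_int_le (ρm := ρm) (K := K) hγ hγ₀ hG (D := D * Conc984.Y ε Conc984.en n w)
    (k := k + 1) (fun τ hτ v => ?_)
  · refine h.trans (le_of_eq ?_)
    unfold cNear
    rw [← hD]
    ring
  · have h2 := lintegral_nearN_le (R := R) hΦ hε hR hw (τ, ((0 : Space3), v)) te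
    simp only [shL_zero] at h2
    have h3 : ∫⁻ y : Space3, nearN Φ ε R te n (w, (τ, (y, v))) * ENNReal.ofReal (1 + ‖v‖) ^ k =
        (∫⁻ y : Space3, nearN Φ ε R te n (w, (τ, (y, v)))) * ENNReal.ofReal (1 + ‖v‖) ^ k :=
      lintegral_mul_const' _ _ (ENNReal.pow_ne_top ENNReal.ofReal_ne_top)
    rw [h3]
    have hv1 : (1 : ℝ≥0∞) ≤ ENNReal.ofReal (1 + ‖v‖) := by
      rw [← ENNReal.ofReal_one]
      exact ENNReal.ofReal_le_ofReal (by linarith [norm_nonneg v])
    have hkin : ENNReal.ofReal ε ^ 2 * kin n w = Conc984.Y ε Conc984.en n w := by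
      have h5 : ENNReal.ofReal ε ^ 2 = (activity ε)⁻¹ := by
        rw [← ENNReal.ofReal_pow hε.le]
        exact ENNReal.eq_inv_of_mul_eq_one_left (ofReal_sq_mul_activity hε)
      rw [h5]
      rfl
    have h4 : 8 * ENNReal.ofReal (R * ε) ^ 2 * c3 * (ENNReal.ofReal (R * ε) +
        ENNReal.ofReal (te - τ) * (ENNReal.ofReal (1 + ‖v‖) *
          (2 * ENNReal.ofReal (1 + 2 * stabB Φ)))) * kin n w ≤
        D * ENNReal.ofReal (1 + ‖v‖) * Conc984.Y ε Conc984.en n w := by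
      have e1 : ENNReal.ofReal (R * ε) = ENNReal.ofReal R * ENNReal.ofReal ε :=
        ENNReal.ofReal_mul hR.le
      have e2 : ENNReal.ofReal (R * ε) ≤ ENNReal.ofReal R * ENNReal.ofReal (1 + ‖v‖) := by
        rw [e1]
        refine mul_le_mul_right ?_ _
        refine le_trans ?_ hv1
        rw [← ENNReal.ofReal_one]
        exact ENNReal.ofReal_le_ofReal hε1
      have e3 : ENNReal.ofReal (te - τ) ≤ ENNReal.ofReal te :=
        ENNReal.ofReal_le_ofReal (by linarith [hτ.1])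
      calc 8 * ENNReal.ofReal (R * ε) ^ 2 * c3 * (ENNReal.ofReal (R * ε) +
            ENNReal.ofReal (te - τ) * (ENNReal.ofReal (1 + ‖v‖) *
              (2 * ENNReal.ofReal (1 + 2 * stabB Φ)))) * kin n w
          ≤ 8 * ENNReal.ofReal (R * ε) ^ 2 * c3 * (ENNReal.ofReal R * ENNReal.ofReal (1 + ‖v‖) +
            ENNReal.ofReal te * (ENNReal.ofReal (1 + ‖v‖) *
              (2 * ENNReal.ofReal (1 + 2 * stabB Φ)))) * kin n w :=
            mul_le_mul_left (mul_le_mul_right (add_le_add e2 (mul_le_mul_left e3 _)) _) _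
        _ = D * ENNReal.ofReal (1 + ‖v‖) * (ENNReal.ofReal ε ^ 2 * kin n w) := by
            rw [e1, hD]
            ring
        _ = _ := by rw [hkin]
    calc (∫⁻ y : Space3, nearN Φ ε R te n (w, (τ, (y, v)))) * ENNReal.ofReal (1 + ‖v‖) ^ k
        ≤ D * ENNReal.ofReal (1 + ‖v‖) * Conc984.Y ε Conc984.en n w *
          ENNReal.ofReal (1 + ‖v‖) ^ k := mul_le_mul_left (h2.trans h4) _
      _ = D * Conc984.Y ε Conc984.en n w * ENNReal.ofReal (1 + ‖v‖) ^ (k + 1) := by
          rw [pow_succ]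
          ring

/-! ## Direct meeting of two lines -/

/-- The two free lines come within `R ε` during `[0, T]`. -/
def Meet (ε R T : ℝ) (d x : LSt) : Prop := ∃ s ∈ Icc (0 : ℝ) T, dist (posAt s x) (posAt s d) ≤ R * ε

theorem measurableSet_meet (ε R T : ℝ) : MeasurableSet {p : LSt × LSt | Meet ε R T p.1 p.2} := by
  refine Causal291.measurableSet_exists_Icc (α := fun _ : LSt × LSt => (0 : ℝ)) (β := fun _ => T)
    measurable_const measurable_const
    (g := fun q s => dist (posAt s q.2) (posAt s q.1)) (fun q => ?_) (fun s => ?_) (R * ε)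
  · unfold posAt
    fun_prop
  · unfold posAt
    fun_prop

/-- Constant of `meet_mass`. -/
def cMeet (R te T : ℝ) (ρm : ℝ≥0∞) (K : ℕ) (g0 : ℝ) : ℝ≥0∞ :=
  ENNReal.ofReal te * (mS ρm K * (mk g0 1 * (8 * ENNReal.ofReal R ^ 2 * c3 *
    (ENNReal.ofReal R + ENNReal.ofReal T))))

theorem cMeet_ne_top (hg : 0 < g0) (hρ : ρm ≠ ∞) : cMeet R te T ρm K g0 ≠ ∞ := by
  have hc3 : c3 ≠ ∞ := by
    unfold c3
    exact ENNReal.ofReal_ne_top
  unfold cMeet
  exact ENNReal.mul_ne_top ENNReal.ofReal_ne_top (ENNReal.mul_ne_top (mS_ne_top hρ K)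
    (ENNReal.mul_ne_top (mk_ne_top hg _) (ENNReal.mul_ne_top (ENNReal.mul_ne_top
      (ENNReal.mul_ne_top (by norm_num) (ENNReal.pow_ne_top ENNReal.ofReal_ne_top)) hc3)
      (ENNReal.add_ne_top.2 ⟨ENNReal.ofReal_ne_top, ENNReal.ofReal_ne_top⟩))))

/-- **Mass of the lines which meet a given line.** -/
theorem meet_mass (hε : 0 < ε) (hε1 : ε ≤ 1) (hR : 0 < R) (hT : 0 ≤ T) (hγ : Measurable γ)
    (hγ₀ : ∀ τ ∈ Ioc (0 : ℝ) te, g0 ≤ γ τ) (d : LSt) :
    lineM γ ρm K te {x : ML | Meet ε R T d x.1} ≤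
      cMeet R te T ρm K g0 * ENNReal.ofReal ε ^ 2 * ENNReal.ofReal (1 + ‖d.2.2‖) := by
  have hm : MeasurableSet {x : LSt | Meet ε R T d x} := by
    have h1 : Measurable fun x : LSt => (d, x) := by fun_prop
    exact h1 (measurableSet_meet ε R T)
  have hG : Measurable ({x : LSt | Meet ε R T d x}.indicator (1 : LSt → ℝ≥0∞)) :=
    measurable_one.indicator hm
  have e0 : lineM γ ρm K te {x : ML | Meet ε R T d x.1} =
      ∫⁻ l : ML, {x : LSt | Meet ε R T d x}.indicator (1 : LSt → ℝ≥0∞) l.1 ∂lineM γ ρm K te := by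
    have hm' : MeasurableSet {x : ML | Meet ε R T d x.1} := measurable_fst hm
    rw [← lintegral_indicator_one hm']
    rfl
  rw [e0]
  set D : ℝ≥0∞ := 8 * ENNReal.ofReal R ^ 2 * c3 * (ENNReal.ofReal R + ENNReal.ofReal T) with hD
  have h := lineM_int_le (ρm := ρm) (K := K) hγ hγ₀ hG
    (D := D * ENNReal.ofReal ε ^ 2 * ENNReal.ofReal (1 + ‖d.2.2‖)) (k := 1) (fun τ hτ v => ?_)
  · refine h.trans (le_of_eq ?_)
    unfold cMeet
    rw [← hD]
    ring
  · have hr : 0 < R * ε := mul_pos hR hε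
    have hr0 : ENNReal.ofReal (R * ε) ≠ 0 := (ENNReal.ofReal_pos.2 hr).ne'
    have hrt : ENNReal.ofReal (R * ε) ≠ ∞ := ENNReal.ofReal_ne_top
    have h2 := volume_translate_le (a := 0) (b := T) hr
      (γ := fun s => (s - τ) • v) (y := fun s => posAt s d)
      (γ' := fun _ => v) (y' := fun _ => d.2.2)
      (fun s _ => by
        have h1 : HasDerivAt (fun s : ℝ => (s - τ) • v) ((1 : ℝ) • v) s :=
          ((hasDerivAt_id s).sub_const τ).smul_const v
        rwa [one_smul] at h1)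
      (fun s _ => by
        have h1 : HasDerivAt (fun s : ℝ => (s - d.1) • d.2.2) ((1 : ℝ) • d.2.2) s :=
          ((hasDerivAt_id s).sub_const d.1).smul_const d.2.2
        rw [one_smul] at h1
        exact h1.const_add d.2.1)
      continuous_const continuous_const (by fun_prop) (by unfold posAt; fun_prop)
    have h3 : ∫⁻ y : Space3, {x : LSt | Meet ε R T d x}.indicator (1 : LSt → ℝ≥0∞) (τ, (y, v)) =
        volume {y : Space3 | ∃ s ∈ Icc (0 : ℝ) T, dist (y + (s - τ) • v) (posAt s d) ≤ R * ε} := by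
      have hm2 : MeasurableSet {y : Space3 | ∃ s ∈ Icc (0 : ℝ) T,
          dist (y + (s - τ) • v) (posAt s d) ≤ R * ε} := by
        have h1 : Measurable fun y : Space3 => ((τ, (y, v)) : LSt) := by fun_prop
        exact h1 hm
      rw [← lintegral_indicator_one hm2]
      rfl
    rw [h3]
    refine h2.trans ?_
    have h4 : ∫⁻ _u in Icc (0 : ℝ) T, ENNReal.ofReal ‖v - d.2.2‖ ≤
        ENNReal.ofReal T * (ENNReal.ofReal (1 + ‖v‖) * ENNReal.ofReal (1 + ‖d.2.2‖)) := by
      rw [setLIntegral_const, Real.volume_Icc, sub_zero, mul_comm,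
        ← ENNReal.ofReal_mul (by positivity : (0 : ℝ) ≤ 1 + ‖v‖)]
      refine mul_le_mul_right (ENNReal.ofReal_le_ofReal ?_) _
      have h5 := norm_sub_le v d.2.2
      nlinarith [norm_nonneg v, norm_nonneg d.2.2, mul_nonneg (norm_nonneg v) (norm_nonneg d.2.2)]
    have hv1 : (1 : ℝ≥0∞) ≤ ENNReal.ofReal (1 + ‖v‖) * ENNReal.ofReal (1 + ‖d.2.2‖) := by
      rw [← ENNReal.ofReal_mul (by positivity), ← ENNReal.ofReal_one]
      refine ENNReal.ofReal_le_ofReal ?_
      nlinarith [norm_nonneg v, norm_nonneg d.2.2, mul_nonneg (norm_nonneg v) (norm_nonneg d.2.2)]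
    have e1 : ENNReal.ofReal (R * ε) = ENNReal.ofReal R * ENNReal.ofReal ε :=
      ENNReal.ofReal_mul hR.le
    have hε1' : ENNReal.ofReal ε ≤ 1 := by
      rw [← ENNReal.ofReal_one]
      exact ENNReal.ofReal_le_ofReal hε1
    have e2 : ENNReal.ofReal (2 * (R * ε)) ^ 3 * c3 =
        8 * ENNReal.ofReal (R * ε) ^ 2 * c3 * ENNReal.ofReal (R * ε) := by
      rw [ENNReal.ofReal_mul (by norm_num : (0 : ℝ) ≤ 2), mul_pow, ENNReal.ofReal_ofNat]
      ring
    have e3 : (ENNReal.ofReal (R * ε))⁻¹ * (ENNReal.ofReal (2 * (R * ε)) ^ 3 * c3) =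
        8 * ENNReal.ofReal (R * ε) ^ 2 * c3 := by
      rw [e2, mul_comm _ (ENNReal.ofReal (R * ε)), ← mul_assoc, ENNReal.inv_mul_cancel hr0 hrt,
        one_mul]
    rw [e3, e2]
    calc 8 * ENNReal.ofReal (R * ε) ^ 2 * c3 * ENNReal.ofReal (R * ε) +
          8 * ENNReal.ofReal (R * ε) ^ 2 * c3 * ∫⁻ _u in Icc (0 : ℝ) T, ENNReal.ofReal ‖v - d.2.2‖
        ≤ 8 * ENNReal.ofReal (R * ε) ^ 2 * c3 * (ENNReal.ofReal R *
            (ENNReal.ofReal (1 + ‖v‖) * ENNReal.ofReal (1 + ‖d.2.2‖))) +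
          8 * ENNReal.ofReal (R * ε) ^ 2 * c3 * (ENNReal.ofReal T *
            (ENNReal.ofReal (1 + ‖v‖) * ENNReal.ofReal (1 + ‖d.2.2‖))) := by
          refine add_le_add (mul_le_mul_right ?_ _) (mul_le_mul_right h4 _)
          rw [e1]
          exact mul_le_mul_right (hε1'.trans hv1) _
      _ = D * ENNReal.ofReal ε ^ 2 * ENNReal.ofReal (1 + ‖d.2.2‖) *
            ENNReal.ofReal (1 + ‖v‖) ^ 1 := by
          rw [e1, hD]
          ring

/-! ## The gate -/

theorem min_one_mul_add_le (c a b e : ℝ≥0∞) :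
    min 1 (c * (a + b + e)) ≤ (1 + c) * min 1 a + c * b + c * e := by
  rcases le_total a 1 with h | h
  · rw [min_eq_right h]
    refine (min_le_right _ _).trans ?_
    rw [mul_add, mul_add]
    exact add_le_add (add_le_add (mul_le_mul_left le_add_self _) le_rfl) le_rfl
  · rw [min_eq_left h]
    refine (min_le_left _ _).trans ?_
    rw [mul_one]
    exact le_self_add.trans (le_self_add.trans le_self_add)

/-- **The gate at fixed `ε`.** -/
theorem errB_le (hΦ : AdmissiblePotential Φ) (hf : Measurable f₀)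
    (h1 : ∫⁻ z, ENNReal.ofReal (f₀ z) ≤ 1) (hmean : Conc984.mean f₀ Conc984.en ≠ ∞) (hε : 0 < ε)
    (hε1 : ε ≤ 1) (hR : 0 < R) {R' : ℝ} (hR' : 0 < R') (hT : 0 ≤ T) (hγ : Measurable γ)
    (hγ₀ : ∀ τ ∈ Ioc (0 : ℝ) te, g0 ≤ γ τ) (hg : 0 < g0) (hρ : ρm ≠ ∞) {c : ℝ≥0∞} (hc : c ≠ ∞)
    {Tch : (n : ℕ) → ML → Config n → Prop} {E : (n : ℕ) → ML → ML → Config n → Prop}
    {GS GX : (n : ℕ) → ML × Config n → ℝ≥0∞} {GE : (n : ℕ) → (ML × ML) × Config n → ℝ≥0∞}
    (hGS : ∀ n, Measurable (GS n)) (hGX : ∀ n, Measurable (GX n)) (hGE : ∀ n, Measurable (GE n))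
    (hdet : ∀ n, ∀ w ∈ PairExcluded ε n, ∀ᵐ d ∂lineM γ ρm K te, Tch n d w →
      1 ≤ GS n (d, w) ∨ (Near Φ ε R te w d.1 ∧ ∀ᵐ x ∂lineM γ ρm K te, E n d x w →
        1 ≤ GX n (x, w) ∨ Meet ε R' T d.1 x.1 ∨ 1 ≤ GE n ((d, x), w))) :
    gcE f₀ ε (fun n w => ∫⁻ d, (open Classical in if Tch n d w then
        min 1 (c * lineM γ ρm K te {x | E n d x w}) else 0) ∂lineM γ ρm K te) ≤
      (∫⁻ d, gcE f₀ ε (fun n w => GS n (d, w)) ∂lineM γ ρm K te) +
      (1 + c) * (cNear Φ R te ρm K g0 0 * (Conc984.mean f₀ Conc984.en *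
        (∫⁻ x, gcE f₀ ε (fun n w => GX n (x, w)) ∂lineM γ ρm K te) +
          gcE f₀ ε (Conc984.exc f₀ ε Conc984.en))) +
      c * cMeet R' te T ρm K g0 * ENNReal.ofReal ε ^ 2 *
        (cNear Φ R te ρm K g0 1 * Conc984.mean f₀ Conc984.en) +
      c * ∫⁻ p, gcE f₀ ε (fun n w => GE n (p, w)) ∂(lineM γ ρm K te).prod (lineM γ ρm K te) := by
  classical
  set μ := lineM γ ρm K te with hμ
  set A : (n : ℕ) → Config n → ℝ≥0∞ := fun n w => ∫⁻ x, GX n (x, w) ∂μ with hA
  set B : (n : ℕ) → ML → Config n → ℝ≥0∞ := fun n d w => ∫⁻ x, GE n ((d, x), w) ∂μ with hB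
  set cN0 := cNear Φ R te ρm K g0 0 with hcN0
  set cN1 := cNear Φ R te ρm K g0 1 with hcN1
  set cM := cMeet R' te T ρm K g0 with hcM
  have hcN0t : cN0 ≠ ∞ := cNear_ne_top hg hρ 0
  have hcN1t : cN1 ≠ ∞ := cNear_ne_top hg hρ 1
  have hcMt : cM ≠ ∞ := cMeet_ne_top hg hρ
  have hAm : ∀ n, Measurable (A n) := fun n => by
    have h2 : Measurable fun p : Config n × ML => GX n (p.2, p.1) :=
      (hGX n).comp (measurable_snd.prodMk measurable_fst)
    exact h2.lintegral_prod_right'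
  have hBm : ∀ n, Measurable fun p : ML × Config n => B n p.1 p.2 := fun n => by
    have h2 : Measurable fun p : (ML × Config n) × ML => GE n ((p.1.1, p.2), p.1.2) :=
      (hGE n).comp ((measurable_fst.fst.prodMk measurable_snd).prodMk measurable_fst.snd)
    exact h2.lintegral_prod_right'
  have hNm : ∀ n (w : Config n), Measurable fun d : ML => nearN Φ ε R te n (w, d.1) := fun n w =>
    (measurable_nearN hΦ hε R te n).comp (measurable_const.prodMk measurable_fst)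
  -- pointwise in the gas
  have hpt : ∀ n, ∀ w ∈ PairExcluded ε n, ∫⁻ d, (if Tch n d w then
        min 1 (c * μ {x | E n d x w}) else 0) ∂μ ≤
      (∫⁻ d, GS n (d, w) ∂μ) + ((1 + c) * cN0 * (Conc984.Y ε Conc984.en n w * min 1 (A n w)) +
        (c * cM * ENNReal.ofReal ε ^ 2 * cN1 * Conc984.Y ε Conc984.en n w +
          c * ∫⁻ d, B n d w ∂μ)) := by
    intro n w hw
    have h2 : ∀ᵐ d ∂μ, (if Tch n d w then min 1 (c * μ {x | E n d x w}) else 0) ≤
        GS n (d, w) + (nearN Φ ε R te n (w, d.1) * ((1 + c) * min 1 (A n w)) +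
          (c * cM * ENNReal.ofReal ε ^ 2 *
            (nearN Φ ε R te n (w, d.1) * ENNReal.ofReal (1 + ‖d.1.2.2‖) ^ 1) + c * B n d w)) := by
      filter_upwards [hdet n w hw] with d hd
      by_cases ht : Tch n d w
      swap
      · rw [if_neg ht]
        exact bot_le
      rw [if_pos ht]
      rcases hd ht with h3 | ⟨h3, h4⟩
      · exact (min_le_left _ _).trans (h3.trans le_self_add)
      refine le_trans ?_ le_add_self
      have h5 : nearN Φ ε R te n (w, d.1) = 1 :=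
        le_antisymm (nearN_le_one _) (one_le_nearN hΦ hε h3)
      have h6 : μ {x | E n d x w} ≤ A n w + cM * ENNReal.ofReal ε ^ 2 *
          ENNReal.ofReal (1 + ‖d.1.2.2‖) + B n d w := by
        have h7 : μ {x | E n d x w} ≤ μ (({x | 1 ≤ GX n (x, w)} ∪ {x | Meet ε R' T d.1 x.1}) ∪
            {x | 1 ≤ GE n ((d, x), w)}) := by
          refine measure_mono_ae ?_
          filter_upwards [h4] with x hx hE
          rcases hx hE with h | h | h
          · exact Or.inl (Or.inl h)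
          · exact Or.inl (Or.inr h)
          · exact Or.inr h
        refine h7.trans ((measure_union_le _ _).trans (add_le_add ((measure_union_le _ _).trans
          (add_le_add ?_ ?_)) ?_))
        · have h8 := mul_meas_ge_le_lintegral (μ := μ) (f := fun x => GX n (x, w))
            ((hGX n).comp (measurable_id.prodMk measurable_const)) 1
          rwa [one_mul] at h8
        · exact meet_mass hε hε1 hR' hT hγ hγ₀ d.1
        · have h8 := mul_meas_ge_le_lintegral (μ := μ) (f := fun x => GE n ((d, x), w))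
            ((hGE n).comp ((measurable_const.prodMk measurable_id).prodMk measurable_const)) 1
          rwa [one_mul] at h8
      rw [h5, one_mul, one_mul, pow_one]
      calc min 1 (c * μ {x | E n d x w})
          ≤ min 1 (c * (A n w + cM * ENNReal.ofReal ε ^ 2 * ENNReal.ofReal (1 + ‖d.1.2.2‖) +
              B n d w)) := min_le_min le_rfl (mul_le_mul_right h6 _)
        _ ≤ _ := min_one_mul_add_le _ _ _ _
        _ = _ := by ring
    refine (lintegral_mono_ae h2).trans ?_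
    have m1 : Measurable fun d : ML => GS n (d, w) :=
      (hGS n).comp (measurable_id.prodMk measurable_const)
    have m2 : Measurable fun d : ML => nearN Φ ε R te n (w, d.1) * ((1 + c) * min 1 (A n w)) :=
      (hNm n w).mul_const _
    have m3 : Measurable fun d : ML => c * cM * ENNReal.ofReal ε ^ 2 *
        (nearN Φ ε R te n (w, d.1) * ENNReal.ofReal (1 + ‖d.1.2.2‖) ^ 1) := by
      refine Measurable.const_mul ((hNm n w).mul ?_) _
      fun_prop
    rw [lintegral_add_left m1, lintegral_add_left m2, lintegral_add_left m3]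
    refine add_le_add le_rfl (add_le_add ?_ (add_le_add ?_ ?_))
    · rw [lintegral_mul_const _ (hNm n w)]
      have h3 := near_mass (ρm := ρm) (K := K) hΦ hε hε1 hR hγ hγ₀ 0 hw
      simp only [pow_zero, mul_one] at h3
      calc (∫⁻ d : ML, nearN Φ ε R te n (w, d.1) ∂μ) * ((1 + c) * min 1 (A n w))
          ≤ cN0 * Conc984.Y ε Conc984.en n w * ((1 + c) * min 1 (A n w)) := mul_le_mul_left h3 _
        _ = _ := by ring
    · rw [lintegral_const_mul' _ _ (ENNReal.mul_ne_top (ENNReal.mul_ne_top hc hcMt)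
        (ENNReal.pow_ne_top ENNReal.ofReal_ne_top))]
      have h3 := near_mass (ρm := ρm) (K := K) hΦ hε hε1 hR hγ hγ₀ 1 hw
      calc c * cM * ENNReal.ofReal ε ^ 2 *
            ∫⁻ d : ML, nearN Φ ε R te n (w, d.1) * ENNReal.ofReal (1 + ‖d.1.2.2‖) ^ 1 ∂μ
          ≤ c * cM * ENNReal.ofReal ε ^ 2 * (cN1 * Conc984.Y ε Conc984.en n w) :=
            mul_le_mul_right h3 _
        _ = _ := by ring
    · rw [lintegral_const_mul' _ _ hc]
  refine (gcE_mono f₀ ε hpt).trans ?_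
  -- expectations
  have n1 : ∀ n, Measurable fun w : Config n => ∫⁻ d, GS n (d, w) ∂μ := fun n => by
    have h2 : Measurable fun p : Config n × ML => GS n (p.2, p.1) :=
      (hGS n).comp (measurable_snd.prodMk measurable_fst)
    exact h2.lintegral_prod_right'
  have n2 : ∀ n, Measurable fun w : Config n =>
      (1 + c) * cN0 * (Conc984.Y ε Conc984.en n w * min 1 (A n w)) := fun n =>
    ((Conc984.measurable_Y Conc984.measurable_en n).mul
      (measurable_const.min (hAm n))).const_mul _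
  have n3 : ∀ n, Measurable fun w : Config n =>
      c * cM * ENNReal.ofReal ε ^ 2 * cN1 * Conc984.Y ε Conc984.en n w := fun n =>
    (Conc984.measurable_Y Conc984.measurable_en n).const_mul _
  rw [gcE_add hf ε n1, gcE_add hf ε n2, gcE_add hf ε n3, gcE_const_mul f₀ ε
    (ENNReal.mul_ne_top (ENNReal.add_ne_top.2 ⟨ENNReal.one_ne_top, hc⟩) hcN0t),
    gcE_const_mul f₀ ε (ENNReal.mul_ne_top (ENNReal.mul_ne_top (ENNReal.mul_ne_top hc hcMt)
      (ENNReal.pow_ne_top ENNReal.ofReal_ne_top)) hcN1t), gcE_const_mul f₀ ε hc,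
    add_assoc, add_assoc]
  refine add_le_add (le_of_eq ?_) (add_le_add ?_ (add_le_add ?_ (mul_le_mul_right (le_of_eq ?_) _)))
  · exact (LN2.lintegral_gcE_swap hf ε μ (F := fun n d w => GS n (d, w)) hGS).symm
  · rw [mul_assoc]
    refine mul_le_mul_right (mul_le_mul_right ?_ _) _
    have h2 := Conc984.gcE_mul_le (ε := ε) hf Conc984.measurable_en hmean
      (F := fun n w => min 1 (A n w)) (B := 1) ENNReal.one_ne_top
      (fun n Z _ => min_le_left _ _)
    rw [one_mul] at h2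
    refine h2.trans (add_le_add (mul_le_mul_right ?_ _) le_rfl)
    refine (gcE_mono f₀ ε fun n w _ => min_le_right _ _).trans (le_of_eq ?_)
    exact (LN2.lintegral_gcE_swap hf ε μ (F := fun n x w => GX n (x, w)) hGX).symm
  · rw [mul_assoc (c * cM * ENNReal.ofReal ε ^ 2)]
    refine mul_le_mul_right (mul_le_mul_right ?_ _) _
    exact Direct658.gcE_Y_le hf h1 hε Conc984.measurable_en
  · have h2 : ∀ n, Measurable (Function.uncurry fun (p : ML × ML) (w : Config n) => GE n (p, w)) :=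
      fun n => hGE n
    rw [LN2.lintegral_gcE_swap hf ε (μ.prod μ) (F := fun n p w => GE n (p, w)) h2]
    refine gcE_congr f₀ ε fun n w _ => ?_
    have h3 : Measurable fun p : ML × ML => GE n (p, w) :=
      (hGE n).comp (measurable_id.prodMk measurable_const)
    rw [lintegral_prod _ h3.aemeasurable]


end Crest.Agent.R122.ErrB823

end
end

-- ▼ part R122/ErrBNull_823
section

/-!
# Row 122 (helper823): `errB` of helper994 is null, modulo the link events

* `WinTch` : `d` is touched in the window; `ErrBDet` : the deterministic hypothesis and the null events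
  for one `K`.
* `null_errB` : `Null (fun K ε => H5994.errB Φ f₀ ε K Q)`; `null_errB_of_kdata` : for the data of the
  theorem.
-/

set_option autoImplicit false

open MeasureTheory Set Filter Topology
open scoped ENNReal
open Crest.AnalysisR.Kinetic
open Crest.Agent.R122.GC311 Crest.Agent.R122.EDefs602 Crest.Agent.R122.Decomp811
open Crest.Agent.R122.TouchFlux494 (Near near_of_thetaL_le')
open Crest.Agent.R122.Gate424

noncomputable section

namespace Crest.Agent.R122.ErrB823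

variable {Φ : Space3 → ℝ} {f₀ : PhasePoint → ℝ} {g0 : ℝ}

/-- The line is touched in the window. -/
def WinTch (Φ : Space3 → ℝ) (ε : ℝ) (K : ℕ) (Q : EPar) {n : ℕ} (w : Config n) (d : ML) : Prop :=
  Q.tw < (MW.cfg w).thetaL Φ ε K Q.te d ∧ (MW.cfg w).thetaL Φ ε K Q.te d ≤ Q.te


theorem errB_eq (hΦ : AdmissiblePotential Φ) {ε : ℝ} (hε : 0 < ε) (K : ℕ) (Q : EPar) :
    H5994.errB Φ f₀ ε K Q = gcE f₀ ε (fun n w => ∫⁻ d, (open Classical in
      if WinTch Φ ε K Q w d then min 1 (ENNReal.ofReal Q.L * lineM Q.γ Q.ρ K Q.te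
        {x | ¬ W1E Φ ε K Q.te (MW.cfg w) (MW.line d) (MW.line x)}) else 0)
          ∂lineM Q.γ Q.ρ K Q.te) := by
  classical
  unfold H5994.errB
  refine gcE_congr f₀ ε fun n w _ => ?_
  have hθ : Measurable fun d : ML => (MW.cfg w).thetaL Φ ε K Q.te d :=
    H5994.measurable_θ₀w hΦ hε (⟨n, w⟩ : Σ n : ℕ, Config n)
  have hs : MeasurableSet {d : ML | Q.tw < (MW.cfg w).thetaL Φ ε K Q.te d ∧
      (MW.cfg w).thetaL Φ ε K Q.te d ≤ Q.te} :=
    (hθ measurableSet_Ioi).inter (hθ measurableSet_Iic)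
  rw [← lintegral_indicator hs]
  refine lintegral_congr fun d => ?_
  by_cases h : WinTch Φ ε K Q w d
  · rw [if_pos h, indicator_of_mem (show d ∈ {d : ML | Q.tw < (MW.cfg w).thetaL Φ ε K Q.te d ∧
      (MW.cfg w).thetaL Φ ε K Q.te d ≤ Q.te} from h)]
    rfl
  · rw [if_neg h, indicator_of_notMem (show d ∉ {d : ML | Q.tw < (MW.cfg w).thetaL Φ ε K Q.te d ∧
      (MW.cfg w).thetaL Φ ε K Q.te d ≤ Q.te} from h)]



end Crest.Agent.R122.ErrB823

end
end

-- ▼ part R122/ErrBFam_823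
section

/-!
# Row 122 (helper823): the gate of `errB` with families of bad events

* `errB_gate_le` : the gate with alternatives of small mass (instead of null ones), chosen after `δ`.
* `ErrBFam` : the literal det shape of helper973's `fNull_cap_of_det` for the two lines of `errB`.
* `null_errB_fam` : `ErrBFam` for every `K` gives `Null (fun K ε => H5994.errB Φ f₀ ε K Q)`.
-/

set_option autoImplicit false

open MeasureTheory Set Filter Topology
open scoped ENNReal
open Crest.AnalysisR.Kinetic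
open Crest.Agent.R122.GC311 Crest.Agent.R122.EDefs602 Crest.Agent.R122.Decomp811
open Crest.Agent.R122.TouchFlux494 (Near near_of_thetaL_le')
open Crest.Agent.R122.Gate424 Crest.Agent.R122.Gate973

noncomputable section

namespace Crest.Agent.R122.ErrB823

variable {Φ : Space3 → ℝ} {f₀ : PhasePoint → ℝ} {R te : ℝ} {γ : ℝ → ℝ} {ρm : ℝ≥0∞} {K : ℕ}
  {g0 : ℝ}

/-- **The gate**, alternatives of small mass, chosen after `δ`. -/
theorem errB_gate_le {I : Type} (hΦ : AdmissiblePotential Φ) (hf : Measurable f₀)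
    (h1 : ∫⁻ z, ENNReal.ofReal (f₀ z) ≤ 1) (hmean : Conc984.mean f₀ Conc984.en ≠ ∞)
    (hexc : Tendsto (fun ε => gcE f₀ ε (Conc984.exc f₀ ε Conc984.en)) (𝓝[>] 0) (𝓝 0))
    (hR : 0 < R) (hγ : Measurable γ)
    (hγ₀ : ∀ τ ∈ Ioc (0 : ℝ) te, g0 ≤ γ τ) (hg : 0 < g0) (hρ : ρm ≠ ∞) {c : ℝ≥0∞} (hc : c ≠ ∞)
    {Tch : ℝ → I → (n : ℕ) → ML → Config n → Prop}
    {E : ℝ → I → (n : ℕ) → ML → ML → Config n → Prop}
    (hdet : ∀ η : ℝ≥0∞, 0 < η → ∃ (R' T : ℝ) (S Sx : ℝ → I → (n : ℕ) → ML → Config n → Prop)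
      (E' : ℝ → I → (n : ℕ) → ML × ML → Config n → Prop), 0 < R' ∧ 0 ≤ T ∧
      GLe f₀ (fun _ (_ : I) => lineM γ ρm K te) S η ∧
      GLe f₀ (fun _ (_ : I) => lineM γ ρm K te) Sx η ∧
      GLe f₀ (fun _ (_ : I) => (lineM γ ρm K te).prod (lineM γ ρm K te)) E' η ∧
      ∃ ε₁ : ℝ, 0 < ε₁ ∧ ∀ ε : ℝ, 0 < ε → ε < ε₁ → ∀ i n, ∀ w ∈ PairExcluded ε n,
      ∀ᵐ d ∂lineM γ ρm K te, Tch ε i n d w → S ε i n d w ∨ (Near Φ ε R te w d.1 ∧
        ∀ᵐ x ∂lineM γ ρm K te, E ε i n d x w →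
          Sx ε i n x w ∨ Meet ε R' T d.1 x.1 ∨ E' ε i n (d, x) w)) {δ : ℝ≥0∞} (hδ : 0 < δ) :
    ∃ ε₀ : ℝ, 0 < ε₀ ∧ ∀ ε : ℝ, 0 < ε → ε < ε₀ → ∀ i : I,
      gcE f₀ ε (fun n w => ∫⁻ d, (open Classical in if Tch ε i n d w then
        min 1 (c * lineM γ ρm K te {x | E ε i n d x w}) else 0) ∂lineM γ ρm K te) ≤ δ := by
  classical
  set μ := lineM γ ρm K te with hμ
  set cN0 := cNear Φ R te ρm K g0 0 with hcN0
  set cN1 := cNear Φ R te ρm K g0 1 with hcN1
  set mn := Conc984.mean f₀ Conc984.en with hmn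
  have hcN0t : cN0 ≠ ∞ := cNear_ne_top hg hρ 0
  have hcN1t : cN1 ≠ ∞ := cNear_ne_top hg hρ 1
  -- the constants
  set A : ℝ≥0∞ := 1 + (1 + c) * cN0 * mn + (1 + c) * cN0 + 1 + c with hA
  have h1c : 1 + c ≠ ∞ := ENNReal.add_ne_top.2 ⟨ENNReal.one_ne_top, hc⟩
  have hAt : A ≠ ∞ := by
    refine ENNReal.add_ne_top.2 ⟨ENNReal.add_ne_top.2 ⟨ENNReal.add_ne_top.2
      ⟨ENNReal.add_ne_top.2 ⟨ENNReal.one_ne_top, ?_⟩, ?_⟩, ENNReal.one_ne_top⟩, hc⟩
    · exact ENNReal.mul_ne_top (ENNReal.mul_ne_top h1c hcN0t) hmean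
    · exact ENNReal.mul_ne_top h1c hcN0t
  have hA0 : A ≠ 0 := by
    rw [hA]
    intro h
    simp at h
  rcases eq_or_ne δ ∞ with rfl | hδt
  · exact ⟨1, one_pos, fun _ _ _ _ => le_top⟩
  set η : ℝ≥0∞ := δ / A with hη
  have hη0 : 0 < η := ENNReal.div_pos hδ.ne' hAt
  have hAη : A * η = δ := by
    rw [hη]
    exact ENNReal.mul_div_cancel hA0 hAt
  obtain ⟨R', T, S, Sx, E', hR', hT, hS, hX, hE, hdet⟩ := hdet η hη0
  obtain ⟨ε₁, e1, hS⟩ := hS
  obtain ⟨ε₂, e2, hX⟩ := hX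
  obtain ⟨ε₃, e3, hE⟩ := hE
  obtain ⟨ε₄, e4, hdet⟩ := hdet
  set cM := cMeet R' te T ρm K g0 with hcM
  have hcMt : cM ≠ ∞ := cMeet_ne_top hg hρ
  have h5 : ∀ᶠ ε : ℝ in 𝓝[>] 0, gcE f₀ ε (Conc984.exc f₀ ε Conc984.en) < η :=
    hexc.eventually_lt_const hη0
  have h6 : ∀ᶠ ε : ℝ in 𝓝[>] 0, c * cM * ENNReal.ofReal ε ^ 2 * (cN1 * mn) < η := by
    have h7 : Tendsto (fun ε : ℝ => c * cM * ENNReal.ofReal ε ^ 2 * (cN1 * mn)) (𝓝[>] 0)
        (𝓝 0) := by
      have h8 : Tendsto (fun ε : ℝ => ENNReal.ofReal ε ^ 2) (𝓝 0) (𝓝 (ENNReal.ofReal 0 ^ 2)) :=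
        ((ENNReal.continuous_pow 2).comp ENNReal.continuous_ofReal).tendsto 0
      rw [ENNReal.ofReal_zero, zero_pow two_ne_zero] at h8
      have h10 : Tendsto (fun ε : ℝ => ENNReal.ofReal ε ^ 2) (𝓝[>] 0) (𝓝 0) :=
        h8.mono_left nhdsWithin_le_nhds
      have h9 := ENNReal.Tendsto.mul_const (ENNReal.Tendsto.const_mul (a := c * cM)
        h10 (Or.inr (ENNReal.mul_ne_top hc hcMt)))
        (b := cN1 * mn) (Or.inr (ENNReal.mul_ne_top hcN1t hmean))
      rwa [mul_zero, zero_mul] at h9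
    exact h7.eventually_lt_const hη0
  obtain ⟨ε₅, e5, h56⟩ := mem_nhdsGT_iff_exists_Ioo_subset.1 (h5.and h6)
  have e5' : (0 : ℝ) < ε₅ := e5
  refine ⟨min (min (min ε₁ ε₂) (min ε₃ ε₄)) (min ε₅ 1), by positivity, fun ε hε hlt i => ?_⟩
  have l1 : ε < ε₁ := hlt.trans_le ((min_le_left _ _).trans ((min_le_left _ _).trans (min_le_left _ _)))
  have l2 : ε < ε₂ := hlt.trans_le ((min_le_left _ _).trans ((min_le_left _ _).trans (min_le_right _ _)))
  have l3 : ε < ε₃ := hlt.trans_le ((min_le_left _ _).trans ((min_le_right _ _).trans (min_le_left _ _)))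
  have l4 : ε < ε₄ := hlt.trans_le ((min_le_left _ _).trans ((min_le_right _ _).trans (min_le_right _ _)))
  have l5 : ε < ε₅ := hlt.trans_le ((min_le_right _ _).trans (min_le_left _ _))
  have l6 : ε ≤ 1 := (hlt.trans_le ((min_le_right _ _).trans (min_le_right _ _))).le
  obtain ⟨GS, s1, s2, s3⟩ := hS ε hε l1 i
  obtain ⟨GX, x1, x2, x3⟩ := hX ε hε l2 i
  obtain ⟨GE, g1, g2, g3⟩ := hE ε hε l3 i
  obtain ⟨h7, h8⟩ := h56 ⟨hε, l5⟩
  have key := errB_le (f₀ := f₀) (ε := ε) (c := c) (Tch := fun n d w => Tch ε i n d w)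
    (E := fun n d x w => E ε i n d x w) hΦ hf h1 hmean hε l6 hR hR' hT hγ hγ₀ hg hρ hc s1 x1 g1
    (fun n w hw => by
      filter_upwards [hdet ε hε l4 i n w hw] with d hd ht
      rcases hd ht with h | ⟨h, h'⟩
      · exact Or.inl (s2 n d w hw h)
      · refine Or.inr ⟨h, ?_⟩
        filter_upwards [h'] with x hx hEx
        rcases hx hEx with h | h | h
        · exact Or.inl (x2 n x w hw h)
        · exact Or.inr (Or.inl h)
        · exact Or.inr (Or.inr (g2 n (d, x) w hw h)))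
  refine key.trans ?_
  calc (∫⁻ d, gcE f₀ ε (fun n w => GS n (d, w)) ∂μ) +
        (1 + c) * (cN0 * (mn * (∫⁻ x, gcE f₀ ε (fun n w => GX n (x, w)) ∂μ) +
          gcE f₀ ε (Conc984.exc f₀ ε Conc984.en))) +
        c * cM * ENNReal.ofReal ε ^ 2 * (cN1 * mn) +
        c * ∫⁻ p, gcE f₀ ε (fun n w => GE n (p, w)) ∂μ.prod μ
      ≤ η + (1 + c) * (cN0 * (mn * η + η)) + η + c * η := by
        refine add_le_add (add_le_add (add_le_add s3 ?_) h8.le) (mul_le_mul_right g3 _)
        exact mul_le_mul_right (mul_le_mul_right (add_le_add (mul_le_mul_right x3 _) h7.le) _) _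
    _ = A * η := by
        rw [hA]
        ring
    _ = δ := hAη

/-- The link alternatives of `errB` for one `K`, in the shape of helper973's `fNull_cap_of_det`:
structure = the base line `d` (touched in the window, near the gas), independent line `x`. -/
def ErrBFam (Φ : Space3 → ℝ) (f₀ : PhasePoint → ℝ) (Q : EPar) (K : ℕ) : Prop :=
  ∃ (RS HS RX HX : ℕ → ℝ → Unit → (n : ℕ) → ML → Config n → Prop)
    (HJ : ℕ → ℝ → Unit → (n : ℕ) → ML × ML → Config n → Prop),
    (∀ δ : ℝ≥0∞, 0 < δ → ∃ L₀ : ℕ, ∀ L, L₀ ≤ L →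
      GLe f₀ (fun _ (_ : Unit) => lineM Q.γ Q.ρ K Q.te) (RS L) δ) ∧
    (∀ δ : ℝ≥0∞, 0 < δ → ∃ L₀ : ℕ, ∀ L, L₀ ≤ L →
      GLe f₀ (fun _ (_ : Unit) => lineM Q.γ Q.ρ K Q.te) (RX L) δ) ∧
    (∀ L, GNull f₀ (fun _ (_ : Unit) => lineM Q.γ Q.ρ K Q.te) (HS L)) ∧
    (∀ L, GNull f₀ (fun _ (_ : Unit) => lineM Q.γ Q.ρ K Q.te) (HX L)) ∧
    (∀ L, GNull f₀ (fun _ (_ : Unit) => (lineM Q.γ Q.ρ K Q.te).prod (lineM Q.γ Q.ρ K Q.te))
      (HJ L)) ∧
    ∀ L : ℕ, ∃ (BS BX : ℝ → ℝ → ℝ → Unit → (n : ℕ) → ML → Config n → Prop)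
      (BJ : ℝ → ℝ → ℝ → Unit → (n : ℕ) → ML × ML → Config n → Prop),
      BadF f₀ (fun _ (_ : Unit) => lineM Q.γ Q.ρ K Q.te) BS ∧
      BadF f₀ (fun _ (_ : Unit) => lineM Q.γ Q.ρ K Q.te) BX ∧
      BadF f₀ (fun _ (_ : Unit) => (lineM Q.γ Q.ρ K Q.te).prod (lineM Q.γ Q.ρ K Q.te)) BJ ∧
      ∀ R > 0, ∀ ς > 0, ∃ R' T ε₁ : ℝ, 0 < R' ∧ 0 ≤ T ∧ 0 < ε₁ ∧ ∀ ε : ℝ, 0 < ε → ε < ε₁ →
        ∀ (n : ℕ), ∀ w ∈ PairExcluded ε n, ∀ᵐ d ∂lineM Q.γ Q.ρ K Q.te,
        WinTch Φ ε K Q w d → Near Φ ε 1 Q.te w d.1 →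
        (RS L ε () n d w ∨ BS R ς ε () n d w ∨ HS L ε () n d w) ∨
        ∀ᵐ x ∂lineM Q.γ Q.ρ K Q.te, ¬ W1E Φ ε K Q.te (MW.cfg w) (MW.line d) (MW.line x) →
          (RX L ε () n x w ∨ BX R ς ε () n x w ∨ HX L ε () n x w) ∨
          (Meet ε R' T d.1 x.1 ∨ BJ R ς ε () n (d, x) w ∨ HJ L ε () n (d, x) w)

/-- **`errB` is null**, family form. -/
theorem null_errB_fam (hΦ : AdmissiblePotential Φ) (hf : Measurable f₀)
    (h1 : ∫⁻ z, ENNReal.ofReal (f₀ z) ≤ 1) (hmean : Conc984.mean f₀ Conc984.en ≠ ∞)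
    (hexc : Tendsto (fun ε => gcE f₀ ε (Conc984.exc f₀ ε Conc984.en)) (𝓝[>] 0) (𝓝 0))
    {Q : EPar} (hte : 0 ≤ Q.te) (hγ : Measurable Q.γ)
    (hγ₀ : ∀ τ ∈ Ioc (0 : ℝ) Q.te, g0 ≤ Q.γ τ) (hg : 0 < g0) (hρ : Q.ρ ≠ ∞)
    (hdet : ∀ K, ErrBFam Φ f₀ Q K) : Null fun K ε => H5994.errB Φ f₀ ε K Q := by
  classical
  intro K δ hδ
  obtain ⟨RS, HS, RX, HX, HJ, hRS, hRX, hHS, hHX, hHJ, hdet⟩ := hdet K
  obtain ⟨ε₀, e0, h⟩ := errB_gate_le (I := Unit) (R := 1) (te := Q.te)
    (γ := Q.γ) (ρm := Q.ρ) (K := K) (c := ENNReal.ofReal Q.L)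
    (Tch := fun ε _ n d w => WinTch Φ ε K Q w d)
    (E := fun ε _ n d x w => ¬ W1E Φ ε K Q.te (MW.cfg w) (MW.line d) (MW.line x))
    hΦ hf h1 hmean hexc one_pos hγ hγ₀ hg hρ ENNReal.ofReal_ne_top
    (fun η hη => by
      obtain ⟨δ', hδ', hle⟩ : ∃ δ' : ℝ≥0∞, 0 < δ' ∧ δ' + (δ' + δ') ≤ η := by
        rcases eq_or_ne η ∞ with rfl | hηt
        · exact ⟨1, one_pos, le_top⟩
        · refine ⟨η / 3, ENNReal.div_pos hη.ne' (by norm_num), le_of_eq ?_⟩
          have h3 : η / 3 + (η / 3 + η / 3) = 3 * (η / 3) := by ring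
          rw [h3]
          exact ENNReal.mul_div_cancel (by norm_num) (by norm_num)
      obtain ⟨L₁, hL₁⟩ := hRS δ' hδ'
      obtain ⟨L₂, hL₂⟩ := hRX δ' hδ'
      set L := max L₁ L₂ with hL
      obtain ⟨BS, BX, BJ, hBS, hBX, hBJ, hdet⟩ := hdet L
      obtain ⟨R₁, hR₁, ς₁, hς₁, hBS⟩ := hBS δ' hδ'
      obtain ⟨R₂, hR₂, ς₂, hς₂, hBX⟩ := hBX δ' hδ'
      obtain ⟨R₃, hR₃, ς₃, hς₃, hBJ⟩ := hBJ δ' hδ'
      set R := max R₁ (max R₂ R₃) with hR
      set ς := min ς₁ (min ς₂ ς₃) with hς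
      have hR0 : 0 < R := lt_max_of_lt_left hR₁
      have hς0 : 0 < ς := lt_min hς₁ (lt_min hς₂ hς₃)
      obtain ⟨R', T, ε₁, hR', hT, h0, hd⟩ := hdet R hR0 ς hς0
      have gS := (hL₁ L (le_max_left _ _)).or hf
        ((hBS R ς (le_max_left _ _) hς0 (min_le_left _ _)).or hf (hHS L δ' hδ'))
      have gX := (hL₂ L (le_max_right _ _)).or hf
        ((hBX R ς ((le_max_left _ _).trans (le_max_right _ _)) hς0
          ((min_le_right _ _).trans (min_le_left _ _))).or hf (hHX L δ' hδ'))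
      have gJ := (hBJ R ς ((le_max_right _ _).trans (le_max_right _ _)) hς0
          ((min_le_right _ _).trans (min_le_right _ _))).or hf (hHJ L δ' hδ')
      refine ⟨R', T, _, _, _, hR', hT, gS.mono hle ⟨1, one_pos, fun _ _ _ _ _ _ _ _ h => h⟩,
        gX.mono hle ⟨1, one_pos, fun _ _ _ _ _ _ _ _ h => h⟩,
        gJ.mono (le_add_self.trans hle) ⟨1, one_pos, fun _ _ _ _ _ _ _ _ h => h⟩,
        ε₁, h0, fun ε hε hlt _ n w hw => ?_⟩
      filter_upwards [hd ε hε hlt n w hw, Unw410.ae_lineM hΦ hε w Q.γ Q.ρ K Q.te]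
        with d hd hd2 ht
      have hn : Near Φ ε 1 Q.te w d.1 :=
        near_of_thetaL_le' hΦ hε hw (Unw410.ins_ok hΦ hε hw hd2.1.1.1 hd2.1.2) hd2.1.1.1.le
          hd2.2.2 hte ht.2
      rcases hd ht hn with h | h
      · exact Or.inl h
      · refine Or.inr ⟨hn, ?_⟩
        filter_upwards [h] with x hx hE
        rcases hx hE with h | h | h | h
        · exact Or.inl h
        · exact Or.inr (Or.inl h)
        · exact Or.inr (Or.inr (Or.inl h))
        · exact Or.inr (Or.inr (Or.inr h))) (ENNReal.ofReal_pos.2 hδ)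
  refine ⟨ε₀, e0, fun ε hε hlt => ?_⟩
  exact (errB_eq hΦ hε K Q).le.trans (h ε hε hlt ())

/-- **`errB` is null for the data of the theorem**, family form. -/
theorem null_errB_fam_of_kdata {β T : ℝ} {f : ℝ → PhasePoint → ℝ}
    (hD : Master566.KData Φ β T f₀ f)
    {g1 : ℝ} {r1 : ℝ≥0∞} {γ : ℝ → ℝ} {ρ : ℝ≥0∞} (hl : Top602.LinePar g1 r1 T γ ρ)
    {L tw te h : ℝ} (hw : Top602.Win h T tw te)
    (hdet : ∀ K, ErrBFam Φ f₀ (Top602.epar γ ρ L tw te) K) :
    Null fun K ε => H5994.errB Φ f₀ ε K (Top602.epar γ ρ L tw te) := by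
  obtain ⟨hγ, γ₀, hγp, hγ₀⟩ := Direct658.exists_rate hl
  have hβ : 0 < 2 * β := by linarith [hD.beta_pos]
  obtain ⟨R, hRt, hR⟩ := exists_position_density_bound hD.beta_pos hD.gaussian
  obtain ⟨hmean, h2⟩ := Conc984.mean_en_ne_top hβ hD.gaussian
  have hf : Measurable f₀ := hD.contDiff.continuous.measurable
  exact null_errB_fam hD.adm hf (Q1815.lintegral_mass hD).le hmean
    (Conc984.tendsto_gcE_exc hf (Q1815.lintegral_mass hD).le hRt hR Conc984.measurable_en hmean h2)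
    (hw.nonneg.trans hw.le) hγ (fun τ hτ => hγ₀ τ (hτ.2.trans hw.le_T)) hγp
    (hl.hi.trans_le le_top).ne hdet

end Crest.Agent.R122.ErrB823

end
end

-- ▼ part R122/ErrSkel_815
section

/-!
helper815, row 122: the null errors of the spread terms (`errA`, `errB`) in the windows.

* `exNull` : the exceptional events of one tree (root line included) are null (helper291, 399);
* `errA_win` : the errors of SP-A are null, from the null test lines `lkX` of helper335;
* `TLNullIn`, `ErrBFamIn` : the two open leaves; `errAIn`, `errBIn`.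
-/

set_option autoImplicit false
set_option linter.unusedSectionVars false

open MeasureTheory Set Filter
open scoped ENNReal Topology
open Crest.AnalysisR.Kinetic
open Crest.Agent.R122.Kin796 Crest.Agent.R122.Kin796.CTree Crest.Agent.R122.Tree674
open Crest.Agent.R122.EDefs602 Crest.Agent.R122.TreeLines335 Crest.Agent.R122.LineMeas994
open Crest.Agent.R122.GC311 Crest.Agent.R122.Decomp811 Crest.Agent.R122.Master566
open Crest.Agent.R122.InEq2 Crest.Agent.R122.InEq2T Crest.Agent.R122.H5994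
open Crest.Agent.R122.Top602

noncomputable section

namespace Crest.Agent.R122.ErrAB815

open scoped Classical

variable {Φ : Space3 → ℝ} {f₀ : PhasePoint → ℝ} {f : ℝ → PhasePoint → ℝ} {β T : ℝ}

/-- **The exceptional events of one tree are null**, root line included. -/
theorem exNull (hD : KData Φ β T f₀ f) {te : ℝ} (hte : 0 < te) : ExNull Φ f₀ te te :=
  exNull_of_tNull fun K => LNRoot291.tNull_goodT hD.adm (by linarith [hD.beta_pos] : 0 < 2 * β)
    hD.contDiff.continuous hD.gaussian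
    (FM167.lintegral_density_eq_one hD.nonneg hD.integrable hD.mass).le hte le_rfl
    (LNTree399.ratR hD.adm K K)

/-- No lines are born in an empty time interval. -/
theorem lineM_zero {γ : ℝ → ℝ} (hγ : Measurable γ) {ρ : ℝ≥0∞} {K : ℕ} {te : ℝ} (hte : te ≤ 0) :
    lineM γ ρ K te = 0 := by
  have h := EBasic602.lineM_ae hγ (ρ := ρ) (K := K) (T := te)
  rw [← Measure.measure_univ_eq_zero]
  refine measure_mono_null (fun l _ => ?_) (ae_iff.1 h)
  intro hl
  exact absurd (hl.1.trans_le hl.2.1) (not_lt.2 hte)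

/-- Null test lines of `errA`, trees which are real up to `te` in helper994's sense. -/
theorem xNull_GT (hD : KData Φ β T f₀ f) {Q : EPar} (hγ : Measurable Q.γ) (T' : ℝ)
    (hX : 0 < Q.te → XNull Φ f₀ Q.te Q.te Q.γ Q.ρ fun K ε P z _ w => lkX Φ ε K Q.te P z w) :
    XNull Φ f₀ Q.te Q.te Q.γ Q.ρ fun K ε P z m w =>
      {l | GT Φ Q T' ε P ⟨m, w⟩ z ∧
        l ∈ badF Φ ε K Q.te (MW.cfg w) (AT Φ ε P z) (lineMM Φ ε P z)} := by
  have hf : Measurable f₀ := hD.contDiff.continuous.measurable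
  rcases le_or_gt Q.te 0 with hte | hte
  · intro K δ _
    refine ⟨1, one_pos, fun ε _ _ => ⟨fun _ _ _ _ => 0, fun _ _ => measurable_const, ?_, ?_⟩⟩
    · intro P z m w _ _ _ _ _
      rw [lineM_zero hγ hte]
      simp
    · simp only [mul_zero]
      rw [InEq2.TS_zero]
      exact bot_le
  · refine (xNull_lkA hD.adm hf hte hγ (hX hte) (exNull hD hte)).mono
      fun K ε hε P z m w hP hV hS hw hp => measure_mono fun l hl => ⟨hl.1.2, ?_⟩
    have e : AT Φ ε P z = RealL811.treeW Φ ε P z := TreeInM823.treeW_eq hV.1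
    rw [← e]
    exact hl.2

/-- **The errors of SP-A are null** in one window. -/
theorem errA_win (hD : KData Φ β T f₀ f) {Q : EPar} (hγ : Measurable Q.γ) (htw : 0 ≤ Q.tw) (T' : ℝ)
    (hX : 0 < Q.te → XNull Φ f₀ Q.te Q.te Q.γ Q.ρ fun K ε P z _ w => lkX Φ ε K Q.te P z w) :
    Null fun K ε => TS Φ f₀ ε Q.te (errAc Φ Q T' K ε) :=
  errA_null hD.adm htw (xNull_GT hD hγ T' hX)

/-! ### The windows -/

/-- **Open leaf (TL)** : the test lines which are not good for the tree (helper335's `lkX`) are null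
at every horizon. -/
def TLNullIn (Φ : Space3 → ℝ) (f₀ : PhasePoint → ℝ) (T : ℝ) : Prop :=
  InHL T fun _ γ ρ => ∀ te : ℝ, 0 < te → te ≤ T →
    XNull Φ f₀ te te γ ρ fun K ε P z _ w => lkX Φ ε K te P z w

/-- **Open leaf (L)** : two independent lines, one touched in the window (helper823's family
form). -/
def ErrBFamIn (Φ : Space3 → ℝ) (f₀ : PhasePoint → ℝ) (T : ℝ) : Prop :=
  InHL T fun _ γ ρ => ∀ h L tw te : ℝ, 1 ≤ L → Win h T tw te → ∀ K : ℕ,
    ErrB823.ErrBFam Φ f₀ (epar γ ρ L tw te) K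

/-- **The errors of SP-A in the windows.** -/
theorem errAIn (hD : KData Φ β T f₀ f) (h : TLNullIn Φ f₀ T) :
    InHL T fun _ γ ρ => EvW T fun _ L tw te => ∀ T' : ℝ,
      Null fun K ε => TS Φ f₀ ε te (errAc Φ (epar γ ρ L tw te) T' K ε) :=
  h.mono fun _ γ ρ _ hl hX => by
    obtain ⟨g1, r1, hl⟩ := hl
    exact EvW.of_forall fun _ L tw te _ _ _ hw T' =>
      errA_win (Q := epar γ ρ L tw te) hD hl.measurable hw.nonneg T' fun hte => hX te hte hw.le_T

/-- **The errors of SP-B in the windows.** -/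
theorem errBIn (hD : KData Φ β T f₀ f) (h : ErrBFamIn Φ f₀ T) :
    InHL T fun _ γ ρ => EvW T fun _ L tw te =>
      Null fun K ε => H5994.errB Φ f₀ ε K (epar γ ρ L tw te) :=
  h.mono fun _ γ ρ _ hl hX => by
    obtain ⟨g1, r1, hl⟩ := hl
    exact EvW.of_forall fun h' L tw te _ _ hL hw =>
      ErrB823.null_errB_fam_of_kdata hD hl hw (hX h' L tw te hL hw)

/-- **Both errors in the windows** (helper814's `NullAB`), any horizon `T'`. -/
theorem nullABIn (hD : KData Φ β T f₀ f) (hA : TLNullIn Φ f₀ T) (hB : ErrBFamIn Φ f₀ T) :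
    InHL T fun _ γ ρ => EvW T fun _ L tw te => IH Φ f₀ f T γ ρ tw → ∀ T' : ℝ,
      H5Top814.NullAB Φ f₀ (epar γ ρ L tw te) T' :=
  ((errAIn hD hA).and (errBIn hD hB)).mono fun _ _ _ _ _ hq =>
    (hq.1.and hq.2).mono fun _ _ _ _ _ _ _ hp _ T' => ⟨hp.1 T', hp.2⟩

end Crest.Agent.R122.ErrAB815

end
end

-- ▼ part R122/ErrFin_815
section

/-!
helper815, row 122: `TLNullIn` (null test lines at the tree horizon `T' = te`) from helper311's gateway.

* `ctx_of` : helper311's context from `KData` and the line parameters, any tree horizon `T' ≥ te`;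
* `xNull_lkX` : helper335's `lkX` is null, from `OkXae` and `TLDet` at the same horizons;
* `tlNullIn_of` : the leaf `TLNullIn`.
-/

set_option autoImplicit false
set_option linter.unusedSectionVars false

open MeasureTheory Set Filter
open scoped ENNReal Topology
open Crest.AnalysisR.Kinetic
open Crest.Agent.R122.Kin796 Crest.Agent.R122.Kin796.CTree Crest.Agent.R122.Tree674
open Crest.Agent.R122.EDefs602 Crest.Agent.R122.GC311 Crest.Agent.R122.Master566
open Crest.Agent.R122.InEq2 Crest.Agent.R122.InEq2T Crest.Agent.R122.Top602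
open Crest.Agent.R122.TL311

noncomputable section

namespace Crest.Agent.R122.ErrAB815

open scoped Classical

variable {Φ : Space3 → ℝ} {f₀ : PhasePoint → ℝ} {f : ℝ → PhasePoint → ℝ} {β T : ℝ}
  {γ : ℝ → ℝ} {ρ : ℝ≥0∞}

/-- helper311's context, tree horizon `T' ≥ te`. -/
theorem ctx_of (hD : KData Φ β T f₀ f) {g1 : ℝ} {r1 : ℝ≥0∞} (hl : LinePar g1 r1 T γ ρ)
    {te T' : ℝ} (hte : 0 ≤ te) (hT : te ≤ T) (hT' : te ≤ T') :
    ∃ g : ℝ, Ctx Φ f₀ β T' te g γ ρ := by
  obtain ⟨g0, κ, hκ, hγ, hpos, -⟩ := hl.lin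
  refine ⟨min (g0 - κ * T) β, hD.adm, hD.contDiff.continuous, hD.gaussian,
    (FM167.lintegral_density_eq_one hD.nonneg hD.integrable hD.mass).le, hte.trans hT', hT',
    lt_min hpos hD.beta_pos, min_le_right _ _, fun τ hτ => (min_le_left _ _).trans ?_,
    hl.measurable, (hl.hi.trans ENNReal.one_lt_top).ne⟩
  rw [hγ]
  have := mul_le_mul_of_nonneg_left (hτ.2.trans hT) hκ.le
  show g0 - κ * T ≤ g0 - κ * τ
  linarith

/-- **Null test lines**, any tree horizon `T' ≥ te`. -/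
theorem xNull_lkX (hD : KData Φ β T f₀ f) {g1 : ℝ} {r1 : ℝ≥0∞} (hl : LinePar g1 r1 T γ ρ)
    {te T' : ℝ} (hte : 0 < te) (hT : te ≤ T) (hT' : te ≤ T') (hO : OkXae Φ T' te)
    (hd : TLDet Φ T' te) : XNull Φ f₀ T' te γ ρ fun K ε P z _ w => lkX Φ ε K te P z w := by
  obtain ⟨g, h⟩ := ctx_of hD hl hte.le hT hT'
  refine (xNull_lkG h hO hd fun K => ?_).mono fun K ε hε P z m w _ _ _ _ _ =>
    measure_mono fun l hl => Or.inr hl
  exact LNRoot291.tNull_goodT hD.adm (by linarith [hD.beta_pos] : 0 < 2 * β)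
    hD.contDiff.continuous hD.gaussian
    (FM167.lintegral_density_eq_one hD.nonneg hD.integrable hD.mass).le (hte.trans_le hT') hT'
    (LNTree399.ratR hD.adm K K)

/-- **The leaf `TLNullIn`.** -/
theorem tlNullIn_of (hD : KData Φ β T f₀ f) (hO : ∀ te : ℝ, 0 < te → OkXae Φ te te)
    (hd : ∀ te : ℝ, 0 < te → TLDet Φ te te) : TLNullIn Φ f₀ T :=
  ⟨1, one_pos, 1, one_pos, 0, zero_lt_one, fun _ _ _ _ _ hl te hte hT =>
    xNull_lkX hD hl hte hT le_rfl (hO te hte) (hd te hte)⟩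

end Crest.Agent.R122.ErrAB815

end
end

-- ▼ part R122/ErrBBind_823
section

/-!
# Row 122 (helper823): binding of the gate of `errB`

The structure and the independent line are two lines of law `lineM`.

* `gLe_runX_t`, `badF_two`, `gNull_hitN_line` : runs, bad partitions of two lines, bad hits of a line.
* `ErrBAlt` : the pure deterministic statement (helper818's `err_alt`): not world consistent implies
  `XAlt` of `d`, `XAlt` of `x`, a direct meeting, or a bad partition of the two lines and the gas.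
* `errBFam_of_alt`, `null_errB_of_alt` : `ErrBAlt` gives `Null (fun K ε => H5994.errB ..)`.
-/

set_option autoImplicit false
set_option linter.unusedSectionVars false

open MeasureTheory Set Filter Topology
open scoped ENNReal
open Crest.AnalysisR.Kinetic
open Crest.Agent.R122.GC311 Crest.Agent.R122.EDefs602 Crest.Agent.R122.Decomp811
open Crest.Agent.R122.TouchFlux494 (Near near_of_thetaL_le')
open Crest.Agent.R122.Gate424 Crest.Agent.R122.Gate973 Crest.Agent.R122.LN2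
open Crest.Agent.R122.LinkM547 Crest.Agent.R122.BH167 Crest.Agent.R122.X692
open Crest.Agent.R122.TL311

noncomputable section

namespace Crest.Agent.R122.ErrB823

variable {Φ : Space3 → ℝ} {f₀ : PhasePoint → ℝ} {β T te g : ℝ} {γ : ℝ → ℝ} {ρ : ℝ≥0∞}

/-! ### Ingredients -/

/-- Runs from the line, horizon `te`. -/
theorem gLe_runX_t (h : Ctx Φ f₀ β T te g γ ρ) (K K₂ : ℕ) {δ : ℝ≥0∞} (hδ : 0 < δ) :
    ∃ L₀ : ℕ, ∀ L, L₀ ≤ L → GLe f₀ (fun _ (_ : Unit) => lineM γ ρ K te)
      (fun ε _ _ l w => Run Φ ε te K₂ L (MW.line l) () w) δ := by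
  have h1 : 2 * (g / 2) ≤ 2 * β := by
    have := h.g_pos
    have := h.g_le
    linarith
  obtain ⟨env, A, hA, hE⟩ := exists_envB h1 h.gauss
  exact gLe_runX (I := Unit) h.adm (half_pos h.g_pos) (half_lt_self h.g_pos) h.te_le h.T_nonneg hA
    K₂ h.hf h.mass hE h.meas h.rate h.mark K (t := fun _ => te) (fun _ => h.te_le) hδ

/-- Two lines are dominated: two groups, no anchor. -/
theorem dom_two (h : Ctx Φ f₀ β T te g γ ρ) {r : Space3 → ℝ≥0∞} {C : ℝ≥0∞} (he : Env f₀ g r C)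
    (K : ℕ) (ε : ℝ) :
    Dom g r ε 2 (∅ : Finset (Unit ⊕ Unit)) ((∑' n : ℕ, markW ρ K n) * ∑' n : ℕ, markW ρ K n)
      (prodΛ (lineΛ te) (lineΛ te)) ((lineM γ ρ K te).prod (lineM γ ρ K te))
      (fun θ => bx (fun _ : Unit => θ.1.1.1) θ.2.1.1)
      (fun θ => zx (fun _ : Unit => back θ.1.1) (back θ.2.1)) := by
  have := sf_nL (γ := γ) (ρ := ρ) (K := K) (te := te) ε ()
  exact Dom.prod he.meas (h.dom_L r K ε) (h.dom_L r K ε) le_rfl le_rfl

/-- **Bad partitions of two lines.** -/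
theorem badF_two (h : Ctx Φ f₀ β T te g γ ρ) (hCN : VLMeas973.ClassNull Φ T) (K : ℕ) (C : ℝ)
    (N : ℕ) :
    BadF f₀ (fun _ (_ : Unit) => (lineM γ ρ K te).prod (lineM γ ρ K te)) (fun R ς ε _ _ p w =>
      BadGas Φ T C R ς ε N 2 (∅ : Finset (Unit ⊕ Unit)) (bx (fun _ : Unit => p.1.1.1) p.2.1.1)
        (zx (fun _ : Unit => back p.1.1) (back p.2.1)) w) := by
  obtain ⟨r, C₀, he, heg⟩ := h.exists_env
  refine badF_badGas (I := Unit) (m := fun _ _ => (lineM γ ρ K te).prod (lineM γ ρ K te))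
    hCN h.hf h.mass heg h.g_pos C N (s := 2) ?_ (∅ : Finset (Unit ⊕ Unit))
    (c := (∑' n : ℕ, markW ρ K n) * ∑' n : ℕ, markW ρ K n)
    (ENNReal.mul_ne_top (sum_markW_ne_top h.mark K) (sum_markW_ne_top h.mark K))
    (prodΛ (lineΛ te) (lineΛ te))
    (b := fun _ _ p => bx (fun _ : Unit => p.1.1.1) p.2.1.1)
    (z := fun _ _ p => zx (fun _ : Unit => back p.1.1) (back p.2.1))
    (fun _ _ => inferInstance) fun ε _ _ => dom_two h heg K ε
  rw [Fintype.card_sum, Fintype.card_unit]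

/-- Bad hits of a line, non-localised form. -/
theorem gNull_hitN_line (h : Ctx Φ f₀ β T te g γ ρ) {T₁ : ℝ} (hT₁ : 0 ≤ T₁) (K : ℕ) (C R : ℝ)
    (N K₁ : ℕ) :
    GNull f₀ (fun _ (_ : Unit) => lineM γ ρ K te) (fun ε _ _ l w =>
      BadHitGasN (bpos Φ T₁ T) Φ T C R ε N K₁ 1 (∅ : Finset Unit) (fun _ => l.1.1)
        (fun _ => back l.1) w) := by
  obtain ⟨r, C₀, he, heg⟩ := h.exists_env
  exact gNull_badPosN (I := Unit) (m := fun _ _ => lineM γ ρ K te) h.adm h.T_nonneg T hT₁ h.hf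
    h.mass heg h.g_pos C R N K₁ (s := 1) le_rfl ∅ (c := ∑' n : ℕ, markW ρ K n)
    (sum_markW_ne_top h.mark K) (lineΛ te)
    (b := fun _ _ l _ => l.1.1) (z := fun _ _ l _ => back l.1) (fun _ _ => inferInstance)
    (fun ε _ _ => h.dom_L r K ε)

/-! ### The deterministic statement -/

/-- **The pure deterministic statement** for the two lines `d`, `x` of `errB`. `Kr` : bound of the
sizes in the runs (may depend on `K`). -/
def ErrBAlt (Φ : Space3 → ℝ) (T T₁ : ℝ) (Q : EPar) (K Kr : ℕ) : Prop :=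
  ∀ L : ℕ, ∃ (N : ℕ) (C : ℝ), ∀ R > 0, ∀ ς > 0, ∃ R' ε₁ : ℝ, 0 < R' ∧ 0 < ε₁ ∧
    ∀ ε : ℝ, 0 < ε → ε < ε₁ → ∀ (n : ℕ), ∀ w ∈ PairExcluded ε n,
    ∀ᵐ d ∂lineM Q.γ Q.ρ K Q.te, ∀ᵐ x ∂lineM Q.γ Q.ρ K Q.te,
      WinTch Φ ε K Q w d → Near Φ ε 1 Q.te w d.1 →
      ¬ W1E Φ ε K Q.te (MW.cfg w) (MW.line d) (MW.line x) →
      XAlt Φ T T₁ Q.te C R ς ε Kr L N d w ∨ XAlt Φ T T₁ Q.te C R ς ε Kr L N x w ∨
      Meet ε R' T d.1 x.1 ∨
      BadGas Φ T C R ς ε N 2 (∅ : Finset (Unit ⊕ Unit)) (bx (fun _ : Unit => d.1.1) x.1.1)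
        (zx (fun _ : Unit => back d.1) (back x.1)) w

/-- **The binding.** -/
theorem errBFam_of_alt {Q : EPar} (h : Ctx Φ f₀ β T Q.te g Q.γ Q.ρ)
    (hCN : VLMeas973.ClassNull Φ T) {T₁ : ℝ} (hT₁ : 0 ≤ T₁) {K Kr : ℕ}
    (halt : ErrBAlt Φ T T₁ Q K Kr) : ErrBFam Φ f₀ Q K := by
  choose N C halt using halt
  refine ⟨fun L ε _ n d w => Run Φ ε Q.te Kr L (MW.line d) () w,
    fun L ε _ n d w => BadHitGasN (bpos Φ T₁ T) Φ T (C L) 1 ε (N L) (N L) 1 (∅ : Finset Unit)
      (fun _ => d.1.1) (fun _ => back d.1) w,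
    fun L ε _ n d w => Run Φ ε Q.te Kr L (MW.line d) () w,
    fun L ε _ n d w => BadHitGasN (bpos Φ T₁ T) Φ T (C L) 1 ε (N L) (N L) 1 (∅ : Finset Unit)
      (fun _ => d.1.1) (fun _ => back d.1) w, fun _ _ _ _ _ _ => False, ?_, ?_, ?_, ?_, ?_, ?_⟩
  · exact fun δ hδ => gLe_runX_t h K Kr hδ
  · exact fun δ hδ => gLe_runX_t h K Kr hδ
  · exact fun L => gNull_hitN_line h hT₁ K (C L) 1 (N L) (N L)
  · exact fun L => gNull_hitN_line h hT₁ K (C L) 1 (N L) (N L)
  · intro L δ _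
    exact (GLe.zero f₀ _).mono bot_le ⟨1, one_pos, fun _ _ _ _ _ _ _ _ h => h⟩
  · intro L
    refine ⟨fun R ς ε _ _ l w => BadGas Φ T (C L) R ς ε (N L) 1 (∅ : Finset Unit)
      (fun _ => l.1.1) (fun _ => back l.1) w,
      fun R ς ε _ _ l w => BadGas Φ T (C L) R ς ε (N L) 1 (∅ : Finset Unit)
      (fun _ => l.1.1) (fun _ => back l.1) w, fun R ς ε _ _ p w =>
      BadGas Φ T (C L) R ς ε (N L) 2 (∅ : Finset (Unit ⊕ Unit))
        (bx (fun _ : Unit => p.1.1.1) p.2.1.1) (zx (fun _ : Unit => back p.1.1) (back p.2.1)) w,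
      h.badF_L hCN K (C L) (N L), h.badF_L hCN K (C L) (N L), badF_two h hCN K (C L) (N L), ?_⟩
    intro R hR ς hς
    obtain ⟨R', ε₁, hR', h0, hd⟩ := halt L R hR ς hς
    refine ⟨R', T, ε₁, hR', h.T_nonneg, h0, fun ε hε hlt n w hw => ?_⟩
    filter_upwards [hd ε hε hlt n w hw] with d hd ht hn
    by_cases hX : XAlt Φ T T₁ Q.te (C L) R ς ε Kr L (N L) d w
    · exact Or.inl hX
    · refine Or.inr ?_
      filter_upwards [hd] with x hx hE
      rcases hx ht hn hE with h | h | h | h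
      · exact absurd h hX
      · exact Or.inl h
      · exact Or.inr (Or.inl h)
      · exact Or.inr (Or.inr (Or.inl h))


end Crest.Agent.R122.ErrB823

end
end

-- ▼ part R122/NullABFin_815
section

/-!
# Row 122 (helper815): the null errors of the spread terms in the windows, closed

* `tlNull` : **the test lines which are not good for the tree are null** (`TLNullIn`), from `KData`.
* `errBFamIn_of` : `ErrBFamIn` from the deterministic statement `ErrBAlt` of helper823.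
* `nullAB_of` : `NullAB` of helper814 in the windows, from `ErrBAlt`.
-/

set_option autoImplicit false
set_option linter.unusedSectionVars false

open MeasureTheory Set Filter
open scoped ENNReal Topology
open Crest.AnalysisR.Kinetic
open Crest.Agent.R122.EDefs602 Crest.Agent.R122.GC311 Crest.Agent.R122.Master566
open Crest.Agent.R122.Top602

noncomputable section

namespace Crest.Agent.R122.ErrAB815

open scoped Classical

variable {Φ : Space3 → ℝ} {f₀ : PhasePoint → ℝ} {f : ℝ → PhasePoint → ℝ} {β T : ℝ}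

/-- **The test lines which are not good for the tree are null**, all windows. -/
theorem tlNull (hD : KData Φ β T f₀ f) : TLNullIn Φ f₀ T :=
  tlNullIn_of hD (fun te hte => LnN291.okXae hD.adm hte.le te)
    fun _ hte => LnN291.tlDet hD.adm hte le_rfl

/-- `ErrBFamIn` from the deterministic statement for two lines. -/
theorem errBFamIn_of (hD : KData Φ β T f₀ f)
    (halt : ∀ (g1 : ℝ) (r1 : ℝ≥0∞) (γ : ℝ → ℝ) (ρ : ℝ≥0∞), LinePar g1 r1 T γ ρ →
      ∀ L tw te : ℝ, te ≤ T → ∀ K : ℕ, ∃ (T₁ : ℝ) (Kr : ℕ), 0 ≤ T₁ ∧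
        ErrB823.ErrBAlt Φ T T₁ (epar γ ρ L tw te) K Kr) : ErrBFamIn Φ f₀ T := by
  refine ⟨1, one_pos, 1, one_pos, 0, zero_lt_one, fun _ _ _ γ ρ hl h L tw te _ hw K => ?_⟩
  obtain ⟨g, hc⟩ := ctx_of hD hl (hw.nonneg.trans hw.le) hw.le_T hw.le_T
  obtain ⟨T₁, Kr, h1, h2⟩ := halt 1 0 γ ρ hl L tw te hw.le_T K
  exact ErrB823.errBFam_of_alt (Q := epar γ ρ L tw te) hc (Gate973.classNull hD.adm hD.T_pos) h1 h2

/-- **Both errors in the windows**, from the deterministic statement for two lines. -/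
theorem nullAB_of (hD : KData Φ β T f₀ f)
    (halt : ∀ (g1 : ℝ) (r1 : ℝ≥0∞) (γ : ℝ → ℝ) (ρ : ℝ≥0∞), LinePar g1 r1 T γ ρ →
      ∀ L tw te : ℝ, te ≤ T → ∀ K : ℕ, ∃ (T₁ : ℝ) (Kr : ℕ), 0 ≤ T₁ ∧
        ErrB823.ErrBAlt Φ T T₁ (epar γ ρ L tw te) K Kr) :
    InHL T fun _ γ ρ => EvW T fun _ L tw te => IH Φ f₀ f T γ ρ tw → ∀ T' : ℝ,
      H5Top814.NullAB Φ f₀ (epar γ ρ L tw te) T' :=
  nullABIn hD (tlNull hD) (errBFamIn_of hD halt)

end Crest.Agent.R122.ErrAB815

end
end

-- ▼ part R122/LNLL_522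
section

/-!
# Row 122, LN1 (helper522): two independent lines `d`, `x` (the deterministic side of `ErrB`)

* `meet_of_conn` : two labels which are connected without gas meet freely.
* `det_ll` : `x ∈ badN .. (cfg w) (line d)` implies an alternative of `d` alone, of `x` alone
  (helper692's `XAlt`), a direct meeting, or a bad partition of `d`, `x` and the gas (`s = 2`).
-/

set_option autoImplicit false
set_option linter.unusedSectionVars false

open MeasureTheory Set Filter Topology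
open scoped Classical ENNReal
open Crest.AnalysisR.Kinetic
open Crest.Agent.R122.Ins45 Crest.Agent.R122.EDefs602
open Crest.Agent.R122.VL581 Crest.Agent.R122.VL581.VSys Crest.Agent.R122.VLInst442
open Crest.Agent.R122.VLMeas973 Crest.Agent.R122.LNg410
open Crest.Agent.R122.LN304 Crest.Agent.R122.LNBridge968 Crest.Agent.R122.LNPart424
open Crest.Agent.R122.LNEv818 Crest.Agent.R122.LNEv968
open Crest.Agent.R122.X692 Crest.Agent.R122.BH167 Crest.Agent.R122.Line522
open Crest.Agent.R122.Decomp811 Crest.Agent.R122.Boost969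

noncomputable section

namespace Crest.Agent.R122.LNLL522

/-! ### Two labels without gas -/

section meet

variable {J κ : Type} [Fintype J] {M : VSys J κ} {Z : J → PhasePoint} {c : ℝ} {p q : J}

/-- Two labels which stay apart on their free lines fly freely. -/
theorem st_free (hΦ : AdmissiblePotential M.Φ) (hε : 0 < M.ε) (hop : M.o ≠ some p)
    (hoq : M.o ≠ some q) (hpq : p ≠ q)
    (hfar : ∀ s ∈ Icc 0 M.T, M.ε < dist (fl s (Z p)).1 (fl s (Z q)).1) {A : Finset J}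
    (hA : ∀ y ∈ A, y = p ∨ y = q) (hp : p ∈ A) {t : ℝ} (ht : t ∈ Icc 0 M.T) :
    M.st A t Z p = fl t (Z p) := by
  by_cases hq : q ∈ A
  · have hAe : A = {p} ∪ {q} := by
      apply Finset.Subset.antisymm
      · intro x hx
        simpa using hA x hx
      · intro x hx
        rw [Finset.mem_union, Finset.mem_singleton, Finset.mem_singleton] at hx
        rcases hx with rfl | rfl
        · exact hp
        · exact hq
    have hok : ∀ r : J, M.ok {r} t Z := by
      intro r i hi _ _ j hj _ hji _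
      exact absurd ((Finset.mem_singleton.1 hj).trans (Finset.mem_singleton.1 hi).symm) hji
    have h1 := (VLInst442.st_union hΦ hε (A := {p}) (B := {q}) (Z := Z) (t := t)
      (Finset.disjoint_singleton.2 hpq) (hok p) (hok q) (fun s hs i hi j hj _ _ _ _ => by
        rw [Finset.mem_singleton] at hi hj
        rw [hi, hj, LNGraft410.st_single hΦ hε hop (hs.2.le.trans ht.2),
          LNGraft410.st_single hΦ hε hoq (hs.2.le.trans ht.2)]
        exact (hfar s ⟨hs.1, hs.2.le.trans ht.2⟩).le) t le_rfl).1 p (Finset.mem_singleton_self p)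
    rw [hAe, h1]
    exact LNGraft410.st_single hΦ hε hop ht.2
  · have hAe : A = {p} := by
      apply Finset.Subset.antisymm
      · intro x hx
        rcases hA x hx with rfl | rfl
        · exact Finset.mem_singleton_self _
        · exact absurd hx hq
      · intro x hx
        rw [Finset.mem_singleton] at hx
        exact hx ▸ hp
    rw [hAe]
    exact LNGraft410.st_single hΦ hε hop ht.2

/-- **Two labels connected without gas meet freely.** -/
theorem meet_of_conn (hΦ : AdmissiblePotential M.Φ) (hε : 0 < M.ε) (hc : 1 ≤ c)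
    (hop : M.o ≠ some p) (hoq : M.o ≠ some q) (hpq : p ≠ q) {P : Finset J}
    (hP : ∀ y, y ∈ P ↔ y = p ∨ y = q) (h : M.Conn c P Z) :
    ∃ s ∈ Icc 0 M.T, dist (fl s (Z p)).1 (fl s (Z q)).1 ≤ c * M.ε := by
  by_contra hcon
  push Not at hcon
  have hcε : M.ε ≤ c * M.ε := le_mul_of_one_le_left hε.le hc
  have hfar : ∀ s ∈ Icc 0 M.T, M.ε < dist (fl s (Z p)).1 (fl s (Z q)).1 := fun s hs =>
    hcε.trans_lt (hcon s hs)
  obtain ⟨i, hi, j, hj, t, ht, A, hA, B, hB, k, l, hiA, hjB, _, _, _, _, hd⟩ := h.2 {p}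
    (fun x hx => by
      rw [Finset.mem_singleton] at hx
      exact (hP x).2 (Or.inl hx)) (Finset.singleton_nonempty p) (fun h' => by
      have h1 : q ∈ ({p} : Finset J) := by
        rw [h']
        exact (hP q).2 (Or.inr rfl)
      exact hpq (Finset.mem_singleton.1 h1).symm)
  rw [Finset.mem_singleton] at hi
  rw [Finset.mem_sdiff, hP, Finset.mem_singleton] at hj
  have hj' : j = q := hj.1.resolve_left hj.2
  subst hi hj'
  unfold VSys.pos at hd
  rw [if_neg hop, if_neg hoq, st_free hΦ hε hop hoq hpq hfar (fun y hy => (hP y).1 (hA hy)) hiA ht,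
    st_free hΦ hε hoq hop (Ne.symm hpq) (fun s hs => by
      rw [dist_comm]
      exact hfar s hs) (fun y hy => ((hP y).1 (hB hy)).symm) hjB ht] at hd
  exact absurd hd (not_le.2 (hcon t ht))

theorem fl_back_fst (s : ℝ) (l : ℝ × PhasePoint) : (fl s (back l)).1 = posAt s l := by
  rw [LNGraft410.fl_back]
  rfl

end meet

/-! ### Two independent lines -/

variable {Φ : Space3 → ℝ} {ε t T T₁ c R ς : ℝ} {n N K m : ℕ} {w : Config n} {d x : ML}

/-- The structure is one line. -/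
theorem piS_unit : piS n Unit = {Sum.inr (Sum.inl ())} := by
  ext j
  rw [mem_piS, Finset.mem_singleton]
  exact ⟨fun ⟨_, h⟩ => h, fun h => ⟨(), h⟩⟩

theorem conn_unit {M : VSys (Fin n ⊕ (Unit ⊕ Unit)) Unit}
    {Z : Fin n ⊕ (Unit ⊕ Unit) → PhasePoint} : M.Conn c (piS n Unit) Z := by
  rw [piS_unit]
  exact LNg410.conn_singleton _

/-- **No link** between the two lines, off the alternatives. -/
theorem noLink (hΦ : AdmissiblePotential Φ) (hε : 0 < ε) (hc : 1 ≤ c) {N' : ℕ}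
    (hd : RAll1 Φ t c ε K N d w) (hx : RAll1 Φ t c ε K N' x w)
    (hJ : ¬ Joint (gsys Φ t ε n (bx (fun _ : Unit => d.1.1) x.1.1)) c
      (Sum.elim w (zx (fun _ : Unit => back d.1) (back x.1))) (piS n Unit) (px n Unit)
      (N + 1 + (N' + 1))) :
    MW.NoLink Φ ε K t (MW.cfg w) (MW.line d) (MW.line x) := by
  have hcov : ∀ u : Unit, (Sum.inr u : Fin n ⊕ Unit) ∈ uni (L1 n) := fun u => by
    rw [uni_L1]
    exact Finset.mem_singleton_self _
  have ha := XG547.reachAll_eS (S := Unit) (b := fun _ => d.1.1) (z := fun _ => back d.1)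
    (τ := x.1.1) (y := back x.1) (Λ' := L1 n) (lab := Sum.inl) (lab' := Sum.inl) hΦ hε hcov
    (fun j => by
      rw [Finset.mem_singleton]
      exact ⟨fun h => ⟨(), h⟩, fun ⟨_, h⟩ => h⟩) (fun _ => rfl) hd
  have hb := XG547.reachAll_eL (S := Unit) (b := fun _ => d.1.1) (z := fun _ => back d.1)
    (τ := x.1.1) (y := back x.1) (Λ' := L1 n) (lab := Sum.inl) (lab' := Sum.inl) hΦ hε
    (hcov ()) (fun _ => rfl) hx
  rw [Fintype.card_unit] at hb
  exact XG547.noLink_x (M := gsys Φ t ε n (bx (fun _ : Unit => d.1.1) x.1.1)) hΦ hε rfl le_rfl hc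
    conn_unit (mem_piS.2 ⟨(), rfl⟩) px_notMem_piS hJ Sum.inl_injective ha hb

/-- **The deterministic side of `ErrB`.** -/
theorem det_ll (hΦ : AdmissiblePotential Φ) (hε : 0 < ε) (ht : 0 < t) (htT : t ≤ T)
    (hT₁ : T < T₁) (hc : 1 ≤ c) (hς : 2 * (R * ε) ≤ ς) (hw : w ∈ PairExcluded ε n)
    (hd0 : 0 ≤ d.1.1) (hx0 : 0 ≤ x.1.1) (hd : ((MW.cfg w).ins d).Ok Φ ε)
    (hx : ((MW.cfg w).ins x).Ok Φ ε) (hdx : (((MW.cfg w).ins d).ins x).Ok Φ ε)
    (hN : 1 + 2 * K * (m + 2) ≤ N) {N' : ℕ}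
    (hN' : 1 + 2 * K * (m + 2) + 1 + (1 + 2 * K * (m + 2) + 1) ≤ N')
    (hb : x ∈ badN Φ ε K t (MW.cfg w) (MW.line d)) :
    XAlt Φ T T₁ t c R ς ε K m N d w ∨ XAlt Φ T T₁ t c R ς ε K m N x w ∨
      ErrB823.Meet ε c t d.1 x.1 ∨
      LN2.BadGas Φ T c R ς ε N' 2 (∅ : Finset (Unit ⊕ Unit))
        (bx (fun _ : Unit => d.1.1) x.1.1) (zx (fun _ : Unit => back d.1) (back x.1)) w := by
  have hok := Unw410.cfg_ok (Φ := Φ) hΦ hε hw
  rcases rAll1_or (T := T) (T₁ := T₁) (m := m) (N := N) hΦ hε hd0 hok hd ht htT hT₁ hc hς hw hN with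
    h1 | h1
  swap
  · exact Or.inl h1
  rcases rAll1_or (T := T) (T₁ := T₁) (m := m) (N := N) hΦ hε hx0 hok hx ht htT hT₁ hc hς hw hN with
    h2 | h2
  swap
  · exact Or.inr (Or.inl h2)
  by_cases hJ : Joint (gsys Φ t ε n (bx (fun _ : Unit => d.1.1) x.1.1)) c
      (Sum.elim w (zx (fun _ : Unit => back d.1) (back x.1))) (piS n Unit) (px n Unit)
      (1 + 2 * K * (m + 2) + 1 + (1 + 2 * K * (m + 2) + 1))
  · rcases joint_gas' (R := R) (ς := ς) hΦ hε (hJ.mono hN') with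
      h | h
    · refine Or.inr (Or.inr (Or.inl ?_))
      obtain ⟨s, hs, h3⟩ := meet_of_conn (M := gsys Φ t ε n (bx (fun _ : Unit => d.1.1) x.1.1))
        (p := px n Unit) (q := Sum.inr (Sum.inl ())) hΦ hε hc (fun h' => by cases h')
        (fun h' => by cases h') (by simp) (fun y => (@Finset.mem_insert _ (_) _ _ _).trans
          (or_congr Iff.rfl (by rw [piS_unit, Finset.mem_singleton]))) h
      have h4 : dist (fl s (back x.1)).1 (fl s (back d.1)).1 ≤ c * ε := h3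
      rw [fl_back_fst, fl_back_fst] at h4
      exact ⟨s, hs, h4⟩
    · exact Or.inr (Or.inr (Or.inr (LN2.badGasW_hor htT h).badGas))
  · exfalso
    refine hb ?_
    exact MW.W1_of_noLink hΦ hε hok hd hx hdx ht.le (noLink hΦ hε hc h1 h2 hJ)

end Crest.Agent.R122.LNLL522

end
end

-- ▼ part R122/OkPair_522
section

/-!
# Row 122 (helper522): two independent lines, good worlds almost surely

For EVERY admissible gas `w`, the worlds `w + d`, `w + x`, `w + d + x` are good for almost all pairs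
of lines `(d, x)` of law `lineM ⊗ lineM`.
-/

set_option autoImplicit false
set_option linter.unusedSectionVars false
set_option maxHeartbeats 400000

open MeasureTheory Set Filter Topology
open scoped ENNReal
open Crest.AnalysisR.Kinetic
open Crest.Agent.R122.Ins45 Crest.Agent.R122.EDefs602 Crest.Agent.R122.PairOk735

noncomputable section

namespace Crest.Agent.R122.OkPair522

variable {Φ : Space3 → ℝ} {ε : ℝ} {γ : ℝ → ℝ} {ρ : ℝ≥0∞} {K n : ℕ} {T : ℝ} {w : Config n}

theorem lineM_ac : lineM γ ρ K T ≪ lineV T := withDensity_absolutelyContinuous _ _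

/-- A line is almost surely not born on a moving point. -/
theorem ae_ne {q : ℝ → Space3} (hq : Measurable q) :
    ∀ᵐ l ∂lineM γ ρ K T, q l.1.1 ≠ l.1.2.1 := by
  refine lineM_ac.ae_le ?_
  have h1 : ∀ᵐ y ∂((volume.restrict (Ioc (0 : ℝ) T)).prod (volume : Measure PhasePoint)),
      q y.1 ≠ y.2.1 := by
    have hm : MeasurableSet {y : ℝ × PhasePoint | q y.1 = y.2.1} :=
      measurableSet_eq_fun (hq.comp measurable_fst) measurable_snd.fst
    rw [ae_iff]
    simp only [ne_eq, not_not]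
    rw [Measure.measure_prod_null hm]
    refine Eventually.of_forall fun τ => ?_
    have h2 : (Prod.mk τ ⁻¹' {y : ℝ × PhasePoint | q y.1 = y.2.1}) =
        ({q τ} : Set Space3) ×ˢ (univ : Set Space3) := by
      ext z
      simp only [mem_preimage, mem_prod, mem_singleton_iff, mem_univ, and_true]
      exact ⟨fun h => Eq.symm h, fun h => Eq.symm h⟩
    change ((volume : Measure Space3).prod (volume : Measure Space3))
      (Prod.mk τ ⁻¹' {y : ℝ × PhasePoint | q y.1 = y.2.1}) = 0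
    rw [h2, Measure.prod_prod, measure_singleton, zero_mul]
  exact Measure.quasiMeasurePreserving_fst.ae h1

/-- The birth time is almost surely different from a given time. -/
theorem ae_time_ne (a : ℝ) : ∀ᵐ l ∂lineM γ ρ K T, l.1.1 ≠ a := by
  refine lineM_ac.ae_le ?_
  have h0 : ∀ᵐ τ ∂(volume.restrict (Ioc (0 : ℝ) T)), τ ≠ a :=
    ae_restrict_of_ae (by
      rw [ae_iff]
      simp)
  have h1 : ∀ᵐ y ∂((volume.restrict (Ioc (0 : ℝ) T)).prod (volume : Measure PhasePoint)),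
      y.1 ≠ a := Measure.quasiMeasurePreserving_fst.ae h0
  exact Measure.quasiMeasurePreserving_fst.ae h1

theorem ae_prod_of {A B : Type} [MeasurableSpace A] [MeasurableSpace B] {μ : Measure A}
    {ν : Measure B} [SFinite ν] {P : A × B → Prop} (hP : MeasurableSet {p | P p})
    (h : ∀ a, ∀ᵐ b ∂ν, P (a, b)) : ∀ᵐ p ∂μ.prod ν, P p := by
  have hP' : MeasurableSet {p | ¬ P p} := hP.compl
  rw [ae_iff, Measure.measure_prod_null hP']
  refine Eventually.of_forall fun a => ?_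
  exact ae_iff.1 (h a)

theorem meas_path (hΦ : AdmissiblePotential Φ) (hε : 0 < ε) (w : Config n) {δ : Type}
    [MeasurableSpace δ] {l : δ → ML} {t : δ → ℝ} (hl : Measurable l) (ht : Measurable t)
    (i : Fin n ⊕ Unit) :
    Measurable fun a : δ => (((MW.cfg w).ins (l a)).path Φ ε (t a) i).1 := by
  have h1 : Measurable fun a : δ => ((MW.cfg w).ins (l a)).path Φ ε (t a) :=
    measurable_path_ins (w := fun _ : δ => w) (l := l) (t := t) hΦ hε measurable_const hl ht
  exact (measurable_pi_iff.1 h1 i).fst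

theorem ae_pair_ne_one (hΦ : AdmissiblePotential Φ) (hε : 0 < ε) (w : Config n)
    (i : Fin n ⊕ Unit) : ∀ᵐ p ∂(lineM γ ρ K T).prod (lineM γ ρ K T),
      (((MW.cfg w).ins p.1).path Φ ε p.2.1.1 i).1 ≠ p.2.1.2.1 := by
  have ht : Measurable fun p : ML × ML => p.2.1.1 := by fun_prop
  have hs : Measurable fun p : ML × ML => p.2.1.2.1 := by fun_prop
  have hm : Measurable fun p : ML × ML => (((MW.cfg w).ins p.1).path Φ ε p.2.1.1 i).1 :=
    meas_path hΦ hε w measurable_fst ht i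
  have hP : MeasurableSet {p : ML × ML |
      (((MW.cfg w).ins p.1).path Φ ε p.2.1.1 i).1 ≠ p.2.1.2.1} :=
    (measurableSet_eq_fun hm hs).compl
  exact ae_prod_of (P := fun p : ML × ML =>
    (((MW.cfg w).ins p.1).path Φ ε p.2.1.1 i).1 ≠ p.2.1.2.1) hP fun d =>
      ae_ne (q := fun τ => (((MW.cfg w).ins d).path Φ ε τ i).1)
        (meas_path hΦ hε w measurable_const measurable_id i)

/-- The second line is not born on a particle of `w + d`. -/
theorem ae_pair_ne (hΦ : AdmissiblePotential Φ) (hε : 0 < ε) (w : Config n) :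
    ∀ᵐ p ∂(lineM γ ρ K T).prod (lineM γ ρ K T),
      ∀ i, (((MW.cfg w).ins p.1).path Φ ε p.2.1.1 i).1 ≠ p.2.1.2.1 :=
  ae_all_iff.2 fun i => ae_pair_ne_one hΦ hε w i

/-- **Good worlds**: for every admissible gas and almost all pairs of lines. -/
theorem ae_ok (hΦ : AdmissiblePotential Φ) (hε : 0 < ε) (hw : w ∈ PairExcluded ε n) :
    ∀ᵐ p ∂(lineM γ ρ K T).prod (lineM γ ρ K T),
      (0 < p.1.1.1 ∧ p.1.1.1 ≤ T) ∧ (0 < p.2.1.1 ∧ p.2.1.1 ≤ T) ∧ ((MW.cfg w).ins p.1).Ok Φ ε ∧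
        ((MW.cfg w).ins p.2).Ok Φ ε ∧ (((MW.cfg w).ins p.1).ins p.2).Ok Φ ε := by
  have h0 := Unw410.ae_lineM hΦ hε w γ ρ K T
  have h1 : ∀ᵐ p ∂(lineM γ ρ K T).prod (lineM γ ρ K T), ((0 < p.1.1.1 ∧ p.1.1.1 ≤ T) ∧
      ∀ i, (Flow671.flow Φ ε p.1.1.1 w i).1 ≠ p.1.1.2.1) ∧ 1 ≤ p.1.2 ∧ p.1.2 ≤ K :=
    Measure.quasiMeasurePreserving_fst.ae h0
  have h2 : ∀ᵐ p ∂(lineM γ ρ K T).prod (lineM γ ρ K T), ((0 < p.2.1.1 ∧ p.2.1.1 ≤ T) ∧
      ∀ i, (Flow671.flow Φ ε p.2.1.1 w i).1 ≠ p.2.1.2.1) ∧ 1 ≤ p.2.2 ∧ p.2.2 ≤ K :=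
    Measure.quasiMeasurePreserving_snd.ae h0
  have h3 := ae_pair_ne (γ := γ) (ρ := ρ) (K := K) (T := T) hΦ hε w
  have h4 : ∀ᵐ p ∂(lineM γ ρ K T).prod (lineM γ ρ K T),
      ∀ i, (((MW.cfg w).ins p.2).path Φ ε p.1.1.1 i).1 ≠ p.1.1.2.1 :=
    (Measure.measurePreserving_swap (μ := lineM γ ρ K T)
      (ν := lineM γ ρ K T)).quasiMeasurePreserving.ae h3
  have h5 : ∀ᵐ p ∂(lineM γ ρ K T).prod (lineM γ ρ K T), p.1.1.1 ≠ p.2.1.1 := by
    have hs1 : Measurable fun p : ML × ML => p.1.1.1 := by fun_prop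
    have hs2 : Measurable fun p : ML × ML => p.2.1.1 := by fun_prop
    have hP : MeasurableSet {p : ML × ML | p.1.1.1 ≠ p.2.1.1} :=
      (measurableSet_eq_fun hs1 hs2).compl
    refine ae_prod_of (P := fun p : ML × ML => p.1.1.1 ≠ p.2.1.1) hP fun d => ?_
    filter_upwards [ae_time_ne (γ := γ) (ρ := ρ) (K := K) (T := T) d.1.1] with x hx h
    exact hx h.symm
  filter_upwards [h1, h2, h3, h4, h5] with p g1 g2 g3 g4 g5
  have hpath : ∀ (t : ℝ), (MW.cfg w).path Φ ε t = Flow671.flow Φ ε t w := fun t => by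
    rw [EBasic602.cfg_path hΦ hε w]
    rfl
  have e1 : ∀ i, ((MW.cfg w).path Φ ε p.1.1.1 i).1 ≠ p.1.1.2.1 := fun i => by
    rw [hpath]
    exact g1.1.2 i
  have e2 : ∀ i, ((MW.cfg w).path Φ ε p.2.1.1 i).1 ≠ p.2.1.2.1 := fun i => by
    rw [hpath]
    exact g2.1.2 i
  refine ⟨g1.1.1, g2.1.1, (ok_one hΦ hε hw g1.1.1.1 e1).1, (ok_one hΦ hε hw g2.1.1.1 e2).1, ?_⟩
  rcases le_total p.1.1.1 p.2.1.1 with h | h
  · exact ok_two hΦ hε hw g1.1.1.1 h e1 e2 (fun _ => g3) fun h' => absurd h' g5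
  · have h6 : (((MW.cfg w).ins p.2).ins p.1).Ok Φ ε :=
      ok_two hΦ hε hw g2.1.1.1 h e2 e1 (fun _ => g4) fun h' => absurd h'.symm g5
    have h7 : (((MW.cfg w).ins p.1).ins p.2) =
        (((MW.cfg w).ins p.2).ins p.1).comap (exch (Fin n)) := by
      unfold MW.ins MW.add MW.comap
      congr 1 <;> funext x <;> rcases x with (i | y) | y <;> rfl
    rw [h7]
    exact MWFam255.Ok.relabel hΦ hε h6 _

/-- The same, line by line. -/
theorem ae_ae_ok (hΦ : AdmissiblePotential Φ) (hε : 0 < ε) (hw : w ∈ PairExcluded ε n) :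
    ∀ᵐ d ∂lineM γ ρ K T, ∀ᵐ x ∂lineM γ ρ K T,
      (0 < d.1.1 ∧ d.1.1 ≤ T) ∧ (0 < x.1.1 ∧ x.1.1 ≤ T) ∧ ((MW.cfg w).ins d).Ok Φ ε ∧
        ((MW.cfg w).ins x).Ok Φ ε ∧ (((MW.cfg w).ins d).ins x).Ok Φ ε :=
  Measure.ae_ae_of_ae_prod (ae_ok hΦ hε hw)

end Crest.Agent.R122.OkPair522

end
end

-- ▼ part R122/ErrBAlt_522
section

/-!
# Row 122 (helper522): helper823's `ErrBAlt`, and `errB` is null

* `errBAlt` : `ErrB823.ErrBAlt Φ T T₁ Q K K` for `Q.te ≤ T < T₁`.
* `errBFam` : `ErrB823.ErrBFam Φ f₀ Q K`.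
* `null_errB` : `errB` is null for the data of the theorem.
-/

set_option autoImplicit false
set_option linter.unusedSectionVars false
set_option maxHeartbeats 400000

open MeasureTheory Set Filter Topology
open scoped ENNReal
open Crest.AnalysisR.Kinetic
open Crest.Agent.R122.Ins45 Crest.Agent.R122.EDefs602 Crest.Agent.R122.Decomp811
open Crest.Agent.R122.GC311 Crest.Agent.R122.X692 Crest.Agent.R122.Gate973

noncomputable section

namespace Crest.Agent.R122.ErrBAlt522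

variable {Φ : Space3 → ℝ}

theorem meet_mono {ε R t T : ℝ} (htT : t ≤ T) {l l' : ℝ × PhasePoint}
    (h : ErrB823.Meet ε R t l l') : ErrB823.Meet ε R T l l' := by
  obtain ⟨s, hs, h⟩ := h
  exact ⟨s, ⟨hs.1, hs.2.trans htT⟩, h⟩

/-- **The deterministic statement of `errB`.** -/
theorem errBAlt (hΦ : AdmissiblePotential Φ) {T T₁ : ℝ} {Q : EPar} (hte : Q.te ≤ T) (hT₁ : T < T₁)
    (K : ℕ) : ErrB823.ErrBAlt Φ T T₁ Q K K := by
  intro L
  refine ⟨1 + 2 * K * (L + 2) + 1 + (1 + 2 * K * (L + 2) + 1), 1, fun R hR ς hς => ?_⟩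
  refine ⟨1, ς / (2 * R), one_pos, by positivity, fun ε hε hlt n w hw => ?_⟩
  have hς' : 2 * (R * ε) ≤ ς := by
    rw [lt_div_iff₀ (by positivity)] at hlt
    nlinarith
  filter_upwards [OkPair522.ae_ae_ok (γ := Q.γ) (ρ := Q.ρ) (K := K) (T := Q.te) hΦ hε hw] with d hd
  filter_upwards [hd] with x hx _ _ hE
  obtain ⟨hd0, hx0, hok1, hok2, hok3⟩ := hx
  have ht : 0 < Q.te := hd0.1.trans_le hd0.2
  have hN1 : 1 + 2 * K * (L + 2) ≤ 1 + 2 * K * (L + 2) + 1 + (1 + 2 * K * (L + 2) + 1) := by omega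
  rcases LNLL522.det_ll (T := T) (T₁ := T₁) (c := 1) (R := R) (ς := ς) hΦ hε ht hte hT₁ le_rfl hς'
    hw hd0.1.le hx0.1.le hok1 hok2 hok3 hN1 le_rfl hE with h | h | h | h
  · exact Or.inl h
  · exact Or.inr (Or.inl h)
  · exact Or.inr (Or.inr (Or.inl (meet_mono hte h)))
  · exact Or.inr (Or.inr (Or.inr h))



end Crest.Agent.R122.ErrBAlt522

end
end

-- ▼ part R122/NullABClose_815

/-!
# Row 122 (helper815): the null errors of the spread terms, closed

* `nullAB` : `NullAB` of helper814 in all windows, all tree horizons, from `KData` alone.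
* `nullABIn_closed` : helper478's `NullABIn`.
-/

set_option autoImplicit false
set_option linter.unusedSectionVars false

open MeasureTheory Set Filter
open scoped ENNReal Topology
open Crest.AnalysisR.Kinetic
open Crest.Agent.R122.EDefs602 Crest.Agent.R122.GC311 Crest.Agent.R122.Master566
open Crest.Agent.R122.Top602

noncomputable section

namespace Crest.Agent.R122.ErrAB815

open scoped Classical

variable {Φ : Space3 → ℝ} {f₀ : PhasePoint → ℝ} {f : ℝ → PhasePoint → ℝ} {β T : ℝ}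

/-- **The errors of the spread terms are null**, all windows, all tree horizons. -/
theorem nullAB (hD : KData Φ β T f₀ f) :
    InHL T fun _ γ ρ => EvW T fun _ L tw te => IH Φ f₀ f T γ ρ tw → ∀ T' : ℝ,
      H5Top814.NullAB Φ f₀ (epar γ ρ L tw te) T' :=
  nullAB_of hD fun _ _ γ ρ _ L tw te hte K =>
    ⟨T + 1, K, by linarith [hD.T_pos],
      ErrBAlt522.errBAlt (Q := epar γ ρ L tw te) hD.adm hte (by linarith) K⟩

/-- **`NullABIn` of helper478.** -/
theorem nullABIn_closed (hD : KData Φ β T f₀ f) : I3Step478.NullABIn Φ f₀ f T :=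
  (nullAB hD).mono fun _ _ _ _ _ h => h.mono fun _ _ _ _ _ _ _ hq hI => hq hI _

end Crest.Agent.R122.ErrAB815

end
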