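import Crest.Agent.R122.BirthT_255_Mg
import Crest.Agent.R122.NullABClose_815_Mg
import Crest.Agent.R122.LNOSra_515
import Crest.Agent.R122.LinkAsm_984
import Crest.Agent.R122.LNSkel_291

-- ▼ part R122/LinkFin2_984
section

/-!
# `StmtLink4` (row 122, board H1): closure

* `slotLk` : the link events (helper302).
* `XdDet` : the deterministic theorem for `XbadD` (helper692); `tsn_xbadD`, `slotX`.
* `slots4`, `link4In` : `Slots4` and `Link4In` from `KData`.
-/

set_option autoImplicit false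
set_option linter.unusedSectionVars false

open MeasureTheory Set Filter Topology
open scoped ENNReal
open Crest.AnalysisR.Kinetic
open Crest.Agent.R122.Kin796 Crest.Agent.R122.Kin796.CTree Crest.Agent.R122.Tree674
open Crest.Agent.R122.GC311 Crest.Agent.R122.EDefs602 Crest.Agent.R122.OneC285
open Crest.Agent.R122.Third741 Crest.Agent.R122.Master566 Crest.Agent.R122.Top602
open Crest.Agent.R122.Ineq1815 Crest.Agent.R122.InEq2 Crest.Agent.R122.TL311
open Crest.Agent.R122.Gate424 Crest.Agent.R122.Gate973 Crest.Agent.R122.X692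
open Crest.Agent.R122.TreeLines335

noncomputable section

open scoped Classical

namespace Crest.Agent.R122.LinkAsm984

variable {Φ : Space3 → ℝ} {f₀ : PhasePoint → ℝ} {f : ℝ → PhasePoint → ℝ} {β T : ℝ}
  {K : ℕ} {Q : EPar} {T' g0 : ℝ}

/-- **The slot of the link events.** -/
theorem slotLk (hD : KData Φ β T f₀ f) (hQ : QOk Q g0) (hte : 0 ≤ Q.te) (hlt : Q.te < T') (K : ℕ)
    {R : ℝ} (hR : 0 ≤ R) :
    OSNull Φ f₀ K Q T' fun ε P z _ w l => if LinkE4 Φ ε R K Q.te P z w l then 1 else 0 := by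
  obtain ⟨A, C, hF⟩ := exists_fOk hD
  exact LinkE302.osNull_linkE4 ⟨hD.adm, hF, hQ, hD.gaussian, hte⟩ hlt K hR

/-- Input: the deterministic theorem for `XbadD`. -/
def XdDet (Φ : Space3 → ℝ) : Prop :=
  ∀ T : ℝ, 0 < T → ∀ K L : ℕ, ∃ N : ℕ,
    ∀ R ς ε te : ℝ, 0 ≤ R → 0 < ε → 2 * (R * ε) ≤ ς → te ≤ T →
      ∀ (P : CTree) (z : PhasePoint × Par P) (n : ℕ) (w : Config n) (x : ML),
        P.leaves ≤ K → Valid Φ ε P T z.1.2 z.2 → Sep Φ ε P T z.1 z.2 → w ∈ PairExcluded ε n →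
        InEq2T.PerpT Φ ε P z w → 0 ≤ x.1.1 → OkX Φ ε P z w x →
        x ∈ XbadD Φ ε K te P z w →
        SAlt Φ T (T + 1) T 1 R ς ε K L N Finset.univ (fun _ => 0)
            (Tree674.lines Φ ε P z.1 z.2) w ∨
          LNOS515.BT Φ ε te z w ∨
          XAlt Φ T (T + 1) T 1 R ς ε K L N x w ∨
          JAlt Φ T 1 R ς ε N Finset.univ (fun _ => 0) (Tree674.lines Φ ε P z.1 z.2) x w

/-- The exceptional test lines, base worlds `w + d`. -/
theorem tsn_xbadD (hD : KData Φ β T f₀ f) (hd : XdDet Φ) {te g : ℝ} {γ : ℝ → ℝ} {ρ : ℝ≥0∞}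
    (h : Ctx Φ f₀ β T' te g γ ρ) (hT : 0 < T') (K : ℕ) :
    TSN Φ f₀ T' K (fun ε P z _ w => if Valid Φ ε P T' z.1.2 z.2 ∧ Sep Φ ε P T' z.1 z.2 ∧
      InEq2T.PerpT Φ ε P z w then
        min 1 (EDefs602.lineM γ ρ K te (XbadD Φ ε K te P z w)) else 0) := by
  refine GateOS434.tsn_of_alt h hT K K K (t := T') (T₁ := T' + 1) le_rfl (by linarith)
    (lk := fun ε P z _ w => XbadD Φ ε K te P z w)
    (HS := fun _ ε _ z _ w => LNOS515.BT Φ ε te z w) (HX := fun _ _ _ _ _ => False)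
    (HJ := fun _ ε P z _ w x => NOkX Φ T' te ε P (z, x) w)
    (fun P hP L => ?_) (fun _ P hP => ?_)
    (fun _ => fun δ _ => (GLe.zero f₀ _).mono bot_le ⟨1, one_pos, fun _ _ _ _ _ _ _ _ h => h⟩)
    (fun _ P _ => ?_)
  · obtain ⟨N, hN⟩ := hd T' hT K L
    refine ⟨N, 1, fun R hR ς hς => ⟨ς / (2 * R), by positivity, fun ε hε hlt z m w x hw hV hS hPe
      hx => ?_⟩⟩
    have hV' : Valid Φ ε P T' z.1.2 z.2 := hV
    have h2 : 2 * (R * ε) ≤ ς := by
      have h3 := (lt_div_iff₀ (by positivity : 0 < 2 * R)).1 hlt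
      linarith
    by_cases hNo : NOkX Φ T' te ε P (z, x) w
    · exact Or.inr (Or.inr (Or.inr hNo))
    have h3 : x.1.1 ∈ Ioc 0 te ∧ OkX Φ ε P z w x := by
      by_contra hcon
      refine hNo ⟨hV, hS, hPe, ?_⟩
      by_cases h4 : x.1.1 ∈ Ioc 0 te
      · by_cases h5 : MW.OkFam Φ ε (MW.cfg w) (E6Hyp879.withD (lineML Φ ε P z) x)
        · exact Or.inr (Or.inr fun h6 => hcon ⟨h4, h5, h6⟩)
        · exact Or.inr (Or.inl h5)
      · exact Or.inl h4
    have hl : Tree674.linesM Φ ε P z.1 z.2 = Tree674.lines Φ ε P z.1 z.2 :=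
      linesM_of_adm ε hV'.1
    rw [hl]
    rcases hN R ς ε te hR.le hε h2 h.te_le P z m w x hP hV hS hw hPe h3.1.1.le h3.2 hx with
      h4 | h4 | h4 | h4
    · exact Or.inl (Or.inl h4)
    · exact Or.inl (Or.inr h4)
    · exact Or.inr (Or.inl (Or.inl h4))
    · exact Or.inr (Or.inr (Or.inl h4))
  · refine (BirthT255.gNull_bt h.adm h.hf (by linarith [hD.beta_pos] : 0 < 2 * β) hD.gaussian
      h.mass 1 P T').mono' ?_
    rintro ε - n z w ⟨hV, -, -, i, hi⟩
    exact ⟨hV, i, hi.2⟩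
  · refine (gNull_okX h.hf (LnN291.okXae h.adm hT.le te) P).mono' ?_
    rintro ε - n q w ⟨-, -, -, hN⟩
    exact hN

/-- **The slot of the exceptional test lines.** -/
theorem slotX_of (hD : KData Φ β T f₀ f) (hd : XdDet Φ) (hQ : QOk Q g0) (hte : 0 ≤ Q.te)
    (hlt : Q.te < T') (K : ℕ) :
    OSNull Φ f₀ K Q T' fun ε P z _ w _ =>
      min 1 (EDefs602.lineM Q.γ Q.ρ K Q.te (Xbad4 Φ ε K Q.te P z w)) := by
  have hT : 0 < T' := hte.trans_lt hlt
  have h := ctx_of hD hQ hte hlt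
  have hβ : 0 < 2 * β := by linarith [hD.beta_pos]
  have h1 := TL311.tsn_lkX (K := K) h (LnN291.okXae hD.adm hT.le Q.te)
    (LnN291.tlDet hD.adm hT hlt.le)
    (LNRoot291.tNull_goodT hD.adm hβ hD.contDiff.continuous hD.gaussian h.mass hT hlt.le
      (LNTree399.ratR hD.adm K K))
  refine slotX_of_tsn hD.adm h.hf hQ ((TSN.add h.adm h.hf h1 (tsn_xbadD hD hd h hT K)).mono
    ⟨1, one_pos, fun ε _ _ P z m w _ _ => ?_⟩)
  split_ifs with hc
  · refine (min_le_min le_rfl (measure_union_le _ _)).trans ?_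
    exact NbadR263.min_one_add_le _ _
  · exact bot_le

/-- **`Slots4`**, from the deterministic theorem for `XbadD`. -/
theorem slots4_of_xd (hD : KData Φ β T f₀ f) (hd : XdDet Φ) : Slots4 Φ f₀ :=
  slots4_of hD (fun _ _ _ K _ hQ hte hlt hR => slotLk hD hQ hte hlt K hR)
    fun _ _ _ K hQ hte hlt => slotX_of hD hd hQ hte hlt K


end Crest.Agent.R122.LinkAsm984

end
end

-- ▼ part R122/XbadD_692
section

/-!
# Row 122, board H1 (helper692): exceptional test lines, base world `w + d`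

* `xd_good` : the test line `x` is good in the base world `(cfg w).ins d`, `d` any line of the tree
  (no link with the other lines of the tree, no return to the tree), or `SAlt ∨ XAlt ∨ JAlt`, off
  the births of the tree.
* `xd_det` : **`LinkAsm984.XbadD`** gives `SAlt ∨ BT ∨ XAlt ∨ JAlt`.
* `xbad4_det` : the same for helper984's `Xbad4 = lkX ∪ XbadD`.
-/

set_option autoImplicit false
set_option linter.unusedSectionVars false

open MeasureTheory Set Filter Topology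
open scoped Classical ENNReal
open Crest.AnalysisR.Kinetic
open Crest.Agent.R122.GC311 Crest.Agent.R122.EDefs602 Crest.Agent.R122.GIV566
open Crest.Agent.R122.VL581 Crest.Agent.R122.LN304 Crest.Agent.R122.LNg410
open Crest.Agent.R122.LNPart424 Crest.Agent.R122.LNEv968 Crest.Agent.R122.LNEv818
open Crest.Agent.R122.LNEv383 Crest.Agent.R122.TreeLines335 Crest.Agent.R122.PWInst442
open Crest.Agent.R122.Kin796 Crest.Agent.R122.Kin796.CTree Crest.Agent.R122.Tree674
open Crest.Agent.R122.E6Hyp879 (withD)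
open Crest.Agent.R122.OneC285 (ptube)

noncomputable section

namespace Crest.Agent.R122.X692

variable {Φ : Space3 → ℝ} {T te ε R ς : ℝ} {n K L N : ℕ} {P : CTree} {z : PhasePoint × Par P}
  {w : Config n} {x : ML}

/-- **The test line is good in the base world `w + d`**, or one of the alternatives. -/
theorem xd_good (hΦ : AdmissiblePotential Φ) (hT : 0 < T) (hε : 0 < ε) (hς : 2 * (R * ε) ≤ ς)
    (hte : te ≤ T) (hV : Valid Φ ε P T z.1.2 z.2) (hS : Sep Φ ε P T z.1 z.2)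
    (hw : w ∈ PairExcluded ε n) (hx : 0 ≤ x.1.1)
    (hok : MW.OkFam Φ ε (MW.cfg w) (withD (lineML Φ ε P z) x))
    (hB : ¬ LNOS515.BT Φ ε te z w) (hN : P.leaves + 1 + 2 * K * (L + 2) ≤ N) (d : Idx P) :
    ((∀ i : {i : Idx P // i ≠ d}, MW.NoLink Φ ε K te ((MW.cfg w).ins (lineML Φ ε P z d))
        (MW.line (lineML Φ ε P z i.1)) (MW.line x)) ∧
      ¬ RetC Φ ε ε K te ((MW.cfg w).ins (lineML Φ ε P z d)) x (ptube Φ ε P z)) ∨
    SAlt Φ T (T + 1) T 1 R ς ε K L (N + N) Finset.univ (fun _ => 0)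
        (Tree674.lines Φ ε P z.1 z.2) w ∨
      XAlt Φ T (T + 1) T 1 R ς ε K L (N + N) x w ∨
      JAlt Φ T 1 R ς ε (N + N) Finset.univ (fun _ => 0) (Tree674.lines Φ ε P z.1 z.2) x w := by
  have hT1 : T < T + 1 := by linarith
  have hcard : Fintype.card (Idx P) + 1 + 2 * K * (L + 2) ≤ N := by
    rw [Tree674.card_idx]
    exact hN
  have hokT : MW.OkFam Φ ε (MW.cfg w) (lineML Φ ε P z) :=
    MWFam255.okFam_comp hΦ hε hok (E6Hyp879.inlEmb (Idx P) Unit)
  have hok0 : (MW.cfg w).Ok Φ ε := MW.OkFam.base hΦ hε hok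
  have hokd : ((MW.cfg w).ins (lineML Φ ε P z d)).Ok Φ ε := MW.OkFam.line hΦ hε hokT d
  have hokdx : (((MW.cfg w).ins (lineML Φ ε P z d)).ins x).Ok Φ ε :=
    MWFam255.ok_lines_add hΦ hε hok (⟨fun _ : Unit => Sum.inl d, fun _ _ _ => rfl⟩ : Unit ↪ Idx P ⊕ Unit)
      (⟨fun _ : Unit => Sum.inr (), fun _ _ _ => rfl⟩ : Unit ↪ Idx P ⊕ Unit)
      fun _ _ h => Sum.inl_ne_inr h
  have hone := LNTree515.oneT (c := 1) hΦ hε hT le_rfl hV hS hw
  have hex := LNTree515.exitsT1 (te := te) hΦ hε hT le_rfl hV hS hw hokT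
    (fun i hi => LNOS515.noB_line hB i hi) d
  have hSalt := XR442.hS_of_one (x := x) (T := T) (T₁ := T + 1) (R := R) (ς := ς) (K := K)
    (m := L) (A₀ := Finset.univ) hone.one hex hΦ hε hT.le hte le_rfl hT1 le_rfl hς
    (Finset.univ_nonempty_iff.2 ⟨root P⟩) hcard
  have hc := conn_tree_x (n := n) (w := w) (x := x) hΦ hε le_rfl hV hS
  have hX := XR442.hX1 (N := N) (m := L) (R := R) (ς := ς) (K := K) (x := x) hΦ hε hT.le hte
    le_rfl hς hw hone.one.base hc hx hcard (hone.lab d) (rel_nonneg hε.le hV.2 d) (one_le_mk P d)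
    hok0 hokd hokdx
  have hO := tubeOf_ptube (M := Mx Φ T ε n (fun _ : Idx P => 0) x)
    (Λ := Lx (piS n (Idx P)) (px n (Idx P))) hΦ hε (treeIn_x (w := w) hV hS)
    (by rw [part_eTx]; exact pi_mem) hte
  exact x_alt (ls := fun i : {i : Idx P // i ≠ d} => lineML Φ ε P z i.1) (p := fun i => i.1)
    (T₁ := T + 1) (R := R) (ς := ς) (L := L)
    hΦ hε hte le_rfl hT1 le_rfl (Finset.univ_nonempty_iff.2 ⟨root P⟩) hw hc
    (lab1 n d).injective hSalt hX hO

/-- **Exceptional test lines, base world `w + d`.** -/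
theorem xd_det (hΦ : AdmissiblePotential Φ) (hT : 0 < T) (K L : ℕ) : ∃ N : ℕ,
    ∀ R ς ε te : ℝ, 0 ≤ R → 0 < ε → 2 * (R * ε) ≤ ς → te ≤ T →
      ∀ (P : CTree) (z : PhasePoint × Par P) (n : ℕ) (w : Config n) (x : ML),
        P.leaves ≤ K → Valid Φ ε P T z.1.2 z.2 → Sep Φ ε P T z.1 z.2 → w ∈ PairExcluded ε n →
        0 ≤ x.1.1 → OkX Φ ε P z w x → x ∈ LinkAsm984.XbadD Φ ε K te P z w →
        (SAlt Φ T (T + 1) T 1 R ς ε K L N Finset.univ (fun _ => 0)
            (Tree674.lines Φ ε P z.1 z.2) w ∨ LNOS515.BT Φ ε te z w) ∨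
          XAlt Φ T (T + 1) T 1 R ς ε K L N x w ∨
          JAlt Φ T 1 R ς ε N Finset.univ (fun _ => 0) (Tree674.lines Φ ε P z.1 z.2) x w := by
  refine ⟨(K + 1 + 2 * K * (L + 2)) + (K + 1 + 2 * K * (L + 2)), ?_⟩
  intro R ς ε te _ hε hς hte P z n w x hK hV hS hw hx hok hbad
  by_cases hB : LNOS515.BT Φ ε te z w
  · exact Or.inl (Or.inr hB)
  obtain ⟨d, _, hbad⟩ := hbad
  have hN : P.leaves + 1 + 2 * K * (L + 2) ≤ K + 1 + 2 * K * (L + 2) := by omega
  rcases xd_good (K := K) (L := L) hΦ hT hε hς hte hV hS hw hx hok.1 hB hN d with h | h | h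
  · rcases hbad with h1 | ⟨i, hi, h1⟩
    · exact absurd h1 h.2
    · exact absurd (h.1 ⟨i, hi⟩) h1
  · exact Or.inl (Or.inl h)
  · exact Or.inr h


end Crest.Agent.R122.X692

end
end

-- ▼ part R122/LinkDone_984
section

/-!
# `StmtLink4` (row 122, board H1) is closed

* `xdDet` : helper692's deterministic theorem; `slots4`, `link4In` : **from `KData` alone**.
-/

set_option autoImplicit false

open Crest.AnalysisR.Kinetic
open Crest.Agent.R122.Master566 Crest.Agent.R122.Top602 Crest.Agent.R122.Ineq1815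
open Crest.Agent.R122.GC311

noncomputable section

open scoped Classical

namespace Crest.Agent.R122.LinkAsm984

variable {Φ : Space3 → ℝ} {f₀ : PhasePoint → ℝ} {f : ℝ → PhasePoint → ℝ} {β T : ℝ}

/-- The deterministic theorem for `XbadD` (helper692). -/
theorem xdDet (hΦ : AdmissiblePotential Φ) : XdDet Φ := by
  intro T hT K L
  obtain ⟨N, h⟩ := X692.xd_det hΦ hT K L
  refine ⟨N, fun R ς ε te hR hε hς hte P z n w x hP hV hS hw _ hx hok hb => ?_⟩
  rcases h R ς ε te hR hε hς hte P z n w x hP hV hS hw hx hok hb with (h1 | h1) | h1 | h1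
  · exact Or.inl h1
  · exact Or.inr (Or.inl h1)
  · exact Or.inr (Or.inr (Or.inl h1))
  · exact Or.inr (Or.inr (Or.inr h1))

/-- **The three null statements on the contact structures.** -/
theorem slots4 (hD : KData Φ β T f₀ f) : Slots4 Φ f₀ := slots4_of_xd hD (xdDet hD.adm)

/-- **`StmtLink4` in the windows**, from `KData` alone. -/
theorem link4In (hD : KData Φ β T f₀ f) : Link4In Φ f₀ f T := link4In_of hD (slots4 hD)

end Crest.Agent.R122.LinkAsm984

end
end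

-- ▼ part R122/TopK_984

/-!
# Row 122: S0162 from INEQUALITY 3

* `open122_of_i3` : all inputs of helper602's `Open122` except INEQUALITY 3.
* `result_of_i3` : the statement of S0162 from INEQUALITY 3.
-/

set_option autoImplicit false

open MeasureTheory Set Filter Topology
open scoped ENNReal
open Crest.AnalysisR.Kinetic
open Crest.Agent.R122.Master566 Crest.Agent.R122.EDefs602 Crest.Agent.R122.GIV566
open Crest.Agent.R122.Top602

namespace Crest.Agent.R122.TopK984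

noncomputable section

/-- The inputs of S0162 from INEQUALITY 3. -/
theorem open122_of_i3 {Φ : Space3 → ℝ} {β T : ℝ} {f₀ : PhasePoint → ℝ}
    {f : ℝ → PhasePoint → ℝ} (hD : KData Φ β T f₀ f) (h : I3In Φ f₀ f T) : Open122 Φ T f₀ f :=
  ⟨LinkAsm984.link4In hD, LnN291.ftg hD, LnN291.flg hD, h⟩

/-- **The statement of S0162 from INEQUALITY 3.** -/
theorem result_of_i3
    (H : ∀ (Φ : Space3 → ℝ) (β T : ℝ) (f₀ : PhasePoint → ℝ) (f : ℝ → PhasePoint → ℝ),
      KData Φ β T f₀ f → I3In Φ f₀ f T)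
    (Φ : Space3 → ℝ) (hΦ : AdmissiblePotential Φ) (β : ℝ) (hβ : 0 < β) (T : ℝ) (hT : 0 < T)
    (f₀ : PhasePoint → ℝ) (hf₀ : ∀ z, 0 ≤ f₀ z) (hf₀d : ContDiff ℝ 1 f₀)
    (hf₀i : Integrable f₀) (hf₀m : ∫ z, f₀ z = 1)
    (hf₀b : HasSummableGaussianBound (2 * β) (fun x v => f₀ (x, v)))
    (hf₀g : HasSummableGaussianBound (2 * β) (fun x v => fderiv ℝ (fun y => f₀ (y, v)) x))
    (f : ℝ → PhasePoint → ℝ) (hf : IsRegularKineticSolution Φ β T f₀ f)
    (Ψ : ℝ → (n : ℕ) → ℝ → Config n → Config n)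
    (hΨ : ∀ ε : ℝ, 0 < ε → IsNewtonianEvolution Φ ε (Ψ ε))
    (s : ℕ) (hs : 1 ≤ s) (δ : ℝ) (hδ : 0 < δ) :
    ∃ ε₀ : ℝ, 0 < ε₀ ∧ ∀ ε : ℝ, 0 < ε → ε < ε₀ → ∀ t ∈ Set.Icc 0 T,
      ∀ A : Set (Config s), MeasurableSet A →
        factorialMarginal f₀ ε (Ψ ε) s t A ≤
            (∫⁻ Z in A, ∏ k, ENNReal.ofReal (f t (Z k))) + ENNReal.ofReal δ ∧
          (∫⁻ Z in A, ∏ k, ENNReal.ofReal (f t (Z k))) ≤
            factorialMarginal f₀ ε (Ψ ε) s t A + ENNReal.ofReal δ :=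
  result_of_open122 (fun Φ β T f₀ f hD => open122_of_i3 hD (H Φ β T f₀ f hD))
    Φ hΦ β hβ T hT f₀ hf₀ hf₀d hf₀i hf₀m hf₀b hf₀g f hf Ψ hΨ s hs δ hδ

end

end Crest.Agent.R122.TopK984
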