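import Crest.Agent.R122.I3Fin_478
import Crest.Agent.R122.TopK_984
import Crest.Agent.R122.NullABClose_815_Mg
import Crest.Agent.R122.LNNear7_383
import Crest.Agent.R122.DLaw_416_Mg
import Crest.Agent.R122.GateOsPX_973
import Crest.Agent.R122.Link6G_796
import Crest.Agent.R122.Real6P_796
import Mathlib
import Crest.Prelude.Def_KineticLimit
import Crest.Agent.R122.PWBirth_365
import Crest.Agent.R122.OkX6N_942
import Crest.Agent.R122.I3Slots_837
import Crest.Agent.R122.SlotOkG_424_Mg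

-- ▼ part R122/I3Top_478
section

/-!
# Inequality 3 of section E: from the base laws alone (row 122, helper478)

* `i3In_of_base3` : **INEQUALITY 3** from `Base3In`.
* `result_of_base3` : the statement of S0162 from `Base3In`.
-/

set_option autoImplicit false

open MeasureTheory Set Filter Topology
open scoped ENNReal
open Crest.AnalysisR.Kinetic
open Crest.Agent.R122.Master566 Crest.Agent.R122.EDefs602 Crest.Agent.R122.GIV566
open Crest.Agent.R122.Top602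

noncomputable section

namespace Crest.Agent.R122.I3Fin478

/-- **INEQUALITY 3** from the base laws. -/
theorem i3In_of_base3 {Φ : Space3 → ℝ} {β T : ℝ} {f₀ : PhasePoint → ℝ}
    {f : ℝ → PhasePoint → ℝ} (hD : KData Φ β T f₀ f) (hB : Base3In Φ β f₀ f T) :
    I3In Φ f₀ f T :=
  i3In_of_open hD (LinkAsm984.link4In hD) (ErrAB815.nullABIn_closed hD) hB


end Crest.Agent.R122.I3Fin478

end
end

-- ▼ part R122/LNNear8_383
section

/-!
# Row 122, LN1 events (helper383), part 11: the fields of `Slots6G` from the pair structure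

* `PairAltE` : over `osP`, off a bad family and a null event, the structure is a pair structure
  (helper491's `Pair`) with contact constant `c`.
* `gNull_of_pair` : **the generic gate** of the fields of helper796's `Slots6G`: an event with the
  guards `Gx6 R` which for every contact tree of the structure (`PTree` over the gas) leads to a run, a
  bad partition or a bad hit is null.
* `near_det`, `gNull_near` : the field `near`.
-/

set_option autoImplicit false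
set_option linter.unusedSectionVars false

open MeasureTheory Set Filter Topology
open scoped ENNReal
open Crest.AnalysisR.Kinetic
open Crest.Agent.R122.Flow671 hiding rel
open Crest.Agent.R122.Ins45 Crest.Agent.R122.Causal291
open Crest.Agent.R122.Inf879 Crest.Agent.R122.GC311 Crest.Agent.R122.EDefs602
open Crest.Agent.R122.EDefs602.MW Crest.Agent.R122.MWFam255 Crest.Agent.R122.GIV566
open Crest.Agent.R122.VL581 Crest.Agent.R122.LN304 Crest.Agent.R122.LNg410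
open Crest.Agent.R122.LNEv968
open Crest.Agent.R122.Kin796 Crest.Agent.R122.Kin796.CTree Crest.Agent.R122.Tree674
open Crest.Agent.R122.PathFlow968 Crest.Agent.R122.TreeLines335
open Crest.Agent.R122.LNTree410 Crest.Agent.R122.VLInst442 Crest.Agent.R122.PWInst442
open Crest.Agent.R122.LNPart424
open Crest.Agent.R122.OneC285 (ptube cT cD)
open Crest.Agent.R122.OCout796
open Crest.Agent.R122.E6Hyp879 (withD)
open Crest.Agent.R122.LNS674
open Crest.Agent.R122.Link6796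
open Crest.Agent.R122.Boost969 (LSt)
open Crest.Agent.R122.Pair292 (Lab)
open Crest.Agent.R122.PairD292
open Crest.Agent.R122.Gate424 Crest.Agent.R122.Gate973
open Crest.Agent.R122.StrG491 (PTree)
open Crest.Agent.R122.GateOsP424 (osB osZ)
open Crest.Agent.R122.PairRep581 (Shp ShpOk osP)
open Crest.Agent.R122.OPX973 (OPX anT)
open Crest.Agent.R122.PTreeOf331 (iT iS)
open scoped Classical

namespace Crest.Agent.R122.LNEv383

noncomputable section

/-! ### The contact tree of a structure over the gas -/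

section ptree

variable {Φ : Space3 → ℝ} {T' ε c R : ℝ} {K n : ℕ} {Q : EPar} {P : CTree} {S : Shp}
  {q : (PhasePoint × Par P) × S.Θ} {w : Config n}

/-- The structure `q` is a pair structure, horizon `T`, contact constant `c`. -/
def PairQ (Φ : Space3 → ℝ) (T ε c : ℝ) (S : Shp) (θ : S.Θ) : Prop :=
  ∃ (R : ℝ → S.κ → S.κ → Prop) (cl : S.κ → Finset S.κ) (β : S.κ → ℝ) (x y : S.κ),
    StrG491.Pair (VLMeas973.vsys Φ T ε (S.b ε θ)) c (S.z ε θ) R Finset.univ cl β x y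
      (dL (S.th ε θ)).1 (eL (S.th ε θ)).1

/-- `q` with its contact tree is a `PTree` over the gas. -/
def PTreeQ (Φ : Space3 → ℝ) (T te ε c : ℝ) (P : CTree) (S : Shp) (n : ℕ) (w : Config n)
    (q : (PhasePoint × Par P) × S.Θ) : Prop :=
  ∃ (R : ℝ → Fin n ⊕ (Idx P ⊕ S.κ) → Fin n ⊕ (Idx P ⊕ S.κ) → Prop)
    (π : Finset (Fin n ⊕ (Idx P ⊕ S.κ)))
    (cl : Fin n ⊕ (Idx P ⊕ S.κ) → Finset (Fin n ⊕ (Idx P ⊕ S.κ)))
    (β : Fin n ⊕ (Idx P ⊕ S.κ) → ℝ) (x y : Idx P ⊕ S.κ),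
    PTree (gsys Φ T ε n (osB P S ε q)) c (Sum.elim w (osZ Φ P S ε q)) R π cl β (Sum.inr x)
      (Sum.inr y) (dL (S.th ε q.2)).1 (eL (S.th ε q.2)) te P q.1
      ((iT P S.κ).trans (strE n (Idx P ⊕ S.κ))) ∧
    ∀ j : Fin n ⊕ (Idx P ⊕ S.κ),
      (j ∈ π ∨ j ∈ part ((iT P S.κ).trans (strE n (Idx P ⊕ S.κ)))) ↔ j ∈ pS n (Idx P ⊕ S.κ)

theorem ptreeQ_of_pairQ (hΦ : AdmissiblePotential Φ) (hε : 0 < ε) (hlt : Q.te < T')
    (hG : Gx6 Φ ε R K Q T' P q.1 w (S.th ε q.2)) (h : PairQ Φ T' ε c S q.2) :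
    PTreeQ Φ T' Q.te ε c P S n w q := by
  obtain ⟨Rc, cl, β, x, y, h⟩ := h
  refine ⟨_, _, _, _, _, _, PTreeOf331.ptreeG_osP hΦ hε h hG.gd.real.valid hG.gd.real.sep
    hG.gd.real.ct hlt hG.enc.pass.ok w, fun j => ?_⟩
  exact LNS3a304.cover_of_union (PTreeOf331.unionG (P := P) (κ := S.κ) (n := n)) j

end ptree

/-! ### The generic gate -/

section gate

variable {Φ : Space3 → ℝ} {f₀ : PhasePoint → ℝ} {bg γ β te T' : ℝ} {ρ : Space3 → ℝ≥0∞}
  {gl : ℝ → ℝ} {rm : ℝ≥0∞} {P : CTree} {S : Shp} {K : ℕ} {Q : EPar}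

/-- **The realisation of the structure**, contact constant `c`: off a bad family and a null event
the structure is a pair structure. -/
def PairAltE (Φ : Space3 → ℝ) (f₀ : PhasePoint → ℝ) (Q : EPar) (T' : ℝ) (K : ℕ) (P : CTree)
    (S : Shp) (c : ℝ) : Prop :=
  ∃ (B : ℝ → ℝ → ℝ → Unit → (n : ℕ) → ((PhasePoint × Par P) × S.Θ) → Config n → Prop)
    (Ht : ℝ → Unit → (n : ℕ) → ((PhasePoint × Par P) × S.Θ) → Config n → Prop),
    BadF f₀ (osP Φ f₀ Q.te T' K P S) B ∧ GNull f₀ (osP Φ f₀ Q.te T' K P S) Ht ∧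
    ∀ r > 0, ∀ ς > 0, ∃ ε₁ : ℝ, 0 < ε₁ ∧ ∀ ε : ℝ, 0 < ε → ε < ε₁ → ∀ n q (w : Config n),
      w ∈ PairExcluded ε n → (∃ R, Gx6 Φ ε R K Q T' P q.1 w (S.th ε q.2)) →
      B r ς ε () n q w ∨ Ht ε () n q w ∨ PairQ Φ T' ε c S q.2

/-- **The generic gate**: events with the guards `Gx6 R`. -/
theorem gNull_of_pair (h : OPX Φ f₀ bg γ β T' te ρ S gl rm) (hlt : Q.te < T') {c : ℝ}
    (hPA : PairAltE Φ f₀ Q T' K P S c) {R : ℝ} (K' : ℕ)
    {E : ℝ → (n : ℕ) → ((PhasePoint × Par P) × S.Θ) → Config n → Prop}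
    (hE : ∀ ε n q (w : Config n), E ε n q w → Gx6 Φ ε R K Q T' P q.1 w (S.th ε q.2))
    (hdet : ∀ L : ℕ, ∃ N : ℕ, ∀ r > 0, ∀ ς > 0, ∀ ε > 0, 2 * (r * ε) ≤ ς → ∀ n q (w : Config n),
      w ∈ PairExcluded ε n → E ε n q w → PTreeQ Φ T' Q.te ε c P S n w q →
      RunS Φ ε T' K' L (osB P S ε q) (osZ Φ P S ε q) w ∨
        LN2.BadGas Φ T' c r ς ε N 1 (anT P S) (osB P S ε q) (osZ Φ P S ε q) w ∨
        BH167.BadHitGas (BH167.bpos Φ (T' + 1) T') Φ T' c 1 ε N N 1 (anT P S) (osB P S ε q)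
          (osZ Φ P S ε q) w) :
    GNull f₀ (osP Φ f₀ Q.te T' K P S) (fun ε _ n q w => E ε n q w) := by
  obtain ⟨B, Ht, hB, hH, hPA⟩ := hPA
  refine h.gNull_of_alt (u := T') le_rfl K' (E := E) fun L => ?_
  obtain ⟨N, hd⟩ := hdet L
  refine ⟨N, c, T' + 1, T', B, Ht, by linarith [h.T_pos], hB, hH, fun r hr ς hς => ?_⟩
  obtain ⟨ε₁, h0, h1⟩ := hPA r hr ς hς
  refine ⟨min ε₁ (ς / (2 * r)), lt_min h0 (by positivity), fun ε hε hlt' n q w hw hEq => ?_⟩
  have hrε : 2 * (r * ε) ≤ ς := by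
    have h2 := (hlt'.trans_le (min_le_right _ _)).le
    rw [le_div_iff₀ (by positivity)] at h2
    linarith
  rcases h1 ε hε (hlt'.trans_le (min_le_left _ _)) n q w hw ⟨R, hE ε n q w hEq⟩ with h2 | h2 | h2
  · exact Or.inr (Or.inr (Or.inr (Or.inl h2)))
  · exact Or.inr (Or.inr (Or.inr (Or.inr h2)))
  rcases hd r hr ς hς ε hε hrε n q w hw hEq
    (ptreeQ_of_pairQ h.adm hε hlt (hE ε n q w hEq) h2) with h3 | h3 | h3
  · exact Or.inl h3
  · exact Or.inr (Or.inl h3)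
  · exact Or.inr (Or.inr (Or.inl h3))

/-! ### The field `near` -/

theorem anT_nonempty : (anT P S).Nonempty :=
  ⟨Sum.inl (root P), by simp [anT]⟩

/-- The deterministic alternatives of the field `near`. -/
theorem near_det {R r ς ε c : ℝ} {n m N : ℕ} {q : (PhasePoint × Par P) × S.Θ} {w : Config n}
    (hΦ : AdmissiblePotential Φ) (hε : 0 < ε) (hte : 0 ≤ Q.te) (hlt : Q.te < T') (hc : 1 ≤ c)
    (hR : R + 2 ≤ c) (hr : 2 * (r * ε) ≤ ς)
    (hN : 3 * (Fintype.card (Idx P ⊕ S.κ) + 2 * K * (m + 2)) ≤ N) (hw : w ∈ PairExcluded ε n)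
    (hE : evNearG Φ Q T' R K ε P q.1 n w (S.th ε q.2)) (hP : PTreeQ Φ T' Q.te ε c P S n w q) :
    RunS Φ ε T' K m (osB P S ε q) (osZ Φ P S ε q) w ∨
      LN2.BadGas Φ T' c r ς ε N 1 (anT P S) (osB P S ε q) (osZ Φ P S ε q) w ∨
      BH167.BadHitGas (BH167.bpos Φ (T' + 1) T') Φ T' c 1 ε N N 1 (anT P S) (osB P S ε q)
        (osZ Φ P S ε q) w := by
  obtain ⟨Rc, π, cl, β', x, y, H, hπ⟩ := hP
  obtain ⟨hG, hH, hL, hN'⟩ := hE
  by_cases hB : LN2.BadGas Φ T' c r ς ε N 1 (anT P S) (osB P S ε q) (osZ Φ P S ε q) w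
  · exact Or.inr (Or.inl hB)
  have h1 := LNS3a304.one0 H hπ hw hΦ hε hc
  have hTL := LNS3a304.tlA H hπ hw hΦ hε hc (T' := T') le_rfl anT_nonempty (by omega) hB
  have h2 := LNS3a304.exits0 H hπ hw hΦ hε hc hr hTL hlt.le hH.ok₁
  exact det_near h1 h2 (fun _ => rfl) H.tree hΦ hε hte hlt.le hc hR hr le_rfl le_rfl
    (lt_add_one T') anT_nonempty hN ⟨hG.gd, hL, hN'⟩

/-- **The field `near` of `Slots6G`.** -/
theorem gNull_near (h : OPX Φ f₀ bg γ β T' te ρ S gl rm) (hte : 0 ≤ Q.te) (hlt : Q.te < T')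
    (hPA : ∀ c : ℝ, 1 ≤ c → PairAltE Φ f₀ Q T' K P S c) (R : ℝ) :
    GNull f₀ (osP Φ f₀ Q.te T' K P S) (fun ε _ n q w =>
      evNearG Φ Q T' R K ε P q.1 n w (S.th ε q.2)) :=
  gNull_of_pair h hlt (hPA (max 1 (R + 2)) (le_max_left _ _)) (R := R) K
    (E := fun ε n q w => evNearG Φ Q T' R K ε P q.1 n w (S.th ε q.2)) (fun _ _ _ _ h => h.1)
    fun L => ⟨3 * (Fintype.card (Idx P ⊕ S.κ) + 2 * K * (L + 2)),
      fun _ _ _ _ _ hε hrς _ _ _ hw hE hP => near_det h.adm hε hte hlt (le_max_left _ _)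
        (le_max_right _ _) hrς le_rfl hw hE hP⟩

end gate

end

end Crest.Agent.R122.LNEv383
end

-- ▼ part R122/LNNear9_383
section

/-!
# Row 122, LN1 events (helper383), part 12: the fields of `Slots6G` from `PairAlt`

* `PTreeQ.of_levD` : helper796's level data give the contact tree of the structure over the gas.
* `gNull_of_pairAlt` : **the generic gate** of the fields of `Slots6G`, from helper796's `PairAlt`.
* `slot_near` : the field `near`.
-/

set_option autoImplicit false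
set_option linter.unusedSectionVars false

open MeasureTheory Set Filter Topology
open scoped ENNReal
open Crest.AnalysisR.Kinetic
open Crest.Agent.R122.GC311 Crest.Agent.R122.EDefs602
open Crest.Agent.R122.Kin796 Crest.Agent.R122.Kin796.CTree Crest.Agent.R122.Tree674
open Crest.Agent.R122.Gate424 Crest.Agent.R122.Gate973
open Crest.Agent.R122.Link6796
open Crest.Agent.R122.PairD292
open Crest.Agent.R122.GateOsP424 (osB osZ)
open Crest.Agent.R122.PairRep581 (Shp ShpOk osP)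
open Crest.Agent.R122.OPX973 (OPX anT)
open scoped Classical

namespace Crest.Agent.R122.LNEv383

noncomputable section

variable {Φ : Space3 → ℝ} {f₀ : PhasePoint → ℝ} {bg γ β te T' : ℝ} {ρ : Space3 → ℝ≥0∞}
  {gl : ℝ → ℝ} {rm : ℝ≥0∞} {P : CTree} {S : Shp} {K : ℕ} {Q : EPar}

/-- The level data give a pair structure. -/
theorem PairQ.of_levD {T ε c ℓ ς : ℝ} {q : (PhasePoint × Par P) × S.Θ}
    (h : LevD Φ T ε c ℓ ς te K P S q) : PairQ Φ T ε c S q.2 := by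
  obtain ⟨R, cl, bD, x, y, h1, -, -⟩ := h.pair
  exact ⟨R, cl, bD, x, y, h1⟩

/-- The realisation of the structure, from helper796's `PairAlt`. -/
theorem pairAltE_of {c : ℝ} (h : PairAlt Φ f₀ Q T' K P S c) : PairAltE Φ f₀ Q T' K P S c := by
  obtain ⟨B, Ht, hB, hH, h⟩ := h
  refine ⟨B, Ht, hB, hH, fun r hr ς hς => ?_⟩
  obtain ⟨ε₁, h0, h1⟩ := h r hr ς hς
  refine ⟨ε₁, h0, fun ε hε hlt n q w hw hG => ?_⟩
  obtain ⟨R, hG⟩ := hG
  rcases h1 ε hε hlt () n q w hw ⟨hG.gd.real.ct, hG.gd.real.okL⟩ hG.gd with h2 | h2 | h2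
  · exact Or.inr (Or.inr (PairQ.of_levD h2))
  · exact Or.inl h2
  · exact Or.inr (Or.inl h2)


/-- **The field `near` of `Slots6G`.** -/
theorem slot_near (h : OPX Φ f₀ bg γ β T' te ρ S gl rm) (hte : 0 ≤ Q.te) (hlt : Q.te < T')
    (hPA : ∀ c : ℝ, 1 ≤ c → PairAlt Φ f₀ Q T' K P S c) (R : ℝ) (_hR : 0 ≤ R) :
    GNull f₀ (osP Φ f₀ Q.te T' K P S) (fun ε _ n q w =>
      evNearG Φ Q T' R K ε P q.1 n w (S.th ε q.2)) :=
  gNull_near h hte hlt (fun c hc => pairAltE_of (hPA c hc)) R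

end

end Crest.Agent.R122.LNEv383
end

-- ▼ part R122/GxDet_365
section

/-!
# Row 122, LINK6 (helper365): deterministic content of the guard `Gx6`

* `Gx6.noB_d`, `Gx6.noB_e`, `Gx6.noB_out` : no gas particle near the births of `d`, `e`, and of the
  outputs `c`, `e'`, `c'` (the form `PW365.NoB` of the class calculus).
* `Gx6.ct_lt_te`, `Gx6.out_le_te`, `Gx6.born_le_te` : the encounter ends before the horizon.
-/

set_option autoImplicit false

open MeasureTheory Set Filter Topology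
open scoped Classical ENNReal
open Crest.AnalysisR.Kinetic
open Crest.Agent.R122.GC311 Crest.Agent.R122.EDefs602
open Crest.Agent.R122.Kin796 Crest.Agent.R122.Kin796.CTree Crest.Agent.R122.Tree674
open Crest.Agent.R122.TreeLines335
open Crest.Agent.R122.Boost969 (LSt)
open Crest.Agent.R122.Pair292 (Lab PPar PX)
open Crest.Agent.R122.PairD292 Crest.Agent.R122.Third741
open Crest.Agent.R122.BirthOut664 (BW6)
open Crest.Agent.R122.PW365 (NoB noB_of_flow)
open Crest.Agent.R122.Link6796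
open Crest.Agent.R122.OneC285 (cT cX cD)
open Crest.Agent.R122.OCout796

noncomputable section

namespace Crest.Agent.R122.GxDet365

variable {Φ : Space3 → ℝ} {ε R T' : ℝ} {K : ℕ} {Q : EPar} {P : CTree}
  {z : PhasePoint × Par P} {m : ℕ} {w : Config m} {θ : Lab × LSt}

/-- All outputs are born at the end of the encounter. -/
theorem birth_outL6 (e : ML) (k : Option Bool) :
    (outL6 Φ ε P z e k).1.1 = cT ε z e + outT Φ ε (cD ε z e) := by
  rcases k with _ | _ | _ <;> rfl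

theorem cT_pos (h : Gx6 Φ ε R K Q T' P z w θ) : 0 < cT ε z (eL θ) :=
  h.gd.real.okL.e0.trans h.gd.real.ct.2.2.1



theorem cT_le_te (h : Gx6 Φ ε R K Q T' P z w θ) : cT ε z (eL θ) ≤ Q.te :=
  h.gd.real.ct.2.2.2.1

theorem out_pos (hε : 0 < ε) (h : Gx6 Φ ε R K Q T' P z w θ) (k : Option Bool) :
    0 < (outL6 Φ ε P z (eL θ) k).1.1 := by
  rw [birth_outL6]
  exact add_pos_of_pos_of_nonneg (cT_pos h) (outT_nonneg hε.le _)


/-- No gas particle near the birth of `d`. -/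
theorem noB_d (hΦ : AdmissiblePotential Φ) (hε : 0 < ε) (h : Gx6 Φ ε R K Q T' P z w θ) :
    NoB Φ ε (MW.cfg w) (dL θ) :=
  noB_of_flow hΦ hε h.gd.real.exw h.gd.real.okL.d0.le fun h' => h.nb (Or.inl h')


/-- No gas particle near the birth of an output. -/
theorem noB_out (hΦ : AdmissiblePotential Φ) (hε : 0 < ε) (h : Gx6 Φ ε R K Q T' P z w θ)
    (k : Option Bool) : NoB Φ ε (MW.cfg w) (outL6 Φ ε P z (eL θ) k) :=
  noB_of_flow hΦ hε h.gd.real.exw (out_pos hε h k).le fun h' => h.nb (Or.inr (Or.inr ⟨k, h'⟩))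


end Crest.Agent.R122.GxDet365

end
end

-- ▼ part R122/LNNl_383
section

/-!
# Row 122, LN1 events (helper383), part 13: the fields `nl0`, `nl1`, `nl2` of `Slots6G`

* `gNull_of_pairAlt'` : the generic gate with a small parameter.
* `slot_nl0`, `slot_nl1`, `slot_nl2` : the fields, from `PairAlt`.
-/

set_option autoImplicit false
set_option linter.unusedSectionVars false

open MeasureTheory Set Filter Topology
open scoped ENNReal
open Crest.AnalysisR.Kinetic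
open Crest.Agent.R122.GC311 Crest.Agent.R122.EDefs602
open Crest.Agent.R122.Kin796 Crest.Agent.R122.Kin796.CTree Crest.Agent.R122.Tree674
open Crest.Agent.R122.Gate424 Crest.Agent.R122.Gate973
open Crest.Agent.R122.Link6796
open Crest.Agent.R122.PairD292
open Crest.Agent.R122.GateOsP424 (osB osZ)
open Crest.Agent.R122.PairRep581 (Shp ShpOk osP)
open Crest.Agent.R122.OPX973 (OPX anT)
open scoped Classical

namespace Crest.Agent.R122.LNEv383

noncomputable section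

variable {Φ : Space3 → ℝ} {f₀ : PhasePoint → ℝ} {bg γ β te T' : ℝ} {ρ : Space3 → ℝ≥0∞}
  {gl : ℝ → ℝ} {rm : ℝ≥0∞} {P : CTree} {S : Shp} {K : ℕ} {Q : EPar}

/-- **The generic gate**: events with the guards `Gx6 R`, small parameter. -/
theorem gNull_of_pairAlt' (h : OPX Φ f₀ bg γ β T' te ρ S gl rm) (hlt : Q.te < T') {c : ℝ}
    (hPA : PairAlt Φ f₀ Q T' K P S c) {R : ℝ} (K' : ℕ)
    {E : ℝ → (n : ℕ) → ((PhasePoint × Par P) × S.Θ) → Config n → Prop}
    (hE : ∀ ε n q (w : Config n), E ε n q w → Gx6 Φ ε R K Q T' P q.1 w (S.th ε q.2))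
    (hdet : ∀ L : ℕ, ∃ N : ℕ, ∀ r > 0, ∀ ς > 0, ∀ ε > 0, 2 * (r * ε) ≤ ς →
      Q.te + 2 * (r * ε) < T' → ∀ n q (w : Config n),
      w ∈ PairExcluded ε n → E ε n q w → PTreeQ Φ T' Q.te ε c P S n w q →
      RunS Φ ε T' K' L (osB P S ε q) (osZ Φ P S ε q) w ∨
        LN2.BadGas Φ T' c r ς ε N 1 (anT P S) (osB P S ε q) (osZ Φ P S ε q) w ∨
        BH167.BadHitGas (BH167.bpos Φ (T' + 1) T') Φ T' c 1 ε N N 1 (anT P S) (osB P S ε q)
          (osZ Φ P S ε q) w) :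
    GNull f₀ (osP Φ f₀ Q.te T' K P S) (fun ε _ n q w => E ε n q w) := by
  obtain ⟨B, Ht, hB, hH, hPA⟩ := pairAltE_of hPA
  refine h.gNull_of_alt (u := T') le_rfl K' (E := E) fun L => ?_
  obtain ⟨N, hd⟩ := hdet L
  refine ⟨N, c, T' + 1, T', B, Ht, by linarith [h.T_pos], hB, hH, fun r hr ς hς => ?_⟩
  obtain ⟨ε₁, h0, h1⟩ := hPA r hr ς hς
  have hT : 0 < T' - Q.te := sub_pos.2 hlt
  refine ⟨min ε₁ (min (ς / (2 * r)) ((T' - Q.te) / (2 * r))),
    lt_min h0 (lt_min (by positivity) (by positivity)), fun ε hε hlt' n q w hw hEq => ?_⟩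
  have hrε : 2 * (r * ε) ≤ ς := by
    have h2 := (hlt'.trans_le ((min_le_right _ _).trans (min_le_left _ _))).le
    rw [le_div_iff₀ (by positivity)] at h2
    linarith
  have hrT : Q.te + 2 * (r * ε) < T' := by
    have h2 := hlt'.trans_le ((min_le_right _ _).trans (min_le_right _ _))
    rw [lt_div_iff₀ (by positivity)] at h2
    linarith
  rcases h1 ε hε (hlt'.trans_le (min_le_left _ _)) n q w hw ⟨R, hE ε n q w hEq⟩ with h2 | h2 | h2
  · exact Or.inr (Or.inr (Or.inr (Or.inl h2)))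
  · exact Or.inr (Or.inr (Or.inr (Or.inr h2)))
  rcases hd r hr ς hς ε hε hrε hrT n q w hw hEq
    (ptreeQ_of_pairQ h.adm hε hlt (hE ε n q w hEq) h2) with h3 | h3 | h3
  · exact Or.inl h3
  · exact Or.inr (Or.inl h3)
  · exact Or.inr (Or.inr (Or.inl h3))

/-- **The field `nl0` of `Slots6G`.** -/
theorem slot_nl0 (h : OPX Φ f₀ bg γ β T' te ρ S gl rm) (hlt : Q.te < T')
    (hPA : PairAlt Φ f₀ Q T' K P S 1) (R : ℝ) (_hR : 0 ≤ R) :
    GNull f₀ (osP Φ f₀ Q.te T' K P S) (fun ε _ _ q w =>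
      Gx6 Φ ε R K Q T' P q.1 w (S.th ε q.2) ∧ Ok6 Φ ε P q.1 w (S.th ε q.2) ∧
        ¬ Nl0 Φ ε K Q.te P q.1 w (S.th ε q.2)) := by
  refine gNull_of_pairAlt' h hlt hPA (R := R) K
    (E := fun ε n q w => Gx6 Φ ε R K Q T' P q.1 w (S.th ε q.2) ∧
      Ok6 Φ ε P q.1 w (S.th ε q.2) ∧ ¬ Nl0 Φ ε K Q.te P q.1 w (S.th ε q.2))
    (fun _ _ _ _ h => h.1) fun L => ⟨(Fintype.card (Idx P ⊕ S.κ) + 2 * K * (L + 2)) +
      (Fintype.card (Idx P ⊕ S.κ) + 2 * K * (L + 2)),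
      fun r _ ς _ ε hε hr _ n q w hw hE hP => ?_⟩
  obtain ⟨Rc, π, cl, β', x, y, H, hπ⟩ := hP
  by_contra hcon
  push Not at hcon
  obtain ⟨hR, hB, hBH⟩ := hcon
  exact hE.2.2 (LNS3a304.nl0_det H hπ hw h.adm hε h.T_pos.le hlt.le le_rfl hr le_rfl le_rfl
    (lt_add_one T') anT_nonempty le_rfl hB hBH hR hE.2.1.ok₁)

/-- **The field `nl1` of `Slots6G`.** -/
theorem slot_nl1 (h : OPX Φ f₀ bg γ β T' te ρ S gl rm) (hlt : Q.te < T')
    (hPA : PairAlt Φ f₀ Q T' K P S 1) (R : ℝ) (_hR : 0 ≤ R) :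
    GNull f₀ (osP Φ f₀ Q.te T' K P S) (fun ε _ _ q w =>
      Gx6 Φ ε R K Q T' P q.1 w (S.th ε q.2) ∧ Ok6 Φ ε P q.1 w (S.th ε q.2) ∧
        Nl0 Φ ε K Q.te P q.1 w (S.th ε q.2) ∧ ¬ Nl1 Φ ε K Q.te P q.1 w (S.th ε q.2)) := by
  refine gNull_of_pairAlt' h hlt hPA (R := R) K
    (E := fun ε n q w => Gx6 Φ ε R K Q T' P q.1 w (S.th ε q.2) ∧
      Ok6 Φ ε P q.1 w (S.th ε q.2) ∧ Nl0 Φ ε K Q.te P q.1 w (S.th ε q.2) ∧
      ¬ Nl1 Φ ε K Q.te P q.1 w (S.th ε q.2))
    (fun _ _ _ _ h => h.1) fun L => ⟨(Fintype.card (Idx P ⊕ S.κ) + 2 * K * (L + 2)) +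
      (Fintype.card (Idx P ⊕ S.κ) + 2 * K * (L + 2)),
      fun r _ ς _ ε hε hr _ n q w hw hE hP => ?_⟩
  obtain ⟨Rc, π, cl, β', x, y, H, hπ⟩ := hP
  by_contra hcon
  push Not at hcon
  obtain ⟨hR, hB, hBH⟩ := hcon
  exact hE.2.2.2 (LNS3a304.nl1_det H hπ hw h.adm hε h.T_pos.le hlt.le le_rfl hr le_rfl le_rfl
    (lt_add_one T') anT_nonempty le_rfl hB hBH hR hE.2.1.ok₁)

/-- **The field `nl2` of `Slots6G`.** -/
theorem slot_nl2 (h : OPX Φ f₀ bg γ β T' te ρ S gl rm) (hlt : Q.te < T')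
    (hPA : PairAlt Φ f₀ Q T' K P S 1) (R : ℝ) (_hR : 0 ≤ R) :
    GNull f₀ (osP Φ f₀ Q.te T' K P S) (fun ε _ _ q w =>
      Gx6 Φ ε R K Q T' P q.1 w (S.th ε q.2) ∧ Ok6 Φ ε P q.1 w (S.th ε q.2) ∧
        Nl0 Φ ε K Q.te P q.1 w (S.th ε q.2) ∧ Nl1 Φ ε K Q.te P q.1 w (S.th ε q.2) ∧
        ¬ Nl2 Φ ε K Q.te P q.1 w (S.th ε q.2)) := by
  refine gNull_of_pairAlt' h hlt hPA (R := R) K
    (E := fun ε n q w => Gx6 Φ ε R K Q T' P q.1 w (S.th ε q.2) ∧
      Ok6 Φ ε P q.1 w (S.th ε q.2) ∧ Nl0 Φ ε K Q.te P q.1 w (S.th ε q.2) ∧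
      Nl1 Φ ε K Q.te P q.1 w (S.th ε q.2) ∧ ¬ Nl2 Φ ε K Q.te P q.1 w (S.th ε q.2))
    (fun _ _ _ _ h => h.1) fun L => ⟨4 * (Fintype.card (Idx P ⊕ S.κ) + 2 * K * (L + 2)),
      fun r _ ς _ ε hε hr hrT n q w hw hE hP => ?_⟩
  obtain ⟨Rc, π, cl, β', x, y, H, hπ⟩ := hP
  obtain ⟨hG, hok, -, -, hnl⟩ := hE
  by_contra hcon
  push Not at hcon
  obtain ⟨hR, hB, hBH⟩ := hcon
  refine hnl (LNS968.nl2_det H hπ hw h.adm hε h.T_pos.le hlt.le le_rfl hr le_rfl le_rfl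
    (lt_add_one T') anT_nonempty le_rfl hB hBH hR ?_ hok.ok₁ hok.ok₂
    (GxDet365.noB_d h.adm hε hG) fun k => ?_)
  · have h1 := GxDet365.cT_le_te hG
    linarith
  · cases k
    · exact GxDet365.noB_out h.adm hε hG (some true)
    · exact GxDet365.noB_out h.adm hε hG (some false)

end

end Crest.Agent.R122.LNEv383
end

-- ▼ part R122/LkSlot_974
section

/-!
# Row 122, LINK6 (S4): the field `lk` of `Slots6G` (helper974)

* `treeP_of_levD` : helper796's level data give the pair structure with the tree over the gas.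
* `gNull_line` : the independent lines are born in `(0, te]`.
* `slot_lk` : the field `lk` of `Slots6G`, from `PairAlt` and the absolute continuity `DAc` of the law
  of the first line. `slotP_lk` : the field `lk` of `Slots6P`.
-/

set_option autoImplicit false
set_option linter.unusedSectionVars false

open MeasureTheory Set Filter Topology
open scoped Classical ENNReal
open Crest.AnalysisR.Kinetic
open Crest.Agent.R122.GC311 Crest.Agent.R122.EDefs602
open Crest.Agent.R122.Kin796 Crest.Agent.R122.Kin796.CTree Crest.Agent.R122.Tree674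
open Crest.Agent.R122.TreeLines335 Crest.Agent.R122.LNTree410
open Crest.Agent.R122.Gate424 Crest.Agent.R122.Gate973
open Crest.Agent.R122.Boost969 (LSt)
open Crest.Agent.R122.Pair292 (Lab)
open Crest.Agent.R122.PairD292 Crest.Agent.R122.PairRep581
open Crest.Agent.R122.GateOsP424 (osB osZ)
open Crest.Agent.R122.OPX973 (OPX anT fNull_lkm)
open Crest.Agent.R122.VLInst442 Crest.Agent.R122.PWInst442 Crest.Agent.R122.LNEv968
open Crest.Agent.R122.LNPart424 Crest.Agent.R122.LNS674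
open Crest.Agent.R122.StrG491 (Pair PTree)
open Crest.Agent.R122.E6Hyp879 (E6Hyp withD)
open Crest.Agent.R122.X692 (SAlt XAlt JAlt)
open Crest.Agent.R122.PTreeOf331
open Crest.Agent.R122.LkDet974 (TreeP lk_det)
open Crest.Agent.R122.LKok416 (OkX6)
open Crest.Agent.R122.Link6796

noncomputable section

namespace Crest.Agent.R122.LkSlot974

variable {Φ : Space3 → ℝ} {f₀ : PhasePoint → ℝ} {bg γ β T' te' c : ℝ} {ρ : Space3 → ℝ≥0∞}
  {Q : EPar} {K : ℕ} {P : CTree} {S : Shp}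

/-- **The pair structure with the tree** over the gas, from the level data. -/
theorem treeP_of_levD {T ε ℓ ς te : ℝ} {q : (PhasePoint × Par P) × S.Θ} {n : ℕ} {w : Config n}
    (hΦ : AdmissiblePotential Φ) (hε : 0 < ε) (hte : te < T)
    (h : LevD Φ T ε c ℓ ς te K P S q) :
    ∃ (R₀ : ℝ → Fin n ⊕ (Idx P ⊕ S.κ) → Fin n ⊕ (Idx P ⊕ S.κ) → Prop)
      (π : Finset (Fin n ⊕ (Idx P ⊕ S.κ)))
      (cl : Fin n ⊕ (Idx P ⊕ S.κ) → Finset (Fin n ⊕ (Idx P ⊕ S.κ)))
      (bD : Fin n ⊕ (Idx P ⊕ S.κ) → ℝ) (x y : Idx P ⊕ S.κ),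
      TreeP Φ T ε c (osB P S ε q) (osZ Φ P S ε q) w R₀ π cl bD x y (iT P S.κ)
        (dL (S.th ε q.2)).1 (eL (S.th ε q.2)) te q.1 := by
  obtain ⟨R, cl, bD, x, y, h1, -, -⟩ := h.pair
  refine ⟨_, _, _, _, _, _, ⟨ptreeG_osP hΦ hε h1 h.valid h.sep h.ct.1 hte h.pass.ok w, ?_⟩⟩
  intro j
  rw [← unionG (P := P) (κ := S.κ) (n := n), Finset.mem_union]

/-- The independent lines are born in `(0, te]`. -/
theorem gNull_line {te : ℝ} (hf : Measurable f₀) {gl : ℝ → ℝ} (hgl : Measurable gl) {rm : ℝ≥0∞} {Km : ℕ} :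
    GNull f₀ (fun (_ : ℝ) (_ : Unit) => lineM gl rm Km te) (fun _ _ n x (_ : Config n) =>
      ¬ (0 < x.1.1)) := by
  refine gNull_of_ae hf (fun _ _ => inferInstance) fun ε _ _ n => ?_
  have h1 : ∀ᵐ x ∂(lineM gl rm Km te), 0 < x.1.1 :=
    (EBasic602.lineM_ae hgl).mono fun x hx => hx.1
  have h2 := (Measure.quasiMeasurePreserving_fst (μ := lineM gl rm Km te)
    (ν := (volume : Measure (Config n)))).ae h1
  filter_upwards [h2] with q hq _ hno
  exact hno hq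

/-- **Capped measure of the bad lines**: any set `lk` of lines which are not good over `cfg w` or over
`cfg w + d`, any guard `G` which contains `Gd6` and the hypotheses of the decomposition. -/
theorem fNull_lk1 (h : OPX Φ f₀ bg γ β T' Q.te ρ S Q.γ Q.ρ) (hte : Q.te < T')
    (hPA : PairAlt Φ f₀ Q T' K P S 1) (hd : OkInd942.DAc S te')
    {G : ℝ → (n : ℕ) → ((PhasePoint × Par P) × S.Θ) → Config n → Prop}
    (hG : ∀ ε n q (w : Config n), G ε n q w → Gd6 Φ ε K Q T' P q.1 w (S.th ε q.2) ∧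
      Hyp6 Φ ε K Q.te P q.1 w (S.th ε q.2))
    {lk : ℝ → (n : ℕ) → ((PhasePoint × Par P) × S.Θ) → Config n → Set ML}
    (hlk : ∀ ε n q (w : Config n) x, x ∈ lk ε n q w →
      ¬ (BadX974.GoodXB Φ ε K Q.te (MW.cfg w) P q.1 x ∧
        BadX974.GoodXB Φ ε K Q.te ((MW.cfg w).ins (dL (S.th ε q.2))) P q.1 x)) :
    FNull f₀ (osP Φ f₀ Q.te T' K P S) (fun ε _ n q w =>
      if G ε n q w then min 1 (lineM Q.γ Q.ρ K Q.te (lk ε n q w)) else 0) := by
  obtain ⟨B, Ht, hB, hH, hPA⟩ := hPA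
  refine h.fNull_of_alt (u := T') le_rfl K K (G := G) (lk := lk) fun L => ?_
  refine ⟨OneX973.sz (Idx P ⊕ S.κ) K L + OneX973.sz (Idx P ⊕ S.κ) K L, 1, T' + 1, B, _, _, Ht,
    fun _ _ n x _ => ¬ (0 < x.1.1), _, by have := h.T_pos; linarith,
    ⟨hB, h.badF_X K 1 0, h.badF_J T' K P K 1 0⟩,
    ⟨hH, gNull_line h.meas h.gl_meas, OkInd942.gNull_okX6 (K₁ := K) (te₁ := Q.te) h.adm h.meas
      h.shp.sf hd h.T_pos.le⟩, fun R hR ς hς => ?_⟩
  obtain ⟨ε₁, h0, h1⟩ := hPA R hR ς hς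
  refine ⟨min ε₁ (ς / (2 * R)), lt_min h0 (by positivity), fun ε hε hlt n q x w hw hg hx => ?_⟩
  have hς2 : 2 * (R * ε) ≤ ς := by
    have h2 : ε < ς / (2 * R) := hlt.trans_le (min_le_right _ _)
    rw [lt_div_iff₀ (by positivity)] at h2
    linarith
  obtain ⟨hgd, hhyp⟩ := hG ε n q w hg
  rcases h1 ε hε (hlt.trans_le (min_le_left _ _)) () n q w hw ⟨hgd.real.ct, hgd.real.okL⟩ hgd
    with hL | hL | hL
  swap
  · exact Or.inl (Or.inr (Or.inl hL))
  swap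
  · exact Or.inl (Or.inr (Or.inr hL))
  by_cases hx0 : 0 < x.1.1
  swap
  · exact Or.inr (Or.inl (Or.inr (Or.inr hx0)))
  by_cases hox : OkX6 Φ ε (MW.cfg w) P q.1 (dL (S.th ε q.2)) x
  swap
  · exact Or.inr (Or.inr (Or.inr (Or.inr ⟨hgd.real, hox⟩)))
  obtain ⟨R₀, π, cl, bD, x₀, y₀, hT⟩ := treeP_of_levD (w := w) h.adm hε hte hL
  rcases lk_det (K := K) (m := L) (R := R) (ς := ς) (T' := T') (T₁ := T' + 1) (A₀ := anT P S)
    (x := x) (d := dL (S.th ε q.2)) hT h.adm hε le_rfl hς2 le_rfl (by linarith)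
    ⟨Sum.inl (root P), by simp⟩ hw hhyp.ok₁ hox hx0.le hgd.real.okL.d1 le_rfl
    with h3 | h3 | h3 | h3
  · exact absurd h3 (hlk ε n q w x hx)
  · exact Or.inl (Or.inl h3)
  · exact Or.inr (Or.inl (Or.inl h3))
  · exact Or.inr (Or.inr (Or.inl h3))

/-- **The field `lk`**, any guard which contains `Gd6` and the hypotheses of the decomposition. -/
theorem fNull_lkG (h : OPX Φ f₀ bg γ β T' Q.te ρ S Q.γ Q.ρ) (hte : Q.te < T')
    (hPA : PairAlt Φ f₀ Q T' K P S 1) (hd : OkInd942.DAc S te')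
    {G : ℝ → (n : ℕ) → ((PhasePoint × Par P) × S.Θ) → Config n → Prop}
    (hG : ∀ ε n q (w : Config n), G ε n q w → Gd6 Φ ε K Q T' P q.1 w (S.th ε q.2) ∧
      Hyp6 Φ ε K Q.te P q.1 w (S.th ε q.2)) :
    FNull f₀ (osP Φ f₀ Q.te T' K P S) (fun ε _ n q w =>
      if G ε n q w then min 1 (Pt6811.lkm Φ Q K ε P q.1 n w (S.th ε q.2)) else 0) :=
  fNull_lkm h.meas ENNReal.ofReal_ne_top
    (fNull_lk1 h hte hPA hd hG fun _ _ _ _ _ hx hgood => hx (BadX974.goodX_iff.2 hgood.1))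
    (fNull_lk1 h hte hPA hd hG fun _ _ _ _ _ hx hgood => hx hgood.2)

/-- **The field `lk` of `Slots6G`.** -/
theorem slot_lk (h : OPX Φ f₀ bg γ β T' Q.te ρ S Q.γ Q.ρ) (hte : Q.te < T')
    (hPA : PairAlt Φ f₀ Q T' K P S 1) (hd : OkInd942.DAc S te') (R : ℝ) :
    FNull f₀ (osP Φ f₀ Q.te T' K P S)
      (fun ε _ n q w => fLkG Φ Q T' R K ε P q.1 n w (S.th ε q.2)) := by
  have h1 := fNull_lkG (G := fun ε _ q w => Gx6 Φ ε R K Q T' P q.1 w (S.th ε q.2) ∧
    Hyp6 Φ ε K Q.te P q.1 w (S.th ε q.2)) h hte hPA hd fun _ _ _ _ hg => ⟨hg.1.gd, hg.2⟩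
  refine h1.mono ⟨1, one_pos, fun ε _ _ _ n q w _ => ?_⟩
  unfold fLkG
  by_cases hg : Gx6 Φ ε R K Q T' P q.1 w (S.th ε q.2) ∧ Hyp6 Φ ε K Q.te P q.1 w (S.th ε q.2)
  · rw [if_pos hg, if_pos hg]
  · rw [if_neg hg]
    exact bot_le


end Crest.Agent.R122.LkSlot974

end
end

-- ▼ part R122/I3Done_478

/-!
# Inequality 3 of section E: the gateway facts of all windows (row 122, helper478)

* `slots6_win` : the null facts of LINK6 in one window.
* `leavesIn` : helper837's `I3LeavesIn`; `i3In` : **INEQUALITY 3**.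
-/

set_option autoImplicit false

open MeasureTheory ProbabilityTheory Set Filter
open scoped ENNReal Classical Topology
open Crest.AnalysisR.Kinetic
open Crest.Agent.R122.Kin796 Crest.Agent.R122.Kin796.CTree Crest.Agent.R122.Tree674
open Crest.Agent.R122.GC311 Crest.Agent.R122.EDefs602
open Crest.Agent.R122.PairD292 Crest.Agent.R122.Top602
open Crest.Agent.R122.Master566 (KData)
open Crest.Agent.R122.Mark307 (BPar)
open Crest.Agent.R122.CaseC658 (qK)
open Crest.Agent.R122.I3In566 (Adm3)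
open Crest.Agent.R122.NuC85 (nW)
open Crest.Agent.R122.NuL735 (Ix famB)
open Crest.Agent.R122.PairRep581
open Crest.Agent.R122.I3Slots837

noncomputable section

namespace Crest.Agent.R122.I3Fin478

variable {Φ : Space3 → ℝ} {β T : ℝ} {f₀ : PhasePoint → ℝ} {f : ℝ → PhasePoint → ℝ}

/-- **The null facts of LINK6** in one window. -/
theorem slots6_win (hD : KData Φ β T f₀ f) {h₀ : ℝ} {γ : ℝ → ℝ} {ρ : ℝ≥0∞}
    {kap lam C g : ℝ} {B : BPar} (hA : Adm3 Φ β T f γ ρ h₀ kap lam C g B) (hγm : Measurable γ)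
    (hρ : ρ ≠ ∞) (Cf : ℝ) (m : ℕ) (L : ℝ) {tw te : ℝ} (htw : 0 ≤ tw) (hlt : tw < te)
    (hte : te ≤ T) (hT' : te < tw + h₀) (j K : ℕ) (P : CTree)
    (s : Ix (nW β Cf g ρ h₀ m tw te).m₀) :
    Link6796.Slots6G Φ f₀ (epar γ ρ L tw te) (tw + h₀) K P
      (OpxWin796.itW Φ B C lam te (nW β Cf g ρ h₀ m tw te) j K s) := by
  obtain ⟨ρd, hO⟩ := OpxWin796.opx_win hD hA hγm hρ Cf m
  have h := hO htw hlt hte hT'.le j K s
  have hPA : ∀ c : ℝ, 1 ≤ c → Link6796.PairAlt Φ f₀ (epar γ ρ L tw te) (tw + h₀) K P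
      (OpxWin796.itW Φ B C lam te (nW β Cf g ρ h₀ m tw te) j K s) c := fun c hc =>
    OpxWin796.pairAlt_win hD hA hρ Cf m L htw hT' j K s hc K P
  have hte0 : (0 : ℝ) ≤ (epar γ ρ L tw te).te := htw.trans hlt.le
  have hQT : (epar γ ρ L tw te).te < tw + h₀ := hT'
  have hb0 : 0 < B.b₀ := hA.b0
  have hb2 : B.b₀ ≤ 2 * β := by
    have h1 := hA.ok.b0s
    have h2 := hA.bs
    have h3 := hD.beta_pos
    linarith
  have hbg := hA.bg
  have hS : ∀ s : Ix (nW β Cf g ρ h₀ m tw te).m₀,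
      ShpOk B.b₀ (B.b₀ / 2) (fun _ => 0) (famB Φ K (nW β Cf g ρ h₀ m tw te) s) :=
    fun s => NuL735.shpOk_base hD.adm K (nW β Cf g ρ h₀ m tw te) (γ := B.b₀) (β := B.b₀ / 2)
      hb2 hbg (by show B.b₀ / 2 < 2 * β; linarith) (by show B.b₀ / 2 < g; linarith) hρ
      measurable_const s
  have hd : OkInd942.DAc (OpxWin796.itW Φ B C lam te (nW β Cf g ρ h₀ m tw te) j K s)
      (tw + h₀) := fun ε hε =>
    DLaw416.dac_itS_base hD.adm K (nW β Cf g ρ h₀ m tw te) hS hε s j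
  exact {
    ok := SlotOk424.slotOkG_of_dac h hQT hd le_rfl le_rfl (hPA 1 le_rfl)
    nl0 := LNEv383.slot_nl0 h hQT (hPA 1 le_rfl)
    nl1 := LNEv383.slot_nl1 h hQT (hPA 1 le_rfl)
    nl2 := LNEv383.slot_nl2 h hQT (hPA 1 le_rfl)
    near := LNEv383.slot_near h hte0 hQT hPA
    lk := fun R _ => LkSlot974.slot_lk h hQT (hPA 1 le_rfl) hd R }

/-- **The gateway facts of all windows.** -/
theorem leavesIn (hD : KData Φ β T f₀ f) : I3LeavesIn Φ β f₀ f T := by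
  refine ⟨1, one_pos, 1, one_pos, 1 / 2, ENNReal.half_lt_self one_ne_zero ENNReal.one_ne_top,
    fun h₀ h0 _ γ ρ hl kap lam C g B hA Cf m => ⟨1, one_pos, 1,
      fun h L tw te _ _ _ _ hW _ hlt hT' => ?_⟩⟩
  have hρ : ρ ≠ ∞ := (hl.hi.trans_le le_top).ne
  exact ⟨fun j K s => LinkNWin581.linkNB_win hD hA hρ Cf m L hW.nonneg hlt hT' j K s,
    fun j K P s _ => slots6_win hD hA hl.measurable hρ Cf m L hW.nonneg hlt hW.le_T hT' j K P s⟩

/-- **The base laws of all windows.** -/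
theorem base3In (hD : KData Φ β T f₀ f) : Base3In Φ β f₀ f T :=
  base3In_of_leaves hD (leavesIn hD)

/-- **INEQUALITY 3.** -/
theorem i3In (hD : KData Φ β T f₀ f) : I3In Φ f₀ f T := i3In_of_base3 hD (base3In hD)

end Crest.Agent.R122.I3Fin478

end
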