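import Crest.Agent.R122.Link6Slots_796
import Crest.Agent.R122.EncSel_741
import Crest.Agent.R122.I3Step_478
import Crest.Agent.R122.WinZero_814_Mg

-- ▼ part R122/Link6Fin_796
section

/-!
# Row 122, LINK6 (helper796): `NullFacts` of a countable family of pair laws, with the error term of
the pointwise inequality of inequality 3

`link6` : from `Slots6` for every tree and shape: one measurable functional `bd ≥ bd6` on the
structures of `StmtPt6` and `NullFacts Φ f₀ Q T' bd (ν j)` for every `j`.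
-/

set_option autoImplicit false
set_option linter.unusedSectionVars false

open MeasureTheory Set Filter Topology
open scoped Classical ENNReal
open Crest.AnalysisR.Kinetic
open Crest.Agent.R122.GC311 Crest.Agent.R122.EDefs602
open Crest.Agent.R122.Kin796 Crest.Agent.R122.Kin796.CTree Crest.Agent.R122.Tree674
open Crest.Agent.R122.Gate424 Crest.Agent.R122.Gate973
open Crest.Agent.R122.Boost969 (LSt)
open Crest.Agent.R122.Pair292 (Lab PPar PX)
open Crest.Agent.R122.PairD292 Crest.Agent.R122.Pt6811 Crest.Agent.R122.Third741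
open Crest.Agent.R122.PairRep581 Crest.Agent.R122.GateOS2495

noncomputable section

namespace Crest.Agent.R122.Link6796

variable {Φ : Space3 → ℝ} {f₀ : PhasePoint → ℝ}


/-- The hypothesis of helper811's `stmtPt6_of`. -/
theorem hbd_of_gd {Q : EPar} {T' : ℝ} {σ : ℝ → ℝ} {bd : ℕ → ℝ → SF2}
    (hbd : ∀ (K : ℕ) (ε : ℝ), 0 < ε → ∀ (P : CTree) (z : PhasePoint × Par P) (m : ℕ)
        (w : Config m) (θ : Lab × LSt), Gd6 Φ ε K Q T' P z w θ →
        bd6 Φ Q σ K ε P z m w θ ≤ bd K ε P z m w θ) :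
    ∀ (K : ℕ) (ε : ℝ), 0 < ε → ∀ (P : CTree) (z : PhasePoint × Par P) (m : ℕ)
      (w : Config m) (θ : Lab × LSt), (eL θ).2 + P.leaves ≤ K → Real6 Φ ε K Q.te T' P z w θ →
      GIV566.unhit Φ ε (OneC285.ptube Φ ε P z) Q.tw w →
      bd6 Φ Q σ K ε P z m w θ ≤ bd K ε P z m w θ :=
  fun K ε hε P z m w θ hK hR hu => hbd K ε hε P z m w θ ⟨hK, hR, hu⟩

end Crest.Agent.R122.Link6796

end
end

-- ▼ part R122/I3Fin_478

/-!
# Inequality 3 of section E: the final form (row 122, helper478)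

* `Base3W` : the base law of one window and the facts of all levels (helper566's `Base3`), the error
  functional `bd` above helper811's `bd6`.
* `Base3In` : `Base3W` for all small horizons, all line parameters, all admissible constants and all
  short windows with `tw < te`.
* `i3In_of_base` : **INEQUALITY 3** from inequality 1 (pointwise), the null facts of the spread terms
  and `Base3In`; `i3In_of_open` : the same from `Link4In`.
-/

set_option autoImplicit false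

open MeasureTheory ProbabilityTheory Set Filter
open scoped ENNReal Classical Topology
open Crest.AnalysisR.Kinetic
open Crest.Agent.R122.Kin796 Crest.Agent.R122.Kin796.CTree Crest.Agent.R122.Tree674
open Crest.Agent.R122.GC311 Crest.Agent.R122.EDefs602 Crest.Agent.R122.EBasic602
open Crest.Agent.R122.Boost969 (LSt posAt)
open Crest.Agent.R122.Pair292 hiding ML
open Crest.Agent.R122.PairD292 Crest.Agent.R122.Top602 Crest.Agent.R122.Ineq1815
open Crest.Agent.R122.Master566 (KData)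
open Crest.Agent.R122.Mark307 (BPar)
open Crest.Agent.R122.CaseC658 (qK)
open Crest.Agent.R122.I3In566 (Adm3 parW SlotSB)
open Crest.Agent.R122.PairIter566 (Base3)
open Crest.Agent.R122.Link6796 (Gd6)
open Crest.Agent.R122.Pt6811 (bd6)
open Crest.Agent.R122.I3Step478

noncomputable section

namespace Crest.Agent.R122.I3Fin478

set_option maxHeartbeats 400000

variable {Φ : Space3 → ℝ} {β T : ℝ} {f₀ : PhasePoint → ℝ} {f : ℝ → PhasePoint → ℝ}

/-! ### Empty windows -/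

theorem px_zero (P : PPar) (c : ℝ≥0∞) : PX P (0 : Measure (Lab × LSt)) 0 c := by
  refine ⟨inferInstance, inferInstance, fun F _ => ?_, fun F _ => ?_, fun a => ?_⟩
  · simp
  · simp
  · simp

theorem bindN_zero (K : Kernel (Lab × LSt) (Lab × LSt)) (j : ℕ) :
    bindN (0 : Measure (Lab × LSt)) K j = 0 := by
  induction j with
  | zero => rfl
  | succ j ih =>
    change (bindN (0 : Measure (Lab × LSt)) K j).bind K = 0
    rw [ih, Measure.bind_zero_left]

theorem base3_zero {Q : EPar} {T' b₀ : ℝ} {q : ℕ → ℕ → ℝ≥0∞} {PP : ℕ → PPar} {c : ℝ≥0∞}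
    {PM : ℕ → ℝ → ℝ≥0∞} (hPM : ∀ K ε, PM K ε = 0) :
    Base3 Φ f₀ Q T' b₀ q PP (fun _ _ _ _ _ _ _ => 0) c PM := by
  refine ⟨fun _ _ => 0, fun _ _ => 0, fun K ε _ => px_zero _ _, ⟨fun _ _ => 0, Small.zero,
    Ev.of_forall fun K ε _ => by rw [hPM]; exact bot_le⟩, fun j K ε _ => ?_, fun j => ?_⟩
  · rw [bindN_zero]
    simp
  · refine ⟨fun K ε _ n => ?_, ?_, fun K ε _ P m => measurable_const, ?_⟩
    · rw [bindN_zero, Measure.prod_zero]
      simp
    · refine Null.zero.mono fun K ε _ => le_of_eq ?_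
      unfold BAD
      simp only [bindN_zero, lintegral_zero_measure]
      exact gcE_zero f₀ ε
    · refine Null.zero.mono fun K ε _ => le_of_eq ?_
      unfold OS2
      simp only [bindN_zero, lintegral_zero_measure]
      simp [gcE_zero]

theorem step6_zero {Q : EPar} (h : Q.te ≤ Q.tw) {T' r b₀ : ℝ} {q : ℕ → ℕ → ℝ≥0∞}
    {PP : ℕ → PPar} {bd : ℕ → ℝ → SF2} {C₁ C₂ : ℝ≥0∞} :
    Step6 Φ f₀ Q T' r b₀ q PP bd C₁ C₂ := by
  refine ⟨fun _ _ => 0, Small.zero, fun K ε hε _ hs => ?_⟩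
  exfalso
  have h1 : 0 < slk ε := Real.sqrt_pos.2 hε
  linarith

/-! ### The literal input -/

/-- One window: the error functional `bd` of the pointwise inequality, the base law and the facts of
all its continuations. -/
def Base3W (Φ : Space3 → ℝ) (f₀ : PhasePoint → ℝ) (Q : EPar) (T' b₀ : ℝ) (q : ℕ → ℕ → ℝ≥0∞)
    (PP : ℕ → PPar) (c : ℝ≥0∞) (PM : ℕ → ℝ → ℝ≥0∞) : Prop :=
  ∃ bd : ℕ → ℝ → SF2,
    (∀ (K : ℕ) (ε : ℝ), 0 < ε → ∀ (P : CTree) (z : PhasePoint × Par P) (m : ℕ)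
      (w : Config m) (θ : Lab × LSt), Gd6 Φ ε K Q T' P z w θ →
      bd6 Φ Q slk K ε P z m w θ ≤ bd K ε P z m w θ) ∧
    Base3 Φ f₀ Q T' b₀ q PP bd c PM

/-- **The base laws of all windows.** -/
def Base3In (Φ : Space3 → ℝ) (β : ℝ) (f₀ : PhasePoint → ℝ) (f : ℝ → PhasePoint → ℝ) (T : ℝ) :
    Prop :=
  InHL T fun h₀ γ ρ => ∀ (kap lam C g : ℝ) (B : BPar)
    (hA : Adm3 Φ β T f γ ρ h₀ kap lam C g B), ∀ m : ℕ, ∃ c : ℝ≥0∞, c ≠ ∞ ∧
      EvW T fun _ L tw te => IH Φ f₀ f T γ ρ tw → tw < te → te < tw + h₀ →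
        Base3W Φ f₀ (epar γ ρ L tw te) (tw + h₀) B.b₀ (qK C lam) (parW B hA.ok te) c
          (PMn Φ f₀ γ ρ h₀ m L tw te)


/-- helper566's slot. -/
theorem slotSB (hD : KData Φ β T f₀ f) {h₀ : ℝ} (h0 : 0 < h₀) {γ : ℝ → ℝ} {ρ : ℝ≥0∞}
    (hγ : Measurable γ) {kap lam C g : ℝ} {B : BPar} (hA : Adm3 Φ β T f γ ρ h₀ kap lam C g B)
    {σ : ℝ → ℝ≥0∞} (hσ : Tendsto σ (𝓝[>] 0) (𝓝 0))
    (hS : ∀ r : ℝ, 0 < r →
        ∃ o : ℝ → ℝ → ℝ≥0∞, Vanish o ∧ EvW T fun h L tw te => IH Φ f₀ f T γ ρ tw →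
          ∀ PP : ℕ → PPar, PPOk (epar γ ρ L tw te) PP →
          ∀ bd : ℕ → ℝ → SF2, (∀ K ε, 0 < ε → MeasSF2 (bd K ε)) →
          StmtPt6 Φ (epar γ ρ L tw te) (tw + h₀) r (H5994.tOc Φ (epar γ ρ L tw te) (tw + h₀))
            (H5994.tYc Φ (epar γ ρ L tw te) (tw + h₀)) bd →
          Step6 Φ f₀ (epar γ ρ L tw te) (tw + h₀) r B.b₀ (qK C lam) PP bd
            (σ r + o h L) Direct658.v1)
    (hB : ∀ m : ℕ, ∃ c : ℝ≥0∞, c ≠ ∞ ∧
      EvW T fun _ L tw te => IH Φ f₀ f T γ ρ tw → tw < te → te < tw + h₀ →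
        Base3W Φ f₀ (epar γ ρ L tw te) (tw + h₀) B.b₀ (qK C lam) (parW B hA.ok te) c
          (PMn Φ f₀ γ ρ h₀ m L tw te)) :
    SlotSB Φ f₀ f T γ ρ h₀ lam C B hA.ok := by
  refine ⟨Direct658.v1, Direct658.v1_ne_top, σ, hσ, fun m => ?_⟩
  obtain ⟨c, hc, hBm⟩ := hB m
  refine ⟨c, hc, fun r hr _ => ?_⟩
  obtain ⟨o, ho, hSr⟩ := hS r hr
  refine ⟨o, ho, ((hSr.and hBm).and (evW_le (half_pos h0))).mono
    fun h L tw te _ hL hw hq hI => ?_⟩
  obtain ⟨⟨hq1, hq2⟩, hh⟩ := hq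
  rcases le_or_gt te tw with hz | hz
  · exact ⟨_, step6_zero hz, base3_zero fun K ε => WinZero814.PMn_eq_zero hz m⟩
  have hte : te < tw + h₀ := by linarith [hw.short]
  obtain ⟨bd, hbd, hB3⟩ := hq2 hI hz hte
  have hbm : ∀ K ε, 0 < ε → MeasSF2 (bd K ε) := by
    obtain ⟨Ξ, ν, -, -, -, hN⟩ := hB3
    exact (hN 0).meas
  refine ⟨bd, hq1 hI _ (hA.ppOk hw.le_T) bd hbm ?_, hB3⟩
  exact Pt6811.stmtPt6 hD.adm (Q := epar γ ρ L tw te) (zero_lt_one.trans_le hL)
    (hw.nonneg.trans hw.le) hte.le hγ (Link6796.hbd_of_gd hbd)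

/-- **INEQUALITY 3.** -/
theorem i3In_of_base (hD : KData Φ β T f₀ f) (hPt : PtAll Φ f₀ f T) (hAB : NullABIn Φ f₀ f T)
    (hB : Base3In Φ β f₀ f T) : I3In Φ f₀ f T := by
  refine I3In566.i3In_of_slots hD hPt (((step6In hD hAB).and hB).mono
    fun h₀ γ ρ h0 hl hh kap lam C g B hA => ?_)
  obtain ⟨g1, r1, hl⟩ := hl
  obtain ⟨hS, hB⟩ := hh
  obtain ⟨σ, hσ, hS⟩ := hS kap lam C B.b₀ hA.kin
  exact slotSB hD h0 hl.measurable hA hσ hS (hB kap lam C g B hA)

/-- **INEQUALITY 3** from its open inputs. -/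
theorem i3In_of_open (hD : KData Φ β T f₀ f) (h4 : Link4In Φ f₀ f T) (hAB : NullABIn Φ f₀ f T)
    (hB : Base3In Φ β f₀ f T) : I3In Φ f₀ f T :=
  i3In_of_base hD (ptAll_of_parts hD ⟨LNSkel291.rtgIn hD, h4⟩) hAB hB

end Crest.Agent.R122.I3Fin478

end
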