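import Mathlib
import Crest.Agent.R122.ForestSep_399
import Crest.Agent.R122.ForestInt_399
import Crest.Agent.R122.GIVUse_424
import Crest.Agent.R122.TubeChild1_491
import Crest.Agent.R122.HidLam2_424
import Crest.Agent.R122.KinMain_796
import Crest.Agent.R122.Master_566

-- ▼ part R122/TransAvg_399
section

/-!
Row 122 (helper399): averaging over a measure preserving action + dominated convergence.
-/

set_option autoImplicit false

open MeasureTheory Set Filter Topology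
open scoped Classical ENNReal

noncomputable section

namespace Crest.Agent.R122.TransAvg399

variable {E Q β : Type*} [MeasureSpace E] [SigmaFinite (volume : Measure E)] [MeasurableSpace Q]
  {μ : Measure Q} [SFinite μ]

/-- averaging identity -/
theorem avg_eq {τ : E → Q → Q} (hτ : ∀ x, MeasurePreserving (τ x) μ μ)
    (hτm : Measurable fun z : E × Q => τ z.1 z.2) (B : Set E) {H : Q → ℝ≥0∞} (hH : Measurable H) :
    (volume B) * ∫⁻ q, H q ∂μ = ∫⁻ q, (∫⁻ x in B, H (τ x q)) ∂μ := by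
  have h1 : ∫⁻ x in B, ∫⁻ q, H (τ x q) ∂μ = ∫⁻ q, (∫⁻ x in B, H (τ x q)) ∂μ :=
    lintegral_lintegral_swap (μ := (volume : Measure E).restrict B) (ν := μ)
      (f := fun x q => H (τ x q)) (hH.comp hτm).aemeasurable
  rw [← h1]
  have h2 : ∀ x, ∫⁻ q, H (τ x q) ∂μ = ∫⁻ q, H q ∂μ := fun x => (hτ x).lintegral_comp hH
  simp only [h2, lintegral_const, Measure.restrict_apply_univ]
  ring

/-- **Averaging + domination.** -/
theorem trans_avg {τ : E → Q → Q} (hτ : ∀ x, MeasurePreserving (τ x) μ μ)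
    (hτm : Measurable fun z : E × Q => τ z.1 z.2) {B : Set E} (hB : MeasurableSet B)
    (hB0 : volume B ≠ 0) (hBf : volume B ≠ ∞) {F : Filter β} [F.IsCountablyGenerated]
    {w G : β → Q → ℝ≥0∞} (hw : ∀ᶠ b in F, Measurable (w b)) (hG : ∀ᶠ b in F, Measurable (G b))
    {c : ℝ≥0∞} (hc : c ≠ ∞) (hGc : ∀ᶠ b in F, ∀ q, G b q ≤ c) {W : Q → ℝ≥0∞}
    (hW : AEMeasurable W μ) (hWi : ∫⁻ q, W q ∂μ ≠ ∞)
    (hwW : ∀ᶠ b in F, ∀ᵐ q ∂μ, ∀ x ∈ B, w b (τ x q) ≤ W q)
    (hlim : ∀ᵐ q ∂μ, Tendsto (fun b => ∫⁻ x in B, G b (τ x q)) F (𝓝 0)) :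
    Tendsto (fun b => ∫⁻ q, w b q * G b q ∂μ) F (𝓝 0) := by
  -- the averaged bound
  have hbound : ∀ᶠ b in F, ∫⁻ q, w b q * G b q ∂μ ≤
      (volume B)⁻¹ * ∫⁻ q, (W q * ∫⁻ x in B, G b (τ x q)) ∂μ := by
    filter_upwards [hw, hG, hwW] with b hwb hGb hb
    have h1 := avg_eq hτ hτm B (hwb.mul hGb)
    have h2 : ∫⁻ q, (∫⁻ x in B, (w b * G b) (τ x q)) ∂μ ≤
        ∫⁻ q, (W q * ∫⁻ x in B, G b (τ x q)) ∂μ := by
      refine lintegral_mono_ae ?_
      filter_upwards [hb] with q hq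
      have hm : Measurable fun x => G b (τ x q) :=
        hGb.comp (hτm.comp (measurable_id.prodMk measurable_const))
      rw [← lintegral_const_mul _ hm]
      refine setLIntegral_mono' hB fun x hx => ?_
      simp only [Pi.mul_apply]
      gcongr
      exact hq x hx
    rw [← h1] at h2
    calc ∫⁻ q, w b q * G b q ∂μ = (volume B)⁻¹ * (volume B * ∫⁻ q, (w b * G b) q ∂μ) := by
          rw [← mul_assoc, ENNReal.inv_mul_cancel hB0 hBf, one_mul]
          rfl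
      _ ≤ _ := by gcongr
  -- domination
  have hlim2 : Tendsto (fun b => ∫⁻ q, (W q * ∫⁻ x in B, G b (τ x q)) ∂μ) F (𝓝 0) := by
    have h0 : ∫⁻ _ : Q, (0 : ℝ≥0∞) ∂μ = 0 := by simp
    rw [← h0]
    refine tendsto_lintegral_filter_of_dominated_convergence' (fun q => W q * (c * volume B))
      ?_ ?_ ?_ ?_
    · filter_upwards [hG] with b hGb
      exact hW.mul (Measurable.lintegral_prod_left'
        (f := fun z : E × Q => G b (τ z.1 z.2)) (hGb.comp hτm)).aemeasurable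
    · filter_upwards [hGc] with b hb
      refine Eventually.of_forall fun q => ?_
      gcongr
      calc ∫⁻ x in B, G b (τ x q) ≤ ∫⁻ _ in B, c := lintegral_mono fun x => hb _
        _ = c * volume B := by simp
    · rw [lintegral_mul_const'' _ hW]
      exact ENNReal.mul_ne_top hWi (ENNReal.mul_ne_top hc hBf)
    · filter_upwards [hlim, ae_lt_top' hW hWi] with q hq hq2
      have := ENNReal.Tendsto.const_mul (a := W q) hq (Or.inr hq2.ne)
      simpa using this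
  have hlim3 : Tendsto (fun b => (volume B)⁻¹ * ∫⁻ q, (W q * ∫⁻ x in B, G b (τ x q)) ∂μ) F (𝓝 0) := by
    have := ENNReal.Tendsto.const_mul (a := (volume B)⁻¹) hlim2
      (Or.inr (ENNReal.inv_ne_top.2 hB0))
    simpa using this
  exact tendsto_of_tendsto_of_tendsto_of_le_of_le' tendsto_const_nhds hlim3
    (Eventually.of_forall fun _ => bot_le) hbound

end Crest.Agent.R122.TransAvg399

end
end

-- ▼ part R122/ForestTube_399
section

/-!
Row 122, block I1 (helper399): the protected tubes of a forest.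

* `ftubes` : the protected tubes up to the final time `t`;
* `fshift` : common translation of the roots, measure preserving;
* `fconvE`, `generic_ftubes` : convergence and genericity of the tubes;
* `dampG_ftubes` : the kinetic avoidance probability is the product of the damping factors;
* `prod_tdens_eq` : the damped density of a forest.
-/

set_option autoImplicit false

open MeasureTheory Set Filter Topology Crest.AnalysisR.Kinetic
open scoped Classical ENNReal NNReal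

noncomputable section

namespace Crest.Agent.R122.Forest399

open Kin796 Kin796.CTree Kin416 Disc416 Tree674 TreeEps399 PiTrans399 TreeFatou399 Hid424 GIV566
  GIVUse424 Boltz814

variable {Φ : Space3 → ℝ} {s : ℕ} {ε : ℝ}

/-- the protected tubes of a forest with final time `t` -/
def ftubes (Φ : Space3 → ℝ) (ε : ℝ) (Ps : Fin s → CTree) (t : ℝ) (q : FPar Ps) : Tubes (FIdx Ps) :=
  ⟨fun k u => (path Φ ε (Ps k.1) (q k.1).1 (q k.1).2 u k.2).1,
    fun k => prot (Ps k.1) t (q k.1).2 k.2⟩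

/-- common translation of the roots -/
def fshift {Ps : Fin s → CTree} (x : Space3) (q : FPar Ps) : FPar Ps :=
  fun i => (((q i).1.1 + x, (q i).1.2), (q i).2)

theorem measurePreserving_fshift (Ps : Fin s → CTree) (x : Space3) :
    MeasurePreserving (fshift x : FPar Ps → FPar Ps) volume volume := by
  have h1 : ∀ i, MeasurePreserving (fun z : PhasePoint × Par (Ps i) =>
      (((z.1.1 + x, z.1.2), z.2) : PhasePoint × Par (Ps i))) volume volume := by
    intro i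
    have a1 : MeasurePreserving (fun ℓ : PhasePoint => ((ℓ.1 + x, ℓ.2) : PhasePoint))
        volume volume :=
      (measurePreserving_add_right (volume : Measure Space3) x).prod
        (MeasurePreserving.id (volume : Measure Space3))
    exact a1.prod (MeasurePreserving.id (volume : Measure (Par (Ps i))))
  exact measurePreserving_pi (fun i : Fin s => (volume : Measure (PhasePoint × Par (Ps i))))
    (fun i : Fin s => (volume : Measure (PhasePoint × Par (Ps i)))) h1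

theorem measurable_fshift (Ps : Fin s → CTree) :
    Measurable fun z : Space3 × FPar Ps => fshift z.1 z.2 := by
  refine measurable_pi_lambda _ fun i => ?_
  have h1 : Measurable fun z : Space3 × FPar Ps => z.2 i :=
    (measurable_pi_apply i).comp measurable_snd
  exact (((h1.fst.fst).add measurable_fst).prodMk h1.fst.snd).prodMk h1.snd

theorem path_root_shift (ε : ℝ) (P : CTree) (ℓ : PhasePoint) (x : Space3) (p : Par P) (u : ℝ)
    (i : Idx P) :
    path Φ ε P (ℓ.1 + x, ℓ.2) p u i = ((path Φ ε P ℓ p u i).1 + x, (path Φ ε P ℓ p u i).2) := by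
  rw [Hid424.path_shift ε P (ℓ.1 + x) ℓ.2, show path Φ ε P ℓ p u i =
    path Φ ε P (ℓ.1, ℓ.2) p u i from rfl, Hid424.path_shift ε P ℓ.1 ℓ.2]
  simp [add_assoc]




theorem ftubes_shift (Ps : Fin s → CTree) (t : ℝ) (q : FPar Ps) (x : Space3) :
    ftubes Φ ε Ps t (fshift x q) = (ftubes Φ ε Ps t q).shift x := by
  unfold ftubes Tubes.shift
  congr 1
  funext k u
  show (path Φ ε (Ps k.1) ((q k.1).1.1 + x, (q k.1).1.2) (q k.1).2 u k.2).1 = _
  rw [path_root_shift]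

/-! ### Protected times -/

theorem prot_cases (P : CTree) (t t' : ℝ) (p : Par P) (i : Idx P) :
    (i = root P ∧ prot P t p i = t) ∨ (i ≠ root P ∧ prot P t p i = prot P t' p i) := by
  by_cases h : i = root P
  · left
    refine ⟨h, ?_⟩
    rw [h]
    exact PathFlow968.prot_root P t p
  · right
    exact ⟨h, PathFlow968.prot_eq_of_ne P t t' p h⟩

theorem prot_le_top {P : CTree} {t : ℝ} {v : Space3} {p : Par P} (hV : Valid Φ 0 P t v p)
    (i : Idx P) : prot P t p i ≤ t := PathFlow968.prot_le le_rfl P t v p hV.2 i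

theorem tendsto_prot {β : Type*} {F : Filter β} {τ : β → ℝ} {t₀ : ℝ} (hτ : Tendsto τ F (𝓝 t₀))
    (P : CTree) (p : Par P) (i : Idx P) :
    Tendsto (fun b => prot P (τ b) p i) F (𝓝 (prot P t₀ p i)) := by
  by_cases h : i = root P
  · subst h
    simp only [PathFlow968.prot_root]
    exact hτ
  · have h1 : (fun b => prot P (τ b) p i) = fun _ => prot P t₀ p i := by
      funext b
      exact PathFlow968.prot_eq_of_ne P (τ b) t₀ p h
    rw [h1]
    exact tendsto_const_nhds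

theorem ftubes_b_le {Ps : Fin s → CTree} {t t₀ : ℝ} {q : FPar Ps} (hV : FValid Φ 0 Ps t₀ q)
    (k : FIdx Ps) : (ftubes Φ ε Ps t q).b k ≤ max t t₀ := by
  show prot (Ps k.1) t (q k.1).2 k.2 ≤ max t t₀
  rcases prot_cases (Ps k.1) t t₀ (q k.1).2 k.2 with ⟨_, h⟩ | ⟨_, h⟩
  · rw [h]; exact le_max_left _ _
  · rw [h]; exact (prot_le_top (hV k.1) k.2).trans (le_max_right _ _)

/-! ### Convergence and genericity -/

section conv

variable {β : Type*} {F : Filter β} {e τ : β → ℝ} {t₀ T : ℝ}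

/-- **Convergence of the tubes of a forest.** -/
theorem fconvE (hΦ : AdmissiblePotential Φ) (he : Tendsto e F L) (hτ : Tendsto τ F (𝓝 t₀))
    (hT : 0 ≤ T) (h0 : t₀ ≤ T) (hτT : ∀ᶠ b in F, τ b ≤ T) (Ps : Fin s → CTree) {q : FPar Ps}
    (hV : FValid Φ 0 Ps t₀ q) (hG : FGen Φ Ps q) :
    ConvE F T (fun b => ftubes Φ (e b) Ps (τ b) q) (ftubes Φ 0 Ps t₀ q) := by
  have hVT : ∀ i, Valid Φ 0 (Ps i) T (q i).1.2 (q i).2 := fun i => valid_mono h0 (hV i)
  have hG0 : ∀ i, Gen Φ (Ps i) (0, (q i).1.2) (q i).2 := fun i =>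
    (Hid424.gen_shift (q i).1.1).1 (hG.1 i)
  refine ⟨?_, ?_, ?_, ?_, ?_⟩
  · have h1 := fun i => TubeChild491.pathlip hΦ he hT (hVT i) (hG0 i) (fun _ => (q i).1.1)
    choose M hM using h1
    refine ⟨∑ i, M i, ?_⟩
    have h2 : ∀ᶠ b in F, ∀ i, ∀ j : Idx (Ps i), LipschitzOnWith (M i)
        (fun u => (path Φ (e b) (Ps i) ((q i).1.1, (q i).1.2) (q i).2 u j).1) (Icc 0 T) :=
      eventually_all.2 fun i => (hM i).1
    filter_upwards [h2] with b hb k
    exact (hb k.1 k.2).weaken (Finset.single_le_sum (f := M) (fun _ _ => bot_le)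
      (Finset.mem_univ k.1))
  · intro k
    exact TubeChild491.pathunif he (hV k.1) (X := fun _ => (q k.1).1.1) tendsto_const_nhds
      (Icc 0 T) k.2
  · intro k
    exact tendsto_prot hτ (Ps k.1) (q k.1).2 k.2
  · refine ⟨⋃ i, {u | ¬ NotTime (Ps i) (q i).2 u}, Set.finite_iUnion fun i =>
      Hid424.finite_times (Ps i) (q i).2, ?_⟩
    intro u hu huB k _
    have hn : NotTime (Ps k.1) (q k.1).2 u := by
      by_contra h
      exact huB (mem_iUnion.2 ⟨k.1, h⟩)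
    obtain ⟨w, δ, hδ, h1, h2⟩ := TubeChild491.pathvel (v := (q k.1).1.2) he hn
      (fun _ => (q k.1).1.1) (q k.1).1.1
    exact ⟨w k.2, Metric.ball u δ, Metric.ball_mem_nhds u hδ, h1 k.2, h2.mono fun b hb => hb k.2⟩
  · filter_upwards [hτT] with b hb k
    exact (ftubes_b_le hV k).trans (max_le hb h0)

/-- **Genericity of the tubes of a forest.** -/
theorem generic_ftubes {Ps : Fin s → CTree} {q : FPar Ps} (hG : FGen Φ Ps q) :
    Generic T (ftubes Φ 0 Ps t₀ q) := by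
  rintro ⟨i, j⟩ ⟨i', j'⟩ hne
  by_cases hi : i = i'
  · subst hi
    have hj : j ≠ j' := fun h => hne (by rw [h])
    refine (Hid424.finite_meet (hG.1 i) hj).subset ?_
    rintro u ⟨hu, he⟩
    exact ⟨hu.1, he⟩
  · refine (Set.finite_empty).subset ?_
    rintro u ⟨_, he⟩
    exact hG.2 i i' hi j j' u he

end conv

/-! ### The damping -/

section damp

variable {β T : ℝ} {f₀ : PhasePoint → ℝ} {f : ℝ → PhasePoint → ℝ}

theorem deriv_path {P : CTree} {p : Par P} {u : ℝ} (hn : NotTime P p u) (ℓ : PhasePoint)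
    (i : Idx P) :
    deriv (fun u => (path Φ 0 P ℓ p u i).1) u = (path Φ 0 P ℓ p u i).2 := by
  obtain ⟨w, δ, hδ, h0, _⟩ := path_local (Φ := Φ) P ℓ.2 p u hn
  have h1 : ∀ u', |u' - u| < δ → path Φ 0 P ℓ p u' i = ((path Φ 0 P ℓ p u i).1 + (u' - u) • w i, w i) :=
    fun u' hu' => h0 ℓ.1 u' hu' i
  have h2 : (path Φ 0 P ℓ p u i).2 = w i := by
    have := h1 u (by simpa using hδ)
    rw [this]
  rw [h2]
  have h3 : (fun u => (path Φ 0 P ℓ p u i).1) =ᶠ[𝓝 u]
      fun u' => (path Φ 0 P ℓ p u i).1 + (u' - u) • w i := by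
    filter_upwards [Metric.ball_mem_nhds u hδ] with u' hu'
    rw [h1 u' (by simpa [Real.dist_eq] using hu')]
  rw [h3.deriv_eq]
  have h4 : HasDerivAt (fun u' : ℝ => (path Φ 0 P ℓ p u i).1 + (u' - u) • w i) (w i) u := by
    have := (((hasDerivAt_id u).sub_const u).smul_const (w i)).const_add (path Φ 0 P ℓ p u i).1
    simpa using this
  exact h4.deriv

theorem continuous_ftubes {Ps : Fin s → CTree} {t t₀ : ℝ} {q : FPar Ps} (hV : FValid Φ 0 Ps t₀ q)
    (k : FIdx Ps) : Continuous ((ftubes Φ 0 Ps t q).c k) :=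
  TreeEps399.continuous_path0 (Ps k.1) (q k.1).1 (q k.1).2 t₀ (hV k.1).2 k.2

/-- **The rate of the protected tubes of a forest.** -/
theorem Lam_ftubes (hf : IsRegularKineticSolution Φ β T f₀ f) {Ps : Fin s → CTree} {t₀ t : ℝ}
    {q : FPar Ps} (hV : FValid Φ 0 Ps t₀ q) (h0 : t₀ ≤ t) :
    Lam T f (ftubes Φ 0 Ps t₀ q) t =
      ∑ i, LamP Φ (nuF T f) t₀ (Ps i) t₀ (q i).1 (q i).2 := by
  rw [Lam_eq_sum hf fun k => (continuous_ftubes hV k).continuousOn, Fintype.sum_sigma]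
  refine Finset.sum_congr rfl fun i _ => ?_
  unfold LamP
  refine Finset.sum_congr rfl fun j _ => ?_
  unfold legR
  have h1 : prot (Ps i) t₀ (q i).2 j ≤ t₀ := prot_le_top (hV i) j
  have h2 : (ftubes Φ 0 Ps t₀ q).b ⟨i, j⟩ = prot (Ps i) t₀ (q i).2 j := rfl
  rw [h2, min_eq_left h1, min_eq_left (h1.trans h0)]
  have h3 : ∀ᵐ u : ℝ, NotTime (Ps i) (q i).2 u := by
    rw [ae_iff]
    exact (Hid424.finite_times (Ps i) (q i).2).measure_zero volume
  refine lintegral_congr_ae (ae_restrict_of_ae ?_)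
  filter_upwards [h3] with u hu
  show nuF T f u (path Φ 0 (Ps i) (q i).1 (q i).2 u j).1
    (deriv (fun u => (path Φ 0 (Ps i) (q i).1 (q i).2 u j).1) u) = _
  rw [deriv_path hu]

theorem eexp_sum {ι : Type*} (A : Finset ι) (x : ι → ℝ≥0∞) (h : ∀ i ∈ A, x i ≠ ∞) :
    eexp (∑ i ∈ A, x i) = ∏ i ∈ A, eexp (x i) := by
  induction A using Finset.induction_on with
  | empty => simp [eexp_zero]
  | insert a A ha ih =>
    rw [Finset.sum_insert ha, Finset.prod_insert ha, eexp_add (h a (Finset.mem_insert_self a A)),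
      ih fun i hi => h i (Finset.mem_insert_of_mem hi)]
    exact ENNReal.sum_ne_top.2 fun i hi => h i (Finset.mem_insert_of_mem hi)

/-- the kinetic avoidance probability of a forest is the product of the damping factors -/
theorem dampG_ftubes (hβ : 0 < β) (hT : 0 < T) (hf : IsRegularKineticSolution Φ β T f₀ f)
    {Ps : Fin s → CTree} {t₀ t : ℝ} (ht₀ : 0 ≤ t₀) {q : FPar Ps} (hV : FValid Φ 0 Ps t₀ q)
    (h0 : t₀ ≤ t) :
    dampG T f (ftubes Φ 0 Ps t₀ q) t =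
      ∏ i, eexp (LamP Φ (nuF T f) t₀ (Ps i) t₀ (q i).1 (q i).2) := by
  unfold dampG
  rw [Lam_ftubes hf hV h0]
  exact eexp_sum Finset.univ _ fun i _ =>
    LamP_ne_top (finRate_nuF hβ hT hf) ht₀ (hV i).2

theorem dens_congr {D D' : ℝ → ℝ → Space3 → Space3 → ℝ≥0∞} {f0 : Space3 → Space3 → ℝ≥0∞} {tw : ℝ}
    (htw : 0 ≤ tw) (h : ∀ s t x v, s ≤ tw → t ≤ tw → D s t x v = D' s t x v) :
    ∀ (P : CTree) (t : ℝ) (ℓ : PhasePoint) (p : Par P), t ≤ tw → Tree674.Ord Φ 0 P t ℓ.2 p →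
      dens Φ D f0 P t ℓ p = dens Φ D' f0 P t ℓ p
  | leaf, t, ℓ, p, ht, _ => by
      simp only [dens]
      rw [h 0 t _ _ htw ht]
  | node l r, t, ℓ, p, ht, hO => by
      have h1 : p.1.1 < t := hO.1
      have hl := hO.2.2.1
      have hr := hO.2.2.2
      rw [sin_zero] at hl hr
      have e1 := dens_congr (f0 := f0) htw h l p.1.1 (inMap Φ 0 ℓ p.1).1 p.2.1 (h1.le.trans ht) hl
      have e2 := dens_congr (f0 := f0) htw h r p.1.1 (inMap Φ 0 ℓ p.1).2 p.2.2 (h1.le.trans ht) hr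
      simp only [dens]
      rw [e1, e2, h _ _ _ _ (h1.le.trans ht) ht]

theorem Dwin_eq_damp {tw s t : ℝ} (hs : s ≤ tw) (ht : t ≤ tw) (x v : Space3) :
    damp T f s t x v = Hid424.Dwin (nuF T f) tw s t x v := by
  rw [← Dwin_814]
  unfold Seg814.Dwin
  rw [min_eq_left hs, min_eq_left ht, sub_self, zero_smul, sub_zero]

/-- damped density of a tree: `exp (-Λ)` times the product of the initial densities -/
theorem dens_damp (hβ : 0 < β) (hT : 0 < T) (hf : IsRegularKineticSolution Φ β T f₀ f)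
    (f0 : Space3 → Space3 → ℝ≥0∞) {P : CTree} {t : ℝ} (ht : 0 ≤ t) {ℓ : PhasePoint} {p : Par P}
    (hO : Tree674.Ord Φ 0 P t ℓ.2 p) :
    dens Φ (damp T f) f0 P t ℓ p = eexp (LamP Φ (nuF T f) t P t ℓ p) *
      ∏ i, f0 (lines Φ 0 P ℓ p i).1 (lines Φ 0 P ℓ p i).2 := by
  rw [dens_congr (D' := Hid424.Dwin (nuF T f) t) ht (fun s t' x v hs ht' => Dwin_eq_damp hs ht' x v)
    P t ℓ p le_rfl hO]
  exact dens_eq (finRate_nuF hβ hT hf) ht f0 ht hO

/-- **The damped density of a forest.** -/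
theorem prod_tdens_eq (hβ : 0 < β) (hT : 0 < T) (hf : IsRegularKineticSolution Φ β T f₀ f)
    {Ps : Fin s → CTree} {t₀ t : ℝ} (ht₀ : 0 ≤ t₀) (h0 : t₀ ≤ t) {q : FPar Ps}
    (hV : FValid Φ 0 Ps t₀ q) :
    ∏ i, tdens Φ (damp T f) (fE T f 0) (Ps i) t₀ (q i) =
      ((∏ i, wt Φ (Ps i) (q i).1.2 (q i).2) * ∏ k, ENNReal.ofReal (f₀ (flines Φ 0 Ps q k))) *
        dampG T f (ftubes Φ 0 Ps t₀ q) t := by
  have h1 : ∀ i, tdens Φ (damp T f) (fE T f 0) (Ps i) t₀ (q i) =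
      wt Φ (Ps i) (q i).1.2 (q i).2 * (eexp (LamP Φ (nuF T f) t₀ (Ps i) t₀ (q i).1 (q i).2) *
        ∏ j, ENNReal.ofReal (f₀ (lines Φ 0 (Ps i) (q i).1 (q i).2 j))) := by
    intro i
    unfold tdens
    rw [indicator_of_mem (show q i ∈ {z : PhasePoint × Par (Ps i) | Valid Φ 0 (Ps i) t₀ z.1.2 z.2}
      from hV i), dens_damp hβ hT hf (fE T f 0) ht₀ (hV i).2]
    congr 2
    refine Finset.prod_congr rfl fun j _ => ?_
    rw [fE_of_mem (⟨le_rfl, hT.le⟩ : (0 : ℝ) ∈ Icc 0 T), hf.initial]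
  rw [dampG_ftubes hβ hT hf ht₀ hV h0]
  simp only [h1, Finset.prod_mul_distrib]
  have h2 : ∏ k : FIdx Ps, ENNReal.ofReal (f₀ (flines Φ 0 Ps q k)) =
      ∏ i, ∏ j, ENNReal.ofReal (f₀ (lines Φ 0 (Ps i) (q i).1 (q i).2 j)) :=
    Fintype.prod_sigma _
  rw [h2]
  ring

end damp

end Crest.Agent.R122.Forest399

end
end

-- ▼ part R122/ForestLim_399
section

/-!
Row 122, block I1 (helper399): the one-sided limit of the ghost-avoiding forests.

`forest_limit` : `∫ (g₀ - W_b · uG_b)₊ → 0`, `g₀` the damped density of the forests at `ε = 0`,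
final time `t₀`.
-/

set_option autoImplicit false

open MeasureTheory Set Filter Topology Crest.AnalysisR.Kinetic
open scoped Classical ENNReal NNReal

noncomputable section

namespace Crest.Agent.R122.Forest399

open Kin796 Kin796.CTree Kin416 Disc416 Tree674 TreeEps399 PiTrans399 TreeFatou399 Hid424 GIV566
  GIVUse424 Boltz814

variable {Φ : Space3 → ℝ} {s : ℕ} {ε : ℝ}

/-! ### Measurability -/

/-- measurable version of the protected tubes -/
def ftubesM (Φ : Space3 → ℝ) (ε : ℝ) (Ps : Fin s → CTree) (t : ℝ) (q : FPar Ps) : Tubes (FIdx Ps) :=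
  if q ∈ FVS Φ ε Ps t then ftubes Φ ε Ps t q else ⟨fun _ _ => 0, fun _ => -1⟩

theorem ftubesM_of_mem {Ps : Fin s → CTree} {t : ℝ} {q : FPar Ps} (h : q ∈ FVS Φ ε Ps t) :
    ftubesM Φ ε Ps t q = ftubes Φ ε Ps t q := if_pos h

theorem measurable_uG_ftubes {f₀ : PhasePoint → ℝ} (hf : Measurable f₀)
    (hΦ : AdmissiblePotential Φ) (hε : 0 < ε) {T : ℝ} (hT : 0 ≤ T) (Ps : Fin s → CTree) (t : ℝ) :
    Measurable fun q : FPar Ps => uG Φ f₀ ε (ftubesM Φ ε Ps t q) T := by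
  have hS := measurableSet_FVS hΦ hε Ps t
  refine measurable_uG (Ω := FPar Ps) hf hΦ hε hT (fun q k => ?_) (fun k u => ?_) (fun k => ?_)
    measurable_const fun _ => le_rfl
  · by_cases hq : q ∈ FVS Φ ε Ps t
    · rw [ftubesM_of_mem hq]
      exact (continuous_fst.comp (continuous_path hΦ hε (Ps k.1) t _ _ (hq.1 k.1) k.2)).continuousOn
    · unfold ftubesM
      rw [if_neg hq]
      exact continuousOn_const
  · have h1 : Measurable fun q : FPar Ps => (pathM Φ ε (Ps k.1) u (q k.1).1 (q k.1).2 k.2).1 :=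
      measurable_fst.comp ((measurable_pi_apply k.2).comp ((measurable_pathM hΦ ε (Ps k.1)).comp
        (f := fun q : FPar Ps => (u, (q k.1))) (measurable_const.prodMk (measurable_pi_apply k.1))))
    have h2 := h1.indicator hS
    convert h2 using 1
    funext q
    by_cases hq : q ∈ FVS Φ ε Ps t
    · rw [indicator_of_mem hq, ftubesM_of_mem hq, pathM_of_adm hΦ ε u (hq.1 k.1).1]
      rfl
    · rw [indicator_of_notMem hq]
      unfold ftubesM
      rw [if_neg hq]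
  · have h1 : Measurable fun q : FPar Ps => prot (Ps k.1) t (q k.1).2 k.2 :=
      (measurable_prot (Ps k.1) k.2).comp (f := fun q : FPar Ps => (t, (q k.1).2))
        (measurable_const.prodMk (measurable_pi_apply k.1).snd)
    have h2 : Measurable fun q : FPar Ps => if q ∈ FVS Φ ε Ps t then
        prot (Ps k.1) t (q k.1).2 k.2 else (-1 : ℝ) := Measurable.ite hS h1 measurable_const
    convert h2 using 1
    funext q
    by_cases hq : q ∈ FVS Φ ε Ps t
    · rw [ftubesM_of_mem hq, if_pos hq]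
      rfl
    · unfold ftubesM
      rw [if_neg hq, if_neg hq]

/-- weight and initial densities of the valid separated forests -/
def Wd (Φ : Space3 → ℝ) (f₀ : PhasePoint → ℝ) (ε : ℝ) (Ps : Fin s → CTree) (t : ℝ) (q : FPar Ps) :
    ℝ≥0∞ :=
  (FVS Φ ε Ps t).indicator (fun q => (∏ i, wt Φ (Ps i) (q i).1.2 (q i).2) *
    ∏ k, ENNReal.ofReal (f₀ (flines Φ ε Ps q k))) q

theorem measurable_Wd {f₀ : PhasePoint → ℝ} (hf : Measurable f₀) (hΦ : AdmissiblePotential Φ)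
    (hε : 0 < ε) (Ps : Fin s → CTree) (t : ℝ) : Measurable (Wd Φ f₀ ε Ps t) := by
  have h1 : Measurable fun q : FPar Ps => fvw Φ ε Ps t q *
      ∏ k, ENNReal.ofReal (f₀ (flinesM Φ ε Ps q k)) :=
    (measurable_fvw hΦ ε Ps t).mul (Finset.measurable_prod _ fun k _ =>
      (hf.comp ((measurable_pi_apply k).comp (measurable_flinesM hΦ ε Ps))).ennreal_ofReal)
  have h2 := h1.indicator (measurableSet_FVS hΦ hε Ps t)
  convert h2 using 1
  funext q
  unfold Wd
  by_cases hq : q ∈ FVS Φ ε Ps t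
  · rw [indicator_of_mem hq, indicator_of_mem hq, fvw_of_valid hq.1, flinesM_of_valid hq.1]
  · rw [indicator_of_notMem hq, indicator_of_notMem hq]

/-- limit weight -/
def W0 (Φ : Space3 → ℝ) (f₀ : PhasePoint → ℝ) (Ps : Fin s → CTree) (t : ℝ) (q : FPar Ps) :
    ℝ≥0∞ := fvw Φ 0 Ps t q * ∏ k, ENNReal.ofReal (f₀ (flinesM Φ 0 Ps q k))

theorem measurable_W0 {f₀ : PhasePoint → ℝ} (hf : Measurable f₀) (hΦ : AdmissiblePotential Φ)
    (Ps : Fin s → CTree) (t : ℝ) : Measurable (W0 Φ f₀ Ps t) :=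
  (measurable_fvw hΦ 0 Ps t).mul (Finset.measurable_prod _ fun k _ =>
    (hf.comp ((measurable_pi_apply k).comp (measurable_flinesM hΦ 0 Ps))).ennreal_ofReal)

theorem W0_ne_top {f₀ : PhasePoint → ℝ} (Ps : Fin s → CTree) (t : ℝ) (q : FPar Ps) :
    W0 Φ f₀ Ps t q ≠ ∞ :=
  ENNReal.mul_ne_top (fvw_ne_top 0 Ps t q) (ENNReal.prod_ne_top fun _ _ => ENNReal.ofReal_ne_top)

theorem W0_of_valid {f₀ : PhasePoint → ℝ} {Ps : Fin s → CTree} {t : ℝ} {q : FPar Ps}
    (h : FValid Φ 0 Ps t q) : W0 Φ f₀ Ps t q =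
      (∏ i, wt Φ (Ps i) (q i).1.2 (q i).2) * ∏ k, ENNReal.ofReal (f₀ (flines Φ 0 Ps q k)) := by
  unfold W0
  rw [fvw_of_valid h, flinesM_of_valid h]

theorem W0_of_not_valid {f₀ : PhasePoint → ℝ} {Ps : Fin s → CTree} {t : ℝ} {q : FPar Ps}
    (h : ¬ FValid Φ 0 Ps t q) : W0 Φ f₀ Ps t q = 0 := by
  unfold W0
  rw [fvw_of_not_valid h, zero_mul]

/-- damped density of a forest -/
def g0 (Φ : Space3 → ℝ) (T : ℝ) (f : ℝ → PhasePoint → ℝ) (Ps : Fin s → CTree) (t : ℝ)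
    (q : FPar Ps) : ℝ≥0∞ := ∏ i, tdens Φ (damp T f) (fE T f 0) (Ps i) t (q i)

variable {β T : ℝ} {f₀ : PhasePoint → ℝ} {f : ℝ → PhasePoint → ℝ}

theorem measurable_g0 (hΦ : AdmissiblePotential Φ) (hf : IsRegularKineticSolution Φ β T f₀ f)
    (Ps : Fin s → CTree) (t : ℝ) : Measurable (g0 Φ T f Ps t) :=
  Finset.measurable_prod _ fun i _ =>
    (measurable_tdens hΦ (meas4_damp hf) (meas_fE_zero hf) (Ps i) t).comp (measurable_pi_apply i)

theorem g0_of_not_valid {Ps : Fin s → CTree} {t : ℝ} {q : FPar Ps}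
    (h : ¬ FValid Φ 0 Ps t q) : g0 Φ T f Ps t q = 0 := by
  unfold FValid at h
  push Not at h
  obtain ⟨i, hi⟩ := h
  refine Finset.prod_eq_zero (Finset.mem_univ i) ?_
  unfold tdens
  exact Set.indicator_of_notMem (s := {z : PhasePoint × Par (Ps i) | Valid Φ 0 (Ps i) t z.1.2 z.2})
    hi _

theorem g0_eq (hβ : 0 < β) (hT : 0 < T) (hf : IsRegularKineticSolution Φ β T f₀ f)
    {Ps : Fin s → CTree} {t₀ t : ℝ} (ht₀ : 0 ≤ t₀) (h0 : t₀ ≤ t) (q : FPar Ps) :
    g0 Φ T f Ps t₀ q = W0 Φ f₀ Ps t₀ q * dampG T f (ftubes Φ 0 Ps t₀ q) t := by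
  by_cases hV : FValid Φ 0 Ps t₀ q
  · rw [W0_of_valid hV]
    exact prod_tdens_eq hβ hT hf ht₀ h0 hV
  · rw [g0_of_not_valid hV, W0_of_not_valid hV, zero_mul]

/-- measurable version of the kinetic avoidance probability -/
def Em (Φ : Space3 → ℝ) (T : ℝ) (f₀ : PhasePoint → ℝ) (f : ℝ → PhasePoint → ℝ)
    (Ps : Fin s → CTree) (t : ℝ) (q : FPar Ps) : ℝ≥0∞ := g0 Φ T f Ps t q / W0 Φ f₀ Ps t q

theorem Em_eq (hβ : 0 < β) (hT : 0 < T) (hf : IsRegularKineticSolution Φ β T f₀ f)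
    {Ps : Fin s → CTree} {t₀ t : ℝ} (ht₀ : 0 ≤ t₀) (h0 : t₀ ≤ t) {q : FPar Ps}
    (hW : W0 Φ f₀ Ps t₀ q ≠ 0) :
    Em Φ T f₀ f Ps t₀ q = dampG T f (ftubes Φ 0 Ps t₀ q) t := by
  unfold Em
  rw [g0_eq hβ hT hf ht₀ h0 q, mul_comm, mul_div_assoc,
    ENNReal.div_self hW (W0_ne_top Ps t₀ q), mul_one]

theorem W0_mul_Em (hβ : 0 < β) (hT : 0 < T) (hf : IsRegularKineticSolution Φ β T f₀ f)
    {Ps : Fin s → CTree} {t₀ : ℝ} (ht₀ : 0 ≤ t₀) (q : FPar Ps) :
    W0 Φ f₀ Ps t₀ q * Em Φ T f₀ f Ps t₀ q = g0 Φ T f Ps t₀ q := by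
  by_cases hW : W0 Φ f₀ Ps t₀ q = 0
  · rw [g0_eq hβ hT hf ht₀ le_rfl q, hW, zero_mul, zero_mul]
  · rw [Em_eq hβ hT hf ht₀ le_rfl hW, g0_eq hβ hT hf ht₀ le_rfl q]

/-! ### Elementary bound -/

theorem sub_bound (w0 w E u : ℝ≥0∞) : w0 * E - w * u ≤ (w0 - w) * E + w0 * (E - u) := by
  rw [tsub_le_iff_right]
  have h2 : E ≤ (E - u) + u := le_tsub_add
  rcases le_total w0 w with h | h
  · calc w0 * E ≤ w0 * ((E - u) + u) := by gcongr
      _ = w0 * (E - u) + w0 * u := mul_add _ _ _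
      _ ≤ ((w0 - w) * E + w0 * (E - u)) + w * u := by
        gcongr
        exact le_add_self
  · calc w0 * E ≤ ((w0 - w) + w) * E := by
          gcongr
          exact le_tsub_add
      _ = (w0 - w) * E + w * E := add_mul _ _ _
      _ ≤ (w0 - w) * E + w * ((E - u) + u) := by gcongr
      _ = (w0 - w) * E + (w * (E - u) + w * u) := by rw [mul_add]
      _ ≤ (w0 - w) * E + (w0 * (E - u) + w * u) := by gcongr
      _ = _ := by ring

/-! ### Convergence of the weights -/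

section lim

variable {B : Type*} {F : Filter B} {e τ : B → ℝ} {t₀ : ℝ}

theorem tendsto_Wd (hΦ : AdmissiblePotential Φ) (hf₀ : Continuous f₀) (he : Tendsto e F L)
    (hτ : Tendsto τ F (𝓝 t₀)) (Ps : Fin s → CTree) {q : FPar Ps} (hV : FValid Φ 0 Ps t₀ q)
    (hG : FGen Φ Ps q) :
    Tendsto (fun b => Wd Φ f₀ (e b) Ps (τ b) q) F (𝓝 (W0 Φ f₀ Ps t₀ q)) := by
  have h1 : ∀ᶠ b in F, (∏ i, wt Φ (Ps i) (q i).1.2 (q i).2) *
      ∏ k, ENNReal.ofReal (f₀ (flines Φ (e b) Ps q k)) = Wd Φ f₀ (e b) Ps (τ b) q := by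
    filter_upwards [fsep_filter hΦ he hτ Ps hV hG] with b hb
    unfold Wd
    rw [indicator_of_mem (show q ∈ FVS Φ (e b) Ps (τ b) from hb)]
  rw [W0_of_valid hV]
  refine Tendsto.congr' h1 ?_
  refine ENNReal.Tendsto.const_mul ?_ (Or.inr (ENNReal.prod_ne_top fun i _ => wt_ne_top _ _ _))
  refine ENNReal.tendsto_finsetProd_of_ne_top _ (fun k _ => ?_) fun _ _ => ENNReal.ofReal_ne_top
  refine (ENNReal.continuous_ofReal.tendsto _).comp ((hf₀.tendsto _).comp ?_)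
  exact (flines_tendsto Ps q k).comp he

/-! ### The three limits -/

/-- (a) the weights -/
theorem lim_a (hβ : 0 < β) (hT : 0 < T) (hΦ : AdmissiblePotential Φ)
    (hf : IsRegularKineticSolution Φ β T f₀ f) (hf₀ : Continuous f₀) [F.IsCountablyGenerated]
    (he : Tendsto e F L) (hτ : Tendsto τ F (𝓝 t₀)) (ht₀ : 0 ≤ t₀) (Ps : Fin s → CTree)
    (hfin : ∫⁻ q, g0 Φ T f Ps t₀ q ≠ ∞) :
    Tendsto (fun b => ∫⁻ q, (W0 Φ f₀ Ps t₀ q - Wd Φ f₀ (e b) Ps (τ b) q) *
      Em Φ T f₀ f Ps t₀ q) F (𝓝 0) := by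
  have h0 : ∫⁻ _ : FPar Ps, (0 : ℝ≥0∞) = 0 := by simp
  rw [← h0]
  have hEm : Measurable (Em Φ T f₀ f Ps t₀) :=
    (measurable_g0 hΦ hf Ps t₀).div (measurable_W0 hf₀.measurable hΦ Ps t₀)
  refine tendsto_lintegral_filter_of_dominated_convergence' (g0 Φ T f Ps t₀) ?_ ?_ hfin ?_
  · filter_upwards [he.eventually eventually_pos] with b hb
    exact (((measurable_W0 hf₀.measurable hΦ Ps t₀).sub
      (measurable_Wd hf₀.measurable hΦ hb Ps (τ b))).mul hEm).aemeasurable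
  · refine Eventually.of_forall fun b => Eventually.of_forall fun q => ?_
    rw [← W0_mul_Em hβ hT hf ht₀ q]
    gcongr
    exact tsub_le_self
  · filter_upwards [fgen_ae hΦ Ps t₀] with q hq
    by_cases hW : W0 Φ f₀ Ps t₀ q = 0
    · simp only [hW, zero_tsub, zero_mul]
      exact tendsto_const_nhds
    · have hV : FValid Φ 0 Ps t₀ q := by
        by_contra h
        exact hW (W0_of_not_valid h)
      have h1 := tendsto_Wd (f₀ := f₀) hΦ hf₀ he hτ Ps hV (hq hV)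
      have h2 : Tendsto (fun b => W0 Φ f₀ Ps t₀ q - Wd Φ f₀ (e b) Ps (τ b) q) F (𝓝 0) := by
        have := ENNReal.Tendsto.sub (f := F) (tendsto_const_nhds (x := W0 Φ f₀ Ps t₀ q)) h1
          (Or.inl (W0_ne_top Ps t₀ q))
        simpa using this
      have h3 : Em Φ T f₀ f Ps t₀ q ≠ ∞ := by
        rw [Em_eq hβ hT hf ht₀ le_rfl hW]
        exact ne_top_of_le_ne_top ENNReal.one_ne_top (dampG_le_one _)
      have := ENNReal.Tendsto.mul_const h2 (Or.inr h3)
      simpa using this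

/-- truncation sets -/
def KM (Φ : Space3 → ℝ) (f₀ : PhasePoint → ℝ) (Ps : Fin s → CTree) (t : ℝ) (M : ℕ) :
    Set (FPar Ps) :=
  {q | W0 Φ f₀ Ps t q ≤ M} ∩ univ.pi fun i => {z : PhasePoint × Par (Ps i) |
    (z.1.1 ∈ Metric.closedBall (0 : Space3) M ∧ z.1.2 ∈ Metric.closedBall (0 : Space3) M) ∧
      z.2 ∈ spanningSets (volume : Measure (Par (Ps i))) M}

theorem measurableSet_box (P : CTree) (R R' : ℝ) (M : ℕ) :
    MeasurableSet {z : PhasePoint × Par P |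
    (z.1.1 ∈ Metric.closedBall (0 : Space3) R ∧ z.1.2 ∈ Metric.closedBall (0 : Space3) R') ∧
      z.2 ∈ spanningSets (volume : Measure (Par P)) M} :=
  ((measurable_fst.fst Metric.isClosed_closedBall.measurableSet).inter
    (measurable_fst.snd Metric.isClosed_closedBall.measurableSet)).inter
    (measurable_snd (measurableSet_spanningSets _ M))

theorem volume_box_lt_top (P : CTree) (R R' : ℝ) (M : ℕ) :
    volume {z : PhasePoint × Par P |
    (z.1.1 ∈ Metric.closedBall (0 : Space3) R ∧ z.1.2 ∈ Metric.closedBall (0 : Space3) R') ∧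
      z.2 ∈ spanningSets (volume : Measure (Par P)) M} < ∞ := by
  have h1 : {z : PhasePoint × Par P |
    (z.1.1 ∈ Metric.closedBall (0 : Space3) R ∧ z.1.2 ∈ Metric.closedBall (0 : Space3) R') ∧
      z.2 ∈ spanningSets (volume : Measure (Par P)) M} =
      (Metric.closedBall (0 : Space3) R ×ˢ Metric.closedBall (0 : Space3) R') ×ˢ
        spanningSets (volume : Measure (Par P)) M := by
    ext z
    simp only [mem_ofPred_eq, mem_prod]
  have h2 : (volume : Measure (PhasePoint × Par P)) =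
    ((volume : Measure Space3).prod (volume : Measure Space3)).prod (volume : Measure (Par P)) := rfl
  rw [h1, h2, Measure.prod_prod, Measure.prod_prod]
  exact ENNReal.mul_lt_top (ENNReal.mul_lt_top measure_closedBall_lt_top measure_closedBall_lt_top)
    (measure_spanningSets_lt_top _ M)

theorem measurableSet_KM (hf₀ : Measurable f₀) (hΦ : AdmissiblePotential Φ) (Ps : Fin s → CTree)
    (t : ℝ) (M : ℕ) : MeasurableSet (KM Φ f₀ Ps t M) :=
  (measurableSet_le (measurable_W0 hf₀ hΦ Ps t) measurable_const).inter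
    (MeasurableSet.univ_pi fun i => measurableSet_box (Ps i) M M M)

theorem mem_KM_eventually (Ps : Fin s → CTree) (t : ℝ) (q : FPar Ps) :
    ∀ᶠ M : ℕ in atTop, q ∈ KM Φ f₀ Ps t M := by
  have h1 : ∀ᶠ M : ℕ in atTop, W0 Φ f₀ Ps t q ≤ M := by
    obtain ⟨n, hn⟩ := ENNReal.exists_nat_gt (W0_ne_top (Φ := Φ) (f₀ := f₀) Ps t q)
    filter_upwards [eventually_ge_atTop n] with M hM
    exact hn.le.trans (by exact_mod_cast hM)
  have h2 : ∀ᶠ M : ℕ in atTop, ∀ i : Fin s, (((q i).1.1 ∈ Metric.closedBall (0 : Space3) M ∧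
      (q i).1.2 ∈ Metric.closedBall (0 : Space3) M) ∧
      (q i).2 ∈ spanningSets (volume : Measure (Par (Ps i))) M) := by
    refine eventually_all.2 fun i => ?_
    have a1 : ∀ x : Space3, ∀ᶠ M : ℕ in atTop, x ∈ Metric.closedBall (0 : Space3) M := by
      intro x
      filter_upwards [eventually_ge_atTop ⌈‖x‖⌉₊] with M hM
      rw [mem_closedBall_zero_iff]
      exact (Nat.le_ceil _).trans (by exact_mod_cast hM)
    have a2 : ∀ᶠ M : ℕ in atTop, (q i).2 ∈ spanningSets (volume : Measure (Par (Ps i))) M := by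
      have := mem_iUnion.1 (show (q i).2 ∈ ⋃ M, spanningSets (volume : Measure (Par (Ps i))) M by
        rw [iUnion_spanningSets]; trivial)
      obtain ⟨n, hn⟩ := this
      filter_upwards [eventually_ge_atTop n] with M hM
      exact monotone_spanningSets _ hM hn
    filter_upwards [a1 (q i).1.1, a1 (q i).1.2, a2] with M b1 b2 b3
    exact ⟨⟨b1, b2⟩, b3⟩
  filter_upwards [h1, h2] with M a1 a2
  exact ⟨a1, fun i _ => a2 i⟩

/-- (c) the truncation -/
theorem lim_c (hΦ : AdmissiblePotential Φ) (hf : IsRegularKineticSolution Φ β T f₀ f)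
    (hf₀ : Measurable f₀) (Ps : Fin s → CTree) (hfin : ∫⁻ q, g0 Φ T f Ps t₀ q ≠ ∞) :
    Tendsto (fun M : ℕ => ∫⁻ q, (KM Φ f₀ Ps t₀ M)ᶜ.indicator (g0 Φ T f Ps t₀) q) atTop (𝓝 0) := by
  have h0 : ∫⁻ _ : FPar Ps, (0 : ℝ≥0∞) = 0 := by simp
  rw [← h0]
  refine tendsto_lintegral_of_dominated_convergence (g0 Φ T f Ps t₀) (fun M => ?_) (fun M => ?_)
    hfin ?_
  · exact (measurable_g0 hΦ hf Ps t₀).indicator (measurableSet_KM hf₀ hΦ Ps t₀ M).compl
  · exact Eventually.of_forall fun q => indicator_le_self _ _ q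
  · refine Eventually.of_forall fun q => ?_
    refine tendsto_const_nhds.congr' ?_
    filter_upwards [mem_KM_eventually (Φ := Φ) (f₀ := f₀) Ps t₀ q] with M hM
    rw [indicator_of_notMem (notMem_compl_iff.2 hM)]

/-- integrand of the averaging step -/
def Gb (Φ : Space3 → ℝ) (T : ℝ) (f₀ : PhasePoint → ℝ) (f : ℝ → PhasePoint → ℝ) (ε : ℝ)
    (Ps : Fin s → CTree) (t t₀ : ℝ) (q : FPar Ps) : ℝ≥0∞ :=
  if q ∈ FVS Φ ε Ps t ∩ {q | W0 Φ f₀ Ps t₀ q ≠ 0} then
    adiff (uG Φ f₀ ε (ftubesM Φ ε Ps t q) T) (Em Φ T f₀ f Ps t₀ q) else 0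

theorem measurable_Gb (hT : 0 ≤ T) (hΦ : AdmissiblePotential Φ)
    (hf : IsRegularKineticSolution Φ β T f₀ f) (hf₀ : Measurable f₀) (hε : 0 < ε)
    (Ps : Fin s → CTree) (t t₀ : ℝ) : Measurable (Gb Φ T f₀ f ε Ps t t₀) := by
  have hEm : Measurable (Em Φ T f₀ f Ps t₀) :=
    (measurable_g0 hΦ hf Ps t₀).div (measurable_W0 hf₀ hΦ Ps t₀)
  have hu := measurable_uG_ftubes hf₀ hΦ hε hT Ps t
  refine Measurable.ite ((measurableSet_FVS hΦ hε Ps t).inter
    ((measurable_W0 hf₀ hΦ Ps t₀) (measurableSet_singleton 0).compl)) ?_ measurable_const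
  unfold adiff
  exact (hu.sub hEm).add (hEm.sub hu)

theorem Gb_le_two (hβ : 0 < β) (hT : 0 < T) (hf : IsRegularKineticSolution Φ β T f₀ f)
    (hf₀ : Measurable f₀) (h1 : ∫⁻ z, ENNReal.ofReal (f₀ z) ≤ 1) (ht₀ : 0 ≤ t₀)
    (Ps : Fin s → CTree) (t : ℝ) (q : FPar Ps) : Gb Φ T f₀ f ε Ps t t₀ q ≤ 2 := by
  unfold Gb
  split_ifs with h
  · have a1 : uG Φ f₀ ε (ftubesM Φ ε Ps t q) T ≤ 1 := uG_le_one hf₀ h1
    have a2 : Em Φ T f₀ f Ps t₀ q ≤ 1 := by
      rw [Em_eq hβ hT hf ht₀ le_rfl h.2]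
      exact dampG_le_one _
    unfold adiff
    calc _ ≤ (1 : ℝ≥0∞) + 1 := add_le_add (tsub_le_self.trans a1) (tsub_le_self.trans a2)
      _ = 2 := by norm_num
  · exact bot_le

/-- (b) the averaging step -/
theorem lim_b (hβ : 0 < β) (hT : 0 < T) (hΦ : AdmissiblePotential Φ)
    (hf : IsRegularKineticSolution Φ β T f₀ f) (hf₀ : Continuous f₀)
    (h1 : ∫⁻ z, ENNReal.ofReal (f₀ z) ≤ 1) (hGIV : GIV Φ f₀ f T T) [F.IsCountablyGenerated]
    (he : Tendsto e F L) (hτ : Tendsto τ F (𝓝 t₀)) (ht₀ : 0 ≤ t₀) (ht₀T : t₀ ≤ T)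
    (hτT : ∀ᶠ b in F, τ b ≤ T) (Ps : Fin s → CTree) (M : ℕ) :
    Tendsto (fun b => ∫⁻ q, (KM Φ f₀ Ps t₀ M).indicator 1 q *
      Gb Φ T f₀ f (e b) Ps (τ b) t₀ q) F (𝓝 0) := by
  set Bx : Set (FPar Ps) := univ.pi fun i => {z : PhasePoint × Par (Ps i) |
    (z.1.1 ∈ Metric.closedBall (0 : Space3) (M + 1) ∧ z.1.2 ∈ Metric.closedBall (0 : Space3) M) ∧
      z.2 ∈ spanningSets (volume : Measure (Par (Ps i))) M} with hBx
  have hBxm : MeasurableSet Bx := MeasurableSet.univ_pi fun i => measurableSet_box (Ps i) _ _ M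
  have hBxf : volume Bx ≠ ∞ := by
    rw [hBx, volume_pi_pi]
    exact (ENNReal.prod_lt_top fun i _ => volume_box_lt_top (Ps i) _ _ M).ne
  refine TransAvg399.trans_avg (μ := (volume : Measure (FPar Ps)))
    (τ := fun x q => fshift x q) (B := Metric.closedBall (0 : Space3) 1)
    (measurePreserving_fshift Ps) (measurable_fshift Ps)
    Metric.isClosed_closedBall.measurableSet (Metric.measure_closedBall_pos _ _ one_pos).ne'
    measure_closedBall_lt_top.ne (w := fun _ => (KM Φ f₀ Ps t₀ M).indicator 1)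
    (G := fun b => Gb Φ T f₀ f (e b) Ps (τ b) t₀) ?_ ?_ (c := 2) (by norm_num) ?_
    (W := Bx.indicator 1) ?_ ?_ ?_ ?_
  · exact Eventually.of_forall fun _ => measurable_one.indicator
      (measurableSet_KM hf₀.measurable hΦ Ps t₀ M)
  · filter_upwards [he.eventually eventually_pos] with b hb
    exact measurable_Gb hT.le hΦ hf hf₀.measurable hb Ps (τ b) t₀
  · exact Eventually.of_forall fun b q => Gb_le_two hβ hT hf hf₀.measurable h1 ht₀ Ps (τ b) q
  · exact (measurable_one.indicator hBxm).aemeasurable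
  · rw [lintegral_indicator_one hBxm]
    exact hBxf
  · refine Eventually.of_forall fun b => Eventually.of_forall fun q x hx => ?_
    show (KM Φ f₀ Ps t₀ M).indicator 1 (fshift x q) ≤ Bx.indicator 1 q
    by_cases h : fshift x q ∈ KM Φ f₀ Ps t₀ M
    · have h2 : q ∈ Bx := by
        intro i _
        have h3 := h.2 i (mem_univ i)
        refine ⟨⟨?_, h3.1.2⟩, h3.2⟩
        have h4 : ‖(q i).1.1 + x‖ ≤ M := mem_closedBall_zero_iff.1 h3.1.1
        have h5 : ‖x‖ ≤ 1 := mem_closedBall_zero_iff.1 hx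
        rw [mem_closedBall_zero_iff]
        calc ‖(q i).1.1‖ = ‖((q i).1.1 + x) - x‖ := by rw [add_sub_cancel_right]
          _ ≤ ‖(q i).1.1 + x‖ + ‖x‖ := norm_sub_le _ _
          _ ≤ M + 1 := add_le_add h4 h5
      rw [indicator_of_mem h, indicator_of_mem h2]
      rfl
    · rw [indicator_of_notMem h]
      exact bot_le
  · filter_upwards [fgen_ae hΦ Ps t₀] with q hq
    by_cases hV : FValid Φ 0 Ps t₀ q
    · have hG := hq hV
      have hlim := GIV.use hGIV (T' := T) hT.le he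
        (fconvE hΦ he hτ hT.le ht₀T hτT Ps hV hG) (generic_ftubes hG) 1
      refine tendsto_of_tendsto_of_tendsto_of_le_of_le tendsto_const_nhds hlim
        (fun _ => bot_le) fun b => ?_
      refine lintegral_mono fun x => ?_
      show Gb Φ T f₀ f (e b) Ps (τ b) t₀ (fshift x q) ≤ _
      unfold Gb
      split_ifs with h
      · rw [ftubesM_of_mem h.1, ftubes_shift, Em_eq hβ hT hf ht₀ ht₀T h.2, ftubes_shift]
      · exact bot_le
    · have h0 : ∀ b, ∫⁻ x in Metric.closedBall (0 : Space3) 1,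
          Gb Φ T f₀ f (e b) Ps (τ b) t₀ (fshift x q) = 0 := by
        intro b
        have h2 : ∀ x, Gb Φ T f₀ f (e b) Ps (τ b) t₀ (fshift x q) = 0 := by
          intro x
          unfold Gb
          rw [if_neg]
          intro h
          exact h.2 (W0_of_not_valid hV)
        simp only [h2, lintegral_zero]
      simp only [h0]
      exact tendsto_const_nhds

/-- pointwise bound -/
theorem main_bound (hβ : 0 < β) (hT : 0 < T) (hf : IsRegularKineticSolution Φ β T f₀ f)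
    (ht₀ : 0 ≤ t₀) (Ps : Fin s → CTree) (t : ℝ) (M : ℕ) (q : FPar Ps) :
    g0 Φ T f Ps t₀ q - Wd Φ f₀ ε Ps t q * uG Φ f₀ ε (ftubesM Φ ε Ps t q) T ≤
      (W0 Φ f₀ Ps t₀ q - Wd Φ f₀ ε Ps t q) * Em Φ T f₀ f Ps t₀ q +
        ((KM Φ f₀ Ps t₀ M)ᶜ.indicator (g0 Φ T f Ps t₀) q +
          M * ((KM Φ f₀ Ps t₀ M).indicator 1 q * Gb Φ T f₀ f ε Ps t t₀ q)) := by
  have hg := W0_mul_Em (f₀ := f₀) hβ hT hf ht₀ q (Ps := Ps)
  by_cases hq : q ∈ FVS Φ ε Ps t
  · rw [← hg]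
    refine (sub_bound _ _ _ _).trans ?_
    gcongr
    by_cases hK : q ∈ KM Φ f₀ Ps t₀ M
    · refine le_trans ?_ le_add_self
      rw [indicator_of_mem hK, Pi.one_apply, one_mul]
      by_cases hW : W0 Φ f₀ Ps t₀ q = 0
      · rw [hW, zero_mul]
        exact bot_le
      · unfold Gb
        rw [if_pos ⟨hq, hW⟩]
        unfold adiff
        exact mul_le_mul' hK.1 le_add_self
    · refine le_trans ?_ le_self_add
      rw [indicator_of_mem (show q ∈ (KM Φ f₀ Ps t₀ M)ᶜ from hK), ← hg]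
      gcongr
      exact tsub_le_self
  · have h0 : Wd Φ f₀ ε Ps t q = 0 := by
      unfold Wd
      exact indicator_of_notMem hq _
    rw [h0, zero_mul, tsub_zero, tsub_zero, hg]
    exact le_self_add

/-- **The one-sided limit of the ghost-avoiding forests.** -/
theorem forest_limit_aux (hβ : 0 < β) (hT : 0 < T) (hΦ : AdmissiblePotential Φ)
    (hf : IsRegularKineticSolution Φ β T f₀ f) (hf₀ : Continuous f₀)
    (h1 : ∫⁻ z, ENNReal.ofReal (f₀ z) ≤ 1) (hGIV : GIV Φ f₀ f T T) [F.IsCountablyGenerated]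
    (he : Tendsto e F L) (hτ : Tendsto τ F (𝓝 t₀)) (ht₀ : 0 ≤ t₀) (ht₀T : t₀ ≤ T)
    (hτT : ∀ᶠ b in F, τ b ≤ T) (Ps : Fin s → CTree) (hfin : ∫⁻ q, g0 Φ T f Ps t₀ q ≠ ∞) :
    Tendsto (fun b => ∫⁻ q, (g0 Φ T f Ps t₀ q -
      Wd Φ f₀ (e b) Ps (τ b) q * uG Φ f₀ (e b) (ftubesM Φ (e b) Ps (τ b) q) T)) F (𝓝 0) := by
  rw [ENNReal.tendsto_nhds_zero]
  intro δ hδ
  have hδ3 : 0 < δ / 3 := ENNReal.div_pos hδ.ne' (by norm_num)
  obtain ⟨M, hM⟩ := ((ENNReal.tendsto_nhds_zero.1 (lim_c hΦ hf hf₀.measurable Ps hfin)) (δ / 3)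
    hδ3).exists
  have hb := lim_b hβ hT hΦ hf hf₀ h1 hGIV he hτ ht₀ ht₀T hτT Ps M
  have hb' : Tendsto (fun b => (M : ℝ≥0∞) * ∫⁻ q, (KM Φ f₀ Ps t₀ M).indicator 1 q *
      Gb Φ T f₀ f (e b) Ps (τ b) t₀ q) F (𝓝 0) := by
    have := ENNReal.Tendsto.const_mul hb (Or.inr (ENNReal.natCast_ne_top M))
    simpa using this
  filter_upwards [(ENNReal.tendsto_nhds_zero.1 hb') (δ / 3) hδ3,
    (ENNReal.tendsto_nhds_zero.1 (lim_a hβ hT hΦ hf hf₀ he hτ ht₀ Ps hfin)) (δ / 3) hδ3,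
    he.eventually eventually_pos] with b c1 c2 hpos
  have hEm : Measurable (Em Φ T f₀ f Ps t₀) :=
    (measurable_g0 hΦ hf Ps t₀).div (measurable_W0 hf₀.measurable hΦ Ps t₀)
  have m1 : Measurable fun q => (W0 Φ f₀ Ps t₀ q - Wd Φ f₀ (e b) Ps (τ b) q) *
      Em Φ T f₀ f Ps t₀ q := ((measurable_W0 hf₀.measurable hΦ Ps t₀).sub
      (measurable_Wd hf₀.measurable hΦ hpos Ps (τ b))).mul hEm
  have m2 : Measurable fun q => (KM Φ f₀ Ps t₀ M)ᶜ.indicator (g0 Φ T f Ps t₀) q :=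
    (measurable_g0 hΦ hf Ps t₀).indicator (measurableSet_KM hf₀.measurable hΦ Ps t₀ M).compl
  have m3 : Measurable fun q => (KM Φ f₀ Ps t₀ M).indicator 1 q *
      Gb Φ T f₀ f (e b) Ps (τ b) t₀ q :=
    (measurable_one.indicator (measurableSet_KM hf₀.measurable hΦ Ps t₀ M)).mul
      (measurable_Gb hT.le hΦ hf hf₀.measurable hpos Ps (τ b) t₀)
  calc ∫⁻ q, (g0 Φ T f Ps t₀ q - Wd Φ f₀ (e b) Ps (τ b) q *
          uG Φ f₀ (e b) (ftubesM Φ (e b) Ps (τ b) q) T)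
      ≤ ∫⁻ q, ((W0 Φ f₀ Ps t₀ q - Wd Φ f₀ (e b) Ps (τ b) q) * Em Φ T f₀ f Ps t₀ q +
        ((KM Φ f₀ Ps t₀ M)ᶜ.indicator (g0 Φ T f Ps t₀) q +
          M * ((KM Φ f₀ Ps t₀ M).indicator 1 q * Gb Φ T f₀ f (e b) Ps (τ b) t₀ q))) :=
        lintegral_mono fun q => main_bound hβ hT hf ht₀ Ps (τ b) M q
    _ = (∫⁻ q, (W0 Φ f₀ Ps t₀ q - Wd Φ f₀ (e b) Ps (τ b) q) * Em Φ T f₀ f Ps t₀ q) +
        ((∫⁻ q, (KM Φ f₀ Ps t₀ M)ᶜ.indicator (g0 Φ T f Ps t₀) q) +
          M * ∫⁻ q, (KM Φ f₀ Ps t₀ M).indicator 1 q * Gb Φ T f₀ f (e b) Ps (τ b) t₀ q) := by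
        rw [lintegral_add_left m1, lintegral_add_left m2, lintegral_const_mul _ m3]
    _ ≤ δ / 3 + (δ / 3 + δ / 3) := add_le_add c2 (add_le_add hM c1)
    _ = δ := by
        rw [← add_assoc]
        exact ENNReal.add_thirds δ

/-- on valid parameters all protected times are before the final time -/
theorem uG_ftubes_time (hε : 0 ≤ ε) {Ps : Fin s → CTree} {t t' : ℝ} {q : FPar Ps}
    (hV : FValid Φ ε Ps t q) (ht : t ≤ t') :
    uG Φ f₀ ε (ftubes Φ ε Ps t q) t' = uG Φ f₀ ε (ftubes Φ ε Ps t q) t := by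
  have h1 : ∀ k, (ftubes Φ ε Ps t q).b k ≤ t := fun k =>
    PathFlow968.prot_le hε (Ps k.1) t (q k.1).1.2 (q k.1).2 (hV k.1).2 k.2
  have h2 : (ftubes Φ ε Ps t q).cut t = ftubes Φ ε Ps t q := by
    unfold Tubes.cut
    congr 1
    funext k
    exact min_eq_left (h1 k)
  rw [← h2, uG_cut, uG_cut, min_eq_left ht, min_self]

/-- contribution of the forests of type `Ps` at `ε > 0`, final time `t` -/
def hE (Φ : Space3 → ℝ) (f₀ : PhasePoint → ℝ) (ε : ℝ) (Ps : Fin s → CTree) (t : ℝ) (q : FPar Ps) :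
    ℝ≥0∞ :=
  (FVS Φ ε Ps t).indicator (fun q => ((∏ i, wt Φ (Ps i) (q i).1.2 (q i).2) *
    ∏ k, ENNReal.ofReal (f₀ (flines Φ ε Ps q k))) * uG Φ f₀ ε (ftubes Φ ε Ps t q) t) q

theorem hE_eq (hε : 0 ≤ ε) {Ps : Fin s → CTree} {t t' : ℝ} (ht : t ≤ t') (q : FPar Ps) :
    hE Φ f₀ ε Ps t q = Wd Φ f₀ ε Ps t q * uG Φ f₀ ε (ftubesM Φ ε Ps t q) t' := by
  unfold hE Wd
  by_cases hq : q ∈ FVS Φ ε Ps t
  · rw [indicator_of_mem hq, indicator_of_mem hq, ftubesM_of_mem hq,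
      uG_ftubes_time hε hq.1 ht]
  · rw [indicator_of_notMem hq, indicator_of_notMem hq, zero_mul]

theorem measurable_hE (hf₀ : Measurable f₀) (hΦ : AdmissiblePotential Φ) (hε : 0 < ε)
    (Ps : Fin s → CTree) (t : ℝ) : Measurable (hE Φ f₀ ε Ps t) := by
  have h : hE Φ f₀ ε Ps t = fun q => Wd Φ f₀ ε Ps t q *
      uG Φ f₀ ε (ftubesM Φ ε Ps t q) (max t 0) := funext fun q => hE_eq hε.le (le_max_left _ _) q
  rw [h]
  exact (measurable_Wd hf₀ hΦ hε Ps t).mul
    (measurable_uG_ftubes hf₀ hΦ hε (le_max_right _ _) Ps t)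

/-- **The one-sided limit of the ghost-avoiding forests.** -/
theorem forest_limit (hβ : 0 < β) (hT : 0 < T) (hΦ : AdmissiblePotential Φ)
    (hf : IsRegularKineticSolution Φ β T f₀ f) (hf₀ : Continuous f₀)
    (h1 : ∫⁻ z, ENNReal.ofReal (f₀ z) ≤ 1) (hGIV : GIV Φ f₀ f T T) [F.IsCountablyGenerated]
    (he : Tendsto e F L) (hτ : Tendsto τ F (𝓝 t₀)) (ht₀ : 0 ≤ t₀) (ht₀T : t₀ ≤ T)
    (hτT : ∀ᶠ b in F, τ b ≤ T) (Ps : Fin s → CTree) (hfin : ∫⁻ q, g0 Φ T f Ps t₀ q ≠ ∞) :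
    Tendsto (fun b => ∫⁻ q, (g0 Φ T f Ps t₀ q - hE Φ f₀ (e b) Ps (τ b) q)) F (𝓝 0) := by
  refine (forest_limit_aux hβ hT hΦ hf hf₀ h1 hGIV he hτ ht₀ ht₀T hτT Ps hfin).congr' ?_
  filter_upwards [he.eventually eventually_pos, hτT] with b hpos hbT
  refine lintegral_congr fun q => ?_
  rw [hE_eq hpos.le hbT q]

end lim

end Crest.Agent.R122.Forest399

end
end

-- ▼ part R122/IdentTime_399
section

/-!
Row 122, block I1 (helper399): continuity in time of the damped forest densities, forest form of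
the tensor powers of the kinetic solution.
-/

set_option autoImplicit false

open MeasureTheory Set Filter Topology Crest.AnalysisR.Kinetic
open scoped Classical ENNReal NNReal

noncomputable section

namespace Crest.Agent.R122.Forest399

open Kin796 Kin796.CTree Kin416 Disc416 Tree674 TreeEps399 PiTrans399 TreeFatou399 Hid424 GIV566
  GIVUse424 Boltz814

variable {Φ : Space3 → ℝ} {s : ℕ} {β T : ℝ} {f₀ : PhasePoint → ℝ} {f : ℝ → PhasePoint → ℝ}

/-! ### Continuity in time -/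

section time

variable {B : Type*} {F : Filter B} {τ : B → ℝ} {t₀ : ℝ}

theorem lossInt_line (r t : ℝ) (ℓ : PhasePoint) :
    lossInt T f r t (ℓ.1 + t • ℓ.2) ℓ.2 = ∫⁻ u in Ioc r t, nuF T f u (ℓ.1 + u • ℓ.2) ℓ.2 := by
  unfold lossInt
  refine lintegral_congr fun u => ?_
  congr 1
  module

theorem tendsto_lossInt (hβ : 0 < β) (hT : 0 < T) (hf : IsRegularKineticSolution Φ β T f₀ f)
    [F.IsCountablyGenerated] (hτ : Tendsto τ F (𝓝 t₀)) (r : ℝ) (ℓ : PhasePoint) :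
    Tendsto (fun b => lossInt T f r (τ b) (ℓ.1 + τ b • ℓ.2) ℓ.2) F
      (𝓝 (lossInt T f r t₀ (ℓ.1 + t₀ • ℓ.2) ℓ.2)) := by
  obtain ⟨L, hL, h⟩ := exists_nuF_le hβ hT hf
  simp only [lossInt_line]
  have hm : Measurable fun u : ℝ => nuF T f u (ℓ.1 + u • ℓ.2) ℓ.2 :=
    (measurable_nuF hf).comp (f := fun u : ℝ => (u, ℓ.1 + u • ℓ.2, ℓ.2)) (by fun_prop)
  have hrw : ∀ t : ℝ, ∫⁻ u in Ioc r t, nuF T f u (ℓ.1 + u • ℓ.2) ℓ.2 =
      ∫⁻ u, (Ioc r t).indicator (fun u => nuF T f u (ℓ.1 + u • ℓ.2) ℓ.2) u := fun t =>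
    (lintegral_indicator measurableSet_Ioc _).symm
  simp only [hrw]
  refine tendsto_lintegral_filter_of_dominated_convergence'
    ((Ioc r (t₀ + 1)).indicator fun _ => ENNReal.ofReal (L * (1 + ‖ℓ.2‖))) ?_ ?_ ?_ ?_
  · exact Eventually.of_forall fun b => (hm.indicator measurableSet_Ioc).aemeasurable
  · filter_upwards [hτ.eventually (gt_mem_nhds (by linarith : t₀ < t₀ + 1))] with b hb
    refine Eventually.of_forall fun u => ?_
    by_cases hu : u ∈ Ioc r (τ b)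
    · rw [indicator_of_mem hu, indicator_of_mem (show u ∈ Ioc r (t₀ + 1) from ⟨hu.1, hu.2.trans hb.le⟩)]
      exact h _ _ _
    · rw [indicator_of_notMem hu]
      exact bot_le
  · rw [lintegral_indicator measurableSet_Ioc, setLIntegral_const]
    exact ENNReal.mul_ne_top ENNReal.ofReal_ne_top (by simp)
  · have h0 : ∀ᵐ u : ℝ, u ≠ t₀ := by
      rw [ae_iff]
      simp
    filter_upwards [h0] with u hu
    rcases lt_or_gt_of_ne hu with h1 | h1
    · refine tendsto_const_nhds.congr' ?_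
      filter_upwards [hτ.eventually (lt_mem_nhds h1)] with b hb
      by_cases hr : r < u
      · rw [indicator_of_mem (show u ∈ Ioc r (τ b) from ⟨hr, hb.le⟩),
          indicator_of_mem (show u ∈ Ioc r t₀ from ⟨hr, h1.le⟩)]
      · rw [indicator_of_notMem (fun h => hr h.1), indicator_of_notMem (fun h => hr h.1)]
    · refine tendsto_const_nhds.congr' ?_
      filter_upwards [hτ.eventually (gt_mem_nhds h1)] with b hb
      rw [indicator_of_notMem (fun h => absurd h.2 (not_le.2 h1)),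
        indicator_of_notMem (fun h => absurd h.2 (not_le.2 hb))]

theorem lossInt_ne_top (hβ : 0 < β) (hT : 0 < T) (hf : IsRegularKineticSolution Φ β T f₀ f)
    (r t : ℝ) (ℓ : PhasePoint) : lossInt T f r t (ℓ.1 + t • ℓ.2) ℓ.2 ≠ ∞ := by
  rw [lossInt_line]
  exact finRate_nuF hβ hT hf ℓ r t

theorem tendsto_damp (hβ : 0 < β) (hT : 0 < T) (hf : IsRegularKineticSolution Φ β T f₀ f)
    [F.IsCountablyGenerated] (hτ : Tendsto τ F (𝓝 t₀)) (r : ℝ) (ℓ : PhasePoint) :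
    Tendsto (fun b => damp T f r (τ b) (ℓ.1 + τ b • ℓ.2) ℓ.2) F
      (𝓝 (damp T f r t₀ (ℓ.1 + t₀ • ℓ.2) ℓ.2)) := by
  unfold damp
  refine (ENNReal.continuous_ofReal.tendsto _).comp ((Real.continuous_exp.tendsto _).comp ?_)
  exact ((ENNReal.tendsto_toReal (lossInt_ne_top hβ hT hf r t₀ ℓ)).comp
    (tendsto_lossInt hβ hT hf hτ r ℓ)).neg

theorem dens_ne_top {f0 : Space3 → Space3 → ℝ≥0∞} (h0 : ∀ x v, f0 x v ≠ ∞) :
    ∀ (P : CTree) (t : ℝ) (ℓ : PhasePoint) (p : Par P), dens Φ (damp T f) f0 P t ℓ p ≠ ∞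
  | leaf, t, ℓ, p => ENNReal.mul_ne_top
      (ne_top_of_le_ne_top ENNReal.one_ne_top (damp_le_one _ _ _ _)) (h0 _ _)
  | node l r, t, ℓ, p => ENNReal.mul_ne_top
      (ne_top_of_le_ne_top ENNReal.one_ne_top (damp_le_one _ _ _ _))
      (ENNReal.mul_ne_top (dens_ne_top h0 l _ _ _) (dens_ne_top h0 r _ _ _))

theorem fE_ne_top (t : ℝ) (x v : Space3) : fE T f t x v ≠ ∞ := by
  unfold fE
  split_ifs
  · exact ENNReal.ofReal_ne_top
  · exact ENNReal.zero_ne_top

theorem tendsto_tdens (hβ : 0 < β) (hT : 0 < T) (hf : IsRegularKineticSolution Φ β T f₀ f)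
    [F.IsCountablyGenerated] (hτ : Tendsto τ F (𝓝 t₀)) (P : CTree) {z : PhasePoint × Par P}
    (hV : Valid Φ 0 P t₀ z.1.2 z.2) :
    Tendsto (fun b => tdens Φ (damp T f) (fE T f 0) P (τ b) z) F
      (𝓝 (tdens Φ (damp T f) (fE T f 0) P t₀ z)) := by
  obtain ⟨κ, hκ, hV2⟩ := valid_open P t₀ z.1.2 z.2 hV
  have hev : ∀ᶠ b in F, wt Φ P z.1.2 z.2 * dens Φ (damp T f) (fE T f 0) P (τ b) z.1 z.2 =
      tdens Φ (damp T f) (fE T f 0) P (τ b) z := by
    filter_upwards [hτ.eventually (lt_mem_nhds (by linarith : t₀ - κ < t₀))] with b hb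
    unfold tdens
    rw [indicator_of_mem (show z ∈ {z : PhasePoint × Par P | Valid Φ 0 P (τ b) z.1.2 z.2} from
      valid_mono hb.le hV2)]
  refine Tendsto.congr' hev ?_
  unfold tdens
  rw [indicator_of_mem (show z ∈ {z : PhasePoint × Par P | Valid Φ 0 P t₀ z.1.2 z.2} from hV)]
  refine ENNReal.Tendsto.const_mul ?_ (Or.inr (wt_ne_top _ _ _))
  cases P with
  | leaf =>
    simp only [dens]
    exact ENNReal.Tendsto.mul_const (tendsto_damp hβ hT hf hτ 0 z.1) (Or.inr (fE_ne_top _ _ _))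
  | node l r =>
    simp only [dens]
    refine ENNReal.Tendsto.mul_const (tendsto_damp hβ hT hf hτ z.2.1.1 z.1) (Or.inr ?_)
    exact ENNReal.mul_ne_top (dens_ne_top (fun x v => fE_ne_top _ _ _) l _ _ _)
      (dens_ne_top (fun x v => fE_ne_top _ _ _) r _ _ _)

theorem tdens_ne_top (P : CTree) (t : ℝ) (z : PhasePoint × Par P) :
    tdens Φ (damp T f) (fE T f 0) P t z ≠ ∞ := by
  unfold tdens
  refine ne_top_of_le_ne_top (b := wt Φ P z.1.2 z.2 * dens Φ (damp T f) (fE T f 0) P t z.1 z.2)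
    (ENNReal.mul_ne_top (wt_ne_top _ _ _) (dens_ne_top (fun x v => fE_ne_top _ _ _) _ _ _ _)) ?_
  exact indicator_le_self _ _ z

/-- continuity in time at the valid parameters -/
theorem tendsto_g0 (hβ : 0 < β) (hT : 0 < T) (hf : IsRegularKineticSolution Φ β T f₀ f)
    [F.IsCountablyGenerated] (hτ : Tendsto τ F (𝓝 t₀)) (Ps : Fin s → CTree) {q : FPar Ps}
    (hV : FValid Φ 0 Ps t₀ q) :
    Tendsto (fun b => g0 Φ T f Ps (τ b) q) F (𝓝 (g0 Φ T f Ps t₀ q)) :=
  ENNReal.tendsto_finsetProd_of_ne_top _ (fun i _ => tendsto_tdens hβ hT hf hτ (Ps i) (hV i))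
    fun i _ => tdens_ne_top _ _ _

theorem g0_ne_top (Ps : Fin s → CTree) (t : ℝ) (q : FPar Ps) : g0 Φ T f Ps t q ≠ ∞ :=
  ENNReal.prod_ne_top fun _ _ => tdens_ne_top _ _ _

/-- `∫ (g₀(t₀) - g₀(τ))₊ → 0` -/
theorem lim_time (hβ : 0 < β) (hT : 0 < T) (hΦ : AdmissiblePotential Φ)
    (hf : IsRegularKineticSolution Φ β T f₀ f)
    [F.IsCountablyGenerated] (hτ : Tendsto τ F (𝓝 t₀)) (Ps : Fin s → CTree)
    (hfin : ∫⁻ q, g0 Φ T f Ps t₀ q ≠ ∞) :
    Tendsto (fun b => ∫⁻ q, (g0 Φ T f Ps t₀ q - g0 Φ T f Ps (τ b) q)) F (𝓝 0) := by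
  have h0 : ∫⁻ _ : FPar Ps, (0 : ℝ≥0∞) = 0 := by simp
  rw [← h0]
  refine tendsto_lintegral_filter_of_dominated_convergence' (g0 Φ T f Ps t₀) ?_ ?_ hfin ?_
  · exact Eventually.of_forall fun b =>
      ((measurable_g0 hΦ hf Ps t₀).sub (measurable_g0 hΦ hf Ps (τ b))).aemeasurable
  · exact Eventually.of_forall fun b => Eventually.of_forall fun q => tsub_le_self
  · refine Eventually.of_forall fun q => ?_
    by_cases hV : FValid Φ 0 Ps t₀ q
    · have := ENNReal.Tendsto.sub (f := F) (tendsto_const_nhds (x := g0 Φ T f Ps t₀ q))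
        (tendsto_g0 hβ hT hf hτ Ps hV) (Or.inl (g0_ne_top Ps t₀ q))
      simpa using this
    · simp only [g0_of_not_valid hV, zero_tsub]
      exact tendsto_const_nhds

end time

/-! ### Tensor powers -/

theorem hκ_kapQ (hΦ : AdmissiblePotential Φ) (v : Space3) (H : Space3 × Space3 → ℝ≥0∞)
    (hH : Measurable H) : ∫⁻ p, H p ∂(kapQ Φ v) = ∫⁻ w, ENNReal.ofReal ‖v - w‖ *
      ∫⁻ b in impactDisc (v - w), H (postVelocities Φ b v w) ∂μHE[2] :=
  lintegral_kapQ (Scat818.scatFacts hΦ) v hH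

theorem lintegral_g0 (hΦ : AdmissiblePotential Φ) (hf : IsRegularKineticSolution Φ β T f₀ f)
    (Ps : Fin s → CTree) {t : ℝ} (ht : 0 ≤ t) {φ : (Fin s → PhasePoint) → ℝ≥0∞}
    (hφ : Measurable φ) :
    ∫⁻ q : FPar Ps, g0 Φ T f Ps t q * φ (fun i => onLine (q i).1 t) =
      ∫⁻ Z : Fin s → PhasePoint, (∏ i, TF Φ T f (Ps i) t (Z i).1 (Z i).2) * φ Z :=
  lintegral_forest hΦ (kapQ Φ) (fun v H hH => hκ_kapQ hΦ v H hH) (meas4_damp hf)
    (meas_fE_zero hf) Ps ht hφ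

/-- trees of height `< K` -/
def SF (Φ : Space3 → ℝ) (T : ℝ) (f : ℝ → PhasePoint → ℝ) (K : ℕ) (t : ℝ) (z : PhasePoint) : ℝ≥0∞ :=
  ∑ P ∈ CTree.lt K, TF Φ T f P t z.1 z.2

theorem measurable_TF (hf : IsRegularKineticSolution Φ β T f₀ f) (P : CTree) (t : ℝ) :
    Measurable fun z : PhasePoint => TF Φ T f P t z.1 z.2 :=
  (meas_TF hf P).comp (f := fun z : PhasePoint => (t, z.1, z.2)) (by fun_prop)

theorem measurable_SF (hf : IsRegularKineticSolution Φ β T f₀ f) (K : ℕ) (t : ℝ) :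
    Measurable (SF Φ T f K t) :=
  Finset.measurable_sum _ fun P _ => measurable_TF hf P t

theorem SF_le (hβ : 0 < β) (hT : 0 < T) (hΦ : AdmissiblePotential Φ)
    (hf : IsRegularKineticSolution Φ β T f₀ f) (K : ℕ) {t : ℝ} (ht : t ∈ Icc 0 T)
    (z : PhasePoint) : SF Φ T f K t z ≤ ENNReal.ofReal (f t z) := by
  rw [show z = (z.1, z.2) from rfl, series_eq hβ hT hΦ hf ht]
  exact ENNReal.sum_le_tsum _

theorem TS_le_SF (K : ℕ) (t : ℝ) (z : PhasePoint) :
    TS Φ T f K t z.1 z.2 ≤ SF Φ T f K t z := by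
  unfold TS SK SF
  rw [tsum_eq_sum (s := CTree.lt K) (fun P hP => if_neg fun h => hP (CTree.mem_lt.2
    ((CTree.height_le_size P).trans_lt h)))]
  refine Finset.sum_le_sum fun P _ => ?_
  split_ifs
  · exact le_rfl
  · exact bot_le

theorem mass_one (hf : IsRegularKineticSolution Φ β T f₀ f) {t : ℝ} (ht : t ∈ Icc 0 T) :
    ∫⁻ z, ENNReal.ofReal (f t z) = 1 := by
  rw [← ofReal_integral_eq_lintegral_ofReal (hf.density t ht).1
    (Eventually.of_forall fun z => hf.nonneg t ht z), (hf.density t ht).2, ENNReal.ofReal_one]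

theorem SF_mass_ge (hβ : 0 < β) (hT : 0 < T) (hΦ : AdmissiblePotential Φ)
    (hf : IsRegularKineticSolution Φ β T f₀ f) {δ : ℝ≥0∞} (hδ : 0 < δ) :
    ∃ K : ℕ, ∀ t ∈ Icc 0 T, 1 ≤ (∫⁻ z, SF Φ T f K t z) + δ := by
  obtain ⟨K, hK⟩ := mass_TS_ge hβ hT hΦ hf hδ
  refine ⟨K, fun t ht => (hK K le_rfl t ht).trans ?_⟩
  gcongr
  exact TS_le_SF K t _

theorem SF_mass_le (hβ : 0 < β) (hT : 0 < T) (hΦ : AdmissiblePotential Φ)
    (hf : IsRegularKineticSolution Φ β T f₀ f) (K : ℕ) {t : ℝ} (ht : t ∈ Icc 0 T) :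
    ∫⁻ z, SF Φ T f K t z ≤ 1 := by
  rw [← mass_one hf ht]
  exact lintegral_mono fun z => SF_le hβ hT hΦ hf K ht z

/-- the forests with trees of height `< K` -/
def FK (s K : ℕ) : Finset (Fin s → CTree) := Fintype.piFinset fun _ => CTree.lt K

theorem prod_SF (K : ℕ) (t : ℝ) (Z : Fin s → PhasePoint) :
    ∏ i, SF Φ T f K t (Z i) = ∑ Ps ∈ FK s K, ∏ i, TF Φ T f (Ps i) t (Z i).1 (Z i).2 := by
  unfold SF FK
  exact Finset.prod_univ_sum _ _

theorem sum_lintegral_g0 (hΦ : AdmissiblePotential Φ) (hf : IsRegularKineticSolution Φ β T f₀ f)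
    (K : ℕ) {t : ℝ} (ht : 0 ≤ t) {φ : (Fin s → PhasePoint) → ℝ≥0∞} (hφ : Measurable φ) :
    ∑ Ps ∈ FK s K, ∫⁻ q : FPar Ps, g0 Φ T f Ps t q * φ (fun i => onLine (q i).1 t) =
      ∫⁻ Z : Fin s → PhasePoint, (∏ i, SF Φ T f K t (Z i)) * φ Z := by
  simp only [lintegral_g0 hΦ hf _ ht hφ, prod_SF, Finset.sum_mul]
  rw [lintegral_finsetSum]
  intro Ps _
  exact (Finset.measurable_prod _ fun i _ =>
    (measurable_TF hf (Ps i) t).comp (measurable_pi_apply i)).mul hφ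

theorem lintegral_prod_same {h : PhasePoint → ℝ≥0∞} (hh : Measurable h) :
    ∫⁻ Z : Fin s → PhasePoint, ∏ i, h (Z i) = (∫⁻ z, h z) ^ s := by
  have := lintegral_pi_prod (X := fun _ : Fin s => PhasePoint) (fun _ => volume)
    (w := fun _ => h) (fun _ => hh)
  rw [show (∫⁻ Z : Fin s → PhasePoint, ∏ i, h (Z i)) = ∏ _i : Fin s, ∫⁻ z, h z from this]
  simp

theorem pow_bound {m δ : ℝ≥0∞} (hm : m ≤ 1) (h : 1 ≤ m + δ) (s : ℕ) : 1 ≤ m ^ s + s * δ := by
  induction s with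
  | zero => simp
  | succ s ih =>
    calc (1 : ℝ≥0∞) ≤ m ^ s + s * δ := ih
      _ ≤ m ^ s * (m + δ) + s * δ := by
          gcongr
          calc m ^ s = m ^ s * 1 := (mul_one _).symm
            _ ≤ m ^ s * (m + δ) := by gcongr
      _ = m ^ (s + 1) + (m ^ s * δ + s * δ) := by ring
      _ ≤ m ^ (s + 1) + (1 * δ + s * δ) := by
          gcongr
          exact pow_le_one' hm s
      _ = m ^ (s + 1) + ((s + 1 : ℕ) : ℝ≥0∞) * δ := by
          push_cast
          ring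

/-- mass of the forests of height `< K` -/
theorem sum_mass_g0 (hΦ : AdmissiblePotential Φ) (hf : IsRegularKineticSolution Φ β T f₀ f)
    (K : ℕ) {t : ℝ} (ht : 0 ≤ t) :
    ∑ Ps ∈ FK s K, ∫⁻ q : FPar Ps, g0 Φ T f Ps t q = (∫⁻ z, SF Φ T f K t z) ^ s := by
  have h := sum_lintegral_g0 (s := s) hΦ hf K ht (φ := fun _ => 1) measurable_const
  simp only [mul_one] at h
  rw [h, lintegral_prod_same (measurable_SF hf K t)]

theorem lintegral_g0_le (hβ : 0 < β) (hT : 0 < T) (hΦ : AdmissiblePotential Φ)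
    (hf : IsRegularKineticSolution Φ β T f₀ f) (Ps : Fin s → CTree) {t : ℝ} (ht : t ∈ Icc 0 T) :
    ∫⁻ q : FPar Ps, g0 Φ T f Ps t q ≤ 1 := by
  have h := lintegral_g0 hΦ hf Ps ht.1 (φ := fun _ => 1) measurable_const
  simp only [mul_one] at h
  rw [h]
  have hft : Measurable fun z => ENNReal.ofReal (f t z) := by
    have h1 : Measurable fun z : PhasePoint => fE T f t z.1 z.2 :=
      (meas3_fE hf).comp (f := fun z : PhasePoint => (t, z.1, z.2)) (by fun_prop)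
    convert h1 using 1
    funext z
    rw [fE_of_mem ht]
  calc ∫⁻ Z : Fin s → PhasePoint, ∏ i, TF Φ T f (Ps i) t (Z i).1 (Z i).2
      ≤ ∫⁻ Z : Fin s → PhasePoint, ∏ i, ENNReal.ofReal (f t (Z i)) := by
        refine lintegral_mono fun Z => Finset.prod_le_prod' fun i _ => ?_
        rw [show Z i = ((Z i).1, (Z i).2) from rfl, series_eq hβ hT hΦ hf ht]
        exact ENNReal.le_tsum (Ps i)
    _ = 1 := by rw [lintegral_prod_same hft, mass_one hf ht, one_pow]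

/-- **Truncation**: on every measurable set the tensor power of the solution is, up to
`s * δ`, the contribution of the forests of height `< K`. -/
theorem tensor_le (hβ : 0 < β) (hT : 0 < T) (hΦ : AdmissiblePotential Φ)
    (hf : IsRegularKineticSolution Φ β T f₀ f) {K : ℕ} {δ : ℝ≥0∞} {t : ℝ} (ht : t ∈ Icc 0 T)
    (hK : 1 ≤ (∫⁻ z, SF Φ T f K t z) + δ) {A : Set (Fin s → PhasePoint)} (hA : MeasurableSet A) :
    ∫⁻ Z in A, ∏ i, ENNReal.ofReal (f t (Z i)) ≤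
      (∑ Ps ∈ FK s K, ∫⁻ q : FPar Ps, g0 Φ T f Ps t q *
        A.indicator 1 (fun i => onLine (q i).1 t)) + s * δ := by
  have hft : Measurable fun z => ENNReal.ofReal (f t z) := by
    have h1 : Measurable fun z : PhasePoint => fE T f t z.1 z.2 :=
      (meas3_fE hf).comp (f := fun z : PhasePoint => (t, z.1, z.2)) (by fun_prop)
    convert h1 using 1
    funext z
    rw [fE_of_mem ht]
  set m := ∫⁻ z, SF Φ T f K t z with hm
  have hm1 : m ≤ 1 := SF_mass_le hβ hT hΦ hf K ht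
  set G : (Fin s → PhasePoint) → ℝ≥0∞ := fun Z => ∏ i, SF Φ T f K t (Z i) with hG
  set H : (Fin s → PhasePoint) → ℝ≥0∞ := fun Z => ∏ i, ENNReal.ofReal (f t (Z i)) with hH
  have hGm : Measurable G := Finset.measurable_prod _ fun i _ =>
    (measurable_SF hf K t).comp (measurable_pi_apply i)
  have hHm : Measurable H := Finset.measurable_prod _ fun i _ => hft.comp (measurable_pi_apply i)
  have hGH : ∀ Z, G Z ≤ H Z := fun Z => Finset.prod_le_prod' fun i _ =>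
    SF_le hβ hT hΦ hf K ht (Z i)
  have hGi : ∫⁻ Z, G Z = m ^ s := lintegral_prod_same (measurable_SF hf K t)
  have hHi : ∫⁻ Z, H Z = 1 := by
    rw [hH, lintegral_prod_same hft, mass_one hf ht, one_pow]
  have hGf : ∫⁻ Z, G Z ≠ ∞ := by
    rw [hGi]
    exact ENNReal.pow_ne_top (ne_top_of_le_ne_top ENNReal.one_ne_top hm1)
  have hdiff : ∫⁻ Z, (H Z - G Z) ≤ s * δ := by
    rw [lintegral_sub hGm hGf (Eventually.of_forall hGH), hHi, hGi, tsub_le_iff_left]
    exact pow_bound hm1 hK s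
  rw [sum_lintegral_g0 hΦ hf K ht.1 (measurable_one.indicator hA)]
  calc ∫⁻ Z in A, H Z ≤ ∫⁻ Z in A, (G Z + (H Z - G Z)) := by
        refine lintegral_mono fun Z => ?_
        rw [add_tsub_cancel_of_le (hGH Z)]
    _ = (∫⁻ Z in A, G Z) + ∫⁻ Z in A, (H Z - G Z) := lintegral_add_left hGm _
    _ ≤ (∫⁻ Z in A, G Z) + ∫⁻ Z, (H Z - G Z) := by
        gcongr
        exact Measure.restrict_le_self
    _ ≤ (∫⁻ Z, G Z * A.indicator 1 Z) + s * δ := by
        refine add_le_add ?_ hdiff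
        rw [← lintegral_indicator hA]
        refine lintegral_mono fun Z => ?_
        by_cases hZ : Z ∈ A
        · rw [indicator_of_mem hZ, indicator_of_mem hZ, Pi.one_apply, mul_one]
        · rw [indicator_of_notMem hZ]
          exact bot_le

end Crest.Agent.R122.Forest399

end
end

-- ▼ part R122/IdentLim_399

/-!
Row 122, block I1 (helper399): `LowerTV` from the ghost avoidance identification at time `T` and
the forest lower bound of the factorial marginals.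
-/

set_option autoImplicit false

open MeasureTheory Set Filter Topology Crest.AnalysisR.Kinetic
open scoped Classical ENNReal NNReal

noncomputable section

namespace Crest.Agent.R122.Forest399

open Kin796 Kin796.CTree Kin416 Disc416 Tree674 TreeEps399 PiTrans399 TreeFatou399 Hid424 GIV566
  GIVUse424 Boltz814 Master566

variable {Φ : Space3 → ℝ} {s : ℕ} {β T : ℝ} {f₀ : PhasePoint → ℝ} {f : ℝ → PhasePoint → ℝ}

/-- **Forest lower bound of the factorial marginals** (sequential form). -/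
def ForestLower (Φ : Space3 → ℝ) (f₀ : PhasePoint → ℝ) (T : ℝ) (s : ℕ) : Prop :=
  ∀ (Fs : Finset (Fin s → CTree)) (e τ : ℕ → ℝ) (t₀ : ℝ) (A : ℕ → Set (Fin s → PhasePoint)),
    (∀ n, 0 < e n) → Tendsto e atTop (𝓝 0) → (∀ n, τ n ∈ Icc 0 T) → Tendsto τ atTop (𝓝 t₀) →
    (∀ n, MeasurableSet (A n)) →
    ∃ r : ℕ → ℝ≥0∞, Tendsto r atTop (𝓝 0) ∧ ∀ n,
      ∑ Ps ∈ Fs, ∫⁻ q : FPar Ps, hE Φ f₀ (e n) Ps (τ n) q *
        (A n).indicator 1 (fun i => onLine (q i).1 (τ n)) ≤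
      factorialMarginal f₀ (e n) (flowEv Φ (e n)) s (τ n) (A n) + r n

/-- the sequential limit -/
theorem seq_limit (hD : KData Φ β T f₀ f) (hGIV : GIV Φ f₀ f T T) (hFL : ForestLower Φ f₀ T s)
    {e τ : ℕ → ℝ} {t₀ : ℝ} {A : ℕ → Set (Fin s → PhasePoint)}
    (he : ∀ n, 0 < e n) (he0 : Tendsto e atTop (𝓝 0)) (hτ : ∀ n, τ n ∈ Icc 0 T)
    (hτ0 : Tendsto τ atTop (𝓝 t₀)) (hA : ∀ n, MeasurableSet (A n)) {η : ℝ≥0∞} (hη : 0 < η) :
    ∀ᶠ n in atTop, ∫⁻ Z in A n, ∏ i, ENNReal.ofReal (f (τ n) (Z i)) ≤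
      factorialMarginal f₀ (e n) (flowEv Φ (e n)) s (τ n) (A n) + η := by
  have hβ := hD.beta_pos
  have hT := hD.T_pos
  have hΦ := hD.adm
  have hf := hD.sol
  have hf₀ : Continuous f₀ := hD.contDiff.continuous
  have h1 : ∫⁻ z, ENNReal.ofReal (f₀ z) ≤ 1 :=
    (FM167.lintegral_density_eq_one hD.nonneg hD.integrable hD.mass).le
  have ht₀ : t₀ ∈ Icc 0 T := isClosed_Icc.mem_of_tendsto hτ0 (Eventually.of_forall hτ)
  have heL : Tendsto e atTop L :=
    tendsto_nhdsWithin_iff.2 ⟨he0, Eventually.of_forall fun n => he n⟩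
  by_cases hηt : η = ∞
  · rw [hηt]
    exact Eventually.of_forall fun n => by simp
  -- the truncation
  have h4 : 4 * (η / 4) = η := ENNReal.mul_div_cancel (by norm_num) (by norm_num)
  set δ' : ℝ≥0∞ := η / 4 / (s + 1) with hδ'
  have hδ'0 : 0 < δ' := ENNReal.div_pos (ENNReal.div_pos hη.ne' (by norm_num)).ne' (by finiteness)
  have hsδ : s * δ' ≤ η / 4 := by
    calc (s : ℝ≥0∞) * δ' ≤ (s + 1) * δ' := by gcongr; exact le_self_add
      _ = η / 4 := ENNReal.mul_div_cancel (by simp) (by finiteness)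
  obtain ⟨K, hK⟩ := SF_mass_ge hβ hT hΦ hf hδ'0
  obtain ⟨r, hr0, hr⟩ := hFL (FK s K) e τ t₀ A he he0 hτ hτ0 hA
  have hfin : ∀ Ps : Fin s → CTree, ∫⁻ q, g0 Φ T f Ps t₀ q ≠ ∞ := fun Ps =>
    ne_top_of_le_ne_top ENNReal.one_ne_top (lintegral_g0_le hβ hT hΦ hf Ps ht₀)
  -- the error terms
  set B : ℕ → ℝ≥0∞ := fun n => ∑ Ps ∈ FK s K, ∫⁻ q, (g0 Φ T f Ps t₀ q - g0 Φ T f Ps (τ n) q)
  have hB : Tendsto B atTop (𝓝 0) := by
    have := tendsto_finsetSum (FK s K) fun Ps _ => lim_time hβ hT hΦ hf hτ0 Ps (hfin Ps)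
    simpa using this
  set D : ℕ → ℝ≥0∞ := fun n => ∑ Ps ∈ FK s K, ∫⁻ q, (g0 Φ T f Ps t₀ q - hE Φ f₀ (e n) Ps (τ n) q)
  have hDl : Tendsto D atTop (𝓝 0) := by
    have := tendsto_finsetSum (FK s K) fun Ps _ => forest_limit hβ hT hΦ hf hf₀ h1 hGIV heL hτ0
      ht₀.1 ht₀.2 (Eventually.of_forall fun n => (hτ n).2) Ps (hfin Ps)
    simpa using this
  have hev : ∀ᶠ n in atTop, B n + (D n + r n) ≤ η / 4 := by
    have : Tendsto (fun n => B n + (D n + r n)) atTop (𝓝 0) := by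
      simpa using hB.add (hDl.add hr0)
    exact (ENNReal.tendsto_nhds_zero.1 this) _ (ENNReal.div_pos hη.ne' (by norm_num))
  filter_upwards [hev] with n hn
  have hg : ∀ Ps t, Measurable (g0 (s := s) Φ T f Ps t) := fun Ps t => measurable_g0 hΦ hf Ps t
  -- `∑ ∫ (g(τ) - g(t₀)) ≤ s δ' + B`
  set C : ℝ≥0∞ := ∑ Ps ∈ FK s K, ∫⁻ q, (g0 Φ T f Ps (τ n) q - g0 Φ T f Ps t₀ q) with hC
  have hM0 : ∑ Ps ∈ FK s K, ∫⁻ q : FPar Ps, g0 Φ T f Ps t₀ q = (∫⁻ z, SF Φ T f K t₀ z) ^ s :=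
    sum_mass_g0 hΦ hf K ht₀.1
  have hMn : ∑ Ps ∈ FK s K, ∫⁻ q : FPar Ps, g0 Φ T f Ps (τ n) q =
      (∫⁻ z, SF Φ T f K (τ n) z) ^ s := sum_mass_g0 hΦ hf K (hτ n).1
  have hCb : C ≤ s * δ' + B n := by
    have e1 : C + ∑ Ps ∈ FK s K, ∫⁻ q : FPar Ps, g0 Φ T f Ps t₀ q =
        (∑ Ps ∈ FK s K, ∫⁻ q : FPar Ps, g0 Φ T f Ps (τ n) q) + B n := by
      rw [hC, ← Finset.sum_add_distrib, ← Finset.sum_add_distrib]
      refine Finset.sum_congr rfl fun Ps _ => ?_
      rw [← lintegral_add_right _ (hg Ps t₀), ← lintegral_add_left (hg Ps (τ n))]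
      refine lintegral_congr fun q => ?_
      rcases le_total (g0 Φ T f Ps (τ n) q) (g0 Φ T f Ps t₀ q) with h | h
      · rw [tsub_eq_zero_of_le h, zero_add, add_tsub_cancel_of_le h]
      · rw [tsub_eq_zero_of_le h, add_zero, tsub_add_cancel_of_le h]
    have e2 : (∫⁻ z, SF Φ T f K (τ n) z) ^ s ≤ 1 :=
      pow_le_one' (SF_mass_le hβ hT hΦ hf K (hτ n)) s
    have e3 : 1 ≤ (∫⁻ z, SF Φ T f K t₀ z) ^ s + s * δ' :=
      pow_bound (SF_mass_le hβ hT hΦ hf K ht₀) (hK t₀ ht₀) s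
    have e4 : (∫⁻ z, SF Φ T f K t₀ z) ^ s ≠ ∞ := ne_top_of_le_ne_top ENNReal.one_ne_top
      (pow_le_one' (SF_mass_le hβ hT hΦ hf K ht₀) s)
    rw [hM0, hMn] at e1
    refine (ENNReal.add_le_add_iff_right e4).1 ?_
    rw [e1]
    calc (∫⁻ z, SF Φ T f K (τ n) z) ^ s + B n ≤ 1 + B n := by gcongr
      _ ≤ ((∫⁻ z, SF Φ T f K t₀ z) ^ s + s * δ') + B n := by gcongr
      _ = _ := by ring
  -- pointwise bound
  have hpt : ∑ Ps ∈ FK s K, ∫⁻ q : FPar Ps, g0 Φ T f Ps (τ n) q *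
      (A n).indicator 1 (fun i => onLine (q i).1 (τ n)) ≤
      C + (D n + ∑ Ps ∈ FK s K, ∫⁻ q : FPar Ps, hE Φ f₀ (e n) Ps (τ n) q *
        (A n).indicator 1 (fun i => onLine (q i).1 (τ n))) := by
    rw [hC, ← Finset.sum_add_distrib, ← Finset.sum_add_distrib]
    refine Finset.sum_le_sum fun Ps _ => ?_
    have hEm := measurable_hE hf₀.measurable hΦ (he n) Ps (τ n)
    have m1 : Measurable fun q => g0 Φ T f Ps t₀ q - hE Φ f₀ (e n) Ps (τ n) q :=
      (hg Ps t₀).sub hEm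
    have m2 : Measurable fun q => g0 Φ T f Ps (τ n) q - g0 Φ T f Ps t₀ q :=
      (hg Ps (τ n)).sub (hg Ps t₀)
    rw [← lintegral_add_left m1, ← lintegral_add_left m2]
    refine lintegral_mono fun q => ?_
    by_cases hq : (fun i => onLine (q i).1 (τ n)) ∈ A n
    · simp only [indicator_of_mem hq, Pi.one_apply, mul_one]
      calc g0 Φ T f Ps (τ n) q
          ≤ (g0 Φ T f Ps (τ n) q - g0 Φ T f Ps t₀ q) + g0 Φ T f Ps t₀ q := le_tsub_add
        _ ≤ (g0 Φ T f Ps (τ n) q - g0 Φ T f Ps t₀ q) +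
            ((g0 Φ T f Ps t₀ q - hE Φ f₀ (e n) Ps (τ n) q) + hE Φ f₀ (e n) Ps (τ n) q) := by
          gcongr
          exact le_tsub_add
    · simp only [indicator_of_notMem hq, mul_zero]
      exact bot_le
  calc ∫⁻ Z in A n, ∏ i, ENNReal.ofReal (f (τ n) (Z i))
      ≤ (∑ Ps ∈ FK s K, ∫⁻ q : FPar Ps, g0 Φ T f Ps (τ n) q *
        (A n).indicator 1 (fun i => onLine (q i).1 (τ n))) + s * δ' :=
        tensor_le hβ hT hΦ hf (hτ n) (hK _ (hτ n)) (hA n)
    _ ≤ (C + (D n + (factorialMarginal f₀ (e n) (flowEv Φ (e n)) s (τ n) (A n) + r n))) +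
        s * δ' := by
        gcongr
        refine hpt.trans ?_
        gcongr
        exact hr n
    _ ≤ ((s * δ' + B n) + (D n + (factorialMarginal f₀ (e n) (flowEv Φ (e n)) s (τ n) (A n) +
        r n))) + s * δ' := by gcongr
    _ = factorialMarginal f₀ (e n) (flowEv Φ (e n)) s (τ n) (A n) +
        ((B n + (D n + r n)) + (s * δ' + s * δ')) := by ring
    _ ≤ factorialMarginal f₀ (e n) (flowEv Φ (e n)) s (τ n) (A n) +
        (η / 4 + (η / 4 + η / 4)) := by gcongr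
    _ ≤ factorialMarginal f₀ (e n) (flowEv Φ (e n)) s (τ n) (A n) + η := by
        gcongr
        calc η / 4 + (η / 4 + η / 4) = 3 * (η / 4) := by ring
          _ ≤ 4 * (η / 4) := by gcongr; norm_num
          _ = η := h4

/-- **`LowerTV` from GIV at the final time and the forest lower bound.** -/
theorem lowerTV_of_forests (hD : KData Φ β T f₀ f) (hGIV : GIV Φ f₀ f T T)
    (hFL : ForestLower Φ f₀ T s) : FM167.LowerTV f₀ f T (flowEv Φ) s := by
  intro δ hδ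
  by_contra hcon
  push Not at hcon
  have hpos : ∀ n : ℕ, (0 : ℝ) < 1 / ((n : ℝ) + 1) := fun n => Nat.one_div_pos_of_nat
  choose e he helt τ hτ A hA hlt using fun n : ℕ => hcon (1 / ((n : ℝ) + 1)) (hpos n)
  obtain ⟨t₀, _, φ, hφ, hlim⟩ := isCompact_Icc.tendsto_subseq hτ
  have he0 : Tendsto e atTop (𝓝 0) :=
    squeeze_zero (fun n => (he n).le) (fun n => (helt n).le) tendsto_one_div_add_atTop_nhds_zero_nat
  have h := seq_limit hD hGIV hFL (e := e ∘ φ) (τ := τ ∘ φ) (A := fun n => A (φ n))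
    (fun n => he _) (he0.comp hφ.tendsto_atTop) (fun n => hτ _) hlim (fun n => hA _)
    (η := ENNReal.ofReal δ) (ENNReal.ofReal_pos.2 hδ)
  obtain ⟨n, hn⟩ := h.exists
  exact absurd hn (not_le.2 (hlt (φ n)))

end Crest.Agent.R122.Forest399

end
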