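import Crest.Agent.R122.GCBounds_311
import Crest.Agent.R122.EDefs_602
import Crest.Agent.R122.VLDefs_581
import Crest.Agent.R122.ToTree_335

-- ▼ part R122/LinkGas_473
section

/-!
# Row 122, LN2: Mecke for sub-configurations with an external structure

* `gcE_sub_sum_le` : `E ∫ dσ(s) ∑_{k ≤ N} ∑_{ι : Fin k ↪ Fin n} G_k (w ∘ ι, s)
  ≤ ∑_{k ≤ N} a^k ∫ dV gcWeight(V) ∫ dσ(s) G_k (V, s)`.
* `gcE_sub_exists_le` : the same for the indicator that some sub-configuration with at most `N`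
  particles is in a bad set `E k ⊆ Config k × 𝒮`, with a weight `φ (s)`.
* `gcE_sub_finset_le` : bad sets given by a predicate on a finite subset of the gas.
-/

set_option autoImplicit false
open MeasureTheory
open scoped Classical ENNReal
open Crest.AnalysisR.Kinetic
noncomputable section

namespace Crest.Agent.R122.LinkGas473

open Crest.Agent.R122.GC311

variable {f₀ : PhasePoint → ℝ} {𝒮 : Type*} [MeasurableSpace 𝒮]

theorem measurable_sub {k n : ℕ} (ι : Fin k ↪ Fin n) :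
    Measurable (fun p : Config n × 𝒮 => ((fun i => p.1 (ι i) : Config k), p.2)) :=
  (measurable_pi_iff.2 fun i => (measurable_pi_apply (ι i)).comp measurable_fst).prodMk
    measurable_snd

/-- Mecke bound for sums over sub-configurations, integrated over an external structure. -/
theorem gcE_sub_sum_le (hf : Measurable f₀) (h1 : ∫⁻ z, ENNReal.ofReal (f₀ z) ≤ 1) (ε : ℝ)
    (σ : Measure 𝒮) [SFinite σ] (I : Finset ℕ) (G : (k : ℕ) → Config k × 𝒮 → ℝ≥0∞)
    (hG : ∀ k ∈ I, Measurable (G k)) :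
    gcE f₀ ε (fun n w => ∫⁻ s, ∑ k ∈ I, ∑ ι : Fin k ↪ Fin n, G k (fun i => w (ι i), s) ∂σ) ≤
      ∑ k ∈ I, activity ε ^ k *
        ∫⁻ V : Config k, gcWeight f₀ ε k V * ∫⁻ s, G k (V, s) ∂σ := by
  have hmG : ∀ k ∈ I, ∀ (n : ℕ) (ι : Fin k ↪ Fin n),
      Measurable (fun p : Config n × 𝒮 => G k (fun i => p.1 (ι i), p.2)) :=
    fun k hk n ι => (hG k hk).comp (measurable_sub ι)
  have hsec : ∀ k ∈ I, ∀ (n : ℕ) (ι : Fin k ↪ Fin n) (w : Config n),
      Measurable (fun s : 𝒮 => G k (fun i => w (ι i), s)) :=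
    fun k hk n ι w => (hmG k hk n ι).comp (measurable_const.prodMk measurable_id)
  have e1 : gcE f₀ ε (fun n w => ∫⁻ s, ∑ k ∈ I, ∑ ι : Fin k ↪ Fin n,
      G k (fun i => w (ι i), s) ∂σ) =
      gcE f₀ ε (fun n w => ∑ k ∈ I, ∑ ι : Fin k ↪ Fin n, ∫⁻ s, G k (fun i => w (ι i), s) ∂σ) := by
    refine gcE_congr f₀ ε fun n w _ => ?_
    rw [lintegral_finset_sum' _ fun k hk =>
      (Finset.measurable_sum _ fun ι _ => hsec k hk n ι w).aemeasurable]
    refine Finset.sum_congr rfl fun k hk => ?_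
    rw [lintegral_finset_sum' _ fun ι _ => (hsec k hk n ι w).aemeasurable]
  have hmI : ∀ k ∈ I, Measurable (fun V : Config k => ∫⁻ s, G k (V, s) ∂σ) :=
    fun k hk => (hG k hk).lintegral_prod_right'
  rw [e1, gcE_finset_sum hf ε I]
  · exact Finset.sum_le_sum fun k hk =>
      gcE_sum_emb_le hf h1 ε (fun V => ∫⁻ s, G k (V, s) ∂σ) (hmI k hk)
  · intro k hk n
    refine Finset.measurable_sum _ fun ι _ => ?_
    exact (hmI k hk).comp (measurable_pi_iff.2 fun i => measurable_pi_apply (ι i))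

/-- Some sub-configuration with at most `N` particles is bad: indicator form. -/
theorem gcE_sub_exists_le (hf : Measurable f₀) (h1 : ∫⁻ z, ENNReal.ofReal (f₀ z) ≤ 1) (ε : ℝ)
    (σ : Measure 𝒮) [SFinite σ] (N : ℕ) (E : (k : ℕ) → Set (Config k × 𝒮))
    (hE : ∀ k ≤ N, MeasurableSet (E k)) (φ : 𝒮 → ℝ≥0∞) (hφ : Measurable φ) :
    gcE f₀ ε (fun n w => ∫⁻ s, φ s * (if ∃ k ≤ N, ∃ ι : Fin k ↪ Fin n,
        ((fun i => w (ι i) : Config k), s) ∈ E k then 1 else 0) ∂σ) ≤
      ∑ k ∈ Finset.range (N + 1), activity ε ^ k *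
        ∫⁻ V : Config k, gcWeight f₀ ε k V *
          ∫⁻ s, φ s * (if (V, s) ∈ E k then 1 else 0) ∂σ := by
  have hm : ∀ k ∈ Finset.range (N + 1), Measurable
      (fun p : Config k × 𝒮 => φ p.2 * (if p ∈ E k then (1 : ℝ≥0∞) else 0)) := fun k hk =>
    (hφ.comp measurable_snd).mul
      (Measurable.ite (hE k (Nat.lt_succ_iff.1 (Finset.mem_range.1 hk))) measurable_const
        measurable_const)
  refine le_trans (gcE_mono f₀ ε fun n w _ => ?_)
    (gcE_sub_sum_le hf h1 ε σ (Finset.range (N + 1))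
      (fun k p => φ p.2 * (if p ∈ E k then (1 : ℝ≥0∞) else 0)) hm)
  refine lintegral_mono fun s => ?_
  dsimp only
  by_cases h : ∃ k ≤ N, ∃ ι : Fin k ↪ Fin n, ((fun i => w (ι i) : Config k), s) ∈ E k
  · obtain ⟨k, hk, ι, hι⟩ := h
    rw [if_pos ⟨k, hk, ι, hι⟩, mul_one]
    calc φ s = φ s * (if ((fun i => w (ι i) : Config k), s) ∈ E k then (1 : ℝ≥0∞) else 0) := by
          rw [if_pos hι, mul_one]
      _ ≤ ∑ ι : Fin k ↪ Fin n,
            φ s * (if ((fun i => w (ι i) : Config k), s) ∈ E k then (1 : ℝ≥0∞) else 0) :=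
          Finset.single_le_sum (f := fun ι : Fin k ↪ Fin n =>
            φ s * (if ((fun i => w (ι i) : Config k), s) ∈ E k then (1 : ℝ≥0∞) else 0))
            (fun _ _ => bot_le) (Finset.mem_univ ι)
      _ ≤ _ := Finset.single_le_sum (f := fun k => ∑ ι : Fin k ↪ Fin n,
            φ s * (if ((fun i => w (ι i) : Config k), s) ∈ E k then (1 : ℝ≥0∞) else 0))
            (fun _ _ => bot_le) (Finset.mem_range.2 (Nat.lt_succ_iff.2 hk))
  · rw [if_neg h, mul_zero]
    exact bot_le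


end Crest.Agent.R122.LinkGas473
end
end

-- ▼ part R122/LinkGas2_473
section

/-!
# Row 122, LN2: Mecke bounds in volume form

* `Maj f₀ γ φ C`: `f₀ (x, v) ≤ φ x * exp (-γ |v|²)`, `φ ≤ C`, `∫ φ ≤ C`; `exists_maj` from the
  summable Gaussian bound.
* `gcWeight_le_maj` : `gcWeight V ≤ C^k φ (x_j) ∏ exp (-γ |v_i|²)` on `Config (k + 1)`, any `j`.
* `cluster_sum_le` : Mecke for a cluster `V` (`k ≤ K` particles) and a further sub-configuration of
  the rest of the gas (`≤ N` particles), integrated over an external structure `s`.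
-/

set_option autoImplicit false
open MeasureTheory
open scoped Classical ENNReal
open Crest.AnalysisR.Kinetic
noncomputable section

namespace Crest.Agent.R122.LinkGas473

open Crest.Agent.R122.GC311 Crest.Agent.R122.Kin796

/-! ## A product majorant of the one-particle density -/

/-- `f₀ (x, v) ≤ φ x * exp (-γ |v|²)`, with `φ ≤ C` and `∫ φ ≤ C`. -/
structure Maj (f₀ : PhasePoint → ℝ) (γ : ℝ) (φ : Space3 → ℝ≥0∞) (C : ℝ≥0∞) : Prop where
  meas : Measurable φ
  int_le : ∫⁻ x, φ x ≤ C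
  sup_le : ∀ x, φ x ≤ C
  le : ∀ z : PhasePoint, ENNReal.ofReal (f₀ z) ≤ φ z.1 * wG γ z.2

theorem exists_maj {γ : ℝ} {f₀ : PhasePoint → ℝ}
    (hb : HasSummableGaussianBound γ (fun x v => f₀ (x, v))) :
    ∃ (φ : Space3 → ℝ≥0∞) (C : ℝ≥0∞), C ≠ ∞ ∧ Maj f₀ γ φ C := by
  obtain ⟨M, hM, hb⟩ := hb
  have hnn : ∀ k, 0 ≤ M k := by
    intro k
    refine le_trans ?_ (hb k (latticePoint k) 0 (by simp))
    positivity
  set φ : Space3 → ℝ≥0∞ := fun x => ∑' k : Fin 3 → ℤ,
    (Metric.closedBall (latticePoint k) 1).indicator (fun _ => ENNReal.ofReal (M k)) x with hφ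
  have hS : ∑' k, ENNReal.ofReal (M k) ≠ ∞ := by
    rw [← ENNReal.ofReal_tsum_of_nonneg hnn hM]
    exact ENNReal.ofReal_ne_top
  set v₁ : ℝ≥0∞ := volume (Metric.closedBall (0 : Space3) 1) with hv₁
  have hv₁t : v₁ ≠ ∞ := measure_closedBall_lt_top.ne
  have hmeas : Measurable φ :=
    Measurable.tsum fun k => measurable_const.indicator Metric.isClosed_closedBall.measurableSet
  refine ⟨φ, (∑' k, ENNReal.ofReal (M k)) * (1 + v₁),
    ENNReal.mul_ne_top hS (ENNReal.add_ne_top.2 ⟨ENNReal.one_ne_top, hv₁t⟩), hmeas, ?_, ?_, ?_⟩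
  · calc ∫⁻ x, φ x = ∑' k : Fin 3 → ℤ, ∫⁻ x,
          (Metric.closedBall (latticePoint k) 1).indicator (fun _ => ENNReal.ofReal (M k)) x := by
          refine lintegral_tsum fun k => ?_
          exact (measurable_const.indicator Metric.isClosed_closedBall.measurableSet).aemeasurable
      _ = ∑' k : Fin 3 → ℤ, ENNReal.ofReal (M k) * v₁ := by
          refine tsum_congr fun k => ?_
          rw [lintegral_indicator Metric.isClosed_closedBall.measurableSet, lintegral_const,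
            Measure.restrict_apply_univ, hv₁, Measure.addHaar_closedBall_center]
      _ = (∑' k : Fin 3 → ℤ, ENNReal.ofReal (M k)) * v₁ := ENNReal.tsum_mul_right
      _ ≤ _ := by gcongr; exact le_add_self
  · intro x
    calc φ x ≤ ∑' k, ENNReal.ofReal (M k) :=
          ENNReal.tsum_le_tsum fun k => Set.indicator_le_self _ _ _
      _ = (∑' k, ENNReal.ofReal (M k)) * 1 := (mul_one _).symm
      _ ≤ _ := by gcongr; exact le_self_add
  · rintro ⟨x, v⟩
    obtain ⟨k, hk⟩ := exists_lattice_near x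
    have h1 := hb k x v hk
    have h2 : f₀ (x, v) ≤ M k * Real.exp (-(γ * ‖v‖ ^ 2)) := by
      rw [Real.exp_neg, ← div_eq_mul_inv, le_div_iff₀ (Real.exp_pos _)]
      calc f₀ (x, v) * Real.exp (γ * ‖v‖ ^ 2) ≤ Real.exp (γ * ‖v‖ ^ 2) * ‖f₀ (x, v)‖ := by
            rw [mul_comm]
            exact mul_le_mul_of_nonneg_left (le_abs_self _) (Real.exp_pos _).le
        _ ≤ M k := h1
    have h3 : ENNReal.ofReal (M k) ≤ φ x := by
      have h4 : (Metric.closedBall (latticePoint k) 1).indicator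
          (fun _ => ENNReal.ofReal (M k)) x = ENNReal.ofReal (M k) :=
        Set.indicator_of_mem (Metric.mem_closedBall.2 hk) _
      rw [← h4]
      exact ENNReal.le_tsum k
    calc ENNReal.ofReal (f₀ (x, v)) ≤ ENNReal.ofReal (M k * Real.exp (-(γ * ‖v‖ ^ 2))) :=
          ENNReal.ofReal_le_ofReal h2
      _ = ENNReal.ofReal (M k) * wG γ v := by
          rw [ENNReal.ofReal_mul (hnn k)]; rfl
      _ ≤ φ x * wG γ v := by gcongr

variable {f₀ : PhasePoint → ℝ} {γ : ℝ} {φ : Space3 → ℝ≥0∞} {C : ℝ≥0∞}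

theorem measurable_wG' : Measurable (fun v : Space3 => wG γ v) := by
  unfold wG
  exact (Real.measurable_exp.comp ((measurable_const.mul (measurable_norm.pow_const 2)).neg)).ennreal_ofReal


/-! ## Mecke for a cluster and a further sub-configuration -/

variable {𝒮 : Type*} [MeasurableSpace 𝒮]



end Crest.Agent.R122.LinkGas473
end
end

-- ▼ part R122/LN2Gas_473
section

/-!
# Row 122, LN2: gas level, estimates at fixed `ε`

* `vsys Φ T ε b` : helper581's virtual system without obstacle.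
* `Env f₀ γ ρ C` : `f₀ z ≤ C ρ(x) exp (-γ |v|²)` with `ρ ≤ 1`, `∫ ρ < ∞`; `exists_env`.
* `wgtA γ ρ A Z = ∏_{j ∈ A} ρ (x_j) ∏_j exp (-γ |v_j|²)`.
* `gSet N E n` : some `Y ⊆ w`, `|Y| ≤ N`, is in the bad set `E |Y|` together with the structure
  `(b, z)`.
* `gas_core` : its mass is at most `Λ(univ) ∑_{k ≤ N} a^k C^k D_k`, `D_k` = volume of `E k`.
* `Dom` : structure data `(Θ, m, b, z)` dominated by `ε^{-2(p-s)} Λ(db) wgtA dz`.
* `gas_mass_le` : mass of the bad set for dominated structures.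
-/

set_option autoImplicit false
open MeasureTheory
open scoped Classical ENNReal
open Crest.AnalysisR.Kinetic
noncomputable section

namespace Crest.Agent.R122.LN2

open Crest.Agent.R122.GC311 Crest.Agent.R122.Kin796 Crest.Agent.R122.VL581
open Crest.Agent.R122.LinkGas473

/-- Virtual system without obstacle. -/
def vsys {J : Type} (Φ : Space3 → ℝ) (T ε : ℝ) (b : J → ℝ) : VSys J Unit :=
  ⟨Φ, T, ε, b, none, ⟨fun _ _ => 0, fun _ => 0⟩⟩

/-! ## Environments -/

/-- Product majorant of the one-particle density. -/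
structure Env (f₀ : PhasePoint → ℝ) (γ : ℝ) (ρ : Space3 → ℝ≥0∞) (C : ℝ≥0∞) : Prop where
  meas : Measurable ρ
  le_one : ∀ x, ρ x ≤ 1
  int : ∫⁻ x, ρ x < ∞
  fin : C ≠ ∞
  le : ∀ z : PhasePoint, ENNReal.ofReal (f₀ z) ≤ C * (ρ z.1 * wG γ z.2)

theorem wG_anti {γ γ' : ℝ} (h : γ' ≤ γ) (v : Space3) : wG γ v ≤ wG γ' v := by
  unfold wG
  refine ENNReal.ofReal_le_ofReal (Real.exp_le_exp.2 ?_)
  have := mul_le_mul_of_nonneg_right h (sq_nonneg ‖v‖)
  linarith

theorem wG_eq (γ : ℝ) (v : Space3) : wG γ v = ENNReal.ofReal (Real.exp (-γ * ‖v‖ ^ 2)) := by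
  unfold wG
  rw [neg_mul]

theorem exists_env {γ γ' : ℝ} (hγ : γ' ≤ γ) {f₀ : PhasePoint → ℝ}
    (hb : HasSummableGaussianBound γ (fun x v => f₀ (x, v))) :
    ∃ (ρ : Space3 → ℝ≥0∞) (C : ℝ≥0∞), Env f₀ γ' ρ C := by
  obtain ⟨φ, C, hC, hm⟩ := exists_maj hb
  have h0 : C + 1 ≠ 0 := by simp
  have ht : C + 1 ≠ ∞ := ENNReal.add_ne_top.2 ⟨hC, ENNReal.one_ne_top⟩
  refine ⟨fun x => (C + 1)⁻¹ * φ x, C + 1, hm.meas.const_mul _, fun x => ?_, ?_, ht, fun z => ?_⟩
  · calc (C + 1)⁻¹ * φ x ≤ (C + 1)⁻¹ * (C + 1) := by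
          gcongr
          exact (hm.sup_le x).trans le_self_add
      _ = 1 := ENNReal.inv_mul_cancel h0 ht
  · rw [lintegral_const_mul _ hm.meas]
    exact ENNReal.mul_lt_top (ENNReal.inv_lt_top.2 (pos_iff_ne_zero.2 h0))
      (lt_of_le_of_lt hm.int_le (lt_top_iff_ne_top.2 hC))
  · calc ENNReal.ofReal (f₀ z) ≤ φ z.1 * wG γ z.2 := hm.le z
      _ ≤ φ z.1 * wG γ' z.2 := by gcongr; exact wG_anti hγ _
      _ = (C + 1) * ((C + 1)⁻¹ * φ z.1 * wG γ' z.2) := by
          rw [← mul_assoc, ← mul_assoc, ENNReal.mul_inv_cancel h0 ht, one_mul]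

/-! ## Weights -/

/-- Weight: position densities for the anchors `A`, Gaussian velocities. -/
def wgtA {J : Type} [Fintype J] (γ : ℝ) (ρ : Space3 → ℝ≥0∞) (A : Finset J)
    (Z : J → PhasePoint) : ℝ≥0∞ := (∏ j ∈ A, ρ (Z j).1) * ∏ j, wG γ (Z j).2

theorem measurable_wgtA {J : Type} [Fintype J] {γ : ℝ} {ρ : Space3 → ℝ≥0∞} (hρ : Measurable ρ)
    (A : Finset J) : Measurable (wgtA γ ρ A) := by
  unfold wgtA
  refine Measurable.mul (Finset.measurable_prod _ fun j _ => ?_)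
    (Finset.measurable_prod _ fun j _ => ?_)
  · exact hρ.comp (measurable_pi_apply j).fst
  · exact measurable_wG'.comp (measurable_pi_apply j).snd

/-- Anchors of the union of `k` gas particles and a structure. -/
def anch (k : ℕ) {κ : Type} (A₀ : Finset κ) : Finset (Fin k ⊕ κ) :=
  Finset.univ.disjSum A₀

theorem wgtA_sum {k : ℕ} {κ : Type} [Fintype κ] (γ : ℝ) (ρ : Space3 → ℝ≥0∞) (A₀ : Finset κ)
    (V : Config k) (z : κ → PhasePoint) :
    wgtA γ ρ (anch k A₀) (Sum.elim V z) =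
      (∏ i, ρ (V i).1 * wG γ (V i).2) * wgtA γ ρ A₀ z := by
  unfold wgtA anch
  rw [Finset.prod_disjSum, Fintype.prod_sum_type, Finset.prod_mul_distrib]
  simp only [Sum.elim_inl, Sum.elim_inr]
  ring

/-! ## Splitting the configuration space -/

theorem measurable_sumElim {α κ : Type} {E : Type} [MeasurableSpace E] :
    Measurable (fun p : (α → E) × (κ → E) => (Sum.elim p.1 p.2 : α ⊕ κ → E)) := by
  refine measurable_pi_iff.2 fun i => ?_
  cases i with
  | inl i => exact (measurable_pi_apply i).comp measurable_fst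
  | inr i => exact (measurable_pi_apply i).comp measurable_snd

theorem lintegral_sum_type {α κ : Type} [Fintype α] [Fintype κ] (F : (α ⊕ κ → PhasePoint) → ℝ≥0∞)
    (hF : Measurable F) :
    ∫⁻ Z : α ⊕ κ → PhasePoint, F Z =
      ∫⁻ V : α → PhasePoint, ∫⁻ z : κ → PhasePoint, F (Sum.elim V z) := by
  have h2 := volume_measurePreserving_sumPiEquivProdPi_symm (fun _ : α ⊕ κ => PhasePoint)
  have e : ∀ p : (α → PhasePoint) × (κ → PhasePoint),
      (MeasurableEquiv.sumPiEquivProdPi (fun _ : α ⊕ κ => PhasePoint)).symm p =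
      Sum.elim p.1 p.2 := by
    intro p
    ext i : 1
    cases i with
    | inl j => simp [MeasurableEquiv.sumPiEquivProdPi]
    | inr j => simp [MeasurableEquiv.sumPiEquivProdPi]
  rw [← h2.lintegral_comp hF]
  simp only [e]
  exact lintegral_prod _ (hF.comp measurable_sumElim).aemeasurable

/-! ## The core estimate -/

variable {f₀ : PhasePoint → ℝ} {γ : ℝ} {ρ : Space3 → ℝ≥0∞} {C : ℝ≥0∞}
variable {κ : Type} [Fintype κ]

/-- Births of the union of `k` gas particles (births `0`) and a structure. -/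
def bS (k : ℕ) (b : κ → ℝ) : Fin k ⊕ κ → ℝ := Sum.elim (fun _ => 0) b

/-- Some `Y ⊆ w` with `|Y| ≤ N` is in the bad set together with the structure. -/
def gSet (N : ℕ) (E : (k : ℕ) → Set ((Fin k ⊕ κ → ℝ) × (Fin k ⊕ κ → PhasePoint))) (n : ℕ) :
    Set (Config n × (κ → ℝ) × (κ → PhasePoint)) :=
  {p | ∃ k ≤ N, ∃ ι : Fin k ↪ Fin n,
    (bS k p.2.1, (Sum.elim (fun i => p.1 (ι i)) p.2.2 : Fin k ⊕ κ → PhasePoint)) ∈ E k}

omit [Fintype κ] in
theorem measurable_bS (k : ℕ) : Measurable (bS (κ := κ) k) :=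
  measurable_sumElim.comp (measurable_const.prodMk measurable_id)

omit [Fintype κ] in
theorem measurableSet_gSet {N : ℕ}
    {E : (k : ℕ) → Set ((Fin k ⊕ κ → ℝ) × (Fin k ⊕ κ → PhasePoint))}
    (hE : ∀ k, MeasurableSet (E k)) (n : ℕ) : MeasurableSet (gSet N E n) := by
  have h : gSet N E n = ⋃ k ∈ Finset.range (N + 1), ⋃ ι : Fin k ↪ Fin n,
      (fun p : Config n × (κ → ℝ) × (κ → PhasePoint) =>
        (bS k p.2.1, (Sum.elim (fun i => p.1 (ι i)) p.2.2 : Fin k ⊕ κ → PhasePoint))) ⁻¹' E k := by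
    ext p
    simp [gSet]
  rw [h]
  refine Finset.measurableSet_biUnion _ fun k _ => MeasurableSet.iUnion fun ι => ?_
  refine Measurable.prodMk ?_ ?_ (hE k)
  · exact (measurable_bS k).comp measurable_snd.fst
  · refine measurable_sumElim.comp (Measurable.prodMk ?_ measurable_snd.snd)
    exact measurable_pi_iff.2 fun i => (measurable_pi_apply (ι i)).comp measurable_fst

theorem gcWeight_le_env (he : Env f₀ γ ρ C) (ε : ℝ) {k : ℕ} (V : Config k) :
    gcWeight f₀ ε k V ≤ C ^ k * ∏ i, ρ (V i).1 * wG γ (V i).2 := by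
  unfold gcWeight
  refine (Set.indicator_le_self _ _ _).trans ?_
  calc ∏ i, ENNReal.ofReal (f₀ (V i)) ≤ ∏ i, C * (ρ (V i).1 * wG γ (V i).2) :=
        Finset.prod_le_prod' fun i _ => he.le (V i)
    _ = C ^ k * ∏ i, ρ (V i).1 * wG γ (V i).2 := by
        rw [Finset.prod_mul_distrib, Finset.prod_const, Finset.card_univ, Fintype.card_fin]

/-- **Core estimate.** -/
theorem gas_core (hf : Measurable f₀) (h1 : ∫⁻ z, ENNReal.ofReal (f₀ z) ≤ 1)
    (he : Env f₀ γ ρ C) (ε : ℝ) (N : ℕ) (A₀ : Finset κ)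
    {E : (k : ℕ) → Set ((Fin k ⊕ κ → ℝ) × (Fin k ⊕ κ → PhasePoint))}
    (hE : ∀ k, MeasurableSet (E k)) {D : ℕ → ℝ≥0∞}
    (hD : ∀ k ≤ N, ∀ b : Fin k ⊕ κ → ℝ,
      ∫⁻ Z, {Z | (b, Z) ∈ E k}.indicator (wgtA γ ρ (anch k A₀)) Z ≤ D k)
    (Λ : Measure (κ → ℝ)) [IsFiniteMeasure Λ] :
    gcE f₀ ε (fun n w => ∫⁻ b, (∫⁻ z, wgtA γ ρ A₀ z *
      (if (w, b, z) ∈ gSet N E n then 1 else 0)) ∂Λ) ≤
      Λ Set.univ * ∑ k ∈ Finset.range (N + 1), activity ε ^ k * (C ^ k * D k) := by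
  set σ : Measure ((κ → ℝ) × (κ → PhasePoint)) := Λ.prod volume with hσ
  set φ : (κ → ℝ) × (κ → PhasePoint) → ℝ≥0∞ := fun s => wgtA γ ρ A₀ s.2 with hφ
  have hφm : Measurable φ := (measurable_wgtA he.meas A₀).comp measurable_snd
  set E' : (k : ℕ) → Set (Config k × ((κ → ℝ) × (κ → PhasePoint))) := fun k =>
    {p | (bS k p.2.1, (Sum.elim p.1 p.2.2 : Fin k ⊕ κ → PhasePoint)) ∈ E k} with hE'
  have hmap : ∀ k, Measurable (fun p : Config k × ((κ → ℝ) × (κ → PhasePoint)) =>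
      (bS k p.2.1, (Sum.elim p.1 p.2.2 : Fin k ⊕ κ → PhasePoint))) := fun k =>
    ((measurable_bS k).comp measurable_snd.fst).prodMk
      (measurable_sumElim.comp (measurable_fst.prodMk measurable_snd.snd))
  have hE'm : ∀ k, MeasurableSet (E' k) := fun k => hmap k (hE k)
  have hind : ∀ n, Measurable (fun p : Config n × (κ → ℝ) × (κ → PhasePoint) =>
      wgtA γ ρ A₀ p.2.2 * (if p ∈ gSet N E n then (1 : ℝ≥0∞) else 0)) := fun n =>
    ((measurable_wgtA he.meas A₀).comp measurable_snd.snd).mul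
      (Measurable.ite (measurableSet_gSet hE n) measurable_const measurable_const)
  have e1 : gcE f₀ ε (fun n w => ∫⁻ b, (∫⁻ z, wgtA γ ρ A₀ z *
      (if (w, b, z) ∈ gSet N E n then 1 else 0)) ∂Λ) =
      gcE f₀ ε (fun n w => ∫⁻ s, φ s * (if ∃ k ≤ N, ∃ ι : Fin k ↪ Fin n,
        ((fun i => w (ι i) : Config k), s) ∈ E' k then 1 else 0) ∂σ) := by
    refine gcE_congr f₀ ε fun n w _ => ?_
    have hfun : ∀ s : (κ → ℝ) × (κ → PhasePoint), φ s * (if ∃ k ≤ N, ∃ ι : Fin k ↪ Fin n,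
        ((fun i => w (ι i) : Config k), s) ∈ E' k then (1 : ℝ≥0∞) else 0) =
        wgtA γ ρ A₀ s.2 * (if (w, s) ∈ gSet N E n then 1 else 0) := by
      intro s
      by_cases h : (w, s) ∈ gSet N E n
      · rw [if_pos h, if_pos (show ∃ k ≤ N, ∃ ι : Fin k ↪ Fin n,
          ((fun i => w (ι i) : Config k), s) ∈ E' k from h)]
      · rw [if_neg h, if_neg (show ¬ ∃ k ≤ N, ∃ ι : Fin k ↪ Fin n,
          ((fun i => w (ι i) : Config k), s) ∈ E' k from h)]
    simp only [hfun]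
    rw [hσ, lintegral_prod]
    exact ((hind n).comp (measurable_const.prodMk measurable_id)).aemeasurable
  rw [e1]
  refine (gcE_sub_exists_le hf h1 ε σ N E' (fun k _ => hE'm k) φ hφm).trans ?_
  rw [Finset.mul_sum]
  refine Finset.sum_le_sum fun k hk => ?_
  have hkN : k ≤ N := Nat.lt_succ_iff.1 (Finset.mem_range.1 hk)
  have hgm : Measurable (fun q : (κ → ℝ) × (Fin k ⊕ κ → PhasePoint) =>
      ({Z | (bS k q.1, Z) ∈ E k}.indicator (wgtA γ ρ (anch k A₀)) q.2)) := by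
    have : (fun q : (κ → ℝ) × (Fin k ⊕ κ → PhasePoint) =>
        ({Z | (bS k q.1, Z) ∈ E k}.indicator (wgtA γ ρ (anch k A₀)) q.2)) =
        {q : (κ → ℝ) × (Fin k ⊕ κ → PhasePoint) | (bS k q.1, q.2) ∈ E k}.indicator
          (fun q => wgtA γ ρ (anch k A₀) q.2) := by
      funext q
      by_cases h : (bS k q.1, q.2) ∈ E k
      · rw [Set.indicator_of_mem (show q.2 ∈ {Z | (bS k q.1, Z) ∈ E k} from h),
          Set.indicator_of_mem (show q ∈ {q : (κ → ℝ) × (Fin k ⊕ κ → PhasePoint) |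
            (bS k q.1, q.2) ∈ E k} from h)]
      · rw [Set.indicator_of_notMem (show q.2 ∉ {Z | (bS k q.1, Z) ∈ E k} from h),
          Set.indicator_of_notMem (show q ∉ {q : (κ → ℝ) × (Fin k ⊕ κ → PhasePoint) |
            (bS k q.1, q.2) ∈ E k} from h)]
    rw [this]
    refine ((measurable_wgtA he.meas _).comp measurable_snd).indicator ?_
    exact (((measurable_bS k).comp measurable_fst).prodMk measurable_snd) (hE k)
  -- the inner integrand
  have hkey : ∀ (V : Config k) (s : (κ → ℝ) × (κ → PhasePoint)),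
      (∏ i, ρ (V i).1 * wG γ (V i).2) * (φ s * (if (V, s) ∈ E' k then 1 else 0)) =
      ({Z | (bS k s.1, Z) ∈ E k}.indicator (wgtA γ ρ (anch k A₀)) (Sum.elim V s.2)) := by
    intro V s
    by_cases h : (V, s) ∈ E' k
    · rw [if_pos h, mul_one, Set.indicator_of_mem
        (show (Sum.elim V s.2 : Fin k ⊕ κ → PhasePoint) ∈ {Z | (bS k s.1, Z) ∈ E k} from h),
        wgtA_sum]
    · rw [if_neg h, mul_zero, mul_zero, Set.indicator_of_notMem
        (show (Sum.elim V s.2 : Fin k ⊕ κ → PhasePoint) ∉ {Z | (bS k s.1, Z) ∈ E k} from h)]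
  have hprodm : Measurable (fun V : Config k => ∏ i, ρ (V i).1 * wG γ (V i).2) :=
    Finset.measurable_prod _ fun i _ => (he.meas.comp (measurable_pi_apply i).fst).mul
      (measurable_wG'.comp (measurable_pi_apply i).snd)
  have hjoint : Measurable (fun p : Config k × ((κ → ℝ) × (κ → PhasePoint)) =>
      φ p.2 * (if p ∈ E' k then (1 : ℝ≥0∞) else 0)) :=
    (hφm.comp measurable_snd).mul (Measurable.ite (hE'm k) measurable_const measurable_const)
  calc activity ε ^ k * ∫⁻ V : Config k, gcWeight f₀ ε k V *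
        ∫⁻ s, φ s * (if (V, s) ∈ E' k then 1 else 0) ∂σ
      ≤ activity ε ^ k * ∫⁻ V : Config k, (C ^ k * ∏ i, ρ (V i).1 * wG γ (V i).2) *
        ∫⁻ s, φ s * (if (V, s) ∈ E' k then 1 else 0) ∂σ := by
        gcongr with V
        exact gcWeight_le_env he ε V
    _ = activity ε ^ k * (C ^ k * ∫⁻ V : Config k, ∫⁻ s,
        ({Z | (bS k s.1, Z) ∈ E k}.indicator (wgtA γ ρ (anch k A₀)) (Sum.elim V s.2)) ∂σ) := by
        congr 1
        rw [← lintegral_const_mul' _ _ (ENNReal.pow_ne_top he.fin)]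
        refine lintegral_congr fun V => ?_
        rw [mul_assoc]
        congr 1
        rw [← lintegral_const_mul]
        · exact lintegral_congr fun s => hkey V s
        · exact hjoint.comp (measurable_const.prodMk measurable_id)
    _ = activity ε ^ k * (C ^ k * ∫⁻ b, (∫⁻ Z,
        ({Z | (bS k b, Z) ∈ E k}.indicator (wgtA γ ρ (anch k A₀)) Z)) ∂Λ) := by
        congr 2
        have hm3 : Measurable (fun q : Config k × ((κ → ℝ) × (κ → PhasePoint)) =>
            ({Z | (bS k q.2.1, Z) ∈ E k}.indicator (wgtA γ ρ (anch k A₀))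
              (Sum.elim q.1 q.2.2))) :=
          hgm.comp (measurable_snd.fst.prodMk
            (measurable_sumElim.comp (measurable_fst.prodMk measurable_snd.snd)))
        rw [lintegral_lintegral_swap hm3.aemeasurable, hσ, lintegral_prod]
        · refine lintegral_congr fun b => ?_
          rw [lintegral_sum_type (fun Z => {Z | (bS k b, Z) ∈ E k}.indicator
            (wgtA γ ρ (anch k A₀)) Z) (hgm.comp (measurable_const.prodMk measurable_id))]
          rw [lintegral_lintegral_swap]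
          exact (hgm.comp (measurable_const.prodMk (measurable_sumElim.comp
            (measurable_snd.prodMk measurable_fst)))).aemeasurable
        · have h5 : Measurable (fun q : ((κ → ℝ) × (κ → PhasePoint)) × Config k =>
              ({Z | (bS k q.1.1, Z) ∈ E k}.indicator (wgtA γ ρ (anch k A₀))
                (Sum.elim q.2 q.1.2))) := hm3.comp (measurable_snd.prodMk measurable_fst)
          exact h5.lintegral_prod_right'.aemeasurable
    _ ≤ activity ε ^ k * (C ^ k * ∫⁻ _b : κ → ℝ, D k ∂Λ) := by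
        gcongr with b
        exact hD k hkN (bS k b)
    _ = Λ Set.univ * (activity ε ^ k * (C ^ k * D k)) := by
        rw [lintegral_const]
        ring

/-! ## Dominated structures -/

/-- Structure data `(Θ, m, b, z)` dominated by `c ε^{-2 (p - s)} Λ(db) wgtA dz`. -/
structure Dom (γ : ℝ) (ρ : Space3 → ℝ≥0∞) (ε : ℝ) (s : ℕ) (A₀ : Finset κ) (c : ℝ≥0∞)
    (Λ : Measure (κ → ℝ)) {Θ : Type} [MeasurableSpace Θ] (m : Measure Θ) (b : Θ → κ → ℝ)
    (z : Θ → κ → PhasePoint) : Prop where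
  mb : Measurable b
  mz : Measurable z
  le : ∀ F : (κ → ℝ) × (κ → PhasePoint) → ℝ≥0∞, Measurable F →
    ENNReal.ofReal (ε ^ 2) ^ (Fintype.card κ - s) * ∫⁻ θ, F (b θ, z θ) ∂m ≤
      c * ∫⁻ b, (∫⁻ z, wgtA γ ρ A₀ z * F (b, z)) ∂Λ

theorem activity_pow_mul_pow {ε : ℝ} (hε : 0 < ε) (k : ℕ) :
    activity ε ^ k * ENNReal.ofReal (ε ^ 2) ^ k = 1 := by
  unfold activity
  rw [← mul_pow, ← ENNReal.ofReal_mul (by positivity), inv_mul_cancel₀ (by positivity),
    ENNReal.ofReal_one, one_pow]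

/-- Mass of the bad set for dominated structures: with `D_k = δ ε^{2 (k + p - s)}` it is at most
`c Λ(univ) δ ∑_{k ≤ N} C^k`. -/
theorem gas_mass_le (hf : Measurable f₀) (h1 : ∫⁻ z, ENNReal.ofReal (f₀ z) ≤ 1)
    (he : Env f₀ γ ρ C) {ε : ℝ} (hε : 0 < ε) (N : ℕ) {s : ℕ} (A₀ : Finset κ)
    {E : (k : ℕ) → Set ((Fin k ⊕ κ → ℝ) × (Fin k ⊕ κ → PhasePoint))}
    (hE : ∀ k, MeasurableSet (E k)) {δ : ℝ≥0∞}
    (hD : ∀ k ≤ N, ∀ b : Fin k ⊕ κ → ℝ,
      ∫⁻ Z, {Z | (b, Z) ∈ E k}.indicator (wgtA γ ρ (anch k A₀)) Z ≤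
        δ * ENNReal.ofReal (ε ^ 2) ^ (k + (Fintype.card κ - s)))
    {c : ℝ≥0∞} (hc : c ≠ ∞) (Λ : Measure (κ → ℝ)) [IsFiniteMeasure Λ] {Θ : Type}
    [MeasurableSpace Θ] {m : Measure Θ} [SFinite m] {b : Θ → κ → ℝ} {z : Θ → κ → PhasePoint}
    (hdom : Dom γ ρ ε s A₀ c Λ m b z) :
    gcE f₀ ε (fun n w => m {θ | (w, b θ, z θ) ∈ gSet N E n}) ≤
      c * Λ Set.univ * (δ * ∑ k ∈ Finset.range (N + 1), C ^ k) := by
  set q : ℕ := Fintype.card κ - s with hq
  set a : ℝ≥0∞ := ENNReal.ofReal (ε ^ 2) ^ q with ha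
  have ha1 : activity ε ^ q * a = 1 := activity_pow_mul_pow hε q
  have step : ∀ n (w : Config n), m {θ | (w, b θ, z θ) ∈ gSet N E n} ≤
      activity ε ^ q * (c * ∫⁻ b, (∫⁻ z, wgtA γ ρ A₀ z *
        (if (w, b, z) ∈ gSet N E n then 1 else 0)) ∂Λ) := by
    intro n w
    have hsec : MeasurableSet {p : (κ → ℝ) × (κ → PhasePoint) | (w, p) ∈ gSet N E n} :=
      (measurable_const.prodMk measurable_id) (measurableSet_gSet hE n)
    have hFm : Measurable (fun p : (κ → ℝ) × (κ → PhasePoint) =>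
        if (w, p) ∈ gSet N E n then (1 : ℝ≥0∞) else 0) :=
      Measurable.ite hsec measurable_const measurable_const
    have e1 : m {θ | (w, b θ, z θ) ∈ gSet N E n} =
        ∫⁻ θ, (if (w, b θ, z θ) ∈ gSet N E n then 1 else 0) ∂m := by
      have hset : MeasurableSet {θ | (w, b θ, z θ) ∈ gSet N E n} :=
        (hdom.mb.prodMk hdom.mz) hsec
      rw [← lintegral_indicator_one hset]
      refine lintegral_congr fun θ => ?_
      by_cases h : (w, b θ, z θ) ∈ gSet N E n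
      · rw [if_pos h, Set.indicator_of_mem
          (show θ ∈ {θ | (w, b θ, z θ) ∈ gSet N E n} from h)]
        rfl
      · rw [if_neg h, Set.indicator_of_notMem
          (show θ ∉ {θ | (w, b θ, z θ) ∈ gSet N E n} from h)]
    have h2 := hdom.le (fun p => if (w, p) ∈ gSet N E n then (1 : ℝ≥0∞) else 0) hFm
    calc m {θ | (w, b θ, z θ) ∈ gSet N E n}
        = activity ε ^ q * (a * ∫⁻ θ, (if (w, b θ, z θ) ∈ gSet N E n then 1 else 0) ∂m) := by
          rw [← mul_assoc, ha1, one_mul, e1]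
      _ ≤ activity ε ^ q * (c * ∫⁻ b, (∫⁻ z, wgtA γ ρ A₀ z *
            (if (w, b, z) ∈ gSet N E n then 1 else 0)) ∂Λ) := by
          gcongr
  calc gcE f₀ ε (fun n w => m {θ | (w, b θ, z θ) ∈ gSet N E n})
      ≤ gcE f₀ ε (fun n w => (activity ε ^ q * c) * ∫⁻ b, (∫⁻ z, wgtA γ ρ A₀ z *
          (if (w, b, z) ∈ gSet N E n then 1 else 0)) ∂Λ) :=
        gcE_mono f₀ ε fun n w _ => by
          rw [mul_assoc]
          exact step n w
    _ = (activity ε ^ q * c) * gcE f₀ ε (fun n w => ∫⁻ b, (∫⁻ z, wgtA γ ρ A₀ z *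
          (if (w, b, z) ∈ gSet N E n then 1 else 0)) ∂Λ) :=
        gcE_const_mul f₀ ε (ENNReal.mul_ne_top (ENNReal.pow_ne_top (activity_ne_top ε)) hc) _
    _ ≤ (activity ε ^ q * c) * (Λ Set.univ * ∑ k ∈ Finset.range (N + 1), activity ε ^ k *
          (C ^ k * (δ * ENNReal.ofReal (ε ^ 2) ^ (k + q)))) := by
        gcongr
        exact gas_core hf h1 he ε N A₀ hE hD Λ
    _ = c * Λ Set.univ * (δ * ∑ k ∈ Finset.range (N + 1), C ^ k) := by
        have h3 : ∀ k ∈ Finset.range (N + 1), activity ε ^ k *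
            (C ^ k * (δ * ENNReal.ofReal (ε ^ 2) ^ (k + q))) = a * (δ * C ^ k) := by
          intro k _
          rw [pow_add]
          calc activity ε ^ k * (C ^ k * (δ * (ENNReal.ofReal (ε ^ 2) ^ k *
                ENNReal.ofReal (ε ^ 2) ^ q)))
              = (activity ε ^ k * ENNReal.ofReal (ε ^ 2) ^ k) *
                (ENNReal.ofReal (ε ^ 2) ^ q * (δ * C ^ k)) := by ring
            _ = a * (δ * C ^ k) := by rw [activity_pow_mul_pow hε, one_mul]
        rw [Finset.sum_congr rfl h3, ← Finset.mul_sum, ← Finset.mul_sum]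
        calc activity ε ^ q * c * (Λ Set.univ * (a * (δ * ∑ k ∈ Finset.range (N + 1), C ^ k)))
            = (activity ε ^ q * a) * (c * Λ Set.univ *
              (δ * ∑ k ∈ Finset.range (N + 1), C ^ k)) := by ring
          _ = _ := by rw [ha1, one_mul]

end Crest.Agent.R122.LN2
end
end

-- ▼ part R122/LN2Dom_473

/-!
# Row 122, LN2: dominated structures, instances

* `Dom.prod` : products of structures (numbers of groups add up).
* `Dom.weight` : exponential velocity weights; `Dom.mono_measure`.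
* `treeM Φ f₀ ε P T` : `{Valid} wt ∏ f₀ (lines)` as a measure; `dom_tree` (one group, births `0`, all
  particles are anchors).
* `dom_line` : `lineM` (one group, no anchors).
* `lintegral_gcE_swap` : Tonelli.
-/

set_option autoImplicit false
open MeasureTheory Set
open scoped Classical ENNReal
open Crest.AnalysisR.Kinetic
noncomputable section

namespace Crest.Agent.R122.LN2

open Crest.Agent.R122.GC311 Crest.Agent.R122.Kin796 Crest.Agent.R122.Kin796.CTree
open Crest.Agent.R122.VL581 Crest.Agent.R122.LinkGas473 Crest.Agent.R122.Tree674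
open Crest.Agent.R122.ToTree335 Crest.Agent.R122.EDefs602

variable {f₀ : PhasePoint → ℝ} {γ : ℝ} {ρ : Space3 → ℝ≥0∞} {C : ℝ≥0∞}

/-! ## Tonelli -/

theorem lintegral_gcE_swap (hf : Measurable f₀) (ε : ℝ) {Θ : Type*} [MeasurableSpace Θ]
    (m : Measure Θ) [SFinite m] {F : (n : ℕ) → Θ → Config n → ℝ≥0∞}
    (hF : ∀ n, Measurable (Function.uncurry (F n))) :
    ∫⁻ x, gcE f₀ ε (fun n Z => F n x Z) ∂m = gcE f₀ ε fun n Z => ∫⁻ x, F n x Z ∂m := by
  unfold gcE
  have h1 : ∀ n, Measurable fun p : Θ × Config n => gcWeight f₀ ε n p.2 * F n p.1 p.2 := fun n =>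
    ((measurable_gcWeight hf ε n).comp measurable_snd).mul (hF n)
  have h2 : ∀ n, Measurable fun x : Θ => ∫⁻ Z : Config n, gcWeight f₀ ε n Z * F n x Z := fun n =>
    (h1 n).lintegral_prod_right'
  rw [lintegral_const_mul _ (Measurable.tsum fun n => (h2 n).const_mul _),
    lintegral_tsum fun n => ((h2 n).const_mul _).aemeasurable]
  congr 1
  refine tsum_congr fun n => ?_
  rw [lintegral_const_mul _ (h2 n)]
  congr 1
  rw [lintegral_lintegral_swap (f := fun (x : Θ) (Z : Config n) => gcWeight f₀ ε n Z * F n x Z)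
    (h1 n).aemeasurable]
  refine lintegral_congr fun Z => ?_
  exact lintegral_const_mul _ ((hF n).comp (measurable_id.prodMk measurable_const))

/-! ## Operations -/

section ops

variable {κ : Type} [Fintype κ] {ε : ℝ} {s : ℕ} {A₀ : Finset κ} {c : ℝ≥0∞} {Λ : Measure (κ → ℝ)}
  {Θ : Type} [MeasurableSpace Θ] {m : Measure Θ} {b : Θ → κ → ℝ} {z : Θ → κ → PhasePoint}


/-- Exponential weight in the velocities. -/
def expW (a : ℝ) {κ : Type} [Fintype κ] (z : κ → PhasePoint) : ℝ≥0∞ :=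
  ∏ j, ENNReal.ofReal (Real.exp (a * ‖(z j).2‖ ^ 2))

theorem measurable_expW (a : ℝ) : Measurable (expW a (κ := κ)) := by
  unfold expW
  refine Finset.measurable_prod _ fun j _ => ?_
  have : Measurable fun z : κ → PhasePoint => a * ‖(z j).2‖ ^ 2 :=
    measurable_const.mul ((measurable_pi_apply j).snd.norm.pow_const 2)
  exact (Real.measurable_exp.comp this).ennreal_ofReal

theorem wgtA_mul_expW (a : ℝ) (z : κ → PhasePoint) :
    wgtA γ ρ A₀ z * expW a z = wgtA (γ - a) ρ A₀ z := by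
  unfold wgtA expW
  rw [mul_assoc, ← Finset.prod_mul_distrib]
  congr 1
  refine Finset.prod_congr rfl fun j _ => ?_
  unfold wG
  rw [← ENNReal.ofReal_mul (Real.exp_pos _).le, ← Real.exp_add]
  congr 2
  ring

/-- Exponential velocity weights can be added to the structure measure. -/
theorem Dom.weight (h : Dom γ ρ ε s A₀ c Λ m b z) (a : ℝ) {W : Θ → ℝ≥0∞}
    {c' : ℝ≥0∞} (hW : Measurable W) (hle : ∀ θ, W θ ≤ c' * expW a (z θ)) (hc' : c' ≠ ∞) :
    Dom (γ - a) ρ ε s A₀ (c' * c) Λ (m.withDensity W) b z where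
  mb := h.mb
  mz := h.mz
  le F hF := by
    have hFm : Measurable fun θ => F (b θ, z θ) := hF.comp (h.mb.prodMk h.mz)
    calc ENNReal.ofReal (ε ^ 2) ^ (Fintype.card κ - s) * ∫⁻ θ, F (b θ, z θ) ∂(m.withDensity W)
        = ENNReal.ofReal (ε ^ 2) ^ (Fintype.card κ - s) * ∫⁻ θ, W θ * F (b θ, z θ) ∂m := by
          rw [lintegral_withDensity_eq_lintegral_mul _ hW hFm]
          rfl
      _ ≤ ENNReal.ofReal (ε ^ 2) ^ (Fintype.card κ - s) *
          (c' * ∫⁻ θ, expW a (z θ) * F (b θ, z θ) ∂m) := by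
          rw [← lintegral_const_mul' _ _ hc']
          refine mul_le_mul_right (lintegral_mono fun θ => ?_) _
          rw [← mul_assoc]
          exact mul_le_mul_left (hle θ) _
      _ = c' * (ENNReal.ofReal (ε ^ 2) ^ (Fintype.card κ - s) *
          ∫⁻ θ, (fun q : (κ → ℝ) × (κ → PhasePoint) => expW a q.2 * F q) (b θ, z θ) ∂m) := by
          ring
      _ ≤ c' * (c * ∫⁻ b, (∫⁻ z, wgtA γ ρ A₀ z *
          (fun q : (κ → ℝ) × (κ → PhasePoint) => expW a q.2 * F q) (b, z)) ∂Λ) :=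
          mul_le_mul_right (h.le _ (((measurable_expW a).comp measurable_snd).mul hF)) _
      _ = (c' * c) * ∫⁻ b, (∫⁻ z, wgtA (γ - a) ρ A₀ z * F (b, z)) ∂Λ := by
          rw [mul_assoc]
          congr 2
          refine lintegral_congr fun b => lintegral_congr fun z => ?_
          simp only
          rw [← mul_assoc, wgtA_mul_expW]

end ops

/-! ## Products -/

section prod

variable {κ₁ κ₂ : Type} [Fintype κ₁] [Fintype κ₂] {ε : ℝ} {s₁ s₂ : ℕ} {A₁ : Finset κ₁}
  {A₂ : Finset κ₂} {c₁ c₂ : ℝ≥0∞} {Λ₁ : Measure (κ₁ → ℝ)} {Λ₂ : Measure (κ₂ → ℝ)}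
  {Θ₁ Θ₂ : Type} [MeasurableSpace Θ₁] [MeasurableSpace Θ₂] {m₁ : Measure Θ₁} {m₂ : Measure Θ₂}
  {b₁ : Θ₁ → κ₁ → ℝ} {b₂ : Θ₂ → κ₂ → ℝ} {z₁ : Θ₁ → κ₁ → PhasePoint} {z₂ : Θ₂ → κ₂ → PhasePoint}

theorem wgtA_disjSum (z : κ₁ → PhasePoint) (z' : κ₂ → PhasePoint) :
    wgtA γ ρ (A₁.disjSum A₂) (Sum.elim z z') = wgtA γ ρ A₁ z * wgtA γ ρ A₂ z' := by
  unfold wgtA
  rw [Finset.prod_disjSum, Fintype.prod_sum_type]
  simp only [Sum.elim_inl, Sum.elim_inr]
  ring

/-- Law of the births of a product. -/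
def prodΛ (Λ₁ : Measure (κ₁ → ℝ)) (Λ₂ : Measure (κ₂ → ℝ)) : Measure (κ₁ ⊕ κ₂ → ℝ) :=
  (Λ₁.prod Λ₂).map fun p => Sum.elim p.1 p.2

instance [IsFiniteMeasure Λ₁] [IsFiniteMeasure Λ₂] : IsFiniteMeasure (prodΛ Λ₁ Λ₂) := by
  unfold prodΛ
  infer_instance

/-- **Products of dominated structures.** -/
theorem Dom.prod [SFinite m₁] [SFinite m₂] [SFinite Λ₁] [SFinite Λ₂] (hρ : Measurable ρ)
    (h₁ : Dom γ ρ ε s₁ A₁ c₁ Λ₁ m₁ b₁ z₁) (h₂ : Dom γ ρ ε s₂ A₂ c₂ Λ₂ m₂ b₂ z₂)
    (hs₁ : s₁ ≤ Fintype.card κ₁) (hs₂ : s₂ ≤ Fintype.card κ₂) :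
    Dom γ ρ ε (s₁ + s₂) (A₁.disjSum A₂) (c₁ * c₂) (prodΛ Λ₁ Λ₂) (m₁.prod m₂)
      (fun θ => Sum.elim (b₁ θ.1) (b₂ θ.2)) (fun θ => Sum.elim (z₁ θ.1) (z₂ θ.2)) where
  mb := measurable_sumElim.comp ((h₁.mb.comp measurable_fst).prodMk (h₂.mb.comp measurable_snd))
  mz := measurable_sumElim.comp ((h₁.mz.comp measurable_fst).prodMk (h₂.mz.comp measurable_snd))
  le F hF := by
    set a : ℝ≥0∞ := ENNReal.ofReal (ε ^ 2) with ha
    have hcard : Fintype.card (κ₁ ⊕ κ₂) - (s₁ + s₂) =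
        (Fintype.card κ₁ - s₁) + (Fintype.card κ₂ - s₂) := by
      rw [Fintype.card_sum]; omega
    -- the functional with split arguments
    set G : ((κ₁ → ℝ) × (κ₁ → PhasePoint)) × ((κ₂ → ℝ) × (κ₂ → PhasePoint)) → ℝ≥0∞ :=
      fun q => F (Sum.elim q.1.1 q.2.1, Sum.elim q.1.2 q.2.2) with hG
    have hGm : Measurable G := hF.comp
      ((measurable_sumElim.comp (measurable_fst.fst.prodMk measurable_snd.fst)).prodMk
        (measurable_sumElim.comp (measurable_fst.snd.prodMk measurable_snd.snd)))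
    have hw₂ : Measurable fun q : ((κ₁ → ℝ) × (κ₁ → PhasePoint)) × ((κ₂ → ℝ) × (κ₂ → PhasePoint)) =>
        wgtA γ ρ A₂ q.2.2 * G q := ((measurable_wgtA hρ A₂).comp measurable_snd.snd).mul hGm
    set F₁ : (κ₁ → ℝ) × (κ₁ → PhasePoint) → ℝ≥0∞ := fun q =>
      ∫⁻ b, (∫⁻ z, wgtA γ ρ A₂ z * G (q, (b, z))) ∂Λ₂ with hF₁
    have hin : Measurable fun p : ((κ₁ → ℝ) × (κ₁ → PhasePoint)) × (κ₂ → ℝ) =>
        ∫⁻ z, wgtA γ ρ A₂ z * G (p.1, (p.2, z)) := by
      have h3 : Measurable fun p : (((κ₁ → ℝ) × (κ₁ → PhasePoint)) × (κ₂ → ℝ)) ×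
          (κ₂ → PhasePoint) => wgtA γ ρ A₂ p.2 * G (p.1.1, (p.1.2, p.2)) :=
        hw₂.comp (measurable_fst.fst.prodMk (measurable_fst.snd.prodMk measurable_snd))
      exact h3.lintegral_prod_right'
    have hF₁m : Measurable F₁ := hin.lintegral_prod_right'
    have hmeas : Measurable fun θ : Θ₁ × Θ₂ =>
        F (Sum.elim (b₁ θ.1) (b₂ θ.2), Sum.elim (z₁ θ.1) (z₂ θ.2)) :=
      hGm.comp (((h₁.mb.comp measurable_fst).prodMk (h₁.mz.comp measurable_fst)).prodMk
        ((h₂.mb.comp measurable_snd).prodMk (h₂.mz.comp measurable_snd)))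
    calc a ^ (Fintype.card (κ₁ ⊕ κ₂) - (s₁ + s₂)) * ∫⁻ θ : Θ₁ × Θ₂,
          F (Sum.elim (b₁ θ.1) (b₂ θ.2), Sum.elim (z₁ θ.1) (z₂ θ.2)) ∂(m₁.prod m₂)
        = a ^ (Fintype.card κ₁ - s₁) * ∫⁻ θ₁, (a ^ (Fintype.card κ₂ - s₂) *
            ∫⁻ θ₂, G ((b₁ θ₁, z₁ θ₁), (b₂ θ₂, z₂ θ₂)) ∂m₂) ∂m₁ := by
          rw [hcard, pow_add, lintegral_prod _ hmeas.aemeasurable,
            lintegral_const_mul' _ _ (ENNReal.pow_ne_top ENNReal.ofReal_ne_top), mul_assoc]
      _ ≤ a ^ (Fintype.card κ₁ - s₁) * ∫⁻ θ₁, (c₂ * F₁ (b₁ θ₁, z₁ θ₁)) ∂m₁ := by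
          refine mul_le_mul_right (lintegral_mono fun θ₁ => ?_) _
          exact h₂.le (fun p => G ((b₁ θ₁, z₁ θ₁), p))
            (hGm.comp (measurable_const.prodMk measurable_id))
      _ ≤ c₁ * ∫⁻ b, (∫⁻ z, wgtA γ ρ A₁ z * (c₂ * F₁ (b, z))) ∂Λ₁ :=
          h₁.le (fun q => c₂ * F₁ q) (hF₁m.const_mul c₂)
      _ = (c₁ * c₂) * ∫⁻ b, (∫⁻ z, wgtA γ ρ A₁ z * F₁ (b, z)) ∂Λ₁ := by
          have hm1 : Measurable fun p : (κ₁ → ℝ) × (κ₁ → PhasePoint) =>
              wgtA γ ρ A₁ p.2 * F₁ p := ((measurable_wgtA hρ A₁).comp measurable_snd).mul hF₁m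
          have e1 : ∀ b : κ₁ → ℝ, ∫⁻ z, wgtA γ ρ A₁ z * (c₂ * F₁ (b, z)) =
              c₂ * ∫⁻ z, wgtA γ ρ A₁ z * F₁ (b, z) := by
            intro b
            have hmz : Measurable fun z : κ₁ → PhasePoint => wgtA γ ρ A₁ z * F₁ (b, z) :=
              hm1.comp (measurable_const.prodMk measurable_id)
            rw [← lintegral_const_mul _ hmz]
            refine lintegral_congr fun z => ?_
            ring
          simp only [e1]
          rw [lintegral_const_mul _ hm1.lintegral_prod_right', mul_assoc]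
      _ = (c₁ * c₂) * ∫⁻ b, (∫⁻ z, wgtA γ ρ (A₁.disjSum A₂) z * F (b, z)) ∂(prodΛ Λ₁ Λ₂) := by
          congr 1
          unfold prodΛ
          have hWm : Measurable fun p : (κ₁ ⊕ κ₂ → ℝ) × (κ₁ ⊕ κ₂ → PhasePoint) =>
              wgtA γ ρ (A₁.disjSum A₂) p.2 * F p :=
            ((measurable_wgtA hρ _).comp measurable_snd).mul hF
          have hOut : Measurable fun b : κ₁ ⊕ κ₂ → ℝ =>
              ∫⁻ z, wgtA γ ρ (A₁.disjSum A₂) z * F (b, z) := hWm.lintegral_prod_right'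
          have hcm : Measurable fun p : (κ₁ → ℝ) × (κ₂ → ℝ) =>
              ∫⁻ z, wgtA γ ρ (A₁.disjSum A₂) z * F (Sum.elim p.1 p.2, z) :=
            hOut.comp measurable_sumElim
          rw [lintegral_map hOut measurable_sumElim, lintegral_prod _ hcm.aemeasurable]
          refine lintegral_congr fun b₁' => ?_
          have e2 : ∀ b₂' : κ₂ → ℝ, ∫⁻ z : κ₁ ⊕ κ₂ → PhasePoint,
              wgtA γ ρ (A₁.disjSum A₂) z * F (Sum.elim b₁' b₂', z) =
              ∫⁻ z : κ₁ → PhasePoint, wgtA γ ρ A₁ z *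
                ∫⁻ z' : κ₂ → PhasePoint, wgtA γ ρ A₂ z' * G ((b₁', z), (b₂', z')) := by
            intro b₂'
            rw [lintegral_sum_type (fun z => wgtA γ ρ (A₁.disjSum A₂) z * F (Sum.elim b₁' b₂', z))
              (hWm.comp (measurable_const.prodMk measurable_id))]
            refine lintegral_congr fun z => ?_
            rw [← lintegral_const_mul]
            · refine lintegral_congr fun z' => ?_
              rw [wgtA_disjSum, mul_assoc]
            · exact hw₂.comp (measurable_const.prodMk (measurable_const.prodMk measurable_id))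
          simp only [e2]
          have hm4 : Measurable fun p : (κ₂ → ℝ) × (κ₁ → PhasePoint) => wgtA γ ρ A₁ p.2 *
              ∫⁻ z' : κ₂ → PhasePoint, wgtA γ ρ A₂ z' * G ((b₁', p.2), (p.1, z')) :=
            ((measurable_wgtA hρ A₁).comp measurable_snd).mul
              (hin.comp ((measurable_const.prodMk measurable_snd).prodMk measurable_fst))
          rw [lintegral_lintegral_swap hm4.aemeasurable]
          refine lintegral_congr fun z => ?_
          rw [lintegral_const_mul]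
          exact hin.comp ((measurable_const.prodMk measurable_const).prodMk measurable_id)

end prod

end Crest.Agent.R122.LN2
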