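import Mathlib
import Crest.Agent.R122.VLDefs_581

-- ▼ part R122/LNgraph_410
section

/-!
# Row 122, LN1, graph part (helper410): counting edges of tree-like contact structures

Everything is finite and elementary: `P : Finset J`, a timed relation `c : J → J → ℝ → Prop`.

* `CutConn P R` : the relation `R` connects `P` (cut condition).
* `card_le_of_cutConn` : edges outside a part `P'` of `P` are at least `|P \ P'|`.
* `TLg P c ℓ ς` : tree-like timed contacts (same data as `VSys.TreeLike`).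
* `TLg.mem_of_cutConn` (G3), `TLg.card_inter_le_one` (G6), `TLg.not_outer_path` (G4),
  `TLg.sub` (restriction to a connected part), `TLg.two_times`, `TLg.far_times` (G2).
-/

set_option autoImplicit false
set_option linter.unusedSectionVars false

open Set

namespace Crest.Agent.R122.LNg410

variable {J : Type*}

/-- The relation `R` connects the finite set `P` (cut condition). -/
def CutConn (P : Finset J) (R : J → J → Prop) : Prop :=
  P.Nonempty ∧ ∀ Q ⊆ P, Q.Nonempty → Q ≠ P → ∃ i ∈ Q, ∃ j ∈ P, j ∉ Q ∧ (R i j ∨ R j i)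

theorem CutConn.mono {P : Finset J} {R R' : J → J → Prop} (h : CutConn P R)
    (hR : ∀ i ∈ P, ∀ j ∈ P, i ≠ j → R i j → R' i j ∨ R' j i) : CutConn P R' := by
  refine ⟨h.1, fun Q hQ hne hneP => ?_⟩
  obtain ⟨i, hi, j, hj, hjQ, hR1 | hR1⟩ := h.2 Q hQ hne hneP
  · exact ⟨i, hi, j, hj, hjQ, hR i (hQ hi) j hj (fun h => hjQ (h ▸ hi)) hR1⟩
  · exact ⟨i, hi, j, hj, hjQ, (hR j hj i (hQ hi) (fun h => hjQ (h ▸ hi)) hR1).symm⟩

theorem cutConn_singleton (i : J) (R : J → J → Prop) : CutConn {i} R := by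
  classical
  refine ⟨Finset.singleton_nonempty i, fun Q hQ hne hneP => absurd ?_ hneP⟩
  exact (Finset.subset_singleton_iff.1 hQ).resolve_left hne.ne_empty

variable [DecidableEq J]

/-- Two connected sets with a common vertex have a connected union. -/
theorem CutConn.union {P Q : Finset J} {R : J → J → Prop} (hP : CutConn P R) (hQ : CutConn Q R)
    (hPQ : (P ∩ Q).Nonempty) : CutConn (P ∪ Q) R := by
  refine ⟨hP.1.mono Finset.subset_union_left, fun A hA hne hneA => ?_⟩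
  obtain ⟨x, hx⟩ := hPQ
  rw [Finset.mem_inter] at hx
  -- a cut of the union cuts `P` or `Q`
  by_cases hAP : (A ∩ P).Nonempty ∧ A ∩ P ≠ P
  · obtain ⟨i, hi, j, hj, hjA, h⟩ := hP.2 (A ∩ P) Finset.inter_subset_right hAP.1 hAP.2
    rw [Finset.mem_inter] at hi
    exact ⟨i, hi.1, j, Finset.mem_union_left _ hj,
      fun h' => hjA (Finset.mem_inter.2 ⟨h', hj⟩), h⟩
  by_cases hAQ : (A ∩ Q).Nonempty ∧ A ∩ Q ≠ Q
  · obtain ⟨i, hi, j, hj, hjA, h⟩ := hQ.2 (A ∩ Q) Finset.inter_subset_right hAQ.1 hAQ.2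
    rw [Finset.mem_inter] at hi
    exact ⟨i, hi.1, j, Finset.mem_union_right _ hj,
      fun h' => hjA (Finset.mem_inter.2 ⟨h', hj⟩), h⟩
  exfalso
  have hP' : A ∩ P = ∅ ∨ A ∩ P = P := by
    by_contra h
    push Not at h
    exact hAP ⟨h.1, h.2⟩
  have hQ' : A ∩ Q = ∅ ∨ A ∩ Q = Q := by
    by_contra h
    push Not at h
    exact hAQ ⟨h.1, h.2⟩
  by_cases hxA : x ∈ A
  · have h1 : A ∩ P = P := hP'.resolve_left fun h =>
      Finset.notMem_empty x (h ▸ Finset.mem_inter.2 ⟨hxA, hx.1⟩)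
    have h2 : A ∩ Q = Q := hQ'.resolve_left fun h =>
      Finset.notMem_empty x (h ▸ Finset.mem_inter.2 ⟨hxA, hx.2⟩)
    refine hneA (Finset.Subset.antisymm hA (Finset.union_subset ?_ ?_))
    · rw [← h1]; exact Finset.inter_subset_left
    · rw [← h2]; exact Finset.inter_subset_left
  · have h1 : A ∩ P = ∅ := hP'.resolve_right fun h =>
      hxA (Finset.mem_inter.1 (h.symm ▸ hx.1 : x ∈ A ∩ P)).1
    have h2 : A ∩ Q = ∅ := hQ'.resolve_right fun h =>
      hxA (Finset.mem_inter.1 (h.symm ▸ hx.2 : x ∈ A ∩ Q)).1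
    obtain ⟨y, hy⟩ := hne
    rcases Finset.mem_union.1 (hA hy) with h | h
    · exact Finset.notMem_empty y (h1 ▸ Finset.mem_inter.2 ⟨hy, h⟩)
    · exact Finset.notMem_empty y (h2 ▸ Finset.mem_inter.2 ⟨hy, h⟩)

/-- Two connected sets joined by one contact have a connected union. -/
theorem CutConn.union_of_edge {P Q : Finset J} {R : J → J → Prop} (hP : CutConn P R)
    (hQ : CutConn Q R) {i j : J} (hi : i ∈ P) (hj : j ∈ Q) (h : R i j ∨ R j i) :
    CutConn (P ∪ Q) R := by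
  have h1 : CutConn (insert j P) R := by
    refine ⟨⟨j, Finset.mem_insert_self j P⟩, fun A hA hne hneA => ?_⟩
    by_cases hjA : j ∈ A
    · by_cases hAP : (A ∩ P).Nonempty
      · by_cases hAP' : A ∩ P = P
        · exfalso
          refine hneA (Finset.Subset.antisymm hA (Finset.insert_subset hjA ?_))
          rw [← hAP']; exact Finset.inter_subset_left
        · obtain ⟨a, ha, b, hb, hbA, hR⟩ := hP.2 (A ∩ P) Finset.inter_subset_right hAP hAP'
          rw [Finset.mem_inter] at ha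
          exact ⟨a, ha.1, b, Finset.mem_insert_of_mem hb,
            fun h' => hbA (Finset.mem_inter.2 ⟨h', hb⟩), hR⟩
      · refine ⟨j, hjA, i, Finset.mem_insert_of_mem hi, fun h' => hAP ⟨i,
          Finset.mem_inter.2 ⟨h', hi⟩⟩, h.symm⟩
    · by_cases hAP : A = P
      · subst hAP
        exact ⟨i, hi, j, Finset.mem_insert_self j A, hjA, h⟩
      · have hAP' : A ⊆ P := fun x hx => (Finset.mem_insert.1 (hA hx)).resolve_left
          fun h' => hjA (h' ▸ hx)
        obtain ⟨a, ha, b, hb, hbA, hR⟩ := hP.2 A hAP' hne hAP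
        exact ⟨a, ha, b, Finset.mem_insert_of_mem hb, hbA, hR⟩
  have h2 := h1.union hQ ⟨j, Finset.mem_inter.2 ⟨Finset.mem_insert_self j P, hj⟩⟩
  have h3 : insert j P ∪ Q = P ∪ Q := by
    ext x
    simp only [Finset.mem_union, Finset.mem_insert]
    constructor
    · rintro ((rfl | h) | h)
      · exact Or.inr hj
      · exact Or.inl h
      · exact Or.inr h
    · rintro (h | h)
      · exact Or.inl (Or.inr h)
      · exact Or.inr h
  rw [h3] at h2
  exact h2

/-- `e` is an edge between two different elements of `P` which is not inside `P'`. -/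
def outE (E : Finset (J × J)) (P' : Finset J) : Finset (J × J) :=
  E.filter fun e => ¬ (e.1 ∈ P' ∧ e.2 ∈ P')

/-- **Counting**: if the edges `E` connect `P`, then at least `|P \ P'|` of them are not inside the
nonempty part `P'`. -/
theorem card_le_outE {P : Finset J} {E : Finset (J × J)}
    (hE : CutConn P fun i j => (i, j) ∈ E) : ∀ (n : ℕ) (P' : Finset J), P' ⊆ P → P'.Nonempty →
      (P \ P').card = n → n ≤ (outE E P').card := by
  intro n
  induction n with
  | zero => intro P' _ _ _; exact Nat.zero_le _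
  | succ n ih =>
    intro P' hP' hne hcard
    have hneP : P' ≠ P := by
      rintro rfl
      simp at hcard
    obtain ⟨i, hi, j, hj, hjP', h⟩ := hE.2 P' hP' hne hneP
    have h1 : insert j P' ⊆ P := Finset.insert_subset hj hP'
    have h2 : (P \ insert j P').card = n := by
      have h3 : P \ insert j P' = (P \ P').erase j := by
        ext x
        simp only [Finset.mem_sdiff, Finset.mem_insert, Finset.mem_erase, not_or]
        tauto
      rw [h3, Finset.card_erase_of_mem (Finset.mem_sdiff.2 ⟨hj, hjP'⟩), hcard]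
      rfl
    have h4 := ih (insert j P') h1 ⟨j, Finset.mem_insert_self j P'⟩ h2
    obtain ⟨e, heE, heP', hein⟩ : ∃ e ∈ E, ¬ (e.1 ∈ P' ∧ e.2 ∈ P') ∧
        (e.1 ∈ insert j P' ∧ e.2 ∈ insert j P') := by
      rcases h with h | h
      · exact ⟨(i, j), h, fun h' => hjP' h'.2, Finset.mem_insert_of_mem hi,
          Finset.mem_insert_self j P'⟩
      · exact ⟨(j, i), h, fun h' => hjP' h'.1, Finset.mem_insert_self j P',
          Finset.mem_insert_of_mem hi⟩
    have h5 : outE E (insert j P') ⊂ outE E P' := by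
      rw [Finset.ssubset_iff_of_subset]
      · refine ⟨e, Finset.mem_filter.2 ⟨heE, heP'⟩, fun h' => (Finset.mem_filter.1 h').2 hein⟩
      · intro e' he'
        rw [outE, Finset.mem_filter] at he' ⊢
        exact ⟨he'.1, fun h' => he'.2 ⟨Finset.mem_insert_of_mem h'.1,
          Finset.mem_insert_of_mem h'.2⟩⟩
    exact Nat.succ_le_of_lt (h4.trans_lt (Finset.card_lt_card h5))

/-- A connected set has at most one more vertex than proper edges. -/
theorem card_le_of_cutConn {P : Finset J} {E : Finset (J × J)}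
    (hE : CutConn P fun i j => (i, j) ∈ E) : P.card ≤ E.card + 1 := by
  obtain ⟨x, hx⟩ := hE.1
  have h1 := card_le_outE hE _ {x} (Finset.singleton_subset_iff.2 hx)
    (Finset.singleton_nonempty x) rfl
  rw [Finset.card_sdiff_of_subset (Finset.singleton_subset_iff.2 hx), Finset.card_singleton] at h1
  have h2 : (outE E {x}).card ≤ E.card := Finset.card_le_card (Finset.filter_subset _ _)
  omega

/-! ## Tree-like timed contacts -/

/-- Tree-like timed contacts: `|P| - 1` edges, one window of half-length `ℓ` for each edge,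
windows separated by `ς`. -/
def TLg (P : Finset J) (c : J → J → ℝ → Prop) (ℓ ς : ℝ) : Prop :=
  ∃ (E : Finset (J × J)) (σ : J × J → ℝ), E.card + 1 = P.card ∧
    (∀ e ∈ E, e.1 ∈ P ∧ e.2 ∈ P ∧ e.1 ≠ e.2) ∧
    (∀ e ∈ E, ∀ e' ∈ E, e ≠ e' → ς < |σ e - σ e'|) ∧
    (∀ i ∈ P, ∀ j ∈ P, i ≠ j → ∀ t, c i j t →
      ∃ e ∈ E, (e = (i, j) ∨ e = (j, i)) ∧ |t - σ e| ≤ ℓ)

variable {P : Finset J} {c : J → J → ℝ → Prop} {ℓ ς : ℝ}

omit [DecidableEq J] in
theorem TLg.mono (h : TLg P c ℓ ς) {c' : J → J → ℝ → Prop}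
    (hc : ∀ i ∈ P, ∀ j ∈ P, i ≠ j → ∀ t, c' i j t → c i j t) : TLg P c' ℓ ς := by
  obtain ⟨E, σ, h1, h2, h3, h4⟩ := h
  exact ⟨E, σ, h1, h2, h3, fun i hi j hj hij t ht => h4 i hi j hj hij t (hc i hi j hj hij t ht)⟩

omit [DecidableEq J] in
theorem TLg.symm_c (h : TLg P c ℓ ς) : TLg P (fun i j t => c i j t ∨ c j i t) ℓ ς := by
  obtain ⟨E, σ, h1, h2, h3, h4⟩ := h
  refine ⟨E, σ, h1, h2, h3, fun i hi j hj hij t ht => ?_⟩
  rcases ht with ht | ht
  · exact h4 i hi j hj hij t ht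
  · obtain ⟨e, he, he', h⟩ := h4 j hj i hi hij.symm t ht
    exact ⟨e, he, he'.symm, h⟩

/-- Edge windows: which edge of the tree an unordered pair is. -/
theorem TLg.two_windows (h : TLg P c ℓ ς) {i j k l : J} {t t' : ℝ}
    (hi : i ∈ P) (hj : j ∈ P) (hij : i ≠ j) (hk : k ∈ P) (hl : l ∈ P) (hkl : k ≠ l)
    (h1 : c i j t) (h2 : c k l t') (htt : |t - t'| ≤ ς - 2 * ℓ) :
    (i = k ∧ j = l) ∨ (i = l ∧ j = k) := by
  obtain ⟨E, σ, hE, hE2, hE3, hE4⟩ := h
  obtain ⟨e, he, he', h3⟩ := hE4 i hi j hj hij t h1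
  obtain ⟨f, hf, hf', h4⟩ := hE4 k hk l hl hkl t' h2
  have hef : e = f := by
    by_contra hne
    have h5 := hE3 e he f hf hne
    have h6 : |σ e - σ f| ≤ |σ e - t| + |t - t'| + |t' - σ f| := by
      have h7 := abs_sub_le (σ e) t (σ f)
      have h8 := abs_sub_le t t' (σ f)
      linarith
    rw [abs_sub_comm (σ e) t] at h6
    linarith
  subst hef
  rcases he' with rfl | rfl <;> rcases hf' with h7 | h7 <;> · rw [Prod.mk.injEq] at h7; tauto

/-- Two contacts of the same pair are within `2 ℓ`, if the pair is contained in `P`. -/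
theorem TLg.two_times (h : TLg P c ℓ ς) {i j : J} {t t' : ℝ}
    (hi : i ∈ P) (hj : j ∈ P) (hij : i ≠ j)
    (hconn : CutConn P fun i j => ∃ t, c i j t) (h1 : c i j t) (h2 : c i j t') :
    |t - t'| ≤ 2 * ℓ := by
  obtain ⟨E, σ, hE, hE2, hE3, hE4⟩ := h
  obtain ⟨e, he, he', h3⟩ := hE4 i hi j hj hij t h1
  obtain ⟨f, hf, hf', h4⟩ := hE4 i hi j hj hij t' h2
  have hef : e = f := by
    -- otherwise both `(i,j)` and `(j,i)` are edges: too many
    by_contra hne
    have hE' : CutConn P fun a b => (a, b) ∈ E.erase f := by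
      refine hconn.mono fun a ha b hb hab hc => ?_
      obtain ⟨t, ht⟩ := hc
      obtain ⟨g, hg, hg', _⟩ := hE4 a ha b hb hab t ht
      by_cases hgf : g = f
      · subst hgf
        -- replace `f` by `e`
        have : ((a, b) = e ∨ (b, a) = e) := by
          rcases he' with rfl | rfl <;> rcases hf' with rfl | rfl <;>
            rcases hg' with h | h <;> simp_all
        rcases this with h | h
        · exact Or.inl (h ▸ Finset.mem_erase.2 ⟨hne, he⟩)
        · exact Or.inr (h ▸ Finset.mem_erase.2 ⟨hne, he⟩)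
      · rcases hg' with rfl | rfl
        · exact Or.inl (Finset.mem_erase.2 ⟨hgf, hg⟩)
        · exact Or.inr (Finset.mem_erase.2 ⟨hgf, hg⟩)
    have h5 := card_le_of_cutConn hE'
    rw [Finset.card_erase_of_mem hf] at h5
    have h6 : 0 < E.card := Finset.card_pos.2 ⟨f, hf⟩
    omega
  subst hef
  have h6 : |t - t'| ≤ |t - σ e| + |t' - σ e| := by
    rw [abs_sub_comm t' (σ e)]
    exact abs_sub_le _ _ _
  linarith

/-- Edges of `E` realised by a relation `F`. -/
def realE (E : Finset (J × J)) (F : J → J → Prop) [DecidableRel F] : Finset (J × J) :=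
  E.filter fun e => F e.1 e.2 ∨ F e.2 e.1

open scoped Classical in
/-- **(G3)** If a family `F` of contacts connects the tree-like set `P`, every contact is in `F`. -/
theorem TLg.mem_of_cutConn (h : TLg P c ℓ ς) {F : J → J → Prop} (hF : CutConn P F)
    (hFc : ∀ i ∈ P, ∀ j ∈ P, i ≠ j → F i j → ∃ t, c i j t ∨ c j i t)
    {j k : J} (hj : j ∈ P) (hk : k ∈ P) (hjk : j ≠ k) {t : ℝ} (hc : c j k t) :
    F j k ∨ F k j := by
  obtain ⟨E, σ, hE, hE2, hE3, hE4⟩ := h.symm_c
  have h1 : CutConn P fun a b => (a, b) ∈ realE E F := by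
    refine hF.mono fun a ha b hb hab hab' => ?_
    obtain ⟨t, ht⟩ := hFc a ha b hb hab hab'
    obtain ⟨g, hg, hg', _⟩ := hE4 a ha b hb hab t ht
    rcases hg' with rfl | rfl
    · exact Or.inl (Finset.mem_filter.2 ⟨hg, Or.inl hab'⟩)
    · exact Or.inr (Finset.mem_filter.2 ⟨hg, Or.inr hab'⟩)
  have h2 := card_le_of_cutConn h1
  have h3 : realE E F = E := by
    refine Finset.eq_of_subset_of_card_le (Finset.filter_subset _ _) ?_
    omega
  obtain ⟨e, he, he', _⟩ := hE4 j hj k hk hjk t (Or.inl hc)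
  rw [← h3] at he
  have h4 := (Finset.mem_filter.1 he).2
  rcases he' with rfl | rfl
  · exact h4
  · exact h4.symm



open scoped Classical in
/-- Restriction of a tree-like structure to a connected part. -/
theorem TLg.sub (h : TLg P c ℓ ς) (hconn : CutConn P fun i j => ∃ t, c i j t)
    {S : Finset J} (hS : S ⊆ P) (hSc : CutConn S fun i j => ∃ t, c i j t) : TLg S c ℓ ς := by
  obtain ⟨E, σ, hE, hE2, hE3, hE4⟩ := h
  set E₁ := E.filter fun e => e.1 ∈ S ∧ e.2 ∈ S with hE₁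
  have c₁ : S.card ≤ E₁.card + 1 := by
    refine card_le_of_cutConn (hSc.mono fun a ha b hb hab hF => ?_)
    obtain ⟨t, ht⟩ := hF
    obtain ⟨g, hg, hg', _⟩ := hE4 a (hS ha) b (hS hb) hab t ht
    rcases hg' with rfl | rfl
    · exact Or.inl (Finset.mem_filter.2 ⟨hg, ha, hb⟩)
    · exact Or.inr (Finset.mem_filter.2 ⟨hg, hb, ha⟩)
  have c₃ : (P \ S).card ≤ (outE E S).card := by
    refine card_le_outE (P := P) (hconn.mono fun a ha b hb hab hF => ?_) _ S hS hSc.1 rfl
    obtain ⟨t, ht⟩ := hF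
    obtain ⟨g, hg, hg', _⟩ := hE4 a ha b hb hab t ht
    rcases hg' with rfl | rfl
    · exact Or.inl hg
    · exact Or.inr hg
  have h4 : E₁.card + (outE E S).card = E.card := by
    rw [hE₁, outE]
    exact Finset.card_filter_add_card_filter_not (s := E) fun e => e.1 ∈ S ∧ e.2 ∈ S
  have h5 : (P \ S).card = P.card - S.card := Finset.card_sdiff_of_subset hS
  have h6 : S.card ≤ P.card := Finset.card_le_card hS
  have h7 : 0 < S.card := Finset.card_pos.2 hSc.1
  refine ⟨E₁, σ, by omega, fun e he => ?_, fun e he e' he' => ?_, fun i hi j hj hij t ht => ?_⟩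
  · have := Finset.mem_filter.1 he
    exact ⟨this.2.1, this.2.2, (hE2 e this.1).2.2⟩
  · exact hE3 e (Finset.mem_filter.1 he).1 e' (Finset.mem_filter.1 he').1
  · obtain ⟨e, he, he', h⟩ := hE4 i (hS hi) j (hS hj) hij t ht
    refine ⟨e, Finset.mem_filter.2 ⟨he, ?_⟩, he', h⟩
    rcases he' with rfl | rfl
    · exact ⟨hi, hj⟩
    · exact ⟨hj, hi⟩

/-! ## Cuts, acyclicity, separation of times -/

/-- **Cut form of acyclicity**: every related pair is the only related pair across some cut. -/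
def CutAcyclic (P : Finset J) (R : J → J → Prop) : Prop :=
  ∀ j ∈ P, ∀ k ∈ P, j ≠ k → R j k → ∃ Q ⊆ P, j ∈ Q ∧ k ∉ Q ∧
    ∀ x ∈ Q, ∀ y ∈ P, y ∉ Q → (R x y ∨ R y x) → x = j ∧ y = k

/-- **Cut form**: a contact of a tree-like connected set is the only contact across some cut. -/
theorem TLg.cut (h : TLg P c ℓ ς) (hconn : CutConn P fun i j => ∃ t, c i j t) :
    CutAcyclic P fun i j => ∃ t, c i j t := by
  intro j hj k hk hjk hc
  obtain ⟨t, hc⟩ := hc
  obtain ⟨E, σ, hE, hE2, hE3, hE4⟩ := h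
  obtain ⟨e, he, he', _⟩ := hE4 j hj k hk hjk t hc
  -- the other edges do not connect `P`
  have h1 : ¬ CutConn P fun a b => (a, b) ∈ E.erase e := by
    intro h1
    have h2 := card_le_of_cutConn h1
    rw [Finset.card_erase_of_mem he] at h2
    have h3 : 0 < E.card := Finset.card_pos.2 ⟨e, he⟩
    omega
  unfold CutConn at h1
  push Not at h1
  obtain ⟨Q, hQ, hne, hneP, hno⟩ := h1 hconn.1
  -- all contacts across `Q` are along `e`
  have h2 : ∀ x ∈ Q, ∀ y ∈ P, y ∉ Q → ((∃ t, c x y t) ∨ ∃ t, c y x t) →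
      (e = (x, y) ∨ e = (y, x)) := by
    intro x hx y hy hyQ hxy
    have hxy' : x ≠ y := fun h => hyQ (h ▸ hx)
    obtain ⟨g, hg, hg'⟩ : ∃ g ∈ E, (g = (x, y) ∨ g = (y, x)) := by
      rcases hxy with ⟨t, ht⟩ | ⟨t, ht⟩
      · obtain ⟨g, hg, hg', _⟩ := hE4 x (hQ hx) y hy hxy' t ht
        exact ⟨g, hg, hg'⟩
      · obtain ⟨g, hg, hg', _⟩ := hE4 y hy x (hQ hx) hxy'.symm t ht
        exact ⟨g, hg, hg'.symm⟩
    have h3 := hno x hx y hy hyQ
    have hge : g = e := by
      by_contra hne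
      rcases hg' with rfl | rfl
      · exact h3.1 (Finset.mem_erase.2 ⟨hne, hg⟩)
      · exact h3.2 (Finset.mem_erase.2 ⟨hne, hg⟩)
    rw [← hge]
    exact hg'
  -- the cut separates `j` and `k`
  obtain ⟨x, hx, y, hy, hyQ, hxy⟩ := hconn.2 Q hQ hne hneP
  have h3 := h2 x hx y hy hyQ hxy
  have h4 : (x = j ∧ y = k) ∨ (x = k ∧ y = j) := by
    rcases he' with rfl | rfl <;> rcases h3 with h3 | h3 <;>
      · rw [Prod.mk.injEq] at h3; obtain ⟨rfl, rfl⟩ := h3; simp
  rcases h4 with ⟨rfl, rfl⟩ | ⟨rfl, rfl⟩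
  · refine ⟨Q, hQ, hx, hyQ, fun a ha b hb hbQ hab => ?_⟩
    have h5 := h2 a ha b hb hbQ hab
    rcases he' with rfl | rfl <;> rcases h5 with h5 | h5 <;>
      · rw [Prod.mk.injEq] at h5
        obtain ⟨h6, h7⟩ := h5
        first
          | exact ⟨h6.symm, h7.symm⟩
          | exact ⟨h7.symm, h6.symm⟩
          | (exfalso; subst h6; subst h7; first | exact hbQ hx | exact hyQ ha | exact hyQ hx)
  · refine ⟨P \ Q, Finset.sdiff_subset, Finset.mem_sdiff.2 ⟨hy, hyQ⟩,
      fun h => (Finset.mem_sdiff.1 h).2 hx, fun a ha b hb hbQ hab => ?_⟩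
    have haQ := (Finset.mem_sdiff.1 ha).2
    have haP := (Finset.mem_sdiff.1 ha).1
    have hbQ' : b ∈ Q := by
      by_contra hb'
      exact hbQ (Finset.mem_sdiff.2 ⟨hb, hb'⟩)
    have h5 := h2 b hbQ' a haP haQ hab.symm
    rcases he' with rfl | rfl <;> rcases h5 with h5 | h5 <;>
      · rw [Prod.mk.injEq] at h5
        obtain ⟨h6, h7⟩ := h5
        first
          | exact ⟨h6.symm, h7.symm⟩
          | exact ⟨h7.symm, h6.symm⟩
          | (exfalso; subst h6; subst h7; first | exact haQ hx | exact hyQ hbQ' | exact hyQ hx)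

/-- The contact graph. -/
def cgraph (P : Finset J) (R : J → J → Prop) : SimpleGraph J where
  Adj i j := i ≠ j ∧ i ∈ P ∧ j ∈ P ∧ (R i j ∨ R j i)
  symm := ⟨fun _ _ h => ⟨h.1.symm, h.2.2.1, h.2.1, h.2.2.2.symm⟩⟩
  loopless := ⟨fun _ h => h.1 rfl⟩

theorem cgraph_adj {P : Finset J} {R : J → J → Prop} {i j : J} :
    (cgraph P R).Adj i j ↔ i ≠ j ∧ i ∈ P ∧ j ∈ P ∧ (R i j ∨ R j i) := Iff.rfl

/-- The cut form implies that the contact graph is acyclic. -/
theorem CutAcyclic.isAcyclic {P : Finset J} {R : J → J → Prop} (h : CutAcyclic P R) :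
    (cgraph P R).IsAcyclic := by
  rw [SimpleGraph.isAcyclic_iff_forall_adj_isBridge]
  have key : ∀ ⦃v w : J⦄, v ≠ w → v ∈ P → w ∈ P → R v w → (cgraph P R).IsBridge s(v, w) := by
    intro v w hvw hv hw hR
    rw [SimpleGraph.isBridge_iff]
    rintro ⟨p⟩
    obtain ⟨Q, hQ, hvQ, hwQ, hcut⟩ := h v hv w hw hvw hR
    obtain ⟨d, hd, hd1, hd2⟩ := p.exists_boundary_dart (Q : Set J) hvQ hwQ
    have hadj := d.adj
    rw [SimpleGraph.deleteEdges_adj] at hadj
    obtain ⟨hadj1, hadj2⟩ := hadj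
    rw [cgraph_adj] at hadj1
    obtain ⟨h1, h2⟩ := hcut d.fst hd1 d.snd hadj1.2.2.1 hd2 hadj1.2.2.2
    refine hadj2 ?_
    rw [h1, h2]
    exact Set.mem_singleton _
  intro v w hadj
  rcases hadj.2.2.2 with h1 | h1
  · exact key hadj.1 hadj.2.1 hadj.2.2.1 h1
  · rw [Sym2.eq_swap]
    exact key hadj.1.symm hadj.2.2.1 hadj.2.1 h1


section cut

variable {R : J → J → Prop}

/-- **(G3)**, cut form: if related pairs `F` connect `P`, every related pair is in `F`. -/
theorem CutAcyclic.mem_of_cutConn (h : CutAcyclic P R) {F : J → J → Prop} (hF : CutConn P F)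
    (hFR : ∀ i ∈ P, ∀ j ∈ P, i ≠ j → F i j → R i j ∨ R j i)
    {j k : J} (hj : j ∈ P) (hk : k ∈ P) (hjk : j ≠ k) (hR : R j k) : F j k ∨ F k j := by
  obtain ⟨Q, hQ, hjQ, hkQ, hcut⟩ := h j hj k hk hjk hR
  obtain ⟨x, hx, y, hy, hyQ, hxy⟩ := hF.2 Q hQ ⟨j, hjQ⟩ fun h' => hkQ (h' ▸ hk)
  have hne : x ≠ y := fun h' => hyQ (h' ▸ hx)
  have h1 : R x y ∨ R y x := by
    rcases hxy with h' | h'
    · exact hFR x (hQ hx) y hy hne h'
    · exact (hFR y hy x (hQ hx) hne.symm h').symm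
  obtain ⟨rfl, rfl⟩ := hcut x hx y hy hyQ h1
  exact hxy



theorem reachable_of_cutConn {S : Finset J} {F : J → J → Prop} (hS : CutConn S F) {u v : J}
    (hu : u ∈ S) (hv : v ∈ S) : (cgraph S F).Reachable u v := by
  classical
  by_contra hno
  set Q := S.filter fun x => (cgraph S F).Reachable u x with hQ
  obtain ⟨x, hx, y, hy, hyQ, hxy⟩ := hS.2 Q (Finset.filter_subset _ _)
    ⟨u, Finset.mem_filter.2 ⟨hu, SimpleGraph.Reachable.refl u⟩⟩
    (fun h' => hno (by
      have : v ∈ Q := h'.symm ▸ hv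
      exact (Finset.mem_filter.1 this).2))
  rw [hQ, Finset.mem_filter] at hx
  have hne : x ≠ y := by
    rintro rfl
    exact hyQ (Finset.mem_filter.2 hx)
  have hadj : (cgraph S F).Adj x y := ⟨hne, hx.1, hy, hxy⟩
  exact hyQ (Finset.mem_filter.2 ⟨hy, hx.2.trans hadj.reachable⟩)

/-- **(G6)**, cut form: two connected parts with disjoint edge sets have at most one common
vertex. -/
theorem CutAcyclic.inter_subsingleton (h : CutAcyclic P R) {P₁ P₂ : Finset J} (hP₁ : P₁ ⊆ P)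
    (hP₂ : P₂ ⊆ P) {F₁ F₂ : J → J → Prop} (h₁ : CutConn P₁ F₁) (h₂ : CutConn P₂ F₂)
    (hF₁ : ∀ i ∈ P₁, ∀ j ∈ P₁, i ≠ j → F₁ i j → R i j ∨ R j i)
    (hF₂ : ∀ i ∈ P₂, ∀ j ∈ P₂, i ≠ j → F₂ i j → R i j ∨ R j i)
    (hdis : ∀ i ∈ P₁, i ∈ P₂ → ∀ j ∈ P₁, j ∈ P₂ → i ≠ j → (F₁ i j ∨ F₁ j i) →
      ¬ (F₂ i j ∨ F₂ j i))
    {u v : J} (hu₁ : u ∈ P₁) (hu₂ : u ∈ P₂) (hv₁ : v ∈ P₁) (hv₂ : v ∈ P₂) : u = v := by
  by_contra huv
  have hle₁ : cgraph P₁ F₁ ≤ cgraph P R := by
    intro a b hab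
    refine ⟨hab.1, hP₁ hab.2.1, hP₁ hab.2.2.1, ?_⟩
    rcases hab.2.2.2 with h' | h'
    · exact hF₁ a hab.2.1 b hab.2.2.1 hab.1 h'
    · exact (hF₁ b hab.2.2.1 a hab.2.1 hab.1.symm h').symm
  have hle₂ : cgraph P₂ F₂ ≤ cgraph P R := by
    intro a b hab
    refine ⟨hab.1, hP₂ hab.2.1, hP₂ hab.2.2.1, ?_⟩
    rcases hab.2.2.2 with h' | h'
    · exact hF₂ a hab.2.1 b hab.2.2.1 hab.1 h'
    · exact (hF₂ b hab.2.2.1 a hab.2.1 hab.1.symm h').symm
  obtain ⟨p, hp⟩ := (reachable_of_cutConn h₁ hu₁ hv₁).exists_isPath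
  obtain ⟨q, hq⟩ := (reachable_of_cutConn h₂ hu₂ hv₂).exists_isPath
  have hpq := h.isAcyclic.path_unique ⟨p.mapLe hle₁, hp.mapLe hle₁⟩ ⟨q.mapLe hle₂, hq.mapLe hle₂⟩
  have hpq' : p.mapLe hle₁ = q.mapLe hle₂ := congrArg Subtype.val hpq
  have hedges : p.edges = q.edges := by
    rw [← p.edges_mapLe_eq_edges hle₁, ← q.edges_mapLe_eq_edges hle₂, hpq']
  cases p with
  | nil => exact huv rfl
  | @cons _ w _ hadj p' =>
    have hmem : s(u, w) ∈ q.edges := by
      rw [← hedges]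
      simp
    have hadj2 := q.adj_of_mem_edges hmem
    exact hdis u hadj.2.1 hadj2.2.1 w hadj.2.2.1 hadj2.2.2.1 hadj.1 hadj.2.2.2 hadj2.2.2.2

end cut

/-- Tree-like contacts: times of a pair are separated from the times of the other pairs. -/
theorem TLg.sep (h : TLg P c ℓ ς) (hconn : CutConn P fun i j => ∃ t, c i j t) (hℓς : 2 * ℓ ≤ ς)
    {i j k l : J} {t t' t'' : ℝ} (hi : i ∈ P) (hj : j ∈ P) (hij : i ≠ j) (hk : k ∈ P)
    (hl : l ∈ P) (hkl : k ≠ l) (h1 : c i j t) (h2 : c i j t') (h3 : c k l t'') (ht : t ≤ t'')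
    (ht' : t'' ≤ t') : (i = k ∧ j = l) ∨ (i = l ∧ j = k) := by
  obtain ⟨E, σ, hE, hE2, hE3, hE4⟩ := h
  obtain ⟨e, he, he', h4⟩ := hE4 i hi j hj hij t h1
  obtain ⟨e1, he1, he1', h4'⟩ := hE4 i hi j hj hij t' h2
  obtain ⟨f, hf, hf', h5⟩ := hE4 k hk l hl hkl t'' h3
  -- all three windows coincide
  have hlℓ : 0 ≤ ℓ := (abs_nonneg _).trans h4
  have hee1 : e = e1 := by
    by_contra hne
    -- both orientations would be edges
    have hE' : CutConn P fun a b => (a, b) ∈ E.erase e1 := by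
      refine hconn.mono fun a ha b hb hab hc => ?_
      obtain ⟨t, ht⟩ := hc
      obtain ⟨g, hg, hg', _⟩ := hE4 a ha b hb hab t ht
      by_cases hgf : g = e1
      · subst hgf
        have : ((a, b) = e ∨ (b, a) = e) := by
          rcases he' with rfl | rfl <;> rcases he1' with rfl | rfl <;>
            rcases hg' with h | h <;> simp_all
        rcases this with h | h
        · exact Or.inl (h ▸ Finset.mem_erase.2 ⟨hne, he⟩)
        · exact Or.inr (h ▸ Finset.mem_erase.2 ⟨hne, he⟩)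
      · rcases hg' with rfl | rfl
        · exact Or.inl (Finset.mem_erase.2 ⟨hgf, hg⟩)
        · exact Or.inr (Finset.mem_erase.2 ⟨hgf, hg⟩)
    have h5 := card_le_of_cutConn hE'
    rw [Finset.card_erase_of_mem he1] at h5
    have h6 : 0 < E.card := Finset.card_pos.2 ⟨e1, he1⟩
    omega
  subst hee1
  have hef : e = f := by
    by_contra hne
    have h6 := hE3 e he f hf hne
    have h7 : |σ e - σ f| ≤ 2 * ℓ := by
      rw [abs_le] at h4 h4' h5 ⊢
      constructor <;> linarith [h4.1, h4.2, h4'.1, h4'.2, h5.1, h5.2]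
    linarith
  subst hef
  rcases he' with rfl | rfl <;> rcases hf' with h7 | h7 <;> · rw [Prod.mk.injEq] at h7; tauto

end Crest.Agent.R122.LNg410
end

-- ▼ part R122/LNvs_410

/-!
# Row 122, LN1, graph part on the virtual systems of `VLDefs_581` (helper410)

* `vc M C P Z` : timed contact relation `t ∈ [0, T] ∧ VCt C P i j t Z`.
* `conn_iff` : `M.Conn C P Z ↔ CutConn P (∃ t, vc ..)`.
* `tlg_of_treeLike` : `M.TreeLike C ℓ ς P Z → TLg P (vc ..) ℓ ς`.
* `VCt` : symmetry, monotonicity; `Conn` : unions.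
-/

set_option autoImplicit false
set_option linter.unusedSectionVars false

open MeasureTheory Set Filter Topology
open scoped ENNReal NNReal
open Crest.AnalysisR.Kinetic
open Crest.Agent.R122.GIV566 Crest.Agent.R122.VL581

namespace Crest.Agent.R122.LNg410

variable {J κ : Type} [Fintype J] {M : VSys J κ} {C ℓ ς : ℝ} {P Q : Finset J}
  {Z : J → PhasePoint}

/-- Timed virtual contacts in `[0, T]`. -/
def vc (M : VSys J κ) (C : ℝ) (P : Finset J) (Z : J → PhasePoint) (i j : J) (t : ℝ) : Prop :=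
  t ∈ Icc 0 M.T ∧ M.VCt C P i j t Z

theorem ct_symm {A B : Finset J} {k l : κ} {i j : J} {t : ℝ} (h : M.Ct C A k i B l j t Z) :
    M.Ct C B l j A k i t Z :=
  ⟨h.2.1, h.1, h.2.2.2.1, h.2.2.1, h.2.2.2.2.2.1, h.2.2.2.2.1, by
    rw [dist_comm]; exact h.2.2.2.2.2.2⟩

theorem vct_symm {i j : J} {t : ℝ} (h : M.VCt C P i j t Z) : M.VCt C P j i t Z := by
  obtain ⟨A, hA, B, hB, k, l, h⟩ := h
  exact ⟨B, hB, A, hA, l, k, ct_symm h⟩

theorem vct_mono {i j : J} {t : ℝ} (hPQ : P ⊆ Q) (h : M.VCt C P i j t Z) :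
    M.VCt C Q i j t Z := by
  obtain ⟨A, hA, B, hB, k, l, h⟩ := h
  exact ⟨A, hA.trans hPQ, B, hB.trans hPQ, k, l, h⟩


theorem vc_symm {i j : J} {t : ℝ} (h : vc M C P Z i j t) : vc M C P Z j i t :=
  ⟨h.1, vct_symm h.2⟩

theorem vc_mono {i j : J} {t : ℝ} (hPQ : P ⊆ Q) (h : vc M C P Z i j t) : vc M C Q Z i j t :=
  ⟨h.1, vct_mono hPQ h.2⟩

theorem conn_iff : M.Conn C P Z ↔ CutConn P fun i j => ∃ t, vc M C P Z i j t := by
  classical
  constructor
  · rintro ⟨h1, h2⟩
    refine ⟨h1, fun Q hQ hne hneP => ?_⟩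
    obtain ⟨i, hi, j, hj, t, ht, h⟩ := h2 Q hQ hne hneP
    rw [Finset.mem_sdiff] at hj
    exact ⟨i, hi, j, hj.1, hj.2, Or.inl ⟨t, ht, h⟩⟩
  · rintro ⟨h1, h2⟩
    refine ⟨h1, fun Q hQ hne hneP => ?_⟩
    obtain ⟨i, hi, j, hj, hjQ, h | h⟩ := h2 Q hQ hne hneP
    · obtain ⟨t, ht, h⟩ := h
      exact ⟨i, hi, j, Finset.mem_sdiff.2 ⟨hj, hjQ⟩, t, ht, h⟩
    · obtain ⟨t, ht, h⟩ := h
      exact ⟨i, hi, j, Finset.mem_sdiff.2 ⟨hj, hjQ⟩, t, ht, vct_symm h⟩

theorem tlg_of_treeLike (h : M.TreeLike C ℓ ς P Z) : TLg P (vc M C P Z) ℓ ς := by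
  obtain ⟨_, E, σ, h1, h2, _, _, h5, h6⟩ := h
  exact ⟨E, σ, h1, h2, h5, fun i hi j hj hij t ht => h6 i hi j hj hij t ht.1 ht.2⟩




/-- Connectedness of `P` by the contacts of a larger set. -/
theorem cutConn_mono (hPQ : P ⊆ Q) (h : M.Conn C P Z) :
    CutConn P fun i j => ∃ t, vc M C Q Z i j t :=
  (conn_iff.1 h).mono fun _ _ _ _ _ ⟨t, ht⟩ => Or.inl ⟨t, vc_mono hPQ ht⟩

theorem conn_singleton (i : J) : M.Conn C {i} Z := by
  classical
  exact conn_iff.2 (cutConn_singleton i _)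

/-- Two connected sets with a common member. -/
theorem conn_union [DecidableEq J] (hP : M.Conn C P Z) (hQ : M.Conn C Q Z)
    (h : (P ∩ Q).Nonempty) : M.Conn C (P ∪ Q) Z :=
  conn_iff.2 ((cutConn_mono Finset.subset_union_left hP).union
    (cutConn_mono Finset.subset_union_right hQ) h)

/-- Two connected sets with a contact across. -/
theorem conn_union_of_vct [DecidableEq J] (hP : M.Conn C P Z) (hQ : M.Conn C Q Z) {i j : J}
    (hi : i ∈ P) (hj : j ∈ Q) {t : ℝ} (ht : t ∈ Icc 0 M.T) (h : M.VCt C (P ∪ Q) i j t Z) :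
    M.Conn C (P ∪ Q) Z :=
  conn_iff.2 ((cutConn_mono Finset.subset_union_left hP).union_of_edge
    (cutConn_mono Finset.subset_union_right hQ) hi hj (Or.inl ⟨t, ht, h⟩))

/-- A finite union of connected sets, each meeting the first one. -/
theorem conn_biUnion [DecidableEq J] {α : Type*} [DecidableEq α] (s : Finset α)
    {F : α → Finset J} (hP : M.Conn C P Z)
    (hF : ∀ a ∈ s, M.Conn C (F a) Z) (h : ∀ a ∈ s, (P ∩ F a).Nonempty) :
    M.Conn C (P ∪ s.biUnion F) Z := by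
  induction s using Finset.induction_on with
  | empty => simpa using hP
  | insert a s ha ih =>
    have h1 := ih (fun b hb => hF b (Finset.mem_insert_of_mem hb))
      (fun b hb => h b (Finset.mem_insert_of_mem hb))
    have h2 := conn_union h1 (hF a (Finset.mem_insert_self a s)) (by
      obtain ⟨x, hx⟩ := h a (Finset.mem_insert_self a s)
      rw [Finset.mem_inter] at hx
      exact ⟨x, Finset.mem_inter.2 ⟨Finset.mem_union_left _ hx.1, hx.2⟩⟩)
    rw [Finset.biUnion_insert]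
    have h3 : P ∪ s.biUnion F ∪ F a = P ∪ (F a ∪ s.biUnion F) := by
      rw [Finset.union_assoc, Finset.union_comm (s.biUnion F)]
    rwa [h3] at h2


end Crest.Agent.R122.LNg410
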