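import Mathlib
import Crest.Prelude.Def_KineticLimit
import Crest.Agent.R122.VLInstC_442
import Crest.Agent.R122.EInf_879
import Crest.Agent.R122.LNvs_410

-- ▼ part R122/LNBridge_968
section

/-!
# Row 122, LN1: bridge between the virtual systems of `VLDefs_581` and marked worlds (helper968)

`Of M Φ ε W` : the virtual system `M : VSys J κ` (without obstacle) has the potential, the scale and
the births of the marked world `W : MW J`.  The initial data of `M` are `W.z`; the isolated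
sub-world `A` of `W` is `W.comap (Subtype.val : A → J)`.

* `Of.st_eq_of_lw`, `Of.st_eq_path`, `Of.st_eq_path_of_ok` : states of `M` in the sub-world `A` are
  the paths of the sub-world (whenever the sub-world is a world with births, or `ok`).
* `Of.lw_path_of_ok` : the sub-world is a local world with births on `[0, t]` if `ok A t`.
* `Of.ok_iff_path`, `ok_iff_of_births_nonpos` : `ok`.
* `Of.ct_iff`, `Of.vct_iff` : contacts in terms of paths.
* `exists_bad_conn` : if a sub-world is not `ok` there is a connected one with a bad birth.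
* `Pull M' M e` : `M'` is `M` pulled back along an injection `e`; `Pull.st`, `Pull.ok`, `Pull.vct`,
  `Pull.conn`, `Pull.treeLike`, `Pull.treeLike_of`.
-/

set_option autoImplicit false
set_option linter.unusedSectionVars false

open MeasureTheory Set Filter Topology
open scoped NNReal ENNReal
open Crest.AnalysisR.Kinetic
open Crest.Agent.R122.Flow671 Crest.Agent.R122.Loc45 Crest.Agent.R122.Ins45
open Crest.Agent.R122.GIV566 Crest.Agent.R122.VL581 Crest.Agent.R122.VL581.VSys
open Crest.Agent.R122.VLInst442 Crest.Agent.R122.EDefs602 Crest.Agent.R122.LNg410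

noncomputable section

namespace Crest.Agent.R122.LNBridge968

variable {J κ : Type} [Fintype J]

/-! ### Sub-worlds of a marked world -/

/-- `M` is a virtual system (without obstacle) over the marked world `W`. -/
structure Of (M : VSys J κ) (Φ : Space3 → ℝ) (ε : ℝ) (W : MW J) : Prop where
  Φ : M.Φ = Φ
  ε : M.ε = ε
  b : M.b = W.b
  o : M.o = none



/-- The isolated sub-world `A` of a marked world. -/
abbrev sw (W : MW J) (A : Finset J) : MW A := W.comap (Subtype.val : A → J)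

variable {M : VSys J κ} {Φ : Space3 → ℝ} {ε : ℝ} {W : MW J} {A B P : Finset J} {s t : ℝ}

namespace Of

theorem ne (h : Of M Φ ε W) (i : J) : M.o ≠ some i := by
  rw [h.o]
  simp

theorem bb_eq (h : Of M Φ ε W) (i : J) : M.bb i = max (W.b i) 0 := by
  unfold VSys.bb
  rw [h.b]

theorem bb_le_iff (h : Of M Φ ε W) (hs : 0 ≤ s) (i : J) : M.bb i ≤ s ↔ W.b i ≤ s := by
  rw [h.bb_eq]
  exact ⟨fun h => (le_max_left _ _).trans h, fun h => max_le h hs⟩

/-- A local world over the members of `A` is the sub-world `A`. -/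
theorem st_eq_of_lw (h : Of M Φ ε W) (hΦ : AdmissiblePotential Φ) (hε : 0 < ε)
    {X : ℝ → A → PhasePoint} (hX : LWorld Φ ε (fun a : A => W.b a) 0 t X)
    (h0 : ∀ a : A, X 0 a = W.z a) (hs : s ∈ Icc 0 t) (a : A) : M.st A s W.z a = X s a := by
  classical
  obtain ⟨rfl, rfl, hb, ho⟩ := id h
  set f : J → A := fun j => if hj : j ∈ A then ⟨j, hj⟩ else a with hf
  have hfA : ∀ j (hj : j ∈ A), f j = ⟨j, hj⟩ := fun j hj => by simp only [hf]; rw [dif_pos hj]
  have h1 := st_eq_of_lworld (M := M) hΦ hε hX (A := A) (Z := W.z) (f := f)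
    (fun i hi _ j hj _ hij => by
      rw [hfA i hi, hfA j hj] at hij
      exact congrArg Subtype.val hij)
    (fun i hi _ r hr => by
      rw [hfA i hi, h.bb_le_iff hr.1])
    (fun i hi _ => by rw [hfA i hi, h0])
    (fun r _ i _ _ _ k hk _ => absurd (hfA k k.2) (hk k k.2 (h.ne _)))
    s hs a a.2 (h.ne _)
  rw [h1, hfA a a.2]

/-- The states of `M` are the paths of the sub-world if the latter is a world with births. -/
theorem st_eq_path (h : Of M Φ ε W) (hΦ : AdmissiblePotential Φ) (hε : 0 < ε)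
    (hX : BWorld Φ ε (sw W A).b 0 ((sw W A).path Φ ε)) (hs : 0 ≤ s) (a : A) :
    M.st A s W.z a = (sw W A).path Φ ε s a := by
  refine h.st_eq_of_lw hΦ hε (LWorld.of_bworld (T := s) hX) (fun a => ?_) ⟨hs, le_rfl⟩ a
  rw [MW.path_zero hΦ hε]
  rfl





end Of

/-- All births at most `0` (gas, time-`0` structures): `ok` is separation at time `0`. -/
theorem ok_iff_of_births_nonpos {Z : J → PhasePoint} (hb : ∀ i ∈ A, M.b i ≤ 0)
    (ho : ∀ i ∈ A, M.o ≠ some i) (t : ℝ) :
    M.ok A t Z ↔ (0 < t → ∀ i ∈ A, ∀ j ∈ A, i ≠ j → M.ε < dist (Z i).1 (Z j).1) := by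
  have hbb : ∀ i ∈ A, M.bb i = 0 := fun i hi => max_eq_right (hb i hi)
  unfold VSys.ok
  constructor
  · intro hok ht i hi j hj hij
    have h1 := hok i hi (ho i hi) (by rwa [hbb i hi]) j hj (ho j hj) (Ne.symm hij)
      (by rw [hbb i hi, hbb j hj])
    rwa [hbb i hi, st_nonpos M le_rfl, st_nonpos M le_rfl, fl_zero, fl_zero] at h1
  · intro hok i hi _ hbi j hj _ hji _
    rw [hbb i hi] at hbi ⊢
    rw [st_nonpos M le_rfl, st_nonpos M le_rfl, fl_zero, fl_zero]
    exact hok hbi i hi j hj hji.symm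

/-! ### Contacts -/





end Crest.Agent.R122.LNBridge968

end
end

-- ▼ part R122/LNBridge2_968

/-!
# Row 122, LN1: bridge, part 2 (helper968)

* `exists_bad_conn` : if a sub-world is not `ok` there is a connected sub-world with a bad birth.
* `Pull M' M e` : `M'` is `M` pulled back along an injection `e`; `Pull.st`, `Pull.ok`, `Pull.vct`,
  `Pull.conn`, `Pull.treeLike`, `Pull.treeLike_of`.
-/

set_option autoImplicit false
set_option linter.unusedSectionVars false

open MeasureTheory Set Filter Topology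
open scoped NNReal ENNReal
open Crest.AnalysisR.Kinetic
open Crest.Agent.R122.Flow671 Crest.Agent.R122.Loc45 Crest.Agent.R122.Ins45
open Crest.Agent.R122.GIV566 Crest.Agent.R122.VL581 Crest.Agent.R122.VL581.VSys
open Crest.Agent.R122.VLInst442 Crest.Agent.R122.EDefs602 Crest.Agent.R122.LNg410

noncomputable section

namespace Crest.Agent.R122.LNBridge968

variable {J J' κ : Type} [Fintype J] [Fintype J'] {M : VSys J κ} {A B P : Finset J} {s t : ℝ}
  {Z : J → PhasePoint}

/-! ### Bad births -/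



/-! ### Pull back along an injection -/

/-- `M'` is the system `M` seen through the injection `e`. -/
structure Pull (M' : VSys J' κ) (M : VSys J κ) (e : J' ↪ J) : Prop where
  Φ : M'.Φ = M.Φ
  T : M'.T = M.T
  ε : M'.ε = M.ε
  b : ∀ i, M'.b i = M.b (e i)
  o : ∀ i, M'.o = some i ↔ M.o = some (e i)
  S : M'.S = M.S




variable {M' : VSys J' κ} {e : J' ↪ J} {A' B' P' : Finset J'}

namespace Pull

theorem bb (h : Pull M' M e) (i : J') : M'.bb i = M.bb (e i) := by
  unfold VSys.bb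
  rw [h.b]

theorem mem (h : Pull M' M e) {i : J'} : e i ∈ M.mem (A'.map e) t ↔ i ∈ M'.mem A' t := by
  rw [mem_mem, mem_mem, Finset.mem_map', h.bb, ne_eq, ne_eq, h.o i]

/-- States. -/
theorem st (h : Pull M' M e) (hΦ : AdmissiblePotential M.Φ) (hε : 0 < M.ε) {i : J'} (t : ℝ) :
    M.st (A'.map e) t Z (e i) = M'.st A' t (fun k => Z (e k)) i := by
  classical
  by_cases hi : i ∈ M'.mem A' t
  swap
  · rw [st_of_not_mem M (fun h' => hi (h.mem.1 h')), st_of_not_mem M' hi]
  have hi' : e i ∈ M.mem (A'.map e) t := h.mem.2 hi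
  rw [st_of_mem M hi', st_of_mem M' hi]
  unfold ev
  let σ : M'.mem A' t ↪ M.mem (A'.map e) t := ⟨fun j => ⟨e j, h.mem.2 j.2⟩, fun j k hjk =>
    Subtype.ext (e.injective (congrArg Subtype.val hjk))⟩
  have hsurj : ∀ j : M.mem (A'.map e) t, ∃ k, σ k = j := by
    rintro ⟨j, hj⟩
    obtain ⟨k, _, rfl⟩ := Finset.mem_map.1 (mem_mem.1 hj).1
    exact ⟨⟨k, h.mem.1 hj⟩, rfl⟩
  have ht : -1 ≤ t := by
    have h1 := (mem_mem.1 hi).2.2
    have h2 := bb_nonneg M' i
    linarith
  have h1 := evo_emb hΦ hε σ (b := fun j : M.mem (A'.map e) t => M.bb j) ht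
    (fun j hj => by
      obtain ⟨k, hk⟩ := hsurj j
      exact absurd hk (hj k))
    (fun j : M.mem (A'.map e) t => ((Z j).1 - (Z j).2, (Z j).2)) ⟨i, hi⟩
  have h2 : (fun k : M'.mem A' t => M'.bb k) = fun k => M.bb (σ k) := by
    funext k
    exact h.bb k
  rw [h.Φ, h.ε, h2]
  exact h1

theorem ok (h : Pull M' M e) (hΦ : AdmissiblePotential M.Φ) (hε : 0 < M.ε) (t : ℝ) :
    M.ok (A'.map e) t Z ↔ M'.ok A' t (fun k => Z (e k)) := by
  unfold VSys.ok
  constructor
  · intro hok i hi ho hb j hj ho' hji hbj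
    have h1 := hok (e i) (Finset.mem_map_of_mem e hi) (fun h' => ho ((h.o i).2 h'))
      (by rwa [← h.bb]) (e j) (Finset.mem_map_of_mem e hj) (fun h' => ho' ((h.o j).2 h'))
      (fun h' => hji (e.injective h')) (by rwa [← h.bb, ← h.bb])
    rwa [h.st hΦ hε, h.st hΦ hε, ← h.bb, ← h.ε] at h1
  · intro hok i hi ho hb j hj ho' hji hbj
    obtain ⟨i, hi1, rfl⟩ := Finset.mem_map.1 hi
    obtain ⟨j, hj1, rfl⟩ := Finset.mem_map.1 hj
    rw [h.st hΦ hε, h.st hΦ hε, ← h.bb, ← h.ε]
    exact hok i hi1 (fun h' => ho ((h.o i).1 h')) (by rwa [h.bb]) j hj1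
      (fun h' => ho' ((h.o j).1 h')) (fun h' => hji (congrArg e h')) (by rwa [h.bb, h.bb])

theorem pos (h : Pull M' M e) (hΦ : AdmissiblePotential M.Φ) (hε : 0 < M.ε) (k : κ) (t : ℝ)
    {i : J'} : M.pos (A'.map e) k t Z (e i) = M'.pos A' k t (fun k => Z (e k)) i := by
  unfold VSys.pos
  by_cases hi : M'.o = some i
  · rw [if_pos hi, if_pos ((h.o i).1 hi), h.S, h.T]
  · rw [if_neg hi, if_neg fun h' => hi ((h.o i).2 h'), h.st hΦ hε]

theorem ct (h : Pull M' M e) (hΦ : AdmissiblePotential M.Φ) (hε : 0 < M.ε) {C : ℝ} {k l : κ}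
    {i j : J'} : M.Ct C (A'.map e) k (e i) (B'.map e) l (e j) t Z ↔
      M'.Ct C A' k i B' l j t (fun k => Z (e k)) := by
  unfold VSys.Ct
  rw [Finset.mem_map', Finset.mem_map', h.ok hΦ hε, h.ok hΦ hε, h.pos hΦ hε, h.pos hΦ hε,
    h.ε, h.S, h.o, h.o]

theorem vct (h : Pull M' M e) (hΦ : AdmissiblePotential M.Φ) (hε : 0 < M.ε) {C : ℝ} {i j : J'} :
    M.VCt C (P'.map e) (e i) (e j) t Z ↔ M'.VCt C P' i j t (fun k => Z (e k)) := by
  unfold VSys.VCt
  constructor
  · rintro ⟨A, hA, B, hB, k, l, hc⟩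
    obtain ⟨A', hA', rfl⟩ := Finset.subset_map_iff.1 hA
    obtain ⟨B', hB', rfl⟩ := Finset.subset_map_iff.1 hB
    exact ⟨A', hA', B', hB', k, l, (h.ct hΦ hε).1 hc⟩
  · rintro ⟨A', hA', B', hB', k, l, hc⟩
    exact ⟨A'.map e, Finset.map_subset_map.2 hA', B'.map e, Finset.map_subset_map.2 hB', k, l,
      (h.ct hΦ hε).2 hc⟩

theorem conn (h : Pull M' M e) (hΦ : AdmissiblePotential M.Φ) (hε : 0 < M.ε) {C : ℝ} :
    M.Conn C (P'.map e) Z ↔ M'.Conn C P' (fun k => Z (e k)) := by
  classical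
  unfold VSys.Conn
  constructor
  · rintro ⟨hne, hc⟩
    refine ⟨Finset.map_nonempty.1 hne, fun Q hQ hQne hQP => ?_⟩
    obtain ⟨i, hi, j, hj, t, ht, hv⟩ := hc (Q.map e) (Finset.map_subset_map.2 hQ)
      (Finset.map_nonempty.2 hQne) (fun h' => hQP (Finset.map_injective e h'))
    obtain ⟨i, hi', rfl⟩ := Finset.mem_map.1 hi
    rw [Finset.mem_sdiff] at hj
    obtain ⟨j, hj', rfl⟩ := Finset.mem_map.1 hj.1
    refine ⟨i, hi', j, Finset.mem_sdiff.2 ⟨hj', fun h' => hj.2 (Finset.mem_map_of_mem e h')⟩, t,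
      by rwa [h.T], (h.vct hΦ hε).1 hv⟩
  · rintro ⟨hne, hc⟩
    refine ⟨Finset.map_nonempty.2 hne, fun Q hQ hQne hQP => ?_⟩
    obtain ⟨Q, hQ', rfl⟩ := Finset.subset_map_iff.1 hQ
    obtain ⟨i, hi, j, hj, t, ht, hv⟩ := hc Q hQ' (Finset.map_nonempty.1 hQne)
      (fun h' => hQP (by rw [h']))
    rw [Finset.mem_sdiff] at hj
    refine ⟨e i, Finset.mem_map_of_mem e hi, e j, Finset.mem_sdiff.2
      ⟨Finset.mem_map_of_mem e hj.1, fun h' => hj.2 ((Finset.mem_map' e).1 h')⟩, t,
      by rwa [h.T] at ht, (h.vct hΦ hε).2 hv⟩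




end Pull


end Crest.Agent.R122.LNBridge968

end
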