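import Mathlib
import Crest.Prelude.Def_KineticLimit
import Crest.Agent.R122.VLInstD_442

/-!
# Row 122, LN1 (helper491): worlds with an interaction relation, and comparison with sub-worlds

* `IWorld Φ ε I a T X` : paths `X` on `[a, T]`, where `i` feels `j` at time `t` iff `I t i j`
  (real worlds with births, isolated structures, ghosts and a hand-over of an exit are instances).
* `IWorld.to_lworld` : a family `e : κ ↪ ι`, which is at distance at least `ε` from the outsiders
  it interacts with and whose non-interacting alive members are at distance at least `ε`, is a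
  local world with births.
* `IWorld.of_classes`, `IWorld.glue`, `IWorld.of_lworld` : construction.
* `st_lworld_sub` : the paths of a sub-world `V` of a virtual system, restricted to an isolated
  part `G` of `V`.
* `loc` : an isolated group without ghosts, which starts from its state in the sub-world `V`,
  follows the sub-world as long as it is isolated in `V`, too.
-/

set_option autoImplicit false
set_option linter.unusedSectionVars false

open MeasureTheory Set Filter Topology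
open scoped NNReal ENNReal
open Crest.AnalysisR.Kinetic
open Crest.Agent.R122.Flow671 Crest.Agent.R122.Loc45 Crest.Agent.R122.Ins45
open Crest.Agent.R122.VL581 Crest.Agent.R122.VL581.VSys Crest.Agent.R122.VLInst442

noncomputable section

namespace Crest.Agent.R122.LNInst491

/-! ### Limits from the right -/

/-- If two paths are at distance more than `ε` at times arbitrarily close to `t` on the right, they
are at distance at least `ε` at time `t`. -/
theorem le_dist_of_frequently {ε t T : ℝ} {x y : ℝ → Space3} (ht : t < T)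
    (hx : ContinuousWithinAt x (Icc t T) t) (hy : ContinuousWithinAt y (Icc t T) t)
    (h : ∃ᶠ s in 𝓝[>] t, ε ≤ dist (x s) (y s)) : ε ≤ dist (x t) (y t) := by
  have h1 : Tendsto (fun s => dist (x s) (y s)) (𝓝[Icc t T] t) (𝓝 (dist (x t) (y t))) :=
    hx.dist hy
  have h2 : 𝓝[>] t ≤ 𝓝[Icc t T] t := by
    refine nhdsWithin_le_of_mem ?_
    refine mem_of_superset (Ioc_mem_nhdsGT ht) fun s hs => ⟨hs.1.le, hs.2⟩
  exact ge_of_tendsto_of_frequently (h1.mono_left h2) h

/-! ### Worlds with an interaction relation -/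

/-- Force term, switched on by `p`. -/
def frc (Φ : Space3 → ℝ) (p : Prop) (u : Space3) : Space3 :=
  haveI := Classical.propDecidable p
  if p then gradient Φ u else 0

theorem frc_pos (Φ : Space3 → ℝ) {p : Prop} (h : p) (u : Space3) :
    frc Φ p u = gradient Φ u := by
  unfold frc
  rw [if_pos h]

theorem frc_neg (Φ : Space3 → ℝ) {p : Prop} (h : ¬ p) (u : Space3) : frc Φ p u = 0 := by
  unfold frc
  rw [if_neg h]

theorem frc_zero (Φ : Space3 → ℝ) (p : Prop) {u : Space3} (h : gradient Φ u = 0) :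
    frc Φ p u = 0 := by
  by_cases hp : p
  · rw [frc_pos Φ hp, h]
  · rw [frc_neg Φ hp]

theorem frc_congr (Φ : Space3 → ℝ) {p q : Prop} (h : p ↔ q) (u : Space3) :
    frc Φ p u = frc Φ q u := by
  rw [propext h]

variable {ι κ : Type*} [Fintype ι] [Fintype κ] {Φ : Space3 → ℝ} {ε : ℝ}

theorem bf_eq_frc (b : ι → ℝ) (t : ℝ) (Z : ι → PhasePoint) (i : ι) :
    bf Φ ε b t Z i = ((Z i).2, -(1 / ε) • ∑ j, frc Φ (b i ≤ t ∧ b j ≤ t)
      ((1 / ε) • ((Z i).1 - (Z j).1))) := by
  unfold bf
  by_cases hi : b i ≤ t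
  · rw [if_pos hi]
    congr 2
    refine Finset.sum_congr rfl fun j _ => ?_
    by_cases hj : b j ≤ t
    · rw [if_pos hj, frc_pos Φ ⟨hi, hj⟩]
    · rw [if_neg hj, frc_neg Φ fun h => hj h.2]
  · rw [if_neg hi]
    congr 1
    rw [Finset.sum_eq_zero fun j _ => frc_neg Φ (fun h => hi h.1) _, smul_zero]

/-- A world on `[a, T]` in which `i` feels `j` at time `t` iff `I t i j`. -/
structure IWorld (Φ : Space3 → ℝ) (ε : ℝ) (I : ℝ → ι → ι → Prop) (a T : ℝ)
    (X : ℝ → ι → PhasePoint) : Prop where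
  cont : ContinuousOn X (Icc a T)
  der : ∀ t ∈ Ico a T, ∀ i, HasDerivWithinAt (fun s => X s i)
    ((X t i).2, -(1 / ε) • ∑ j, frc Φ (I t i j) ((1 / ε) • ((X t i).1 - (X t j).1))) (Ici t) t
  dom : ∀ t ∈ Ico a T, ContDiff ℝ 2 Φ ∨ ∀ i j, i ≠ j → I t i j → (X t i).1 ≠ (X t j).1

namespace IWorld

variable {I : ℝ → ι → ι → Prop} {a T : ℝ} {X : ℝ → ι → PhasePoint}

theorem cont_apply (h : IWorld Φ ε I a T X) (i : ι) : ContinuousOn (fun t => X t i) (Icc a T) :=
  continuousOn_pi.1 h.cont i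

theorem mono (h : IWorld Φ ε I a T X) {a' T' : ℝ} (ha : a ≤ a') (hT : T' ≤ T) :
    IWorld Φ ε I a' T' X where
  cont := h.cont.mono (Icc_subset_Icc ha hT)
  der t ht := h.der t ⟨ha.trans ht.1, ht.2.trans_le hT⟩
  dom t ht := h.dom t ⟨ha.trans ht.1, ht.2.trans_le hT⟩

theorem congr (h : IWorld Φ ε I a T X) {X' : ℝ → ι → PhasePoint}
    (he : ∀ t ∈ Icc a T, ∀ i, X' t i = X t i) : IWorld Φ ε I a T X' where
  cont := h.cont.congr fun t ht => funext fun i => he t ht i
  der t ht i := by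
    have h0 : ∀ j, X' t j = X t j := he t ⟨ht.1, ht.2.le⟩
    simp only [h0]
    refine (h.der t ht i).congr_of_eventuallyEq ?_ (h0 i)
    filter_upwards [Icc_mem_nhdsGE ht.2] with u hu
    exact he u ⟨ht.1.trans hu.1, hu.2⟩ i
  dom t ht := by
    have h0 : ∀ j, X' t j = X t j := he t ⟨ht.1, ht.2.le⟩
    simp only [h0]
    exact h.dom t ht


/-- Local worlds with births are worlds with interaction relation. -/
theorem of_lworld {b : ι → ℝ} (h : LWorld Φ ε b a T X) :
    IWorld Φ ε (fun t i j => b i ≤ t ∧ b j ≤ t) a T X where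
  cont := h.cont
  der t ht i := by
    have h1 := (hasDerivWithinAt_pi.1 (h.der t ht)) i
    rwa [bf_eq_frc] at h1
  dom t ht := (h.dom t ht).imp id fun h1 i j hij h2 => h1 i j hij h2.1 h2.2




/-- **Restriction** to a family `e : κ ↪ ι` with births `c`. -/
theorem to_lworld (hΦ : AdmissiblePotential Φ) (hε : 0 < ε) (h : IWorld Φ ε I a T X) (e : κ ↪ ι)
    {c : κ → ℝ}
    (hal : ∀ t ∈ Ico a T, ∀ k l, k ≠ l → I t (e k) (e l) → c k ≤ t ∧ c l ≤ t)
    (hin : ∀ t ∈ Ico a T, ∀ k l, k ≠ l → c k ≤ t → c l ≤ t → ¬ I t (e k) (e l) →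
      ε ≤ dist (X t (e k)).1 (X t (e l)).1)
    (hout : ∀ t ∈ Ico a T, ∀ k, ∀ j, (∀ l, e l ≠ j) → I t (e k) j →
      ε ≤ dist (X t (e k)).1 (X t j).1) :
    LWorld Φ ε c a T (fun t k => X t (e k)) where
  cont := continuousOn_pi.2 fun k => h.cont_apply (e k)
  der t ht := by
    rw [hasDerivWithinAt_pi]
    intro k
    rw [bf_eq_frc]
    have h1 : ∑ j, frc Φ (I t (e k) j) ((1 / ε) • ((X t (e k)).1 - (X t j).1)) =
        ∑ l, frc Φ (c k ≤ t ∧ c l ≤ t) ((1 / ε) • ((X t (e k)).1 - (X t (e l)).1)) := by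
      rw [← Finset.sum_subset (Finset.subset_univ (Finset.univ.map e)), Finset.sum_map]
      · refine Finset.sum_congr rfl fun l _ => ?_
        by_cases hkl : k = l
        · subst hkl
          have h0 : gradient Φ ((1 / ε) • ((X t (e k)).1 - (X t (e k)).1)) = 0 := by
            rw [sub_self, smul_zero, grad_origin hΦ]
          rw [frc_zero Φ _ h0, frc_zero Φ _ h0]
        by_cases h2 : I t (e k) (e l)
        · rw [frc_pos Φ h2, frc_pos Φ (hal t ht k l hkl h2)]
        · rw [frc_neg Φ h2]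
          by_cases h3 : c k ≤ t ∧ c l ≤ t
          · rw [frc_zero Φ _ (grad_far hΦ hε (hin t ht k l hkl h3.1 h3.2 h2))]
          · rw [frc_neg Φ h3]
      · intro j _ hj
        have hj' : ∀ l, e l ≠ j := by
          rintro l rfl
          exact hj (by simp)
        by_cases h2 : I t (e k) j
        · rw [frc_zero Φ _ (grad_far hΦ hε (hout t ht k j hj' h2))]
        · rw [frc_neg Φ h2]
    rw [← h1]
    exact h.der t ht (e k)
  dom t ht := (h.dom t ht).imp id fun h1 k l hkl hk hl => by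
    by_cases h2 : I t (e k) (e l)
    · exact h1 (e k) (e l) (fun h' => hkl (e.injective h')) h2
    · exact ne_of_le_dist hε (hin t ht k l hkl hk hl h2)


end IWorld

/-! ### Parts of sub-worlds of a virtual system -/

variable {J κ' : Type} [Fintype J] {M : VSys J κ'} {Z : J → PhasePoint}

/-- `i` is alive at time `s` together with `j` (one of them strictly before). -/
def Alv (M : VSys J κ') (s : ℝ) (i j : J) : Prop :=
  M.bb i ≤ s ∧ M.bb j ≤ s ∧ (M.bb i < s ∨ M.bb j < s)

theorem Alv.symm {s : ℝ} {i j : J} (h : Alv M s i j) : Alv M s j i := ⟨h.2.1, h.1, h.2.2.symm⟩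

theorem alv_of_lt {s t : ℝ} {i j : J} (hi : M.bb i ≤ t) (hj : M.bb j ≤ t) (h : t < s) :
    Alv M s i j := ⟨hi.trans h.le, hj.trans h.le, Or.inl (hi.trans_lt h)⟩

/-- The paths of the sub-world `V`, restricted to a part `G` of `V` which is isolated in `V`. -/
theorem st_lworld_sub (hΦ : AdmissiblePotential M.Φ) (hε : 0 < M.ε) {V : Finset J} {a b : ℝ}
    (hok : M.ok V b Z) {G : Finset J} (hGV : G ⊆ V) (ho : ∀ k ∈ G, M.o ≠ some k)
    (hfar : ∀ s ∈ Icc a b, ∀ k ∈ G, ∀ l ∈ V, l ∉ G → M.o ≠ some l → Alv M s k l →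
      M.ε < dist (M.st V s Z k).1 (M.st V s Z l).1) :
    LWorld M.Φ M.ε (fun k : G => M.bb k) a b (fun s k => M.st V s Z k) := by
  classical
  have h1 := IWorld.of_lworld (lworld_of_ok hΦ hε hok a)
  have h2 := h1.to_lworld hΦ hε (κ := G) (c := fun k : G => M.bb k)
    (e := ⟨fun k => ⟨k, hGV k.2, ho k k.2⟩, fun k l h =>
      Subtype.ext (congrArg (fun x : Mem M V => (x : J)) h)⟩) (fun t ht k l _ h => h)
    (fun t ht k l _ hk hl h => absurd ⟨hk, hl⟩ h) (fun t ht k j hj h => ?_)
  · exact h2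
  · have hjG : (j : J) ∉ G := fun h' => hj ⟨j, h'⟩ (Subtype.ext rfl)
    have hc1 := h1.cont_apply ⟨(k : J), hGV k.2, ho k k.2⟩
    have hc2 := h1.cont_apply j
    have hmem : t ∈ Icc a b := ⟨ht.1, ht.2.le⟩
    have hsub : Icc t b ⊆ Icc a b := Icc_subset_Icc ht.1 le_rfl
    refine le_dist_of_frequently ht.2 (x := fun s => (M.st V s Z k).1)
      (y := fun s => (M.st V s Z j).1) ((hc1 t hmem).mono hsub).fst
      ((hc2 t hmem).mono hsub).fst ?_
    refine Filter.Eventually.frequently ?_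
    filter_upwards [Ioc_mem_nhdsGT ht.2] with s hs
    exact (hfar s ⟨ht.1.trans hs.1.le, hs.2⟩ k k.2 j j.2.1 hjG j.2.2
      (alv_of_lt h.1 h.2 hs.1)).le

/-- **The `loc` clause**: a group `G` of the world `X` (with interaction relation `R` and its
right-closed version `Rc`), isolated and without ghosts, which starts from its state in the
sub-world `V`, follows the sub-world `V` as long as it is isolated in `V`, too. -/
theorem loc (hΦ : AdmissiblePotential M.Φ) (hε : 0 < M.ε) {R Rc : ℝ → J → J → Prop} {a b : ℝ}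
    {X : ℝ → J → PhasePoint}
    (hX : IWorld M.Φ M.ε (fun t i j => (M.bb i ≤ t ∧ M.bb j ≤ t) ∧ R t i j) a b X)
    (hR : ∀ t ∈ Ico a b, ∀ i j, i ≠ j → ∀ᶠ s in 𝓝[>] t, (Rc s i j ↔ R t i j))
    {G : Finset J} (ho : ∀ k ∈ G, M.o ≠ some k)
    (hiso : ∀ s ∈ Icc a b, ∀ k ∈ G, ∀ l, l ∉ G → Alv M s k l → Rc s k l →
      M.ε < dist (X s k).1 (X s l).1)
    (hng : ∀ s ∈ Icc a b, ∀ k ∈ G, ∀ l ∈ G, k ≠ l → Alv M s k l → ¬ Rc s k l →
      M.ε < dist (X s k).1 (X s l).1)
    {V : Finset J} (hGV : G ⊆ V) (hok : M.ok V b Z)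
    (hV : ∀ s ∈ Icc a b, ∀ k ∈ G, ∀ l ∈ V, l ∉ G → M.o ≠ some l → Alv M s k l →
      M.ε < dist (M.st V s Z k).1 (M.st V s Z l).1)
    (h0 : ∀ k ∈ G, X a k = M.st V a Z k) :
    ∀ s ∈ Icc a b, ∀ k ∈ G, X s k = M.st V s Z k := by
  classical
  have h1 : LWorld M.Φ M.ε (fun k : G => M.bb k) a b (fun s k => X s k) := by
    refine hX.to_lworld hΦ hε (κ := G) (e := Function.Embedding.subtype _)
      (c := fun k : G => M.bb k) (fun t ht k l _ h => h.1) (fun t ht k l hkl hk hl h => ?_)
      (fun t ht k j hj h => ?_)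
    · have hmem : t ∈ Icc a b := ⟨ht.1, ht.2.le⟩
      have hsub : Icc t b ⊆ Icc a b := Icc_subset_Icc ht.1 le_rfl
      have hkl' : (k : J) ≠ l := fun h' => hkl (Subtype.ext h')
      refine le_dist_of_frequently ht.2 (x := fun s => (X s k).1) (y := fun s => (X s l).1)
        ((hX.cont_apply k t hmem).mono hsub).fst ((hX.cont_apply l t hmem).mono hsub).fst ?_
      refine Filter.Eventually.frequently ?_
      filter_upwards [Ioc_mem_nhdsGT ht.2, hR t ht k l hkl'] with s hs hRs
      exact (hng s ⟨ht.1.trans hs.1.le, hs.2⟩ k k.2 l l.2 hkl' (alv_of_lt hk hl hs.1)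
        fun h' => h ⟨⟨hk, hl⟩, hRs.1 h'⟩).le
    · have hmem : t ∈ Icc a b := ⟨ht.1, ht.2.le⟩
      have hsub : Icc t b ⊆ Icc a b := Icc_subset_Icc ht.1 le_rfl
      have hjG : j ∉ G := fun h' => hj ⟨j, h'⟩ rfl
      have hkj : (k : J) ≠ j := fun h' => hjG (h' ▸ k.2)
      refine le_dist_of_frequently ht.2 (x := fun s => (X s k).1) (y := fun s => (X s j).1)
        ((hX.cont_apply k t hmem).mono hsub).fst ((hX.cont_apply j t hmem).mono hsub).fst ?_
      refine Filter.Eventually.frequently ?_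
      filter_upwards [Ioc_mem_nhdsGT ht.2, hR t ht k j hkj] with s hs hRs
      exact (hiso s ⟨ht.1.trans hs.1.le, hs.2⟩ k k.2 j hjG (alv_of_lt h.1.1 h.1.2 hs.1)
        (hRs.2 h.2)).le
  have h2 := st_lworld_sub hΦ hε (a := a) hok hGV ho hV
  intro s hs k hk
  have h3 := h1.unique hΦ hε h2 (funext fun k : G => h0 k k.2) hs
  exact congrFun h3 ⟨k, hk⟩

end Crest.Agent.R122.LNInst491
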