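import Crest.Agent.R122.Pt6_811

/-!
# Row 122, LINK6 (helper796): the error term of inequality 3 is at most a sum of named pieces

* `Gd6` : the structures on which the majorant is asked for (`StmtPt6`).
* `Late6` : the lines of the tree and `d` are not touched before `u = cT + ε R ≤ te`.
* `Near6` : the LINK class part of helper45's `EncEv6` (`cf`, `cfd`, `line`, `lined`).
* `EncM6` : the other part (`pass`, `tau`, `disp`, `gas`, `mem`, `memd`, `nobd`).
* `evHyp`, `evNear R`, `evEnc R` : the bad events on `Gd6`; `fLk6` : the measures of bad test lines.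
* `bd6_le` : `bd6 ≤ 1[evHyp] + 1[evNear R] + 1[evEnc R] + fLk6` for every `R` with `ε R ≤ σ ε`.
-/

set_option autoImplicit false
set_option linter.unusedSectionVars false

open MeasureTheory Set Filter Topology
open scoped ENNReal
open Crest.AnalysisR.Kinetic
open Crest.Agent.R122.Inf879 Crest.Agent.R122.EDefs602
open Crest.Agent.R122.Kin796 Crest.Agent.R122.Kin796.CTree Crest.Agent.R122.Tree674
open Crest.Agent.R122.TreeLines335
open Crest.Agent.R122.Scat818 Crest.Agent.R122.OCout796 Crest.Agent.R122.Ins45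
open Crest.Agent.R122.Boost969 (LSt)
open Crest.Agent.R122.Pair292 (Lab)
open Crest.Agent.R122.OneC285 (lpos cfT rt cT cB cD cX)
open Crest.Agent.R122.E6Hyp879 (E6Hyp)
open Crest.Agent.R122.PairD292 Crest.Agent.R122.Pt6811 Crest.Agent.R122.One796

namespace Crest.Agent.R122.Link6796

noncomputable section

open scoped Classical

/-- The structures on which the majorant is asked for. -/
structure Gd6 (Φ : Space3 → ℝ) (ε : ℝ) (K : ℕ) (Q : EPar) (T' : ℝ) (P : CTree)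
    (z : PhasePoint × Par P) {m : ℕ} (w : Config m) (θ : Lab × LSt) : Prop where
  small : (eL θ).2 + P.leaves ≤ K
  real : Real6 Φ ε K Q.te T' P z w θ
  unhit : GIV566.unhit Φ ε (OneC285.ptube Φ ε P z) Q.tw w

/-- The lines of the tree and `d` are not touched before `cT + ε R ≤ te`. -/
structure Late6 (Φ : Space3 → ℝ) (ε R : ℝ) (K : ℕ) (te : ℝ) (P : CTree)
    (z : PhasePoint × Par P) {m : ℕ} (w : Config m) (d e : ML) : Prop where
  hor : cT ε z e + ε * R ≤ te
  unt : ∀ j, cT ε z e + ε * R < (MW.cfg w).thetaL Φ ε K te (lineML Φ ε P z j)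
  untd : cT ε z e + ε * R < (MW.cfg w).thetaL Φ ε K te d

/-- **LINK class part** of the encounter event: no influenced particle and no deflected line near the
root line on `[cT, cT + ε R]`; `e` = second line, `d` = first line. -/
structure Near6 (Φ : Space3 → ℝ) (ε R : ℝ) (K : ℕ) (P : CTree)
    (z : PhasePoint × Par P) {m : ℕ} (w : Config m) (d e : ML) : Prop where
  cf : ∀ t, cT ε z e ≤ t → t ≤ cT ε z e + ε * R → ∀ j, j ≠ root P → ∀ k,
    MWFam255.CF Φ ε K (MW.cfg w) (MW.line (lineML Φ ε P z j)) t k →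
    (R + 2) * ε < dist (((MW.cfg w).ins (lineML Φ ε P z j)).path Φ ε t (Sum.inl k)).1
      (z.1.1 + t • z.1.2)
  cfd : ∀ t, cT ε z e ≤ t → t ≤ cT ε z e + ε * R → ∀ k,
    MWFam255.CF Φ ε K (MW.cfg w) (MW.line d) t k →
    (R + 2) * ε < dist (((MW.cfg w).ins d).path Φ ε t (Sum.inl k)).1 (z.1.1 + t • z.1.2)
  line : ∀ t, cT ε z e ≤ t → t ≤ cT ε z e + ε * R → ∀ j, j ≠ root P →
    (∃ s k, s < t ∧ ((MW.cfg w).ins (lineML Φ ε P z j)).C Φ ε s (Sum.inr ()) (Sum.inl k)) →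
    (R + 2) * ε < dist (((MW.cfg w).ins (lineML Φ ε P z j)).path Φ ε t (Sum.inr ())).1
      (z.1.1 + t • z.1.2)
  lined : ∀ t, cT ε z e ≤ t → t ≤ cT ε z e + ε * R → d.1.1 ≤ t →
    (∃ s k, s < t ∧ ((MW.cfg w).ins d).C Φ ε s (Sum.inr ()) (Sum.inl k)) →
    (R + 2) * ε < dist (((MW.cfg w).ins d).path Φ ε t (Sum.inr ())).1 (z.1.1 + t • z.1.2)

/-- **Measure class part** of the encounter event. -/
structure EncM6 (Φ : Space3 → ℝ) (ε R : ℝ) (P : CTree)
    (z : PhasePoint × Par P) {m : ℕ} (w : Config m) (d e : ML) : Prop where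
  pass : CDpass Φ (cD ε z e)
  tau : tauM Φ (relB (cD ε z e)) ≤ R
  disp : tauM Φ (relB (cD ε z e)) * ‖(relB (cD ε z e)).2‖ ≤ R
  gas : ∀ t, cT ε z e ≤ t → t ≤ cT ε z e + ε * R → ∀ i : Fin m,
    (R + 2) * ε < dist ((MW.cfg w).path Φ ε t i).1 (z.1.1 + t • z.1.2)
  mem : ∀ t, cT ε z e ≤ t → t ≤ cT ε z e + ε * R → ∀ j, j ≠ root P →
    (R + 2) * ε < dist (lpos (lineML Φ ε P z j) t) (z.1.1 + t • z.1.2)
  memd : ∀ t, cT ε z e ≤ t → t ≤ cT ε z e + ε * R → d.1.1 ≤ t →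
    (R + 2) * ε < dist (lpos d t) (z.1.1 + t • z.1.2)
  nobd : d.1.1 ≠ cT ε z e + outT Φ ε (cD ε z e)

/-- **Bad event 1**: a link or a world which is not good. -/
def evHyp (Φ : Space3 → ℝ) (Q : EPar) (T' : ℝ) (K : ℕ) (ε : ℝ) (P : CTree)
    (z : PhasePoint × Par P) (m : ℕ) (w : Config m) (θ : Lab × LSt) : Prop :=
  Gd6 Φ ε K Q T' P z w θ ∧
    ¬ E6Hyp Φ ε K Q.te (MW.cfg w) (lineML Φ ε P z) (root P) (dL θ)
      (outL6 Φ ε P z (eL θ) (some false)) (outL6 Φ ε P z (eL θ) (some true))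

/-- **Bad event 2** (radius `R`): an influenced particle or a deflected line near the root line. -/
def evNear (Φ : Space3 → ℝ) (Q : EPar) (T' R : ℝ) (K : ℕ) (ε : ℝ) (P : CTree)
    (z : PhasePoint × Par P) (m : ℕ) (w : Config m) (θ : Lab × LSt) : Prop :=
  Gd6 Φ ε K Q T' P z w θ ∧ Late6 Φ ε R K Q.te P z w (dL θ) (eL θ) ∧
    ¬ Near6 Φ ε R K P z w (dL θ) (eL θ)


/-- **Piece 4**: the measure of the test lines which are not good, on the structures with `E6Hyp`. -/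
def fLk6 (Φ : Space3 → ℝ) (Q : EPar) (T' : ℝ) (K : ℕ) (ε : ℝ) : SF2 := fun P z m w θ =>
  if Gd6 Φ ε K Q T' P z w θ ∧
    E6Hyp Φ ε K Q.te (MW.cfg w) (lineML Φ ε P z) (root P) (dL θ)
      (outL6 Φ ε P z (eL θ) (some false)) (outL6 Φ ε P z (eL θ) (some true)) then
    min 1 (lkm Φ Q K ε P z m w θ) else 0

/-- Indicator of an event, as a functional. -/
def ind6 (N : (P : CTree) → PhasePoint × Par P → (m : ℕ) → Config m → Lab × LSt → Prop) : SF2 :=
  fun P z m w θ => if N P z m w θ then 1 else 0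

variable {Φ : Space3 → ℝ} {ε R T' te : ℝ} {K : ℕ} {Q : EPar} {σ : ℝ → ℝ} {P : CTree}
  {z : PhasePoint × Par P} {m : ℕ} {w : Config m} {θ : Lab × LSt} {d e : ML}

theorem encBad6_split (hor : cT ε z e + ε * R ≤ te) (h : EncBad6 Φ ε R K te P z w d e) :
    Late6 Φ ε R K te P z w d e ∧ (¬ Near6 Φ ε R K P z w d e ∨ ¬ EncM6 Φ ε R P z w d e) := by
  obtain ⟨h1, h2, h3⟩ := h
  refine ⟨⟨hor, h1, h2⟩, ?_⟩
  by_contra hcon
  rw [not_or, not_not, not_not] at hcon
  obtain ⟨hN, hM⟩ := hcon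
  exact h3 ⟨hM.pass, hM.tau, hM.disp, hor, hM.gas, hM.mem, hM.memd, hN.cf, hN.cfd, hN.line,
    hN.lined, hM.nobd⟩


end

end Crest.Agent.R122.Link6796
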