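import Crest.Agent.R122.LNNear_383
import Crest.Agent.R122.LNRetT_383
import Crest.Agent.R122.EncFar_45
import Crest.Agent.R122.LNPart_424
import Crest.Agent.R122.EncFar6_45
import Crest.Agent.R122.LNS1_674
import Crest.Agent.R122.Link6Pt_796

-- ▼ part R122/LNNearT_383
section

/-!
# Row 122, LN1 events (helper383), part 5: near-line events at the root line of a tree

The member `m₀` of `LNNear_383` is the root of a tree `P` (part of the structure), followed in the
sub-world of its tree: its position is `z.1.1 + t • z.1.2` after its release.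

* `NearHyp.tree_cf`, `NearHyp.tree_line` : the forms consumed by helper45 (`cf`, `line`) and
  helper796; `NearHyp.tree_C` : a contact of the line before `t` with a particle of the base.
* `NearHyp.gas` : the hypotheses for the gas `cfg w` and a structure `V`, one part.
* `NearFam`, `NearFam.cf`, `NearFam.line` : families of lines over `cfg w`.
-/

set_option autoImplicit false
set_option linter.unusedSectionVars false

open MeasureTheory Set Filter Topology
open scoped ENNReal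
open Crest.AnalysisR.Kinetic
open Crest.Agent.R122.Flow671 hiding rel
open Crest.Agent.R122.Ins45 Crest.Agent.R122.Causal291
open Crest.Agent.R122.Inf879 Crest.Agent.R122.GC311 Crest.Agent.R122.EDefs602
open Crest.Agent.R122.EDefs602.MW Crest.Agent.R122.MWFam255 Crest.Agent.R122.GIV566
open Crest.Agent.R122.VL581 Crest.Agent.R122.LN304 Crest.Agent.R122.LNg410
open Crest.Agent.R122.LNEv968
open Crest.Agent.R122.Kin796 Crest.Agent.R122.Kin796.CTree Crest.Agent.R122.Tree674
open Crest.Agent.R122.PathFlow968 Crest.Agent.R122.TreeLines335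
open Crest.Agent.R122.LNTree410
open Crest.Agent.R122.LNEv818 (ReachAll)
open Crest.Agent.R122.LNPart424 (gsys)
open scoped Classical

namespace Crest.Agent.R122.LNEv383

noncomputable section

/-! ### The root line -/

section root

variable {ι κ J : Type} [Fintype ι] [Fintype J]
variable {Φ : Space3 → ℝ} {ε T T' r : ℝ} {K : ℕ} {Z : MW ι}
variable {M : VSys J κ} {c ℓ ς : ℝ} {Zc : J → PhasePoint} {Λ : Finset (Finset J)}
  {π : Finset J} {a : J} {N : ℕ} {lab : ι → J} {l : ML} {R : ℝ → J → J → Prop}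
  {P : CTree} {z : PhasePoint × Par P} {e : Idx P ↪ J} {t : ℝ}

/-- The root of a tree, after its release, is on its undeflected line. -/
theorem root_line (hΦ : AdmissiblePotential M.Φ) (hε : 0 < M.ε)
    (hT : TreeIn M Zc T' P z.1 z.2 e) (hr : TreeLines335.rel P z.2 (root P) ≤ t) (ht : t ≤ T') :
    (M.st (LNTree410.part e) t Zc (e (root P))).1 = z.1.1 + t • z.1.2 := by
  rw [hT.line_tree hΦ hε (root P) hr ht, fin_root, onLine_fst]

variable (h : NearHyp M c ℓ ς Zc Λ π (LNTree410.part e) a (e (root P)) N R Φ ε T K Z lab l r)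
  (hΦ : AdmissiblePotential M.Φ) (hT : TreeIn M Zc T' P z.1 z.2 e) (hTT : T ≤ T')

include h hΦ hT hTT

theorem NearHyp.root_line (hr : TreeLines335.rel P z.2 (root P) ≤ t) (ht : t ≤ T) :
    (M.st (LNTree410.part e) t Zc (e (root P))).1 = z.1.1 + t • z.1.2 :=
  LNEv383.root_line hΦ (by rw [h.hMε]; exact h.hε) hT hr (ht.trans hTT)

/-- **An influenced particle is not near the root line**, in `Z + l` and in `Z`. -/
theorem NearHyp.tree_cf [Nonempty κ] (h0 : 0 ≤ t)
    (hr : TreeLines335.rel P z.2 (root P) ≤ t) (ht : t ≤ T)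
    (htl : t ≤ Z.thetaL Φ ε K T l) {k : ι} (hk : CF Φ ε K Z (MW.line l) t k) :
    r < dist ((Z.ins l).path Φ ε t (Sum.inl k)).1 (z.1.1 + t • z.1.2) ∧
      r < dist (Z.path Φ ε t k).1 (z.1.1 + t • z.1.2) := by
  rw [← h.root_line hΦ hT hTT hr ht]
  exact h.influenced ⟨h0, ht⟩ htl hk

/-- **The altered line is not near the root line.** -/
theorem NearHyp.tree_C [Nonempty κ] (h0 : 0 ≤ t)
    (hr : TreeLines335.rel P z.2 (root P) ≤ t) (ht : t ≤ T)
    (htl : t ≤ Z.thetaL Φ ε K T l) {s : ℝ} (hs : s < Z.thetaL Φ ε K T l) (hst : s ≤ t) {k : ι}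
    (hk : (Z.ins l).C Φ ε s (Sum.inr ()) (Sum.inl k)) :
    r < dist ((Z.ins l).path Φ ε t (Sum.inr ())).1 (z.1.1 + t • z.1.2) := by
  rw [← h.root_line hΦ hT hTT hr ht]
  exact h.altered ⟨h0, ht⟩ htl hs hst hk

/-- **The altered line is not near the root line**, form of helper45. -/
theorem NearHyp.tree_line [Nonempty κ] (h0 : 0 ≤ t)
    (hr : TreeLines335.rel P z.2 (root P) ≤ t) (ht : t ≤ T)
    (htl : t ≤ Z.thetaL Φ ε K T l)
    (hk : ∃ s k, s < t ∧ (Z.ins l).C Φ ε s (Sum.inr ()) (Sum.inl k)) :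
    r < dist ((Z.ins l).path Φ ε t (Sum.inr ())).1 (z.1.1 + t • z.1.2) := by
  obtain ⟨s, k, hs, hk⟩ := hk
  exact h.tree_C hΦ hT hTT h0 hr ht htl (hs.trans_le htl) hs.le hk

end root

/-! ### Gas and structure -/

section gas

variable {σ μ : Type} [Fintype σ] {n : ℕ} {Φ : Space3 → ℝ} {T₀ T T' ε c ℓ ς r : ℝ} {K N : ℕ}
  {b : σ → ℝ} {w : Config n} {V : σ → PhasePoint} {π : Finset (Fin n ⊕ σ)}
  {R : ℝ → Fin n ⊕ σ → Fin n ⊕ σ → Prop} {P : CTree} {z : PhasePoint × Par P}
  {e : Idx P ↪ Fin n ⊕ σ}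

/-- The structure labels. -/
def strP (n : ℕ) (σ : Type) [Fintype σ] : Finset (Fin n ⊕ σ) :=
  Finset.univ.map Function.Embedding.inr

theorem mem_strP {j : Fin n ⊕ σ} : j ∈ strP n σ ↔ ∃ y, j = Sum.inr y := by
  simp only [strP, Finset.mem_map, Finset.mem_univ, true_and, Function.Embedding.inr_apply]
  exact ⟨fun ⟨y, hy⟩ => ⟨y, hy.symm⟩, fun ⟨y, hy⟩ => ⟨y, hy.symm⟩⟩

/-- **Near-line data** for lines `ls x` with labels `p x` over the gas `cfg w`; the tube is the root
line of the tree `(P, z)` with labels `g i`, `T` the horizon, `T'` the horizon of the tree. One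
part. -/
structure NearFam (Φ : Space3 → ℝ) (T₀ T T' ε : ℝ) (K : ℕ) (c ℓ ς r : ℝ) (N : ℕ) (b : σ → ℝ)
    (w : Config n) (V : σ → PhasePoint) (R : ℝ → Fin n ⊕ σ → Fin n ⊕ σ → Prop) (P : CTree)
    (z : PhasePoint × Par P) (g : Idx P ↪ σ) (ls : μ → ML) (p : μ → σ) : Prop where
  hΦ : AdmissiblePotential Φ
  hε : 0 < ε
  hT : 0 ≤ T
  hTT : T ≤ T'
  hTT₀ : T ≤ T₀
  hc : 1 ≤ c
  hr : r ≤ c * ε
  hℓς : 2 * ℓ ≤ ς
  okZ : (MW.cfg w).Ok Φ ε
  okL : ∀ x, ((MW.cfg w).ins (ls x)).Ok Φ ε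
  tree : TreeIn (gsys Φ T₀ ε n b) (Sum.elim w V) T' P z.1 z.2 (g.trans Function.Embedding.inr)
  noBad : NoBad (gsys Φ T₀ ε n b) c ℓ ς (Sum.elim w V) {strP n σ} (N + N + N)
  fam : Fam (gsys Φ T₀ ε n b) c (Sum.elim w V) (strP n σ) R
  ne : ∀ x, p x ≠ g (root P)
  old : ∀ x s, R s (Sum.inr (p x)) (Sum.inr (g (root P))) → s ≤ (ls x).1.1
  b0 : ∀ x, 0 ≤ (ls x).1.1
  reach : ∀ x, ReachAll (Reach (gsys Φ T₀ ε n b) c (Sum.elim w V) {strP n σ} (strP n σ)
    (Sum.inr (p x)) N) Φ ε K T (MW.cfg w) Sum.inl (ls x) (Sum.inr (p x))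

namespace NearFam

variable {g : Idx P ↪ σ} {ls : μ → ML} {p : μ → σ}
  (h : NearFam Φ T₀ T T' ε K c ℓ ς r N b w V R P z g ls p)

include h

theorem conn : (gsys Φ T₀ ε n b).Conn c (strP n σ) (Sum.elim w V) :=
  conn_of_cut h.fam.conn fun i hi j hj hij ⟨s, hs, hR⟩ => ⟨s, hs, h.fam.vct s hs i hi j hj hij hR⟩

/-- The near-line hypotheses of one line. -/
theorem hyp (x : μ) : NearHyp (gsys Φ T₀ ε n b) c ℓ ς (Sum.elim w V) {strP n σ} (strP n σ)
    (LNTree410.part (g.trans Function.Embedding.inr)) (Sum.inr (p x))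
    ((g.trans Function.Embedding.inr) (root P)) N R Φ ε T K (MW.cfg w) Sum.inl (ls x) r where
  hΦ := h.hΦ
  hε := h.hε
  okZ := h.okZ
  okZl := h.okL x
  hMε := rfl
  hTM := h.hTT₀
  hc := h.hc
  hr := h.hr
  hℓς := h.hℓς
  conn := h.conn
  noBad := h.noBad
  part := Finset.mem_singleton_self _
  mem := mem_strP.2 ⟨_, rfl⟩
  m₀B := mem_part_self _
  Bπ := by
    intro j hj
    obtain ⟨i, rfl⟩ := mem_part.1 hj
    exact mem_strP.2 ⟨_, rfl⟩
  m₀a := fun h' => h.ne x (Sum.inr_injective h').symm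
  obs := h.tree.o _
  okB v hv := h.tree.ok_tree h.hΦ h.hε (h.hT.trans h.hTT) v
  labNe k := by simp
  fam := h.fam
  old s hs := h.old x s hs
  b0 := h.b0 x
  reach := h.reach x

/-- **No particle influenced by a line of the family near the root line.** -/
theorem cf {t : ℝ} (h0 : 0 ≤ t) (hr : TreeLines335.rel P z.2 (root P) ≤ t) (ht : t ≤ T) {x : μ}
    (htl : t ≤ (MW.cfg w).thetaL Φ ε K T (ls x)) {k : Fin n}
    (hk : CF Φ ε K (MW.cfg w) (MW.line (ls x)) t k) :
    r < dist (((MW.cfg w).ins (ls x)).path Φ ε t (Sum.inl k)).1 (z.1.1 + t • z.1.2) :=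
  ((h.hyp x).tree_cf h.hΦ h.tree h.hTT h0 hr ht htl hk).1


/-- **No altered line of the family near the root line.** -/
theorem line {t : ℝ} (h0 : 0 ≤ t) (hr : TreeLines335.rel P z.2 (root P) ≤ t) (ht : t ≤ T) {x : μ}
    (htl : t ≤ (MW.cfg w).thetaL Φ ε K T (ls x))
    (hk : ∃ s k, s < t ∧ ((MW.cfg w).ins (ls x)).C Φ ε s (Sum.inr ()) (Sum.inl k)) :
    r < dist (((MW.cfg w).ins (ls x)).path Φ ε t (Sum.inr ())).1 (z.1.1 + t • z.1.2) :=
  (h.hyp x).tree_line h.hΦ h.tree h.hTT h0 hr ht htl hk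

end NearFam

end gas

end

end Crest.Agent.R122.LNEv383
end

-- ▼ part R122/LNNearE_383
section

/-!
# Row 122, LN1 events (helper383), part 6: the near-line fields of the encounter events

* `exL` : the exits of a tree; `NearFam.encParts` : `EncParts` (helper45, one contact);
* `NearFam.encParts6` : `EncParts6` (helper45, inequality 3), family of the exits and `d`.
-/

set_option autoImplicit false
set_option linter.unusedSectionVars false

open MeasureTheory Set Filter Topology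
open scoped ENNReal
open Crest.AnalysisR.Kinetic
open Crest.Agent.R122.Flow671 hiding rel
open Crest.Agent.R122.Ins45 Crest.Agent.R122.Causal291
open Crest.Agent.R122.Inf879 Crest.Agent.R122.GC311 Crest.Agent.R122.EDefs602
open Crest.Agent.R122.EDefs602.MW Crest.Agent.R122.MWFam255
open Crest.Agent.R122.Kin796 Crest.Agent.R122.Kin796.CTree Crest.Agent.R122.Tree674
open Crest.Agent.R122.PathFlow968 Crest.Agent.R122.TreeLines335
open Crest.Agent.R122.Scat818 Crest.Agent.R122.OCout796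
open Crest.Agent.R122.OneC285 (lpos cfT rt cT cB cD cX)
open Crest.Agent.R122.E6Hyp879 (withD)
open scoped Classical

namespace Crest.Agent.R122.LNEv383

noncomputable section

variable {σ : Type} [Fintype σ] {n : ℕ} {Φ : Space3 → ℝ} {T₀ te T' ε c ℓ ς ρ : ℝ} {K N : ℕ}
  {b : σ → ℝ} {w : Config n} {V : σ → PhasePoint} {R : ℝ → Fin n ⊕ σ → Fin n ⊕ σ → Prop}
  {P : CTree} {z : PhasePoint × Par P} {g : Idx P ↪ σ} {l d e : ML}

/-- The exits of a tree (without the root). -/
abbrev exL (Φ : Space3 → ℝ) (ε : ℝ) (P : CTree) (z : PhasePoint × Par P) (j : {j // j ≠ root P}) :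
    ML := lineML Φ ε P z j.1



end

end Crest.Agent.R122.LNEv383
end

-- ▼ part R122/LNNearS_383
section

/-!
# Row 122, LN1 events (helper383), part 8: near-line and tube events in helper674's frame

`One`, `Exits` (helper674) over the gas `cfg w`, the family of lines contains the root line of a tree
`(P, z)` which is a sub-world of the structure (`TreeIn`, labels `g`).

* `nearFam_of_one` : `NearFam` for the lines of any sub-family without the root line.
* `nearD_of_one` : the family of the exits and one more line `d` (inequality 3): `NearFam` for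
  `withD exits d`; `encParts6_of_one`.
* `not_retC_of_one` : no return of `d` to the hidden curves of the tree.
-/

set_option autoImplicit false
set_option linter.unusedSectionVars false

open MeasureTheory Set Filter Topology
open scoped ENNReal
open Crest.AnalysisR.Kinetic
open Crest.Agent.R122.Flow671 hiding rel
open Crest.Agent.R122.Ins45 Crest.Agent.R122.Causal291
open Crest.Agent.R122.Inf879 Crest.Agent.R122.GC311 Crest.Agent.R122.EDefs602
open Crest.Agent.R122.EDefs602.MW Crest.Agent.R122.MWFam255 Crest.Agent.R122.GIV566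
open Crest.Agent.R122.VL581 Crest.Agent.R122.LN304 Crest.Agent.R122.LNg410
open Crest.Agent.R122.LNEv968
open Crest.Agent.R122.Kin796 Crest.Agent.R122.Kin796.CTree Crest.Agent.R122.Tree674
open Crest.Agent.R122.PathFlow968 Crest.Agent.R122.TreeLines335
open Crest.Agent.R122.LNTree410
open Crest.Agent.R122.LNEv818 (ReachAll)
open Crest.Agent.R122.LNPart424 (gsys)
open Crest.Agent.R122.OneC285 (ptube cT cD)
open Crest.Agent.R122.OCout796
open Crest.Agent.R122.E6Hyp879 (withD)
open Crest.Agent.R122.LNS674 (One Exits pS LS)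
open Crest.Agent.R122.PWInst442 Crest.Agent.R122.PWGlue491
open scoped Classical

namespace Crest.Agent.R122.LNEv383

noncomputable section

variable {σ μ ν : Type} [Fintype σ] {n : ℕ} {Φ : Space3 → ℝ} {T₀ T T' te ε c ℓ ς r ρ : ℝ}
  {K N N₁ : ℕ} {b : σ → ℝ} {w : Config n} {V : σ → PhasePoint}
  {cl : Fin n ⊕ σ → Finset (Fin n ⊕ σ)} {R : ℝ → Fin n ⊕ σ → Fin n ⊕ σ → Prop}
  {f : Fin n ↪ Fin n ⊕ σ} {P : CTree} {z : PhasePoint × Par P} {g : Idx P ↪ σ} {ls : μ → ML}
  {p : μ → σ} {d : ML}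

/-- **Near-line data** for a sub-family of exits without the root line `ls x₀`. -/
theorem nearFam_of_one (h : One Φ T₀ ε c b V w cl R)
    (E : Exits Φ T₀ te ε b V w cl R (MW.cfg w) f ls p) (hf : ∀ i, f i = Sum.inl i)
    (hΦ : AdmissiblePotential Φ) (hε : 0 < ε) (hte : 0 ≤ te) (hT : te ≤ T') (hT₀ : te ≤ T₀)
    (hc : 1 ≤ c) (hr : r ≤ c * ε) (hℓ : 2 * ℓ ≤ ς)
    (hNB : NoBad (gsys Φ T₀ ε n b) c ℓ ς (Sum.elim w V) (LS n σ) N₁) (hN : N + N + N ≤ N₁)
    (hRA : ∀ x, ReachAll (Reach (gsys Φ T₀ ε n b) c (Sum.elim w V) (LS n σ) (pS n σ)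
      (Sum.inr (p x)) N) Φ ε K te (MW.cfg w) f (ls x) (Sum.inr (p x)))
    (hTr : TreeIn (gsys Φ T₀ ε n b) (Sum.elim w V) T' P z.1 z.2 (g.trans Function.Embedding.inr))
    {x₀ : μ} (hx₀ : p x₀ = g (root P)) (G : ν → μ) (hG : ∀ y, G y ≠ x₀) :
    NearFam Φ T₀ te T' ε K c ℓ ς r N b w V R P z g (fun y => ls (G y)) fun y => p (G y) where
  hΦ := hΦ
  hε := hε
  hT := hte
  hTT := hT
  hTT₀ := hT₀
  hc := hc
  hr := hr
  hℓς := hℓ
  okZ := E.ok0
  okL y := E.ok1 (G y)
  tree := hTr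
  noBad := fun Q h1 h2 h3 => hNB Q h1 h2 (h3.trans hN)
  fam := h.fam
  ne y hy := hG y (E.inj (hy.trans hx₀.symm))
  old y s hs := (E.old (G y) x₀ (hG y) s (by rw [hx₀]; exact hs)).2
  b0 y := by
    have h1 := GDMW.bb_le (M := gsys Φ T₀ ε n b) (W := (MW.cfg w).ins (ls (G y)))
      (f := insF f (Sum.inr (p (G y))) (E.out (G y))) (E.gd1 (G y)) (Sum.inr ())
    exact (VLInst442.bb_nonneg (gsys Φ T₀ ε n b) _).trans h1
  reach y := by
    have h1 := hRA (G y)
    have h2 : (f : Fin n → Fin n ⊕ σ) = Sum.inl := funext hf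
    rw [h2] at h1
    exact h1

/-! ### Inequality 3: the family `lineML`, `d` -/

/-- The labels of the exits (root excluded) and `d` in the family `withD (lineML Φ ε P z) d`. -/
def exD (P : CTree) : {j : Idx P // j ≠ root P} ⊕ Unit → Idx P ⊕ Unit := Sum.map Subtype.val id

theorem exD_ne (y : {j : Idx P // j ≠ root P} ⊕ Unit) : exD P y ≠ Sum.inl (root P) := by
  rcases y with y | y
  · exact fun h => y.2 (Sum.inl_injective h)
  · exact fun h => by cases h

theorem withD_exD (Φ : Space3 → ℝ) (ε : ℝ) (P : CTree) (z : PhasePoint × Par P) (d : ML) :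
    (fun y => withD (lineML Φ ε P z) d (exD P y)) = withD (exL Φ ε P z) d := by
  funext y
  rcases y with y | y <;> rfl

theorem elim_exD (g : Idx P ↪ σ) (x : σ) :
    (fun y => Sum.elim g (fun _ => x) (exD P y)) =
      Sum.elim (fun j : {j : Idx P // j ≠ root P} => g j.1) fun _ => x := by
  funext y
  rcases y with y | y <;> rfl

/-- **Near-line data** of the exits and `d` (label `x`). -/
theorem nearD_of_one {x : σ} (h : One Φ T₀ ε c b V w cl R)
    (E : Exits Φ T₀ te ε b V w cl R (MW.cfg w) f (withD (lineML Φ ε P z) d)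
      (Sum.elim g fun _ => x)) (hf : ∀ i, f i = Sum.inl i)
    (hΦ : AdmissiblePotential Φ) (hε : 0 < ε) (hte : 0 ≤ te) (hT : te ≤ T') (hT₀ : te ≤ T₀)
    (hc : 1 ≤ c) (hr : r ≤ c * ε) (hℓ : 2 * ℓ ≤ ς)
    (hNB : NoBad (gsys Φ T₀ ε n b) c ℓ ς (Sum.elim w V) (LS n σ) N₁) (hN : N + N + N ≤ N₁)
    (hRA : ∀ y, ReachAll (Reach (gsys Φ T₀ ε n b) c (Sum.elim w V) (LS n σ) (pS n σ)
      (Sum.inr (Sum.elim g (fun _ => x) y)) N) Φ ε K te (MW.cfg w) f
      (withD (lineML Φ ε P z) d y) (Sum.inr (Sum.elim g (fun _ => x) y)))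
    (hTr : TreeIn (gsys Φ T₀ ε n b) (Sum.elim w V) T' P z.1 z.2
      (g.trans Function.Embedding.inr)) :
    NearFam Φ T₀ te T' ε K c ℓ ς r N b w V R P z g (withD (exL Φ ε P z) d)
      (Sum.elim (fun j => g j.1) fun _ => x) := by
  have h1 := nearFam_of_one h E hf hΦ hε hte hT hT₀ hc hr hℓ hNB hN hRA hTr
    (x₀ := Sum.inl (root P)) rfl (exD P) exD_ne
  rw [withD_exD, elim_exD] at h1
  exact h1


end

end Crest.Agent.R122.LNEv383
end

-- ▼ part R122/LNNear6_383

/-!
# Row 122, LN1 events (helper383), part 9: the near-line event of inequality 3 (slot S2)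

* `near6_of_nearFam` : helper796's `Near6` from `NearFam` of the exits and `d`.
* `near6_of_one` : `Near6` from helper674's frame (family `withD (lineML Φ ε P z) d` over `cfg w`).
* `not_evNear_of_one` : the event `evNear` does not occur.
-/

set_option autoImplicit false
set_option linter.unusedSectionVars false

open MeasureTheory Set Filter Topology
open scoped ENNReal
open Crest.AnalysisR.Kinetic
open Crest.Agent.R122.Flow671 hiding rel
open Crest.Agent.R122.Ins45 Crest.Agent.R122.Causal291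
open Crest.Agent.R122.Inf879 Crest.Agent.R122.GC311 Crest.Agent.R122.EDefs602
open Crest.Agent.R122.EDefs602.MW Crest.Agent.R122.MWFam255 Crest.Agent.R122.GIV566
open Crest.Agent.R122.VL581 Crest.Agent.R122.LN304 Crest.Agent.R122.LNg410
open Crest.Agent.R122.LNEv968
open Crest.Agent.R122.Kin796 Crest.Agent.R122.Kin796.CTree Crest.Agent.R122.Tree674
open Crest.Agent.R122.PathFlow968 Crest.Agent.R122.TreeLines335
open Crest.Agent.R122.LNTree410
open Crest.Agent.R122.LNEv818 (ReachAll)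
open Crest.Agent.R122.LNPart424 (gsys)
open Crest.Agent.R122.OneC285 (ptube cT cD)
open Crest.Agent.R122.OCout796
open Crest.Agent.R122.E6Hyp879 (withD)
open Crest.Agent.R122.LNS674 (One Exits pS LS)
open Crest.Agent.R122.Link6796
open Crest.Agent.R122.Boost969 (LSt)
open Crest.Agent.R122.Pair292 (Lab)
open Crest.Agent.R122.PairD292
open scoped Classical

namespace Crest.Agent.R122.LNEv383

noncomputable section

variable {σ : Type} [Fintype σ] {n : ℕ} {Φ : Space3 → ℝ} {T₀ T' te ε c ℓ ς ρ : ℝ}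
  {K N N₁ : ℕ} {b : σ → ℝ} {w : Config n} {V : σ → PhasePoint}
  {cl : Fin n ⊕ σ → Finset (Fin n ⊕ σ)} {R : ℝ → Fin n ⊕ σ → Fin n ⊕ σ → Prop}
  {f : Fin n ↪ Fin n ⊕ σ} {P : CTree} {z : PhasePoint × Par P} {g : Idx P ↪ σ} {d e : ML} {x : σ}

/-- **The LINK class part of the encounter event**, from the near-line data. -/
theorem near6_of_nearFam
    (h : NearFam Φ T₀ te T' ε K c ℓ ς ((ρ + 2) * ε) N b w V R P z g (withD (exL Φ ε P z) d)
      (Sum.elim (fun j => g j.1) fun _ => x))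
    (h0 : 0 ≤ cT ε z e) (hr : TreeLines335.rel P z.2 (root P) ≤ cT ε z e)
    (hL : Late6 Φ ε ρ K te P z w d e) : Near6 Φ ε ρ K P z w d e where
  cf _ ht ht' j hj _ hk :=
    h.cf (x := Sum.inl ⟨j, hj⟩) (h0.trans ht) (hr.trans ht) (ht'.trans hL.hor)
      (ht'.trans (hL.unt j).le) hk
  cfd _ ht ht' _ hk :=
    h.cf (x := Sum.inr ()) (h0.trans ht) (hr.trans ht) (ht'.trans hL.hor)
      (ht'.trans hL.untd.le) hk
  line _ ht ht' j hj hk :=
    h.line (x := Sum.inl ⟨j, hj⟩) (h0.trans ht) (hr.trans ht) (ht'.trans hL.hor)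
      (ht'.trans (hL.unt j).le) hk
  lined _ ht ht' _ hk :=
    h.line (x := Sum.inr ()) (h0.trans ht) (hr.trans ht) (ht'.trans hL.hor)
      (ht'.trans hL.untd.le) hk

/-- **The LINK class part of the encounter event**, from helper674's frame. -/
theorem near6_of_one (h : One Φ T₀ ε c b V w cl R)
    (E : Exits Φ T₀ te ε b V w cl R (MW.cfg w) f (withD (lineML Φ ε P z) d)
      (Sum.elim g fun _ => x)) (hf : ∀ i, f i = Sum.inl i)
    (hΦ : AdmissiblePotential Φ) (hε : 0 < ε) (hte : 0 ≤ te) (hT : te ≤ T') (hT₀ : te ≤ T₀)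
    (hc : 1 ≤ c) (hr : ρ + 2 ≤ c) (hℓ : 2 * ℓ ≤ ς)
    (hNB : NoBad (gsys Φ T₀ ε n b) c ℓ ς (Sum.elim w V) (LS n σ) N₁) (hN : N + N + N ≤ N₁)
    (hRA : ∀ y, ReachAll (Reach (gsys Φ T₀ ε n b) c (Sum.elim w V) (LS n σ) (pS n σ)
      (Sum.inr (Sum.elim g (fun _ => x) y)) N) Φ ε K te (MW.cfg w) f
      (withD (lineML Φ ε P z) d y) (Sum.inr (Sum.elim g (fun _ => x) y)))
    (hTr : TreeIn (gsys Φ T₀ ε n b) (Sum.elim w V) T' P z.1 z.2
      (g.trans Function.Embedding.inr))
    (h0 : 0 ≤ cT ε z e) (hrel : TreeLines335.rel P z.2 (root P) ≤ cT ε z e)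
    (hL : Late6 Φ ε ρ K te P z w d e) : Near6 Φ ε ρ K P z w d e :=
  near6_of_nearFam (nearD_of_one h E hf hΦ hε hte hT hT₀ hc
    (mul_le_mul_of_nonneg_right hr hε.le) hℓ hNB hN hRA hTr) h0 hrel hL


end

end Crest.Agent.R122.LNEv383
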