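import Crest.Agent.R122.OsPMom_581
import Crest.Agent.R122.GateOsP_424
import Crest.Agent.R122.LN2Touch_494
import Crest.Agent.R122.BHMainN_167
import Crest.Agent.R122.BHFin_167
import Crest.Agent.R122.Marg_494
import Crest.Agent.R122.StrN2_998
import Crest.Agent.R122.GateCap_973
import Crest.Agent.R122.ShpOkN_998
import Crest.Agent.R122.LinkGate2_424
import Crest.Agent.R122.LN2Touch_473
import Crest.Agent.R122.ShpOk_581
import Crest.Agent.R122.XShape_692

-- ▼ part R122/GateMS_581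
section

/-!
# Row 122, inequality 3, null facts of the pair laws (helper581): the gate over a structure law

* `badF_mS` : bad partitions of the structure and the gas, near the gas.
* `badHitGasN_one` : one part which is hit, the anchors do not matter; `gNull_hit_mS`.
* `gNull_mS_of_det` : **the plain gateway** over the law of an admissible shape (not localised).
-/

set_option autoImplicit false
set_option linter.unusedSectionVars false

open MeasureTheory Set Filter Topology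
open scoped Classical ENNReal
open Crest.AnalysisR.Kinetic

noncomputable section

namespace Crest.Agent.R122.PairRep581

open Crest.Agent.R122.GC311 Crest.Agent.R122.Kin796 Crest.Agent.R122.Kin796.CTree
open Crest.Agent.R122.Tree674 Crest.Agent.R122.EDefs602
open Crest.Agent.R122.Gate424 Crest.Agent.R122.Gate973 Crest.Agent.R122.LN2
open Crest.Agent.R122.BH167
open Crest.Agent.R122.TouchFlux494 (Near)
open Crest.Agent.R122.Boost969 (LSt)
open Crest.Agent.R122.Pair292 (Lab shP shL shM)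
open Crest.Agent.R122.PairD292

/-! ### Anchors -/

/-- One part which is hit: the anchors do not matter. -/
theorem badHitGasN_one {BP : PosPred} {Φ : Space3 → ℝ} {T C R ε : ℝ} {N K : ℕ} {κ : Type}
    [Fintype κ] {A₀ A₁ : Finset κ} {b : κ → ℝ} {z : κ → PhasePoint} {n : ℕ} {w : Config n}
    (h : BadHitGasN BP Φ T C R ε N K 1 A₀ b z w) : BadHitGasN BP Φ T C R ε N K 1 A₁ b z w := by
  obtain ⟨g, hg, ι, k, hk, f, hd, π, P, hP, h1, h2, h3⟩ := h
  refine ⟨g, hg, ι, k, hk, f, hd, π, P, hP, fun Q hQ => ⟨(h1 Q hQ).1, Or.inl ?_⟩, h2, h3⟩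
  exact Finset.card_le_one.1 h2 Q hQ P hP

variable {Φ : Space3 → ℝ} {f₀ : PhasePoint → ℝ} {γ β : ℝ} {ρ : Space3 → ℝ≥0∞} {S : Shp}
  {T te : ℝ} {C₀ : ℝ≥0∞}




/-- **Bad hits of the structure and the gas.** -/
theorem gNull_hit_mS (h : ShpOk γ β ρ S) (hΦ : AdmissiblePotential Φ) (hf : Measurable f₀)
    (h1 : ∫⁻ z, ENNReal.ofReal (f₀ z) ≤ 1) (he : Env f₀ γ ρ C₀) (hγ : 0 < γ) (hT : 0 ≤ T)
    {T₁ : ℝ} (hT₁ : 0 ≤ T₁) (te : ℝ) (C R : ℝ) (N K : ℕ) (A : Finset S.κ) :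
    GNull f₀ S.mI (fun ε _ _ x w =>
      BadHitGasN (bpos Φ T₁ te) Φ T C R ε N K 1 A (S.b ε x) (S.z ε x) w) := by
  obtain ⟨c, Λ, hc, hΛ, hd⟩ := h.dom
  have h2 := gNull_badPosN (I := Unit) (m := S.mI) hΦ hT te hT₁ hf h1 he hγ C R N K
    (GateOsP424.card_pos h) (∅ : Finset S.κ) hc Λ (b := fun ε _ => S.b ε) (z := fun ε _ => S.z ε)
    (fun ε _ => h.sf ε) (fun ε _ hε => hd ε hε)
  exact h2.mono ⟨1, one_pos, fun ε _ _ _ n x w _ hB => badHitGasN_one hB⟩


/-! ### The gateway -/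


end Crest.Agent.R122.PairRep581

end
end

-- ▼ part R122/LNLevel_494
section

/-!
# Row 122, block H4 (helper494): the lower levels of the structures `S^(j)`

* `BaseHyp` : hypotheses on the base structures; `lv` : the structure of level `j`.
* `touchHyp_lv` : the hypotheses of helper473 at every level.
* `badF_level_near` : bad partitions of gas particles and the structure of a level `k ≤ j`, near
  passage of the first line: `BadF` over the law of the level `j`.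
* `dom_sub`, `tinvS_sub_e`, `tinvS_sub_d` : the structure of level `k` inside the law of level `j`.
-/

set_option autoImplicit false
set_option linter.unusedSectionVars false

open MeasureTheory ProbabilityTheory Set Filter
open scoped ENNReal Classical Topology
open Crest.AnalysisR.Kinetic

noncomputable section

namespace Crest.Agent.R122.Marg494

open Crest.Agent.R122.GC311 Crest.Agent.R122.EDefs602
open Crest.Agent.R122.Boost969 (LSt posAt)
open Crest.Agent.R122.Kin416 (gau measurable_gau lintegral_gau_lt_top)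
open Crest.Agent.R122.Pair292 hiding ML
open Crest.Agent.R122.PairD292 (dL eL)
open Crest.Agent.R122.PairReal998 Crest.Agent.R122.LN2 Crest.Agent.R122.StrN998
open Crest.Agent.R122.TouchFlux494 (expW_ne_top expW_add exists_one_add_le_expW Near)
open Crest.Agent.R122.Gate424 Crest.Agent.R122.Gate973

variable {Φ : Space3 → ℝ} {ε te b₀ : ℝ} {q : ℕ → ℝ≥0∞}
variable {Θ κ : Type} [MeasurableSpace Θ] [Fintype κ]

/-- Base structures. -/
structure BaseHyp (γ : ℝ) (ρ : Space3 → ℝ≥0∞) (c : ℝ≥0∞) (Λ : Measure (κ → ℝ))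
    (S : ℝ → SD Θ κ) : Prop where
  sf : ∀ ε, SFinite (S ε).m
  ok : ∀ ε, 0 < ε → (S ε).Ok
  phys : ∀ ε, 0 < ε → (S ε).Phys
  dom : ∀ ε, 0 < ε → Dom γ ρ ε 1 ∅ c Λ (S ε).m (S ε).b (S ε).z
  cf : c ≠ ∞
  mρ : Measurable ρ

/-- The structure of level `j`. -/
abbrev lv (S : ℝ → SD Θ κ) (Φ : Space3 → ℝ) (b₀ te : ℝ) (q : ℕ → ℝ≥0∞) (j : ℕ) (ε : ℝ) :
    SD (Th Θ j) (Ka κ j) := (S ε).iter Φ ε b₀ te q j

theorem sfinite_iter {S : SD Θ κ} (h : SFinite S.m) (j : ℕ) :
    SFinite (S.iter Φ ε b₀ te q j).m := by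
  induction j with
  | zero => exact h
  | succ j ih =>
    have : SFinite (S.iter Φ ε b₀ te q j).m := ih
    exact inferInstanceAs (SFinite ((S.iter Φ ε b₀ te q j).step Φ ε b₀ te q).m)

/-- The first line is the same on all levels. -/
theorem dL_prj (S : SD Θ κ) (k i : ℕ) (x : Th Θ (k + i)) :
    dL ((S.iter Φ ε b₀ te q (k + i)).pr x) = dL ((S.iter Φ ε b₀ te q k).pr (prj Θ k i x)) := by
  induction i with
  | zero => rfl
  | succ i ih => exact ih x.1

theorem Tr_prj (S : SD Θ κ) (k i : ℕ) (a : Space3) (x : Th Θ (k + i)) :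
    prj Θ k i ((S.iter Φ ε b₀ te q (k + i)).Tr a x) =
      (S.iter Φ ε b₀ te q k).Tr a (prj Θ k i x) := by
  induction i with
  | zero => rfl
  | succ i ih => exact ih x.1

theorem norm_le_of_sq {κ : Type} [Fintype κ] {v : Space3} {z : κ → PhasePoint}
    (h : ‖v‖ ^ 2 ≤ ∑ i, ‖(z i).2‖ ^ 2) : ‖v‖ ≤ 1 * (1 + ∑ i, ‖(z i).2‖) := by
  have h1 : ∑ i, ‖(z i).2‖ ^ 2 ≤ (∑ i, ‖(z i).2‖) ^ 2 :=
    Finset.sum_sq_le_sq_sum_of_nonneg fun i _ => norm_nonneg _
  have h2 : 0 ≤ ∑ i, ‖(z i).2‖ := Finset.sum_nonneg fun i _ => norm_nonneg _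
  have h3 : ‖v‖ ≤ ∑ i, ‖(z i).2‖ := (sq_le_sq₀ (norm_nonneg _) h2).1 (h.trans h1)
  linarith

section base

variable {γ : ℝ} {ρ : Space3 → ℝ≥0∞} {c : ℝ≥0∞} {Λ : Measure (κ → ℝ)} [IsFiniteMeasure Λ]
  {S : ℝ → SD Θ κ}

/-- Domination at the level `j`. -/
theorem BaseHyp.dom_lv (h : BaseHyp γ ρ c Λ S) (hΦ : AdmissiblePotential Φ) [Nonempty κ]
    (hb : γ ≤ b₀) (j : ℕ) (hε : 0 < ε) :
    Dom γ ρ ε 1 ∅ (c * (3 * ∑' m, q m) ^ j) (LaN Λ j) (lv S Φ b₀ te q j ε).m
      (lv S Φ b₀ te q j ε).b (lv S Φ b₀ te q j ε).z := by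
  have h1 := SD.dom_iter (te := te) (q := q) (h.ok ε hε) hΦ h.mρ hb hε
    (Fintype.card_pos_iff.2 inferInstance : 1 ≤ Fintype.card κ) (h.dom ε hε) j
  rwa [anN_empty] at h1

/-- The hypotheses of helper473 for the first line at the level `j`. -/
theorem BaseHyp.touchHyp (h : BaseHyp γ ρ c Λ S) (hΦ : AdmissiblePotential Φ) [Nonempty κ]
    (hb : γ ≤ b₀) (hq : ∑' m, q m ≠ ∞) {a : ℝ} (ha : 0 < a) (haγ : a < γ) {T te' : ℝ}
    (hte : te' ≤ T) (j : ℕ) :
    TouchHyp T γ a ρ (c * (3 * ∑' m, q m) ^ j) (ENNReal.ofReal (1 + 1 / a)) (LaN Λ j)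
      (fun ε (_ : Unit) => (lv S Φ b₀ te q j ε).m) (fun ε _ => (lv S Φ b₀ te q j ε).b)
      (fun ε _ => (lv S Φ b₀ te q j ε).z) (fun ε _ => (lv S Φ b₀ te q j ε).Tr)
      (fun ε _ x => (dL ((lv S Φ b₀ te q j ε).pr x)).1) (fun _ => te') where
  sf ε _ := sfinite_iter (h.sf ε) j
  dom ε _ hε := h.dom_lv hΦ hb j hε
  tr ε _ hε := ((h.ok ε hε).iter hΦ j).tinv_d
  birth ε _ hε := ((h.phys ε hε).iter (h.ok ε hε) hΦ hε.le j).bd
  vel ε _ hε := (((h.phys ε hε).iter (h.ok ε hε) hΦ hε.le j).vd).mono fun x hx =>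
    one_add_le_expW ha hx
  hor _ := hte
  cf := ENNReal.mul_ne_top h.cf (ENNReal.pow_ne_top (ENNReal.mul_ne_top (by simp) hq))
  cvf := ENNReal.ofReal_ne_top
  aγ := haγ

theorem BaseHyp.velE (h : BaseHyp γ ρ c Λ S) (hΦ : AdmissiblePotential Φ) (hε : 0 < ε) (l : ℕ) :
    VelE ((S ε).iter Φ ε b₀ te q l) 1 :=
  (((h.phys ε hε).iter (h.ok ε hε) hΦ hε.le l).ve).mono fun _ hx => norm_le_of_sq hx

/-- **marg_le** for base structures. -/
theorem BaseHyp.marg (h : BaseHyp γ ρ c Λ S) (hΦ : AdmissiblePotential Φ)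
    (hq : ∑' m, q m ≠ ∞) (k i : ℕ) {a a' : ℝ} (haa : a < a') (ha' : a' ≤ b₀) :
    ∃ C : ℝ≥0∞, C ≠ ∞ ∧ ∀ ε : ℝ, 0 < ε → ∀ G : Th Θ k → ℝ≥0∞, Measurable G →
      ∫⁻ x, G (prj Θ k i x) * expW a ((lv S Φ b₀ te q (k + i) ε).z x)
          ∂(lv S Φ b₀ te q (k + i) ε).m ≤
        C * ∫⁻ θ, G θ * expW a' ((lv S Φ b₀ te q k ε).z θ) ∂(lv S Φ b₀ te q k ε).m := by
  obtain ⟨C, hC, hm⟩ := marg_iter (Θ := Θ) (κ := κ) (b₀ := b₀) hΦ te 1 hq k i haa ha'
  exact ⟨C, hC, fun ε hε G hG => hm ε hε q le_rfl (S ε) (h.ok ε hε)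
    (fun l => h.velE hΦ hε l) G hG⟩

/-- **Bad partitions of a lower level, near passage.** -/
theorem badF_level_near {f₀ : PhasePoint → ℝ} {C₀ : ℝ≥0∞} {T te' : ℝ}
    (h : BaseHyp γ ρ c Λ S) (hΦ : AdmissiblePotential Φ) (hCN : VLMeas973.ClassNull Φ T)
    (hf : Measurable f₀) (h1 : ∫⁻ z, ENNReal.ofReal (f₀ z) ≤ 1) (he : Env f₀ γ ρ C₀)
    (hγ : 0 < γ) [Nonempty κ] (hb : γ ≤ b₀) (hq : ∑' m, q m ≠ ∞) (hte : te' ≤ T) (k i : ℕ)
    (C R₁ : ℝ) (N : ℕ) :
    BadF f₀ (fun ε (_ : Unit) => (lv S Φ b₀ te q (k + i) ε).m)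
      (fun R ς ε _ n x w => Near Φ ε R₁ te' w (dL ((lv S Φ b₀ te q (k + i) ε).pr x)).1 ∧
        BadGas Φ T C R ς ε N 1 Finset.univ ((lv S Φ b₀ te q k ε).b (prj Θ k i x))
          ((lv S Φ b₀ te q k ε).z (prj Θ k i x)) w) := by
  intro δ hδ
  have h2 := TouchFlux494.moment_of_env hγ he
  set a' : ℝ := γ / 2 with ha'
  have ha0 : 0 < a' := by rw [ha']; linarith
  set a : ℝ := γ / 4 with ha
  have haa : 0 < a := by rw [ha]; linarith
  obtain ⟨Cm, hCm, hm⟩ := h.marg (te := te) hΦ hq k i ha0 (show a' ≤ b₀ by linarith)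
  have hCm' : Cm + 1 ≠ ∞ := ENNReal.add_ne_top.2 ⟨hCm, ENNReal.one_ne_top⟩
  have hδ' : 0 < δ / (Cm + 1) := ENNReal.div_pos hδ.ne' hCm'
  -- level `k`, weighted
  have hT := h.touchHyp (T := T) (te' := te') (te := te) hΦ hb hq haa (show a < γ by linarith)
    hte k
  have hWm : ∀ (ε : ℝ), 0 < ε → Measurable fun θ => expW a' ((lv S Φ b₀ te q k ε).z θ) :=
    fun ε hε => (measurable_expW a').comp ((h.ok ε hε).iter hΦ k).mz
  -- the weight is measurable for all `ε`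
  set W : ℝ → Unit → Th Θ k → ℝ≥0∞ := fun ε _ θ =>
    if 0 < ε then expW a' ((lv S Φ b₀ te q k ε).z θ) else 0 with hW
  have hTW := hT.weight (W := W) (a' := a') (c' := 1) ENNReal.one_ne_top
    (show a < γ - a' by rw [ha, ha']; linarith)
    (fun ε _ => by
      by_cases hε : 0 < ε
      · simp only [hW, if_pos hε]; exact hWm ε hε
      · simp only [hW, if_neg hε]; exact measurable_const)
    (fun ε _ hε x θ => by
      simp only [hW, if_pos hε]
      rw [((h.ok ε hε).iter hΦ k).z_tr]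
      unfold expW
      simp only [shX_apply])
    (fun ε _ θ => by
      rw [one_mul]
      by_cases hε : 0 < ε
      · simp only [hW, if_pos hε]; exact le_rfl
      · simp only [hW, if_neg hε]; exact zero_le)
  obtain ⟨R, hR, ς, hς, hG⟩ := gLe_badGas_touch hΦ hCN hf h1 h2
    (TouchFlux494.env_anti he (show γ - a' ≤ γ by linarith)) (by rw [ha']; linarith) hTW
    (Classical.arbitrary (Ka κ k)) C R₁ N hδ'
  refine ⟨R, hR, ς, hς, fun R' ς' hR' _ hς' => ?_⟩
  have h3 := gle_pull (m' := fun ε (_ : Unit) => (lv S Φ b₀ te q (k + i) ε).m)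
    (pr := fun _ _ => prj Θ k i) (C := Cm) hf (fun _ _ _ => measurable_prj k i)
    (fun ε _ hε F hF => by
      have h4 := hm ε hε F hF
      simp only [expW_zero, mul_one] at h4
      refine h4.trans (le_of_eq ?_)
      have h5 : W ε () = fun θ => expW a' ((lv S Φ b₀ te q k ε).z θ) := by
        funext θ
        simp only [hW, if_pos hε]
      rw [h5, lintegral_withDensity_eq_lintegral_mul _ (hWm ε hε) hF]
      congr 1
      refine lintegral_congr fun θ => ?_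
      rw [Pi.mul_apply, mul_comm]) hG
  refine h3.mono ?_ ⟨1, one_pos, fun ε hε _ _ _ x w _ hE => ?_⟩
  · calc Cm * (δ / (Cm + 1)) ≤ (Cm + 1) * (δ / (Cm + 1)) := by gcongr; exact le_self_add
      _ = δ := ENNReal.mul_div_cancel (by simp) hCm'
  · refine ⟨?_, badGas_mono hε.le hR' hς' hE.2⟩
    have h6 := hE.1
    rwa [dL_prj] at h6

/-- **The structure of level `k` inside the law of level `k + i`**, with the velocity of the second
line as weight. -/
theorem BaseHyp.dom_sub (h : BaseHyp γ ρ c Λ S) (hΦ : AdmissiblePotential Φ) [Nonempty κ]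
    (hb : γ ≤ b₀) (hq : ∑' m, q m ≠ ∞) (k i : ℕ) {a' : ℝ} (ha' : 0 < a') (hab : a' ≤ b₀) :
    ∃ C : ℝ≥0∞, C ≠ ∞ ∧ ∀ ε : ℝ, 0 < ε →
      Dom (γ - a') ρ ε 1 ∅ C (LaN Λ k)
        ((lv S Φ b₀ te q (k + i) ε).m.withDensity fun x =>
          ENNReal.ofReal (1 + ‖(eL ((lv S Φ b₀ te q (k + i) ε).pr x)).1.2.2‖))
        (fun x => (lv S Φ b₀ te q k ε).b (prj Θ k i x))
        (fun x => (lv S Φ b₀ te q k ε).z (prj Θ k i x)) := by
  have ha2 : 0 < a' / 2 := by linarith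
  obtain ⟨Cm, hCm, hm⟩ := h.marg (te := te) hΦ hq k i (show a' / 2 < a' by linarith) hab
  set cv : ℝ≥0∞ := ENNReal.ofReal (1 + 1 / (a' / 2)) with hcv
  set ck : ℝ≥0∞ := c * (3 * ∑' m, q m) ^ k with hck
  have hckt : ck ≠ ∞ :=
    ENNReal.mul_ne_top h.cf (ENNReal.pow_ne_top (ENNReal.mul_ne_top (by simp) hq))
  refine ⟨cv * Cm * ck, ENNReal.mul_ne_top (ENNReal.mul_ne_top ENNReal.ofReal_ne_top hCm) hckt,
    fun ε hε => ?_⟩
  have hokk := (h.ok ε hε).iter (ε := ε) (b₀ := b₀) (te := te) (q := q) hΦ k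
  have hokj := (h.ok ε hε).iter (ε := ε) (b₀ := b₀) (te := te) (q := q) hΦ (k + i)
  have hphj := (h.phys ε hε).iter (b₀ := b₀) (te := te) (q := q) (h.ok ε hε) hΦ hε.le (k + i)
  have hdom := h.dom_lv (te := te) (q := q) hΦ hb k hε
  refine ⟨hokk.mb.comp (measurable_prj k i), hokk.mz.comp (measurable_prj k i), fun F hF => ?_⟩
  set G : Th Θ k → ℝ≥0∞ := fun θ => F ((lv S Φ b₀ te q k ε).b θ, (lv S Φ b₀ te q k ε).z θ)
    with hGd
  have hGm : Measurable G := hF.comp (hokk.mb.prodMk hokk.mz)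
  have hve : Measurable fun x => ENNReal.ofReal
      (1 + ‖(eL ((lv S Φ b₀ te q (k + i) ε).pr x)).1.2.2‖) := by
    have h1 : Measurable fun x => (eL ((lv S Φ b₀ te q (k + i) ε).pr x)).1 :=
      measurable_snd.comp hokj.mpr
    exact (measurable_const.add h1.snd.snd.norm).ennreal_ofReal
  have hGp : Measurable fun x => G (prj Θ k i x) := hGm.comp (measurable_prj k i)
  rw [lintegral_withDensity_eq_lintegral_mul _ hve hGp]
  have hstep : ∫⁻ x, ((fun x => ENNReal.ofReal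
      (1 + ‖(eL ((lv S Φ b₀ te q (k + i) ε).pr x)).1.2.2‖)) * fun x => G (prj Θ k i x)) x
        ∂(lv S Φ b₀ te q (k + i) ε).m ≤
      cv * (Cm * ∫⁻ θ, G θ * expW a' ((lv S Φ b₀ te q k ε).z θ)
        ∂(lv S Φ b₀ te q k ε).m) := by
    refine le_trans ?_ (mul_le_mul_right (hm ε hε G hGm) _)
    rw [← lintegral_const_mul' _ _ (ENNReal.ofReal_ne_top (r := 1 + 1 / (a' / 2)))]
    refine lintegral_mono_ae ?_
    filter_upwards [hphj.ve] with x hx
    have h2 := one_add_le_expW (v := (eL ((lv S Φ b₀ te q (k + i) ε).pr x)).1.2.2) ha2 hx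
    calc ENNReal.ofReal (1 + ‖(eL ((lv S Φ b₀ te q (k + i) ε).pr x)).1.2.2‖) *
          G (prj Θ k i x)
        ≤ cv * expW (a' / 2) ((lv S Φ b₀ te q (k + i) ε).z x) * G (prj Θ k i x) :=
          mul_le_mul_left h2 _
      _ = _ := by rw [hcv]; ring
  have hD := (hdom.weight (W := fun θ => expW a' ((lv S Φ b₀ te q k ε).z θ)) a'
    (c' := 1) ((measurable_expW a').comp hokk.mz) (fun θ => by rw [one_mul])
    ENNReal.one_ne_top).le F hF
  have hWk : Measurable fun θ => expW a' ((lv S Φ b₀ te q k ε).z θ) :=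
    (measurable_expW a').comp hokk.mz
  have hD0 : ∫⁻ θ, F ((lv S Φ b₀ te q k ε).b θ, (lv S Φ b₀ te q k ε).z θ)
      ∂((lv S Φ b₀ te q k ε).m.withDensity fun θ => expW a' ((lv S Φ b₀ te q k ε).z θ)) =
      ∫⁻ θ, G θ * expW a' ((lv S Φ b₀ te q k ε).z θ) ∂(lv S Φ b₀ te q k ε).m := by
    rw [lintegral_withDensity_eq_lintegral_mul _ hWk hGm]
    refine lintegral_congr fun θ => ?_
    rw [Pi.mul_apply, mul_comm]
  rw [hD0] at hD
  have hD' : ENNReal.ofReal (ε ^ 2) ^ (Fintype.card (Ka κ k) - 1) *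
      ∫⁻ θ, G θ * expW a' ((lv S Φ b₀ te q k ε).z θ) ∂(lv S Φ b₀ te q k ε).m ≤
      ck * ∫⁻ b, (∫⁻ z, wgtA (γ - a') ρ ∅ z * F (b, z)) ∂(LaN Λ k) := by
    rw [one_mul] at hD
    exact hD
  calc _ ≤ ENNReal.ofReal (ε ^ 2) ^ (Fintype.card (Ka κ k) - 1) *
        (cv * (Cm * ∫⁻ θ, G θ * expW a' ((lv S Φ b₀ te q k ε).z θ)
          ∂(lv S Φ b₀ te q k ε).m)) := mul_le_mul_right hstep _
    _ = cv * Cm * (ENNReal.ofReal (ε ^ 2) ^ (Fintype.card (Ka κ k) - 1) *
        ∫⁻ θ, G θ * expW a' ((lv S Φ b₀ te q k ε).z θ) ∂(lv S Φ b₀ te q k ε).m) := by ring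
    _ ≤ cv * Cm * (ck * ∫⁻ b, (∫⁻ z, wgtA (γ - a') ρ ∅ z * F (b, z)) ∂(LaN Λ k)) :=
        mul_le_mul_right hD' _
    _ = _ := by ring

/-- Translation invariance of the level `k` inside the level `k + i`, second line. -/
theorem tinvS_sub_e {S : SD Θ κ} (h : S.Ok) (hΦ : AdmissiblePotential Φ) (k i : ℕ) :
    TInvS (S.iter Φ ε b₀ te q (k + i)).m (S.iter Φ ε b₀ te q (k + i)).Tr
      (fun x => (S.iter Φ ε b₀ te q k).b (prj Θ k i x))
      (fun x => (S.iter Φ ε b₀ te q k).z (prj Θ k i x))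
      (fun x => (eL ((S.iter Φ ε b₀ te q (k + i)).pr x)).1) where
  mT := (h.iter hΦ (k + i)).mT
  inv := (h.iter hΦ (k + i)).inv
  mb := (h.iter hΦ k).mb.comp (measurable_prj k i)
  mz := (h.iter hΦ k).mz.comp (measurable_prj k i)
  md := (h.iter (ε := ε) (b₀ := b₀) (te := te) (q := q) hΦ (k + i)).tinv_e.md
  b_tr a x := by rw [Tr_prj, (h.iter hΦ k).b_tr]
  z_tr a x := by rw [Tr_prj, (h.iter hΦ k).z_tr]
  d_tr := (h.iter (ε := ε) (b₀ := b₀) (te := te) (q := q) hΦ (k + i)).tinv_e.d_tr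


end base

/-! ## Shapes -/

section shapes

open Crest.Agent.R122.PairRep581

variable {γ β : ℝ} {ρ : Space3 → ℝ≥0∞} {S : Shp}

theorem shpOk_nonempty (h : ShpOk γ β ρ S) : Nonempty S.κ := ⟨h.pin.choose⟩

theorem shpOk_baseHyp (h : ShpOk γ β ρ S) (hρ : Measurable ρ) :
    ∃ (c : ℝ≥0∞) (Λ : Measure (S.κ → ℝ)), IsFiniteMeasure Λ ∧ BaseHyp γ ρ c Λ (ofShp S) := by
  obtain ⟨c, Λ, hc, hΛ, hd⟩ := h.dom
  exact ⟨c, Λ, hΛ, fun ε => h.sf ε, fun ε hε => ShpOk.sd_ok h hε,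
    fun ε hε => ShpOk.sd_phys h hε, fun ε hε => hd ε hε, hc, hρ⟩

/-- **Level package, near form.** Bad partitions of gas particles and the structure of the level
`k` of the shape `itS S (k + i)`, near passage of the first line. -/
theorem badF_itS_near {f₀ : PhasePoint → ℝ} {C₀ : ℝ≥0∞} {T te' : ℝ}
    (h : ShpOk γ β ρ S) (hρ : Measurable ρ) (hΦ : AdmissiblePotential Φ)
    (hCN : VLMeas973.ClassNull Φ T) (hf : Measurable f₀)
    (h1 : ∫⁻ z, ENNReal.ofReal (f₀ z) ≤ 1) (he : Env f₀ γ ρ C₀) (hγ : 0 < γ) (hb : γ ≤ b₀)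
    (hq : ∑' m, q m ≠ ∞) (hte : te' ≤ T) (k i : ℕ) (C R₁ : ℝ) (N : ℕ) :
    BadF f₀ (itS S Φ b₀ te q (k + i)).mI
      (fun R ς ε _ _ x w => Near Φ ε R₁ te' w (dL ((itS S Φ b₀ te q (k + i)).th ε x)).1 ∧
        BadGas Φ T C R ς ε N 1 Finset.univ ((itS S Φ b₀ te q k).b ε (prj S.Θ k i x))
          ((itS S Φ b₀ te q k).z ε (prj S.Θ k i x)) w) := by
  have := shpOk_nonempty h
  obtain ⟨c, Λ, hΛ, hB⟩ := shpOk_baseHyp h hρ
  exact badF_level_near (te := te) hB hΦ hCN hf h1 he hγ hb hq hte k i C R₁ N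

/-- **Level package**: the structure of the level `k` inside the law of the shape
`itS S (k + i)`, with the velocity of the second line as weight. -/
theorem dom_sub_itS (h : ShpOk γ β ρ S) (hρ : Measurable ρ) (hΦ : AdmissiblePotential Φ)
    (hb : γ ≤ b₀) (hq : ∑' m, q m ≠ ∞) (k i : ℕ) {a' : ℝ} (ha' : 0 < a') (hab : a' ≤ b₀) :
    ∃ (C : ℝ≥0∞) (Λ : Measure (Ka S.κ k → ℝ)), C ≠ ∞ ∧ IsFiniteMeasure Λ ∧ ∀ ε : ℝ, 0 < ε →
      Dom (γ - a') ρ ε 1 ∅ C Λ
        (((itS S Φ b₀ te q (k + i)).m ε).withDensity fun x =>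
          ENNReal.ofReal (1 + ‖(eL ((itS S Φ b₀ te q (k + i)).th ε x)).1.2.2‖))
        (fun x => (itS S Φ b₀ te q k).b ε (prj S.Θ k i x))
        (fun x => (itS S Φ b₀ te q k).z ε (prj S.Θ k i x)) := by
  have := shpOk_nonempty h
  obtain ⟨c, Λ, hΛ, hB⟩ := shpOk_baseHyp h hρ
  obtain ⟨C, hC, hD⟩ := hB.dom_sub (te := te) (q := q) hΦ hb hq k i ha' hab
  exact ⟨C, LaN Λ k, hC, instFinLaN Λ k, hD⟩

/-- Translation invariance of the level `k` inside `itS S (k + i)`, second line. -/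
theorem tinvS_sub_itS_e (h : ShpOk γ β ρ S) (hΦ : AdmissiblePotential Φ) (hε : 0 < ε) (k i : ℕ) :
    TInvS ((itS S Φ b₀ te q (k + i)).m ε) (itS S Φ b₀ te q (k + i)).Tr
      (fun x => (itS S Φ b₀ te q k).b ε (prj S.Θ k i x))
      (fun x => (itS S Φ b₀ te q k).z ε (prj S.Θ k i x))
      (fun x => (eL ((itS S Φ b₀ te q (k + i)).th ε x)).1) := by
  have h1 := tinvS_sub_e (ε := ε) (b₀ := b₀) (te := te) (q := q) (ShpOk.sd_ok h hε) hΦ k i
  rw [iter_Tr] at h1
  exact h1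


end shapes

end Crest.Agent.R122.Marg494

end
end

-- ▼ part R122/RunInv_416
section

/-!
# Row 122, H11 (helper416): runs from translation invariant structures

The structure measure `m` is translation invariant (infinite mass), the run is localised by the gas
(mass transport).

* `evo_shift`, `path_shW` : the evolution with births commutes with translations.
* `runM_tail_inv` : `∫ da gcE (runM (Z + a)) ≤ η_L exp (2 β kin Z)`.
* `gLe_run_invW` : runs from a world of a translation invariant structure, pinned moment.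
* `gLe_runS_inv` : runs from the groups of members; `gLe_run_inv` : runs from finitely many lines.
-/

set_option autoImplicit false
set_option linter.unusedSectionVars false
set_option maxHeartbeats 400000

open MeasureTheory Set Filter Topology
open scoped Classical ENNReal
open Crest.AnalysisR.Kinetic
open Crest.Agent.R122.Flow671 Crest.Agent.R122.Loc45 Crest.Agent.R122.Ins45
open Crest.Agent.R122.Vol365 Crest.Agent.R122.Causal291
open Crest.Agent.R122.GC311 Crest.Agent.R122.EDefs602 Crest.Agent.R122.LinkM547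
open Crest.Agent.R122.LN2 Crest.Agent.R122.Gate424

noncomputable section

namespace Crest.Agent.R122.RunInv416

/-! ## Translations of the evolution with births -/

section evo

variable {Φ : Space3 → ℝ} {ε : ℝ} {ι : Type*} [Fintype ι]

theorem flowA_shift (hΦ : AdmissiblePotential Φ) (hε : 0 < ε) (A : Finset ι) (t : ℝ) (a : Space3)
    (Z : ι → PhasePoint) : flowA Φ ε A t (Loc45.shiftX a Z) = Loc45.shiftX a (flowA Φ ε A t Z) := by
  funext i
  by_cases h : i ∈ A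
  · rw [flowA_mem A t _ h]
    have h1 := flow_shiftX hΦ hε a t (fun j : A => Z j)
    have h2 : (fun j : A => Loc45.shiftX a Z j) = Loc45.shiftX a (fun j : A => Z j) := rfl
    rw [h2, h1]
    change _ = ((flowA Φ ε A t Z i).1 + a, (flowA Φ ε A t Z i).2)
    rw [flowA_mem A t _ h]
    rfl
  · rw [flowA_not_mem A t _ h]
    change _ = ((flowA Φ ε A t Z i).1 + a, (flowA Φ ε A t Z i).2)
    rw [flowA_not_mem A t _ h]
    change ((Z i).1 + a + t • (Z i).2, (Z i).2) = ((Z i).1 + t • (Z i).2 + a, (Z i).2)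
    rw [add_right_comm]

theorem evoN_shift (hΦ : AdmissiblePotential Φ) (hε : 0 < ε) (b : ι → ℝ) (a : Space3) (n : ℕ) :
    ∀ (s t : ℝ) (Z : ι → PhasePoint), evoN Φ ε b n s t (Loc45.shiftX a Z) =
      Loc45.shiftX a (evoN Φ ε b n s t Z) := by
  induction n with
  | zero =>
    intro s t Z
    exact flowA_shift hΦ hε _ _ a Z
  | succ n ih =>
    intro s t Z
    simp only [evoN]
    by_cases h : nxt b s t < t
    · rw [if_pos h, if_pos h, flowA_shift hΦ hε, ih]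
    · rw [if_neg h, if_neg h, flowA_shift hΦ hε]

/-- The evolution with births commutes with translations. -/
theorem evo_shift (hΦ : AdmissiblePotential Φ) (hε : 0 < ε) (b : ι → ℝ) (a : Space3) (s t : ℝ)
    (Z : ι → PhasePoint) : evo Φ ε b s t (Loc45.shiftX a Z) =
      Loc45.shiftX a (evo Φ ε b s t Z) := evoN_shift hΦ hε b a _ s t Z

end evo

variable {Φ : Space3 → ℝ} {ε : ℝ}

section world

variable {G : Type} [Fintype G]

/-- Translation of a marked world. -/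
def shW (a : Space3) (Z : MW G) : MW G := ⟨Z.b, Loc45.shiftX a Z.z, Z.m⟩

theorem path_shW (hΦ : AdmissiblePotential Φ) (hε : 0 < ε) (a : Space3) (Z : MW G) (r : ℝ)
    (q : G) : ((shW a Z).path Φ ε r q).1 = (Z.path Φ ε r q).1 + a := by
  unfold MW.path shW
  rw [evo_shift hΦ hε]
  rfl


end world

/-! ## The first cluster -/

/-- mass of the first cluster of a run starting at the point `x` -/
def BlP (Φ : Space3 → ℝ) (f₀ : PhasePoint → ℝ) (ε β T : ℝ) (s : Step) (r : ℝ) (x : Space3) :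
    ℝ≥0∞ :=
  ∫⁻ V : Config s.k, gcWeight f₀ ε s.k V * ENNReal.ofReal (Real.exp (2 * β * kin V)) *
    (if AllConn (NContact Φ ε 0 T V) ∧ dist (flow Φ ε r V s.e).1 x ≤ 3 * ε then 1 else 0)

theorem measurable_blPI (hΦ : AdmissiblePotential Φ) (hε : 0 < ε) {f₀ : PhasePoint → ℝ}
    (hf : Measurable f₀) (β T : ℝ) (s : Step) (r : ℝ) :
    Measurable fun p : Space3 × Config s.k => gcWeight f₀ ε s.k p.2 *
      ENNReal.ofReal (Real.exp (2 * β * kin p.2)) *
      (if AllConn (NContact Φ ε 0 T p.2) ∧ dist (flow Φ ε r p.2 s.e).1 p.1 ≤ 3 * ε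
        then (1 : ℝ≥0∞) else 0) := by
  refine Measurable.mul (((measurable_gcWeight hf ε s.k).comp measurable_snd).mul ?_) ?_
  · exact ((Real.measurable_exp.comp (measurable_kin.const_mul (2 * β))).ennreal_ofReal).comp
      measurable_snd
  · refine Measurable.ite (MeasurableSet.inter (measurable_snd (measurableSet_allConn hΦ hε T s.k))
      ?_) measurable_const measurable_const
    refine measurableSet_le (Measurable.dist ?_ measurable_fst) measurable_const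
    exact (((measurable_pi_apply s.e).comp ((measurable_flow (ι := Fin s.k) hΦ hε r).comp
      measurable_snd))).fst

theorem measurable_blP (hΦ : AdmissiblePotential Φ) (hε : 0 < ε) {f₀ : PhasePoint → ℝ}
    (hf : Measurable f₀) (β T : ℝ) (s : Step) (r : ℝ) : Measurable (BlP Φ f₀ ε β T s r) :=
  (measurable_blPI hΦ hε hf β T s r).lintegral_prod_right'

/-- First cluster, integrated over the starting point. -/
theorem lintegral_blP_le (hΦ : AdmissiblePotential Φ) (hε : 0 < ε) {f₀ : PhasePoint → ℝ}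
    (hf : Measurable f₀) {β T : ℝ} {C₂ : ℝ≥0∞} (s : Step) (r : ℝ)
    (hc : ∫⁻ V : Config s.k, gcWeight f₀ ε s.k V * ENNReal.ofReal (Real.exp (2 * β * kin V)) *
          (if AllConn (NContact Φ ε 0 T V) then 1 else 0) ≤
        C₂ * ENNReal.ofReal ε ^ (2 * (s.k - 1))) :
    ∫⁻ x, BlP Φ f₀ ε β T s r x ≤
      (ENNReal.ofReal (4 / 3 * Real.pi) * C₂) * ENNReal.ofReal ε ^ (2 * (s.k - 1)) *
        ENNReal.ofReal (3 * ε) ^ 3 := by
  have hm := measurable_blPI hΦ hε hf β T s r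
  have hball : ∀ a : Space3, ∫⁻ x : Space3, (if dist a x ≤ 3 * ε then (1 : ℝ≥0∞) else 0) =
      ENNReal.ofReal (4 / 3 * Real.pi) * ENNReal.ofReal (3 * ε) ^ 3 := by
    intro a
    have e1 : (fun x : Space3 => if dist a x ≤ 3 * ε then (1 : ℝ≥0∞) else 0) =
        (Metric.closedBall a (3 * ε)).indicator 1 := by
      funext x
      by_cases h : dist a x ≤ 3 * ε
      · rw [if_pos h, indicator_of_mem (Metric.mem_closedBall.2 (by rwa [dist_comm]))]
        rfl
      · rw [if_neg h, indicator_of_notMem fun h' => h (by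
          rw [dist_comm]
          exact Metric.mem_closedBall.1 h')]
    rw [e1, lintegral_indicator_one Metric.isClosed_closedBall.measurableSet,
      EuclideanSpace.volume_closedBall_fin_three, mul_comm]
    congr 2
    ring
  calc ∫⁻ x, BlP Φ f₀ ε β T s r x
      = ∫⁻ V : Config s.k, ∫⁻ x : Space3, gcWeight f₀ ε s.k V *
          ENNReal.ofReal (Real.exp (2 * β * kin V)) *
          (if AllConn (NContact Φ ε 0 T V) ∧ dist (flow Φ ε r V s.e).1 x ≤ 3 * ε
            then (1 : ℝ≥0∞) else 0) := lintegral_lintegral_swap hm.aemeasurable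
    _ = ∫⁻ V : Config s.k, (gcWeight f₀ ε s.k V * ENNReal.ofReal (Real.exp (2 * β * kin V)) *
          (if AllConn (NContact Φ ε 0 T V) then 1 else 0)) *
            (ENNReal.ofReal (4 / 3 * Real.pi) * ENNReal.ofReal (3 * ε) ^ 3) := by
        refine lintegral_congr fun V => ?_
        by_cases hV : AllConn (NContact Φ ε 0 T V)
        · have hmx : Measurable fun x : Space3 =>
              (if dist (flow Φ ε r V s.e).1 x ≤ 3 * ε then (1 : ℝ≥0∞) else 0) :=
            Measurable.ite (measurableSet_le (measurable_const.dist measurable_id)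
              measurable_const) measurable_const measurable_const
          simp only [hV, true_and, if_true, mul_one]
          rw [lintegral_const_mul _ hmx, hball]
        · simp [hV]
    _ = (∫⁻ V : Config s.k, gcWeight f₀ ε s.k V * ENNReal.ofReal (Real.exp (2 * β * kin V)) *
          (if AllConn (NContact Φ ε 0 T V) then 1 else 0)) *
            (ENNReal.ofReal (4 / 3 * Real.pi) * ENNReal.ofReal (3 * ε) ^ 3) :=
        lintegral_mul_const' _ _ (ENNReal.mul_ne_top ENNReal.ofReal_ne_top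
          (ENNReal.pow_ne_top ENNReal.ofReal_ne_top))
    _ ≤ (C₂ * ENNReal.ofReal ε ^ (2 * (s.k - 1))) *
          (ENNReal.ofReal (4 / 3 * Real.pi) * ENNReal.ofReal (3 * ε) ^ 3) :=
        mul_le_mul_left hc _
    _ = _ := by ring

/-- bound of one grid run from a world whose current particle is at `x r` at time `r`, kinetic
energy `E` -/
def UbP (Φ : Space3 → ℝ) (f₀ : PhasePoint → ℝ) (ε β T : ℝ) (C : ℝ≥0∞) (N : ℕ) (E : ℝ)
    (x : ℝ → Space3) : List (Step × ℝ) → ℝ≥0∞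
  | [] => ∞
  | (s, r) :: l' => ENNReal.ofReal (Real.exp (-(2 * β * (N - 1)))) *
      activity ε ^ (tot ((s, r) :: l')) *
      (l'.map fun p => C * ENNReal.ofReal ε ^ (2 * (p.1.k - 1)) *
        ENNReal.ofReal (3 * ε) ^ 3).prod *
      (ENNReal.ofReal (Real.exp (2 * β * E)) * BlP Φ f₀ ε β T s r (x r))

theorem measurable_ubP (hΦ : AdmissiblePotential Φ) (hε : 0 < ε) {f₀ : PhasePoint → ℝ}
    (hf : Measurable f₀) (β T : ℝ) (C : ℝ≥0∞) (N : ℕ) (E : ℝ) (x : ℝ → Space3)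
    (L : List (Step × ℝ)) :
    Measurable fun a : Space3 => UbP Φ f₀ ε β T C N E (fun r => x r + a) L := by
  rcases L with _ | ⟨⟨s, r⟩, l'⟩
  · exact measurable_const
  · have h1 : Measurable fun a : Space3 => BlP Φ f₀ ε β T s r (x r + a) :=
      (measurable_blP hΦ hε hf β T s r).comp (measurable_const.add measurable_id)
    exact (h1.const_mul _).const_mul _

/-- Pointwise bound. -/
theorem gcE_GI_world_le (hΦ : AdmissiblePotential Φ) {f₀ : PhasePoint → ℝ} (hf : Measurable f₀)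
    (h1 : ∫⁻ z, ENNReal.ofReal (f₀ z) ≤ 1) (hε : 0 < ε) {T β : ℝ} (hβ : 0 ≤ β) {K : ℕ}
    {C : ℝ≥0∞} (hCtop : C ≠ ∞)
    (hC : ∀ k ≤ K, ∀ (e : Fin k) (r : ℝ), 0 ≤ r → r ≤ T → ∀ a : Space3,
      ∫⁻ V : Config k, gcWeight f₀ ε k V * ENNReal.ofReal (Real.exp (2 * β * kin V)) *
          (if AllConn (NContact Φ ε 0 T V) ∧ dist (flow Φ ε r V e).1 a ≤ 3 * ε then 1 else 0) ≤
        C * ENNReal.ofReal ε ^ (2 * (k - 1)) * ENNReal.ofReal (3 * ε) ^ 3)
    {G : Type} [Fintype G] (Z : MW G) (q : G) (N : ℕ) (L : List (Step × ℝ))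
    (hk : ∀ p ∈ L, 1 ≤ p.1.k ∧ p.1.k ≤ K) (ht : ∀ p ∈ L, p.2 ∈ Icc (0 : ℝ) T) :
    gcE f₀ ε (fun n w => ∑ ι : Fin (tot L) ↪ Fin n,
      GI Φ ε T G Z q N L (fun i => w (ι i))) ≤
        UbP Φ f₀ ε β T C N (kin Z.z) (fun r => (Z.path Φ ε r q).1) L := by
  rcases L with _ | ⟨⟨s, r⟩, l'⟩
  · exact le_top
  refine (gcE_sum_emb_le hf h1 ε (GI Φ ε T G Z q N _)
    (measurable_GI hΦ hε T G Z q N _)).trans ?_
  have hle : ∀ V : Config (tot ((s, r) :: l')), GI Φ ε T G Z q N ((s, r) :: l') V ≤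
      ENNReal.ofReal (Real.exp (2 * β * (kin Z.z - (N - 1)))) *
        (ENNReal.ofReal (Real.exp (2 * β * kin V)) *
          (if Ch Φ ε T (3 * ε) ((s, r) :: l') G Z q V then (1 : ℝ≥0∞) else 0)) := by
    intro V
    unfold GI
    by_cases h : Ch Φ ε T (3 * ε) ((s, r) :: l') G Z q V ∧ (N : ℝ) - 1 ≤ kin Z.z + kin V
    · rw [if_pos h, if_pos h.1, mul_one, ← ENNReal.ofReal_mul (Real.exp_pos _).le, ← Real.exp_add,
        ENNReal.one_le_ofReal, Real.one_le_exp_iff]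
      have := h.2
      have e : 2 * β * (kin Z.z - (N - 1)) + 2 * β * kin V =
        2 * β * (kin Z.z + kin V - (N - 1)) := by ring
      rw [e]
      refine mul_nonneg (by positivity) (by linarith)
    · rw [if_neg h]; exact bot_le
  have hstep := lintegral_ch_cons hΦ hf hε (ρ := 3 * ε) (κ := 2 * β) hCtop hC s r l'
    (fun p hp => (hk p (List.mem_cons_of_mem _ hp)).2)
    (fun p hp => ht p (List.mem_cons_of_mem _ hp)) G Z q
  have hee : ENNReal.ofReal (Real.exp (2 * β * (kin Z.z - (N - 1)))) =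
      ENNReal.ofReal (Real.exp (-(2 * β * (N - 1)))) *
        ENNReal.ofReal (Real.exp (2 * β * kin Z.z)) := by
    rw [← ENNReal.ofReal_mul (Real.exp_pos _).le, ← Real.exp_add]
    congr 2
    ring
  calc activity ε ^ tot ((s, r) :: l') * ∫⁻ V : Config (tot ((s, r) :: l')),
        gcWeight f₀ ε (tot ((s, r) :: l')) V * GI Φ ε T G Z q N ((s, r) :: l') V
      ≤ activity ε ^ tot ((s, r) :: l') * ∫⁻ V : Config (tot ((s, r) :: l')),
          ENNReal.ofReal (Real.exp (2 * β * (kin Z.z - (N - 1)))) *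
          (gcWeight f₀ ε (tot ((s, r) :: l')) V * (ENNReal.ofReal (Real.exp (2 * β * kin V)) *
          (if Ch Φ ε T (3 * ε) ((s, r) :: l') G Z q V then (1 : ℝ≥0∞) else 0))) := by
        refine mul_le_mul_right (lintegral_mono fun V => ?_) _
        calc gcWeight f₀ ε (tot ((s, r) :: l')) V * GI Φ ε T G Z q N ((s, r) :: l') V
            ≤ gcWeight f₀ ε (tot ((s, r) :: l')) V *
              (ENNReal.ofReal (Real.exp (2 * β * (kin Z.z - (N - 1)))) *
              (ENNReal.ofReal (Real.exp (2 * β * kin V)) *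
              (if Ch Φ ε T (3 * ε) ((s, r) :: l') G Z q V
                then (1 : ℝ≥0∞) else 0))) := mul_le_mul_right (hle V) _
          _ = _ := by ring
    _ = ENNReal.ofReal (Real.exp (2 * β * (kin Z.z - (N - 1)))) *
          (activity ε ^ tot ((s, r) :: l') *
          ∫⁻ V : Config (tot ((s, r) :: l')), gcWeight f₀ ε (tot ((s, r) :: l')) V *
            (ENNReal.ofReal (Real.exp (2 * β * kin V)) *
            (if Ch Φ ε T (3 * ε) ((s, r) :: l') G Z q V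
              then (1 : ℝ≥0∞) else 0))) := by
        rw [lintegral_const_mul' _ _ ENNReal.ofReal_ne_top]
        ring
    _ ≤ ENNReal.ofReal (Real.exp (2 * β * (kin Z.z - (N - 1)))) *
          (activity ε ^ tot ((s, r) :: l') * (BlP Φ f₀ ε β T s r (Z.path Φ ε r q).1 *
          (l'.map fun p => C * ENNReal.ofReal ε ^ (2 * (p.1.k - 1)) *
            ENNReal.ofReal (3 * ε) ^ 3).prod)) :=
        mul_le_mul_right (mul_le_mul_right hstep _) _
    _ = UbP Φ f₀ ε β T C N (kin Z.z) (fun r => (Z.path Φ ε r q).1) ((s, r) :: l') := by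
        rw [hee]
        unfold UbP
        ring

/-- Integral of the bound over the translations. -/
theorem lintegral_ubP_le (hΦ : AdmissiblePotential Φ) (hε : 0 < ε) {f₀ : PhasePoint → ℝ}
    (hf : Measurable f₀) {β T : ℝ} {K : ℕ} {C C₁ C₂ : ℝ≥0∞}
    (hCtop : C ≠ ∞) (hC₁ : ENNReal.ofReal (4 / 3 * Real.pi) = C₁)
    (hc : ∀ k, 1 ≤ k → k ≤ K → ∫⁻ V : Config k, gcWeight f₀ ε k V *
        ENNReal.ofReal (Real.exp (2 * β * kin V)) *
          (if AllConn (NContact Φ ε 0 T V) then 1 else 0) ≤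
        C₂ * ENNReal.ofReal ε ^ (2 * (k - 1))) (N : ℕ) (E : ℝ) (x : ℝ → Space3)
    (L : List (Step × ℝ)) (hL : L ≠ []) (hk : ∀ p ∈ L, 1 ≤ p.1.k ∧ p.1.k ≤ K) :
    ∫⁻ a : Space3, UbP Φ f₀ ε β T C N E (fun r => x r + a) L ≤
      ENNReal.ofReal (Real.exp (2 * β * E)) * (ENNReal.ofReal (Real.exp (-(2 * β * (N - 1)))) *
        (27 * (C + C₁ * C₂) * ENNReal.ofReal ε) ^ L.length) := by
  rcases L with _ | ⟨⟨s, r⟩, l'⟩
  · exact absurd rfl hL
  have hks := hk (s, r) (List.mem_cons_self ..)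
  have h1 := lintegral_blP_le hΦ hε hf s r (hc s.k hks.1 hks.2)
  rw [hC₁] at h1
  have hPtop : (l'.map fun p => C * ENNReal.ofReal ε ^ (2 * (p.1.k - 1)) *
        ENNReal.ofReal (3 * ε) ^ 3).prod ≠ ∞ := by
    refine list_prod_ne_top _ ?_
    intro x hx
    rw [List.mem_map] at hx
    obtain ⟨p, -, rfl⟩ := hx
    exact ENNReal.mul_ne_top (ENNReal.mul_ne_top hCtop (ENNReal.pow_ne_top ENNReal.ofReal_ne_top))
      (ENNReal.pow_ne_top ENNReal.ofReal_ne_top)
  have hc0 : ENNReal.ofReal (Real.exp (-(2 * β * (N - 1)))) *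
      activity ε ^ (tot ((s, r) :: l')) *
      (l'.map fun p => C * ENNReal.ofReal ε ^ (2 * (p.1.k - 1)) *
        ENNReal.ofReal (3 * ε) ^ 3).prod ≠ ∞ := by
    refine ENNReal.mul_ne_top (ENNReal.mul_ne_top ENNReal.ofReal_ne_top
      (ENNReal.pow_ne_top ?_)) hPtop
    unfold activity
    exact ENNReal.ofReal_ne_top
  change ∫⁻ a : Space3, ENNReal.ofReal (Real.exp (-(2 * β * (N - 1)))) *
      activity ε ^ (tot ((s, r) :: l')) *
      (l'.map fun p => C * ENNReal.ofReal ε ^ (2 * (p.1.k - 1)) *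
        ENNReal.ofReal (3 * ε) ^ 3).prod *
      (ENNReal.ofReal (Real.exp (2 * β * E)) * BlP Φ f₀ ε β T s r (x r + a)) ≤ _
  rw [lintegral_const_mul' _ _ hc0, lintegral_const_mul' _ _ ENNReal.ofReal_ne_top,
    lintegral_add_left_eq_self (fun y => BlP Φ f₀ ε β T s r y) (x r)]
  have ha : activity ε * ENNReal.ofReal (3 * ε) ^ 3 = 27 * ENNReal.ofReal ε := by
    unfold activity
    rw [← ENNReal.ofReal_pow (by positivity), ← ENNReal.ofReal_mul (by positivity)]
    have : (ε ^ 2)⁻¹ * (3 * ε) ^ 3 = 27 * ε := by field_simp; ring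
    rw [this, ENNReal.ofReal_mul (by norm_num)]
    congr 1
    exact ENNReal.ofReal_ofNat 27
  have h2 := activity_pow_mul hε hks.1
  have h3 := activity_tot (C := C) hε l' fun p hp => (hk p (List.mem_cons_of_mem _ hp)).1
  calc ENNReal.ofReal (Real.exp (-(2 * β * (N - 1)))) * activity ε ^ (tot ((s, r) :: l')) *
      (l'.map fun p => C * ENNReal.ofReal ε ^ (2 * (p.1.k - 1)) *
        ENNReal.ofReal (3 * ε) ^ 3).prod *
      (ENNReal.ofReal (Real.exp (2 * β * E)) * ∫⁻ y, BlP Φ f₀ ε β T s r y)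
      ≤ ENNReal.ofReal (Real.exp (-(2 * β * (N - 1)))) * activity ε ^ (tot ((s, r) :: l')) *
      (l'.map fun p => C * ENNReal.ofReal ε ^ (2 * (p.1.k - 1)) *
        ENNReal.ofReal (3 * ε) ^ 3).prod *
      (ENNReal.ofReal (Real.exp (2 * β * E)) *
        ((C₁ * C₂) * ENNReal.ofReal ε ^ (2 * (s.k - 1)) * ENNReal.ofReal (3 * ε) ^ 3)) :=
        mul_le_mul_right (mul_le_mul_right h1 _) _
    _ = ENNReal.ofReal (Real.exp (2 * β * E)) * (ENNReal.ofReal (Real.exp (-(2 * β * (N - 1)))) *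
        (activity ε ^ tot l' * (l'.map fun p => C * ENNReal.ofReal ε ^ (2 * (p.1.k - 1)) *
        ENNReal.ofReal (3 * ε) ^ 3).prod) * (activity ε ^ s.k *
          ENNReal.ofReal ε ^ (2 * (s.k - 1)) * (C₁ * C₂) * ENNReal.ofReal (3 * ε) ^ 3)) := by
        change ENNReal.ofReal (Real.exp (-(2 * β * (N - 1)))) * activity ε ^ (s.k + tot l') * _ *
          _ = _
        rw [pow_add]
        ring
    _ = ENNReal.ofReal (Real.exp (2 * β * E)) * (ENNReal.ofReal (Real.exp (-(2 * β * (N - 1)))) *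
        ((27 * C * ENNReal.ofReal ε) ^ l'.length * (27 * (C₁ * C₂) * ENNReal.ofReal ε))) := by
        rw [h3, h2]
        have : activity ε * (C₁ * C₂) * ENNReal.ofReal (3 * ε) ^ 3 =
          27 * (C₁ * C₂) * ENNReal.ofReal ε := by
          calc activity ε * (C₁ * C₂) * ENNReal.ofReal (3 * ε) ^ 3
              = (activity ε * ENNReal.ofReal (3 * ε) ^ 3) * (C₁ * C₂) := by ring
            _ = _ := by rw [ha]; ring
        rw [this]
        ring
    _ ≤ ENNReal.ofReal (Real.exp (2 * β * E)) * (ENNReal.ofReal (Real.exp (-(2 * β * (N - 1)))) *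
        ((27 * (C + C₁ * C₂) * ENNReal.ofReal ε) ^ l'.length *
          (27 * (C + C₁ * C₂) * ENNReal.ofReal ε))) := by
        refine mul_le_mul_right (mul_le_mul_right (mul_le_mul' (pow_le_pow_left' ?_ _) ?_) _) _
        · exact mul_le_mul_left (mul_le_mul_right le_self_add _) _
        · exact mul_le_mul_left (mul_le_mul_right le_add_self _) _
    _ = _ := by rw [← pow_succ]; rfl

/-- **Tail of the runs from a world, integrated over the translations of the world** (the run is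
localised by the gas). -/
theorem runM_tail_inv (hΦ : AdmissiblePotential Φ) {β : ℝ} (hβ : 0 < β)
    (T A : ℝ) (hT : 0 ≤ T) (hA : 0 ≤ A) (K K0 : ℕ) {f₀ : PhasePoint → ℝ} (hf : Measurable f₀)
    (h1 : ∫⁻ z, ENNReal.ofReal (f₀ z) ≤ 1) {env : Space3 → ℝ≥0∞} (hE : EnvB β f₀ env A) :
    ∃ η : ℕ → ℝ≥0∞, Tendsto η atTop (𝓝 0) ∧ (∀ L, η L ≠ ∞) ∧
      ∀ L : ℕ, 1 ≤ L → ∃ ε₀ : ℝ, 0 < ε₀ ∧ ∀ ε : ℝ, 0 < ε → ε < ε₀ →
        ∀ (G : Type) [Fintype G], Fintype.card G ≤ K0 → ∀ (Z : MW G) (q : G),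
        ∫⁻ a : Space3, gcE f₀ ε (fun n w => runM Φ ε T K L G (shW a Z) q n w) ≤
          η L * ENNReal.ofReal (Real.exp (2 * β * kin Z.z)) := by
  have hfC : ∀ z : PhasePoint, f₀ z ≤ A * Real.exp (-(2 * β * ‖z.2‖ ^ 2)) := by
    intro z
    have h2 : ENNReal.ofReal (f₀ z) ≤ ENNReal.ofReal (A * Real.exp (-(2 * β * ‖z.2‖ ^ 2))) := by
      rw [ENNReal.ofReal_mul hA]
      exact (hE.bound z).trans (mul_le_mul_left (hE.le _) _)
    exact (ENNReal.ofReal_le_ofReal_iff (mul_nonneg hA (Real.exp_pos _).le)).1 h2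
  obtain ⟨C, hCtop, hC⟩ := step_bound hΦ hβ T A hA K
  obtain ⟨C', hC'top, hC'⟩ := conn_bound hΦ hβ T A hT K
  set C₁ : ℝ≥0∞ := ENNReal.ofReal (4 / 3 * Real.pi) with hC₁
  have hC₁top : C₁ ≠ ∞ := ENNReal.ofReal_ne_top
  set C₂ : ℝ≥0∞ := C' * ∫⁻ x, env x with hC₂
  have hC₂top : C₂ ≠ ∞ := ENNReal.mul_ne_top hC'top hE.int_ne
  have hB := stabB_nonneg Φ
  obtain ⟨η, hη, hηtop, hsum⟩ := grid_sum hB hβ T hT K K0 (C := C + C₁ * C₂)
    (ENNReal.add_ne_top.2 ⟨hCtop, ENNReal.mul_ne_top hC₁top hC₂top⟩)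
  refine ⟨η, hη, hηtop, ?_⟩
  intro L hL
  refine ⟨1 / (L + 1), by positivity, ?_⟩
  intro ε hε hεL G _ hG Z q
  have hεL' : ε * (L + 1) ≤ 1 := by
    have : (0 : ℝ) < (L : ℝ) + 1 := by positivity
    have := (lt_div_iff₀ this).1 hεL
    linarith
  have hε1 : ε ≤ 1 := by
    have : (1 : ℝ) / (L + 1) ≤ 1 := by
      rw [div_le_one (by positivity)]
      have : (0 : ℝ) ≤ (L : ℝ) := by positivity
      linarith
    linarith
  have hCf : ∀ k ≤ K, ∀ (e : Fin k) (r : ℝ), 0 ≤ r → r ≤ T → ∀ a : Space3,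
      ∫⁻ V : Config k, gcWeight f₀ ε k V * ENNReal.ofReal (Real.exp (2 * β * kin V)) *
        (if AllConn (NContact Φ ε 0 T V) ∧ dist (flow Φ ε r V e).1 a ≤ 3 * ε then 1 else 0) ≤
      C * ENNReal.ofReal ε ^ (2 * (k - 1)) * ENNReal.ofReal (3 * ε) ^ 3 := by
    intro k hk e r h0 hT' a
    exact hC f₀ hfC ε hε hε1 k hk e r h0 hT' a (3 * ε) (by positivity)
  have hconn : ∀ k, 1 ≤ k → k ≤ K → ∫⁻ V : Config k, gcWeight f₀ ε k V *
      ENNReal.ofReal (Real.exp (2 * β * kin V)) *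
        (if AllConn (NContact Φ ε 0 T V) then 1 else 0) ≤
      C₂ * ENNReal.ofReal ε ^ (2 * (k - 1)) := by
    intro k h1' hk
    refine (hC' f₀ env hE ε hε hε1 k h1' hk).trans (le_of_eq ?_)
    rw [hC₂]
    ring
  set B := stabB Φ with hBdef
  set cG : ℝ := (Fintype.card G : ℝ) with hcG
  have hcG1 : cG ≤ (K0 : ℝ) := by rw [hcG]; exact_mod_cast hG
  have hgl : ∀ (N : ℕ) (σ : Sym (Fin (mN T ε B cG L K N)) L) (st : List.Vector (StepK K) L),
      (∀ p ∈ gl (ε / MN B cG L K N) σ st, 1 ≤ p.1.k ∧ p.1.k ≤ K) ∧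
      (∀ p ∈ gl (ε / MN B cG L K N) σ st, p.2 ∈ Icc (0 : ℝ) T) ∧
      gl (ε / MN B cG L K N) σ st ≠ [] := by
    intro N σ st
    refine ⟨fun p hp => ⟨(mem_gl hp).1, (mem_gl hp).2.1⟩, fun p hp => ?_, ?_⟩
    · have hM0 : 0 < MN B cG L K N := lt_of_lt_of_le one_pos (one_le_MN _ _ _ _ _)
      have hδ : 0 < ε / MN B cG L K N := div_pos hε hM0
      obtain ⟨-, -, a, ha⟩ := mem_gl hp
      rw [ha]
      refine ⟨by positivity, ?_⟩
      have h3 : (a.1 : ℕ) ≤ ⌊T / (ε / MN B cG L K N)⌋₊ := by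
        have := a.2
        unfold mN at this
        omega
      calc ε / MN B cG L K N * ((a.1 : ℕ) : ℝ)
          ≤ ε / MN B cG L K N * (⌊T / (ε / MN B cG L K N)⌋₊ : ℝ) := by
            refine mul_le_mul_of_nonneg_left ?_ hδ.le
            exact_mod_cast h3
        _ ≤ T := (rd_bounds hδ hT).2.1
    · intro h
      have := length_gl (ε / MN B cG L K N) σ st
      rw [h] at this
      simp at this
      omega
  have hmeas : ∀ (W : MW G) (n N : ℕ) (σ : Sym (Fin (mN T ε B cG L K N)) L)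
      (st : List.Vector (StepK K) L), Measurable fun w : Config n =>
        ∑ ι : Fin (tot (gl (ε / MN B cG L K N) σ st)) ↪ Fin n,
          GI Φ ε T G W q N (gl (ε / MN B cG L K N) σ st) (fun i => w (ι i)) := by
    intro W n N σ st
    refine Finset.measurable_sum _ fun ι _ => ?_
    exact (measurable_GI hΦ hε T G W q N _).comp
      (measurable_pi_iff.2 fun i => measurable_pi_apply (ι i))
  have hpt : ∀ a : Space3, gcE f₀ ε (fun n w => runM Φ ε T K L G (shW a Z) q n w) ≤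
      ∑' N : ℕ, ∑ σ : Sym (Fin (mN T ε B cG L K N)) L, ∑ st : List.Vector (StepK K) L,
        UbP Φ f₀ ε β T C N (kin Z.z) (fun r => (Z.path Φ ε r q).1 + a)
          (gl (ε / MN B cG L K N) σ st) := by
    intro a
    calc gcE f₀ ε (fun n w => runM Φ ε T K L G (shW a Z) q n w)
        = gcE f₀ ε (fun n w => ∑' N : ℕ, ∑ σ : Sym (Fin (mN T ε B cG L K N)) L,
            ∑ st : List.Vector (StepK K) L,
              ∑ ι : Fin (tot (gl (ε / MN B cG L K N) σ st)) ↪ Fin n,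
                GI Φ ε T G (shW a Z) q N (gl (ε / MN B cG L K N) σ st)
                  (fun i => w (ι i))) := rfl
      _ = ∑' N : ℕ, ∑ σ : Sym (Fin (mN T ε B cG L K N)) L,
            ∑ st : List.Vector (StepK K) L, gcE f₀ ε (fun n w =>
              ∑ ι : Fin (tot (gl (ε / MN B cG L K N) σ st)) ↪ Fin n,
                GI Φ ε T G (shW a Z) q N (gl (ε / MN B cG L K N) σ st)
                  (fun i => w (ι i))) := by
          rw [gcE_tsum hf ε (F := fun N n w =>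
            ∑ σ : Sym (Fin (mN T ε B cG L K N)) L,
            ∑ st : List.Vector (StepK K) L,
              ∑ ι : Fin (tot (gl (ε / MN B cG L K N) σ st)) ↪ Fin n,
                GI Φ ε T G (shW a Z) q N (gl (ε / MN B cG L K N) σ st)
                  (fun i => w (ι i)))
            (fun N n => Finset.measurable_sum _ fun σ _ => Finset.measurable_sum _ fun st _ =>
              hmeas _ n N σ st)]
          refine tsum_congr fun N => ?_
          rw [gcE_finset_sum hf ε Finset.univ (F := fun σ n w =>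
            ∑ st : List.Vector (StepK K) L,
              ∑ ι : Fin (tot (gl (ε / MN B cG L K N) σ st)) ↪ Fin n,
                GI Φ ε T G (shW a Z) q N (gl (ε / MN B cG L K N) σ st)
                  (fun i => w (ι i)))
            (fun σ _ n => Finset.measurable_sum _ fun st _ => hmeas _ n N σ st)]
          refine Finset.sum_congr rfl fun σ _ => ?_
          rw [gcE_finset_sum hf ε Finset.univ (F := fun st n w =>
              ∑ ι : Fin (tot (gl (ε / MN B cG L K N) σ st)) ↪ Fin n,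
                GI Φ ε T G (shW a Z) q N (gl (ε / MN B cG L K N) σ st)
                  (fun i => w (ι i)))
            (fun st _ n => hmeas _ n N σ st)]
      _ ≤ _ := by
          refine ENNReal.tsum_le_tsum fun N => Finset.sum_le_sum fun σ _ =>
            Finset.sum_le_sum fun st _ => ?_
          have h5 := gcE_GI_world_le hΦ hf h1 hε hβ.le hCtop hCf (shW a Z) q N _ (hgl N σ st).1
            (hgl N σ st).2.1
          simp only [path_shW hΦ hε] at h5
          exact h5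
  have hmU : ∀ (N : ℕ) (σ : Sym (Fin (mN T ε B cG L K N)) L) (st : List.Vector (StepK K) L),
      Measurable fun a : Space3 => UbP Φ f₀ ε β T C N (kin Z.z)
        (fun r => (Z.path Φ ε r q).1 + a) (gl (ε / MN B cG L K N) σ st) :=
    fun N σ st => measurable_ubP hΦ hε hf β T C N _ _ _
  calc ∫⁻ a : Space3, gcE f₀ ε (fun n w => runM Φ ε T K L G (shW a Z) q n w)
      ≤ ∫⁻ a : Space3, ∑' N : ℕ, ∑ σ : Sym (Fin (mN T ε B cG L K N)) L,
          ∑ st : List.Vector (StepK K) L, UbP Φ f₀ ε β T C N (kin Z.z)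
            (fun r => (Z.path Φ ε r q).1 + a) (gl (ε / MN B cG L K N) σ st) :=
        lintegral_mono hpt
    _ = ∑' N : ℕ, ∑ σ : Sym (Fin (mN T ε B cG L K N)) L, ∑ st : List.Vector (StepK K) L,
          ∫⁻ a : Space3, UbP Φ f₀ ε β T C N (kin Z.z) (fun r => (Z.path Φ ε r q).1 + a)
            (gl (ε / MN B cG L K N) σ st) := by
        rw [lintegral_tsum fun N => (Finset.measurable_sum _ fun σ _ =>
          Finset.measurable_sum _ fun st _ => hmU N σ st).aemeasurable]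
        refine tsum_congr fun N => ?_
        rw [lintegral_finsetSum _ fun σ _ => Finset.measurable_sum _ fun st _ => hmU N σ st]
        refine Finset.sum_congr rfl fun σ _ => ?_
        rw [lintegral_finsetSum _ fun st _ => hmU N σ st]
    _ ≤ ∑' N : ℕ, ∑ σ : Sym (Fin (mN T ε B cG L K N)) L, ∑ st : List.Vector (StepK K) L,
          ENNReal.ofReal (Real.exp (2 * β * kin Z.z)) *
            (ENNReal.ofReal (Real.exp (-(2 * β * (N - 1)))) *
            (27 * (C + C₁ * C₂) * ENNReal.ofReal ε) ^ L) := by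
        refine ENNReal.tsum_le_tsum fun N => Finset.sum_le_sum fun σ _ =>
          Finset.sum_le_sum fun st _ => ?_
        have h2 := lintegral_ubP_le hΦ hε hf hCtop hC₁.symm hconn N (kin Z.z)
          (fun r => (Z.path Φ ε r q).1) (gl (ε / MN B cG L K N) σ st) (hgl N σ st).2.2
          (hgl N σ st).1
        rw [length_gl] at h2
        exact h2
    _ = ENNReal.ofReal (Real.exp (2 * β * kin Z.z)) *
          ∑' N : ℕ, ∑ σ : Sym (Fin (mN T ε B cG L K N)) L, ∑ st : List.Vector (StepK K) L,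
            ENNReal.ofReal (Real.exp (-(2 * β * (N - 1)))) *
            (27 * (C + C₁ * C₂) * ENNReal.ofReal ε) ^ L := by
        simp only [← Finset.mul_sum]
        rw [ENNReal.tsum_mul_left]
    _ ≤ ENNReal.ofReal (Real.exp (2 * β * kin Z.z)) * η L :=
        mul_le_mul_right (hsum L ε hε hεL' cG hcG1) _
    _ = _ := mul_comm _ _

/-! ## Null runs of translation invariant structures -/

theorem envB_of_env {f₀ : PhasePoint → ℝ} {γ β : ℝ} {ρ : Space3 → ℝ≥0∞} {C₀ : ℝ≥0∞}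
    (he : Env f₀ γ ρ C₀) (hβ : 2 * β ≤ γ) : EnvB β f₀ (fun x => C₀ * ρ x) C₀.toReal where
  meas := he.meas.const_mul _
  int_ne := by
    rw [lintegral_const_mul _ he.meas]
    exact ENNReal.mul_ne_top he.fin he.int.ne
  le x := by
    rw [ENNReal.ofReal_toReal he.fin]
    calc C₀ * ρ x ≤ C₀ * 1 := mul_le_mul_right (he.le_one x) _
      _ = C₀ := mul_one _
  bound z := by
    refine (he.le z).trans ?_
    rw [mul_assoc]
    refine mul_le_mul_right (mul_le_mul_right ?_ _) _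
    unfold Kin796.wG
    refine ENNReal.ofReal_le_ofReal (Real.exp_le_exp.2 ?_)
    have := mul_le_mul_of_nonneg_right hβ (sq_nonneg ‖z.2‖)
    linarith

section gate

variable {f₀ : PhasePoint → ℝ} {I Θ : Type} [MeasurableSpace Θ] {m : ℝ → I → Measure Θ}

/-- **Runs from a world of a translation invariant structure**, one starting particle. -/
theorem gLe_run_invW (hΦ : AdmissiblePotential Φ) {β : ℝ} (hβ : 0 < β) {T A : ℝ}
    (hT : 0 ≤ T) (hA : 0 ≤ A) (K : ℕ) (hf : Measurable f₀)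
    (h1 : ∫⁻ z, ENNReal.ofReal (f₀ z) ≤ 1) {env : Space3 → ℝ≥0∞} (hE : EnvB β f₀ env A)
    {t : I → ℝ} (ht : ∀ i, t i ≤ T) (hsf : ∀ ε i, SFinite (m ε i))
    {Tr : ℝ → I → Space3 → Θ → Θ} {pos : ℝ → I → Θ → Space3}
    (hTr : ∀ ε i, 0 < ε → Measurable fun q : Space3 × Θ => Tr ε i q.1 q.2)
    (hinv : ∀ ε i, 0 < ε → ∀ a, (m ε i).map (Tr ε i a) = m ε i)
    (hpos : ∀ ε i, 0 < ε → Measurable (pos ε i))
    (hposT : ∀ ε i, 0 < ε → ∀ a θ, pos ε i (Tr ε i a θ) = pos ε i θ + a)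
    {G : Type} [Fintype G] {Z : ℝ → I → Θ → MW G}
    (hb : ∀ ε i, 0 < ε → Measurable fun θ => (Z ε i θ).b)
    (hz : ∀ ε i, 0 < ε → Measurable fun θ => (Z ε i θ).z)
    (hZ : ∀ ε i, 0 < ε → ∀ a θ, Z ε i (Tr ε i a θ) = shW a (Z ε i θ)) (q : G)
    {χ : Space3 → ℝ≥0∞} (hχ : Measurable χ) (hχ1 : ∫⁻ x, χ x = 1) {M : ℝ≥0∞} (hM : M ≠ ∞)
    (hmom : ∀ ε i, 0 < ε → ∫⁻ θ, χ (pos ε i θ) *
      ENNReal.ofReal (Real.exp (2 * β * kin (Z ε i θ).z)) ∂(m ε i) ≤ M)
    {δ : ℝ≥0∞} (hδ : 0 < δ) : ∃ L₀ : ℕ, ∀ L, L₀ ≤ L →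
      GLe f₀ m (fun ε i _ θ w => Run Φ ε (t i) K L (Z ε i θ) q w) δ := by
  obtain ⟨η, hη, hηt, h⟩ := runM_tail_inv hΦ hβ T A hT hA K (Fintype.card G) hf h1 hE
  have h2 : Tendsto (fun L => η L * M) atTop (𝓝 (0 * M)) :=
    ENNReal.Tendsto.mul_const hη (Or.inr hM)
  rw [zero_mul] at h2
  obtain ⟨L₀, hL₀⟩ := eventually_atTop.1 (h2.eventually_lt_const hδ)
  refine ⟨max L₀ 1, fun L hL => ?_⟩
  obtain ⟨ε₀, h0, h⟩ := h L ((le_max_right _ _).trans hL)
  refine ⟨ε₀, h0, fun ε hε hlt i => ?_⟩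
  have hmF : ∀ n, Measurable fun p : Θ × Config n => runM Φ ε T K L G (Z ε i p.1) q n p.2 :=
    fun n => measurable_runM (δ := Θ × Config n) (Z := fun p => Z ε i p.1) (w := fun p => p.2)
      hΦ hε T K L q ((hb ε i hε).comp measurable_fst) ((hz ε i hε).comp measurable_fst)
      measurable_snd
  refine ⟨fun n p => runM Φ ε T K L G (Z ε i p.1) q n p.2, hmF,
    fun n θ w hw hR => one_le_runM_of_le hΦ hε (ht i) hw hR, ?_⟩
  have := hsf ε i
  have hI : Pair292.InvFam (Tr ε i) (fun θ => ((0, (pos ε i θ, 0)) : ℝ × PhasePoint)) (pos ε i)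
      (m ε i) :=
    { sf := hsf ε i
      mT := hTr ε i hε
      me := measurable_const.prodMk ((hpos ε i hε).prodMk measurable_const)
      mpos := hpos ε i hε
      eT := fun a θ => by
        unfold Pair292.shL
        simp only
        rw [hposT ε i hε]
      posT := hposT ε i hε
      inv := hinv ε i hε }
  have hmg : Measurable fun θ => gcE f₀ ε fun n w => runM Φ ε T K L G (Z ε i θ) q n w :=
    MeasE416.measurable_gcE_of hf ε
      (F := fun n θ w => runM Φ ε T K L G (Z ε i θ) q n w) fun n => hmF n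
  have e1 := hI.disint hχ hχ1 hmg
  calc ∫⁻ θ, gcE f₀ ε (fun n w => runM Φ ε T K L G (Z ε i θ) q n w) ∂(m ε i)
      = ∫⁻ θ, χ (pos ε i θ) * (∫⁻ a : Space3, gcE f₀ ε fun n w =>
          runM Φ ε T K L G (Z ε i (Tr ε i a θ)) q n w) ∂(m ε i) := e1
    _ ≤ ∫⁻ θ, η L * (χ (pos ε i θ) *
          ENNReal.ofReal (Real.exp (2 * β * kin (Z ε i θ).z))) ∂(m ε i) := by
        refine lintegral_mono fun θ => ?_
        simp only [hZ ε i hε]
        calc χ (pos ε i θ) * ∫⁻ a : Space3, gcE f₀ ε (fun n w =>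
              runM Φ ε T K L G (shW a (Z ε i θ)) q n w)
            ≤ χ (pos ε i θ) * (η L * ENNReal.ofReal (Real.exp (2 * β * kin (Z ε i θ).z))) :=
              mul_le_mul_right (h ε hε hlt G le_rfl (Z ε i θ) q) _
          _ = _ := by ring
    _ = η L * ∫⁻ θ, χ (pos ε i θ) *
          ENNReal.ofReal (Real.exp (2 * β * kin (Z ε i θ).z)) ∂(m ε i) :=
        lintegral_const_mul' _ _ (hηt L)
    _ ≤ η L * M := mul_le_mul_right (hmom ε i hε) _
    _ ≤ δ := (hL₀ L ((le_max_left _ _).trans hL)).le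

/-- **Runs from a world of a translation invariant structure**, finitely many starting data. -/
theorem gLe_exists {α : Type*} [Fintype α] (hf : Measurable f₀)
    {F : α → ℕ → ℝ → I → (n : ℕ) → Θ → Config n → Prop}
    (h : ∀ x : α, ∀ δ : ℝ≥0∞, 0 < δ → ∃ L₀ : ℕ, ∀ L, L₀ ≤ L → GLe f₀ m (F x L) δ)
    {δ : ℝ≥0∞} (hδ : 0 < δ) : ∃ L₀ : ℕ, ∀ L, L₀ ≤ L →
      GLe f₀ m (fun ε i n θ w => ∃ x, F x L ε i n θ w) δ := by
  set δ' : ℝ≥0∞ := δ / (Fintype.card α + 1) with hδ'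
  have hc : (Fintype.card α + 1 : ℝ≥0∞) ≠ ∞ :=
    ENNReal.add_ne_top.2 ⟨ENNReal.natCast_ne_top _, ENNReal.one_ne_top⟩
  have hδ'0 : 0 < δ' := ENNReal.div_pos hδ.ne' hc
  choose L₀ hL₀ using fun x => h x δ' hδ'0
  refine ⟨Finset.univ.sup L₀, fun L hL => ?_⟩
  have h2 := GLe.exists_fin hf Finset.univ (m := m) (d := fun _ => δ')
    (F := fun (x : α) ε i n θ w => F x L ε i n θ w)
    (fun x _ => hL₀ x L ((Finset.le_sup (Finset.mem_univ x)).trans hL))
  refine h2.mono ?_ ⟨1, one_pos, fun ε _ _ i n θ w _ ⟨x, hx⟩ => ⟨x, Finset.mem_univ _, hx⟩⟩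
  rw [Finset.sum_const, Finset.card_univ, nsmul_eq_mul]
  calc (Fintype.card α : ℝ≥0∞) * δ' ≤ (Fintype.card α + 1) * δ' := by
        gcongr
        exact le_self_add
    _ = δ := by
        rw [hδ', ENNReal.mul_div_cancel (by simp) hc]

variable {κ : Type} [Fintype κ] {b : ℝ → I → Θ → κ → ℝ} {z : ℝ → I → Θ → κ → PhasePoint}
  {Tr : ℝ → I → Space3 → Θ → Θ} {d : ℝ → I → Θ → ℝ × PhasePoint}

/-- **Runs from the groups of members of a translation invariant structure**, pinned moment. -/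
theorem gLe_runS_inv (hΦ : AdmissiblePotential Φ) {β : ℝ} (hβ : 0 < β) {T A : ℝ}
    (hT : 0 ≤ T) (hA : 0 ≤ A) (K : ℕ) (hf : Measurable f₀)
    (h1 : ∫⁻ z, ENNReal.ofReal (f₀ z) ≤ 1) {env : Space3 → ℝ≥0∞} (hE : EnvB β f₀ env A)
    {t : I → ℝ} (ht : ∀ i, t i ≤ T) (hsf : ∀ ε i, SFinite (m ε i))
    (htr : ∀ ε i, 0 < ε → TInvS (m ε i) (Tr ε i) (b ε i) (z ε i) (d ε i)) (j₀ : κ)
    {M : ℝ≥0∞} (hM : M ≠ ∞)
    (hmom : ∀ ε i, 0 < ε → ∫⁻ θ, chi (z ε i θ j₀).1 * expW β (z ε i θ) ∂(m ε i) ≤ M)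
    {δ : ℝ≥0∞} (hδ : 0 < δ) : ∃ L₀ : ℕ, ∀ L, L₀ ≤ L →
      GLe f₀ m (fun ε i _ θ w => RunS Φ ε (t i) K L (b ε i θ) (z ε i θ) w) δ := by
  have hx : ∀ x : ((D : Finset κ) × D), ∀ δ : ℝ≥0∞, 0 < δ → ∃ L₀ : ℕ, ∀ L, L₀ ≤ L →
      GLe f₀ m (fun ε i _ θ w => Run Φ ε (t i) K L (sMW (b ε i θ) (z ε i θ) x.1) x.2 w) δ := by
    intro x δ hδ
    refine gLe_run_invW (G := x.1) hΦ hβ hT hA K hf h1 hE ht hsf (Tr := Tr)
      (pos := fun ε i θ => (z ε i θ j₀).1) (fun ε i hε => (htr ε i hε).mT)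
      (fun ε i hε => (htr ε i hε).inv)
      (fun ε i hε => ((measurable_pi_apply j₀).comp (htr ε i hε).mz).fst)
      (fun ε i hε a θ => by rw [(htr ε i hε).z_tr, shX_apply])
      (Z := fun ε i θ => sMW (b ε i θ) (z ε i θ) x.1)
      (fun ε i hε => measurable_pi_iff.2 fun j =>
        (measurable_pi_apply (j : κ)).comp (htr ε i hε).mb)
      (fun ε i hε => measurable_pi_iff.2 fun j =>
        (measurable_pi_apply (j : κ)).comp (htr ε i hε).mz)
      (fun ε i hε a θ => ?_) x.2 measurable_chi lintegral_chi hM (fun ε i hε => ?_) hδ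
    · unfold sMW shW
      simp only
      rw [(htr ε i hε).b_tr, (htr ε i hε).z_tr]
      congr 1
      funext j
      rw [shX_apply]
      rfl
    · refine le_trans (lintegral_mono fun θ => ?_) (hmom ε i hε)
      exact mul_le_mul_right (exp_kin_le hβ.le _ _ _) _
  obtain ⟨L₀, h⟩ := gLe_exists hf hx hδ
  refine ⟨L₀, fun L hL => (h L hL).mono' ?_⟩
  rintro ε i n θ w ⟨D, a, ha⟩
  exact ⟨⟨D, a⟩, ha⟩



end gate

end Crest.Agent.R122.RunInv416

end
end

-- ▼ part R122/RunShp_416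
section

/-!
# Row 122 (helper416): runs from the groups of an admissible shape

`ShpOk.run` : the binding of `gLe_runS_inv` to helper581's `ShpOk`.
-/

set_option autoImplicit false

open MeasureTheory Set Filter Topology
open scoped ENNReal
open Crest.AnalysisR.Kinetic

noncomputable section

namespace Crest.Agent.R122.PairRep581

open Crest.Agent.R122.GC311 Crest.Agent.R122.EDefs602 Crest.Agent.R122.Gate424
open Crest.Agent.R122.LN2 Crest.Agent.R122.PairD292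

variable {γ β : ℝ} {ρ : Space3 → ℝ≥0∞} {S : Shp}

/-- **Runs of length `L` from any group of labels of an admissible shape** have mass `→ 0`
(`L → ∞`), uniformly in `ε`. -/
theorem ShpOk.run (h : ShpOk γ β ρ S) {Φ : Space3 → ℝ} (hΦ : AdmissiblePotential Φ) (hβ : 0 < β)
    {f₀ : PhasePoint → ℝ} (hf : Measurable f₀) (h1 : ∫⁻ z, ENNReal.ofReal (f₀ z) ≤ 1)
    {γ₀ : ℝ} {ρ₀ : Space3 → ℝ≥0∞} {C₀ : ℝ≥0∞} (he : Env f₀ γ₀ ρ₀ C₀) (hγ₀ : 0 < γ₀) {te : ℝ}
    (K : ℕ) {δ : ℝ≥0∞} (hδ : 0 < δ) : ∃ L₀ : ℕ, ∀ L, L₀ ≤ L →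
      GLe f₀ S.mI (fun ε _ _ x w => RunS Φ ε te K L (S.b ε x) (S.z ε x) w) δ := by
  set β' : ℝ := min β (γ₀ / 2) with hβ'
  have hβ'0 : 0 < β' := lt_min hβ (half_pos hγ₀)
  obtain ⟨j₀, M, hM, hpin⟩ := h.pin
  refine RunInv416.gLe_runS_inv (T := max te 0) hΦ hβ'0 (le_max_right _ _)
    ENNReal.toReal_nonneg K hf h1 (RunInv416.envB_of_env he ?_) (fun _ : Unit => le_max_left te 0)
    (fun ε _ => h.sf ε) (fun ε _ hε => h.tInv_d hε) j₀ hM (fun ε _ hε => ?_) hδ
  · have := min_le_right β (γ₀ / 2)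
    linarith
  · refine le_trans (lintegral_mono fun x => ?_) (hpin ε hε)
    exact mul_le_mul_right (expW_mono (min_le_left _ _) _) _

end Crest.Agent.R122.PairRep581

end
end

-- ▼ part R122/LevGate_581

/-!
# Row 122, inequality 3, null facts of the pair laws (helper581): levels of the structures

* `Lv P j x` : the property `P` holds at some level `k ≤ j` of `x : Th Θ j`.
* `badF_lv` : families of bad events of the levels.
* `badF_lv_near` : bad partitions of a level, near the gas.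
* `gNull_itS_of_det` : **the gateway** over the law of the `j`-th continuation of a shape: runs, bad
  partitions of a level, bad hits, further null events.
-/

set_option autoImplicit false
set_option linter.unusedSectionVars false

open MeasureTheory Set Filter Topology
open scoped Classical ENNReal
open Crest.AnalysisR.Kinetic

noncomputable section

namespace Crest.Agent.R122.PairRep581

open Crest.Agent.R122.GC311 Crest.Agent.R122.Kin796 Crest.Agent.R122.Kin796.CTree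
open Crest.Agent.R122.Tree674 Crest.Agent.R122.EDefs602
open Crest.Agent.R122.Gate424 Crest.Agent.R122.Gate973 Crest.Agent.R122.LN2
open Crest.Agent.R122.BH167
open Crest.Agent.R122.TouchFlux494 (Near)
open Crest.Agent.R122.Boost969 (LSt)
open Crest.Agent.R122.Pair292 (Lab shP shL shM)
open Crest.Agent.R122.PairD292
open Crest.Agent.R122.StrN998 (Th Ka itS)
open Crest.Agent.R122.Marg494 (prj)

/-! ### Levels -/

section levels

variable {Θ : Type}

/-- The property holds at some level. -/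
def Lv (P : (k : ℕ) → Th Θ k → Prop) : (j : ℕ) → Th Θ j → Prop
  | 0, x => P 0 x
  | j + 1, x => P (j + 1) x ∨ Lv P j x.1

theorem Lv.exists_prj {P : (k : ℕ) → Th Θ k → Prop} {j : ℕ} {x : Th Θ j} (h : Lv P j x) :
    ∃ (k i : ℕ) (e : j = k + i), P k (prj Θ k i (e ▸ x)) := by
  induction j with
  | zero => exact ⟨0, 0, rfl, h⟩
  | succ j ih =>
    rcases h with h | h
    · exact ⟨j + 1, 0, rfl, h⟩
    · obtain ⟨k, i, e, hp⟩ := ih h
      subst e
      exact ⟨k, i + 1, rfl, hp⟩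


theorem Lv.mono {P Q : (k : ℕ) → Th Θ k → Prop} (hPQ : ∀ k y, P k y → Q k y) {j : ℕ}
    {x : Th Θ j} (h : Lv P j x) : Lv Q j x := by
  induction j with
  | zero => exact hPQ 0 x h
  | succ j ih =>
    rcases h with h | h
    · exact Or.inl (hPQ _ _ h)
    · exact Or.inr (ih h)

/-- The property at the top level. -/
theorem Lv.top {P : (k : ℕ) → Th Θ k → Prop} {j : ℕ} {x : Th Θ j} (h : P j x) : Lv P j x := by
  rcases j with _ | j
  · exact h
  · exact Or.inl h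

/-- **Families of bad events of the levels.** -/
theorem badF_lv {f₀ : PhasePoint → ℝ} (hf : Measurable f₀) {I Θ' : Type} [MeasurableSpace Θ']
    {m : ℝ → I → Measure Θ'} {j : ℕ} {pr : ℝ → Θ' → Th Θ j}
    {B : ℝ → ℝ → ℝ → I → (n : ℕ) → Config n → (k : ℕ) → Th Θ k → Prop}
    {G : ℝ → I → (n : ℕ) → Θ' → Config n → Prop}
    (h : ∀ (k i : ℕ) (e : j = k + i), BadF f₀ m (fun R ς ε a n x w =>
      G ε a n x w ∧ B R ς ε a n w k (prj Θ k i (e ▸ pr ε x)))) :
    BadF f₀ m (fun R ς ε a n x w => G ε a n x w ∧ Lv (B R ς ε a n w) j (pr ε x)) := by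
  have h1 : ∀ k ∈ Finset.range (j + 1), BadF f₀ m (fun R ς ε a n x w =>
      G ε a n x w ∧ ∃ (i : ℕ) (e : j = k + i), B R ς ε a n w k (prj Θ k i (e ▸ pr ε x))) := by
    intro k hk
    have hkj : k ≤ j := Nat.lt_succ_iff.1 (Finset.mem_range.1 hk)
    obtain ⟨i, e⟩ := Nat.exists_eq_add_of_le hkj
    refine (h k i e).mono fun R ς ε a n x w _ _ hE => ?_
    obtain ⟨hG, i', e', hB⟩ := hE
    have hii : i' = i := by omega
    subst hii
    exact ⟨hG, hB⟩
  refine (BadF.exists_fin hf _ h1).mono fun R ς ε a n x w _ _ hE => ?_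
  obtain ⟨k, i, e, hB⟩ := hE.2.exists_prj
  exact ⟨k, Finset.mem_range.2 (by omega), hE.1, i, e, hB⟩

end levels

/-! ### The levels of a shape -/

variable {Φ : Space3 → ℝ} {f₀ : PhasePoint → ℝ} {γ β : ℝ} {ρ : Space3 → ℝ≥0∞} {S : Shp}
  {T te te' b₀ : ℝ} {C₀ : ℝ≥0∞} {q : ℕ → ℝ≥0∞}

/-- Bad partition of gas particles and the structure of the level `k`. -/
def BadK (S : Shp) (Φ : Space3 → ℝ) (b₀ te : ℝ) (q : ℕ → ℝ≥0∞) (T C R ς ε : ℝ) (N : ℕ) {n : ℕ}
    (w : Config n) (k : ℕ) (y : Th S.Θ k) : Prop :=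
  BadGas Φ T C R ς ε N 1 Finset.univ ((itS S Φ b₀ te q k).b ε y) ((itS S Φ b₀ te q k).z ε y) w

/-- **Bad partition of gas particles and the structure of some level.** -/
def BadLv (S : Shp) (Φ : Space3 → ℝ) (b₀ te : ℝ) (q : ℕ → ℝ≥0∞) (T C R ς ε : ℝ) (N : ℕ) {n : ℕ}
    (w : Config n) (j : ℕ) (x : Th S.Θ j) : Prop :=
  Lv (BadK S Φ b₀ te q T C R ς ε N w) j x

theorem BadLv.succ {C R ς ε : ℝ} {N n : ℕ} {w : Config n} {j : ℕ} {x : Th S.Θ (j + 1)} :
    BadLv S Φ b₀ te q T C R ς ε N w (j + 1) x ↔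
      BadK S Φ b₀ te q T C R ς ε N w (j + 1) x ∨ BadLv S Φ b₀ te q T C R ς ε N w j x.1 := Iff.rfl

theorem BadLv.zero {C R ς ε : ℝ} {N n : ℕ} {w : Config n} {x : Th S.Θ 0} :
    BadLv S Φ b₀ te q T C R ς ε N w 0 x ↔ BadK S Φ b₀ te q T C R ς ε N w 0 x := Iff.rfl

/-- **Bad partitions of the levels, near the gas.** -/
theorem badF_lv_near (h : ShpOk γ β ρ S) (hρ : Measurable ρ) (hΦ : AdmissiblePotential Φ)
    (hCN : VLMeas973.ClassNull Φ T) (hf : Measurable f₀) (h1 : ∫⁻ z, ENNReal.ofReal (f₀ z) ≤ 1)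
    (he : Env f₀ γ ρ C₀) (hγ : 0 < γ) (hb : γ ≤ b₀) (hq : ∑' m, q m ≠ ∞) (hte : te' ≤ T) (j : ℕ)
    (C R₁ : ℝ) (N : ℕ) :
    BadF f₀ (itS S Φ b₀ te q j).mI (fun R ς ε _ _ x w =>
      Near Φ ε R₁ te' w (dL ((itS S Φ b₀ te q j).th ε x)).1 ∧
        BadLv S Φ b₀ te q T C R ς ε N w j x) := by
  refine badF_lv (Θ := S.Θ) (m := (itS S Φ b₀ te q j).mI) (pr := fun _ x => x)
    (B := fun R ς ε _ _ w k y => BadK S Φ b₀ te q T C R ς ε N w k y)
    (G := fun ε _ _ x w => Near Φ ε R₁ te' w (dL ((itS S Φ b₀ te q j).th ε x)).1) hf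
    fun k i e => ?_
  subst e
  exact Marg494.badF_itS_near h hρ hΦ hCN hf h1 he hγ hb hq hte k i C R₁ N


/-! ### The gateway -/

/-- **The gateway over the law of the `j`-th continuation.** The event forces the first line to be
close to the gas (`hnear`); alternatives: a run from the structure, a bad partition of gas particles
and the structure of some level, a bad hit, further bad families `B` and null events `Ht`. -/
theorem gNull_itS_of_det {β' : ℝ} (h : ShpOk γ β ρ S) (hρ : Measurable ρ)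
    (hΦ : AdmissiblePotential Φ) (hCN : VLMeas973.ClassNull Φ T) (hf : Measurable f₀)
    (h1 : ∫⁻ z, ENNReal.ofReal (f₀ z) ≤ 1) (he : Env f₀ γ ρ C₀) (hγ : 0 < γ) (hb : γ ≤ b₀)
    (hβ' : 0 < β') (hβ : β' < β) (hβb : β ≤ b₀) (hq : ∑' m, q m ≠ ∞) (hT : 0 ≤ T)
    (hte : te' ≤ T) {R₂ : ℝ} (j : ℕ) {u t₁ : ℝ} {K' : ℕ}
    {E : ℝ → Unit → (n : ℕ) → (itS S Φ b₀ te q j).Θ → Config n → Prop}
    (hnear : ∀ ε i n x (w : Config n), 0 < ε → w ∈ PairExcluded ε n → E ε i n x w →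
      Near Φ ε R₂ te' w (dL ((itS S Φ b₀ te q j).th ε x)).1)
    (hdet : ∀ L : ℕ, ∃ (B : ℝ → ℝ → ℝ → Unit → (n : ℕ) → (itS S Φ b₀ te q j).Θ → Config n → Prop)
      (Ht : ℝ → Unit → (n : ℕ) → (itS S Φ b₀ te q j).Θ → Config n → Prop)
      (N : ℕ) (C C' R₁ T₁ : ℝ) (N' K₁ : ℕ) (A : Finset (itS S Φ b₀ te q j).κ), 0 ≤ T₁ ∧
      BadF f₀ (itS S Φ b₀ te q j).mI B ∧ GNull f₀ (itS S Φ b₀ te q j).mI Ht ∧
      ∀ R > 0, ∀ ς > 0, ∃ ε₁ : ℝ, 0 < ε₁ ∧ ∀ ε : ℝ, 0 < ε → ε < ε₁ → ∀ i n x (w : Config n),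
        w ∈ PairExcluded ε n → E ε i n x w →
        RunS Φ ε u K' L ((itS S Φ b₀ te q j).b ε x) ((itS S Φ b₀ te q j).z ε x) w ∨
        (BadLv S Φ b₀ te q T C R ς ε N w j x ∨ B R ς ε i n x w) ∨
        BadHitGasN (bpos Φ T₁ t₁) Φ T C' R₁ ε N' K₁ 1 A ((itS S Φ b₀ te q j).b ε x)
          ((itS S Φ b₀ te q j).z ε x) w ∨ Ht ε i n x w) :
    GNull f₀ (itS S Φ b₀ te q j).mI E := by
  have hj := StrN998.ShpOk.iter (te := te) (q := q) h hΦ hρ hb hβ hβb hq j
  choose B Ht N C C' R₁ T₁ N' K₁ A hT₁ hB hH hdet using hdet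
  refine gNull_of_fam hf (m := (itS S Φ b₀ te q j).mI)
    (Rn := fun L ε _ _ x w =>
      RunS Φ ε u K' L ((itS S Φ b₀ te q j).b ε x) ((itS S Φ b₀ te q j).z ε x) w)
    (Ht := fun L ε i n x w => BadHitGasN (bpos Φ (T₁ L) t₁) Φ T (C' L) (R₁ L) ε (N' L) (K₁ L) 1
      (A L) ((itS S Φ b₀ te q j).b ε x) ((itS S Φ b₀ te q j).z ε x) w ∨ Ht L ε i n x w)
    (fun L => ⟨_, (badF_lv_near h hρ hΦ hCN hf h1 he hγ hb hq hte j (C L) R₂ (N L)).or hf (hB L),
      fun R hR ς hς => ?_⟩)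
    (fun δ hδ => hj.run hΦ hβ' hf h1 he hγ K' hδ)
    fun L => (gNull_hit_mS hj hΦ hf h1 he hγ hT (hT₁ L) t₁ (C' L) (R₁ L) (N' L) (K₁ L) (A L)).or hf
      (hH L)
  obtain ⟨ε₁, h0, h2⟩ := hdet L R hR ς hς
  refine ⟨ε₁, h0, fun ε hε hlt i n x w hw hE => ?_⟩
  rcases h2 ε hε hlt i n x w hw hE with h3 | (h3 | h3) | h3
  · exact Or.inl h3
  · exact Or.inr (Or.inl (Or.inl ⟨hnear ε i n x w hε hw hE, h3⟩))
  · exact Or.inr (Or.inl (Or.inr h3))
  · exact Or.inr (Or.inr h3)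

end Crest.Agent.R122.PairRep581

end
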