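import Crest.Agent.R122.GateOS2_495
import Crest.Agent.R122.Link6Pt_796
import Crest.Agent.R122.EncNull_741
import Crest.Agent.R122.GateOSc_434

-- ▼ part R122/Link6Asm_796
section

/-!
# Row 122, LINK6 (helper796): the pieces as gateway functionals and measurable functionals

* `evEnc_le` : the encounter piece is at most helper741's `encM`.
* `F6 R` : the gateway functional (bad event 1, bad event 2 of radius `R`, bad test lines).
* `bd6_le_F6` : `bd6 ≤ F6 R + encM R` on `Gd6`, every `R` with `ε R ≤ σ ε`.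
* `Slots6` : the literal null facts asked from the gateway, for one shape; `Slots6.fNull`.
-/

set_option autoImplicit false
set_option linter.unusedSectionVars false

open MeasureTheory Set Filter Topology
open scoped Classical ENNReal
open Crest.AnalysisR.Kinetic
open Crest.Agent.R122.GC311 Crest.Agent.R122.EDefs602
open Crest.Agent.R122.Kin796 Crest.Agent.R122.Kin796.CTree Crest.Agent.R122.Tree674
open Crest.Agent.R122.TreeLines335
open Crest.Agent.R122.Gate424 Crest.Agent.R122.Gate973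
open Crest.Agent.R122.Boost969 (LSt)
open Crest.Agent.R122.Pair292 (Lab)
open Crest.Agent.R122.PairD292 Crest.Agent.R122.Pt6811 Crest.Agent.R122.Third741
open Crest.Agent.R122.PairRep581 Crest.Agent.R122.GateOS2495

noncomputable section

namespace Crest.Agent.R122.Link6796

variable {Φ : Space3 → ℝ} {f₀ : PhasePoint → ℝ} {ε R T' te : ℝ} {K : ℕ} {Q : EPar} {σ : ℝ → ℝ}
  {P : CTree} {z : PhasePoint × Par P} {m : ℕ} {w : Config m} {θ : Lab × LSt} {d e : ML}

/-- The event of the encounter. -/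
theorem EncP.encM6 {P : CTree} {z : PhasePoint × Par P} {w : Config m} {d e : ML}
    (h : EncP Φ ε R te P z w d e) : EncM6 Φ ε R P z w d e :=
  ⟨h.pass, h.tau, h.disp, h.gas, h.mem, h.memd, h.nobd⟩


/-- **The gateway functional.** -/
def F6 (Φ : Space3 → ℝ) (Q : EPar) (T' R : ℝ) (K : ℕ) (ε : ℝ) : SF2 := fun P z m w θ =>
  ind6 (evHyp Φ Q T' K ε) P z m w θ + ind6 (evNear Φ Q T' R K ε) P z m w θ +
    fLk6 Φ Q T' K ε P z m w θ



/-- **The literal null facts asked from the gateway**, for one tree and one shape. -/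
structure Slots6 (Φ : Space3 → ℝ) (f₀ : PhasePoint → ℝ) (Q : EPar) (T' : ℝ) (K : ℕ) (P : CTree)
    (S : Shp) : Prop where
  /-- (S1) links and worlds -/
  hyp : GNull f₀ (osP Φ f₀ Q.te T' K P S)
    (fun ε _ n q w => evHyp Φ Q T' K ε P q.1 n w (S.th ε q.2))
  /-- (S2) near the root line, every fixed radius -/
  near : ∀ R : ℝ, 0 ≤ R → GNull f₀ (osP Φ f₀ Q.te T' K P S)
    (fun ε _ n q w => evNear Φ Q T' R K ε P q.1 n w (S.th ε q.2))
  /-- (S4) the test lines -/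
  lk : FNull f₀ (osP Φ f₀ Q.te T' K P S)
    (fun ε _ n q w => fLk6 Φ Q T' K ε P q.1 n w (S.th ε q.2))

theorem Slots6.fNull {S : Shp} (hf : Measurable f₀) (h : Slots6 Φ f₀ Q T' K P S) (hR : 0 ≤ R) :
    FNull f₀ (osP Φ f₀ Q.te T' K P S) (pullS Φ Q.te T' K (F6 Φ Q T' R K) P S) := by
  have h1 := GateOS434.FNull.add hf (GateOS434.FNull.add hf (FNull.ofE h.hyp)
    (FNull.ofE (h.near R hR))) h.lk
  refine h1.mono ⟨1, one_pos, fun ε _ _ _ n q w _ => ?_⟩
  show (if Valid Φ ε P T' q.1.1.2 q.1.2 ∧ q ∈ ctOkS Φ ε K Q.te P S then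
    F6 Φ Q T' R K ε P q.1 n w (S.th ε q.2) else 0) ≤ F6 Φ Q T' R K ε P q.1 n w (S.th ε q.2)
  by_cases hc : Valid Φ ε P T' q.1.1.2 q.1.2 ∧ q ∈ ctOkS Φ ε K Q.te P S
  · rw [if_pos hc]
  · rw [if_neg hc]
    exact bot_le

end Crest.Agent.R122.Link6796

end
end

-- ▼ part R122/Link6Slots_796

/-!
# Row 122, LINK6 (helper796): the null facts asked from the gateway, split by owner

`Slots6P` : good worlds (`ok`), links (`nl0`, `nl1`, `nl2`), near the root line (`near`), test lines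
(`lk`). Every event may use the guard `Gd6` and the negations of the earlier events. `Slots6P.slots6` :
`Slots6`.
-/

set_option autoImplicit false
set_option linter.unusedSectionVars false

open MeasureTheory Set Filter Topology
open scoped Classical ENNReal
open Crest.AnalysisR.Kinetic
open Crest.Agent.R122.GC311 Crest.Agent.R122.EDefs602
open Crest.Agent.R122.Kin796 Crest.Agent.R122.Kin796.CTree Crest.Agent.R122.Tree674
open Crest.Agent.R122.TreeLines335 Crest.Agent.R122.MWFam255 Crest.Agent.R122.E6Hyp879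
open Crest.Agent.R122.Gate424 Crest.Agent.R122.Gate973
open Crest.Agent.R122.Boost969 (LSt)
open Crest.Agent.R122.Pair292 (Lab)
open Crest.Agent.R122.PairD292 Crest.Agent.R122.Pt6811
open Crest.Agent.R122.PairRep581
open Crest.Agent.R122.Decomp811 (exF)

noncomputable section

namespace Crest.Agent.R122.Link6796

/-- The two families of `E6Hyp` can be inserted. -/
structure Ok6 (Φ : Space3 → ℝ) (ε : ℝ) (P : CTree)
    (z : PhasePoint × Par P) {m : ℕ} (w : Config m) (θ : Lab × LSt) : Prop where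
  /-- the lines of the tree and `d`, base `w` -/
  ok₁ : MW.OkFam Φ ε (MW.cfg w) (withD (lineML Φ ε P z) (dL θ))
  /-- the exits and the two output lines, base `w + d` -/
  ok₂ : MW.OkFam Φ ε ((MW.cfg w).ins (dL θ)) (plus (exF (lineML Φ ε P z) (root P))
    (outL6 Φ ε P z (eL θ) (some false)) (outL6 Φ ε P z (eL θ) (some true)))

/-- The lines of the tree and `d` are not linked, base `w`. -/
def Nl0 (Φ : Space3 → ℝ) (ε : ℝ) (K : ℕ) (te : ℝ) (P : CTree)
    (z : PhasePoint × Par P) {m : ℕ} (w : Config m) (θ : Lab × LSt) : Prop :=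
  PairNL Φ ε K te (MW.cfg w) (withD (lineML Φ ε P z) (dL θ))

/-- The lines of the tree are not linked, base `w + d`. -/
def Nl1 (Φ : Space3 → ℝ) (ε : ℝ) (K : ℕ) (te : ℝ) (P : CTree)
    (z : PhasePoint × Par P) {m : ℕ} (w : Config m) (θ : Lab × LSt) : Prop :=
  PairNL Φ ε K te ((MW.cfg w).ins (dL θ)) (lineML Φ ε P z)

/-- The exits and the two output lines are not linked, base `w + d`. -/
def Nl2 (Φ : Space3 → ℝ) (ε : ℝ) (K : ℕ) (te : ℝ) (P : CTree)
    (z : PhasePoint × Par P) {m : ℕ} (w : Config m) (θ : Lab × LSt) : Prop :=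
  PairNL Φ ε K te ((MW.cfg w).ins (dL θ)) (plus (exF (lineML Φ ε P z) (root P))
    (outL6 Φ ε P z (eL θ) (some false)) (outL6 Φ ε P z (eL θ) (some true)))

/-- `E6Hyp` of the contact structures. -/
abbrev Hyp6 (Φ : Space3 → ℝ) (ε : ℝ) (K : ℕ) (te : ℝ) (P : CTree)
    (z : PhasePoint × Par P) {m : ℕ} (w : Config m) (θ : Lab × LSt) : Prop :=
  E6Hyp Φ ε K te (MW.cfg w) (lineML Φ ε P z) (root P) (dL θ)
    (outL6 Φ ε P z (eL θ) (some false)) (outL6 Φ ε P z (eL θ) (some true))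

variable {Φ : Space3 → ℝ} {f₀ : PhasePoint → ℝ} {T' : ℝ} {K : ℕ} {Q : EPar} {P : CTree}

/-- **The null facts asked from the gateway, split**, for one tree and one shape. -/
structure Slots6P (Φ : Space3 → ℝ) (f₀ : PhasePoint → ℝ) (Q : EPar) (T' : ℝ) (K : ℕ) (P : CTree)
    (S : Shp) : Prop where
  /-- (S1a) worlds -/
  ok : GNull f₀ (osP Φ f₀ Q.te T' K P S) (fun ε _ _ q w =>
    Gd6 Φ ε K Q T' P q.1 w (S.th ε q.2) ∧ ¬ Ok6 Φ ε P q.1 w (S.th ε q.2))
  /-- (S1b) links, base `w` -/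
  nl0 : GNull f₀ (osP Φ f₀ Q.te T' K P S) (fun ε _ _ q w =>
    Gd6 Φ ε K Q T' P q.1 w (S.th ε q.2) ∧ Ok6 Φ ε P q.1 w (S.th ε q.2) ∧
      ¬ Nl0 Φ ε K Q.te P q.1 w (S.th ε q.2))
  /-- (S1c) links of the tree, base `w + d` -/
  nl1 : GNull f₀ (osP Φ f₀ Q.te T' K P S) (fun ε _ _ q w =>
    Gd6 Φ ε K Q T' P q.1 w (S.th ε q.2) ∧ Ok6 Φ ε P q.1 w (S.th ε q.2) ∧
      Nl0 Φ ε K Q.te P q.1 w (S.th ε q.2) ∧ ¬ Nl1 Φ ε K Q.te P q.1 w (S.th ε q.2))
  /-- (S1d) links of the outputs, base `w + d` -/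
  nl2 : GNull f₀ (osP Φ f₀ Q.te T' K P S) (fun ε _ _ q w =>
    Gd6 Φ ε K Q T' P q.1 w (S.th ε q.2) ∧ Ok6 Φ ε P q.1 w (S.th ε q.2) ∧
      Nl0 Φ ε K Q.te P q.1 w (S.th ε q.2) ∧ Nl1 Φ ε K Q.te P q.1 w (S.th ε q.2) ∧
      ¬ Nl2 Φ ε K Q.te P q.1 w (S.th ε q.2))
  /-- (S2) near the root line, every fixed radius -/
  near : ∀ R : ℝ, 0 ≤ R → GNull f₀ (osP Φ f₀ Q.te T' K P S) (fun ε _ _ q w =>
    Gd6 Φ ε K Q T' P q.1 w (S.th ε q.2) ∧ Hyp6 Φ ε K Q.te P q.1 w (S.th ε q.2) ∧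
      Late6 Φ ε R K Q.te P q.1 w (dL (S.th ε q.2)) (eL (S.th ε q.2)) ∧
      ¬ Near6 Φ ε R K P q.1 w (dL (S.th ε q.2)) (eL (S.th ε q.2)))
  /-- (S4) the test lines -/
  lk : FNull f₀ (osP Φ f₀ Q.te T' K P S)
    (fun ε _ n q w => fLk6 Φ Q T' K ε P q.1 n w (S.th ε q.2))

/-- **`Slots6` from the split null facts.** -/
theorem Slots6P.slots6 {S : Shp} (hf : Measurable f₀) (h : Slots6P Φ f₀ Q T' K P S) :
    Slots6 Φ f₀ Q T' K P S := by
  have hH : GNull f₀ (osP Φ f₀ Q.te T' K P S)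
      (fun ε _ n q w => evHyp Φ Q T' K ε P q.1 n w (S.th ε q.2)) := by
    refine (((h.ok.or hf h.nl0).or hf h.nl1).or hf h.nl2).mono' fun ε _ n q w hE => ?_
    obtain ⟨hg, hH⟩ := hE
    by_cases h0 : Ok6 Φ ε P q.1 w (S.th ε q.2)
    swap
    · exact Or.inl (Or.inl (Or.inl ⟨hg, h0⟩))
    by_cases h1 : Nl0 Φ ε K Q.te P q.1 w (S.th ε q.2)
    swap
    · exact Or.inl (Or.inl (Or.inr ⟨hg, h0, h1⟩))
    by_cases h2 : Nl1 Φ ε K Q.te P q.1 w (S.th ε q.2)
    swap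
    · exact Or.inl (Or.inr ⟨hg, h0, h1, h2⟩)
    by_cases h3 : Nl2 Φ ε K Q.te P q.1 w (S.th ε q.2)
    swap
    · exact Or.inr ⟨hg, h0, h1, h2, h3⟩
    exact absurd ⟨h0.ok₁, h0.ok₂, h1, h2, h3⟩ hH
  refine ⟨hH, fun R hR => ?_, h.lk⟩
  refine (hH.or hf (h.near R hR)).mono' fun ε _ n q w hE => ?_
  obtain ⟨hg, hL, hN⟩ := hE
  by_cases hy : Hyp6 Φ ε K Q.te P q.1 w (S.th ε q.2)
  · exact Or.inr ⟨hg, hy, hL, hN⟩
  · exact Or.inl ⟨hg, hy⟩

end Crest.Agent.R122.Link6796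

end
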