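import Crest.Agent.R122.VolRoot_365
import Crest.Agent.R122.EDefs_602

/-!
# Row 122, H11 (LINK mass): runs of fresh clusters (helper547), definitions

A *run* starts from a group: a marked world `Z : MW G` and a current particle `q : G`.  One step
`(s, r)`: at time `r` the current particle `q` of the (isolated) world `Z` is within `ρ` of the
member `s.e` of a fresh cluster `V : Config s.k` (its own isolated Newton flow, connected during
`[0, T]`).  After the step the current group and particle are

* `stay`   : `Z.add (cfg V)`, particle `inl q` (the same particle, deflected),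
* `switch` : `Z.add (cfg V)`, particle `inr e` (the hit particle, in the same world),
* `ghost`  : `cfg V`, particle `e` (the hit particle, undeflected, in the other world).

`Ch Φ ε T ρ l G Z q V` : the configuration `V : Config (tot l)` (all fresh clusters, in order)
realises the run `l` (list of steps and times) from the group `(Z, q)`.
-/

set_option autoImplicit false
set_option maxHeartbeats 400000

open MeasureTheory Set
open Crest.AnalysisR.Kinetic
open Crest.Agent.R122.Flow671 Crest.Agent.R122.Vol365 Crest.Agent.R122.EDefs602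
open scoped ENNReal Classical

noncomputable section

namespace Crest.Agent.R122.LinkM547

/-- continuation of a run after a contact -/
inductive Kind
  | stay | switch | ghost

/-- one step of a run: kind, size of the fresh cluster, member hit -/
structure Step where
  /-- kind -/
  kd : Kind
  /-- size of the fresh cluster -/
  k : ℕ
  /-- member hit -/
  e : Fin k

/-- total number of fresh particles -/
def tot : List (Step × ℝ) → ℕ
  | [] => 0
  | p :: l => p.1.k + tot l

/-- first block of a configuration -/
def hd {k m : ℕ} (V : Config (k + m)) : Config k := fun i => V (Fin.castAdd m i)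

/-- second block of a configuration -/
def tl {k m : ℕ} (V : Config (k + m)) : Config m := fun i => V (Fin.natAdd k i)

/-- The configuration `V` realises the run `l` from the group `(Z, q)`, contact radius `ρ`. -/
def Ch (Φ : Space3 → ℝ) (ε T ρ : ℝ) : (l : List (Step × ℝ)) → (G : Type) → [Fintype G] →
    MW G → G → Config (tot l) → Prop
  | [], _, _, _, _, _ => True
  | (s, r) :: l, G, _, Z, q, V =>
      AllConn (NContact Φ ε 0 T (hd (k := s.k) (m := tot l) V)) ∧
      dist (flow Φ ε r (hd (k := s.k) (m := tot l) V) s.e).1 (Z.path Φ ε r q).1 ≤ ρ ∧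
      match s.kd with
      | .stay => Ch Φ ε T ρ l (G ⊕ Fin s.k) (Z.add (MW.cfg (hd (k := s.k) (m := tot l) V)))
          (Sum.inl q) (tl (k := s.k) (m := tot l) V)
      | .switch => Ch Φ ε T ρ l (G ⊕ Fin s.k) (Z.add (MW.cfg (hd (k := s.k) (m := tot l) V)))
          (Sum.inr s.e) (tl (k := s.k) (m := tot l) V)
      | .ghost => Ch Φ ε T ρ l (Fin s.k) (MW.cfg (hd (k := s.k) (m := tot l) V)) s.e
          (tl (k := s.k) (m := tot l) V)

/-- The paths of the current particles are Lipschitz on `[0, T]` with constant `M` along the run. -/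
def ChLip (Φ : Space3 → ℝ) (ε T M : ℝ) : (l : List (Step × ℝ)) → (G : Type) → [Fintype G] →
    MW G → G → Config (tot l) → Prop
  | [], _, _, _, _, _ => True
  | (s, _) :: l, G, _, Z, q, V =>
      (∀ t ∈ Icc (0 : ℝ) T, ∀ t' ∈ Icc (0 : ℝ) T,
        dist (Z.path Φ ε t q).1 (Z.path Φ ε t' q).1 ≤ M * |t - t'|) ∧
      match s.kd with
      | .stay => ChLip Φ ε T M l (G ⊕ Fin s.k) (Z.add (MW.cfg (hd (k := s.k) (m := tot l) V)))
          (Sum.inl q) (tl (k := s.k) (m := tot l) V)
      | .switch => ChLip Φ ε T M l (G ⊕ Fin s.k) (Z.add (MW.cfg (hd (k := s.k) (m := tot l) V)))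
          (Sum.inr s.e) (tl (k := s.k) (m := tot l) V)
      | .ghost => ChLip Φ ε T M l (Fin s.k) (MW.cfg (hd (k := s.k) (m := tot l) V)) s.e
          (tl (k := s.k) (m := tot l) V)

/-- **Run of length `L` in the gas configuration `w` from the group `(Z, q)`**: a list of `L` steps
with clusters of sizes in `[1, K]`, nondecreasing times in `[0, T]`, realised at the exact contact
radius `ε` by pairwise disjoint clusters of `w`, the current paths being Lipschitz with the constant
`speed` given by the total kinetic energy of the group and of the clusters. -/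
def Run (Φ : Space3 → ℝ) (ε T : ℝ) (K L : ℕ) {G : Type} [Fintype G] (Z : MW G) (q : G) {n : ℕ}
    (w : Config n) : Prop :=
  ∃ l : List (Step × ℝ), l.length = L ∧ (∀ p ∈ l, 1 ≤ p.1.k ∧ p.1.k ≤ K) ∧
    (∀ p ∈ l, p.2 ∈ Icc (0 : ℝ) T) ∧ l.Pairwise (fun p p' => p.2 ≤ p'.2) ∧
    ∃ ι : Fin (tot l) ↪ Fin n, Ch Φ ε T ε l G Z q (fun i => w (ι i)) ∧
      ChLip Φ ε T (Real.sqrt (2 * (Loc45.kin Z.z + Loc45.kin (fun i => w (ι i)) +
        Loc45.stabB Φ * (Fintype.card G + L * K)))) l G Z q (fun i => w (ι i))

end Crest.Agent.R122.LinkM547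

end
private theorem rz_5a9c260c1d : type_of% @_root_.Crest.Agent.R122.LinkM547.Ch.eq_def := @_root_.Crest.Agent.R122.LinkM547.Ch.eq_def -- L57
private theorem rz_1567328a9a : type_of% @_root_.Crest.Agent.R122.LinkM547.Ch.eq_1 := @_root_.Crest.Agent.R122.LinkM547.Ch.eq_1 -- L57
private theorem rz_18d0073b99 : type_of% @_root_.Crest.Agent.R122.LinkM547.tot.eq_def := @_root_.Crest.Agent.R122.LinkM547.tot.eq_def -- L46
private theorem rz_9c3c3822ba : type_of% @_root_.Crest.Agent.R122.LinkM547.tot.eq_1 := @_root_.Crest.Agent.R122.LinkM547.tot.eq_1 -- L46
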