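import Crest.Agent.R122.VolRoot_365
import Crest.Agent.R122.BirthsEvo_45
import Crest.Agent.R122.GCBounds_311
import Crest.Agent.R122.LinkDefs_547
import Crest.Agent.R122.LocFlow_45

-- ▼ part R122/LinkM1_547
section

/-!
# Row 122, H11 (LINK mass), part 1 (helper547): cost of one fresh cluster

`step_bound`: the Gaussian-weighted volume of connected `k`-clusters whose member `e` is, at the
time `r`, within `ρ` of a given point, is at most `C ε^(2(k-1)) ρ³`, and this even with the factor
`exp (2 β kin)`.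
-/

set_option autoImplicit false
set_option maxHeartbeats 400000

open MeasureTheory Set
open Crest.AnalysisR.Kinetic
open Crest.Agent.R122.Flow671 Crest.Agent.R122.Loc45 Crest.Agent.R122.Causal291
open Crest.Agent.R122.Vol365 Crest.Agent.R122.GC311
open scoped ENNReal Classical

noncomputable section

namespace Crest.Agent.R122.LinkM547

/-- one power of the activity per cluster -/
theorem activity_pow_mul {ε : ℝ} (hε : 0 < ε) {k : ℕ} (hk : 1 ≤ k) :
    activity ε ^ k * ENNReal.ofReal ε ^ (2 * (k - 1)) = activity ε := by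
  obtain ⟨m, rfl⟩ := Nat.exists_eq_add_of_le' hk
  have h2 : m + 1 - 1 = m := by omega
  rw [h2]
  unfold activity
  rw [pow_mul, ← ENNReal.ofReal_pow hε.le, pow_succ, mul_assoc, mul_comm (ENNReal.ofReal (ε ^ 2)⁻¹),
    ← mul_assoc, ← mul_pow, ← ENNReal.ofReal_mul (by positivity)]
  rw [inv_mul_cancel₀ (by positivity)]
  simp

theorem gcWeight_exp_le {f₀ : PhasePoint → ℝ} {C₀ β : ℝ} (hC₀ : 0 ≤ C₀)
    (hf : ∀ z : PhasePoint, f₀ z ≤ C₀ * Real.exp (-(2 * β * ‖z.2‖ ^ 2))) (ε : ℝ) (k : ℕ)
    (V : Config k) :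
    gcWeight f₀ ε k V * ENNReal.ofReal (Real.exp (2 * β * kin V)) ≤
      gcWeight (fun z => C₀ * Real.exp (-(β * ‖z.2‖ ^ 2))) ε k V := by
  unfold gcWeight
  by_cases hV : V ∈ PairExcluded ε k
  · rw [indicator_of_mem hV, indicator_of_mem hV]
    have h1 : ENNReal.ofReal (Real.exp (2 * β * kin V)) =
        ∏ i : Fin k, ENNReal.ofReal (Real.exp (β * ‖(V i).2‖ ^ 2)) := by
      rw [← ENNReal.ofReal_prod_of_nonneg (fun i _ => (Real.exp_pos _).le), ← Real.exp_sum]
      congr 2
      unfold kin
      rw [← Finset.mul_sum]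
      ring
    rw [h1, ← Finset.prod_mul_distrib]
    refine Finset.prod_le_prod' fun i _ => ?_
    rw [← ENNReal.ofReal_mul' (Real.exp_pos _).le]
    refine ENNReal.ofReal_le_ofReal ?_
    calc f₀ (V i) * Real.exp (β * ‖(V i).2‖ ^ 2)
        ≤ C₀ * Real.exp (-(2 * β * ‖(V i).2‖ ^ 2)) * Real.exp (β * ‖(V i).2‖ ^ 2) :=
          mul_le_mul_of_nonneg_right (hf _) (Real.exp_pos _).le
      _ = C₀ * Real.exp (-(β * ‖(V i).2‖ ^ 2)) := by
          rw [mul_assoc, ← Real.exp_add]
          congr 2
          ring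
  · rw [indicator_of_notMem hV, zero_mul]
    exact bot_le

theorem lintegral_gw_ball {β : ℝ} (hβ : 0 < β) : ∃ C : ℝ≥0∞, C ≠ ∞ ∧ ∀ (a : Space3) (ρ : ℝ), 0 ≤ ρ →
    ∫⁻ y : PhasePoint, gw β y * (if dist y.1 a ≤ ρ then 1 else 0) ≤ C * ENNReal.ofReal ρ ^ 3 := by
  refine ⟨ENNReal.ofReal (4 / 3 * Real.pi) *
    ∫⁻ v : Space3, ENNReal.ofReal (Real.exp (-(β * ‖v‖ ^ 2))),
    ENNReal.mul_ne_top ENNReal.ofReal_ne_top (lintegral_gaussian_lt_top hβ).ne, ?_⟩
  intro a ρ hρ
  have hm : Measurable (fun y : PhasePoint => gw β y * (if dist y.1 a ≤ ρ then (1 : ℝ≥0∞) else 0)) := by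
    refine (measurable_gw β).mul (Measurable.ite ?_ measurable_const measurable_const)
    exact measurableSet_le (measurable_fst.dist measurable_const) measurable_const
  have e1 : ∫⁻ y : PhasePoint, gw β y * (if dist y.1 a ≤ ρ then (1 : ℝ≥0∞) else 0) =
      ∫⁻ x : Space3, ∫⁻ v : Space3, ENNReal.ofReal (Real.exp (-(β * ‖v‖ ^ 2))) *
        (if dist x a ≤ ρ then 1 else 0) := by
    change ∫⁻ z, _ ∂((volume : Measure Space3).prod (volume : Measure Space3)) = _
    exact lintegral_prod _ hm.aemeasurable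
  rw [e1]
  have e2 : ∀ x : Space3, ∫⁻ v : Space3, ENNReal.ofReal (Real.exp (-(β * ‖v‖ ^ 2))) *
        (if dist x a ≤ ρ then (1 : ℝ≥0∞) else 0) =
      (Metric.closedBall a ρ).indicator (fun _ => ∫⁻ v : Space3,
        ENNReal.ofReal (Real.exp (-(β * ‖v‖ ^ 2)))) x := by
    intro x
    by_cases hx : dist x a ≤ ρ
    · rw [indicator_of_mem (Metric.mem_closedBall.2 hx)]
      simp [hx]
    · rw [indicator_of_notMem (fun h => hx (Metric.mem_closedBall.1 h))]
      simp [hx]
  simp_rw [e2]
  rw [lintegral_indicator_const Metric.isClosed_closedBall.measurableSet]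
  have hv : volume (Metric.closedBall a ρ) = ENNReal.ofReal (4 / 3 * Real.pi) * ENNReal.ofReal ρ ^ 3 := by
    rw [EuclideanSpace.volume_closedBall_fin_three a ρ, mul_comm]
    congr 2
    ring
  rw [hv]
  exact le_of_eq (by ring)

/-- **Cost of one fresh connected cluster.** -/
theorem step_bound {Φ : Space3 → ℝ} (hΦ : AdmissiblePotential Φ) {β : ℝ} (hβ : 0 < β)
    (T C₀ : ℝ) (hC₀ : 0 ≤ C₀) (K : ℕ) : ∃ C : ℝ≥0∞, C ≠ ∞ ∧ ∀ f₀ : PhasePoint → ℝ,
      (∀ z : PhasePoint, f₀ z ≤ C₀ * Real.exp (-(2 * β * ‖z.2‖ ^ 2))) →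
      ∀ ε : ℝ, 0 < ε → ε ≤ 1 → ∀ k ≤ K, ∀ (e : Fin k) (r : ℝ), 0 ≤ r → r ≤ T →
      ∀ (a : Space3) (ρ : ℝ), 0 ≤ ρ →
      ∫⁻ V : Config k, gcWeight f₀ ε k V * ENNReal.ofReal (Real.exp (2 * β * kin V)) *
          (if AllConn (NContact Φ ε 0 T V) ∧ dist (flow Φ ε r V e).1 a ≤ ρ then 1 else 0) ≤
        C * ENNReal.ofReal ε ^ (2 * (k - 1)) * ENNReal.ofReal ρ ^ 3 := by
  obtain ⟨G, hG, hball⟩ := lintegral_gw_ball (β := β / 2) (by positivity)
  have hk : ∀ k : ℕ, ∃ C : ℝ≥0∞, C ≠ ∞ ∧ ∀ f₀ : PhasePoint → ℝ,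
      (∀ z : PhasePoint, f₀ z ≤ C₀ * Real.exp (-(2 * (β / 2) * ‖z.2‖ ^ 2))) →
      ∀ ε : ℝ, 0 < ε → ε ≤ 1 → ∀ (ι : Type) [Fintype ι],
      Fintype.card ι = k → ∀ (i : ι) (a b τ : ℝ), a ≤ τ → τ ≤ b → b - a ≤ T →
      ∀ F : PhasePoint → ℝ≥0∞, Measurable F →
      ∫⁻ z in {z : ι → PhasePoint | Excl ε z ∧ AllConn (NContact Φ ε a b z)},
          (∏ j, ENNReal.ofReal (f₀ (z j))) * F (flow Φ ε τ z i) ≤
        C * ENNReal.ofReal ε ^ (2 * (k - 1)) * ∫⁻ y, gw (β / 2) y * F y := fun k =>
    exists_root_bound hΦ (β := β / 2) (by positivity) T C₀ hC₀ k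
  choose C hC h using hk
  refine ⟨(∑ k ∈ Finset.range (K + 1), C k) * G, ENNReal.mul_ne_top
    (ENNReal.sum_ne_top.2 fun k _ => hC k) hG, ?_⟩
  intro f₀ hf ε hε hε1 k hkK e r hr0 hrT a ρ hρ
  set g : PhasePoint → ℝ := fun z => C₀ * Real.exp (-(β * ‖z.2‖ ^ 2)) with hg
  have hg' : ∀ z : PhasePoint, g z ≤ C₀ * Real.exp (-(2 * (β / 2) * ‖z.2‖ ^ 2)) := by
    intro z
    rw [hg]
    apply le_of_eq
    simp only
    congr 3
    ring
  set F : PhasePoint → ℝ≥0∞ := fun y => if dist y.1 a ≤ ρ then 1 else 0 with hF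
  have hFm : Measurable F := Measurable.ite
    (measurableSet_le (measurable_fst.dist measurable_const) measurable_const)
    measurable_const measurable_const
  have h1 := h k g hg' ε hε hε1 (Fin k) (Fintype.card_fin k) e 0 T r hr0 hrT (by linarith) F hFm
  have hCk : C k ≤ ∑ k ∈ Finset.range (K + 1), C k :=
    Finset.single_le_sum (f := C) (fun _ _ => bot_le) (Finset.mem_range.2 (by omega))
  calc ∫⁻ V : Config k, gcWeight f₀ ε k V * ENNReal.ofReal (Real.exp (2 * β * kin V)) *
          (if AllConn (NContact Φ ε 0 T V) ∧ dist (flow Φ ε r V e).1 a ≤ ρ then 1 else 0)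
      ≤ ∫⁻ V : Config k, {z : Config k | Excl ε z ∧ AllConn (NContact Φ ε 0 T z)}.indicator
          (fun z => (∏ j, ENNReal.ofReal (g (z j))) * F (flow Φ ε r z e)) V := by
        refine lintegral_mono fun V => ?_
        by_cases hc : AllConn (NContact Φ ε 0 T V) ∧ dist (flow Φ ε r V e).1 a ≤ ρ
        · simp only
          rw [if_pos hc, mul_one]
          refine (gcWeight_exp_le hC₀ hf ε k V).trans ?_
          unfold gcWeight
          by_cases hV : V ∈ PairExcluded ε k
          · rw [indicator_of_mem hV, indicator_of_mem (show V ∈ {z : Config k | Excl ε z ∧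
              AllConn (NContact Φ ε 0 T z)} from ⟨hV, hc.1⟩)]
            have : F (flow Φ ε r V e) = 1 := by
              simp only [hF]
              rw [if_pos hc.2]
            rw [this, mul_one]
          · rw [indicator_of_notMem hV]
            exact bot_le
        · simp only
          rw [if_neg hc, mul_zero]
          exact bot_le
    _ ≤ ∫⁻ V in {z : Config k | Excl ε z ∧ AllConn (NContact Φ ε 0 T z)},
          (∏ j, ENNReal.ofReal (g (V j))) * F (flow Φ ε r V e) := lintegral_indicator_le _ _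
    _ ≤ C k * ENNReal.ofReal ε ^ (2 * (k - 1)) * ∫⁻ y, gw (β / 2) y * F y := h1
    _ ≤ (∑ k ∈ Finset.range (K + 1), C k) * ENNReal.ofReal ε ^ (2 * (k - 1)) *
          (G * ENNReal.ofReal ρ ^ 3) := by
        gcongr
        exact hball a ρ hρ
    _ = _ := by ring

end Crest.Agent.R122.LinkM547

end
end

-- ▼ part R122/LinkM2_547
section

/-!
# Row 122, H11 (LINK mass), part 2 (helper547): measurability and volume of runs
-/

set_option autoImplicit false
set_option maxHeartbeats 400000

open MeasureTheory Set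
open Crest.AnalysisR.Kinetic
open Crest.Agent.R122.Flow671 Crest.Agent.R122.Loc45 Crest.Agent.R122.Causal291
open Crest.Agent.R122.Vol365 Crest.Agent.R122.GC311 Crest.Agent.R122.EDefs602
open Crest.Agent.R122.Ins45
open scoped ENNReal Classical

noncomputable section

namespace Crest.Agent.R122.LinkM547

variable {Φ : Space3 → ℝ} {ε : ℝ}

theorem measurableSet_allConn (hΦ : AdmissiblePotential Φ) (hε : 0 < ε) (T : ℝ) (k : ℕ) :
    MeasurableSet {V : Config k | AllConn (NContact Φ ε 0 T V)} := by
  have h := Bodies.measurableSet_rel (X := Config k) (D := univ) MeasurableSet.univ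
    (fun V : Config k => NContact Φ ε 0 T V) (fun i j => by
      have h1 := measurableSet_exists_Icc (Ω := Config k) (α := fun _ => (0 : ℝ)) (β := fun _ => T)
        measurable_const measurable_const (g := fun V s => dist (flow Φ ε s V i).1 (flow Φ ε s V j).1)
        (fun V => by
          have hc := flow_continuous_time hΦ hε V
          exact (((continuous_apply i).comp hc).fst).dist (((continuous_apply j).comp hc).fst))
        (fun s => by
          have hm := measurable_flow (ι := Fin k) hΦ hε s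
          exact (((measurable_pi_apply i).comp hm).fst).dist (((measurable_pi_apply j).comp hm).fst)) ε
      simpa [NContact] using h1) AllConn
  simpa using h

theorem measurable_hd {k m : ℕ} : Measurable (hd : Config (k + m) → Config k) :=
  measurable_pi_iff.2 fun _ => measurable_pi_apply _

theorem measurable_tl {k m : ℕ} : Measurable (tl : Config (k + m) → Config m) :=
  measurable_pi_iff.2 fun _ => measurable_pi_apply _

@[simp] theorem hd_append {k m : ℕ} (V : Config k) (w : Config m) : hd (Fin.append V w) = V := by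
  funext i; simp [hd]

@[simp] theorem tl_append {k m : ℕ} (V : Config k) (w : Config m) : tl (Fin.append V w) = w := by
  funext i; simp [tl]

theorem kin_append {k m : ℕ} (V : Config k) (w : Config m) :
    kin (Fin.append V w : Config (k + m)) = kin V + kin w := by
  unfold kin
  rw [Fin.sum_univ_add]
  simp
  ring

theorem measurable_elim {G H : Type} [Fintype G] [Fintype H] {δ : Type*} [MeasurableSpace δ]
    {f : δ → G → PhasePoint} {g : δ → H → PhasePoint} (hf : Measurable f) (hg : Measurable g) :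
    Measurable fun x => (Sum.elim (f x) (g x) : G ⊕ H → PhasePoint) := by
  refine measurable_pi_iff.2 fun i => ?_
  rcases i with i | i
  · exact (measurable_pi_apply i).comp hf
  · exact (measurable_pi_apply i).comp hg

theorem measurable_path_z (hΦ : AdmissiblePotential Φ) (hε : 0 < ε) {G : Type} [Fintype G]
    (b : G → ℝ) (m : G → ℕ) (r : ℝ) (q : G) {δ : Type*} [MeasurableSpace δ]
    {f : δ → G → PhasePoint} (hf : Measurable f) :
    Measurable fun x => ((⟨b, f x, m⟩ : MW G).path Φ ε r q).1 := by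
  have h := measurable_evo (ι := G) hΦ hε (δ := δ) (b := fun _ => b) (s := fun _ => (0 : ℝ))
    (t := fun _ => r) (Z := f) (fun _ => measurable_const) measurable_const measurable_const hf
  exact (((measurable_pi_apply q).comp h)).fst

theorem measurableSet_ch (hΦ : AdmissiblePotential Φ) (hε : 0 < ε) (T ρ : ℝ) :
    ∀ (l : List (Step × ℝ)) (G : Type) [Fintype G] (b : G → ℝ) (m : G → ℕ) (q : G),
      MeasurableSet {p : (G → PhasePoint) × Config (tot l) | Ch Φ ε T ρ l G ⟨b, p.1, m⟩ q p.2} := by
  intro l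
  induction l with
  | nil =>
    intro G _ b m q
    have : {p : (G → PhasePoint) × Config (tot []) | Ch Φ ε T ρ [] G ⟨b, p.1, m⟩ q p.2} = univ := by
      ext p; simp [Ch]
    rw [this]; exact MeasurableSet.univ
  | cons a l ih =>
    intro G _ b m q
    obtain ⟨s, r⟩ := a
    have h1 : Measurable fun p : (G → PhasePoint) × Config (tot ((s, r) :: l)) =>
        hd (k := s.k) (m := tot l) p.2 := measurable_hd.comp measurable_snd
    have h2 : Measurable fun p : (G → PhasePoint) × Config (tot ((s, r) :: l)) =>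
        tl (k := s.k) (m := tot l) p.2 := measurable_tl.comp measurable_snd
    have hA : MeasurableSet {p : (G → PhasePoint) × Config (tot ((s, r) :: l)) |
        AllConn (NContact Φ ε 0 T (hd (k := s.k) (m := tot l) p.2))} :=
      h1 (measurableSet_allConn hΦ hε T s.k)
    have hB : MeasurableSet {p : (G → PhasePoint) × Config (tot ((s, r) :: l)) |
        dist (flow Φ ε r (hd (k := s.k) (m := tot l) p.2) s.e).1
          ((⟨b, p.1, m⟩ : MW G).path Φ ε r q).1 ≤ ρ} := by
      refine measurableSet_le (Measurable.dist ?_ ?_) measurable_const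
      · exact (((measurable_pi_apply s.e).comp ((measurable_flow (ι := Fin s.k) hΦ hε r).comp h1))).fst
      · exact measurable_path_z hΦ hε b m r q measurable_fst
    have hC : MeasurableSet {p : (G → PhasePoint) × Config (tot ((s, r) :: l)) |
        (match s.kd with
          | .stay => Ch Φ ε T ρ l (G ⊕ Fin s.k)
              ((⟨b, p.1, m⟩ : MW G).add (MW.cfg (hd (k := s.k) (m := tot l) p.2)))
              (Sum.inl q) (tl (k := s.k) (m := tot l) p.2)
          | .switch => Ch Φ ε T ρ l (G ⊕ Fin s.k)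
              ((⟨b, p.1, m⟩ : MW G).add (MW.cfg (hd (k := s.k) (m := tot l) p.2)))
              (Sum.inr s.e) (tl (k := s.k) (m := tot l) p.2)
          | .ghost => Ch Φ ε T ρ l (Fin s.k) (MW.cfg (hd (k := s.k) (m := tot l) p.2)) s.e
              (tl (k := s.k) (m := tot l) p.2))} := by
      have hS : Measurable fun p : (G → PhasePoint) × Config (tot ((s, r) :: l)) =>
          ((Sum.elim p.1 (hd (k := s.k) (m := tot l) p.2) : G ⊕ Fin s.k → PhasePoint),
            tl (k := s.k) (m := tot l) p.2) := (measurable_elim measurable_fst h1).prodMk h2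
      rcases hk : s.kd with _ | _ | _
      · simp only
        exact hS (ih (G ⊕ Fin s.k) (Sum.elim b fun _ => 0) (Sum.elim m fun _ => 1) (Sum.inl q))
      · simp only
        exact hS (ih (G ⊕ Fin s.k) (Sum.elim b fun _ => 0) (Sum.elim m fun _ => 1) (Sum.inr s.e))
      · simp only
        exact (h1.prodMk h2) (ih (Fin s.k) (fun _ => 0) (fun _ => 1) s.e)
    have : {p : (G → PhasePoint) × Config (tot ((s, r) :: l)) |
        Ch Φ ε T ρ ((s, r) :: l) G ⟨b, p.1, m⟩ q p.2} = _ := rfl
    exact hA.inter (hB.inter hC)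

theorem measurableSet_ch_right (hΦ : AdmissiblePotential Φ) (hε : 0 < ε) (T ρ : ℝ)
    (l : List (Step × ℝ)) (G : Type) [Fintype G] (Z : MW G) (q : G) :
    MeasurableSet {V : Config (tot l) | Ch Φ ε T ρ l G Z q V} :=
  (measurable_prodMk_left (x := Z.z)) (measurableSet_ch hΦ hε T ρ l G Z.b Z.m q)

theorem measurable_kin {k : ℕ} : Measurable (kin : Config k → ℝ) := by
  unfold kin
  refine measurable_const.mul (Finset.measurable_sum _ fun i _ => ?_)
  exact ((measurable_pi_apply i).snd.norm).pow_const 2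

theorem measurable_wch (hΦ : AdmissiblePotential Φ) (hε : 0 < ε) (T ρ κ : ℝ)
    (l : List (Step × ℝ)) (G : Type) [Fintype G] (Z : MW G) (q : G) :
    Measurable fun V : Config (tot l) => ENNReal.ofReal (Real.exp (κ * kin V)) *
      (if Ch Φ ε T ρ l G Z q V then (1 : ℝ≥0∞) else 0) :=
  ((Real.measurable_exp.comp (measurable_kin.const_mul κ)).ennreal_ofReal).mul
    (Measurable.ite (measurableSet_ch_right hΦ hε T ρ l G Z q) measurable_const measurable_const)

/-- **Volume of runs with prescribed steps and times.** -/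
theorem lintegral_ch_le (hΦ : AdmissiblePotential Φ) {f₀ : PhasePoint → ℝ} (hf : Measurable f₀)
    (hε : 0 < ε) {T ρ κ : ℝ} {K : ℕ} {C : ℝ≥0∞}
    (hC : ∀ k ≤ K, ∀ (e : Fin k) (r : ℝ), 0 ≤ r → r ≤ T → ∀ a : Space3,
      ∫⁻ V : Config k, gcWeight f₀ ε k V * ENNReal.ofReal (Real.exp (κ * kin V)) *
          (if AllConn (NContact Φ ε 0 T V) ∧ dist (flow Φ ε r V e).1 a ≤ ρ then 1 else 0) ≤
        C * ENNReal.ofReal ε ^ (2 * (k - 1)) * ENNReal.ofReal ρ ^ 3) :
    ∀ (l : List (Step × ℝ)), (∀ p ∈ l, p.1.k ≤ K) → (∀ p ∈ l, p.2 ∈ Icc (0 : ℝ) T) →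
      ∀ (G : Type) [Fintype G] (Z : MW G) (q : G),
      ∫⁻ V : Config (tot l), gcWeight f₀ ε (tot l) V * (ENNReal.ofReal (Real.exp (κ * kin V)) *
          (if Ch Φ ε T ρ l G Z q V then (1 : ℝ≥0∞) else 0)) ≤
        (l.map fun p => C * ENNReal.ofReal ε ^ (2 * (p.1.k - 1)) * ENNReal.ofReal ρ ^ 3).prod := by
  intro l
  induction l with
  | nil =>
    intro _ _ G _ Z q
    have h0 : ∀ V : Config (tot []), gcWeight f₀ ε (tot []) V *
        (ENNReal.ofReal (Real.exp (κ * kin V)) *
          (if Ch Φ ε T ρ [] G Z q V then (1 : ℝ≥0∞) else 0)) ≤ 1 := by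
      intro V
      have hk : kin V = 0 := by
        unfold kin
        have : (Finset.univ : Finset (Fin (tot []))) = ∅ := Finset.univ_eq_empty (α := Fin 0)
        rw [this]; simp
      have hw : gcWeight f₀ ε (tot []) V ≤ 1 := by
        unfold gcWeight
        refine (indicator_le_self _ _ _).trans ?_
        have : (Finset.univ : Finset (Fin (tot []))) = ∅ := Finset.univ_eq_empty (α := Fin 0)
        rw [this]; simp
      rw [hk]
      simp only [mul_zero, Real.exp_zero, ENNReal.ofReal_one, one_mul]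
      calc _ ≤ (1 : ℝ≥0∞) * 1 := mul_le_mul' hw (by split_ifs <;> simp)
        _ = 1 := one_mul 1
    refine (lintegral_mono h0).trans ?_
    have hv : (volume : Measure (Config (tot []))) univ = 1 := by
      change (volume : Measure (Config 0)) univ = 1
      have h1 : (volume : Measure (Config 0)) = Measure.pi fun _ : Fin 0 =>
        (volume : Measure PhasePoint) := rfl
      rw [h1]
      exact (Measure.pi_univ _).trans (by simp)
    rw [lintegral_const, hv]
    simp
  | cons a l ih =>
    intro hk ht G _ Z q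
    obtain ⟨s, r⟩ := a
    have hks : s.k ≤ K := hk (s, r) (List.mem_cons_self ..)
    have hts : r ∈ Icc (0 : ℝ) T := ht (s, r) (List.mem_cons_self ..)
    have ih' := ih (fun p hp => hk p (List.mem_cons_of_mem _ hp))
      (fun p hp => ht p (List.mem_cons_of_mem _ hp))
    set P : ℝ≥0∞ := (l.map fun p => C * ENNReal.ofReal ε ^ (2 * (p.1.k - 1)) *
      ENNReal.ofReal ρ ^ 3).prod with hP
    have e1 := lintegral_append_gc hf ε (k := s.k) (m := tot l)
      (fun V => ENNReal.ofReal (Real.exp (κ * kin V)) *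
        (if Ch Φ ε T ρ ((s, r) :: l) G Z q V then (1 : ℝ≥0∞) else 0))
      (measurable_wch hΦ hε T ρ κ ((s, r) :: l) G Z q)
    change ∫⁻ V : Config (s.k + tot l), gcWeight f₀ ε (s.k + tot l) V *
      (ENNReal.ofReal (Real.exp (κ * kin V)) *
        (if Ch Φ ε T ρ ((s, r) :: l) G Z q V then (1 : ℝ≥0∞) else 0)) ≤ _
    rw [e1, List.map_cons, List.prod_cons]
    change _ ≤ C * ENNReal.ofReal ε ^ (2 * (s.k - 1)) * ENNReal.ofReal ρ ^ 3 * P
    have key : ∀ V : Config s.k, gcWeight f₀ ε s.k V *
        ∫⁻ w : Config (tot l), gcWeight f₀ ε (tot l) w * (perpInd ε V w *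
          (ENNReal.ofReal (Real.exp (κ * kin (Fin.append V w : Config (s.k + tot l)))) *
            (if Ch Φ ε T ρ ((s, r) :: l) G Z q (Fin.append V w) then (1 : ℝ≥0∞) else 0))) ≤
        (gcWeight f₀ ε s.k V * ENNReal.ofReal (Real.exp (κ * kin V)) *
          (if AllConn (NContact Φ ε 0 T V) ∧ dist (flow Φ ε r V s.e).1 (Z.path Φ ε r q).1 ≤ ρ
            then 1 else 0)) * P := by
      intro V
      by_cases hc : AllConn (NContact Φ ε 0 T V) ∧
          dist (flow Φ ε r V s.e).1 (Z.path Φ ε r q).1 ≤ ρ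
      · rw [if_pos hc, mul_one, mul_assoc]
        refine mul_le_mul_right ?_ _
        -- the next group
        have hnext : ∃ (G' : Type) (_ : Fintype G') (Z' : MW G') (q' : G'),
            ∀ w : Config (tot l), Ch Φ ε T ρ ((s, r) :: l) G Z q (Fin.append V w) →
              Ch Φ ε T ρ l G' Z' q' w := by
          rcases hkd : s.kd with _ | _ | _
          · refine ⟨G ⊕ Fin s.k, inferInstance, Z.add (MW.cfg V), Sum.inl q, fun w hw => ?_⟩
            have := hw.2.2
            simp only [hkd, hd_append, tl_append] at this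
            exact this
          · refine ⟨G ⊕ Fin s.k, inferInstance, Z.add (MW.cfg V), Sum.inr s.e, fun w hw => ?_⟩
            have := hw.2.2
            simp only [hkd, hd_append, tl_append] at this
            exact this
          · refine ⟨Fin s.k, inferInstance, MW.cfg V, s.e, fun w hw => ?_⟩
            have := hw.2.2
            simp only [hkd, hd_append, tl_append] at this
            exact this
        obtain ⟨G', hG', Z', q', hnext⟩ := hnext
        calc ∫⁻ w : Config (tot l), gcWeight f₀ ε (tot l) w * (perpInd ε V w *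
              (ENNReal.ofReal (Real.exp (κ * kin (Fin.append V w : Config (s.k + tot l)))) *
                (if Ch Φ ε T ρ ((s, r) :: l) G Z q (Fin.append V w) then (1 : ℝ≥0∞) else 0)))
            ≤ ∫⁻ w : Config (tot l), ENNReal.ofReal (Real.exp (κ * kin V)) *
                (gcWeight f₀ ε (tot l) w * (ENNReal.ofReal (Real.exp (κ * kin w)) *
                (if Ch Φ ε T ρ l G' Z' q' w then (1 : ℝ≥0∞) else 0))) := by
              refine lintegral_mono fun w => ?_
              have e2 : ENNReal.ofReal (Real.exp (κ * kin (Fin.append V w : Config (s.k + tot l)))) =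
                  ENNReal.ofReal (Real.exp (κ * kin V)) * ENNReal.ofReal (Real.exp (κ * kin w)) := by
                rw [kin_append, mul_add, Real.exp_add, ENNReal.ofReal_mul (Real.exp_pos _).le]
              simp only
              rw [e2]
              have e3 : (if Ch Φ ε T ρ ((s, r) :: l) G Z q (Fin.append V w) then (1 : ℝ≥0∞) else 0) ≤
                  (if Ch Φ ε T ρ l G' Z' q' w then (1 : ℝ≥0∞) else 0) := by
                split_ifs with h1 h2
                · exact le_rfl
                · exact absurd (hnext w h1) h2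
                · exact bot_le
                · exact bot_le
              have e4 : perpInd ε V w ≤ 1 := by
                unfold perpInd; split_ifs <;> simp
              calc gcWeight f₀ ε (tot l) w * (perpInd ε V w *
                    (ENNReal.ofReal (Real.exp (κ * kin V)) * ENNReal.ofReal (Real.exp (κ * kin w)) *
                      (if Ch Φ ε T ρ ((s, r) :: l) G Z q (Fin.append V w) then (1 : ℝ≥0∞) else 0)))
                  ≤ gcWeight f₀ ε (tot l) w * (1 *
                    (ENNReal.ofReal (Real.exp (κ * kin V)) * ENNReal.ofReal (Real.exp (κ * kin w)) *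
                      (if Ch Φ ε T ρ l G' Z' q' w then (1 : ℝ≥0∞) else 0))) := by gcongr
                _ = _ := by ring
          _ = ENNReal.ofReal (Real.exp (κ * kin V)) * ∫⁻ w : Config (tot l),
                (gcWeight f₀ ε (tot l) w * (ENNReal.ofReal (Real.exp (κ * kin w)) *
                (if Ch Φ ε T ρ l G' Z' q' w then (1 : ℝ≥0∞) else 0))) :=
              lintegral_const_mul' _ _ ENNReal.ofReal_ne_top
          _ ≤ ENNReal.ofReal (Real.exp (κ * kin V)) * P := by
              gcongr
              exact ih' G' Z' q'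
      · have hno : ∀ w : Config (tot l), ¬ Ch Φ ε T ρ ((s, r) :: l) G Z q (Fin.append V w) := by
          intro w hw
          apply hc
          have h1 := hw.1
          have h2 := hw.2.1
          simp only [hd_append] at h1 h2
          exact ⟨h1, h2⟩
        have : ∫⁻ w : Config (tot l), gcWeight f₀ ε (tot l) w * (perpInd ε V w *
          (ENNReal.ofReal (Real.exp (κ * kin (Fin.append V w : Config (s.k + tot l)))) *
            (if Ch Φ ε T ρ ((s, r) :: l) G Z q (Fin.append V w) then (1 : ℝ≥0∞) else 0))) = 0 := by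
          simp [hno]
        rw [this, mul_zero]
        exact bot_le
    refine (lintegral_mono key).trans ?_
    by_cases hPtop : P = ∞
    · -- degenerate case
      by_cases hI : ∫⁻ V : Config s.k, gcWeight f₀ ε s.k V * ENNReal.ofReal (Real.exp (κ * kin V)) *
          (if AllConn (NContact Φ ε 0 T V) ∧ dist (flow Φ ε r V s.e).1 (Z.path Φ ε r q).1 ≤ ρ
            then 1 else 0) = 0
      · have hm : Measurable fun V : Config s.k => gcWeight f₀ ε s.k V *
          ENNReal.ofReal (Real.exp (κ * kin V)) *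
          (if AllConn (NContact Φ ε 0 T V) ∧ dist (flow Φ ε r V s.e).1 (Z.path Φ ε r q).1 ≤ ρ
            then (1 : ℝ≥0∞) else 0) := by
          refine ((measurable_gcWeight hf ε s.k).mul
            ((Real.measurable_exp.comp (measurable_kin.const_mul κ)).ennreal_ofReal)).mul ?_
          refine Measurable.ite ((measurableSet_allConn hΦ hε T s.k).inter ?_) measurable_const
            measurable_const
          exact measurableSet_le (((((measurable_pi_apply s.e).comp
            (measurable_flow (ι := Fin s.k) hΦ hε r))).fst).dist measurable_const) measurable_const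
        rw [lintegral_eq_zero_iff hm] at hI
        have : ∫⁻ V : Config s.k, gcWeight f₀ ε s.k V * ENNReal.ofReal (Real.exp (κ * kin V)) *
          (if AllConn (NContact Φ ε 0 T V) ∧ dist (flow Φ ε r V s.e).1 (Z.path Φ ε r q).1 ≤ ρ
            then (1 : ℝ≥0∞) else 0) * P = 0 := by
          have h2 : (fun V : Config s.k => gcWeight f₀ ε s.k V *
            ENNReal.ofReal (Real.exp (κ * kin V)) *
            (if AllConn (NContact Φ ε 0 T V) ∧ dist (flow Φ ε r V s.e).1 (Z.path Φ ε r q).1 ≤ ρ
            then (1 : ℝ≥0∞) else 0) * P) =ᵐ[volume] 0 := by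
            filter_upwards [hI] with V hV
            rw [hV]; simp
          rw [lintegral_congr_ae h2]; simp
        rw [this]; exact bot_le
      · have h3 := hC s.k hks s.e r hts.1 hts.2 (Z.path Φ ε r q).1
        have h4 : C * ENNReal.ofReal ε ^ (2 * (s.k - 1)) * ENNReal.ofReal ρ ^ 3 ≠ 0 := by
          intro h0
          rw [h0] at h3
          exact hI (le_antisymm h3 bot_le)
        rw [hPtop, ENNReal.mul_top h4]
        exact le_top
    · rw [lintegral_mul_const' _ _ hPtop]
      gcongr
      exact hC s.k hks s.e r hts.1 hts.2 (Z.path Φ ε r q).1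

end Crest.Agent.R122.LinkM547

end
end

-- ▼ part R122/LinkM3_547

/-!
# Row 122, H11 (LINK mass), part 3 (helper547): rounding the times of a run to a grid
-/

set_option autoImplicit false
set_option maxHeartbeats 400000

open MeasureTheory Set
open Crest.AnalysisR.Kinetic
open Crest.Agent.R122.Flow671 Crest.Agent.R122.Loc45 Crest.Agent.R122.Causal291
open Crest.Agent.R122.Vol365 Crest.Agent.R122.GC311 Crest.Agent.R122.EDefs602
open Crest.Agent.R122.Ins45
open scoped ENNReal Classical

noncomputable section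

namespace Crest.Agent.R122.LinkM547

variable {Φ : Space3 → ℝ} {ε : ℝ}

/-- rounding a time down to the grid of mesh `δ` -/
def rd (δ : ℝ) (p : Step × ℝ) : Step × ℝ := (p.1, δ * (⌊p.2 / δ⌋₊ : ℝ))

theorem tot_map_rd (δ : ℝ) (l : List (Step × ℝ)) : tot (l.map (rd δ)) = tot l := by
  induction l with
  | nil => rfl
  | cons a l ih =>
    change a.1.k + tot (l.map (rd δ)) = a.1.k + tot l
    rw [ih]

theorem rd_bounds {δ r : ℝ} (hδ : 0 < δ) (hr : 0 ≤ r) :
    0 ≤ δ * (⌊r / δ⌋₊ : ℝ) ∧ δ * (⌊r / δ⌋₊ : ℝ) ≤ r ∧ r - δ * (⌊r / δ⌋₊ : ℝ) ≤ δ := by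
  have h0 : 0 ≤ r / δ := div_nonneg hr hδ.le
  refine ⟨by positivity, ?_, ?_⟩
  · calc δ * (⌊r / δ⌋₊ : ℝ) ≤ δ * (r / δ) := mul_le_mul_of_nonneg_left (Nat.floor_le h0) hδ.le
      _ = r := by field_simp
  · have h1 : r / δ < (⌊r / δ⌋₊ : ℝ) + 1 := Nat.lt_floor_add_one _
    have h2 : r < δ * ((⌊r / δ⌋₊ : ℝ) + 1) := by
      rw [div_lt_iff₀ hδ] at h1
      linarith
    linarith



theorem pairExcluded_hd {k m : ℕ} {V : Config (k + m)} (h : V ∈ PairExcluded ε (k + m)) :
    hd V ∈ PairExcluded ε k := fun i j hij =>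
  h _ _ fun h' => hij (Fin.castAdd_injective _ _ h')

theorem pairExcluded_tl {k m : ℕ} {V : Config (k + m)} (h : V ∈ PairExcluded ε (k + m)) :
    tl V ∈ PairExcluded ε m := fun i j hij =>
  h _ _ fun h' => hij (Fin.natAdd_injective _ _ h')

theorem kin_split {k m : ℕ} (V : Config (k + m)) : kin V = kin (hd V) + kin (tl V) := by
  have : V = Fin.append (hd V) (tl V) := by
    funext i
    refine Fin.addCases (fun i => ?_) (fun i => ?_) i <;> simp [hd, tl]
  conv_lhs => rw [this]
  exact kin_append _ _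

/-- Displacement bound for an excluded configuration. -/
theorem dist_flow_le_of_excluded (hΦ : AdmissiblePotential Φ) (hε : 0 < ε) {k : ℕ} {V : Config k}
    (hV : V ∈ PairExcluded ε k) (s t : ℝ) (i : Fin k) :
    dist (flow Φ ε t V i).1 (flow Φ ε s V i).1 ≤
      Real.sqrt (2 * (kin V + stabB Φ * k)) * |t - s| := by
  have h := dist_pos_flow_le hΦ hε (pairExcluded_subset_Dom (Φ := Φ) hε k hV) s t i
  rwa [energy_pairExcluded hΦ hε hV, Fintype.card_fin] at h

/-- **Rounding the times.** -/
theorem ch_round (hΦ : AdmissiblePotential Φ) (hε : 0 < ε) {T M δ : ℝ} (hδ : 0 < δ)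
    (hM : M * δ ≤ ε) :
    ∀ (l : List (Step × ℝ)), (∀ p ∈ l, p.2 ∈ Icc (0 : ℝ) T) →
      ∀ (G : Type) [Fintype G] (Z : MW G) (q : G) (V : Config (tot l)),
      V ∈ PairExcluded ε (tot l) → Real.sqrt (2 * (kin V + stabB Φ * tot l)) ≤ M →
      Ch Φ ε T ε l G Z q V → ChLip Φ ε T M l G Z q V →
      Ch Φ ε T (3 * ε) (l.map (rd δ)) G Z q (fun i => V (Fin.cast (tot_map_rd δ l) i)) := by
  intro l
  induction l with
  | nil => intro _ G _ Z q V _ _ _ _; exact trivial
  | cons a l ih =>
    intro ht G _ Z q V hV hMV hc hL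
    obtain ⟨s, r⟩ := a
    have hr : r ∈ Icc (0 : ℝ) T := ht (s, r) (List.mem_cons_self ..)
    have ht' : ∀ p ∈ l, p.2 ∈ Icc (0 : ℝ) T := fun p hp => ht p (List.mem_cons_of_mem _ hp)
    obtain ⟨b0, b1, b2⟩ := rd_bounds hδ hr.1
    set r' : ℝ := δ * (⌊r / δ⌋₊ : ℝ) with hr'
    have hr'T : r' ∈ Icc (0 : ℝ) T := ⟨b0, b1.trans hr.2⟩
    have habs : |r' - r| ≤ δ := by rw [abs_sub_comm, abs_of_nonneg (by linarith)]; exact b2
    have habs' : |r - r'| ≤ δ := by rw [abs_sub_comm]; exact habs
    have hM0 : 0 ≤ M := (Real.sqrt_nonneg _).trans hMV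
    have hV' : (show Config (s.k + tot l) from V) ∈ PairExcluded ε (s.k + tot l) := hV
    have hkin : kin V = kin (hd (k := s.k) (m := tot l) V) + kin (tl (k := s.k) (m := tot l) V) :=
      kin_split (k := s.k) (m := tot l) V
    have htot : ((tot ((s, r) :: l) : ℕ) : ℝ) = (s.k : ℝ) + (tot l : ℝ) := by
      change ((s.k + tot l : ℕ) : ℝ) = _
      push_cast; rfl
    have hB := stabB_nonneg Φ
    have hk1 := kin_nonneg (hd (k := s.k) (m := tot l) V)
    have hk2 := kin_nonneg (tl (k := s.k) (m := tot l) V)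
    have hM1 : Real.sqrt (2 * (kin (hd (k := s.k) (m := tot l) V) + stabB Φ * s.k)) ≤ M := by
      refine (Real.sqrt_le_sqrt ?_).trans hMV
      rw [hkin, htot]
      have : 0 ≤ stabB Φ * (tot l : ℝ) := by positivity
      nlinarith
    have hM2 : Real.sqrt (2 * (kin (tl (k := s.k) (m := tot l) V) + stabB Φ * tot l)) ≤ M := by
      refine (Real.sqrt_le_sqrt ?_).trans hMV
      rw [hkin, htot]
      have : 0 ≤ stabB Φ * (s.k : ℝ) := by positivity
      nlinarith
    obtain ⟨c1, c2, c3⟩ := hc
    obtain ⟨l1, l2⟩ := hL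
    refine ⟨c1, ?_, ?_⟩
    · change dist (flow Φ ε r' (hd (k := s.k) (m := tot l) V) s.e).1 (Z.path Φ ε r' q).1 ≤ 3 * ε
      have e1 := dist_flow_le_of_excluded hΦ hε (pairExcluded_hd hV') r r' s.e
      have e2 := l1 r hr r' hr'T
      have e3 : Real.sqrt (2 * (kin (hd (k := s.k) (m := tot l) V) + stabB Φ * s.k)) * |r' - r| ≤ ε :=
        (mul_le_mul hM1 habs (abs_nonneg _) hM0).trans hM
      have e4 : M * |r - r'| ≤ ε := (mul_le_mul_of_nonneg_left habs' hM0).trans hM
      calc dist (flow Φ ε r' (hd (k := s.k) (m := tot l) V) s.e).1 (Z.path Φ ε r' q).1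
          ≤ dist (flow Φ ε r' (hd (k := s.k) (m := tot l) V) s.e).1
              (flow Φ ε r (hd (k := s.k) (m := tot l) V) s.e).1 +
            dist (flow Φ ε r (hd (k := s.k) (m := tot l) V) s.e).1 (Z.path Φ ε r q).1 +
            dist (Z.path Φ ε r q).1 (Z.path Φ ε r' q).1 := dist_triangle4 _ _ _ _
        _ ≤ ε + ε + ε := by
            refine add_le_add (add_le_add (e1.trans e3) c2) (e2.trans e4)
        _ = 3 * ε := by ring
    · rcases hk : s.kd with _ | _ | _
      · simp only [hk] at c3 l2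
        have := ih ht' (G ⊕ Fin s.k) (Z.add (MW.cfg (hd (k := s.k) (m := tot l) V))) (Sum.inl q)
          (tl (k := s.k) (m := tot l) V) (pairExcluded_tl hV') hM2 c3 l2
        simp only [rd, hk]
        exact this
      · simp only [hk] at c3 l2
        have := ih ht' (G ⊕ Fin s.k) (Z.add (MW.cfg (hd (k := s.k) (m := tot l) V))) (Sum.inr s.e)
          (tl (k := s.k) (m := tot l) V) (pairExcluded_tl hV') hM2 c3 l2
        simp only [rd, hk]
        exact this
      · simp only [hk] at c3 l2
        have := ih ht' (Fin s.k) (MW.cfg (hd (k := s.k) (m := tot l) V)) s.e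
          (tl (k := s.k) (m := tot l) V) (pairExcluded_tl hV') hM2 c3 l2
        simp only [rd, hk]
        exact this

end Crest.Agent.R122.LinkM547

end
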