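import Crest.Agent.R122.E4Hyp_879
import Crest.Agent.R122.Rst_515
import Crest.Agent.R122.Good4One_45

-- ▼ part R122/UnlC_263
section

/-!
# Superposition facts with a reborn root line (row 122, H1), helper263

`E4Hyp` (helper879) gives helper285's `UnlB` for a family of lines pairwise unlinked in the base
worlds up to the touch times of the two lines. For the family `c + exits`, `c` = the undeflected root
reborn at the exit time `u` of the encounter with the test line, the links of `c` are known only as long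
as the exits have not touched. This is enough:

* `theta_iff_local`, `le_theta_local` : world consistency at one time.
* `unlAt_of_noLk` : superposition facts from `NoLk` (links up to the first touch of the family).
* `link_reb` : the links of a reborn line are links of the line.
* `noLk_reb` : from the pairwise unlinked family with `c`, the family with `c` reborn at `u`, if `c` has
  no contact up to `u` in the world `Z + exits + c`.
* `unlB_reb` : **`UnlB` for the family with the reborn line.**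
-/

set_option autoImplicit false
set_option linter.unusedSectionVars false

open MeasureTheory Set Filter Topology
open scoped ENNReal
open Crest.AnalysisR.Kinetic
open Crest.Agent.R122.Flow671 Crest.Agent.R122.Loc45 Crest.Agent.R122.Ins45
open Crest.Agent.R122.Causal291 Crest.Agent.R122.CausalGen291
open Crest.Agent.R122.Inf879 Crest.Agent.R122.EDefs602 Crest.Agent.R122.MWAlg255
open Crest.Agent.R122.MWFam255 Crest.Agent.R122.Decomp285 Crest.Agent.R122.Line285
open Crest.Agent.R122.E4Hyp879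

namespace Crest.Agent.R122.UnlC263

noncomputable section

open scoped Classical

variable {Φ : Space3 → ℝ} {ε T s : ℝ} {K : ℕ} {ι κ κ₁ μ : Type}
variable [Fintype ι] [Fintype κ] [Fintype κ₁] [Fintype μ]

/-! ### World consistency at one time -/

theorem theta_iff_local (hΦ : AdmissiblePotential Φ) (hε : 0 < ε) {Z : MW ι} {A : MW κ} {B : MW μ}
    (h : Ok4 Φ ε Z A B) (hs0 : 0 ≤ s) (hsT : s ≤ T) (hA : s ≤ Z.theta Φ ε K T A)
    (hB : s ≤ Z.theta Φ ε K T B) (hlk : ¬ Z.LINK Φ ε K A B s) :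
    Z.theta Φ ε K T B ≤ s ↔ (Z.add A).theta Φ ε K T B ≤ s := by
  have hd := MW.four_dyn hΦ hε h.z h.a h.b h.ab T
  have hX := MW.four_cohX Φ ε Z A B T
  have hR := MW.four_rules h.z h.a h.b h.ab K 0 T
  have hn := h.noLink hΦ hε hsT hA hB hlk
  have h1 := Four.touched_iff_closed hd hX hR le_rfl ⟨hs0, hsT⟩ hn.untA hn.untL hn.nl
  have h2 := touched_iff_theta_le hd.p₀L le_rfl hR.r₀ hR.rL ⟨hs0, hsT⟩
  have h3 := touched_iff_theta_le hd.pA le_rfl hR.rA hR.r ⟨hs0, hsT⟩
  exact h2.symm.trans (h1.trans h3)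

theorem le_theta_local (hΦ : AdmissiblePotential Φ) (hε : 0 < ε) {Z : MW ι} {A : MW κ} {B : MW μ}
    (h : Ok4 Φ ε Z A B) (hs0 : 0 ≤ s) (hsT : s ≤ T) (hA : s ≤ Z.theta Φ ε K T A)
    (hB : s ≤ Z.theta Φ ε K T B) (hlk : ¬ Z.LINK Φ ε K A B s) :
    s ≤ (Z.add A).theta Φ ε K T B := by
  by_contra hlt
  rw [not_le] at hlt
  have h0 : 0 ≤ (Z.add A).theta Φ ε K T B := MW.theta_nonneg (hs0.trans hsT)
  have h1 := (theta_iff_local (s := (Z.add A).theta Φ ε K T B) hΦ hε h h0 (hlt.le.trans hsT)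
    (hlt.le.trans hA) (hlt.le.trans hB) fun hl => hlk (hl.mono hlt.le)).2 le_rfl
  exact absurd (hB.trans h1) (not_le.2 hlt)

/-! ### Families, at one time -/

/-- At the time `s` no line of the family has touched before and no two lines are linked. -/
structure At (Φ : Space3 → ℝ) (ε : ℝ) (K : ℕ) (T : ℝ) (Z : MW ι) (ls : κ → ML) (s : ℝ) : Prop where
  s0 : 0 ≤ s
  sT : s ≤ T
  le : ∀ k, s ≤ Z.thetaL Φ ε K T (ls k)
  nl : ∀ j k, j ≠ k → ¬ Z.LINK Φ ε K (MW.line (ls j)) (MW.line (ls k)) s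

theorem At.le_lines (hΦ : AdmissiblePotential Φ) (hε : 0 < ε) {Z : MW ι} {ls : κ → ML}
    (hok : MW.OkFam Φ ε Z ls) (h : At Φ ε K T Z ls s) (f : κ₁ ↪ κ) :
    s ≤ Z.theta Φ ε K T (MW.lines fun i => ls (f i)) := by
  have h1 := (fam_core hΦ hε (okF_of_okFam hΦ hε hok) h.s0 h.sT (Finset.univ.map f)
    (fun k _ => h.le k) fun j _ k _ hjk => h.nl j k hjk).1
  rw [lines_eq_sub ls f, theta_comap_right hΦ hε]
  exact h1

theorem At.not_link (hΦ : AdmissiblePotential Φ) (hε : 0 < ε) {Z : MW ι} {ls : κ → ML}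
    (hok : MW.OkFam Φ ε Z ls) (h : At Φ ε K T Z ls s) (f : κ₁ ↪ κ) {k : κ} (hk : ∀ i, f i ≠ k) :
    ¬ Z.LINK Φ ε K (MW.lines fun i => ls (f i)) (MW.line (ls k)) s := by
  have h1 := (fam_core hΦ hε (okF_of_okFam hΦ hε hok) h.s0 h.sT (Finset.univ.map f)
    (fun k _ => h.le k) fun j _ k _ hjk => h.nl j k hjk).2.1 Unit (MW.line (ls k)) fun j hj => by
      obtain ⟨i, _, rfl⟩ := Finset.mem_map.1 hj
      exact h.nl _ _ (hk i)
  rw [lines_eq_sub ls f, link_comap hΦ hε]
  exact h1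

theorem ok4_lines (hΦ : AdmissiblePotential Φ) (hε : 0 < ε) {Z : MW ι} {ls : κ → ML}
    (hok : MW.OkFam Φ ε Z ls) (f : κ₁ ↪ κ) {k : κ} (hk : ∀ i, f i ≠ k) :
    Ok4 Φ ε Z (MW.lines fun i => ls (f i)) (MW.line (ls k)) :=
  ⟨hok.base hΦ hε, (okFam_comp hΦ hε hok f).lines hΦ hε, hok.line hΦ hε k,
    ok_lines_add hΦ hε hok f (⟨fun _ : Unit => k, fun _ _ _ => rfl⟩ : Unit ↪ κ) fun i _ => hk i⟩

theorem At.le_theta (hΦ : AdmissiblePotential Φ) (hε : 0 < ε) {Z : MW ι} {ls : κ → ML}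
    (hok : MW.OkFam Φ ε Z ls) (h : At Φ ε K T Z ls s) (f : κ₁ ↪ κ) {k : κ} (hk : ∀ i, f i ≠ k) :
    s ≤ (Z.add (MW.lines fun i => ls (f i))).thetaL Φ ε K T (ls k) :=
  le_theta_local hΦ hε (ok4_lines hΦ hε hok f hk) h.s0 h.sT (h.le_lines hΦ hε hok f) (h.le k)
    (h.not_link hΦ hε hok f hk)

theorem At.of_theta_le (hΦ : AdmissiblePotential Φ) (hε : 0 < ε) {Z : MW ι} {ls : κ → ML}
    (hok : MW.OkFam Φ ε Z ls) (h : At Φ ε K T Z ls s) (f : κ₁ ↪ κ) {k : κ} (hk : ∀ i, f i ≠ k)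
    (hle : (Z.add (MW.lines fun i => ls (f i))).thetaL Φ ε K T (ls k) ≤ s) :
    Z.thetaL Φ ε K T (ls k) ≤ s :=
  (theta_iff_local hΦ hε (ok4_lines hΦ hε hok f hk) h.s0 h.sT (h.le_lines hΦ hε hok f) (h.le k)
    (h.not_link hΦ hε hok f hk)).2 hle

/-- No link up to the first touch of the family. -/
def NoLkF (Φ : Space3 → ℝ) (ε : ℝ) (K : ℕ) (T : ℝ) (Z : MW ι) (ls : κ → ML) : Prop :=
  ∀ s, 0 ≤ s → s ≤ T → (∀ k, s ≤ Z.thetaL Φ ε K T (ls k)) → ∀ j k, j ≠ k →
    ¬ Z.LINK Φ ε K (MW.line (ls j)) (MW.line (ls k)) s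

/-- Superposition facts in the base world `Z` from `NoLkF`. -/
theorem facts_of_noLkF (hΦ : AdmissiblePotential Φ) (hε : 0 < ε) (hT : 0 ≤ T) {Z : MW ι}
    {ls : κ → ML} (hok : MW.OkFam Φ ε Z ls) (hn : NoLkF Φ ε K T Z ls) {s : ℝ}
    (hs : ∀ k, s ≤ Z.thetaL Φ ε K T (ls k)) (f : κ₁ ↪ κ) {k : κ} (hk : ∀ i, f i ≠ k) :
    s ≤ (Z.add (MW.lines fun i => ls (f i))).thetaL Φ ε K T (ls k) ∧
      ((Z.add (MW.lines fun i => ls (f i))).thetaL Φ ε K T (ls k) ≤ s →
        Z.thetaL Φ ε K T (ls k) ≤ s) := by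
  have h4 := ok4_lines hΦ hε hok f hk
  rcases lt_or_ge s 0 with h0 | h0
  · refine ⟨h0.le.trans (MW.theta_nonneg hT), fun h => ?_⟩
    exact absurd ((MW.theta_nonneg hT).trans h) (not_le.2 h0)
  rcases le_or_gt s T with h1 | h1
  · have hA : At Φ ε K T Z ls s := ⟨h0, h1, hs, hn s h0 h1 hs⟩
    exact ⟨hA.le_theta hΦ hε hok f hk, hA.of_theta_le hΦ hε hok f hk⟩
  · have hsT : ∀ k, T ≤ Z.thetaL Φ ε K T (ls k) := fun k => h1.le.trans (hs k)
    have hA : At Φ ε K T Z ls T := ⟨hT, le_rfl, hsT, hn T hT le_rfl hsT⟩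
    have h5 : (Z.add (MW.lines fun i => ls (f i))).thetaL Φ ε K T (ls k) = T + 1 := by
      rcases MW.theta_le_or (K := K) (T := T) hΦ hε h4.a h4.ab with h2 | h2
      · have h3 := hA.of_theta_le hΦ hε hok f hk h2
        exact absurd (h1.trans_le (hs k)) (not_lt.2 h3)
      · exact h2
    have h6 : Z.thetaL Φ ε K T (ls k) ≤ T + 1 := MW.theta_le
    rw [h5]
    exact ⟨(hs k).trans h6, fun h => h6.trans h⟩

variable {Z : MW ι} {ls : κ → ML} {E F : Finset κ}

/-- **Superposition facts** in the base world `Z`. -/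
theorem unlAt_of_noLkF (hΦ : AdmissiblePotential Φ) (hε : 0 < ε) (hT : 0 ≤ T)
    (hok : MW.OkFam Φ ε Z (fun x : F => ls x)) (hn : NoLkF Φ ε K T Z (fun x : F => ls x)) :
    UnlAt (thF Φ ε K T Z ls) ∅ F := by
  have key : ∀ s, (∀ a ∈ F, a ∉ (∅ : Finset κ) → s ≤ thF Φ ε K T Z ls ∅ a) → ∀ G ⊆ F, ∀ b ∈ F,
      b ∉ G → s ≤ thF Φ ε K T Z ls G b ∧
        (thF Φ ε K T Z ls G b ≤ s → thF Φ ε K T Z ls ∅ b ≤ s) := by
    intro s hs G hG b hb hbG
    have hs' : ∀ a : F, s ≤ Z.thetaL Φ ε K T (ls a) := fun a => by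
      have h1 := hs a.1 a.2 (Finset.notMem_empty _)
      rwa [thF_empty hΦ hε] at h1
    have h1 := facts_of_noLkF hΦ hε hT hok hn hs'
      (⟨fun i : G => (⟨i.1, hG i.2⟩ : F), fun i j h => Subtype.ext (congrArg (fun y : F => y.1) h)⟩ :
        G ↪ F) (k := ⟨b, hb⟩) fun i h => hbG (by
          have h1 : (i : κ) = b := congrArg (fun y : F => y.1) h
          rw [← h1]
          exact i.2)
    rw [thF_empty hΦ hε]
    exact h1
  refine ⟨fun s hs G hG b hb _ hbG => ?_, fun s hs G hG b hb _ hbG hle => ?_⟩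
  · rw [Finset.union_empty]
    exact (key s hs G hG b hb hbG).1
  · rw [Finset.union_empty] at hle
    exact (key s hs G hG b hb hbG).2 hle

/-- Superposition facts in the base world `Z + d`. -/
theorem unlAt_singleton' (hΦ : AdmissiblePotential Φ) (hε : 0 < ε) (hT : 0 ≤ T)
    (hok : MW.OkFam Φ ε Z (fun x : F => ls x)) {d : κ} (hd : d ∈ F)
    (hn : NoLkF Φ ε K T (Z.ins (ls d)) (fun x : (F.erase d : Finset κ) => ls x)) :
    UnlAt (thF Φ ε K T Z ls) {d} F := by
  have h1 := unlAt_of_noLkF hΦ hε hT (okFam_ins hΦ hε hok hd) hn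
  have e0 : ∀ b, thF Φ ε K T Z ls {d} b = thF Φ ε K T (Z.ins (ls d)) ls ∅ b := fun b =>
    thX_insert_base hΦ hε K T Z ls (ls b) (d := d) (G := ∅) (Finset.notMem_empty d)
  have e1 : ∀ (G : Finset κ) (b : κ), thF Φ ε K T Z ls (G ∪ {d}) b =
      thF Φ ε K T (Z.ins (ls d)) ls (G.erase d) b := by
    intro G b
    have h2 : G ∪ {d} = insert d (G.erase d) := by
      ext x
      simp only [Finset.mem_union, Finset.mem_singleton, Finset.mem_insert, Finset.mem_erase]
      by_cases hx : x = d <;> simp [hx]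
    rw [h2]
    exact thX_insert_base hΦ hε K T Z ls (ls b) (Finset.notMem_erase d G)
  refine ⟨fun s hs G hG b hb hbd hbG => ?_, fun s hs G hG b hb hbd hbG hle => ?_⟩
  · rw [e1]
    have hbd' : b ≠ d := fun h => hbd (Finset.mem_singleton.2 h)
    have h2 := h1.ge s (fun a ha _ => by
      rw [← e0]
      exact hs a (Finset.mem_of_mem_erase ha)
        fun h => (Finset.mem_erase.1 ha).1 (Finset.mem_singleton.1 h)) (G.erase d)
      (Finset.erase_subset_erase d hG) b (Finset.mem_erase.2 ⟨hbd', hb⟩) (Finset.notMem_empty b)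
      (fun h => hbG (Finset.mem_of_mem_erase h))
    rwa [Finset.union_empty] at h2
  · rw [e1] at hle
    rw [e0]
    have hbd' : b ≠ d := fun h => hbd (Finset.mem_singleton.2 h)
    exact h1.of_le s (fun a ha _ => by
      rw [← e0]
      exact hs a (Finset.mem_of_mem_erase ha)
        fun h => (Finset.mem_erase.1 ha).1 (Finset.mem_singleton.1 h)) (G.erase d)
      (Finset.erase_subset_erase d hG) b (Finset.mem_erase.2 ⟨hbd', hb⟩) (Finset.notMem_empty b)
      (fun h => hbG (Finset.mem_of_mem_erase h)) (by rwa [Finset.union_empty])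

/-! ### Links of a reborn line -/

section reb

variable {l : ML} {σ : ℝ} {B : MW μ}

/-- Clean closures: self-contacts are irrelevant. -/
theorem cfut_mono_ne {β γ α : Type} {X : Type*} {C₁ : ℝ → β → β → Prop} {z₁ : ℝ → β → X}
    {C C' : ℝ → α → α → Prop} {z₂ z₂' : ℝ → α → X} {e₁ : γ → β} {e₂ : γ → α} {x : γ} {a : ℝ}
    {P₁ : ℝ → β → Prop} {P₂ P₂' : ℝ → α → Prop}
    (he : Function.Injective e₂) (h : ∀ s j k, j ≠ k → C s j k → C' s j k)
    (h0 : ∀ k, z₂ 0 (e₂ k) = z₂' 0 (e₂ k)) (hP : ∀ s j, P₂' s j → P₂ s j)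
    (hp : CFut C₁ z₁ C z₂ e₁ e₂ a P₁ P₂ s x) : CFut C₁ z₁ C' z₂' e₁ e₂ a P₁ P₂' s x := by
  have hcl : ∀ {s : ℝ} {k : γ}, CleanB a P₁ P₂ e₁ e₂ s k → CleanB a P₁ P₂' e₁ e₂ s k :=
    fun hc u hu hus => ⟨(hc u hu hus).1, fun h' => (hc u hu hus).2 (hP _ _ h')⟩
  induction hp with
  | init hne hs => exact .init (by rw [← h0]; exact hne) hs
  | new₁ j hj hc h1 hs hb => exact .new₁ j hj hc h1 hs (hcl hb)
  | new₂ j hj hc h1 hs hb =>
    exact .new₂ j hj (h _ _ _ (fun he' => hj ⟨_, he'.symm⟩) hc) h1 hs (hcl hb)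
  | chain₁ _ hc hs hb ih => exact .chain₁ ih hc hs (hcl hb)
  | @chain₂ s₁ s₂ k l _ hc hs hb ih =>
    by_cases hkl : l = k
    · subst hkl
      exact ih.mono hs
    · exact .chain₂ ih (h _ _ _ (fun he' => hkl (he he')) hc) hs (hcl hb)

variable (h : NoCt Φ ε Z l σ) (hΦ : AdmissiblePotential Φ) (hε : 0 < ε)
  (hZl : (Z.ins l).Ok Φ ε)

include h hΦ hε hZl in
theorem cf_reb {k : ι} (hk : CF Φ ε K Z (MW.line (reb l σ)) s k) :
    CF Φ ε K Z (MW.line l) s k := by
  refine cfut_mono_ne Sum.inl_injective (fun s j k hjk => (h.C_reb hΦ hε hZl s j k hjk).1)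
    (fun k => ?_) (fun s j hj => (h.inf_reb hΦ hε hZl j).2 hj) hk
  exact congrFun (h.path_reb hΦ hε hZl le_rfl) (Sum.inl k)

include h hΦ hε hZl in
/-- **The links of the reborn line are links of the line.** -/
theorem link_reb (hlk : Z.LINK Φ ε K (MW.line (reb l σ)) B s) : Z.LINK Φ ε K (MW.line l) B s := by
  obtain ⟨u, hu, ⟨k, hk, hk'⟩ | ⟨x, y, hx, hy, hc⟩⟩ := link_iff.1 hlk
  · exact link_iff.2 ⟨u, hu, Or.inl ⟨k, cf_reb h hΦ hε hZl hk, hk'⟩⟩
  · obtain ⟨c1, c2, c3, c4⟩ := hc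
    have hbl : (Z.ins l).b x ≤ (Z.ins (reb l σ)).b x := h.b_le x
    refine link_iff.2 ⟨u, hu, Or.inr ⟨x, y, fun k hk => cf_reb h hΦ hε hZl (hx k hk), hy,
      hbl.trans c1, c2, ?_, ?_⟩⟩
    · exact c3.imp id fun h' => h'.imp (fun h' => hbl.trans_lt h') id
    · have h1 : (Z.ins (reb l σ)).path Φ ε u x = (Z.ins l).path Φ ε u x :=
        congrFun (h.path_reb hΦ hε hZl hu.1) x
      change dist ((Z.ins (reb l σ)).path Φ ε u x).1 _ ≤ ε at c4
      rw [h1] at c4
      exact c4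

end reb

/-- A line which is not yet born is unlinked. -/
theorem not_link_unborn (hΦ : AdmissiblePotential Φ) (hε : 0 < ε) {l : ML} {B : MW μ}
    (hs : s < l.1.1) : ¬ Z.LINK Φ ε K (MW.line l) B s := by
  have hcf : ∀ {u : ℝ} {k : ι}, CF Φ ε K Z (MW.line l) u k → l.1.1 ≤ u := by
    intro u k hk
    unfold CF at hk
    induction hk with
    | @init s k hne h0 =>
      refine absurd ?_ hne
      change Z.path Φ ε 0 k = (Z.add (MW.line l)).path Φ ε 0 (Sum.inl k)
      rw [MW.path_zero hΦ hε, MW.path_zero hΦ hε]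
      rfl
    | new₁ j hj _ _ _ _ => exact absurd ⟨j, rfl⟩ hj
    | @new₂ s s' k j hj hc h0 h1 hb =>
      rcases j with j | j
      · exact absurd ⟨j, rfl⟩ hj
      · have h2 : (Z.add (MW.line l)).b (Sum.inr j) ≤ s' := MW.C_born hc
        exact le_trans h2 h1
    | chain₁ _ _ h1 _ ih => exact ih.trans h1
    | chain₂ _ _ h1 _ ih => exact ih.trans h1
  intro hlk
  obtain ⟨u, hu, ⟨k, hk, _⟩ | ⟨x, y, hx, _, hc⟩⟩ := link_iff.1 hlk
  · exact absurd (hcf hk) (not_le.2 (hu.2.trans_lt hs))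
  · rcases x with x | x
    · exact absurd (hcf hx.inl) (not_le.2 (hu.2.trans_lt hs))
    · have h2 : (Z.add (MW.line l)).b (Sum.inr x) ≤ u := hc.1
      exact absurd (show l.1.1 ≤ u from h2) (not_le.2 (hu.2.trans_lt hs))

/-! ### The family with the reborn line -/

/-- `(Z + E) + c` is `(Z + c) + E`. -/
def swapEquiv (ι α : Type) : (ι ⊕ Unit) ⊕ α ≃ (ι ⊕ α) ⊕ Unit where
  toFun x := match x with
    | Sum.inl (Sum.inl i) => Sum.inl (Sum.inl i)
    | Sum.inl (Sum.inr u) => Sum.inr u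
    | Sum.inr a => Sum.inl (Sum.inr a)
  invFun x := match x with
    | Sum.inl (Sum.inl i) => Sum.inl (Sum.inl i)
    | Sum.inl (Sum.inr a) => Sum.inr a
    | Sum.inr u => Sum.inl (Sum.inr u)
  left_inv := by rintro ((i | u) | a) <;> rfl
  right_inv := by rintro ((i | u) | a) <;> rfl

theorem swap_comap (Z : MW ι) (A : MW κ) (l : ML) :
    ((Z.add A).ins l).comap (swapEquiv ι κ) = (Z.add (MW.line l)).add A := by
  unfold MW.comap MW.ins MW.add
  congr 1 <;> · funext x; rcases x with (x | x) | x <;> rfl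

/-- The embedding of one line. -/
def uEmb {κ : Type} (x : κ) : Unit ↪ κ := ⟨fun _ => x, fun _ _ _ => rfl⟩

/-- **Links of the reborn root line up to the first touch of the family.** -/
theorem noLkF_reb (hΦ : AdmissiblePotential Φ) (hε : 0 < ε) (hT : 0 ≤ T) {c : κ} (hcE : c ∉ E)
    {ls' : κ → ML} {u : ℝ} (hok : MW.OkFam Φ ε Z (fun x : (insert c E : Finset κ) => ls x))
    (hnl : PairNL Φ ε K T Z (fun x : (insert c E : Finset κ) => ls x))
    (hE : ∀ i ∈ E, ls' i = ls i) (hc' : ls' c = reb (ls c) u)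
    (hborn : ∀ k, 0 ≤ Z.b k) (h0 : 0 ≤ (ls c).1.1) (hu : (ls c).1.1 ≤ u) (hm : (ls c).2 ≤ K)
    (hno : ∀ t k, t ≤ u → ¬ ((Z.add (sub ls E)).ins (ls c)).C Φ ε t (Sum.inr ())
      (Sum.inl (Sum.inl k))) :
    NoLkF Φ ε K T Z (fun x : (insert c E : Finset κ) => ls' x) := by
  have hcF : c ∈ insert c E := Finset.mem_insert_self c E
  have hEF : ∀ {i}, i ∈ E → i ∈ insert c E := fun h => Finset.mem_insert_of_mem h
  set eE : E ↪ (insert c E : Finset κ) :=
    ⟨fun i => ⟨i.1, hEF i.2⟩, fun i j h => Subtype.ext (congrArg (fun y : (insert c E : Finset κ) =>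
      y.1) h)⟩ with heE
  have hfg : ∀ (i : Unit) (j : E), uEmb (⟨c, hcF⟩ : (insert c E : Finset κ)) i ≠ eE j := by
    intro _ j h
    exact hcE (by
      have h1 : c = (j : κ) := congrArg (fun y : (insert c E : Finset κ) => y.1) h
      rw [h1]
      exact j.2)
  have h4 : Ok4 Φ ε Z (MW.line (ls c)) (sub ls E) :=
    ⟨hok.base hΦ hε, hok.line hΦ hε ⟨c, hcF⟩, (okFam_comp hΦ hε hok eE).lines hΦ hε,
      ok_lines_add hΦ hε hok (uEmb (⟨c, hcF⟩ : (insert c E : Finset κ))) eE hfg⟩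
  have hNL : MW.NoLink Φ ε K T Z (MW.line (ls c)) (sub ls E) :=
    noLink_lines hΦ hε hT hok hnl (uEmb (⟨c, hcF⟩ : (insert c E : Finset κ))) eE hfg
  intro s hs0 hsT hs
  -- touch times of the exits
  have hsE : ∀ i ∈ E, s ≤ Z.thetaL Φ ε K T (ls i) := fun i hi => by
    have h1 := hs ⟨i, hEF hi⟩
    have h2 : ls' i = ls i := hE i hi
    change s ≤ Z.thetaL Φ ε K T (ls' i) at h1
    rwa [h2] at h1
  have hsc : s ≤ Z.thetaL Φ ε K T (reb (ls c) u) := by
    have h1 := hs ⟨c, hcF⟩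
    change s ≤ Z.thetaL Φ ε K T (ls' c) at h1
    rwa [hc'] at h1
  -- the pairs with the reborn line
  have claim : ∀ k ∈ E, ¬ Z.LINK Φ ε K (MW.line (reb (ls c) u)) (MW.line (ls k)) s := by
    intro k hk
    rcases lt_or_ge s u with hsu | hus
    · exact not_link_unborn hΦ hε hsu
    have hθE : s ≤ Z.theta Φ ε K T (sub ls E) := by
      have h1 : Z.theta Φ ε K T (sub ls E) =
          Decomp811.firstT Φ ε K T Z (fun i : E => ls i) :=
        theta_lines_eq hΦ hε hT hok hnl eE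
      rw [h1]
      exact Decomp811.le_firstT (hsT.trans (by linarith)) fun i => hsE i.1 i.2
    have hθ0 : 0 ≤ Z.thetaL Φ ε K T (ls c) := MW.theta_nonneg hT
    have hm0 : 0 ≤ min s (Z.thetaL Φ ε K T (ls c)) := le_min hs0 hθ0
    have hmT : min s (Z.thetaL Φ ε K T (ls c)) ≤ T := (min_le_left _ _).trans hsT
    have hmE : min s (Z.thetaL Φ ε K T (ls c)) ≤ Z.theta Φ ε K T (sub ls E) :=
      (min_le_left _ _).trans hθE
    have hn := h4.noLink (K := K) hΦ hε hmT (min_le_right _ _) hmE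
      (hNL _ hm0 hmT (min_le_right _ _) hmE)
    have key : ∀ t k, t ≤ u → t ≤ min s (Z.thetaL Φ ε K T (ls c)) →
        ¬ (Z.ins (ls c)).C Φ ε t (Sum.inr ()) (Sum.inl k) := by
      intro t k htu hts hc
      have ht0 : 0 ≤ t := h0.trans (MW.C_born hc)
      have h5 := Rst515.contact_lift hΦ hε h4 ⟨hm0, hmT⟩ hn ⟨ht0, hts⟩ hc
      rw [← swap_comap, C_comap hΦ hε] at h5
      exact hno t k htu h5
    have hlt : u < Z.thetaL Φ ε K T (ls c) := by
      by_contra hle
      rw [not_lt] at hle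
      obtain ⟨r, hr, x, k, hc⟩ := MW.exists_contact_le_theta (K := K) (T := T) hΦ hε h4.z h4.a hT
        (hle.trans (hus.trans hsT)) (by simpa [MW.line, MW.lines] using hm)
      cases x
      exact key r k (hr.2.trans hle) (le_min (hr.2.trans (hle.trans hus)) hr.2) hc
    have hNo : NoCt Φ ε Z (ls c) u :=
      ⟨h0, hborn, hu, fun t k ht => key t k ht (le_min (ht.trans hus) (ht.trans hlt.le))⟩
    intro hlk
    have hθc : s ≤ Z.thetaL Φ ε K T (ls c) := by
      rwa [hNo.thetaL_reb hΦ hε h4.a] at hsc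
    have hne : (⟨c, hcF⟩ : (insert c E : Finset κ)) ≠ ⟨k, hEF hk⟩ := fun h =>
      hcE (by
        have h1 : c = k := congrArg (fun y : (insert c E : Finset κ) => y.1) h
        rw [h1]
        exact hk)
    exact hnl _ _ hne s hs0 hsT hθc (hsE k hk) (link_reb hNo hΦ hε h4.a hlk)
  rintro ⟨j, hj⟩ ⟨k, hk⟩ hjk
  rcases Finset.mem_insert.1 hj with rfl | hjE <;> rcases Finset.mem_insert.1 hk with rfl | hkE
  · exact absurd rfl hjk
  · change ¬ Z.LINK Φ ε K (MW.line (ls' j)) (MW.line (ls' k)) s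
    rw [hc', hE k hkE]
    exact claim k hkE
  · change ¬ Z.LINK Φ ε K (MW.line (ls' j)) (MW.line (ls' k)) s
    rw [hc', hE j hjE]
    exact fun h => claim j hjE (link_symm h)
  · change ¬ Z.LINK Φ ε K (MW.line (ls' j)) (MW.line (ls' k)) s
    rw [hE j hjE, hE k hkE]
    exact hnl ⟨j, hj⟩ ⟨k, hk⟩ hjk s hs0 hsT (hsE j hjE) (hsE k hkE)

/-- **`UnlB` for the family with the reborn line `c`**, from the pairwise unlinked family with `c`
(helper879's `E4Hyp`), if `c` has no contact up to `u` in the world `Z + exits + c`. -/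
theorem unlB_reb (hΦ : AdmissiblePotential Φ) (hε : 0 < ε) (hT : 0 ≤ T) {c : κ} (hcE : c ∉ E)
    {ls' : κ → ML} {u : ℝ} (h : E4Hyp Φ ε K T Z ls E (insert c E))
    (hok' : MW.OkFam Φ ε Z (fun x : (insert c E : Finset κ) => ls' x))
    (hE : ∀ i ∈ E, ls' i = ls i) (hc' : ls' c = reb (ls c) u)
    (hborn : ∀ k, 0 ≤ Z.b k) (hbE : ∀ i ∈ E, 0 ≤ (ls i).1.1) (h0 : 0 ≤ (ls c).1.1)
    (hu : (ls c).1.1 ≤ u) (hm : (ls c).2 ≤ K)
    (hno : ∀ t (x : ι ⊕ E), t ≤ u → ¬ ((Z.add (sub ls E)).ins (ls c)).C Φ ε t (Sum.inr ())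
      (Sum.inl x)) : UnlB (thF Φ ε K T Z ls') E (insert c E) := by
  rintro A₀ (rfl | ⟨d, hd, rfl⟩)
  · exact unlAt_of_noLkF hΦ hε hT hok' (noLkF_reb hΦ hε hT hcE h.ok h.nl hE hc' hborn h0 hu hm
      fun t k ht => hno t (Sum.inl k) ht)
  · have hdF : d ∈ insert c E := Finset.mem_insert_of_mem hd
    have hcd : c ≠ d := fun h => hcE (h ▸ hd)
    have hF : (insert c E).erase d = insert c (E.erase d) := Finset.erase_insert_of_ne hcd
    have hcE' : c ∉ E.erase d := fun h => hcE (Finset.mem_of_mem_erase h)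
    refine unlAt_singleton' hΦ hε hT hok' hdF ?_
    rw [hE d hd]
    have hok1 := okFam_ins hΦ hε h.ok hdF
    have hnl1 := h.nld d hd
    rw [hF] at hok1 hnl1 ⊢
    refine noLkF_reb hΦ hε hT hcE' hok1 hnl1 (fun i hi => hE i (Finset.mem_of_mem_erase hi)) hc' ?_
      h0 hu hm ?_
    · rintro (k | k)
      · exact hborn k
      · exact hbE d hd
    · intro t k ht hc
      have hG : d ∉ E.erase d := Finset.notMem_erase d E
      have hI : insert d (E.erase d) = E := Finset.insert_erase hd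
      have hc2 : ((Z.add (sub ls (insert d (E.erase d)))).ins (ls c)).C Φ ε t (Sum.inr ())
          (Sum.inl (((Equiv.sumAssoc ι Unit (E.erase d : Finset κ)).trans
            (Equiv.sumCongr (Equiv.refl ι) ((Equiv.sumComm Unit (E.erase d : Finset κ)).trans
              (insertEquiv hG)))) (Sum.inl k))) := by
        have h1 := ins_comap _ (sub_insert_base (Z := Z) (ls := ls) hG).symm (ls c)
        rw [← h1, C_comap hΦ hε] at hc
        exact hc
      revert hc2
      generalize (((Equiv.sumAssoc ι Unit (E.erase d : Finset κ)).trans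
            (Equiv.sumCongr (Equiv.refl ι) ((Equiv.sumComm Unit (E.erase d : Finset κ)).trans
              (insertEquiv hG)))) (Sum.inl k)) = x
      revert x
      rw [hI]
      exact fun x => hno t x ht

/-- The same for any instance of decidable equality. -/
theorem unlB_reb' [dec : DecidableEq κ] (hΦ : AdmissiblePotential Φ) (hε : 0 < ε) (hT : 0 ≤ T)
    {c : κ} (hcE : c ∉ E) (hF : ∀ x, x ∈ F ↔ x = c ∨ x ∈ E)
    {ls' : κ → ML} {u : ℝ} (h : E4Hyp Φ ε K T Z ls E F)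
    (hok' : MW.OkFam Φ ε Z (fun x : F => ls' x))
    (hE : ∀ i ∈ E, ls' i = ls i) (hc' : ls' c = reb (ls c) u)
    (hborn : ∀ k, 0 ≤ Z.b k) (hbE : ∀ i ∈ E, 0 ≤ (ls i).1.1) (h0 : 0 ≤ (ls c).1.1)
    (hu : (ls c).1.1 ≤ u) (hm : (ls c).2 ≤ K)
    (hno : ∀ t (x : ι ⊕ E), t ≤ u → ¬ ((Z.add (sub ls E)).ins (ls c)).C Φ ε t (Sum.inr ())
      (Sum.inl x)) : @UnlB κ dec ℝ _ (thF Φ ε K T Z ls') E F := by
  have hd : dec = fun a b => Classical.propDecidable (a = b) := Subsingleton.elim _ _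
  subst hd
  have hF' : F = insert c E := by
    ext x
    rw [hF, Finset.mem_insert]
  subst hF'
  exact unlB_reb hΦ hε hT hcE h hok' hE hc' hborn hbE h0 hu hm hno

/-- helper879's `E4Hyp.unlB` for any instance of decidable equality. -/
theorem unlB_of_E4Hyp [dec : DecidableEq κ] (hΦ : AdmissiblePotential Φ) (hε : 0 < ε)
    (hT : 0 ≤ T) (hEF : E ⊆ F) (h : E4Hyp Φ ε K T Z ls E F) :
    @UnlB κ dec ℝ _ (thF Φ ε K T Z ls) E F := by
  have hd : dec = fun a b => Classical.propDecidable (a = b) := Subsingleton.elim _ _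
  subst hd
  exact h.unlB hΦ hε hT hEF

end

end Crest.Agent.R122.UnlC263
end

-- ▼ part R122/UnlC2_263

/-!
# The field `unl1` of `Good4` (row 122, H1), helper263

* `relLs` : the lines of the structure, the root line born at its release time (`lineML`).
* `Real4.unl1` : `Good4.unl1` from `E4Hyp` for the family `relLs`, the encounter event `EncEv` and good
  worlds for the family `oneLs`.
-/

set_option autoImplicit false
set_option linter.unusedSectionVars false

open MeasureTheory Set Filter Topology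
open scoped ENNReal
open Crest.AnalysisR.Kinetic
open Crest.Agent.R122.Flow671 hiding rel
open Crest.Agent.R122.Loc45 Crest.Agent.R122.Causal291 Crest.Agent.R122.MWAlg255
open Crest.Agent.R122.Inf879 Crest.Agent.R122.EDefs602 Crest.Agent.R122.Lines255
open Crest.Agent.R122.Kin796 Crest.Agent.R122.Kin796.CTree Crest.Agent.R122.Tree674
open Crest.Agent.R122.PathFlow968 Crest.Agent.R122.TreeLines335 Crest.Agent.R122.Relabel674
open Crest.Agent.R122.GC311 Crest.Agent.R122.Line285 Crest.Agent.R122.Decomp285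
open Crest.Agent.R122.Scat818 Crest.Agent.R122.OCout796 Crest.Agent.R122.Ins45
open Crest.Agent.R122.MWFam255 (okFam_comp)
open Crest.Agent.R122.E4Hyp879
open Crest.Agent.R122.OneC285 (lpos mSet mT Meet clM cfT rt cT cB cD cX oneLs exS Real4)

namespace Crest.Agent.R122.UnlC263

noncomputable section

open scoped Classical

/-- The lines of the structure, the root line born at its release time. -/
def relLs (Φ : Space3 → ℝ) (ε : ℝ) (P : CTree) (z : PhasePoint × Par P) (l : ML) :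
    Idx P ⊕ Bool → ML
  | Sum.inl i => lineML Φ ε P z i
  | Sum.inr b => oneLs Φ ε P z l (Sum.inr b)

/-- The instance used by the general theorems. -/
local instance (priority := 2000) othFintype {α : Type} [Fintype α] (c : α) : Fintype (Oth c) :=
  Subtype.fintype fun k => k ≠ c

variable {Φ : Space3 → ℝ} {ε te T' R : ℝ} {K : ℕ} {P : CTree} {z : PhasePoint × Par P} {m : ℕ}
  {w : Config m} {l : ML}

theorem okSub {ι κ : Type} [Fintype ι] [Fintype κ] (hΦ : AdmissiblePotential Φ) (hε : 0 < ε)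
    {Z : MW ι} {ls : κ → ML} {E F : Finset κ}
    (hok : MW.OkFam Φ ε Z (fun x : F => ls x)) (hEF : E ⊆ F) : (Z.add (sub ls E)).Ok Φ ε :=
  (okFam_comp hΦ hε hok (⟨fun i => ⟨i.1, hEF i.2⟩, fun _ _ h => Subtype.ext
    (congrArg (fun y : F => y.1) h)⟩ : E ↪ F)).lines hΦ hε

/-- **The field `unl1` of `Good4`.** -/
theorem _root_.Crest.Agent.R122.OneC285.Real4.unl1 (h : Real4 Φ ε K te T' P z w l)
    (hΦ : AdmissiblePotential Φ) (hε : 0 < ε) (hK : P.leaves ≤ K) (hE : EncEv Φ ε R P z w l)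
    (h4 : E4Hyp Φ ε K te (MW.cfg w) (relLs Φ ε P z l) (exS P)
      (insert (Sum.inl (root P)) (exS P)))
    (hok' : MW.OkFam Φ ε (MW.cfg w)
      (fun x : (insert (Sum.inl (root P)) (exS P) : Finset (Idx P ⊕ Bool)) =>
        oneLs Φ ε P z l x)) :
    UnlB (thF Φ ε K te (MW.cfg w) (oneLs Φ ε P z l)) (exS P)
      (insert (Sum.inl (root P)) (exS P)) := by
  have hsub : exS P ⊆ insert (Sum.inl (root P)) (exS P) := Finset.subset_insert _ _
  have hOk := okSub hΦ hε hok' hsub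
  set Zt := (MW.cfg w).add (MW.lines (lineML Φ ε P z)) with hZt
  have hrest : (rest Zt (Sum.inr (root P))).comap (exE (Fin m) P) =
      (MW.cfg w).add (sub (relLs Φ ε P z l) (exS P)) :=
    rest_exS (P := P) (MW.cfg w) (F := lineML Φ ε P z) (ls := relLs Φ ε P z l) fun _ _ => rfl
  obtain ⟨hG, hU⟩ := h.goodEnc hΦ hε hE
  have hZ := h.ok_tree hΦ hε hOk
  have hR : (rest Zt (Sum.inr (root P))).Ok Φ ε :=
    ok_of_comap hΦ hε _ hrest (okSub hΦ hε h4.ok hsub)
  have hcl : IsLine Zt (Sum.inr (root P)) (lineML Φ ε P z (root P)) := ⟨rfl, rfl, rfl⟩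
  have hm : Zt.m (Sum.inr (root P)) = P.leaves := mk_root P
  have hreb := hG.reb_eq hΦ hε hZ hcl
  rw [hm] at hreb
  have hfree := hU.free hΦ hε hZ hR hG.nonneg_s hG.bc (fun t k ht => hG.free t k ht.le) hG.state_c
  have hcE : (Sum.inl (root P) : Idx P ⊕ Bool) ∉ exS P := fun hc => mem_exS.1 hc rfl
  have hpos := h.pos
  have hout := hE.pass.outT_pos hε
  have hte : 0 ≤ te := hpos.le.trans h.le
  have hb0 : ∀ k, 0 ≤ (MW.cfg w).b k := fun k => le_refl (0 : ℝ)
  refine unlB_reb' (u := cT ε z l + outT Φ ε (cD ε z l)) hΦ hε hte hcE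
    (fun x => Finset.mem_insert) h4 hok' ?_ ?_ hb0 ?_ ?_ ?_ ?_ ?_
  · intro i hi
    rcases i with i | b
    · exact oneLs_exit (mem_exS.1 hi)
    · exact absurd hi inr_not_mem_exS
  · rw [oneLs_root]
    exact hreb.symm
  · intro i hi
    rcases i with i | b
    · exact rel_nonneg hε.le h.real.valid.2 i
    · exact absurd hi inr_not_mem_exS
  · exact rel_nonneg hε.le h.real.valid.2 (root P)
  · have h1 : rel P z.2 (root P) < cT ε z l := rel_lt hε.le hpos h.real.valid.2 (root P)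
    change rel P z.2 (root P) ≤ _
    linarith
  · have h1 : (relLs Φ ε P z l (Sum.inl (root P))).2 = P.leaves := mk_root P
    rw [h1]
    exact hK
  · intro t x ht hc
    have e1 := ins_comap (exE (Fin m) P) hrest (lineML Φ ε P z (root P))
    have hc1 : ((rest Zt (Sum.inr (root P))).ins (lineML Φ ε P z (root P))).C Φ ε t (Sum.inr ())
        (Sum.inl (exE (Fin m) P x)) := by
      change (((MW.cfg w).add (sub (relLs Φ ε P z l) (exS P))).ins
        (lineML Φ ε P z (root P))).C Φ ε t (Sum.inr ()) (Sum.inl x) at hc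
      rw [← e1, C_comap hΦ hε] at hc
      exact hc
    rw [← comap_splitOff hcl, C_comap hΦ hε] at hc1
    exact (exE (Fin m) P x).2 (hfree t _ ht hc1)

end

end Crest.Agent.R122.UnlC263
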