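import Crest.Agent.R122.NbadE_796
import Crest.Agent.R122.UnlC2_263
import Crest.Agent.R122.EncFar_45
import Crest.Agent.R122.Line3G_984

-- ▼ part R122/NbadR_263
section

/-!
# Test lines and the reborn root (row 122, `Nbad4`), helper263

`h : Real4`, `hE : EncEv`, `σ = cT + outT` the end of the encounter.

* `Real4.noCt_exF`, `Real4.noCt_ins` : the root line has no contact in `w + exits` up to `σ`, labels
  `exS P`; the same for the base world `w + d` and the other exits.
* `Real4.root_le`, `Real4.root_lt` : base world `w`: a time not later than the touch times of the exits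
  and of the reborn root line is not later than the touch time of the root line.
* `Real4.root_le_ins`, `Real4.root_lt_ins` : the same for the base world `w + d`.
* `Real4.testB_base` : the field `base` of `TestB` for `Nbad4`.
-/

set_option autoImplicit false
set_option linter.unusedSectionVars false

open MeasureTheory Set Filter Topology
open scoped ENNReal
open Crest.AnalysisR.Kinetic
open Crest.Agent.R122.Flow671 hiding rel
open Crest.Agent.R122.Loc45 Crest.Agent.R122.Ins45
open Crest.Agent.R122.Causal291 Crest.Agent.R122.Inf879 Crest.Agent.R122.EDefs602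
open Crest.Agent.R122.Lines255 Crest.Agent.R122.MWAlg255
open Crest.Agent.R122.Kin796 Crest.Agent.R122.Kin796.CTree Crest.Agent.R122.Tree674
open Crest.Agent.R122.PathFlow968 Crest.Agent.R122.TreeLines335 Crest.Agent.R122.Relabel674
open Crest.Agent.R122.GC311 Crest.Agent.R122.Line285 Crest.Agent.R122.OCout796
open Crest.Agent.R122.MWFam255 (FamNL PairNL okFam_comp)
open Crest.Agent.R122.E6Hyp879 (withD)
open Crest.Agent.R122.RealL811 (treeW)
open Crest.Agent.R122.LNEv383 (RetC)
open Crest.Agent.R122.OneC285 (lpos cfT rt cT cD cX Real4 ptube oneLs exS)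
open Crest.Agent.R122.R6Tree974 (gE comap1 toRL)
open Crest.Agent.R122.NbadX796

namespace Crest.Agent.R122.NbadR263

noncomputable section

open scoped Classical

variable {Φ : Space3 → ℝ} {ε te T' R : ℝ} {K : ℕ} {P : CTree} {z : PhasePoint × Par P} {m : ℕ}
  {w : Config m} {l x : ML}

/-- Goodness of `w + exits`, from the family of all lines of the tree. -/
theorem okEx (hΦ : AdmissiblePotential Φ) (hε : 0 < ε)
    (hok : MW.OkFam Φ ε (MW.cfg w) (lineML Φ ε P z)) :
    ((MW.cfg w).add (sub (oneLs Φ ε P z l) (exS P))).Ok Φ ε :=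
  ok_exits hΦ hε hok

/-- The root line has no contact in `w + exits` up to the end of the encounter. -/
theorem _root_.Crest.Agent.R122.OneC285.Real4.noCt_exF (h : Real4 Φ ε K te T' P z w l)
    (hΦ : AdmissiblePotential Φ) (hε : 0 < ε)
    (hok : MW.OkFam Φ ε (MW.cfg w) (lineML Φ ε P z)) (hE : EncEv Φ ε R P z w l) :
    NoCt Φ ε ((MW.cfg w).add (MW.lines fun i : exS P => lineML Φ ε P z (exF P i)))
      (lineML Φ ε P z (root P)) (cT ε z l + outT Φ ε (cD ε z l)) := by
  have h1 := h.noCt_root hΦ hε (okEx (l := l) hΦ hε hok) hE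
  rw [sub_oneLs] at h1
  exact h1

/-- The exits without `d`. -/
abbrev ExD (P : CTree) (d : Idx P) : Type := {i : exS P // exF P i ≠ d}

/-- The exits without `d`, as labels of the tree without `d`. -/
def exD (P : CTree) (d : Idx P) : ExD P d ↪ {k : Idx P // k ≠ d} where
  toFun i := ⟨exF P i.1, i.2⟩
  inj' _ _ hij := Subtype.ext ((exF P).injective (congrArg (fun y : {k : Idx P // k ≠ d} => y.1)
    hij))


/-- Labels of `(w + d) + (exits without d)` in `w + exits`. -/
def insE (ι : Type) (P : CTree) (d : Idx P) (hd : d ≠ root P) :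
    (ι ⊕ Unit) ⊕ ExD P d ≃ ι ⊕ exS P where
  toFun := Sum.elim (Sum.elim Sum.inl fun _ => Sum.inr ⟨Sum.inl d, mem_exS.2 hd⟩)
    fun i => Sum.inr i.1
  invFun y := match y with
    | Sum.inl i => Sum.inl (Sum.inl i)
    | Sum.inr i => if h : exF P i ≠ d then Sum.inr ⟨i, h⟩ else Sum.inl (Sum.inr ())
  left_inv := by
    rintro ((i | u) | i)
    · rfl
    · change (if h : exF P (⟨Sum.inl d, mem_exS.2 hd⟩ : exS P) ≠ d then _ else _) = _
      rw [dif_neg (by rw [not_not]; rfl)]
    · change (if h : exF P i.1 ≠ d then _ else _) = _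
      rw [dif_pos i.2]
  right_inv := by
    rintro (i | i)
    · rfl
    · by_cases hi : exF P i ≠ d
      · change Sum.elim _ _ (if h : exF P i ≠ d then _ else _) = _
        rw [dif_pos hi]
        rfl
      · change Sum.elim _ _ (if h : exF P i ≠ d then _ else _) = _
        rw [dif_neg hi]
        change Sum.inr (⟨Sum.inl d, mem_exS.2 hd⟩ : exS P) = Sum.inr i
        congr 1
        apply (exF P).injective
        rw [not_not] at hi
        rw [hi]
        rfl

theorem insE_comap {d : Idx P} (hd : d ≠ root P) (w : MW (Fin m)) (F : Idx P → ML) :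
    (w.add (MW.lines fun i : exS P => F (exF P i))).comap (insE (Fin m) P d hd) =
      (w.ins (F d)).add (MW.lines fun i : ExD P d => F (exD P d i).1) := by
  unfold MW.add MW.comap MW.lines MW.ins MW.line MW.add MW.lines
  congr 1 <;> · funext x; rcases x with (x | x) | x <;> rfl

/-- The root line has no contact in `(w + d) + (exits without d)` up to the end of the encounter. -/
theorem _root_.Crest.Agent.R122.OneC285.Real4.noCt_ins (h : Real4 Φ ε K te T' P z w l)
    (hΦ : AdmissiblePotential Φ) (hε : 0 < ε)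
    (hok : MW.OkFam Φ ε (MW.cfg w) (lineML Φ ε P z)) (hE : EncEv Φ ε R P z w l) {d : Idx P}
    (hd : d ≠ root P) :
    NoCt Φ ε (((MW.cfg w).ins (lineML Φ ε P z d)).add
        (MW.lines fun i : ExD P d => lineML Φ ε P z (exD P d i).1))
      (lineML Φ ε P z (root P)) (cT ε z l + outT Φ ε (cD ε z l)) := by
  have h2 := (h.noCt_exF hΦ hε hok hE).comap hΦ hε (insE (Fin m) P d hd)
  rw [insE_comap] at h2
  exact h2

/-- The reborn root line. -/
theorem reb_rt (h : Real4 Φ ε K te T' P z w l)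
    (hΦ : AdmissiblePotential Φ) (hε : 0 < ε)
    (hok : MW.OkFam Φ ε (MW.cfg w) (lineML Φ ε P z)) (hE : EncEv Φ ε R P z w l) :
    reb (lineML Φ ε P z (root P)) (cT ε z l + outT Φ ε (cD ε z l)) =
      oneLs Φ ε P z l (Sum.inl (root P)) :=
  h.reb_root hΦ hε (okEx (l := l) hΦ hε hok) hE

section base

variable (h : Real4 Φ ε K te T' P z w l) (hΦ : AdmissiblePotential Φ) (hε : 0 < ε)
  (hK : P.leaves ≤ K) (hok : MW.OkFam Φ ε (MW.cfg w) (lineML Φ ε P z))
  (hE : EncEv Φ ε R P z w l) {s : ℝ} (h0 : 0 ≤ s) (hsT : s ≤ te)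

include h hΦ hε hK hok hE h0 hsT in
theorem _root_.Crest.Agent.R122.OneC285.Real4.root_le
    (hnl : PairNL Φ ε K te (MW.cfg w) (lineML Φ ε P z))
    (hex : ∀ i, i ≠ root P → s ≤ (MW.cfg w).thetaL Φ ε K te (lineML Φ ε P z i))
    (hs : s ≤ (MW.cfg w).thetaL Φ ε K te (oneLs Φ ε P z l (Sum.inl (root P)))) :
    s ≤ (MW.cfg w).thetaL Φ ε K te (lineML Φ ε P z (root P)) := by
  rw [← reb_rt h hΦ hε hok hE] at hs
  exact le_thetaL_of_reb hΦ hε hok hnl (exF P) (r := root P) exF_ne (fun _ => le_rfl)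
    ((mk_le P (root P)).trans hK) (h.noCt_exF hΦ hε hok hE) h0 hsT
    (fun i => hex _ (exF_ne i)) hs



include h hΦ hε hK hok hE h0 hsT in
theorem _root_.Crest.Agent.R122.OneC285.Real4.root_lt_ins {d : Idx P} (hd : d ≠ root P)
    (hokd : MW.OkFam Φ ε ((MW.cfg w).ins (lineML Φ ε P z d))
      (fun k : {k : Idx P // k ≠ d} => lineML Φ ε P z k))
    (hnl : PairNL Φ ε K te ((MW.cfg w).ins (lineML Φ ε P z d))
      (fun k : {k : Idx P // k ≠ d} => lineML Φ ε P z k))
    (hex : ∀ i, i ≠ root P → i ≠ d →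
      s ≤ ((MW.cfg w).ins (lineML Φ ε P z d)).thetaL Φ ε K te (lineML Φ ε P z i))
    (hs : s < ((MW.cfg w).ins (lineML Φ ε P z d)).thetaL Φ ε K te
      (oneLs Φ ε P z l (Sum.inl (root P)))) :
    s < ((MW.cfg w).ins (lineML Φ ε P z d)).thetaL Φ ε K te (lineML Φ ε P z (root P)) := by
  rw [← reb_rt h hΦ hε hok hE] at hs
  refine lt_thetaL_of_reb hΦ hε hokd hnl (exD P d) (r := ⟨root P, fun h => hd h.symm⟩)
    (fun i hi => exF_ne i.1 (congrArg (fun y : {k : Idx P // k ≠ d} => y.1) hi)) ?_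
    ((mk_le P (root P)).trans hK) (h.noCt_ins hΦ hε hok hE hd) h0 hsT
    (fun i => hex _ (exF_ne i.1) i.2) hs
  rintro (y | y)
  · exact le_rfl
  · exact rel_nonneg hε.le h.real.valid.2 d

end base

/-! ### The field `base` of `TestB` -/

/-- The world `V ++ w` and `w + V`, with a line. -/
theorem ok_treeW (hΦ : AdmissiblePotential Φ) (hε : 0 < ε)
    (hokx : ((MW.cfg (Fin.append (cfT Φ ε P z) w)).ins x).Ok Φ ε) :
    (((MW.cfg w).add (treeW Φ ε P z)).add (MW.line x)).Ok Φ ε := by
  have h3 : ((MW.cfg w).add (treeW Φ ε P z)).add (MW.line x) =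
      ((MW.cfg (Fin.append (cfT Φ ε P z) w)).ins x).comap
        (Equiv.sumCongr (gE P m) (Equiv.refl Unit)) := by
    rw [← comap1]
    exact EquivE416.ins_comap _ x (gE P m)
  rw [h3]
  exact MWFam255.Ok.relabel hΦ hε hokx _

theorem thetaL_treeW (hΦ : AdmissiblePotential Φ) (hε : 0 < ε) :
    ((MW.cfg w).add (treeW Φ ε P z)).thetaL Φ ε K te x =
      (MW.cfg (Fin.append (cfT Φ ε P z) w)).thetaL Φ ε K te x := by
  rw [← comap1, EquivE416.thetaL_comap hΦ hε]

/-- **The field `base` of `TestB` for `Nbad4`**: a good test line which touches `w` not later than the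
exits and the reborn root touches `V ++ w` not later. -/
theorem _root_.Crest.Agent.R122.OneC285.Real4.testB_base (h : Real4 Φ ε K te T' P z w l)
    (hΦ : AdmissiblePotential Φ) (hε : 0 < ε) (hTT : te ≤ T') (hK : P.leaves ≤ K)
    (hE : EncEv Φ ε R P z w l) (hx0 : 0 ≤ x.1.1)
    (hokx : ((MW.cfg (Fin.append (cfT Φ ε P z) w)).ins x).Ok Φ ε)
    (hok : MW.OkFam Φ ε (MW.cfg w) (withD (lineML Φ ε P z) x))
    (hnl : PairNL Φ ε K te (MW.cfg w) (withD (lineML Φ ε P z) x))
    (hret : ¬ RetC Φ ε ε K te (MW.cfg w) x (ptube Φ ε P z))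
    (hex : ∀ i, i ≠ root P → (MW.cfg w).thetaL Φ ε K te x ≤
      (MW.cfg w).thetaL Φ ε K te (lineML Φ ε P z i))
    (hc : (MW.cfg w).thetaL Φ ε K te x ≤
      (MW.cfg w).thetaL Φ ε K te (oneLs Φ ε P z l (Sum.inl (root P)))) :
    (MW.cfg (Fin.append (cfT Φ ε P z) w)).thetaL Φ ε K te x ≤ (MW.cfg w).thetaL Φ ε K te x := by
  have hT : 0 ≤ te := h.pos.le.trans h.le
  have ht0 : 0 ≤ (MW.cfg w).thetaL Φ ε K te x := MW.theta_nonneg hT
  have hZ : (MW.cfg w).Ok Φ ε := hok.base hΦ hε
  have hZx : ((MW.cfg w).add (MW.line x)).Ok Φ ε := hok.line hΦ hε (Sum.inr ())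
  rcases MW.theta_le_or (K := K) (T := te) hΦ hε hZ hZx with hte | hte
  swap
  · have h5 : (MW.cfg w).thetaL Φ ε K te x = te + 1 := hte
    rw [h5]
    exact MW.theta_le
  have hok' : MW.OkFam Φ ε (MW.cfg w) (lineML Φ ε P z) :=
    okFam_comp hΦ hε hok (E6Hyp879.inlEmb (Idx P) Unit)
  have hnl' : PairNL Φ ε K te (MW.cfg w) (lineML Φ ε P z) := fun j k hjk =>
    hnl (Sum.inl j) (Sum.inl k) fun h => hjk (Sum.inl_injective h)
  have hroot := h.root_le hΦ hε hK hok' hE ht0 hte hnl' hex hc
  have hall : ∀ k, (MW.cfg w).thetaL Φ ε K te x ≤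
      (MW.cfg w).thetaL Φ ε K te (lineML Φ ε P z k) := by
    intro k
    by_cases hk : k = root P
    · subst hk
      exact hroot
    · exact hex k hk
  have key := LinkVh335.thetaL_le (Z := MW.cfg w) (T := te) (T' := T')
    (v := (MW.cfg w).thetaL Φ ε K te x) (l := x) hΦ hε
    h.valid h.sep hK (hte.trans hTT) hT (fun _ => le_rfl) hx0 (toRL (R4.in1 hΦ hε h) _)
    (R4.ok1 hΦ hε h) (ok_treeW hΦ hε hokx) (fun k i _ => R4.sep0 hΦ hε h k i) hok hnl hret
    le_rfl hte hall
  rwa [thetaL_treeW hΦ hε] at key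

end

end Crest.Agent.R122.NbadR263
end

-- ▼ part R122/NbadS_263
section

/-!
# The set `Nbad4` (row 122, H1), helper263

* `Real4.not_mem_nbad4` : a test line `x` is not in `Nbad4` if it is good in the base world `w`
  (`Real4.testB_base`) and if in the base worlds `w + d`, `d` an exit, a touch of `x` strictly before
  the other lines of the tree (root line born at its RELEASE) is seen in `V ++ w` (`hins`).
-/

set_option autoImplicit false
set_option linter.unusedSectionVars false

open MeasureTheory Set Filter Topology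
open scoped ENNReal
open Crest.AnalysisR.Kinetic
open Crest.Agent.R122.Flow671 hiding rel
open Crest.Agent.R122.Loc45 Crest.Agent.R122.Ins45
open Crest.Agent.R122.Causal291 Crest.Agent.R122.Inf879 Crest.Agent.R122.EDefs602
open Crest.Agent.R122.Lines255 Crest.Agent.R122.MWAlg255
open Crest.Agent.R122.Kin796 Crest.Agent.R122.Kin796.CTree Crest.Agent.R122.Tree674
open Crest.Agent.R122.PathFlow968 Crest.Agent.R122.TreeLines335 Crest.Agent.R122.Relabel674
open Crest.Agent.R122.GC311 Crest.Agent.R122.Line285 Crest.Agent.R122.OCout796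
open Crest.Agent.R122.MWFam255 (FamNL PairNL okFam_comp)
open Crest.Agent.R122.E6Hyp879 (withD)
open Crest.Agent.R122.RealL811 (treeW)
open Crest.Agent.R122.LNEv383 (RetC)
open Crest.Agent.R122.OneC285 (lpos cfT rt cT cD cX Real4 ptube oneLs exS Nbad4)

namespace Crest.Agent.R122.NbadR263

noncomputable section

open scoped Classical

variable {Φ : Space3 → ℝ} {ε te T' R : ℝ} {K : ℕ} {P : CTree} {z : PhasePoint × Par P} {m : ℕ}
  {w : Config m} {l x : ML}

/-- **A good test line is not in `Nbad4`.** -/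
theorem _root_.Crest.Agent.R122.OneC285.Real4.not_mem_nbad4 (h : Real4 Φ ε K te T' P z w l)
    (hΦ : AdmissiblePotential Φ) (hε : 0 < ε) (hTT : te ≤ T') (hK : P.leaves ≤ K)
    (hE : EncEv Φ ε R P z w l) (hx0 : 0 ≤ x.1.1)
    (hokx : ((MW.cfg (Fin.append (cfT Φ ε P z) w)).ins x).Ok Φ ε)
    (hok : MW.OkFam Φ ε (MW.cfg w) (withD (lineML Φ ε P z) x))
    (hnl : PairNL Φ ε K te (MW.cfg w) (withD (lineML Φ ε P z) x))
    (hret : ¬ RetC Φ ε ε K te (MW.cfg w) x (ptube Φ ε P z))
    (hokd : ∀ d, d ≠ root P → MW.OkFam Φ ε ((MW.cfg w).ins (lineML Φ ε P z d))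
      (withD (fun k : {k : Idx P // k ≠ d} => lineML Φ ε P z k) x))
    (hnld : ∀ d, d ≠ root P → PairNL Φ ε K te ((MW.cfg w).ins (lineML Φ ε P z d))
      (fun k : {k : Idx P // k ≠ d} => lineML Φ ε P z k))
    (hins : ∀ d, d ≠ root P →
      ((MW.cfg w).ins (lineML Φ ε P z d)).thetaL Φ ε K te x ≤ te →
      (∀ k, k ≠ d → ((MW.cfg w).ins (lineML Φ ε P z d)).thetaL Φ ε K te x <
        ((MW.cfg w).ins (lineML Φ ε P z d)).thetaL Φ ε K te (lineML Φ ε P z k)) →
      (MW.cfg (Fin.append (cfT Φ ε P z) w)).thetaL Φ ε K te x ≤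
        ((MW.cfg w).ins (lineML Φ ε P z d)).thetaL Φ ε K te x) :
    x ∉ Nbad4 Φ ε K te P z w l := by
  have hT : 0 ≤ te := h.pos.le.trans h.le
  have hok' : MW.OkFam Φ ε (MW.cfg w) (lineML Φ ε P z) :=
    okFam_comp hΦ hε hok (E6Hyp879.inlEmb (Idx P) Unit)
  refine not_not_intro ⟨fun hb => ?_, fun d hd hb => ?_⟩
  · -- base world `w`
    rw [thX_empty hΦ hε] at hb ⊢
    have hb' : ∀ a ∈ insert (Sum.inl (root P)) (exS P), (MW.cfg w).thetaL Φ ε K te x ≤
        (MW.cfg w).thetaL Φ ε K te (oneLs Φ ε P z l a) := by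
      intro a ha
      have h1 := hb a ha
      rwa [E4Hyp879.thF_empty hΦ hε] at h1
    refine h.testB_base hΦ hε hTT hK hE hx0 hokx hok hnl hret (fun i hi => ?_)
      (hb' _ (Finset.mem_insert_self _ _))
    have h1 := hb' (Sum.inl i) (Finset.mem_insert_of_mem (mem_exS.2 hi))
    rwa [oneLs_exit hi] at h1
  · -- base world `w + d`
    obtain ⟨d, rfl⟩ : ∃ i, d = Sum.inl i := by
      rcases d with i | b
      · exact ⟨i, rfl⟩
      · exact absurd hd inr_not_mem_exS
    have hdr : d ≠ root P := mem_exS.1 hd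
    rw [thX_singleton hΦ hε, oneLs_exit hdr] at hb ⊢
    have hb' : ∀ a ∈ insert (Sum.inl (root P)) (exS P), a ≠ Sum.inl d →
        ((MW.cfg w).ins (lineML Φ ε P z d)).thetaL Φ ε K te x <
        ((MW.cfg w).ins (lineML Φ ε P z d)).thetaL Φ ε K te (oneLs Φ ε P z l a) := by
      intro a ha had
      have h1 := hb a ha had
      unfold thF at h1
      rwa [thX_singleton hΦ hε, oneLs_exit hdr] at h1
    set t := ((MW.cfg w).ins (lineML Φ ε P z d)).thetaL Φ ε K te x with ht
    have ht0 : 0 ≤ t := MW.theta_nonneg hT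
    have hYx : (((MW.cfg w).ins (lineML Φ ε P z d)).add (MW.line x)).Ok Φ ε :=
      (hokd d hdr).line hΦ hε (Sum.inr ())
    rcases MW.theta_le_or (K := K) (T := te) hΦ hε ((hokd d hdr).base hΦ hε) hYx with hte | hte
    swap
    · have h5 : t = te + 1 := hte
      rw [h5]
      exact MW.theta_le
    have hex : ∀ i, i ≠ root P → i ≠ d → t <
        ((MW.cfg w).ins (lineML Φ ε P z d)).thetaL Φ ε K te (lineML Φ ε P z i) := by
      intro i hi hid
      have h1 := hb' (Sum.inl i) (Finset.mem_insert_of_mem (mem_exS.2 hi))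
        (fun h' => hid (Sum.inl_injective h'))
      rwa [oneLs_exit hi] at h1
    have hokd' : MW.OkFam Φ ε ((MW.cfg w).ins (lineML Φ ε P z d))
        (fun k : {k : Idx P // k ≠ d} => lineML Φ ε P z k) :=
      okFam_comp hΦ hε (hokd d hdr) (E6Hyp879.inlEmb {k : Idx P // k ≠ d} Unit)
    have hroot := h.root_lt_ins hΦ hε hK hok' hE ht0 hte hdr hokd' (hnld d hdr)
      (fun i hi hid => (hex i hi hid).le)
      (hb' _ (Finset.mem_insert_self _ _) fun h' => hdr (Sum.inl_injective h').symm)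
    refine hins d hdr hte fun k hk => ?_
    by_cases hkr : k = root P
    · subst hkr
      exact hroot
    · exact hex k hkr hk

end

end Crest.Agent.R122.NbadR263
end

-- ▼ part R122/LinkSel_285

/-!
# Selection of the majorant in `StmtLink4` (row 122, INEQUALITY 1)

* `DomErr` : a functional of structures dominates `err4` at fixed `K`, `ε`.
* `stmtLink4_of_sel` : it is enough to find, for every `K`, `δ` and for `ε` small, a measurable
  majorant (depending on `ε`, `δ`) with structure integral `≤ δ`.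
-/

set_option autoImplicit false

open MeasureTheory Set Filter
open scoped ENNReal Classical Topology
open Crest.AnalysisR.Kinetic
open Crest.Agent.R122.Kin796 Crest.Agent.R122.Kin796.CTree Crest.Agent.R122.Tree674
open Crest.Agent.R122.EDefs602 Crest.Agent.R122.OneC285

namespace Crest.Agent.R122.OneC285

variable {Φ : Space3 → ℝ} {f₀ : PhasePoint → ℝ} {Q : EPar} {T' : ℝ}

/-- `b` dominates `err4` on the real structures, fixed `K`, `ε`. -/
def DomErr (Φ : Space3 → ℝ) (Q : EPar) (T' : ℝ) (K : ℕ) (ε : ℝ) (b : SF) : Prop :=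
  ∀ (P : CTree) (z : PhasePoint × Par P) (m : ℕ) (w : Config m)
    (l : ML), l.2 + P.leaves ≤ K → Real4 Φ ε K Q.te T' P z w l →
    GIV566.unhit Φ ε (ptube Φ ε P z) Q.tw w → err4 Φ ε K Q P z w l ≤ b P z m w l



theorem DomErr.mono {K : ℕ} {ε : ℝ} {b b' : SF} (h : DomErr Φ Q T' K ε b)
    (hb : ∀ P z m w l, b P z m w l ≤ b' P z m w l) : DomErr Φ Q T' K ε b' :=
  fun P z m w l h1 h2 h3 => (h P z m w l h1 h2 h3).trans (hb P z m w l)


end Crest.Agent.R122.OneC285
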