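import Crest.Agent.R122.StrG_491
import Crest.Agent.R122.TransD3_151
import Crest.Agent.R122.E6Str_491

-- ▼ part R122/StrMain_307
section

/-!
# Row 122 (helper307): the motion of the classes of a tree-like structure

Motion with births and deaths in the sense of helper151 (`DWorld`, `RelD`): `Str M c Z R π cl bD E`
(helper491), `α` a family of labels which is a union of classes, births `0`, positive exit times
`bD`; the state of the label `i` is its state in the isolated world of its class.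

* `MotH` : the hypotheses: every exit of a class is a transversal separation (`exit`), a contact of
  two classes happens after the exit of one of the partners (`cross`).
* `MotH.far` : labels of different classes do not touch before their exits.
* `MotH.dworld`, `MotH.relD`, `MotH.startSep`.
-/

set_option autoImplicit false
set_option linter.unusedSectionVars false

open MeasureTheory Set Filter Topology
open scoped NNReal ENNReal
open Crest.AnalysisR.Kinetic
open Crest.Agent.R122.Flow671 hiding rel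
open Crest.Agent.R122.Loc45 Crest.Agent.R122.Ins45
open Crest.Agent.R122.VL581 Crest.Agent.R122.VL581.VSys Crest.Agent.R122.VLInst442
open Crest.Agent.R122.LNInst491 Crest.Agent.R122.LN304 Crest.Agent.R122.LNg410
open Crest.Agent.R122.LNGraft410 Crest.Agent.R122.LNEv968 Crest.Agent.R122.PWInst442
open Crest.Agent.R122.StrG491 Crest.Agent.R122.TransOk151
open scoped Classical

noncomputable section

namespace Crest.Agent.R122.StrMain307

variable {J κ : Type} [Fintype J] {M : VSys J κ} {Z : J → PhasePoint}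
variable {c ℓ ς : ℝ} {R : ℝ → J → J → Prop} {π E : Finset J} {cl : J → Finset J} {bD : J → ℝ}
variable {α : Type} [Fintype α]

/-- Hypotheses: a tree-like structure, a family `e` of labels which is a union of classes of exits,
births `0`, positive exit times, transversal exits, contacts of different classes after one of the
exits. -/
structure MotH (M : VSys J κ) (c ℓ ς : ℝ) (Z : J → PhasePoint) (R : ℝ → J → J → Prop)
    (π : Finset J) (cl : J → Finset J) (bD : J → ℝ) (E : Finset J) (e : α ↪ J) : Prop where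
  hΦ : AdmissiblePotential M.Φ
  hε : 0 < M.ε
  hc : 1 ≤ c
  hℓς : 2 * ℓ ≤ ς
  str : Str M c Z R π cl bD E
  tl : TL M c ℓ ς π Z
  ofE : ∀ i, ∃ a ∈ E, e i ∈ cl a
  all : ∀ i, ∀ k ∈ cl (e i), k ∈ range e
  birth : ∀ i, M.bb (e i) = 0
  pos : ∀ i, 0 < bD (e i)
  exit : ∀ i, i ∈ cl i → bD i ≤ M.T → bD i = M.bb i ∨ ∃ k ∈ cl i, k ≠ i ∧ M.bb k ≤ bD i ∧
    dist (M.st (cl i) (bD i) Z i).1 (M.st (cl i) (bD i) Z k).1 = M.ε ∧
    0 < inner ℝ ((M.st (cl i) (bD i) Z i).1 - (M.st (cl i) (bD i) Z k).1)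
      ((M.st (cl i) (bD i) Z i).2 - (M.st (cl i) (bD i) Z k).2)
  cross : ∀ r i j, R r i j → cl i ≠ cl j → bD i ≤ r ∨ bD j ≤ r

namespace MotH

variable {e : α ↪ J} (h : MotH M c ℓ ς Z R π cl bD E e)
include h

theorem self (i : α) : e i ∈ cl (e i) := by
  obtain ⟨a, _, ha⟩ := h.ofE i
  exact h.str.cov.mem (e i) (by rw [h.str.cov.eq a (e i) ha]; exact ⟨_, ha⟩)

theorem cls (i : α) : Cls M Z (cl (e i)) bD := by
  obtain ⟨a, haE, ha⟩ := h.ofE i
  rw [h.str.cov.eq a (e i) ha]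
  exact h.str.cls a haE

theorem memπ (i : α) : e i ∈ π := h.str.sub _ (h.self i)

theorem eqc {i : α} {k : J} (hk : k ∈ cl (e i)) : cl k = cl (e i) := h.str.cov.eq _ _ hk

theorem obs (i : α) : M.o ≠ some (e i) := (h.cls i).obs _ (h.self i)

/-- Contacts of labels of the family are virtual contacts. -/
theorem vct [Nonempty κ] {i j : α} {t : ℝ} (ht : t ≤ M.T)
    (hd : dist (M.st (cl (e i)) t Z (e i)).1 (M.st (cl (e j)) t Z (e j)).1 ≤ M.ε) :
    M.VCt c π (e i) (e j) t Z :=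
  vct_st h.hc h.hε (h.str.sub _) (h.str.sub _) (h.self i) (h.self j)
    (ok_anti ht (h.cls i).ok) (ok_anti ht (h.cls j).ok) (h.obs i) (h.obs j) hd

/-- The exit of a label of the family. -/
theorem exit' (i : α) (hi : bD (e i) ≤ M.T) : ∃ p : α, e p ∈ cl (e i) ∧ p ≠ i ∧
    dist (M.st (cl (e i)) (bD (e i)) Z (e i)).1 (M.st (cl (e i)) (bD (e i)) Z (e p)).1 = M.ε ∧
    0 < inner ℝ ((M.st (cl (e i)) (bD (e i)) Z (e i)).1 -
      (M.st (cl (e i)) (bD (e i)) Z (e p)).1)
      ((M.st (cl (e i)) (bD (e i)) Z (e i)).2 - (M.st (cl (e i)) (bD (e i)) Z (e p)).2) := by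
  rcases h.exit (e i) (h.self i) hi with h1 | ⟨k, hk, hki, _, h2, h3⟩
  · rw [h.birth i] at h1
    exact absurd h1 (h.pos i).ne'
  · obtain ⟨p, rfl⟩ := h.all i k hk
    exact ⟨p, hk, fun h' => hki (by rw [h']), h2, h3⟩

/-- The exit partner is not released before. -/
theorem le_of_exit {i p : α} (hp : e p ∈ cl (e i)) (hpi : p ≠ i) (hi : bD (e i) ≤ M.T)
    (hd : dist (M.st (cl (e i)) (bD (e i)) Z (e i)).1
      (M.st (cl (e i)) (bD (e i)) Z (e p)).1 ≤ M.ε) : bD (e i) ≤ bD (e p) := by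
  by_contra hcon
  have h1 := (h.cls i).exit (e p) hp (bD (e i)) (not_le.1 hcon) hi (e i) (h.self i)
    (fun h' => hpi (e.injective h').symm) (by rw [h.birth i]; exact (h.pos i).le)
  rw [dist_comm] at h1
  exact absurd hd (not_le.2 h1)

/-- **Third contacts**: at the exit time of `i` the label `i` touches only its exit partner. -/
theorem third [Nonempty κ] {i p j : α} (hp : e p ∈ cl (e i)) (hpi : p ≠ i)
    (hi : bD (e i) ≤ M.T) (hd : dist (M.st (cl (e i)) (bD (e i)) Z (e i)).1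
      (M.st (cl (e i)) (bD (e i)) Z (e p)).1 ≤ M.ε) {t r : ℝ} (ht : t ∈ Icc 0 M.T)
    (hr : r ∈ Icc 0 M.T) (htb : t ≤ bD (e i)) (hbr : bD (e i) ≤ r) (hji : j ≠ i)
    (hv : M.VCt c π (e i) (e j) t Z) (hv' : M.VCt c π (e i) (e j) r Z) : j = p := by
  have hcn := h.str.conn
  have hb : bD (e i) ∈ Icc 0 M.T := ⟨(h.pos i).le, hi⟩
  have hv'' : M.VCt c π (e i) (e p) (bD (e i)) Z := by
    refine h.vct hi ?_
    rw [h.eqc hp]
    exact hd
  have h5 := h.tl.2.sep (conn_iff.1 hcn) h.hℓς (h.memπ i) (h.memπ j)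
    (fun h' => hji (e.injective h').symm) (h.memπ i) (h.memπ p)
    (fun h' => hpi (e.injective h').symm) (t := t) (t' := r) (t'' := bD (e i))
    ⟨ht, hv⟩ ⟨hr, hv'⟩ ⟨hb, hv''⟩ htb hbr
  rcases h5 with ⟨_, h5⟩ | ⟨h5, _⟩
  · exact e.injective h5
  · exact absurd (e.injective h5).symm hpi

theorem no_cross_left [Nonempty κ] {i j : α} (hc : cl (e i) ≠ cl (e j)) {t r : ℝ}
    (ht : t ∈ Icc 0 M.T) (hr : r ∈ Icc 0 M.T) (hti : bD (e i) ≤ M.T → t ≤ bD (e i))
    (hv : M.VCt c π (e i) (e j) t Z) (hv' : M.VCt c π (e i) (e j) r Z)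
    (hbr : bD (e i) ≤ r) : False := by
  have hi : bD (e i) ≤ M.T := hbr.trans hr.2
  have hji : j ≠ i := fun h' => hc (by rw [h'])
  obtain ⟨p, hp, hpi, hd, _⟩ := h.exit' i hi
  have h1 := h.third hp hpi hi hd.le ht hr (hti hi) hbr hji hv hv'
  rw [← h1] at hp
  exact hc (h.eqc hp).symm

/-- **Labels of different classes do not touch before their exits.** -/
theorem far [Nonempty κ] {i j : α} (hc : cl (e i) ≠ cl (e j)) {t : ℝ} (ht : t ∈ Icc 0 M.T)
    (hti : bD (e i) ≤ M.T → t ≤ bD (e i)) (htj : bD (e j) ≤ M.T → t ≤ bD (e j)) :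
    M.ε < dist (M.st (cl (e i)) t Z (e i)).1 (M.st (cl (e j)) t Z (e j)).1 := by
  by_contra hcon
  rw [not_lt] at hcon
  have hij : e j ≠ e i := fun h' => hc (by rw [h'])
  have hv := h.vct ht.2 hcon
  have hv2 : M.VCt c π (e j) (e i) t Z := vct_symm hv
  obtain ⟨r, hr, hR, _⟩ := window h.str.fam h.tl h.str.conn subset_rfl h.hℓς (h.memπ i)
    (h.memπ j) hij ht hv
  have hw := h.str.fam.vct r hr (e i) (h.memπ i) (e j) (h.memπ j) hij.symm hR
  rcases h.cross r (e i) (e j) hR hc with h1 | h1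
  · exact h.no_cross_left hc ht hr hti hv hw h1
  · exact h.no_cross_left hc.symm ht hr htj hv2 (vct_symm hw) h1

/-- Deaths: the exit times. -/
theorem dth_iff (i : α) {t : ℝ} (ht : t ≤ M.T) :
    t < dth {i : α | bD (e i) ≤ M.T} (fun i => bD (e i)) M.T i ↔
      (bD (e i) ≤ M.T → t < bD (e i)) := by
  by_cases hi : bD (e i) ≤ M.T
  · rw [dth_mem (S := {i : α | bD (e i) ≤ M.T}) hi]
    exact ⟨fun h _ => h, fun h => h hi⟩
  · rw [dth_not_mem (S := {i : α | bD (e i) ≤ M.T}) hi]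
    exact ⟨fun _ h => absurd h hi, fun _ => by linarith⟩

theorem dth_iff' (i : α) {t : ℝ} (ht : t ≤ M.T) :
    t ≤ dth {i : α | bD (e i) ≤ M.T} (fun i => bD (e i)) M.T i ↔
      (bD (e i) ≤ M.T → t ≤ bD (e i)) := by
  by_cases hi : bD (e i) ≤ M.T
  · rw [dth_mem (S := {i : α | bD (e i) ≤ M.T}) hi]
    exact ⟨fun h _ => h, fun h => h hi⟩
  · rw [dth_not_mem (S := {i : α | bD (e i) ≤ M.T}) hi]
    exact ⟨fun _ h => absurd h hi, fun _ => by linarith⟩

theorem le_of_dth {i : α} (hi : dth {i : α | bD (e i) ≤ M.T} (fun i => bD (e i)) M.T i ≤ M.T) :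
    bD (e i) ≤ M.T ∧ dth {i : α | bD (e i) ≤ M.T} (fun i => bD (e i)) M.T i = bD (e i) := by
  by_cases h' : bD (e i) ≤ M.T
  · exact ⟨h', dth_mem (S := {i : α | bD (e i) ≤ M.T}) h'⟩
  · rw [dth_not_mem (S := {i : α | bD (e i) ≤ M.T}) h'] at hi
    linarith

/-- In one class, the released labels are at distance at least `ε` from the others. -/
theorem dead_far [Nonempty κ] {i j : α} (hj : e j ∈ cl (e i)) (hij : i ≠ j) {t : ℝ}
    (ht : t ∈ Icc 0 M.T) (hd : bD (e j) ≤ t) :
    M.ε ≤ dist (M.st (cl (e i)) t Z (e i)).1 (M.st (cl (e i)) t Z (e j)).1 := by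
  have hjT : bD (e j) ≤ M.T := hd.trans ht.2
  rcases hd.lt_or_eq with h1 | h1
  · have h2 := (h.cls i).exit (e j) hj t h1 ht.2 (e i) (h.self i)
      (fun h' => hij (e.injective h')) (by rw [h.birth i]; exact ht.1)
    rw [dist_comm]
    exact h2.le
  · by_contra hcon
    rw [not_le] at hcon
    obtain ⟨p, hp, hpj, hd', _⟩ := h.exit' j hjT
    have hcj : cl (e j) = cl (e i) := h.eqc hj
    rw [hcj] at hp hd'
    have h3 : i = p := by
      refine h.third (i := j) (p := p) (j := i) (t := t) (r := t) (by rw [hcj]; exact hp) hpj hjT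
        (by rw [hcj]; exact hd'.le) ht ht h1.ge h1.le hij ?_ ?_
      · exact vct_symm (h.vct ht.2 (by rw [hcj]; exact hcon.le))
      · exact vct_symm (h.vct ht.2 (by rw [hcj]; exact hcon.le))
    subst h3
    rw [← h1, dist_comm] at hcon
    exact absurd hd' hcon.ne

/-- **The motion with deaths at the exit times.** -/
theorem dworld [Nonempty κ] : DWorld M.Φ M.ε (fun _ : α => 0)
    (dth {i : α | bD (e i) ≤ M.T} (fun i => bD (e i)) M.T) 0 M.T
    (fun t i => M.st (cl (e i)) t Z (e i)) where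
  cont i := by
    have h1 := (st_lworld h.hΦ h.hε (h.cls i).ok 0).cont
    exact ((continuousOn_pi.1 h1) (e i)).mono (Icc_subset_Icc le_rfl (min_le_left _ _))
  der t ht htT i hi := by
    have h1 := hasDerivWithinAt_pi.1 ((st_lworld h.hΦ h.hε (h.cls i).ok 0).der t ⟨ht, htT⟩) (e i)
    have hba : ∀ k, ba M (cl (e i)) M.T k ≤ t ↔ k ∈ cl (e i) := by
      intro k
      rw [ba_le_iff M htT]
      constructor
      · exact fun h' => h'.1.1
      · intro hk
        refine ⟨⟨hk, (h.cls i).obs k hk⟩, ?_⟩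
        obtain ⟨p, rfl⟩ := h.all i k hk
        rw [h.birth p]
        exact ht
    have h2 : bf M.Φ M.ε (ba M (cl (e i)) M.T) t (M.st (cl (e i)) t Z) (e i) =
        bfd M.Φ M.ε (fun _ : α => 0) (dth {i : α | bD (e i) ≤ M.T} (fun i => bD (e i)) M.T) t
          (fun i => M.st (cl (e i)) t Z (e i)) i := by
      unfold bf bfd
      simp only [hba, if_pos (h.self i), if_pos ht]
      congr 2
      have h3 : ∑ k : J, (if k ∈ cl (e i) then gradient M.Φ ((1 / M.ε) •
          ((M.st (cl (e i)) t Z (e i)).1 - (M.st (cl (e i)) t Z k).1)) else 0) =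
          ∑ k ∈ Finset.univ.map e, (if k ∈ cl (e i) then gradient M.Φ ((1 / M.ε) •
            ((M.st (cl (e i)) t Z (e i)).1 - (M.st (cl (e i)) t Z k).1)) else 0) := by
        symm
        refine Finset.sum_subset (Finset.subset_univ _) fun k _ hk => if_neg fun hk' => hk ?_
        obtain ⟨p, rfl⟩ := h.all i k hk'
        simp
      rw [h3, Finset.sum_map]
      refine Finset.sum_congr rfl fun j _ => ?_
      have hti := (h.dth_iff i htT.le).1 hi
      by_cases hj : e j ∈ cl (e i)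
      · rw [if_pos hj]
        by_cases hd : t < dth {i : α | bD (e i) ≤ M.T} (fun i => bD (e i)) M.T j
        · rw [if_pos ⟨ht, hd⟩, h.eqc hj]
        · rw [if_neg fun h' => hd h'.2]
          have hdj : bD (e j) ≤ t := by
            by_contra hcon
            exact hd ((h.dth_iff j htT.le).2 fun _ => not_le.1 hcon)
          have hij : i ≠ j := by
            rintro rfl
            exact absurd (hti (hdj.trans htT.le)) (not_lt.2 hdj)
          exact grad_far h.hΦ h.hε (h.dead_far hj hij ⟨ht, htT.le⟩ hdj)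
      · rw [if_neg hj]
        split_ifs with hd
        · have htj := (h.dth_iff j htT.le).1 hd.2
          have hc : cl (e i) ≠ cl (e j) := fun h' => hj (h' ▸ h.self j)
          exact (grad_far h.hΦ h.hε (h.far hc ⟨ht, htT.le⟩ (fun h' => (hti h').le)
            fun h' => (htj h').le).le).symm
        · rfl
    rw [← h2]
    exact h1
  dom t ht htT := by
    by_cases hC : ContDiff ℝ 2 M.Φ
    · exact Or.inl hC
    · refine Or.inr fun i j hij _ hi _ hj => ?_
      have hti := (h.dth_iff i htT.le).1 hi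
      have htj := (h.dth_iff j htT.le).1 hj
      by_cases hc : cl (e i) = cl (e j)
      · have h1 := ((st_lworld h.hΦ h.hε (h.cls i).ok 0).dom t ⟨ht, htT⟩).resolve_left hC
        have hjc : e j ∈ cl (e i) := by rw [hc]; exact h.self j
        have h2 := h1 (e i) (e j) (fun h' => hij (e.injective h'))
          ((ba_le_iff M htT).2 ⟨⟨h.self i, h.obs i⟩, by rw [h.birth i]; exact ht⟩)
          ((ba_le_iff M htT).2 ⟨⟨hjc, h.obs j⟩, by rw [h.birth j]; exact ht⟩)
        show (M.st (cl (e i)) t Z (e i)).1 ≠ (M.st (cl (e j)) t Z (e j)).1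
        rw [← hc]
        exact h2
      · intro h'
        have h3 := h.far hc ⟨ht, htT.le⟩ (fun h' => (hti h').le) fun h' => (htj h').le
        have h4 : dist (M.st (cl (e i)) t Z (e i)).1 (M.st (cl (e j)) t Z (e j)).1 = 0 := by
          have h5 : (M.st (cl (e i)) t Z (e i)).1 = (M.st (cl (e j)) t Z (e j)).1 := h'
          rw [h5, dist_self]
        rw [h4] at h3
        exact absurd h3 (not_lt.2 h.hε.le)

/-- **Release data.** -/
theorem relD [Nonempty κ] : RelD M.ε (fun _ : α => 0)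
    (dth {i : α | bD (e i) ≤ M.T} (fun i => bD (e i)) M.T) M.T
    (fun t i => M.st (cl (e i)) t Z (e i)) where
  pos i hi := by
    rw [(h.le_of_dth hi).2]
    exact h.pos i
  born i hi := by
    rw [(h.le_of_dth hi).2]
    exact (h.pos i).le
  exit i hi := by
    obtain ⟨hiT, hie⟩ := h.le_of_dth hi
    obtain ⟨p, hp, hpi, hd, hin⟩ := h.exit' i hiT
    rw [hie]
    refine ⟨p, hpi, (h.pos i).le, ?_, ?_, ?_⟩
    · exact (h.dth_iff' p hiT).2 fun _ => h.le_of_exit hp hpi hiT hd.le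
    · rw [h.eqc hp]
      exact hd
    · rw [h.eqc hp]
      exact hin

/-- **Labels released at the same time separate at once.** -/
theorem startSep [Nonempty κ] {i j : α} (hij : i ≠ j) (hi : bD (e i) ≤ M.T)
    (hb : bD (e j) = bD (e i)) : StartSep M.ε (M.st (cl (e i)) (bD (e i)) Z (e i))
      (M.st (cl (e j)) (bD (e j)) Z (e j)) := by
  by_cases hd : M.ε < dist (M.st (cl (e i)) (bD (e i)) Z (e i)).1
      (M.st (cl (e j)) (bD (e j)) Z (e j)).1
  · exact Or.inl hd
  · rw [not_lt, hb] at hd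
    rw [hb]
    have ht : bD (e i) ∈ Icc 0 M.T := ⟨(h.pos i).le, hi⟩
    obtain ⟨p, hp, hpi, hd', hin⟩ := h.exit' i hi
    have h1 := h.third hp hpi hi hd'.le ht ht le_rfl le_rfl hij.symm (h.vct hi hd) (h.vct hi hd)
    rw [h1, h.eqc hp]
    exact Or.inr ⟨hd', hin⟩

/-- The states at time `0`. -/
theorem zero : (fun i => M.st (cl (e i)) 0 Z (e i)) = fun i => Z (e i) := by
  funext i
  rw [st_nonpos M le_rfl Z]
  unfold VLInst442.fl
  simp

end MotH

/-- **Main theorem**, for a finite set `A` of labels, a union of classes of exits. -/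
theorem motion [Nonempty κ] (hΦ : AdmissiblePotential M.Φ) (hε : 0 < M.ε) (hc : 1 ≤ c)
    (hℓς : 2 * ℓ ≤ ς) (hstr : Str M c Z R π cl bD E) (htl : TL M c ℓ ς π Z) {A : Finset J}
    (hE : ∀ i ∈ A, ∃ a ∈ E, i ∈ cl a) (hA : ∀ i ∈ A, cl i ⊆ A) (hb : ∀ i ∈ A, M.bb i = 0)
    (hp : ∀ i ∈ A, 0 < bD i)
    (hexit : ∀ i, i ∈ cl i → bD i ≤ M.T → bD i = M.bb i ∨ ∃ k ∈ cl i, k ≠ i ∧ M.bb k ≤ bD i ∧
      dist (M.st (cl i) (bD i) Z i).1 (M.st (cl i) (bD i) Z k).1 = M.ε ∧
      0 < inner ℝ ((M.st (cl i) (bD i) Z i).1 - (M.st (cl i) (bD i) Z k).1)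
        ((M.st (cl i) (bD i) Z i).2 - (M.st (cl i) (bD i) Z k).2))
    (hcross : ∀ r i j, R r i j → cl i ≠ cl j → bD i ≤ r ∨ bD j ≤ r) :
    DWorld M.Φ M.ε (fun _ : A => 0) (dth {i : A | bD i ≤ M.T} (fun i : A => bD i) M.T) 0 M.T
      (fun t (i : A) => M.st (cl i) t Z i) ∧
    RelD M.ε (fun _ : A => 0) (dth {i : A | bD i ≤ M.T} (fun i : A => bD i) M.T) M.T
      (fun t (i : A) => M.st (cl i) t Z i) ∧
    ((fun i : A => M.st (cl i) 0 Z i) = fun i : A => Z i) ∧
    (∀ i j : A, i ≠ j → bD i ≤ M.T → bD j = bD i →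
      StartSep M.ε (M.st (cl i) (bD i) Z i) (M.st (cl j) (bD j) Z j)) ∧
    (∀ i j : A, cl i ≠ cl j → ∀ t ∈ Icc 0 M.T, (bD i ≤ M.T → t ≤ bD i) →
      (bD j ≤ M.T → t ≤ bD j) → M.ε < dist (M.st (cl i) t Z i).1 (M.st (cl j) t Z j).1) := by
  have h : MotH M c ℓ ς Z R π cl bD E (Function.Embedding.subtype fun i => i ∈ A) :=
    { hΦ := hΦ
      hε := hε
      hc := hc
      hℓς := hℓς
      str := hstr
      tl := htl
      ofE := fun i => hE i i.2
      all := fun i k hk => ⟨⟨k, hA i i.2 hk⟩, rfl⟩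
      birth := fun i => hb i i.2
      pos := fun i => hp i i.2
      exit := hexit
      cross := hcross }
  exact ⟨h.dworld, h.relD, h.zero, fun i j hij hi hj => h.startSep hij hi hj,
    fun i j hc' t ht hi hj => h.far hc' ht hi hj⟩

end Crest.Agent.R122.StrMain307

end
end

-- ▼ part R122/StrMotG_307

/-!
# Row 122 (helper307): transversal exits and late cross contacts, encounters

* `ExitT` : every exit of a class is a transversal separation.
* `CrossT` : a contact of two classes happens after the exit of one of the two partners, which is not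
  the active label `y`.
* `ExitT.graft`, `CrossT.graft` (merged classes), `ExitT.join`, `CrossT.join` (separate classes).
-/

set_option autoImplicit false
set_option linter.unusedSectionVars false

open MeasureTheory Set Filter Topology
open scoped NNReal ENNReal
open Crest.AnalysisR.Kinetic
open Crest.Agent.R122.Flow671 hiding rel
open Crest.Agent.R122.Loc45 Crest.Agent.R122.Ins45
open Crest.Agent.R122.VL581 Crest.Agent.R122.VL581.VSys Crest.Agent.R122.VLInst442
open Crest.Agent.R122.LNInst491 Crest.Agent.R122.LN304 Crest.Agent.R122.LNg410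
open Crest.Agent.R122.Kin796 Crest.Agent.R122.Kin796.CTree Crest.Agent.R122.Tree674
open Crest.Agent.R122.PathFlow968 Crest.Agent.R122.TreeLines335 Crest.Agent.R122.EDefs602
open Crest.Agent.R122.LNTree410 Crest.Agent.R122.PWGlue491 Crest.Agent.R122.Inf879
open Crest.Agent.R122.LNGraft410 Crest.Agent.R122.LNEv968 Crest.Agent.R122.PWInst442
open Crest.Agent.R122.OCout796 Crest.Agent.R122.Scat818
open Crest.Agent.R122.StrG491
open scoped Classical

noncomputable section

namespace Crest.Agent.R122.StrMain307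

/-- The separation at the end of an encounter is transversal. -/
theorem enc_inner_pos {Φ : Space3 → ℝ} {ε s : ℝ} {y : Space3} {q : CD}
    (hΦ : AdmissiblePotential Φ) (hε : 0 < ε) (hp : CDpass Φ q) :
    0 < inner ℝ ((encPL Φ ε s y q (s + outT Φ ε q)).1 - (encPC Φ ε s y q (s + outT Φ ε q)).1)
      ((encPL Φ ε s y q (s + outT Φ ε q)).2 - (encPC Φ ε s y q (s + outT Φ ε q)).2) := by
  have h1 := hp.hasExit.inner_pos hΦ (reg_entrance Φ hp.ok.1 hp.ok.2)
  have h2 : (encPL Φ ε s y q (s + outT Φ ε q)).2 - (encPC Φ ε s y q (s + outT Φ ε q)).2 =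
      (encR Φ ε s q (s + outT Φ ε q)).2 := by
    unfold encPL encPC
    simp only
    module
  rw [h2, encPL_sub_encPC, encR_exit hε.ne', inner_smul_left]
  exact mul_pos hε h1

variable {J κ : Type} [Fintype J] {M : VSys J κ} {Z : J → PhasePoint}
variable {c : ℝ} {R R₁ R₂ : ℝ → J → J → Prop} {π π₁ π₂ S : Finset J} {cl cl₁ cl₂ : J → Finset J}
  {bD : J → ℝ} {E E₁ E₂ : Finset J} {x y a y' : J} {s ℓ ς : ℝ} {p : Space3} {q : CD}

/-- Transversal exits. -/
def ExitT (M : VSys J κ) (Z : J → PhasePoint) (cl : J → Finset J) (bD : J → ℝ) : Prop :=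
  ∀ i, i ∈ cl i → bD i ≤ M.T → bD i = M.bb i ∨ ∃ k ∈ cl i, k ≠ i ∧ M.bb k ≤ bD i ∧
    dist (M.st (cl i) (bD i) Z i).1 (M.st (cl i) (bD i) Z k).1 = M.ε ∧
    0 < inner ℝ ((M.st (cl i) (bD i) Z i).1 - (M.st (cl i) (bD i) Z k).1)
      ((M.st (cl i) (bD i) Z i).2 - (M.st (cl i) (bD i) Z k).2)

/-- Contacts of two classes happen after the exit of one of the partners, not the active label. -/
def CrossT (R : ℝ → J → J → Prop) (cl : J → Finset J) (bD : J → ℝ) (y : J) : Prop :=
  ∀ r i j, R r i j → cl i ≠ cl j → (i ≠ y ∧ bD i ≤ r) ∨ (j ≠ y ∧ bD j ≤ r)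

theorem CrossT.weak (h : CrossT R cl bD y) (r : ℝ) (i j : J) (hR : R r i j)
    (hne : cl i ≠ cl j) : bD i ≤ r ∨ bD j ≤ r :=
  (h r i j hR hne).imp And.right And.right

/-- One class. -/
theorem CrossT.of_cls (S : Finset J) (bD : J → ℝ) (y : J) :
    CrossT (RC M Z S) (clOf S) bD y := by
  intro r i j hR hne
  exact absurd (by rw [clOf_mem hR.1, clOf_mem hR.2.1]) hne

/-- A single label. -/
theorem ExitT.single {l : J} (hb : bD l = M.bb l) : ExitT M Z (clOf {l}) bD := by
  intro i hi _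
  have h1 : i ∈ ({l} : Finset J) := (mem_clOf.1 hi).1
  rw [Finset.mem_singleton] at h1
  rw [h1]
  exact Or.inl hb


section meet

variable (h : Meet M c Z R₁ R₂ π₁ π₂ cl₁ cl₂ bD E₁ E₂ y a s)
include h

/-- Separate classes. -/
theorem ExitT.join (h₁ : ExitT M Z cl₁ bD) (h₂ : ExitT M Z cl₂ bD) :
    ExitT M Z (clSep cl₁ cl₂) bD := by
  intro i hi hiT
  rcases h.mem_clSep hi with ⟨h1, h2, _⟩ | ⟨h1, h2, _⟩
  · rw [h.cl₁_of h2]
    exact h₁ i h1 hiT
  · rw [h.cl₂_of h2]
    exact h₂ i h1 hiT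

/-- Separate classes: the new active label is one of the two partners, the other one has left. -/
theorem CrossT.join (h₁ : CrossT R₁ cl₁ bD y) (h₂ : CrossT R₂ cl₂ bD a)
    (hy : (y' = a ∧ bD y ≤ s) ∨ (y' = y ∧ bD a ≤ s)) :
    CrossT (joinR R₁ R₂ y a s) (clSep cl₁ cl₂) bD y' := by
  have hyy : y' = y ∨ y' = a := hy.elim (fun h' => Or.inr h'.1) fun h' => Or.inl h'.1
  intro r i j hR hne
  rcases hR with hR | hR | ⟨rfl, ⟨rfl, rfl⟩ | ⟨rfl, rfl⟩⟩
  · obtain ⟨hi, hj⟩ := h.s₁.supp r i j hR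
    rw [h.cl₁_of hi, h.cl₁_of hj] at hne
    have h3 : ∀ k ∈ π₁, k ≠ y → k ≠ y' := by
      rintro k hk hky rfl
      rcases hyy with h' | h'
      · exact hky h'
      · exact h.not₂ hk (h' ▸ h.aπ)
    exact (h₁ r i j hR hne).imp (fun h' => ⟨h3 i hi h'.1, h'.2⟩) fun h' => ⟨h3 j hj h'.1, h'.2⟩
  · obtain ⟨hi, hj⟩ := h.s₂.supp r i j hR
    rw [h.cl₂_of hi, h.cl₂_of hj] at hne
    have h3 : ∀ k ∈ π₂, k ≠ a → k ≠ y' := by
      rintro k hk hka rfl
      rcases hyy with h' | h'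
      · exact h.not₁ hk (h' ▸ h.yπ)
      · exact hka h'
    exact (h₂ r i j hR hne).imp (fun h' => ⟨h3 i hi h'.1, h'.2⟩) fun h' => ⟨h3 j hj h'.1, h'.2⟩
  · rcases hy with ⟨rfl, hb⟩ | ⟨rfl, hb⟩
    · exact Or.inl ⟨h.ne, hb⟩
    · exact Or.inr ⟨h.ne.symm, hb⟩
  · rcases hy with ⟨rfl, hb⟩ | ⟨rfl, hb⟩
    · exact Or.inr ⟨h.ne, hb⟩
    · exact Or.inl ⟨h.ne.symm, hb⟩

end meet

section enc

variable (h : Enc M c Z R₁ R₂ π₁ π₂ cl₁ cl₂ bD E₁ E₂ y a s p q)
include h

/-- Merged classes. -/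
theorem CrossT.graft (hε : 0 < M.ε) (h₁ : CrossT R₁ cl₁ bD y) (h₂ : CrossT R₂ cl₂ bD a)
    (hy : y' = y ∨ y' = a) :
    CrossT (joinR R₁ R₂ y a s) (clMrg cl₁ cl₂ y a) (grafted M.Φ M.ε bD y a s q) y' := by
  have hm := h.meet hε
  have hyS : y ∈ cl₁ y ∪ cl₂ a := Finset.mem_union_left _ (h.s₁.mem y h.hy)
  have haS : a ∈ cl₁ y ∪ cl₂ a := Finset.mem_union_right _ (h.s₂.mem a h.ha)
  intro r i j hR hne
  rcases hR with hR | hR | ⟨_, ⟨rfl, rfl⟩ | ⟨rfl, rfl⟩⟩
  · obtain ⟨hi, hj⟩ := h.s₁.supp r i j hR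
    have hne' : cl₁ i ≠ cl₁ j := by
      intro he
      have key : ∀ {i j : J}, i ∈ π₁ → cl₁ i = cl₁ j → i ∈ cl₁ y ∪ cl₂ a → j ∈ cl₁ y ∪ cl₂ a := by
        intro i j hi he hS
        have h1 : i ∈ cl₁ y := (Finset.mem_union.1 hS).resolve_right fun h' =>
          hm.not₂ hi (h.s₂.sub a h')
        have h2 : cl₁ i = cl₁ y := h.s₁.cov.eq y i h1
        have h3 : j ∈ cl₁ j := h.s₁.cov.mem j (by rw [← he, h2]; exact ⟨i, h1⟩)
        rw [← he, h2] at h3
        exact Finset.mem_union_left _ h3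
      by_cases hS : i ∈ cl₁ y ∪ cl₂ a
      · exact hne (by rw [h.clMrg_mem hS, h.clMrg_mem (key hi he hS)])
      · have hS' : j ∉ cl₁ y ∪ cl₂ a := fun h' => hS (key hj he.symm h')
        exact hne (by rw [h.clMrg_not hS, h.clMrg_not hS', hm.cl₁_of hi, hm.cl₁_of hj, he])
    have h3 : ∀ k ∈ π₁, k ≠ y → bD k ≤ r →
        k ≠ y' ∧ grafted M.Φ M.ε bD y a s q k ≤ r := by
      intro k hk hky hb
      have hka : k ≠ a := fun h' => hm.not₂ hk (h' ▸ hm.aπ)
      refine ⟨fun h' => ?_, by rw [Enc.grafted_of_ne hky hka]; exact hb⟩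
      rcases hy with h'' | h''
      · exact hky (h'.trans h'')
      · exact hka (h'.trans h'')
    exact (h₁ r i j hR hne').imp (fun h' => h3 i hi h'.1 h'.2) fun h' => h3 j hj h'.1 h'.2
  · obtain ⟨hi, hj⟩ := h.s₂.supp r i j hR
    have hne' : cl₂ i ≠ cl₂ j := by
      intro he
      have key : ∀ {i j : J}, i ∈ π₂ → cl₂ i = cl₂ j → i ∈ cl₁ y ∪ cl₂ a → j ∈ cl₁ y ∪ cl₂ a := by
        intro i j hi he hS
        have h1 : i ∈ cl₂ a := (Finset.mem_union.1 hS).resolve_left fun h' =>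
          hm.not₁ hi (h.s₁.sub y h')
        have h2 : cl₂ i = cl₂ a := h.s₂.cov.eq a i h1
        have h3 : j ∈ cl₂ j := h.s₂.cov.mem j (by rw [← he, h2]; exact ⟨i, h1⟩)
        rw [← he, h2] at h3
        exact Finset.mem_union_right _ h3
      by_cases hS : i ∈ cl₁ y ∪ cl₂ a
      · exact hne (by rw [h.clMrg_mem hS, h.clMrg_mem (key hi he hS)])
      · have hS' : j ∉ cl₁ y ∪ cl₂ a := fun h' => hS (key hj he.symm h')
        exact hne (by rw [h.clMrg_not hS, h.clMrg_not hS', hm.cl₂_of hi, hm.cl₂_of hj, he])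
    have h3 : ∀ k ∈ π₂, k ≠ a → bD k ≤ r →
        k ≠ y' ∧ grafted M.Φ M.ε bD y a s q k ≤ r := by
      intro k hk hka hb
      have hky : k ≠ y := fun h' => hm.not₁ hk (h' ▸ hm.yπ)
      refine ⟨fun h' => ?_, by rw [Enc.grafted_of_ne hky hka]; exact hb⟩
      rcases hy with h'' | h''
      · exact hky (h'.trans h'')
      · exact hka (h'.trans h'')
    exact (h₂ r i j hR hne').imp (fun h' => h3 i hi h'.1 h'.2) fun h' => h3 j hj h'.1 h'.2
  · exact absurd (by rw [h.clMrg_mem hyS, h.clMrg_mem haS]) hne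
  · exact absurd (by rw [h.clMrg_mem hyS, h.clMrg_mem haS]) hne

variable [Nonempty κ] (hC : 1 ≤ c) (hΦ : AdmissiblePotential M.Φ) (hε : 0 < M.ε)
  (hT : TL M c ℓ ς (π₁ ∪ π₂) Z) (hℓς : 2 * ℓ ≤ ς) (hp : CDpass M.Φ q)
include hC hΦ hε hT hℓς hp

/-- **Merged classes: transversal exits.** -/
theorem ExitT.graft (h₁ : ExitT M Z cl₁ bD) (h₂ : ExitT M Z cl₂ bD) :
    ExitT M Z (clMrg cl₁ cl₂ y a) (grafted M.Φ M.ε bD y a s q) := by
  have hm := h.meet hε
  have hg := h.graftH
  have hT' := h.tl hC hε hT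
  have hyS : y ∈ cl₁ y ∪ cl₂ a := Finset.mem_union_left _ (h.s₁.mem y h.hy)
  have haS : a ∈ cl₁ y ∪ cl₂ a := Finset.mem_union_right _ (h.s₂.mem a h.ha)
  have hout : s ≤ s + outT M.Φ M.ε q := (lt_add_of_pos_right s (hp.outT_pos hε)).le
  intro i hi hiT
  by_cases hS : i ∈ cl₁ y ∪ cl₂ a
  · rw [h.clMrg_mem hS]
    by_cases hiy : i = y
    · subst hiy
      have hgr : grafted M.Φ M.ε bD i a s q i = s + outT M.Φ M.ε q := if_pos (Or.inl rfl)
      rw [hgr] at hiT ⊢
      obtain ⟨e1, e2⟩ := hg.st_pair hε hC hT' hℓς hΦ hout hiT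
      refine Or.inr ⟨a, haS, hm.ne.symm, hg.bbc.le.trans hout, ?_, ?_⟩
      · rw [e1, e2]
        exact hp.dist_exit hε
      · rw [e1, e2]
        exact enc_inner_pos hΦ hε hp
    by_cases hia : i = a
    · subst hia
      have hgr : grafted M.Φ M.ε bD y i s q i = s + outT M.Φ M.ε q := if_pos (Or.inr rfl)
      rw [hgr] at hiT ⊢
      obtain ⟨e1, e2⟩ := hg.st_pair hε hC hT' hℓς hΦ hout hiT
      refine Or.inr ⟨y, hyS, hm.ne, hg.bba.le.trans hout, ?_, ?_⟩
      · rw [e1, e2, dist_comm]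
        exact hp.dist_exit hε
      · rw [e1, e2, ← neg_sub (encPL M.Φ M.ε s p q (s + outT M.Φ M.ε q)).1,
          ← neg_sub (encPL M.Φ M.ε s p q (s + outT M.Φ M.ε q)).2, inner_neg_neg]
        exact enc_inner_pos hΦ hε hp
    rw [Enc.grafted_of_ne hiy hia] at hiT ⊢
    rcases Finset.mem_union.1 hS with hi' | hi'
    · have hci : cl₁ i = cl₁ y := h.s₁.cov.eq y i hi'
      rcases h₁ i (by rw [hci]; exact hi') hiT with h1 | ⟨k, hk, hki, hbk, hd, hin⟩
      · exact Or.inl h1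
      · rw [hci] at hk hd hin
        have e1 := hg.st₁ hε hC hT' hℓς hΦ hi' hiy hiT
        have e2 : M.st (cl₁ y ∪ cl₂ a) (bD i) Z k = M.st (cl₁ y) (bD i) Z k := by
          by_cases hky : k = y
          · subst hky
            refine (hg.st_early hε hC hT' hℓς hΦ ?_).1 k hk
            by_contra hcon
            have h5 := hg.cls₁.exit k hk (bD i) (h.lty.trans (not_le.1 hcon)) hiT i hi' hki.symm
              (hg.cls₁.bb_le i hi')
            rw [dist_comm] at h5
            exact absurd hd h5.ne'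
          · exact hg.st₁ hε hC hT' hℓς hΦ hk hky hiT
        refine Or.inr ⟨k, Finset.mem_union_left _ hk, hki, hbk, ?_, ?_⟩
        · rw [e1, e2]
          exact hd
        · rw [e1, e2]
          exact hin
    · have hci : cl₂ i = cl₂ a := h.s₂.cov.eq a i hi'
      rcases h₂ i (by rw [hci]; exact hi') hiT with h1 | ⟨k, hk, hki, hbk, hd, hin⟩
      · exact Or.inl h1
      · rw [hci] at hk hd hin
        have e1 := hg.st₂ hε hC hT' hℓς hΦ hi' hia hiT
        have e2 : M.st (cl₁ y ∪ cl₂ a) (bD i) Z k = M.st (cl₂ a) (bD i) Z k := by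
          by_cases hka : k = a
          · subst hka
            refine (hg.st_early hε hC hT' hℓς hΦ ?_).2 k hk
            by_contra hcon
            have h5 := hg.cls₂.exit k hk (bD i) (h.lta.trans (not_le.1 hcon)) hiT i hi' hki.symm
              (hg.cls₂.bb_le i hi')
            rw [dist_comm] at h5
            exact absurd hd h5.ne'
          · exact hg.st₂ hε hC hT' hℓς hΦ hk hka hiT
        refine Or.inr ⟨k, Finset.mem_union_right _ hk, hki, hbk, ?_, ?_⟩
        · rw [e1, e2]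
          exact hd
        · rw [e1, e2]
          exact hin
  · have hiy : i ≠ y := fun h' => hS (h' ▸ hyS)
    have hia : i ≠ a := fun h' => hS (h' ▸ haS)
    rw [h.clMrg_not hS] at hi ⊢
    rw [Enc.grafted_of_ne hiy hia] at hiT ⊢
    exact ExitT.join hm h₁ h₂ i hi hiT

end enc

end Crest.Agent.R122.StrMain307

end
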