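import Crest.Agent.R122.E6Str_491
import Crest.Agent.R122.TransD3_151
import Crest.Agent.R122.TransTree_942
import Crest.Agent.R122.StrMotG_307
import Crest.Agent.R122.StrMap_491
import Crest.Agent.R122.GateOsP_424
import Crest.Agent.R122.Link6Slots_796
import Crest.Agent.R122.LKok_416
import Crest.Agent.R122.LNPart_424
import Crest.Agent.R122.LNEmb_410

-- ▼ part R122/StrMot_151
section

/-!
# Motions of structures (row 122, OkFam of inequality 3), helper151

`Mot M Z R cl bD y` : invariants of the structures of `StrG_491`, `y` = active label.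

* `exit` : at its exit time a label is at distance exactly `ε` from a partner of its class and moves
  away from it, or it is born at its exit time.
* `cross` : a contact of two labels of different classes takes place after the exit of one of them,
  which is not the active label.

* `Mot.of_tree`, `Mot.single`, `Mot.join`, `Mot.graft`.
* `Str.far` : labels of different classes which have not left their classes are far.
* `Str.motion` : the classes, with deaths at the exit times, are one motion (`DWorld`, `RelD`).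
* `Str.startSep` : labels released at the same time.
-/

set_option autoImplicit false
set_option linter.unusedSectionVars false

open MeasureTheory Set Filter Topology
open scoped NNReal ENNReal
open Crest.AnalysisR.Kinetic
open Crest.Agent.R122.Flow671 hiding rel
open Crest.Agent.R122.Loc45 Crest.Agent.R122.Ins45
open Crest.Agent.R122.VL581 Crest.Agent.R122.VL581.VSys Crest.Agent.R122.VLInst442
open Crest.Agent.R122.LNInst491 Crest.Agent.R122.LN304 Crest.Agent.R122.LNg410
open Crest.Agent.R122.Kin796 Crest.Agent.R122.Kin796.CTree Crest.Agent.R122.Tree674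
open Crest.Agent.R122.PathFlow968 Crest.Agent.R122.TreeLines335 Crest.Agent.R122.EDefs602
open Crest.Agent.R122.LNTree410 Crest.Agent.R122.PWGlue491 Crest.Agent.R122.Inf879
open Crest.Agent.R122.LNGraft410 Crest.Agent.R122.LNEv968 Crest.Agent.R122.PWInst442
open Crest.Agent.R122.OCout796 Crest.Agent.R122.Scat818
open Crest.Agent.R122.OneC285 (cT cB cD cX)
open Crest.Agent.R122.StrG491 Crest.Agent.R122.TransOk151
open scoped Classical

noncomputable section

namespace Crest.Agent.R122.StrMot151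

variable {J κ : Type} [Fintype J] {M : VSys J κ} {Z : J → PhasePoint}
variable {c : ℝ} {R R₁ R₂ : ℝ → J → J → Prop} {π π₁ π₂ S : Finset J} {cl cl₁ cl₂ : J → Finset J}
  {bD : J → ℝ} {E E₁ E₂ : Finset J} {x y a : J} {s ℓ ς : ℝ} {p : Space3} {q : CD}

/-- Two states at distance exactly `ε` moving away from each other. -/
def Sepa (ε : ℝ) (z z' : PhasePoint) : Prop :=
  dist z.1 z'.1 = ε ∧ 0 < inner ℝ (z.1 - z'.1) (z.2 - z'.2)

theorem Sepa.symm {ε : ℝ} {z z' : PhasePoint} (h : Sepa ε z z') : Sepa ε z' z := by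
  refine ⟨by rw [dist_comm]; exact h.1, ?_⟩
  rw [← neg_sub, ← neg_sub z.2, inner_neg_neg]
  exact h.2

/-- Invariants of a structure; `y` = active label. -/
structure Mot (M : VSys J κ) (Z : J → PhasePoint) (R : ℝ → J → J → Prop) (cl : J → Finset J)
    (bD : J → ℝ) (y : J) : Prop where
  exit : ∀ i ∈ cl i, bD i ≤ M.T → bD i = M.bb i ∨ ∃ k ∈ cl i, k ≠ i ∧ M.bb k ≤ bD i ∧
    Sepa M.ε (M.st (cl i) (bD i) Z i) (M.st (cl i) (bD i) Z k)
  cross : ∀ r i j, R r i j → cl i ≠ cl j → (i ≠ y ∧ bD i ≤ r) ∨ (j ≠ y ∧ bD j ≤ r)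

/-! ### Basic structures -/

/-- One class. -/
theorem Mot.of_one_class {S : Finset J} (hex : ∀ i ∈ S, bD i ≤ M.T → bD i = M.bb i ∨
    ∃ k ∈ S, k ≠ i ∧ M.bb k ≤ bD i ∧ Sepa M.ε (M.st S (bD i) Z i) (M.st S (bD i) Z k)) :
    Mot M Z (RC M Z S) (clOf S) bD y where
  exit i hi hT := by
    have hi' := (mem_clOf.1 hi).1
    rw [clOf_mem hi']
    exact hex i hi' hT
  cross r i j hr hne := by
    exfalso
    apply hne
    rw [clOf_mem hr.1, clOf_mem hr.2.1]

/-- A single label. -/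
theorem Mot.single {l : J} (hb : bD l = M.bb l) : Mot M Z (RC M Z {l}) (clOf {l}) bD y :=
  Mot.of_one_class fun i hi _ => by
    rw [Finset.mem_singleton] at hi
    subst hi
    exact Or.inl hb

/-- A tree. -/
theorem Mot.of_tree (hΦ : AdmissiblePotential M.Φ) (hε : 0 < M.ε) (hT : 0 < M.T) {P : CTree}
    {ℓ : PhasePoint} {p : Par P} {e : Idx P ↪ J} (h : TreeIn M Z M.T P ℓ p e)
    (hb : ∀ i, bD (e i) = rel P p i) :
    Mot M Z (RC M Z (part e)) (clOf (part e)) bD y :=
  Mot.of_one_class fun i hi _ => by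
    obtain ⟨x, rfl⟩ := mem_part.1 hi
    by_cases hP : P = leaf
    · left
      rw [hb, h.bb]
      subst hP
      rfl
    · right
      obtain ⟨k, hk, hE⟩ := TransTree942.exit_path hΦ hε P M.T ℓ p h.valid x (Or.inr hP)
      have h0 : rel P p x ∈ Icc 0 M.T := ⟨rel_nonneg hε.le h.valid.2 x,
        (rel_lt hε.le hT h.valid.2 x).le⟩
      refine ⟨e k, mem_part_self k, fun h' => hk (e.injective h'), by rw [hb, h.bb]; exact h0.1, ?_⟩
      rw [hb, h.st_tree hΦ hε h0, h.st_tree hΦ hε h0]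
      exact hE

/-! ### Encounters -/

/-- The two partners of an encounter at its end. -/
theorem sepa_exit {Φ : Space3 → ℝ} {ε : ℝ} (hΦ : AdmissiblePotential Φ) (hε : 0 < ε) {y : Space3}
    (hq : CDpass Φ q) : Sepa ε (encPL Φ ε s y q (s + outT Φ ε q))
      (encPC Φ ε s y q (s + outT Φ ε q)) := by
  refine ⟨hq.dist_exit hε, ?_⟩
  have h1 := encPL_sub_encPC (Φ := Φ) (ε := ε) (s := s) (y := y) (q := q) (s + outT Φ ε q)
  have h2 : (encPL Φ ε s y q (s + outT Φ ε q)).2 - (encPC Φ ε s y q (s + outT Φ ε q)).2 =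
      (encR Φ ε s q (s + outT Φ ε q)).2 := by
    unfold encPL encPC
    simp only
    module
  rw [h1, h2, encR_exit hε.ne', real_inner_smul_left]
  have h3 := hq.hasExit.inner_pos hΦ (reg_entrance Φ hq.ok.1 hq.ok.2)
  exact mul_pos hε h3

/-- **Encounter, separate classes.** -/
theorem Mot.join (hm : Meet M c Z R₁ R₂ π₁ π₂ cl₁ cl₂ bD E₁ E₂ y a s) (hs : bD y ≤ s)
    {y' : J} (hy' : y' ∉ π₁) (h₁ : Mot M Z R₁ cl₁ bD y) (h₂ : Mot M Z R₂ cl₂ bD y') :
    Mot M Z (joinR R₁ R₂ y a s) (clSep cl₁ cl₂) bD y' where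
  exit i hi hT := by
    rcases hm.mem_clSep hi with ⟨h1, h2, -⟩ | ⟨h1, h2, -⟩
    · rw [hm.cl₁_of h2]
      exact h₁.exit i h1 hT
    · rw [hm.cl₂_of h2]
      exact h₂.exit i h1 hT
  cross r i j hR hne := by
    rcases hR with hR | hR | ⟨hrs, ⟨hi, hj⟩ | ⟨hi, hj⟩⟩
    · obtain ⟨h1, h2⟩ := hm.s₁.supp r i j hR
      rw [hm.cl₁_of h1, hm.cl₁_of h2] at hne
      rcases h₁.cross r i j hR hne with h3 | h3
      · exact Or.inl ⟨fun h => hy' (h ▸ h1), h3.2⟩
      · exact Or.inr ⟨fun h => hy' (h ▸ h2), h3.2⟩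
    · obtain ⟨h1, h2⟩ := hm.s₂.supp r i j hR
      rw [hm.cl₂_of h1, hm.cl₂_of h2] at hne
      exact h₂.cross r i j hR hne
    · left
      rw [hi, hrs]
      exact ⟨fun h => hy' (h ▸ hm.yπ), hs⟩
    · right
      rw [hj, hrs]
      exact ⟨fun h => hy' (h ▸ hm.yπ), hs⟩

section graft

variable [Nonempty κ] (hC : 1 ≤ c) (hΦ : AdmissiblePotential M.Φ) (hε : 0 < M.ε)
  (h : StrG491.Enc M c Z R₁ R₂ π₁ π₂ cl₁ cl₂ bD E₁ E₂ y a s p q)
  (hT : TL M c ℓ ς (π₁ ∪ π₂) Z) (hℓς : 2 * ℓ ≤ ς) (hp : CDpass M.Φ q)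
  (hle : s + outT M.Φ M.ε q ≤ M.T)
include hC hΦ hε h hT hℓς hp hle

/-- Exit data of the merged class. -/
theorem graft_exit (h₁ : ∀ i ∈ cl₁ y, bD i ≤ M.T → bD i = M.bb i ∨ ∃ k ∈ cl₁ y, k ≠ i ∧
      M.bb k ≤ bD i ∧ Sepa M.ε (M.st (cl₁ y) (bD i) Z i) (M.st (cl₁ y) (bD i) Z k))
    (h₂ : ∀ i ∈ cl₂ a, bD i ≤ M.T → bD i = M.bb i ∨ ∃ k ∈ cl₂ a, k ≠ i ∧
      M.bb k ≤ bD i ∧ Sepa M.ε (M.st (cl₂ a) (bD i) Z i) (M.st (cl₂ a) (bD i) Z k))
    {i : J} (hi : i ∈ cl₁ y ∪ cl₂ a) (hiT : grafted M.Φ M.ε bD y a s q i ≤ M.T) :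
    grafted M.Φ M.ε bD y a s q i = M.bb i ∨ ∃ k ∈ cl₁ y ∪ cl₂ a, k ≠ i ∧
      M.bb k ≤ grafted M.Φ M.ε bD y a s q i ∧
      Sepa M.ε (M.st (cl₁ y ∪ cl₂ a) (grafted M.Φ M.ε bD y a s q i) Z i)
        (M.st (cl₁ y ∪ cl₂ a) (grafted M.Φ M.ε bD y a s q i) Z k) := by
  have hG := h.graftH
  have hTL := h.tl hC hε hT
  have hac : s ≤ s + outT M.Φ M.ε q := (lt_add_of_pos_right s (hp.outT_pos hε)).le
  obtain ⟨e1, e2⟩ := hG.st_pair hε hC hTL hℓς hΦ hac hle
  by_cases hia : i = y
  · subst hia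
    have hg : grafted M.Φ M.ε bD i a s q i = s + outT M.Φ M.ε q := if_pos (Or.inl rfl)
    rw [hg]
    refine Or.inr ⟨a, Finset.mem_union_right _ hG.hc, hG.symm_ne.symm, hG.bbc.le.trans hac, ?_⟩
    rw [e1, e2]
    exact sepa_exit hΦ hε hp
  by_cases hic : i = a
  · subst hic
    have hg : grafted M.Φ M.ε bD y i s q i = s + outT M.Φ M.ε q := if_pos (Or.inr rfl)
    rw [hg]
    refine Or.inr ⟨y, Finset.mem_union_left _ hG.ha, hG.symm_ne, hG.bba.le.trans hac, ?_⟩
    rw [e1, e2]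
    exact (sepa_exit hΦ hε hp).symm
  have hg : grafted M.Φ M.ε bD y a s q i = bD i := if_neg fun h' => h'.elim hia hic
  rw [hg] at hiT ⊢
  rcases Finset.mem_union.1 hi with hi' | hi'
  · rcases h₁ i hi' hiT with h3 | ⟨k, hk, hki, hbk, hd⟩
    · exact Or.inl h3
    · refine Or.inr ⟨k, Finset.mem_union_left _ hk, hki, hbk, ?_⟩
      rw [hG.st₁ hε hC hTL hℓς hΦ hi' hia hiT]
      rcases le_or_gt (bD i) s with hs | hs
      · rw [(hG.st_early hε hC hTL hℓς hΦ hs).1 k hk]
        exact hd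
      · have hka : k ≠ y := by
          rintro rfl
          have h4 := hd.1
          rw [dist_comm] at h4
          exact absurd (hG.cls₁.exit k hk (bD i) (hG.lta.trans hs) hiT i hi' hia
            (hG.cls₁.bb_le i hi')) (not_lt.2 h4.le)
        rw [hG.st₁ hε hC hTL hℓς hΦ hk hka hiT]
        exact hd
  · rcases h₂ i hi' hiT with h3 | ⟨k, hk, hki, hbk, hd⟩
    · exact Or.inl h3
    · refine Or.inr ⟨k, Finset.mem_union_right _ hk, hki, hbk, ?_⟩
      rw [hG.st₂ hε hC hTL hℓς hΦ hi' hic hiT]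
      rcases le_or_gt (bD i) s with hs | hs
      · rw [(hG.st_early hε hC hTL hℓς hΦ hs).2 k hk]
        exact hd
      · have hkc : k ≠ a := by
          rintro rfl
          have h4 := hd.1
          rw [dist_comm] at h4
          exact absurd (hG.cls₂.exit k hk (bD i) (hG.ltc.trans hs) hiT i hi' hic
            (hG.cls₂.bb_le i hi')) (not_lt.2 h4.le)
        rw [hG.st₂ hε hC hTL hℓς hΦ hk hkc hiT]
        exact hd

/-- **Encounter with outgoing lines.** -/
theorem Mot.graft (h₁ : Mot M Z R₁ cl₁ bD y) (h₂ : Mot M Z R₂ cl₂ bD a) {y' : J}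
    (hy' : y' = y ∨ y' = a) :
    Mot M Z (joinR R₁ R₂ y a s) (clMrg cl₁ cl₂ y a) (grafted M.Φ M.ε bD y a s q) y' where
  exit i hi hT' := by
    have hm := h.meet hε
    by_cases hx : i ∈ cl₁ y ∪ cl₂ a
    · rw [h.clMrg_mem hx]
      refine graft_exit hC hΦ hε h hT hℓς hp hle (fun k hk hkT => ?_) (fun k hk hkT => ?_) hx hT'
      · have h3 := h.s₁.cov.eq y k hk
        have h4 := h₁.exit k (h3 ▸ hk) hkT
        rwa [h3] at h4
      · have h3 := h.s₂.cov.eq a k hk
        have h4 := h₂.exit k (h3 ▸ hk) hkT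
        rwa [h3] at h4
    · rw [h.clMrg_not hx] at hi ⊢
      have hg : grafted M.Φ M.ε bD y a s q i = bD i := by
        refine StrG491.Enc.grafted_of_ne (fun h3 => hx ?_) fun h3 => hx ?_
        · rw [h3]
          exact Finset.mem_union_left _ (h.s₁.mem y h.hy)
        · rw [h3]
          exact Finset.mem_union_right _ (h.s₂.mem a h.ha)
      rw [hg] at hT' ⊢
      rcases hm.mem_clSep hi with ⟨h1, h2, -⟩ | ⟨h1, h2, -⟩
      · rw [hm.cl₁_of h2]
        exact h₁.exit i h1 hT'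
      · rw [hm.cl₂_of h2]
        exact h₂.exit i h1 hT'
  cross r i j hR hne := by
    have hm := h.meet hε
    have hyπ := hm.yπ
    have haπ := hm.aπ
    have key₁ : ∀ k ∈ π₁, k ≠ y → k ≠ y' ∧ grafted M.Φ M.ε bD y a s q k = bD k := by
      intro k hk hky
      have hka : k ≠ a := fun h' => hm.not₂ hk (h' ▸ haπ)
      refine ⟨?_, StrG491.Enc.grafted_of_ne hky hka⟩
      rcases hy' with rfl | rfl
      · exact hky
      · exact hka
    have key₂ : ∀ k ∈ π₂, k ≠ a → k ≠ y' ∧ grafted M.Φ M.ε bD y a s q k = bD k := by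
      intro k hk hka
      have hky : k ≠ y := fun h' => hm.not₁ hk (h' ▸ hyπ)
      refine ⟨?_, StrG491.Enc.grafted_of_ne hky hka⟩
      rcases hy' with rfl | rfl
      · exact hky
      · exact hka
    rcases hR with hR | hR | ⟨hrs, ⟨hi, hj⟩ | ⟨hi, hj⟩⟩
    · obtain ⟨h1, h2⟩ := h.s₁.supp r i j hR
      have hne' : cl₁ i ≠ cl₁ j := by
        intro heq
        apply hne
        by_cases hi : i ∈ cl₁ y ∪ cl₂ a
        · have hi' : i ∈ cl₁ y := (Finset.mem_union.1 hi).resolve_right fun h' =>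
            hm.not₂ h1 (h.s₂.sub a h')
          have h3 := h.s₁.cov.eq y i hi'
          have h4 : j ∈ cl₁ y := by
            rw [← h3, heq]
            exact h.s₁.cov.mem j ⟨i, by rw [← heq, h3]; exact hi'⟩
          rw [h.clMrg_mem hi, h.clMrg_mem (Finset.mem_union_left _ h4)]
        · by_cases hj : j ∈ cl₁ y ∪ cl₂ a
          · have hj' : j ∈ cl₁ y := (Finset.mem_union.1 hj).resolve_right fun h' =>
              hm.not₂ h2 (h.s₂.sub a h')
            have h3 := h.s₁.cov.eq y j hj'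
            have h4 : i ∈ cl₁ y := by
              rw [← h3, ← heq]
              exact h.s₁.cov.mem i ⟨j, by rw [heq, h3]; exact hj'⟩
            exact absurd (Finset.mem_union_left _ h4) hi
          · rw [h.clMrg_not hi, h.clMrg_not hj, hm.cl₁_of h1, hm.cl₁_of h2, heq]
      rcases h₁.cross r i j hR hne' with h3 | h3
      · have h4 := key₁ i h1 h3.1
        exact Or.inl ⟨h4.1, by rw [h4.2]; exact h3.2⟩
      · have h4 := key₁ j h2 h3.1
        exact Or.inr ⟨h4.1, by rw [h4.2]; exact h3.2⟩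
    · obtain ⟨h1, h2⟩ := h.s₂.supp r i j hR
      have hne' : cl₂ i ≠ cl₂ j := by
        intro heq
        apply hne
        by_cases hi : i ∈ cl₁ y ∪ cl₂ a
        · have hi' : i ∈ cl₂ a := (Finset.mem_union.1 hi).resolve_left fun h' =>
            hm.not₁ h1 (h.s₁.sub y h')
          have h3 := h.s₂.cov.eq a i hi'
          have h4 : j ∈ cl₂ a := by
            rw [← h3, heq]
            exact h.s₂.cov.mem j ⟨i, by rw [← heq, h3]; exact hi'⟩
          rw [h.clMrg_mem hi, h.clMrg_mem (Finset.mem_union_right _ h4)]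
        · by_cases hj : j ∈ cl₁ y ∪ cl₂ a
          · have hj' : j ∈ cl₂ a := (Finset.mem_union.1 hj).resolve_left fun h' =>
              hm.not₁ h2 (h.s₁.sub y h')
            have h3 := h.s₂.cov.eq a j hj'
            have h4 : i ∈ cl₂ a := by
              rw [← h3, ← heq]
              exact h.s₂.cov.mem i ⟨j, by rw [heq, h3]; exact hj'⟩
            exact absurd (Finset.mem_union_right _ h4) hi
          · rw [h.clMrg_not hi, h.clMrg_not hj, hm.cl₂_of h1, hm.cl₂_of h2, heq]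
      rcases h₂.cross r i j hR hne' with h3 | h3
      · have h4 := key₂ i h1 h3.1
        exact Or.inl ⟨h4.1, by rw [h4.2]; exact h3.2⟩
      · have h4 := key₂ j h2 h3.1
        exact Or.inr ⟨h4.1, by rw [h4.2]; exact h3.2⟩
    · exfalso
      apply hne
      rw [hi, hj, h.clMrg_mem (Finset.mem_union_left _ (h.s₁.mem y h.hy)),
        h.clMrg_mem (Finset.mem_union_right _ (h.s₂.mem a h.ha))]
    · exfalso
      apply hne
      rw [hi, hj, h.clMrg_mem (Finset.mem_union_left _ (h.s₁.mem y h.hy)),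
        h.clMrg_mem (Finset.mem_union_right _ (h.s₂.mem a h.ha))]

end graft

/-! ### The motion -/

/-- Deaths: the exit times before the horizon. -/
def dE (M : VSys J κ) (bD : J → ℝ) (i : J) : ℝ := if bD i ≤ M.T then bD i else M.T + 1

theorem dE_of_le {i : J} (h : bD i ≤ M.T) : dE M bD i = bD i := if_pos h

theorem dE_of_lt {i : J} (h : M.T < bD i) : dE M bD i = M.T + 1 := if_neg (not_le.2 h)

theorem dE_le {i : J} (h : dE M bD i ≤ M.T) : bD i ≤ M.T := by
  by_contra hcon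
  rw [dE_of_lt (not_le.1 hcon)] at h
  linarith

section motion

variable [Nonempty κ] (hC : 1 ≤ c) (hΦ : AdmissiblePotential M.Φ) (hε : 0 < M.ε)
  (h : Str M c Z R π cl bD E) (hm : Mot M Z R cl bD y) (hT : TL M c ℓ ς π Z) (hℓς : 2 * ℓ ≤ ς)
include hC hΦ hε h hm hT hℓς

omit hm hT hℓς hΦ in
/-- A contact is a virtual contact. -/
theorem vct_cl {i j : J} {t : ℝ} (htT : t ≤ M.T) (hi : i ∈ cl i) (hj : j ∈ cl j)
    (hd : dist (M.st (cl i) t Z i).1 (M.st (cl j) t Z j).1 ≤ M.ε) : M.VCt c π i j t Z :=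
  vct_st hC hε (h.sub i) (h.sub j) hi hj (ok_anti htT (h.cov.ok i)) (ok_anti htT (h.cov.ok j))
    (h.cov.obs i i hi) (h.cov.obs j j hj) hd

/-- **Labels of different classes are far** before their exits. -/
theorem far {i j : J} (hi : i ∈ cl i) (hj : j ∈ cl j) (hij : cl i ≠ cl j) (hbi : M.bb i < bD i)
    (hbj : M.bb j < bD j) {t : ℝ} (h0 : 0 ≤ t) (htT : t ≤ M.T) (hti : bD i ≤ M.T → t ≤ bD i)
    (htj : bD j ≤ M.T → t ≤ bD j) :
    M.ε < dist (M.st (cl i) t Z i).1 (M.st (cl j) t Z j).1 := by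
  -- the exit of `i` separates `t` and the contact of the family
  have key : ∀ {i j : J} (_ : i ∈ cl i) (_ : j ∈ cl j), cl i ≠ cl j → M.bb i < bD i →
      (bD i ≤ M.T → t ≤ bD i) → M.VCt c π i j t Z → ∀ r ∈ Icc 0 M.T,
      R r i j → bD i ≤ r → False := by
    intro i j hi hj hij hbi hti hv r hr hR hir
    have hne : i ≠ j := fun h' => hij (by rw [h'])
    have hiπ := h.sub i hi
    have hjπ := h.sub j hj
    have hiT : bD i ≤ M.T := hir.trans hr.2
    have h00 : 0 ≤ bD i := (bb_nonneg M i).trans hbi.le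
    rcases hm.exit i hi hiT with h1 | ⟨k, hk, hki, hbk, hd⟩
    · exact hbi.ne' h1
    · have hck : cl k = cl i := h.cov.eq i k hk
      have hk' : k ∈ cl k := by rw [hck]; exact hk
      have h2 : M.VCt c π i k (bD i) Z := vct_cl hC hε h hiT hi hk' (by
        rw [hck]
        exact hd.1.le)
      have h3 := tl_between hT.2 h.conn hℓς hiπ hjπ hne hiπ (h.sub i hk) hki.symm ⟨h0, htT⟩ hv hr
        (h.fam.vct r hr i hiπ j hjπ hne hR) ⟨h00, hiT⟩ h2 (hti hiT) hir
      rcases h3 with h3 | h3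
      · exact hij (by rw [h3.2, hck])
      · exact hki h3.1.symm
  by_contra hcon
  have hne : i ≠ j := fun h' => hij (by rw [h'])
  have hiπ := h.sub i hi
  have hjπ := h.sub j hj
  have hv := vct_cl hC hε h htT hi hj (not_lt.1 hcon)
  have hv' := vct_symm hv
  have h1 := tl_mem_of_family hT.2 h.fam.conn (fun i hi j hj hij hF => by
    obtain ⟨r, hr, hR⟩ := hF
    exact ⟨r, hr, h.fam.vct r hr i hi j hj hij hR⟩) hiπ hjπ hne ⟨h0, htT⟩ hv
  have h2 : ∃ r ∈ Icc 0 M.T, R r i j := by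
    rcases h1 with ⟨r, hr, hR⟩ | ⟨r, hr, hR⟩
    · exact ⟨r, hr, hR⟩
    · exact ⟨r, hr, h.fam.symm r j i hR⟩
  obtain ⟨r, hr, hR⟩ := h2
  rcases hm.cross r i j hR hij with h3 | h3
  · exact key hi hj hij hbi hti hv r hr hR h3.2
  · exact key hj hi hij.symm hbj htj hv' r hr (h.fam.symm r i j hR) h3.2

variable {A : Finset J} (hA : ∀ i ∈ A, ∃ e ∈ E, i ∈ cl e ∧ cl e ⊆ A)
  (hb : ∀ i ∈ A, M.bb i = 0) (hpos : ∀ i ∈ A, 0 < bD i)
include hA

omit hC hΦ hε hm hT hℓς in
theorem cl_A {i : J} (hi : i ∈ A) : i ∈ cl i ∧ cl i ⊆ A ∧ Cls M Z (cl i) bD := by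
  obtain ⟨e, he, h1, h2⟩ := hA i hi
  have h3 : cl i = cl e := h.cov.eq e i h1
  rw [h3]
  exact ⟨h1, h2, h.cls e he⟩

omit hC hm hT hℓς in
/-- Right continuity of the positions. -/
theorem cwa {i k : J} (hi : i ∈ A) (hk : k ∈ cl i) {t : ℝ} (h0 : 0 ≤ t) (htT : t < M.T) :
    ContinuousWithinAt (fun s => (M.st (cl i) s Z k).1) (Icc t M.T) t := by
  have h1 : ContinuousOn (fun s => M.st (cl i) s Z k) (Icc t M.T) :=
    ((cl_A h hA hi).2.2.lworld hΦ hε t).cont_apply (⟨k, hk⟩ : (cl i : Finset J))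
  exact (h1 t ⟨le_rfl, htT.le⟩).fst

omit hC hm hT hℓς in
/-- From the exit time on a label is at distance at least `ε` from its class. -/
theorem le_dist_exit {i k : J} (hi : i ∈ A) (hk : k ∈ cl i) (hki : k ≠ i) {t : ℝ} (h0 : 0 ≤ t)
    (htT : t < M.T) (hit : bD i ≤ t) (hbk : M.bb k ≤ t) :
    M.ε ≤ dist (M.st (cl i) t Z i).1 (M.st (cl i) t Z k).1 := by
  obtain ⟨h1, -, h3⟩ := cl_A h hA hi
  refine le_dist_of_frequently htT (x := fun s => (M.st (cl i) s Z i).1)
    (y := fun s => (M.st (cl i) s Z k).1) (cwa hΦ hε h hA hi h1 h0 htT)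
    (cwa hΦ hε h hA hi hk h0 htT) (Eventually.frequently ?_)
  filter_upwards [Ioo_mem_nhdsGT htT] with s hs
  exact (h3.exit i h1 s (hit.trans_lt hs.1) hs.2.le k hk hki (hbk.trans hs.1.le)).le

include hb hpos


/-- **The classes, with deaths at the exit times, are one motion.** -/
theorem motion : DWorld M.Φ M.ε (fun _ : A => (0 : ℝ)) (fun i : A => dE M bD i) 0 M.T
    (fun t i => M.st (cl i) t Z i) where
  cont i := by
    obtain ⟨h1, -, h3⟩ := cl_A h hA i.2
    have h4 : ContinuousOn (fun s => M.st (cl i) s Z i) (Icc 0 M.T) :=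
      (h3.lworld hΦ hε 0).cont_apply (⟨i, h1⟩ : (cl i : Finset J))
    exact h4.mono (Icc_subset_Icc le_rfl (min_le_left _ _))
  der t h0 htT i hi := by
    obtain ⟨h1, h2, h3⟩ := cl_A h hA i.2
    have h4 := (hasDerivWithinAt_pi.1 ((h3.lworld hΦ hε 0).der t ⟨h0, htT⟩))
      (⟨i, h1⟩ : (cl i : Finset J))
    refine h4.congr_deriv ?_
    unfold bf bfd
    refine Prod.ext rfl ?_
    simp only
    have hbi : M.bb (i : J) ≤ t := by rw [hb i i.2]; exact h0
    rw [if_pos hbi, if_pos h0]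
    congr 1
    have e1 : (∑ j : (cl i : Finset J), if M.bb (j : J) ≤ t then
        gradient M.Φ ((1 / M.ε) • ((M.st (cl i) t Z i).1 - (M.st (cl i) t Z j).1)) else 0) =
        ∑ j ∈ cl (i : J), gradient M.Φ ((1 / M.ε) • ((M.st (cl i) t Z i).1 -
          (M.st (cl i) t Z j).1)) := by
      rw [← Finset.sum_coe_sort (cl (i : J))]
      refine Finset.sum_congr rfl fun j _ => if_pos ?_
      rw [hb j (h2 j.2)]
      exact h0
    have e2 : (∑ j : A, if (0 : ℝ) ≤ t ∧ t < dE M bD j then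
        gradient M.Φ ((1 / M.ε) • ((M.st (cl i) t Z i).1 - (M.st (cl j) t Z j).1)) else 0) =
        ∑ j ∈ A, if (0 : ℝ) ≤ t ∧ t < dE M bD j then
        gradient M.Φ ((1 / M.ε) • ((M.st (cl i) t Z i).1 - (M.st (cl j) t Z j).1)) else 0 :=
      Finset.sum_coe_sort A fun j => if (0 : ℝ) ≤ t ∧ t < dE M bD j then
        gradient M.Φ ((1 / M.ε) • ((M.st (cl i) t Z i).1 - (M.st (cl j) t Z j).1)) else 0
    show (∑ j : (cl i : Finset J), if M.bb (j : J) ≤ t then
        gradient M.Φ ((1 / M.ε) • ((M.st (cl i) t Z i).1 - (M.st (cl i) t Z j).1)) else 0) =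
      ∑ j : A, if (0 : ℝ) ≤ t ∧ t < dE M bD j then
        gradient M.Φ ((1 / M.ε) • ((M.st (cl i) t Z i).1 - (M.st (cl j) t Z j).1)) else 0
    rw [e1, e2]
    refine (Finset.sum_congr rfl fun j hj => ?_).trans
      (Finset.sum_subset h2 fun j hjA hj => ?_)
    · have hjA := h2 hj
      have hcj : cl j = cl (i : J) := h.cov.eq i j hj
      by_cases hd : t < dE M bD j
      · rw [if_pos ⟨h0, hd⟩, hcj]
      · have hd' := not_lt.1 hd
        have h5 : bD j ≤ M.T := dE_le (hd'.trans htT.le)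
        rw [dE_of_le h5] at hd'
        have hij : (i : J) ≠ j := by
          intro h'
          rw [← h'] at hd
          exact hd hi
        rw [if_neg fun h' => hd h'.2]
        refine grad_far hΦ hε ?_
        have h6 := le_dist_exit hΦ hε h hA hjA (k := (i : J)) (by rw [hcj]; exact h1) hij h0 htT hd'
          hbi
        rwa [hcj, dist_comm] at h6
    · by_cases hd : t < dE M bD j
      · rw [if_pos ⟨h0, hd⟩]
        obtain ⟨g1, g2, g3⟩ := cl_A h hA hjA
        refine grad_far hΦ hε (far hC hΦ hε h hm hT hℓς h1 g1 (fun h' => hj (h' ▸ g1)) ?_ ?_ h0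
          htT.le (fun h' => ?_) fun h' => ?_).le
        · rw [hb i i.2]
          exact hpos i i.2
        · rw [hb j hjA]
          exact hpos j hjA
        · rw [dE_of_le h'] at hi
          exact hi.le
        · rw [dE_of_le h'] at hd
          exact hd.le
      · rw [if_neg fun h' => hd h'.2]
  dom t h0 htT := by
    by_cases hcd : ContDiff ℝ 2 M.Φ
    · exact Or.inl hcd
    · refine Or.inr fun i j hij _ hi _ hj => ?_
      obtain ⟨h1, h2, h3⟩ := cl_A h hA i.2
      obtain ⟨g1, g2, g3⟩ := cl_A h hA j.2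
      have hij' : (i : J) ≠ j := fun h' => hij (Subtype.ext h')
      by_cases hc : cl (i : J) = cl (j : J)
      · have h4 := ((h3.lworld hΦ hε 0).dom t ⟨h0, htT⟩).resolve_left hcd
          (⟨i, h1⟩ : (cl i : Finset J)) ⟨j, by rw [hc]; exact g1⟩
          (fun h' => hij' (congrArg (fun k : (cl (i : J) : Finset J) => (k : J)) h'))
          (by show M.bb (i : J) ≤ t; rw [hb i i.2]; exact h0)
          (by show M.bb (j : J) ≤ t; rw [hb j j.2]; exact h0)
        show (M.st (cl i) t Z i).1 ≠ (M.st (cl j) t Z j).1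
        rw [← hc]
        exact h4
      · intro heq
        have h4 := far hC hΦ hε h hm hT hℓς h1 g1 hc (by rw [hb i i.2]; exact hpos i i.2)
          (by rw [hb j j.2]; exact hpos j j.2) h0 htT.le (fun h' => by
            rw [dE_of_le h'] at hi
            exact hi.le) (fun h' => by
            rw [dE_of_le h'] at hj
            exact hj.le)
        have heq' : (M.st (cl i) t Z i).1 = (M.st (cl j) t Z j).1 := heq
        rw [heq', dist_self] at h4
        exact absurd h4 (not_lt.2 hε.le)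



end motion

end Crest.Agent.R122.StrMot151
end
end

-- ▼ part R122/StrMot2_151
section

/-!
# Transversal exits and late cross contacts (row 122), helper151

`ExitT`, `CrossT` : helper307.

* `ExitT.tree`, `ExitT.map`, `CrossT.map`, `CrossT.congr`.
* `Cls.pos_of`, `Str.pos_of` : exits of classes with at least two labels of birth `0` are positive.
* `PT M Z R cl bD y` : both properties, `y` = active label; `PT.tree`, `PT.single`, `PT.congr`,
  `PT.map`; `PT.outC`, `PT.outL`, `PT.outC'`, `PT.late` : encounters of a pair structure.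
* `PTree.pt0`, `PTree.pt6` : the structures `str0`, `str6` (helper491).
-/

set_option autoImplicit false
set_option linter.unusedSectionVars false

open MeasureTheory Set Filter Topology
open scoped NNReal ENNReal
open Crest.AnalysisR.Kinetic
open Crest.Agent.R122.Flow671 hiding rel
open Crest.Agent.R122.Loc45 Crest.Agent.R122.Ins45
open Crest.Agent.R122.VL581 Crest.Agent.R122.VL581.VSys Crest.Agent.R122.VLInst442
open Crest.Agent.R122.LNInst491 Crest.Agent.R122.LN304 Crest.Agent.R122.LNg410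
open Crest.Agent.R122.Kin796 Crest.Agent.R122.Kin796.CTree Crest.Agent.R122.Tree674
open Crest.Agent.R122.PathFlow968 Crest.Agent.R122.TreeLines335 Crest.Agent.R122.EDefs602
open Crest.Agent.R122.LNTree410 Crest.Agent.R122.PWGlue491 Crest.Agent.R122.Inf879
open Crest.Agent.R122.LNGraft410 Crest.Agent.R122.LNEv968 Crest.Agent.R122.PWInst442
open Crest.Agent.R122.LNBridge968 Crest.Agent.R122.LNEmb410
open Crest.Agent.R122.OCout796 Crest.Agent.R122.Scat818
open Crest.Agent.R122.OneC285 (cT cB cD cX)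
open Crest.Agent.R122.StrG491 Crest.Agent.R122.StrMain307
open scoped Classical

noncomputable section

namespace Crest.Agent.R122.StrMot2_151

variable {J κ : Type} [Fintype J] {M : VSys J κ} {Z : J → PhasePoint}
variable {c : ℝ} {R R₁ R₂ : ℝ → J → J → Prop} {π π₁ π₂ S : Finset J} {cl cl₁ cl₂ : J → Finset J}
  {bD : J → ℝ} {E E₁ E₂ : Finset J} {x y y' a : J} {s ℓ ς : ℝ} {p : Space3} {q : CD}

/-! ### Positive exit times -/


/-! ### Trees -/

/-- The exits of a tree are transversal. -/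
theorem _root_.Crest.Agent.R122.StrMain307.ExitT.tree (hΦ : AdmissiblePotential M.Φ) (hε : 0 < M.ε)
    (hT : 0 < M.T) {P : CTree} {z : PhasePoint × Par P} {e : Idx P ↪ J}
    (h : TreeIn M Z M.T P z.1 z.2 e) (hb : ∀ i, bD (e i) = rel P z.2 i) :
    ExitT M Z (clOf (part e)) bD := fun i hi hiT =>
  (StrMot151.Mot.of_tree hΦ hε hT h hb (y := e (root P))).exit i hi hiT

/-! ### Changes of the exit times outside of the structure -/


/-! ### Embeddings of labels -/

section map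

variable {J' : Type} [Fintype J'] {M' : VSys J' κ} {e : J' ↪ J} {cl' : J' → Finset J'}
  {bD' : J' → ℝ} {R' : ℝ → J' → J' → Prop} {z : J'}

theorem _root_.Crest.Agent.R122.StrMain307.CrossT.map (h : CrossT R' cl' bD' z)
    (hb : ∀ r i j, R' r i j → bD (e i) = bD' i ∧ bD (e j) = bD' j) :
    CrossT (mapR e R') (mapCl e cl') bD (e z) := by
  intro r i j hR hne
  obtain ⟨i, j, rfl, rfl, hR⟩ := hR
  rw [mapCl_apply, mapCl_apply] at hne
  have hne' : cl' i ≠ cl' j := fun h' => hne (by rw [h'])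
  rw [(hb r i j hR).1, (hb r i j hR).2]
  exact (h r i j hR hne').imp (fun h' => ⟨fun h'' => h'.1 (e.injective h''), h'.2⟩)
    fun h' => ⟨fun h'' => h'.1 (e.injective h''), h'.2⟩

theorem _root_.Crest.Agent.R122.StrMain307.ExitT.map (hp : Pull M' M e)
    (hΦ : AdmissiblePotential M.Φ) (hε : 0 < M.ε) (h : ExitT M' (fun k => Z (e k)) cl' bD')
    (hb : ∀ i, i ∈ cl' i → bD (e i) = bD' i) : ExitT M Z (mapCl e cl') bD := by
  intro i hi hiT
  obtain ⟨i, l, rfl, hl, hil⟩ := exists_of_mapCl hi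
  obtain rfl := e.injective hl
  have hbb : ∀ k, M'.bb k = M.bb (e k) := fun k => by
    unfold VSys.bb
    rw [hp.b]
  rw [hb l hil] at hiT ⊢
  rcases h l hil (by rw [hp.T]; exact hiT) with h1 | ⟨k, hk, hkl, h1, h2, h3⟩
  · exact Or.inl (by rw [h1, hbb])
  · have e1 : M.st (mapCl e cl' (e l)) (bD' l) Z (e l) =
        M'.st (cl' l) (bD' l) (fun k => Z (e k)) l := by
      rw [mapCl_apply, hp.st hΦ hε]
    have e2 : M.st (mapCl e cl' (e l)) (bD' l) Z (e k) =
        M'.st (cl' l) (bD' l) (fun k => Z (e k)) k := by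
      rw [mapCl_apply, hp.st hΦ hε]
    refine Or.inr ⟨e k, ?_, fun h' => hkl (e.injective h'), ?_, ?_, ?_⟩
    · rw [mapCl_apply]
      exact Finset.mem_map_of_mem e hk
    · rw [← hbb]
      exact h1
    · rw [e1, e2, ← hp.ε]
      exact h2
    · rw [e1, e2]
      exact h3

end map

/-! ### Both properties -/

/-- Transversal exits and late cross contacts; `y` = active label. -/
structure PT (M : VSys J κ) (Z : J → PhasePoint) (R : ℝ → J → J → Prop) (cl : J → Finset J)
    (bD : J → ℝ) (y : J) : Prop where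
  exit : ExitT M Z cl bD
  cross : CrossT R cl bD y



theorem PT.single {l : J} (hb : bD l = M.bb l) : PT M Z (RC M Z {l}) (clOf {l}) bD y :=
  ⟨ExitT.single hb, CrossT.of_cls _ _ _⟩

theorem PT.tree (hΦ : AdmissiblePotential M.Φ) (hε : 0 < M.ε)
    (hT : 0 < M.T) {P : CTree} {z : PhasePoint × Par P} {e : Idx P ↪ J}
    (h : TreeIn M Z M.T P z.1 z.2 e) (hb : ∀ i, bD (e i) = rel P z.2 i) :
    PT M Z (RC M Z (part e)) (clOf (part e)) bD y :=
  ⟨ExitT.tree hΦ hε hT h hb, CrossT.of_cls _ _ _⟩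


theorem PT.map {J' : Type} [Fintype J'] {M' : VSys J' κ} {e : J' ↪ J} {cl' : J' → Finset J'}
    {bD' : J' → ℝ} {R' : ℝ → J' → J' → Prop} {π' E' : Finset J'} {z : J'} (hp : Pull M' M e)
    (hΦ : AdmissiblePotential M.Φ) (hε : 0 < M.ε)
    (hs : Str M' c (fun k => Z (e k)) R' π' cl' bD' E') (hb : ∀ i ∈ π', bD (e i) = bD' i)
    (h : PT M' (fun k => Z (e k)) R' cl' bD' z) : PT M Z (mapR e R') (mapCl e cl') bD (e z) :=
  ⟨h.exit.map hp hΦ hε fun i hi => hb i (hs.sub i hi),
    h.cross.map fun r i j hR => ⟨hb i (hs.supp r i j hR).1, hb j (hs.supp r i j hR).2⟩⟩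

/-! ### Encounters of the second line of a pair structure -/

section hit

variable {d e : ℝ × PhasePoint}
variable (h : Pair.Hit M c Z R R₂ π π₂ cl cl₂ bD E₂ x y a d e s p q)
  (hΦ : AdmissiblePotential M.Φ) (hε : 0 < M.ε)
include h hΦ hε

/-- Output `lineC`. -/
theorem PT.outC (h₁ : PT M Z R cl bD y) (h₂ : PT M Z R₂ cl₂ bD a) :
    PT M Z (joinR R R₂ y a s) (clSep cl cl₂) bD a :=
  ⟨ExitT.join ((h.enc hΦ hε).meet hε) h₁.exit h₂.exit,
    CrossT.join ((h.enc hΦ hε).meet hε) h₁.cross h₂.cross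
      (Or.inl ⟨rfl, (h.pr.bY.trans_lt h.lte).le⟩)⟩


/-- Outputs `lineL'` (`y' = y`), `lineC'` (`y' = a`). -/
theorem PT.graft [Nonempty κ] (hC : 1 ≤ c) (hT : TL M c ℓ ς (π ∪ π₂) Z) (hℓς : 2 * ℓ ≤ ς)
    (hp : CDpass M.Φ q) (h₁ : PT M Z R cl bD y) (h₂ : PT M Z R₂ cl₂ bD a)
    (hy : y' = y ∨ y' = a) :
    PT M Z (joinR R R₂ y a s) (clMrg cl cl₂ y a) (grafted M.Φ M.ε bD y a s q) y' :=
  ⟨ExitT.graft (h.enc hΦ hε) hC hΦ hε hT hℓς hp h₁.exit h₂.exit,
    CrossT.graft (h.enc hΦ hε) hε h₁.cross h₂.cross hy⟩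

end hit

/-! ### Pair structures and trees -/

section ptree

variable {e : ML} {te : ℝ} {P : CTree} {z : PhasePoint × Par P} {eP : Idx P ↪ J}
  {d : ℝ × PhasePoint} [Nonempty κ]
  (h : PTree M c Z R π cl bD x y d e te P z eP) (hC : 1 ≤ c) (hΦ : AdmissiblePotential M.Φ)
  (hε : 0 < M.ε) (h₁ : PT M Z R cl bD y)
include h hC hΦ hε h₁


/-- Merged classes. -/
theorem PTree.pt6 (hT : TL M c ℓ ς (π ∪ part eP) Z) (hℓς : 2 * ℓ ≤ ς)
    (hp : CDpass M.Φ (cD M.ε z e)) (hy : y' = y ∨ y' = eP (root P)) :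
    PT M Z (joinR R (RC M Z (part eP)) y (eP (root P)) (cT M.ε z e))
      (clMrg cl (clOf (part eP)) y (eP (root P)))
      (grafted M.Φ M.ε bD y (eP (root P)) (cT M.ε z e) (cD M.ε z e)) y' :=
  PT.graft (h.hit hC hΦ hε) hΦ hε hC hT hℓς hp h₁ (PT.tree hΦ hε h.T_pos h.tree h.bP) hy

end ptree

end Crest.Agent.R122.StrMot2_151

end
namespace Crest.Agent.R122.LNGraft410.Cls
end Crest.Agent.R122.LNGraft410.Cls
end

-- ▼ part R122/OkNull_424
section

/-!
# Row 122 (helper424): transfer of null sets to dominated structures, worlds of (tree, structure)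

* `ae_of_dom`, `ae_of_dom_prod` : a property of almost every state `κ → PhasePoint` holds for almost
  every dominated structure (and jointly with an independent variable).
* `qmp_comp` : restriction of the states to a sub-family.
* `OkD` : the conclusion of helper151's `ae_okFamD` for the gas world.
* `ae_okD_osP` : `OkD` for all sub-families of the labels of (tree, structure), almost surely.
-/

set_option autoImplicit false
set_option linter.unusedSectionVars false

open MeasureTheory Set Filter Topology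
open scoped Classical ENNReal
open Crest.AnalysisR.Kinetic
open Crest.Agent.R122.GC311 Crest.Agent.R122.Kin796 Crest.Agent.R122.Kin796.CTree
open Crest.Agent.R122.Tree674 Crest.Agent.R122.EDefs602
open Crest.Agent.R122.Gate424 Crest.Agent.R122.Gate973 Crest.Agent.R122.LN2
open Crest.Agent.R122.TransOk151 Crest.Agent.R122.GateOsP424
open Crest.Agent.R122.PairRep581 (Shp ShpOk osP)

noncomputable section

namespace Crest.Agent.R122.OkNull424

/-! ### Dominated structures -/

section dom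

variable {κ Θ Ω : Type} [Fintype κ] [MeasurableSpace Θ] [MeasurableSpace Ω] {ε γ : ℝ} {s : ℕ}
  {ρ : Space3 → ℝ≥0∞} {A₀ : Finset κ} {c : ℝ≥0∞} {Λ : Measure (κ → ℝ)} {m : Measure Θ}
  {b : Θ → κ → ℝ} {z : Θ → κ → PhasePoint}

/-- A measurable null set of states is null for a dominated structure. -/
theorem dom_null (h : Dom γ ρ ε s A₀ c Λ m b z) (hε : 0 < ε) {N : Set (κ → PhasePoint)}
    (hN : MeasurableSet N) (h0 : (volume : Measure (κ → PhasePoint)) N = 0) :
    m {θ | z θ ∈ N} = 0 := by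
  have h1 : ENNReal.ofReal (ε ^ 2) ^ (Fintype.card κ - s) * ∫⁻ θ, N.indicator 1 (z θ) ∂m ≤
      c * ∫⁻ b : κ → ℝ, (∫⁻ z, wgtA γ ρ A₀ z * N.indicator 1 z) ∂Λ :=
    h.le (fun q => N.indicator 1 q.2) ((measurable_one.indicator hN).comp measurable_snd)
  have h2 : ∫⁻ z, wgtA γ ρ A₀ z * N.indicator 1 z = 0 := by
    refine lintegral_eq_zero_of_ae_eq_zero ?_
    have h3 : ∀ᵐ z : κ → PhasePoint, z ∉ N := measure_eq_zero_iff_ae_notMem.1 h0
    filter_upwards [h3] with z hz
    rw [indicator_of_notMem hz, mul_zero]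
    rfl
  have h3 : c * ∫⁻ _b : κ → ℝ, (∫⁻ z, wgtA γ ρ A₀ z * N.indicator 1 z) ∂Λ = 0 := by
    rw [h2, lintegral_zero, mul_zero]
  have h4 : ∫⁻ θ, N.indicator 1 (z θ) ∂m = 0 := by
    have h5 : ENNReal.ofReal (ε ^ 2) ^ (Fintype.card κ - s) *
        ∫⁻ θ, N.indicator 1 (z θ) ∂m = 0 := nonpos_iff_eq_zero.1 (h1.trans (le_of_eq h3))
    rcases mul_eq_zero.1 h5 with h6 | h6
    · exact absurd h6 (pow_ne_zero _ (ENNReal.ofReal_pos.2 (by positivity)).ne')
    · exact h6
  have h5 : ∫⁻ θ, N.indicator 1 (z θ) ∂m = m {θ | z θ ∈ N} := by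
    have h6 : MeasurableSet {θ | z θ ∈ N} := h.mz hN
    rw [← lintegral_indicator_one h6]
    rfl
  rw [← h5, h4]


/-- **The same jointly with an independent variable.** -/
theorem ae_of_dom_prod [SFinite m] {μ : Measure Ω} [SFinite μ] (h : Dom γ ρ ε s A₀ c Λ m b z)
    (hε : 0 < ε) {Q : (κ → PhasePoint) → Ω → Prop}
    (hQ : ∀ᵐ p ∂((volume : Measure (κ → PhasePoint)).prod μ), Q p.1 p.2) :
    ∀ᵐ q ∂(m.prod μ), Q (z q.1) q.2 := by
  obtain ⟨N, hN, hNm, hN0⟩ := exists_measurable_superset_of_null (ae_iff.1 hQ)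
  have hmap : Measurable fun q : Θ × Ω => (z q.1, q.2) :=
    (h.mz.comp measurable_fst).prodMk measurable_snd
  have h1 : ∀ᵐ ω ∂μ, (volume : Measure (κ → PhasePoint)) {V | (V, ω) ∈ N} = 0 := by
    have h2 : (μ.prod (volume : Measure (κ → PhasePoint))) (Prod.swap ⁻¹' N) = 0 := by
      have h3 := Measure.map_apply (μ := μ.prod (volume : Measure (κ → PhasePoint)))
        measurable_swap hNm
      rw [← h3, Measure.prod_swap]
      exact hN0
    have h3 := (Measure.measure_prod_null (measurable_swap hNm)).1 h2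
    filter_upwards [h3] with ω hω
    exact hω
  have h4 : (m.prod μ) {q | (z q.1, q.2) ∈ N} = 0 := by
    have h5 : (μ.prod m) (Prod.swap ⁻¹' {q : Θ × Ω | (z q.1, q.2) ∈ N}) = 0 := by
      refine (Measure.measure_prod_null (measurable_swap (hmap hNm))).2 ?_
      filter_upwards [h1] with ω hω
      exact dom_null h hε (measurable_prodMk_right (y := ω) hNm) hω
    have hms : MeasurableSet {q : Θ × Ω | (z q.1, q.2) ∈ N} := hmap hNm
    have h6 := Measure.map_apply (μ := μ.prod m) measurable_swap hms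
    rw [← h6, Measure.prod_swap] at h5
    exact h5
  rw [ae_iff]
  exact measure_mono_null (fun q hq => hN hq) h4

end dom

/-! ### Sub-families -/

/-- Restriction to a sub-family is quasi measure preserving. -/
theorem qmp_comp {α κ : Type} [Fintype α] [Fintype κ] {e : α → κ} (he : Function.Injective e) :
    Measure.QuasiMeasurePreserving (fun (V : κ → PhasePoint) (a : α) => V (e a)) volume
      volume := by
  let σ : α ⊕ {k : κ // k ∉ range e} ≃ κ :=
    (Equiv.sumCongr (Equiv.ofInjective e he) (Equiv.refl _)).trans (Equiv.Set.sumCompl (range e))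
  have h1 := (volume_measurePreserving_piCongrLeft (fun _ : κ => PhasePoint) σ).symm
  have h2 := volume_measurePreserving_sumPiEquivProdPi
    (fun _ : α ⊕ {k : κ // k ∉ range e} => PhasePoint)
  have h3 := (h2.comp h1).quasiMeasurePreserving
  rw [Measure.volume_eq_prod] at h3
  have h4 := (Measure.quasiMeasurePreserving_fst
    (μ := (volume : Measure (α → PhasePoint)))
    (ν := (volume : Measure ({k : κ // k ∉ range e} → PhasePoint)))).comp h3
  exact h4

/-- Property of a sub-family, jointly with an independent variable. -/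
theorem ae_comp {α κ Ω : Type} [Fintype α] [Fintype κ] [MeasurableSpace Ω] {μ : Measure Ω}
    [SFinite μ] {e : α → κ} (he : Function.Injective e) {Q : (α → PhasePoint) → Ω → Prop}
    (hQ : ∀ᵐ p ∂((volume : Measure (α → PhasePoint)).prod μ), Q p.1 p.2) :
    ∀ᵐ p ∂((volume : Measure (κ → PhasePoint)).prod μ), Q (fun a => p.1 (e a)) p.2 := by
  have h := MeasureTheory.QuasiMeasurePreserving.prodMap (qmp_comp (κ := κ) he)
    (Measure.QuasiMeasurePreserving.id μ)
  exact h.ae hQ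

/-! ### Worlds with released lines -/

/-- The conclusion of helper151's `ae_okFamD`: `U` : states of an isolated group (births `0`),
`bω`, `V` : births and states of the world. -/
def OkD (Φ : Space3 → ℝ) (ε : ℝ) {α ω : Type} [Fintype α] [Fintype ω] (bω : ω → ℝ)
    (U : α → PhasePoint) (V : ω → PhasePoint) : Prop :=
  ∀ (d : α → ℝ) (T : ℝ) (X : ℝ → α → PhasePoint), 0 ≤ T → DWorld Φ ε (fun _ => 0) d 0 T X →
    X 0 = U → RelD ε (fun _ => 0) d T X →
    ∀ (κ : Type) [Fintype κ] (j : κ → α) (ls : κ → ML) (W : MW ω), Function.Injective j →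
    (∀ x, d (j x) ≤ T) → (∀ x, (ls x).1 = (d (j x), X (d (j x)) (j x))) →
    W.b = bω → W.z = V → SepB ε (W.add (MW.lines ls)) →
    MW.OkFam Φ ε W ls ∧ ∀ (S : Finset κ), ∀ t ∈ Icc 0 T, ∀ a : α, t ≤ d a →
      (∀ y : ω, (X t a).1 ≠ ((W.add (MWAlg255.sub ls S)).path Φ ε t (Sum.inl y)).1) ∧
      ∀ x : S, j x ≠ a → d (j x) ≤ t →
        (X t a).1 ≠ ((W.add (MWAlg255.sub ls S)).path Φ ε t (Sum.inr x)).1

section okD

variable {Φ : Space3 → ℝ} {f₀ : PhasePoint → ℝ} {ε : ℝ}

theorem ae_okD {α ω : Type} [Fintype α] [Fintype ω] (hΦ : AdmissiblePotential Φ) (hε : 0 < ε)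
    (bω : ω → ℝ) (hbω : ∀ x, 0 ≤ bω x) :
    ∀ᵐ p ∂((volume : Measure (α → PhasePoint)).prod (volume : Measure (ω → PhasePoint))),
      OkD Φ ε bω p.1 p.2 :=
  ae_okFamD hΦ hε (fun _ => 0) bω hbω

/-- All sub-families of the labels, dominated structures, jointly with the states of the world. -/
theorem ae_okD_dom {κ Θ ω : Type} [Fintype κ] [MeasurableSpace Θ] [Fintype ω]
    (hΦ : AdmissiblePotential Φ) (hε : 0 < ε) {γ : ℝ} {s : ℕ} {ρ : Space3 → ℝ≥0∞}
    {A₀ : Finset κ} {c : ℝ≥0∞} {Λ : Measure (κ → ℝ)} {m : Measure Θ} [SFinite m]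
    {b : Θ → κ → ℝ} {z : Θ → κ → PhasePoint} (h : Dom γ ρ ε s A₀ c Λ m b z) (bω : ω → ℝ)
    (hbω : ∀ x, 0 ≤ bω x) :
    ∀ᵐ q ∂(m.prod (volume : Measure (ω → PhasePoint))), ∀ A : Finset κ,
      OkD Φ ε bω (fun a : A => z q.1 a) q.2 := by
  rw [ae_all_iff]
  intro A
  exact ae_of_dom_prod (Q := fun V w => OkD Φ ε bω (fun a : A => V a) w) h hε
    (ae_comp (e := fun a : A => (a : κ)) Subtype.val_injective
      (Q := fun U w => OkD Φ ε bω U w) (ae_okD hΦ hε bω hbω))

variable {te T' γ β : ℝ} {ρ : Space3 → ℝ≥0∞} {C : ℝ≥0∞} {K : ℕ} {P : CTree} {S : Shp}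

/-- **The gate `osP`**: all sub-families of the labels of (tree, structure) and the gas. -/
theorem ae_okD_osP (hΦ : AdmissiblePotential Φ) (hf : Measurable f₀) (he : Env f₀ γ ρ C)
    (hS : ShpOk γ β ρ S) (hε : 0 < ε) (te T' : ℝ) (K : ℕ) (P : CTree) (n : ℕ) :
    ∀ᵐ q ∂((osP Φ f₀ te T' K P S ε ()).prod (volume : Measure (Config n))),
      ∀ A : Finset (Idx P ⊕ S.κ),
        OkD Φ ε (fun _ : Fin n => 0) (fun a : A => osZ Φ P S ε q.1 a) q.2 := by
  obtain ⟨c, Λ, -, -, hd⟩ := dom_osP hΦ hf he hS te T' K P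
  have := sf_osP (Φ := Φ) (f₀ := f₀) (te := te) (T' := T') (K := K) (P := P) hS ε ()
  exact ae_okD_dom hΦ hε (hd ε hε ()) (fun _ : Fin n => 0) fun _ => le_rfl



end okD

end Crest.Agent.R122.OkNull424

end
end

-- ▼ part R122/StrPos_307
section

/-!
# Row 122 (helper307): positive exit times

* `cls_pos` : in a class with two members, born at time `0`, every exit time is positive.
* `cls_pos_of_last` : the same if one exit time is in `(0, T]`.
* `PTree.pos0`, `PTree.pos6` : the classes of the first line and of the tree (separate, merged).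
-/

set_option autoImplicit false
set_option linter.unusedSectionVars false

open MeasureTheory Set Filter Topology
open scoped NNReal ENNReal
open Crest.AnalysisR.Kinetic
open Crest.Agent.R122.Flow671 hiding rel
open Crest.Agent.R122.Loc45 Crest.Agent.R122.Ins45
open Crest.Agent.R122.VL581 Crest.Agent.R122.VL581.VSys Crest.Agent.R122.VLInst442
open Crest.Agent.R122.LNInst491 Crest.Agent.R122.LN304 Crest.Agent.R122.LNg410
open Crest.Agent.R122.Kin796 Crest.Agent.R122.Kin796.CTree Crest.Agent.R122.Tree674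
open Crest.Agent.R122.PathFlow968 Crest.Agent.R122.TreeLines335 Crest.Agent.R122.EDefs602
open Crest.Agent.R122.LNTree410 Crest.Agent.R122.PWGlue491 Crest.Agent.R122.Inf879
open Crest.Agent.R122.LNGraft410 Crest.Agent.R122.LNEv968 Crest.Agent.R122.PWInst442
open Crest.Agent.R122.OCout796 Crest.Agent.R122.Scat818
open Crest.Agent.R122.StrG491
open Crest.Agent.R122.OneC285 (cT cB cD cX)
open scoped Classical

noncomputable section

namespace Crest.Agent.R122.StrMain307

variable {J κ : Type} [Fintype J] {M : VSys J κ} {Z : J → PhasePoint}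
variable {c : ℝ} {R R₁ R₂ : ℝ → J → J → Prop} {π π₁ π₂ S : Finset J} {cl cl₁ cl₂ : J → Finset J}
  {bD : J → ℝ} {E E₁ E₂ : Finset J} {x y a y' : J} {s ℓ ς : ℝ} {p : Space3} {q : CD}

/-- **Positive exit times**: a class with two members. -/
theorem cls_pos (h : Cls M Z S bD) (hb : ∀ k ∈ S, M.bb k = 0) (hT : 0 < M.T) {i k : J}
    (hi : i ∈ S) (hk : k ∈ S) (hki : k ≠ i) : 0 < bD i := by
  obtain ⟨i', hi', j, hj, hji, hR⟩ := h.conn.2 {i} (Finset.singleton_subset_iff.2 hi)
    (Finset.singleton_nonempty i) (fun h' => hki (by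
      rw [← h', Finset.mem_singleton] at hk
      exact hk))
  rw [Finset.mem_singleton] at hi' hji
  subst hi'
  have hR' : ∃ r ∈ Icc 0 M.T, dist (M.st S r Z i').1 (M.st S r Z j).1 ≤ M.ε := by
    rcases hR with ⟨r, hr, _, _, hd⟩ | ⟨r, hr, _, _, hd⟩
    · exact ⟨r, hr, hd⟩
    · exact ⟨r, hr, by rw [dist_comm]; exact hd⟩
  obtain ⟨r, hr, hd⟩ := hR'
  by_contra hcon
  have h0 : 0 ≤ bD i' := h.bb_nonneg' hi
  rcases hr.1.lt_or_eq with hr0 | hr0
  · have h1 := h.exit i' hi r ((not_lt.1 hcon).trans_lt hr0) hr.2 j hj hji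
      (by rw [hb j hj]; exact hr.1)
    exact absurd hd (not_le.2 h1)
  · have h1 := h.ok i' hi (h.obs i' hi) (by rw [hb i' hi]; exact hT) j hj (h.obs j hj) hji
      (by rw [hb i' hi, hb j hj])
    rw [hb i' hi] at h1
    rw [← hr0] at hd
    exact absurd hd (not_le.2 h1)

/-- A class with an exit time in `(0, T]`. -/
theorem cls_pos_of_last (h : Cls M Z S bD) (hb : ∀ k ∈ S, M.bb k = 0) (hT : 0 < M.T) {x : J}
    (hx : x ∈ S) (hx0 : 0 < bD x) (hxT : bD x ≤ M.T) : ∀ i ∈ S, 0 < bD i := by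
  rcases h.last x hx hxT with h1 | ⟨k, hk, hkx, _⟩
  · rw [hb x hx] at h1
    exact absurd h1 hx0.ne'
  · intro i hi
    by_cases hix : i = x
    · rw [hix]
      exact hx0
    · exact cls_pos h hb hT hi hx (Ne.symm hix)

section ptree

variable {d : ℝ × PhasePoint} {e : ML} {te : ℝ} {P : CTree} {z : PhasePoint × Par P}
  {eP : Idx P ↪ J}
variable (h : PTree M c Z R π cl bD x y d e te P z eP)
include h



variable [Nonempty κ] (hC : 1 ≤ c) (hΦ : AdmissiblePotential M.Φ) (hε : 0 < M.ε)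
  (hT : TL M c ℓ ς (π ∪ part eP) Z) (hℓς : 2 * ℓ ≤ ς) (hp : CDpass M.Φ (cD M.ε z e))
  (hle : cT M.ε z e + outT M.Φ M.ε (cD M.ε z e) ≤ M.T)
include hC hΦ hε hT hℓς hp hle

/-- **Positive exit times in the merged classes.** -/
theorem pos6 (hb : ∀ k ∈ π, M.bb k = 0) (hd0 : 0 < d.1) (hdT : d.1 ≤ M.T) :
    ∀ i, (i ∈ clMrg cl (clOf (part eP)) y (eP (root P)) x ∨
      i ∈ clMrg cl (clOf (part eP)) y (eP (root P)) y) →
      0 < grafted M.Φ M.ε bD y (eP (root P)) (cT M.ε z e) (cD M.ε z e) i := by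
  have hh := h.hit hC hΦ hε
  have hen := hh.enc hΦ hε
  have hm := hen.meet hε
  have hs := h.str6 hC hΦ hε hT hℓς hp hle
  have hbb : ∀ k ∈ π ∪ part eP, M.bb k = 0 := by
    intro k hk
    rcases Finset.mem_union.1 hk with hk | hk
    · exact hb k hk
    · obtain ⟨k, rfl⟩ := mem_part.1 hk
      exact h.tree.bb k
  have hcls : ∀ v ∈ ({x, y} ∪ part eP : Finset J),
      Cls M Z (clMrg cl (clOf (part eP)) y (eP (root P)) v)
        (grafted M.Φ M.ε bD y (eP (root P)) (cT M.ε z e) (cD M.ε z e)) := hs.cls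
  have hxE : x ∈ ({x, y} ∪ part eP : Finset J) := Finset.mem_union_left _ h.pr.hx
  have hyE : y ∈ ({x, y} ∪ part eP : Finset J) := Finset.mem_union_left _ h.pr.hy
  rintro i (hi | hi)
  · refine cls_pos_of_last (hcls x hxE) (fun k hk => hbb k (hs.sub x hk)) h.T_pos
      (hs.mem x hxE) ?_ ?_ i hi
    · rw [Enc.grafted_of_ne h.pr.ne hh.xa, ← h.pr.bx]
      exact hd0
    · rw [Enc.grafted_of_ne h.pr.ne hh.xa, ← h.pr.bx]
      exact hdT
  · have hym : y ∈ clMrg cl (clOf (part eP)) y (eP (root P)) y := hs.mem y hyE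
    refine cls_pos_of_last (hcls y hyE) (fun k hk => hbb k (hs.sub y hk)) h.T_pos hym ?_ ?_ i hi
    · have h1 : grafted M.Φ M.ε bD y (eP (root P)) (cT M.ε z e) (cD M.ε z e) y =
          cT M.ε z e + outT M.Φ M.ε (cD M.ε z e) := if_pos (Or.inl rfl)
      rw [h1]
      exact h.cT_pos.trans (lt_add_of_pos_right _ (hp.outT_pos hε))
    · have h1 : grafted M.Φ M.ε bD y (eP (root P)) (cT M.ε z e) (cD M.ε z e) y =
          cT M.ε z e + outT M.Φ M.ε (cD M.ε z e) := if_pos (Or.inl rfl)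
      rw [h1]
      exact hle

end ptree

end Crest.Agent.R122.StrMain307

end
end

-- ▼ part R122/Ok2P_410
section

/-!
# Row 122 (helper410): good worlds of the structures of inequality 3, pointwise

* `Mv` : exits are transversal separations, contacts of two classes happen after one of the exits
  (the hypotheses of helper307's `motion`), exit times positive.
* `okFam_of_str` : lines `ls` on the paths of the exits `j` of a tree-like structure; under the
  transfer property `OkD` (helper151, helper424) at the union of the classes, the family `ls` gives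
  good worlds. Simultaneous releases separate (helper307), no hypothesis on the birth times.
* `PTree.ok₁`, `PTree.ok₂` : the two families of inequality 3.
-/

set_option autoImplicit false
set_option linter.unusedSectionVars false

open MeasureTheory Set Filter Topology
open scoped NNReal ENNReal
open Crest.AnalysisR.Kinetic
open Crest.Agent.R122.Flow671 hiding rel
open Crest.Agent.R122.Loc45 Crest.Agent.R122.Ins45
open Crest.Agent.R122.VL581 Crest.Agent.R122.VL581.VSys Crest.Agent.R122.VLInst442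
open Crest.Agent.R122.LNInst491 Crest.Agent.R122.LN304 Crest.Agent.R122.LNg410
open Crest.Agent.R122.Kin796 Crest.Agent.R122.Kin796.CTree Crest.Agent.R122.Tree674
open Crest.Agent.R122.PathFlow968 Crest.Agent.R122.TreeLines335 Crest.Agent.R122.EDefs602
open Crest.Agent.R122.LNTree410 Crest.Agent.R122.PWGlue491 Crest.Agent.R122.Inf879
open Crest.Agent.R122.LNGraft410 Crest.Agent.R122.LNEv968 Crest.Agent.R122.PWInst442
open Crest.Agent.R122.OCout796 Crest.Agent.R122.Scat818
open Crest.Agent.R122.OneC285 (cT cB cD cX)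
open Crest.Agent.R122.StrG491 Crest.Agent.R122.TransOk151
open Crest.Agent.R122.GC311 Crest.Agent.R122.MWFam255
open Crest.Agent.R122.StrMot2_151 Crest.Agent.R122.PairD292 Crest.Agent.R122.E6Hyp879
open Crest.Agent.R122.Decomp811 (exF)
open scoped Classical

noncomputable section

namespace Crest.Agent.R122.Ok2P410

variable {J κ : Type} [Fintype J] {M : VSys J κ} {Z : J → PhasePoint}
variable {c ℓ ς : ℝ} {R : ℝ → J → J → Prop} {π E : Finset J} {cl : J → Finset J} {bD : J → ℝ}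

/-- The union of the classes of the exits. -/
def uc (cl : J → Finset J) (E : Finset J) : Finset J := E.biUnion cl

theorem mem_uc {i : J} : i ∈ uc cl E ↔ ∃ a ∈ E, i ∈ cl a := Finset.mem_biUnion

theorem uc_subset (h : Str M c Z R π cl bD E) : uc cl E ⊆ π := by
  intro i hi
  obtain ⟨a, _, hia⟩ := mem_uc.1 hi
  exact h.sub a hia

/-- **Data of the motion of the classes of `E`**: the hypotheses of helper307's `motion`. -/
structure Mv (M : VSys J κ) (Z : J → PhasePoint) (R : ℝ → J → J → Prop) (cl : J → Finset J)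
    (bD : J → ℝ) (E : Finset J) : Prop where
  /-- births `0` -/
  birth : ∀ i ∈ uc cl E, M.bb i = 0
  /-- positive exit times -/
  pos : ∀ i ∈ uc cl E, 0 < bD i
  exit : ∀ i, i ∈ cl i → bD i ≤ M.T → bD i = M.bb i ∨ ∃ k ∈ cl i, k ≠ i ∧ M.bb k ≤ bD i ∧
    dist (M.st (cl i) (bD i) Z i).1 (M.st (cl i) (bD i) Z k).1 = M.ε ∧
    0 < inner ℝ ((M.st (cl i) (bD i) Z i).1 - (M.st (cl i) (bD i) Z k).1)
      ((M.st (cl i) (bD i) Z i).2 - (M.st (cl i) (bD i) Z k).2)
  cross : ∀ r i j, R r i j → cl i ≠ cl j → bD i ≤ r ∨ bD j ≤ r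

variable {ω ι : Type} [Fintype ω] [Fintype ι] {bω : ω → ℝ} {V : ω → PhasePoint}

/-- **Good worlds from a tree-like structure.** -/
theorem okFam_of_str [Nonempty κ] (hΦ : AdmissiblePotential M.Φ) (hε : 0 < M.ε) (hc : 1 ≤ c)
    (hℓς : 2 * ℓ ≤ ς) (hstr : Str M c Z R π cl bD E) (htl : TL M c ℓ ς π Z)
    (hm : Mv M Z R cl bD E)
    (hG : OkNull424.OkD M.Φ M.ε bω (fun a : (uc cl E : Finset J) => Z a) V)
    {j : ι → J} (hj : Function.Injective j) (hjE : ∀ x, j x ∈ E) {ls : ι → ML}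
    (hb : ∀ x, (ls x).1.1 = bD (j x)) (hT : ∀ x, (ls x).1.1 ≤ M.T)
    (hst : ∀ x, M.st (cl (j x)) (ls x).1.1 Z (j x) = (ls x).1.2) {W : MW ω}
    (hWb : W.b = bω) (hWz : W.z = V) (hWs : SepB M.ε W)
    (hWl : ∀ i x, W.b i = (ls x).1.1 →
      StartSep M.ε (lineAt 0 (W.z i) (W.b i)) (ls x).1.2) (hT0 : 0 ≤ M.T) :
    MW.OkFam M.Φ M.ε W ls := by
  have hself : ∀ i ∈ uc cl E, ∃ a ∈ E, i ∈ cl a := fun i hi => mem_uc.1 hi
  have hA : ∀ i ∈ uc cl E, cl i ⊆ uc cl E := by
    intro i hi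
    obtain ⟨a, ha, hia⟩ := mem_uc.1 hi
    rw [hstr.cov.eq a i hia]
    exact fun k hk => mem_uc.2 ⟨a, ha, hk⟩
  obtain ⟨h1, h2, h3, h4, -⟩ := StrMain307.motion hΦ hε hc hℓς hstr htl hself hA hm.birth hm.pos
    hm.exit hm.cross
  have hjA : ∀ x, j x ∈ uc cl E := fun x => mem_uc.2 ⟨j x, hjE x, hstr.mem _ (hjE x)⟩
  have hle : ∀ x, bD (j x) ≤ M.T := fun x => by
    rw [← hb]
    exact hT x
  have hd : ∀ x : ι, dth {i : (uc cl E : Finset J) | bD i ≤ M.T}
      (fun i : (uc cl E : Finset J) => bD i) M.T ⟨j x, hjA x⟩ = bD (j x) := fun x =>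
    dth_mem (S := {i : (uc cl E : Finset J) | bD i ≤ M.T}) (hle x)
  have hls : ∀ x, (ls x).1 = (bD (j x), M.st (cl (j x)) (bD (j x)) Z (j x)) := by
    intro x
    refine Prod.ext (hb x) ?_
    show (ls x).1.2 = M.st (cl (j x)) (bD (j x)) Z (j x)
    rw [← hst x, hb]
  refine (hG _ M.T _ hT0 h1 h3 h2 ι (fun x => ⟨j x, hjA x⟩) ls W
    (fun x y hxy => hj (congrArg Subtype.val hxy)) (fun x => ?_) (fun x => ?_) hWb hWz ?_).1
  · rw [hd]
    exact hle x
  · rw [hd]
    exact hls x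
  · refine sepB_add_lines hWs (fun x y hxy hbxy => ?_) hWl
    rw [hb, hb] at hbxy
    have h5 := h4 ⟨j x, hjA x⟩ ⟨j y, hjA y⟩
      (fun h' => hxy (hj (congrArg Subtype.val h'))) (hle x) hbxy.symm
    rw [hls x, hls y]
    exact h5


/-! ### The families of inequality 3 -/

section ptree

variable {x y : J} {d e : ML} {te : ℝ} {P : CTree} {z : PhasePoint × Par P} {eP : Idx P ↪ J}
  [Nonempty κ]
  (h : PTree M c Z R π cl bD x y d.1 e te P z eP) (hpt : PT M Z R cl bD y)
  (hC : 1 ≤ c) (hΦ : AdmissiblePotential M.Φ) (hε : 0 < M.ε) (hb : ∀ k ∈ π, M.bb k = 0)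
  (hd0 : 0 < d.1.1) (hdT : d.1.1 ≤ M.T)
include h hpt hC hΦ hε hb hd0 hdT

omit hpt hC hΦ hε hd0 hdT in
theorem birth_union : ∀ k ∈ π ∪ part eP, M.bb k = 0 := by
  intro k hk
  rcases Finset.mem_union.1 hk with hk | hk
  · exact hb k hk
  · obtain ⟨k, rfl⟩ := mem_part.1 hk
    exact h.tree.bb k






variable (hT : TL M c ℓ ς (π ∪ part eP) Z) (hℓς : 2 * ℓ ≤ ς) (hp : CDpass M.Φ (cD M.ε z e))
  (hle : cT M.ε z e + outT M.Φ M.ε (cD M.ε z e) ≤ M.T)
include hT hℓς hp hle

/-- The motion of the merged classes. -/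
theorem mv6 : Mv M Z (joinR R (RC M Z (part eP)) y (eP (root P)) (cT M.ε z e))
      (clMrg cl (clOf (part eP)) y (eP (root P)))
      (grafted M.Φ M.ε bD y (eP (root P)) (cT M.ε z e) (cD M.ε z e)) ({x, y} ∪ part eP) := by
  have hs := h.str6 hC hΦ hε hT hℓς hp hle
  have hh := h.hit hC hΦ hε
  have hen := hh.enc hΦ hε
  have hp6 := PTree.pt6 h hC hΦ hε hpt hT hℓς hp (Or.inl rfl)
  have hpos := StrMain307.pos6 h hC hΦ hε hT hℓς hp hle hb hd0 hdT
  refine ⟨fun i hi => ?_, fun i hi => ?_, hp6.exit, hp6.cross.weak⟩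
  · obtain ⟨a, ha, hia⟩ := mem_uc.1 hi
    exact birth_union h hb i (hs.sub a hia)
  · obtain ⟨a, ha, hia⟩ := mem_uc.1 hi
    rcases Finset.mem_union.1 ha with ha | ha
    · rcases Finset.mem_insert.1 ha with rfl | ha
      · exact hpos i (Or.inl hia)
      · rw [Finset.mem_singleton.1 ha] at hia
        exact hpos i (Or.inr hia)
    · refine hpos i (Or.inr ?_)
      have h1 : a ∈ cl y ∪ clOf (part eP) (eP (root P)) :=
        Finset.mem_union_right _ (by rw [clOf_mem (mem_part_self (root P))]; exact ha)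
      have h2 : y ∈ cl y ∪ clOf (part eP) (eP (root P)) :=
        Finset.mem_union_left _ (h.pr.str.mem y h.pr.hy)
      rw [hen.clMrg_mem h1] at hia
      rw [hen.clMrg_mem h2]
      exact hia

/-- The exits, `e'`, `c'` and `d`, labels. -/
def j6 (x y : J) (eP : Idx P ↪ J) : ({k : Idx P // k ≠ root P} ⊕ Bool) ⊕ Unit → J :=
  Sum.elim (Sum.elim (fun k => eP k.1) fun b => cond b y (eP (root P))) fun _ => x

omit hpt hC hΦ hε hb hd0 hdT hT hℓς hp hle in
theorem j6_inj : Function.Injective (j6 x y eP) := by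
  have hx : ∀ i, eP i ≠ x := fun i h' =>
    Finset.disjoint_left.1 h.dj h.pr.xπ (h' ▸ mem_part_self i)
  have hy : ∀ i, eP i ≠ y := fun i h' =>
    Finset.disjoint_left.1 h.dj h.pr.yπ (h' ▸ mem_part_self i)
  have hxy := h.pr.ne
  rintro ((i | (_ | _)) | i) ((k | (_ | _)) | k) hik
  · exact congrArg Sum.inl (congrArg Sum.inl (Subtype.ext (eP.injective hik)))
  · exact absurd (eP.injective hik) i.2
  · exact absurd hik (hy i)
  · exact absurd hik (hx i)
  · exact absurd (eP.injective hik).symm k.2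
  · rfl
  · exact absurd hik (hy _)
  · exact absurd hik (hx _)
  · exact absurd hik.symm (hy k)
  · exact absurd hik.symm (hy _)
  · rfl
  · exact absurd hik.symm hxy
  · exact absurd hik.symm (hx k)
  · exact absurd hik.symm (hx _)
  · exact absurd hik hxy
  · rfl

/-- **The exits, `e'`, `c'` and `d`**, general world. -/
theorem ok₂_world
    (hG : ∀ A : Finset J, A ⊆ π ∪ part eP →
      OkNull424.OkD M.Φ M.ε bω (fun a : A => Z a) V)
    {W : MW ω} (hWb : W.b = bω) (hWz : W.z = V) (hWs : SepB M.ε W)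
    (hWl : ∀ i x, W.b i = (withD (plus (exF (lineML M.Φ M.ε P z) (root P))
        (outL6 M.Φ M.ε P z e (some false)) (outL6 M.Φ M.ε P z e (some true))) d x).1.1 →
      StartSep M.ε (lineAt 0 (W.z i) (W.b i)) (withD (plus (exF (lineML M.Φ M.ε P z) (root P))
        (outL6 M.Φ M.ε P z e (some false)) (outL6 M.Φ M.ε P z e (some true))) d x).1.2) :
    MW.OkFam M.Φ M.ε W (withD (plus (exF (lineML M.Φ M.ε P z) (root P))
      (outL6 M.Φ M.ε P z e (some false)) (outL6 M.Φ M.ε P z e (some true))) d) := by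
  have hs := h.str6 hC hΦ hε hT hℓς hp hle
  have hh := h.hit hC hΦ hε
  have hen := hh.enc hΦ hε
  have hn1 : ∀ i, eP i ≠ y := fun i h' =>
    Finset.disjoint_left.1 h.dj h.pr.yπ (h' ▸ mem_part_self i)
  refine okFam_of_str hΦ hε hC hℓς hs hT (mv6 h hpt hC hΦ hε hb hd0 hdT hT hℓς hp hle)
    (hG _ (uc_subset hs)) (j6_inj h) ?_ ?_ ?_ ?_ hWb hWz hWs hWl h.T_pos.le
  · rintro ((i | (_ | _)) | i)
    · exact Finset.mem_union_right _ (mem_part_self i.1)
    · exact Finset.mem_union_right _ (mem_part_self _)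
    · exact Finset.mem_union_left _ h.pr.hy
    · exact Finset.mem_union_left _ h.pr.hx
  · rintro ((i | (_ | _)) | i)
    · show (lineML M.Φ M.ε P z i.1).1.1 =
        grafted M.Φ M.ε bD y (eP (root P)) (cT M.ε z e) (cD M.ε z e) (eP i.1)
      rw [Enc.grafted_of_ne (hn1 i.1) fun h' => i.2 (eP.injective h'), h.bP]
      rfl
    · exact (if_pos (Or.inr rfl)).symm
    · exact (if_pos (Or.inl rfl)).symm
    · show d.1.1 = grafted M.Φ M.ε bD y (eP (root P)) (cT M.ε z e) (cD M.ε z e) x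
      rw [Enc.grafted_of_ne h.pr.ne hh.xa]
      exact h.pr.bx
  · rintro ((i | (_ | _)) | i)
    · exact ((h.rel_lt hε i.1).trans h.cT_lt).le
    · exact hle
    · exact hle
    · exact hdT
  · rintro ((i | (_ | _)) | i)
    · show M.st (clMrg cl (clOf (part eP)) y (eP (root P)) (eP i.1))
        (lineML M.Φ M.ε P z i.1).1.1 Z (eP i.1) = (lineML M.Φ M.ε P z i.1).1.2
      have hlt : (lineML M.Φ M.ε P z i.1).1.1 ≤ M.T := ((h.rel_lt hε i.1).trans h.cT_lt).le
      rw [hen.st₂ hC hΦ hε hT hℓς (mem_part_self i.1) (fun h' => i.2 (eP.injective h'))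
        hlt, clOf_mem (mem_part_self i.1)]
      exact h.st_rel hΦ hε i.1
    · exact (hh.outC' hC hΦ hε hT hℓς hp hle).ly hle
    · exact (hh.outL hC hΦ hε hT hℓς hp hle).ly hle
    · show M.st (clMrg cl (clOf (part eP)) y (eP (root P)) x) d.1.1 Z x = d.1.2
      rw [hen.st₁ hC hΦ hε hT hℓς h.pr.xπ h.pr.ne hdT]
      exact h.pr.lx hdT

end ptree

end Crest.Agent.R122.Ok2P410

end
end

-- ▼ part R122/LvTL_317

/-!
# Row 122, levels of the structures (helper317): tree-likeness off the bad partitions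

* `pull_inr` : the isolated structure inside the system of the gas and the structure.
* `tl_of_not_badGas` : a connected structure is tree-like, or `BadGas` (no gas particle needed).
-/

set_option autoImplicit false
set_option linter.unusedSectionVars false

open MeasureTheory Set Filter Topology
open scoped Classical ENNReal
open Crest.AnalysisR.Kinetic
open Crest.Agent.R122.VL581 Crest.Agent.R122.VL581.VSys
open Crest.Agent.R122.LN304 Crest.Agent.R122.LNBridge968 Crest.Agent.R122.LNPart424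
open Crest.Agent.R122.LNEmb410
open Crest.Agent.R122.VLMeas973 (vsys)

noncomputable section

namespace Crest.Agent.R122.LvTL317

variable {Φ : Space3 → ℝ} {T T' ε c ρ ς : ℝ} {σ : Type} [Fintype σ] {b : σ → ℝ}
  {V : σ → PhasePoint} {n N : ℕ} {w : Config n}

/-- The labels of the structure. -/
def inrE (n : ℕ) (σ : Type) : σ ↪ Fin n ⊕ σ := ⟨Sum.inr, Sum.inr_injective⟩

/-- No gas. -/
def w₀ : Config 0 := fun i => i.elim0

/-- The isolated structure inside the system of the gas and the structure. -/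
theorem pull_inr (n : ℕ) (b : σ → ℝ) : Pull (vsys Φ T ε b) (gsys Φ T ε n b) (inrE n σ) where
  Φ := rfl
  T := rfl
  ε := rfl
  b i := rfl
  o i := by
    show (none : Option _) = _ ↔ (none : Option _) = _
    simp
  S := rfl

/-- The only part. -/
def L0 (σ : Type) [Fintype σ] : Finset (Finset (Fin 0 ⊕ σ)) := {Finset.univ.map (inrE 0 σ)}

theorem mem_L0 {π : Finset (Fin 0 ⊕ σ)} : π ∈ L0 σ ↔ π = Finset.univ.map (inrE 0 σ) :=
  Finset.mem_singleton

theorem sparts0 {A₀ : Finset σ} (hA : A₀.Nonempty) : SParts (n := 0) 1 A₀ (L0 σ) where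
  disj π hπ π' hπ' hne := absurd ((mem_L0.1 hπ).trans (mem_L0.1 hπ').symm) hne
  cov y := ⟨_, mem_L0.2 rfl, Finset.mem_map_of_mem (inrE 0 σ) (Finset.mem_univ y)⟩
  anch π hπ := by
    obtain ⟨y, hy⟩ := hA
    rw [mem_L0.1 hπ]
    exact ⟨y, hy, Finset.mem_map_of_mem (inrE 0 σ) (Finset.mem_univ y)⟩
  card := le_of_eq (Finset.card_singleton _)

theorem badGas_zero {A₀ : Finset σ} {N₀ : ℕ}
    (h : LN2.BadGas Φ T' c ρ ς ε N₀ 1 A₀ b V w₀) : LN2.BadGas Φ T' c ρ ς ε N 1 A₀ b V w := by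
  obtain ⟨k, _, ι, h2⟩ := h
  have hk : k = 0 := by
    by_contra hk
    exact (ι ⟨0, Nat.pos_of_ne_zero hk⟩).elim0
  subst hk
  refine ⟨0, Nat.zero_le N, ⟨fun i => i.elim0, fun i => i.elim0⟩, ?_⟩
  have h3 : (fun i : Fin 0 => w₀ (ι i)) = fun i : Fin 0 =>
      w ((⟨fun i => i.elim0, fun i => i.elim0⟩ : Fin 0 ↪ Fin n) i) := by
    funext i
    exact i.elim0
  rw [← h3]
  exact h2

/-- **A connected structure is tree-like, off the bad partitions.** -/
theorem tl_of_not_badGas (hΦ : AdmissiblePotential Φ) (hε : 0 < ε) (hT : T ≤ T')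
    (hc : (vsys Φ T ε b).Conn c Finset.univ V) {A₀ : Finset σ} (hA : A₀.Nonempty)
    (hB : ¬ LN2.BadGas Φ T' c ρ ς ε N 1 A₀ b V w) :
    TL (vsys Φ T ε b) c (ρ * ε) ς Finset.univ V := by
  have hp : Pull (vsys Φ T ε b) (gsys Φ T ε 0 b) (inrE 0 σ) := pull_inr 0 b
  have hc' : (gsys Φ T ε 0 b).Conn c (Finset.univ.map (inrE 0 σ)) (Sum.elim w₀ V) :=
    (hp.conn (Z := Sum.elim w₀ V) hΦ hε).2 hc
  by_contra hcon
  have hcon' : ¬ TL (gsys Φ T ε 0 b) c (ρ * ε) ς (Finset.univ.map (inrE 0 σ))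
      (Sum.elim w₀ V) := fun h => hcon ((tl_iff (Z := Sum.elim w₀ V) hp hΦ hε).1 h)
  have hN : ¬ NoBad (gsys Φ T ε 0 b) c (ρ * ε) ς (Sum.elim w₀ V) (L0 σ)
      (Fintype.card (Fin 0 ⊕ σ)) :=
    fun h => hcon' (h _ hc' ⟨_, mem_L0.2 rfl, subset_rfl⟩ (Finset.card_le_univ _))
  exact hB (badGas_zero (badGas_of_not hΦ hε hT (sparts0 hA)
    (fun π hπ => by rw [mem_L0.1 hπ]; exact hc') (Or.inl hN)))

end Crest.Agent.R122.LvTL317

end
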