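import Crest.Agent.R122.TreeMeas_674

-- ▼ part R122/Mark1_307
section

/-!
Row 122, block H7b (helper307), part 1: **node flip**.

A node of a collision tree is parametrised in `TreeDefs_674` by the *outgoing* line of the root and
`a = (exit time, outgoing velocity of the partner, planar impact parameter)`.  Here it is
parametrised by ONE INCOMING line (the followed one, first or second input of the node) and
`a' = (entrance time, incoming velocity of the fresh partner, planar impact parameter)`:
`inLine ε ℓ a'` is the incoming line of the partner.  The two parametrisations have the same measure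
`|relative velocity| dℓ da` (`flipL`, `flipR`).
-/

set_option autoImplicit false

open MeasureTheory Set Filter Topology
open Crest.AnalysisR.Kinetic
open scoped ENNReal

noncomputable section

namespace Crest.Agent.R122.Mark307

open Kin796 Kin796.CTree Disc416 Scat818 Flow671 Flux663 Tree674

variable {Φ : Space3 → ℝ}

/-! ### Incoming partner -/

/-- incoming line of the partner which starts the encounter with the line `ℓ` at time `a.1`, with
velocity `a.2.1` and planar impact parameter `a.2.2` -/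
def inLine (ε : ℝ) (ℓ : PhasePoint) (a : NodeP) : PhasePoint :=
  (ℓ.1 + a.1 • ℓ.2 + ε • (nb ℓ.2 a + (Real.sqrt (1 - ‖nb ℓ.2 a‖ ^ 2) / ‖ng ℓ.2 a‖) • ng ℓ.2 a)
    - a.1 • a.2.1, a.2.1)

/-- entrance time of a pair of incoming lines -/
def sI (ε : ℝ) (q : PhasePoint × PhasePoint) : ℝ :=
  tline (q.2.1 - q.1.1, q.1.2 - q.2.2) - ε * (Real.sqrt (1 - ‖bO ε q‖ ^ 2) / ‖q.1.2 - q.2.2‖)

/-- first line and incoming node parameters of a pair of incoming lines -/
def nodeI (ε : ℝ) (q : PhasePoint × PhasePoint) : PhasePoint × NodeP :=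
  (q.1, (sI ε q, q.2.2, planeC (q.1.2 - q.2.2) (bO ε q)))

theorem measurable_sI (ε : ℝ) : Measurable (sI ε) := by
  have h1 := measurable_tline.comp measurable_relq
  have h2 : Measurable fun q => Real.sqrt (1 - ‖bO ε q‖ ^ 2) :=
    (((measurable_bO ε).norm.pow_const 2).const_sub 1).sqrt
  have h3 : Measurable fun q : PhasePoint × PhasePoint => ‖q.1.2 - q.2.2‖ := measurable_relv.norm
  exact h1.sub ((h2.div h3).const_mul ε)

theorem measurable_nodeI (ε : ℝ) : Measurable (nodeI ε) := by
  have h8 : Measurable fun q : PhasePoint × PhasePoint => (nodeO ε q).2.2 :=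
    (measurable_nodeO ε).snd.snd
  have h9 : Measurable fun q : PhasePoint × PhasePoint => q.1 := measurable_fst
  exact h9.prodMk ((measurable_sI ε).prodMk h8)

theorem measurable_inLine (ε : ℝ) :
    Measurable fun z : PhasePoint × NodeP => inLine ε z.1 z.2 := by
  have h0 : Measurable fun z : PhasePoint × NodeP => (nb z.1.2 z.2, ng z.1.2 z.2) :=
    measurable_nbng.comp measurable_zv
  have h1 : Measurable fun z : PhasePoint × NodeP => Real.sqrt (1 - ‖nb z.1.2 z.2‖ ^ 2) :=
    ((h0.fst.norm.pow_const 2).const_sub 1).sqrt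
  have h2 : Measurable fun z : PhasePoint × NodeP =>
      (Real.sqrt (1 - ‖nb z.1.2 z.2‖ ^ 2) / ‖ng z.1.2 z.2‖) • ng z.1.2 z.2 :=
    (h1.div h0.snd.norm).smul h0.snd
  have h3 : Measurable fun z : PhasePoint × NodeP => z.1.1 + z.2.1 • z.1.2 := by fun_prop
  have h4 : Measurable fun z : PhasePoint × NodeP => z.2.1 • z.2.2.1 := by fun_prop
  have h5 : Measurable fun z : PhasePoint × NodeP => z.2.2.1 := by fun_prop
  exact ((h3.add ((h0.fst.add h2).const_smul ε)).sub h4).prodMk h5

theorem measurable_inLine_right (ε : ℝ) (ℓ : PhasePoint) :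
    Measurable fun a : NodeP => inLine ε ℓ a := by
  have h0 : Measurable fun a : NodeP => (nb ℓ.2 a, ng ℓ.2 a) :=
    measurable_nbng.comp (measurable_const.prodMk measurable_id)
  have h1 : Measurable fun a : NodeP => Real.sqrt (1 - ‖nb ℓ.2 a‖ ^ 2) :=
    ((h0.fst.norm.pow_const 2).const_sub 1).sqrt
  have h2 : Measurable fun a : NodeP =>
      (Real.sqrt (1 - ‖nb ℓ.2 a‖ ^ 2) / ‖ng ℓ.2 a‖) • ng ℓ.2 a :=
    (h1.div h0.snd.norm).smul h0.snd
  have h3 : Measurable fun a : NodeP => ℓ.1 + a.1 • ℓ.2 := by fun_prop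
  have h4 : Measurable fun a : NodeP => a.1 • a.2.1 := by fun_prop
  have h5 : Measurable fun a : NodeP => a.2.1 := by fun_prop
  exact ((h3.add ((h0.fst.add h2).const_smul ε)).sub h4).prodMk h5

theorem inLine_fst_sub (ε : ℝ) (ℓ : PhasePoint) (a : NodeP) :
    (inLine ε ℓ a).1 - ℓ.1 = ε • nb ℓ.2 a +
      (a.1 + ε * (Real.sqrt (1 - ‖nb ℓ.2 a‖ ^ 2) / ‖ng ℓ.2 a‖)) • ng ℓ.2 a := by
  simp only [inLine, ng]
  module

theorem nodeI_inLine {ε : ℝ} (hε : 0 < ε) {ℓ : PhasePoint} {a : NodeP} (ha : ℓ.2 ≠ a.2.1) :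
    nodeI ε (ℓ, inLine ε ℓ a) = (ℓ, a) := by
  have hg : ng ℓ.2 a ≠ 0 := sub_ne_zero.2 ha
  have hb0 : inner ℝ (nb ℓ.2 a) (ng ℓ.2 a) = 0 := inner_frameMap_self _ _
  have hb1 : inner ℝ (ε • nb ℓ.2 a) (ng ℓ.2 a) = 0 := by rw [inner_smul_left, hb0, mul_zero]
  obtain ⟨h1, h2⟩ := bline_frame hg hb1
    (a.1 + ε * (Real.sqrt (1 - ‖nb ℓ.2 a‖ ^ 2) / ‖ng ℓ.2 a‖))
  have e1 : bO ε (ℓ, inLine ε ℓ a) = nb ℓ.2 a := by
    simp only [bO]
    rw [inLine_fst_sub, show ℓ.2 - (inLine ε ℓ a).2 = ng ℓ.2 a from rfl, h1, smul_smul,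
      one_div_mul_cancel hε.ne', one_smul]
  have e2 : sI ε (ℓ, inLine ε ℓ a) = a.1 := by
    simp only [sI]
    rw [inLine_fst_sub, show ℓ.2 - (inLine ε ℓ a).2 = ng ℓ.2 a from rfl, h2, e1]
    ring
  simp only [nodeI, e1, e2]
  have e3 : planeC (ℓ.2 - (inLine ε ℓ a).2) (nb ℓ.2 a) = a.2.2 := planeC_frameMap hg _
  rw [e3]
  rfl


theorem nodeI_mem_GN_iff {ε : ℝ} (hε : 0 < ε) (q : PhasePoint × PhasePoint) :
    nodeI ε q ∈ GN ↔ q.1.2 ≠ q.2.2 ∧ ‖bline (q.2.1 - q.1.1, q.1.2 - q.2.2)‖ < ε :=
  nodeO_mem_GN_iff hε q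

/-- **Cylinder coordinates for the incoming partner.** -/
theorem lintegral_inLine {ε : ℝ} (hε : 0 < ε) (ℓ : PhasePoint) {K : PhasePoint → ℝ≥0∞}
    (hK : Measurable K) :
    ∫⁻ ℓo : PhasePoint, {ℓo | nodeI ε (ℓ, ℓo) ∈ GN}.indicator K ℓo =
      ENNReal.ofReal (ε ^ 2) * ∫⁻ a : NodeP, {a | (ℓ, a) ∈ GN}.indicator
        (fun a => ENNReal.ofReal ‖ℓ.2 - a.2.1‖ * K (inLine ε ℓ a)) a := by
  have hmo : Measurable fun a : NodeP => inLine ε ℓ a := measurable_inLine_right ε ℓ
  have hmG : MeasurableSet {a : NodeP | (ℓ, a) ∈ GN} :=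
    measurableSet_GN.preimage (measurable_const.prodMk measurable_id)
  have hmI : Measurable ({a : NodeP | (ℓ, a) ∈ GN}.indicator
        (fun a => ENNReal.ofReal ‖ℓ.2 - a.2.1‖ * K (inLine ε ℓ a))) :=
    Measurable.indicator ((by fun_prop : Measurable fun a : NodeP =>
      ENNReal.ofReal ‖ℓ.2 - a.2.1‖).mul (hK.comp hmo)) hmG
  have hmL : MeasurableSet {ℓo : PhasePoint | nodeI ε (ℓ, ℓo) ∈ GN} :=
    measurableSet_GN.preimage ((measurable_nodeI ε).comp (measurable_const.prodMk measurable_id))
  -- left side: velocity first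
  rw [Measure.volume_eq_prod, lintegral_prod_symm _ (hK.indicator hmL).aemeasurable]
  -- right side: order w, y, s
  have hR : ∫⁻ a : NodeP, {a | (ℓ, a) ∈ GN}.indicator
        (fun a => ENNReal.ofReal ‖ℓ.2 - a.2.1‖ * K (inLine ε ℓ a)) a =
      ∫⁻ w : Space3, ∫⁻ y : Plane, ∫⁻ s : ℝ, {a | (ℓ, a) ∈ GN}.indicator
        (fun a => ENNReal.ofReal ‖ℓ.2 - a.2.1‖ * K (inLine ε ℓ a)) (s, w, y) := by
    rw [Measure.volume_eq_prod, lintegral_prod_symm _ hmI.aemeasurable, Measure.volume_eq_prod,
      lintegral_prod _ hmI.lintegral_prod_left'.aemeasurable]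
  rw [hR, ← lintegral_const_mul' _ _ ENNReal.ofReal_ne_top]
  refine lintegral_congr_ae ?_
  filter_upwards [Measure.ae_ne volume ℓ.2] with w hw
  have hg : ℓ.2 - w ≠ 0 := sub_ne_zero.2 (Ne.symm hw)
  have h1 : ∫⁻ x : Space3, {ℓo | nodeI ε (ℓ, ℓo) ∈ GN}.indicator K (x, w) =
      ∫⁻ x : Space3, (if ‖bline (x, ℓ.2 - w)‖ < ε then K (ℓ.1 + x, w) else 0) := by
    rw [← lintegral_add_left_eq_self (fun x => {ℓo | nodeI ε (ℓ, ℓo) ∈ GN}.indicator K (x, w)) ℓ.1]
    refine lintegral_congr fun x => ?_
    have h2 : ((ℓ.1 + x, w) : PhasePoint) ∈ {ℓo | nodeI ε (ℓ, ℓo) ∈ GN} ↔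
        ‖bline (x, ℓ.2 - w)‖ < ε := by
      show nodeI ε (ℓ, (ℓ.1 + x, w)) ∈ GN ↔ _
      rw [nodeI_mem_GN_iff hε]
      simp only [add_sub_cancel_left]
      exact ⟨fun h => h.2, fun h => ⟨hw.symm, h⟩⟩
    by_cases h3 : ‖bline (x, ℓ.2 - w)‖ < ε
    · rw [indicator_of_mem (h2.2 h3), if_pos h3]
    · rw [indicator_of_notMem (fun h => h3 (h2.1 h)), if_neg h3]
  rw [h1, lintegral_cyl_eps hε hg (F := fun x => K (ℓ.1 + x, w))
    (hK.comp ((measurable_const.add measurable_id).prodMk measurable_const))]
  congr 1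
  rw [← lintegral_const_mul' _ _ ENNReal.ofReal_ne_top, ← lintegral_indicator measurableSet_ball]
  refine lintegral_congr fun y => ?_
  by_cases hy : ‖y‖ < 1
  · have hy' : y ∈ Metric.ball (0 : Plane) 1 := by simpa using hy
    rw [indicator_of_mem hy', ← lintegral_const_mul' _ _ ENNReal.ofReal_ne_top]
    set c := ε * (Real.sqrt (1 - ‖frameMap (ℓ.2 - w) y‖ ^ 2) / ‖ℓ.2 - w‖) with hc
    rw [← lintegral_add_right_eq_self (fun s : ℝ => ENNReal.ofReal ‖ℓ.2 - w‖ *
      K (ℓ.1 + (ε • frameMap (ℓ.2 - w) y + s • (ℓ.2 - w)), w)) c]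
    refine lintegral_congr fun s => ?_
    have h4 : ((s, w, y) : NodeP) ∈ {a | (ℓ, a) ∈ GN} := ⟨hy, hw.symm⟩
    rw [indicator_of_mem h4]
    congr 2
    have h5 := inLine_fst_sub ε ℓ (s, w, y)
    have h6 : (inLine ε ℓ (s, w, y)).1 = ℓ.1 + ((inLine ε ℓ (s, w, y)).1 - ℓ.1) := by abel
    refine Prod.ext ?_ rfl
    show ℓ.1 + _ = (inLine ε ℓ (s, w, y)).1
    rw [h6, h5]
    rfl
  · have hy' : y ∉ Metric.ball (0 : Plane) 1 := by simpa using hy
    rw [indicator_of_notMem hy']
    symm
    rw [lintegral_eq_zero_iff']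
    · refine Eventually.of_forall fun s => ?_
      have h4 : ((s, w, y) : NodeP) ∉ {a | (ℓ, a) ∈ GN} := fun h => hy h.1
      simp only [Pi.zero_apply]
      rw [indicator_of_notMem h4]
    · exact (hmI.comp (measurable_id.prodMk measurable_const)).aemeasurable

/-! ### The incoming pair of a node -/

/-- the exit point of the passage in terms of the outgoing impact parameter -/
theorem qx_eq_impact (hΦ : AdmissiblePotential Φ) {b g : Space3} (hb : b ∈ impactDisc g)
    (hg : g ≠ 0) (h : NT Φ b g) :
    qx Φ b g = exitImpact Φ b g + (Real.sqrt (1 - ‖b‖ ^ 2) / ‖g‖) • exitVelocity Φ b g := by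
  have hE := hasExit_tau hΦ hb hg h
  rw [exitImpact_eq hΦ hb hg hE, Scat818.exitVelocity_eq hΦ (reg_entrance Φ hb hg) hE, qx,
    Tree674.qpath_eq hΦ hb hg h]
  abel

theorem inMap_vel_sub (ε : ℝ) (ℓ : PhasePoint) (a : NodeP) :
    (inMap Φ ε ℓ a).1.2 - (inMap Φ ε ℓ a).2.2 = exitVelocity Φ (nb ℓ.2 a) (ng ℓ.2 a) := by
  show (preV Φ ℓ.2 a).1 - (preV Φ ℓ.2 a).2 = _
  rw [preV_eq]
  module

theorem inMap_pos_sub (hΦ : AdmissiblePotential Φ) (ε : ℝ) {ℓ : PhasePoint} {a : NodeP}
    (ha : Adm1 Φ ℓ.2 a) :
    (inMap Φ ε ℓ a).2.1 - (inMap Φ ε ℓ a).1.1 = ε • exitImpact Φ (nb ℓ.2 a) (ng ℓ.2 a) +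
      (Tree674.sin Φ ε ℓ.2 a + ε * (Real.sqrt (1 - ‖nb ℓ.2 a‖ ^ 2) / ‖ng ℓ.2 a‖)) •
        exitVelocity Φ (nb ℓ.2 a) (ng ℓ.2 a) := by
  have h1 := qx_eq_impact hΦ ha.nb_mem ha.ng_ne ha.nt
  simp only [inMap, xin, preV_eq]
  rw [h1]
  module


/-- the pair of incoming lines of an admissible node, in incoming node parameters -/
theorem nodeI_inMap (hΦ : AdmissiblePotential Φ) {ε : ℝ} (hε : 0 < ε) {z : PhasePoint × NodeP}
    (hz : Adm1 Φ z.1.2 z.2) :
    nodeI ε (inMap Φ ε z.1 z.2) ∈ GN ∧
      sI ε (inMap Φ ε z.1 z.2) = Tree674.sin Φ ε z.1.2 z.2 := by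
  set b := nb z.1.2 z.2 with hb
  set g := ng z.1.2 z.2 with hg
  have hbm : b ∈ impactDisc g := hz.nb_mem
  have hg0 : g ≠ 0 := hz.ng_ne
  have hg' : exitVelocity Φ b g ≠ 0 := exitVelocity_ne_zero hΦ hbm hg0
  have hb' : inner ℝ (exitImpact Φ b g) (exitVelocity Φ b g) = 0 := inner_exitImpact hΦ hbm hg0
  have hbn : ‖exitImpact Φ b g‖ = ‖b‖ := norm_exitImpact hΦ hbm hg0
  have hgn : ‖exitVelocity Φ b g‖ = ‖g‖ := norm_exitVelocity hΦ hbm hg0
  have hb1 : inner ℝ (ε • exitImpact Φ b g) (exitVelocity Φ b g) = 0 := by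
    rw [inner_smul_left, hb', mul_zero]
  obtain ⟨h1, h2⟩ := bline_frame hg' hb1
    (Tree674.sin Φ ε z.1.2 z.2 + ε * (Real.sqrt (1 - ‖b‖ ^ 2) / ‖g‖))
  have hp := inMap_pos_sub hΦ ε hz
  have hv := inMap_vel_sub (Φ := Φ) ε z.1 z.2
  rw [← hb, ← hg] at hp hv
  have e1 : bO ε (inMap Φ ε z.1 z.2) = exitImpact Φ b g := by
    unfold bO
    rw [hp, hv, h1, smul_smul, one_div_mul_cancel hε.ne', one_smul]
  refine ⟨?_, ?_⟩
  · rw [nodeI_mem_GN_iff hε, hp, hv, h1]
    refine ⟨fun h => hg' ?_, ?_⟩
    · rw [← hv, sub_eq_zero]; exact h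
    · rw [norm_smul, Real.norm_eq_abs, abs_of_pos hε, hbn]
      have : ‖b‖ < 1 := hbm.2
      nlinarith
  · unfold sI
    rw [hp, hv, h2, e1, hbn, hgn]
    ring

/-! ### Symmetry of the incoming parameters -/

theorem bline_neg_neg (x g : Space3) : bline (-x, -g) = -bline (x, g) := by
  unfold bline tline
  simp only [inner_neg_neg, norm_neg, smul_neg]
  abel

theorem tline_neg_neg (x g : Space3) : tline (-x, -g) = tline (x, g) := by
  unfold tline
  simp only [inner_neg_neg, norm_neg]

theorem bO_swap (ε : ℝ) (q : PhasePoint × PhasePoint) : bO ε q.swap = -bO ε q := by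
  unfold bO
  simp only [Prod.fst_swap, Prod.snd_swap]
  rw [← neg_sub q.2.1 q.1.1, ← neg_sub q.1.2 q.2.2, bline_neg_neg, smul_neg]

theorem sI_swap (ε : ℝ) (q : PhasePoint × PhasePoint) : sI ε q.swap = sI ε q := by
  unfold sI
  rw [bO_swap, norm_neg]
  simp only [Prod.fst_swap, Prod.snd_swap]
  rw [← neg_sub q.2.1 q.1.1, ← neg_sub q.1.2 q.2.2, tline_neg_neg, norm_neg]

theorem nodeI_swap_mem {ε : ℝ} (hε : 0 < ε) (q : PhasePoint × PhasePoint) :
    nodeI ε q.swap ∈ GN ↔ nodeI ε q ∈ GN := by
  rw [nodeI_mem_GN_iff hε, nodeI_mem_GN_iff hε]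
  simp only [Prod.fst_swap, Prod.snd_swap]
  rw [← neg_sub q.2.1 q.1.1, ← neg_sub q.1.2 q.2.2, bline_neg_neg, norm_neg]
  exact and_congr_left' ne_comm

/-! ### Node flip -/

/-- the set of good incoming parameters: first orientation (`ℓ` = first input) -/
def GoodL (Φ : Space3 → ℝ) (ε T : ℝ) : Set (PhasePoint × NodeP) :=
  {z | z ∈ GN ∧ outD Φ ε T (z.1, inLine ε z.1 z.2) ∈ Vset Φ ε T}

/-- the set of good incoming parameters: second orientation (`ℓ` = second input) -/
def GoodR (Φ : Space3 → ℝ) (ε T : ℝ) : Set (PhasePoint × NodeP) :=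
  {z | z ∈ GN ∧ outD Φ ε T (inLine ε z.1 z.2, z.1) ∈ Vset Φ ε T}

theorem measurable_pairL (ε : ℝ) :
    Measurable fun z : PhasePoint × NodeP => (z.1, inLine ε z.1 z.2) :=
  measurable_fst.prodMk (measurable_inLine ε)

theorem measurable_pairR (ε : ℝ) :
    Measurable fun z : PhasePoint × NodeP => (inLine ε z.1 z.2, z.1) :=
  (measurable_inLine ε).prodMk measurable_fst

theorem measurableSet_GoodL (hΦ : AdmissiblePotential Φ) {ε : ℝ} (hε : 0 < ε) (T : ℝ) :
    MeasurableSet (GoodL Φ ε T) :=
  measurableSet_GN.inter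
    (((measurable_outD hΦ hε T).comp (measurable_pairL ε)) (measurableSet_Vset hΦ ε T))

theorem measurableSet_GoodR (hΦ : AdmissiblePotential Φ) {ε : ℝ} (hε : 0 < ε) (T : ℝ) :
    MeasurableSet (GoodR Φ ε T) :=
  measurableSet_GN.inter
    (((measurable_outD hΦ hε T).comp (measurable_pairR ε)) (measurableSet_Vset hΦ ε T))

/-- incoming pairs of valid nodes are close -/
theorem nodeI_mem_of_outD (hΦ : AdmissiblePotential Φ) {ε : ℝ} (hε : 0 < ε) {T : ℝ}
    {q : PhasePoint × PhasePoint} (hq : outD Φ ε T q ∈ Vset Φ ε T) :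
    nodeI ε q ∈ GN ∧ sI ε q = Tree674.sin Φ ε (outD Φ ε T q).1.2 (outD Φ ε T q).2 := by
  have h := nodeI_inMap hΦ hε (z := outD Φ ε T q) hq.1
  rwa [inMap_outD hΦ hε hq] at h

/-- entrance time of a node in incoming parameters -/
theorem sin_of_mem_GoodL (hΦ : AdmissiblePotential Φ) {ε : ℝ} (hε : 0 < ε) {T : ℝ}
    {z : PhasePoint × NodeP} (hz : z ∈ GoodL Φ ε T) :
    Tree674.sin Φ ε (outD Φ ε T (z.1, inLine ε z.1 z.2)).1.2
      (outD Φ ε T (z.1, inLine ε z.1 z.2)).2 = z.2.1 := by
  have h1 := (nodeI_mem_of_outD hΦ hε hz.2).2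
  have h2 : nodeI ε (z.1, inLine ε z.1 z.2) = (z.1, z.2) := nodeI_inLine hε hz.1.2
  rw [← h1]
  have : (nodeI ε (z.1, inLine ε z.1 z.2)).2.1 = z.2.1 := by rw [h2]
  exact this

theorem sin_of_mem_GoodR (hΦ : AdmissiblePotential Φ) {ε : ℝ} (hε : 0 < ε) {T : ℝ}
    {z : PhasePoint × NodeP} (hz : z ∈ GoodR Φ ε T) :
    Tree674.sin Φ ε (outD Φ ε T (inLine ε z.1 z.2, z.1)).1.2
      (outD Φ ε T (inLine ε z.1 z.2, z.1)).2 = z.2.1 := by
  have h1 := (nodeI_mem_of_outD hΦ hε hz.2).2
  have h2 : nodeI ε (z.1, inLine ε z.1 z.2) = (z.1, z.2) := nodeI_inLine hε hz.1.2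
  have h3 : sI ε (inLine ε z.1 z.2, z.1) = sI ε (z.1, inLine ε z.1 z.2) :=
    sI_swap ε (z.1, inLine ε z.1 z.2)
  rw [← h1, h3]
  have : (nodeI ε (z.1, inLine ε z.1 z.2)).2.1 = z.2.1 := by rw [h2]
  exact this

/-- **Node flip, first orientation**: the root side of the two-body identity in the parameters
(first incoming line, incoming node). -/
theorem flipL (hΦ : AdmissiblePotential Φ) {ε : ℝ} (hε : 0 < ε) (T : ℝ)
    {H : (PhasePoint × NodeP) × (PhasePoint × PhasePoint) → ℝ≥0∞} (hH : Measurable H) :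
    ∫⁻ z : PhasePoint × NodeP, (Vset Φ ε T).indicator
        (fun z => ENNReal.ofReal ‖z.1.2 - z.2.2.1‖ * H (z, inMap Φ ε z.1 z.2)) z =
      ∫⁻ z : PhasePoint × NodeP, (GoodL Φ ε T).indicator
        (fun z => ENNReal.ofReal ‖z.1.2 - z.2.2.1‖ *
          H (outD Φ ε T (z.1, inLine ε z.1 z.2), (z.1, inLine ε z.1 z.2))) z := by
  have hε2 : ENNReal.ofReal (ε ^ 2) ≠ 0 := by
    rw [Ne, ENNReal.ofReal_eq_zero, not_le]; positivity
  have key : ENNReal.ofReal (ε ^ 2) * ∫⁻ z : PhasePoint × NodeP, (Vset Φ ε T).indicator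
        (fun z => ENNReal.ofReal ‖z.1.2 - z.2.2.1‖ * H (z, inMap Φ ε z.1 z.2)) z =
      ENNReal.ofReal (ε ^ 2) * ∫⁻ z : PhasePoint × NodeP, (GoodL Φ ε T).indicator
        (fun z => ENNReal.ofReal ‖z.1.2 - z.2.2.1‖ *
          H (outD Φ ε T (z.1, inLine ε z.1 z.2), (z.1, inLine ε z.1 z.2))) z := by
    rw [twoBody hΦ hε T hH]
    have mo := measurable_outD hΦ hε T
    have hV := measurableSet_Vset hΦ ε T
    have hF : Measurable ((outD Φ ε T ⁻¹' Vset Φ ε T).indicator
        (fun q => H (outD Φ ε T q, q))) :=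
      (hH.comp (mo.prodMk measurable_id)).indicator (mo hV)
    have hG : Measurable ((GoodL Φ ε T).indicator
        (fun z : PhasePoint × NodeP => ENNReal.ofReal ‖z.1.2 - z.2.2.1‖ *
          H (outD Φ ε T (z.1, inLine ε z.1 z.2), (z.1, inLine ε z.1 z.2)))) := by
      refine Measurable.indicator ?_ (measurableSet_GoodL hΦ hε T)
      have h1 : Measurable fun z : PhasePoint × NodeP => ENNReal.ofReal ‖z.1.2 - z.2.2.1‖ := by
        fun_prop
      exact h1.mul (hH.comp ((mo.comp (measurable_pairL ε)).prodMk (measurable_pairL ε)))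
    rw [Tree674.lintegral_pair hF, Tree674.lintegral_pair hG,
      ← lintegral_const_mul' _ _ ENNReal.ofReal_ne_top]
    refine lintegral_congr fun ℓ => ?_
    have hK : Measurable fun ℓo : PhasePoint => (outD Φ ε T ⁻¹' Vset Φ ε T).indicator
        (fun q => H (outD Φ ε T q, q)) (ℓ, ℓo) :=
      hF.comp (measurable_const.prodMk measurable_id)
    have h1 := lintegral_inLine hε ℓ hK
    have h2 : ∀ ℓo : PhasePoint, {ℓo | nodeI ε (ℓ, ℓo) ∈ GN}.indicator
        (fun ℓo : PhasePoint => (outD Φ ε T ⁻¹' Vset Φ ε T).indicator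
        (fun q => H (outD Φ ε T q, q)) (ℓ, ℓo)) ℓo =
        (outD Φ ε T ⁻¹' Vset Φ ε T).indicator (fun q => H (outD Φ ε T q, q)) (ℓ, ℓo) := by
      intro ℓo
      by_cases h : nodeI ε (ℓ, ℓo) ∈ GN
      · rw [indicator_of_mem (by exact h)]
      · rw [indicator_of_notMem (by exact h), indicator_of_notMem]
        exact fun h' => h (nodeI_mem_of_outD hΦ hε h').1
    simp only [h2] at h1
    rw [h1]
    congr 1
    refine lintegral_congr fun a => ?_
    by_cases hz : ((ℓ, a) : PhasePoint × NodeP) ∈ GoodL Φ ε T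
    · rw [indicator_of_mem hz, indicator_of_mem (show a ∈ {a : NodeP | (ℓ, a) ∈ GN} from hz.1),
        indicator_of_mem (show (ℓ, inLine ε ℓ a) ∈ outD Φ ε T ⁻¹' Vset Φ ε T from hz.2)]
    · rw [indicator_of_notMem hz]
      by_cases h : ((ℓ, a) : PhasePoint × NodeP) ∈ GN
      · rw [indicator_of_mem (show a ∈ {a : NodeP | (ℓ, a) ∈ GN} from h),
          indicator_of_notMem (show (ℓ, inLine ε ℓ a) ∉ outD Φ ε T ⁻¹' Vset Φ ε T from
            fun h' => hz ⟨h, h'⟩), mul_zero]
      · rw [indicator_of_notMem (show a ∉ {a : NodeP | (ℓ, a) ∈ GN} from h)]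
  exact (ENNReal.mul_right_inj hε2 ENNReal.ofReal_ne_top).1 key

/-- **Node flip, second orientation.** -/
theorem flipR (hΦ : AdmissiblePotential Φ) {ε : ℝ} (hε : 0 < ε) (T : ℝ)
    {H : (PhasePoint × NodeP) × (PhasePoint × PhasePoint) → ℝ≥0∞} (hH : Measurable H) :
    ∫⁻ z : PhasePoint × NodeP, (Vset Φ ε T).indicator
        (fun z => ENNReal.ofReal ‖z.1.2 - z.2.2.1‖ * H (z, inMap Φ ε z.1 z.2)) z =
      ∫⁻ z : PhasePoint × NodeP, (GoodR Φ ε T).indicator
        (fun z => ENNReal.ofReal ‖z.1.2 - z.2.2.1‖ *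
          H (outD Φ ε T (inLine ε z.1 z.2, z.1), (inLine ε z.1 z.2, z.1))) z := by
  have hε2 : ENNReal.ofReal (ε ^ 2) ≠ 0 := by
    rw [Ne, ENNReal.ofReal_eq_zero, not_le]; positivity
  have key : ENNReal.ofReal (ε ^ 2) * ∫⁻ z : PhasePoint × NodeP, (Vset Φ ε T).indicator
        (fun z => ENNReal.ofReal ‖z.1.2 - z.2.2.1‖ * H (z, inMap Φ ε z.1 z.2)) z =
      ENNReal.ofReal (ε ^ 2) * ∫⁻ z : PhasePoint × NodeP, (GoodR Φ ε T).indicator
        (fun z => ENNReal.ofReal ‖z.1.2 - z.2.2.1‖ *
          H (outD Φ ε T (inLine ε z.1 z.2, z.1), (inLine ε z.1 z.2, z.1))) z := by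
    rw [twoBody hΦ hε T hH]
    have mo := measurable_outD hΦ hε T
    have hV := measurableSet_Vset hΦ ε T
    have hF : Measurable ((outD Φ ε T ⁻¹' Vset Φ ε T).indicator
        (fun q => H (outD Φ ε T q, q))) :=
      (hH.comp (mo.prodMk measurable_id)).indicator (mo hV)
    have hG : Measurable ((GoodR Φ ε T).indicator
        (fun z : PhasePoint × NodeP => ENNReal.ofReal ‖z.1.2 - z.2.2.1‖ *
          H (outD Φ ε T (inLine ε z.1 z.2, z.1), (inLine ε z.1 z.2, z.1)))) := by
      refine Measurable.indicator ?_ (measurableSet_GoodR hΦ hε T)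
      have h1 : Measurable fun z : PhasePoint × NodeP => ENNReal.ofReal ‖z.1.2 - z.2.2.1‖ := by
        fun_prop
      exact h1.mul (hH.comp ((mo.comp (measurable_pairR ε)).prodMk (measurable_pairR ε)))
    have hs : ∫⁻ q : PhasePoint × PhasePoint, (outD Φ ε T ⁻¹' Vset Φ ε T).indicator
        (fun q => H (outD Φ ε T q, q)) q =
        ∫⁻ ℓ2 : PhasePoint, ∫⁻ ℓ1 : PhasePoint, (outD Φ ε T ⁻¹' Vset Φ ε T).indicator
        (fun q => H (outD Φ ε T q, q)) (ℓ1, ℓ2) := by
      rw [Measure.volume_eq_prod]
      exact lintegral_prod_symm _ hF.aemeasurable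
    rw [hs, Tree674.lintegral_pair hG, ← lintegral_const_mul' _ _ ENNReal.ofReal_ne_top]
    refine lintegral_congr fun ℓ => ?_
    have hK : Measurable fun ℓo : PhasePoint => (outD Φ ε T ⁻¹' Vset Φ ε T).indicator
        (fun q => H (outD Φ ε T q, q)) (ℓo, ℓ) :=
      hF.comp (measurable_id.prodMk measurable_const)
    have h1 := lintegral_inLine hε ℓ hK
    have h2 : ∀ ℓo : PhasePoint, {ℓo | nodeI ε (ℓ, ℓo) ∈ GN}.indicator
        (fun ℓo : PhasePoint => (outD Φ ε T ⁻¹' Vset Φ ε T).indicator
        (fun q => H (outD Φ ε T q, q)) (ℓo, ℓ)) ℓo =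
        (outD Φ ε T ⁻¹' Vset Φ ε T).indicator (fun q => H (outD Φ ε T q, q)) (ℓo, ℓ) := by
      intro ℓo
      by_cases h : nodeI ε (ℓ, ℓo) ∈ GN
      · rw [indicator_of_mem (by exact h)]
      · rw [indicator_of_notMem (by exact h), indicator_of_notMem]
        intro h'
        have h3 : nodeI ε ((ℓ, ℓo) : PhasePoint × PhasePoint).swap ∈ GN :=
          (nodeI_mem_of_outD hΦ hε h').1
        exact h ((nodeI_swap_mem hε (ℓ, ℓo)).1 h3)
    simp only [h2] at h1
    rw [h1]
    congr 1
    refine lintegral_congr fun a => ?_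
    by_cases hz : ((ℓ, a) : PhasePoint × NodeP) ∈ GoodR Φ ε T
    · rw [indicator_of_mem hz, indicator_of_mem (show a ∈ {a : NodeP | (ℓ, a) ∈ GN} from hz.1),
        indicator_of_mem (show (inLine ε ℓ a, ℓ) ∈ outD Φ ε T ⁻¹' Vset Φ ε T from hz.2)]
    · rw [indicator_of_notMem hz]
      by_cases h : ((ℓ, a) : PhasePoint × NodeP) ∈ GN
      · rw [indicator_of_mem (show a ∈ {a : NodeP | (ℓ, a) ∈ GN} from h),
          indicator_of_notMem (show (inLine ε ℓ a, ℓ) ∉ outD Φ ε T ⁻¹' Vset Φ ε T from
            fun h' => hz ⟨h, h'⟩), mul_zero]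
      · rw [indicator_of_notMem (show a ∉ {a : NodeP | (ℓ, a) ∈ GN} from h)]
  exact (ENNReal.mul_right_inj hε2 ENNReal.ofReal_ne_top).1 key

end Crest.Agent.R122.Mark307

end
end

-- ▼ part R122/Mark2_307
section

/-!
Row 122, block H7b (helper307), part 2: **re-rooting a collision tree at a marked exit line**.

`Mk P` = the nodes of `P` (marks); the marked particle is the partner released at this node.
`Fib m` = the parameters of the tree when the exit line `d = (birth time, position, velocity)` of the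
marked particle is the free parameter: at the marked node the velocity of the sibling and the planar
impact parameter, together with the two incoming trees; along the forward path to the root, at every
node the incoming parameters (entrance time, velocity, planar impact parameter) of the fresh partner
and the parameters of its tree.

`reroot` : `∫ over (root line, parameters) = ∫ over (d, fibre)`.
-/

set_option autoImplicit false
set_option synthInstance.maxSize 1024

open MeasureTheory Set Filter Topology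
open Crest.AnalysisR.Kinetic
open scoped ENNReal

noncomputable section

namespace Crest.Agent.R122.Mark307

open Kin796 Kin796.CTree Disc416 Scat818 Flow671 Flux663 Tree674

variable {Φ : Space3 → ℝ}

/-- A line seen from its birth: (birth time, phase point at the birth time).  This is
`Boost969.LSt`. -/
abbrev BLine : Type := ℝ × PhasePoint

/-- Marks of a tree: its nodes. -/
inductive Mk : CTree → Type
  | top (l r : CTree) : Mk (node l r)
  | inl {l : CTree} (m : Mk l) (r : CTree) : Mk (node l r)
  | inr (l : CTree) {r : CTree} (m : Mk r) : Mk (node l r)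

/-- The particle released at the marked node. -/
def exIdx : {P : CTree} → Mk P → Idx P
  | _, .top _ r => Sum.inr (root r)
  | _, .inl m _ => Sum.inl (exIdx m)
  | _, .inr _ m => Sum.inr (exIdx m)

/-- The exit line of the marked particle: (exit time, phase point at the exit time). -/
def exl (Φ : Space3 → ℝ) (ε : ℝ) : {P : CTree} → Mk P → PhasePoint → Par P → BLine
  | _, .top _ _ => fun ℓ p => (p.1.1, onLine (outLine ε ℓ p.1) p.1.1)
  | _, .inl m _ => fun ℓ p => exl Φ ε m (inMap Φ ε ℓ p.1).1 p.2.1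
  | _, .inr _ m => fun ℓ p => exl Φ ε m (inMap Φ ε ℓ p.1).2 p.2.2

/-- Fibre over the exit line of the marked particle. -/
def Fib : {P : CTree} → Mk P → Type
  | _, .top l r => (Space3 × Plane) × (Par l × Par r)
  | _, .inl m r => Fib m × (NodeP × Par r)
  | _, .inr l m => Fib m × (NodeP × Par l)

instance instMeasurableSpaceFib : {P : CTree} → (m : Mk P) → MeasurableSpace (Fib m)
  | _, .top l r => inferInstanceAs (MeasurableSpace ((Space3 × Plane) × (Par l × Par r)))
  | _, .inl m r => @Prod.instMeasurableSpace _ _ (instMeasurableSpaceFib m)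
      (inferInstanceAs (MeasurableSpace (NodeP × Par r)))
  | _, .inr l m => @Prod.instMeasurableSpace _ _ (instMeasurableSpaceFib m)
      (inferInstanceAs (MeasurableSpace (NodeP × Par l)))

/-- reference measure on the fibre (Lebesgue) -/
def fibVol : {P : CTree} → (m : Mk P) → Measure (Fib m)
  | _, .top l r => (volume : Measure ((Space3 × Plane) × (Par l × Par r)))
  | _, .inl m r => (fibVol m).prod (volume : Measure (NodeP × Par r))
  | _, .inr l m => (fibVol m).prod (volume : Measure (NodeP × Par l))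

instance instMeasureSpaceFib {P : CTree} (m : Mk P) : MeasureSpace (Fib m) := ⟨fibVol m⟩

instance instSigmaFiniteFib : {P : CTree} → (m : Mk P) → SigmaFinite (volume : Measure (Fib m))
  | _, .top l r =>
      inferInstanceAs (SigmaFinite (volume : Measure ((Space3 × Plane) × (Par l × Par r))))
  | _, .inl m r => by
      haveI := instSigmaFiniteFib m
      exact inferInstanceAs (SigmaFinite ((volume : Measure (Fib m)).prod
        (volume : Measure (NodeP × Par r))))
  | _, .inr l m => by
      haveI := instSigmaFiniteFib m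
      exact inferInstanceAs (SigmaFinite ((volume : Measure (Fib m)).prod
        (volume : Measure (NodeP × Par l))))

/-- line of the sibling at the marked node -/
def sibLine (ε : ℝ) (d : BLine) (q : Space3 × Plane) : PhasePoint :=
  (d.2.1 - ε • entrancePoint (nb q.1 (d.1, d.2.2, q.2)) (ng q.1 (d.1, d.2.2, q.2)) - d.1 • q.1, q.1)

/-- The re-rooting map: (exit line, fibre) ↦ (root line, parameters). -/
def psi (Φ : Space3 → ℝ) (ε T : ℝ) : {P : CTree} → (m : Mk P) → BLine × Fib m → PhasePoint × Par P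
  | _, .top _ _ => fun z => (sibLine ε z.1 z.2.1, ((z.1.1, z.1.2.2, z.2.1.2), (z.2.2.1, z.2.2.2)))
  | _, .inl m _ => fun z =>
      ((outD Φ ε T ((psi Φ ε T m (z.1, z.2.1)).1, inLine ε (psi Φ ε T m (z.1, z.2.1)).1 z.2.2.1)).1,
        ((outD Φ ε T ((psi Φ ε T m (z.1, z.2.1)).1,
            inLine ε (psi Φ ε T m (z.1, z.2.1)).1 z.2.2.1)).2,
          ((psi Φ ε T m (z.1, z.2.1)).2, z.2.2.2)))
  | _, .inr _ m => fun z =>
      ((outD Φ ε T (inLine ε (psi Φ ε T m (z.1, z.2.1)).1 z.2.2.1, (psi Φ ε T m (z.1, z.2.1)).1)).1,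
        ((outD Φ ε T (inLine ε (psi Φ ε T m (z.1, z.2.1)).1 z.2.2.1,
            (psi Φ ε T m (z.1, z.2.1)).1)).2,
          (z.2.2.2, (psi Φ ε T m (z.1, z.2.1)).2)))

/-- indicator of the good incoming parameters (first orientation) -/
def gL (Φ : Space3 → ℝ) (ε T : ℝ) (z : PhasePoint × NodeP) : ℝ≥0∞ := (GoodL Φ ε T).indicator 1 z

/-- indicator of the good incoming parameters (second orientation) -/
def gR (Φ : Space3 → ℝ) (ε T : ℝ) (z : PhasePoint × NodeP) : ℝ≥0∞ := (GoodR Φ ε T).indicator 1 z

/-- The weight (validity included) in the re-rooted parameters. -/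
def vf (Φ : Space3 → ℝ) (ε T : ℝ) : {P : CTree} → (m : Mk P) → BLine × Fib m → ℝ≥0∞
  | _, .top l r => fun z => vw Φ ε (node l r) T (psi Φ ε T (.top l r) z)
  | _, .inl (l := l) m r => fun z => vf Φ ε T m (z.1, z.2.1) *
      (gL Φ ε T ((psi Φ ε T m (z.1, z.2.1)).1, z.2.2.1) *
        ENNReal.ofReal ‖(psi Φ ε T m (z.1, z.2.1)).1.2 - z.2.2.1.2.1‖ *
        topI l (z.2.2.1.1, (psi Φ ε T m (z.1, z.2.1)).2) *
        (topI r (z.2.2.1.1, z.2.2.2) *
          vw Φ ε r T (inLine ε (psi Φ ε T m (z.1, z.2.1)).1 z.2.2.1, z.2.2.2)))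
  | _, .inr l (r := r) m => fun z => vf Φ ε T m (z.1, z.2.1) *
      (gR Φ ε T ((psi Φ ε T m (z.1, z.2.1)).1, z.2.2.1) *
        ENNReal.ofReal ‖(psi Φ ε T m (z.1, z.2.1)).1.2 - z.2.2.1.2.1‖ *
        topI r (z.2.2.1.1, (psi Φ ε T m (z.1, z.2.1)).2) *
        (topI l (z.2.2.1.1, z.2.2.2) *
          vw Φ ε l T (inLine ε (psi Φ ε T m (z.1, z.2.1)).1 z.2.2.1, z.2.2.2)))

/-! ### Measurability -/

theorem measurable_gL (hΦ : AdmissiblePotential Φ) {ε : ℝ} (hε : 0 < ε) (T : ℝ) :
    Measurable (gL Φ ε T) := measurable_one.indicator (measurableSet_GoodL hΦ hε T)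

theorem measurable_gR (hΦ : AdmissiblePotential Φ) {ε : ℝ} (hε : 0 < ε) (T : ℝ) :
    Measurable (gR Φ ε T) := measurable_one.indicator (measurableSet_GoodR hΦ hε T)

theorem measurable_sibLine (ε : ℝ) :
    Measurable fun z : BLine × (Space3 × Plane) => sibLine ε z.1 z.2 := by
  have h0 : Measurable fun z : BLine × (Space3 × Plane) =>
      ((z.2.1, (z.1.1, z.1.2.2, z.2.2)) : Space3 × NodeP) := by fun_prop
  have h1 : Measurable fun z : BLine × (Space3 × Plane) =>
      entrancePoint (nb z.2.1 (z.1.1, z.1.2.2, z.2.2)) (ng z.2.1 (z.1.1, z.1.2.2, z.2.2)) :=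
    measurable_entrancePoint.comp (measurable_nbng.comp h0)
  have h2 : Measurable fun z : BLine × (Space3 × Plane) => z.1.2.1 := by fun_prop
  have h3 : Measurable fun z : BLine × (Space3 × Plane) => z.1.1 • z.2.1 := by fun_prop
  have h4 : Measurable fun z : BLine × (Space3 × Plane) => z.2.1 := by fun_prop
  exact ((h2.sub (h1.const_smul ε)).sub h3).prodMk h4

theorem measurable_psi (hΦ : AdmissiblePotential Φ) {ε : ℝ} (hε : 0 < ε) (T : ℝ) :
    {P : CTree} → (m : Mk P) → Measurable (psi Φ ε T m)
  | _, .top l r => by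
      have h0 : Measurable fun z : BLine × ((Space3 × Plane) × (Par l × Par r)) =>
          (z.1, z.2.1) := by fun_prop
      have h1 : Measurable fun z : BLine × ((Space3 × Plane) × (Par l × Par r)) =>
          sibLine ε z.1 z.2.1 := (measurable_sibLine ε).comp h0
      have h2 : Measurable fun z : BLine × ((Space3 × Plane) × (Par l × Par r)) =>
          ((z.1.1, z.1.2.2, z.2.1.2), (z.2.2.1, z.2.2.2)) := by fun_prop
      exact h1.prodMk ((measurable_parMk l r).comp h2)
  | _, .inl (l := l) m r => by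
      have hm := measurable_psi hΦ hε T m
      have h0 : Measurable fun z : BLine × (Fib m × (NodeP × Par r)) => (z.1, z.2.1) := by fun_prop
      have h1 := hm.comp h0
      have h2 : Measurable fun z : BLine × (Fib m × (NodeP × Par r)) => z.2.2.1 := by fun_prop
      have h3 : Measurable fun z : BLine × (Fib m × (NodeP × Par r)) => z.2.2.2 := by fun_prop
      have ho := (measurable_outD hΦ hε T).comp ((measurable_pairL ε).comp (h1.fst.prodMk h2))
      exact ho.fst.prodMk ((measurable_parMk l r).comp (ho.snd.prodMk (h1.snd.prodMk h3)))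
  | _, .inr l (r := r) m => by
      have hm := measurable_psi hΦ hε T m
      have h0 : Measurable fun z : BLine × (Fib m × (NodeP × Par l)) => (z.1, z.2.1) := by fun_prop
      have h1 := hm.comp h0
      have h2 : Measurable fun z : BLine × (Fib m × (NodeP × Par l)) => z.2.2.1 := by fun_prop
      have h3 : Measurable fun z : BLine × (Fib m × (NodeP × Par l)) => z.2.2.2 := by fun_prop
      have ho := (measurable_outD hΦ hε T).comp ((measurable_pairR ε).comp (h1.fst.prodMk h2))
      exact ho.fst.prodMk ((measurable_parMk l r).comp (ho.snd.prodMk (h3.prodMk h1.snd)))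

theorem measurable_vf (hΦ : AdmissiblePotential Φ) {ε : ℝ} (hε : 0 < ε) (T : ℝ) :
    {P : CTree} → (m : Mk P) → Measurable (vf Φ ε T m)
  | _, .top l r => (measurable_vw hΦ ε (node l r) T).comp (measurable_psi hΦ hε T (.top l r))
  | _, .inl (l := l) m r => by
      have hm := measurable_psi hΦ hε T m
      have hv := measurable_vf hΦ hε T m
      have h0 : Measurable fun z : BLine × (Fib m × (NodeP × Par r)) => (z.1, z.2.1) := by fun_prop
      have h1 := hm.comp h0
      have h2 : Measurable fun z : BLine × (Fib m × (NodeP × Par r)) => z.2.2.1 := by fun_prop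
      have h3 : Measurable fun z : BLine × (Fib m × (NodeP × Par r)) => z.2.2.2 := by fun_prop
      have h4 : Measurable fun z : BLine × (Fib m × (NodeP × Par r)) =>
          ENNReal.ofReal ‖(psi Φ ε T m (z.1, z.2.1)).1.2 - z.2.2.1.2.1‖ :=
        (h1.fst.snd.sub h2.snd.fst).norm.ennreal_ofReal
      have h5 := (measurable_gL hΦ hε T).comp (h1.fst.prodMk h2)
      have h6 := (measurable_topI l).comp (h2.fst.prodMk h1.snd)
      have h7 := (measurable_topI r).comp (h2.fst.prodMk h3)
      have h8 := (measurable_vw hΦ ε r T).comp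
        (((measurable_inLine ε).comp (h1.fst.prodMk h2)).prodMk h3)
      exact (hv.comp h0).mul (((h5.mul h4).mul h6).mul (h7.mul h8))
  | _, .inr l (r := r) m => by
      have hm := measurable_psi hΦ hε T m
      have hv := measurable_vf hΦ hε T m
      have h0 : Measurable fun z : BLine × (Fib m × (NodeP × Par l)) => (z.1, z.2.1) := by fun_prop
      have h1 := hm.comp h0
      have h2 : Measurable fun z : BLine × (Fib m × (NodeP × Par l)) => z.2.2.1 := by fun_prop
      have h3 : Measurable fun z : BLine × (Fib m × (NodeP × Par l)) => z.2.2.2 := by fun_prop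
      have h4 : Measurable fun z : BLine × (Fib m × (NodeP × Par l)) =>
          ENNReal.ofReal ‖(psi Φ ε T m (z.1, z.2.1)).1.2 - z.2.2.1.2.1‖ :=
        (h1.fst.snd.sub h2.snd.fst).norm.ennreal_ofReal
      have h5 := (measurable_gR hΦ hε T).comp (h1.fst.prodMk h2)
      have h6 := (measurable_topI r).comp (h2.fst.prodMk h1.snd)
      have h7 := (measurable_topI l).comp (h2.fst.prodMk h3)
      have h8 := (measurable_vw hΦ ε l T).comp
        (((measurable_inLine ε).comp (h1.fst.prodMk h2)).prodMk h3)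
      exact (hv.comp h0).mul (((h5.mul h4).mul h6).mul (h7.mul h8))

end Crest.Agent.R122.Mark307

end
private theorem rz_eab261c761 : type_of% @_root_.Crest.Agent.R122.Mark307.exIdx.eq_def := @_root_.Crest.Agent.R122.Mark307.exIdx.eq_def -- L42
private theorem rz_c4f1b90c4e : type_of% @_root_.Crest.Agent.R122.Mark307.exIdx.eq_1 := @_root_.Crest.Agent.R122.Mark307.exIdx.eq_1 -- L42
private theorem rz_10dab44a4c : type_of% @_root_.Crest.Agent.R122.Mark307.exl.eq_def := @_root_.Crest.Agent.R122.Mark307.exl.eq_def -- L48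
private theorem rz_e2a72e9fff : type_of% @_root_.Crest.Agent.R122.Mark307.exl.eq_1 := @_root_.Crest.Agent.R122.Mark307.exl.eq_1 -- L48
private theorem rz_6627508d27 : type_of% @_root_.Crest.Agent.R122.Mark307.psi.eq_def := @_root_.Crest.Agent.R122.Mark307.psi.eq_def -- L91
private theorem rz_22a2c03554 : type_of% @_root_.Crest.Agent.R122.Mark307.psi.eq_1 := @_root_.Crest.Agent.R122.Mark307.psi.eq_1 -- L91
end

-- ▼ part R122/Mark3_307

/-!
Row 122, block H7b (helper307), part 3: the re-rooting identity `reroot`.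
-/

set_option autoImplicit false
set_option synthInstance.maxSize 1024

open MeasureTheory Set Filter Topology
open Crest.AnalysisR.Kinetic
open scoped ENNReal

noncomputable section

namespace Crest.Agent.R122.Mark307

open Kin796 Kin796.CTree Disc416 Scat818 Flow671 Flux663 Tree674

variable {Φ : Space3 → ℝ}

/-! ### Rearrangements -/

/-- `((X, v), (s, w, y)) ↦ (X, ((s, w), (v, y)))` -/
def arr1 (z : PhasePoint × NodeP) : Space3 × ((ℝ × Space3) × (Space3 × Plane)) :=
  (z.1.1, ((z.2.1, z.2.2.1), (z.1.2, z.2.2.2)))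

/-- `((τ, (x, w)), (v, y)) ↦ (x, ((τ, w), (v, y)))` -/
def arr2 (z : BLine × (Space3 × Plane)) : Space3 × ((ℝ × Space3) × (Space3 × Plane)) :=
  (z.1.2.1, ((z.1.1, z.1.2.2), z.2))

theorem mp_arr1 : MeasurePreserving arr1 := by
  have a1 : MeasurePreserving (MeasurableEquiv.prodAssoc :
      (Space3 × Space3) × (ℝ × (Space3 × Plane)) ≃ᵐ _) := volume_preserving_prodAssoc
  have b1 : MeasurePreserving (MeasurableEquiv.prodAssoc :
      (ℝ × Space3) × Plane ≃ᵐ _).symm :=
    (volume_preserving_prodAssoc (α₁ := ℝ) (β₁ := Space3) (γ₁ := Plane)).symm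
  have b2 : MeasurePreserving (MeasurableEquiv.prodAssoc :
      (Space3 × (ℝ × Space3)) × Plane ≃ᵐ _).symm :=
    (volume_preserving_prodAssoc (α₁ := Space3) (β₁ := ℝ × Space3) (γ₁ := Plane)).symm
  have b3 : MeasurePreserving (Prod.map (Prod.swap : Space3 × (ℝ × Space3) → (ℝ × Space3) × Space3)
      (id : Plane → Plane)) :=
    (Measure.measurePreserving_swap (μ := (volume : Measure Space3))
      (ν := (volume : Measure (ℝ × Space3)))).prod (MeasurePreserving.id (volume : Measure Plane))
  have b4 : MeasurePreserving (MeasurableEquiv.prodAssoc :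
      ((ℝ × Space3) × Space3) × Plane ≃ᵐ _) := volume_preserving_prodAssoc
  have c1 : MeasurePreserving (Prod.map (id : Space3 → Space3)
      ((MeasurableEquiv.prodAssoc : (ℝ × Space3) × Plane ≃ᵐ _).symm)) :=
    (MeasurePreserving.id (volume : Measure Space3)).prod b1
  have c := b4.comp (b3.comp (b2.comp c1))
  have d := (MeasurePreserving.id (volume : Measure Space3)).prod c
  exact d.comp a1

theorem mp_arr2 : MeasurePreserving arr2 := by
  have a1 : MeasurePreserving (MeasurableEquiv.prodAssoc : (ℝ × Space3) × Space3 ≃ᵐ _).symm :=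
    (volume_preserving_prodAssoc (α₁ := ℝ) (β₁ := Space3) (γ₁ := Space3)).symm
  have a2 : MeasurePreserving (Prod.map (Prod.swap : ℝ × Space3 → Space3 × ℝ)
      (id : Space3 → Space3)) :=
    (Measure.measurePreserving_swap (μ := (volume : Measure ℝ))
      (ν := (volume : Measure Space3))).prod (MeasurePreserving.id (volume : Measure Space3))
  have a3 : MeasurePreserving (MeasurableEquiv.prodAssoc : (Space3 × ℝ) × Space3 ≃ᵐ _) :=
    volume_preserving_prodAssoc
  have a := a3.comp (a2.comp a1)
  have b := a.prod (MeasurePreserving.id (volume : Measure (Space3 × Plane)))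
  have c : MeasurePreserving (MeasurableEquiv.prodAssoc :
      (Space3 × (ℝ × Space3)) × (Space3 × Plane) ≃ᵐ _) := volume_preserving_prodAssoc
  exact c.comp b

/-- translation of the first component by a function of the second -/
theorem lintegral_shift {β : Type*} [MeasureSpace β] [SFinite (volume : Measure β)]
    {c : β → Space3} (hc : Measurable c) {G : Space3 × β → ℝ≥0∞} (hG : Measurable G) :
    ∫⁻ z : Space3 × β, G (z.1 - c z.2, z.2) = ∫⁻ z : Space3 × β, G z := by
  have h1 : Measurable fun z : Space3 × β => G (z.1 - c z.2, z.2) :=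
    hG.comp ((measurable_fst.sub (hc.comp measurable_snd)).prodMk measurable_snd)
  rw [Measure.volume_eq_prod, lintegral_prod_symm _ h1.aemeasurable,
    lintegral_prod_symm _ hG.aemeasurable]
  refine lintegral_congr fun p => ?_
  exact lintegral_sub_right_eq_self (fun x => G (x, p)) (c p)

/-- the exchange of the free outgoing line at one node -/
theorem lintegral_sib (ε : ℝ) {G : PhasePoint × NodeP → ℝ≥0∞} (hG : Measurable G) :
    ∫⁻ z : PhasePoint × NodeP, G z =
      ∫⁻ z : BLine × (Space3 × Plane), G (sibLine ε z.1 z.2, (z.1.1, z.1.2.2, z.2.2)) := by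
  -- `G` in the coordinates `(x, p)`
  set G' : Space3 × ((ℝ × Space3) × (Space3 × Plane)) → ℝ≥0∞ := fun z =>
    G ((z.1, z.2.2.1), (z.2.1.1, z.2.1.2, z.2.2.2)) with hG'
  have hG'm : Measurable G' := hG.comp (by fun_prop)
  set c : (ℝ × Space3) × (Space3 × Plane) → Space3 := fun p =>
    ε • entrancePoint (nb p.2.1 (p.1.1, p.1.2, p.2.2)) (ng p.2.1 (p.1.1, p.1.2, p.2.2)) +
      p.1.1 • p.2.1 with hc
  have hcm : Measurable c := by
    have h0 : Measurable fun p : (ℝ × Space3) × (Space3 × Plane) =>
        ((p.2.1, (p.1.1, p.1.2, p.2.2)) : Space3 × NodeP) := by fun_prop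
    have h1 : Measurable fun p : (ℝ × Space3) × (Space3 × Plane) =>
        entrancePoint (nb p.2.1 (p.1.1, p.1.2, p.2.2)) (ng p.2.1 (p.1.1, p.1.2, p.2.2)) :=
      measurable_entrancePoint.comp (measurable_nbng.comp h0)
    have h3 : Measurable fun p : (ℝ × Space3) × (Space3 × Plane) => p.1.1 • p.2.1 := by fun_prop
    exact (h1.const_smul ε).add h3
  have e1 : ∫⁻ z : PhasePoint × NodeP, G z = ∫⁻ z, G' z := by
    rw [← mp_arr1.lintegral_comp hG'm]
    rfl
  have hG2m : Measurable fun z : Space3 × ((ℝ × Space3) × (Space3 × Plane)) =>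
      G' (z.1 - c z.2, z.2) :=
    hG'm.comp ((measurable_fst.sub (hcm.comp measurable_snd)).prodMk measurable_snd)
  rw [e1, ← lintegral_shift hcm hG'm, ← mp_arr2.lintegral_comp hG2m]
  refine lintegral_congr fun z => ?_
  simp only [hG', hc, arr2, sibLine]
  rw [sub_add_eq_sub_sub]

/-! ### The identity -/

theorem lintegral_assoc3 {α β γ : Type*} [MeasureSpace α] [MeasureSpace β] [MeasureSpace γ]
    [SFinite (volume : Measure α)] [SFinite (volume : Measure β)] [SFinite (volume : Measure γ)]
    {F : α × (β × γ) → ℝ≥0∞} (hF : Measurable F) :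
    ∫⁻ z, F z = ∫⁻ z : α × β, ∫⁻ y : γ, F (z.1, (z.2, y)) := by
  have h2 : Measurable fun z : (α × β) × γ => F (z.1.1, (z.1.2, z.2)) :=
    hF.comp (by fun_prop)
  have h3 : Measurable fun z : α × β => ∫⁻ y : γ, F (z.1, (z.2, y)) := h2.lintegral_prod_right'
  rw [Tree674.lintegral_pair hF, Tree674.lintegral_pair h3]
  refine lintegral_congr fun d => ?_
  have h4 : Measurable fun q : β × γ => F (d, q) := hF.comp (measurable_const.prodMk measurable_id)
  exact Tree674.lintegral_pair h4

theorem lintegral_fib_top (l r : CTree) {F : BLine × Fib (Mk.top l r) → ℝ≥0∞} (hF : Measurable F) :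
    ∫⁻ z : BLine × Fib (Mk.top l r), F z =
      ∫⁻ z : BLine × (Space3 × Plane), ∫⁻ y : Par l × Par r,
        F (z.1, ((z.2, y) : (Space3 × Plane) × (Par l × Par r))) :=
  lintegral_assoc3 (α := BLine) (β := Space3 × Plane) (γ := Par l × Par r) hF

theorem lintegral_fib_inl {l : CTree} (m : Mk l) (r : CTree)
    {F : BLine × Fib (Mk.inl m r) → ℝ≥0∞} (hF : Measurable F) :
    ∫⁻ z : BLine × Fib (Mk.inl m r), F z =
      ∫⁻ z : BLine × Fib m, ∫⁻ y : NodeP × Par r, F (z.1, ((z.2, y) : Fib m × (NodeP × Par r))) :=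
  lintegral_assoc3 (α := BLine) (β := Fib m) (γ := NodeP × Par r) hF

theorem lintegral_fib_inr (l : CTree) {r : CTree} (m : Mk r)
    {F : BLine × Fib (Mk.inr l m) → ℝ≥0∞} (hF : Measurable F) :
    ∫⁻ z : BLine × Fib (Mk.inr l m), F z =
      ∫⁻ z : BLine × Fib m, ∫⁻ y : NodeP × Par l, F (z.1, ((z.2, y) : Fib m × (NodeP × Par l))) :=
  lintegral_assoc3 (α := BLine) (β := Fib m) (γ := NodeP × Par l) hF

/-- **Re-rooting at a marked exit line.** -/
theorem reroot (hΦ : AdmissiblePotential Φ) {ε : ℝ} (hε : 0 < ε) (T : ℝ) :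
    {P : CTree} → (m : Mk P) → {H : PhasePoint × Par P → ℝ≥0∞} → Measurable H →
    ∫⁻ z : PhasePoint × Par P, vw Φ ε P T z * H z =
      ∫⁻ z : BLine × Fib m, vf Φ ε T m z * H (psi Φ ε T m z)
  | _, .top l r, H, hH => by
      have hF : Measurable fun z : PhasePoint × Par (node l r) => vw Φ ε (node l r) T z * H z :=
        (measurable_vw hΦ ε (node l r) T).mul hH
      set G : PhasePoint × NodeP → ℝ≥0∞ := fun z => ∫⁻ y : Par l × Par r,
        vw Φ ε (node l r) T (z.1, ((z.2, y) : Par (node l r))) *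
          H (z.1, ((z.2, y) : Par (node l r))) with hG
      have hF2 : Measurable fun z : (PhasePoint × NodeP) × (Par l × Par r) =>
          vw Φ ε (node l r) T (z.1.1, ((z.1.2, z.2) : Par (node l r))) *
          H (z.1.1, ((z.1.2, z.2) : Par (node l r))) :=
        hF.comp (measurable_fst.fst.prodMk
          ((measurable_parMk l r).comp (measurable_fst.snd.prodMk measurable_snd)))
      have hGm : Measurable G := hF2.lintegral_prod_right'
      have e1 : ∫⁻ z : PhasePoint × Par (node l r), vw Φ ε (node l r) T z * H z = ∫⁻ z, G z := by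
        rw [Tree674.lintegral_pair hF, Tree674.lintegral_pair hGm]
        refine lintegral_congr fun ℓ => ?_
        have hFℓ : Measurable fun y : Par (node l r) => vw Φ ε (node l r) T (ℓ, y) * H (ℓ, y) :=
          hF.comp (measurable_const.prodMk measurable_id)
        exact lintegral_par_node l r hFℓ
      have hR : Measurable fun z : BLine × Fib (Mk.top l r) =>
          vf Φ ε T (.top l r) z * H (psi Φ ε T (.top l r) z) :=
        (measurable_vf hΦ hε T (.top l r)).mul (hH.comp (measurable_psi hΦ hε T (.top l r)))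
      rw [e1, lintegral_sib ε hGm, lintegral_fib_top l r hR]
      rfl
  | _, .inl (l := l) m r, H, hH => by
      have mo := measurable_outD hΦ hε T
      have ms := measurable_sinM hΦ ε
      have mvl := measurable_vw hΦ ε l T
      have mvr := measurable_vw hΦ ε r T
      have hF : Measurable fun z : PhasePoint × Par (node l r) => vw Φ ε (node l r) T z * H z :=
        (measurable_vw hΦ ε (node l r) T).mul hH
      -- the function `L`
      set L : ((PhasePoint × NodeP) × (PhasePoint × PhasePoint)) × (Par l × Par r) → ℝ≥0∞ :=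
        fun w => (topI l (sinM Φ ε w.1.1, w.2.1) * vw Φ ε l T (w.1.2.1, w.2.1)) *
          (topI r (sinM Φ ε w.1.1, w.2.2) * vw Φ ε r T (w.1.2.2, w.2.2)) *
          H (w.1.1.1, ((w.1.1.2, w.2) : Par (node l r))) with hLdef
      have m11 : Measurable fun w : ((PhasePoint × NodeP) × (PhasePoint × PhasePoint)) ×
          (Par l × Par r) => w.1.1 := measurable_fst.fst
      have m121 : Measurable fun w : ((PhasePoint × NodeP) × (PhasePoint × PhasePoint)) ×
          (Par l × Par r) => w.1.2.1 := measurable_fst.snd.fst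
      have m122 : Measurable fun w : ((PhasePoint × NodeP) × (PhasePoint × PhasePoint)) ×
          (Par l × Par r) => w.1.2.2 := measurable_fst.snd.snd
      have m21 : Measurable fun w : ((PhasePoint × NodeP) × (PhasePoint × PhasePoint)) ×
          (Par l × Par r) => w.2.1 := measurable_snd.fst
      have m22 : Measurable fun w : ((PhasePoint × NodeP) × (PhasePoint × PhasePoint)) ×
          (Par l × Par r) => w.2.2 := measurable_snd.snd
      have mp : Measurable fun w : ((PhasePoint × NodeP) × (PhasePoint × PhasePoint)) ×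
          (Par l × Par r) => ((w.1.1.2, w.2) : Par (node l r)) :=
        (measurable_parMk l r).comp (m11.snd.prodMk measurable_snd)
      have hL : Measurable L := by
        refine Measurable.mul (Measurable.mul ?_ ?_) ?_
        · exact ((measurable_topI l).comp ((ms.comp m11).prodMk m21)).mul
            (mvl.comp (m121.prodMk m21))
        · exact ((measurable_topI r).comp ((ms.comp m11).prodMk m22)).mul
            (mvr.comp (m122.prodMk m22))
        · exact hH.comp (m11.fst.prodMk mp)
      set K : (PhasePoint × NodeP) × (PhasePoint × PhasePoint) → ℝ≥0∞ :=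
        fun w => ∫⁻ y : Par l × Par r, L (w, y) with hKdef
      have hK : Measurable K := hL.lintegral_prod_right'
      -- Step 1
      have step1 : ∫⁻ z : PhasePoint × Par (node l r), vw Φ ε (node l r) T z * H z =
          ∫⁻ z : PhasePoint × NodeP, (Vset Φ ε T).indicator
            (fun z => ENNReal.ofReal ‖z.1.2 - z.2.2.1‖ * K (z, inMap Φ ε z.1 z.2)) z := by
        have hin : ∀ z : PhasePoint × NodeP, (Vset Φ ε T).indicator
            (fun z => ENNReal.ofReal ‖z.1.2 - z.2.2.1‖ * K (z, inMap Φ ε z.1 z.2)) z =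
            vI Φ ε T z * (ENNReal.ofReal ‖z.1.2 - z.2.2.1‖ * K (z, inM Φ ε z)) := by
          intro z
          unfold vI
          by_cases hz : z ∈ Vset Φ ε T
          · rw [indicator_of_mem hz, indicator_of_mem hz, inM_of_adm hz.1, Pi.one_apply, one_mul]
          · rw [indicator_of_notMem hz, indicator_of_notMem hz, zero_mul]
        simp only [hin]
        have hmz : Measurable fun z : PhasePoint × NodeP =>
            vI Φ ε T z * (ENNReal.ofReal ‖z.1.2 - z.2.2.1‖ * K (z, inM Φ ε z)) := by
          have h1 : Measurable fun z : PhasePoint × NodeP => ENNReal.ofReal ‖z.1.2 - z.2.2.1‖ := by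
            fun_prop
          exact (measurable_vI hΦ ε T).mul
            (h1.mul (hK.comp (measurable_id.prodMk (measurable_inM hΦ ε))))
        rw [Tree674.lintegral_pair hF, Tree674.lintegral_pair hmz]
        refine lintegral_congr fun ℓ => ?_
        have hFℓ : Measurable fun y : Par (node l r) => vw Φ ε (node l r) T (ℓ, y) * H (ℓ, y) :=
          hF.comp (measurable_const.prodMk measurable_id)
        rw [lintegral_par_node l r hFℓ]
        refine lintegral_congr fun a => ?_
        have hLa : Measurable fun y : Par l × Par r => L (((ℓ, a), inM Φ ε (ℓ, a)), y) :=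
          hL.comp (measurable_const.prodMk measurable_id)
        simp only [hKdef]
        rw [← lintegral_const_mul _ hLa, ← lintegral_const_mul _ (hLa.const_mul _)]
        refine lintegral_congr fun y => ?_
        have hv := vw_node hε (Φ := Φ) (l := l) (r := r) (T := T) ℓ a y.1 y.2
        have hv' : vw Φ ε (node l r) T (ℓ, ((a, y) : Par (node l r))) = _ := hv
        rw [hv']
        simp only [hLdef]
        ring
      -- Step 2: flip
      have step2 := flipL hΦ hε T hK
      -- Step 3: reorder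
      set G : (PhasePoint × Par l) × (NodeP × Par r) → ℝ≥0∞ := fun w =>
        (gL Φ ε T (w.1.1, w.2.1) * ENNReal.ofReal ‖w.1.1.2 - w.2.1.2.1‖ *
          topI l (w.2.1.1, w.1.2) *
          (topI r (w.2.1.1, w.2.2) * vw Φ ε r T (inLine ε w.1.1 w.2.1, w.2.2))) *
          H ((outD Φ ε T (w.1.1, inLine ε w.1.1 w.2.1)).1,
            (((outD Φ ε T (w.1.1, inLine ε w.1.1 w.2.1)).2, (w.1.2, w.2.2)) : Par (node l r)))
        with hGdef
      have hG : Measurable G := by
        have n11 : Measurable fun w : (PhasePoint × Par l) × (NodeP × Par r) => w.1.1 :=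
          measurable_fst.fst
        have n12 : Measurable fun w : (PhasePoint × Par l) × (NodeP × Par r) => w.1.2 :=
          measurable_fst.snd
        have n21 : Measurable fun w : (PhasePoint × Par l) × (NodeP × Par r) => w.2.1 :=
          measurable_snd.fst
        have n22 : Measurable fun w : (PhasePoint × Par l) × (NodeP × Par r) => w.2.2 :=
          measurable_snd.snd
        have ho := mo.comp ((measurable_pairL ε).comp (n11.prodMk n21))
        refine Measurable.mul (Measurable.mul (Measurable.mul (Measurable.mul ?_ ?_) ?_)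
          (Measurable.mul ?_ ?_)) ?_
        · exact (measurable_gL hΦ hε T).comp (n11.prodMk n21)
        · exact (n11.snd.sub n21.snd.fst).norm.ennreal_ofReal
        · exact (measurable_topI l).comp (n21.fst.prodMk n12)
        · exact (measurable_topI r).comp (n21.fst.prodMk n22)
        · exact mvr.comp (((measurable_inLine ε).comp (n11.prodMk n21)).prodMk n22)
        · exact hH.comp (ho.fst.prodMk ((measurable_parMk l r).comp
            (ho.snd.prodMk (n12.prodMk n22))))
      have step3 : ∫⁻ z : PhasePoint × NodeP, (GoodL Φ ε T).indicator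
          (fun z => ENNReal.ofReal ‖z.1.2 - z.2.2.1‖ *
            K (outD Φ ε T (z.1, inLine ε z.1 z.2), (z.1, inLine ε z.1 z.2))) z =
          ∫⁻ z1 : PhasePoint × Par l, vw Φ ε l T z1 * ∫⁻ z2 : NodeP × Par r, G (z1, z2) := by
        have hin : ∀ z : PhasePoint × NodeP, (GoodL Φ ε T).indicator
          (fun z => ENNReal.ofReal ‖z.1.2 - z.2.2.1‖ *
            K (outD Φ ε T (z.1, inLine ε z.1 z.2), (z.1, inLine ε z.1 z.2))) z =
            ∫⁻ y : Par l × Par r, vw Φ ε l T (z.1, y.1) * G ((z.1, y.1), (z.2, y.2)) := by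
          intro z
          by_cases hz : z ∈ GoodL Φ ε T
          · rw [indicator_of_mem hz]
            have hLa : Measurable fun y : Par l × Par r =>
                L ((outD Φ ε T (z.1, inLine ε z.1 z.2), (z.1, inLine ε z.1 z.2)), y) :=
              hL.comp (measurable_const.prodMk measurable_id)
            simp only [hKdef]
            rw [← lintegral_const_mul _ hLa]
            refine lintegral_congr fun y => ?_
            have hsin : sinM Φ ε (outD Φ ε T (z.1, inLine ε z.1 z.2)) = z.2.1 := by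
              rw [sinM_of_adm hz.2.1]
              exact sin_of_mem_GoodL hΦ hε hz
            have hg : gL Φ ε T (z.1, z.2) = 1 := by
              unfold gL
              rw [indicator_of_mem (show (z.1, z.2) ∈ GoodL Φ ε T from hz)]
              rfl
            simp only [hLdef, hGdef, hsin, hg]
            ring
          · rw [indicator_of_notMem hz]
            have hg : gL Φ ε T (z.1, z.2) = 0 := by
              unfold gL
              exact indicator_of_notMem (show (z.1, z.2) ∉ GoodL Φ ε T from hz) _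
            simp only [hGdef, hg]
            simp
        simp only [hin]
        have hL2 : Measurable fun w : (PhasePoint × NodeP) × (Par l × Par r) =>
            vw Φ ε l T (w.1.1, w.2.1) * G ((w.1.1, w.2.1), (w.1.2, w.2.2)) := by
          have k1 : Measurable fun w : (PhasePoint × NodeP) × (Par l × Par r) => (w.1.1, w.2.1) :=
            measurable_fst.fst.prodMk measurable_snd.fst
          have k2 : Measurable fun w : (PhasePoint × NodeP) × (Par l × Par r) => (w.1.2, w.2.2) :=
            measurable_fst.snd.prodMk measurable_snd.snd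
          exact (mvl.comp k1).mul (hG.comp (k1.prodMk k2))
        have h4 := lintegral_four (volume : Measure PhasePoint) (volume : Measure NodeP)
          (volume : Measure (Par l)) (volume : Measure (Par r)) hL2
        rw [← Measure.volume_eq_prod, ← Measure.volume_eq_prod, ← Measure.volume_eq_prod,
          ← Measure.volume_eq_prod] at h4
        rw [h4]
        refine lintegral_congr fun z1 => ?_
        have hGz : Measurable fun z2 : NodeP × Par r => G (z1, z2) :=
          hG.comp (measurable_const.prodMk measurable_id)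
        rw [← lintegral_const_mul _ hGz]
      -- Step 4: induction hypothesis
      have hG2 : Measurable fun z1 : PhasePoint × Par l => ∫⁻ z2 : NodeP × Par r, G (z1, z2) :=
        hG.lintegral_prod_right'
      have ih := reroot hΦ hε T m hG2
      have hR : Measurable fun z : BLine × Fib (Mk.inl m r) =>
          vf Φ ε T (.inl m r) z * H (psi Φ ε T (.inl m r) z) :=
        (measurable_vf hΦ hε T (.inl m r)).mul (hH.comp (measurable_psi hΦ hε T (.inl m r)))
      rw [step1, step2, step3, ih, lintegral_fib_inl m r hR]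
      refine lintegral_congr fun z => ?_
      have hGz : Measurable fun z2 : NodeP × Par r => G (psi Φ ε T m z, z2) :=
        hG.comp (measurable_const.prodMk measurable_id)
      rw [← lintegral_const_mul _ hGz]
      refine lintegral_congr fun y => ?_
      have e1 : vf Φ ε T (Mk.inl m r) (z.1, ((z.2, y) : Fib m × (NodeP × Par r))) =
          vf Φ ε T m z * (gL Φ ε T ((psi Φ ε T m z).1, y.1) *
            ENNReal.ofReal ‖(psi Φ ε T m z).1.2 - y.1.2.1‖ *
            topI l (y.1.1, (psi Φ ε T m z).2) *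
            (topI r (y.1.1, y.2) * vw Φ ε r T (inLine ε (psi Φ ε T m z).1 y.1, y.2))) := rfl
      have e2 : psi Φ ε T (Mk.inl m r) (z.1, ((z.2, y) : Fib m × (NodeP × Par r))) =
          ((outD Φ ε T ((psi Φ ε T m z).1, inLine ε (psi Φ ε T m z).1 y.1)).1,
            (((outD Φ ε T ((psi Φ ε T m z).1, inLine ε (psi Φ ε T m z).1 y.1)).2,
              ((psi Φ ε T m z).2, y.2)) : Par (node l r))) := rfl
      rw [e1, e2]
      exact (mul_assoc _ _ _).symm
  | _, .inr l (r := r) m, H, hH => by
      have mo := measurable_outD hΦ hε T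
      have ms := measurable_sinM hΦ ε
      have mvl := measurable_vw hΦ ε l T
      have mvr := measurable_vw hΦ ε r T
      have hF : Measurable fun z : PhasePoint × Par (node l r) => vw Φ ε (node l r) T z * H z :=
        (measurable_vw hΦ ε (node l r) T).mul hH
      -- the function `L`
      set L : ((PhasePoint × NodeP) × (PhasePoint × PhasePoint)) × (Par r × Par l) → ℝ≥0∞ :=
        fun w => (topI r (sinM Φ ε w.1.1, w.2.1) * vw Φ ε r T (w.1.2.2, w.2.1)) *
          (topI l (sinM Φ ε w.1.1, w.2.2) * vw Φ ε l T (w.1.2.1, w.2.2)) *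
          H (w.1.1.1, ((w.1.1.2, (w.2.2, w.2.1)) : Par (node l r))) with hLdef
      have m11 : Measurable fun w : ((PhasePoint × NodeP) × (PhasePoint × PhasePoint)) ×
          (Par r × Par l) => w.1.1 := measurable_fst.fst
      have m121 : Measurable fun w : ((PhasePoint × NodeP) × (PhasePoint × PhasePoint)) ×
          (Par r × Par l) => w.1.2.1 := measurable_fst.snd.fst
      have m122 : Measurable fun w : ((PhasePoint × NodeP) × (PhasePoint × PhasePoint)) ×
          (Par r × Par l) => w.1.2.2 := measurable_fst.snd.snd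
      have m21 : Measurable fun w : ((PhasePoint × NodeP) × (PhasePoint × PhasePoint)) ×
          (Par r × Par l) => w.2.1 := measurable_snd.fst
      have m22 : Measurable fun w : ((PhasePoint × NodeP) × (PhasePoint × PhasePoint)) ×
          (Par r × Par l) => w.2.2 := measurable_snd.snd
      have mp : Measurable fun w : ((PhasePoint × NodeP) × (PhasePoint × PhasePoint)) ×
          (Par r × Par l) => ((w.1.1.2, (w.2.2, w.2.1)) : Par (node l r)) :=
        (measurable_parMk l r).comp (m11.snd.prodMk (m22.prodMk m21))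
      have hL : Measurable L := by
        refine Measurable.mul (Measurable.mul ?_ ?_) ?_
        · exact ((measurable_topI r).comp ((ms.comp m11).prodMk m21)).mul
            (mvr.comp (m122.prodMk m21))
        · exact ((measurable_topI l).comp ((ms.comp m11).prodMk m22)).mul
            (mvl.comp (m121.prodMk m22))
        · exact hH.comp (m11.fst.prodMk mp)
      set K : (PhasePoint × NodeP) × (PhasePoint × PhasePoint) → ℝ≥0∞ :=
        fun w => ∫⁻ y : Par r × Par l, L (w, y) with hKdef
      have hK : Measurable K := hL.lintegral_prod_right'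
      -- Step 1
      have step1 : ∫⁻ z : PhasePoint × Par (node l r), vw Φ ε (node l r) T z * H z =
          ∫⁻ z : PhasePoint × NodeP, (Vset Φ ε T).indicator
            (fun z => ENNReal.ofReal ‖z.1.2 - z.2.2.1‖ * K (z, inMap Φ ε z.1 z.2)) z := by
        have hin : ∀ z : PhasePoint × NodeP, (Vset Φ ε T).indicator
            (fun z => ENNReal.ofReal ‖z.1.2 - z.2.2.1‖ * K (z, inMap Φ ε z.1 z.2)) z =
            vI Φ ε T z * (ENNReal.ofReal ‖z.1.2 - z.2.2.1‖ * K (z, inM Φ ε z)) := by
          intro z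
          unfold vI
          by_cases hz : z ∈ Vset Φ ε T
          · rw [indicator_of_mem hz, indicator_of_mem hz, inM_of_adm hz.1, Pi.one_apply, one_mul]
          · rw [indicator_of_notMem hz, indicator_of_notMem hz, zero_mul]
        simp only [hin]
        have hmz : Measurable fun z : PhasePoint × NodeP =>
            vI Φ ε T z * (ENNReal.ofReal ‖z.1.2 - z.2.2.1‖ * K (z, inM Φ ε z)) := by
          have h1 : Measurable fun z : PhasePoint × NodeP => ENNReal.ofReal ‖z.1.2 - z.2.2.1‖ := by
            fun_prop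
          exact (measurable_vI hΦ ε T).mul
            (h1.mul (hK.comp (measurable_id.prodMk (measurable_inM hΦ ε))))
        rw [Tree674.lintegral_pair hF, Tree674.lintegral_pair hmz]
        refine lintegral_congr fun ℓ => ?_
        have hFℓ : Measurable fun y : Par (node l r) => vw Φ ε (node l r) T (ℓ, y) * H (ℓ, y) :=
          hF.comp (measurable_const.prodMk measurable_id)
        rw [lintegral_par_node l r hFℓ]
        refine lintegral_congr fun a => ?_
        have hLa : Measurable fun y : Par r × Par l => L (((ℓ, a), inM Φ ε (ℓ, a)), y) :=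
          hL.comp (measurable_const.prodMk measurable_id)
        have hsw : ∫⁻ y : Par l × Par r, vw Φ ε (node l r) T (ℓ, ((a, y) : Par (node l r))) *
              H (ℓ, ((a, y) : Par (node l r))) =
            ∫⁻ y : Par r × Par l, vw Φ ε (node l r) T (ℓ, ((a, y.swap) : Par (node l r))) *
              H (ℓ, ((a, y.swap) : Par (node l r))) := by
          have hm : Measurable fun y : Par l × Par r =>
              vw Φ ε (node l r) T (ℓ, ((a, y) : Par (node l r))) *
              H (ℓ, ((a, y) : Par (node l r))) :=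
            hFℓ.comp ((measurable_parMk l r).comp (measurable_const.prodMk measurable_id))
          exact ((Measure.measurePreserving_swap (μ := (volume : Measure (Par r)))
            (ν := (volume : Measure (Par l)))).lintegral_comp hm).symm
        rw [hsw]
        simp only [hKdef]
        rw [← lintegral_const_mul _ hLa, ← lintegral_const_mul _ (hLa.const_mul _)]
        refine lintegral_congr fun y => ?_
        have hv := vw_node hε (Φ := Φ) (l := l) (r := r) (T := T) ℓ a y.2 y.1
        have hv' : vw Φ ε (node l r) T (ℓ, ((a, y.swap) : Par (node l r))) = _ := hv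
        rw [hv']
        simp only [hLdef, Prod.swap]
        ring
      -- Step 2: flip
      have step2 := flipR hΦ hε T hK
      -- Step 3: reorder
      set G : (PhasePoint × Par r) × (NodeP × Par l) → ℝ≥0∞ := fun w =>
        (gR Φ ε T (w.1.1, w.2.1) * ENNReal.ofReal ‖w.1.1.2 - w.2.1.2.1‖ *
          topI r (w.2.1.1, w.1.2) *
          (topI l (w.2.1.1, w.2.2) * vw Φ ε l T (inLine ε w.1.1 w.2.1, w.2.2))) *
          H ((outD Φ ε T (inLine ε w.1.1 w.2.1, w.1.1)).1,
            (((outD Φ ε T (inLine ε w.1.1 w.2.1, w.1.1)).2, (w.2.2, w.1.2)) : Par (node l r)))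
        with hGdef
      have hG : Measurable G := by
        have n11 : Measurable fun w : (PhasePoint × Par r) × (NodeP × Par l) => w.1.1 :=
          measurable_fst.fst
        have n12 : Measurable fun w : (PhasePoint × Par r) × (NodeP × Par l) => w.1.2 :=
          measurable_fst.snd
        have n21 : Measurable fun w : (PhasePoint × Par r) × (NodeP × Par l) => w.2.1 :=
          measurable_snd.fst
        have n22 : Measurable fun w : (PhasePoint × Par r) × (NodeP × Par l) => w.2.2 :=
          measurable_snd.snd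
        have ho := mo.comp ((measurable_pairR ε).comp (n11.prodMk n21))
        refine Measurable.mul (Measurable.mul (Measurable.mul (Measurable.mul ?_ ?_) ?_)
          (Measurable.mul ?_ ?_)) ?_
        · exact (measurable_gR hΦ hε T).comp (n11.prodMk n21)
        · exact (n11.snd.sub n21.snd.fst).norm.ennreal_ofReal
        · exact (measurable_topI r).comp (n21.fst.prodMk n12)
        · exact (measurable_topI l).comp (n21.fst.prodMk n22)
        · exact mvl.comp (((measurable_inLine ε).comp (n11.prodMk n21)).prodMk n22)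
        · exact hH.comp (ho.fst.prodMk ((measurable_parMk l r).comp
            (ho.snd.prodMk (n22.prodMk n12))))
      have step3 : ∫⁻ z : PhasePoint × NodeP, (GoodR Φ ε T).indicator
          (fun z => ENNReal.ofReal ‖z.1.2 - z.2.2.1‖ *
            K (outD Φ ε T (inLine ε z.1 z.2, z.1), (inLine ε z.1 z.2, z.1))) z =
          ∫⁻ z1 : PhasePoint × Par r, vw Φ ε r T z1 * ∫⁻ z2 : NodeP × Par l, G (z1, z2) := by
        have hin : ∀ z : PhasePoint × NodeP, (GoodR Φ ε T).indicator
          (fun z => ENNReal.ofReal ‖z.1.2 - z.2.2.1‖ *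
            K (outD Φ ε T (inLine ε z.1 z.2, z.1), (inLine ε z.1 z.2, z.1))) z =
            ∫⁻ y : Par r × Par l, vw Φ ε r T (z.1, y.1) * G ((z.1, y.1), (z.2, y.2)) := by
          intro z
          by_cases hz : z ∈ GoodR Φ ε T
          · rw [indicator_of_mem hz]
            have hLa : Measurable fun y : Par r × Par l =>
                L ((outD Φ ε T (inLine ε z.1 z.2, z.1), (inLine ε z.1 z.2, z.1)), y) :=
              hL.comp (measurable_const.prodMk measurable_id)
            simp only [hKdef]
            rw [← lintegral_const_mul _ hLa]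
            refine lintegral_congr fun y => ?_
            have hsin : sinM Φ ε (outD Φ ε T (inLine ε z.1 z.2, z.1)) = z.2.1 := by
              rw [sinM_of_adm hz.2.1]
              exact sin_of_mem_GoodR hΦ hε hz
            have hg : gR Φ ε T (z.1, z.2) = 1 := by
              unfold gR
              rw [indicator_of_mem (show (z.1, z.2) ∈ GoodR Φ ε T from hz)]
              rfl
            simp only [hLdef, hGdef, hsin, hg]
            ring
          · rw [indicator_of_notMem hz]
            have hg : gR Φ ε T (z.1, z.2) = 0 := by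
              unfold gR
              exact indicator_of_notMem (show (z.1, z.2) ∉ GoodR Φ ε T from hz) _
            simp only [hGdef, hg]
            simp
        simp only [hin]
        have hL2 : Measurable fun w : (PhasePoint × NodeP) × (Par r × Par l) =>
            vw Φ ε r T (w.1.1, w.2.1) * G ((w.1.1, w.2.1), (w.1.2, w.2.2)) := by
          have k1 : Measurable fun w : (PhasePoint × NodeP) × (Par r × Par l) => (w.1.1, w.2.1) :=
            measurable_fst.fst.prodMk measurable_snd.fst
          have k2 : Measurable fun w : (PhasePoint × NodeP) × (Par r × Par l) => (w.1.2, w.2.2) :=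
            measurable_fst.snd.prodMk measurable_snd.snd
          exact (mvr.comp k1).mul (hG.comp (k1.prodMk k2))
        have h4 := lintegral_four (volume : Measure PhasePoint) (volume : Measure NodeP)
          (volume : Measure (Par r)) (volume : Measure (Par l)) hL2
        rw [← Measure.volume_eq_prod, ← Measure.volume_eq_prod, ← Measure.volume_eq_prod,
          ← Measure.volume_eq_prod] at h4
        rw [h4]
        refine lintegral_congr fun z1 => ?_
        have hGz : Measurable fun z2 : NodeP × Par l => G (z1, z2) :=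
          hG.comp (measurable_const.prodMk measurable_id)
        rw [← lintegral_const_mul _ hGz]
      -- Step 4: induction hypothesis
      have hG2 : Measurable fun z1 : PhasePoint × Par r => ∫⁻ z2 : NodeP × Par l, G (z1, z2) :=
        hG.lintegral_prod_right'
      have ih := reroot hΦ hε T m hG2
      have hR : Measurable fun z : BLine × Fib (Mk.inr l m) =>
          vf Φ ε T (.inr l m) z * H (psi Φ ε T (.inr l m) z) :=
        (measurable_vf hΦ hε T (.inr l m)).mul (hH.comp (measurable_psi hΦ hε T (.inr l m)))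
      rw [step1, step2, step3, ih, lintegral_fib_inr l m hR]
      refine lintegral_congr fun z => ?_
      have hGz : Measurable fun z2 : NodeP × Par l => G (psi Φ ε T m z, z2) :=
        hG.comp (measurable_const.prodMk measurable_id)
      rw [← lintegral_const_mul _ hGz]
      refine lintegral_congr fun y => ?_
      have e1 : vf Φ ε T (Mk.inr l m) (z.1, ((z.2, y) : Fib m × (NodeP × Par l))) =
          vf Φ ε T m z * (gR Φ ε T ((psi Φ ε T m z).1, y.1) *
            ENNReal.ofReal ‖(psi Φ ε T m z).1.2 - y.1.2.1‖ *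
            topI r (y.1.1, (psi Φ ε T m z).2) *
            (topI l (y.1.1, y.2) * vw Φ ε l T (inLine ε (psi Φ ε T m z).1 y.1, y.2))) := rfl
      have e2 : psi Φ ε T (Mk.inr l m) (z.1, ((z.2, y) : Fib m × (NodeP × Par l))) =
          ((outD Φ ε T (inLine ε (psi Φ ε T m z).1 y.1, (psi Φ ε T m z).1)).1,
            (((outD Φ ε T (inLine ε (psi Φ ε T m z).1 y.1, (psi Φ ε T m z).1)).2,
              (y.2, (psi Φ ε T m z).2)) : Par (node l r))) := rfl
      rw [e1, e2]
      exact (mul_assoc _ _ _).symm

end Crest.Agent.R122.Mark307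

end
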