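import Crest.Agent.R122.CausalMeas_291
import Crest.Agent.R122.CausalGenInf_291

-- ▼ part R122/MeasE_416
section

/-!
# Measurability of forward closures, first times and quenched functionals (row 122, helper416)

* `CF0 f` : random function, continuous in time and measurable in `ω`.
* `RCE E` : random closed event `E : Ω → ℝ → Prop` (`E ω s ↔ f ω s ≤ 0` with `CF0 f`). Closed under
  finite conjunctions, disjunctions, quantifiers, forward closures; every jointly measurable,
  closed and time-monotone event is an `RCE`.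
* `Fwd S L a s k` : `k` is reached before time `s` by the forward exploration with sources
  `S r k` (at time `r ≥ a`, the particle `k` is a source) and links `L r l k`.
* `first a T E` : first time of an event in `[a, T]` (`T + 1` if none), a measurable function.
* `RCE.past_root`, `RCE.past_obs`, `RCE.msize` : backward clusters, marked sizes.
-/

set_option autoImplicit false

open Set Filter Topology MeasureTheory
open Crest.AnalysisR.Kinetic
open Crest.Agent.R122.Flow671 Crest.Agent.R122.Causal291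
open scoped ENNReal

namespace Crest.Agent.R122.MeasE416

/-! ### Random functions -/

section cf

variable {Ω : Type*} [MeasurableSpace Ω] {ι : Type*}

/-- Continuous in time, measurable in `ω`. -/
structure CF0 (f : Ω → ℝ → ℝ) : Prop where
  cont : ∀ ω, Continuous (f ω)
  meas : ∀ s, Measurable fun ω => f ω s

theorem CF0.joint {f : Ω → ℝ → ℝ} (hf : CF0 f) : Measurable fun p : ℝ × Ω => f p.2 p.1 := by
  have h1 : Measurable (Function.uncurry fun (s : ℝ) (ω : Ω) => f ω s) :=
    measurable_uncurry_of_continuous_of_measurable (u := fun (s : ℝ) (ω : Ω) => f ω s)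
      (fun ω => hf.cont ω) hf.meas
  exact h1

theorem CF0.min {f g : Ω → ℝ → ℝ} (hf : CF0 f) (hg : CF0 g) :
    CF0 fun ω s => min (f ω s) (g ω s) :=
  ⟨fun ω => (hf.cont ω).min (hg.cont ω), fun s => (hf.meas s).min (hg.meas s)⟩

theorem CF0.max {f g : Ω → ℝ → ℝ} (hf : CF0 f) (hg : CF0 g) :
    CF0 fun ω s => max (f ω s) (g ω s) :=
  ⟨fun ω => (hf.cont ω).max (hg.cont ω), fun s => (hf.meas s).max (hg.meas s)⟩

theorem CF0.const {c : Ω → ℝ} (hc : Measurable c) : CF0 fun ω _ => c ω :=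
  ⟨fun _ => continuous_const, fun _ => hc⟩

theorem CF0.sub {f g : Ω → ℝ → ℝ} (hf : CF0 f) (hg : CF0 g) : CF0 fun ω s => f ω s - g ω s :=
  ⟨fun ω => (hf.cont ω).sub (hg.cont ω), fun s => (hf.meas s).sub (hg.meas s)⟩

theorem CF0.time : CF0 fun (_ : Ω) (s : ℝ) => s :=
  ⟨fun _ => continuous_id, fun _ => measurable_const⟩

theorem CF0.comap {Ω' : Type*} [MeasurableSpace Ω'] {f : Ω → ℝ → ℝ} (hf : CF0 f) {T : Ω' → Ω}
    (hT : Measurable T) : CF0 fun ω s => f (T ω) s :=
  ⟨fun ω => hf.cont (T ω), fun s => (hf.meas s).comp hT⟩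

end cf

/-! ### Random closed events -/

section rce

variable {Ω : Type*} [MeasurableSpace Ω] {ι : Type*}

/-- Random closed event. -/
def RCE (E : Ω → ℝ → Prop) : Prop := ∃ f : Ω → ℝ → ℝ, CF0 f ∧ ∀ ω s, E ω s ↔ f ω s ≤ 0

namespace RCE

variable {E F : Ω → ℝ → Prop}

theorem of_le {f : Ω → ℝ → ℝ} (hf : CF0 f) (c : ℝ) : RCE fun ω s => f ω s ≤ c :=
  ⟨_, hf.sub (CF0.const measurable_const), fun ω s => by
    change f ω s ≤ c ↔ f ω s - c ≤ 0
    rw [sub_nonpos]⟩

theorem congr (h : RCE E) (he : ∀ ω s, F ω s ↔ E ω s) : RCE F := by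
  obtain ⟨f, hf, h⟩ := h
  exact ⟨f, hf, fun ω s => (he ω s).trans (h ω s)⟩

theorem isClosed (h : RCE E) (ω : Ω) : IsClosed {s | E ω s} := by
  obtain ⟨f, hf, h⟩ := h
  simp only [h]
  exact isClosed_le (hf.cont ω) continuous_const

theorem measurableSet (h : RCE E) (s : ℝ) : MeasurableSet {ω | E ω s} := by
  obtain ⟨f, hf, h⟩ := h
  simp only [h]
  exact measurableSet_le (hf.meas s) measurable_const

theorem joint (h : RCE E) : MeasurableSet {p : ℝ × Ω | E p.2 p.1} := by
  obtain ⟨f, hf, h⟩ := h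
  simp only [h]
  exact measurableSet_le hf.joint measurable_const

/-- The event at a measurable random time is measurable. -/
theorem measurableSet_at (h : RCE E) {τ : Ω → ℝ} (hτ : Measurable τ) :
    MeasurableSet {ω | E ω (τ ω)} :=
  (hτ.prodMk measurable_id) h.joint

theorem and (h : RCE E) (h' : RCE F) : RCE fun ω s => E ω s ∧ F ω s := by
  obtain ⟨f, hf, h⟩ := h
  obtain ⟨g, hg, h'⟩ := h'
  exact ⟨_, hf.max hg, fun ω s => by
    change (E ω s ∧ F ω s) ↔ Max.max (f ω s) (g ω s) ≤ 0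
    rw [h, h', max_le_iff]⟩

theorem or (h : RCE E) (h' : RCE F) : RCE fun ω s => E ω s ∨ F ω s := by
  obtain ⟨f, hf, h⟩ := h
  obtain ⟨g, hg, h'⟩ := h'
  exact ⟨_, hf.min hg, fun ω s => by
    change (E ω s ∨ F ω s) ↔ Min.min (f ω s) (g ω s) ≤ 0
    rw [h, h', min_le_iff]⟩

theorem const {A : Ω → Prop} (hA : MeasurableSet {ω | A ω}) : RCE fun ω _ => A ω := by
  classical
  refine ⟨_, CF0.const (c := fun ω => if A ω then (0 : ℝ) else 1)
    (Measurable.ite hA measurable_const measurable_const), fun ω s => ?_⟩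
  by_cases h : A ω <;> simp [h]

theorem const' (A : Prop) : RCE fun (_ : Ω) _ => A := const (MeasurableSet.const A)

theorem le_time {τ : Ω → ℝ} (hτ : Measurable τ) : RCE fun ω s => τ ω ≤ s :=
  ⟨_, (CF0.const hτ).sub CF0.time, fun ω s => by
    change τ ω ≤ s ↔ τ ω - s ≤ 0
    rw [sub_nonpos]⟩

theorem time_le {τ : Ω → ℝ} (hτ : Measurable τ) : RCE fun ω s => s ≤ τ ω :=
  ⟨_, CF0.time.sub (CF0.const hτ), fun ω s => by
    change s ≤ τ ω ↔ s - τ ω ≤ 0
    rw [sub_nonpos]⟩

theorem comap {Ω' : Type*} [MeasurableSpace Ω'] (h : RCE E) {T : Ω' → Ω} (hT : Measurable T) :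
    RCE fun ω s => E (T ω) s := by
  obtain ⟨f, hf, h⟩ := h
  exact ⟨_, hf.comap hT, fun ω s => h (T ω) s⟩

theorem exists_finset {κ : Type*} (A : Finset κ) {E : κ → Ω → ℝ → Prop} (h : ∀ k ∈ A, RCE (E k)) :
    RCE fun ω s => ∃ k ∈ A, E k ω s := by
  classical
  induction A using Finset.induction_on with
  | empty => simpa using const' (Ω := Ω) False
  | insert a A ha ih =>
    have h1 := h a (Finset.mem_insert_self a A)
    have h2 := ih fun k hk => h k (Finset.mem_insert_of_mem hk)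
    refine (h1.or h2).congr fun ω s => ?_
    simp

theorem forall_finset {κ : Type*} (A : Finset κ) {E : κ → Ω → ℝ → Prop} (h : ∀ k ∈ A, RCE (E k)) :
    RCE fun ω s => ∀ k ∈ A, E k ω s := by
  classical
  induction A using Finset.induction_on with
  | empty => simpa using const' (Ω := Ω) True
  | insert a A ha ih =>
    have h1 := h a (Finset.mem_insert_self a A)
    have h2 := ih fun k hk => h k (Finset.mem_insert_of_mem hk)
    refine (h1.and h2).congr fun ω s => ?_
    simp

theorem exists_finite {κ : Type*} [Finite κ] {E : κ → Ω → ℝ → Prop} (h : ∀ k, RCE (E k)) :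
    RCE fun ω s => ∃ k, E k ω s := by
  have := Fintype.ofFinite κ
  refine (exists_finset Finset.univ (E := E) fun k _ => h k).congr fun ω s => ?_
  simp

theorem forall_finite {κ : Type*} [Finite κ] {E : κ → Ω → ℝ → Prop} (h : ∀ k, RCE (E k)) :
    RCE fun ω s => ∀ k, E k ω s := by
  have := Fintype.ofFinite κ
  refine (forall_finset Finset.univ (E := E) fun k _ => h k).congr fun ω s => ?_
  simp

/-- Events "at some time of a random compact interval" are measurable. -/
theorem existsIcc (h : RCE E) {α β : Ω → ℝ} (hα : Measurable α) (hβ : Measurable β) :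
    MeasurableSet {ω | ∃ s ∈ Icc (α ω) (β ω), E ω s} := by
  obtain ⟨f, hf, h⟩ := h
  simp only [h]
  exact measurableSet_exists_Icc hα hβ hf.cont hf.meas 0


/-- A bounded infimum of countably many uniformly Lipschitz random functions. -/
theorem _root_.Crest.Agent.R122.MeasE416.CF0.iInf_lipschitz {κ : Type*} [Countable κ] [Nonempty κ]
    {f : κ → Ω → ℝ → ℝ}
    (hlip : ∀ k ω s t, f k ω s ≤ f k ω t + |s - t|) (hnn : ∀ k ω s, 0 ≤ f k ω s)
    (hm : ∀ k s, Measurable fun ω => f k ω s) : CF0 fun ω s => ⨅ k, f k ω s := by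
  have hb : ∀ ω s, BddBelow (range fun k => f k ω s) := fun ω s => ⟨0, by
    rintro _ ⟨k, rfl⟩; exact hnn k ω s⟩
  have h1 : ∀ ω s t, (⨅ k, f k ω s) ≤ (⨅ k, f k ω t) + |s - t| := by
    intro ω s t
    rw [← sub_le_iff_le_add]
    refine le_ciInf fun k => ?_
    have h2 := ciInf_le (hb ω s) k
    have h3 := hlip k ω s t
    linarith
  refine ⟨fun ω => ?_, fun s => ?_⟩
  · have : LipschitzWith 1 fun s => ⨅ k, f k ω s := by
      refine LipschitzWith.of_dist_le_mul fun s t => ?_
      rw [Real.dist_eq, Real.dist_eq, NNReal.coe_one, one_mul, abs_sub_le_iff]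
      constructor
      · linarith [h1 ω s t]
      · have := h1 ω t s
        rw [abs_sub_comm] at this
        linarith
    exact this.continuous
  · exact Measurable.iInf fun k => hm k s

/-- Every measurable, closed, time-increasing event is a random closed event. -/
theorem of_mono (hm : ∀ s, MeasurableSet {ω | E ω s}) (hc : ∀ ω, IsClosed {s | E ω s})
    (hmono : ∀ ω s s', E ω s → s ≤ s' → E ω s') : RCE E := by
  classical
  set f : ℚ → Ω → ℝ → ℝ := fun q ω s => if E ω q then Max.max ((q : ℝ) - s) 0 else 1 with hf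
  -- minimum with one keeps the function bounded, and the Lipschitz property
  set g : ℚ → Ω → ℝ → ℝ := fun q ω s => Min.min (f q ω s) 1 with hg
  have hlip : ∀ q ω s t, g q ω s ≤ g q ω t + |s - t| := by
    intro q ω s t
    have h0 : 0 ≤ |s - t| := abs_nonneg _
    have h1 : f q ω s ≤ f q ω t + |s - t| := by
      simp only [hf]
      split_ifs with h
      · refine max_le ?_ ?_
        · have h2 := le_max_left ((q : ℝ) - t) 0
          have h3 := neg_abs_le (s - t)
          linarith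
        · have h2 := le_max_right ((q : ℝ) - t) 0
          linarith
      · linarith
    simp only [hg]
    rcases le_total (f q ω t) 1 with h2 | h2
    · rw [min_eq_left h2]
      exact (min_le_left _ _).trans h1
    · rw [min_eq_right h2]
      exact (min_le_right _ _).trans (by linarith)
  have hnn : ∀ q ω s, 0 ≤ g q ω s := by
    intro q ω s
    simp only [hg, hf]
    split_ifs with h
    · exact le_min (le_max_right _ _) zero_le_one
    · simp
  have hgm : ∀ q s, Measurable fun ω => g q ω s := by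
    intro q s
    simp only [hg, hf]
    exact (Measurable.ite (hm q) measurable_const measurable_const).min measurable_const
  refine ⟨_, CF0.iInf_lipschitz (f := g) hlip hnn hgm, fun ω s => ?_⟩
  have hb : BddBelow (range fun q => g q ω s) := ⟨0, by rintro _ ⟨k, rfl⟩; exact hnn k ω s⟩
  constructor
  · intro h
    refine le_of_forall_pos_lt_add fun δ hδ => ?_
    obtain ⟨q, hq1, hq2⟩ := exists_rat_btwn (show s < s + δ by linarith)
    refine lt_of_le_of_lt (ciInf_le hb q) ?_
    have h2 : f q ω s = q - s := by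
      simp only [hf, if_pos (hmono ω s q h hq1.le)]
      exact max_eq_left (by linarith)
    refine lt_of_le_of_lt (min_le_left _ _) ?_
    rw [h2]
    linarith
  · intro h
    by_contra hno
    -- a neighbourhood of `s` is free
    have hopen : {r | E ω r}ᶜ ∈ 𝓝 s := (hc ω).isOpen_compl.mem_nhds hno
    obtain ⟨δ, hδ, hball⟩ := Metric.mem_nhds_iff.1 hopen
    have h2 : Min.min δ 1 ≤ ⨅ q, g q ω s := by
      refine le_ciInf fun q => ?_
      simp only [hg, hf]
      split_ifs with hq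
      · refine min_le_min ?_ le_rfl
        refine le_trans ?_ (le_max_left _ _)
        by_contra hlt
        push Not at hlt
        rcases le_total (q : ℝ) s with h3 | h3
        · exact hno (hmono ω q s hq h3)
        · have : (q : ℝ) ∈ Metric.ball s δ := by
            rw [Metric.mem_ball, Real.dist_eq, abs_of_nonneg (by linarith)]
            exact hlt
          exact hball this hq
      · exact le_min (min_le_right _ _) (min_le_right _ _)
    have h3 : 0 < Min.min δ 1 := lt_min hδ zero_lt_one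
    linarith


end RCE

end rce

/-! ### Forward closure -/

section fwd

variable {ι : Type*}

/-- Forward exploration with sources `S` and links `L`, started at time `a`. -/
inductive Fwd (S : ℝ → ι → Prop) (L : ℝ → ι → ι → Prop) (a : ℝ) : ℝ → ι → Prop
  | src {r s : ℝ} {k : ι} (ha : a ≤ r) (h : S r k) (hs : r ≤ s) : Fwd S L a s k
  | link {r s : ℝ} {l k : ι} (h : Fwd S L a r l) (hc : L r l k) (hs : r ≤ s) : Fwd S L a s k

/-- Forward exploration with at most `m` links. -/
def FwdN (S : ℝ → ι → Prop) (L : ℝ → ι → ι → Prop) (a : ℝ) : ℕ → ℝ → ι → Prop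
  | 0, s, k => ∃ r, a ≤ r ∧ r ≤ s ∧ S r k
  | m + 1, s, k => FwdN S L a m s k ∨ ∃ r l, r ≤ s ∧ FwdN S L a m r l ∧ L r l k

variable {S : ℝ → ι → Prop} {L : ℝ → ι → ι → Prop} {a : ℝ}

theorem Fwd.mono {s s' : ℝ} {k : ι} (h : Fwd S L a s k) (hs : s ≤ s') : Fwd S L a s' k := by
  cases h with
  | src ha h hr => exact .src ha h (hr.trans hs)
  | link h hc hr => exact .link h hc (hr.trans hs)

theorem Fwd.le {s : ℝ} {k : ι} (h : Fwd S L a s k) : a ≤ s := by
  induction h with
  | src ha _ hr => exact ha.trans hr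
  | link _ _ hs ih => exact ih.trans hs

theorem Fwd.imp {S' : ℝ → ι → Prop} {L' : ℝ → ι → ι → Prop} {a' : ℝ} (ha' : a' ≤ a)
    (hS : ∀ r k, a ≤ r → S r k → S' r k) (hL : ∀ r l k, a ≤ r → L r l k → L' r l k)
    {s : ℝ} {k : ι} (h : Fwd S L a s k) : Fwd S' L' a' s k := by
  induction h with
  | src ha h hr => exact .src (ha'.trans ha) (hS _ _ ha h) hr
  | link h hc hr ih => exact .link ih (hL _ _ _ h.le hc) hr

/-- Composition: if every source after `a'` is reached, then the second exploration is contained in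
the first one. -/
theorem Fwd.trans {S' : ℝ → ι → Prop} {a' : ℝ} (hS : ∀ r k, a' ≤ r → S' r k → Fwd S L a r k)
    {s : ℝ} {k : ι} (h : Fwd S' L a' s k) : Fwd S L a s k := by
  induction h with
  | src ha h hr => exact (hS _ _ ha h).mono hr
  | link _ hc hr ih => exact .link ih hc hr

theorem FwdN.fwd {m : ℕ} {s : ℝ} {k : ι} (h : FwdN S L a m s k) : Fwd S L a s k := by
  induction m generalizing s k with
  | zero =>
    obtain ⟨r, ha, hr, h⟩ := h
    exact .src ha h hr
  | succ m ih =>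
    rcases h with h | ⟨r, l, hr, h, hc⟩
    · exact ih h
    · exact .link (ih h) hc hr

theorem fwd_iff_exists_fwdN {s : ℝ} {k : ι} : Fwd S L a s k ↔ ∃ m, FwdN S L a m s k := by
  constructor
  · intro h
    induction h with
    | src ha h hs => exact ⟨0, _, ha, hs, h⟩
    | link _ hc hs ih =>
      obtain ⟨m, hm⟩ := ih
      exact ⟨m + 1, Or.inr ⟨_, _, hs, hm, hc⟩⟩
  · rintro ⟨m, hm⟩
    exact hm.fwd

theorem FwdN.mono {m : ℕ} {s s' : ℝ} {k : ι} (h : FwdN S L a m s k) (hs : s ≤ s') :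
    FwdN S L a m s' k := by
  induction m generalizing s k with
  | zero =>
    obtain ⟨r, ha, hr, h⟩ := h
    exact ⟨r, ha, hr.trans hs, h⟩
  | succ m ih =>
    rcases h with h | ⟨r, l, hr, h, hc⟩
    · exact Or.inl (ih h hs)
    · exact Or.inr ⟨r, l, hr.trans hs, h, hc⟩

/-- First entrance after `σ`. -/
theorem Fwd.enter {σ s : ℝ} {k : ι} (h : Fwd S L a s k) (hk : ¬ Fwd S L a σ k) :
    ∃ s' k', σ < s' ∧ s' ≤ s ∧ ¬ Fwd S L a σ k' ∧
      (S s' k' ∨ ∃ l, Fwd S L a σ l ∧ L s' l k') := by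
  induction h with
  | @src r s k ha h hs =>
    have h1 : σ < r := by
      by_contra hle
      push Not at hle
      exact hk (.src ha h hle)
    exact ⟨r, k, h1, hs, hk, Or.inl h⟩
  | @link r s l k h hc hs ih =>
    by_cases hl : Fwd S L a σ l
    · have h1 : σ < r := by
        by_contra hle
        push Not at hle
        exact hk (.link h hc hle)
      exact ⟨r, k, h1, hs, hk, Or.inr ⟨l, hl, hc⟩⟩
    · obtain ⟨s'', k', h1, h2, h3, h4⟩ := ih hl
      exact ⟨s'', k', h1, h2.trans hs, h3, h4⟩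

/-- The forward closure is closed in time. -/
theorem isClosed_fwd [Finite ι] (hS : ∀ k, IsClosed {s | S s k})
    (hL : ∀ l k, IsClosed {s | L s l k}) (a : ℝ) (k : ι) : IsClosed {s | Fwd S L a s k} := by
  rw [← isSeqClosed_iff_isClosed]
  intro u σ hu hlim
  have hσ : a ≤ σ := ge_of_tendsto' hlim fun n => (hu n).le
  by_contra hk
  change ¬ Fwd S L a σ k at hk
  have hlt : ∀ n, σ < u n := by
    intro n
    by_contra h
    push Not at h
    exact hk (Fwd.mono (hu n) h)
  have hex : ∀ n, ∃ (p : ι × Option ι) (s' : ℝ), σ < s' ∧ s' ≤ u n ∧ ¬ Fwd S L a σ p.1 ∧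
      (match p.2 with
        | none => S s' p.1
        | some l => Fwd S L a σ l ∧ L s' l p.1) := by
    intro n
    obtain ⟨s', k', h1, h2, h3, h4⟩ := Fwd.enter (hu n) hk
    rcases h4 with h4 | ⟨l, hl, hc⟩
    · exact ⟨(k', none), s', h1, h2, h3, h4⟩
    · exact ⟨(k', some l), s', h1, h2, h3, hl, hc⟩
  choose p s' h1 h2 h3 h4 using hex
  have hs' : Tendsto s' atTop (𝓝 σ) :=
    tendsto_of_tendsto_of_tendsto_of_le_of_le tendsto_const_nhds hlim (fun n => (h1 n).le) h2
  obtain ⟨q, hq⟩ := Finite.exists_infinite_fiber p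
  have hinf : Set.Infinite (p ⁻¹' {q}) := Set.infinite_coe_iff.1 hq
  obtain ⟨φ, hφ, hφ'⟩ := Filter.extraction_of_frequently_atTop
    (Nat.frequently_atTop_iff_infinite.2 hinf)
  have hlim' : Tendsto (fun n => s' (φ n)) atTop (𝓝 σ) := hs'.comp hφ.tendsto_atTop
  have hpq : ∀ n, p (φ n) = q := fun n => hφ' n
  obtain ⟨k', j'⟩ := q
  have h3' : ¬ Fwd S L a σ k' := by
    have := h3 (φ 0)
    rwa [hpq 0] at this
  have h4' : ∀ n, (match j' with
        | none => S (s' (φ n)) k'
        | some l => Fwd S L a σ l ∧ L (s' (φ n)) l k') := by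
    intro n
    have := h4 (φ n)
    rw [hpq n] at this
    exact this
  apply h3'
  rcases j' with - | l
  · exact .src hσ ((hS k').mem_of_tendsto hlim' (Eventually.of_forall fun n => h4' n)) le_rfl
  · exact .link (h4' 0).1 ((hL l k').mem_of_tendsto hlim'
      (Eventually.of_forall fun n => (h4' n).2)) le_rfl

/-- The backward cluster through forward paths. -/
theorem past_iff_fwd {C : ℝ → ι → ι → Prop} {t s : ℝ} {i k : ι} :
    Past C t i s k ↔ Fwd (fun _ l => l = k) (fun r l m => C r m l) s t i := by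
  constructor
  · intro h
    induction h with
    | root h => exact .src le_rfl rfl h
    | @step s s' j l h hc hs ih =>
      refine Fwd.trans (fun r k' hr hk' => ?_) ih
      subst hk'
      exact Fwd.link (.src hs rfl le_rfl) hc hr
  · intro h
    induction h with
    | @src r t k' ha h hs =>
      subst h
      exact .root (ha.trans hs)
    | @link r t l m h hc hs ih =>
      have h1 : Past C t m r l := Past.contact (.root hs) hc
      exact h1.trans ih

end fwd

/-! ### Measurability of closures -/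

section fwdMeas

variable {Ω : Type*} [MeasurableSpace Ω] {ι : Type*} [Finite ι]
variable {S : Ω → ℝ → ι → Prop} {L : Ω → ℝ → ι → ι → Prop}

theorem RCE.fwdN (hS : ∀ k, RCE fun ω s => S ω s k) (hL : ∀ l k, RCE fun ω s => L ω s l k)
    {a : Ω → ℝ} (ha : Measurable a) (m : ℕ) (k : ι) :
    RCE fun ω s => FwdN (S ω) (L ω) (a ω) m s k := by
  induction m generalizing k with
  | zero =>
    refine RCE.of_mono (fun s => ?_) (fun ω => ?_) (fun ω s s' h hs => FwdN.mono h hs)
    · have : {ω | FwdN (S ω) (L ω) (a ω) 0 s k} = {ω | ∃ r ∈ Icc (a ω) s, S ω r k} := by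
        ext ω
        constructor
        · rintro ⟨r, h1, h2, h3⟩; exact ⟨r, ⟨h1, h2⟩, h3⟩
        · rintro ⟨r, ⟨h1, h2⟩, h3⟩; exact ⟨r, h1, h2, h3⟩
      rw [this]
      exact (hS k).existsIcc ha measurable_const
    · have : {s | FwdN (S ω) (L ω) (a ω) 0 s k} =
          {s | Fwd (S ω) (fun _ _ _ => False) (a ω) s k} := by
        ext s
        constructor
        · rintro ⟨r, h1, h2, h3⟩; exact .src h1 h3 h2
        · intro h
          cases h with
          | src h1 h2 h3 => exact ⟨_, h1, h3, h2⟩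
          | link _ h _ => exact h.elim
      rw [this]
      exact isClosed_fwd (fun k => (hS k).isClosed ω) (fun _ _ => by simp) _ _
  | succ m ih =>
    have h1 : ∀ l, RCE fun ω s => ∃ r, r ≤ s ∧ FwdN (S ω) (L ω) (a ω) m r l ∧ L ω r l k := by
      intro l
      have h2 := (ih l).and (hL l k)
      refine RCE.of_mono (fun s => ?_) (fun ω => ?_) (fun ω s s' h hs => ?_)
      · have : {ω | ∃ r, r ≤ s ∧ FwdN (S ω) (L ω) (a ω) m r l ∧ L ω r l k} =
            {ω | ∃ r ∈ Icc (a ω) s, FwdN (S ω) (L ω) (a ω) m r l ∧ L ω r l k} := by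
          ext ω
          constructor
          · rintro ⟨r, h1, h2, h3⟩; exact ⟨r, ⟨h2.fwd.le, h1⟩, h2, h3⟩
          · rintro ⟨r, ⟨h1, h2⟩, h3, h4⟩; exact ⟨r, h2, h3, h4⟩
        rw [this]
        exact h2.existsIcc ha measurable_const
      · have : {s | ∃ r, r ≤ s ∧ FwdN (S ω) (L ω) (a ω) m r l ∧ L ω r l k} =
            {s | Fwd (fun r (_ : Unit) => FwdN (S ω) (L ω) (a ω) m r l ∧ L ω r l k)
              (fun _ _ _ => False) (a ω) s ()} := by
          ext s
          constructor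
          · rintro ⟨r, h1, h2, h3⟩; exact .src h2.fwd.le ⟨h2, h3⟩ h1
          · intro h
            cases h with
            | src h1 h2 h3 => exact ⟨_, h3, h2.1, h2.2⟩
            | link _ h _ => exact h.elim
        rw [this]
        exact isClosed_fwd (fun _ => h2.isClosed ω) (fun _ _ => by simp) _ _
      · obtain ⟨r, h1, h2, h3⟩ := h
        exact ⟨r, h1.trans hs, h2, h3⟩
    refine ((ih k).or (RCE.exists_finite h1)).congr fun ω s => ?_
    constructor
    · rintro (h | ⟨r, l, h1, h2, h3⟩)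
      · exact Or.inl h
      · exact Or.inr ⟨l, r, h1, h2, h3⟩
    · rintro (h | ⟨l, r, h1, h2, h3⟩)
      · exact Or.inl h
      · exact Or.inr ⟨r, l, h1, h2, h3⟩

/-- **Forward closures** of random closed sources and links are random closed events. -/
theorem RCE.fwd (hS : ∀ k, RCE fun ω s => S ω s k) (hL : ∀ l k, RCE fun ω s => L ω s l k)
    {a : Ω → ℝ} (ha : Measurable a) (k : ι) : RCE fun ω s => Fwd (S ω) (L ω) (a ω) s k := by
  refine RCE.of_mono (fun s => ?_) (fun ω => ?_) (fun ω s s' h hs => h.mono hs)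
  · have : {ω | Fwd (S ω) (L ω) (a ω) s k} = ⋃ m, {ω | FwdN (S ω) (L ω) (a ω) m s k} := by
      ext ω
      simp only [mem_iUnion, mem_ofPred_eq]
      exact fwd_iff_exists_fwdN
    rw [this]
    exact MeasurableSet.iUnion fun m => (RCE.fwdN hS hL ha m k).measurableSet s
  · exact isClosed_fwd (fun k => (hS k).isClosed ω) (fun l k => (hL l k).isClosed ω) _ _

variable {C : Ω → ℝ → ι → ι → Prop}

/-- Backward clusters as functions of the root time. -/
theorem RCE.past_root (hC : ∀ j k, RCE fun ω s => C ω s j k) {σ : Ω → ℝ} (hσ : Measurable σ)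
    (i k : ι) : RCE fun ω t => Past (C ω) t i (σ ω) k := by
  have h1 := RCE.fwd (S := fun (_ : Ω) _ l => l = k) (L := fun ω r l m => C ω r m l)
    (fun l => RCE.const' (l = k)) (fun l m => hC m l) hσ i
  exact h1.congr fun ω t => past_iff_fwd



end fwdMeas

/-! ### First times -/

section first

variable {Ω : Type*} [MeasurableSpace Ω]

/-- First time of an event in `[a, T]`, and `T + 1` if there is none. -/
noncomputable def first (a T : ℝ) (E : ℝ → Prop) : ℝ :=
  open scoped Classical in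
  if ∃ s ∈ Icc a T, E s then sInf {s | s ∈ Icc a T ∧ E s} else T + 1

theorem first_le_iff {a T : ℝ} {E : ℝ → Prop} (hE : IsClosed {s | E s}) {s : ℝ} (hs : s ≤ T) :
    first a T E ≤ s ↔ ∃ r ∈ Icc a s, E r := by
  classical
  unfold first
  by_cases hex : ∃ s ∈ Icc a T, E s
  · rw [if_pos hex]
    have hcl : IsClosed {s | s ∈ Icc a T ∧ E s} := isClosed_Icc.inter hE
    have hbd : BddBelow {s | s ∈ Icc a T ∧ E s} := ⟨a, fun s hs => hs.1.1⟩
    constructor
    · intro h
      obtain ⟨s₁, hs₁, hs₁'⟩ := hex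
      have hmem := hcl.csInf_mem ⟨s₁, hs₁, hs₁'⟩ hbd
      exact ⟨_, ⟨hmem.1.1, h⟩, hmem.2⟩
    · rintro ⟨r, hr, hEr⟩
      exact (csInf_le hbd ⟨⟨hr.1, hr.2.trans hs⟩, hEr⟩).trans hr.2
  · rw [if_neg hex]
    constructor
    · intro h
      linarith
    · rintro ⟨r, hr, hEr⟩
      exact absurd ⟨r, ⟨hr.1, hr.2.trans hs⟩, hEr⟩ hex



theorem le_first {a T : ℝ} {E : ℝ → Prop} (haT : a ≤ T) : a ≤ first a T E := by
  classical
  unfold first
  split_ifs with h
  · obtain ⟨s, hs, hE⟩ := h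
    exact le_csInf ⟨s, hs, hE⟩ fun s hs => hs.1.1
  · linarith

theorem measurable_first {E : Ω → ℝ → Prop} (hE : RCE E) {a T : Ω → ℝ} (ha : Measurable a)
    (hT : Measurable T) : Measurable fun ω => first (a ω) (T ω) (E ω) := by
  refine measurable_of_Iic fun c => ?_
  have key : (fun ω => first (a ω) (T ω) (E ω)) ⁻¹' Iic c =
      {ω | ∃ r ∈ Icc (a ω) (min c (T ω)), E ω r} ∪ ({ω | T ω + 1 ≤ c} ∩
        {ω | ∃ r ∈ Icc (a ω) (T ω), E ω r}ᶜ) := by
    ext ω
    simp only [mem_preimage, mem_Iic, mem_union, mem_ofPred_eq, mem_inter_iff, mem_compl_iff]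
    by_cases hex : ∃ s ∈ Icc (a ω) (T ω), E ω s
    · rcases le_total c (T ω) with hc | hc
      · rw [min_eq_left hc, ← first_le_iff (hE.isClosed ω) hc]
        exact ⟨fun h => Or.inl h, fun h => h.elim id fun h' => absurd hex h'.2⟩
      · rw [min_eq_right hc]
        constructor
        · intro _; exact Or.inl hex
        · intro _
          have := (first_le_iff (hE.isClosed ω) (a := a ω) (le_refl (T ω))).2 hex
          exact this.trans hc
    · have h1 : first (a ω) (T ω) (E ω) = T ω + 1 := by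
        unfold first
        rw [if_neg hex]
      have h2 : ¬ ∃ r ∈ Icc (a ω) (min c (T ω)), E ω r := by
        rintro ⟨r, hr, h⟩
        exact hex ⟨r, ⟨hr.1, hr.2.trans (min_le_right _ _)⟩, h⟩
      rw [h1]
      simp only [h2, false_or, hex, not_false_eq_true, and_true]
  rw [key]
  refine (hE.existsIcc ha (measurable_const.min hT)).union
    ((measurableSet_le (hT.add_const 1) measurable_const).inter (hE.existsIcc ha hT).compl)

end first

/-! ### Marked sizes of backward clusters -/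

section msize

variable {Ω : Type*} [MeasurableSpace Ω] {ι : Type*} [Fintype ι]

/-- Marked size of the backward cluster of `i` at time `t` (down to the time `σ`). -/
noncomputable def msz (C : ℝ → ι → ι → Prop) (m : ι → ℕ) (σ t : ℝ) (i : ι) : ℕ :=
  open scoped Classical in
  ∑ k, if Past C t i σ k then m k else 0

theorem lt_msz_iff (C : ℝ → ι → ι → Prop) (m : ι → ℕ) (σ t : ℝ) (i : ι) (K : ℕ) :
    K < msz C m σ t i ↔ ∃ A : Finset ι, (∀ k ∈ A, Past C t i σ k) ∧ K < ∑ k ∈ A, m k := by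
  classical
  constructor
  · intro h
    refine ⟨Finset.univ.filter fun k => Past C t i σ k, fun k hk => (Finset.mem_filter.1 hk).2, ?_⟩
    rwa [Finset.sum_filter]
  · rintro ⟨A, hA, h⟩
    refine h.trans_le ?_
    unfold msz
    rw [← Finset.sum_filter]
    exact Finset.sum_le_sum_of_subset fun k hk =>
      Finset.mem_filter.2 ⟨Finset.mem_univ k, hA k hk⟩

/-- The status "marked size of the backward cluster larger than `K`" is a random closed event. -/
theorem RCE.lt_msz {C : Ω → ℝ → ι → ι → Prop} (hC : ∀ j k, RCE fun ω s => C ω s j k)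
    {m : Ω → ι → ℕ} (hm : ∀ k, Measurable fun ω => m ω k) {σ : Ω → ℝ} (hσ : Measurable σ)
    (i : ι) (K : ℕ) : RCE fun ω t => K < msz (C ω) (m ω) (σ ω) t i := by
  refine (RCE.exists_finite (κ := Finset ι) (E := fun A ω t =>
    (∀ k ∈ A, Past (C ω) t i (σ ω) k) ∧ K < ∑ k ∈ A, m ω k) fun A => ?_).congr
    fun ω t => lt_msz_iff _ _ _ _ _ _
  refine (RCE.forall_finset A fun k _ => RCE.past_root hC hσ i k).and (RCE.const ?_)
  exact measurableSet_lt measurable_const (Finset.measurable_sum A fun k _ => hm k)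

theorem measurable_msz {C : Ω → ℝ → ι → ι → Prop} (hC : ∀ j k, RCE fun ω s => C ω s j k)
    {m : Ω → ι → ℕ} (hm : ∀ k, Measurable fun ω => m ω k) {σ τ : Ω → ℝ} (hσ : Measurable σ)
    (hτ : Measurable τ) (i : ι) : Measurable fun ω => msz (C ω) (m ω) (σ ω) (τ ω) i := by
  classical
  unfold msz
  refine Finset.measurable_sum _ fun k _ => Measurable.ite ?_ (hm k) measurable_const
  exact (RCE.past_root hC hσ i k).measurableSet_at hτ


end msize

/-! ### Quenched functionals -/

section quenched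

variable {Ω : Type*} [MeasurableSpace Ω] {Λ : Type*} [MeasurableSpace Λ]

/-- `X(s) = μ {ℓ | θ(ω, ℓ) ≤ s}`. -/
theorem measurable_X {μ : Measure Λ} [SFinite μ] {θ : Ω → Λ → ℝ}
    (hθ : Measurable fun p : Ω × Λ => θ p.1 p.2) :
    Measurable fun p : ℝ × Ω => μ {ℓ | θ p.2 ℓ ≤ p.1} := by
  have h1 : MeasurableSet {q : (ℝ × Ω) × Λ | θ q.1.2 q.2 ≤ q.1.1} :=
    measurableSet_le (hθ.comp ((measurable_snd.comp measurable_fst).prodMk measurable_snd))
      (measurable_fst.comp measurable_fst)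
  exact measurable_measure_prodMk_left h1

/-- `X(s-) = μ {ℓ | θ(ω, ℓ) < s}`. -/
theorem measurable_X_left {μ : Measure Λ} [SFinite μ] {θ : Ω → Λ → ℝ}
    (hθ : Measurable fun p : Ω × Λ => θ p.1 p.2) :
    Measurable fun p : ℝ × Ω => μ {ℓ | θ p.2 ℓ < p.1} := by
  have h1 : MeasurableSet {q : (ℝ × Ω) × Λ | θ q.1.2 q.2 < q.1.1} :=
    measurableSet_lt (hθ.comp ((measurable_snd.comp measurable_fst).prodMk measurable_snd))
      (measurable_fst.comp measurable_fst)
  exact measurable_measure_prodMk_left h1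


end quenched

end Crest.Agent.R122.MeasE416
end

-- ▼ part R122/MeasS_416

/-!
# Random sigma-closed events (row 122, helper416)

The contact relation with births `CtB` (captain's decision 2 (a)) is not closed for arbitrary data
(two particles born at the same instant are not in contact at that instant). For measurability this
is harmless: `RSE E` says that `E` is a countable union of random closed events, and this class is
stable under finite conjunctions/disjunctions/quantifiers, countable unions, forward closures,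
backward clusters; events at random times, events "at some time of a random interval" are measurable
and first times are measurable functions.

* `RSE.fut`, `RSE.touched`, `measurable_theta`: binding to `CausalGen_291`, `CausalGenInf_291`.
-/

set_option autoImplicit false

open Set Filter Topology MeasureTheory
open Crest.AnalysisR.Kinetic
open Crest.Agent.R122.Flow671 Crest.Agent.R122.Causal291
open scoped ENNReal

namespace Crest.Agent.R122.MeasE416

section rse

variable {Ω : Type*} [MeasurableSpace Ω] {ι : Type*}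

/-- Random sigma-closed event: a countable union of random closed events. -/
def RSE (E : Ω → ℝ → Prop) : Prop :=
  ∃ F : ℕ → Ω → ℝ → Prop, (∀ n, RCE (F n)) ∧ ∀ ω s, E ω s ↔ ∃ n, F n ω s

theorem RCE.rse {E : Ω → ℝ → Prop} (h : RCE E) : RSE E :=
  ⟨fun _ => E, fun _ => h, fun _ _ => ⟨fun h => ⟨0, h⟩, fun ⟨_, h⟩ => h⟩⟩

namespace RSE

variable {E F : Ω → ℝ → Prop}

theorem congr (h : RSE E) (he : ∀ ω s, F ω s ↔ E ω s) : RSE F := by
  obtain ⟨G, hG, h⟩ := h
  exact ⟨G, hG, fun ω s => (he ω s).trans (h ω s)⟩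

/-- The approximating sequence can be taken increasing. -/
theorem exists_mono (h : RSE E) : ∃ F : ℕ → Ω → ℝ → Prop, (∀ n, RCE (F n)) ∧
    (∀ m n, m ≤ n → ∀ ω s, F m ω s → F n ω s) ∧ ∀ ω s, E ω s ↔ ∃ n, F n ω s := by
  obtain ⟨G, hG, h⟩ := h
  refine ⟨fun n ω s => ∃ k ∈ Finset.range (n + 1), G k ω s, fun n =>
    RCE.exists_finset _ fun k _ => hG k, fun m n hmn ω s => ?_, fun ω s => ?_⟩
  · rintro ⟨k, hk, h⟩
    exact ⟨k, Finset.mem_range.2 ((Finset.mem_range.1 hk).trans_le (by omega)), h⟩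
  · rw [h]
    constructor
    · rintro ⟨n, hn⟩
      exact ⟨n, n, Finset.mem_range.2 (Nat.lt_succ_self n), hn⟩
    · rintro ⟨n, k, _, hk⟩
      exact ⟨k, hk⟩


theorem measurableSet (h : RSE E) (s : ℝ) : MeasurableSet {ω | E ω s} := by
  obtain ⟨G, hG, h⟩ := h
  have : {ω | E ω s} = ⋃ n, {ω | G n ω s} := by
    ext ω
    simp only [mem_iUnion, mem_ofPred_eq]
    exact h ω s
  rw [this]
  exact MeasurableSet.iUnion fun n => (hG n).measurableSet s

theorem joint (h : RSE E) : MeasurableSet {p : ℝ × Ω | E p.2 p.1} := by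
  obtain ⟨G, hG, h⟩ := h
  have : {p : ℝ × Ω | E p.2 p.1} = ⋃ n, {p : ℝ × Ω | G n p.2 p.1} := by
    ext p
    simp only [mem_iUnion, mem_ofPred_eq]
    exact h p.2 p.1
  rw [this]
  exact MeasurableSet.iUnion fun n => (hG n).joint

/-- The event at a measurable random time is measurable. -/
theorem measurableSet_at (h : RSE E) {τ : Ω → ℝ} (hτ : Measurable τ) :
    MeasurableSet {ω | E ω (τ ω)} :=
  (hτ.prodMk measurable_id) h.joint

theorem and (h : RSE E) (h' : RSE F) : RSE fun ω s => E ω s ∧ F ω s := by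
  obtain ⟨G, hG, hGm, h⟩ := h.exists_mono
  obtain ⟨H, hH, hHm, h'⟩ := h'.exists_mono
  refine ⟨fun n ω s => G n ω s ∧ H n ω s, fun n => (hG n).and (hH n), fun ω s => ?_⟩
  change (E ω s ∧ F ω s) ↔ ∃ n, G n ω s ∧ H n ω s
  rw [h, h']
  constructor
  · rintro ⟨⟨m, hm⟩, n, hn⟩
    exact ⟨Max.max m n, hGm _ _ (le_max_left m n) _ _ hm, hHm _ _ (le_max_right m n) _ _ hn⟩
  · rintro ⟨n, h1, h2⟩
    exact ⟨⟨n, h1⟩, n, h2⟩

theorem or (h : RSE E) (h' : RSE F) : RSE fun ω s => E ω s ∨ F ω s := by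
  obtain ⟨G, hG, hGm, h⟩ := h.exists_mono
  obtain ⟨H, hH, hHm, h'⟩ := h'.exists_mono
  refine ⟨fun n ω s => G n ω s ∨ H n ω s, fun n => (hG n).or (hH n), fun ω s => ?_⟩
  change (E ω s ∨ F ω s) ↔ ∃ n, G n ω s ∨ H n ω s
  rw [h, h']
  constructor
  · rintro (⟨m, hm⟩ | ⟨m, hm⟩)
    · exact ⟨m, Or.inl hm⟩
    · exact ⟨m, Or.inr hm⟩
  · rintro ⟨n, h1 | h1⟩
    · exact Or.inl ⟨n, h1⟩
    · exact Or.inr ⟨n, h1⟩

theorem const {A : Ω → Prop} (hA : MeasurableSet {ω | A ω}) : RSE fun ω _ => A ω :=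
  (RCE.const hA).rse

theorem const' (A : Prop) : RSE fun (_ : Ω) _ => A := (RCE.const' A).rse

theorem le_time {τ : Ω → ℝ} (hτ : Measurable τ) : RSE fun ω s => τ ω ≤ s := (RCE.le_time hτ).rse

theorem time_le {τ : Ω → ℝ} (hτ : Measurable τ) : RSE fun ω s => s ≤ τ ω := (RCE.time_le hτ).rse

theorem lt_time {τ : Ω → ℝ} (hτ : Measurable τ) : RSE fun ω s => τ ω < s := by
  refine ⟨fun n ω s => τ ω + 1 / ((n : ℝ) + 1) ≤ s, fun n => RCE.le_time (hτ.add_const _),
    fun ω s => ?_⟩
  constructor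
  · intro h
    obtain ⟨n, hn⟩ := exists_nat_one_div_lt (sub_pos.2 h)
    exact ⟨n, by linarith⟩
  · rintro ⟨n, hn⟩
    have : (0 : ℝ) < 1 / ((n : ℝ) + 1) := by positivity
    linarith

theorem time_lt {τ : Ω → ℝ} (hτ : Measurable τ) : RSE fun ω s => s < τ ω := by
  refine ⟨fun n ω s => s ≤ τ ω - 1 / ((n : ℝ) + 1), fun n => RCE.time_le (hτ.sub_const _),
    fun ω s => ?_⟩
  constructor
  · intro h
    obtain ⟨n, hn⟩ := exists_nat_one_div_lt (sub_pos.2 h)
    exact ⟨n, by linarith⟩
  · rintro ⟨n, hn⟩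
    have : (0 : ℝ) < 1 / ((n : ℝ) + 1) := by positivity
    linarith

/-- Strict inequalities for random continuous functions. -/
theorem lt_of_CF0 {f : Ω → ℝ → ℝ} (hf : CF0 f) (c : ℝ) : RSE fun ω s => f ω s < c := by
  refine ⟨fun n ω s => f ω s ≤ c - 1 / ((n : ℝ) + 1), fun n => RCE.of_le hf _, fun ω s => ?_⟩
  constructor
  · intro h
    obtain ⟨n, hn⟩ := exists_nat_one_div_lt (sub_pos.2 h)
    exact ⟨n, by linarith⟩
  · rintro ⟨n, hn⟩
    have : (0 : ℝ) < 1 / ((n : ℝ) + 1) := by positivity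
    linarith

theorem gt_of_CF0 {f : Ω → ℝ → ℝ} (hf : CF0 f) (c : ℝ) : RSE fun ω s => c < f ω s := by
  have h1 := lt_of_CF0 ((CF0.const (Ω := Ω) (c := fun _ => (0 : ℝ)) measurable_const).sub hf) (-c)
  exact h1.congr fun ω s => by
    constructor <;> intro h <;> linarith

theorem comap {Ω' : Type*} [MeasurableSpace Ω'] (h : RSE E) {T : Ω' → Ω} (hT : Measurable T) :
    RSE fun ω s => E (T ω) s := by
  obtain ⟨G, hG, h⟩ := h
  exact ⟨fun n ω s => G n (T ω) s, fun n => (hG n).comap hT, fun ω s => h (T ω) s⟩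

theorem exists_finset {κ : Type*} (A : Finset κ) {E : κ → Ω → ℝ → Prop} (h : ∀ k ∈ A, RSE (E k)) :
    RSE fun ω s => ∃ k ∈ A, E k ω s := by
  classical
  induction A using Finset.induction_on with
  | empty => simpa using const' (Ω := Ω) False
  | insert a A ha ih =>
    have h1 := h a (Finset.mem_insert_self a A)
    have h2 := ih fun k hk => h k (Finset.mem_insert_of_mem hk)
    refine (h1.or h2).congr fun ω s => ?_
    simp

theorem forall_finset {κ : Type*} (A : Finset κ) {E : κ → Ω → ℝ → Prop} (h : ∀ k ∈ A, RSE (E k)) :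
    RSE fun ω s => ∀ k ∈ A, E k ω s := by
  classical
  induction A using Finset.induction_on with
  | empty => simpa using const' (Ω := Ω) True
  | insert a A ha ih =>
    have h1 := h a (Finset.mem_insert_self a A)
    have h2 := ih fun k hk => h k (Finset.mem_insert_of_mem hk)
    refine (h1.and h2).congr fun ω s => ?_
    simp

theorem exists_finite {κ : Type*} [Finite κ] {E : κ → Ω → ℝ → Prop} (h : ∀ k, RSE (E k)) :
    RSE fun ω s => ∃ k, E k ω s := by
  have := Fintype.ofFinite κ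
  refine (exists_finset Finset.univ (E := E) fun k _ => h k).congr fun ω s => ?_
  simp

theorem forall_finite {κ : Type*} [Finite κ] {E : κ → Ω → ℝ → Prop} (h : ∀ k, RSE (E k)) :
    RSE fun ω s => ∀ k, E k ω s := by
  have := Fintype.ofFinite κ
  refine (forall_finset Finset.univ (E := E) fun k _ => h k).congr fun ω s => ?_
  simp

/-- Restriction to particles satisfying a fixed property. -/
theorem exists_finite_and {κ : Type*} [Finite κ] {q : κ → Prop} {E : κ → Ω → ℝ → Prop}
    (h : ∀ k, RSE (E k)) : RSE fun ω s => ∃ k, q k ∧ E k ω s :=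
  exists_finite fun k => (const' (q k)).and (h k)

theorem existsIcc (h : RSE E) {α β : Ω → ℝ} (hα : Measurable α) (hβ : Measurable β) :
    MeasurableSet {ω | ∃ s ∈ Icc (α ω) (β ω), E ω s} := by
  obtain ⟨G, hG, h⟩ := h
  have : {ω | ∃ s ∈ Icc (α ω) (β ω), E ω s} = ⋃ n, {ω | ∃ s ∈ Icc (α ω) (β ω), G n ω s} := by
    ext ω
    simp only [mem_iUnion, mem_ofPred_eq]
    constructor
    · rintro ⟨s, hs, hE⟩
      obtain ⟨n, hn⟩ := (h ω s).1 hE
      exact ⟨n, s, hs, hn⟩
    · rintro ⟨n, s, hs, hn⟩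
      exact ⟨s, hs, (h ω s).2 ⟨n, hn⟩⟩
  rw [this]
  exact MeasurableSet.iUnion fun n => (hG n).existsIcc hα hβ


theorem existsIco (h : RSE E) {α β : Ω → ℝ} (hα : Measurable α) (hβ : Measurable β) :
    MeasurableSet {ω | ∃ s ∈ Ico (α ω) (β ω), E ω s} := by
  have h1 : {ω | ∃ s ∈ Ico (α ω) (β ω), E ω s} =
      {ω | ∃ s ∈ Icc (α ω) (β ω), s < β ω ∧ E ω s} := by
    ext ω
    constructor
    · rintro ⟨s, hs, h⟩; exact ⟨s, ⟨hs.1, hs.2.le⟩, hs.2, h⟩
    · rintro ⟨s, hs, h1, h⟩; exact ⟨s, ⟨hs.1, h1⟩, h⟩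
  rw [h1]
  exact ((time_lt hβ).and h).existsIcc hα hβ

theorem existsIoo (h : RSE E) {α β : Ω → ℝ} (hα : Measurable α) (hβ : Measurable β) :
    MeasurableSet {ω | ∃ s ∈ Ioo (α ω) (β ω), E ω s} := by
  have h1 : {ω | ∃ s ∈ Ioo (α ω) (β ω), E ω s} =
      {ω | ∃ s ∈ Icc (α ω) (β ω), (α ω < s ∧ s < β ω) ∧ E ω s} := by
    ext ω
    constructor
    · rintro ⟨s, hs, h⟩; exact ⟨s, ⟨hs.1.le, hs.2.le⟩, hs, h⟩
    · rintro ⟨s, hs, h1, h⟩; exact ⟨s, h1, h⟩
  rw [h1]
  exact (((lt_time hα).and (time_lt hβ)).and h).existsIcc hα hβ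


end RSE

end rse

/-! ### Closures -/

section fwd

variable {Ω : Type*} [MeasurableSpace Ω] {ι : Type*} [Finite ι]
variable {S : Ω → ℝ → ι → Prop} {L : Ω → ℝ → ι → ι → Prop}

/-- **Forward closures** of random sigma-closed sources and links are random sigma-closed events. -/
theorem RSE.fwd (hS : ∀ k, RSE fun ω s => S ω s k) (hL : ∀ l k, RSE fun ω s => L ω s l k)
    {a : Ω → ℝ} (ha : Measurable a) (k : ι) : RSE fun ω s => Fwd (S ω) (L ω) (a ω) s k := by
  choose G hG hGm hS' using fun k => (hS k).exists_mono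
  choose H hH hHm hL' using fun l k => (hL l k).exists_mono
  refine ⟨fun n ω s => Fwd (fun r k => G k n ω r) (fun r l k => H l k n ω r) (a ω) s k,
    fun n => RCE.fwd (S := fun ω r k => G k n ω r) (L := fun ω r l k => H l k n ω r)
      (fun k => hG k n) (fun l k => hH l k n) ha k, fun ω s => ?_⟩
  have hmono : ∀ m n, m ≤ n → ∀ {s k}, Fwd (fun r k => G k m ω r) (fun r l k => H l k m ω r) (a ω) s k →
      Fwd (fun r k => G k n ω r) (fun r l k => H l k n ω r) (a ω) s k := by
    intro m n hmn s k h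
    exact h.imp le_rfl (fun r k _ h => hGm k m n hmn ω r h) (fun r l k _ h => hHm l k m n hmn ω r h)
  constructor
  · intro h
    induction h with
    | @src r s k h1 h2 h3 =>
      obtain ⟨n, hn⟩ := (hS' k ω r).1 h2
      exact ⟨n, .src h1 hn h3⟩
    | @link r s l k h hc hs ih =>
      obtain ⟨n, hn⟩ := ih
      obtain ⟨m, hm⟩ := (hL' l k ω r).1 hc
      refine ⟨Max.max m n, .link (hmono _ _ (le_max_right m n) hn) ?_ hs⟩
      exact hHm l k _ _ (le_max_left m n) ω r hm
  · rintro ⟨n, hn⟩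
    exact hn.imp le_rfl (fun r k _ h => (hS' k ω r).2 ⟨n, h⟩)
      (fun r l k _ h => (hL' l k ω r).2 ⟨n, h⟩)

variable {C : Ω → ℝ → ι → ι → Prop}

/-- Backward clusters as functions of the root time. -/
theorem RSE.past_root (hC : ∀ j k, RSE fun ω s => C ω s j k) {σ : Ω → ℝ} (hσ : Measurable σ)
    (i k : ι) : RSE fun ω t => Past (C ω) t i (σ ω) k := by
  have h1 := RSE.fwd (S := fun (_ : Ω) _ l => l = k) (L := fun ω r l m => C ω r m l)
    (fun l => RSE.const' (l = k)) (fun l m => hC m l) hσ i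
  exact h1.congr fun ω t => past_iff_fwd


/-- Backward clusters at random root and observation times. -/
theorem RSE.measurableSet_past (hC : ∀ j k, RSE fun ω s => C ω s j k) {τ σ : Ω → ℝ}
    (hτ : Measurable τ) (hσ : Measurable σ) (i k : ι) :
    MeasurableSet {ω | Past (C ω) (τ ω) i (σ ω) k} :=
  (RSE.past_root hC hσ i k).measurableSet_at hτ


end fwd

/-! ### First times -/

section first

variable {Ω : Type*} [MeasurableSpace Ω]

theorem RSE.measurable_first {E : Ω → ℝ → Prop} (hE : RSE E) {a T : Ω → ℝ} (ha : Measurable a)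
    (hT : Measurable T) : Measurable fun ω => first (a ω) (T ω) (E ω) := by
  refine measurable_of_Iio fun c => ?_
  have key : (fun ω => first (a ω) (T ω) (E ω)) ⁻¹' Iio c =
      {ω | ∃ r ∈ Icc (a ω) (T ω), r < c ∧ E ω r} ∪ ({ω | T ω + 1 < c} ∩
        {ω | ∃ r ∈ Icc (a ω) (T ω), E ω r}ᶜ) := by
    ext ω
    simp only [mem_preimage, mem_Iio, mem_union, mem_ofPred_eq, mem_inter_iff, mem_compl_iff]
    by_cases hex : ∃ s ∈ Icc (a ω) (T ω), E ω s
    · have hbd : BddBelow {s | s ∈ Icc (a ω) (T ω) ∧ E ω s} := ⟨a ω, fun s hs => hs.1.1⟩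
      have hne : {s | s ∈ Icc (a ω) (T ω) ∧ E ω s}.Nonempty := hex
      have h1 : first (a ω) (T ω) (E ω) = sInf {s | s ∈ Icc (a ω) (T ω) ∧ E ω s} := by
        unfold first
        rw [if_pos hex]
      rw [h1]
      constructor
      · intro h
        obtain ⟨s, hs, hsc⟩ := exists_lt_of_csInf_lt hne h
        exact Or.inl ⟨s, hs.1, hsc, hs.2⟩
      · rintro (⟨r, hr, hrc, hEr⟩ | h)
        · exact (csInf_le hbd ⟨hr, hEr⟩).trans_lt hrc
        · exact absurd hex h.2
    · have h1 : first (a ω) (T ω) (E ω) = T ω + 1 := by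
        unfold first
        rw [if_neg hex]
      have h2 : ¬ ∃ r ∈ Icc (a ω) (T ω), r < c ∧ E ω r := by
        rintro ⟨r, hr, _, h⟩
        exact hex ⟨r, hr, h⟩
      rw [h1]
      simp only [h2, false_or, hex, not_false_eq_true, and_true]
  rw [key]
  refine MeasurableSet.union ?_ ((measurableSet_lt (hT.add_const 1) measurable_const).inter
    (hE.existsIcc ha hT).compl)
  exact ((RSE.time_lt (measurable_const (a := c))).and hE).existsIcc ha hT

end first

/-! ### Marked sizes -/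

section msize

variable {Ω : Type*} [MeasurableSpace Ω] {ι : Type*} [Fintype ι]

theorem RSE.lt_msz {C : Ω → ℝ → ι → ι → Prop} (hC : ∀ j k, RSE fun ω s => C ω s j k)
    {m : Ω → ι → ℕ} (hm : ∀ k, Measurable fun ω => m ω k) {σ : Ω → ℝ} (hσ : Measurable σ)
    (i : ι) (K : ℕ) : RSE fun ω t => K < msz (C ω) (m ω) (σ ω) t i := by
  refine (RSE.exists_finite (κ := Finset ι) (E := fun A ω t =>
    (∀ k ∈ A, Past (C ω) t i (σ ω) k) ∧ K < ∑ k ∈ A, m ω k) fun A => ?_).congr
    fun ω t => lt_msz_iff _ _ _ _ _ _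
  refine (RSE.forall_finset A fun k _ => RSE.past_root hC hσ i k).and (RSE.const ?_)
  exact measurableSet_lt measurable_const (Finset.measurable_sum A fun k _ => hm k)

theorem RSE.measurable_msz {C : Ω → ℝ → ι → ι → Prop} (hC : ∀ j k, RSE fun ω s => C ω s j k)
    {m : Ω → ι → ℕ} (hm : ∀ k, Measurable fun ω => m ω k) {σ τ : Ω → ℝ} (hσ : Measurable σ)
    (hτ : Measurable τ) (i : ι) : Measurable fun ω => msz (C ω) (m ω) (σ ω) (τ ω) i := by
  classical
  unfold msz
  refine Finset.measurable_sum _ fun k _ => Measurable.ite ?_ (hm k) measurable_const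
  exact (RSE.past_root hC hσ i k).measurableSet_at hτ

end msize

/-! ### Binding to `CausalGen_291` -/

section gen

open Crest.Agent.R122.CausalGen291

variable {ι₁ ι₂ κ : Type} {X : Type*}

/-- 291's forward closure is a forward closure `Fwd`. -/
theorem fut_iff_fwd {C₁ : ℝ → ι₁ → ι₁ → Prop} {C₂ : ℝ → ι₂ → ι₂ → Prop}
    {z₁ : ℝ → ι₁ → X} {z₂ : ℝ → ι₂ → X} {e₁ : κ → ι₁} {e₂ : κ → ι₂} {s : ℝ} {k : κ} :
    Fut C₁ z₁ C₂ z₂ e₁ e₂ s k ↔ Fwd (fun r k => z₁ 0 (e₁ k) ≠ z₂ 0 (e₂ k) ∨
      ((∃ j, j ∉ range e₁ ∧ C₁ r j (e₁ k)) ∨ ∃ j, j ∉ range e₂ ∧ C₂ r j (e₂ k)))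
      (fun r l k => C₁ r (e₁ l) (e₁ k) ∨ C₂ r (e₂ l) (e₂ k)) 0 s k := by
  constructor
  · intro h
    induction h with
    | init h hs => exact .src le_rfl (Or.inl h) hs
    | new₁ j hj hc h0 hs => exact .src h0 (Or.inr (Or.inl ⟨j, hj, hc⟩)) hs
    | new₂ j hj hc h0 hs => exact .src h0 (Or.inr (Or.inr ⟨j, hj, hc⟩)) hs
    | chain₁ _ hc hs ih => exact .link ih (Or.inl hc) hs
    | chain₂ _ hc hs ih => exact .link ih (Or.inr hc) hs
  · intro h
    induction h with
    | src ha h hs =>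
      rcases h with h | ⟨j, hj, hc⟩ | ⟨j, hj, hc⟩
      · exact .init h (ha.trans hs)
      · exact .new₁ j hj hc ha hs
      · exact .new₂ j hj hc ha hs
    | link _ hc hs ih =>
      rcases hc with hc | hc
      · exact .chain₁ ih hc hs
      · exact .chain₂ ih hc hs

variable {Ω : Type*} [MeasurableSpace Ω] [Finite ι₁] [Finite ι₂] [Finite κ]
variable {C₁ : Ω → ℝ → ι₁ → ι₁ → Prop} {C₂ : Ω → ℝ → ι₂ → ι₂ → Prop}
variable {z₁ : Ω → ℝ → ι₁ → X} {z₂ : Ω → ℝ → ι₂ → X} {e₁ : κ → ι₁} {e₂ : κ → ι₂}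

/-- The influenced set is a random sigma-closed event. -/
theorem RSE.fut (hC₁ : ∀ j k, RSE fun ω s => C₁ ω s j k) (hC₂ : ∀ j k, RSE fun ω s => C₂ ω s j k)
    (hz : ∀ k, MeasurableSet {ω | z₁ ω 0 (e₁ k) = z₂ ω 0 (e₂ k)}) (k : κ) :
    RSE fun ω s => Fut (C₁ ω) (z₁ ω) (C₂ ω) (z₂ ω) e₁ e₂ s k := by
  refine (RSE.fwd (S := fun ω r k => z₁ ω 0 (e₁ k) ≠ z₂ ω 0 (e₂ k) ∨
      ((∃ j, j ∉ range e₁ ∧ C₁ ω r j (e₁ k)) ∨ ∃ j, j ∉ range e₂ ∧ C₂ ω r j (e₂ k)))
      (L := fun ω r l k => C₁ ω r (e₁ l) (e₁ k) ∨ C₂ ω r (e₂ l) (e₂ k))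
      (a := fun _ => 0) ?_ ?_ measurable_const k).congr fun ω s => fut_iff_fwd
  · intro k
    exact (RSE.const (hz k).compl).or ((RSE.exists_finite_and fun j => hC₁ j (e₁ k)).or
      (RSE.exists_finite_and fun j => hC₂ j (e₂ k)))
  · exact fun l k => (hC₁ _ _).or (hC₂ _ _)

variable {P₁ : Ω → ℝ → ι₁ → Prop} {P₂ : Ω → ℝ → ι₂ → Prop}

/-- Touches are random sigma-closed events. -/
theorem RSE.touched (hC₁ : ∀ j k, RSE fun ω s => C₁ ω s j k)
    (hC₂ : ∀ j k, RSE fun ω s => C₂ ω s j k)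
    (hz : ∀ k, MeasurableSet {ω | z₁ ω 0 (e₁ k) = z₂ ω 0 (e₂ k)})
    (hP₁ : ∀ j, RSE fun ω s => P₁ ω s j) (hP₂ : ∀ j, RSE fun ω s => P₂ ω s j) :
    RSE fun ω s => Touched (C₁ ω) (z₁ ω) (C₂ ω) (z₂ ω) e₁ e₂ (P₁ ω) (P₂ ω) s := by
  unfold Touched
  exact (RSE.exists_finite fun k => (RSE.fut hC₁ hC₂ hz k).and ((hP₁ _).or (hP₂ _))).or
    ((RSE.exists_finite_and fun j => hP₁ j).or (RSE.exists_finite_and fun j => hP₂ j))

omit [Finite ι₁] [Finite ι₂] [Finite κ] [MeasurableSpace Ω] in
theorem theta_eq_first {C₁ : ℝ → ι₁ → ι₁ → Prop} {C₂ : ℝ → ι₂ → ι₂ → Prop}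
    {z₁ : ℝ → ι₁ → X} {z₂ : ℝ → ι₂ → X} {a T : ℝ} {P₁ : ℝ → ι₁ → Prop} {P₂ : ℝ → ι₂ → Prop} :
    CausalGen291.theta C₁ z₁ C₂ z₂ e₁ e₂ a T P₁ P₂ =
      first a T (Touched C₁ z₁ C₂ z₂ e₁ e₂ P₁ P₂) := rfl

/-- **The touch time is measurable.** -/
theorem measurable_theta (hC₁ : ∀ j k, RSE fun ω s => C₁ ω s j k)
    (hC₂ : ∀ j k, RSE fun ω s => C₂ ω s j k)
    (hz : ∀ k, MeasurableSet {ω | z₁ ω 0 (e₁ k) = z₂ ω 0 (e₂ k)})
    (hP₁ : ∀ j, RSE fun ω s => P₁ ω s j) (hP₂ : ∀ j, RSE fun ω s => P₂ ω s j)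
    {a T : Ω → ℝ} (ha : Measurable a) (hT : Measurable T) :
    Measurable fun ω => CausalGen291.theta (C₁ ω) (z₁ ω) (C₂ ω) (z₂ ω) e₁ e₂ (a ω) (T ω)
      (P₁ ω) (P₂ ω) := by
  simp only [theta_eq_first]
  exact (RSE.touched hC₁ hC₂ hz hP₁ hP₂).measurable_first ha hT

end gen

end Crest.Agent.R122.MeasE416
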