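import Crest.Agent.R122.Nu0B_566
import Crest.Agent.R122.PairReal_998
import Crest.Agent.R122.LN2Touch_473

/-!
# Row 122 (helper735), the base pair law `nuL` : lines of the structures

Structures `(z, (y, n))` : a tree `(P, z)` and a free test line `((0, y), n)` born at time `0`.

* `oneE`, `linesE` : lines and time-`0` states of the structure, measurable and translation
  equivariant, equal to `oneLs`, `lines` on the admissible trees.
* `thE` : the labelled pair of the lines `x`, `y`; `mS` : structure measure with Gaussian weights;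
  `mP`, `nuP` : restricted to the structures whose lines `x`, `y` are born before `te`; `nuL` : sum.
* `nuL_tr` : translation invariance.
-/

set_option autoImplicit false
set_option maxHeartbeats 400000
set_option linter.unusedSectionVars false

open MeasureTheory Set Filter
open scoped ENNReal Classical Topology
open Crest.AnalysisR.Kinetic
open Crest.Agent.R122.Kin796 Crest.Agent.R122.Kin796.CTree Crest.Agent.R122.Tree674
open Crest.Agent.R122.GC311 Crest.Agent.R122.EDefs602 Crest.Agent.R122.TreeLines335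
open Crest.Agent.R122.OneC285 Crest.Agent.R122.Disc416
open Crest.Agent.R122.Boost969 (LSt)
open Crest.Agent.R122.Pair292 (Lab shL shM shP)
open Crest.Agent.R122.Nu0566 (oneLsM oneLsM_of_adm measurable_oneLsM strD measurable_strD strM)

noncomputable section

namespace Crest.Agent.R122.NuL735

variable {Φ : Space3 → ℝ} {f₀ : PhasePoint → ℝ} {ε : ℝ} {K : ℕ} {P : CTree}

/-! ### Translations of trees -/

theorem lines_tr (ε : ℝ) (P : CTree) (ℓ : PhasePoint) (p : Par P) (i : Idx P) (a : Space3) :
    lines Φ ε P (ℓ.1 + a, ℓ.2) p i = ((lines Φ ε P ℓ p i).1 + a, (lines Φ ε P ℓ p i).2) := by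
  have h := Generic491.lines_boost (Φ := Φ) (ε := ε) P a 0 ℓ p i
  rw [Generic491.boostP_zero] at h
  unfold Generic491.shL at h
  simpa using h

theorem fin_tr (ε : ℝ) (P : CTree) (A : Space3) (ℓ : PhasePoint) (p : Par P) (i : Idx P) :
    PathFlow968.fin Φ ε P (Generic491.shL A 0 ℓ) p i =
      Generic491.shL A 0 (PathFlow968.fin Φ ε P ℓ p i) := by
  induction P generalizing ℓ with
  | leaf => rfl
  | node l r hl hr =>
    have e1 : (inMap Φ ε (Generic491.shL A 0 ℓ) p.1) =
        (Generic491.shL A 0 (inMap Φ ε ℓ p.1).1, Generic491.shL A 0 (inMap Φ ε ℓ p.1).2) := by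
      have := Generic491.inMap_boost (Φ := Φ) (ε := ε) A 0 ℓ p.1
      rwa [Generic491.boostN_zero] at this
    have e2 : outLine ε (Generic491.shL A 0 ℓ) p.1 = Generic491.shL A 0 (outLine ε ℓ p.1) := by
      have := Generic491.outLine_boost (ε := ε) A 0 ℓ p.1
      rwa [Generic491.boostN_zero] at this
    rcases i with i | i
    · show Function.update (PathFlow968.fin Φ ε l (inMap Φ ε (Generic491.shL A 0 ℓ) p.1).1 p.2.1)
        (root l) (Generic491.shL A 0 ℓ) i = Generic491.shL A 0 (Function.update
          (PathFlow968.fin Φ ε l (inMap Φ ε ℓ p.1).1 p.2.1) (root l) ℓ i)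
      rw [e1]
      by_cases hi : i = root l
      · rw [hi, Function.update_self, Function.update_self]
      · rw [Function.update_of_ne hi, Function.update_of_ne hi]
        exact hl _ _ _
    · show Function.update (PathFlow968.fin Φ ε r (inMap Φ ε (Generic491.shL A 0 ℓ) p.1).2 p.2.2)
        (root r) (outLine ε (Generic491.shL A 0 ℓ) p.1) i = Generic491.shL A 0 (Function.update
          (PathFlow968.fin Φ ε r (inMap Φ ε ℓ p.1).2 p.2.2) (root r) (outLine ε ℓ p.1) i)
      rw [e1, e2]
      by_cases hi : i = root r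
      · rw [hi, Function.update_self, Function.update_self]
      · rw [Function.update_of_ne hi, Function.update_of_ne hi]
        exact hr _ _ _

/-- Translation of a tree. -/
def trZ (a : Space3) (z : PhasePoint × Par P) : PhasePoint × Par P := ((z.1.1 + a, z.1.2), z.2)

theorem lineML_tr (ε : ℝ) (a : Space3) (z : PhasePoint × Par P) (i : Idx P) :
    lineML Φ ε P (trZ a z) i = shM a (lineML Φ ε P z i) := by
  have h := fin_tr (Φ := Φ) ε P a z.1 z.2 i
  have e : Generic491.shL a 0 z.1 = (z.1.1 + a, z.1.2) := by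
    unfold Generic491.shL
    rw [add_zero]
  rw [e] at h
  unfold lineML trZ shM shL
  simp only
  rw [h]
  unfold onLine Generic491.shL
  simp only [add_zero]
  rw [add_right_comm]

theorem lineL'_tr (ε s : ℝ) (a y : Space3) (q : OCout796.CD) :
    OCout796.lineL' Φ ε s (y + a) q = shL a (OCout796.lineL' Φ ε s y q) := by
  unfold OCout796.lineL' shL
  simp only
  rw [add_right_comm]

theorem lineC'_tr (ε s : ℝ) (a y : Space3) (q : OCout796.CD) :
    OCout796.lineC' Φ ε s (y + a) q = shL a (OCout796.lineC' Φ ε s y q) := by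
  unfold OCout796.lineC' shL
  simp only
  rw [add_right_comm]

theorem lineC_tr (ε s : ℝ) (a y : Space3) (q : OCout796.CD) :
    OCout796.lineC Φ ε s (y + a) q = shL a (OCout796.lineC Φ ε s y q) := by
  unfold OCout796.lineC shL
  simp only
  rw [add_right_comm]

/-- Lines of a structure under translations. -/
theorem oneLs_tr (ε : ℝ) (a : Space3) (z : PhasePoint × Par P) (l : ML) (x : Idx P ⊕ Bool) :
    oneLs Φ ε P (trZ a z) (shM a l) x = shM a (oneLs Φ ε P z l x) := by
  have h1 : OneC423.relL (trZ a z).1 (shM a l).1 = OneC423.relL z.1 l.1 := by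
    unfold OneC423.relL trZ shM shL back
    refine Prod.ext ?_ rfl
    simp only
    abel
  have hT : cT ε (trZ a z) (shM a l) = cT ε z l := by
    unfold cT
    rw [h1]
  have hD : cD ε (trZ a z) (shM a l) = cD ε z l := by
    unfold cD cB
    rw [h1]
    rfl
  have hX : cX ε (trZ a z) (shM a l) = cX ε z l + a := by
    unfold cX
    rw [hT]
    show z.1.1 + a + cT ε z l • z.1.2 = _
    rw [add_right_comm]
  rcases x with i | b
  · by_cases hi : i = root P
    · simp only [oneLs, if_pos hi]
      rw [hT, hD, hX, lineC_tr]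
      rfl
    · simp only [oneLs, if_neg hi]
      exact lineML_tr ε a z i
  · cases b
    · simp only [oneLs]
      rw [hT, hD, hX, lineL'_tr]
      rfl
    · simp only [oneLs]
      rw [hT, hD, hX, lineC'_tr]
      rfl

/-! ### Structures -/

/-- Structures: a tree, the state at time `0` and the mark of the test line. -/
abbrev Th (P : CTree) : Type := (PhasePoint × Par P) × (PhasePoint × ℕ)

/-- The test line. -/
def lnO (r : PhasePoint × ℕ) : ML := ((0, r.1), r.2)

/-- Translations. -/
def TrS (a : Space3) (q : Th P) : Th P := (trZ a q.1, ((q.2.1.1 + a, q.2.1.2), q.2.2))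


theorem measurable_lnO : Measurable lnO := by unfold lnO; fun_prop

theorem measurable_TrS : Measurable fun q : Space3 × Th P => TrS q.1 q.2 := by
  unfold TrS trZ
  fun_prop

theorem measurable_TrS_neg : Measurable fun q : Th P => TrS (-q.1.1.1) q :=
  measurable_TrS.comp ((by fun_prop : Measurable fun q : Th P => -q.1.1.1).prodMk measurable_id)

theorem TrS_neg_TrS (a : Space3) (q : Th P) :
    TrS (-(TrS a q).1.1.1) (TrS a q) = TrS (-q.1.1.1) q := by
  unfold TrS trZ
  refine Prod.ext (Prod.ext (Prod.ext ?_ rfl) rfl) (Prod.ext (Prod.ext ?_ rfl) rfl)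
  · simp
  · simp only [neg_add]
    abel

theorem shM_shM (a b : Space3) (l : ML) : shM a (shM b l) = shM (a + b) l := by
  unfold shM shL
  simp only [add_assoc, add_comm b a]

/-- Lines of the structure, equivariant version. -/
def oneE (Φ : Space3 → ℝ) (ε : ℝ) (q : Th P) (x : Idx P ⊕ Bool) : ML :=
  shM q.1.1.1 (oneLsM Φ ε P (TrS (-q.1.1.1) q).1 (lnO (TrS (-q.1.1.1) q).2) x)

theorem oneE_tr (ε : ℝ) (a : Space3) (q : Th P) (x : Idx P ⊕ Bool) :
    oneE Φ ε (TrS a q) x = shM a (oneE Φ ε q x) := by
  unfold oneE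
  rw [TrS_neg_TrS, shM_shM]
  show shM (q.1.1.1 + a) _ = _
  rw [add_comm]

theorem TrS_TrS_neg (q : Th P) : TrS q.1.1.1 (TrS (-q.1.1.1) q) = q := by
  unfold TrS trZ
  refine Prod.ext (Prod.ext (Prod.ext ?_ rfl) rfl) (Prod.ext (Prod.ext ?_ rfl) rfl)
  · simp
  · simp

theorem oneE_of_adm {q : Th P} (h : Adm Φ P q.1.1.2 q.1.2) (x : Idx P ⊕ Bool) :
    oneE Φ ε q x = oneLs Φ ε P q.1 (lnO q.2) x := by
  have h0 : Adm Φ P (TrS (-q.1.1.1) q).1.1.2 (TrS (-q.1.1.1) q).1.2 := h
  have h1 := oneLs_tr (Φ := Φ) ε q.1.1.1 (TrS (-q.1.1.1) q).1 (lnO (TrS (-q.1.1.1) q).2) x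
  have h2 : trZ q.1.1.1 (TrS (-q.1.1.1) q).1 = q.1 := congrArg Prod.fst (TrS_TrS_neg q)
  have h3 : shM q.1.1.1 (lnO (TrS (-q.1.1.1) q).2) = lnO q.2 :=
    congrArg (fun r : Th P => lnO r.2) (TrS_TrS_neg q)
  unfold oneE
  rw [oneLsM_of_adm h0, ← h1, h2, h3]

theorem oneE_of_adm' {q : Th P} (h : Adm Φ P q.1.1.2 q.1.2) (x : Idx P ⊕ Bool) :
    oneE Φ ε q x = oneLsM Φ ε P q.1 (lnO q.2) x := by
  rw [oneE_of_adm h, oneLsM_of_adm h]

theorem measurable_shM_joint : Measurable fun q : Space3 × ML => shM q.1 q.2 := by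
  unfold shM shL
  fun_prop


end Crest.Agent.R122.NuL735

end
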