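import Crest.Agent.R122.NuC_85
import Crest.Agent.R122.NuOk_735
import Crest.Agent.R122.GateOsPX_973
import Crest.Agent.R122.LN2Dom_473
import Crest.Agent.R122.LN2Ct_473
import Crest.Agent.R122.LevGate_581
import Crest.Agent.R122.GateOsP_424
import Crest.Agent.R122.Real6P_796
import Crest.Agent.R122.PassAE_416
import Crest.Agent.R122.NuHitS_969
import Crest.Agent.R122.BaseAe_45

-- ▼ part R122/OpxWin_796
section

/-!
# Row 122, inequality 3 (helper796): the hypotheses of the gates for the structures of the base law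

* `itW` : the structures (tree leaf, second line) of the base law of a window, `j` steps.
* `shpOk_win` : they are admissible; `rep_win` : they represent the iterated base law.
* `opx_win` : the hypotheses `OPX` of the gates of helper973, for all windows.
-/

set_option autoImplicit false
set_option linter.unusedSectionVars false
set_option maxHeartbeats 400000

open MeasureTheory ProbabilityTheory Set Filter
open scoped ENNReal Classical Topology
open Crest.AnalysisR.Kinetic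
open Crest.Agent.R122.GC311 Crest.Agent.R122.EDefs602 Crest.Agent.R122.LN2
open Crest.Agent.R122.Boost969 (LSt)
open Crest.Agent.R122.Pair292 (Lab PPar PX shP bindN)
open Crest.Agent.R122.PairD292 Crest.Agent.R122.Top602
open Crest.Agent.R122.Mark307 (BPar)
open Crest.Agent.R122.Master566 (KData)
open Crest.Agent.R122.I3In566 (Adm3)
open Crest.Agent.R122.NuL735 (NPar nuL Ix famB)
open Crest.Agent.R122.CaseC658 (qK)
open Crest.Agent.R122.PairRep581 (Shp ShpOk Rep)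
open Crest.Agent.R122.StrN998 (itS)
open Crest.Agent.R122.OPX973 (OPX)
open Crest.Agent.R122.NuC85 (nW nuC nuC_le)

noncomputable section

namespace Crest.Agent.R122.OpxWin796

theorem tsum_qK_ne_top (C lam : ℝ) (K : ℕ) : ∑' m, qK C lam K m ≠ ∞ := by
  rw [tsum_eq_sum (s := Finset.range (K + 1)) fun m hm => by
    have h1 : ¬ (1 ≤ m ∧ m ≤ K) := fun h => hm (Finset.mem_range.2 (by omega))
    exact if_neg h1]
  exact ENNReal.sum_ne_top.2 fun m _ => I3In566.qK_ne_top C lam K m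

theorem lintegral_le_one {Φ : Space3 → ℝ} {β T : ℝ} {f₀ : PhasePoint → ℝ}
    {f : ℝ → PhasePoint → ℝ} (hD : KData Φ β T f₀ f) : ∫⁻ z, ENNReal.ofReal (f₀ z) ≤ 1 := by
  rw [← ofReal_integral_eq_lintegral_ofReal hD.integrable (ae_of_all _ hD.nonneg), hD.mass,
    ENNReal.ofReal_one]

variable {Φ : Space3 → ℝ} {β T : ℝ} {f₀ : PhasePoint → ℝ} {f : ℝ → PhasePoint → ℝ}
  {γ : ℝ → ℝ} {ρ : ℝ≥0∞} {h₀ kap lam C g : ℝ} {B : BPar}

/-- The shapes of the `j`-th iterate of the base law with parameters `N`. -/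
abbrev itW (Φ : Space3 → ℝ) (B : BPar) (C lam te : ℝ) (N : NPar) (j K : ℕ) (s : Ix N.m₀) : Shp :=
  itS (famB Φ K N s) Φ B.b₀ te (qK C lam K) j

/-- **Representation and admissibility** of the iterated base laws of the windows: `ShpOk` with
domination rate `B.b₀` and moment rate `B.b₀ / 4`, any measurable density `ρd`. -/
theorem rep_shpOk_win (hΦ : AdmissiblePotential Φ) (hA : Adm3 Φ β T f γ ρ h₀ kap lam C g B)
    (hρ : ρ ≠ ∞) {ρd : Space3 → ℝ≥0∞} (hρd : Measurable ρd) (hβ : 0 < β) (Cf : ℝ) (m : ℕ)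
    (tw te : ℝ) (j K : ℕ) :
    Rep (fun ε => bindN (nuL Φ ε K (nW β Cf g ρ h₀ m tw te))
        (K3 Φ ε B.b₀ te (qK C lam K)) j)
        (fun s : Ix (nW β Cf g ρ h₀ m tw te).m₀ =>
          itW Φ B C lam te (nW β Cf g ρ h₀ m tw te) j K s) ∧
      ∀ s : Ix (nW β Cf g ρ h₀ m tw te).m₀,
        ShpOk B.b₀ (B.b₀ / 4) ρd (itW Φ B C lam te (nW β Cf g ρ h₀ m tw te) j K s) := by
  have hb0 := hA.b0
  have hbs : B.b₀ ≤ B.bs := hA.ok.b0s
  have h1 := hA.bs
  have h2 := hA.bg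
  refine NuL735.rep_ok_base (γ := B.b₀) (β := B.b₀ / 2) (β' := B.b₀ / 4) hΦ K
    (nW β Cf g ρ h₀ m tw te) (b₀ := B.b₀) (te := te) ?_ ?_ ?_ ?_ hρ hρd le_rfl ?_ ?_
    (tsum_qK_ne_top C lam K) j
  · show B.b₀ ≤ 2 * β
    linarith
  · exact h2
  · show B.b₀ / 2 < 2 * β
    linarith
  · show B.b₀ / 2 < g
    linarith
  · linarith
  · linarith

/-- **The hypotheses of the gates** for the structures of all windows: one density `ρd`. -/
theorem opx_win (hD : KData Φ β T f₀ f) (hA : Adm3 Φ β T f γ ρ h₀ kap lam C g B)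
    (hγm : Measurable γ) (hρ : ρ ≠ ∞) (Cf : ℝ) (m : ℕ) :
    ∃ ρd : Space3 → ℝ≥0∞, ∀ {tw te : ℝ}, 0 ≤ tw → tw < te → te ≤ T → te ≤ tw + h₀ →
      ∀ (j K : ℕ) (s : Ix (nW β Cf g ρ h₀ m tw te).m₀),
        OPX Φ f₀ (2 * β) B.b₀ (B.b₀ / 4) (tw + h₀) te ρd
          (itW Φ B C lam te (nW β Cf g ρ h₀ m tw te) j K s) γ ρ := by
  have hb0 := hA.b0
  have hbs : B.b₀ ≤ B.bs := hA.ok.b0s
  have h1 := hA.bs
  have h2 := hA.bg
  obtain ⟨ρd, C₀, he⟩ := exists_env (γ' := B.b₀) (γ := 2 * β) (by linarith [hD.beta_pos])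
    hD.gaussian
  refine ⟨ρd, fun {tw te} htw hlt hteT hth j K s => ?_⟩
  exact {
    adm := hD.adm
    meas := hD.contDiff.continuous.measurable
    gauss := hD.gaussian
    mass := lintegral_le_one hD
    env := ⟨C₀, he⟩
    shp := (rep_shpOk_win hD.adm hA hρ he.meas hD.beta_pos Cf m tw te j K).2 s
    bg_pos := by linarith [hD.beta_pos]
    γ_pos := hb0
    β_pos := by linarith
    T_pos := by linarith
    te_le := hth
    gl_meas := hγm
    gl_le := fun τ hτ => h2.trans (hA.rate τ (hτ.2.trans hteT))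
    rm_fin := hρ }

end Crest.Agent.R122.OpxWin796

end
end

-- ▼ part R122/LN2Ct2_473
section

/-!
# Row 122, LN2: bad partitions of a structure in contact with a tree (helper473)

`ctM .. P m e` : measure on (tree, structure): the line `e` of the structure meets the root of the
tree; the activity is included.

* `lintegral_ctM`, `lintegral_ctM_S`, `lintegral_ctM_inv_le`, `lintegral_ctM_P_le`.
* `dom_ct` (tree and structure), `dom_ctS` (a sub-structure), `dom_ctP` (the tree).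
* `SubHyp` : a sub-structure (part of the lines) of a translation invariant structure.
* `gLe_sOnly_ct`, `gLe_badGas_ct` : the bad partitions of a sub-structure, including those without
  gas, are null over `ctM`.
* `gLe_sOnly_near`, `gLe_badGas_near` : the same for the structure near the gas.
-/

set_option autoImplicit false
set_option linter.unusedSectionVars false

open MeasureTheory Set Filter Topology
open scoped Classical ENNReal
open Crest.AnalysisR.Kinetic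

noncomputable section

namespace Crest.Agent.R122.LN2

open Crest.Agent.R122.GC311 Crest.Agent.R122.Kin796 Crest.Agent.R122.Kin796.CTree
open Crest.Agent.R122.EDefs602 Crest.Agent.R122.Tree674 Crest.Agent.R122.Disc416
open Crest.Agent.R122.ToTree335 Crest.Agent.R122.OneC423 Crest.Agent.R122.VLMeas973
open Crest.Agent.R122.Boost969 (LSt posAt)
open Crest.Agent.R122.Pair292 (shL)
open Crest.Agent.R122.TouchFlux494 Crest.Agent.R122.Gate424

variable {Φ : Space3 → ℝ} {f₀ : PhasePoint → ℝ} {ε γ a : ℝ} {ρ : Space3 → ℝ≥0∞} {C₀ : ℝ≥0∞}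

theorem Env.mono {γ' : ℝ} (he : Env f₀ γ ρ C₀) (h : γ' ≤ γ) : Env f₀ γ' ρ C₀ where
  meas := he.meas
  le_one := he.le_one
  int := he.int
  fin := he.fin
  le z := (he.le z).trans (mul_le_mul_right (mul_le_mul_right (wG_anti h _) _) _)

/-! ## Changing the structure measure -/

section meas

variable {Θ : Type} [MeasurableSpace Θ] {I : Type} {m m' : ℝ → I → Measure Θ}
  {E : ℝ → I → (n : ℕ) → Θ → Config n → Prop} {c : ℝ≥0∞}

/-- Smaller measures, for small `ε`. -/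
theorem GLe.mono_meas (h : GLe f₀ m E c) {ε₁ : ℝ} (h1 : 0 < ε₁)
    (hm : ∀ ε i, 0 < ε → ε < ε₁ → m' ε i ≤ m ε i) : GLe f₀ m' E c := by
  obtain ⟨ε₀, h0, h⟩ := h
  refine ⟨min ε₀ ε₁, lt_min h0 h1, fun ε hε hlt i => ?_⟩
  obtain ⟨G, hGm, hG, hGi⟩ := h ε hε (hlt.trans_le (min_le_left _ _)) i
  exact ⟨G, hGm, hG, (lintegral_mono' (hm ε i hε (hlt.trans_le (min_le_right _ _)))
    le_rfl).trans hGi⟩

theorem GNull.mono_meas (h : GNull f₀ m E) {ε₁ : ℝ} (h1 : 0 < ε₁)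
    (hm : ∀ ε i, 0 < ε → ε < ε₁ → m' ε i ≤ m ε i) : GNull f₀ m' E :=
  fun δ hδ => GLe.mono_meas (h δ hδ) h1 hm


end meas

/-! ## The measure -/

section ctM

variable {Θ : Type} [MeasurableSpace Θ] {m : Measure Θ} {e : Θ → LSt} {te T' : ℝ} {P : CTree}

/-- Measure on (tree, structure): the line `e` of the structure meets the root of the tree; the
activity is included. -/
def ctM (Φ : Space3 → ℝ) (f₀ : PhasePoint → ℝ) (ε te T' : ℝ) (P : CTree) (m : Measure Θ)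
    (e : Θ → LSt) : Measure ((PhasePoint × Par P) × Θ) :=
  activity ε • ((treeM Φ f₀ ε P T').prod m).restrict {q | (q.1, e q.2) ∈ ctSet Φ ε te P}

instance [SFinite m] : SFinite (ctM Φ f₀ ε te T' P m e) := by
  unfold ctM; infer_instance

theorem measurableSet_ctq (hΦ : AdmissiblePotential Φ) (he : Measurable e) (ε te : ℝ) :
    MeasurableSet {q : (PhasePoint × Par P) × Θ | (q.1, e q.2) ∈ ctSet Φ ε te P} := by
  have h : Measurable fun q : (PhasePoint × Par P) × Θ => (q.1, e q.2) :=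
    measurable_fst.prodMk (he.comp measurable_snd)
  exact h (measurableSet_ctSet hΦ ε te P)

/-- Integrals against `ctM`. -/
theorem lintegral_ctM (hΦ : AdmissiblePotential Φ) [SFinite m] (he : Measurable e)
    {F : (PhasePoint × Par P) × Θ → ℝ≥0∞} (hF : Measurable F) :
    ∫⁻ q, F q ∂(ctM Φ f₀ ε te T' P m e) = activity ε *
      ∫⁻ θ, ∫⁻ z, ctI Φ ε te P (e θ) z * F (z, θ) ∂(treeM Φ f₀ ε P T') ∂m := by
  have hS := measurableSet_ctq (P := P) hΦ he ε te
  unfold ctM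
  rw [lintegral_smul_measure, smul_eq_mul, ← lintegral_indicator hS,
    lintegral_prod_symm _ (hF.indicator hS).aemeasurable]
  congr 1
  refine lintegral_congr fun θ => lintegral_congr fun z => ?_
  by_cases h : (z, e θ) ∈ ctSet Φ ε te P
  · rw [indicator_of_mem (show (z, θ) ∈ {q : (PhasePoint × Par P) × Θ |
      (q.1, e q.2) ∈ ctSet Φ ε te P} from h), ctI_of_mem h, one_mul]
  · rw [indicator_of_notMem (show (z, θ) ∉ {q : (PhasePoint × Par P) × Θ |
      (q.1, e q.2) ∈ ctSet Φ ε te P} from h), ctI_of_notMem h, zero_mul]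

/-- Marginal on the structure. -/
theorem lintegral_ctM_S (hΦ : AdmissiblePotential Φ) [SFinite m] (he : Measurable e) (a : ℝ)
    {H : Θ → ℝ≥0∞} (hH : Measurable H) :
    ∫⁻ q, expW a (linesM Φ ε P q.1.1 q.1.2) * H q.2 ∂(ctM Φ f₀ ε te T' P m e) =
      ∫⁻ θ, ctG Φ f₀ a ε te T' P (e θ) * H θ ∂m := by
  have hexp : Measurable fun z : PhasePoint × Par P => expW a (linesM Φ ε P z.1 z.2) :=
    (measurable_expW a).comp (measurable_linesM hΦ ε P)
  rw [lintegral_ctM (F := fun q : (PhasePoint × Par P) × Θ =>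
    expW a (linesM Φ ε P q.1.1 q.1.2) * H q.2) hΦ he
    ((hexp.comp measurable_fst).mul (hH.comp measurable_snd))]
  have h1 : ∀ θ, ∫⁻ z, ctI Φ ε te P (e θ) z * (expW a (linesM Φ ε P z.1 z.2) * H θ)
      ∂(treeM Φ f₀ ε P T') =
      (∫⁻ z, ctI Φ ε te P (e θ) z * expW a (linesM Φ ε P z.1 z.2) ∂(treeM Φ f₀ ε P T')) * H θ := by
    intro θ
    have h2 : Measurable fun z : PhasePoint × Par P =>
        ctI Φ ε te P (e θ) z * expW a (linesM Φ ε P z.1 z.2) :=
      measurable_ctE_comp hΦ a ε te P measurable_const measurable_id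
    rw [← lintegral_mul_const _ h2]
    exact lintegral_congr fun z => (mul_assoc _ _ _).symm
  simp only [h1]
  have h3 : Measurable fun θ => (∫⁻ z, ctI Φ ε te P (e θ) z * expW a (linesM Φ ε P z.1 z.2)
      ∂(treeM Φ f₀ ε P T')) * H θ := by
    have h4 : Measurable fun q : Θ × (PhasePoint × Par P) =>
        ctI Φ ε te P (e q.1) q.2 * expW a (linesM Φ ε P q.2.1 q.2.2) :=
      measurable_ctE_comp hΦ a ε te P (he.comp measurable_fst) measurable_snd
    exact (h4.lintegral_prod_right').mul hH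
  rw [← lintegral_const_mul _ h3]
  refine lintegral_congr fun θ => ?_
  unfold ctG
  rw [mul_assoc]

theorem expW_at_zero {κ : Type} [Fintype κ] (z : κ → PhasePoint) : expW 0 z = 1 := by
  unfold expW
  simp

/-- **Marginal on the structure, pointwise bound.** -/
theorem exists_ctM_S (hΦ : AdmissiblePotential Φ) (hf : Measurable f₀) (he : Env f₀ γ ρ C₀)
    (ha : a < γ) (P : CTree) (T : ℝ) : ∃ C : ℝ≥0∞, C ≠ ∞ ∧
      ∀ (ε te T' : ℝ), 0 < ε → te ≤ T → T' ≤ T → ∀ (Θ : Type) [MeasurableSpace Θ] (m : Measure Θ)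
        [SFinite m] (e : Θ → LSt), Measurable e → (∀ᵐ θ ∂m, 0 ≤ (e θ).1) →
        ∀ H : Θ → ℝ≥0∞, Measurable H →
          ∫⁻ q, expW a (linesM Φ ε P q.1.1 q.1.2) * H q.2 ∂(ctM Φ f₀ ε te T' P m e) ≤
            C * ∫⁻ θ, ENNReal.ofReal (1 + ‖(e θ).2.2‖) * H θ ∂m := by
  obtain ⟨C, hC, h⟩ := exists_ctG hΦ hf he ha P T
  refine ⟨C, hC, fun ε te T' hε hte hT' Θ _ m _ e hem hb H hH => ?_⟩
  rw [lintegral_ctM_S hΦ hem a hH, ← lintegral_const_mul' _ _ hC]
  refine lintegral_mono_ae ?_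
  filter_upwards [hb] with θ hθ
  rw [← mul_assoc]
  exact mul_le_mul_left (h ε te T' hε hte hT' (e θ) hθ).1 _

end ctM

section inv

variable {Θ : Type} [MeasurableSpace Θ] {m : Measure Θ} {Tr : Space3 → Θ → Θ} {e : Θ → LSt}
  {pos : Θ → Space3}



end inv

/-! ## Domination -/

section dom

variable {Θ : Type} [MeasurableSpace Θ] {κ : Type} [Fintype κ] {m : Measure Θ} {e : Θ → LSt}
  {te T' : ℝ} {c : ℝ≥0∞} {Λ : Measure (κ → ℝ)} {b : Θ → κ → ℝ} {z : Θ → κ → PhasePoint}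
  {ρ' : Space3 → ℝ≥0∞}


/-- A sub-structure. -/
theorem dom_ctS_of {P : CTree} {C : ℝ≥0∞} (hm : ∀ H : Θ → ℝ≥0∞, Measurable H →
      ∫⁻ q, H q.2 ∂(ctM Φ f₀ ε te T' P m e) ≤ C * ∫⁻ θ, ENNReal.ofReal (1 + ‖(e θ).2.2‖) * H θ ∂m)
    (hem : Measurable e)
    (h : Dom γ ρ ε 1 ∅ c Λ (m.withDensity fun θ => ENNReal.ofReal (1 + ‖(e θ).2.2‖)) b z) :
    Dom γ ρ ε 1 ∅ (C * c) Λ (ctM Φ f₀ ε te T' P m e) (fun q => b q.2) (fun q => z q.2) where
  mb := h.mb.comp measurable_snd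
  mz := h.mz.comp measurable_snd
  le F hF := by
    have hFm : Measurable fun θ => F (b θ, z θ) := hF.comp (h.mb.prodMk h.mz)
    have hv : Measurable fun θ => ENNReal.ofReal (1 + ‖(e θ).2.2‖) :=
      (hem.snd.snd.norm.const_add 1).ennreal_ofReal
    have h1 : ∫⁻ θ, F (b θ, z θ) ∂(m.withDensity fun θ => ENNReal.ofReal (1 + ‖(e θ).2.2‖)) =
        ∫⁻ θ, ENNReal.ofReal (1 + ‖(e θ).2.2‖) * F (b θ, z θ) ∂m := by
      rw [lintegral_withDensity_eq_lintegral_mul _ hv hFm]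
      rfl
    calc ENNReal.ofReal (ε ^ 2) ^ (Fintype.card κ - 1) *
          ∫⁻ q, F (b q.2, z q.2) ∂(ctM Φ f₀ ε te T' P m e)
        ≤ ENNReal.ofReal (ε ^ 2) ^ (Fintype.card κ - 1) *
            (C * ∫⁻ θ, ENNReal.ofReal (1 + ‖(e θ).2.2‖) * F (b θ, z θ) ∂m) :=
          mul_le_mul_right (hm _ hFm) _
      _ = C * (ENNReal.ofReal (ε ^ 2) ^ (Fintype.card κ - 1) *
            ∫⁻ θ, F (b θ, z θ) ∂(m.withDensity fun θ => ENNReal.ofReal (1 + ‖(e θ).2.2‖))) := by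
          rw [h1]
          ring
      _ ≤ C * (c * ∫⁻ b, (∫⁻ z, wgtA γ ρ ∅ z * F (b, z)) ∂Λ) := mul_le_mul_right (h.le F hF) _
      _ = _ := by ring




end dom

end Crest.Agent.R122.LN2

end
end

-- ▼ part R122/LN2Ct3_473
section

/-!
# Row 122, LN2: bad partitions of a sub-structure, including those without gas (helper473)

* `SubHyp` : some of the lines (`bs`, `zs`) of a translation invariant structure with a line `e`;
  `SubHyp.of_marg` : constructor from a marginal inequality.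
* `sOnly_core` : transport.
* `gLe_badGas_sub_near` : over the structure, near the gas.
* `gLe_badGas_sub_ct` : over `ctM` (contact of `e` with a tree).
-/

set_option autoImplicit false
set_option linter.unusedSectionVars false

open MeasureTheory Set Filter Topology
open scoped Classical ENNReal
open Crest.AnalysisR.Kinetic

noncomputable section

namespace Crest.Agent.R122.LN2

open Crest.Agent.R122.GC311 Crest.Agent.R122.Kin796 Crest.Agent.R122.Kin796.CTree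
open Crest.Agent.R122.EDefs602 Crest.Agent.R122.Tree674 Crest.Agent.R122.Disc416
open Crest.Agent.R122.ToTree335 Crest.Agent.R122.OneC423 Crest.Agent.R122.VLMeas973
open Crest.Agent.R122.Boost969 (LSt posAt)
open Crest.Agent.R122.Pair292 (shL)
open Crest.Agent.R122.TouchFlux494 Crest.Agent.R122.Gate424

variable {Φ : Space3 → ℝ} {f₀ : PhasePoint → ℝ} {T γ : ℝ} {ρ : Space3 → ℝ≥0∞} {C₀ : ℝ≥0∞}

/-- Velocity weight of a line. -/
def vW {Θ : Type} (e : Θ → LSt) (θ : Θ) : ℝ≥0∞ := ENNReal.ofReal (1 + ‖(e θ).2.2‖)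

theorem measurable_vW {Θ : Type} [MeasurableSpace Θ] {e : Θ → LSt} (he : Measurable e) :
    Measurable (vW e) := (he.snd.snd.norm.const_add 1).ennreal_ofReal

/-- **A sub-structure** (labels `κ`, births `bs`, time `0` states `zs`) of a translation invariant
structure with a line `e`. -/
structure SubHyp {Θ : Type} [MeasurableSpace Θ] {κ : Type} [Fintype κ] {I : Type} (γ : ℝ)
    (ρ : Space3 → ℝ≥0∞) (c : ℝ≥0∞) (Λ : Measure (κ → ℝ)) (m : ℝ → I → Measure Θ)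
    (bs : ℝ → I → Θ → κ → ℝ) (zs : ℝ → I → Θ → κ → PhasePoint) (Tr : ℝ → I → Space3 → Θ → Θ)
    (e : ℝ → I → Θ → LSt) : Prop where
  sf : ∀ ε i, SFinite (m ε i)
  dom : ∀ ε i, 0 < ε → Dom γ ρ ε 1 ∅ c Λ ((m ε i).withDensity (vW (e ε i))) (bs ε i) (zs ε i)
  tr : ∀ ε i, 0 < ε → TInvS (m ε i) (Tr ε i) (bs ε i) (zs ε i) (e ε i)
  birth : ∀ ε i, 0 < ε → ∀ᵐ θ ∂(m ε i), 0 ≤ (e ε i θ).1
  cf : c ≠ ∞

section core

variable {Θ : Type} [MeasurableSpace Θ] {κ : Type} [Fintype κ] {m : Measure Θ}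
  {Tr : Space3 → Θ → Θ} {b : Θ → κ → ℝ} {z : Θ → κ → PhasePoint} {e : Θ → LSt} {ε : ℝ}
  {c : ℝ≥0∞} {Λ : Measure (κ → ℝ)}

theorem avE_le_one (j₀ : κ) (E : Set ((κ → ℝ) × (κ → PhasePoint))) (θ : Θ) :
    avE z b j₀ E θ ≤ 1 := by
  unfold avE
  calc ∫⁻ a : Space3, chi ((z θ j₀).1 + a) * E.indicator 1 (b θ, shX a (z θ)) ≤
      ∫⁻ a : Space3, chi ((z θ j₀).1 + a) := by
        refine lintegral_mono fun a => ?_
        refine (mul_le_mul_right (?_ : _ ≤ (1 : ℝ≥0∞)) _).trans_eq (mul_one _)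
        exact indicator_apply_le' (fun _ => le_rfl) (fun _ => zero_le_one)
    _ = 1 := by
        rw [lintegral_add_left_eq_self (fun x => chi x), lintegral_chi]

/-- **Transport** for a sub-structure and a localising function `g` of the line `e`. -/
theorem sOnly_core [SFinite m] (hT : TInvS m Tr b z e) (j₀ : κ)
    {E : Set ((κ → ℝ) × (κ → PhasePoint))} (hE : MeasurableSet E) {g : LSt → ℝ≥0∞}
    (hg : Measurable g) {C₁ : ℝ≥0∞} (hC₁ : C₁ ≠ ∞)
    (hgW : ∀ᵐ θ ∂m, ∫⁻ a : Space3, g (shL a (e θ)) ≤ C₁ * ENNReal.ofReal (1 + ‖(e θ).2.2‖))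
    (hD : Dom γ ρ ε 1 ∅ c Λ (m.withDensity (vW e)) b z) (hε : 0 < ε) {η : ℝ≥0∞}
    (hEi : ∀ b', ∫⁻ z', wgtA γ chi {j₀} z' * E.indicator 1 (b', z') ≤
      η * ENNReal.ofReal (ε ^ 2) ^ (Fintype.card κ - 1)) :
    ∫⁻ θ, g (e θ) * avE z b j₀ E θ ∂m ≤ C₁ * (c * (Λ univ * η)) := by
  have hWm : Measurable fun l : LSt => C₁ * ENNReal.ofReal (1 + ‖l.2.2‖) :=
    ((measurable_snd.snd.norm.const_add 1).ennreal_ofReal).const_mul _
  have h1 := transport hT j₀ hE hg hWm (fun _ _ => rfl) hgW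
  refine h1.trans ?_
  obtain ⟨F, hFdef⟩ : ∃ F : (κ → ℝ) × (κ → PhasePoint) → ℝ≥0∞,
      F = fun q => chi (q.2 j₀).1 * E.indicator 1 q := ⟨_, rfl⟩
  have hFm : Measurable F := by
    rw [hFdef]
    exact (measurable_chi.comp ((measurable_pi_apply j₀).comp measurable_snd).fst).mul
      (measurable_one.indicator hE)
  have hFq : ∀ b' z', F (b', z') = chi (z' j₀).1 * E.indicator 1 (b', z') := fun b' z' => by
    rw [hFdef]
  have hFθ : Measurable fun θ => F (b θ, z θ) := hFm.comp (hT.mb.prodMk hT.mz)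
  have h2 : ∫⁻ θ, C₁ * ENNReal.ofReal (1 + ‖(e θ).2.2‖) *
      (chi (z θ j₀).1 * E.indicator 1 (b θ, z θ)) ∂m =
      C₁ * ∫⁻ θ, F (b θ, z θ) ∂(m.withDensity (vW e)) := by
    rw [lintegral_withDensity_eq_lintegral_mul _ (measurable_vW hT.md) hFθ,
      ← lintegral_const_mul' _ _ hC₁]
    refine lintegral_congr fun θ => ?_
    rw [Pi.mul_apply, hFq, vW]
    ring
  refine (le_of_eq h2).trans (mul_le_mul_right ?_ _)
  have h6 := hD.le _ hFm
  set q : ℝ≥0∞ := ENNReal.ofReal (ε ^ 2) ^ (Fintype.card κ - 1) with hq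
  have hq1 : activity ε ^ (Fintype.card κ - 1) * q = 1 := activity_pow_mul_pow hε _
  have h7 : ∀ b' : κ → ℝ, ∫⁻ z', wgtA γ ρ ∅ z' * F (b', z') ≤ η * q := by
    intro b'
    refine le_trans (le_of_eq (lintegral_congr fun z' => ?_)) (hEi b')
    have h8 : wgtA γ chi {j₀} z' = wgtA γ ρ ∅ z' * chi (z' j₀).1 := by
      unfold wgtA
      simp only [Finset.prod_empty, one_mul, Finset.prod_singleton]
      exact mul_comm _ _
    rw [h8, mul_assoc, hFq]
  calc ∫⁻ θ, F (b θ, z θ) ∂(m.withDensity (vW e))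
      = activity ε ^ (Fintype.card κ - 1) * (q *
        ∫⁻ θ, F (b θ, z θ) ∂(m.withDensity (vW e))) := by
        rw [← mul_assoc, hq1, one_mul]
    _ ≤ activity ε ^ (Fintype.card κ - 1) * (c * ∫⁻ _b', η * q ∂Λ) := by
        refine mul_le_mul_right (h6.trans (mul_le_mul_right ?_ _)) _
        exact lintegral_mono fun b' => h7 b'
    _ = (activity ε ^ (Fintype.card κ - 1) * q) * (c * (Λ univ * η)) := by
        rw [lintegral_const]
        ring
    _ = c * (Λ univ * η) := by rw [hq1, one_mul]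

/-- Structures whose translates are all in `E`: bad structures alone. -/
theorem avE_of_bad (hΦ : AdmissiblePotential Φ) (hε : 0 < ε) (j₀ : κ)
    {E : Set ((κ → ℝ) × (κ → PhasePoint))} {C R ς : ℝ}
    (hE : ∀ (b : κ → ℝ) (z : κ → PhasePoint) (V : Fin 0 → PhasePoint) (A : Finset (Fin 0 ⊕ κ)),
      (VLMeas973.vsys Φ T ε (bS 0 b)).BadPart C R ς 1 A (Sum.elim V z) → (b, z) ∈ E)
    {θ : Θ} {V : Fin 0 → PhasePoint} {A : Finset (Fin 0 ⊕ κ)}
    (hB : (VLMeas973.vsys Φ T ε (bS 0 (b θ))).BadPart C R ς 1 A (Sum.elim V (z θ))) :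
    avE z b j₀ E θ = 1 := by
  refine avE_eq_one j₀ fun a' => hE _ _ V A ?_
  have h4 := (badPart_shift (M := VLMeas973.vsys Φ T ε (bS 0 (b θ))) hΦ hε
    (fun _ h => by cases h) a').2 hB
  have h5 : shX a' (Sum.elim V (z θ)) = Sum.elim V (shX a' (z θ)) := by
    funext j
    rcases j with j | j
    · exact j.elim0
    · rfl
  rwa [h5] at h4

end core

/-! ## The constructor -/

section marg

variable {Θ Θ' : Type} [MeasurableSpace Θ] [MeasurableSpace Θ'] {κ : Type} [Fintype κ] {I : Type}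
  {m : ℝ → I → Measure Θ} {m' : ℝ → I → Measure Θ'} {Tr : ℝ → I → Space3 → Θ → Θ}
  {b : ℝ → I → Θ' → κ → ℝ} {z : ℝ → I → Θ' → κ → PhasePoint} {e : ℝ → I → Θ → LSt}
  {pr : ℝ → I → Θ → Θ'} {c : ℝ≥0∞} {Λ : Measure (κ → ℝ)}


end marg

/-! ## Null events -/

section null

variable {Θ : Type} [MeasurableSpace Θ] {κ : Type} [Fintype κ] {I : Type}
  {m : ℝ → I → Measure Θ} {bs : ℝ → I → Θ → κ → ℝ} {zs : ℝ → I → Θ → κ → PhasePoint}
  {Tr : ℝ → I → Space3 → Θ → Θ} {e : ℝ → I → Θ → LSt} {c : ℝ≥0∞} {Λ : Measure (κ → ℝ)}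
  [IsFiniteMeasure Λ]


/-- The bad partitions of the sub-structure alone, in contact with a tree. -/
theorem gLe_sub_sOnly_ct (hΦ : AdmissiblePotential Φ) (hCN : ClassNull Φ T) (hf : Measurable f₀)
    (h1 : ∫⁻ z, ENNReal.ofReal (f₀ z) ≤ 1) {γ₀ : ℝ} {ρ₀ : Space3 → ℝ≥0∞} (he : Env f₀ γ₀ ρ₀ C₀)
    (hγ₀ : 0 < γ₀) (hγ : 0 < γ) (H : SubHyp γ ρ c Λ m bs zs Tr e) (P : CTree) {te T' : I → ℝ}
    {T₁ : ℝ} (hte : ∀ i, te i ≤ T₁) (hT' : ∀ i, T' i ≤ T₁) (j₀ : κ) (C : ℝ) {δ : ℝ≥0∞}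
    (hδ : 0 < δ) :
    ∃ R > 0, ∃ ς > 0, ∀ (R' ς' : ℝ), R ≤ R' → ς' ≤ ς →
      GLe f₀ (fun ε i => ctM Φ f₀ ε (te i) (T' i) P (m ε i) (e ε i))
      (fun ε i _ q _ => ∃ (V : Fin 0 → PhasePoint) (A : Finset (Fin 0 ⊕ κ)),
          (VLMeas973.vsys Φ T ε (bS 0 (bs ε i q.2))).BadPart C (R' * ε) ς' 1 A
            (Sum.elim V (zs ε i q.2))) δ := by
  obtain ⟨C₁, hC₁, hct⟩ := exists_ctG hΦ hf he hγ₀ P T₁
  set K : ℝ≥0∞ := C₁ * (c * Λ univ) with hK
  have hKt : K ≠ ∞ := ENNReal.mul_ne_top hC₁ (ENNReal.mul_ne_top H.cf (measure_ne_top Λ _))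
  have hKt' : K + 1 ≠ ∞ := ENNReal.add_ne_top.2 ⟨hKt, ENNReal.one_ne_top⟩
  set δ' : ℝ≥0∞ := δ / (K + 1) with hδ'
  have hδ'0 : 0 < δ' := ENNReal.div_pos hδ.ne' hKt'
  obtain ⟨R, hR, ς, hς, ε₀, hε₀, h⟩ := s_only hCN hγ j₀ C hδ'0
  refine ⟨R, hR, ς, hς, fun R' ς' hR' hς' => ⟨ε₀, hε₀, fun ε hε hlt i => ?_⟩⟩
  obtain ⟨E, hEm, hE, hEi⟩ := h ε hε hlt
  have := H.sf ε i
  have hT := H.tr ε i hε
  have hav := measurable_avE (b := bs ε i) (z := zs ε i) hEm hT.mb hT.mz j₀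
  refine ⟨fun n p => avE (zs ε i) (bs ε i) j₀ E p.1.2, fun n => ?_, ?_, ?_⟩
  · exact hav.comp measurable_fst.snd
  · rintro n q w - ⟨V, A, hB⟩
    simp only
    rw [avE_of_bad hΦ hε j₀ (hE R' ς' hR' hς') hB]
  · calc ∫⁻ q, gcE f₀ ε (fun _ _ => avE (zs ε i) (bs ε i) j₀ E q.2)
          ∂(ctM Φ f₀ ε (te i) (T' i) P (m ε i) (e ε i))
        = ∫⁻ q, expW 0 (linesM Φ ε P q.1.1 q.1.2) * avE (zs ε i) (bs ε i) j₀ E q.2
          ∂(ctM Φ f₀ ε (te i) (T' i) P (m ε i) (e ε i)) := by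
          refine lintegral_congr fun q => ?_
          rw [expW_at_zero, one_mul]
          exact gcE_const f₀ ε hf h1 ((avE_le_one j₀ E q.2).trans_lt ENNReal.one_lt_top).ne
      _ = ∫⁻ θ, ctG Φ f₀ 0 ε (te i) (T' i) P (e ε i θ) * avE (zs ε i) (bs ε i) j₀ E θ
            ∂(m ε i) := lintegral_ctM_S hΦ hT.md 0 hav
      _ ≤ C₁ * (c * (Λ univ * δ')) := by
          refine sOnly_core hT j₀ hEm (measurable_ctG hΦ 0 ε (te i) (T' i) P) hC₁ ?_
            (H.dom ε i hε) hε hEi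
          filter_upwards [H.birth ε i hε] with θ hθ
          exact (hct ε (te i) (T' i) hε (hte i) (hT' i) (e ε i θ) hθ).2
      _ = K * δ' := by rw [hK]; ring
      _ ≤ (K + 1) * δ' := by gcongr; exact le_self_add
      _ = δ := by rw [hδ', ENNReal.mul_div_cancel (by simp) hKt']

/-- Splitting a bad partition (one group, every label is an anchor). -/
theorem badGas_split {ε C R ς R' ς' : ℝ} (hε : 0 < ε) (hR : R ≤ R') (hς : ς' ≤ ς) {N n : ℕ}
    {b : κ → ℝ} {z : κ → PhasePoint} {w : Config n}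
    (h : BadGas Φ T C R' ς' ε N 1 Finset.univ b z w) :
    (∃ (V : Fin 0 → PhasePoint) (A : Finset (Fin 0 ⊕ κ)),
      (VLMeas973.vsys Φ T ε (bS 0 b)).BadPart C (R' * ε) ς' 1 A (Sum.elim V z)) ∨
      BadGas Φ T C R ς ε N 1 ∅ b z w := by
  obtain ⟨k, hk, ι, hB⟩ := h
  rcases k with _ | k
  · exact Or.inl ⟨_, _, hB⟩
  · refine Or.inr (badGas_mono (R' := R') (ς' := ς') hε.le hR hς ⟨k + 1, hk, ι, ?_⟩)
    refine badPart_one (x := Sum.inl 0) ?_ hB
    unfold anch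
    rw [Finset.inl_mem_disjSum]
    exact Finset.mem_univ _


/-- **Bad partitions of a sub-structure, in contact with a tree.** Every label may serve as an
anchor. -/
theorem gLe_badGas_sub_ct (hΦ : AdmissiblePotential Φ) (hCN : ClassNull Φ T)
    (hf : Measurable f₀) (h1 : ∫⁻ z, ENNReal.ofReal (f₀ z) ≤ 1)
    (he : Env f₀ γ ρ C₀) (hγ : 0 < γ) (H : SubHyp γ ρ c Λ m bs zs Tr e) (P : CTree)
    {te T' : I → ℝ} {T₁ : ℝ} (hte : ∀ i, te i ≤ T₁) (hT' : ∀ i, T' i ≤ T₁) (j₀ : κ) (C : ℝ)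
    (N : ℕ) {δ : ℝ≥0∞} (hδ : 0 < δ) :
    ∃ R > 0, ∃ ς > 0, ∀ (R' ς' : ℝ), R ≤ R' → ς' ≤ ς →
      GLe f₀ (fun ε i => ctM Φ f₀ ε (te i) (T' i) P (m ε i) (e ε i))
      (fun ε i _ q w =>
        BadGas Φ T C R' ς' ε N 1 Finset.univ (bs ε i q.2) (zs ε i q.2) w) δ := by
  set δ₁ : ℝ≥0∞ := min δ 1 / 2 with hδ₁
  have hδ₁0 : 0 < δ₁ := ENNReal.div_pos (lt_min hδ one_pos).ne' (by norm_num)
  have hsum : δ₁ + δ₁ ≤ δ := by
    rw [hδ₁, ENNReal.add_halves]
    exact min_le_left _ _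
  obtain ⟨R, hR, ς, hς, h⟩ := gLe_sub_sOnly_ct hΦ hCN hf h1 he hγ hγ H P hte hT' j₀ C hδ₁0
  obtain ⟨C₁, hC₁, hS⟩ := exists_ctM_S hΦ hf he hγ P T₁
  have hsf : ∀ ε i, SFinite (ctM Φ f₀ ε (te i) (T' i) P (m ε i) (e ε i)) := fun ε i => by
    have := H.sf ε i
    infer_instance
  obtain ⟨R₂, hR₂, ς₂, hς₂, h'⟩ := gLe_badGas hCN hf h1 he hγ C N
    (Fintype.card_pos_iff.2 ⟨j₀⟩ : 1 ≤ Fintype.card κ) ∅ (ENNReal.mul_ne_top hC₁ H.cf) Λ hsf
    (b := fun ε i q => bs ε i q.2) (z := fun ε i q => zs ε i q.2)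
    (fun ε i hε => by
      have := H.sf ε i
      refine dom_ctS_of (fun G hG => ?_) (H.tr ε i hε).md (H.dom ε i hε)
      have h3 := hS ε (te i) (T' i) hε (hte i) (hT' i) Θ (m ε i) (e ε i) (H.tr ε i hε).md
        (H.birth ε i hε) G hG
      simpa only [expW_at_zero, one_mul] using h3) hδ₁0
  refine ⟨max R R₂, lt_max_of_lt_left hR, min ς ς₂, lt_min hς hς₂, fun R' ς' hR' hς' => ?_⟩
  refine ((h R' ς' ((le_max_left _ _).trans hR') (hς'.trans (min_le_left _ _))).or hf h').mono hsum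
    ⟨1, one_pos, fun ε hε _ i n q w _ hE => ?_⟩
  exact badGas_split hε ((le_max_right R R₂).trans hR') (hς'.trans (min_le_right ς ς₂)) hE

end null

end Crest.Agent.R122.LN2

end
end

-- ▼ part R122/LNLevel2_494
section

/-!
# Row 122, inequality 3 (helper494): levels of the structures over the law `osP`

* `osP_le_ctM` : the law of 581 is below the law of 473.
* `subHyp_itS` : the structure of the level `k` as a sub-structure of the law of `itS S (k + i)`.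
* `badF_osP_level`, `badF_lv_osP` : bad partitions of gas particles and the structure of a level,
  over the law of (contact tree, structure of the top level).
-/

set_option autoImplicit false
set_option linter.unusedSectionVars false

open MeasureTheory Set Filter Topology
open scoped Classical ENNReal
open Crest.AnalysisR.Kinetic

noncomputable section

namespace Crest.Agent.R122.PairRep581

open Crest.Agent.R122.GC311 Crest.Agent.R122.Kin796 Crest.Agent.R122.Kin796.CTree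
open Crest.Agent.R122.Tree674 Crest.Agent.R122.EDefs602
open Crest.Agent.R122.Gate424 Crest.Agent.R122.Gate973 Crest.Agent.R122.LN2
open Crest.Agent.R122.Boost969 (LSt)
open Crest.Agent.R122.Pair292 (Lab shP shL shM)
open Crest.Agent.R122.PairD292
open Crest.Agent.R122.StrN998 (Th Ka itS)
open Crest.Agent.R122.Marg494 (prj dom_sub_itS tinvS_sub_itS_e shpOk_nonempty)

variable {Φ : Space3 → ℝ} {f₀ : PhasePoint → ℝ} {γ β : ℝ} {ρ : Space3 → ℝ≥0∞} {S : Shp}
  {T te te₁ T' T₁ b₀ ε : ℝ} {C₀ : ℝ≥0∞} {q : ℕ → ℝ≥0∞} {K : ℕ}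

/-- The law of (contact tree, structure) is below the contact law of helper473. -/
theorem osP_le_ctM (hΦ : AdmissiblePotential Φ) (hf : Measurable f₀) (P : CTree) (S : Shp)
    (hS : SFinite (S.m ε)) :
    osP Φ f₀ te₁ T' K P S ε () ≤
      ctM Φ f₀ ε te₁ T' P (S.m ε) (fun x => (eL (S.th ε x)).1) := by
  unfold osP ctM
  rw [GateOsP424.treeA_eq hΦ hf, Measure.prod_smul_left, ← Measure.restrict_smul]
  refine Measure.restrict_mono ?_ le_rfl
  intro p hp
  exact hp.1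

/-- The structure of the level `k` inside the law of `itS S (k + i)`. -/
theorem subHyp_itS (h : ShpOk γ β ρ S) (hρ : Measurable ρ) (hΦ : AdmissiblePotential Φ)
    (hb : γ ≤ b₀) (hq : ∑' m, q m ≠ ∞) (k i : ℕ) {a' : ℝ} (ha' : 0 < a') (hab : a' ≤ b₀) :
    ∃ (C : ℝ≥0∞) (Λ : Measure (Ka S.κ k → ℝ)), IsFiniteMeasure Λ ∧
      SubHyp (γ - a') ρ C Λ (itS S Φ b₀ te q (k + i)).mI
        (fun ε _ x => (itS S Φ b₀ te q k).b ε (prj S.Θ k i x))
        (fun ε _ x => (itS S Φ b₀ te q k).z ε (prj S.Θ k i x))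
        (fun _ _ => (itS S Φ b₀ te q (k + i)).Tr)
        (fun ε _ x => (eL ((itS S Φ b₀ te q (k + i)).th ε x)).1) := by
  obtain ⟨C, Λ, hC, hΛ, hD⟩ := dom_sub_itS (te := te) (q := q) h hρ hΦ hb hq k i ha' hab
  refine ⟨C, Λ, hΛ, fun ε _ => ?_, fun ε _ hε => hD ε hε,
    fun ε _ hε => tinvS_sub_itS_e h hΦ hε k i, fun ε _ hε => ?_, hC⟩
  · have h1 : SFinite (StrN998.ofShp S ε).m := h.sf ε
    exact StrN998.sfinite_iter (StrN998.ofShp S ε) (k + i)
  · exact ((StrN998.ShpOk.sd_phys h hε).iter (ε := ε) (b₀ := b₀) (te := te) (q := q)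
      (StrN998.ShpOk.sd_ok h hε) hΦ hε.le (k + i)).be

/-- **Bad partitions of a level over `osP`.** -/
theorem badF_osP_level (h : ShpOk γ β ρ S) (hρ : Measurable ρ) (hΦ : AdmissiblePotential Φ)
    (hCN : VLMeas973.ClassNull Φ T) (hf : Measurable f₀) (h1 : ∫⁻ z, ENNReal.ofReal (f₀ z) ≤ 1)
    (he : Env f₀ γ ρ C₀) (hγ : 0 < γ) (hb : γ ≤ b₀) (hq : ∑' m, q m ≠ ∞) (P : CTree) (k i : ℕ)
    (C : ℝ) (N : ℕ) :
    BadF f₀ (osP Φ f₀ te₁ T' K P (itS S Φ b₀ te q (k + i)))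
      (fun R ς ε _ _ x w =>
        BadGas Φ T C R ς ε N 1 Finset.univ ((itS S Φ b₀ te q k).b ε (prj S.Θ k i x.2))
          ((itS S Φ b₀ te q k).z ε (prj S.Θ k i x.2)) w) := by
  intro δ hδ
  have ha' : 0 < γ / 2 := by linarith
  obtain ⟨Cs, Λ, hΛ, H⟩ := subHyp_itS (te := te) (q := q) h hρ hΦ hb hq k i ha'
    (show γ / 2 ≤ b₀ by linarith)
  have hne := shpOk_nonempty h
  have j₀ : Ka S.κ k := (StrN998.instNonKa S.κ k).some
  obtain ⟨R, hR, ς, hς, hG⟩ := gLe_badGas_sub_ct hΦ hCN hf h1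
    (TouchFlux494.env_anti he (show γ - γ / 2 ≤ γ by linarith)) (by linarith) H P
    (te := fun _ => te₁) (T' := fun _ => T') (T₁ := max te₁ T') (fun _ => le_max_left _ _)
    (fun _ => le_max_right _ _) j₀ C N hδ
  refine ⟨R, hR, ς, hς, fun R' ς' hR' _ hς' => ?_⟩
  have h2 := hG R' ς' hR' hς'
  refine GLe.mono_meas h2 one_pos fun ε _ _ _ => ?_
  have hsf : SFinite ((itS S Φ b₀ te q (k + i)).m ε) := H.sf ε ()
  exact osP_le_ctM hΦ hf P (itS S Φ b₀ te q (k + i)) hsf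

/-- **Bad partitions of all levels over `osP`.** -/
theorem badF_lv_osP (h : ShpOk γ β ρ S) (hρ : Measurable ρ) (hΦ : AdmissiblePotential Φ)
    (hCN : VLMeas973.ClassNull Φ T) (hf : Measurable f₀) (h1 : ∫⁻ z, ENNReal.ofReal (f₀ z) ≤ 1)
    (he : Env f₀ γ ρ C₀) (hγ : 0 < γ) (hb : γ ≤ b₀) (hq : ∑' m, q m ≠ ∞) (P : CTree) (j : ℕ)
    (C : ℝ) (N : ℕ) :
    BadF f₀ (osP Φ f₀ te₁ T' K P (itS S Φ b₀ te q j))
      (fun R ς ε _ _ x w => BadLv S Φ b₀ te q T C R ς ε N w j x.2) := by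
  refine (badF_lv (Θ := S.Θ) (m := osP Φ f₀ te₁ T' K P (itS S Φ b₀ te q j))
    (pr := fun _ x => x.2)
    (B := fun R ς ε _ _ w k y => BadK S Φ b₀ te q T C R ς ε N w k y)
    (G := fun _ _ _ _ _ => True) hf fun k i e => ?_).mono
    fun R ς ε _ _ x w _ _ hE => ⟨trivial, hE⟩
  subst e
  exact (badF_osP_level (te := te) (te₁ := te₁) (T' := T') (K := K) h hρ hΦ hCN hf h1 he hγ hb hq
    P k i C N).mono fun R ς ε _ _ x w _ _ hE => hE.2

end Crest.Agent.R122.PairRep581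

end
end

-- ▼ part R122/PairAlt_291

/-!
# Row 122, LINK6 (helper291): the realisation hypothesis `PairAlt` for the continued base shapes

* `ae_osP_snd` : almost sure facts of the structure are almost sure facts of (tree, structure).
* `itS_b0` : all births of the continued shapes are `0`.
* `LvFact` : the facts of a level of the structure (connected, tree-like, pair structure).
* `pairAlt_of_lv` : `PairAlt` for `itS S j` from the levels (generic base).
* `pairAlt_famB` : `PairAlt` for `itS (famB Φ K N s) j`.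
* `ae_dT`, `gNull_dT` : the birth of the first line is at most `te`.
-/

set_option autoImplicit false
set_option linter.unusedSectionVars false

open MeasureTheory Set Filter Topology
open scoped Classical ENNReal
open Crest.AnalysisR.Kinetic

noncomputable section

namespace Crest.Agent.R122.PairAlt291

open Crest.Agent.R122.GC311 Crest.Agent.R122.EDefs602
open Crest.Agent.R122.Kin796 Crest.Agent.R122.Kin796.CTree Crest.Agent.R122.Tree674
open Crest.Agent.R122.TreeLines335 Crest.Agent.R122.LN2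
open Crest.Agent.R122.Gate424 Crest.Agent.R122.Gate973
open Crest.Agent.R122.Scat818 Crest.Agent.R122.OCout796 Crest.Agent.R122.Ins45
open Crest.Agent.R122.Boost969 (LSt)
open Crest.Agent.R122.Pair292 (Lab)
open Crest.Agent.R122.OneC285 (cT cB cD cX)
open Crest.Agent.R122.VL581 Crest.Agent.R122.VL581.VSys
open Crest.Agent.R122.LN304
open Crest.Agent.R122.StrG491 Crest.Agent.R122.StrMain307
open Crest.Agent.R122.PairD292 Crest.Agent.R122.PairRep581
open Crest.Agent.R122.NuHit969 (HitS bas)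
open Crest.Agent.R122.StrN998 (Th Ka itS)
open Crest.Agent.R122.NuL735 (NPar Ix famB)
open Crest.Agent.R122.Link6796

variable {Φ : Space3 → ℝ} {f₀ : PhasePoint → ℝ} {γ β β' b₀ T te T' ε c : ℝ} {ρ : Space3 → ℝ≥0∞}
  {S : Shp} {K : ℕ} {P : CTree} {q : ℕ → ℝ≥0∞} {C₀ : ℝ≥0∞}

/-! ## Almost sure facts -/

/-- Almost sure facts of the structure are almost sure facts of (tree, structure). -/
theorem ae_osP_snd (_hsf : SFinite (S.m ε)) {p : S.Θ → Prop} (hp : ∀ᵐ x ∂(S.m ε), p x) :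
    ∀ᵐ y ∂(osP Φ f₀ te T' K P S ε ()), p y.2 := by
  unfold osP
  exact ae_restrict_of_ae
    ((Measure.quasiMeasurePreserving_snd (μ := treeA Φ f₀ ε T' P) (ν := S.m ε)).ae hp)

/-- Events of the structure of probability `0` are null events. -/
theorem gNull_snd (h : ShpOk γ β ρ S) (hf : Measurable f₀) {E : ℝ → S.Θ → Prop}
    (hE : ∀ ε : ℝ, 0 < ε → ∀ᵐ x ∂(S.m ε), ¬ E ε x) :
    GNull f₀ (osP Φ f₀ te T' K P S) (fun ε _ _ y _ => E ε y.2) :=
  PassAE416.gNull_of_aeQ h hf fun ε hε => ae_osP_snd (h.sf ε) (hE ε hε)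

/-- **All births of the continuations are `0`.** -/
theorem itS_b0 (hb : ∀ ε x i, S.b ε x i = 0) (j : ℕ) (ε : ℝ)
    (x : (itS S Φ b₀ te q j).Θ) (i : (itS S Φ b₀ te q j).κ) :
    (itS S Φ b₀ te q j).b ε x i = 0 := by
  induction j with
  | zero => exact hb ε x i
  | succ j ih =>
    have h1 := NuHit969.itS_b_succ (Φ := Φ) (b₀ := b₀) (te := te) (q := q) (ε := ε) S j x
    have h2 := congrFun h1 i
    refine h2.trans ?_
    rcases (show Ka S.κ j ⊕ Unit from i) with k | k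
    · exact ih x.1 k
    · rfl

/-! ## The facts of a level -/

/-- **The facts of a level** `(b, z, d, e)` : connected, tree-like, pair structure with transversal
exits and late cross contacts. -/
structure LvFact (Φ : Space3 → ℝ) (T ε c ℓ ς : ℝ) {κ : Type} [Fintype κ] (b : κ → ℝ)
    (z : κ → PhasePoint) (d e : ℝ × PhasePoint) : Prop where
  conn : (VLMeas973.vsys Φ T ε b).Conn c Finset.univ z
  tl : TL (VLMeas973.vsys Φ T ε b) c ℓ ς Finset.univ z
  pair : ∃ (R : ℝ → κ → κ → Prop) (cl : κ → Finset κ) (bD : κ → ℝ) (x y : κ),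
    Pair (VLMeas973.vsys Φ T ε b) c z R Finset.univ cl bD x y d e ∧
    ExitT (VLMeas973.vsys Φ T ε b) z cl bD ∧ CrossT R cl bD y

/-- The facts of the level `j` of the shape `S` for one base event `p`: the hypothesis of
`pairAlt_of_lv`. -/
def LvHyp (S : Shp) (Φ : Space3 → ℝ) (b₀ te : ℝ) (q : ℕ → ℝ≥0∞) (T' c : ℝ) (N j : ℕ)
    (p : ℝ → S.Θ → Prop) : Prop :=
  ∀ (ρ ς ε : ℝ), 0 < ρ → 0 < ς → 0 < ε → te + 2 * (ρ * ε) < T' → 2 * (ρ * ε) ≤ ς →
    ∀ (n : ℕ) (w : Config n) (x : Th S.Θ j), p ε (bas S.Θ j x) → HitS S Φ b₀ te q ε j x →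
      ¬ BadLv S Φ b₀ te q T' c ρ ς ε N w j x →
      LvFact Φ T' ε c (ρ * ε) ς ((itS S Φ b₀ te q j).b ε x) ((itS S Φ b₀ te q j).z ε x)
        (dL ((itS S Φ b₀ te q j).th ε x)).1 (eL ((itS S Φ b₀ te q j).th ε x)).1

/-- **`PairAlt` for the continued shapes** from the levels. -/
theorem pairAlt_of_lv (h : ShpOk γ β ρ S) (hρ : Measurable ρ) (hΦ : AdmissiblePotential Φ)
    (hf : Measurable f₀) (h1 : ∫⁻ z, ENNReal.ofReal (f₀ z) ≤ 1)
    (he : Env f₀ γ ρ C₀) (hγ : 0 < γ) (hb : γ ≤ b₀) (hβ : β' < β) (hβb : β ≤ b₀)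
    (hq : ∑' m, q m ≠ ∞) {Q : EPar} (hT' : 0 < T') (hte : Q.te < T')
    (hb0 : ∀ ε x i, S.b ε x i = 0) (j N : ℕ)
    {p : ℝ → S.Θ → Prop} (hp : ∀ ε : ℝ, 0 < ε → ∀ᵐ θ ∂(S.m ε), p ε θ)
    (hlv : LvHyp S Φ b₀ Q.te q T' c N j p) :
    PairAlt Φ f₀ Q T' K P (itS S Φ b₀ Q.te q j) c := by
  have hj : ShpOk γ β' ρ (itS S Φ b₀ Q.te q j) :=
    StrN998.ShpOk.iter (te := Q.te) (q := q) h hΦ hρ hb hβ hβb hq j
  refine ⟨fun R ς ε _ _ y w => BadLv S Φ b₀ Q.te q T' c R ς ε N w j y.2,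
    fun ε _ _ y _ => ¬ (p ε (bas S.Θ j y.2) ∧ HitS S Φ b₀ Q.te q ε j y.2) ∨
      ¬ CDpass Φ (cD ε y.1 (eL ((itS S Φ b₀ Q.te q j).th ε y.2))),
    badF_lv_osP h hρ hΦ (Gate973.classNull hΦ hT') hf h1 he hγ hb hq P j c N,
    (gNull_snd (E := fun ε x => ¬ (p ε (bas S.Θ j x) ∧ HitS S Φ b₀ Q.te q ε j x)) hj hf
      fun ε hε => ?_).or hf (PassAE416.gNull_pass hj hΦ hf), fun R hR ς hς => ?_⟩
  · filter_upwards [NuHit969.ae_itS (te := Q.te) (q := q) (b₀ := b₀) h hΦ hε (hp ε hε) j]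
      with x hx hn
    exact hn hx
  · refine ⟨min (ς / (2 * R)) ((T' - Q.te) / (2 * R)), lt_min (by positivity)
      (div_pos (by linarith) (by positivity)), fun ε hε hlt i n y w hw hct hgd => ?_⟩
    have e1 : 2 * (R * ε) < ς := by
      have := (lt_div_iff₀ (by positivity : (0 : ℝ) < 2 * R)).1 (hlt.trans_le (min_le_left _ _))
      linarith
    have e2 : Q.te + 2 * (R * ε) < T' := by
      have := (lt_div_iff₀ (by positivity : (0 : ℝ) < 2 * R)).1 (hlt.trans_le (min_le_right _ _))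
      linarith
    by_cases hB : BadLv S Φ b₀ Q.te q T' c R ς ε N w j y.2
    · exact Or.inr (Or.inl hB)
    by_cases hH : p ε (bas S.Θ j y.2) ∧ HitS S Φ b₀ Q.te q ε j y.2
    swap
    · exact Or.inr (Or.inr (Or.inl hH))
    by_cases hC : CDpass Φ (cD ε y.1 (eL ((itS S Φ b₀ Q.te q j).th ε y.2)))
    swap
    · exact Or.inr (Or.inr (Or.inr hC))
    have hl := hlv R ς ε hR hς hε e2 e1.le n w y.2 hH.1 hH.2 hB
    exact Or.inl ⟨hl.pair, fun k => itS_b0 hb0 j ε y.2 k, hl.conn, hl.tl, hct, hgd.real.valid,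
      hgd.real.sep, hC⟩

/-! ## The base shapes -/





/-- **`PairAlt` for the continued base shapes** from the levels. -/
theorem pairAlt_famB (N : NPar) {K₁ : ℕ} (s : Ix N.m₀) (hΦ : AdmissiblePotential Φ)
    (hγb : γ ≤ N.b) (hγe : γ ≤ N.γe) (hβ0 : β < N.b) (hβγ : β < N.γe) (hN : N.ρ ≠ ∞)
    (hρ : Measurable ρ) (hf : Measurable f₀) (h1 : ∫⁻ z, ENNReal.ofReal (f₀ z) ≤ 1)
    (he : Env f₀ γ ρ C₀) (hγ : 0 < γ) (hb : γ ≤ b₀) (hβ : β' < β) (hβb : β ≤ b₀)
    (hq : ∑' m, q m ≠ ∞) {Q : EPar} (hT' : 0 < T') (hte : Q.te < T') (j M : ℕ)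
    (hlv : LvHyp (famB Φ K₁ N s) Φ b₀ Q.te q T' c M j
      fun ε x => BasePair45.Good0 Φ ε N.te N.T' s.1.1 x) :
    PairAlt Φ f₀ Q T' K P (itS (famB Φ K₁ N s) Φ b₀ Q.te q j) c :=
  pairAlt_of_lv (NuL735.shpOk_base hΦ K₁ N hγb hγe hβ0 hβγ hN hρ s) hρ hΦ hf h1 he hγ hb hβ hβb
    hq hT' hte (fun _ _ _ => rfl) j M
    (fun _ hε => BasePair45.ae_good0 hΦ hε N s.2.1.1 s.2.1.2) hlv

end Crest.Agent.R122.PairAlt291

end
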