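import Crest.Agent.R122.LNPart_424

/-!
# Row 122, LN1, independent lines (helper692): the split S | X | J of the graph alternatives

The set of parts is `{π, {p}}`, `π` the structure, `p` an independent line.

* `BadS` : a connected set containing `π`, not `p`, is not tree-like (structure only);
* `BadX` : a connected set containing `p`, disjoint from `π`, is not tree-like (line only);
* `Joint` : a connected set contains `π` and `p`.
* `split_noBad`, `split_noTwo` : `¬ NoBad → BadS ∨ BadX ∨ Joint`, `¬ NoTwo → Joint`.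
* `tl_singleton` : `{p}` is tree-like, so `BadX` contains a gas particle.
* Gas and structure: `badS_gas` : `BadS → BadGasW` of the structure (`s = 1`); `badX_gas` :
  `BadX → BadGasW` of the line alone (`s = 1`, no anchor); `joint_gas` : `Joint → BadGasW` of the
  structure and the line (`s = 2`); `joint_gas'` : without anchors, if a gas particle occurs.
-/

set_option autoImplicit false
set_option linter.unusedSectionVars false

open MeasureTheory Set
open scoped Classical ENNReal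
open Crest.AnalysisR.Kinetic
open Crest.Agent.R122.VL581 Crest.Agent.R122.VLMeas973 Crest.Agent.R122.LNg410
open Crest.Agent.R122.LN304 Crest.Agent.R122.LNBridge968 Crest.Agent.R122.LNPart424

noncomputable section

namespace Crest.Agent.R122.X692

variable {J κ : Type} [Fintype J] {M : VSys J κ} {c ℓ ς : ℝ} {Z : J → PhasePoint}
  {π P : Finset J} {p : J} {N N' : ℕ}

/-! ### The split on the master system -/

/-- Structure only. -/
def BadS (M : VSys J κ) (c ℓ ς : ℝ) (Z : J → PhasePoint) (π : Finset J) (p : J) (N : ℕ) : Prop :=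
  ∃ P : Finset J, M.Conn c P Z ∧ π ⊆ P ∧ p ∉ P ∧ P.card ≤ N ∧ ¬ TL M c ℓ ς P Z

/-- Line only. -/
def BadX (M : VSys J κ) (c ℓ ς : ℝ) (Z : J → PhasePoint) (π : Finset J) (p : J) (N : ℕ) : Prop :=
  ∃ P : Finset J, M.Conn c P Z ∧ p ∈ P ∧ (∀ i ∈ P, i ∉ π) ∧ P.card ≤ N ∧ ¬ TL M c ℓ ς P Z

/-- Structure and line. -/
def Joint (M : VSys J κ) (c : ℝ) (Z : J → PhasePoint) (π : Finset J) (p : J) (N : ℕ) : Prop :=
  ∃ P : Finset J, M.Conn c P Z ∧ π ⊆ P ∧ p ∈ P ∧ P.card ≤ N

/-- The parts of a structure and an independent line. -/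
def Lx (π : Finset J) (p : J) : Finset (Finset J) := {π, {p}}

theorem mem_Lx {Q : Finset J} : Q ∈ Lx π p ↔ Q = π ∨ Q = {p} := by
  unfold Lx
  rw [Finset.mem_insert, Finset.mem_singleton]

theorem pi_mem : π ∈ Lx π p := mem_Lx.2 (Or.inl rfl)

theorem p_mem : ({p} : Finset J) ∈ Lx π p := mem_Lx.2 (Or.inr rfl)

theorem mem_uni_Lx {i : J} : i ∈ uni (Lx π p) ↔ i ∈ π ∨ i = p := by
  rw [LNPart424.mem_uni]
  constructor
  · rintro ⟨Q, hQ, hi⟩
    rcases mem_Lx.1 hQ with rfl | rfl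
    · exact Or.inl hi
    · exact Or.inr (Finset.mem_singleton.1 hi)
  · rintro (hi | rfl)
    · exact ⟨π, pi_mem, hi⟩
    · exact ⟨_, p_mem, Finset.mem_singleton_self _⟩

/-- One label is tree-like. -/
theorem tl_singleton (p : J) : TL M c ℓ ς {p} Z := by
  refine ⟨fun A hA => ?_, ∅, fun _ => 0, by simp, by simp, by simp, ?_⟩
  · intro i hi _ _ j hj _ hji _
    have h1 := Finset.mem_singleton.1 (hA hi)
    have h2 := Finset.mem_singleton.1 (hA hj)
    exact absurd (h2.trans h1.symm) hji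
  · intro i hi j hj hij
    exact absurd ((Finset.mem_singleton.1 hi).trans (Finset.mem_singleton.1 hj).symm) hij

theorem Joint.mono (h : Joint M c Z π p N) (hN : N ≤ N') : Joint M c Z π p N' := by
  obtain ⟨P, h1, h2, h3, h4⟩ := h
  exact ⟨P, h1, h2, h3, h4.trans hN⟩

theorem BadS.mono (h : BadS M c ℓ ς Z π p N) (hN : N ≤ N') : BadS M c ℓ ς Z π p N' := by
  obtain ⟨P, h1, h2, h3, h4, h5⟩ := h
  exact ⟨P, h1, h2, h3, h4.trans hN, h5⟩

theorem BadX.mono (h : BadX M c ℓ ς Z π p N) (hN : N ≤ N') : BadX M c ℓ ς Z π p N' := by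
  obtain ⟨P, h1, h2, h3, h4, h5⟩ := h
  exact ⟨P, h1, h2, h3, h4.trans hN, h5⟩

/-- A connected set which meets the structure and contains the line. -/
theorem joint_of_meet (hc : M.Conn c π Z) (hP : M.Conn c P Z) (hp : p ∈ P)
    (hm : ∃ i ∈ π, i ∈ P) (hN : (P ∪ uni (Lx π p)).card ≤ N) : Joint M c Z π p N := by
  obtain ⟨i, hi, hiP⟩ := hm
  refine ⟨P ∪ π, LNg410.conn_union hP hc ⟨i, Finset.mem_inter.2 ⟨hiP, hi⟩⟩,
    Finset.subset_union_right, Finset.mem_union_left _ hp, le_trans (Finset.card_le_card ?_) hN⟩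
  intro z hz
  rw [Finset.mem_union] at hz ⊢
  exact hz.imp id fun h => mem_uni_Lx.2 (Or.inl h)

theorem card_le_of_union (hN : (P ∪ uni (Lx π p)).card ≤ N) : P.card ≤ N :=
  (Finset.card_le_card Finset.subset_union_left).trans hN

/-- **Split of the bad sets.** -/
theorem split_noBad (hc : M.Conn c π Z) (h : ¬ NoBad M c ℓ ς Z (Lx π p) N) :
    BadS M c ℓ ς Z π p N ∨ BadX M c ℓ ς Z π p N ∨ Joint M c Z π p N := by
  unfold NoBad at h
  push Not at h
  obtain ⟨P, hP, ⟨Q, hQ, hQP⟩, hN, hT⟩ := h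
  by_cases hp : p ∈ P
  · by_cases hm : ∃ i ∈ π, i ∈ P
    · exact Or.inr (Or.inr (joint_of_meet hc hP hp hm hN))
    · refine Or.inr (Or.inl ⟨P, hP, hp, fun i hi hiπ => hm ⟨i, hiπ, hi⟩, card_le_of_union hN, hT⟩)
  · rcases mem_Lx.1 hQ with rfl | rfl
    · exact Or.inl ⟨P, hP, hQP, hp, card_le_of_union hN, hT⟩
    · exact absurd (hQP (Finset.mem_singleton_self p)) hp

/-- **Split of the connections of two parts.** -/
theorem split_noTwo (hc : M.Conn c π Z) (h : ¬ NoTwo M c Z (Lx π p) N) : Joint M c Z π p N := by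
  unfold NoTwo at h
  push Not at h
  obtain ⟨P, hP, hN, Q, hQ, Q', hQ', hQP, ⟨i, hi, hiP⟩, hne⟩ := h
  rcases mem_Lx.1 hQ with rfl | rfl
  · rcases mem_Lx.1 hQ' with rfl | rfl
    · exact absurd rfl hne
    · rw [Finset.mem_singleton.1 hi] at hiP
      obtain ⟨y, hy⟩ := hc.1
      exact joint_of_meet hc hP hiP ⟨y, hy, hQP hy⟩ hN
  · have hp : p ∈ P := hQP (Finset.mem_singleton_self p)
    rcases mem_Lx.1 hQ' with rfl | rfl
    · exact joint_of_meet hc hP hp ⟨i, hi, hiP⟩ hN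
    · exact absurd rfl hne

/-- The parts of a structure and an independent line. -/
theorem parts_Lx (hc : M.Conn c π Z) (ho : ∀ i, i ∉ π → i ≠ p → M.o ≠ some i)
    (hb : ∀ i, i ∉ π → i ≠ p → M.b i ≤ 0)
    (hs : ∀ i j, i ∉ π → i ≠ p → j ∉ π → j ≠ p → i ≠ j → M.ε < dist (Z i).1 (Z j).1) :
    Parts M c Z (Lx π p) where
  conn Q hQ := by
    rcases mem_Lx.1 hQ with rfl | rfl
    · exact hc
    · exact LNg410.conn_singleton p
  gas_o i hi := ho i (hi _ pi_mem) fun h => hi _ p_mem (Finset.mem_singleton.2 h)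
  gas_b i hi := hb i (hi _ pi_mem) fun h => hi _ p_mem (Finset.mem_singleton.2 h)
  gas_sep i j hi hj hij := hs i j (hi _ pi_mem) (fun h => hi _ p_mem (Finset.mem_singleton.2 h))
    (hj _ pi_mem) (fun h => hj _ p_mem (Finset.mem_singleton.2 h)) hij

/-! ### Tree-likeness along an injection -/

variable {J' : Type} [Fintype J'] {M' : VSys J' κ} {e : J' ↪ J}

/-- Tree-likeness is transported along an injection of labels. -/
theorem tl_map (h : Pull M' M e) (hΦ : AdmissiblePotential M.Φ) (hε : 0 < M.ε) {P' : Finset J'}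
    (ht : TL M' c ℓ ς P' (fun k => Z (e k))) : TL M c ℓ ς (P'.map e) Z := by
  obtain ⟨hok, E, σ, h1, h2, h5, h6⟩ := ht
  set q : J' × J' → J × J := fun x => (e x.1, e x.2) with hq
  have hqi : Function.Injective q := fun x y hxy => by
    simp only [hq, Prod.mk.injEq] at hxy
    exact Prod.ext (e.injective hxy.1) (e.injective hxy.2)
  set τ : J × J → ℝ := Function.extend q σ 0 with hτ
  have hτq : ∀ x, τ (q x) = σ x := fun x => hqi.extend_apply σ 0 x
  refine ⟨fun A hA => ?_, E.image q, τ, ?_, ?_, ?_, ?_⟩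
  · obtain ⟨A', hA', rfl⟩ := Finset.subset_map_iff.1 hA
    rw [← h.T]
    exact (h.ok hΦ hε _).2 (hok A' hA')
  · rw [Finset.card_image_of_injective _ hqi, h1, Finset.card_map]
  · intro x hx
    obtain ⟨y, hy, rfl⟩ := Finset.mem_image.1 hx
    obtain ⟨h7, h8, h9⟩ := h2 y hy
    exact ⟨Finset.mem_map_of_mem e h7, Finset.mem_map_of_mem e h8, fun h' => h9 (e.injective h')⟩
  · intro x hx x' hx' hxx
    obtain ⟨y, hy, rfl⟩ := Finset.mem_image.1 hx
    obtain ⟨y', hy', rfl⟩ := Finset.mem_image.1 hx'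
    rw [hτq, hτq]
    exact h5 y hy y' hy' (fun h' => hxx (by rw [h']))
  · intro i hi j hj hij t ht
    obtain ⟨i, hi', rfl⟩ := Finset.mem_map.1 hi
    obtain ⟨j, hj', rfl⟩ := Finset.mem_map.1 hj
    obtain ⟨ht, hv⟩ := ht
    rw [← h.T] at ht
    obtain ⟨x, hx, hx', hd⟩ := h6 i hi' j hj' (fun h' => hij (congrArg e h')) t
      ⟨ht, (h.vct hΦ hε).1 hv⟩
    refine ⟨q x, Finset.mem_image.2 ⟨x, hx, rfl⟩, ?_, by rwa [hτq]⟩
    rcases hx' with rfl | rfl
    · exact Or.inl rfl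
    · exact Or.inr rfl

/-- A subset of the range of an injection is an image. -/
theorem exists_map_eq {e : J' ↪ J} {P : Finset J} (h : ∀ i ∈ P, ∃ i', e i' = i) :
    ∃ P' : Finset J', P'.map e = P := by
  refine ⟨P.preimage e e.injective.injOn, ?_⟩
  ext x
  rw [Finset.mem_map]
  constructor
  · rintro ⟨y, hy, rfl⟩
    exact Finset.mem_preimage.1 hy
  · intro hx
    obtain ⟨y, rfl⟩ := h x hx
    exact ⟨y, Finset.mem_preimage.2 hx, rfl⟩

/-- The trivial partition is bad. -/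
theorem badPartW_univ {M : VSys J κ} {s : ℕ} {A : Finset J} (hc : M.Conn c Finset.univ Z)
    (ha : ∃ x, x ∈ A) (hbad : 1 < s ∨ (s = 1 ∧ ¬ LN2.TLW M c ℓ ς Finset.univ Z)) :
    LN2.BadPartW M c ℓ ς s A Z := by
  have hne : (Finset.univ : Finset J) ≠ ⊥ := by
    rw [Finset.bot_eq_empty]
    exact hc.1.ne_empty
  refine ⟨Finpartition.indiscrete hne, ?_, ?_⟩
  · intro P hP
    rw [Finpartition.indiscrete_parts, Finset.mem_singleton] at hP
    subst hP
    obtain ⟨x, hx⟩ := ha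
    exact ⟨hc, x, Finset.mem_univ _, hx⟩
  · rw [Finpartition.indiscrete_parts, Finset.card_singleton]
    rcases hbad with h | ⟨h, hT⟩
    · exact Or.inl h
    · exact Or.inr ⟨h.symm, Finset.univ, Finset.mem_singleton_self _, hT⟩

/-! ### The gas and one structure -/

variable {Φ : Space3 → ℝ} {T ε R : ℝ} {S : Type} [Fintype S] {n : ℕ} {b : S → ℝ}
  {z : S → PhasePoint} {w : Config n}

/-- A connected set which contains the whole structure, bad or with few parts: bad partition. -/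
theorem badGasW_one (hΦ : AdmissiblePotential Φ) (hε : 0 < ε) {s : ℕ} {A₀ : Finset S}
    {G : Finset (Fin n ⊕ S)} (hG : (gsys Φ T ε n b).Conn c G (Sum.elim w z))
    (hS : ∀ y, Sum.inr y ∈ G) (hN : G.card ≤ N)
    (ha : (∃ y, y ∈ A₀) ∨ ∃ i, Sum.inl i ∈ G)
    (hbad : 1 < s ∨ (s = 1 ∧ ¬ TL (gsys Φ T ε n b) c (R * ε) ς G (Sum.elim w z))) :
    LN2.BadGasW Φ T c R ς ε N s A₀ b z w := by
  obtain ⟨k, ι, e, hk, he, hQ⟩ := exists_emb G hS
  have hpull := pull_gsys (Φ := Φ) (T := T) (ε := ε) b he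
  have hmap : (Finset.univ : Finset (Fin k ⊕ S)).map e = G := by
    ext x
    rw [Finset.mem_map, ← hQ x]
    exact ⟨fun ⟨y, _, hy⟩ => ⟨y, hy⟩, fun ⟨y, hy⟩ => ⟨y, Finset.mem_univ _, hy⟩⟩
  refine ⟨k, hk.trans hN, ι, badPartW_univ ?_ ?_ ?_⟩
  · rw [← hmap] at hG
    have h1 := (hpull.conn hΦ hε).1 hG
    rwa [elim_comp w z he] at h1
  · rcases ha with ⟨y, hy⟩ | ⟨i, hi⟩
    · exact ⟨Sum.inr y, Finset.inr_mem_disjSum.2 hy⟩
    · obtain ⟨x, hx⟩ := (hQ _).2 hi
      rcases x with i' | y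
      · exact ⟨Sum.inl i', Finset.inl_mem_disjSum.2 (Finset.mem_univ _)⟩
      · rw [he] at hx
        simp at hx
  · refine hbad.imp id fun h => ⟨h.1, fun ht => h.2 ?_⟩
    rw [← hmap]
    refine LNPart424.tl_of_pull hpull hΦ hε ?_
    rw [elim_comp w z he]
    exact ht

/-! ### The gas, a structure and an independent line -/

/-- Births of a structure and an independent line. -/
abbrev bx (b : S → ℝ) (τ : ℝ) : S ⊕ Unit → ℝ := Sum.elim b fun _ => τ

/-- States (time `0`) of a structure and an independent line. -/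
abbrev zx (z : S → PhasePoint) (y : PhasePoint) : S ⊕ Unit → PhasePoint := Sum.elim z fun _ => y

/-- The labels of the structure. -/
def piS (n : ℕ) (S : Type) [Fintype S] : Finset (Fin n ⊕ (S ⊕ Unit)) :=
  Finset.univ.map ⟨fun y : S => Sum.inr (Sum.inl y), fun a b h => by simpa using h⟩

/-- The label of the line. -/
abbrev px (n : ℕ) (S : Type) : Fin n ⊕ (S ⊕ Unit) := Sum.inr (Sum.inr ())

theorem mem_piS {j : Fin n ⊕ (S ⊕ Unit)} : j ∈ piS n S ↔ ∃ y, j = Sum.inr (Sum.inl y) := by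
  simp only [piS, Finset.mem_map, Finset.mem_univ, true_and, Function.Embedding.coeFn_mk]
  exact ⟨fun ⟨y, hy⟩ => ⟨y, hy.symm⟩, fun ⟨y, hy⟩ => ⟨y, hy.symm⟩⟩

theorem inl_notMem_piS (i : Fin n) : (Sum.inl i : Fin n ⊕ (S ⊕ Unit)) ∉ piS n S := by
  rw [mem_piS]
  rintro ⟨y, hy⟩
  cases hy

theorem px_notMem_piS : px n S ∉ piS n S := by
  rw [mem_piS]
  rintro ⟨y, hy⟩
  cases hy

/-- Labels of the gas and the structure. -/
def eS (n : ℕ) (S : Type) : (Fin n ⊕ S) ↪ (Fin n ⊕ (S ⊕ Unit)) :=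
  ⟨Sum.map id Sum.inl, Function.Injective.sumMap Function.injective_id Sum.inl_injective⟩

/-- Labels of the gas and the line. -/
def eL (n : ℕ) (S : Type) : (Fin n ⊕ Unit) ↪ (Fin n ⊕ (S ⊕ Unit)) :=
  ⟨Sum.map id Sum.inr, Function.Injective.sumMap Function.injective_id Sum.inr_injective⟩

theorem pull_eS (b : S → ℝ) (τ : ℝ) :
    Pull (gsys Φ T ε n b) (gsys Φ T ε n (bx b τ)) (eS n S) where
  Φ := rfl
  T := rfl
  ε := rfl
  b i := by rcases i with i | i <;> rfl
  o i := by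
    show (none : Option _) = _ ↔ (none : Option _) = _
    simp
  S := rfl

theorem pull_eL (b : S → ℝ) (τ : ℝ) :
    Pull (gsys Φ T ε n fun _ : Unit => τ) (gsys Φ T ε n (bx b τ)) (eL n S) where
  Φ := rfl
  T := rfl
  ε := rfl
  b i := by rcases i with i | i <;> rfl
  o i := by
    show (none : Option _) = _ ↔ (none : Option _) = _
    simp
  S := rfl

theorem elim_eS (w : Config n) (z : S → PhasePoint) (y : PhasePoint) :
    (fun j => (Sum.elim w (zx z y) : Fin n ⊕ (S ⊕ Unit) → PhasePoint) (eS n S j)) =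
      Sum.elim w z := by
  funext j
  rcases j with i | i <;> rfl

theorem elim_eL (w : Config n) (z : S → PhasePoint) (y : PhasePoint) :
    (fun j => (Sum.elim w (zx z y) : Fin n ⊕ (S ⊕ Unit) → PhasePoint) (eL n S j)) =
      Sum.elim w fun _ => y := by
  funext j
  rcases j with i | i <;> rfl

variable {τ : ℝ} {y : PhasePoint}

/-- **Structure only.** -/
theorem badS_gas (hΦ : AdmissiblePotential Φ) (hε : 0 < ε) {A₀ : Finset S} (hA : A₀.Nonempty)
    (h : BadS (gsys Φ T ε n (bx b τ)) c (R * ε) ς (Sum.elim w (zx z y)) (piS n S) (px n S) N) :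
    LN2.BadGasW Φ T c R ς ε N 1 A₀ b z w := by
  obtain ⟨P, hP, hπ, hp, hN, hT⟩ := h
  obtain ⟨P', rfl⟩ := exists_map_eq (e := eS n S) (P := P) (fun j hj => by
    rcases j with i | i | i
    · exact ⟨Sum.inl i, rfl⟩
    · exact ⟨Sum.inr i, rfl⟩
    · exact absurd hj hp)
  have h1 := ((pull_eS (Φ := Φ) (T := T) (ε := ε) (n := n) b τ).conn hΦ hε).1 hP
  rw [elim_eS] at h1
  refine badGasW_one hΦ hε h1 (fun x => ?_) ((Finset.card_map _).symm.le.trans hN)
    (Or.inl hA) (Or.inr ⟨rfl, fun ht => hT ?_⟩)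
  · have h2 := hπ (mem_piS.2 ⟨x, rfl⟩)
    obtain ⟨x', hx', hxx⟩ := Finset.mem_map.1 h2
    have : x' = Sum.inr x := (eS n S).injective hxx
    rwa [← this]
  · refine tl_map (pull_eS (Φ := Φ) (T := T) (ε := ε) (n := n) b τ) hΦ hε ?_
    rw [elim_eS]
    exact ht

/-- **Line only.** -/
theorem badX_gas (hΦ : AdmissiblePotential Φ) (hε : 0 < ε)
    (h : BadX (gsys Φ T ε n (bx b τ)) c (R * ε) ς (Sum.elim w (zx z y)) (piS n S) (px n S) N) :
    LN2.BadGasW Φ T c R ς ε N 1 (∅ : Finset Unit) (fun _ => τ) (fun _ => y) w := by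
  obtain ⟨P, hP, hp, hπ, hN, hT⟩ := h
  obtain ⟨P', rfl⟩ := exists_map_eq (e := eL n S) (P := P) (fun j hj => by
    rcases j with i | i | i
    · exact ⟨Sum.inl i, rfl⟩
    · exact absurd (mem_piS.2 ⟨i, rfl⟩) (hπ _ hj)
    · exact ⟨Sum.inr i, rfl⟩)
  have h1 := ((pull_eL (Φ := Φ) (T := T) (ε := ε) (n := n) b τ).conn hΦ hε).1 hP
  rw [elim_eL] at h1
  have hpP : (Sum.inr () : Fin n ⊕ Unit) ∈ P' := by
    obtain ⟨x', hx', hxx⟩ := Finset.mem_map.1 hp
    have : x' = Sum.inr () := (eL n S).injective hxx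
    rwa [← this]
  refine badGasW_one hΦ hε h1 (fun x => hpP) ((Finset.card_map _).symm.le.trans hN) (Or.inr ?_)
    (Or.inr ⟨rfl, fun ht => hT ?_⟩)
  · by_contra hcon
    push Not at hcon
    apply hT
    have h3 : P'.map (eL n S) = {px n S} := by
      ext j
      rw [Finset.mem_map, Finset.mem_singleton]
      constructor
      · rintro ⟨x, hx, rfl⟩
        rcases x with i | i
        · exact absurd hx (hcon i)
        · rfl
      · rintro rfl
        exact ⟨Sum.inr (), hpP, rfl⟩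
    rw [h3]
    exact tl_singleton _
  · refine tl_map (pull_eL (Φ := Φ) (T := T) (ε := ε) (n := n) b τ) hΦ hε ?_
    rw [elim_eL]
    exact ht

/-- **Structure and line.** -/
theorem joint_gas (hΦ : AdmissiblePotential Φ) (hε : 0 < ε) {A₀ : Finset S} (hA : A₀.Nonempty)
    (h : Joint (gsys Φ T ε n (bx b τ)) c (Sum.elim w (zx z y)) (piS n S) (px n S) N) :
    LN2.BadGasW Φ T c R ς ε N 2 (A₀.map Function.Embedding.inl) (bx b τ) (zx z y) w := by
  obtain ⟨P, hP, hπ, hp, hN⟩ := h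
  refine badGasW_one hΦ hε hP (fun x => ?_) hN (Or.inl ?_) (Or.inl one_lt_two)
  · rcases x with x | x
    · exact hπ (mem_piS.2 ⟨x, rfl⟩)
    · exact hp
  · obtain ⟨a, ha⟩ := hA
    exact ⟨Sum.inl a, Finset.mem_map_of_mem _ ha⟩

/-- **Structure and line, no anchors**: no gas particle, or a bad partition. -/
theorem joint_gas' (hΦ : AdmissiblePotential Φ) (hε : 0 < ε)
    (h : Joint (gsys Φ T ε n (bx b τ)) c (Sum.elim w (zx z y)) (piS n S) (px n S) N) :
    (gsys Φ T ε n (bx b τ)).Conn c (insert (px n S) (piS n S)) (Sum.elim w (zx z y)) ∨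
    LN2.BadGasW Φ T c R ς ε N 2 (∅ : Finset (S ⊕ Unit)) (bx b τ) (zx z y) w := by
  obtain ⟨P, hP, hπ, hp, hN⟩ := h
  by_cases hg : ∃ i, Sum.inl i ∈ P
  · refine Or.inr (badGasW_one hΦ hε hP (fun x => ?_) hN (Or.inr hg) (Or.inl one_lt_two))
    rcases x with x | x
    · exact hπ (mem_piS.2 ⟨x, rfl⟩)
    · exact hp
  · left
    have : P = insert (px n S) (piS n S) := by
      ext j
      rw [Finset.mem_insert]
      constructor
      · intro hj
        rcases j with i | i | i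
        · exact absurd ⟨i, hj⟩ hg
        · exact Or.inr (mem_piS.2 ⟨i, rfl⟩)
        · exact Or.inl rfl
      · rintro (rfl | hj)
        · exact hp
        · exact hπ hj
    rwa [← this]


end Crest.Agent.R122.X692

end
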