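import Crest.Agent.R122.BaseNu_45
import Crest.Agent.R122.LvTL_317_Mg
import Crest.Agent.R122.StrMap_491
import Crest.Agent.R122.PWInst4_442
import Crest.Agent.R122.StrN_998
import Crest.Agent.R122.NuHit_969
import Crest.Agent.R122.LNPart_424
import Crest.Agent.R122.NuHitS_969
import Crest.Agent.R122.BaseAe_45
import Crest.Agent.R122.NuR_735
import Crest.Agent.R122.LevGate_581
import Crest.Agent.R122.PairAlt_291_Mg
import Crest.Agent.R122.LNS1_674
import Crest.Agent.R122.LNStr_968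
import Crest.Agent.R122.PWBirth_365
import Crest.Agent.R122.LNS3_674
import Crest.Agent.R122.BHMainN_167
import Crest.Agent.R122.LinkENB_581
import Crest.Agent.R122.I3Slots_837
import Crest.Agent.R122.XSplit_692
import Crest.Agent.R122.PassAE_416
import Crest.Agent.R122.OkX6N_942
import Crest.Agent.R122.Real6P_796

-- ▼ part R122/LvBase_726
section

/-!
# Levels of the pair structures, base (row 122, S^(0)), helper726

The pairs of lines of a one-contact structure (helper45's `Base1.pair`), with helper151's `PT`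
(transversal exits, late cross contacts).

* `Base1.pairPT`, `pairPT0`.
-/

set_option autoImplicit false
set_option linter.unusedSectionVars false

open MeasureTheory Set Filter Topology
open scoped NNReal ENNReal
open Crest.AnalysisR.Kinetic
open Crest.Agent.R122.Flow671 hiding rel
open Crest.Agent.R122.Loc45 Crest.Agent.R122.Ins45
open Crest.Agent.R122.VL581 Crest.Agent.R122.VL581.VSys Crest.Agent.R122.VLInst442
open Crest.Agent.R122.LNInst491 Crest.Agent.R122.LN304 Crest.Agent.R122.LNg410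
open Crest.Agent.R122.Kin796 Crest.Agent.R122.Kin796.CTree Crest.Agent.R122.Tree674
open Crest.Agent.R122.PathFlow968 Crest.Agent.R122.TreeLines335 Crest.Agent.R122.EDefs602
open Crest.Agent.R122.LNTree410 Crest.Agent.R122.PWGlue491 Crest.Agent.R122.Inf879
open Crest.Agent.R122.LNGraft410 Crest.Agent.R122.LNEv968
open Crest.Agent.R122.PWInst442 (LineIn oLab exists_bE)
open Crest.Agent.R122.StrG491 Crest.Agent.R122.StrMain307 Crest.Agent.R122.StrMot2_151
open Crest.Agent.R122.OCout796 Crest.Agent.R122.Scat818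
open Crest.Agent.R122.OneC285 (cT cB cD cX oneLs exS)
open Crest.Agent.R122.VLMeas973 (vsys)
open Crest.Agent.R122.NuL735 (lnO zE oneE oneE_of_adm linesE_of_adm)
open scoped Classical

noncomputable section

namespace Crest.Agent.R122.BasePair45

section generic

variable {J κ : Type} [Fintype J] {M : VSys J κ} {Z : J → PhasePoint}
variable {c : ℝ} {bD : J → ℝ} {ℓ ς te : ℝ} {P : CTree} {z : PhasePoint × Par P} {eP : Idx P ↪ J}
  {a : J} {l : ML}

/-- Late cross contacts after the encounter of two classes, any active label. -/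
theorem crossT_join_cls {π₁ π₂ : Finset J} {y a y' : J} {s : ℝ} {cl₁ cl₂ : J → Finset J}
    {R₁ R₂ : ℝ → J → J → Prop} {E₁ E₂ : Finset J}
    (h : Meet M c Z R₁ R₂ π₁ π₂ cl₁ cl₂ bD E₁ E₂ y a s)
    (h₁ : CrossT R₁ cl₁ bD y') (h₂ : CrossT R₂ cl₂ bD y') (hy : bD y ≤ s) (ha : bD a ≤ s) :
    CrossT (joinR R₁ R₂ y a s) (clSep cl₁ cl₂) bD y' := by
  intro r i j hR hne
  rcases hR with hR | hR | ⟨rfl, ⟨rfl, rfl⟩ | ⟨rfl, rfl⟩⟩
  · obtain ⟨hi, hj⟩ := h.s₁.supp r i j hR
    rw [h.cl₁_of hi, h.cl₁_of hj] at hne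
    exact h₁ r i j hR hne
  · obtain ⟨hi, hj⟩ := h.s₂.supp r i j hR
    rw [h.cl₂_of hi, h.cl₂_of hj] at hne
    exact h₂ r i j hR hne
  · by_cases h1 : i = y'
    · exact Or.inr ⟨fun h2 => h.ne (h1.trans h2.symm), ha⟩
    · exact Or.inl ⟨h1, hy⟩
  · by_cases h1 : i = y'
    · exact Or.inr ⟨fun h2 => h.ne (h2.trans h1.symm), hy⟩
    · exact Or.inl ⟨h1, ha⟩

namespace Base1

variable (h : Base1 M Z te P z eP a l)
variable [Nonempty κ] (hC : 1 ≤ c) (hΦ : AdmissiblePotential M.Φ) (hε : 0 < M.ε)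
  (hb : BD z eP a l bD)
include h hC hΦ hε hb

/-- Separate classes, any active label. -/
theorem pt_sep (y' : J) :
    PT M Z (joinR (RC M Z {a}) (RC M Z (part eP)) a (eP (root P)) (cT M.ε z l))
      (clSep (clOf {a}) (clOf (part eP))) bD y' := by
  have henc := h.enc hC hΦ hε hb
  have hm := henc.meet hε
  refine ⟨ExitT.join hm (ExitT.single (hb.ln.trans h.line.b.symm))
    (ExitT.tree hΦ hε h.T_pos h.tree hb.tr), ?_⟩
  exact crossT_join_cls hm (CrossT.of_cls _ _ _) (CrossT.of_cls _ _ _) henc.lty.le henc.lta.le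

variable (hT : TL M c ℓ ς ({a} ∪ part eP) Z) (hℓς : 2 * ℓ ≤ ς) (hp : CDpass M.Φ (cD M.ε z l))
include hT hℓς hp

/-- Merged classes, the active label is one of the partners. -/
theorem pt_mrg {y' : J} (hy : y' = a ∨ y' = eP (root P)) :
    PT M Z (joinR (RC M Z {a}) (RC M Z (part eP)) a (eP (root P)) (cT M.ε z l))
      (clMrg (clOf {a}) (clOf (part eP)) a (eP (root P)))
      (grafted M.Φ M.ε bD a (eP (root P)) (cT M.ε z l) (cD M.ε z l)) y' := by
  have henc := h.enc hC hΦ hε hb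
  exact ⟨ExitT.graft henc hC hΦ hε hT hℓς hp (ExitT.single (hb.ln.trans h.line.b.symm))
    (ExitT.tree hΦ hε h.T_pos h.tree hb.tr),
    CrossT.graft henc hε (CrossT.of_cls _ _ _) (CrossT.of_cls _ _ _) hy⟩

variable (hle : cT M.ε z l + outT M.Φ M.ε (cD M.ε z l) ≤ M.T)
include hle

omit hb in
/-- **The pairs of lines of a one-contact structure**, with transversal exits and late cross
contacts. -/
theorem pairPT {i : Idx P} (hi : i ≠ root P) {y : Idx P ⊕ Bool} (hy : y ≠ Sum.inl i) :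
    ∃ (R : ℝ → J → J → Prop) (cl : J → Finset J) (bD : J → ℝ),
      Pair M c Z R ({a} ∪ part eP) cl bD (eP i) (oLab eP a y)
        (oneLs M.Φ M.ε P z l (Sum.inl i)).1 (oneLs M.Φ M.ε P z l y).1 ∧
      PT M Z R cl bD (oLab eP a y) := by
  obtain ⟨bD, hb⟩ := h.exists_bd
  rw [oneLs_exit hi]
  rcases y with j | (_ | _)
  · have hij : i ≠ j := fun h' => hy (by rw [h'])
    by_cases hj : j = root P
    · subst hj
      rw [oneLs_root]
      exact ⟨_, _, _, h.pair_er hC hΦ hε hb hi hp, h.pt_sep hC hΦ hε hb _⟩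
    · rw [oneLs_exit hj]
      exact ⟨_, _, _, h.pair_ee hC hΦ hε hb hij, h.pt_sep hC hΦ hε hb _⟩
  · exact ⟨_, _, _, h.pair_el hC hΦ hε hb hT hℓς hp hle hi,
      h.pt_mrg hC hΦ hε hb hT hℓς hp (Or.inl rfl)⟩
  · exact ⟨_, _, _, h.pair_ec hC hΦ hε hb hT hℓς hp hle hi,
      h.pt_mrg hC hΦ hε hb hT hℓς hp (Or.inr rfl)⟩

end Base1

end generic

variable {Φ : Space3 → ℝ} {ε T te ℓ ς c : ℝ} {P : CTree} {q : NuL735.Th P}

/-- **The pair of the lines `x` (an exit) and `y`** of a tree-like base structure, with transversal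
exits and late cross contacts. -/
theorem pairPT0 (hC : 1 ≤ c) (hΦ : AdmissiblePotential Φ) (hε : 0 < ε)
    (hct : (q.1, (lnO q.2).1) ∈ OneC423.ctSet Φ ε te P) (hte : te < T)
    (hsep : Sep Φ ε P T q.1.1 q.1.2) (hcd : CDok (cD ε q.1 (lnO q.2)))
    (hT : TL (sys0 Φ T ε P) c ℓ ς Finset.univ (zE Φ ε q)) (hℓς : 2 * ℓ ≤ ς)
    (hlT : te + 2 * ℓ < T) {x y : Idx P ⊕ Bool} (hx : x ∈ exS P) (hy : y ≠ x) :
    ∃ (R : ℝ → Idx P ⊕ Unit → Idx P ⊕ Unit → Prop)
      (cl : Idx P ⊕ Unit → Finset (Idx P ⊕ Unit)) (bD : Idx P ⊕ Unit → ℝ),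
      Pair (sys0 Φ T ε P) c (zE Φ ε q) R Finset.univ cl bD (lB P x) (lB P y)
        (oneE Φ ε q x).1 (oneE Φ ε q y).1 ∧
      PT (sys0 Φ T ε P) (zE Φ ε q) R cl bD (lB P y) := by
  have h := base1 hct hte hsep hcd
  have hadm : Adm Φ P q.1.1.2 q.1.2 := hct.2.2.2.2.1
  obtain ⟨hp, hout⟩ := pass0 hC hΦ hε hct hte hsep hcd hT hℓς hlT
  have hle : cT ε q.1 (lnO q.2) + outT Φ ε (cD ε q.1 (lnO q.2)) ≤ T := by
    have h1 : cT ε q.1 (lnO q.2) ≤ te := hct.2.2.2.1
    linarith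
  rcases x with i | b
  · have hi : i ≠ root P := mem_exS.1 hx
    obtain ⟨R, cl, bD, h1, h2⟩ := h.pairPT hC hΦ hε (ℓ := ℓ) (ς := ς)
      (by rw [union_eB]; exact hT) hℓς hp hle hi hy
    rw [union_eB] at h1
    refine ⟨R, cl, bD, ?_, h2⟩
    rw [oneE_of_adm hadm, oneE_of_adm hadm]
    exact h1
  · exact absurd hx inr_not_mem_exS

end Crest.Agent.R122.BasePair45

end
end

-- ▼ part R122/NuStep_491
section

/-!
# One step of the continued pair structures (row 122, S^(j)), helper491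

The isolated system of the structure after a step of helper998's `SD.step`: labels `κ ⊕ Unit`, births
`Sum.elim b 0`, time-`0` states `Sum.elim z v` (`v` the fresh particle).

* `sysK` : the isolated system; `inE` : the old labels; `pull_step`.
* `yK` : the label of the new second line.
* `Pair.hitU` : the data of the encounter of the second line with the fresh particle (`hitS`).
* `conn_step` : the new structure is connected (no tree-like hypothesis).
* `pass_step` : in a tree-like structure the encounter ends.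
* `Pair.step` : the pair structure after the step, for the three outputs.
-/

set_option autoImplicit false
set_option linter.unusedSectionVars false

open MeasureTheory Set Filter Topology
open scoped NNReal ENNReal
open Crest.AnalysisR.Kinetic
open Crest.Agent.R122.VL581 Crest.Agent.R122.VL581.VSys Crest.Agent.R122.VLInst442
open Crest.Agent.R122.LN304 Crest.Agent.R122.LNg410
open Crest.Agent.R122.Kin796 Crest.Agent.R122.Kin796.CTree
open Crest.Agent.R122.TreeLines335 Crest.Agent.R122.EDefs602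
open Crest.Agent.R122.Boost969 (LSt)
open Crest.Agent.R122.LNGraft410 Crest.Agent.R122.LNEv968 Crest.Agent.R122.PWInst442
open Crest.Agent.R122.LNBridge968 Crest.Agent.R122.LNEmb410
open Crest.Agent.R122.OCout796 Crest.Agent.R122.Scat818
open Crest.Agent.R122.Loc45 Crest.Agent.R122.Ins45
open Crest.Agent.R122.OneC285 (cT cB cD cX)
open Crest.Agent.R122.PairReal998 (hitS hitO outK)
open Crest.Agent.R122.VLMeas973 (vsys)
open scoped Classical

noncomputable section

namespace Crest.Agent.R122.StrG491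

variable {κ : Type} [Fintype κ] {Φ : Space3 → ℝ} {T ε te c ℓ ς : ℝ} {b : κ → ℝ}
  {z : κ → PhasePoint} {v : PhasePoint}

/-- The old labels. -/
def inE (κ : Type) : κ ↪ κ ⊕ Unit := ⟨Sum.inl, Sum.inl_injective⟩

@[simp] theorem inE_apply (x : κ) : inE κ x = Sum.inl x := rfl

/-- Births after the step. -/
abbrev bU (b : κ → ℝ) : κ ⊕ Unit → ℝ := Sum.elim b fun _ => 0

/-- States after the step. -/
abbrev zU (z : κ → PhasePoint) (v : PhasePoint) : κ ⊕ Unit → PhasePoint := Sum.elim z fun _ => v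

/-- The isolated system of the structure after the step. -/
abbrev sysU (Φ : Space3 → ℝ) (T ε : ℝ) (b : κ → ℝ) : VSys (κ ⊕ Unit) Unit := vsys Φ T ε (bU b)

/-- The old system seen in the new one. -/
theorem pull_step (b : κ → ℝ) : Pull (vsys Φ T ε b) (sysU Φ T ε b) (inE κ) where
  Φ := rfl
  T := rfl
  ε := rfl
  b _ := rfl
  o i := by
    show (none : Option _) = _ ↔ (none : Option _) = _
    simp
  S := rfl

theorem union_inE (inst : DecidableEq (κ ⊕ Unit)) :
    ((Finset.univ : Finset κ).map (inE κ) ∪ {Sum.inr ()} : Finset (κ ⊕ Unit)) = Finset.univ := by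
  ext j
  rw [Finset.mem_union, Finset.mem_singleton, Finset.mem_map]
  refine iff_of_true ?_ (Finset.mem_univ j)
  rcases j with j | j
  · exact Or.inl ⟨j, Finset.mem_univ j, rfl⟩
  · exact Or.inr rfl

/-- The label of the second line after the step. -/
def yK (y : κ) : Option Bool → κ ⊕ Unit
  | none => Sum.inr ()
  | some false => Sum.inl y
  | some true => Sum.inr ()

/-- Contact time of the line `e` and the fresh particle `v`. -/
abbrev hT0 (ε : ℝ) (v : PhasePoint) (e : LSt) : ℝ := cT (P := leaf) ε (v, ()) (e, 0)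

/-- Place of the fresh particle at the contact. -/
abbrev hX0 (ε : ℝ) (v : PhasePoint) (e : LSt) : Space3 := cX (P := leaf) ε (v, ()) (e, 0)

/-- Contact data. -/
abbrev hD0 (ε : ℝ) (v : PhasePoint) (e : LSt) : CD := cD (P := leaf) ε (v, ()) (e, 0)


variable {R : ℝ → κ → κ → Prop} {π : Finset κ} {cl : κ → Finset κ} {bD : κ → ℝ} {x y : κ}
  {d e : LSt}

theorem hit_lt (hv : (v, e) ∈ hitS ε te) : e.1 < hT0 ε v e := hv.2.2.1

theorem hit_le (hv : (v, e) ∈ hitS ε te) : hT0 ε v e ≤ te := hv.2.2.2.1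

theorem hit_pos (hv : (v, e) ∈ hitS ε te) : 0 < hT0 ε v e := hv.2.2.2.2

/-- The data of the encounter. -/
abbrev HitU (Φ : Space3 → ℝ) (T ε c : ℝ) (b : κ → ℝ) (z : κ → PhasePoint) (v : PhasePoint)
    (R : ℝ → κ → κ → Prop) (cl : κ → Finset κ) (bD : κ → ℝ) (x y : κ) (d e : LSt) : Prop :=
  Pair.Hit (sysU Φ T ε b) c (zU z v) (mapR (inE κ) R) (RC (sysU Φ T ε b) (zU z v) {Sum.inr ()})
    (Finset.univ.map (inE κ)) {Sum.inr ()} (mapCl (inE κ) cl) (clOf {Sum.inr ()})
    (Sum.elim bD fun _ => 0) {Sum.inr ()} (Sum.inl x) (Sum.inl y) (Sum.inr ()) d e (hT0 ε v e)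
    (hX0 ε v e) (hD0 ε v e)

/-- The fresh particle. -/
theorem lineIn_fresh (b : κ → ℝ) (z : κ → PhasePoint) (v : PhasePoint) :
    LineIn (sysU Φ T ε b) (zU z v) (Sum.inr ()) (0, v) where
  o h := by cases h
  b := max_self (0 : ℝ)
  Z := by
    refine Prod.ext ?_ rfl
    change v.1 = v.1 - (0 : ℝ) • v.2
    rw [zero_smul, sub_zero]

variable (hC : 1 ≤ c) (hΦ : AdmissiblePotential Φ) (hε : 0 < ε)
include hC hΦ hε

/-- **The encounter of the second line with the fresh particle.** -/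
theorem Pair.hitU (h : Pair (vsys Φ T ε b) c z R Finset.univ cl bD x y d e)
    (hv : (v, e) ∈ hitS ε te) (hte : te < T) (hcd : CDok (hD0 ε v e)) :
    HitU Φ T ε c b z v R cl bD x y d e where
  pr := Pair.map (M := sysU Φ T ε b) (M' := vsys Φ T ε b) (e := inE κ) (Z := zU z v)
    (pull_step b) hΦ hε (fun _ _ => rfl) h
  s₂ := Str.single (M := sysU Φ T ε b) hC hε (lineIn_fresh b z v).o (lineIn_fresh b z v).b.symm
  dj := by
    rw [Finset.disjoint_singleton_right, Finset.mem_map]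
    rintro ⟨i, _, hi⟩
    cases hi
  ha := Finset.mem_singleton_self _
  lte := hit_lt hv
  lta := hit_pos hv
  cd := hcd
  se := One796.state_l hε (P := leaf) (v, ()) (e, 0)
  sa := by
    rw [clOf_mem (Finset.mem_singleton_self (Sum.inr ())),
      (lineIn_fresh (Φ := Φ) (T := T) (ε := ε) b z v).st hΦ hε (hit_pos hv).le
        ((hit_le hv).trans hte.le)]
    change lineAt 0 v (hT0 ε v e) = (v.1 + hT0 ε v e • v.2, v.2)
    unfold lineAt
    rw [sub_zero]
  lt_T := (hit_le hv).trans_lt hte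

/-- **The structure after the step is connected.** -/
theorem conn_step (h : Pair (vsys Φ T ε b) c z R Finset.univ cl bD x y d e)
    (hv : (v, e) ∈ hitS ε te) (hte : te < T) (hcd : CDok (hD0 ε v e)) :
    (sysU Φ T ε b).Conn c Finset.univ (zU z v) := by
  have h1 := ((h.hitU hC hΦ hε hv hte hcd).enc hΦ hε).conn hC hε
  rwa [union_inE] at h1

variable (hℓς : 2 * ℓ ≤ ς) (hlT : te + 2 * ℓ < T)
include hℓς hlT



end Crest.Agent.R122.StrG491

end
end

-- ▼ part R122/LvStep_726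
section

/-!
# Levels of the pair structures, one step (row 122, S^(j)), helper726

* `tl_of_not_badGas` : a connected structure which is not a bad partition is tree-like.
* `hitU_of_hitD` : helper491's encounter data from helper969's `HitD`.
* `pairPT_step` : helper491's `Pair.step` with helper151's `PT`.
-/

set_option autoImplicit false
set_option linter.unusedSectionVars false

open MeasureTheory Set Filter Topology
open scoped NNReal ENNReal
open Crest.AnalysisR.Kinetic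
open Crest.Agent.R122.VL581 Crest.Agent.R122.VL581.VSys Crest.Agent.R122.VLInst442
open Crest.Agent.R122.LN304 Crest.Agent.R122.LNg410
open Crest.Agent.R122.Kin796 Crest.Agent.R122.Kin796.CTree
open Crest.Agent.R122.TreeLines335 Crest.Agent.R122.EDefs602
open Crest.Agent.R122.Boost969 (LSt)
open Crest.Agent.R122.LNGraft410 Crest.Agent.R122.LNEv968 Crest.Agent.R122.PWInst442
open Crest.Agent.R122.LNBridge968 Crest.Agent.R122.LNEmb410
open Crest.Agent.R122.OCout796 Crest.Agent.R122.Scat818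
open Crest.Agent.R122.Loc45 Crest.Agent.R122.Ins45
open Crest.Agent.R122.PairReal998 (hitS hitO outK)
open Crest.Agent.R122.VLMeas973 (vsys)
open Crest.Agent.R122.StrG491 Crest.Agent.R122.StrMain307 Crest.Agent.R122.StrMot2_151
open Crest.Agent.R122.NuHit969 (HitD)
open scoped Classical

noncomputable section

namespace Crest.Agent.R122.Lv726

/-! ### Tree-like structures -/

/-- No gas particle. -/
def e0 (κ : Type) : (Fin 0 ⊕ κ) ↪ κ :=
  ⟨Sum.elim (fun i => i.elim0) id, fun x y h => by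
    rcases x with x | x
    · exact x.elim0
    · rcases y with y | y
      · exact y.elim0
      · exact congrArg Sum.inr h⟩

theorem pull_e0 {κ : Type} [Fintype κ] {Φ : Space3 → ℝ} {T ε : ℝ} (b : κ → ℝ) :
    Pull (vsys Φ T ε (LN2.bS 0 b)) (vsys Φ T ε b) (e0 κ) where
  Φ := rfl
  T := rfl
  ε := rfl
  b i := by
    rcases i with i | i
    · exact i.elim0
    · rfl
  o i := by
    show (none : Option _) = _ ↔ (none : Option _) = _
    simp
  S := rfl

/-- **A connected structure which is not a bad partition is tree-like.** -/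
theorem tl_of_not_badGas {κ : Type} [Fintype κ] {Φ : Space3 → ℝ} {T T₁ ε c ρ ς : ℝ} {N : ℕ}
    {b : κ → ℝ} {z : κ → PhasePoint} {A₀ : Finset κ} {n : ℕ} {w : Config n}
    (hΦ : AdmissiblePotential Φ) (hε : 0 < ε) (hT : T ≤ T₁)
    (hc : (vsys Φ T ε b).Conn c Finset.univ z) (hA : A₀.Nonempty)
    (h : ¬ LN2.BadGas Φ T₁ c ρ ς ε N 1 A₀ b z w) :
    TL (vsys Φ T ε b) c (ρ * ε) ς Finset.univ z := by
  by_contra hcon
  obtain ⟨y, hy⟩ := hA
  refine h (LN2.badGasW_hor hT ⟨0, Nat.zero_le _, Function.Embedding.ofIsEmpty, ?_⟩).badGas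
  have h1 := LNPart424.badPartW_of_conn (M' := vsys Φ T ε (LN2.bS 0 b)) (M := vsys Φ T ε b)
    (e := e0 κ) (Z := z) (C := c) (ℓ := ρ * ε) (ς := ς) (s := 1) (A' := LN2.anch 0 A₀)
    (Λ := {Finset.univ}) (pull_e0 b) hΦ hε
    (fun π hπ => by rw [Finset.mem_singleton.1 hπ]; exact hc)
    (fun π hπ π' hπ' hne => absurd
      ((Finset.mem_singleton.1 hπ).trans (Finset.mem_singleton.1 hπ').symm) hne)
    (le_of_eq (Finset.card_singleton _))
    (fun π hπ => ⟨Sum.inr y, Finset.inr_mem_disjSum.2 hy, by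
      rw [Finset.mem_singleton.1 hπ]; exact Finset.mem_univ _⟩)
    hc (Finset.mem_singleton_self _) subset_rfl
    (fun x => iff_of_true ⟨Sum.inr x, rfl⟩ (Or.inl (Finset.mem_univ x))) (Or.inl hcon)
  have h2 : (fun k => z (e0 κ k)) = Sum.elim (fun i => w ((Function.Embedding.ofIsEmpty :
      Fin 0 ↪ Fin n) i)) z := by
    funext k
    rcases k with k | k
    · exact k.elim0
    · rfl
  rwa [h2] at h1

/-! ### The step -/

variable {κ : Type} [Fintype κ] {Φ : Space3 → ℝ} {T ε te c ℓ ς : ℝ} {b : κ → ℝ}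
  {z : κ → PhasePoint} {v : PhasePoint}
variable {R : ℝ → κ → κ → Prop} {cl : κ → Finset κ} {bD : κ → ℝ} {x y : κ} {d e : LSt}
variable (hC : 1 ≤ c) (hΦ : AdmissiblePotential Φ) (hε : 0 < ε)
include hC hΦ hε

/-- **The encounter of the second line with the fresh particle.** -/
theorem hitU_of_hitD (h : Pair (vsys Φ T ε b) c z R Finset.univ cl bD x y d e)
    (hv : HitD Φ ε te v e) (hte : te < T) : HitU Φ T ε c b z v R cl bD x y d e where
  pr := Pair.map (M := sysU Φ T ε b) (M' := vsys Φ T ε b) (e := inE κ) (Z := zU z v)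
    (pull_step b) hΦ hε (fun _ _ => rfl) h
  s₂ := Str.single (M := sysU Φ T ε b) hC hε (lineIn_fresh b z v).o (lineIn_fresh b z v).b.symm
  dj := by
    rw [Finset.disjoint_singleton_right, Finset.mem_map]
    rintro ⟨i, _, hi⟩
    cases hi
  ha := Finset.mem_singleton_self _
  lte := hv.lt
  lta := hv.pos
  cd := hv.cd
  se := hv.se
  sa := by
    have h1 : 0 ≤ hT0 ε v e := le_of_lt hv.pos
    have h2 : hT0 ε v e ≤ (sysU Φ T ε b).T := hv.le.trans hte.le
    rw [clOf_mem (Finset.mem_singleton_self (Sum.inr ())),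
      (lineIn_fresh (Φ := Φ) (T := T) (ε := ε) b z v).st hΦ hε h1 h2]
    change lineAt 0 v (hT0 ε v e) = (v.1 + hT0 ε v e • v.2, v.2)
    unfold lineAt
    rw [sub_zero]
  lt_T := hv.le.trans_lt hte

/-- **The structure after the step is connected.** -/
theorem conn_step (h : Pair (vsys Φ T ε b) c z R Finset.univ cl bD x y d e)
    (hv : HitD Φ ε te v e) (hte : te < T) :
    (sysU Φ T ε b).Conn c Finset.univ (zU z v) := by
  have h1 := ((hitU_of_hitD hC hΦ hε h hv hte).enc hΦ hε).conn hC hε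
  rwa [union_inE] at h1

/-- **The pair structure after the step**, with transversal exits and late cross contacts. -/
theorem pairPT_step (hℓς : 2 * ℓ ≤ ς) (hℓ : 0 ≤ ℓ) (hlT : te + 2 * ℓ < T)
    (h : Pair (vsys Φ T ε b) c z R Finset.univ cl bD x y d e)
    (hpt : PT (vsys Φ T ε b) z R cl bD y) (hv : HitD Φ ε te v e)
    (hT : TL (sysU Φ T ε b) c ℓ ς Finset.univ (zU z v)) (k : Option Bool) :
    ∃ (R' : ℝ → κ ⊕ Unit → κ ⊕ Unit → Prop) (cl' : κ ⊕ Unit → Finset (κ ⊕ Unit))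
      (bD' : κ ⊕ Unit → ℝ), Pair (sysU Φ T ε b) c (zU z v) R' Finset.univ cl' bD' (Sum.inl x)
        (yK y k) d (hitO (outK Φ ε k) ε v e) ∧
      PT (sysU Φ T ε b) (zU z v) R' cl' bD' (yK y k) := by
  have hte : te < T := by linarith
  have hh := hitU_of_hitD hC hΦ hε h hv hte
  have hT' : ∀ S : Finset (κ ⊕ Unit), S = Finset.univ → TL (sysU Φ T ε b) c ℓ ς S (zU z v) :=
    fun S hS => hS ▸ hT
  have hlt : hT0 ε v e + 2 * ℓ < (sysU Φ T ε b).T := by
    have := hv.le
    change hT0 ε v e + 2 * ℓ < T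
    have h2 : hT0 ε v e ≤ te := hv.le
    linarith
  have hpass := (hh.enc hΦ hε).pass_of (ℓ := ℓ) (ς := ς) hC hΦ hε (hT' _ (union_inE _)) hℓς hlt
  obtain ⟨hp, hout⟩ := hpass
  have hle : hT0 ε v e + outT Φ ε (hD0 ε v e) ≤ T := by
    have h2 : hT0 ε v e ≤ te := hv.le
    have h3 : outT Φ ε (hD0 ε v e) ≤ 2 * ℓ := hout
    linarith
  have h₁ : PT (sysU Φ T ε b) (zU z v) (mapR (inE κ) R) (mapCl (inE κ) cl)
      (Sum.elim bD fun _ => 0) (Sum.inl y) :=
    PT.map (M := sysU Φ T ε b) (M' := vsys Φ T ε b) (e := inE κ) (Z := zU z v) (c := c)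
      (pull_step b) hΦ hε h.str (fun _ _ => rfl) hpt
  have h₂ : PT (sysU Φ T ε b) (zU z v) (RC (sysU Φ T ε b) (zU z v) {Sum.inr ()})
      (clOf {Sum.inr ()}) (Sum.elim bD fun _ => 0) (Sum.inr ()) :=
    PT.single (lineIn_fresh (Φ := Φ) (T := T) (ε := ε) b z v).b.symm
  rcases k with _ | (_ | _)
  · have h1 := hh.outC hC hΦ hε hp
    rw [union_inE] at h1
    exact ⟨_, _, _, h1, PT.outC hh hΦ hε h₁ h₂⟩
  · have h1 := hh.outL hC hΦ hε (hT' _ (union_inE _)) hℓς hp hle
    rw [union_inE] at h1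
    exact ⟨_, _, _, h1, PT.graft hh hΦ hε hC (hT' _ (union_inE _)) hℓς hp h₁ h₂ (Or.inl rfl)⟩
  · have h1 := hh.outC' hC hΦ hε (hT' _ (union_inE _)) hℓς hp hle
    rw [union_inE] at h1
    exact ⟨_, _, _, h1, PT.graft hh hΦ hε hC (hT' _ (union_inE _)) hℓς hp h₁ h₂ (Or.inr rfl)⟩

end Crest.Agent.R122.Lv726

end
end

-- ▼ part R122/LvAll_726
section

/-!
# Levels of the pair structures (row 122, S^(j)), helper726

* `LvP T c S Φ ε x` : the structure `x` of the shape `S` is a pair structure with transversal exits and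
  late cross contacts.
* `LvO` : births `0`, connected, tree-like, `LvP`.
* `lv_all` : all levels of the real base shapes, off the bad partitions of the levels.
-/

set_option autoImplicit false
set_option linter.unusedSectionVars false

open MeasureTheory Set Filter Topology
open scoped NNReal ENNReal
open Crest.AnalysisR.Kinetic
open Crest.Agent.R122.VL581 Crest.Agent.R122.VL581.VSys
open Crest.Agent.R122.LN304 Crest.Agent.R122.LNg410
open Crest.Agent.R122.Kin796 Crest.Agent.R122.Kin796.CTree Crest.Agent.R122.Tree674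
open Crest.Agent.R122.TreeLines335 Crest.Agent.R122.EDefs602
open Crest.Agent.R122.Boost969 (LSt)
open Crest.Agent.R122.Pair292 (Lab)
open Crest.Agent.R122.PairD292 Crest.Agent.R122.PairRep581
open Crest.Agent.R122.StrN998 (Th Ka itS)
open Crest.Agent.R122.VLMeas973 (vsys)
open Crest.Agent.R122.StrG491 Crest.Agent.R122.StrMain307 Crest.Agent.R122.StrMot2_151
open Crest.Agent.R122.NuHit969 (HitD HitS bas)
open Crest.Agent.R122.BasePair45 (Good0 sys0 lB)
open Crest.Agent.R122.NuL735 (famB Ix NPar zE oneE thE)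
open scoped Classical

noncomputable section

namespace Crest.Agent.R122.Lv726

/-- Pair structure with transversal exits and late cross contacts. -/
def LvP (Φ : Space3 → ℝ) (T c ε : ℝ) (S : Shp) (x : S.Θ) : Prop :=
  ∃ (R : ℝ → S.κ → S.κ → Prop) (cl : S.κ → Finset S.κ) (bD : S.κ → ℝ) (a b : S.κ),
    Pair (vsys Φ T ε (S.b ε x)) c (S.z ε x) R Finset.univ cl bD a b
      (dL (S.th ε x)).1 (eL (S.th ε x)).1 ∧
    PT (vsys Φ T ε (S.b ε x)) (S.z ε x) R cl bD b

/-- Level data: births `0`, connected, tree-like, pair structure. -/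
structure LvO (Φ : Space3 → ℝ) (T c ℓ ς ε : ℝ) (S : Shp) (x : S.Θ) : Prop where
  b0 : ∀ i, S.b ε x i = 0
  conn : (vsys Φ T ε (S.b ε x)).Conn c Finset.univ (S.z ε x)
  tl : TL (vsys Φ T ε (S.b ε x)) c ℓ ς Finset.univ (S.z ε x)
  pair : LvP Φ T c ε S x

variable {Φ : Space3 → ℝ} {T T' T₁ te te₀ c R ς ε b₀ : ℝ} {K N₁ : ℕ} {N : NPar} {s : Ix N.m₀}
  {q : ℕ → ℝ≥0∞} {n : ℕ} {w : Config n}

/-- **The base level.** -/
theorem lv_zero (hC : 1 ≤ c) (hΦ : AdmissiblePotential Φ) (hε : 0 < ε) (hς : 2 * (R * ε) ≤ ς)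
    (hR : 0 ≤ R * ε) (hlT : te₀ + 2 * (R * ε) < T) (hTT : T ≤ T') (hT₁ : T ≤ T₁)
    {x : (famB Φ K N s).Θ} (h0 : Good0 Φ ε te₀ T' s.1.1 x)
    (hB : ¬ LN2.BadGas Φ T₁ c R ς ε N₁ 1 Finset.univ ((famB Φ K N s).b ε x)
      ((famB Φ K N s).z ε x) w) :
    LvO Φ T c (R * ε) ς ε (famB Φ K N s) x := by
  have hte : te₀ < T := by linarith
  have hconn := h0.conn (c := c) hC hΦ hε hte hTT
  have htl : TL (sys0 Φ T ε s.1.1) c (R * ε) ς Finset.univ (zE Φ ε x) :=
    tl_of_not_badGas hΦ hε hT₁ hconn ⟨Sum.inr (), Finset.mem_univ _⟩ hB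
  refine ⟨fun _ => rfl, hconn, htl, ?_⟩
  obtain ⟨R', cl, bD, h1, h2⟩ := BasePair45.pairPT0 hC hΦ hε h0.ct hte
    (LNTree410.sep_anti hTT h0.sep) (PN564.cdok_cD hε h0.proper) htl hς hlT s.2.2.1 s.2.2.2
  exact ⟨R', cl, bD, _, _, h1, h2⟩

/-- **One step.** -/
theorem lv_succ {S : Shp} {j : ℕ} (hC : 1 ≤ c) (hΦ : AdmissiblePotential Φ) (hε : 0 < ε)
    (hς : 2 * (R * ε) ≤ ς) (hR : 0 ≤ R * ε) (hlT : te + 2 * (R * ε) < T) (hT₁ : T ≤ T₁)
    {x : Th S.Θ (j + 1)} (h : LvO Φ T c (R * ε) ς ε (itS S Φ b₀ te q j) x.1)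
    (hv : HitD Φ ε te x.2.1 ((itS S Φ b₀ te q j).th ε x.1).2)
    (hB : ¬ BadK S Φ b₀ te q T₁ c R ς ε N₁ w (j + 1) x) :
    LvO Φ T c (R * ε) ς ε (itS S Φ b₀ te q (j + 1)) x := by
  obtain ⟨R', cl, bD, a, b, h1, h2⟩ := h.pair
  have hte : te < T := by linarith
  have hconn := conn_step hC hΦ hε h1 hv hte
  have htl : TL (vsys Φ T ε ((itS S Φ b₀ te q (j + 1)).b ε x)) c (R * ε) ς Finset.univ
      ((itS S Φ b₀ te q (j + 1)).z ε x) :=
    tl_of_not_badGas hΦ hε hT₁ hconn ⟨Sum.inr (), Finset.mem_univ _⟩ hB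
  refine ⟨fun i => ?_, hconn, htl, ?_⟩
  · rcases i with i | i
    · exact h.b0 i
    · rfl
  · obtain ⟨R₂, cl₂, bD₂, h3, h4⟩ := pairPT_step hC hΦ hε hς hR hlT h1 h2 hv htl x.2.2.2
    exact ⟨R₂, cl₂, bD₂, _, _, h3, h4⟩

/-- **All levels of the real base shapes**, off the bad partitions of the levels. -/
theorem lv_all (hC : 1 ≤ c) (hΦ : AdmissiblePotential Φ) (hε : 0 < ε) (hς : 2 * (R * ε) ≤ ς)
    (hR : 0 ≤ R * ε) (hlT₀ : te₀ + 2 * (R * ε) < T) (hlT : te + 2 * (R * ε) < T) (hTT : T ≤ T')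
    (hT₁ : T ≤ T₁) (j : ℕ) {x : Th (famB Φ K N s).Θ j}
    (h0 : Good0 Φ ε te₀ T' s.1.1 (bas (famB Φ K N s).Θ j x))
    (hh : HitS (famB Φ K N s) Φ b₀ te q ε j x)
    (hB : ¬ BadLv (famB Φ K N s) Φ b₀ te q T₁ c R ς ε N₁ w j x) :
    LvO Φ T c (R * ε) ς ε (itS (famB Φ K N s) Φ b₀ te q j) x := by
  induction j with
  | zero => exact lv_zero hC hΦ hε hς hR hlT₀ hTT hT₁ h0 hB
  | succ j ih =>
    rw [BadLv.succ, not_or] at hB
    exact lv_succ hC hΦ hε hς hR hlT hT₁ (ih h0 hh.1 hB.2) hh.2 hB.1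

/-- The structure of the level `j` is a pair structure (helper317's, helper726's `PairLv`). -/
theorem LvO.pairLv {S : Shp} {ℓ : ℝ} {x : S.Θ} (h : LvO Φ T c ℓ ς ε S x) :
    ∃ (R : ℝ → S.κ → S.κ → Prop) (cl : S.κ → Finset S.κ) (bD : S.κ → ℝ) (a b : S.κ),
      Pair (vsys Φ T ε (S.b ε x)) c (S.z ε x) R Finset.univ cl bD a b
        (dL (S.th ε x)).1 (eL (S.th ε x)).1 := by
  obtain ⟨R, cl, bD, a, b, h1, -⟩ := h.pair
  exact ⟨R, cl, bD, a, b, h1⟩

/-- The same with transversal exits and late cross contacts (helper796's `LevD.pair`). -/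
theorem LvO.pairD {S : Shp} {ℓ : ℝ} {x : S.Θ} (h : LvO Φ T c ℓ ς ε S x) :
    ∃ (R : ℝ → S.κ → S.κ → Prop) (cl : S.κ → Finset S.κ) (bD : S.κ → ℝ) (a b : S.κ),
      Pair (vsys Φ T ε (S.b ε x)) c (S.z ε x) R Finset.univ cl bD a b
        (dL (S.th ε x)).1 (eL (S.th ε x)).1 ∧
      ExitT (vsys Φ T ε (S.b ε x)) (S.z ε x) cl bD ∧ CrossT R cl bD b := by
  obtain ⟨R, cl, bD, a, b, h1, h2⟩ := h.pair
  exact ⟨R, cl, bD, a, b, h1, h2.exit, h2.cross⟩

end Crest.Agent.R122.Lv726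

end
end

-- ▼ part R122/PairWin_796
section

/-!
# Row 122, inequality 3 (helper796): the realisation hypothesis for the structures of all windows

* `lvHyp` : the level facts of helper291 from the levels of helper726.
* `pairAlt_win` : `PairAlt` for the structures `itW` of all windows, every `c ≥ 1`.
* `gNull_dT_win` : the birth of the first line is at most `te`.
-/

set_option autoImplicit false
set_option linter.unusedSectionVars false
set_option maxHeartbeats 400000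

open MeasureTheory ProbabilityTheory Set Filter
open scoped ENNReal Classical Topology
open Crest.AnalysisR.Kinetic
open Crest.Agent.R122.GC311 Crest.Agent.R122.EDefs602 Crest.Agent.R122.LN2
open Crest.Agent.R122.Kin796 Crest.Agent.R122.Kin796.CTree
open Crest.Agent.R122.Boost969 (LSt)
open Crest.Agent.R122.PairD292 Crest.Agent.R122.Top602
open Crest.Agent.R122.Mark307 (BPar)
open Crest.Agent.R122.Master566 (KData)
open Crest.Agent.R122.I3In566 (Adm3)
open Crest.Agent.R122.Gate424 Crest.Agent.R122.Gate973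
open Crest.Agent.R122.NuL735 (NPar nuL Ix famB)
open Crest.Agent.R122.CaseC658 (qK)
open Crest.Agent.R122.PairRep581 (Shp ShpOk Rep osP)
open Crest.Agent.R122.StrN998 (itS)
open Crest.Agent.R122.NuC85 (nW)
open Crest.Agent.R122.Link6796 (PairAlt)
open Crest.Agent.R122.PairAlt291 (LvHyp)

noncomputable section

namespace Crest.Agent.R122.OpxWin796

/-- **The level facts** of the base law. -/
theorem lvHyp {Φ : Space3 → ℝ} {b₀ te c : ℝ} {K : ℕ} (hΦ : AdmissiblePotential Φ) (N : NPar)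
    (s : Ix N.m₀) (q : ℕ → ℝ≥0∞) (hc : 1 ≤ c) (hte : N.te = te) (j M : ℕ) :
    LvHyp (famB Φ K N s) Φ b₀ te q N.T' c M j
      fun ε x => BasePair45.Good0 Φ ε N.te N.T' s.1.1 x := by
  intro ρ ς ε hρ hς hε h1 h2 n w x h0 hh hB
  have h3 := Lv726.lv_all hc hΦ hε h2 (mul_pos hρ hε).le (te₀ := N.te) (te := te) (T := N.T')
    (T' := N.T') (T₁ := N.T') (by rw [hte]; exact h1) h1 le_rfl le_rfl j h0 hh hB
  exact ⟨h3.conn, h3.tl, h3.pairD⟩

variable {Φ : Space3 → ℝ} {β T : ℝ} {f₀ : PhasePoint → ℝ} {f : ℝ → PhasePoint → ℝ}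
  {γ : ℝ → ℝ} {ρ : ℝ≥0∞} {h₀ kap lam C g : ℝ} {B : BPar}

/-- **The realisation hypothesis for the structures of all windows.** -/
theorem pairAlt_win (hD : KData Φ β T f₀ f) (hA : Adm3 Φ β T f γ ρ h₀ kap lam C g B)
    (hρ : ρ ≠ ∞) (Cf : ℝ) (m : ℕ) (L : ℝ) {tw te : ℝ} (htw : 0 ≤ tw) (hth : te < tw + h₀)
    (j K : ℕ) (s : Ix (nW β Cf g ρ h₀ m tw te).m₀) {c : ℝ} (hc : 1 ≤ c) (K₀ : ℕ) (P : CTree) :
    PairAlt Φ f₀ (epar γ ρ L tw te) (tw + h₀) K₀ P
      (itW Φ B C lam te (nW β Cf g ρ h₀ m tw te) j K s) c := by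
  have hb0 := hA.b0
  have hbs : B.b₀ ≤ B.bs := hA.ok.b0s
  have h1 := hA.bs
  have h2 := hA.bg
  have hh := hA.h0
  have hβ := hD.beta_pos
  obtain ⟨ρd, C₀, he⟩ := exists_env (γ' := B.b₀) (γ := 2 * β) (by linarith) hD.gaussian
  refine PairAlt291.pairAlt_famB (γ := B.b₀) (β := B.b₀ / 2) (β' := B.b₀ / 4) (b₀ := B.b₀)
    (ρ := ρd) (Q := epar γ ρ L tw te) (nW β Cf g ρ h₀ m tw te) s hD.adm ?_ h2 ?_ ?_ hρ he.meas
    hD.contDiff.continuous.measurable (lintegral_le_one hD) he hb0 le_rfl ?_ ?_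
    (tsum_qK_ne_top C lam K) ?_ hth j 1 (lvHyp hD.adm _ s _ hc rfl j 1)
  · show B.b₀ ≤ 2 * β
    linarith
  · show B.b₀ / 2 < 2 * β
    linarith
  · show B.b₀ / 2 < g
    linarith
  · linarith
  · linarith
  · linarith


end Crest.Agent.R122.OpxWin796

end
end

-- ▼ part R122/LNSE1_726
section

/-!
# Row 122, LN1, the pair `(d, e)` of inequality 3 (helper726)

The pair structure of helper491 (`Pair`) on the labels of the structure gives helper674's `Exits` for
the family `{d, e}` over the gas `cfg w`; the second line `e` may be reborn.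

* `ls2`, `p2` : the family and its labels.
* `one_of_pair` : helper674's `One`.
* `exits_pair` : helper674's `Exits`.
* `Pair.up` : a pair structure of the structure alone (labels `σ`) in the system with the gas.
-/

set_option autoImplicit false
set_option linter.unusedSectionVars false

open MeasureTheory Set Filter Topology
open scoped NNReal ENNReal
open Crest.AnalysisR.Kinetic
open Crest.Agent.R122.Flow671 hiding rel
open Crest.Agent.R122.Loc45 Crest.Agent.R122.Ins45 Crest.Agent.R122.EDefs602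
open Crest.Agent.R122.VL581 Crest.Agent.R122.VL581.VSys
open Crest.Agent.R122.LN304 Crest.Agent.R122.LNg410 Crest.Agent.R122.LNEv968
open Crest.Agent.R122.PWGlue491 Crest.Agent.R122.PWInst442 Crest.Agent.R122.LNPart424
open Crest.Agent.R122.MWFam255 Crest.Agent.R122.LNEv818 Crest.Agent.R122.StrG491
open Crest.Agent.R122.LNS674 Crest.Agent.R122.LNS968 Crest.Agent.R122.LNBridge968
open Crest.Agent.R122.LNEmb410
open scoped Classical

noncomputable section

namespace Crest.Agent.R122.LNSE726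

variable {σ : Type} [Fintype σ] {n : ℕ}

/-- The family of the two lines. -/
def ls2 (d e : ML) : Bool → ML
  | false => d
  | true => e

/-- The labels of the two lines. -/
def p2 (x y : σ) : Bool → σ
  | false => x
  | true => y

@[simp] theorem ls2_false (d e : ML) : ls2 d e false = d := rfl
@[simp] theorem ls2_true (d e : ML) : ls2 d e true = e := rfl
@[simp] theorem p2_false (x y : σ) : p2 x y false = x := rfl
@[simp] theorem p2_true (x y : σ) : p2 x y true = y := rfl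

variable {Φ : Space3 → ℝ} {T te ε c : ℝ} {b : σ → ℝ} {V : σ → PhasePoint} {w : Config n}
  {cl : Fin n ⊕ σ → Finset (Fin n ⊕ σ)} {R : ℝ → Fin n ⊕ σ → Fin n ⊕ σ → Prop}
  {β : Fin n ⊕ σ → ℝ} {E : Finset (Fin n ⊕ σ)} {x y : σ} {d e : ML}

/-- A structure on all structure labels over the gas. -/
theorem sb_of_str (h : Str (gsys Φ T ε n b) c (Sum.elim w V) R (pS n σ) cl β E) :
    SB (gsys Φ T ε n b) c w V R (pS n σ) cl β E where
  str := h
  gas := inl_not_mem_pS
  go i h' := by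
    have h1 : (none : Option (Fin n ⊕ σ)) = some (Sum.inl i) := h'
    cases h1
  gb _ := le_rfl

/-- helper674's `One`. -/
theorem one_of_str (hw : w ∈ PairExcluded ε n)
    (h : Str (gsys Φ T ε n b) c (Sum.elim w V) R (pS n σ) cl β E) : One Φ T ε c b V w cl R where
  base := (sb_of_str h).base
  pe := hw
  fam := h.fam

theorem one_of_pair (hw : w ∈ PairExcluded ε n)
    (h : Pair (gsys Φ T ε n b) c (Sum.elim w V) R (pS n σ) cl β (Sum.inr x) (Sum.inr y) d.1 e.1) :
    One Φ T ε c b V w cl R := one_of_str hw h.str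

/-- The first line is carried by `x`. -/
theorem car_x {J κ : Type} [Fintype J] {M : VSys J κ} {Z : J → PhasePoint}
    {R : ℝ → J → J → Prop} {π : Finset J} {cl : J → Finset J} {β : J → ℝ} {x y : J}
    (h : Pair M c Z R π cl β x y d.1 e.1) : Car M Z cl β {x, y} x d :=
  ⟨h.hx, h.bx.ge, h.lx⟩

/-- The second line is carried by `y`. -/
theorem car_y {J κ : Type} [Fintype J] {M : VSys J κ} {Z : J → PhasePoint}
    {R : ℝ → J → J → Prop} {π : Finset J} {cl : J → Finset J} {β : J → ℝ} {x y : J}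
    (h : Pair M c Z R π cl β x y d.1 e.1) : Car M Z cl β {x, y} y e :=
  ⟨h.hy, h.bY, h.ly⟩

/-- **The pair as a family of exits** over the gas. -/
theorem exits_pair (hΦ : AdmissiblePotential Φ) (hε : 0 < ε)
    (h : Pair (gsys Φ T ε n b) c (Sum.elim w V) R (pS n σ) cl β (Sum.inr x) (Sum.inr y) d.1 e.1)
    (hw : (MW.cfg w).Ok Φ ε) (hd : ((MW.cfg w).ins d).Ok Φ ε) (he : ((MW.cfg w).ins e).Ok Φ ε)
    (hN : e.1.1 = β (Sum.inr y) ∨
      (0 < e.1.1 ∧ ∀ i : Fin n, ε < dist (flow Φ ε e.1.1 w i).1 e.1.2.1)) :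
    Exits Φ T te ε b V w cl R (MW.cfg w) (gasE n σ) (ls2 d e) (p2 x y) := by
  have hSB := sb_of_str h.str
  have hgas : ∀ i : Fin n, cl (Sum.inl i) = ∅ := hSB.base.gas_cl
  have hb0 : ∀ i, (MW.cfg w).b i ≤ 0 := fun i => le_of_eq rfl
  have hNe : e.1.1 = β (Sum.inr y) ∨ NB Φ ε ((MW.cfg w).ins e) (Sum.inr ()) :=
    hN.imp id fun h1 => nb_cfg hΦ hε h1.1 h1.2
  have hgd0 : GD (gsys Φ T ε n b) (Sum.elim w V) cl (bD (MW.cfg w) (gasE n σ)) (labs (gasE n σ))
      (XD (MW.cfg w) (gasE n σ) Φ ε) := hSB.gd0 hΦ hε hw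
  have hgdd : GD (gsys Φ T ε n b) (Sum.elim w V) cl (bD ((MW.cfg w).ins d) (lab1 n x))
      (labs (lab1 n x)) (XD ((MW.cfg w).ins d) (lab1 n x) Φ ε) :=
    hSB.gd1 hΦ hε (car_x h) hd (Or.inl h.bx)
  have hgde : GD (gsys Φ T ε n b) (Sum.elim w V) cl (bD ((MW.cfg w).ins e) (lab1 n y))
      (labs (lab1 n y)) (XD ((MW.cfg w).ins e) (lab1 n y) Φ ε) :=
    hSB.gd1 hΦ hε (car_y h) he hNe
  refine
    { inj := ?_
      out := fun q i => Sum.inl_ne_inr
      mark := fun i _ => le_of_eq rfl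
      memC := ?_
      memB := fun i hi => absurd hi (inl_not_mem_pS i)
      ok0 := hw
      ok1 := ?_
      gd0 := hgd0
      gd1 := ?_
      cb0 := PW365.cleanB_gas (M := gsys Φ T ε n b) hgd0 hgas te
      cb1 := ?_
      old := ?_
      oldB := fun i j x' y' hi => absurd hi Sum.inl_ne_inr
      oldX := fun q i y' hi => absurd hi Sum.inl_ne_inr }
  · intro q q' hq
    have hxy : x ≠ y := fun h' => h.ne (congrArg Sum.inr h')
    cases q <;> cases q' <;> first | rfl | exact absurd hq hxy | exact absurd hq.symm hxy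
  · intro q
    cases q
    · exact h.str.mem _ h.hx
    · exact h.str.mem _ h.hy
  · intro q
    cases q
    · exact hd
    · exact he
  · intro q
    cases q
    · exact hgdd
    · exact hgde
  · intro q
    cases q
    · exact PW365.cleanB_ins (M := gsys Φ T ε n b) (Z := MW.cfg w) (a := d) hgdd hgas hb0 te
    · exact PW365.cleanB_ins (M := gsys Φ T ε n b) (Z := MW.cfg w) (a := e) hgde hgas hb0 te
  · intro q q' hq r hr
    cases q <;> cases q'
    · exact absurd rfl hq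
    · have h1 := (car_x h).old h.str (car_y h) h.ne r hr
      exact ⟨h1.1, h1.2.1⟩
    · have h1 := (car_y h).old h.str (car_x h) h.ne.symm r hr
      exact ⟨h1.1, h1.2.1⟩
    · exact absurd rfl hq

/-- The system of the structure alone in the system with the gas. -/
theorem pull_strE (b : σ → ℝ) :
    Pull (VLMeas973.vsys Φ T ε b) (gsys Φ T ε n b) (strE n σ) where
  Φ := rfl
  T := rfl
  ε := rfl
  b _ := rfl
  o i := by
    show (none : Option _) = _ ↔ (none : Option _) = _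
    simp
  S := rfl

/-- A pair structure on the labels `σ`, seen in the system with the gas. -/
theorem pair_up (hΦ : AdmissiblePotential Φ) (hε : 0 < ε) {R : ℝ → σ → σ → Prop}
    {cl : σ → Finset σ} {β : σ → ℝ}
    (h : Pair (VLMeas973.vsys Φ T ε b) c V R Finset.univ cl β x y d.1 e.1) :
    Pair (gsys Φ T ε n b) c (Sum.elim w V) (mapR (strE n σ) R) (pS n σ) (mapCl (strE n σ) cl)
      (Sum.elim (fun _ => 0) β) (Sum.inr x) (Sum.inr y) d.1 e.1 :=
  Pair.map (M := gsys Φ T ε n b) (Z := Sum.elim w V) (e := strE n σ) (pull_strE b) hΦ hε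
    (fun _ _ => rfl) h

end Crest.Agent.R122.LNSE726

end
end

-- ▼ part R122/LinkE_726
section

/-!
# Row 122, inequality 3 (helper726): the two lines of a pair structure are unlinked over the gas

* `noLink_pair` : off the bad events of the gateway the lines `d`, `e` of a pair structure (helper491)
  are unlinked in `cfg w`, `e` possibly reborn.
* `alt_of_link` : the alternatives, for a pair structure on the labels of the structure alone.
-/

set_option autoImplicit false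
set_option linter.unusedSectionVars false

open MeasureTheory Set Filter Topology
open scoped NNReal ENNReal
open Crest.AnalysisR.Kinetic
open Crest.Agent.R122.Flow671 hiding rel
open Crest.Agent.R122.Loc45 Crest.Agent.R122.Ins45 Crest.Agent.R122.EDefs602
open Crest.Agent.R122.VL581 Crest.Agent.R122.VL581.VSys
open Crest.Agent.R122.LN304 Crest.Agent.R122.LNg410 Crest.Agent.R122.LNEv968
open Crest.Agent.R122.PWGlue491 Crest.Agent.R122.PWInst442 Crest.Agent.R122.LNPart424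
open Crest.Agent.R122.MWFam255 Crest.Agent.R122.LNEv818 Crest.Agent.R122.StrG491
open Crest.Agent.R122.LNS674 Crest.Agent.R122.LNS968 Crest.Agent.R122.LNBridge968
open Crest.Agent.R122.LNEmb410
open scoped Classical

noncomputable section

namespace Crest.Agent.R122.LNSE726

variable {σ : Type} [Fintype σ] {n : ℕ} {Φ : Space3 → ℝ} {T te ε c ρ ς : ℝ} {b : σ → ℝ}
  {V : σ → PhasePoint} {w : Config n} {x y : σ} {d e : ML} {K m N₁ : ℕ} {T' Te T₁ : ℝ}

/-- **The lines of a pair structure are unlinked over the gas** off the bad events. -/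
theorem noLink_pair (hΦ : AdmissiblePotential Φ) (hε : 0 < ε) (hT0 : 0 ≤ T) (hte : te ≤ T)
    (hc : 1 ≤ c) (hρ : 2 * (ρ * ε) ≤ ς) (hT : T ≤ T') (hTe : T' ≤ Te) (hT₁ : Te < T₁)
    (hN₁ : (Fintype.card σ + 2 * K * (m + 2)) + (Fintype.card σ + 2 * K * (m + 2)) ≤ N₁)
    {cl : Fin n ⊕ σ → Finset (Fin n ⊕ σ)} {R : ℝ → Fin n ⊕ σ → Fin n ⊕ σ → Prop}
    {β : Fin n ⊕ σ → ℝ}
    (h : Pair (gsys Φ T ε n b) c (Sum.elim w V) R (pS n σ) cl β (Sum.inr x) (Sum.inr y) d.1 e.1)
    (hw : w ∈ PairExcluded ε n)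
    (hok : (MW.cfg w).Ok Φ ε) (hd : ((MW.cfg w).ins d).Ok Φ ε) (he : ((MW.cfg w).ins e).Ok Φ ε)
    (hN : e.1.1 = β (Sum.inr y) ∨
      (0 < e.1.1 ∧ ∀ i : Fin n, ε < dist (flow Φ ε e.1.1 w i).1 e.1.2.1))
    (hB : ¬ LN2.BadGas Φ T' c ρ ς ε N₁ 1 Finset.univ b V w)
    (hBH : ¬ BH167.BadHitGasN (BH167.bpos Φ T₁ Te) Φ T' c 1 ε N₁ N₁ 1 Finset.univ b V w)
    (hR : ¬ Gate424.RunS Φ ε T K m b V w) :
    MW.NoLink Φ ε K te (MW.cfg w) (MW.line d) (MW.line e) := by
  have h1 := (one_of_pair hw h).pairNL (te := te) (exits_pair hΦ hε h hok hd he hN) hΦ hε hT0 hte hc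
    hρ hT hTe hT₁ (A₀ := Finset.univ) ⟨x, Finset.mem_univ x⟩ hN₁ hB (fun h' => hBH h'.toN) hR
  exact h1 false true (by simp)

/-- **The alternatives of a link**, for a pair structure on the labels of the structure alone. -/
theorem alt_of_link (hΦ : AdmissiblePotential Φ) (hε : 0 < ε) (hT0 : 0 ≤ T) (hte : te ≤ T)
    (hc : 1 ≤ c) (hρ : 2 * (ρ * ε) ≤ ς) (hT : T ≤ T') (hTe : T' ≤ Te) (hT₁ : Te < T₁)
    (hN₁ : (Fintype.card σ + 2 * K * (m + 2)) + (Fintype.card σ + 2 * K * (m + 2)) ≤ N₁)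
    {cl : σ → Finset σ} {R : ℝ → σ → σ → Prop} {β : σ → ℝ}
    (h : Pair (VLMeas973.vsys Φ T ε b) c V R Finset.univ cl β x y d.1 e.1)
    (hw : w ∈ PairExcluded ε n)
    (hok : (MW.cfg w).Ok Φ ε) (hd : ((MW.cfg w).ins d).Ok Φ ε) (he : ((MW.cfg w).ins e).Ok Φ ε)
    (hN : e.1.1 = β y ∨ (0 < e.1.1 ∧ ∀ i : Fin n, ε < dist (flow Φ ε e.1.1 w i).1 e.1.2.1))
    (hlk : ¬ MW.NoLink Φ ε K te (MW.cfg w) (MW.line d) (MW.line e)) :
    Gate424.RunS Φ ε T K m b V w ∨ LN2.BadGas Φ T' c ρ ς ε N₁ 1 Finset.univ b V w ∨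
      BH167.BadHitGasN (BH167.bpos Φ T₁ Te) Φ T' c 1 ε N₁ N₁ 1 Finset.univ b V w := by
  by_contra hcon
  push Not at hcon
  exact hlk (noLink_pair hΦ hε hT0 hte hc hρ hT hTe hT₁ hN₁ (pair_up hΦ hε h) hw hok hd he hN
    hcon.2.1 hcon.2.2 hcon.1)

end Crest.Agent.R122.LNSE726

end
end

-- ▼ part R122/LinkEDet_726
section

/-!
# Row 122, inequality 3, the links of the pair laws (helper726): the deterministic input

* `PairLv` : the structure of the `j`-th continuation of a shape is a pair structure (helper491).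
* `ae_ok_e'` : the world `w + e` is good almost surely, over the law of a shape.
* `itDet_linkENB` : helper581's deterministic input for `LinkENB`, from the pair structure.
* `linkENB_gNull_of_lv` : the link events over the law of the `j`-th continuation are null.
-/

set_option autoImplicit false
set_option linter.unusedSectionVars false

open MeasureTheory Set Filter Topology
open scoped Classical ENNReal
open Crest.AnalysisR.Kinetic

noncomputable section

namespace Crest.Agent.R122.LNSE726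

open Crest.Agent.R122.GC311 Crest.Agent.R122.EDefs602
open Crest.Agent.R122.Gate424 Crest.Agent.R122.Gate973
open Crest.Agent.R122.BH167 Crest.Agent.R122.MeasPair522
open Crest.Agent.R122.Boost969 (LSt)
open Crest.Agent.R122.Pair292 (Lab)
open Crest.Agent.R122.PairD292
open Crest.Agent.R122.StrN998 (Th Ka itS)
open Crest.Agent.R122.PairBad515
open Crest.Agent.R122.PairRep581

variable {Φ : Space3 → ℝ} {f₀ : PhasePoint → ℝ} {γ β β' b₀ T te c : ℝ} {ρ : Space3 → ℝ≥0∞}
  {q : ℕ → ℝ≥0∞} {S : Shp}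

/-- The structure `x` of the `j`-th continuation of a shape is a pair structure, horizon `T`. -/
def PairLv (T c : ℝ) (S : Shp) (Φ : Space3 → ℝ) (b₀ te : ℝ) (q : ℕ → ℝ≥0∞) (ε : ℝ) (j : ℕ)
    (x : (itS S Φ b₀ te q j).Θ) : Prop :=
  ∃ (R : ℝ → (itS S Φ b₀ te q j).κ → (itS S Φ b₀ te q j).κ → Prop)
    (cl : (itS S Φ b₀ te q j).κ → Finset (itS S Φ b₀ te q j).κ)
    (bD : (itS S Φ b₀ te q j).κ → ℝ) (a b : (itS S Φ b₀ te q j).κ),
    StrG491.Pair (VLMeas973.vsys Φ T ε ((itS S Φ b₀ te q j).b ε x)) c ((itS S Φ b₀ te q j).z ε x) R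
      Finset.univ cl bD a b (dL ((itS S Φ b₀ te q j).th ε x)).1 (eL ((itS S Φ b₀ te q j).th ε x)).1

/-- The world `w + e` is good almost surely, over the law of a shape. -/
theorem ae_ok_e' (hΦ : AdmissiblePotential Φ) {ε : ℝ} (hε : 0 < ε) {Θ : Type} [MeasurableSpace Θ]
    (m : Measure Θ) [SFinite m] {th : Θ → Lab × LSt} (hth : Measurable th) (K n : ℕ) :
    ∀ᵐ q : Θ × Config n ∂(m.prod (volume : Measure (Config n))),
      q.2 ∈ PairExcluded ε n → OkL K (th q.1) → ((MW.cfg q.2).ins (eL (th q.1))).Ok Φ ε := by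
  have hm : MeasurableSet {q : Θ × Config n | q.2 ∈ PairExcluded ε n → OkL K (th q.1) →
      ((MW.cfg q.2).ins (eL (th q.1))).Ok Φ ε} := by
    have h1 : MeasurableSet {q : Θ × Config n | ((MW.cfg q.2).ins (eL (th q.1))).Ok Φ ε} :=
      measurableSet_ok hΦ hε ((MeasE416.MeasW.cfg measurable_snd).ins
        (PairD292.measurable_eL.comp (hth.comp measurable_fst)))
    have h2 : MeasurableSet {q : Θ × Config n | q.2 ∈ PairExcluded ε n} :=
      measurable_snd (measurableSet_pairExcluded ε n)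
    have h3 : MeasurableSet {q : Θ × Config n | OkL K (th q.1)} :=
      measurableSet_okL K (hth.comp measurable_fst)
    have h4 : {q : Θ × Config n | q.2 ∈ PairExcluded ε n → OkL K (th q.1) →
      ((MW.cfg q.2).ins (eL (th q.1))).Ok Φ ε} = {q : Θ × Config n | q.2 ∈ PairExcluded ε n}ᶜ ∪
        ({q : Θ × Config n | OkL K (th q.1)}ᶜ ∪
          {q : Θ × Config n | ((MW.cfg q.2).ins (eL (th q.1))).Ok Φ ε}) := by
      ext q
      simp only [mem_ofPred_eq, mem_union, mem_compl_iff]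
      tauto
    rw [h4]
    exact h2.compl.union (h3.compl.union h1)
  refine (Measure.ae_prod_iff_ae_ae hm).2 (Eventually.of_forall fun θ => ?_)
  by_cases hL : OkL K (th θ)
  · filter_upwards [TransOk151.ae_ok_line (l := eL (th θ)) hΦ hε hL.e0 n] with w h hw _
    exact h hw
  · exact Eventually.of_forall fun w _ h => absurd h hL

/-- **The deterministic input for the links**, from the pair structure of the level `j`. -/
theorem itDet_linkENB (H : ItCtx Φ f₀ γ β β' b₀ T ρ q) (h : ShpOk γ β ρ S) {Q : EPar} {K : ℕ}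
    (hc : 1 ≤ c) (hte : Q.te ≤ T) (j : ℕ)
    {Gd : ℝ → (itS S Φ b₀ Q.te q j).Θ → Prop}
    (hGd : ∀ ε, 0 < ε → ∀ᵐ x ∂((itS S Φ b₀ Q.te q j).m ε), Gd ε x)
    (hlv : ∀ N : ℕ, ∀ R > 0, ∀ ς > 0, ∃ ε₁ : ℝ, 0 < ε₁ ∧ ∀ ε : ℝ, 0 < ε → ε < ε₁ →
      ∀ (n : ℕ) (w : Config n) x, Gd ε x → (eL ((itS S Φ b₀ Q.te q j).th ε x)).1.1 ≤ Q.te →
        ¬ BadLv S Φ b₀ Q.te q T c R ς ε N w j x → PairLv T c S Φ b₀ Q.te q ε j x) :
    ItDet f₀ S Φ b₀ Q.te q T j T T K
      (fun ε _ x w => LinkENB Φ ε K Q w ((itS S Φ b₀ Q.te q j).th ε x)) := by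
  intro L
  obtain ⟨C₀, he⟩ := H.env
  have hj := StrN998.ShpOk.iter (te := Q.te) (q := q) h H.adm he.meas H.γb H.ββ H.βb H.hq j
  set N : ℕ := (Fintype.card (itS S Φ b₀ Q.te q j).κ + 2 * K * (L + 2)) +
    (Fintype.card (itS S Φ b₀ Q.te q j).κ + 2 * K * (L + 2)) with hN
  refine ⟨fun _ _ _ _ _ _ _ => False,
    fun ε _ n x w => ¬ (Gd ε x ∧ (OkL K ((itS S Φ b₀ Q.te q j).th ε x) →
      ((MW.cfg w).ins (eL ((itS S Φ b₀ Q.te q j).th ε x))).Ok Φ ε)),
    N, c, c, 1, T + 1, N, N, Finset.univ, by linarith [H.T0], ?_, ?_, fun R hR ς hς => ?_⟩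
  · exact BadF.false f₀ _
  · refine gNull_of_ae H.mf (fun ε _ => hj.sf ε) fun ε hε _ n => ?_
    have := hj.sf ε
    have h1 := ae_ok_e' H.adm hε ((itS S Φ b₀ Q.te q j).m ε) (hj.mth ε hε) K n
    have h2 : ∀ᵐ q' : (itS S Φ b₀ Q.te q j).Θ × Config n ∂(((itS S Φ b₀ Q.te q j).m ε).prod
        (volume : Measure (Config n))), Gd ε q'.1 :=
      Measure.quasiMeasurePreserving_fst.ae (hGd ε hε)
    filter_upwards [h1, h2] with q' h1 h2 hw hcon
    exact hcon ⟨h2, h1 hw⟩
  · obtain ⟨ε₁, hε₁, hlv⟩ := hlv N R hR ς hς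
    refine ⟨min ε₁ (ς / (2 * R)), lt_min hε₁ (by positivity), fun ε hε hlt _ n x w hw hE => ?_⟩
    by_cases hg : Gd ε x ∧ (OkL K ((itS S Φ b₀ Q.te q j).th ε x) →
      ((MW.cfg w).ins (eL ((itS S Φ b₀ Q.te q j).th ε x))).Ok Φ ε)
    swap
    · exact Or.inr (Or.inr (Or.inr hg))
    by_cases hB : BadLv S Φ b₀ Q.te q T c R ς ε N w j x
    · exact Or.inr (Or.inl (Or.inl hB))
    obtain ⟨⟨hL, hW, hT1, hlk⟩, hb, hnb⟩ := hE
    obtain ⟨R', cl, bD, a, b, hP⟩ := hlv ε hε (hlt.trans_le (min_le_left _ _)) n w x hg.1 hb hB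
    have hρ : 2 * (R * ε) ≤ ς := by
      have h1 := (hlt.trans_le (min_le_right _ _)).le
      rw [le_div_iff₀ (by positivity)] at h1
      linarith
    have hN' : (eL ((itS S Φ b₀ Q.te q j).th ε x)).1.1 = bD b ∨
        (0 < (eL ((itS S Φ b₀ Q.te q j).th ε x)).1.1 ∧ ∀ i : Fin n, ε < dist
          (Flow671.flow Φ ε (eL ((itS S Φ b₀ Q.te q j).th ε x)).1.1 w i).1
          (eL ((itS S Φ b₀ Q.te q j).th ε x)).1.2.1) := by
      refine Or.inr ⟨hL.e0, fun i => ?_⟩
      by_contra hcon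
      push Not at hcon
      exact hnb ⟨i, by rw [dist_comm]; exact hcon⟩
    rcases alt_of_link H.adm hε H.T0 hte hc hρ le_rfl le_rfl (T₁ := T + 1) (by linarith)
      (K := K) (m := L) (N₁ := N) hN.ge hP hw (TransOk151.ok_cfg H.adm hε hw) hW.1 (hg.2 hL) hN' hlk
      with h1 | h1 | h1
    · exact Or.inl h1
    · exact absurd (Lv.top h1) hB
    · exact Or.inr (Or.inr (Or.inl h1))

/-- **The links over the law of the `j`-th continuation of a shape are null**, from the pair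
structure of the level `j`. -/
theorem linkENB_gNull_of_lv (H : ItCtx Φ f₀ γ β β' b₀ T ρ q) (h : ShpOk γ β ρ S) {Q : EPar} {K : ℕ}
    (hc : 1 ≤ c) (hte0 : 0 ≤ Q.te) (hte : Q.te ≤ T) (j : ℕ)
    {Gd : ℝ → (itS S Φ b₀ Q.te q j).Θ → Prop}
    (hGd : ∀ ε, 0 < ε → ∀ᵐ x ∂((itS S Φ b₀ Q.te q j).m ε), Gd ε x)
    (hlv : ∀ N : ℕ, ∀ R > 0, ∀ ς > 0, ∃ ε₁ : ℝ, 0 < ε₁ ∧ ∀ ε : ℝ, 0 < ε → ε < ε₁ →
      ∀ (n : ℕ) (w : Config n) x, Gd ε x → (eL ((itS S Φ b₀ Q.te q j).th ε x)).1.1 ≤ Q.te →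
        ¬ BadLv S Φ b₀ Q.te q T c R ς ε N w j x → PairLv T c S Φ b₀ Q.te q ε j x) :
    GNull f₀ (itS S Φ b₀ Q.te q j).mI (fun ε _ _ x w =>
      LinkENB Φ ε K Q w ((itS S Φ b₀ Q.te q j).th ε x)) :=
  linkENB_gNull H h hte0 hte j (itDet_linkENB H h hc hte j hGd hlv)

end Crest.Agent.R122.LNSE726

end
end

-- ▼ part R122/LinkNWin_581
section

/-!
# Row 122, inequality 3 (helper581): the links of the pair laws, for the real base, all windows

* `linkNB_famB` : `LinkENB` is null over the laws of the `j`-th continuations of the base shapes.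
* `linkNB_win` : the same for the windows of the induction: field `linkN` of helper837's `I3Leaves`.
-/

set_option autoImplicit false
set_option linter.unusedSectionVars false
set_option maxHeartbeats 400000

open MeasureTheory ProbabilityTheory Set Filter
open scoped ENNReal Classical Topology
open Crest.AnalysisR.Kinetic
open Crest.Agent.R122.GC311 Crest.Agent.R122.EDefs602 Crest.Agent.R122.LN2
open Crest.Agent.R122.Boost969 (LSt)
open Crest.Agent.R122.PairD292 Crest.Agent.R122.Top602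
open Crest.Agent.R122.Mark307 (BPar)
open Crest.Agent.R122.Master566 (KData)
open Crest.Agent.R122.I3In566 (Adm3)
open Crest.Agent.R122.Gate424 Crest.Agent.R122.Gate973
open Crest.Agent.R122.NuL735 (NPar nuL Ix famB)
open Crest.Agent.R122.CaseC658 (qK)
open Crest.Agent.R122.PairRep581
open Crest.Agent.R122.StrN998 (Th Ka itS)
open Crest.Agent.R122.NuC85 (nW)
open Crest.Agent.R122.OpxWin796

noncomputable section

namespace Crest.Agent.R122.LinkNWin581

variable {Φ : Space3 → ℝ} {f₀ : PhasePoint → ℝ} {γ' β β' b₀ T : ℝ} {ρd : Space3 → ℝ≥0∞}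
  {q : ℕ → ℝ≥0∞}

/-- **The links of the pair laws are null**, real base, every level. -/
theorem linkNB_famB (H : ItCtx Φ f₀ γ' β β' b₀ T ρd q) (N : NPar) {K₁ : ℕ} (s : Ix N.m₀)
    (h : ShpOk γ' β ρd (famB Φ K₁ N s)) {Q : EPar} {K : ℕ} (hNte : N.te < T) (hNT : T ≤ N.T')
    (hte0 : 0 ≤ Q.te) (hte : Q.te < T) (j : ℕ) :
    GNull f₀ (itS (famB Φ K₁ N s) Φ b₀ Q.te q j).mI (fun ε _ _ x w =>
      LinkENB Φ ε K Q w ((itS (famB Φ K₁ N s) Φ b₀ Q.te q j).th ε x)) := by
  refine LNSE726.linkENB_gNull_of_lv H h (c := 1) le_rfl hte0 hte.le j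
    (Gd := fun ε x => BasePair45.Good0 Φ ε N.te N.T' s.1.1 (NuHit969.bas (famB Φ K₁ N s).Θ j x) ∧
      NuHit969.HitS (famB Φ K₁ N s) Φ b₀ Q.te q ε j x)
    (fun ε hε => NuHit969.ae_itS h H.adm hε
      (BasePair45.ae_good0 H.adm hε N s.2.1.1 s.2.1.2) j) ?_
  intro M R hR ς hς
  have hm : max N.te Q.te < T := max_lt hNte hte
  refine ⟨min (ς / (2 * R)) ((T - max N.te Q.te) / (2 * R)), lt_min (by positivity)
    (div_pos (by linarith) (by positivity)), fun ε hε hlt n w x hG _ hB => ?_⟩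
  have e1 : 2 * (R * ε) < ς := by
    have := (lt_div_iff₀ (by positivity : (0 : ℝ) < 2 * R)).1 (hlt.trans_le (min_le_left _ _))
    linarith
  have e2 : max N.te Q.te + 2 * (R * ε) < T := by
    have := (lt_div_iff₀ (by positivity : (0 : ℝ) < 2 * R)).1 (hlt.trans_le (min_le_right _ _))
    linarith
  exact (Lv726.lv_all le_rfl H.adm hε e1.le (mul_pos hR hε).le
    (lt_of_le_of_lt (add_le_add_left (le_max_left _ _) _) e2)
    (lt_of_le_of_lt (add_le_add_left (le_max_right _ _) _) e2) hNT le_rfl j hG.1 hG.2 hB).pairLv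

variable {f : ℝ → PhasePoint → ℝ} {γ : ℝ → ℝ} {ρ : ℝ≥0∞} {h₀ kap lam C g : ℝ} {B : BPar}

/-- **Field `linkN` of `I3Leaves`**, all windows. -/
theorem linkNB_win (hD : KData Φ β T f₀ f) (hA : Adm3 Φ β T f γ ρ h₀ kap lam C g B)
    (hρ : ρ ≠ ∞) (Cf : ℝ) (m : ℕ) (L : ℝ) {tw te : ℝ} (htw : 0 ≤ tw) (hte : tw < te)
    (hth : te < tw + h₀) (j K : ℕ) (s : Ix (nW β Cf g ρ h₀ m tw te).m₀) :
    GNull f₀ (itS (famB Φ K (nW β Cf g ρ h₀ m tw te) s) Φ B.b₀ te (qK C lam K) j).mI
      (fun ε _ _ x w => LinkENB Φ ε K (epar γ ρ L tw te) w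
        ((itS (famB Φ K (nW β Cf g ρ h₀ m tw te) s) Φ B.b₀ te (qK C lam K) j).th ε x)) := by
  have hb0 := hA.b0
  have hbs : B.b₀ ≤ B.bs := hA.ok.b0s
  have h1 := hA.bs
  have h2 := hA.bg
  have hh := hA.h0
  have hβ := hD.beta_pos
  obtain ⟨ρd, C₀, he⟩ := exists_env (γ' := B.b₀) (γ := 2 * β) (by linarith) hD.gaussian
  have hT' : 0 < tw + h₀ := by linarith
  refine linkNB_famB (γ' := B.b₀) (β := B.b₀ / 2) (β' := B.b₀ / 4) (T := tw + h₀) (ρd := ρd)
    (Q := epar γ ρ L tw te)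
    ⟨hD.adm, Gate973.classNull hD.adm hT', hD.contDiff.continuous.measurable, lintegral_le_one hD,
      ⟨C₀, he⟩, hb0, le_rfl, by linarith, by linarith, by linarith, tsum_qK_ne_top C lam K,
      hT'.le⟩ (nW β Cf g ρ h₀ m tw te) s ?_ hth le_rfl (htw.trans hte.le) hth j
  refine NuL735.shpOk_base hD.adm K (nW β Cf g ρ h₀ m tw te) ?_ h2 ?_ ?_ hρ he.meas s
  · show B.b₀ ≤ 2 * β
    linarith
  · show B.b₀ / 2 < 2 * β
    linarith
  · show B.b₀ / 2 < g
    linarith

end Crest.Agent.R122.LinkNWin581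

end
end

-- ▼ part R122/OkGate_424
section

/-!
# Row 122 (helper424): the slot `ok` of inequality 3, part which is not pointwise

* `OkDAll`, `OkDG` : the transfer property `OkD` for all families of labels of (tree, structure), small
  system and system over the gas; they hold almost surely (`gNull_okD`, `gNull_okDG`).
* `tl_or_bad` : a connected structure is tree-like, or `BadGas`.
* `gNull_of_okD` : the gateway: `OkDG`, passage, tree-like.
-/

set_option autoImplicit false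
set_option linter.unusedSectionVars false

open MeasureTheory Set Filter Topology
open scoped Classical ENNReal
open Crest.AnalysisR.Kinetic
open Crest.Agent.R122.GC311 Crest.Agent.R122.Kin796 Crest.Agent.R122.Kin796.CTree
open Crest.Agent.R122.Tree674 Crest.Agent.R122.EDefs602
open Crest.Agent.R122.Gate424 Crest.Agent.R122.Gate973 Crest.Agent.R122.LN2
open Crest.Agent.R122.TransOk151 Crest.Agent.R122.GateOsP424 Crest.Agent.R122.OkNull424
open Crest.Agent.R122.VL581 Crest.Agent.R122.VL581.VSys Crest.Agent.R122.LN304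
open Crest.Agent.R122.LNPart424 (gsys)
open Crest.Agent.R122.LNS674 (pS)
open Crest.Agent.R122.OneC285 (cD)
open Crest.Agent.R122.PairD292 (eL)
open Crest.Agent.R122.OCout796 Crest.Agent.R122.Ins45
open Crest.Agent.R122.PairRep581 (Shp ShpOk osP)

noncomputable section

namespace Crest.Agent.R122.OkGate424

variable {Φ : Space3 → ℝ} {f₀ : PhasePoint → ℝ} {te T' γ β : ℝ} {ρ : Space3 → ℝ≥0∞} {C : ℝ≥0∞}
  {K : ℕ} {P : CTree} {S : Shp}

/-! ### The transfer property -/

/-- The transfer property of all families of labels of (tree, structure). -/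
def OkDAll (Φ : Space3 → ℝ) (P : CTree) (S : Shp) (ε : ℝ) {n : ℕ}
    (q : (PhasePoint × Par P) × S.Θ) (w : Config n) : Prop :=
  ∀ A : Finset (Idx P ⊕ S.κ), OkD Φ ε (fun _ : Fin n => 0) (fun a : A => osZ Φ P S ε q a) w

/-- **The transfer property holds almost surely.** -/
theorem gNull_okD (hΦ : AdmissiblePotential Φ) (hf : Measurable f₀) (he : Env f₀ γ ρ C)
    (hS : ShpOk γ β ρ S) (te T' : ℝ) (K : ℕ) (P : CTree) :
    GNull f₀ (osP Φ f₀ te T' K P S) (fun ε _ _ q w => ¬ OkDAll Φ P S ε q w) := by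
  refine PairRep581.gNull_of_ae hf (fun ε i => sf_osP hS ε i) fun ε hε i n => ?_
  filter_upwards [ae_okD_osP (Φ := Φ) (f₀ := f₀) hΦ hf he hS hε te T' K P n] with q hq _ h
  exact h hq





/-! ### Tree-like structures -/


/-! ### The gateway -/

section gate

variable {T : ℝ} (hΦ : AdmissiblePotential Φ) (hf : Measurable f₀)
  (h1 : ∫⁻ z, ENNReal.ofReal (f₀ z) ≤ 1) (he : Env f₀ γ ρ C) (hγ : 0 < γ) (hS : ShpOk γ β ρ S)
include hΦ hf h1 he hγ hS


end gate

end Crest.Agent.R122.OkGate424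

end
end

-- ▼ part R122/SlotOkG_424

/-!
# Row 122, LINK6 (helper424): the field `ok` of the null facts asked from the gateway

* `levD_pt` : the level data give the pair structure and the contact tree with transversal exits.
* `ok2_of_levD` : the second family of `E6Hyp` can be inserted, pointwise.
* `gNull_dT` : the first line is born before the horizon, almost surely.
* `gNull_okD0` : the gateway for good worlds, small system.
* `gNull_ok6` : the worlds of `Ok6` are good, off a null event.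
-/

set_option autoImplicit false
set_option linter.unusedSectionVars false

open MeasureTheory Set Filter Topology
open scoped Classical ENNReal
open Crest.AnalysisR.Kinetic
open Crest.Agent.R122.GC311 Crest.Agent.R122.EDefs602
open Crest.Agent.R122.Kin796 Crest.Agent.R122.Kin796.CTree Crest.Agent.R122.Tree674
open Crest.Agent.R122.TreeLines335
open Crest.Agent.R122.Gate424 Crest.Agent.R122.Gate973 Crest.Agent.R122.LN2
open Crest.Agent.R122.Scat818 Crest.Agent.R122.OCout796 Crest.Agent.R122.Ins45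
open Crest.Agent.R122.OneC285 (cT cB cD cX)
open Crest.Agent.R122.VL581 Crest.Agent.R122.VL581.VSys
open Crest.Agent.R122.LN304 Crest.Agent.R122.LNg410 Crest.Agent.R122.LNTree410
open Crest.Agent.R122.StrG491 Crest.Agent.R122.StrMain307 Crest.Agent.R122.StrMot2_151
open Crest.Agent.R122.LNBridge968 Crest.Agent.R122.LNEmb410 Crest.Agent.R122.LNEv968
open Crest.Agent.R122.GateOsP424 Crest.Agent.R122.PTreeOf331 Crest.Agent.R122.TransOk151
open Crest.Agent.R122.OkNull424 Crest.Agent.R122.OkGate424 Crest.Agent.R122.OkInd942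
open Crest.Agent.R122.OPX973 (OPX)
open Crest.Agent.R122.E6Hyp879 (withD plus)
open Crest.Agent.R122.Decomp811 (exF)
open Crest.Agent.R122.PairD292 Crest.Agent.R122.PairRep581 Crest.Agent.R122.Link6796

noncomputable section

namespace Crest.Agent.R122.SlotOk424

variable {Φ : Space3 → ℝ} {f₀ : PhasePoint → ℝ} {T ε c ℓ ς te T' γ β : ℝ} {ρ : Space3 → ℝ≥0∞}
  {C : ℝ≥0∞} {K n : ℕ} {P : CTree} {S : Shp} {q : (PhasePoint × Par P) × S.Θ} {w : Config n}

/-! ### Pointwise -/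

/-- All labels (classical decidability). -/
theorem unionC : @Union.union (Finset (Idx P ⊕ S.κ))
    (@Finset.instUnion (Idx P ⊕ S.κ) fun a b => Classical.propDecidable (a = b))
    ((Finset.univ : Finset S.κ).map (iS P S.κ)) (part (iT P S.κ)) = Finset.univ :=
  @union_eq S.κ _ P fun a b => Classical.propDecidable (a = b)

/-- **The pair structure and the contact tree, transversal exits.** -/
theorem levD_pt (hΦ : AdmissiblePotential Φ) (hε : 0 < ε) (hte : te < T)
    (h : LevD Φ T ε c ℓ ς te K P S q) :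
    ∃ (R : ℝ → S.κ → S.κ → Prop) (cl : S.κ → Finset S.κ) (bD : S.κ → ℝ) (x y : S.κ),
      PTree (sysP Φ T ε P S q) c (osZ Φ P S ε q) (mapR (iS P S.κ) R)
        (Finset.univ.map (iS P S.κ)) (mapCl (iS P S.κ) cl) (bE P q.1 bD) (Sum.inr x) (Sum.inr y)
        (dL (S.th ε q.2)).1 (eL (S.th ε q.2)) te P q.1 (iT P S.κ) ∧
      PT (sysP Φ T ε P S q) (osZ Φ P S ε q) (mapR (iS P S.κ) R) (mapCl (iS P S.κ) cl)
        (bE P q.1 bD) (Sum.inr y) := by
  obtain ⟨R, cl, bD, x, y, hPT, -, hex, hcr⟩ := h.ptree hΦ hε hte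
  refine ⟨R, cl, bD, x, y, hPT, ⟨?_, ?_⟩⟩
  · exact ExitT.map (M := sysP Φ T ε P S q) (M' := sysS Φ T ε S q.2) (Z := osZ Φ P S ε q)
      (e := iS P S.κ) (bD := bE P q.1 bD) (PTreeOf331.pull_inr _) hΦ hε hex fun _ _ => rfl
  · exact CrossT.map (e := iS P S.κ) (bD := bE P q.1 bD) hcr fun _ _ _ _ => ⟨rfl, rfl⟩

/-- The births of the structure. -/
theorem levD_bb (h : LevD Φ T ε c ℓ ς te K P S q) :
    ∀ k ∈ Finset.univ.map (iS P S.κ), (sysP Φ T ε P S q).bb k = 0 := by
  intro k hk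
  obtain ⟨i, -, rfl⟩ := Finset.mem_map.1 hk
  show max (S.b ε q.2 i) 0 = 0
  rw [h.b0 i, max_self]

/-- **The exits and the two output lines, base `w + d`.** -/
theorem ok2_of_levD (hΦ : AdmissiblePotential Φ) (hε : 0 < ε) (hC : 1 ≤ c) (hte : te < T)
    (h : LevD Φ T ε c ℓ ς te K P S q) (hℓς : 2 * ℓ ≤ ς) (hlT : te + 2 * ℓ < T)
    (htl : TL (sysP Φ T ε P S q) c ℓ ς Finset.univ (osZ Φ P S ε q))
    (hw : w ∈ PairExcluded ε n) (hd0 : 0 < (dL (S.th ε q.2)).1.1)
    (hdT : (dL (S.th ε q.2)).1.1 ≤ T) (hG : OkDAll Φ P S ε q w) :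
    MW.OkFam Φ ε ((MW.cfg w).ins (dL (S.th ε q.2))) (plus (exF (lineML Φ ε P q.1) (root P))
      (outL6 Φ ε P q.1 (eL (S.th ε q.2)) (some false))
      (outL6 Φ ε P q.1 (eL (S.th ε q.2)) (some true))) := by
  obtain ⟨R, cl, bD, x, y, hPT, hpt⟩ := levD_pt hΦ hε hte h
  have htl' := htl
  rw [← unionC] at htl'
  have h1 := ((hPT.hit hC hΦ hε).enc hΦ hε).pass_of hC hΦ hε htl' hℓς
    (by
      have := hPT.cT_le
      show cT ε q.1 (eL (S.th ε q.2)) + 2 * ℓ < T
      exact (add_le_add_left this _).trans_lt hlT)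
  have hpos : 0 < cT ε q.1 (eL (S.th ε q.2)) := hPT.cT_pos
  have hout : 0 < outT Φ ε (cD ε q.1 (eL (S.th ε q.2))) := h.pass.outT_pos hε
  refine LKok416.okFam_insD hΦ hε ?_
  refine Ok2P410.ok₂_world (d := dL (S.th ε q.2)) (bω := fun _ : Fin n => 0) (V := w) hPT hpt hC hΦ
    hε (levD_bb h) hd0 hdT htl' hℓς h.pass ?_ (fun A _ => hG A) rfl rfl (sepB_cfg hw) ?_
  · have h2 := hPT.cT_le
    have h3 := h1.2
    show cT ε q.1 (eL (S.th ε q.2)) + outT Φ ε (cD ε q.1 (eL (S.th ε q.2))) ≤ T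
    have h2' : cT ε q.1 (eL (S.th ε q.2)) ≤ te := h2
    have h3' : outT Φ ε (cD ε q.1 (eL (S.th ε q.2))) ≤ 2 * ℓ := h3
    linarith
  · intro i j hij
    exfalso
    have h0 : (0 : ℝ) = (withD (plus (exF (lineML Φ ε P q.1) (root P))
      (outL6 Φ ε P q.1 (eL (S.th ε q.2)) (some false))
      (outL6 Φ ε P q.1 (eL (S.th ε q.2)) (some true))) (dL (S.th ε q.2)) j).1.1 := hij
    have h4 : 0 < cT ε q.1 (eL (S.th ε q.2)) + outT Φ ε (cD ε q.1 (eL (S.th ε q.2))) := by
      linarith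
    rcases j with (j | (_ | _)) | j
    · have h5 : 0 < (lineML Φ ε P q.1 j.1).1.1 := rel_pos hε.le h.valid.2 j.1 j.2
      exact absurd h0 h5.ne
    · exact absurd h0 h4.ne
    · exact absurd h0 h4.ne
    · exact absurd h0 hd0.ne

/-! ### Null events -/

/-- The first line is born in `(0, T₁]`, almost surely. -/
theorem gNull_dT (hS : ShpOk γ β ρ S) (hf : Measurable f₀) {te' T₁ : ℝ} (hd : DAc S te')
    (h1 : te' ≤ T₁) : GNull f₀ (osP Φ f₀ te T' K P S)
      (fun ε _ _ q _ => ¬ (dL (S.th ε q.2)).1.1 ≤ T₁) := by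
  refine PassAE416.gNull_of_aeQ hS hf fun ε hε => ?_
  have hsf := hS.sf ε
  have h2 : ∀ᵐ l ∂(lineV te'), l.1.1 ≤ te' := by
    have h3 : ∀ᵐ τ ∂((volume : Measure ℝ).restrict (Ioc (0 : ℝ) te')), τ ≤ te' :=
      (ae_restrict_mem measurableSet_Ioc).mono fun τ hτ => hτ.2
    have h4 := (Measure.quasiMeasurePreserving_fst
      (μ := (volume : Measure ℝ).restrict (Ioc (0 : ℝ) te'))
      (ν := (volume : Measure PhasePoint))).ae h3
    exact (Measure.quasiMeasurePreserving_fst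
      (μ := ((volume : Measure ℝ).restrict (Ioc (0 : ℝ) te')).prod (volume : Measure PhasePoint))
      (ν := (Measure.count : Measure ℕ))).ae h4
  have h5 := (hd ε hε).ae h2
  have h6 := (Measure.quasiMeasurePreserving_snd (μ := (volume : Measure (PhasePoint × Par P)))
    (ν := S.m ε)).ae h5
  have h7 := (osP_ac (Φ := Φ) (f₀ := f₀) (te := te) (T' := T') (K := K) (P := P)
    (S := S) (ε := ε)).ae_le h6
  filter_upwards [h7] with q hq
  exact not_not.2 (hq.trans h1)

/-! ### The gateway, small system -/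

section gate

variable (hΦ : AdmissiblePotential Φ) (hf : Measurable f₀)
  (h1 : ∫⁻ z, ENNReal.ofReal (f₀ z) ≤ 1) (he : Env f₀ γ ρ C) (hγ : 0 < γ) (hS : ShpOk γ β ρ S)
include hΦ hf h1 he hγ hS

/-- **The gateway for good worlds**, small system. -/
theorem gNull_okD0 (hCN : VLMeas973.ClassNull Φ T) (te T' : ℝ) (K : ℕ) (P : CTree) (c : ℝ)
    {E : ℝ → Unit → (n : ℕ) → ((PhasePoint × Par P) × S.Θ) → Config n → Prop}
    {B : ℝ → ℝ → ℝ → Unit → (n : ℕ) → ((PhasePoint × Par P) × S.Θ) → Config n → Prop}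
    {Ht : ℝ → Unit → (n : ℕ) → ((PhasePoint × Par P) × S.Θ) → Config n → Prop}
    (hB : BadF f₀ (osP Φ f₀ te T' K P S) B) (hH : GNull f₀ (osP Φ f₀ te T' K P S) Ht)
    (hdet : ∀ R > 0, ∀ ς > 0, ∃ ε₁ : ℝ, 0 < ε₁ ∧ ∀ ε : ℝ, 0 < ε → ε < ε₁ → ∀ i n q (w : Config n),
      w ∈ PairExcluded ε n → E ε i n q w → OkDAll Φ P S ε q w → B R ς ε i n q w ∨ Ht ε i n q w ∨
      (sysP Φ T ε P S q).Conn c Finset.univ (osZ Φ P S ε q) ∧
        ¬ TL (sysP Φ T ε P S q) c (R * ε) ς Finset.univ (osZ Φ P S ε q)) :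
    GNull f₀ (osP Φ f₀ te T' K P S) E := by
  refine gNull_of_fam hf (m := osP Φ f₀ te T' K P S) (Rn := fun _ _ _ _ _ _ => False)
    (Ht := fun _ ε i n q w => ¬ OkDAll Φ P S ε q w ∨ Ht ε i n q w)
    (fun L => ⟨_, (badF_osP hΦ hf h1 he hγ hS hCN te T' K P c 0).or hf hB, ?_⟩)
    (fun δ hδ => ⟨0, fun L _ => ?_⟩) fun L => ?_
  · intro R hR ς hς
    obtain ⟨ε₁, hε₁, hd⟩ := hdet R hR ς hς
    refine ⟨ε₁, hε₁, fun ε hε hlt i n q w hw hE => Or.inr ?_⟩
    by_cases hk : OkDAll Φ P S ε q w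
    swap
    · exact Or.inr (Or.inl hk)
    rcases hd ε hε hlt i n q w hw hE hk with h | h | ⟨hcn, hT⟩
    · exact Or.inl (Or.inr h)
    · exact Or.inr (Or.inr h)
    · refine Or.inl (Or.inl ?_)
      by_contra hcon
      exact hT (LvTL317.tl_of_not_badGas hΦ hε le_rfl hcn
        ⟨Sum.inl (root P), Finset.inl_mem_disjSum.2 (Finset.mem_univ _)⟩ hcon)
  · exact (GLe.zero f₀ _).mono bot_le ⟨1, one_pos, fun _ _ _ _ _ _ _ _ h => h⟩
  · exact (gNull_okD hΦ hf he hS te T' K P).or hf hH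

end gate

/-! ### The field `ok` -/

/-- **The second family of `E6Hyp` can be inserted**, off a null event. -/
theorem gNull_ok2 {Q : EPar} (hΦ : AdmissiblePotential Φ) (hf : Measurable f₀)
    (h1 : ∫⁻ z, ENNReal.ofReal (f₀ z) ≤ 1) (he : Env f₀ γ ρ C) (hγ : 0 < γ) (hS : ShpOk γ β ρ S)
    (hCN : VLMeas973.ClassNull Φ T') (hte : Q.te < T')
    (hdT : GNull f₀ (osP Φ f₀ Q.te T' K P S) (fun ε _ _ q _ => ¬ (dL (S.th ε q.2)).1.1 ≤ T'))
    {c : ℝ} (hC : 1 ≤ c) (hPA : PairAlt Φ f₀ Q T' K P S c) :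
    GNull f₀ (osP Φ f₀ Q.te T' K P S) (fun ε _ _ q w =>
      Gd6 Φ ε K Q T' P q.1 w (S.th ε q.2) ∧
      ¬ MW.OkFam Φ ε ((MW.cfg w).ins (dL (S.th ε q.2))) (plus (exF (lineML Φ ε P q.1) (root P))
        (outL6 Φ ε P q.1 (eL (S.th ε q.2)) (some false))
        (outL6 Φ ε P q.1 (eL (S.th ε q.2)) (some true)))) := by
  obtain ⟨B, Ht, hB, hH, hdet⟩ := hPA
  refine gNull_okD0 hΦ hf h1 he hγ hS hCN Q.te T' K P c hB (hH.or hf hdT) ?_
  intro R hR ς hς
  obtain ⟨ε₁, hε₁, hdet⟩ := hdet R hR ς hς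
  have hpos : 0 < min ς (T' - Q.te) / (4 * R) := by
    have : 0 < min ς (T' - Q.te) := lt_min hς (by linarith)
    positivity
  refine ⟨min ε₁ (min ς (T' - Q.te) / (4 * R)), lt_min hε₁ hpos,
    fun ε hε hlt i n q w hw hE hk => ?_⟩
  obtain ⟨hgd, hn⟩ := hE
  have hlt1 : ε < ε₁ := hlt.trans_le (min_le_left _ _)
  have hlt2 : 4 * (R * ε) < min ς (T' - Q.te) := by
    have h2 := hlt.trans_le (min_le_right _ _)
    rw [lt_div_iff₀ (by positivity)] at h2
    linarith
  have hRε : 0 < R * ε := mul_pos hR hε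
  have hς' : 2 * (R * ε) ≤ ς := by
    have := hlt2.trans_le (min_le_left _ _)
    linarith
  have hT' : Q.te + 2 * (R * ε) < T' := by
    have := hlt2.trans_le (min_le_right _ _)
    linarith
  rcases hdet ε hε hlt1 i n q w hw ⟨hgd.real.ct, hgd.real.okL⟩ hgd with h | h | h
  · by_cases hdT : (dL (S.th ε q.2)).1.1 ≤ T'
    swap
    · exact Or.inr (Or.inl (Or.inr hdT))
    refine Or.inr (Or.inr ⟨?_, fun htl => hn ?_⟩)
    · obtain ⟨R', cl, bD, x, y, hPT, -⟩ := levD_pt hΦ hε hte h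
      have h2 := (hPT.str0 hC hΦ hε).conn
      rwa [unionC] at h2
    · exact ok2_of_levD hΦ hε hC hte h hς' hT' htl hw hgd.real.okL.d0 hdT hk
  · exact Or.inl h
  · exact Or.inr (Or.inl (Or.inl h))

section opx

variable {Q : EPar} {bg γ β : ℝ} {gl : ℝ → ℝ} {rm : ℝ≥0∞} {tx : ℝ}
  (h : OPX Φ f₀ bg γ β T' tx ρ S gl rm)
include h

/-- **The worlds of `Ok6` are good**, off a null event. `hdT` : the first line is born before the
horizon; `hok₁` : the first family. -/
theorem gNull_ok6 (hte : Q.te < T')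
    (hdT : GNull f₀ (osP Φ f₀ Q.te T' K P S) (fun ε _ _ q _ => ¬ (dL (S.th ε q.2)).1.1 ≤ T'))
    (hok₁ : GNull f₀ (osP Φ f₀ Q.te T' K P S) (fun ε _ _ q w =>
      Gd6 Φ ε K Q T' P q.1 w (S.th ε q.2) ∧
      ¬ MW.OkFam Φ ε (MW.cfg w) (withD (lineML Φ ε P q.1) (dL (S.th ε q.2)))))
    {c : ℝ} (hC : 1 ≤ c) (hPA : PairAlt Φ f₀ Q T' K P S c) :
    GNull f₀ (osP Φ f₀ Q.te T' K P S) (fun ε _ _ q w =>
      Gd6 Φ ε K Q T' P q.1 w (S.th ε q.2) ∧ ¬ Ok6 Φ ε P q.1 w (S.th ε q.2)) := by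
  obtain ⟨C, he⟩ := h.env
  refine ((gNull_ok2 h.adm h.meas h.mass he h.γ_pos h.shp h.classNull hte hdT hC hPA).or h.meas
    hok₁).mono' fun ε _ n q w hE => ?_
  obtain ⟨hg, hk⟩ := hE
  by_cases h2 : MW.OkFam Φ ε (MW.cfg w) (withD (lineML Φ ε P q.1) (dL (S.th ε q.2)))
  · exact Or.inl ⟨hg, fun h3 => hk ⟨h2, h3⟩⟩
  · exact Or.inr ⟨hg, h2⟩

/-- The same from the absolute continuity of the first line (helper942, helper416). -/
theorem gNull_ok6_of_dac (hte : Q.te < T') {te' : ℝ} (hd : DAc S te') (hte' : te' ≤ T')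
    {c : ℝ} (hC : 1 ≤ c) (hPA : PairAlt Φ f₀ Q T' K P S c) :
    GNull f₀ (osP Φ f₀ Q.te T' K P S) (fun ε _ _ q w =>
      Gd6 Φ ε K Q T' P q.1 w (S.th ε q.2) ∧ ¬ Ok6 Φ ε P q.1 w (S.th ε q.2)) :=
  gNull_ok6 h hte (gNull_dT h.shp h.meas hd hte')
    ((gNull_ok1 (Φ := Φ) (te := Q.te) (K := K) (K₁ := K) (te₁ := Q.te) (P := P) h.adm h.meas
      h.shp.sf hd h.T_pos.le).mono' fun _ _ _ _ _ hE => ⟨hE.1.real, hE.2⟩) hC hPA


/-- **The field `ok` of `Slots6G`**, from the absolute continuity of the first line. -/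
theorem slotOkG_of_dac (hte : Q.te < T') {te' : ℝ} (hd : DAc S te') (hte' : te' ≤ T')
    {c : ℝ} (hC : 1 ≤ c) (hPA : PairAlt Φ f₀ Q T' K P S c) :
    ∀ R : ℝ, 0 ≤ R → GNull f₀ (osP Φ f₀ Q.te T' K P S) (fun ε _ _ q w =>
      Gx6 Φ ε R K Q T' P q.1 w (S.th ε q.2) ∧ ¬ Ok6 Φ ε P q.1 w (S.th ε q.2)) :=
  fun _ _ => (gNull_ok6_of_dac h hte hd hte' hC hPA).mono' fun _ _ _ _ _ hE => ⟨hE.1.gd, hE.2⟩

end opx

end Crest.Agent.R122.SlotOk424

end
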