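import Crest.Agent.R122.ThirdNu2_741

/-!
# The first line near the encounter of the second line (row 122, GAP-E, row 13f.4)

* `OS2_inv_le` : structure integral of a functional of the root velocity, the contact time and the
  pair, invariant under joint translations.
* `dfree_OS2_le` (13f.4): the FREE first line near the encounter; uniform over the laws `PX`.
-/

set_option autoImplicit false

open MeasureTheory Set Filter Topology
open scoped ENNReal
open Crest.AnalysisR.Kinetic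
open Crest.Agent.R122.Kin796 Crest.Agent.R122.Kin796.CTree Crest.Agent.R122.Tree674
open Crest.Agent.R122.Disc416 Crest.Agent.R122.Flux663 Crest.Agent.R122.OC663 Crest.Agent.R122.EDefs602
open Crest.Agent.R122.GC311 Crest.Agent.R122.Flow671 Crest.Agent.R122.Loc45 Crest.Agent.R122.Mom974
open Crest.Agent.R122.OneC423 Crest.Agent.R122.TreeDom974 Crest.Agent.R122.OneC285
open Crest.Agent.R122.Pair292 hiding ML
open Crest.Agent.R122.PairD292
open Crest.Agent.R122.Boost969 (LSt posAt)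

noncomputable section

namespace Crest.Agent.R122.Third741

variable {Φ : Space3 → ℝ} {f₀ : PhasePoint → ℝ} {ε : ℝ}

/-! ### Invariant functionals of the pair -/

/-- Functionals of the velocity of the root, the contact time and the pair, invariant under joint
translations. -/
structure IFun (G : Space3 → ℝ → Lab × LSt → ℝ≥0∞) : Prop where
  meas : Measurable fun q : Space3 × (ℝ × (Lab × LSt)) => G q.1 q.2.1 q.2.2
  inv : ∀ (a u : Space3) (s : ℝ) (θ : Lab × LSt), G u s (shP a θ) = G u s θ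

open scoped Classical in
/-- The structure functional of `G`. -/
def sfI (ε : ℝ) (K : ℕ) (G : Space3 → ℝ → Lab × LSt → ℝ≥0∞) : SF2 := fun P z _m _w θ =>
  if OkL K θ ∧ P.leaves ≤ K then G z.1.2 (cT ε z (eL θ)) θ else 0

theorem measSF2_sfI (ε : ℝ) (K : ℕ) {G : Space3 → ℝ → Lab × LSt → ℝ≥0∞} (hG : IFun G) :
    MeasSF2 (sfI ε K G) := by
  classical
  intro P m
  unfold sfI
  have he : Measurable fun q : (PhasePoint × Par P) × (Config m × (Lab × LSt)) =>
      eL q.2.2 := by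
    unfold eL
    exact (measurable_snd.comp (measurable_snd.comp measurable_snd)).prodMk
      (measurable_snd.comp (measurable_snd.comp (measurable_fst.comp (measurable_snd.comp
        measurable_snd))))
  refine Measurable.ite ?_ ?_ measurable_const
  · by_cases hP : P.leaves ≤ K
    · simp only [hP, and_true]
      exact (measurable_snd.comp measurable_snd) (measurableSet_OkL K)
    · simp only [hP, and_false]
      exact MeasurableSet.empty
  · have h1 : Measurable fun q : (PhasePoint × Par P) × (Config m × (Lab × LSt)) =>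
        cT ε q.1 (eL q.2.2) :=
      (measurable_cT ε P).comp (f := fun q : (PhasePoint × Par P) × (Config m × (Lab × LSt)) =>
        (q.1, eL q.2.2)) (measurable_fst.prodMk he)
    have h2 : Measurable fun q : (PhasePoint × Par P) × (Config m × (Lab × LSt)) => q.1.1.2 :=
      measurable_snd.comp (measurable_fst.comp measurable_fst)
    exact hG.meas.comp (h2.prodMk (h1.prodMk (measurable_snd.comp measurable_snd)))

/-- Flux of an invariant functional. -/
def fluxI (K : ℕ) (te : ℝ) (ν : Measure (Lab × LSt)) (G : Space3 → ℝ → Lab × LSt → ℝ≥0∞)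
    (u : Space3) : ℝ≥0∞ :=
  ∫⁻ θ, chiV K te θ * (ENNReal.ofReal Real.pi * (ENNReal.ofReal ‖θ.2.2.2 - u‖ *
    ∫⁻ s in Ioc 0 te, G u s θ)) ∂ν


/-- The inner integral. -/
theorem lintegral_ct_inv (hΦ : AdmissiblePotential Φ) (hε : 0 < ε) {K : ℕ} {te : ℝ}
    {ν : Measure (Lab × LSt)} (hν : InvFam shP (fun p : Lab × LSt => p.2) posD ν)
    {G : Space3 → ℝ → Lab × LSt → ℝ≥0∞} (hG : IFun G) {P : CTree} (z : PhasePoint × Par P)
    {m : ℕ} (w : Config m) :
    ∫⁻ θ, {θ : Lab × LSt | (z, θ.2) ∈ ctSet Φ ε te P}.indicator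
        (fun θ => sfI ε K G P z m w θ) θ ∂ν ≤
      ENNReal.ofReal (ε ^ 2) * fluxI K te ν G z.1.2 := by
  classical
  have hsf := hν.sf
  have hct : MeasurableSet {θ : Lab × LSt | (z, θ.2) ∈ ctSet Φ ε te P} := by
    have hm : Measurable fun θ : Lab × LSt => ((z, θ.2) : (PhasePoint × Par P) × (ℝ × PhasePoint)) :=
      measurable_const.prodMk measurable_snd
    exact hm (measurableSet_ctSet hΦ ε te P)
  have hsfm : Measurable fun θ : Lab × LSt => sfI ε K G P z m w θ :=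
    (measSF2_sfI ε K hG P m).comp (f := fun θ : Lab × LSt => (z, (w, θ)))
      (measurable_const.prodMk (measurable_const.prodMk measurable_id))
  have hfm : Measurable ({θ : Lab × LSt | (z, θ.2) ∈ ctSet Φ ε te P}.indicator
      (fun θ => sfI ε K G P z m w θ)) := hsfm.indicator hct
  rw [hν.disint (χ := PairS969.rho0) PairS969.measurable_rho0 PairS969.lintegral_rho0 hfm]
  set J : Lab × LSt → ℝ≥0∞ := fun θ => ENNReal.ofReal Real.pi *
    (ENNReal.ofReal ‖θ.2.2.2 - z.1.2‖ * ∫⁻ s in Ioc 0 te, G z.1.2 s θ) with hJ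
  have key : ∀ θ : Lab × LSt, ∫⁻ a : Space3, {θ : Lab × LSt | (z, θ.2) ∈ ctSet Φ ε te P}.indicator
      (fun θ => sfI ε K G P z m w θ) (shP a θ) ≤
      if OkL K θ ∧ θ.2.1 ≤ te then ENNReal.ofReal (ε ^ 2) * J θ else 0 := by
    intro θ
    by_cases hok : OkL K θ
    · set H0 : ML → ℝ≥0∞ := fun l => G z.1.2 (cT ε z l) θ with hH0
      have hH0m : Measurable H0 := by
        have h1 : Measurable fun l : ML => cT ε z l :=
          (measurable_cT ε P).comp (f := fun l : ML => (z, l))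
            (measurable_const.prodMk measurable_id)
        exact hG.meas.comp (f := fun l : ML => (z.1.2, (cT ε z l, θ)))
          (measurable_const.prodMk (h1.prodMk measurable_const))
      have e1 : ∀ a : Space3, {θ : Lab × LSt | (z, θ.2) ∈ ctSet Φ ε te P}.indicator
          (fun θ => sfI ε K G P z m w θ) (shP a θ) ≤
          {l : ML | (z, l.1) ∈ ctSet Φ ε te P}.indicator H0
            ((θ.2.1, (θ.2.2.1 + a, θ.2.2.2)), θ.1.2.2) := by
        intro a
        by_cases hc : shP a θ ∈ {θ : Lab × LSt | (z, θ.2) ∈ ctSet Φ ε te P}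
        · have hc' : (((θ.2.1, (θ.2.2.1 + a, θ.2.2.2)), θ.1.2.2) : ML) ∈
              {l : ML | (z, l.1) ∈ ctSet Φ ε te P} := hc
          rw [indicator_of_mem hc, indicator_of_mem hc']
          unfold sfI
          split_ifs
          · rw [hG.inv]
            exact le_rfl
          · exact zero_le
        · rw [indicator_of_notMem hc]
          exact zero_le
      refine (lintegral_mono e1).trans ?_
      have e2 : ∫⁻ a : Space3, {l : ML | (z, l.1) ∈ ctSet Φ ε te P}.indicator H0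
            ((θ.2.1, (θ.2.2.1 + a, θ.2.2.2)), θ.1.2.2) =
          ∫⁻ y : Space3, {l : ML | (z, l.1) ∈ ctSet Φ ε te P}.indicator H0
            ((θ.2.1, (y, θ.2.2.2)), θ.1.2.2) :=
        lintegral_add_left_eq_self (fun y : Space3 =>
          {l : ML | (z, l.1) ∈ ctSet Φ ε te P}.indicator H0
            ((θ.2.1, (y, θ.2.2.2)), θ.1.2.2)) θ.2.2.1
      rw [e2, lintegral_ct_y hΦ hε z θ.2.1 θ.2.2.2 θ.1.2.2 hH0m]
      by_cases hte : θ.2.1 ≤ te
      · rw [if_pos ⟨hok, hte⟩]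
        refine mul_le_mul' le_rfl ?_
        rw [hJ]
        simp only
        by_cases hg0 : θ.2.2.2 - z.1.2 = 0
        · simp [hg0]
        rw [mul_left_comm (ENNReal.ofReal Real.pi)]
        refine mul_le_mul' le_rfl ?_
        have hsub : {s | θ.2.1 < s ∧ s ≤ te ∧ Valid Φ ε P s z.1.2 z.2} ⊆ Ioc 0 te := by
          rintro s ⟨h1, h2, -⟩
          exact ⟨hok.e0.trans h1, h2⟩
        rw [← lintegral_const_mul' _ _ ENNReal.ofReal_ne_top]
        refine (lintegral_mono_set hsub).trans (lintegral_mono fun s => ?_)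
        have e3 : ∫⁻ b in impactDisc (θ.2.2.2 - z.1.2),
            H0 (lineAt ε s z.1 θ.2.1 θ.2.2.2 b θ.1.2.2) ∂μHE[2] =
            ∫⁻ _b in impactDisc (θ.2.2.2 - z.1.2), G z.1.2 s θ ∂μHE[2] := by
          refine setLIntegral_congr_fun (measurableSet_impactDisc _) fun b hb => ?_
          rw [hH0]
          simp only
          rw [cT_lineAt hε hg0 hb]
        rw [e3, setLIntegral_const, measure_impactDisc hg0, mul_comm]
      · rw [if_neg fun h => hte h.2]
        have hem : {s | θ.2.1 < s ∧ s ≤ te ∧ Valid Φ ε P s z.1.2 z.2} = ∅ := by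
          ext s
          simp only [mem_ofPred_eq, mem_empty_iff_false, iff_false]
          rintro ⟨h1, h2, -⟩
          exact hte (h1.le.trans h2)
        rw [hem]
        simp
    · have e1 : ∀ a : Space3, {θ : Lab × LSt | (z, θ.2) ∈ ctSet Φ ε te P}.indicator
          (fun θ => sfI ε K G P z m w θ) (shP a θ) = 0 := by
        intro a
        refine indicator_apply_eq_zero.2 fun _ => ?_
        unfold sfI
        rw [if_neg fun h => hok ((OkL_shP K a θ).1 h.1)]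
      simp only [e1, lintegral_zero]
      exact zero_le
  calc ∫⁻ θ, PairS969.rho0 (posD θ) * (∫⁻ a : Space3,
        {θ : Lab × LSt | (z, θ.2) ∈ ctSet Φ ε te P}.indicator
          (fun θ => sfI ε K G P z m w θ) (shP a θ)) ∂ν
      ≤ ∫⁻ θ, ENNReal.ofReal (ε ^ 2) * (chiV K te θ * J θ) ∂ν := by
        refine lintegral_mono fun θ => ?_
        refine (mul_le_mul' le_rfl (key θ)).trans (le_of_eq ?_)
        unfold chiV
        split_ifs
        · ring
        · simp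
    _ = _ := by
        rw [lintegral_const_mul' _ _ ENNReal.ofReal_ne_top]
        rfl

/-- **Structure integral of an invariant functional.** -/
theorem OS2_inv_le (hΦ : AdmissiblePotential Φ) {A : Space3 → ℝ≥0∞} {C b : ℝ}
    (hF : FOk f₀ A C b) (K : ℕ) (T' : ℝ) :
    ∃ D : ℝ≥0∞, D ≠ ∞ ∧ ∀ (ε te : ℝ), 0 < ε → ∀ (ν : Measure (Lab × LSt)),
      InvFam shP (fun p : Lab × LSt => p.2) posD ν →
      ∀ G : Space3 → ℝ → Lab × LSt → ℝ≥0∞, IFun G → ∀ Λ : ℝ≥0∞,
      (∀ u, fluxI K te ν G u ≤ Λ * ENNReal.ofReal ((1 + ‖u‖) ^ 4)) → ∀ H : SF2,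
      (∀ P z m w θ, (z, θ.2) ∈ ctSet Φ ε te P → H P z m w θ ≤ sfI ε K G P z m w θ) →
      OS2 Φ f₀ ε te T' ν H ≤ D * Λ := by
  classical
  have hb2 := half_pos hF.b_pos
  choose C' hC' using fun P : CTree => hF.maj.tree hΦ hb2 (half_lt_self hF.b_pos) P
  set IA : ℝ≥0∞ := ∫⁻ x, A x with hIA
  refine ⟨∑ P ∈ GIVStep383.trees K, IA * ∫⁻ q : Space3 × Par P,
    domG (C' P) (b / 2) T' P q.1 q.2 * ENNReal.ofReal ((1 + ‖q.1‖) ^ 4), ?_, ?_⟩
  · exact ENNReal.sum_ne_top.2 fun P _ => ENNReal.mul_ne_top hF.maj.fin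
      (lintegral_domG_pow_ne_top (hC' P).C_nonneg hb2 T' P 4)
  intro ε te hε ν hν G hG Λ hΛ H hH
  set c : ℝ≥0∞ := ENNReal.ofReal (ε ^ 2) with hc
  have hct : c ≠ ∞ := ENNReal.ofReal_ne_top
  have hin : ∀ (P : CTree) (z : PhasePoint × Par P) (m : ℕ) (w : Config m),
      ∫⁻ θ, {θ : Lab × LSt | (z, θ.2) ∈ ctSet Φ ε te P}.indicator (fun θ => H P z m w θ) θ ∂ν ≤
      c * (Λ * ENNReal.ofReal ((1 + ‖z.1.2‖) ^ 4)) := by
    intro P z m w
    refine ((lintegral_mono fun θ => ?_).trans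
      (lintegral_ct_inv hΦ hε (K := K) hν hG z w)).trans (mul_le_mul' le_rfl (hΛ _))
    by_cases hθ : θ ∈ {θ : Lab × LSt | (z, θ.2) ∈ ctSet Φ ε te P}
    · rw [indicator_of_mem hθ, indicator_of_mem hθ]
      exact hH P z m w θ hθ
    · rw [indicator_of_notMem hθ]
      exact zero_le
  unfold OS2
  have hP0 : ∀ P : CTree, P ∉ GIVStep383.trees K →
      ∫⁻ z : PhasePoint × Par P, {z : PhasePoint × Par P | Valid Φ ε P T' z.1.2 z.2}.indicator
      (fun z => wt Φ P z.1.2 z.2 * (ToTree335.pf Φ f₀ ε P z *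
        gcE f₀ ε (fun m w => ∫⁻ θ, {θ : Lab × LSt | (z, θ.2) ∈ ctSet Φ ε te P}.indicator
          (fun θ => H P z m w θ) θ ∂ν))) z = 0 := by
    intro P hP
    have hP' : ¬ P.leaves ≤ K := fun h => hP (GIVStep383.mem_trees.2 h)
    have h0 : ∀ (z : PhasePoint × Par P) (m : ℕ) (w : Config m) (θ : Lab × LSt),
        {θ : Lab × LSt | (z, θ.2) ∈ ctSet Φ ε te P}.indicator (fun θ => H P z m w θ) θ = 0 := by
      intro z m w θ
      refine indicator_apply_eq_zero.2 fun hθ => ?_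
      have h1 := hH P z m w θ hθ
      unfold sfI at h1
      rw [if_neg fun h => hP' h.2] at h1
      exact le_antisymm h1 zero_le
    simp only [h0, lintegral_zero, gcE_zero, mul_zero, indicator_zero]
  rw [tsum_eq_sum (s := GIVStep383.trees K) (fun P hP => hP0 P hP)]
  have hone : ∀ P : CTree, ∫⁻ z : PhasePoint × Par P,
      {z : PhasePoint × Par P | Valid Φ ε P T' z.1.2 z.2}.indicator
        (fun z => wt Φ P z.1.2 z.2 * (ToTree335.pf Φ f₀ ε P z *
          gcE f₀ ε (fun m w => ∫⁻ θ, {θ : Lab × LSt | (z, θ.2) ∈ ctSet Φ ε te P}.indicator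
            (fun θ => H P z m w θ) θ ∂ν))) z ≤
      c * ((IA * ∫⁻ q : Space3 × Par P,
        domG (C' P) (b / 2) T' P q.1 q.2 * ENNReal.ofReal ((1 + ‖q.1‖) ^ 4)) * Λ) := by
    intro P
    have hw : Measurable fun q : Space3 × Par P => ENNReal.ofReal ((1 + ‖q.1‖) ^ 4) := by fun_prop
    have hd : Measurable fun q : Space3 × Par P => domG (C' P) (b / 2) T' P q.1 q.2 *
        ENNReal.ofReal ((1 + ‖q.1‖) ^ 4) :=
      (measurable_domG (hC' P).C_nonneg (b / 2) T' P).mul hw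
    calc _ ≤ ∫⁻ z : PhasePoint × Par P, {z : PhasePoint × Par P |
            Valid Φ ε P T' z.1.2 z.2}.indicator
          (fun z => wt Φ P z.1.2 z.2 * (ToTree335.pf Φ f₀ ε P z *
            (fun q : Space3 × Par P => (c * Λ) * ENNReal.ofReal ((1 + ‖q.1‖) ^ 4))
              (z.1.2, z.2))) z := by
          refine lintegral_mono fun z => indicator_le_indicator ?_
          refine mul_le_mul' le_rfl (mul_le_mul' le_rfl ?_)
          refine (gcE_mono f₀ ε fun m w _ => hin P z m w).trans ?_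
          refine (Long984.gcE_const_le hF.meas hF.mass ε _).trans (le_of_eq ?_)
          simp only
          ring
      _ ≤ IA * ∫⁻ q : Space3 × Par P, domG (C' P) (b / 2) T' P q.1 q.2 *
            ((c * Λ) * ENNReal.ofReal ((1 + ‖q.1‖) ^ 4)) :=
          (hC' P).lintegral_u hΦ hε.le T' (hw.const_mul _)
      _ = _ := by
          have e1 : ∀ q : Space3 × Par P, domG (C' P) (b / 2) T' P q.1 q.2 *
              ((c * Λ) * ENNReal.ofReal ((1 + ‖q.1‖) ^ 4)) = (c * Λ) *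
              (domG (C' P) (b / 2) T' P q.1 q.2 * ENNReal.ofReal ((1 + ‖q.1‖) ^ 4)) := by
            intro q; ring
          simp only [e1]
          rw [lintegral_const_mul _ hd]
          ring
  calc activity ε * ∑ P ∈ GIVStep383.trees K, ∫⁻ z : PhasePoint × Par P,
        {z : PhasePoint × Par P | Valid Φ ε P T' z.1.2 z.2}.indicator
          (fun z => wt Φ P z.1.2 z.2 * (ToTree335.pf Φ f₀ ε P z *
            gcE f₀ ε (fun m w => ∫⁻ θ, {θ : Lab × LSt | (z, θ.2) ∈ ctSet Φ ε te P}.indicator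
              (fun θ => H P z m w θ) θ ∂ν))) z
      ≤ activity ε * ∑ P ∈ GIVStep383.trees K, c * ((IA * ∫⁻ q : Space3 × Par P,
        domG (C' P) (b / 2) T' P q.1 q.2 * ENNReal.ofReal ((1 + ‖q.1‖) ^ 4)) * Λ) :=
        mul_le_mul' le_rfl (Finset.sum_le_sum fun P _ => hone P)
    _ = (activity ε * ENNReal.ofReal ε ^ 2) * ((∑ P ∈ GIVStep383.trees K,
        (IA * ∫⁻ q : Space3 × Par P,
          domG (C' P) (b / 2) T' P q.1 q.2 * ENNReal.ofReal ((1 + ‖q.1‖) ^ 4))) * Λ) := by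
        rw [← Finset.mul_sum, ← Finset.sum_mul, hc, ENNReal.ofReal_pow hε.le]
        ring
    _ = _ := by rw [activity_mul_sq hε, one_mul]

/-! ### The free first line near the second line -/

open scoped Classical in
/-- The free lines of the pair are close at time `s`. -/
def nearD (ρ : ℝ) (u : Space3) (s : ℝ) (θ : Lab × LSt) : ℝ≥0∞ :=
  if dist (posAt s θ.2) (posAt s θ.1.1.1) ≤
    ρ * ((1 + ‖u‖) * ((1 + ‖θ.2.2.2‖) * (1 + ‖θ.1.1.1.2.2‖))) then 1 else 0

theorem nearD_le_one (ρ : ℝ) (u : Space3) (s : ℝ) (θ : Lab × LSt) : nearD ρ u s θ ≤ 1 := by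
  unfold nearD
  split_ifs
  · exact le_rfl
  · exact zero_le

theorem posAt_shL (s : ℝ) (a : Space3) (z : LSt) : posAt s (shL a z) = posAt s z + a := by
  unfold posAt shL
  exact add_right_comm _ _ _

theorem measurable_dVel : Measurable fun θ : Lab × LSt => θ.1.1.1.2.2 :=
  measurable_snd.comp (measurable_snd.comp (measurable_fst.comp (measurable_fst.comp
    measurable_fst)))

theorem iFun_nearD (ρ : ℝ) : IFun (nearD ρ) := by
  classical
  constructor
  · unfold nearD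
    have h1 : Measurable fun q : Space3 × (ℝ × (Lab × LSt)) => posAt q.2.1 q.2.2.2 :=
      Boost969.measurable_posAt.comp (f := fun q : Space3 × (ℝ × (Lab × LSt)) =>
        (q.2.1, q.2.2.2)) ((measurable_fst.comp measurable_snd).prodMk
          (measurable_snd.comp (measurable_snd.comp measurable_snd)))
    have h2 : Measurable fun q : Space3 × (ℝ × (Lab × LSt)) => posAt q.2.1 q.2.2.1.1.1 :=
      Boost969.measurable_posAt.comp (f := fun q : Space3 × (ℝ × (Lab × LSt)) =>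
        (q.2.1, q.2.2.1.1.1)) ((measurable_fst.comp measurable_snd).prodMk
          (measurable_fst.comp (measurable_fst.comp (measurable_fst.comp (measurable_snd.comp
            measurable_snd)))))
    have h3 : Measurable fun q : Space3 × (ℝ × (Lab × LSt)) => ‖q.2.2.2.2.2‖ :=
      (measurable_vel2.comp (measurable_snd.comp measurable_snd)).norm
    have h4 : Measurable fun q : Space3 × (ℝ × (Lab × LSt)) => ‖q.2.2.1.1.1.2.2‖ :=
      (measurable_dVel.comp (measurable_snd.comp measurable_snd)).norm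
    refine Measurable.ite (measurableSet_le (h1.dist h2) ?_) measurable_const measurable_const
    exact ((measurable_fst.norm.const_add 1).mul
      ((h3.const_add 1).mul (h4.const_add 1))).const_mul ρ
  · intro a u s θ
    have e1 : (shP a θ).2 = shL a θ.2 := rfl
    have e2 : (shP a θ).1.1.1 = shL a θ.1.1.1 := rfl
    have e3 : ∀ z : LSt, (shL a z).2.2 = z.2.2 := fun z => rfl
    unfold nearD
    rw [e1, e2, posAt_shL, posAt_shL, e3, e3, dist_add_right]

/-- Constant of the fourth moment of the first line. -/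
def Ed4 (Q : EPar) (g0 : ℝ) (K : ℕ) : ℝ≥0∞ :=
  (1 + ENNReal.ofReal Q.te) * (ENNReal.ofReal Q.te *
    ((∫⁻ v : Space3, wG g0 v * ENNReal.ofReal ((1 + ‖v‖) ^ 4)) * ∑' n : ℕ, markW Q.ρ K n))

theorem Ed4_ne_top {Q : EPar} {g0 : ℝ} (hQ : QOk Q g0) (K : ℕ) : Ed4 Q g0 K ≠ ∞ := by
  unfold Ed4
  exact ENNReal.mul_ne_top (ENNReal.add_ne_top.2 ⟨ENNReal.one_ne_top, ENNReal.ofReal_ne_top⟩)
      (ENNReal.mul_ne_top ENNReal.ofReal_ne_top (ENNReal.mul_ne_top
        (mom4_wG_ne_top hQ.g0_pos) (tsum_markW_ne_top hQ.ρ_ne K)))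

theorem lintegral_rho0_pow_lineM {Q : EPar} {g0 : ℝ} (hQ : QOk Q g0) (K : ℕ) :
    ∫⁻ l, PairS969.rho0 (PairS969.posd l) * ENNReal.ofReal ((1 + ‖l.1.2.2‖) ^ 4)
      ∂(lineM Q.γ Q.ρ K Q.te) ≤ ENNReal.ofReal Q.te *
        ((∫⁻ v : Space3, wG g0 v * ENNReal.ofReal ((1 + ‖v‖) ^ 4)) * ∑' n : ℕ, markW Q.ρ K n) := by
  have hm : Measurable fun l : ML => PairS969.rho0 (PairS969.posd l) *
      ENNReal.ofReal ((1 + ‖l.1.2.2‖) ^ 4) :=
    (PairS969.measurable_rho0.comp PairS969.measurable_posd).mul (by fun_prop)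
  rw [EBasic602.lintegral_lineM hQ.γ_meas hm]
  set S : ℝ≥0∞ := ∑' n : ℕ, markW Q.ρ K n with hS
  have h1 : ∀ (τ : ℝ) (v : Space3), ∫⁻ y : Space3, ∑' n : ℕ, markW Q.ρ K n *
      (PairS969.rho0 (PairS969.posd (((τ, (y, v)), n) : ML)) *
        ENNReal.ofReal ((1 + ‖(((τ, (y, v)), n) : ML).1.2.2‖) ^ 4)) =
      S * ENNReal.ofReal ((1 + ‖v‖) ^ 4) := by
    intro τ v
    have h2 : ∀ y : Space3, ∑' n : ℕ, markW Q.ρ K n *
        (PairS969.rho0 (PairS969.posd (((τ, (y, v)), n) : ML)) *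
        ENNReal.ofReal ((1 + ‖(((τ, (y, v)), n) : ML).1.2.2‖) ^ 4)) =
        (S * ENNReal.ofReal ((1 + ‖v‖) ^ 4)) * PairS969.rho0 y := by
      intro y
      have h3 : ∀ n : ℕ, markW Q.ρ K n *
          (PairS969.rho0 (PairS969.posd (((τ, (y, v)), n) : ML)) *
          ENNReal.ofReal ((1 + ‖(((τ, (y, v)), n) : ML).1.2.2‖) ^ 4)) =
          markW Q.ρ K n * (PairS969.rho0 y * ENNReal.ofReal ((1 + ‖v‖) ^ 4)) := fun n => rfl
      simp only [h3]
      rw [ENNReal.tsum_mul_right, ← hS]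
      ring
    simp only [h2]
    rw [lintegral_const_mul _ PairS969.measurable_rho0, PairS969.lintegral_rho0, mul_one]
  simp only [h1]
  calc ∫⁻ τ in Ioc 0 Q.te, ∫⁻ v : Space3, wG (Q.γ τ) v * (S * ENNReal.ofReal ((1 + ‖v‖) ^ 4))
      ≤ ∫⁻ _ in Ioc 0 Q.te, (∫⁻ v : Space3, wG g0 v * ENNReal.ofReal ((1 + ‖v‖) ^ 4)) * S := by
        refine setLIntegral_mono' measurableSet_Ioc fun τ hτ => ?_
        rw [← lintegral_mul_const' _ _ (tsum_markW_ne_top hQ.ρ_ne K)]
        refine lintegral_mono fun v => ?_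
        calc wG (Q.γ τ) v * (S * ENNReal.ofReal ((1 + ‖v‖) ^ 4))
            ≤ wG g0 v * (S * ENNReal.ofReal ((1 + ‖v‖) ^ 4)) :=
              mul_le_mul' (Kin796.wG_anti (hQ.γ_ge τ hτ) v) le_rfl
          _ = _ := by ring
    _ = _ := by
        rw [setLIntegral_const, Real.volume_Ioc, sub_zero]
        ring

theorem rhs_rho0_le {Q : EPar} {g0 : ℝ} (hQ : QOk Q g0) {PP : ℕ → PPar} (hP : PPOk Q PP) (K : ℕ) :
    (PP K).rhs (fun q => PairS969.rho0 (PairS969.posd q.1) *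
      ENNReal.ofReal ((1 + ‖q.1.1.2.2‖) ^ 4)) ≤ Ed4 Q g0 K := by
  unfold PPar.rhs
  rw [hP.ell K, hP.hor K]
  have h7 := lintegral_rho0_pow_lineM hQ K
  have e1 : ∀ l : ML, ∫⁻ _s in Icc 0 Q.te, PairS969.rho0 (PairS969.posd l) *
      ENNReal.ofReal ((1 + ‖l.1.2.2‖) ^ 4) =
      ENNReal.ofReal Q.te * (PairS969.rho0 (PairS969.posd l) *
        ENNReal.ofReal ((1 + ‖l.1.2.2‖) ^ 4)) := by
    intro l
    rw [setLIntegral_const, Real.volume_Icc, sub_zero, mul_comm]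
  simp only [e1]
  rw [lintegral_const_mul' _ _ ENNReal.ofReal_ne_top]
  unfold Ed4
  rw [add_mul, one_mul]
  exact add_le_add h7 (mul_le_mul' le_rfl h7)

/-- Old contacts: the second line in a ball about the first one. -/
theorem old_nearD_le {Q : EPar} {g0 : ℝ} (hQ : QOk Q g0) {PP : ℕ → PPar} (hP : PPOk Q PP)
    {K : ℕ} {Ξ ν : Measure (Lab × LSt)} {c : ℝ≥0∞} (h : PX (PP K) Ξ ν c) {r R : ℝ} (hr : 0 < r)
    (hR : 0 ≤ R) :
    ∫⁻ θ, (∫⁻ s in Ioc 0 Q.te, {q : (Lab × LSt) × ℝ | q.1.2.1 ≤ Q.te ∧ r ≤ |q.2 - sig q.1.1| ∧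
        dist (posAt q.2 q.1.2) (posAt q.2 q.1.1.1.1) ≤ R * (1 + ‖q.1.1.1.1.2.2‖)}.indicator
          (fun q => PairS969.rho0 (posD q.1)) (θ, s)) ∂ν ≤
      c * (ENNReal.ofReal (r⁻¹ ^ 3) * (ENNReal.ofReal Q.te * (ENNReal.ofReal R ^ 3 *
        Sweep815.c3) * Ed4 Q g0 K)) := by
  classical
  have hc3 : Sweep815.c3 ≠ ∞ := ENNReal.ofReal_ne_top
  set B : (Lab × ℝ) × (Space3 × (ℝ × Space3)) → ℝ≥0∞ := fun q =>
    {q : (Lab × ℝ) × (Space3 × (ℝ × Space3)) | q.2.2.1 ≤ Q.te ∧ r ≤ |q.1.2 - sig q.1.1| ∧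
      dist q.2.1 (posAt q.1.2 q.1.1.1.1) ≤ R * (1 + ‖q.1.1.1.1.2.2‖)}.indicator
      (fun q => PairS969.rho0 (PairS969.posd q.1.1.1)) q with hB
  set B' : (Lab × ℝ) × (Space3 × (ℝ × Space3)) → ℝ≥0∞ := fun q =>
    {q : (Lab × ℝ) × (Space3 × (ℝ × Space3)) | q.2.2.1 ≤ Q.te ∧
      dist q.2.1 (posAt q.1.2 q.1.1.1.1) ≤ R * (1 + ‖q.1.1.1.1.2.2‖)}.indicator
      (fun q => PairS969.rho0 (PairS969.posd q.1.1.1)) q with hB'
  have m1 : Measurable fun q : (Lab × ℝ) × (Space3 × (ℝ × Space3)) =>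
      posAt q.1.2 q.1.1.1.1 := Boost969.measurable_posAt.comp
    (f := fun q : (Lab × ℝ) × (Space3 × (ℝ × Space3)) => (q.1.2, q.1.1.1.1))
    ((measurable_snd.comp measurable_fst).prodMk (measurable_fst.comp (measurable_fst.comp
      (measurable_fst.comp measurable_fst))))
  have m2 : Measurable fun q : (Lab × ℝ) × (Space3 × (ℝ × Space3)) => ‖q.1.1.1.1.2.2‖ :=
    (measurable_snd.comp (measurable_snd.comp (measurable_fst.comp (measurable_fst.comp
      (measurable_fst.comp measurable_fst))))).norm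
  have m3 : MeasurableSet {q : (Lab × ℝ) × (Space3 × (ℝ × Space3)) |
      dist q.2.1 (posAt q.1.2 q.1.1.1.1) ≤ R * (1 + ‖q.1.1.1.1.2.2‖)} :=
    measurableSet_le ((measurable_fst.comp measurable_snd).dist m1)
      ((m2.const_add 1).const_mul R)
  have m4' : MeasurableSet {q : (Lab × ℝ) × (Space3 × (ℝ × Space3)) | q.2.2.1 ≤ Q.te} :=
    measurableSet_le (measurable_fst.comp (measurable_snd.comp measurable_snd)) measurable_const
  have m5 : MeasurableSet {q : (Lab × ℝ) × (Space3 × (ℝ × Space3)) | r ≤ |q.1.2 - sig q.1.1|} := by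
    refine measurableSet_le measurable_const ?_
    exact ((measurable_snd.comp measurable_fst).sub
      (measurable_sig.comp (measurable_fst.comp measurable_fst))).abs
  have m6 : Measurable fun q : (Lab × ℝ) × (Space3 × (ℝ × Space3)) =>
      PairS969.rho0 (PairS969.posd q.1.1.1) :=
    PairS969.measurable_rho0.comp (PairS969.measurable_posd.comp (measurable_fst.comp
      (measurable_fst.comp measurable_fst)))
  have hBm : Measurable B := m6.indicator (m4'.inter (m5.inter m3))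
  have hB'm : Measurable B' := m6.indicator (m4'.inter m3)
  have hT : Measurable fun a : Lab × ℝ => a.2 := measurable_snd
  have key := h.spr.gen hr (volume.restrict (Ioc (0 : ℝ) Q.te)) (T := fun a : Lab × ℝ => a.2) hT
    hBm hB'm (fun a x hx => by
      by_contra hcon
      refine hx ?_
      rw [hB]
      exact indicator_of_notMem (fun hm => hcon hm.2.1) _)
    (fun a x τ u v _ => by
      rw [hB, hB']
      simp only
      by_cases hm : ((a, (x, (τ, v + u))) : (Lab × ℝ) × (Space3 × (ℝ × Space3))) ∈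
        {q : (Lab × ℝ) × (Space3 × (ℝ × Space3)) | q.2.2.1 ≤ Q.te ∧ r ≤ |q.1.2 - sig q.1.1| ∧
          dist q.2.1 (posAt q.1.2 q.1.1.1.1) ≤ R * (1 + ‖q.1.1.1.1.2.2‖)}
      · rw [indicator_of_mem hm, indicator_of_mem (show ((a, (x, (τ, v))) :
          (Lab × ℝ) × (Space3 × (ℝ × Space3))) ∈ {q : (Lab × ℝ) × (Space3 × (ℝ × Space3)) |
            q.2.2.1 ≤ Q.te ∧ dist q.2.1 (posAt q.1.2 q.1.1.1.1) ≤ R * (1 + ‖q.1.1.1.1.2.2‖)}
          from ⟨hm.1, hm.2.2⟩)]
      · rw [indicator_of_notMem hm]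
        exact zero_le)
  refine le_trans (le_of_eq ?_) (key.trans ?_)
  · rfl
  have hin : ∀ p : Lab × LSt, ∀ s : ℝ, ∫⁻ x : Space3, B' ((p.1, s), (x, (p.2.1, p.2.2.2))) ≤
      (ENNReal.ofReal R ^ 3 * Sweep815.c3) * (PairS969.rho0 (PairS969.posd p.1.1) *
        ENNReal.ofReal ((1 + ‖p.1.1.1.2.2‖) ^ 4) *
          ((PP K).lam₁ ^ p.1.2.2 * (PP K).W p.2)) := by
    intro p s
    by_cases ht : p.2.1 ≤ Q.te
    · have e1 : ∀ x : Space3, B' ((p.1, s), (x, (p.2.1, p.2.2.2))) =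
          (Metric.closedBall (posAt s p.1.1.1) (R * (1 + ‖p.1.1.1.2.2‖))).indicator
            (fun _ => PairS969.rho0 (PairS969.posd p.1.1)) x := by
        intro x
        rw [hB']
        by_cases hx : dist x (posAt s p.1.1.1) ≤ R * (1 + ‖p.1.1.1.2.2‖)
        · rw [indicator_of_mem (show x ∈ Metric.closedBall (posAt s p.1.1.1)
            (R * (1 + ‖p.1.1.1.2.2‖)) from hx)]
          exact indicator_of_mem (show (((p.1, s), (x, (p.2.1, p.2.2.2))) :
            (Lab × ℝ) × (Space3 × (ℝ × Space3))) ∈ {q : (Lab × ℝ) × (Space3 × (ℝ × Space3)) |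
            q.2.2.1 ≤ Q.te ∧ dist q.2.1 (posAt q.1.2 q.1.1.1.1) ≤ R * (1 + ‖q.1.1.1.1.2.2‖)}
            from ⟨ht, hx⟩) _
        · rw [indicator_of_notMem (show x ∉ Metric.closedBall (posAt s p.1.1.1)
            (R * (1 + ‖p.1.1.1.2.2‖)) from hx)]
          exact indicator_of_notMem (show (((p.1, s), (x, (p.2.1, p.2.2.2))) :
            (Lab × ℝ) × (Space3 × (ℝ × Space3))) ∉ {q : (Lab × ℝ) × (Space3 × (ℝ × Space3)) |
            q.2.2.1 ≤ Q.te ∧ dist q.2.1 (posAt q.1.2 q.1.1.1.1) ≤ R * (1 + ‖q.1.1.1.1.2.2‖)}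
            from fun hm => hx hm.2) _
      simp only [e1]
      rw [lintegral_indicator Metric.isClosed_closedBall.measurableSet, setLIntegral_const,
        Sweep815.vol_closedBall, ENNReal.ofReal_mul hR, mul_pow]
      have hv1 : (1 : ℝ) ≤ 1 + ‖p.1.1.1.2.2‖ := by linarith [norm_nonneg p.1.1.1.2.2]
      have h3 : ENNReal.ofReal (1 + ‖p.1.1.1.2.2‖) ^ 3 ≤
          ENNReal.ofReal ((1 + ‖p.1.1.1.2.2‖) ^ 4) := by
        rw [← ENNReal.ofReal_pow (by positivity)]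
        exact ENNReal.ofReal_le_ofReal (pow_le_pow_right₀ hv1 (by norm_num))
      have h4 : (1 : ℝ≥0∞) ≤ (PP K).lam₁ ^ p.1.2.2 := one_le_pow₀ (PP K).hlam₁
      have h5 : (1 : ℝ≥0∞) ≤ (PP K).W p.2 := (PP K).hW1 p.2 (by rw [hP.hor K]; exact ht)
      calc PairS969.rho0 (PairS969.posd p.1.1) * (ENNReal.ofReal R ^ 3 *
            ENNReal.ofReal (1 + ‖p.1.1.1.2.2‖) ^ 3 * Sweep815.c3)
          ≤ PairS969.rho0 (PairS969.posd p.1.1) * (ENNReal.ofReal R ^ 3 *
            ENNReal.ofReal ((1 + ‖p.1.1.1.2.2‖) ^ 4) * Sweep815.c3) := by gcongr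
        _ = (ENNReal.ofReal R ^ 3 * Sweep815.c3) * (PairS969.rho0 (PairS969.posd p.1.1) *
            ENNReal.ofReal ((1 + ‖p.1.1.1.2.2‖) ^ 4) * (1 * 1)) := by ring
        _ ≤ _ := by gcongr
    · have e1 : ∀ x : Space3, B' ((p.1, s), (x, (p.2.1, p.2.2.2))) = 0 := by
        intro x
        rw [hB']
        exact indicator_of_notMem (fun hm => ht hm.1) _
      simp only [e1, lintegral_zero]
      exact zero_le
  have hFm : Measurable fun q : EDefs602.ML × ℝ => PairS969.rho0 (PairS969.posd q.1) *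
      ENNReal.ofReal ((1 + ‖q.1.1.2.2‖) ^ 4) :=
    (PairS969.measurable_rho0.comp (PairS969.measurable_posd.comp measurable_fst)).mul
      (by fun_prop)
  have hk1 : ENNReal.ofReal R ^ 3 * Sweep815.c3 ≠ ∞ :=
    ENNReal.mul_ne_top (ENNReal.pow_ne_top ENNReal.ofReal_ne_top) hc3
  calc ENNReal.ofReal (r⁻¹ ^ 3) * ∫⁻ p : Lab × LSt, (∫⁻ q in Ioc (0 : ℝ) Q.te,
        (∫⁻ x : Space3, B' ((p.1, q), (x, (p.2.1, p.2.2.2))))) ∂Ξ
      ≤ ENNReal.ofReal (r⁻¹ ^ 3) * ∫⁻ p, (ENNReal.ofReal Q.te *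
        (ENNReal.ofReal R ^ 3 * Sweep815.c3)) * (PairS969.rho0 (PairS969.posd p.1.1) *
        ENNReal.ofReal ((1 + ‖p.1.1.1.2.2‖) ^ 4) *
          ((PP K).lam₁ ^ p.1.2.2 * (PP K).W p.2)) ∂Ξ := by
        refine mul_le_mul' le_rfl (lintegral_mono fun p => ?_)
        refine (lintegral_mono fun s => hin p s).trans (le_of_eq ?_)
        rw [setLIntegral_const, Real.volume_Ioc, sub_zero]
        ring
    _ = (ENNReal.ofReal (r⁻¹ ^ 3) * (ENNReal.ofReal Q.te *
        (ENNReal.ofReal R ^ 3 * Sweep815.c3))) * ∫⁻ p, (PairS969.rho0 (PairS969.posd p.1.1) *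
        ENNReal.ofReal ((1 + ‖p.1.1.1.2.2‖) ^ 4) *
          ((PP K).lam₁ ^ p.1.2.2 * (PP K).W p.2)) ∂Ξ := by
        rw [lintegral_const_mul' _ _ (ENNReal.mul_ne_top ENNReal.ofReal_ne_top hk1)]
        ring
    _ ≤ (ENNReal.ofReal (r⁻¹ ^ 3) * (ENNReal.ofReal Q.te *
        (ENNReal.ofReal R ^ 3 * Sweep815.c3))) * (c * Ed4 Q g0 K) := by
        refine mul_le_mul' le_rfl ((h.marg (fun q => PairS969.rho0 (PairS969.posd q.1) *
          ENNReal.ofReal ((1 + ‖q.1.1.2.2‖) ^ 4)) hFm).trans ?_)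
        exact mul_le_mul' le_rfl (rhs_rho0_le hQ hP K)
    _ = _ := by ring

/-- Constant of the flux estimate. -/
def LamD (Q : EPar) (g0 : ℝ) (Cv : ℝ≥0∞) (K : ℕ) (r M ρ : ℝ) : ℝ≥0∞ :=
  ENNReal.ofReal Real.pi * ((ENNReal.ofReal Q.te * ENNReal.ofReal (1 / (1 + M)) +
    ENNReal.ofReal (2 * r)) * Dm4 Q g0 Cv K + ENNReal.ofReal ((1 + M) ^ 4) *
      (ENNReal.ofReal (r⁻¹ ^ 3) * (ENNReal.ofReal Q.te * (ENNReal.ofReal ρ ^ 3 *
        Sweep815.c3) * Ed4 Q g0 K)))

theorem vol_young (te σ r : ℝ) :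
    ∫⁻ s in Ioc 0 te, {s : ℝ | |s - σ| < r}.indicator (fun _ => (1 : ℝ≥0∞)) s ≤
      ENNReal.ofReal (2 * r) := by
  have hm : MeasurableSet {s : ℝ | |s - σ| < r} :=
    measurableSet_lt (by fun_prop) measurable_const
  calc ∫⁻ s in Ioc 0 te, {s : ℝ | |s - σ| < r}.indicator (fun _ => (1 : ℝ≥0∞)) s
      ≤ ∫⁻ s : ℝ, {s : ℝ | |s - σ| < r}.indicator (fun _ => (1 : ℝ≥0∞)) s :=
        setLIntegral_le_lintegral _ _
    _ = volume {s : ℝ | |s - σ| < r} := by
        rw [lintegral_indicator hm]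
        simp
    _ = volume (Metric.ball σ r) := by
        congr 1
    _ = _ := Real.volume_ball σ r

theorem fluxI_nearD_le {Q : EPar} {g0 : ℝ} (hQ : QOk Q g0) {PP : ℕ → PPar} (hP : PPOk Q PP)
    {Cv : ℝ≥0∞} (hV : Vel4 Q PP Cv) {K : ℕ} {Ξ ν : Measure (Lab × LSt)} {c : ℝ≥0∞}
    (h : PX (PP K) Ξ ν c) {r M ρ : ℝ} (hr : 0 < r) (hM : 0 ≤ M) (hρ : 0 ≤ ρ) (u : Space3) :
    fluxI K Q.te ν (nearD ρ) u ≤
      (c * LamD Q g0 Cv K r M ρ) * ENNReal.ofReal ((1 + ‖u‖) ^ 4) := by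
  classical
  have hu0 := norm_nonneg u
  set R : ℝ := ρ * ((1 + M) * (1 + ‖u‖)) with hRd
  have hR : 0 ≤ R := by positivity
  set S : Set ((Lab × LSt) × ℝ) := {q : (Lab × LSt) × ℝ | q.1.2.1 ≤ Q.te ∧
      r ≤ |q.2 - sig q.1.1| ∧
        dist (posAt q.2 q.1.2) (posAt q.2 q.1.1.1.1) ≤ R * (1 + ‖q.1.1.1.1.2.2‖)} with hS
  set X : Lab × LSt → ℝ≥0∞ := fun θ => ∫⁻ s in Ioc 0 Q.te,
    S.indicator (fun q => PairS969.rho0 (posD q.1)) (θ, s) with hX
  set k : ℝ≥0∞ := ENNReal.ofReal Q.te * ENNReal.ofReal (1 / (1 + M)) +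
    ENNReal.ofReal (2 * r) with hk
  have hpt : ∀ θ : Lab × LSt, chiV K Q.te θ * (ENNReal.ofReal Real.pi *
      (ENNReal.ofReal ‖θ.2.2.2 - u‖ * ∫⁻ s in Ioc 0 Q.te, nearD ρ u s θ)) ≤
      (ENNReal.ofReal Real.pi * ENNReal.ofReal (1 + ‖u‖)) *
        (k * (chiV K Q.te θ * ENNReal.ofReal ((1 + ‖θ.2.2.2‖) ^ 4)) +
          ENNReal.ofReal (1 + M) * X θ) := by
    intro θ
    by_cases hθ : OkL K θ ∧ θ.2.1 ≤ Q.te
    swap
    · have h0 : chiV K Q.te θ = 0 := if_neg hθ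
      rw [h0, zero_mul]
      exact zero_le
    have hχ : chiV K Q.te θ = PairS969.rho0 (posD θ) := if_pos hθ
    set v : Space3 := θ.2.2.2 with hv
    have hv0 := norm_nonneg v
    have hv1 : (1 : ℝ) ≤ 1 + ‖v‖ := by linarith
    have hrel : ENNReal.ofReal ‖v - u‖ ≤ ENNReal.ofReal (1 + ‖v‖) * ENNReal.ofReal (1 + ‖u‖) := by
      rw [← ENNReal.ofReal_mul (by positivity)]
      exact ENNReal.ofReal_le_ofReal (norm_sub_le_mul v u)
    have h14 : ENNReal.ofReal (1 + ‖v‖) ≤ ENNReal.ofReal ((1 + ‖v‖) ^ 4) :=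
      ENNReal.ofReal_le_ofReal (le_self_pow₀ hv1 (by norm_num))
    rw [hχ]
    rcases le_or_gt ‖v‖ M with hvM | hvM
    · -- moderate velocities
      have hmy : Measurable fun s : ℝ => {s : ℝ | |s - sig θ.1| < r}.indicator
          (fun _ => (1 : ℝ≥0∞)) s :=
        measurable_const.indicator (measurableSet_lt (by fun_prop) measurable_const)
      have h1 : PairS969.rho0 (posD θ) * ∫⁻ s in Ioc 0 Q.te, nearD ρ u s θ ≤
          PairS969.rho0 (posD θ) * ENNReal.ofReal (2 * r) + X θ := by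
        have hrt : PairS969.rho0 (posD θ) ≠ ∞ := by
          unfold PairS969.rho0
          refine ENNReal.mul_ne_top ?_ ?_
          · exact ENNReal.inv_ne_top.2 (Metric.measure_ball_pos _ _ one_pos).ne'
          · by_cases hx : posD θ ∈ Metric.ball (0 : Space3) 1
            · rw [indicator_of_mem hx]
              exact ENNReal.one_ne_top
            · rw [indicator_of_notMem hx]
              exact ENNReal.zero_ne_top
        rw [← lintegral_const_mul' _ _ hrt]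
        calc ∫⁻ s in Ioc 0 Q.te, PairS969.rho0 (posD θ) * nearD ρ u s θ
            ≤ ∫⁻ s in Ioc 0 Q.te, (PairS969.rho0 (posD θ) *
              {s : ℝ | |s - sig θ.1| < r}.indicator (fun _ => (1 : ℝ≥0∞)) s +
              S.indicator (fun q => PairS969.rho0 (posD q.1)) (θ, s)) := by
              refine lintegral_mono fun s => ?_
              by_cases hy : |s - sig θ.1| < r
              · rw [indicator_of_mem (show s ∈ {s : ℝ | |s - sig θ.1| < r} from hy)]
                exact (mul_le_mul' le_rfl (nearD_le_one ρ u s θ)).trans le_self_add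
              · unfold nearD
                split_ifs with hn
                · have hmem : ((θ, s) : (Lab × LSt) × ℝ) ∈ S := by
                    refine ⟨hθ.2, not_lt.1 hy, hn.trans ?_⟩
                    have hd0 := norm_nonneg θ.1.1.1.2.2
                    show ρ * ((1 + ‖u‖) * ((1 + ‖v‖) * (1 + ‖θ.1.1.1.2.2‖))) ≤
                      R * (1 + ‖θ.1.1.1.2.2‖)
                    rw [hRd]
                    have h2 : (1 + ‖v‖) ≤ 1 + M := by linarith
                    calc ρ * ((1 + ‖u‖) * ((1 + ‖v‖) * (1 + ‖θ.1.1.1.2.2‖)))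
                        ≤ ρ * ((1 + ‖u‖) * ((1 + M) * (1 + ‖θ.1.1.1.2.2‖))) := by gcongr
                      _ = _ := by ring
                  rw [indicator_of_mem hmem, mul_one]
                  exact le_add_self
                · rw [mul_zero]
                  exact zero_le
          _ = (PairS969.rho0 (posD θ) * ∫⁻ s in Ioc 0 Q.te,
              {s : ℝ | |s - sig θ.1| < r}.indicator (fun _ => (1 : ℝ≥0∞)) s) + X θ := by
              rw [lintegral_add_left (hmy.const_mul _), lintegral_const_mul _ hmy]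
          _ ≤ _ := add_le_add (mul_le_mul' le_rfl (vol_young _ _ _)) le_rfl
      calc PairS969.rho0 (posD θ) * (ENNReal.ofReal Real.pi *
            (ENNReal.ofReal ‖v - u‖ * ∫⁻ s in Ioc 0 Q.te, nearD ρ u s θ))
          ≤ PairS969.rho0 (posD θ) * (ENNReal.ofReal Real.pi *
            ((ENNReal.ofReal (1 + ‖v‖) * ENNReal.ofReal (1 + ‖u‖)) *
              ∫⁻ s in Ioc 0 Q.te, nearD ρ u s θ)) := by gcongr
        _ = (ENNReal.ofReal Real.pi * ENNReal.ofReal (1 + ‖u‖)) * (ENNReal.ofReal (1 + ‖v‖) *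
            (PairS969.rho0 (posD θ) * ∫⁻ s in Ioc 0 Q.te, nearD ρ u s θ)) := by ring
        _ ≤ (ENNReal.ofReal Real.pi * ENNReal.ofReal (1 + ‖u‖)) * (ENNReal.ofReal (1 + ‖v‖) *
            (PairS969.rho0 (posD θ) * ENNReal.ofReal (2 * r) + X θ)) := by gcongr
        _ = (ENNReal.ofReal Real.pi * ENNReal.ofReal (1 + ‖u‖)) * (ENNReal.ofReal (2 * r) *
            (PairS969.rho0 (posD θ) * ENNReal.ofReal (1 + ‖v‖)) +
              ENNReal.ofReal (1 + ‖v‖) * X θ) := by ring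
        _ ≤ (ENNReal.ofReal Real.pi * ENNReal.ofReal (1 + ‖u‖)) * (k *
            (PairS969.rho0 (posD θ) * ENNReal.ofReal ((1 + ‖v‖) ^ 4)) +
              ENNReal.ofReal (1 + M) * X θ) := by
            refine mul_le_mul' le_rfl (add_le_add (mul_le_mul' ?_ (mul_le_mul' le_rfl h14))
              (mul_le_mul' ?_ le_rfl))
            · rw [hk]
              exact le_add_self
            · exact ENNReal.ofReal_le_ofReal (by linarith)
    · -- large velocities
      have h2 : ∫⁻ s in Ioc 0 Q.te, nearD ρ u s θ ≤ ENNReal.ofReal Q.te := by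
        refine (lintegral_mono fun s => nearD_le_one ρ u s θ).trans ?_
        rw [setLIntegral_const, Real.volume_Ioc, sub_zero, one_mul]
      have h3 : ENNReal.ofReal (1 + ‖v‖) ≤ ENNReal.ofReal (1 / (1 + M)) *
          ENNReal.ofReal ((1 + ‖v‖) ^ 4) := by
        rw [← ENNReal.ofReal_mul (by positivity)]
        refine ENNReal.ofReal_le_ofReal ?_
        rw [one_div, ← div_eq_inv_mul, le_div_iff₀ (by positivity)]
        calc (1 + ‖v‖) * (1 + M) ≤ (1 + ‖v‖) * (1 + ‖v‖) := by gcongr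
          _ = (1 + ‖v‖) ^ 2 := by ring
          _ ≤ _ := pow_le_pow_right₀ hv1 (by norm_num)
      calc PairS969.rho0 (posD θ) * (ENNReal.ofReal Real.pi *
            (ENNReal.ofReal ‖v - u‖ * ∫⁻ s in Ioc 0 Q.te, nearD ρ u s θ))
          ≤ PairS969.rho0 (posD θ) * (ENNReal.ofReal Real.pi *
            (((ENNReal.ofReal (1 / (1 + M)) * ENNReal.ofReal ((1 + ‖v‖) ^ 4)) *
              ENNReal.ofReal (1 + ‖u‖)) * ENNReal.ofReal Q.te)) := by
            refine mul_le_mul' le_rfl (mul_le_mul' le_rfl (mul_le_mul' ?_ h2))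
            exact hrel.trans (mul_le_mul' h3 le_rfl)
        _ = (ENNReal.ofReal Real.pi * ENNReal.ofReal (1 + ‖u‖)) *
            ((ENNReal.ofReal Q.te * ENNReal.ofReal (1 / (1 + M))) *
              (PairS969.rho0 (posD θ) * ENNReal.ofReal ((1 + ‖v‖) ^ 4))) := by ring
        _ ≤ _ := by
            refine mul_le_mul' le_rfl (le_trans (mul_le_mul' ?_ le_rfl) le_self_add)
            rw [hk]
            exact le_self_add
  have hpm : Measurable fun v : Space3 => ENNReal.ofReal ((1 + ‖v‖) ^ 4) := by fun_prop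
  have hcm : Measurable fun θ : Lab × LSt =>
      chiV K Q.te θ * ENNReal.ofReal ((1 + ‖θ.2.2.2‖) ^ 4) :=
    (measurable_chiV K Q.te).mul (hpm.comp measurable_vel2)
  have hm4 : ∫⁻ θ, chiV K Q.te θ * ENNReal.ofReal ((1 + ‖θ.2.2.2‖) ^ 4) ∂ν ≤
      Dm4 Q g0 Cv K * c := by
    rw [← lintegral_muV K Q.te ν hpm]
    exact m4_muV_le hQ hP hV h
  have hold := old_nearD_le hQ hP h hr hR
  have hR3 : ENNReal.ofReal R ^ 3 = ENNReal.ofReal ρ ^ 3 * (ENNReal.ofReal (1 + M) ^ 3 *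
      ENNReal.ofReal (1 + ‖u‖) ^ 3) := by
    rw [hRd, ENNReal.ofReal_mul hρ, ENNReal.ofReal_mul (by positivity)]
    ring
  unfold fluxI
  calc ∫⁻ θ, chiV K Q.te θ * (ENNReal.ofReal Real.pi * (ENNReal.ofReal ‖θ.2.2.2 - u‖ *
        ∫⁻ s in Ioc 0 Q.te, nearD ρ u s θ)) ∂ν
      ≤ ∫⁻ θ, (ENNReal.ofReal Real.pi * ENNReal.ofReal (1 + ‖u‖)) *
        (k * (chiV K Q.te θ * ENNReal.ofReal ((1 + ‖θ.2.2.2‖) ^ 4)) +
          ENNReal.ofReal (1 + M) * X θ) ∂ν := lintegral_mono hpt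
    _ = (ENNReal.ofReal Real.pi * ENNReal.ofReal (1 + ‖u‖)) *
        (k * (∫⁻ θ, chiV K Q.te θ * ENNReal.ofReal ((1 + ‖θ.2.2.2‖) ^ 4) ∂ν) +
          ENNReal.ofReal (1 + M) * ∫⁻ θ, X θ ∂ν) := by
        rw [lintegral_const_mul' _ _ (ENNReal.mul_ne_top ENNReal.ofReal_ne_top
          ENNReal.ofReal_ne_top), lintegral_add_left (hcm.const_mul k), lintegral_const_mul _ hcm,
          lintegral_const_mul' _ _ ENNReal.ofReal_ne_top]
    _ ≤ (ENNReal.ofReal Real.pi * ENNReal.ofReal (1 + ‖u‖)) *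
        (k * (Dm4 Q g0 Cv K * c) + ENNReal.ofReal (1 + M) *
          (c * (ENNReal.ofReal (r⁻¹ ^ 3) * (ENNReal.ofReal Q.te * (ENNReal.ofReal R ^ 3 *
        Sweep815.c3) * Ed4 Q g0 K)))) := by
        refine mul_le_mul' le_rfl (add_le_add (mul_le_mul' le_rfl hm4) (mul_le_mul' le_rfl ?_))
        exact hold
    _ ≤ (ENNReal.ofReal Real.pi * ENNReal.ofReal ((1 + ‖u‖) ^ 4)) *
        (k * (Dm4 Q g0 Cv K * c) + ENNReal.ofReal ((1 + M) ^ 4) *
          (c * (ENNReal.ofReal (r⁻¹ ^ 3) * (ENNReal.ofReal Q.te * (ENNReal.ofReal ρ ^ 3 *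
        Sweep815.c3) * Ed4 Q g0 K)))) := by
        rw [hR3, ENNReal.ofReal_pow (p := 1 + ‖u‖) (by positivity),
          ENNReal.ofReal_pow (p := 1 + M) (by positivity)]
        have hu1 : (1 : ℝ≥0∞) ≤ ENNReal.ofReal (1 + ‖u‖) ^ 3 := by
          refine one_le_pow₀ ?_
          rw [← ENNReal.ofReal_one]
          exact ENNReal.ofReal_le_ofReal (by linarith)
        set U : ℝ≥0∞ := ENNReal.ofReal (1 + ‖u‖) with hU
        calc (ENNReal.ofReal Real.pi * U) *
            (k * (Dm4 Q g0 Cv K * c) + ENNReal.ofReal (1 + M) *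
              (c * (ENNReal.ofReal (r⁻¹ ^ 3) * (ENNReal.ofReal Q.te * ((ENNReal.ofReal ρ ^ 3 *
                (ENNReal.ofReal (1 + M) ^ 3 * U ^ 3)) * Sweep815.c3) * Ed4 Q g0 K))))
            = (ENNReal.ofReal Real.pi * U) * (k * (Dm4 Q g0 Cv K * c) * 1) +
              (ENNReal.ofReal Real.pi * U ^ 4) * (ENNReal.ofReal (1 + M) ^ 4 *
              (c * (ENNReal.ofReal (r⁻¹ ^ 3) * (ENNReal.ofReal Q.te * (ENNReal.ofReal ρ ^ 3 *
                 Sweep815.c3) * Ed4 Q g0 K)))) := by ring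
          _ ≤ (ENNReal.ofReal Real.pi * U) * (k * (Dm4 Q g0 Cv K * c) * U ^ 3) +
              (ENNReal.ofReal Real.pi * U ^ 4) * (ENNReal.ofReal (1 + M) ^ 4 *
              (c * (ENNReal.ofReal (r⁻¹ ^ 3) * (ENNReal.ofReal Q.te * (ENNReal.ofReal ρ ^ 3 *
                 Sweep815.c3) * Ed4 Q g0 K)))) := by gcongr
          _ = _ := by ring
    _ = _ := by
        unfold LamD
        rw [← hk]
        ring

/-- The null bound. -/
def nearN (Q : EPar) (g0 : ℝ) (Cv : ℝ≥0∞) (K : ℕ) (ρ : ℝ) : ℝ≥0∞ :=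
  ⨅ n : ℕ, LamD Q g0 Cv K (1 / ((n : ℝ) + 1)) n ρ

theorem tendsto_nearN {Q : EPar} {g0 : ℝ} (hQ : QOk Q g0) {Cv : ℝ≥0∞} (hCv : Cv ≠ ∞) (K : ℕ) :
    Tendsto (nearN Q g0 Cv K) (𝓝 0) (𝓝 0) := by
  have hD4 := Dm4_ne_top hQ hCv K
  have hE4 := Ed4_ne_top hQ K
  have hc3 : Sweep815.c3 ≠ ∞ := ENNReal.ofReal_ne_top
  -- the first part
  have h1 : Tendsto (fun n : ℕ => ENNReal.ofReal (1 / (1 + (n : ℝ)))) atTop (𝓝 0) := by
    rw [← ENNReal.ofReal_zero]
    refine ENNReal.tendsto_ofReal ?_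
    refine (tendsto_one_div_add_atTop_nhds_zero_nat (𝕜 := ℝ)).congr fun n => ?_
    rw [add_comm]
  have h2 : Tendsto (fun n : ℕ => ENNReal.ofReal (2 * (1 / ((n : ℝ) + 1)))) atTop (𝓝 0) := by
    rw [← ENNReal.ofReal_zero]
    refine ENNReal.tendsto_ofReal ?_
    have := (tendsto_one_div_add_atTop_nhds_zero_nat (𝕜 := ℝ)).const_mul (2 : ℝ)
    simpa using this
  have h3 : Tendsto (fun n : ℕ => ENNReal.ofReal Real.pi *
      ((ENNReal.ofReal Q.te * ENNReal.ofReal (1 / (1 + (n : ℝ))) +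
        ENNReal.ofReal (2 * (1 / ((n : ℝ) + 1)))) * Dm4 Q g0 Cv K)) atTop (𝓝 0) := by
    have hz : (0 : ℝ≥0∞) = ENNReal.ofReal Real.pi *
      ((ENNReal.ofReal Q.te * 0 + 0) * Dm4 Q g0 Cv K) := by simp
    rw [hz]
    refine ENNReal.Tendsto.const_mul ?_ (Or.inr ENNReal.ofReal_ne_top)
    refine ENNReal.Tendsto.mul_const ?_ (Or.inr hD4)
    exact (ENNReal.Tendsto.const_mul h1 (Or.inr ENNReal.ofReal_ne_top)).add h2
  -- the second part
  have h4 : ∀ n : ℕ, Tendsto (fun ρ : ℝ => ENNReal.ofReal Real.pi *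
      (ENNReal.ofReal ((1 + (n : ℝ)) ^ 4) * (ENNReal.ofReal ((1 / ((n : ℝ) + 1))⁻¹ ^ 3) *
        (ENNReal.ofReal Q.te * (ENNReal.ofReal ρ ^ 3 * Sweep815.c3) * Ed4 Q g0 K))))
      (𝓝 0) (𝓝 0) := by
    intro n
    have hz : (0 : ℝ≥0∞) = ENNReal.ofReal Real.pi *
      (ENNReal.ofReal ((1 + (n : ℝ)) ^ 4) * (ENNReal.ofReal ((1 / ((n : ℝ) + 1))⁻¹ ^ 3) *
        (ENNReal.ofReal Q.te * (0 ^ 3 * Sweep815.c3) * Ed4 Q g0 K))) := by simp
    have h5 : Tendsto (fun ρ : ℝ => ENNReal.ofReal ρ ^ 3) (𝓝 0) (𝓝 (0 ^ 3)) := by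
      have h6 : Tendsto (fun ρ : ℝ => ENNReal.ofReal ρ) (𝓝 0) (𝓝 0) := by
        have := ENNReal.tendsto_ofReal (f := 𝓝 (0 : ℝ)) (m := fun ρ : ℝ => ρ) tendsto_id
        rwa [ENNReal.ofReal_zero] at this
      exact ENNReal.Tendsto.pow h6
    conv => arg 3; rw [hz]
    refine ENNReal.Tendsto.const_mul ?_ (Or.inr ENNReal.ofReal_ne_top)
    refine ENNReal.Tendsto.const_mul ?_ (Or.inr ENNReal.ofReal_ne_top)
    refine ENNReal.Tendsto.const_mul ?_ (Or.inr ENNReal.ofReal_ne_top)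
    refine ENNReal.Tendsto.mul_const ?_ (Or.inr hE4)
    refine ENNReal.Tendsto.const_mul ?_ (Or.inr ENNReal.ofReal_ne_top)
    exact ENNReal.Tendsto.mul_const h5 (Or.inr hc3)
  rw [ENNReal.tendsto_nhds_zero]
  intro δ hδ
  have hδ2 : 0 < δ / 2 := ENNReal.half_pos hδ.ne'
  obtain ⟨n, hn⟩ := ((ENNReal.tendsto_nhds_zero.1 h3) (δ / 2) hδ2).exists
  filter_upwards [(ENNReal.tendsto_nhds_zero.1 (h4 n)) (δ / 2) hδ2] with ρ hρ
  unfold nearN
  refine (iInf_le _ n).trans ?_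
  rw [← ENNReal.add_halves δ]
  refine le_trans (le_of_eq ?_) (add_le_add hn hρ)
  unfold LamD
  rw [← mul_add]

/-- **The free first line is close to the root near the contact time.** -/
def DFree (ε a : ℝ) {P : CTree} (z : PhasePoint × Par P) (θ : Lab × LSt) : Prop :=
  ∃ t : ℝ, |t - cT ε z (eL θ)| ≤ a ∧
    dist (lpos (dL θ) t) (z.1.1 + t • z.1.2) ≤ a * (1 + ‖θ.2.2.2‖ + ‖z.1.2‖)

theorem norm_ent {b g : Space3} (hg : g ≠ 0) (hb : inner ℝ b g = 0) (hb1 : ‖b‖ ≤ 1) :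
    ‖entrancePoint b g‖ = 1 := by
  have hg0 : ‖g‖ ≠ 0 := norm_ne_zero_iff.2 hg
  have h0 : (0 : ℝ) ≤ 1 - ‖b‖ ^ 2 := by nlinarith [norm_nonneg b]
  have h1 : ‖entrancePoint b g‖ ^ 2 = 1 := by
    unfold entrancePoint
    rw [norm_sub_sq_real, inner_smul_right, hb, norm_smul, Real.norm_eq_abs, mul_pow, sq_abs,
      div_pow, Real.sq_sqrt h0]
    field_simp
    ring
  have h2 := norm_nonneg (entrancePoint b g)
  nlinarith [sq_nonneg (‖entrancePoint b g‖ - 1)]

/-- Distance of the second line to the root at the contact time. -/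
theorem dist_ct (hε : 0 < ε) {te : ℝ} {P : CTree} {z : PhasePoint × Par P} {θ : Lab × LSt}
    (hct : (z, θ.2) ∈ ctSet Φ ε te P) :
    dist (posAt (cT ε z (eL θ)) θ.2) (z.1.1 + cT ε z (eL θ) • z.1.2) = ε := by
  obtain ⟨hg, hb, -⟩ := hct
  have h1 := ent_pos hε (relL z.1 θ.2)
  have h2 : cT ε z (eL θ) = entT ε (relL z.1 θ.2) := rfl
  have h3 : posAt (cT ε z (eL θ)) θ.2 - (z.1.1 + cT ε z (eL θ) • z.1.2) =
      (relL z.1 θ.2).1 + entT ε (relL z.1 θ.2) • (relL z.1 θ.2).2 := by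
    rw [h2]
    unfold posAt relL back
    simp only [smul_sub, sub_smul]
    abel
  have hbn : ‖entB ε (relL z.1 θ.2)‖ ≤ 1 := by
    rw [norm_entB hε, div_le_one hε]
    exact hb
  have hbo : inner ℝ (entB ε (relL z.1 θ.2)) (relL z.1 θ.2).2 = 0 := by
    unfold entB
    rw [inner_smul_left, inner_bline hg, mul_zero]
  rw [dist_eq_norm, h3, h1, norm_smul, norm_ent hg hbo hbn, mul_one, Real.norm_eq_abs,
    abs_of_pos hε]

theorem lpos_eq_posAt (θ : Lab × LSt) (t : ℝ) : lpos (dL θ) t = posAt t θ.1.1.1 := by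
  unfold lpos posAt dL back
  simp only [sub_smul]
  abel

theorem posAt_sub (z : LSt) (s t : ℝ) : posAt t z - posAt s z = (t - s) • z.2.2 := by
  unfold posAt
  rw [add_sub_add_left_eq_sub, ← sub_smul]
  congr 1
  ring

theorem nearD_of_dfree (hε : 0 < ε) {a te : ℝ} (ha : 0 ≤ a) {P : CTree}
    {z : PhasePoint × Par P} {θ : Lab × LSt} (hct : (z, θ.2) ∈ ctSet Φ ε te P)
    (h : DFree ε a z θ) : nearD (2 * a + ε) z.1.2 (cT ε z (eL θ)) θ = 1 := by
  obtain ⟨t, ht, hd⟩ := h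
  set s := cT ε z (eL θ) with hs
  have h1 := dist_ct hε hct
  rw [← hs] at h1
  unfold nearD
  rw [if_pos]
  rw [lpos_eq_posAt] at hd
  have hu := norm_nonneg z.1.2
  have hv := norm_nonneg θ.2.2.2
  have hw := norm_nonneg θ.1.1.1.2.2
  have h2 : dist (z.1.1 + s • z.1.2) (z.1.1 + t • z.1.2) ≤ a * ‖z.1.2‖ := by
    rw [dist_eq_norm, add_sub_add_left_eq_sub, ← sub_smul, norm_smul, Real.norm_eq_abs,
      abs_sub_comm]
    exact mul_le_mul_of_nonneg_right ht hu
  have h3 : dist (posAt t θ.1.1.1) (posAt s θ.1.1.1) ≤ a * ‖θ.1.1.1.2.2‖ := by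
    rw [dist_eq_norm, posAt_sub, norm_smul, Real.norm_eq_abs]
    exact mul_le_mul_of_nonneg_right ht hw
  have h4 : dist (posAt s θ.2) (posAt s θ.1.1.1) ≤ ε + a * ‖z.1.2‖ +
      a * (1 + ‖θ.2.2.2‖ + ‖z.1.2‖) + a * ‖θ.1.1.1.2.2‖ := by
    have e1 := dist_triangle4 (posAt s θ.2) (z.1.1 + s • z.1.2) (z.1.1 + t • z.1.2)
      (posAt t θ.1.1.1)
    have e2 := dist_triangle (posAt s θ.2) (posAt t θ.1.1.1) (posAt s θ.1.1.1)
    have e3 : dist (z.1.1 + t • z.1.2) (posAt t θ.1.1.1) ≤ a * (1 + ‖θ.2.2.2‖ + ‖z.1.2‖) := by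
      rw [dist_comm]; exact hd
    linarith
  refine h4.trans ?_
  have h5 : (1 : ℝ) + ‖z.1.2‖ + ‖θ.2.2.2‖ + ‖θ.1.1.1.2.2‖ ≤
      (1 + ‖z.1.2‖) * ((1 + ‖θ.2.2.2‖) * (1 + ‖θ.1.1.1.2.2‖)) := by
    nlinarith [mul_nonneg hu hv, mul_nonneg hu hw, mul_nonneg hv hw,
      mul_nonneg hu (mul_nonneg hv hw)]
  have h6 : (2 * a + ε) * (1 + ‖z.1.2‖ + ‖θ.2.2.2‖ + ‖θ.1.1.1.2.2‖) ≤
      (2 * a + ε) * ((1 + ‖z.1.2‖) * ((1 + ‖θ.2.2.2‖) * (1 + ‖θ.1.1.1.2.2‖))) :=
    mul_le_mul_of_nonneg_left h5 (by positivity)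
  refine le_trans ?_ h6
  nlinarith [mul_nonneg ha hu, mul_nonneg ha hv, mul_nonneg ha hw, mul_nonneg hε.le hu,
    mul_nonneg hε.le hv, mul_nonneg hε.le hw]


end Crest.Agent.R122.Third741
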