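import Crest.Agent.R122.RealLines_45
import Crest.Agent.R122.TreeOwn_335
import Crest.Agent.R122.RealTree_674
import Crest.Agent.R122.EBasic_602
import Crest.Agent.R122.UnwE_410

/-!
# A real collision tree replaced by its lines (row 122, blocks A9/A7, helper45)

* `inWindow_rel`, `rel_le_prot`.
* `TreeIn Φ ε Z P z f` : in the world `Z` the particles `f i` follow the tree `(P, z)` up to their
  release times, without contact with others.
* `TreeIn.famIn` : `FamIn` with the marked lines `lineML` (root included, born at the exit time of the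
  last node).
* `TreeIn.of_real` : from helper674's `RealTree`; `TreeIn.ins` : after insertion of a free line.
* `treeW` : relabelling `(MW.cfg w).add (MW.lines (lineML ..))` of the world with lines.
* `theta_tree_le` : `θ (w + lines, l) ≤ θ (V ++ w, l)`.
-/

set_option autoImplicit false
set_option linter.unusedSectionVars false

open MeasureTheory Set Filter Topology
open scoped ENNReal
open Crest.AnalysisR.Kinetic
open Crest.Agent.R122.Flow671 hiding rel
open Crest.Agent.R122.Loc45 Crest.Agent.R122.Causal291 Crest.Agent.R122.MWAlg255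
open Crest.Agent.R122.Inf879 Crest.Agent.R122.EDefs602 Crest.Agent.R122.Lines255
open Crest.Agent.R122.Kin796 Crest.Agent.R122.Kin796.CTree Crest.Agent.R122.Tree674
open Crest.Agent.R122.PathFlow968 Crest.Agent.R122.TreeLines335
open Crest.Agent.R122.InEq2T (lastS card_lastS mem_lastS lastS_closed)

namespace Crest.Agent.R122.Ins45

noncomputable section

open scoped Classical

/-! ### Windows and release times -/

theorem rel_inl {l r : CTree} (p : Par (node l r)) (i : Idx l) :
    rel (node l r) p (Sum.inl i) = if i = root l then p.1.1 else rel l p.2.1 i := rfl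

theorem rel_inr {l r : CTree} (p : Par (node l r)) (i : Idx r) :
    rel (node l r) p (Sum.inr i) = if i = root r then p.1.1 else rel r p.2.2 i := rfl

/-- Contact windows end before the release times. -/
theorem inWindow_rel {Φ : Space3 → ℝ} {ε : ℝ} (hε : 0 ≤ ε) : ∀ {P : CTree} {T : ℝ} {v : Space3}
    {p : Par P} {i j : Idx P} {u : ℝ}, Ord Φ ε P T v p → InWindow Φ ε P v p i j u →
      u ≤ rel P p i ∧ u ≤ rel P p j
  | leaf, _, _, _, _, _, _, _, h => h.elim
  | node l r, T, v, p, i, j, u, ho, h => by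
      have hle : Tree674.sin Φ ε v p.1 ≤ p.1.1 := sin_le hε v p.1
      rcases h with ⟨rfl, rfl, -, h⟩ | ⟨i', j', rfl, rfl, h⟩ | ⟨i', j', rfl, rfl, h⟩
      · refine ⟨?_, ?_⟩
        · rw [rel_inl, if_pos rfl]; exact h
        · rw [rel_inr, if_pos rfl]; exact h
      · obtain ⟨h1, h2⟩ := inWindow_rel hε ho.2.2.1 h
        have k1 := rel_lt hε ho.2.1 ho.2.2.1 i'
        have k2 := rel_lt hε ho.2.1 ho.2.2.1 j'
        rw [rel_inl, rel_inl]
        constructor
        · split_ifs
          · exact (h1.trans k1.le).trans hle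
          · exact h1
        · split_ifs
          · exact (h2.trans k2.le).trans hle
          · exact h2
      · obtain ⟨h1, h2⟩ := inWindow_rel hε ho.2.2.2 h
        have k1 := rel_lt hε ho.2.1 ho.2.2.2 i'
        have k2 := rel_lt hε ho.2.1 ho.2.2.2 j'
        rw [rel_inr, rel_inr]
        constructor
        · split_ifs
          · exact (h1.trans k1.le).trans hle
          · exact h1
        · split_ifs
          · exact (h2.trans k2.le).trans hle
          · exact h2

theorem rel_le_prot {Φ : Space3 → ℝ} {ε : ℝ} (hε : 0 ≤ ε) {P : CTree} {T : ℝ} {v : Space3}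
    {p : Par P} (hT : 0 < T) (ho : Ord Φ ε P T v p) (i : Idx P) : rel P p i ≤ prot P T p i := by
  by_cases hi : i = root P
  · subst hi
    rw [PathFlow968.prot_root]
    exact (rel_lt hε hT ho _).le
  · rw [rel_eq_prot P T p i hi]

variable {α : Type} [Fintype α] {Φ : Space3 → ℝ} {ε : ℝ} {Z : MW α} {P : CTree}
  {z : PhasePoint × Par P} {f : Idx P → α} {K : ℕ}

/-- In the world `Z` the particles `f i` follow the tree `(P, z)` up to their release times, without
contact with others. -/
structure TreeIn (Φ : Space3 → ℝ) (ε : ℝ) (Z : MW α) (P : CTree) (z : PhasePoint × Par P)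
    (f : Idx P → α) : Prop where
  inj : Function.Injective f
  b : ∀ i, Z.b (f i) = 0
  m : ∀ i, Z.m (f i) = 1
  agree : ∀ i t, 0 ≤ t → t ≤ rel P z.2 i → Z.path Φ ε t (f i) = path Φ ε P z.1 z.2 t i
  closed : ∀ i t x, t ≤ rel P z.2 i → Z.C Φ ε t (f i) x → ∃ j, x = f j ∧ t ≤ rel P z.2 j ∧
    (i = j ∨ InWindow Φ ε P z.1.2 z.2 i j t ∨ InWindow Φ ε P z.1.2 z.2 j i t)

namespace TreeIn

variable (h : TreeIn Φ ε Z P z f)

include h in
/-- The own past of a member: the leaves under its last node. -/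
theorem own_past (hε : 0 ≤ ε) {T : ℝ} (ho : Ord Φ ε P T z.1.2 z.2) {i : Idx P} {r : ℝ} {q : α}
    (hp : Past (Z.C Φ ε) (rel P z.2 i) (f i) r q) :
    ∃ y ∈ lastS P i, q = f y ∧ r ≤ rel P z.2 y := by
  induction hp with
  | @root r hr => exact ⟨i, mem_lastS P i, rfl, hr⟩
  | @step r s' q q' hq hc hr ih =>
    obtain ⟨y, hy, rfl, hy2⟩ := ih
    obtain ⟨j, rfl, hj, hw⟩ := h.closed y s' q' hy2 hc
    refine ⟨j, ?_, rfl, hr.trans hj⟩
    rcases hw with rfl | hw
    · exact hy
    · exact lastS_closed hε ho i y j s' hy hq.le hw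

include h in
/-- The size of a member at its release is at most its mark. -/
theorem size (hε : 0 ≤ ε) {T : ℝ} (ho : Ord Φ ε P T z.1.2 z.2) (i : Idx P) :
    msize (Z.C Φ ε) Z.m (rel P z.2 i) (f i) ≤ TreeLines335.mk P i := by
  have h1 : ∀ k, (if k ∈ BC (Z.C Φ ε) (rel P z.2 i) (f i) then Z.m k else 0) ≤
      if k ∈ (lastS P i).image f then Z.m k else 0 := by
    intro k
    by_cases hk : k ∈ BC (Z.C Φ ε) (rel P z.2 i) (f i)
    · obtain ⟨y, hy, rfl, _⟩ := h.own_past hε ho hk
      rw [if_pos hk, if_pos (Finset.mem_image_of_mem f hy)]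
    · rw [if_neg hk]
      exact Nat.zero_le _
  unfold msize
  refine (Finset.sum_le_sum fun k _ => h1 k).trans ?_
  rw [Finset.sum_ite_mem, Finset.univ_inter, Finset.sum_image fun x _ y _ hxy => h.inj hxy,
    Finset.sum_congr rfl fun y _ => h.m y, Finset.sum_const, card_lastS, smul_eq_mul, mul_one]

include h in
/-- **The members form a closed family with the marked lines of the tree.** -/
theorem famIn (hε : 0 < ε) {T : ℝ} (hV : Valid Φ ε P T z.1.2 z.2) :
    FamIn Φ ε Z f (lineML Φ ε P z) where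
  inj := h.inj
  le i := by
    rw [h.b i]
    exact rel_nonneg hε.le hV.2 i
  pos i := rel_nonneg hε.le hV.2 i
  state i := by
    have h1 := h.agree i (rel P z.2 i) (rel_nonneg hε.le hV.2 i) le_rfl
    rw [RtG302.path_after_rel hε P T z.1 z.2 hV i _ le_rfl] at h1
    exact h1
  closed i t x ht hc := by
    obtain ⟨j, hj, hj2, _⟩ := h.closed i t x ht hc
    exact ⟨j, hj, hj2⟩
  size i := h.size hε.le hV.2 i

/-- A real tree. -/
theorem of_real (hΦ : AdmissiblePotential Φ) (hε : 0 < ε) {n : ℕ} {X : Config n} {s : ℝ} (hs : 0 < s) {i₀ : Fin n} {e : Idx P → Fin n}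
    (hr : RealTree674.RealTree Φ ε s X i₀ P z.1 z.2 e) : TreeIn Φ ε (MW.cfg X) P z e where
  inj := hr.inj
  b _ := rfl
  m _ := rfl
  agree i t h0 ht := by
    rw [EBasic602.cfg_path hΦ hε]
    exact hr.agree i t h0 (ht.trans (rel_le_prot hε.le hs hr.valid.2 i))
  closed i t x ht hc := by
    have h0 : 0 ≤ t := MW.C_born hc
    have hts : t ≤ s := ht.trans (rel_lt hε.le hs hr.valid.2 i).le
    have hti : t ≤ prot P s z.2 i := ht.trans (rel_le_prot hε.le hs hr.valid.2 i)
    have hct : Ct (pth Φ ε X) ε t (e i) x := EBasic602.cfg_C_ct hΦ hε hc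
    have h1 : Past (Ct (pth Φ ε X) ε) s i₀ t (e i) := (hr.past t ⟨h0, hts⟩ _).2 ⟨i, rfl, hti⟩
    obtain ⟨j, rfl, hj⟩ := (hr.past t ⟨h0, hts⟩ _).1 (h1.contact hct)
    have hw : Ct (path Φ ε P z.1 z.2) ε t i j := by
      unfold Ct
      rw [← hr.agree i t h0 hti, ← hr.agree j t h0 hj]
      exact hct
    have hw2 := (ct_iff hΦ hε hr.valid hr.sep ⟨h0, hts⟩).1 hw
    refine ⟨j, rfl, ?_, hw2⟩
    rcases hw2 with rfl | hw2 | hw2
    · exact ht
    · exact (inWindow_rel hε.le hr.valid.2 hw2).2
    · exact (inWindow_rel hε.le hr.valid.2 hw2).1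

/-- Insertion of a line whose free extension does not meet the world before the time `s`. -/
theorem ins (h : TreeIn Φ ε Z P z f) (hΦ : AdmissiblePotential Φ) (hε : 0 < ε) {l : ML} {s : ℝ}
    (hF : FreeFar Φ ε Z l s) (hZ : Z.Ok Φ ε) (hZl : (Z.ins l).Ok Φ ε) (hl : 0 ≤ l.1.1)
    (hs : ∀ i, rel P z.2 i < s) : TreeIn Φ ε (Z.ins l) P z fun i => Sum.inl (f i) where
  inj := Sum.inl_injective.comp h.inj
  b := h.b
  m := h.m
  agree i t h0 ht := by
    rw [(hF.path_ins hΦ hε hZ hZl ⟨h0, ht.trans (hs i).le⟩).2 (f i)]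
    exact h.agree i t h0 ht
  closed i t x ht hc := by
    have h0 : 0 ≤ t := by
      have h1 : (Z.ins l).b (Sum.inl (f i)) ≤ t := MW.C_born hc
      have h2 : (Z.ins l).b (Sum.inl (f i)) = Z.b (f i) := rfl
      rwa [h2, h.b i] at h1
    have hts : t < s := ht.trans_lt (hs i)
    rcases x with x | u
    · have hp := (hF.path_ins hΦ hε hZ hZl ⟨h0, hts.le⟩).2
      have hc' : Z.C Φ ε t (f i) x := by
        obtain ⟨c1, c2, c3, c4⟩ := hc
        refine ⟨c1, c2, ?_, ?_⟩
        · rcases c3 with c3 | c3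
          · exact Or.inl (Sum.inl_injective c3)
          · exact Or.inr c3
        · rw [hp, hp] at c4
          exact c4
      obtain ⟨j, rfl, hj⟩ := h.closed i t x ht hc'
      exact ⟨j, rfl, hj⟩
    · exact absurd (MW.C_symm _ hc) (hF.not_C hΦ hε hZ hZl hl hts (f i))

end TreeIn

/-! ### The gas -/

section gas

variable {k m : ℕ} {V : Config k} {w : Config m} {e : Idx P ≃ Fin k} {l : ML}

/-- Labels of `(w, lines of the tree)`. -/
def treeE (m : ℕ) (e : Idx P ≃ Fin k) : Fin m ⊕ Idx P ≃ Fin (k + m) :=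
  ((Equiv.sumCongr (Equiv.refl (Fin m)) e).trans (Equiv.sumComm _ _)).trans finSumFinEquiv

theorem treeE_inl (i : Fin m) : treeE m e (Sum.inl i) = Fin.natAdd k i := rfl

theorem treeE_inr (i : Idx P) : treeE m e (Sum.inr i) = Fin.castAdd m (e i) := rfl

theorem natAdd_not_mem (i : Fin m) : Fin.natAdd k i ∉ range fun j => Fin.castAdd m (e j) := by
  rintro ⟨j, hj⟩
  have := congrArg Fin.val hj
  simp only [Fin.val_castAdd, Fin.val_natAdd] at this
  have := (e j).2
  omega

theorem castAdd_inj : Function.Injective fun j => Fin.castAdd m (e j) :=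
  (Fin.castAdd_injective k m).comp e.injective

/-- The world with lines, relabelled. -/
theorem treeW (ls : Idx P → ML) :
    (lw (MW.cfg (Fin.append V w)) (fun i => Fin.castAdd m (e i)) ls).comap (treeE m e) =
      (MW.cfg w).add (MW.lines ls) := by
  unfold MW.comap MW.add
  have hinj : Function.Injective fun j => Fin.castAdd m (e j) := castAdd_inj
  congr 1
  · funext x
    rcases x with x | x
    · rw [treeE_inl, lw_b_off (natAdd_not_mem x)]; rfl
    · rw [treeE_inr]; exact lw_b hinj x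
  · funext x
    rcases x with x | x
    · rw [treeE_inl, lw_z_off (natAdd_not_mem x)]
      change Fin.append V w (Fin.natAdd k x) = w x
      exact Fin.append_right V w x
    · rw [treeE_inr]; exact lw_z hinj x
  · funext x
    rcases x with x | x
    · rw [treeE_inl, lw_m_off (natAdd_not_mem x)]; rfl
    · rw [treeE_inr]; exact lw_m hinj x

theorem rel_lt_real {s : ℝ} {i₀ : Fin (k + m)} (hε : 0 < ε) (hs : 0 < s)
    (hr : RealTree674.RealTree Φ ε s (Fin.append V w) i₀ P z.1 z.2 fun i => Fin.castAdd m (e i))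
    (i : Idx P) : rel P z.2 i < s := rel_lt hε.le hs hr.valid.2 i

/-- **A real tree replaced by its marked lines** (root line included): the touch time of a line `l`
which does not meet the gas before the root is seen (time `s`) can only decrease. -/
theorem theta_tree_le (hΦ : AdmissiblePotential Φ) (hε : 0 < ε) {s : ℝ} (hs : 0 < s)
    {i₀ : Fin (k + m)} (hX : Fin.append V w ∈ PairExcluded ε (k + m))
    (hr : RealTree674.RealTree Φ ε s (Fin.append V w) i₀ P z.1 z.2 fun i => Fin.castAdd m (e i))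
    (hl : 0 ≤ l.1.1) (hF : FreeFar Φ ε (MW.cfg (Fin.append V w)) l s)
    (hZl : ((MW.cfg (Fin.append V w)).ins l).Ok Φ ε) (hK : P.leaves ≤ K) (T : ℝ) :
    ((MW.cfg w).add (MW.lines (lineML Φ ε P z))).thetaL Φ ε K T l ≤
      (MW.cfg (Fin.append V w)).thetaL Φ ε K T l := by
  have hZ : (MW.cfg (Fin.append V w)).Ok Φ ε := Unw410.cfg_ok hΦ hε hX
  have h1 := TreeIn.of_real hΦ hε hs hr
  have h2 := h1.ins hΦ hε hF hZ hZl hl (rel_lt_real hε hs hr)
  rw [thetaL_relabel hΦ hε (treeE m e) (treeW (lineML Φ ε P z))]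
  exact theta_lw_le hΦ hε (h1.famIn hε hr.valid) (h2.famIn hε hr.valid) hZ.bw hZl.bw
    (fun _ => le_rfl) (fun _ => hl) (fun i => (mk_le P i).trans hK) T

/-- Paths of the world with lines: born particles have their real states. -/
theorem path_tree (hΦ : AdmissiblePotential Φ) (hε : 0 < ε) {s : ℝ} (hs : 0 < s)
    {i₀ : Fin (k + m)} (hX : Fin.append V w ∈ PairExcluded ε (k + m))
    (hr : RealTree674.RealTree Φ ε s (Fin.append V w) i₀ P z.1 z.2 fun i => Fin.castAdd m (e i))
    {t : ℝ} (ht : 0 ≤ t) {x : Fin m ⊕ Idx P}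
    (hx : ((MW.cfg w).add (MW.lines (lineML Φ ε P z))).b x ≤ t) :
    ((MW.cfg w).add (MW.lines (lineML Φ ε P z))).path Φ ε t x =
      pth Φ ε (Fin.append V w) t (treeE m e x) := by
  have hZ : (MW.cfg (Fin.append V w)).Ok Φ ε := Unw410.cfg_ok hΦ hε hX
  have h1 := (TreeIn.of_real hΦ hε hs hr).famIn hε hr.valid
  rw [← treeW (V := V) (e := e)] at hx ⊢
  rw [path_comap hΦ hε, h1.path_eq hΦ hε hZ.bw ht hx, EBasic602.cfg_path hΦ hε]


/-- Contacts of the world with lines are real contacts. -/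
theorem C_tree (hΦ : AdmissiblePotential Φ) (hε : 0 < ε) {s : ℝ} (hs : 0 < s)
    {i₀ : Fin (k + m)} (hX : Fin.append V w ∈ PairExcluded ε (k + m))
    (hr : RealTree674.RealTree Φ ε s (Fin.append V w) i₀ P z.1 z.2 fun i => Fin.castAdd m (e i))
    {t : ℝ} {x y : Fin m ⊕ Idx P}
    (hc : ((MW.cfg w).add (MW.lines (lineML Φ ε P z))).C Φ ε t x y) :
    Ct (pth Φ ε (Fin.append V w)) ε t (treeE m e x) (treeE m e y) := by
  have hZ : (MW.cfg (Fin.append V w)).Ok Φ ε := Unw410.cfg_ok hΦ hε hX
  have h1 := (TreeIn.of_real hΦ hε hs hr).famIn hε hr.valid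
  rw [← treeW (V := V) (e := e), C_comap hΦ hε] at hc
  exact EBasic602.cfg_C_ct hΦ hε (h1.C_sub hΦ hε hZ.bw (fun _ => le_rfl) hc)

end gas

end

end Crest.Agent.R122.Ins45
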