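import Mathlib
import Crest.Prelude.Def_KineticLimit
import Crest.Agent.R122.Scat6_818
import Crest.Agent.R122.Flux_663

-- ▼ part R122/VLcore_564
section

/-!
# Row 122, block VL: measure cores (helper564)

All estimates are for a fixed configuration of the two merging blocks, as functions of the relative
translation `y` and the relative boost `u`.

* `two_balls_exact`, `E1`: two ball constraints at two times;
* `far_point`, `far_pair`: contacts of two curves at two times at distance at least `η`;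
* `sweep`, `sweep_boost`: sweep over an arbitrary set of times;
* `window_one`, `window_sum`: the scaled relative phase point, `dy du = ε³ dξ dg`;
* `Iso`, `iso_ball_le`, `iso_curve_le`, `iso_small`: isotropic laws on `ℝ³` do not charge thin
  neighbourhoods of Lipschitz curves, apart from an atom at the origin;
* `rel0`, `Exi`, `box`: the scaled two-body problem.
-/

set_option autoImplicit false
set_option linter.unusedSectionVars false
open MeasureTheory Metric Set Filter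
open scoped ENNReal NNReal Pointwise Topology
open Crest.AnalysisR.Kinetic

namespace Crest.Agent.R122.VLcore564

section window

variable {E : Type*} [NormedAddCommGroup E] [NormedSpace ℝ E] [FiniteDimensional ℝ E]
  [MeasurableSpace E] [BorelSpace E]




/-- Rounding down to a grid. -/
theorem grid_exists {a b δ : ℝ} (hδ : 0 < δ) {s : ℝ} (hs : s ∈ Icc a b) :
    ∃ n ∈ Finset.range (⌊(b - a) / δ⌋₊ + 1), a + n * δ ∈ Icc a b ∧ a + n * δ ≤ s ∧
      s < a + n * δ + δ := by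
  have h0 : 0 ≤ (s - a) / δ := div_nonneg (sub_nonneg.2 hs.1) hδ.le
  refine ⟨⌊(s - a) / δ⌋₊, ?_, ?_, ?_, ?_⟩
  · rw [Finset.mem_range, Nat.lt_succ_iff]
    exact Nat.floor_mono (div_le_div_of_nonneg_right (by linarith [hs.2]) hδ.le)
  · have h1 : (⌊(s - a) / δ⌋₊ : ℝ) ≤ (s - a) / δ := Nat.floor_le h0
    rw [le_div_iff₀ hδ] at h1
    refine ⟨by nlinarith [Nat.cast_nonneg (α := ℝ) ⌊(s - a) / δ⌋₊], by linarith [hs.2]⟩
  · have h1 : (⌊(s - a) / δ⌋₊ : ℝ) ≤ (s - a) / δ := Nat.floor_le h0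
    rw [le_div_iff₀ hδ] at h1
    linarith
  · have h1 : (s - a) / δ < ⌊(s - a) / δ⌋₊ + 1 := Nat.lt_floor_add_one _
    rw [div_lt_iff₀ hδ] at h1
    linarith









/-- Two ball constraints on `(y, u)` at two different times, sharp form. -/
theorem two_balls_exact (μ : Measure E) [μ.IsAddHaarMeasure] {s s' r r' : ℝ} (hs : s ≠ s')
    (c c' : E) :
    (μ.prod μ) {p : E × E | ‖p.1 + s • p.2 - c‖ ≤ r ∧ ‖p.1 + s' • p.2 - c'‖ ≤ r'} ≤
      μ (closedBall (0 : E) r) * μ (closedBall (0 : E) (r' / |s' - s|)) := by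
  have hne : s' - s ≠ 0 := sub_ne_zero.mpr (Ne.symm hs)
  have hpos : 0 < |s' - s| := abs_pos.mpr hne
  set S : Set (E × E) := {p : E × E | ‖p.1 + s • p.2 - c‖ ≤ r ∧ ‖p.1 + s' • p.2 - c'‖ ≤ r'} with hS
  set S' : Set (E × E) := {p : E × E | ‖p.1 - c‖ ≤ r ∧ ‖p.1 + (s' - s) • p.2 - c'‖ ≤ r'} with hS'
  have hSm : MeasurableSet S := by
    have h1 : IsClosed {p : E × E | ‖p.1 + s • p.2 - c‖ ≤ r} :=
      isClosed_le (by fun_prop) continuous_const
    have h2 : IsClosed {p : E × E | ‖p.1 + s' • p.2 - c'‖ ≤ r'} :=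
      isClosed_le (by fun_prop) continuous_const
    exact (h1.inter h2).measurableSet
  have hSm' : MeasurableSet S' := by
    have h1 : IsClosed {p : E × E | ‖p.1 - c‖ ≤ r} :=
      isClosed_le (by fun_prop) continuous_const
    have h2 : IsClosed {p : E × E | ‖p.1 + (s' - s) • p.2 - c'‖ ≤ r'} :=
      isClosed_le (by fun_prop) continuous_const
    exact (h1.inter h2).measurableSet
  have h1 : (μ.prod μ) S = (μ.prod μ) S' := by
    rw [Measure.prod_apply_symm hSm, Measure.prod_apply_symm hSm']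
    refine lintegral_congr fun u => ?_
    have e : (fun x : E => (x, u)) ⁻¹' S = (fun x => x + s • u) ⁻¹' ((fun x : E => (x, u)) ⁻¹' S') := by
      ext x
      simp only [mem_preimage, hS, hS', mem_ofPred_eq]
      have : x + s • u + (s' - s) • u = x + s' • u := by rw [sub_smul]; abel
      rw [this]
    rw [e, measure_preimage_add_right]
  rw [h1, Measure.prod_apply hSm']
  have hslice : ∀ a : E, μ (Prod.mk a ⁻¹' S') ≤
      (closedBall c r).indicator (fun _ => μ (closedBall (0 : E) (r' / |s' - s|))) a := by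
    intro a
    by_cases ha : a ∈ closedBall c r
    · rw [indicator_of_mem ha]
      have : Prod.mk a ⁻¹' S' ⊆ closedBall ((s' - s)⁻¹ • (c' - a)) (r' / |s' - s|) := by
        intro u hu
        have h2 : ‖a + (s' - s) • u - c'‖ ≤ r' := hu.2
        rw [mem_closedBall, dist_eq_norm, le_div_iff₀ hpos]
        have e : a + (s' - s) • u - c' = (s' - s) • (u - (s' - s)⁻¹ • (c' - a)) := by
          rw [smul_sub, smul_smul, mul_inv_cancel₀ hne, one_smul]; abel
        rw [e, norm_smul, Real.norm_eq_abs] at h2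
        linarith [mul_comm |s' - s| ‖u - (s' - s)⁻¹ • (c' - a)‖]
      refine (measure_mono this).trans ?_
      rw [Measure.addHaar_closedBall_center μ ((s' - s)⁻¹ • (c' - a))]
    · rw [indicator_of_notMem ha]
      have : Prod.mk a ⁻¹' S' = ∅ := by
        ext u
        simp only [mem_preimage, mem_empty_iff_false, iff_false]
        intro hu
        apply ha
        have h2 : ‖a - c‖ ≤ r := hu.1
        rwa [mem_closedBall, dist_eq_norm]
      rw [this, measure_empty]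
  refine (lintegral_mono hslice).trans ?_
  rw [lintegral_indicator_const isClosed_closedBall.measurableSet,
    Measure.addHaar_closedBall_center μ c, mul_comm]

end window

/-- **(E1)** in `ℝ³`. -/
theorem E1 {t t' r r' : ℝ} (ht : t ≠ t') (c c' : Space3) :
    volume {p : Space3 × Space3 | ‖p.1 + t • p.2 - c‖ ≤ r ∧ ‖p.1 + t' • p.2 - c'‖ ≤ r'} ≤
      volume (closedBall (0 : Space3) r) *
        (volume (closedBall (0 : Space3) r') / ENNReal.ofReal (|t' - t| ^ 3)) := by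
  have hne : t' - t ≠ 0 := sub_ne_zero.mpr (Ne.symm ht)
  have hpos : 0 < |t' - t| := abs_pos.mpr hne
  have h := two_balls_exact (volume : Measure Space3) (r := r) (r' := r') ht c c'
  rw [Measure.volume_eq_prod]
  refine h.trans (le_of_eq ?_)
  congr 1
  by_cases hr : 0 ≤ r'
  · have hfin : Module.finrank ℝ Space3 = 3 := by simp
    rw [Measure.addHaar_closedBall volume _ hr, Measure.addHaar_closedBall volume _ (by positivity),
      hfin, div_pow, ENNReal.ofReal_div_of_pos (by positivity)]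
    rw [ENNReal.div_eq_inv_mul, ENNReal.div_eq_inv_mul, mul_assoc]
  · have hr' : r' < 0 := not_le.1 hr
    rw [closedBall_eq_empty.2 hr', closedBall_eq_empty.2 (div_neg_of_neg_of_pos hr' hpos)]
    simp

/-! ### Isotropic laws -/

/-- Two vectors of the same norm are exchanged by a linear isometry. -/
theorem exists_isometry {x y : Space3} (h : ‖x‖ = ‖y‖) : ∃ R : Space3 ≃ₗᵢ[ℝ] Space3, R x = y := by
  refine ⟨(ℝ ∙ (x - y))ᗮ.reflection, ?_⟩
  exact Submodule.reflection_sub h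

/-- Isotropic measures. -/
def Iso (ν : Measure Space3) : Prop := ∀ R : Space3 ≃ₗᵢ[ℝ] Space3, ν.map R = ν

theorem iso_closedBall {ν : Measure Space3} (h : Iso ν) (R : Space3 ≃ₗᵢ[ℝ] Space3) (c : Space3)
    (ρ : ℝ) : ν (closedBall (R c) ρ) = ν (closedBall c ρ) := by
  conv_lhs => rw [← h R]
  rw [Measure.map_apply R.continuous.measurable isClosed_closedBall.measurableSet]
  congr 1
  ext x
  simp only [mem_preimage, mem_closedBall, R.dist_map]

/-- Balls away from the origin have small mass for isotropic laws. -/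
theorem iso_ball_le {ν : Measure Space3} [IsFiniteMeasure ν] (h : Iso ν) {c : Space3} {ρ : ℝ}
    (hρ : 0 < ρ) (hc : ρ ≤ ‖c‖) :
    ν (closedBall c ρ) ≤ ENNReal.ofReal (4 / 3 * (ρ / ‖c‖) ^ 2) * ν univ := by
  set t := ‖c‖ with ht
  have htpos : 0 < t := hρ.trans_le hc
  have hcne : c ≠ 0 := norm_pos_iff.1 htpos
  set κ : ℝ≥0∞ := volume (ball (0 : Space3) 1) with hκ
  have hκ0 : κ ≠ 0 := (measure_ball_pos volume (0 : Space3) one_pos).ne'
  have hκt : κ ≠ ⊤ := measure_ball_lt_top.ne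
  have hfin : Module.finrank ℝ Space3 = 3 := by simp
  -- the shell
  set Sh : Set Space3 := closedBall 0 (t + ρ) \ ball 0 (t - ρ) with hSh
  have hShm : MeasurableSet Sh := measurableSet_closedBall.diff measurableSet_ball
  have hSh_vol : κ * ENNReal.ofReal (6 * t ^ 2 * ρ) ≤ volume Sh := by
    have h1 : volume (closedBall (0 : Space3) (t + ρ)) = ENNReal.ofReal ((t + ρ) ^ 3) * κ := by
      rw [Measure.addHaar_closedBall volume _ (by positivity), hfin]
    have h2 : volume (ball (0 : Space3) (t - ρ)) = ENNReal.ofReal ((t - ρ) ^ 3) * κ := by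
      rw [Measure.addHaar_ball volume _ (by linarith), hfin]
    have h3 : volume Sh = volume (closedBall (0 : Space3) (t + ρ)) -
        volume (ball (0 : Space3) (t - ρ)) := by
      rw [hSh]
      refine measure_sdiff ?_ measurableSet_ball.nullMeasurableSet measure_ball_lt_top.ne
      exact (ball_subset_closedBall).trans (closedBall_subset_closedBall (by linarith))
    rw [h3, h1, h2, ← ENNReal.sub_mul (fun _ _ => hκt), ← ENNReal.ofReal_sub _ (by
      have : 0 ≤ t - ρ := by linarith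
      positivity), mul_comm]
    gcongr
    nlinarith [pow_pos hρ 3]
  have hx : ∀ x ∈ Sh, ν (closedBall c ρ) ≤ ν (closedBall x (2 * ρ)) := by
    intro x hx
    have hx1 : ‖x‖ ≤ t + ρ := by simpa using hx.1
    have hx2 : t - ρ ≤ ‖x‖ := by
      have := hx.2
      simp only [mem_ball, dist_zero_right, not_lt] at this
      exact this
    -- the point on the ray of `c` with the norm of `x`
    have hn : ‖(‖x‖ / t) • c‖ = ‖x‖ := by
      rw [norm_smul, Real.norm_eq_abs, abs_of_nonneg (by positivity), ← ht]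
      field_simp
    obtain ⟨R, hR⟩ := exists_isometry hn
    rw [← hR, iso_closedBall h]
    refine measure_mono ?_
    refine closedBall_subset_closedBall' ?_
    have : dist c ((‖x‖ / t) • c) = |t - ‖x‖| := by
      rw [dist_eq_norm]
      have e : c - (‖x‖ / t) • c = ((t - ‖x‖) / t) • c := by
        rw [sub_div, div_self htpos.ne', sub_smul, one_smul]
      rw [e, norm_smul, Real.norm_eq_abs, abs_div, abs_of_pos htpos, ← ht]
      field_simp
    rw [this]
    have : |t - ‖x‖| ≤ ρ := by rw [abs_le]; constructor <;> linarith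
    linarith
  have hmeas : Measurable fun x : Space3 => ν (closedBall x (2 * ρ)) := by
    have hs : MeasurableSet {p : Space3 × Space3 | dist p.2 p.1 ≤ 2 * ρ} :=
      (isClosed_le (by fun_prop) continuous_const).measurableSet
    exact measurable_measure_prodMk_left hs
  have hint : ∫⁻ x : Space3, ν (closedBall x (2 * ρ)) =
      ν univ * (ENNReal.ofReal (8 * ρ ^ 3) * κ) := by
    have hs : MeasurableSet {p : Space3 × Space3 | dist p.2 p.1 ≤ 2 * ρ} :=
      (isClosed_le (by fun_prop) continuous_const).measurableSet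
    have h1 : ∫⁻ x : Space3, ν (closedBall x (2 * ρ)) =
        ((volume : Measure Space3).prod ν) {p : Space3 × Space3 | dist p.2 p.1 ≤ 2 * ρ} := by
      rw [Measure.prod_apply hs]; rfl
    rw [h1, Measure.prod_apply_symm hs]
    have h2 : ∀ y : Space3, volume ((fun x : Space3 => (x, y)) ⁻¹'
        {p : Space3 × Space3 | dist p.2 p.1 ≤ 2 * ρ}) = ENNReal.ofReal (8 * ρ ^ 3) * κ := by
      intro y
      have e : (fun x : Space3 => (x, y)) ⁻¹' {p : Space3 × Space3 | dist p.2 p.1 ≤ 2 * ρ} =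
          closedBall y (2 * ρ) := by
        ext x
        simp only [mem_preimage, mem_ofPred_eq, mem_closedBall, dist_comm]
      rw [e, Measure.addHaar_closedBall volume _ (by positivity), hfin]
      congr 2
      ring
    rw [lintegral_congr h2, lintegral_const, mul_comm]
  have hmain : ν (closedBall c ρ) * (κ * ENNReal.ofReal (6 * t ^ 2 * ρ)) ≤
      ν univ * (ENNReal.ofReal (8 * ρ ^ 3) * κ) := by
    calc ν (closedBall c ρ) * (κ * ENNReal.ofReal (6 * t ^ 2 * ρ))
        ≤ ν (closedBall c ρ) * volume Sh := by gcongr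
      _ = ∫⁻ _ in Sh, ν (closedBall c ρ) := by rw [setLIntegral_const]
      _ ≤ ∫⁻ x in Sh, ν (closedBall x (2 * ρ)) := setLIntegral_mono hmeas hx
      _ ≤ ∫⁻ x : Space3, ν (closedBall x (2 * ρ)) := setLIntegral_le_lintegral _ _
      _ = _ := hint
  have h6 : 0 < 6 * t ^ 2 * ρ := by positivity
  have hfinal : ν (closedBall c ρ) * ENNReal.ofReal (6 * t ^ 2 * ρ) ≤
      ν univ * ENNReal.ofReal (8 * ρ ^ 3) := by
    have h7 : κ * (ν (closedBall c ρ) * ENNReal.ofReal (6 * t ^ 2 * ρ)) ≤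
        κ * (ν univ * ENNReal.ofReal (8 * ρ ^ 3)) := by
      calc κ * (ν (closedBall c ρ) * ENNReal.ofReal (6 * t ^ 2 * ρ))
          = ν (closedBall c ρ) * (κ * ENNReal.ofReal (6 * t ^ 2 * ρ)) := by ring
        _ ≤ ν univ * (ENNReal.ofReal (8 * ρ ^ 3) * κ) := hmain
        _ = _ := by ring
    exact (ENNReal.mul_le_mul_iff_right hκ0 hκt).1 h7
  have h8 : ν (closedBall c ρ) ≤ ν univ * ENNReal.ofReal (8 * ρ ^ 3) / ENNReal.ofReal (6 * t ^ 2 * ρ) := by
    rw [ENNReal.le_div_iff_mul_le (Or.inl (by positivity)) (Or.inl ENNReal.ofReal_ne_top)]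
    exact hfinal
  refine h8.trans (le_of_eq ?_)
  rw [mul_div_assoc, ← ENNReal.ofReal_div_of_pos h6, mul_comm]
  congr 2
  field_simp
  norm_num

/-- Neighbourhoods of Lipschitz curves have small mass away from the origin for isotropic laws. -/
theorem iso_curve_le {ν : Measure Space3} [IsFiniteMeasure ν] (h : Iso ν) {κ ρ L a b : ℝ}
    (hρ : 0 < ρ) (hκ : 4 * ρ ≤ κ) (hL : 0 ≤ L) (hab : a ≤ b) {c : ℝ → Space3}
    (hc : ∀ s ∈ Icc a b, ∀ t ∈ Icc a b, ‖c s - c t‖ ≤ L * |s - t|) :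
    ν {x | κ ≤ ‖x‖ ∧ ∃ s ∈ Icc a b, ‖x - c s‖ ≤ ρ} ≤
      ENNReal.ofReal (((b - a) * (L + 1) / ρ + 1) * (64 / 3 * (ρ / κ) ^ 2)) * ν univ := by
  have hκpos : 0 < κ := by linarith
  set δ := ρ / (L + 1) with hδ
  have hL1 : 0 < L + 1 := by linarith
  have hδpos : 0 < δ := div_pos hρ hL1
  have hLδ : L * δ ≤ ρ := by
    rw [hδ, mul_div_assoc', div_le_iff₀ hL1]; nlinarith
  set N := ⌊(b - a) / δ⌋₊ + 1 with hN
  have hsub : {x | κ ≤ ‖x‖ ∧ ∃ s ∈ Icc a b, ‖x - c s‖ ≤ ρ} ⊆
      ⋃ n ∈ Finset.range N, {x | κ / 2 ≤ ‖c (a + n * δ)‖ ∧ x ∈ closedBall (c (a + n * δ)) (2 * ρ)} := by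
    rintro x ⟨hx, s, hs, hxs⟩
    obtain ⟨n, hn, htI, ht1, ht2⟩ := grid_exists hδpos hs
    simp only [mem_iUnion, exists_prop]
    have hst : |s - (a + n * δ)| ≤ δ := by rw [abs_le]; constructor <;> linarith
    have h1 : ‖x - c (a + n * δ)‖ ≤ 2 * ρ := by
      calc ‖x - c (a + n * δ)‖ = ‖(x - c s) + (c s - c (a + n * δ))‖ := by congr 1; abel
        _ ≤ ‖x - c s‖ + ‖c s - c (a + n * δ)‖ := norm_add_le _ _
        _ ≤ ρ + L * δ := add_le_add hxs ((hc s hs _ htI).trans (by gcongr))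
        _ ≤ 2 * ρ := by linarith
    refine ⟨n, hn, ?_, ?_⟩
    · have h2 : ‖x‖ ≤ ‖x - c (a + n * δ)‖ + ‖c (a + n * δ)‖ := by
        calc ‖x‖ = ‖(x - c (a + n * δ)) + c (a + n * δ)‖ := by congr 1; abel
          _ ≤ _ := norm_add_le _ _
      linarith
    · rw [mem_closedBall, dist_eq_norm]; exact h1
  have hbd : ∀ n ∈ Finset.range N, ν {x | κ / 2 ≤ ‖c (a + n * δ)‖ ∧
      x ∈ closedBall (c (a + n * δ)) (2 * ρ)} ≤ ENNReal.ofReal (64 / 3 * (ρ / κ) ^ 2) * ν univ := by
    intro n _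
    by_cases hn : κ / 2 ≤ ‖c (a + n * δ)‖
    · calc ν {x | κ / 2 ≤ ‖c (a + n * δ)‖ ∧ x ∈ closedBall (c (a + n * δ)) (2 * ρ)}
          ≤ ν (closedBall (c (a + n * δ)) (2 * ρ)) := measure_mono fun x hx => hx.2
        _ ≤ ENNReal.ofReal (4 / 3 * (2 * ρ / ‖c (a + n * δ)‖) ^ 2) * ν univ :=
            iso_ball_le h (by linarith) (by linarith)
        _ ≤ ENNReal.ofReal (64 / 3 * (ρ / κ) ^ 2) * ν univ := by
            refine mul_le_mul' (ENNReal.ofReal_le_ofReal ?_) le_rfl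
            have h1 : 2 * ρ / ‖c (a + n * δ)‖ ≤ 4 * (ρ / κ) := by
              have e : 4 * (ρ / κ) = 4 * ρ / κ := by ring
              rw [e, div_le_div_iff₀ (by linarith) hκpos]
              nlinarith
            have h0 : 0 ≤ 2 * ρ / ‖c (a + n * δ)‖ := by positivity
            nlinarith
    · have : {x | κ / 2 ≤ ‖c (a + n * δ)‖ ∧ x ∈ closedBall (c (a + n * δ)) (2 * ρ)} = ∅ := by
        ext x
        simp only [mem_ofPred_eq, mem_empty_iff_false, iff_false]
        exact fun h => hn h.1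
      rw [this, measure_empty]; exact bot_le
  calc ν {x | κ ≤ ‖x‖ ∧ ∃ s ∈ Icc a b, ‖x - c s‖ ≤ ρ}
      ≤ ∑ n ∈ Finset.range N, ν {x | κ / 2 ≤ ‖c (a + n * δ)‖ ∧
          x ∈ closedBall (c (a + n * δ)) (2 * ρ)} :=
        (measure_mono hsub).trans (measure_biUnion_finset_le _ _)
    _ ≤ ∑ n ∈ Finset.range N, ENNReal.ofReal (64 / 3 * (ρ / κ) ^ 2) * ν univ :=
        Finset.sum_le_sum hbd
    _ = (N : ℝ≥0∞) * ENNReal.ofReal (64 / 3 * (ρ / κ) ^ 2) * ν univ := by
        rw [Finset.sum_const, Finset.card_range, nsmul_eq_mul, mul_assoc]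
    _ ≤ _ := by
        gcongr
        have h1 : (N : ℝ≥0∞) = ENNReal.ofReal (N : ℝ) := (ENNReal.ofReal_natCast N).symm
        rw [h1, ← ENNReal.ofReal_mul (Nat.cast_nonneg _)]
        apply ENNReal.ofReal_le_ofReal
        gcongr
        rw [hN]
        push_cast
        have h2 : (⌊(b - a) / δ⌋₊ : ℝ) ≤ (b - a) / δ :=
          Nat.floor_le (div_nonneg (by linarith) hδpos.le)
        have h3 : (b - a) / δ = (b - a) * (L + 1) / ρ := by
          rw [hδ, div_div_eq_mul_div]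
        linarith

/-- **Isotropic laws do not charge thin neighbourhoods of Lipschitz curves**, apart from an atom at
the origin. -/
theorem iso_small {ν : Measure Space3} [IsFiniteMeasure ν] (h : Iso ν) {θ : ℝ≥0∞} (hθ : θ ≠ 0)
    (L T : ℝ) (hL : 0 ≤ L) :
    ∃ ρ₀ : ℝ, 0 < ρ₀ ∧ ∀ (a b : ℝ) (c : ℝ → Space3), b - a ≤ T →
      (∀ s ∈ Icc a b, ∀ t ∈ Icc a b, ‖c s - c t‖ ≤ L * |s - t|) →
      ν {x | x ≠ 0 ∧ ∃ s ∈ Icc a b, ‖x - c s‖ ≤ ρ₀} ≤ θ := by
  -- small vectors
  have hθ2 : θ / 2 ≠ 0 := (ENNReal.half_pos hθ).ne'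
  obtain ⟨κ, hκ, hsmall⟩ : ∃ κ : ℝ, 0 < κ ∧ ν {x | x ≠ 0 ∧ ‖x‖ < κ} ≤ θ / 2 := by
    have hanti : Antitone fun n : ℕ => {x : Space3 | x ≠ 0 ∧ ‖x‖ < 1 / ((n : ℝ) + 1)} := by
      intro n m hnm x hx
      refine ⟨hx.1, hx.2.trans_le ?_⟩
      exact one_div_le_one_div_of_le (by positivity) (by simpa using hnm)
    have hinter : (⋂ n : ℕ, {x : Space3 | x ≠ 0 ∧ ‖x‖ < 1 / ((n : ℝ) + 1)}) = ∅ := by
      ext x
      simp only [mem_iInter, mem_ofPred_eq, mem_empty_iff_false, iff_false, not_forall]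
      by_cases hx : x = 0
      · exact ⟨0, fun h => h.1 hx⟩
      · obtain ⟨n, hn⟩ := exists_nat_one_div_lt (norm_pos_iff.2 hx)
        exact ⟨n, fun h => absurd h.2 (not_lt.2 hn.le)⟩
    have hlim := tendsto_measure_iInter_atTop (μ := ν)
      (s := fun n : ℕ => {x : Space3 | x ≠ 0 ∧ ‖x‖ < 1 / ((n : ℝ) + 1)})
      (fun n => ((measurableSet_singleton (0 : Space3)).compl.inter
        (isOpen_lt continuous_norm continuous_const).measurableSet).nullMeasurableSet) hanti
      ⟨0, measure_ne_top ν _⟩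
    rw [hinter, measure_empty] at hlim
    obtain ⟨n, hn⟩ := ((tendsto_order.1 hlim).2 (θ / 2) (pos_iff_ne_zero.2 hθ2)).exists
    exact ⟨1 / ((n : ℝ) + 1), by positivity, hn.le⟩
  -- the curve part
  have hlim : Tendsto (fun ρ : ℝ => ENNReal.ofReal ((T * (L + 1) / ρ + 1) *
      (64 / 3 * (ρ / κ) ^ 2)) * ν univ) (𝓝[>] 0) (𝓝 0) := by
    have h1 : Tendsto (fun ρ : ℝ => (T * (L + 1) * ρ + ρ ^ 2) * (64 / 3 / κ ^ 2)) (𝓝[>] 0) (𝓝 0) := by
      have : Tendsto (fun ρ : ℝ => (T * (L + 1) * ρ + ρ ^ 2) * (64 / 3 / κ ^ 2)) (𝓝 0)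
          (𝓝 ((T * (L + 1) * 0 + 0 ^ 2) * (64 / 3 / κ ^ 2))) :=
        (Continuous.tendsto (by fun_prop) 0)
      simp only [mul_zero, ne_eq, OfNat.ofNat_ne_zero, not_false_eq_true, zero_pow, add_zero,
        zero_mul] at this
      exact this.mono_left nhdsWithin_le_nhds
    have h2 : Tendsto (fun ρ : ℝ => (T * (L + 1) / ρ + 1) * (64 / 3 * (ρ / κ) ^ 2)) (𝓝[>] 0)
        (𝓝 0) := by
      refine h1.congr' ?_
      filter_upwards [self_mem_nhdsWithin] with ρ hρ
      have hρ' : ρ ≠ 0 := ne_of_gt hρ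
      field_simp
    have h3 := (ENNReal.tendsto_ofReal h2)
    rw [ENNReal.ofReal_zero] at h3
    have h4 := ENNReal.Tendsto.mul_const h3 (b := ν univ) (Or.inr (measure_ne_top ν _))
    rwa [zero_mul] at h4
  have hev := (tendsto_order.1 hlim).2 (θ / 2) (pos_iff_ne_zero.2 hθ2)
  have hev2 : ∀ᶠ ρ : ℝ in 𝓝[>] 0, 4 * ρ ≤ κ := by
    have : Tendsto (fun ρ : ℝ => 4 * ρ) (𝓝[>] 0) (𝓝 0) := by
      have : Tendsto (fun ρ : ℝ => 4 * ρ) (𝓝 0) (𝓝 (4 * 0)) := (Continuous.tendsto (by fun_prop) 0)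
      rw [mul_zero] at this
      exact this.mono_left nhdsWithin_le_nhds
    filter_upwards [(tendsto_order.1 this).2 κ hκ] with ρ hρ using hρ.le
  obtain ⟨ρ, hρ1, hρ2, hρ0⟩ := (hev.and (hev2.and self_mem_nhdsWithin)).exists
  refine ⟨ρ, hρ0, ?_⟩
  intro a b c hab hc
  by_cases hle : a ≤ b
  · have hsub : {x | x ≠ 0 ∧ ∃ s ∈ Icc a b, ‖x - c s‖ ≤ ρ} ⊆
        {x | x ≠ 0 ∧ ‖x‖ < κ} ∪ {x | κ ≤ ‖x‖ ∧ ∃ s ∈ Icc a b, ‖x - c s‖ ≤ ρ} := by
      rintro x ⟨hx0, hx⟩
      by_cases hxκ : ‖x‖ < κ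
      · exact Or.inl ⟨hx0, hxκ⟩
      · exact Or.inr ⟨not_lt.1 hxκ, hx⟩
    calc ν {x | x ≠ 0 ∧ ∃ s ∈ Icc a b, ‖x - c s‖ ≤ ρ}
        ≤ ν {x | x ≠ 0 ∧ ‖x‖ < κ} + ν {x | κ ≤ ‖x‖ ∧ ∃ s ∈ Icc a b, ‖x - c s‖ ≤ ρ} :=
          (measure_mono hsub).trans (measure_union_le _ _)
      _ ≤ θ / 2 + θ / 2 := by
          refine add_le_add hsmall ((iso_curve_le h hρ0 hρ2 hL hle hc).trans (le_trans ?_ hρ1.le))
          gcongr
      _ = θ := ENNReal.add_halves θ
  · have : {x | x ≠ 0 ∧ ∃ s ∈ Icc a b, ‖x - c s‖ ≤ ρ} = (∅ : Set Space3) := by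
      ext x
      simp only [mem_ofPred_eq, mem_empty_iff_false, iff_false]
      rintro ⟨_, s, hs, _⟩
      exact hle (hs.1.trans hs.2)
    rw [this, measure_empty]; exact bot_le

/-! ### The scaled two-body problem -/

open Scat818

/-- State at scaled time `R` of the relative motion whose incoming line is `z` (position at scaled
time `0`, velocity). -/
noncomputable def rel0 (Φ : Space3 → ℝ) (R : ℝ) (z : Space3 × Space3) : Space3 × Space3 :=
  relFlow Φ (2 * R) (z.1 - R • z.2, z.2)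

/-- Not yet entered at scaled time `-R` and exited at scaled time `R`. -/
def Exi (Φ : Space3 → ℝ) (R : ℝ) (z : Space3 × Space3) : Prop :=
  1 ≤ ‖z.1 - R • z.2‖ ∧ inner ℝ (z.1 - R • z.2) z.2 ≤ 0 ∧ 1 ≤ ‖(rel0 Φ R z).1‖ ∧
    0 ≤ inner ℝ (rel0 Φ R z).1 (rel0 Φ R z).2

/-- Bounded scaled states. -/
def box (C V : ℝ) : Set (Space3 × Space3) := closedBall 0 C ×ˢ closedBall 0 V

end Crest.Agent.R122.VLcore564
end

-- ▼ part R122/VLwin_564
section

/-!
# Row 122, block VL: the scaled two-body problem (helper564)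

* `rel0_isometry`, `exi_isometry`, `norm_rel0`: equivariance and energy;
* `exi_mono`, `trapped_small` (T): the trapped part of a box is small;
* `law_small_ball` (I1), `law_small_curve` (I2): laws of the outgoing velocities.
-/

set_option autoImplicit false
set_option linter.unusedSectionVars false
open MeasureTheory Metric Set Filter
open scoped ENNReal NNReal Topology
open Crest.AnalysisR.Kinetic

noncomputable section

namespace Crest.Agent.R122.VLcore564

open Scat818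

variable {Φ : Space3 → ℝ}

/-! ### Equivariance, energy, measurability -/

theorem rel0_isometry (hΦ : AdmissiblePotential Φ) (U : Space3 ≃ₗᵢ[ℝ] Space3) {R : ℝ}
    {z : Space3 × Space3} (hz : 1 ≤ ‖z.1 - R • z.2‖) :
    rel0 Φ R (U z.1, U z.2) = (U (rel0 Φ R z).1, U (rel0 Φ R z).2) := by
  have hreg : Reg Φ (z.1 - R • z.2) := reg_of_norm_pos (by linarith)
  have h := relFlow_isometry hΦ U (z := (z.1 - R • z.2, z.2)) hreg (2 * R)
  unfold rel0
  have e : ((U z.1, U z.2) : Space3 × Space3).1 - R • ((U z.1, U z.2) : Space3 × Space3).2 =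
      U (z.1 - R • z.2) := by
    simp only [map_sub, map_smul]
  rw [e]
  exact h

theorem exi_isometry (hΦ : AdmissiblePotential Φ) (U : Space3 ≃ₗᵢ[ℝ] Space3) {R : ℝ}
    (z : Space3 × Space3) : Exi Φ R (U z.1, U z.2) ↔ Exi Φ R z := by
  have e : ((U z.1, U z.2) : Space3 × Space3).1 - R • ((U z.1, U z.2) : Space3 × Space3).2 =
      U (z.1 - R • z.2) := by
    simp only [map_sub, map_smul]
  unfold Exi
  rw [e]
  simp only [U.norm_map, U.inner_map_map]
  constructor
  · rintro ⟨h1, h2, h3, h4⟩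
    rw [rel0_isometry hΦ U h1] at h3 h4
    simp only [U.norm_map, U.inner_map_map] at h3 h4
    exact ⟨h1, h2, h3, h4⟩
  · rintro ⟨h1, h2, h3, h4⟩
    rw [rel0_isometry hΦ U h1]
    simp only [U.norm_map, U.inner_map_map]
    exact ⟨h1, h2, h3, h4⟩

theorem norm_rel0 (hΦ : AdmissiblePotential Φ) {R : ℝ} {z : Space3 × Space3} (hz : Exi Φ R z) :
    ‖(rel0 Φ R z).2‖ = ‖z.2‖ := by
  have hreg : Reg Φ (z.1 - R • z.2) := reg_of_norm_pos (by linarith [hz.1])
  have h := en_relFlow hΦ (z := (z.1 - R • z.2, z.2)) hreg (2 * R)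
  have h1 : Φ (rel0 Φ R z).1 = 0 := hΦ.eq_zero_of_one_le_norm _ hz.2.2.1
  have h2 : Φ (z.1 - R • z.2) = 0 := hΦ.eq_zero_of_one_le_norm _ hz.1
  unfold en at h
  have h3 : ‖(rel0 Φ R z).2‖ ^ 2 = ‖z.2‖ ^ 2 := by
    have h' : ‖(rel0 Φ R z).2‖ ^ 2 + 4 * Φ (rel0 Φ R z).1 = ‖z.2‖ ^ 2 + 4 * Φ (z.1 - R • z.2) := h
    rw [h1, h2] at h'
    linarith
  exact (sq_eq_sq₀ (norm_nonneg _) (norm_nonneg _)).1 h3

theorem measurable_rel0 (hΦ : AdmissiblePotential Φ) (R : ℝ) : Measurable (rel0 Φ R) := by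
  unfold rel0
  exact (measurable_relFlow hΦ (2 * R)).comp (by fun_prop)

theorem measurableSet_exi (hΦ : AdmissiblePotential Φ) (R : ℝ) : MeasurableSet {z | Exi Φ R z} := by
  have hr := measurable_rel0 hΦ R
  have h1 : MeasurableSet {z : Space3 × Space3 | 1 ≤ ‖z.1 - R • z.2‖} :=
    measurableSet_le measurable_const (by fun_prop)
  have h2 : MeasurableSet {z : Space3 × Space3 | inner ℝ (z.1 - R • z.2) z.2 ≤ 0} :=
    measurableSet_le (by fun_prop) measurable_const
  have h3 : MeasurableSet {z : Space3 × Space3 | 1 ≤ ‖(rel0 Φ R z).1‖} :=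
    measurableSet_le measurable_const hr.fst.norm
  have h4 : MeasurableSet {z : Space3 × Space3 | 0 ≤ inner ℝ (rel0 Φ R z).1 (rel0 Φ R z).2} :=
    measurableSet_le measurable_const (hr.fst.inner hr.snd)
  exact h1.inter (h2.inter (h3.inter h4))

theorem measurableSet_box (C V : ℝ) : MeasurableSet (box C V) :=
  measurableSet_closedBall.prod measurableSet_closedBall

theorem box_isometry (U : Space3 ≃ₗᵢ[ℝ] Space3) (C V : ℝ) (z : Space3 × Space3) :
    ((U z.1, U z.2) : Space3 × Space3) ∈ box C V ↔ z ∈ box C V := by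
  simp only [box, mem_prod, mem_closedBall, dist_zero_right, U.norm_map]

theorem volume_box_ne_top (C V : ℝ) : volume (box C V) ≠ ⊤ := by
  unfold box
  rw [Measure.volume_eq_prod, Measure.prod_prod]
  exact ENNReal.mul_ne_top measure_closedBall_lt_top.ne measure_closedBall_lt_top.ne

/-- The good part of a box. -/
def gbox (Φ : Space3 → ℝ) (R C V : ℝ) : Set (Space3 × Space3) := box C V ∩ {z | Exi Φ R z}

theorem measurableSet_gbox (hΦ : AdmissiblePotential Φ) (R C V : ℝ) :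
    MeasurableSet (gbox Φ R C V) := (measurableSet_box C V).inter (measurableSet_exi hΦ R)

/-! ### Laws -/

theorem measurePreserving_isoPair (U : Space3 ≃ₗᵢ[ℝ] Space3) :
    MeasurePreserving (fun z : Space3 × Space3 => (U z.1, U z.2)) volume volume := by
  have h := (U.measurePreserving).prod (U.measurePreserving)
  exact h

/-- The law of an equivariant function on an invariant set is isotropic. -/
theorem iso_law {G : Set (Space3 × Space3)} (hG : MeasurableSet G)
    (hGU : ∀ (U : Space3 ≃ₗᵢ[ℝ] Space3) (z : Space3 × Space3),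
      ((U z.1, U z.2) : Space3 × Space3) ∈ G ↔ z ∈ G)
    {W : Space3 × Space3 → Space3} (hW : Measurable W)
    (hWU : ∀ (U : Space3 ≃ₗᵢ[ℝ] Space3), ∀ z ∈ G, W (U z.1, U z.2) = U (W z)) :
    Iso ((volume.restrict G).map W) := by
  intro U
  have hUm : Measurable fun z : Space3 × Space3 => (U z.1, U z.2) :=
    (measurePreserving_isoPair U).measurable
  have hpre : (fun z : Space3 × Space3 => (U z.1, U z.2)) ⁻¹' G = G := by
    ext z; exact hGU U z
  have h1 : (volume.restrict G).map (fun z : Space3 × Space3 => (U z.1, U z.2)) =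
      volume.restrict G := by
    have := (measurePreserving_isoPair U).restrict_preimage hG
    rw [hpre] at this
    exact this.map_eq
  rw [Measure.map_map U.continuous.measurable hW]
  conv_rhs => rw [← h1]
  rw [Measure.map_map hW hUm]
  refine Measure.map_congr ?_
  filter_upwards [ae_restrict_mem hG] with z hz
  exact (hWU U z hz).symm

/-- From sets in the space of values to sets in phase space. -/
theorem law_le {G : Set (Space3 × Space3)} (hG : MeasurableSet G)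
    {W : Space3 × Space3 → Space3} (hW : Measurable W) (A : Set Space3) :
    volume (G ∩ {z | W z ∈ A}) ≤ ((volume.restrict G).map W) A := by
  refine le_trans ?_ (Measure.le_map_apply hW.aemeasurable A)
  rw [inter_comm]
  exact Measure.le_restrict_apply G (W ⁻¹' A)

/-- **(I1)**, abstract form. -/
theorem law_small_ball {G : Set (Space3 × Space3)} (hG : MeasurableSet G) (hfin : volume G ≠ ⊤)
    (hGU : ∀ (U : Space3 ≃ₗᵢ[ℝ] Space3) (z : Space3 × Space3),
      ((U z.1, U z.2) : Space3 × Space3) ∈ G ↔ z ∈ G)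
    {W : Space3 × Space3 → Space3} (hW : Measurable W)
    (hWU : ∀ (U : Space3 ≃ₗᵢ[ℝ] Space3), ∀ z ∈ G, W (U z.1, U z.2) = U (W z))
    {δ : ℝ} (hδ : 0 < δ) :
    ∃ r : ℝ, 0 < r ∧ ∀ a : Space3,
      volume (G ∩ {z | W z ≠ 0 ∧ ‖W z - a‖ ≤ r}) ≤ ENNReal.ofReal δ := by
  have hfm : IsFiniteMeasure (volume.restrict G) := ⟨by
    rw [Measure.restrict_apply_univ]; exact lt_top_iff_ne_top.2 hfin⟩
  have hfm2 : IsFiniteMeasure ((volume.restrict G).map W) := Measure.isFiniteMeasure_map _ _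
  obtain ⟨r, hr, h⟩ := iso_small (iso_law hG hGU hW hWU) (θ := ENNReal.ofReal δ)
    (by simpa using hδ) 0 0 le_rfl
  refine ⟨r, hr, fun a => ?_⟩
  have h1 := h 0 0 (fun _ => a) (by simp) (by simp)
  refine (le_trans ?_ (law_le hG hW _)).trans h1
  refine measure_mono ?_
  rintro z ⟨hz, hz0, hz1⟩
  exact ⟨hz, hz0, 0, ⟨le_rfl, le_rfl⟩, hz1⟩

/-- **(I2)**, abstract form. -/
theorem law_small_curve {G : Set (Space3 × Space3)} (hG : MeasurableSet G) (hfin : volume G ≠ ⊤)
    (hGU : ∀ (U : Space3 ≃ₗᵢ[ℝ] Space3) (z : Space3 × Space3),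
      ((U z.1, U z.2) : Space3 × Space3) ∈ G ↔ z ∈ G)
    {W : Space3 × Space3 → Space3} (hW : Measurable W)
    (hWU : ∀ (U : Space3 ≃ₗᵢ[ℝ] Space3), ∀ z ∈ G, W (U z.1, U z.2) = U (W z))
    {V : ℝ} (hWV : ∀ z ∈ G, ‖W z‖ ≤ V) {δ L T η : ℝ} (hδ : 0 < δ) (hL : 0 ≤ L) (hη : 0 < η) :
    ∃ r : ℝ, 0 < r ∧ ∀ c : ℝ → Space3,
      (∀ s ∈ Icc 0 T, ∀ t ∈ Icc 0 T, ‖c s - c t‖ ≤ L * |s - t|) →
      volume (G ∩ {z | W z ≠ 0 ∧ ∃ s ∈ Icc η T, ‖c s - s • W z‖ ≤ r}) ≤ ENNReal.ofReal δ := by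
  by_cases hTη : T < η
  · refine ⟨1, one_pos, fun c _ => ?_⟩
    have : G ∩ {z | W z ≠ 0 ∧ ∃ s ∈ Icc η T, ‖c s - s • W z‖ ≤ 1} = ∅ := by
      ext z
      simp only [mem_inter_iff, mem_ofPred_eq, mem_empty_iff_false, iff_false]
      rintro ⟨_, _, s, hs, _⟩
      linarith [hs.1, hs.2]
    rw [this, measure_empty]; exact bot_le
  push Not at hTη
  have hT : 0 < T := hη.trans_le hTη
  by_cases hV : V < 0
  · refine ⟨1, one_pos, fun c _ => ?_⟩
    have : G ∩ {z | W z ≠ 0 ∧ ∃ s ∈ Icc η T, ‖c s - s • W z‖ ≤ 1} = ∅ := by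
      ext z
      simp only [mem_inter_iff, mem_ofPred_eq, mem_empty_iff_false, iff_false]
      rintro ⟨hz, _⟩
      linarith [hWV z hz, norm_nonneg (W z)]
    rw [this, measure_empty]; exact bot_le
  push Not at hV
  have hfm : IsFiniteMeasure (volume.restrict G) := ⟨by
    rw [Measure.restrict_apply_univ]; exact lt_top_iff_ne_top.2 hfin⟩
  have hfm2 : IsFiniteMeasure ((volume.restrict G).map W) := Measure.isFiniteMeasure_map _ _
  set M : ℝ := 1 + T * V + L * T with hM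
  have hM0 : 0 ≤ M := by positivity
  set L' : ℝ := L / η + M / η ^ 2 with hL'
  have hL'0 : 0 ≤ L' := by positivity
  obtain ⟨r, hr, h⟩ := iso_small (iso_law hG hGU hW hWU) (θ := ENNReal.ofReal δ)
    (by simpa using hδ) L' T hL'0
  refine ⟨min 1 (r * η), lt_min one_pos (by positivity), fun c hc => ?_⟩
  by_cases hne : (G ∩ {z | W z ≠ 0 ∧ ∃ s ∈ Icc η T, ‖c s - s • W z‖ ≤ min 1 (r * η)}).Nonempty
  · obtain ⟨z₀, hz₀, _, s₀, hs₀, hcs₀⟩ := hne
    have hs₀' : s₀ ∈ Icc 0 T := ⟨hη.le.trans hs₀.1, hs₀.2⟩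
    have hb₀ : ‖c s₀‖ ≤ 1 + T * V := by
      calc ‖c s₀‖ = ‖(c s₀ - s₀ • W z₀) + s₀ • W z₀‖ := by congr 1; abel
        _ ≤ ‖c s₀ - s₀ • W z₀‖ + ‖s₀ • W z₀‖ := norm_add_le _ _
        _ ≤ 1 + T * V := by
          refine add_le_add (hcs₀.trans (min_le_left _ _)) ?_
          rw [norm_smul, Real.norm_eq_abs, abs_of_nonneg hs₀'.1]
          exact mul_le_mul hs₀'.2 (hWV z₀ hz₀) (norm_nonneg _) hT.le
    have hbt : ∀ t ∈ Icc η T, ‖c t‖ ≤ M := by
      intro t ht
      have ht' : t ∈ Icc 0 T := ⟨hη.le.trans ht.1, ht.2⟩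
      calc ‖c t‖ = ‖(c t - c s₀) + c s₀‖ := by congr 1; abel
        _ ≤ ‖c t - c s₀‖ + ‖c s₀‖ := norm_add_le _ _
        _ ≤ L * T + (1 + T * V) := by
          refine add_le_add ((hc t ht' s₀ hs₀').trans ?_) hb₀
          refine mul_le_mul_of_nonneg_left ?_ hL
          rw [abs_le]
          constructor <;> linarith [ht'.1, ht'.2, hs₀'.1, hs₀'.2]
        _ = M := by rw [hM]; ring
    have hlip : ∀ s ∈ Icc η T, ∀ t ∈ Icc η T,
        ‖s⁻¹ • c s - t⁻¹ • c t‖ ≤ L' * |s - t| := by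
      intro s hs t ht
      have hs0 : 0 < s := hη.trans_le hs.1
      have ht0 : 0 < t := hη.trans_le ht.1
      have e : s⁻¹ • c s - t⁻¹ • c t = s⁻¹ • (c s - c t) + (s⁻¹ - t⁻¹) • c t := by
        rw [smul_sub, sub_smul]; abel
      rw [e]
      refine (norm_add_le _ _).trans ?_
      have h1 : ‖s⁻¹ • (c s - c t)‖ ≤ L / η * |s - t| := by
        rw [norm_smul, norm_inv, Real.norm_eq_abs, abs_of_pos hs0]
        have h2 := hc s ⟨hs0.le, hs.2⟩ t ⟨ht0.le, ht.2⟩
        calc s⁻¹ * ‖c s - c t‖ ≤ η⁻¹ * (L * |s - t|) := by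
              refine mul_le_mul ?_ h2 (norm_nonneg _) (by positivity)
              exact inv_anti₀ hη hs.1
          _ = L / η * |s - t| := by rw [div_eq_mul_inv]; ring
      have h3 : ‖(s⁻¹ - t⁻¹) • c t‖ ≤ M / η ^ 2 * |s - t| := by
        rw [norm_smul, Real.norm_eq_abs]
        have h4 : |s⁻¹ - t⁻¹| ≤ |s - t| / η ^ 2 := by
          rw [inv_sub_inv hs0.ne' ht0.ne', abs_div, abs_of_pos (mul_pos hs0 ht0), abs_sub_comm t s]
          refine div_le_div_of_nonneg_left (abs_nonneg _) (by positivity) ?_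
          nlinarith [hs.1, ht.1]
        calc |s⁻¹ - t⁻¹| * ‖c t‖ ≤ |s - t| / η ^ 2 * M :=
              mul_le_mul h4 (hbt t ht) (norm_nonneg _) (by positivity)
          _ = M / η ^ 2 * |s - t| := by ring
      calc ‖s⁻¹ • (c s - c t)‖ + ‖(s⁻¹ - t⁻¹) • c t‖ ≤ L / η * |s - t| + M / η ^ 2 * |s - t| :=
            add_le_add h1 h3
        _ = L' * |s - t| := by rw [hL']; ring
    have h1 := h η T (fun s => s⁻¹ • c s) (by linarith) hlip
    refine (le_trans ?_ (law_le hG hW _)).trans h1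
    refine measure_mono ?_
    rintro z ⟨hz, hz0, s, hs, hz1⟩
    refine ⟨hz, hz0, s, hs, ?_⟩
    have hs0 : 0 < s := hη.trans_le hs.1
    have e : W z - s⁻¹ • c s = -(s⁻¹ • (c s - s • W z)) := by
      rw [smul_sub, smul_smul, inv_mul_cancel₀ hs0.ne', one_smul]; abel
    rw [e, norm_neg, norm_smul, norm_inv, Real.norm_eq_abs, abs_of_pos hs0]
    calc s⁻¹ * ‖c s - s • W z‖ ≤ η⁻¹ * (r * η) := by
          refine mul_le_mul (inv_anti₀ hη hs.1) (hz1.trans (min_le_right _ _)) (norm_nonneg _)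
            (by positivity)
      _ = r := by field_simp
  · rw [not_nonempty_iff_eq_empty.1 hne, measure_empty]; exact bot_le

end Crest.Agent.R122.VLcore564
end
end

-- ▼ part R122/VLtrap_564
section

/-!
# Row 122, block VL: trapped scaled states (helper564)

* `exi_mono`: once exited, exited;
* `null_of_flux`: a null set of impact data gives a null set of phase points;
* `exi_eventually`: every state with a passage (or missing the ball) is exited at large times;
* `trapped_small` (T).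
-/

set_option autoImplicit false
set_option linter.unusedSectionVars false
open MeasureTheory Metric Set Filter
open scoped ENNReal NNReal Topology
open Crest.AnalysisR.Kinetic

noncomputable section

namespace Crest.Agent.R122.VLcore564

open Scat818

variable {Φ : Space3 → ℝ}

/-- Coming from the past of an incoming line. -/
theorem incoming_back {x v : Space3} (h1 : 1 ≤ ‖x‖) (h2 : inner ℝ x v ≤ 0) {t : ℝ} (ht : 0 ≤ t) :
    1 ≤ ‖x - t • v‖ ∧ inner ℝ (x - t • v) v ≤ 0 := by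
  constructor
  · have e : x - t • v = x + (-t) • v := by rw [neg_smul, sub_eq_add_neg]
    rw [e, one_le_norm_iff, norm_sq_line]
    have h3 := one_le_norm_iff.1 h1
    have h4 : 0 ≤ 2 * (-t) * inner ℝ x v := by nlinarith
    have h5 : 0 ≤ (-t) ^ 2 * ‖v‖ ^ 2 := by positivity
    linarith
  · rw [inner_sub_left, inner_smul_left, real_inner_self_eq_norm_sq]
    simp only [conj_trivial]
    have : 0 ≤ t * ‖v‖ ^ 2 := by positivity
    linarith

/-- Going to the future of an outgoing line. -/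
theorem outgoing_fwd {x v : Space3} (h1 : 1 ≤ ‖x‖) (h2 : 0 ≤ inner ℝ x v) {t : ℝ} (ht : 0 ≤ t) :
    1 ≤ ‖x + t • v‖ ∧ 0 ≤ inner ℝ (x + t • v) v := by
  constructor
  · rw [one_le_norm_iff, norm_sq_line]
    have h3 := one_le_norm_iff.1 h1
    have h4 : 0 ≤ 2 * t * inner ℝ x v := by positivity
    have h5 : 0 ≤ t ^ 2 * ‖v‖ ^ 2 := by positivity
    linarith
  · rw [inner_add_left, inner_smul_left, real_inner_self_eq_norm_sq]
    simp only [conj_trivial]
    have : 0 ≤ t * ‖v‖ ^ 2 := by positivity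
    linarith

/-- The relative motion started from the incoming line at scaled time `-t`, `t ≥ R`, at scaled time
`R + r`. -/
theorem rel0_eq (hΦ : AdmissiblePotential Φ) {R : ℝ} {z : Space3 × Space3} (hz : Exi Φ R z)
    {t r : ℝ} (ht : R ≤ t) (hr : 0 ≤ r) :
    relFlow Φ (t + R + r) (z.1 - t • z.2, z.2) =
      ((rel0 Φ R z).1 + r • (rel0 Φ R z).2, (rel0 Φ R z).2) := by
  have h1 : ((z.1 - t • z.2, z.2) : Space3 × Space3) =
      relFlow Φ (-(t - R)) (z.1 - R • z.2, z.2) := by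
    rw [relFlow_free_neg hΦ hz.1 hz.2.1 (by linarith)]
    ext1
    · show z.1 - t • z.2 = z.1 - R • z.2 + (-(t - R)) • z.2
      module
    · rfl
  rw [h1, ← relFlow_add hΦ]
  have h2 : -(t - R) + (t + R + r) = 2 * R + r := by ring
  rw [h2, relFlow_add hΦ]
  exact relFlow_free_pos hΦ hz.2.2.1 hz.2.2.2 hr

theorem rel0_mono (hΦ : AdmissiblePotential Φ) {R R' : ℝ} (hR : R ≤ R') {z : Space3 × Space3}
    (hz : Exi Φ R z) : rel0 Φ R' z =
      ((rel0 Φ R z).1 + (R' - R) • (rel0 Φ R z).2, (rel0 Φ R z).2) := by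
  have h := rel0_eq hΦ hz hR (sub_nonneg.2 hR)
  rw [← h]
  unfold rel0
  congr 1
  ring

theorem exi_mono (hΦ : AdmissiblePotential Φ) {R R' : ℝ} (hR : R ≤ R') {z : Space3 × Space3}
    (hz : Exi Φ R z) : Exi Φ R' z := by
  have h1 := incoming_back hz.1 hz.2.1 (sub_nonneg.2 hR)
  have e : z.1 - R • z.2 - (R' - R) • z.2 = z.1 - R' • z.2 := by module
  rw [e] at h1
  have h2 := outgoing_fwd hz.2.2.1 hz.2.2.2 (sub_nonneg.2 hR)
  refine ⟨h1.1, h1.2, ?_⟩
  rw [rel0_mono hΦ hR hz]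
  exact h2

/-! ### Null sets of impact data -/

open Flux663

/-- A null set of impact data gives a null set of phase points. -/
theorem null_of_flux {N : Set (Space3 × Space3)} (hN : MeasurableSet N) (h : flux N = 0) :
    volume (Cyl ∩ {z : Space3 × Space3 | (bline z, z.2) ∈ N}) = 0 := by
  set S : Set (Space3 × Space3) := {z | (bline z, z.2) ∈ N} with hS
  have hSm : MeasurableSet S := (measurable_bline.prodMk measurable_snd) hN
  rw [inter_comm, ← Measure.restrict_apply hSm, ← measurePreserving_line.map_eq,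
    Measure.map_apply measurable_lineMap hSm]
  have hsub : lineMap ⁻¹' S ⊆ (univ : Set ℝ) ×ˢ (N ∪ FSᶜ) := by
    rintro ⟨s, e⟩ hp
    refine ⟨mem_univ _, ?_⟩
    by_cases he : e ∈ FS
    · left
      have h1 : (bline (lineMap (s, e)), (lineMap (s, e)).2) ∈ N := hp
      rw [bline_lineMap he] at h1
      exact h1
    · exact Or.inr he
  refine measure_mono_null hsub ?_
  rw [Measure.prod_prod]
  have : flux (N ∪ FSᶜ) = 0 := measure_union_null h flux_compl_FS
  rw [this, mul_zero]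

/-- The flux measure of a measurable set with null slices. -/
theorem flux_null {N : Set (Space3 × Space3)} (hN : MeasurableSet N)
    (h : ∀ᵐ g : Space3, (μHE[2] : Measure Space3) {b | b ∈ impactDisc g ∧ (b, g) ∈ N} = 0) :
    flux N = 0 := by
  rw [← lintegral_indicator_one hN, lintegral_flux (measurable_one.indicator hN)]
  rw [lintegral_eq_zero_iff']
  · filter_upwards [h] with g hg
    simp only [Pi.zero_apply, mul_eq_zero]
    right
    have h1 : ∀ b : Space3, N.indicator (1 : Space3 × Space3 → ℝ≥0∞) (b, g) =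
        {b | (b, g) ∈ N}.indicator (1 : Space3 → ℝ≥0∞) b := by
      intro b
      by_cases hb : (b, g) ∈ N
      · rw [indicator_of_mem hb, indicator_of_mem (show b ∈ {b | (b, g) ∈ N} from hb)]; rfl
      · rw [indicator_of_notMem hb, indicator_of_notMem (show b ∉ {b | (b, g) ∈ N} from hb)]
    have hm : MeasurableSet {b : Space3 | (b, g) ∈ N} := by
      have : Measurable fun b : Space3 => (b, g) := by fun_prop
      exact this hN
    rw [lintegral_congr h1, lintegral_indicator_one hm, Measure.restrict_apply hm]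
    refine measure_mono_null ?_ hg
    rintro b ⟨hb1, hb2⟩
    exact ⟨hb2, hb1⟩
  · exact (Disc416.measurable_lintegral_disc (α := Space3) (G := fun p => p) measurable_id
        (F := fun p b => N.indicator (1 : Space3 × Space3 → ℝ≥0∞) (b, p))
        ((measurable_one.indicator hN).comp (measurable_snd.prodMk measurable_fst))).aemeasurable

/-- Decomposition of a phase point along its line. -/
theorem line_decomp (z : Space3 × Space3) : z.1 = bline z + tline z • z.2 := by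
  unfold bline; abel

/-- Every state with a passage, or missing the ball, is exited at large times. -/
theorem exi_eventually (hΦ : AdmissiblePotential Φ) {z : Space3 × Space3} (hg : z.2 ≠ 0)
    (h : 1 ≤ ‖bline z‖ ∨ HasPass Φ (bline z) z.2) : ∃ R₀ : ℝ, ∀ R, R₀ ≤ R → Exi Φ R z := by
  set b := bline z with hb
  set g := z.2 with hg'
  set s := tline z with hs
  have hz1 : z.1 = b + s • g := line_decomp z
  have hin : inner ℝ b g = 0 := inner_bline hg
  have hgg : 0 < ‖g‖ ^ 2 := by positivity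
  have e1 : ∀ R : ℝ, z.1 - R • g = b + (s - R) • g := by intro R; rw [hz1]; module
  have hinner : ∀ t : ℝ, inner ℝ (b + t • g) g = t * ‖g‖ ^ 2 := by
    intro t
    rw [inner_add_left, inner_smul_left, real_inner_self_eq_norm_sq, hin]
    simp only [conj_trivial, zero_add]
  by_cases hb1 : 1 ≤ ‖b‖
  · -- missing the ball
    have hnorm : ∀ t : ℝ, 1 ≤ ‖b + t • g‖ := by
      intro t
      rw [one_le_norm_iff, norm_sq_line, hin]
      have h2 := one_le_norm_iff.1 hb1
      have h3 : 0 ≤ t ^ 2 * ‖g‖ ^ 2 := by positivity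
      linarith
    refine ⟨|s|, fun R hR => ?_⟩
    have h1 : -R ≤ s := by linarith [neg_abs_le s]
    have h2 : s ≤ R := (le_abs_self s).trans hR
    have hrel : rel0 Φ R z = (b + (s + R) • g, g) := by
      unfold rel0
      rw [← hg', e1, relFlow_line_miss hΦ hin hb1]
      congr 2
      ring_nf
    refine ⟨?_, ?_, ?_, ?_⟩
    · rw [e1]; exact hnorm _
    · rw [e1, hinner]; nlinarith
    · rw [hrel]; exact hnorm _
    · rw [hrel]
      show 0 ≤ inner ℝ (b + (s + R) • g) g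
      rw [hinner]; nlinarith
  · have hb1' : ‖b‖ < 1 := not_le.1 hb1
    have hpass : HasPass Φ b g := h.resolve_left hb1
    have hbd : b ∈ impactDisc g := ⟨hin, hb1'⟩
    refine ⟨|s| + chord b g + exitTime Φ b g, fun R hR => ?_⟩
    have hch := chord_pos hbd hg
    have het := exitTime_nonneg (Φ := Φ) b g
    have h1 : -|s| ≤ s := neg_abs_le s
    have h2 : s ≤ |s| := le_abs_self s
    have hsR : s - R ≤ -chord b g := by linarith
    have hline : ((b + (s - R) • g, g) : Space3 × Space3) =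
        relFlow Φ (s - R + chord b g) (inc b g) := line_eq_relFlow hΦ hbd hg hsR
    have hrel : rel0 Φ R z = relFlow Φ (s - R + chord b g + 2 * R) (inc b g) := by
      unfold rel0
      rw [← hg', e1, relFlow_line hΦ hbd hg hsR]
    have ht : exitTime Φ b g ≤ s - R + chord b g + 2 * R := by linarith
    refine ⟨?_, ?_, ?_, ?_⟩
    · rw [e1]
      have h3 := hpass.one_le_norm hΦ hbd hg (t := s - R + chord b g) (Or.inl (by linarith))
      rw [← hline] at h3
      exact h3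
    · rw [e1, hinner]; nlinarith
    · rw [hrel]
      exact hpass.one_le_norm hΦ hbd hg (Or.inr ht)
    · rw [hrel, hpass.after hΦ hbd hg ht]
      have h3 : 0 < inner ℝ (exitPoint Φ b g) (exitVelocity Φ b g) := by
        have h4 := hpass.hasExit.inner_pos hΦ (reg_entrance Φ hbd hg)
        rw [hpass.relFlow_exit hΦ hbd hg] at h4
        exact h4
      show 0 ≤ inner ℝ (exitPoint Φ b g + (s - R + chord b g + 2 * R - exitTime Φ b g) •
        exitVelocity Φ b g) (exitVelocity Φ b g)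
      rw [inner_add_left, inner_smul_left, real_inner_self_eq_norm_sq]
      simp only [conj_trivial]
      have h5 : 0 ≤ (s - R + chord b g + 2 * R - exitTime Φ b g) * ‖exitVelocity Φ b g‖ ^ 2 :=
        mul_nonneg (by linarith) (by positivity)
      linarith

/-- Almost every phase point is eventually exited. -/
theorem ae_exi_eventually (hΦ : AdmissiblePotential Φ) :
    ∀ᵐ z : Space3 × Space3, ∃ R₀ : ℝ, ∀ R, R₀ ≤ R → Exi Φ R z := by
  set N : Set (Space3 × Space3) := gincid \ passSet Φ with hN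
  have hNm : MeasurableSet N := measurableSet_gincid.diff (measurableSet_passSet hΦ)
  have hflux : flux N = 0 := by
    refine flux_null hNm ?_
    filter_upwards [Measure.ae_ne volume (0 : Space3)] with g hg
    refine measure_mono_null ?_ (measure_trapped hΦ hg)
    rintro b ⟨hb, hbN⟩
    refine ⟨hb, fun hex => hbN.2 ⟨hbN.1, hex⟩⟩
  have h1 := null_of_flux hNm hflux
  have h0 : volume {z : Space3 × Space3 | z.2 = 0} = 0 := by
    have : {z : Space3 × Space3 | z.2 = 0} = (univ : Set Space3) ×ˢ {(0 : Space3)} := by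
      ext z; simp
    rw [this, Measure.volume_eq_prod, Measure.prod_prod]
    simp
  rw [ae_iff]
  refine measure_mono_null ?_ (measure_union_null h0 h1)
  intro z hz
  by_cases hg : z.2 = 0
  · exact Or.inl hg
  right
  by_cases hb : 1 ≤ ‖bline z‖
  · exact absurd (exi_eventually hΦ hg (Or.inl hb)) hz
  · have hb' : ‖bline z‖ < 1 := not_le.1 hb
    by_cases hp : HasPass Φ (bline z) z.2
    · exact absurd (exi_eventually hΦ hg (Or.inr hp)) hz
    · refine ⟨⟨hg, hb'⟩, ⟨⟨inner_bline hg, hb'⟩, hg⟩, fun h => hp h.2⟩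


end Crest.Agent.R122.VLcore564
end
end

-- ▼ part R122/VLlaw_564
section

/-!
# Row 122, block VL: laws of the outgoing velocities, final forms (helper564)

`IsOut Φ R W`: `W` is a measurable equivariant function of the scaled incoming state, bounded by the
relative speed on exited states; instances `isOut_W1 .. isOut_W4`; `I1`, `I2`.
-/

set_option autoImplicit false
set_option linter.unusedSectionVars false
open MeasureTheory Metric Set Filter
open scoped ENNReal NNReal Topology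
open Crest.AnalysisR.Kinetic

noncomputable section

namespace Crest.Agent.R122.VLcore564

open Scat818

variable {Φ : Space3 → ℝ}

/-- Equivariant functions of the scaled incoming state. -/
structure IsOut (Φ : Space3 → ℝ) (R : ℝ) (W : Space3 × Space3 → Space3) : Prop where
  meas : Measurable W
  iso : ∀ (U : Space3 ≃ₗᵢ[ℝ] Space3) (z : Space3 × Space3), Exi Φ R z → W (U z.1, U z.2) = U (W z)
  bd : ∀ z, Exi Φ R z → ‖W z‖ ≤ ‖z.2‖

/-- displacement rate of a particle with respect to its own undisturbed line -/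
def W1 (Φ : Space3 → ℝ) (R : ℝ) (z : Space3 × Space3) : Space3 :=
  (1 / 2 : ℝ) • ((rel0 Φ R z).2 - z.2)









theorem gbox_invariant (hΦ : AdmissiblePotential Φ) (R C V : ℝ) (U : Space3 ≃ₗᵢ[ℝ] Space3)
    (z : Space3 × Space3) : ((U z.1, U z.2) : Space3 × Space3) ∈ gbox Φ R C V ↔ z ∈ gbox Φ R C V := by
  unfold gbox
  exact and_congr (box_isometry U C V z) (exi_isometry hΦ U z)

theorem volume_gbox_ne_top (Φ : Space3 → ℝ) (R C V : ℝ) : volume (gbox Φ R C V) ≠ ⊤ :=
  ((measure_mono inter_subset_left).trans_lt (lt_top_iff_ne_top.2 (volume_box_ne_top C V))).ne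

/-- **(I1)** No concentration of the outgoing velocities, apart from an atom at the origin. -/
theorem I1 (hΦ : AdmissiblePotential Φ) (C V R : ℝ) {W : Space3 × Space3 → Space3}
    (hW : IsOut Φ R W) {δ : ℝ} (hδ : 0 < δ) :
    ∃ r : ℝ, 0 < r ∧ ∀ a : Space3,
      volume (box C V ∩ {z | Exi Φ R z ∧ W z ≠ 0 ∧ ‖W z - a‖ ≤ r}) ≤ ENNReal.ofReal δ := by
  obtain ⟨r, hr, h⟩ := law_small_ball (measurableSet_gbox hΦ R C V) (volume_gbox_ne_top Φ R C V)
    (gbox_invariant hΦ R C V) hW.meas (fun U z hz => hW.iso U z hz.2) hδ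
  refine ⟨r, hr, fun a => le_trans (measure_mono ?_) (h a)⟩
  rintro z ⟨h1, h2, h3, h4⟩
  exact ⟨⟨h1, h2⟩, h3, h4⟩

/-- **(I2)** The outgoing lines do not meet a Lipschitz curve, apart from an atom at the origin. -/
theorem I2 (hΦ : AdmissiblePotential Φ) (C V R : ℝ) {W : Space3 × Space3 → Space3}
    (hW : IsOut Φ R W) {δ L T η : ℝ} (hδ : 0 < δ) (hL : 0 ≤ L) (hη : 0 < η) :
    ∃ r : ℝ, 0 < r ∧ ∀ c : ℝ → Space3,
      (∀ s ∈ Icc 0 T, ∀ t ∈ Icc 0 T, ‖c s - c t‖ ≤ L * |s - t|) →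
      volume (box C V ∩ {z | Exi Φ R z ∧ W z ≠ 0 ∧ ∃ s ∈ Icc η T, ‖c s - s • W z‖ ≤ r}) ≤
        ENNReal.ofReal δ := by
  obtain ⟨r, hr, h⟩ := law_small_curve (measurableSet_gbox hΦ R C V) (volume_gbox_ne_top Φ R C V)
    (gbox_invariant hΦ R C V) hW.meas (fun U z hz => hW.iso U z hz.2) (V := V)
    (fun z hz => (hW.bd z hz.2).trans (by simpa using hz.1.2)) hδ hL hη
  refine ⟨r, hr, fun c hc => le_trans (measure_mono ?_) (h c hc)⟩
  rintro z ⟨h1, h2, h3, h4⟩
  exact ⟨⟨h1, h2⟩, h3, h4⟩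


end Crest.Agent.R122.VLcore564
end
end

-- ▼ part R122/Swap1_350
section

/-!
# Row 122: exact exchange of velocities is a null event, part 1 (analysis)

The half swept angle as a function of the closest distance `r` and of `y = 1 / (speed there)²`
is the integral `HA Φ r y`; it is convex in `y`, hence takes each value at most twice unless the
potential vanishes beyond `r`.
-/

set_option autoImplicit false

open MeasureTheory Filter Set
open scoped Topology NNReal ENNReal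
open Crest.AnalysisR.Kinetic

noncomputable section

namespace Crest.Agent.R122.Swap350

open Scat818

variable {Φ : Space3 → ℝ}

/-- The kernel `x ↦ 1 / √x`, infinite for `x ≤ 0`. -/
def ker (x : ℝ) : ℝ≥0∞ := (ENNReal.ofReal (√x))⁻¹

lemma ker_of_nonpos {x : ℝ} (hx : x ≤ 0) : ker x = ⊤ := by
  simp [ker, Real.sqrt_eq_zero_of_nonpos hx]

lemma ker_of_pos {x : ℝ} (hx : 0 < x) : ker x = ENNReal.ofReal (√x)⁻¹ :=
  (ENNReal.ofReal_inv_of_pos (Real.sqrt_pos.2 hx)).symm


lemma measurable_ker : Measurable ker := by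
  unfold ker
  exact (ENNReal.measurable_ofReal.comp Real.continuous_sqrt.measurable).inv

lemma inv_sqrt_strict {x x' t : ℝ} (hx : 0 < x) (hx' : 0 < x') (hne : x ≠ x') (ht : 0 < t)
    (ht1 : t < 1) :
    (√(t * x + (1 - t) * x'))⁻¹ < t * (√x)⁻¹ + (1 - t) * (√x')⁻¹ := by
  have h1 := Real.strictConcaveOn_sqrt.2 hx.le hx'.le hne ht (by linarith : 0 < 1 - t) (by ring)
  simp only [smul_eq_mul] at h1
  have ha : 0 < √x := Real.sqrt_pos.2 hx
  have ha' : 0 < √x' := Real.sqrt_pos.2 hx'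
  set a := √x
  set a' := √x'
  have h1t : 0 < 1 - t := by linarith
  have hc : 0 < t * a + (1 - t) * a' := by positivity
  have h2 : (√(t * x + (1 - t) * x'))⁻¹ < (t * a + (1 - t) * a')⁻¹ := by
    apply inv_strictAnti₀ hc h1
  refine h2.trans_le ?_
  rw [inv_le_iff_one_le_mul₀ hc]
  have h3 : (t * a⁻¹ + (1 - t) * a'⁻¹) * (t * a + (1 - t) * a')
      = 1 + t * (1 - t) * ((a - a') ^ 2 / (a * a')) := by
    field_simp
    ring
  rw [h3]
  have : 0 ≤ t * (1 - t) * ((a - a') ^ 2 / (a * a')) := by positivity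
  linarith

lemma ker_convex {x x' t : ℝ} (ht : 0 < t) (ht1 : t < 1) :
    ker (t * x + (1 - t) * x') ≤ ENNReal.ofReal t * ker x + ENNReal.ofReal (1 - t) * ker x' := by
  have ht' : ENNReal.ofReal t ≠ 0 := by simpa using ht
  have ht1' : ENNReal.ofReal (1 - t) ≠ 0 := by simpa using ht1
  by_cases hx : 0 < x
  · by_cases hx' : 0 < x'
    · have h1t : 0 < 1 - t := by linarith
      have hm : 0 < t * x + (1 - t) * x' := by positivity
      rw [ker_of_pos hx, ker_of_pos hx', ker_of_pos hm, ← ENNReal.ofReal_mul ht.le,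
        ← ENNReal.ofReal_mul h1t.le, ← ENNReal.ofReal_add (by positivity) (by positivity)]
      apply ENNReal.ofReal_le_ofReal
      by_cases hne : x = x'
      · subst hne
        have : t * x + (1 - t) * x = x := by ring
        rw [this]
        apply le_of_eq
        ring
      · exact (inv_sqrt_strict hx hx' hne ht ht1).le
    · rw [ker_of_nonpos (not_lt.1 hx'), ENNReal.mul_top ht1']
      simp
  · rw [ker_of_nonpos (not_lt.1 hx), ENNReal.mul_top ht']
    simp

lemma ker_strict {x x' t : ℝ} (ht : 0 < t) (ht1 : t < 1)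
    (h : ker (t * x + (1 - t) * x') = ENNReal.ofReal t * ker x + ENNReal.ofReal (1 - t) * ker x')
    (hfin : ker (t * x + (1 - t) * x') < ⊤) : x = x' := by
  have ht' : ENNReal.ofReal t ≠ 0 := by simpa using ht
  have ht1' : ENNReal.ofReal (1 - t) ≠ 0 := by simpa using ht1
  have h1t : 0 < 1 - t := by linarith
  have hx : 0 < x := by
    by_contra hx
    rw [h, ker_of_nonpos (not_lt.1 hx), ENNReal.mul_top ht'] at hfin
    simp at hfin
  have hx' : 0 < x' := by
    by_contra hx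
    rw [h, ker_of_nonpos (not_lt.1 hx), ENNReal.mul_top ht1'] at hfin
    simp at hfin
  have hm : 0 < t * x + (1 - t) * x' := by positivity
  by_contra hne
  have h2 := inv_sqrt_strict hx hx' hne ht ht1
  rw [ker_of_pos hx, ker_of_pos hx', ker_of_pos hm, ← ENNReal.ofReal_mul ht.le,
    ← ENNReal.ofReal_mul h1t.le, ← ENNReal.ofReal_add (by positivity) (by positivity)] at h
  rw [ENNReal.ofReal_eq_ofReal_iff (by positivity) (by positivity)] at h
  linarith

/-- The radial function. -/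
def Pf (Φ : Space3 → ℝ) (r y w : ℝ) : ℝ := y * (4 * prof Φ r - 4 * prof Φ (r / w)) + 1 - w ^ 2

/-- Half of the swept angle. -/
def HA (Φ : Space3 → ℝ) (r y : ℝ) : ℝ≥0∞ := ∫⁻ w in Ioo (0 : ℝ) 1, ker (Pf Φ r y w)

lemma measurable_Phi (hΦ : AdmissiblePotential Φ) : Measurable Φ := by
  classical
  have hc : ContinuousOn Φ {x : Space3 | x ≠ 0} := hΦ.contDiff_away_from_origin.continuousOn
  have h3 : Φ = {x : Space3 | x ≠ 0}.piecewise Φ (fun _ => Φ 0) := by
    funext x
    by_cases hx : x ∈ {x : Space3 | x ≠ 0}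
    · rw [Set.piecewise_eq_of_mem _ _ _ hx]
    · rw [Set.piecewise_eq_of_notMem _ _ _ hx]
      have : x = 0 := by
        by_contra h; exact hx h
      rw [this]
  rw [h3]
  exact hc.measurable_piecewise continuousOn_const isOpen_ne.measurableSet

lemma measurable_prof (hΦ : AdmissiblePotential Φ) : Measurable (prof Φ) := by
  unfold prof
  exact (measurable_Phi hΦ).comp (measurable_id.smul_const e0)

lemma measurable_Pf (hΦ : AdmissiblePotential Φ) :
    Measurable (fun p : (ℝ × ℝ) × ℝ => Pf Φ p.1.1 p.1.2 p.2) := by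
  have hm := measurable_prof hΦ
  unfold Pf
  have h1 : Measurable (fun p : (ℝ × ℝ) × ℝ => p.1.1) := measurable_fst.comp measurable_fst
  have h2 : Measurable (fun p : (ℝ × ℝ) × ℝ => p.1.2) := measurable_snd.comp measurable_fst
  have h3 : Measurable (fun p : (ℝ × ℝ) × ℝ => p.2) := measurable_snd
  exact ((h2.mul (((hm.comp h1).const_mul 4).sub ((hm.comp (h1.div h3)).const_mul 4))).add_const
    1).sub (h3.pow_const 2)

lemma measurable_Pf' (hΦ : AdmissiblePotential Φ) (r y : ℝ) :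
    Measurable (fun w : ℝ => Pf Φ r y w) :=
  (measurable_Pf hΦ).comp
    (measurable_const.prodMk measurable_id : Measurable fun w : ℝ => ((r, y), w))

lemma measurable_HA (hΦ : AdmissiblePotential Φ) :
    Measurable (fun p : ℝ × ℝ => HA Φ p.1 p.2) := by
  unfold HA
  exact (measurable_ker.comp (measurable_Pf hΦ)).lintegral_prod_right'

/-- Three equal values force the potential to be constant beyond `r`. -/
lemma three (hΦ : AdmissiblePotential Φ) {r : ℝ} (hr : 0 < r) {c : ℝ≥0∞} (hc : c ≠ ⊤)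
    {y₁ y₂ y₃ : ℝ} (h12 : y₁ < y₂) (h23 : y₂ < y₃) (h1 : HA Φ r y₁ = c) (h2 : HA Φ r y₂ = c)
    (h3 : HA Φ r y₃ = c) : ∀ w ∈ Ioo (0 : ℝ) 1, prof Φ (r / w) = prof Φ r := by
  set t : ℝ := (y₃ - y₂) / (y₃ - y₁) with ht_def
  have h31 : 0 < y₃ - y₁ := by linarith
  have ht : 0 < t := div_pos (by linarith) h31
  have ht1 : t < 1 := by rw [ht_def, div_lt_one h31]; linarith
  have h1t : 0 < 1 - t := by linarith
  have hy : y₂ = t * y₁ + (1 - t) * y₃ := by
    rw [ht_def]; field_simp; ring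
  have hP : ∀ w, Pf Φ r y₂ w = t * Pf Φ r y₁ w + (1 - t) * Pf Φ r y₃ w := by
    intro w
    unfold Pf
    rw [hy]; ring
  have hle : ∀ w, ker (Pf Φ r y₂ w) ≤ ENNReal.ofReal t * ker (Pf Φ r y₁ w)
      + ENNReal.ofReal (1 - t) * ker (Pf Φ r y₃ w) := by
    intro w
    rw [hP w]
    exact ker_convex ht ht1
  have hmk : ∀ y, Measurable (fun w => ker (Pf Φ r y w)) := fun y =>
    measurable_ker.comp (measurable_Pf' hΦ r y)
  have hmg : Measurable (fun w => ENNReal.ofReal t * ker (Pf Φ r y₁ w)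
      + ENNReal.ofReal (1 - t) * ker (Pf Φ r y₃ w)) :=
    ((hmk y₁).const_mul _).add ((hmk y₃).const_mul _)
  have hint : ∫⁻ w in Ioo (0 : ℝ) 1, (ENNReal.ofReal t * ker (Pf Φ r y₁ w)
      + ENNReal.ofReal (1 - t) * ker (Pf Φ r y₃ w)) = c := by
    rw [lintegral_add_left ((hmk y₁).const_mul _), lintegral_const_mul _ (hmk y₁),
      lintegral_const_mul _ (hmk y₃)]
    have e1 : ∫⁻ w in Ioo (0 : ℝ) 1, ker (Pf Φ r y₁ w) = c := h1
    have e3 : ∫⁻ w in Ioo (0 : ℝ) 1, ker (Pf Φ r y₃ w) = c := h3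
    rw [e1, e3, ← add_mul, ← ENNReal.ofReal_add ht.le h1t.le]
    simp
  have e2 : ∫⁻ w in Ioo (0 : ℝ) 1, ker (Pf Φ r y₂ w) = c := h2
  have hae := ae_eq_of_ae_le_of_lintegral_le (μ := volume.restrict (Ioo (0 : ℝ) 1))
    (f := fun w => ker (Pf Φ r y₂ w)) (Eventually.of_forall hle) (by rw [e2]; exact hc)
    hmg.aemeasurable (by rw [hint, e2])
  have hfin : ∀ᵐ w ∂(volume.restrict (Ioo (0 : ℝ) 1)), ker (Pf Φ r y₂ w) < ⊤ :=
    ae_lt_top (hmk y₂) (by rw [e2]; exact hc)
  have hpe : (fun w => prof Φ (r / w)) =ᵐ[volume.restrict (Ioo (0 : ℝ) 1)]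
      fun _ => prof Φ r := by
    filter_upwards [hae, hfin] with w hw hw'
    rw [hP w] at hw hw'
    have h5 := ker_strict ht ht1 hw hw'
    unfold Pf at h5
    have h6 : (y₁ - y₃) * (4 * prof Φ r - 4 * prof Φ (r / w)) = 0 := by linarith
    rcases mul_eq_zero.1 h6 with h7 | h7
    · linarith
    · linarith
  have hcont : ContinuousOn (fun w => prof Φ (r / w)) (Ioo (0 : ℝ) 1) := by
    intro w hw
    have hrw : r / w ≠ 0 := (div_pos hr hw.1).ne'
    have h8 : ContinuousAt (fun w : ℝ => r / w) w :=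
      continuousAt_const.div continuousAt_id hw.1.ne'
    exact (ContinuousAt.comp (f := fun w : ℝ => r / w) (prof_continuousAt hΦ hrw)
      h8).continuousWithinAt
  exact Measure.eqOn_open_of_ae_eq hpe isOpen_Ioo hcont continuousOn_const

/-- If the potential is constant beyond `r`, it vanishes there. -/
lemma flat_zero (hΦ : AdmissiblePotential Φ) {r : ℝ} (hr : 0 < r)
    (h : ∀ w ∈ Ioo (0 : ℝ) 1, prof Φ (r / w) = prof Φ r) : prof Φ r = 0 := by
  set w : ℝ := min (1 / 2) r with hw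
  have hw0 : 0 < w := lt_min (by norm_num) hr
  have hw1 : w < 1 := (min_le_left _ _).trans_lt (by norm_num)
  have h1 : 1 ≤ r / w := by
    rw [le_div_iff₀ hw0, one_mul]
    exact min_le_right _ _
  rw [← h w ⟨hw0, hw1⟩]
  exact prof_eq_zero hΦ h1

lemma sin_image : Real.sin '' Ioo 0 (Real.pi / 2) = Ioo 0 1 := by
  ext x
  constructor
  · rintro ⟨t, ht, rfl⟩
    have h1 : 0 < Real.sin t := Real.sin_pos_of_pos_of_lt_pi ht.1 (by linarith [ht.2, Real.pi_pos])
    have h2 : 0 < Real.cos t := Real.cos_pos_of_mem_Ioo ⟨by linarith [ht.1, Real.pi_pos], ht.2⟩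
    refine ⟨h1, ?_⟩
    nlinarith [Real.sin_sq_add_cos_sq t]
  · intro hx
    refine ⟨Real.arcsin x, ⟨Real.arcsin_pos.2 hx.1, Real.arcsin_lt_pi_div_two.2 hx.2⟩,
      Real.sin_arcsin (by linarith [hx.1]) hx.2.le⟩

lemma lintegral_arcsin : ∫⁻ w in Ioo (0 : ℝ) 1, ker (1 - w ^ 2) = ENNReal.ofReal (Real.pi / 2) := by
  rw [← sin_image, lintegral_image_eq_lintegral_abs_deriv_mul measurableSet_Ioo
    (fun t _ => (Real.hasDerivAt_sin t).hasDerivWithinAt)]
  · have h1 : ∀ t ∈ Ioo 0 (Real.pi / 2),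
        ENNReal.ofReal |Real.cos t| * ker (1 - Real.sin t ^ 2) = 1 := by
      intro t ht
      have h2 : 0 < Real.cos t := Real.cos_pos_of_mem_Ioo ⟨by linarith [ht.1, Real.pi_pos], ht.2⟩
      have h3 : 1 - Real.sin t ^ 2 = Real.cos t ^ 2 := by
        nlinarith [Real.sin_sq_add_cos_sq t]
      rw [h3, ker, Real.sqrt_sq h2.le, abs_of_pos h2]
      exact ENNReal.mul_inv_cancel (by simpa using h2) ENNReal.ofReal_ne_top
    rw [setLIntegral_congr_fun measurableSet_Ioo h1]
    simp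
  · intro a ha b hb hab
    exact Real.injOn_sin ⟨by linarith [ha.1, Real.pi_pos], ha.2.le⟩
      ⟨by linarith [hb.1, Real.pi_pos], hb.2.le⟩ hab

lemma HA_flat {r : ℝ} (h0 : prof Φ r = 0)
    (h : ∀ w ∈ Ioo (0 : ℝ) 1, prof Φ (r / w) = prof Φ r) (y : ℝ) :
    HA Φ r y = ENNReal.ofReal (Real.pi / 2) := by
  rw [← lintegral_arcsin, HA]
  apply setLIntegral_congr_fun measurableSet_Ioo
  intro w hw
  show ker (Pf Φ r y w) = ker (1 - w ^ 2)
  unfold Pf
  rw [h w hw, h0]
  congr 1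
  ring

/-- The exceptional values. -/
def badVal : Set ℝ≥0∞ := range fun n : ℕ => ENNReal.ofReal (n * Real.pi)

lemma countable_badVal : badVal.Countable := countable_range _

lemma pi_half_notMem (n : ℕ) : ENNReal.ofReal (Real.pi / 2) ≠ ENNReal.ofReal (n * Real.pi) := by
  intro h
  have h1 : Real.pi / 2 = n * Real.pi := by
    rwa [ENNReal.ofReal_eq_ofReal_iff (by positivity) (by positivity)] at h
  have h2 : (1 : ℝ) = 2 * n := by
    have := Real.pi_pos
    field_simp at h1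
    linarith
  have h3 : (1 : ℕ) = 2 * n := by exact_mod_cast h2
  omega

lemma finite_level (hΦ : AdmissiblePotential Φ) {r : ℝ} (hr : 0 < r) (n : ℕ) :
    {y : ℝ | HA Φ r y = ENNReal.ofReal (n * Real.pi)}.Finite := by
  by_contra hinf
  obtain ⟨t, hts, hcard⟩ := Set.Infinite.exists_subset_card_eq hinf 3
  have hmem : ∀ i : Fin 3, t.orderEmbOfFin hcard i ∈
      {y : ℝ | HA Φ r y = ENNReal.ofReal (n * Real.pi)} := fun i =>
    hts (Finset.orderEmbOfFin_mem t hcard i)
  have h01 : t.orderEmbOfFin hcard 0 < t.orderEmbOfFin hcard 1 :=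
    (t.orderEmbOfFin hcard).strictMono (by decide)
  have h12 : t.orderEmbOfFin hcard 1 < t.orderEmbOfFin hcard 2 :=
    (t.orderEmbOfFin hcard).strictMono (by decide)
  have h := three hΦ hr ENNReal.ofReal_ne_top h01 h12 (hmem 0) (hmem 1) (hmem 2)
  have h0 := flat_zero hΦ hr h
  have h1 := HA_flat h0 h (t.orderEmbOfFin hcard 0)
  have h2 := hmem 0
  change HA Φ r _ = _ at h2
  rw [h1] at h2
  exact pi_half_notMem n h2

/-- The bad parameters. -/
def badPar (Φ : Space3 → ℝ) : Set (ℝ × ℝ) :=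
  {p | 0 < p.1 ∧ HA Φ p.1 p.2 ∈ badVal}

lemma measurableSet_badPar (hΦ : AdmissiblePotential Φ) : MeasurableSet (badPar Φ) :=
  (measurableSet_lt measurable_const measurable_fst).inter
    (measurable_HA hΦ countable_badVal.measurableSet)

lemma volume_badPar (hΦ : AdmissiblePotential Φ) : volume (badPar Φ) = 0 := by
  rw [Measure.volume_eq_prod, Measure.measure_prod_null (measurableSet_badPar hΦ)]
  apply Eventually.of_forall
  intro r
  show volume (Prod.mk r ⁻¹' badPar Φ) = 0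
  by_cases hr : 0 < r
  · have hsub : Prod.mk r ⁻¹' badPar Φ ⊆
        ⋃ n : ℕ, {y : ℝ | HA Φ r y = ENNReal.ofReal (n * Real.pi)} := by
      rintro y ⟨_, n, hn⟩
      exact mem_iUnion.2 ⟨n, hn.symm⟩
    exact ((countable_iUnion fun n => (finite_level hΦ hr n).countable).mono hsub).measure_zero _
  · have : Prod.mk r ⁻¹' badPar Φ = ∅ := by
      ext y
      simp only [mem_empty_iff_false, iff_false]
      exact fun h => hr h.1
    rw [this]; simp

/-- The passage from `(closest distance, inverse square speed there)` to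
`(relative speed, impact parameter)`. -/
def Gm (Φ : Space3 → ℝ) (p : ℝ × ℝ) : ℝ × ℝ :=
  (√(4 * prof Φ p.1 + p.2⁻¹), p.1 / (√p.2 * √(4 * prof Φ p.1 + p.2⁻¹)))

/-- The domain. -/
def dom (Φ : Space3 → ℝ) : Set (ℝ × ℝ) :=
  {p | 0 < p.1 ∧ 0 < p.2 ∧ 0 < 4 * prof Φ p.1 + p.2⁻¹}

lemma differentiableAt_Gm (hΦ : AdmissiblePotential Φ) {p : ℝ × ℝ} (hp : p ∈ dom Φ) :
    DifferentiableAt ℝ (Gm Φ) p := by
  obtain ⟨h1, h2, h3⟩ := hp
  have hd1 : DifferentiableAt ℝ (fun p : ℝ × ℝ => prof Φ p.1) p :=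
    DifferentiableAt.comp (f := fun p : ℝ × ℝ => p.1) (g := prof Φ) p
      (prof_differentiableAt hΦ h1.ne') differentiableAt_fst
  have hd2 : DifferentiableAt ℝ (fun p : ℝ × ℝ => p.2⁻¹) p :=
    differentiableAt_snd.inv h2.ne'
  have hd3 : DifferentiableAt ℝ (fun p : ℝ × ℝ => √(4 * prof Φ p.1 + p.2⁻¹)) p :=
    ((hd1.const_mul 4).add hd2).sqrt h3.ne'
  have hd4 : DifferentiableAt ℝ (fun p : ℝ × ℝ => √p.2) p := differentiableAt_snd.sqrt h2.ne'
  have hd5 : DifferentiableAt ℝ (fun p : ℝ × ℝ => √p.2 * √(4 * prof Φ p.1 + p.2⁻¹)) p :=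
    hd4.mul hd3
  have hd6 : DifferentiableAt ℝ (fun p : ℝ × ℝ => (√p.2 * √(4 * prof Φ p.1 + p.2⁻¹))⁻¹) p :=
    hd5.inv (mul_pos (Real.sqrt_pos.2 h2) (Real.sqrt_pos.2 h3)).ne'
  have hd7 : DifferentiableAt ℝ (fun p : ℝ × ℝ => p.1 * (√p.2 * √(4 * prof Φ p.1 + p.2⁻¹))⁻¹) p :=
    differentiableAt_fst.mul hd6
  have hd8 : DifferentiableAt ℝ (fun p : ℝ × ℝ => p.1 / (√p.2 * √(4 * prof Φ p.1 + p.2⁻¹))) p := by
    simpa only [div_eq_mul_inv] using hd7
  exact hd3.prodMk hd8

/-- The image of the bad parameters. -/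
def badImg (Φ : Space3 → ℝ) : Set (ℝ × ℝ) := Gm Φ '' (badPar Φ ∩ dom Φ)

lemma volume_badImg (hΦ : AdmissiblePotential Φ) : volume (badImg Φ) = 0 := by
  apply addHaar_image_eq_zero_of_differentiableOn_of_addHaar_eq_zero volume
  · intro p hp
    exact (differentiableAt_Gm hΦ hp.2).differentiableWithinAt
  · exact measure_mono_null inter_subset_left (volume_badPar hΦ)

lemma ae_speed (hΦ : AdmissiblePotential Φ) :
    ∀ᵐ g : Space3, volume {ρ : ℝ | (‖g‖, ρ) ∈ badImg Φ} = 0 := by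
  have h1 : ∀ᵐ e : ℝ, volume (Prod.mk e ⁻¹' badImg Φ) = 0 :=
    Measure.measure_ae_null_of_prod_null (μ := (volume : Measure ℝ)) (ν := (volume : Measure ℝ))
      (by rw [← Measure.volume_eq_prod]; exact volume_badImg hΦ)
  have h2 : volume {e : ℝ | volume (Prod.mk e ⁻¹' badImg Φ) ≠ 0} = 0 := h1
  have : Nontrivial Space3 := by infer_instance
  exact measure_norm_preimage_null (volume : Measure Space3) h2

end Crest.Agent.R122.Swap350
end
end

-- ▼ part R122/Swap2_350
section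

/-!
# Row 122: exact exchange of velocities is a null event, part 2 (dynamics)
-/

set_option autoImplicit false

open MeasureTheory Filter Set
open scoped Topology NNReal ENNReal
open Crest.AnalysisR.Kinetic

noncomputable section

namespace Crest.Agent.R122.Swap350

open Scat818

variable {Φ : Space3 → ℝ}

/-- Trajectories with a turning point at time `0` and nonzero angular momentum. -/
structure Turn (Φ : Space3 → ℝ) (q p : ℝ → Space3) : Prop where
  rel : IsRel Φ q p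
  orth : inner ℝ (q 0) (p 0) = (0 : ℝ)
  qne : q 0 ≠ 0
  pne : p 0 ≠ 0

namespace Turn

variable {q p : ℝ → Space3}

lemma reg0 (h : Turn Φ q p) : Reg Φ (q 0) := Or.inl h.qne

lemma rpos (h : Turn Φ q p) : 0 < ‖q 0‖ := norm_pos_iff.2 h.qne

lemma Vpos (h : Turn Φ q p) : 0 < ‖p 0‖ := norm_pos_iff.2 h.pne

lemma am_eq (hΦ : AdmissiblePotential Φ) (h : Turn Φ q p) (s : ℝ) :
    ‖q s‖ ^ 2 * ‖p s‖ ^ 2 - (inner ℝ (q s) (p s)) ^ 2 = ‖q 0‖ ^ 2 * ‖p 0‖ ^ 2 := by
  have := h.rel.am_const hΦ s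
  unfold am at this
  rw [this, h.orth]
  ring

lemma norm_pos (hΦ : AdmissiblePotential Φ) (h : Turn Φ q p) (s : ℝ) : 0 < ‖q s‖ := by
  have h1 := h.am_eq hΦ s
  have h2 := h.rpos
  have h3 := h.Vpos
  rw [norm_pos_iff]
  intro h0
  rw [h0] at h1
  simp only [norm_zero, inner_zero_left] at h1
  have : 0 < ‖q 0‖ ^ 2 * ‖p 0‖ ^ 2 := by positivity
  nlinarith

/-- The motion is planar. -/
lemma planar (hΦ : AdmissiblePotential Φ) (h : Turn Φ q p) {n : Space3}
    (h1 : inner ℝ n (q 0) = (0 : ℝ)) (h2 : inner ℝ n (p 0) = (0 : ℝ)) (s : ℝ) :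
    inner ℝ n (q s) = (0 : ℝ) ∧ inner ℝ n (p s) = (0 : ℝ) := by
  set R := (Submodule.span ℝ {n})ᗮ.reflection with hR
  have hRq : R (q 0) = q 0 := by
    apply Submodule.reflection_mem_subspace_eq_self
    rw [Submodule.mem_orthogonal_singleton_iff_inner_right]
    exact h1
  have hRp : R (p 0) = p 0 := by
    apply Submodule.reflection_mem_subspace_eq_self
    rw [Submodule.mem_orthogonal_singleton_iff_inner_right]
    exact h2
  have h3 := relFlow_isometry hΦ R (z := (q 0, p 0)) h.reg0 s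
  have h4 := h.rel.eq_relFlow hΦ h.reg0 s
  rw [← h4] at h3
  simp only [hRq, hRp] at h3
  rw [← h4, Prod.mk.injEq] at h3
  constructor
  · have h5 := (Submodule.reflection_eq_self_iff (q s)).1 h3.1.symm
    rwa [Submodule.mem_orthogonal_singleton_iff_inner_right] at h5
  · have h5 := (Submodule.reflection_eq_self_iff (p s)).1 h3.2.symm
    rwa [Submodule.mem_orthogonal_singleton_iff_inner_right] at h5

/-- coordinates -/
lemma coord (hΦ : AdmissiblePotential Φ) (h : Turn Φ q p) (s : ℝ) :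
    ‖q s‖ ^ 2 = (inner ℝ (q 0) (q s)) ^ 2 / ‖q 0‖ ^ 2 + (inner ℝ (p 0) (q s)) ^ 2 / ‖p 0‖ ^ 2 ∧
    inner ℝ (q s) (p s) = inner ℝ (q 0) (q s) * inner ℝ (q 0) (p s) / ‖q 0‖ ^ 2
      + inner ℝ (p 0) (q s) * inner ℝ (p 0) (p s) / ‖p 0‖ ^ 2 := by
  have hr := h.rpos
  have hV := h.Vpos
  have horth' : inner ℝ (p 0) (q 0) = (0 : ℝ) := by rw [real_inner_comm]; exact h.orth
  set α : ℝ := inner ℝ (q 0) (q s) / ‖q 0‖ ^ 2 with hα
  set β : ℝ := inner ℝ (p 0) (q s) / ‖p 0‖ ^ 2 with hβ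
  set n : Space3 := q s - α • q 0 - β • p 0 with hn
  have h1 : inner ℝ n (q 0) = (0 : ℝ) := by
    rw [hn, inner_sub_left, inner_sub_left, inner_smul_left, inner_smul_left, horth',
      real_inner_self_eq_norm_sq, hα, real_inner_comm (q 0) (q s)]
    simp only [conj_trivial, mul_zero, sub_zero]
    field_simp
    ring
  have h2 : inner ℝ n (p 0) = (0 : ℝ) := by
    rw [hn, inner_sub_left, inner_sub_left, inner_smul_left, inner_smul_left, h.orth,
      real_inner_self_eq_norm_sq, hβ, real_inner_comm (p 0) (q s)]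
    simp only [conj_trivial, mul_zero, sub_zero]
    field_simp
    ring
  obtain ⟨h3, h4⟩ := h.planar hΦ h1 h2 s
  rw [hn, inner_sub_left, inner_sub_left, inner_smul_left, inner_smul_left] at h3 h4
  simp only [conj_trivial] at h3 h4
  rw [real_inner_self_eq_norm_sq] at h3
  constructor
  · have : ‖q s‖ ^ 2 = α * inner ℝ (q 0) (q s) + β * inner ℝ (p 0) (q s) := by linarith
    rw [this, hα, hβ]; ring
  · have : inner ℝ (q s) (p s) = α * inner ℝ (q 0) (p s) + β * inner ℝ (p 0) (p s) := by linarith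
    rw [this, hα, hβ]; ring

/-- conservation of angular momentum -/
lemma cross (hΦ : AdmissiblePotential Φ) (h : Turn Φ q p) (s : ℝ) :
    inner ℝ (q 0) (q s) * inner ℝ (p 0) (p s) - inner ℝ (p 0) (q s) * inner ℝ (q 0) (p s)
      = ‖q 0‖ ^ 2 * ‖p 0‖ ^ 2 := by
  have hd : ∀ s, HasDerivAt (fun s => inner ℝ (q 0) (q s) * inner ℝ (p 0) (p s)
      - inner ℝ (p 0) (q s) * inner ℝ (q 0) (p s)) (0 : ℝ) s := by
    intro s
    obtain ⟨c, hc⟩ := exists_force_eq_smul hΦ (q s)
    have e1 : ∀ a : Space3, HasDerivAt (fun s => (inner ℝ a (q s) : ℝ)) (inner ℝ a (p s)) s := by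
      intro a
      have := (hasDerivAt_const s a).inner ℝ (h.rel.pos s)
      simpa using this
    have e2 : ∀ a : Space3, HasDerivAt (fun s => (inner ℝ a (p s) : ℝ))
        (inner ℝ a (force Φ (q s))) s := by
      intro a
      have := (hasDerivAt_const s a).inner ℝ (h.rel.vel s)
      simpa using this
    have h4 := ((e1 (q 0)).mul (e2 (p 0))).sub ((e1 (p 0)).mul (e2 (q 0)))
    have h5 : inner ℝ (q 0) (p s) * inner ℝ (p 0) (p s)
        + inner ℝ (q 0) (q s) * inner ℝ (p 0) (force Φ (q s))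
        - (inner ℝ (p 0) (p s) * inner ℝ (q 0) (p s)
          + inner ℝ (p 0) (q s) * inner ℝ (q 0) (force Φ (q s))) = (0 : ℝ) := by
      rw [hc, inner_smul_right, inner_smul_right]
      ring
    rw [h5] at h4
    exact h4
  have h1 := is_const_of_deriv_eq_zero (fun s => (hd s).differentiableAt) (fun s => (hd s).deriv) s 0
  rw [h1, real_inner_self_eq_norm_sq, real_inner_self_eq_norm_sq, h.orth]
  ring

lemma hasDerivAt_norm (hΦ : AdmissiblePotential Φ) (h : Turn Φ q p) (s : ℝ) :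
    HasDerivAt (fun s => ‖q s‖) (inner ℝ (q s) (p s) / ‖q s‖) s := by
  have h0 := h.norm_pos hΦ s
  have h1 := (hasDerivAt_norm_sq (h.rel.pos s)).sqrt (by positivity)
  have h2 : (fun s => √(‖q s‖ ^ 2)) = fun s => ‖q s‖ := by
    funext s; exact Real.sqrt_sq (norm_nonneg _)
  rw [h2] at h1
  have h3 : 2 * inner ℝ (q s) (p s) / (2 * √(‖q s‖ ^ 2)) = inner ℝ (q s) (p s) / ‖q s‖ := by
    rw [Real.sqrt_sq (norm_nonneg _), mul_div_mul_left _ _ (by norm_num)]
  rw [h3] at h1
  exact h1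

/-- the swept angle -/
def theta (q p : ℝ → Space3) (s : ℝ) : ℝ := ∫ t in (0 : ℝ)..s, ‖q 0‖ * ‖p 0‖ / ‖q t‖ ^ 2

lemma continuous_rate (hΦ : AdmissiblePotential Φ) (h : Turn Φ q p) :
    Continuous fun t => ‖q 0‖ * ‖p 0‖ / ‖q t‖ ^ 2 := by
  refine continuous_const.div (h.rel.continuous_q.norm.pow 2) fun t => ?_
  have := h.norm_pos hΦ t
  positivity

lemma hasDerivAt_theta (hΦ : AdmissiblePotential Φ) (h : Turn Φ q p) (s : ℝ) :
    HasDerivAt (theta q p) (‖q 0‖ * ‖p 0‖ / ‖q s‖ ^ 2) s :=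
  intervalIntegral.integral_hasDerivAt_right ((h.continuous_rate hΦ).intervalIntegrable _ _)
    ((h.continuous_rate hΦ).stronglyMeasurableAtFilter _ _) (h.continuous_rate hΦ).continuousAt

/-- The direction is given by the swept angle. -/
lemma dir_theta (hΦ : AdmissiblePotential Φ) (h : Turn Φ q p) (s : ℝ) :
    inner ℝ (q 0) (q s) / (‖q 0‖ * ‖q s‖) = Real.cos (theta q p s) ∧
      inner ℝ (p 0) (q s) / (‖p 0‖ * ‖q s‖) = Real.sin (theta q p s) := by
  have hr := h.rpos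
  have hV := h.Vpos
  set a : ℝ → ℝ := fun s => inner ℝ (q 0) (q s) / (‖q 0‖ * ‖q s‖) with ha
  set b : ℝ → ℝ := fun s => inner ℝ (p 0) (q s) / (‖p 0‖ * ‖q s‖) with hb
  have e1 : ∀ (c : Space3) (s : ℝ),
      HasDerivAt (fun s => (inner ℝ c (q s) : ℝ)) (inner ℝ c (p s)) s := by
    intro c s
    have := (hasDerivAt_const s c).inner ℝ (h.rel.pos s)
    simpa using this
  have hda : ∀ s, HasDerivAt a (-(‖q 0‖ * ‖p 0‖ / ‖q s‖ ^ 2) * b s) s := by
    intro s
    have h0 := h.norm_pos hΦ s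
    have h1 := (e1 (q 0) s).div ((h.hasDerivAt_norm hΦ s).const_mul ‖q 0‖) (by positivity)
    obtain ⟨c1, c2⟩ := h.coord hΦ s
    have c3 := h.cross hΦ s
    have h2 : (inner ℝ (q 0) (p s) * (‖q 0‖ * ‖q s‖)
        - inner ℝ (q 0) (q s) * (‖q 0‖ * (inner ℝ (q s) (p s) / ‖q s‖))) / (‖q 0‖ * ‖q s‖) ^ 2
        = -(‖q 0‖ * ‖p 0‖ / ‖q s‖ ^ 2) * (inner ℝ (p 0) (q s) / (‖p 0‖ * ‖q s‖)) := by
      have h3 : (inner ℝ (q 0) (p s) * (‖q 0‖ * ‖q s‖)
        - inner ℝ (q 0) (q s) * (‖q 0‖ * (inner ℝ (q s) (p s) / ‖q s‖))) / (‖q 0‖ * ‖q s‖) ^ 2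
        = (inner ℝ (q 0) (p s) * ‖q s‖ ^ 2 - inner ℝ (q 0) (q s) * inner ℝ (q s) (p s))
          / (‖q 0‖ * ‖q s‖ ^ 3) := by
        field_simp
      have h4 : inner ℝ (q 0) (p s) * ‖q s‖ ^ 2 - inner ℝ (q 0) (q s) * inner ℝ (q s) (p s)
          = -(inner ℝ (p 0) (q s) * ‖q 0‖ ^ 2) := by
        rw [c1, c2]
        have h5 : inner ℝ (q 0) (p s) * ((inner ℝ (q 0) (q s)) ^ 2 / ‖q 0‖ ^ 2
            + (inner ℝ (p 0) (q s)) ^ 2 / ‖p 0‖ ^ 2)
            - inner ℝ (q 0) (q s) * (inner ℝ (q 0) (q s) * inner ℝ (q 0) (p s) / ‖q 0‖ ^ 2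
              + inner ℝ (p 0) (q s) * inner ℝ (p 0) (p s) / ‖p 0‖ ^ 2)
            = -(inner ℝ (p 0) (q s) / ‖p 0‖ ^ 2 * (inner ℝ (q 0) (q s) * inner ℝ (p 0) (p s)
              - inner ℝ (p 0) (q s) * inner ℝ (q 0) (p s))) := by ring
        rw [h5, c3]
        field_simp
      rw [h3, h4]
      field_simp
    rw [h2] at h1
    exact h1
  have hdb : ∀ s, HasDerivAt b (‖q 0‖ * ‖p 0‖ / ‖q s‖ ^ 2 * a s) s := by
    intro s
    have h0 := h.norm_pos hΦ s
    have h1 := (e1 (p 0) s).div ((h.hasDerivAt_norm hΦ s).const_mul ‖p 0‖) (by positivity)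
    obtain ⟨c1, c2⟩ := h.coord hΦ s
    have c3 := h.cross hΦ s
    have h2 : (inner ℝ (p 0) (p s) * (‖p 0‖ * ‖q s‖)
        - inner ℝ (p 0) (q s) * (‖p 0‖ * (inner ℝ (q s) (p s) / ‖q s‖))) / (‖p 0‖ * ‖q s‖) ^ 2
        = ‖q 0‖ * ‖p 0‖ / ‖q s‖ ^ 2 * (inner ℝ (q 0) (q s) / (‖q 0‖ * ‖q s‖)) := by
      have h3 : (inner ℝ (p 0) (p s) * (‖p 0‖ * ‖q s‖)
        - inner ℝ (p 0) (q s) * (‖p 0‖ * (inner ℝ (q s) (p s) / ‖q s‖))) / (‖p 0‖ * ‖q s‖) ^ 2
        = (inner ℝ (p 0) (p s) * ‖q s‖ ^ 2 - inner ℝ (p 0) (q s) * inner ℝ (q s) (p s))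
          / (‖p 0‖ * ‖q s‖ ^ 3) := by
        field_simp
      have h4 : inner ℝ (p 0) (p s) * ‖q s‖ ^ 2 - inner ℝ (p 0) (q s) * inner ℝ (q s) (p s)
          = inner ℝ (q 0) (q s) * ‖p 0‖ ^ 2 := by
        rw [c1, c2]
        have h5 : inner ℝ (p 0) (p s) * ((inner ℝ (q 0) (q s)) ^ 2 / ‖q 0‖ ^ 2
            + (inner ℝ (p 0) (q s)) ^ 2 / ‖p 0‖ ^ 2)
            - inner ℝ (p 0) (q s) * (inner ℝ (q 0) (q s) * inner ℝ (q 0) (p s) / ‖q 0‖ ^ 2
              + inner ℝ (p 0) (q s) * inner ℝ (p 0) (p s) / ‖p 0‖ ^ 2)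
            = inner ℝ (q 0) (q s) / ‖q 0‖ ^ 2 * (inner ℝ (q 0) (q s) * inner ℝ (p 0) (p s)
              - inner ℝ (p 0) (q s) * inner ℝ (q 0) (p s)) := by ring
        rw [h5, c3]
        field_simp
      rw [h3, h4]
      field_simp
    rw [h2] at h1
    exact h1
  have hone : ∀ s, a s ^ 2 + b s ^ 2 = 1 := by
    intro s
    have h0 := h.norm_pos hΦ s
    obtain ⟨c1, -⟩ := h.coord hΦ s
    have h1 : a s ^ 2 + b s ^ 2 = ((inner ℝ (q 0) (q s)) ^ 2 / ‖q 0‖ ^ 2
        + (inner ℝ (p 0) (q s)) ^ 2 / ‖p 0‖ ^ 2) / ‖q s‖ ^ 2 := by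
      simp only [ha, hb]
      field_simp
    rw [h1, ← c1]
    field_simp
  have hdg : ∀ s, HasDerivAt (fun s => a s * Real.cos (theta q p s)
      + b s * Real.sin (theta q p s)) 0 s := by
    intro s
    have ht := h.hasDerivAt_theta hΦ s
    have h1 := ((hda s).mul ht.cos).add ((hdb s).mul ht.sin)
    have h2 : -(‖q 0‖ * ‖p 0‖ / ‖q s‖ ^ 2) * b s * Real.cos (theta q p s)
        + a s * (-Real.sin (theta q p s) * (‖q 0‖ * ‖p 0‖ / ‖q s‖ ^ 2))
        + (‖q 0‖ * ‖p 0‖ / ‖q s‖ ^ 2 * a s * Real.sin (theta q p s)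
          + b s * (Real.cos (theta q p s) * (‖q 0‖ * ‖p 0‖ / ‖q s‖ ^ 2))) = 0 := by ring
    rw [h2] at h1
    exact h1
  have hg := is_const_of_deriv_eq_zero (fun s => (hdg s).differentiableAt)
    (fun s => (hdg s).deriv) s 0
  have ht0 : theta q p 0 = 0 := by simp [theta]
  have ha0 : a 0 = 1 := by
    simp only [ha]
    rw [real_inner_self_eq_norm_sq]
    field_simp
  simp only [ht0, Real.cos_zero, Real.sin_zero, ha0, mul_one, mul_zero, add_zero] at hg
  have h1 := hone s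
  have h2 := Real.sin_sq_add_cos_sq (theta q p s)
  have h3 : (a s - Real.cos (theta q p s)) ^ 2 + (b s - Real.sin (theta q p s)) ^ 2 = 0 := by
    nlinarith
  have h4 : (b s - Real.sin (theta q p s)) ^ 2 = 0 := by
    nlinarith [sq_nonneg (a s - Real.cos (theta q p s)), sq_nonneg (b s - Real.sin (theta q p s))]
  have h4' : (a s - Real.cos (theta q p s)) ^ 2 = 0 := by
    nlinarith [sq_nonneg (a s - Real.cos (theta q p s)), sq_nonneg (b s - Real.sin (theta q p s))]
  have h5 := pow_eq_zero_iff (n := 2) (by norm_num) |>.1 h4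
  have h5' := pow_eq_zero_iff (n := 2) (by norm_num) |>.1 h4'
  constructor
  · show a s = _
    linarith
  · show b s = _
    linarith

lemma sin_theta (hΦ : AdmissiblePotential Φ) (h : Turn Φ q p) (s : ℝ) :
    inner ℝ (p 0) (q s) / (‖p 0‖ * ‖q s‖) = Real.sin (theta q p s) := (h.dir_theta hΦ s).2

lemma cos_theta (hΦ : AdmissiblePotential Φ) (h : Turn Φ q p) (s : ℝ) :
    inner ℝ (q 0) (q s) / (‖q 0‖ * ‖q s‖) = Real.cos (theta q p s) := (h.dir_theta hΦ s).1

/-! ### Change of variables -/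

lemma strictMono_norm (hΦ : AdmissiblePotential Φ) (h : Turn Φ q p)
    (hpos : ∀ s, 0 < s → 0 < inner ℝ (q s) (p s)) :
    StrictMonoOn (fun s => ‖q s‖) (Ici 0) := by
  apply strictMonoOn_of_deriv_pos (convex_Ici 0)
  · exact h.rel.continuous_q.norm.continuousOn
  · intro s hs
    rw [interior_Ici] at hs
    rw [(h.hasDerivAt_norm hΦ s).deriv]
    exact div_pos (hpos s hs) (h.norm_pos hΦ s)

lemma image_eq (hΦ : AdmissiblePotential Φ) (h : Turn Φ q p)
    (hpos : ∀ s, 0 < s → 0 < inner ℝ (q s) (p s))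
    (hlim : Tendsto (fun s => ‖q s‖) atTop atTop) :
    (fun s => ‖q 0‖ / ‖q s‖) '' Ioi 0 = Ioo 0 1 := by
  have hmono := h.strictMono_norm hΦ hpos
  have hr := h.rpos
  ext w
  constructor
  · rintro ⟨s, hs, rfl⟩
    have h1 : ‖q 0‖ < ‖q s‖ := hmono (a := 0) (b := s) (mem_Ici.2 le_rfl) (mem_Ici.2 (le_of_lt hs)) hs
    have h2 := h.norm_pos hΦ s
    exact ⟨by positivity, (div_lt_one h2).2 h1⟩
  · rintro ⟨hw0, hw1⟩
    have h1 : ‖q 0‖ < ‖q 0‖ / w := by
      rw [lt_div_iff₀ hw0]; nlinarith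
    obtain ⟨M, hM, hM0⟩ := ((hlim.eventually_ge_atTop (‖q 0‖ / w)).and
      (eventually_ge_atTop (0 : ℝ))).exists
    have h2 := intermediate_value_Icc hM0 h.rel.continuous_q.norm.continuousOn
    obtain ⟨s, hs, hqs⟩ := h2 ⟨h1.le, hM⟩
    have hs0 : 0 < s := by
      rcases lt_or_eq_of_le hs.1 with h' | h'
      · exact h'
      · exfalso
        rw [← h'] at hqs
        linarith
    refine ⟨s, hs0, ?_⟩
    simp only at hqs ⊢
    rw [hqs]
    field_simp

/-- Energy at the turning point. -/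
lemma energy_eq (hΦ : AdmissiblePotential Φ) (h : Turn Φ q p) (s : ℝ) :
    ‖p s‖ ^ 2 + 4 * prof Φ ‖q s‖ = ‖p 0‖ ^ 2 + 4 * prof Φ ‖q 0‖ := by
  have := h.rel.energy hΦ h.reg0 s
  unfold en at this
  rwa [eq_prof hΦ (q s), eq_prof hΦ (q 0)] at this

lemma Pf_eq (hΦ : AdmissiblePotential Φ) (h : Turn Φ q p) (s : ℝ) :
    Pf Φ ‖q 0‖ (‖p 0‖ ^ 2)⁻¹ (‖q 0‖ / ‖q s‖)
      = (inner ℝ (q s) (p s) / (‖q s‖ * ‖p 0‖)) ^ 2 := by
  have hr := h.rpos
  have hV := h.Vpos
  have h0 := h.norm_pos hΦ s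
  have h1 := h.energy_eq hΦ s
  have h2 := h.am_eq hΦ s
  have h3 : ‖q 0‖ / (‖q 0‖ / ‖q s‖) = ‖q s‖ := by field_simp
  unfold Pf
  rw [h3]
  have h4 : (inner ℝ (q s) (p s)) ^ 2 = ‖q s‖ ^ 2 * ‖p s‖ ^ 2 - ‖q 0‖ ^ 2 * ‖p 0‖ ^ 2 := by
    linarith
  have h5 : ‖p s‖ ^ 2 = ‖p 0‖ ^ 2 + 4 * prof Φ ‖q 0‖ - 4 * prof Φ ‖q s‖ := by linarith
  rw [div_pow, div_pow, h4, h5]
  field_simp
  ring

/-- The change of variables. -/
lemma HA_eq (hΦ : AdmissiblePotential Φ) (h : Turn Φ q p)
    (hpos : ∀ s, 0 < s → 0 < inner ℝ (q s) (p s))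
    (hlim : Tendsto (fun s => ‖q s‖) atTop atTop) :
    HA Φ ‖q 0‖ (‖p 0‖ ^ 2)⁻¹
      = ∫⁻ s in Ioi (0 : ℝ), ENNReal.ofReal (‖q 0‖ * ‖p 0‖ / ‖q s‖ ^ 2) := by
  have hr := h.rpos
  have hV := h.Vpos
  have hmono := h.strictMono_norm hΦ hpos
  unfold HA
  rw [← h.image_eq hΦ hpos hlim]
  have hder : ∀ s ∈ Ioi (0 : ℝ), HasDerivWithinAt (fun s => ‖q 0‖ / ‖q s‖)
      (-(‖q 0‖ * inner ℝ (q s) (p s) / ‖q s‖ ^ 3)) (Ioi 0) s := by
    intro s hs
    have h0 := h.norm_pos hΦ s
    have h1 := (hasDerivAt_const s ‖q 0‖).div (h.hasDerivAt_norm hΦ s) h0.ne'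
    have h2 : (0 * ‖q s‖ - ‖q 0‖ * (inner ℝ (q s) (p s) / ‖q s‖)) / ‖q s‖ ^ 2
        = -(‖q 0‖ * inner ℝ (q s) (p s) / ‖q s‖ ^ 3) := by
      field_simp
      ring
    rw [h2] at h1
    exact h1.hasDerivWithinAt
  have hinj : InjOn (fun s => ‖q 0‖ / ‖q s‖) (Ioi 0) := by
    intro s hs t ht hst
    have h1 := h.norm_pos hΦ s
    have h2 := h.norm_pos hΦ t
    have h3 : ‖q s‖ = ‖q t‖ := by
      simp only at hst
      rw [div_eq_div_iff h1.ne' h2.ne'] at hst
      nlinarith [mul_left_cancel₀ hr.ne' hst]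
    exact hmono.injOn (mem_Ici.2 (le_of_lt hs)) (mem_Ici.2 (le_of_lt ht)) h3
  rw [lintegral_image_eq_lintegral_abs_deriv_mul measurableSet_Ioi hder hinj]
  apply setLIntegral_congr_fun measurableSet_Ioi
  intro s hs
  have h0 := h.norm_pos hΦ s
  have h1 := hpos s hs
  show ENNReal.ofReal |-(‖q 0‖ * inner ℝ (q s) (p s) / ‖q s‖ ^ 3)|
    * ker (Pf Φ ‖q 0‖ (‖p 0‖ ^ 2)⁻¹ (‖q 0‖ / ‖q s‖)) = ENNReal.ofReal (‖q 0‖ * ‖p 0‖ / ‖q s‖ ^ 2)
  have h2 : 0 < inner ℝ (q s) (p s) / (‖q s‖ * ‖p 0‖) := by positivity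
  rw [h.Pf_eq hΦ s, ker_of_pos (by positivity), Real.sqrt_sq h2.le, abs_neg,
    abs_of_pos (by positivity), ← ENNReal.ofReal_mul (by positivity)]
  congr 1
  field_simp

/-! ### Conclusion for a trajectory -/

/-- The total half swept angle. -/
lemma limit_angle (hΦ : AdmissiblePotential Φ) (h : Turn Φ q p)
    (hpos : ∀ s, 0 < s → 0 < inner ℝ (q s) (p s)) {σ : ℝ} (hσ : 0 ≤ σ)
    (hafter : ∀ s, σ ≤ s → q s = q σ + (s - σ) • p σ) (hpσ : p σ ≠ 0)
    (hq1 : 0 ≤ inner ℝ (q σ) (p σ)) :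
    ∃ Θ : ℝ, 0 ≤ Θ ∧ HA Φ ‖q 0‖ (‖p 0‖ ^ 2)⁻¹ = ENNReal.ofReal Θ ∧
      Tendsto (theta q p) atTop (𝓝 Θ) ∧ Tendsto (fun s => ‖q s‖) atTop atTop := by
  have hr := h.rpos
  have hV := h.Vpos
  have hpn : 0 < ‖p σ‖ := norm_pos_iff.2 hpσ
  have hqn := h.norm_pos hΦ σ
  have hsq : ∀ s, σ ≤ s → ‖q σ‖ ^ 2 + (s - σ) ^ 2 * ‖p σ‖ ^ 2 ≤ ‖q s‖ ^ 2 := by
    intro s hs
    rw [hafter s hs, norm_sq_line]
    have : 0 ≤ 2 * (s - σ) * inner ℝ (q σ) (p σ) := by
      have : 0 ≤ s - σ := by linarith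
      positivity
    linarith
  have hge : ∀ s, σ ≤ s → (s - σ) * ‖p σ‖ ≤ ‖q s‖ := by
    intro s hs
    have h1 := hsq s hs
    have h2 : ((s - σ) * ‖p σ‖) ^ 2 ≤ ‖q s‖ ^ 2 := by
      rw [mul_pow]; nlinarith [sq_nonneg ‖q σ‖]
    exact (pow_le_pow_iff_left₀ (mul_nonneg (by linarith) hpn.le) (norm_nonneg _)
      (by norm_num)).1 h2
  have hlim : Tendsto (fun s => ‖q s‖) atTop atTop := by
    have h1 : Tendsto (fun s : ℝ => (s - σ) * ‖p σ‖) atTop atTop :=
      (tendsto_atTop_add_const_right _ (-σ) tendsto_id).atTop_mul_const hpn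
    refine tendsto_atTop_mono' atTop ?_ h1
    filter_upwards [eventually_ge_atTop σ] with s hs
    exact hge s hs
  -- integrability
  have hcr := h.continuous_rate hΦ
  have hint : IntegrableOn (fun t => ‖q 0‖ * ‖p 0‖ / ‖q t‖ ^ 2) (Ioi 0) := by
    have hunion : Ioi (0 : ℝ) = Ioc 0 σ ∪ Ioi σ := (Ioc_union_Ioi_eq_Ioi hσ).symm
    rw [hunion]
    refine IntegrableOn.union ?_ ?_
    · exact (hcr.integrableOn_Icc (a := 0) (b := σ)).mono_set Ioc_subset_Icc_self
    · set m : ℝ := min (‖q σ‖ ^ 2) (‖p σ‖ ^ 2) with hm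
      have hm0 : 0 < m := lt_min (by positivity) (by positivity)
      have h1 : Integrable (fun s : ℝ => (‖q 0‖ * ‖p 0‖ / m) * (1 + (s - σ) ^ 2)⁻¹) :=
        (integrable_inv_one_add_sq.comp_sub_right σ).const_mul _
      refine h1.integrableOn.mono' (hcr.measurable.aestronglyMeasurable) ?_
      filter_upwards [ae_restrict_mem measurableSet_Ioi] with s hs
      have h0 := h.norm_pos hΦ s
      rw [Real.norm_of_nonneg (by positivity)]
      have h2 := hsq s (le_of_lt hs)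
      have h3 : m * (1 + (s - σ) ^ 2) ≤ ‖q s‖ ^ 2 := by
        have h4 : m ≤ ‖q σ‖ ^ 2 := min_le_left _ _
        have h5 : m ≤ ‖p σ‖ ^ 2 := min_le_right _ _
        nlinarith [sq_nonneg (s - σ), mul_le_mul_of_nonneg_left h5 (sq_nonneg (s - σ))]
      rw [div_mul_eq_mul_div, ← div_eq_mul_inv, div_div]
      have h6 : (1 + (s - σ) ^ 2) * m = m * (1 + (s - σ) ^ 2) := by ring
      rw [h6]
      exact div_le_div_of_nonneg_left (by positivity) (by positivity) h3
  have hth : Tendsto (theta q p) atTop (𝓝 (∫ t in Ioi (0 : ℝ), ‖q 0‖ * ‖p 0‖ / ‖q t‖ ^ 2)) :=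
    intervalIntegral_tendsto_integral_Ioi 0 hint tendsto_id
  refine ⟨∫ t in Ioi (0 : ℝ), ‖q 0‖ * ‖p 0‖ / ‖q t‖ ^ 2,
    integral_nonneg fun t => by positivity, ?_, hth, hlim⟩
  rw [h.HA_eq hΦ hpos hlim, ← ofReal_integral_eq_lintegral_ofReal hint
    (Eventually.of_forall fun t => by positivity)]

/-- Limit of the components along a fixed direction orthogonal to the final velocity. -/
lemma tendsto_comp {σ : ℝ} (hafter : ∀ s, σ ≤ s → q s = q σ + (s - σ) • p σ)
    (hlim : Tendsto (fun s => ‖q s‖) atTop atTop) {n : Space3} {c : ℝ}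
    (hperp : inner ℝ n (p σ) = (0 : ℝ)) :
    Tendsto (fun s => inner ℝ n (q s) / (c * ‖q s‖)) atTop (𝓝 (0 : ℝ)) := by
  have h3 : Tendsto (fun s => (inner ℝ n (q σ) / c) / ‖q s‖) atTop (𝓝 (0 : ℝ)) :=
    hlim.const_div_atTop _
  refine h3.congr' ?_
  filter_upwards [eventually_ge_atTop σ] with s hs
  conv_rhs => rw [hafter s hs, inner_add_right, inner_smul_right, hperp, mul_zero, add_zero]
  rw [← hafter s hs, div_div]

lemma badVal_of (hΦ : AdmissiblePotential Φ) (h : Turn Φ q p)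
    (hpos : ∀ s, 0 < s → 0 < inner ℝ (q s) (p s)) {σ : ℝ} (hσ : 0 ≤ σ)
    (hafter : ∀ s, σ ≤ s → q s = q σ + (s - σ) • p σ) (hpσ : p σ ≠ 0)
    (hq1 : 0 ≤ inner ℝ (q σ) (p σ)) (hperp : inner ℝ (p 0) (p σ) = (0 : ℝ)) :
    HA Φ ‖q 0‖ (‖p 0‖ ^ 2)⁻¹ ∈ badVal := by
  obtain ⟨Θ, hΘ0, hHA, hth, hlim⟩ := h.limit_angle hΦ hpos hσ hafter hpσ hq1
  have hsin : Real.sin Θ = 0 := by
    have h1 : Tendsto (fun s => Real.sin (theta q p s)) atTop (𝓝 (Real.sin Θ)) :=
      (Real.continuous_sin.tendsto Θ).comp hth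
    have h2 : Tendsto (fun s => Real.sin (theta q p s)) atTop (𝓝 0) :=
      (tendsto_comp (c := ‖p 0‖) hafter hlim hperp).congr fun s => h.sin_theta hΦ s
    exact tendsto_nhds_unique h1 h2
  obtain ⟨n, hn⟩ := Real.sin_eq_zero_iff.1 hsin
  have hn0 : 0 ≤ n := by
    have : 0 ≤ (n : ℝ) := by
      by_contra hneg
      rw [not_le] at hneg
      have := mul_neg_of_neg_of_pos hneg Real.pi_pos
      linarith
    exact_mod_cast this
  obtain ⟨k, rfl⟩ := Int.eq_ofNat_of_zero_le hn0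
  refine ⟨k, ?_⟩
  show ENNReal.ofReal (k * Real.pi) = HA Φ ‖q 0‖ (‖p 0‖ ^ 2)⁻¹
  rw [hHA, ← hn]
  norm_cast

end Turn

/-! ### Scattering data -/

theorem mem_badImg (hΦ : AdmissiblePotential Φ) {b g : Space3} (hb : b ∈ impactDisc g)
    (hb0 : b ≠ 0) (hg : g ≠ 0) (hsw : exitVelocity Φ b g = -g) : (‖g‖, ‖b‖) ∈ badImg Φ := by
  have hreg : Reg Φ (inc b g).1 := reg_entrance Φ hb hg
  have hbn : 0 < ‖b‖ := norm_pos_iff.2 hb0
  have hgn : 0 < ‖g‖ := norm_pos_iff.2 hg
  have hex : ∃ τ, HasExit Φ (inc b g) τ := by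
    by_contra hno
    rw [exitVelocity_of_not hΦ hreg hno] at hsw
    have h1 : (2 : ℝ) • g = 0 := by
      rw [two_smul]; nth_rewrite 2 [hsw]; exact add_neg_cancel g
    rcases smul_eq_zero.1 h1 with h2 | h2
    · norm_num at h2
    · exact hg h2
  obtain ⟨τ, hτ⟩ := hex
  obtain ⟨ht1, ht2⟩ := hτ.turning hΦ hb hg
  rw [exitVelocity_eq hΦ hreg hτ] at hsw
  set s0 : ℝ := τ / 2 with hs0
  have hs0pos : 0 < s0 := by have := hτ.1; positivity
  set z := inc b g with hz
  set q : ℝ → Space3 := fun s => (relFlow Φ (s0 + s) z).1 with hq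
  set p : ℝ → Space3 := fun s => (relFlow Φ (s0 + s) z).2 with hp
  have hrel : IsRel Φ q p := (isRel_relFlow hΦ hreg).shift s0
  have hq0 : q 0 = (relFlow Φ s0 z).1 := by simp [hq]
  have hp0 : p 0 = (relFlow Φ s0 z).2 := by simp [hp]
  have horth : inner ℝ (q 0) (p 0) = (0 : ℝ) := by rw [hq0, hp0]; exact ht1
  have ham : ‖q 0‖ ^ 2 * ‖p 0‖ ^ 2 = ‖g‖ ^ 2 * ‖b‖ ^ 2 := by
    have h1 := am_relFlow hΦ hreg s0
    have h2 : am z.1 z.2 = ‖g‖ ^ 2 * ‖b‖ ^ 2 := am_entrance hb hg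
    rw [h2, am, ht1, ← hq0, ← hp0] at h1
    linarith
  have hprod : 0 < ‖q 0‖ ^ 2 * ‖p 0‖ ^ 2 := by rw [ham]; positivity
  have hqne : q 0 ≠ 0 := by
    intro h0; rw [h0] at hprod; simp at hprod
  have hpne : p 0 ≠ 0 := by
    intro h0; rw [h0] at hprod; simp at hprod
  have hT : Turn Φ q p := ⟨hrel, horth, hqne, hpne⟩
  have hrefl := relFlow_reflect hΦ hreg (s0 := s0) ht1
  set S := (Submodule.span ℝ {(relFlow Φ s0 z).1}).reflection with hS
  have hτs : s0 + s0 = τ := by rw [hs0]; ring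
  have hafter : ∀ s, s0 ≤ s → q s = q s0 + (s - s0) • p s0 ∧ p s = p s0 := by
    intro s hs
    have h1 := hτ.after hΦ hreg (s := s0 + s) (by linarith)
    have h2 : s0 + s - τ = s - s0 := by rw [← hτs]; ring
    rw [h2] at h1
    constructor
    · show (relFlow Φ (s0 + s) z).1 = (relFlow Φ (s0 + s0) z).1 + (s - s0) • (relFlow Φ (s0 + s0) z).2
      rw [h1, hτs]
    · show (relFlow Φ (s0 + s) z).2 = (relFlow Φ (s0 + s0) z).2
      rw [h1, hτs]
  have hin : 0 < inner ℝ (q s0) (p s0) := by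
    have := hτ.inner_pos hΦ hreg
    simp only [hq, hp, hτs]
    exact this
  have hpos : ∀ s, 0 < s → 0 < inner ℝ (q s) (p s) := by
    intro s hs
    rcases le_total s s0 with hle | hle
    · rcases lt_or_eq_of_le hle with hlt | heq
      · have h1 := ht2 (s0 - s) ⟨by linarith, by linarith⟩
        rw [hrefl s] at h1
        simp only [inner_neg_right, LinearIsometryEquiv.inner_map_map] at h1
        show 0 < inner ℝ (relFlow Φ (s0 + s) z).1 (relFlow Φ (s0 + s) z).2
        linarith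
      · rw [heq]; exact hin
    · obtain ⟨h1, h2⟩ := hafter s hle
      rw [h1, h2, inner_add_left, inner_smul_left, real_inner_self_eq_norm_sq]
      simp only [conj_trivial]
      have : 0 ≤ (s - s0) * ‖p s0‖ ^ 2 := mul_nonneg (by linarith) (by positivity)
      linarith
  have hps0 : p s0 = -g := by
    show (relFlow Φ (s0 + s0) z).2 = -g
    rw [hτs]; exact hsw
  have hperp : inner ℝ (p 0) (p s0) = (0 : ℝ) := by
    have h1 := hrefl s0
    rw [sub_self, relFlow_zero hΦ] at h1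
    have h2 : g = -S (p s0) := congrArg Prod.snd h1
    have h3 : S (p s0) = p s0 := by
      rw [hps0] at h2 ⊢
      rw [eq_comm, neg_eq_iff_eq_neg]; exact h2
    have h4 : S (p 0) = -p 0 := by
      apply Submodule.reflection_mem_subspace_orthogonalComplement_eq_neg
      rw [Submodule.mem_orthogonal_singleton_iff_inner_right, hp0]
      exact ht1
    have h5 : inner ℝ (S (p 0)) (S (p s0)) = inner ℝ (p 0) (p s0) :=
      LinearIsometryEquiv.inner_map_map S _ _
    rw [h3, h4, inner_neg_left] at h5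
    linarith
  have hbad := hT.badVal_of hΦ hpos hs0pos.le (fun s hs => (hafter s hs).1)
    (by rw [hps0]; exact neg_ne_zero.2 hg) hin.le hperp
  have hrp := hT.rpos
  have hVp := hT.Vpos
  have hE : ‖g‖ ^ 2 = ‖p 0‖ ^ 2 + 4 * prof Φ ‖q 0‖ := by
    have h1 := hT.energy_eq hΦ (-s0)
    have h2 : relFlow Φ (s0 + -s0) z = z := by rw [add_neg_cancel]; exact relFlow_zero hΦ z
    have h3 : q (-s0) = entrancePoint b g := congrArg Prod.fst h2
    have h4 : p (-s0) = g := congrArg Prod.snd h2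
    rw [h3, h4, norm_entrance hb hg, prof_eq_zero hΦ le_rfl] at h1
    linarith
  have hE' : 4 * prof Φ ‖q 0‖ + ((‖p 0‖ ^ 2)⁻¹)⁻¹ = ‖g‖ ^ 2 := by
    rw [inv_inv, hE]; ring
  refine ⟨(‖q 0‖, (‖p 0‖ ^ 2)⁻¹), ⟨⟨hrp, hbad⟩, hrp, by positivity, ?_⟩, ?_⟩
  · show 0 < 4 * prof Φ ‖q 0‖ + ((‖p 0‖ ^ 2)⁻¹)⁻¹
    rw [hE']; positivity
  · unfold Gm
    simp only
    rw [hE', Real.sqrt_sq hgn.le, Real.sqrt_inv, Real.sqrt_sq hVp.le]
    ext1
    · rfl
    · show ‖q 0‖ / (‖p 0‖⁻¹ * ‖g‖) = ‖b‖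
      have h1 : (‖q 0‖ * ‖p 0‖) ^ 2 = (‖g‖ * ‖b‖) ^ 2 := by rw [mul_pow, mul_pow]; exact ham
      have h2 : ‖q 0‖ * ‖p 0‖ = ‖g‖ * ‖b‖ :=
        (pow_left_inj₀ (by positivity) (by positivity) (by norm_num)).1 h1
      rw [div_mul_eq_div_div, div_inv_eq_mul, h2]
      field_simp

/-- **Exact exchange of velocities has measure zero** (planar form). -/
theorem ae_volume_swap (hΦ : AdmissiblePotential Φ) :
    ∀ᵐ g : Space3, volume {y : Disc416.Plane | Disc416.frameMap g y ∈ impactDisc g ∧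
      exitVelocity Φ (Disc416.frameMap g y) g = -g} = 0 := by
  have hne : ∀ᵐ g : Space3, g ≠ 0 := by
    rw [ae_iff]
    simp
  filter_upwards [ae_speed hΦ, hne] with g hgb hg
  have hsub : {y : Disc416.Plane | Disc416.frameMap g y ∈ impactDisc g ∧
      exitVelocity Φ (Disc416.frameMap g y) g = -g} ⊆
      {0} ∪ {y | ‖y‖ ∈ {ρ : ℝ | (‖g‖, ρ) ∈ badImg Φ}} := by
    rintro y ⟨hmem, hsw⟩
    by_cases hy : y = 0
    · exact Or.inl hy
    · right
      have hypos : 0 < ‖y‖ := norm_pos_iff.2 hy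
      have hb0 : Disc416.frameMap g y ≠ 0 := by
        rw [← norm_pos_iff, Disc416.norm_frameMap hg]; exact hypos
      have h1 := mem_badImg hΦ hmem hb0 hg hsw
      rw [Disc416.norm_frameMap hg] at h1
      exact h1
  refine measure_mono_null hsub (measure_union_null (by simp) ?_)
  have : Nontrivial Disc416.Plane := by
    unfold Disc416.Plane; infer_instance
  exact measure_norm_preimage_null volume hgb

/-- **Exact exchange of velocities has measure zero.** -/
theorem ae_measure_swap (hΦ : AdmissiblePotential Φ) :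
    ∀ᵐ g : Space3, (μHE[2] : Measure Space3)
      {b | b ∈ impactDisc g ∧ exitVelocity Φ b g = -g} = 0 := by
  have hne : ∀ᵐ g : Space3, g ≠ 0 := by
    rw [ae_iff]
    simp
  filter_upwards [ae_volume_swap hΦ, hne] with g hgb hg
  have hemb : MeasurableEmbedding (Disc416.frameMap g) :=
    (Disc416.isometry_frameMap hg).isClosedEmbedding.measurableEmbedding
  have h1 : (μHE[2] : Measure Space3) {b | b ∈ impactDisc g ∧ exitVelocity Φ b g = -g}
      ≤ ((μHE[2] : Measure Space3).restrict (impactDisc g))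
        {b | b ∈ impactDisc g ∧ exitVelocity Φ b g = -g} := by
    rw [Measure.restrict_eq_self _
      (fun b (hb : b ∈ {b | b ∈ impactDisc g ∧ exitVelocity Φ b g = -g}) => hb.1)]
  refine le_antisymm (h1.trans ?_) zero_le
  rw [← Disc416.map_frameMap hg, hemb.map_apply]
  exact (Measure.restrict_apply_le _ _).trans hgb.le

end Crest.Agent.R122.Swap350
end
end

-- ▼ part R122/Swap3_350
section

/-!
# Row 122: a passage without deflection is free, up to a null event
-/

set_option autoImplicit false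

open MeasureTheory Filter Set
open scoped Topology NNReal ENNReal
open Crest.AnalysisR.Kinetic

noncomputable section

namespace Crest.Agent.R122.Swap350

open Scat818

variable {Φ : Space3 → ℝ}

/-- The potential vanishes beyond `r`. -/
def Flat (Φ : Space3 → ℝ) (r : ℝ) : Prop := ∀ ρ, r ≤ ρ → prof Φ ρ = 0

lemma Flat.mono {r r' : ℝ} (h : Flat Φ r) (hr : r ≤ r') : Flat Φ r' := fun ρ hρ => h ρ (hr.trans hρ)

lemma measurableSet_flat (Φ : Space3 → ℝ) : MeasurableSet {r : ℝ | Flat Φ r} := by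
  apply Set.OrdConnected.measurableSet
  exact ⟨fun x hx _ _ z hz => Flat.mono hx hz.1⟩

lemma flat_of_const (hΦ : AdmissiblePotential Φ) {r : ℝ} (hr : 0 < r)
    (h : ∀ w ∈ Ioo (0 : ℝ) 1, prof Φ (r / w) = prof Φ r) : Flat Φ r := by
  have h0 := flat_zero hΦ hr h
  intro ρ hρ
  rcases eq_or_lt_of_le hρ with h1 | h1
  · rw [← h1]; exact h0
  · have hρ0 : 0 < ρ := hr.trans h1
    have h2 := h (r / ρ) ⟨by positivity, (div_lt_one hρ0).2 h1⟩
    have h3 : r / (r / ρ) = ρ := by field_simp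
    rw [h3] at h2
    rw [h2, h0]

lemma Flat.deriv_eq_zero (hΦ : AdmissiblePotential Φ) {r ρ : ℝ} (hr : 0 < r) (h : Flat Φ r)
    (hρ : r ≤ ρ) : deriv (prof Φ) ρ = 0 := by
  have hr0 : ρ ≠ 0 := by linarith
  have h1 : HasDerivWithinAt (prof Φ) (deriv (prof Φ) ρ) (Ici ρ) ρ :=
    (prof_hasDerivAt hΦ hr0).hasDerivWithinAt
  have h2 : HasDerivWithinAt (prof Φ) 0 (Ici ρ) ρ := by
    have h3 : HasDerivWithinAt (fun _ : ℝ => (0:ℝ)) 0 (Ici ρ) ρ := hasDerivWithinAt_const _ _ _
    refine h3.congr (fun y hy => h y (hρ.trans hy)) (h ρ hρ)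
  exact (uniqueDiffWithinAt_Ici ρ).eq_deriv _ h1 h2

lemma Flat.force_eq_zero (hΦ : AdmissiblePotential Φ) {r : ℝ} (hr : 0 < r) (h : Flat Φ r)
    {x : Space3} (hx : r ≤ ‖x‖) : force Φ x = 0 := by
  rw [force, gradient_eq hΦ, h.deriv_eq_zero hΦ hr hx, zero_div, zero_smul, smul_zero]

/-- Trajectories staying in the flat region are free. -/
lemma IsRel.free (hΦ : AdmissiblePotential Φ) {q p : ℝ → Space3} (h : IsRel Φ q p) {r : ℝ}
    (hr : 0 < r) (hf : Flat Φ r) (hq : ∀ s, r ≤ ‖q s‖) (s t : ℝ) :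
    p s = p t ∧ q s = q t + (s - t) • p t := by
  have hp : ∀ s t, p s = p t := by
    apply is_const_of_deriv_eq_zero (fun s => (h.vel s).differentiableAt)
    intro s
    rw [(h.vel s).deriv, hf.force_eq_zero hΦ hr (hq s)]
  refine ⟨hp s t, ?_⟩
  have h1 : ∀ s t, q s - (s - 0) • p 0 = q t - (t - 0) • p 0 := by
    apply is_const_of_deriv_eq_zero (f := fun s => q s - (s - 0) • p 0)
    · intro s
      exact (h.pos s).differentiableAt.sub
        (((differentiableAt_id).sub_const 0).smul_const (p 0))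
    · intro s
      have h2 : HasDerivAt (fun s : ℝ => q s - (s - 0) • p 0) (p s - (1 : ℝ) • p 0) s :=
        (h.pos s).sub (((hasDerivAt_id s).sub_const 0).smul_const (p 0))
      rw [h2.deriv, one_smul, hp s 0, sub_self]
  have h2 := h1 s t
  rw [hp t 0]
  have h3 : q s = q t - (t - 0) • p 0 + (s - 0) • p 0 := by rw [← h2]; abel
  rw [h3, sub_zero, sub_zero, sub_smul]
  abel

/-! ### Exceptional values -/

/-- The exceptional values for a passage without deflection. -/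
def badVal2 : Set ℝ≥0∞ := range fun n : ℕ => ENNReal.ofReal (Real.pi / 2 + n * Real.pi)

lemma countable_badVal2 : badVal2.Countable := countable_range _

lemma finite_level2 (hΦ : AdmissiblePotential Φ) {r : ℝ} (hr : 0 < r) (hf : ¬ Flat Φ r) (n : ℕ) :
    {y : ℝ | HA Φ r y = ENNReal.ofReal (Real.pi / 2 + n * Real.pi)}.Finite := by
  by_contra hinf
  obtain ⟨t, hts, hcard⟩ := Set.Infinite.exists_subset_card_eq hinf 3
  have hmem : ∀ i : Fin 3, t.orderEmbOfFin hcard i ∈
      {y : ℝ | HA Φ r y = ENNReal.ofReal (Real.pi / 2 + n * Real.pi)} := fun i =>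
    hts (Finset.orderEmbOfFin_mem t hcard i)
  have h01 : t.orderEmbOfFin hcard 0 < t.orderEmbOfFin hcard 1 :=
    (t.orderEmbOfFin hcard).strictMono (by decide)
  have h12 : t.orderEmbOfFin hcard 1 < t.orderEmbOfFin hcard 2 :=
    (t.orderEmbOfFin hcard).strictMono (by decide)
  have h := three hΦ hr ENNReal.ofReal_ne_top h01 h12 (hmem 0) (hmem 1) (hmem 2)
  exact hf (flat_of_const hΦ hr h)

/-- The bad parameters. -/
def badPar2 (Φ : Space3 → ℝ) : Set (ℝ × ℝ) :=
  {p | 0 < p.1 ∧ ¬ Flat Φ p.1 ∧ HA Φ p.1 p.2 ∈ badVal2}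

lemma measurableSet_badPar2 (hΦ : AdmissiblePotential Φ) : MeasurableSet (badPar2 Φ) :=
  (measurableSet_lt measurable_const measurable_fst).inter
    ((measurable_fst (measurableSet_flat Φ).compl).inter
      (measurable_HA hΦ countable_badVal2.measurableSet))

lemma volume_badPar2 (hΦ : AdmissiblePotential Φ) : volume (badPar2 Φ) = 0 := by
  rw [Measure.volume_eq_prod, Measure.measure_prod_null (measurableSet_badPar2 hΦ)]
  apply Eventually.of_forall
  intro r
  show volume (Prod.mk r ⁻¹' badPar2 Φ) = 0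
  by_cases hr : 0 < r ∧ ¬ Flat Φ r
  · have hsub : Prod.mk r ⁻¹' badPar2 Φ ⊆
        ⋃ n : ℕ, {y : ℝ | HA Φ r y = ENNReal.ofReal (Real.pi / 2 + n * Real.pi)} := by
      rintro y ⟨_, _, n, hn⟩
      exact mem_iUnion.2 ⟨n, hn.symm⟩
    exact ((countable_iUnion fun n => (finite_level2 hΦ hr.1 hr.2 n).countable).mono
      hsub).measure_zero _
  · have : Prod.mk r ⁻¹' badPar2 Φ = ∅ := by
      ext y
      simp only [mem_empty_iff_false, iff_false]
      exact fun h => hr ⟨h.1, h.2.1⟩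
    rw [this]; simp

/-- The image of the bad parameters. -/
def badImg2 (Φ : Space3 → ℝ) : Set (ℝ × ℝ) := Gm Φ '' (badPar2 Φ ∩ dom Φ)

lemma volume_badImg2 (hΦ : AdmissiblePotential Φ) : volume (badImg2 Φ) = 0 := by
  apply addHaar_image_eq_zero_of_differentiableOn_of_addHaar_eq_zero volume
  · intro p hp
    exact (differentiableAt_Gm hΦ hp.2).differentiableWithinAt
  · exact measure_mono_null inter_subset_left (volume_badPar2 hΦ)

lemma ae_speed2 (hΦ : AdmissiblePotential Φ) :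
    ∀ᵐ g : Space3, volume {ρ : ℝ | (‖g‖, ρ) ∈ badImg2 Φ} = 0 := by
  have h1 : ∀ᵐ e : ℝ, volume (Prod.mk e ⁻¹' badImg2 Φ) = 0 :=
    Measure.measure_ae_null_of_prod_null (μ := (volume : Measure ℝ)) (ν := (volume : Measure ℝ))
      (by rw [← Measure.volume_eq_prod]; exact volume_badImg2 hΦ)
  have h2 : volume {e : ℝ | volume (Prod.mk e ⁻¹' badImg2 Φ) ≠ 0} = 0 := h1
  have : Nontrivial Space3 := by infer_instance
  exact measure_norm_preimage_null (volume : Measure Space3) h2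

/-! ### The turning point of a passage -/

/-- All data of a passage seen from its turning point. -/
theorem exists_turn (hΦ : AdmissiblePotential Φ) {b g : Space3} (hb : b ∈ impactDisc g)
    (hb0 : b ≠ 0) (hg : g ≠ 0) {τ : ℝ} (hτ : HasExit Φ (inc b g) τ) :
    ∃ q p : ℝ → Space3, Turn Φ q p ∧
      (∀ s, q s = (relFlow Φ (τ / 2 + s) (inc b g)).1 ∧
        p s = (relFlow Φ (τ / 2 + s) (inc b g)).2) ∧
      (∀ s, 0 < s → 0 < inner ℝ (q s) (p s)) ∧
      (∀ s, τ / 2 ≤ s → q s = q (τ / 2) + (s - τ / 2) • p (τ / 2) ∧ p s = p (τ / 2)) ∧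
      p (τ / 2) = exitVelocity Φ b g ∧ p (-(τ / 2)) = g ∧ q (-(τ / 2)) = entrancePoint b g ∧
      (∀ s, ‖q (-s)‖ = ‖q s‖) ∧
      (inner ℝ (q 0) g = -inner ℝ (q 0) (exitVelocity Φ b g)) ∧
      (inner ℝ (p 0) g = (inner ℝ (p 0) (exitVelocity Φ b g) : ℝ)) ∧
      (‖q 0‖, (‖p 0‖ ^ 2)⁻¹) ∈ dom Φ ∧ Gm Φ (‖q 0‖, (‖p 0‖ ^ 2)⁻¹) = (‖g‖, ‖b‖) := by
  have hreg : Reg Φ (inc b g).1 := reg_entrance Φ hb hg
  have hbn : 0 < ‖b‖ := norm_pos_iff.2 hb0
  have hgn : 0 < ‖g‖ := norm_pos_iff.2 hg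
  obtain ⟨ht1, ht2⟩ := hτ.turning hΦ hb hg
  have hev := exitVelocity_eq hΦ hreg hτ
  set s0 : ℝ := τ / 2 with hs0
  have hs0pos : 0 < s0 := by have := hτ.1; positivity
  set z := inc b g with hz
  set q : ℝ → Space3 := fun s => (relFlow Φ (s0 + s) z).1 with hq
  set p : ℝ → Space3 := fun s => (relFlow Φ (s0 + s) z).2 with hp
  have hrel : IsRel Φ q p := (isRel_relFlow hΦ hreg).shift s0
  have hq0 : q 0 = (relFlow Φ s0 z).1 := by simp [hq]
  have hp0 : p 0 = (relFlow Φ s0 z).2 := by simp [hp]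
  have horth : inner ℝ (q 0) (p 0) = (0 : ℝ) := by rw [hq0, hp0]; exact ht1
  have ham : ‖q 0‖ ^ 2 * ‖p 0‖ ^ 2 = ‖g‖ ^ 2 * ‖b‖ ^ 2 := by
    have h1 := am_relFlow hΦ hreg s0
    have h2 : am z.1 z.2 = ‖g‖ ^ 2 * ‖b‖ ^ 2 := am_entrance hb hg
    rw [h2, am, ht1, ← hq0, ← hp0] at h1
    linarith
  have hprod : 0 < ‖q 0‖ ^ 2 * ‖p 0‖ ^ 2 := by rw [ham]; positivity
  have hqne : q 0 ≠ 0 := by
    intro h0; rw [h0] at hprod; simp at hprod
  have hpne : p 0 ≠ 0 := by
    intro h0; rw [h0] at hprod; simp at hprod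
  have hT : Turn Φ q p := ⟨hrel, horth, hqne, hpne⟩
  have hrefl := relFlow_reflect hΦ hreg (s0 := s0) ht1
  set S := (Submodule.span ℝ {(relFlow Φ s0 z).1}).reflection with hS
  have hτs : s0 + s0 = τ := by rw [hs0]; ring
  have hafter : ∀ s, s0 ≤ s → q s = q s0 + (s - s0) • p s0 ∧ p s = p s0 := by
    intro s hs
    have h1 := hτ.after hΦ hreg (s := s0 + s) (by linarith)
    have h2 : s0 + s - τ = s - s0 := by rw [← hτs]; ring
    rw [h2] at h1
    constructor
    · show (relFlow Φ (s0 + s) z).1 = (relFlow Φ (s0 + s0) z).1 + (s - s0) • (relFlow Φ (s0 + s0) z).2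
      rw [h1, hτs]
    · show (relFlow Φ (s0 + s) z).2 = (relFlow Φ (s0 + s0) z).2
      rw [h1, hτs]
  have hin : 0 < inner ℝ (q s0) (p s0) := by
    have := hτ.inner_pos hΦ hreg
    simp only [hq, hp, hτs]
    exact this
  have hpos : ∀ s, 0 < s → 0 < inner ℝ (q s) (p s) := by
    intro s hs
    rcases le_total s s0 with hle | hle
    · rcases lt_or_eq_of_le hle with hlt | heq
      · have h1 := ht2 (s0 - s) ⟨by linarith, by linarith⟩
        rw [hrefl s] at h1
        simp only [inner_neg_right, LinearIsometryEquiv.inner_map_map] at h1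
        show 0 < inner ℝ (relFlow Φ (s0 + s) z).1 (relFlow Φ (s0 + s) z).2
        linarith
      · rw [heq]; exact hin
    · obtain ⟨h1, h2⟩ := hafter s hle
      rw [h1, h2, inner_add_left, inner_smul_left, real_inner_self_eq_norm_sq]
      simp only [conj_trivial]
      have : 0 ≤ (s - s0) * ‖p s0‖ ^ 2 := mul_nonneg (by linarith) (by positivity)
      linarith
  have hps0 : p s0 = exitVelocity Φ b g := by
    show (relFlow Φ (s0 + s0) z).2 = _
    rw [hτs, hev]
  have hm0 : relFlow Φ (s0 + -s0) z = z := by rw [add_neg_cancel]; exact relFlow_zero hΦ z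
  have hqm : q (-s0) = entrancePoint b g := congrArg Prod.fst hm0
  have hpm : p (-s0) = g := congrArg Prod.snd hm0
  have hgS : g = -S (p s0) := by
    have h1 := hrefl s0
    rw [sub_self, relFlow_zero hΦ] at h1
    exact congrArg Prod.snd h1
  have hSq : S (q 0) = q 0 := by
    rw [hq0]
    exact Submodule.reflection_mem_subspace_eq_self (Submodule.mem_span_singleton_self _)
  have hSp : S (p 0) = -p 0 := by
    apply Submodule.reflection_mem_subspace_orthogonalComplement_eq_neg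
    rw [Submodule.mem_orthogonal_singleton_iff_inner_right, hp0]
    exact ht1
  have hnorm : ∀ s, ‖q (-s)‖ = ‖q s‖ := by
    intro s
    show ‖(relFlow Φ (s0 + -s) z).1‖ = ‖(relFlow Φ (s0 + s) z).1‖
    rw [← sub_eq_add_neg, hrefl s]
    simp
  have hrp := hT.rpos
  have hVp := hT.Vpos
  have hE : ‖g‖ ^ 2 = ‖p 0‖ ^ 2 + 4 * prof Φ ‖q 0‖ := by
    have h1 := hT.energy_eq hΦ (-s0)
    rw [hqm, hpm, norm_entrance hb hg, prof_eq_zero hΦ le_rfl] at h1
    linarith
  have hE' : 4 * prof Φ ‖q 0‖ + ((‖p 0‖ ^ 2)⁻¹)⁻¹ = ‖g‖ ^ 2 := by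
    rw [inv_inv, hE]; ring
  refine ⟨q, p, hT, fun s => ⟨rfl, rfl⟩, hpos, hafter, hps0, hpm, hqm, hnorm, ?_, ?_,
    ⟨hrp, by positivity, ?_⟩, ?_⟩
  · have h5 : inner ℝ (S (q 0)) (S (p s0)) = (inner ℝ (q 0) (p s0) : ℝ) :=
      LinearIsometryEquiv.inner_map_map S _ _
    rw [hSq] at h5
    rw [← hps0, ← h5]
    conv_lhs => rw [hgS]
    rw [inner_neg_right]
  · have h5 : inner ℝ (S (p 0)) (S (p s0)) = (inner ℝ (p 0) (p s0) : ℝ) :=
      LinearIsometryEquiv.inner_map_map S _ _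
    rw [hSp, inner_neg_left] at h5
    rw [← hps0, ← h5]
    conv_lhs => rw [hgS]
    rw [inner_neg_right]
  · show 0 < 4 * prof Φ ‖q 0‖ + ((‖p 0‖ ^ 2)⁻¹)⁻¹
    rw [hE']; positivity
  · unfold Gm
    simp only
    rw [hE', Real.sqrt_sq hgn.le, Real.sqrt_inv, Real.sqrt_sq hVp.le]
    ext1
    · rfl
    · show ‖q 0‖ / (‖p 0‖⁻¹ * ‖g‖) = ‖b‖
      have h1 : (‖q 0‖ * ‖p 0‖) ^ 2 = (‖g‖ * ‖b‖) ^ 2 := by rw [mul_pow, mul_pow]; exact ham
      have h2 : ‖q 0‖ * ‖p 0‖ = ‖g‖ * ‖b‖ :=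
        (pow_left_inj₀ (by positivity) (by positivity) (by norm_num)).1 h1
      rw [div_mul_eq_div_div, div_inv_eq_mul, h2]
      field_simp

/-- **A passage without deflection is free**, or the data belong to the null set `badImg2`. -/
theorem free_or_bad (hΦ : AdmissiblePotential Φ) {b g : Space3} (hb : b ∈ impactDisc g)
    (hb0 : b ≠ 0) (hg : g ≠ 0) {τ : ℝ} (hτ : HasExit Φ (inc b g) τ)
    (hev : exitVelocity Φ b g = g) :
    (∀ t, relFlow Φ t (inc b g) = (entrancePoint b g + t • g, g)) ∨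
      (‖g‖, ‖b‖) ∈ badImg2 Φ := by
  obtain ⟨q, p, hT, hqp, hpos, hafter, hps, hpm, hqm, hnorm, hi1, -, hdom, hGm⟩ :=
    exists_turn hΦ hb hb0 hg hτ
  have hs0 : 0 ≤ τ / 2 := by have := hτ.1; positivity
  by_cases hf : Flat Φ ‖q 0‖
  · left
    have hmono := hT.strictMono_norm hΦ hpos
    have hge : ∀ s, ‖q 0‖ ≤ ‖q s‖ := by
      intro s
      rcases le_total 0 s with h | h
      · exact hmono.monotoneOn (mem_Ici.2 le_rfl) (mem_Ici.2 h) h
      · rw [← neg_neg s, hnorm (-s)]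
        exact hmono.monotoneOn (mem_Ici.2 le_rfl) (mem_Ici.2 (by linarith : (0 : ℝ) ≤ -s))
          (by linarith : (0 : ℝ) ≤ -s)
    intro t
    obtain ⟨h1, h2⟩ := IsRel.free hΦ hT.rel hT.rpos hf hge (t - τ / 2) (-(τ / 2))
    rw [hpm] at h1 h2
    rw [hqm] at h2
    have h3 : t - τ / 2 - -(τ / 2) = t := by ring
    rw [h3] at h2
    obtain ⟨h4, h5⟩ := hqp (t - τ / 2)
    have h6 : τ / 2 + (t - τ / 2) = t := by ring
    rw [h6] at h4 h5
    ext1
    · rw [← h4, h2]
    · rw [← h5, h1]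
  · right
    refine ⟨_, ⟨⟨hT.rpos, hf, ?_⟩, hdom⟩, hGm⟩
    rw [hev] at hps hi1
    have hperp : inner ℝ (q 0) (p (τ / 2)) = (0 : ℝ) := by
      rw [hps]; linarith
    have hin : 0 ≤ inner ℝ (q (τ / 2)) (p (τ / 2)) := by
      have := hτ.1
      exact (hpos _ (by positivity)).le
    obtain ⟨Θ, hΘ0, hHA, hth, hlim⟩ := hT.limit_angle hΦ hpos hs0 (fun s hs => (hafter s hs).1)
      (by rw [hps]; exact hg) hin
    have hcos : Real.cos Θ = 0 := by
      have h1 : Tendsto (fun s => Real.cos (Turn.theta q p s)) atTop (𝓝 (Real.cos Θ)) :=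
        (Real.continuous_cos.tendsto Θ).comp hth
      have h2 : Tendsto (fun s => Real.cos (Turn.theta q p s)) atTop (𝓝 0) :=
        (Turn.tendsto_comp (c := ‖q 0‖) (fun s hs => (hafter s hs).1) hlim hperp).congr
          fun s => hT.cos_theta hΦ s
      exact tendsto_nhds_unique h1 h2
    obtain ⟨k, hk⟩ := Real.cos_eq_zero_iff.1 hcos
    have hk0 : 0 ≤ k := by
      have h1 : (-1 : ℝ) < k := by
        by_contra hneg
        rw [not_lt] at hneg
        have h2 : (2 * (k : ℝ) + 1) * Real.pi / 2 < 0 := by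
          have := Real.pi_pos
          nlinarith
        linarith
      have h2 : (-1 : ℤ) < k := by exact_mod_cast h1
      omega
    obtain ⟨m, rfl⟩ := Int.eq_ofNat_of_zero_le hk0
    refine ⟨m, ?_⟩
    show ENNReal.ofReal (Real.pi / 2 + m * Real.pi) = HA Φ ‖q 0‖ (‖p 0‖ ^ 2)⁻¹
    rw [hHA, hk]
    congr 1
    push_cast
    ring

/-- The data without deflection whose passage is not free. -/
def undef (Φ : Space3 → ℝ) (g : Space3) : Set Space3 :=
  {b | b ∈ impactDisc g ∧ exitVelocity Φ b g = g ∧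
    ¬ ∀ t, relFlow Φ t (inc b g) = (entrancePoint b g + t • g, g)}

/-- Planar form. -/
theorem ae_volume_undef (hΦ : AdmissiblePotential Φ) :
    ∀ᵐ g : Space3, volume {y : Disc416.Plane | Disc416.frameMap g y ∈ undef Φ g} = 0 := by
  have hne : ∀ᵐ g : Space3, g ≠ 0 := by
    rw [ae_iff]
    simp
  filter_upwards [ae_speed2 hΦ, hne] with g hgb hg
  have hsub : {y : Disc416.Plane | Disc416.frameMap g y ∈ undef Φ g} ⊆
      {0} ∪ ({y | Disc416.frameMap g y ∈ trapped Φ g} ∪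
        {y | ‖y‖ ∈ {ρ : ℝ | (‖g‖, ρ) ∈ badImg2 Φ}}) := by
    rintro y ⟨hmem, hev, hnf⟩
    by_cases hy : y = 0
    · exact Or.inl hy
    · right
      have hypos : 0 < ‖y‖ := norm_pos_iff.2 hy
      have hb0 : Disc416.frameMap g y ≠ 0 := by
        rw [← norm_pos_iff, Disc416.norm_frameMap hg]; exact hypos
      by_cases hex : ∃ τ, HasExit Φ (inc (Disc416.frameMap g y) g) τ
      · right
        obtain ⟨τ, hτ⟩ := hex
        rcases free_or_bad hΦ hmem hb0 hg hτ hev with h1 | h1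
        · exact absurd h1 hnf
        · rw [Disc416.norm_frameMap hg] at h1
          exact h1
      · exact Or.inl ⟨hmem, hex⟩
  refine measure_mono_null hsub (measure_union_null (by simp) (measure_union_null ?_ ?_))
  · exact volume_trapped_plane hΦ hg
  · have : Nontrivial Disc416.Plane := by
      unfold Disc416.Plane; infer_instance
    exact measure_norm_preimage_null volume hgb

/-- **For almost every relative velocity, almost every passage without deflection is free.** -/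
theorem ae_measure_undef (hΦ : AdmissiblePotential Φ) :
    ∀ᵐ g : Space3, (μHE[2] : Measure Space3) (undef Φ g) = 0 := by
  have hne : ∀ᵐ g : Space3, g ≠ 0 := by
    rw [ae_iff]
    simp
  filter_upwards [ae_volume_undef hΦ, hne] with g hgb hg
  have hemb : MeasurableEmbedding (Disc416.frameMap g) :=
    (Disc416.isometry_frameMap hg).isClosedEmbedding.measurableEmbedding
  have h1 : (μHE[2] : Measure Space3) (undef Φ g)
      ≤ ((μHE[2] : Measure Space3).restrict (impactDisc g)) (undef Φ g) := by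
    rw [Measure.restrict_eq_self _ (fun b (hb : b ∈ undef Φ g) => hb.1)]
  refine le_antisymm (h1.trans ?_) zero_le
  rw [← Disc416.map_frameMap hg, hemb.map_apply]
  exact (Measure.restrict_apply_le _ _).trans hgb.le

end Crest.Agent.R122.Swap350
end
end

-- ▼ part R122/VLnull_564

/-!
# Row 122, block VL: null sets of scaled states (helper564)

* `exi_pass`: an exited state is the outgoing line of its passage;
* `swap_null` (Sw): exact exchange of the velocities is null;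
* `glance_null` (Gl): no deflection and a displaced outgoing line is null.
-/

set_option autoImplicit false
set_option linter.unusedSectionVars false
open MeasureTheory Metric Set Filter
open scoped ENNReal NNReal Topology
open Crest.AnalysisR.Kinetic

noncomputable section

namespace Crest.Agent.R122.VLcore564

open Scat818 Flux663

variable {Φ : Space3 → ℝ}

/-- A line missing the ball is free. -/
theorem rel0_miss (hΦ : AdmissiblePotential Φ) {R : ℝ} {z : Space3 × Space3} (hg : z.2 ≠ 0)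
    (hb : 1 ≤ ‖bline z‖) : rel0 Φ R z = (z.1 + R • z.2, z.2) := by
  have hin : inner ℝ (bline z) z.2 = 0 := inner_bline hg
  have hz1 : z.1 = bline z + tline z • z.2 := line_decomp z
  have e1 : z.1 - R • z.2 = bline z + (tline z - R) • z.2 := by
    conv_lhs => rw [hz1]
    module
  have e2 : z.1 + R • z.2 = bline z + (tline z - R + 2 * R) • z.2 := by
    conv_lhs => rw [hz1]
    module
  unfold rel0
  rw [e1, relFlow_line_miss hΦ hin hb, e2]

/-- An exited state with a passage is on the outgoing line of its passage. -/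
theorem exi_pass (hΦ : AdmissiblePotential Φ) {R : ℝ} {z : Space3 × Space3} (hz : Exi Φ R z)
    (hg : z.2 ≠ 0) (hb : ‖bline z‖ < 1) (hp : HasPass Φ (bline z) z.2) :
    exitTime Φ (bline z) z.2 ≤ tline z + R + chord (bline z) z.2 ∧
    rel0 Φ R z = (exitPoint Φ (bline z) z.2 +
      (tline z + R + chord (bline z) z.2 - exitTime Φ (bline z) z.2) •
        exitVelocity Φ (bline z) z.2, exitVelocity Φ (bline z) z.2) := by
  set b := bline z with hb'
  set g := z.2 with hg'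
  set s := tline z with hs'
  have hz1 : z.1 = b + s • g := line_decomp z
  have hin : inner ℝ b g = 0 := inner_bline hg
  have hbd : b ∈ impactDisc g := ⟨hin, hb⟩
  have hgn : 0 < ‖g‖ := norm_pos_iff.2 hg
  have hgg : 0 < ‖g‖ ^ 2 := by positivity
  have e1 : z.1 - R • g = b + (s - R) • g := by rw [hz1]; module
  obtain ⟨h1, h2, h3, h4⟩ := hz
  rw [← hg', e1] at h1 h2
  have hinner : inner ℝ (b + (s - R) • g) g = (s - R) * ‖g‖ ^ 2 := by
    rw [inner_add_left, inner_smul_left, real_inner_self_eq_norm_sq, hin]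
    simp only [conj_trivial, zero_add]
  rw [hinner] at h2
  have hsR0 : s - R ≤ 0 := by
    by_contra hneg
    rw [not_le] at hneg
    nlinarith
  have hsR : s - R ≤ -chord b g := by
    rw [one_le_norm_iff, norm_sq_line, hin] at h1
    have h5 : 1 - ‖b‖ ^ 2 ≤ ((R - s) * ‖g‖) ^ 2 := by nlinarith
    have h6 : Real.sqrt (1 - ‖b‖ ^ 2) ≤ (R - s) * ‖g‖ := by
      rw [← Real.sqrt_sq (mul_nonneg (by linarith : 0 ≤ R - s) hgn.le)]
      exact Real.sqrt_le_sqrt h5
    have h7 : chord b g ≤ R - s := by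
      unfold chord
      rw [div_le_iff₀ hgn]
      exact h6
    linarith
  have hrel : rel0 Φ R z = relFlow Φ (s - R + chord b g + 2 * R) (inc b g) := by
    unfold rel0
    rw [← hg', e1, relFlow_line hΦ hbd hg hsR]
  set t := s - R + chord b g + 2 * R with ht
  have het : exitTime Φ b g ≤ t := by
    by_contra hlt
    rw [not_le] at hlt
    by_cases ht0 : 0 < t
    · have h5 := hp.norm_lt (s := t) ⟨ht0, hlt⟩
      rw [← hrel] at h5
      linarith
    · rw [not_lt] at ht0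
      rw [hrel, relFlow_before hΦ hbd hg ht0] at h4
      have h5 := inner_entrance_neg hbd hg
      have h6 : inner ℝ (entrancePoint b g + t • g) g =
          inner ℝ (entrancePoint b g) g + t * ‖g‖ ^ 2 := by
        rw [inner_add_left, inner_smul_left, real_inner_self_eq_norm_sq]
        simp only [conj_trivial]
      have h7 : (0 : ℝ) ≤ inner ℝ (entrancePoint b g + t • g) g := h4
      rw [h6] at h7
      nlinarith
  have htt : t = s + R + chord b g := by rw [ht]; ring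
  refine ⟨by rw [← htt]; exact het, ?_⟩
  rw [hrel, hp.after hΦ hbd hg het, htt]

/-- The union of null sets in which one of the alternatives fails. -/
theorem volume_vel_zero : volume {z : Space3 × Space3 | z.2 = 0} = 0 := by
  have : {z : Space3 × Space3 | z.2 = 0} = (univ : Set Space3) ×ˢ {(0 : Space3)} := by
    ext z; simp
  rw [this, Measure.volume_eq_prod, Measure.prod_prod]
  simp

theorem volume_trapped (hΦ : AdmissiblePotential Φ) :
    volume (Cyl ∩ {z : Space3 × Space3 | (bline z, z.2) ∈ gincid \ passSet Φ}) = 0 := by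
  have hNm : MeasurableSet (gincid \ passSet Φ) :=
    measurableSet_gincid.diff (measurableSet_passSet hΦ)
  refine null_of_flux hNm (flux_null hNm ?_)
  filter_upwards [Measure.ae_ne volume (0 : Space3)] with g hg
  refine measure_mono_null ?_ (measure_trapped hΦ hg)
  rintro b ⟨hb, hbN⟩
  exact ⟨hb, fun hex => hbN.2 ⟨hbN.1, hex⟩⟩

/-- Reduction of a null statement on exited states to impact data. -/
theorem null_of_pass (hΦ : AdmissiblePotential Φ) {N : Set (Space3 × Space3)}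
    (hN : MeasurableSet N) (hN0 : flux N = 0) {R : ℝ} {S : Set (Space3 × Space3)}
    (hSm : ∀ z ∈ S, z.2 ≠ 0 → 1 ≤ ‖bline z‖ → False)
    (hS : ∀ z ∈ S, z.2 ≠ 0 → ‖bline z‖ < 1 → HasPass Φ (bline z) z.2 → Exi Φ R z →
      (bline z, z.2) ∈ N) : volume (S ∩ {z | Exi Φ R z}) = 0 := by
  refine measure_mono_null ?_ (measure_union_null volume_vel_zero
    (measure_union_null (volume_trapped hΦ) (null_of_flux hN hN0)))
  rintro z ⟨hzS, hz⟩
  by_cases hg : z.2 = 0
  · exact Or.inl hg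
  right
  by_cases hb : 1 ≤ ‖bline z‖
  · exact (hSm z hzS hg hb).elim
  rw [not_le] at hb
  by_cases hp : HasPass Φ (bline z) z.2
  · exact Or.inr ⟨⟨hg, hb⟩, hS z hzS hg hb hp hz⟩
  · exact Or.inl ⟨⟨hg, hb⟩, ⟨⟨inner_bline hg, hb⟩, hg⟩, fun h => hp h.2⟩

/-- **(Sw)** Exact exchange of the velocities is null. -/
theorem swap_null (hΦ : AdmissiblePotential Φ) (R : ℝ) :
    volume {z : Space3 × Space3 | Exi Φ R z ∧ (rel0 Φ R z).2 = -z.2} = 0 := by
  set N : Set (Space3 × Space3) := passSet Φ ∩ {p | (exitM Φ p).2 = -p.2} with hN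
  have hNm : MeasurableSet N := (measurableSet_passSet hΦ).inter
    (measurableSet_eq_fun (measurable_exitM hΦ).snd measurable_snd.neg)
  have hN0 : flux N = 0 := by
    refine flux_null hNm ?_
    filter_upwards [Swap350.ae_measure_swap hΦ] with g hg
    refine measure_mono_null ?_ hg
    rintro b ⟨hb, hbN⟩
    refine ⟨hb, ?_⟩
    have h := hbN.2
    simp only [mem_ofPred_eq] at h
    rw [exitM_of_mem hΦ hbN.1] at h
    exact h
  have h := null_of_pass hΦ hNm hN0 (R := R) (S := {z : Space3 × Space3 | z.2 ≠ 0 ∧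
    (rel0 Φ R z).2 = -z.2}) ?_ ?_
  · refine measure_mono_null ?_ (measure_union_null volume_vel_zero h)
    rintro z ⟨h1, h2⟩
    by_cases hg : z.2 = 0
    · exact Or.inl hg
    · exact Or.inr ⟨⟨hg, h2⟩, h1⟩
  · rintro z ⟨hg, h2⟩ _ hb
    rw [rel0_miss hΦ hg hb] at h2
    have h3 : (2 : ℝ) • z.2 = 0 := by
      rw [two_smul]
      have h2' : z.2 = -z.2 := h2
      nth_rewrite 2 [h2']
      exact add_neg_cancel _
    rcases smul_eq_zero.1 h3 with h4 | h4
    · norm_num at h4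
    · exact hg h4
  · rintro z ⟨_, h2⟩ hg hb hp hz
    have h3 := (exi_pass hΦ hz hg hb hp).2
    rw [h3] at h2
    have hmem : (bline z, z.2) ∈ passSet Φ := ⟨⟨⟨inner_bline hg, hb⟩, hg⟩, hp⟩
    refine ⟨hmem, ?_⟩
    show (exitM Φ (bline z, z.2)).2 = -z.2
    rw [exitM_of_mem hΦ hmem]
    exact h2

/-- **(Gl)** No deflection with a displaced outgoing line is null. -/
theorem glance_null (hΦ : AdmissiblePotential Φ) (R : ℝ) :
    volume {z : Space3 × Space3 | Exi Φ R z ∧ (rel0 Φ R z).2 = z.2 ∧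
      (rel0 Φ R z).1 ≠ z.1 + R • z.2} = 0 := by
  set N : Set (Space3 × Space3) := passSet Φ ∩ ({p | (exitM Φ p).2 = p.2} ∩
    {p | (exitM Φ p).1 = entrancePoint p.1 p.2 + tauM Φ p • p.2}ᶜ) with hN
  have hNm : MeasurableSet N := by
    refine (measurableSet_passSet hΦ).inter
      ((measurableSet_eq_fun (measurable_exitM hΦ).snd measurable_snd).inter
        (MeasurableSet.compl (measurableSet_eq_fun (measurable_exitM hΦ).fst ?_)))
    exact measurable_entrancePoint.add ((measurable_tauM hΦ).smul measurable_snd)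
  have hN0 : flux N = 0 := by
    refine flux_null hNm ?_
    filter_upwards [Swap350.ae_measure_undef hΦ] with g hg
    refine measure_mono_null ?_ hg
    rintro b ⟨hb, hbN⟩
    obtain ⟨hmem, h1, h2⟩ := hbN
    have h1' : (exitM Φ (b, g)).2 = g := h1
    have h2' : ¬ (exitM Φ (b, g)).1 = entrancePoint b g + tauM Φ (b, g) • g := h2
    rw [exitM_of_mem hΦ hmem] at h1' h2'
    refine ⟨hb, h1', fun hall => h2' ?_⟩
    rw [tauM_of_mem hmem]
    have h3 := hall (exitTime Φ b g)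
    have h4 := hmem.2.relFlow_exit hΦ hmem.1.1 hmem.1.2
    have h5 : (exitPoint Φ b g, exitVelocity Φ b g) =
        (entrancePoint b g + exitTime Φ b g • g, g) := h4.symm.trans h3
    exact congrArg Prod.fst h5
  have h := null_of_pass hΦ hNm hN0 (R := R) (S := {z : Space3 × Space3 | z.2 ≠ 0 ∧
    (rel0 Φ R z).2 = z.2 ∧ (rel0 Φ R z).1 ≠ z.1 + R • z.2}) ?_ ?_
  · refine measure_mono_null ?_ (measure_union_null volume_vel_zero h)
    rintro z ⟨h1, h2⟩
    by_cases hg : z.2 = 0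
    · exact Or.inl hg
    · exact Or.inr ⟨⟨hg, h2⟩, h1⟩
  · rintro z ⟨hg, _, h3⟩ _ hb
    rw [rel0_miss hΦ hg hb] at h3
    exact h3 rfl
  · rintro z ⟨_, h2, h3⟩ hg hb hp hz
    have h4 := (exi_pass hΦ hz hg hb hp).2
    rw [h4] at h2 h3
    have h2' : exitVelocity Φ (bline z) z.2 = z.2 := h2
    have hmem : (bline z, z.2) ∈ passSet Φ := ⟨⟨⟨inner_bline hg, hb⟩, hg⟩, hp⟩
    refine ⟨hmem, ?_, ?_⟩
    · show (exitM Φ (bline z, z.2)).2 = z.2
      rw [exitM_of_mem hΦ hmem]
      exact h2'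
    · show ¬ (exitM Φ (bline z, z.2)).1 = entrancePoint (bline z) z.2 +
        tauM Φ (bline z, z.2) • z.2
      rw [exitM_of_mem hΦ hmem, tauM_of_mem hmem]
      intro h5
      apply h3
      have h5' : exitPoint Φ (bline z) z.2 =
        entrancePoint (bline z) z.2 + exitTime Φ (bline z) z.2 • z.2 := h5
      show exitPoint Φ (bline z) z.2 + (tline z + R + chord (bline z) z.2 -
        exitTime Φ (bline z) z.2) • exitVelocity Φ (bline z) z.2 = z.1 + R • z.2
      rw [h2', h5', entrancePoint_eq_chord]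
      conv_rhs => rw [line_decomp z]
      module





end Crest.Agent.R122.VLcore564
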