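import Crest.Agent.R122.VolTaperDyn_365

/-!
Row 122, helper365: board D4, the tapered crude bound (multi-root, every environment).
-/

set_option autoImplicit false

open MeasureTheory Set Filter
open Crest.AnalysisR.Kinetic
open Crest.Agent.R122.Flow671 Crest.Agent.R122.Loc45
open Crest.Agent.R122.Causal291 (Past Ct pth BC)
open scoped ENNReal Classical Topology

noncomputable section

namespace Crest.Agent.R122.Vol365

/-- From volumes of sets to functions: a measurable majorant. -/
theorem exists_majorant {X Y : Type*} [MeasurableSpace X] [MeasurableSpace Y] {μ : Measure X}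
    {ν : Measure Y} {S : X → Y → Prop} {c : ℝ≥0∞}
    (h : ∀ A, MeasurableSet A → μ {x | ∃ y ∈ A, S x y} ≤ c * ν A) {F : Y → ℝ≥0∞}
    (hF : Measurable F) :
    ∃ G : X → ℝ≥0∞, Measurable G ∧ (∀ x y, S x y → F y ≤ G x) ∧ ∫⁻ x, G x ∂μ ≤ c * ∫⁻ y, F y ∂ν := by
  revert F
  intro F hF
  refine Measurable.ennreal_induction (motive := fun F : Y → ℝ≥0∞ => ∃ G : X → ℝ≥0∞, Measurable G ∧
    (∀ x y, S x y → F y ≤ G x) ∧ ∫⁻ x, G x ∂μ ≤ c * ∫⁻ y, F y ∂ν) ?_ ?_ ?_ hF
  · intro c0 s hs
    refine ⟨(toMeasurable μ {x | ∃ y ∈ s, S x y}).indicator fun _ => c0,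
      measurable_const.indicator (measurableSet_toMeasurable _ _), ?_, ?_⟩
    · intro x y hxy
      by_cases hy : y ∈ s
      · rw [indicator_of_mem hy, indicator_of_mem (subset_toMeasurable _ _
          (show x ∈ {x | ∃ y ∈ s, S x y} from ⟨y, hy, hxy⟩))]
      · rw [indicator_of_notMem hy]; exact bot_le
    · rw [lintegral_indicator_const (measurableSet_toMeasurable _ _), measure_toMeasurable,
        lintegral_indicator_const hs]
      calc c0 * μ {x | ∃ y ∈ s, S x y} ≤ c0 * (c * ν s) := by gcongr; exact h s hs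
        _ = _ := by ring
  · rintro f g - hf hg ⟨G₁, hG₁, h1, h1'⟩ ⟨G₂, hG₂, h2, h2'⟩
    refine ⟨G₁ + G₂, hG₁.add hG₂, fun x y hxy => add_le_add (h1 x y hxy) (h2 x y hxy), ?_⟩
    simp only [Pi.add_apply]
    rw [lintegral_add_left hG₁, lintegral_add_left hf, mul_add]
    exact add_le_add h1' h2'
  · intro f hf hmono ih
    choose G hG h1 h2 using ih
    refine ⟨fun x => liminf (fun n => G n x) atTop, Measurable.liminf hG, ?_, ?_⟩
    · intro x y hxy
      refine iSup_le fun m => ?_
      refine le_liminf_of_le (by isBoundedDefault) ?_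
      filter_upwards [eventually_ge_atTop m] with n hn
      exact (hmono hn y).trans (h1 n x y hxy)
    · refine (lintegral_liminf_le hG).trans ?_
      have h3 : ∀ n, ∫⁻ x, G n x ∂μ ≤ c * ∫⁻ y, ⨆ n, f n y ∂ν := fun n =>
        (h2 n).trans (mul_le_mul_right (lintegral_mono fun y => le_iSup (fun n => f n y) n) _)
      calc liminf (fun n => ∫⁻ x, G n x ∂μ) atTop
          ≤ liminf (fun _ : ℕ => c * ∫⁻ y, ⨆ n, f n y ∂ν) atTop :=
            liminf_le_liminf (Eventually.of_forall h3)
        _ = _ := by rw [liminf_const]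

variable {Φ : Space3 → ℝ} {ε : ℝ}










end Crest.Agent.R122.Vol365

end
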