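import Mathlib
import Crest.Prelude.Def_KineticLimit

-- ▼ part R122/VolDefs_365
section

/-!
Row 122, crude undamped cluster volume bounds (helper365): abstract many-body families.

`Bodies ε B` packages, for all finite index types, a measure preserving flow on configurations with
energy conservation, a speed bound coming from stability, and locality: groups which stay at mutual
distance `> ε` evolve separately.
-/

set_option autoImplicit false

open MeasureTheory Set
open Crest.AnalysisR.Kinetic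
open scoped ENNReal Classical

noncomputable section

namespace Crest.Agent.R122.Vol365

/-- An abstract family of many-body evolutions at interaction range `ε` and stability constant `B`. -/
structure Bodies (ε B : ℝ) where
  /-- the flow -/
  flow : (ι : Type) → ℝ → (ι → PhasePoint) → (ι → PhasePoint)
  /-- the domain (conull, invariant) -/
  dom : (ι : Type) → Set (ι → PhasePoint)
  /-- the energy -/
  energy : (ι : Type) → (ι → PhasePoint) → ℝ
  eps_pos : 0 < ε
  B_nonneg : 0 ≤ B
  dom_meas : ∀ (ι : Type) [Fintype ι], MeasurableSet (dom ι)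
  dom_ae : ∀ (ι : Type) [Fintype ι], ∀ᵐ z : ι → PhasePoint, z ∈ dom ι
  flow_dom : ∀ (ι : Type) [Fintype ι] (t : ℝ) (z : ι → PhasePoint), z ∈ dom ι → flow ι t z ∈ dom ι
  flow_zero : ∀ (ι : Type) [Fintype ι] (z : ι → PhasePoint), z ∈ dom ι → flow ι 0 z = z
  flow_add : ∀ (ι : Type) [Fintype ι] (s t : ℝ) (z : ι → PhasePoint), z ∈ dom ι →
    flow ι (s + t) z = flow ι s (flow ι t z)
  flow_mp : ∀ (ι : Type) [Fintype ι] (t : ℝ),
    MeasurePreserving (flow ι t) (volume : Measure (ι → PhasePoint)) volume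
  cont : ∀ (ι : Type) [Fintype ι] (z : ι → PhasePoint), z ∈ dom ι → ∀ i, Continuous fun t => (flow ι t z i).1
  energy_meas : ∀ (ι : Type) [Fintype ι], Measurable (energy ι)
  energy_flow : ∀ (ι : Type) [Fintype ι] (t : ℝ) (z : ι → PhasePoint), z ∈ dom ι →
    energy ι (flow ι t z) = energy ι z
  vel_le : ∀ (ι : Type) [Fintype ι] (z : ι → PhasePoint), z ∈ dom ι → ∀ i,
    ‖(z i).2‖ ^ 2 ≤ 2 * (energy ι z + B * Fintype.card ι)
  lip : ∀ (ι : Type) [Fintype ι] (z : ι → PhasePoint), z ∈ dom ι → ∀ (i : ι) (s t V : ℝ), 0 ≤ V →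
    2 * (energy ι z + B * Fintype.card ι) ≤ V ^ 2 →
    dist (flow ι s z i).1 (flow ι t z i).1 ≤ V * |s - t|
  dom_restrict : ∀ (ι : Type) [Fintype ι] (p : ι → Prop) (z : ι → PhasePoint), z ∈ dom ι →
    (fun i : {i // p i} => z i) ∈ dom {i // p i}
  flow_local : ∀ (ι : Type) [Fintype ι] (p : ι → Prop) (z : ι → PhasePoint), z ∈ dom ι →
    ∀ a b : ℝ, a ≤ 0 → 0 ≤ b →
    (∀ t ∈ Icc a b, ∀ i j, p i → ¬ p j → ε < dist (flow ι t z i).1 (flow ι t z j).1) →
    ∀ t ∈ Icc a b, ∀ i : {i // p i}, flow ι t z i = flow {i // p i} t (fun i => z i) i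
  energy_restrict : ∀ (ι : Type) [Fintype ι] (p : ι → Prop) (z : ι → PhasePoint), z ∈ dom ι →
    (∀ i j, p i → ¬ p j → ε < dist (z i).1 (z j).1) →
    energy {i // p i} (fun i => z i) ≤ energy ι z + B * Fintype.card ι

variable {ε B : ℝ} (S : Bodies ε B)

namespace Bodies

/-- Position of particle `i` at time `t`. -/
def pos {ι : Type} (z : ι → PhasePoint) (t : ℝ) (i : ι) : Space3 := (S.flow ι t z i).1

/-- `i` and `j` come within distance `ε` during `[a,b]`. -/
def Contact {ι : Type} (a b : ℝ) (z : ι → PhasePoint) (i j : ι) : Prop :=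
  ∃ t ∈ Icc a b, dist (S.pos z t i) (S.pos z t j) ≤ ε

/-- `i` and `j` are within distance `2ε` at time `σ`. -/
def Link {ι : Type} (σ : ℝ) (z : ι → PhasePoint) (i j : ι) : Prop :=
  dist (S.pos z σ i) (S.pos z σ j) ≤ 2 * ε

end Bodies

/-- All vertices are connected by chains of the relation. -/
def AllConn {ι : Type} (r : ι → ι → Prop) : Prop := ∀ i j, Relation.ReflTransGen r i j

namespace Bodies

/-- Connected-by-contacts configurations on `[a,b]` with energy at most `E` and root state in `A`. -/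
def SSet (ι : Type) (a b E : ℝ) (i : ι) (A : Set PhasePoint) : Set (ι → PhasePoint) :=
  {z | z ∈ S.dom ι ∧ S.energy ι z ≤ E ∧ AllConn (S.Contact a b z) ∧ z i ∈ A}

/-- Connected by contacts on `[a,b]` and links at time `σ`. -/
def RSet (ι : Type) (a b σ E : ℝ) (i : ι) (A : Set PhasePoint) : Set (ι → PhasePoint) :=
  {z | z ∈ S.dom ι ∧ S.energy ι z ≤ E ∧
    AllConn (fun j k => S.Contact a b z j k ∨ S.Link σ z j k) ∧ z i ∈ A}

variable {ι : Type} [Fintype ι]

theorem measurable_pos (t : ℝ) (i : ι) : Measurable fun z : ι → PhasePoint => S.pos z t i :=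
  ((measurable_pi_apply i).comp (S.flow_mp ι t).measurable).fst

theorem continuous_pos {z : ι → PhasePoint} (hz : z ∈ S.dom ι) (i : ι) :
    Continuous fun t => S.pos z t i := S.cont ι z hz i

theorem pos_shift {z : ι → PhasePoint} (hz : z ∈ S.dom ι) (s t : ℝ) (i : ι) :
    S.pos (S.flow ι t z) s i = S.pos z (s + t) i := by
  unfold pos; rw [S.flow_add ι s t z hz]

theorem contact_shift {z : ι → PhasePoint} (hz : z ∈ S.dom ι) (a b t : ℝ) (i j : ι) :
    S.Contact (a - t) (b - t) (S.flow ι t z) i j ↔ S.Contact a b z i j := by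
  unfold Contact
  constructor
  · rintro ⟨s, hs, h⟩
    refine ⟨s + t, ⟨by linarith [hs.1], by linarith [hs.2]⟩, ?_⟩
    rwa [S.pos_shift hz, S.pos_shift hz] at h
  · rintro ⟨s, hs, h⟩
    refine ⟨s - t, ⟨by linarith [hs.1], by linarith [hs.2]⟩, ?_⟩
    rw [S.pos_shift hz, S.pos_shift hz]; simpa using h

theorem link_shift {z : ι → PhasePoint} (hz : z ∈ S.dom ι) (σ t : ℝ) (i j : ι) :
    S.Link (σ - t) (S.flow ι t z) i j ↔ S.Link σ z i j := by
  unfold Link; rw [S.pos_shift hz, S.pos_shift hz]; simp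

/-- Measurability of the contact event inside the domain. -/
theorem measurableSet_contact (a b : ℝ) (i j : ι) :
    MeasurableSet {z : ι → PhasePoint | z ∈ S.dom ι ∧ S.Contact a b z i j} := by
  rcases lt_or_ge b a with hba | hab
  · have : {z : ι → PhasePoint | z ∈ S.dom ι ∧ S.Contact a b z i j} = ∅ := by
      ext z; simp only [mem_setOf_eq, mem_empty_iff_false, iff_false, not_and]
      rintro - ⟨t, ht, -⟩
      exact absurd (ht.1.trans ht.2) (not_le.2 hba)
    rw [this]; exact MeasurableSet.empty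
  · -- dense countable subset of Icc a b
    obtain ⟨D, hDc, hDd⟩ := TopologicalSpace.exists_countable_dense (Icc a b)
    have key : {z : ι → PhasePoint | z ∈ S.dom ι ∧ S.Contact a b z i j}
        = S.dom ι ∩ ⋂ n : ℕ, ⋃ t ∈ D, {z | dist (S.pos z (t : ℝ) i) (S.pos z (t : ℝ) j) < ε + 1 / ((n : ℝ) + 1)} := by
      ext z
      simp only [mem_setOf_eq, mem_inter_iff, mem_iInter, mem_iUnion, exists_prop]
      constructor
      · rintro ⟨hz, t, ht, h⟩
        refine ⟨hz, fun n => ?_⟩
        have hc : Continuous fun s : Icc a b => dist (S.pos z (s : ℝ) i) (S.pos z (s : ℝ) j) :=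
          ((S.continuous_pos hz i).dist (S.continuous_pos hz j)).comp continuous_subtype_val
        have hopen : IsOpen {s : Icc a b | dist (S.pos z (s : ℝ) i) (S.pos z (s : ℝ) j) < ε + 1 / ((n : ℝ) + 1)} :=
          isOpen_lt hc continuous_const
        have hne : {s : Icc a b | dist (S.pos z (s : ℝ) i) (S.pos z (s : ℝ) j) < ε + 1 / ((n : ℝ) + 1)}.Nonempty :=
          ⟨⟨t, ht⟩, lt_of_le_of_lt h (by simpa using by positivity)⟩
        obtain ⟨s, hs, hsD⟩ := hDd.inter_open_nonempty _ hopen hne
        exact ⟨s, hsD, hs⟩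
      · rintro ⟨hz, h⟩
        refine ⟨hz, ?_⟩
        have hc : ContinuousOn (fun s : ℝ => dist (S.pos z s i) (S.pos z s j)) (Icc a b) :=
          ((S.continuous_pos hz i).dist (S.continuous_pos hz j)).continuousOn
        obtain ⟨t, ht, hmin⟩ := isCompact_Icc.exists_isMinOn (nonempty_Icc.2 hab) hc
        refine ⟨t, ht, ?_⟩
        refine le_of_forall_pos_lt_add ?_ 
        intro η hη
        obtain ⟨n, hn⟩ := exists_nat_one_div_lt hη
        obtain ⟨s, -, hs⟩ := h n
        calc dist (S.pos z t i) (S.pos z t j) ≤ dist (S.pos z (s : ℝ) i) (S.pos z (s : ℝ) j) := hmin s.2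
          _ < ε + 1 / ((n : ℝ) + 1) := hs
          _ < ε + η := by linarith
    rw [key]
    refine (S.dom_meas ι).inter (MeasurableSet.iInter fun n => MeasurableSet.biUnion hDc fun t _ => ?_)
    exact measurableSet_lt ((S.measurable_pos _ i).dist (S.measurable_pos _ j)) measurable_const

theorem measurableSet_link (σ : ℝ) (i j : ι) :
    MeasurableSet {z : ι → PhasePoint | S.Link σ z i j} :=
  measurableSet_le ((S.measurable_pos _ i).dist (S.measurable_pos _ j)) measurable_const

/-- A finite family of measurable events has a measurable "relation" for every property. -/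
theorem measurableSet_rel {X : Type*} [MeasurableSpace X] {D : Set X} (hD : MeasurableSet D)
    (r : X → ι → ι → Prop) (hr : ∀ i j, MeasurableSet {z | z ∈ D ∧ r z i j})
    (Q : (ι → ι → Prop) → Prop) : MeasurableSet {z | z ∈ D ∧ Q (r z)} := by
  have : {z | z ∈ D ∧ Q (r z)} = ⋃ r₀ ∈ {r₀ : ι → ι → Prop | Q r₀},
      D ∩ ⋂ i, ⋂ j, (if r₀ i j then {z | z ∈ D ∧ r z i j} else D \ {z | z ∈ D ∧ r z i j}) := by
    ext z
    simp only [mem_iUnion, mem_iInter, exists_prop, mem_inter_iff]
    constructor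
    · rintro ⟨hz, hQ⟩
      refine ⟨r z, hQ, hz, fun i j => ?_⟩
      by_cases h : r z i j
      · rw [if_pos h]; exact ⟨hz, h⟩
      · rw [if_neg h]; exact ⟨hz, fun h' => h h'.2⟩
    · rintro ⟨r₀, hQ, hz, h⟩
      have : r z = r₀ := by
        ext i j
        have := h i j
        by_cases h0 : r₀ i j
        · rw [if_pos h0] at this; exact ⟨fun _ => h0, fun _ => this.2⟩
        · rw [if_neg h0] at this; exact ⟨fun h1 => absurd ⟨hz, h1⟩ this.2, fun h1 => absurd h1 h0⟩
      refine ⟨hz, ?_⟩
      rw [this]; exact hQ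
  rw [this]
  refine MeasurableSet.biUnion (Set.to_countable _) fun r₀ _ => hD.inter ?_
  refine MeasurableSet.iInter fun i => MeasurableSet.iInter fun j => ?_
  split_ifs
  · exact hr i j
  · exact hD.diff (hr i j)

theorem measurableSet_SSet (a b E : ℝ) (i : ι) {A : Set PhasePoint} (hA : MeasurableSet A) :
    MeasurableSet (S.SSet ι a b E i A) := by
  have h1 : MeasurableSet {z : ι → PhasePoint | z ∈ S.dom ι ∧ AllConn (S.Contact a b z)} :=
    measurableSet_rel (S.dom_meas ι) (fun z => S.Contact a b z)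
      (fun i j => S.measurableSet_contact a b i j) AllConn
  have h2 : MeasurableSet {z : ι → PhasePoint | S.energy ι z ≤ E} :=
    measurableSet_le (S.energy_meas ι) measurable_const
  have h3 : MeasurableSet {z : ι → PhasePoint | z i ∈ A} := measurable_pi_apply i hA
  have : S.SSet ι a b E i A = {z : ι → PhasePoint | z ∈ S.dom ι ∧ AllConn (S.Contact a b z)} ∩
      ({z | S.energy ι z ≤ E} ∩ {z | z i ∈ A}) := by
    ext z; constructor
    · rintro ⟨h1, h2, h3, h4⟩; exact ⟨⟨h1, h3⟩, h2, h4⟩
    · rintro ⟨⟨h1, h3⟩, h2, h4⟩; exact ⟨h1, h2, h3, h4⟩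
  rw [this]; exact h1.inter (h2.inter h3)

theorem measurableSet_RSet (a b σ E : ℝ) (i : ι) {A : Set PhasePoint} (hA : MeasurableSet A) :
    MeasurableSet (S.RSet ι a b σ E i A) := by
  have h1 : MeasurableSet {z : ι → PhasePoint | z ∈ S.dom ι ∧
      AllConn (fun j k => S.Contact a b z j k ∨ S.Link σ z j k)} := by
    refine measurableSet_rel (S.dom_meas ι) (fun z => fun j k => S.Contact a b z j k ∨ S.Link σ z j k)
      (fun i j => ?_) AllConn
    have : {z : ι → PhasePoint | z ∈ S.dom ι ∧ (S.Contact a b z i j ∨ S.Link σ z i j)} =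
        {z | z ∈ S.dom ι ∧ S.Contact a b z i j} ∪ (S.dom ι ∩ {z | S.Link σ z i j}) := by
      ext z; constructor
      · rintro ⟨h, h1 | h1⟩
        · exact Or.inl ⟨h, h1⟩
        · exact Or.inr ⟨h, h1⟩
      · rintro (⟨h, h1⟩ | ⟨h, h1⟩)
        · exact ⟨h, Or.inl h1⟩
        · exact ⟨h, Or.inr h1⟩
    rw [this]
    exact (S.measurableSet_contact a b i j).union ((S.dom_meas ι).inter (S.measurableSet_link σ i j))
  have h2 : MeasurableSet {z : ι → PhasePoint | S.energy ι z ≤ E} :=
    measurableSet_le (S.energy_meas ι) measurable_const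
  have h3 : MeasurableSet {z : ι → PhasePoint | z i ∈ A} := measurable_pi_apply i hA
  have : S.RSet ι a b σ E i A = {z : ι → PhasePoint | z ∈ S.dom ι ∧
      AllConn (fun j k => S.Contact a b z j k ∨ S.Link σ z j k)} ∩
      ({z | S.energy ι z ≤ E} ∩ {z | z i ∈ A}) := by
    ext z; constructor
    · rintro ⟨h1, h2, h3, h4⟩; exact ⟨⟨h1, h3⟩, h2, h4⟩
    · rintro ⟨⟨h1, h3⟩, h2, h4⟩; exact ⟨h1, h2, h3, h4⟩
  rw [this]; exact h1.inter (h2.inter h3)

/-- Time shift of `SSet`: the root condition is evaluated at time `σ`. -/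
theorem SSet_shift (a b E σ : ℝ) (i : ι) (A : Set PhasePoint) :
    {z : ι → PhasePoint | z ∈ S.dom ι ∧ S.energy ι z ≤ E ∧ AllConn (S.Contact a b z) ∧
      S.flow ι σ z i ∈ A} ⊆ S.flow ι σ ⁻¹' (S.SSet ι (a - σ) (b - σ) E i A) := by
  rintro z ⟨h1, h2, h3, h4⟩
  refine ⟨S.flow_dom ι σ z h1, by rw [S.energy_flow ι σ z h1]; exact h2, ?_, h4⟩
  have : S.Contact (a - σ) (b - σ) (S.flow ι σ z) = S.Contact a b z := by
    ext i j; exact S.contact_shift h1 a b σ i j
  rw [this]; exact h3

/-- Time shift of `RSet` at its link time. -/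
theorem RSet_shift (a b E σ : ℝ) (i : ι) (A : Set PhasePoint) :
    {z : ι → PhasePoint | z ∈ S.dom ι ∧ S.energy ι z ≤ E ∧
      AllConn (fun j k => S.Contact a b z j k ∨ S.Link σ z j k) ∧ S.flow ι σ z i ∈ A} ⊆
      S.flow ι σ ⁻¹' (S.RSet ι (a - σ) (b - σ) 0 E i A) := by
  rintro z ⟨h1, h2, h3, h4⟩
  refine ⟨S.flow_dom ι σ z h1, by rw [S.energy_flow ι σ z h1]; exact h2, ?_, h4⟩
  have : (fun j k => S.Contact (a - σ) (b - σ) (S.flow ι σ z) j k ∨ S.Link 0 (S.flow ι σ z) j k) =
      fun j k => S.Contact a b z j k ∨ S.Link σ z j k := by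
    ext i j
    rw [S.contact_shift h1 a b σ i j]
    have := S.link_shift h1 σ σ i j
    rw [sub_self] at this
    rw [this]
  rw [this]; exact h3

end Bodies

end Crest.Agent.R122.Vol365
end
end

-- ▼ part R122/VolGraph_365
section

/-!
Row 122, helper365: splitting lemma for finite connected relations.
-/

set_option autoImplicit false

open Set

namespace Crest.Agent.R122.VolGraph365

variable {ι : Type} 

/-- Relation restricted to a set. -/
def Rin (r : ι → ι → Prop) (P : Set ι) (x y : ι) : Prop := r x y ∧ x ∈ P ∧ y ∈ P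

/-- Connected inside `P`. -/
def ConnIn (r : ι → ι → Prop) (P : Set ι) : Prop := ∀ i ∈ P, ∀ j ∈ P, Relation.ReflTransGen (Rin r P) i j

/-- Closed under the relation. -/
def Clo (r : ι → ι → Prop) (P : Set ι) : Prop := ∀ i ∈ P, ∀ j, r i j → j ∈ P

theorem rtg_symm {r : ι → ι → Prop} (hs : ∀ i j, r i j → r j i) {i j : ι}
    (h : Relation.ReflTransGen r i j) : Relation.ReflTransGen r j i := by
  induction h with
  | refl => exact .refl
  | tail _ h2 ih => exact Relation.ReflTransGen.head (hs _ _ h2) ih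

theorem mem_of_clo {r : ι → ι → Prop} {P : Set ι} (hP : Clo r P) {i j : ι} (hi : i ∈ P)
    (h : Relation.ReflTransGen r i j) : j ∈ P := by
  induction h with
  | refl => exact hi
  | tail _ h2 ih => exact hP _ ih _ h2

theorem rin_of_clo {r : ι → ι → Prop} {P : Set ι} (hP : Clo r P) {i j : ι} (hi : i ∈ P)
    (h : Relation.ReflTransGen r i j) : Relation.ReflTransGen (Rin r P) i j := by
  induction h with
  | refl => exact .refl
  | tail h1 h2 ih => exact ih.tail ⟨h2, mem_of_clo hP hi h1, hP _ (mem_of_clo hP hi h1) _ h2⟩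

theorem clo_block (r : ι → ι → Prop) (i : ι) : Clo r {j | Relation.ReflTransGen r i j} :=
  fun _ hj _ h => Relation.ReflTransGen.tail hj h

theorem conn_block {r : ι → ι → Prop} (hs : ∀ i j, r i j → r j i) (i : ι) :
    ConnIn r {j | Relation.ReflTransGen r i j} := by
  intro j hj k hk
  exact rin_of_clo (clo_block r i) hj ((rtg_symm hs hj).trans hk)

theorem rin_mono {r r' : ι → ι → Prop} (h : ∀ x y, r x y → r' x y) {P P' : Set ι} (hP : P ⊆ P')
    {i j : ι} (hij : Relation.ReflTransGen (Rin r P) i j) : Relation.ReflTransGen (Rin r' P') i j :=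
  Relation.ReflTransGen.mono (r := Rin r P) (p := Rin r' P')
    (fun _ _ h' => ⟨h _ _ h'.1, hP h'.2.1, hP h'.2.2⟩) _ _ hij

theorem conn_union {r : ι → ι → Prop} (hs : ∀ i j, r i j → r j i) {P Q : Set ι}
    (hP : ConnIn r P) (hQ : ConnIn r Q) {i j : ι} (hi : i ∈ P) (hj : j ∈ Q) (hij : r i j) :
    ConnIn r (P ∪ Q) := by
  have hPi : ∀ k ∈ P, Relation.ReflTransGen (Rin r (P ∪ Q)) k i := fun k hk =>
    rin_mono (fun _ _ h => h) subset_union_left (hP k hk i hi)
  have hQj : ∀ k ∈ Q, Relation.ReflTransGen (Rin r (P ∪ Q)) j k := fun k hk =>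
    rin_mono (fun _ _ h => h) subset_union_right (hQ j hj k hk)
  have hss : ∀ x y, Rin r (P ∪ Q) x y → Rin r (P ∪ Q) y x := fun x y h => ⟨hs _ _ h.1, h.2.2, h.2.1⟩
  have hcross : Relation.ReflTransGen (Rin r (P ∪ Q)) i j := .single ⟨hij, Or.inl hi, Or.inr hj⟩
  rintro x (hx | hx) y (hy | hy)
  · exact rin_mono (fun _ _ h => h) subset_union_left (hP x hx y hy)
  · exact ((hPi x hx).trans hcross).trans (hQj y hy)
  · exact ((rtg_symm hss (hQj x hx)).trans (rtg_symm hss hcross)).trans (rtg_symm hss (hPi y hy))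
  · exact rin_mono (fun _ _ h => h) subset_union_right (hQ x hx y hy)

/-- A crossing edge. -/
theorem exists_cross {r : ι → ι → Prop} {P : Set ι} {i j : ι} (hi : i ∈ P) (hj : j ∉ P)
    (h : Relation.ReflTransGen r i j) : ∃ x y, x ∈ P ∧ y ∉ P ∧ r x y := by
  induction h with
  | refl => exact absurd hi hj
  | @tail b c h1 h2 ih =>
    by_cases hb : b ∈ P
    · exact ⟨b, c, hb, hj, h2⟩
    · exact ih hb

theorem subtype_conn {r : ι → ι → Prop} {P : Set ι} (h : ConnIn r P) (i j : {i // i ∈ P}) :
    Relation.ReflTransGen (fun x y : {i // i ∈ P} => r x y) i j := by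
  have key : ∀ k, Relation.ReflTransGen (Rin r P) i.1 k → ∀ hk : k ∈ P,
      Relation.ReflTransGen (fun x y : {i // i ∈ P} => r x y) i ⟨k, hk⟩ := by
    intro k h
    induction h with
    | refl => intro hk; exact .refl
    | @tail b c h1 h2 ih => intro hk; exact (ih h2.2.1).tail h2.1
  exact key j.1 (h i.1 i.2 j.1 j.2) j.2

/-- **Splitting lemma.** -/
theorem split [Finite ι] {c l : ι → ι → Prop} (hc : ∀ i j, c i j → c j i) (hl : ∀ i j, l i j → l j i)
    (h1 : ∀ i j, Relation.ReflTransGen (fun x y => c x y ∨ l x y) i j)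
    (h2 : ¬ ∀ i j, Relation.ReflTransGen c i j) :
    ∃ P : Set ι, (∃ i, i ∈ P) ∧ (∃ j, j ∉ P) ∧ (∀ i ∈ P, ∀ j ∉ P, ¬ c i j) ∧
      (∀ i j : {i // i ∈ P}, Relation.ReflTransGen (fun x y : {i // i ∈ P} => c x y ∨ l x y) i j) ∧
      (∀ i j : {i // ¬ i ∈ P}, Relation.ReflTransGen (fun x y : {i // ¬ i ∈ P} => c x y) i j) ∧
      ∃ i j, i ∈ P ∧ j ∉ P ∧ l i j := by
  classical
  set r : ι → ι → Prop := fun x y => c x y ∨ l x y with hr
  have hrs : ∀ i j, r i j → r j i := fun i j h => h.imp (hc i j) (hl i j)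
  push Not at h2
  obtain ⟨i₀, j₀, h0⟩ := h2
  let F : Set (Set ι) := {P | P.Nonempty ∧ P ≠ univ ∧ Clo c P ∧ ConnIn r P}
  have hF : F.Nonempty := by
    refine ⟨{j | Relation.ReflTransGen c i₀ j}, ⟨i₀, .refl⟩, ?_, clo_block c i₀, ?_⟩
    · intro h
      exact h0 (by have : j₀ ∈ (univ : Set ι) := mem_univ _
                   rw [← h] at this; exact this)
    · intro x hx y hy
      exact rin_mono (fun _ _ h => Or.inl h) (le_refl _) (conn_block hc i₀ x hx y hy)
  obtain ⟨P, hP⟩ := (Set.toFinite F).exists_maximal hF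
  obtain ⟨⟨i, hi⟩, hne, hclo, hconn⟩ := hP.1
  obtain ⟨j, hj⟩ : ∃ j, j ∉ P := by
    by_contra h; push Not at h
    exact hne (eq_univ_of_forall h)
  obtain ⟨x, y, hx, hy, hxy⟩ := exists_cross hi hj (h1 i j)
  have hlxy : l x y := by
    rcases hxy with h | h
    · exact absurd (hclo x hx y h) hy
    · exact h
  set D : Set ι := {k | Relation.ReflTransGen c y k} with hD
  have hDconn : ConnIn c D := conn_block hc y
  have hdisj : ∀ k ∈ D, k ∉ P := fun k hk hkP => hy (mem_of_clo hclo hkP (rtg_symm hc hk))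
  have hU : P ∪ D = univ := by
    by_contra hne'
    have hmem : P ∪ D ∈ F := by
      refine ⟨⟨x, Or.inl hx⟩, hne', ?_, ?_⟩
      · rintro a (ha | ha) b hab
        · exact Or.inl (hclo a ha b hab)
        · exact Or.inr (clo_block c y a ha b hab)
      · exact conn_union hrs hconn
          (fun a ha b hb => rin_mono (fun _ _ h => Or.inl h) (le_refl _) (hDconn a ha b hb)) hx
          (show y ∈ D from .refl) (Or.inr hlxy)
    have := hP.2 hmem (subset_union_left (s := P) (t := D))
    exact hy (this (Or.inr (show y ∈ D from .refl)))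
  have hcompl : ∀ k, ¬ k ∈ P ↔ k ∈ D := by
    intro k
    constructor
    · intro hk
      have : k ∈ P ∪ D := by rw [hU]; trivial
      exact this.resolve_left hk
    · exact hdisj k
  refine ⟨P, ⟨i, hi⟩, ⟨j, hj⟩, fun a ha b hb hab => hb (hclo a ha b hab), ?_, ?_, x, y, hx, hy, hlxy⟩
  · exact subtype_conn hconn
  · have hPc : ConnIn c Pᶜ := by
      have : Pᶜ = D := by ext k; exact hcompl k
      rw [this]; exact hDconn
    exact subtype_conn hPc

end Crest.Agent.R122.VolGraph365
end

-- ▼ part R122/VolFub_365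

/-!
Row 122, helper365: Fubini tools for splitting a configuration in two groups; ball volumes;
the static (time zero) cluster bound.
-/

set_option autoImplicit false

open MeasureTheory Set
open Crest.AnalysisR.Kinetic
open scoped ENNReal Classical

noncomputable section

namespace Crest.Agent.R122.Vol365

instance sf1 : SigmaFinite (volume : Measure PhasePoint) := inferInstance
instance sf2 {ι : Type} [Fintype ι] : SigmaFinite (volume : Measure (ι → PhasePoint)) :=
  @Measure.instSigmaFiniteForallVolume ι _ (fun _ => PhasePoint) _ (fun _ => sf1)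
instance sf3 {ι : Type} [Fintype ι] : SFinite (volume : Measure (ι → PhasePoint)) := inferInstance

variable {ι : Type} [Fintype ι]

/-- restriction of a configuration to the particles satisfying `p`. -/
abbrev res (p : ι → Prop) (z : ι → PhasePoint) : {i // p i} → PhasePoint := fun i => z i

theorem fub1 (p : ι → Prop) {X : Set ({i // p i} → PhasePoint)} (hX : MeasurableSet X)
    {W : Set (({i // p i} → PhasePoint) × ({i // ¬ p i} → PhasePoint))} (hW : MeasurableSet W)
    (hWX : ∀ w ∈ W, w.1 ∈ X) {M : ℝ≥0∞} (hM : ∀ x ∈ X, volume {y | (x, y) ∈ W} ≤ M) :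
    volume {z : ι → PhasePoint | (res p z, res (fun i => ¬ p i) z) ∈ W} ≤ volume X * M := by
  have hmp := volume_preserving_piEquivPiSubtypeProd (fun _ : ι => PhasePoint) p
  have h1 : volume {z : ι → PhasePoint | (res p z, res (fun i => ¬ p i) z) ∈ W} =
      ((volume : Measure ({i // p i} → PhasePoint)).prod
        (volume : Measure ({i // ¬ p i} → PhasePoint))) W :=
    hmp.measure_preimage hW.nullMeasurableSet
  rw [h1, Measure.prod_apply hW]
  calc ∫⁻ x, volume (Prod.mk x ⁻¹' W) ≤ ∫⁻ x, X.indicator (fun _ => M) x := by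
        refine lintegral_mono fun x => ?_
        by_cases hx : x ∈ X
        · rw [indicator_of_mem hx]; exact hM x hx
        · rw [indicator_of_notMem hx]
          have : Prod.mk x ⁻¹' W = ∅ := by
            ext y; constructor
            · intro hy; exact absurd (hWX _ hy) hx
            · intro hy; exact absurd hy (notMem_empty _)
          rw [this]; simp
    _ = volume X * M := by rw [lintegral_indicator hX, lintegral_const, Measure.restrict_apply_univ, mul_comm]

theorem fub2 (p : ι → Prop) {Y : Set ({i // ¬ p i} → PhasePoint)} (hY : MeasurableSet Y)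
    {W : Set (({i // p i} → PhasePoint) × ({i // ¬ p i} → PhasePoint))} (hW : MeasurableSet W)
    (hWY : ∀ w ∈ W, w.2 ∈ Y) {M : ℝ≥0∞} (hM : ∀ y ∈ Y, volume {x | (x, y) ∈ W} ≤ M) :
    volume {z : ι → PhasePoint | (res p z, res (fun i => ¬ p i) z) ∈ W} ≤ volume Y * M := by
  have hmp := volume_preserving_piEquivPiSubtypeProd (fun _ : ι => PhasePoint) p
  have h1 : volume {z : ι → PhasePoint | (res p z, res (fun i => ¬ p i) z) ∈ W} =
      ((volume : Measure ({i // p i} → PhasePoint)).prod
        (volume : Measure ({i // ¬ p i} → PhasePoint))) W :=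
    hmp.measure_preimage hW.nullMeasurableSet
  rw [h1, Measure.prod_apply_symm hW]
  calc ∫⁻ y, volume ((fun x => (x, y)) ⁻¹' W) ≤ ∫⁻ y, Y.indicator (fun _ => M) y := by
        refine lintegral_mono fun y => ?_
        by_cases hy : y ∈ Y
        · rw [indicator_of_mem hy]; exact hM y hy
        · rw [indicator_of_notMem hy]
          have : (fun x => (x, y)) ⁻¹' W = ∅ := by
            ext x; constructor
            · intro hx; exact absurd (hWY _ hx) hy
            · intro hx; exact absurd hx (notMem_empty _)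
          rw [this]; simp
    _ = volume Y * M := by rw [lintegral_indicator hY, lintegral_const, Measure.restrict_apply_univ, mul_comm]

/-- volume of the unit ball of `Space3`. -/
def kap : ℝ≥0∞ := volume (Metric.ball (0 : Space3) 1)

theorem kap_ne_top : kap ≠ ∞ := measure_ball_lt_top.ne

theorem vol_closedBall (x : Space3) {r : ℝ} (hr : 0 ≤ r) :
    volume (Metric.closedBall x r) = ENNReal.ofReal r ^ 3 * kap := by
  rw [Measure.addHaar_closedBall _ _ hr, ← ENNReal.ofReal_pow hr]
  simp [kap]

/-- The set of phase points in a ball with bounded velocity. -/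
def cell (x : Space3) (r V : ℝ) : Set PhasePoint := Metric.closedBall x r ×ˢ Metric.closedBall 0 V

theorem measurableSet_cell (x : Space3) (r V : ℝ) : MeasurableSet (cell x r V) :=
  Metric.isClosed_closedBall.measurableSet.prod Metric.isClosed_closedBall.measurableSet

theorem vol_cell (x : Space3) {r V : ℝ} (hr : 0 ≤ r) (hV : 0 ≤ V) :
    volume (cell x r V) = (ENNReal.ofReal r ^ 3 * kap) * (ENNReal.ofReal V ^ 3 * kap) := by
  unfold cell
  rw [Measure.volume_eq_prod, Measure.prod_prod, vol_closedBall _ hr, vol_closedBall _ hV]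

/-- Positions connected by chains of steps `≤ ε` are at distance `≤ card * ε`. -/
theorem dist_le_of_chain {x : ι → Space3} {ε : ℝ} (hε : 0 ≤ ε)
    (h : AllConn (fun i j => dist (x i) (x j) ≤ ε)) (i j : ι) : dist (x i) (x j) ≤ Fintype.card ι * ε := by
  let G : SimpleGraph ι := SimpleGraph.fromRel (fun i j => dist (x i) (x j) ≤ ε)
  have hadj : ∀ a b, G.Adj a b → dist (x a) (x b) ≤ ε := by
    intro a b hab
    rw [SimpleGraph.fromRel_adj] at hab
    rcases hab.2 with h | h
    · exact h
    · rw [dist_comm]; exact h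
  have hreach : ∀ a b, Relation.ReflTransGen (fun i j => dist (x i) (x j) ≤ ε) a b → G.Reachable a b := by
    intro a b hab
    induction hab with
    | refl => exact SimpleGraph.Reachable.refl _
    | @tail c d h1 h2 ih =>
      by_cases hcd : c = d
      · rw [← hcd]; exact ih
      · exact ih.trans (SimpleGraph.Adj.reachable ((SimpleGraph.fromRel_adj _ _ _).2 ⟨hcd, Or.inl h2⟩))
  have hwalk : ∀ a b (w : G.Walk a b), dist (x a) (x b) ≤ w.length * ε := by
    intro a b w
    induction w with
    | nil => simp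
    | @cons a b c hab w ih =>
      calc dist (x a) (x c) ≤ dist (x a) (x b) + dist (x b) (x c) := dist_triangle _ _ _
        _ ≤ ε + w.length * ε := add_le_add (hadj _ _ hab) ih
        _ = _ := by rw [SimpleGraph.Walk.length_cons]; push_cast; ring
  obtain ⟨w, hw⟩ := (hreach i j (h i j)).exists_isPath
  calc dist (x i) (x j) ≤ w.length * ε := hwalk i j w
    _ ≤ Fintype.card ι * ε := by
      refine mul_le_mul_of_nonneg_right ?_ hε
      exact_mod_cast hw.length_lt.le

/-- Static bound: root in `A`, everybody else in the cell of the root. -/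
theorem static_bound (i : ι) {A : Set PhasePoint} (hA : MeasurableSet A) {r V : ℝ} (hr : 0 ≤ r) (hV : 0 ≤ V) :
    volume {z : ι → PhasePoint | z i ∈ A ∧ ∀ j, z j ∈ cell (z i).1 r V} ≤
      volume A * ((ENNReal.ofReal r ^ 3 * kap) * (ENNReal.ofReal V ^ 3 * kap)) ^ (Fintype.card ι - 1) := by
  obtain ⟨p, hp⟩ : ∃ p : ι → Prop, ∀ j, p j ↔ j = i := ⟨fun j => j = i, fun _ => Iff.rfl⟩
  set i' : {j // p j} := ⟨i, (hp i).2 rfl⟩ with hi'
  set X : Set ({j // p j} → PhasePoint) := {x | x i' ∈ A} with hXdef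
  have hX : MeasurableSet X := measurable_pi_apply i' hA
  set W : Set (({j // p j} → PhasePoint) × ({j // ¬ p j} → PhasePoint)) :=
    {w | w.1 i' ∈ A ∧ ∀ j, dist (w.2 j).1 (w.1 i').1 ≤ r ∧ dist (w.2 j).2 0 ≤ V} with hWdef
  have hW : MeasurableSet W := by
    have h1 : MeasurableSet {w : ({j // p j} → PhasePoint) × ({j // ¬ p j} → PhasePoint) | w.1 i' ∈ A} :=
      ((measurable_pi_apply i').comp measurable_fst) hA
    have h2 : ∀ j, MeasurableSet {w : ({j // p j} → PhasePoint) × ({j // ¬ p j} → PhasePoint) |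
        dist (w.2 j).1 (w.1 i').1 ≤ r ∧ dist (w.2 j).2 0 ≤ V} := by
      intro j
      have hj : Measurable fun w : ({j // p j} → PhasePoint) × ({j // ¬ p j} → PhasePoint) => w.2 j :=
        (measurable_pi_apply j).comp measurable_snd
      have hi : Measurable fun w : ({j // p j} → PhasePoint) × ({j // ¬ p j} → PhasePoint) => w.1 i' :=
        (measurable_pi_apply i').comp measurable_fst
      exact (measurableSet_le (hj.fst.dist hi.fst) measurable_const).inter
        (measurableSet_le (hj.snd.dist measurable_const) measurable_const)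
    have : W = {w | w.1 i' ∈ A} ∩ ⋂ j, {w | dist (w.2 j).1 (w.1 i').1 ≤ r ∧ dist (w.2 j).2 0 ≤ V} := by
      ext w; simp only [hWdef, mem_inter_iff, mem_iInter]; rfl
    rw [this]; exact h1.inter (MeasurableSet.iInter h2)
  have hcard1 : Fintype.card {j // p j} = 1 := by
    rw [Fintype.card_eq_one_iff]
    exact ⟨i', fun j => Subtype.ext ((hp _).1 j.2)⟩
  have hcard : Fintype.card {j // ¬ p j} = Fintype.card ι - 1 := by
    rw [Fintype.card_subtype_compl, hcard1]
  have hvolX : volume X = volume A := by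
    have hset : X = Set.pi univ fun _ => A := by
      ext x
      constructor
      · intro hx j _
        have : j = i' := Subtype.ext ((hp _).1 j.2)
        rw [this]; exact hx
      · intro hx; exact hx i' (mem_univ _)
    rw [hset, volume_pi, Measure.pi_pi, Finset.prod_const, Finset.card_univ, hcard1, pow_one]
  have hsub : {z : ι → PhasePoint | z i ∈ A ∧ ∀ j, z j ∈ cell (z i).1 r V} ⊆
      {z : ι → PhasePoint | (res p z, res (fun i => ¬ p i) z) ∈ W} := by
    rintro z ⟨h1, h2⟩
    exact ⟨h1, fun j => ⟨(h2 j).1, (h2 j).2⟩⟩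
  refine (measure_mono hsub).trans ?_
  refine (fub1 p hX hW (fun w hw => hw.1) (M := ((ENNReal.ofReal r ^ 3 * kap) *
    (ENNReal.ofReal V ^ 3 * kap)) ^ (Fintype.card ι - 1)) ?_).trans ?_
  · intro x hx
    have : {y : {j // ¬ p j} → PhasePoint | (x, y) ∈ W} ⊆ Set.pi univ fun _ => cell (x i').1 r V := by
      intro y hy j _
      exact ⟨(hy.2 j).1, (hy.2 j).2⟩
    refine (measure_mono this).trans ?_
    rw [volume_pi, Measure.pi_pi]
    simp only [vol_cell _ hr hV, Finset.prod_const, Finset.card_univ, hcard]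
    exact le_refl _
  · rw [hvolX]

end Crest.Agent.R122.Vol365
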