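import Crest.Agent.R122.VolFub_365

-- ▼ part R122/VolCore_365
section

/-!
Row 122, helper365: the crude undamped cluster volume bound (strong induction on the cluster size).
-/

set_option autoImplicit false

open MeasureTheory Set
open Crest.AnalysisR.Kinetic
open scoped ENNReal Classical

noncomputable section

namespace Crest.Agent.R122.Vol365

/-- Bound on clusters of size at most `k`. -/
def Bd (k : ℕ) (C : ℝ≥0∞) (q : ℕ) : Prop :=
  ∀ (ε B : ℝ) (S : Bodies ε B) (K : ℕ) (E V T : ℝ), ε ≤ 1 → 1 ≤ V → 1 ≤ T →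
    2 * (E + B * K * (k + 1)) ≤ V ^ 2 →
    ∀ (ι : Type) [Fintype ι], Fintype.card ι ≤ k → Fintype.card ι ≤ K →
    ∀ (i : ι) (A : Set PhasePoint), MeasurableSet A → ∀ (a b : ℝ), a ≤ 0 → 0 ≤ b → b - a ≤ T →
      volume (S.SSet ι a b E i A) ≤
        C * ENNReal.ofReal (V * T) ^ q * ENNReal.ofReal ε ^ (2 * (Fintype.card ι - 1)) * volume A ∧
      ∀ σ ∈ Icc a b, volume (S.RSet ι a b σ E i A) ≤
        C * ENNReal.ofReal (V * T) ^ q * ENNReal.ofReal ε ^ (2 * (Fintype.card ι - 1)) * volume A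

namespace Bodies

variable {ε B : ℝ} (S : Bodies ε B)

/-- Connected with links but not by contacts alone. -/
def DSet (ι : Type) (a b σ E : ℝ) (i : ι) (A : Set PhasePoint) : Set (ι → PhasePoint) :=
  {z | z ∈ S.dom ι ∧ S.energy ι z ≤ E ∧
    AllConn (fun j k => S.Contact a b z j k ∨ S.Link σ z j k) ∧ ¬ AllConn (S.Contact a b z) ∧ z i ∈ A}

variable {ι : Type} [Fintype ι]

theorem contact_symm {a b : ℝ} {z : ι → PhasePoint} {i j : ι} (h : S.Contact a b z i j) :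
    S.Contact a b z j i := by
  obtain ⟨t, ht, h⟩ := h; exact ⟨t, ht, by rwa [dist_comm]⟩

theorem link_symm {σ : ℝ} {z : ι → PhasePoint} {i j : ι} (h : S.Link σ z i j) : S.Link σ z j i := by
  unfold Link at *; rwa [dist_comm]

theorem speed {z : ι → PhasePoint} (hz : z ∈ S.dom ι) {E V : ℝ} (hE : S.energy ι z ≤ E) (hV : 0 ≤ V)
    (h : 2 * (E + B * Fintype.card ι) ≤ V ^ 2) (i : ι) : ‖(z i).2‖ ≤ V := by
  have h1 := S.vel_le ι z hz i
  have : ‖(z i).2‖ ^ 2 ≤ V ^ 2 := by linarith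
  exact le_of_sq_le_sq this hV |>.trans (le_refl _)

theorem ext_right {z : ι → PhasePoint} (hz : z ∈ S.dom ι) {E V δ : ℝ} (hE : S.energy ι z ≤ E)
    (hV : 0 ≤ V) (h : 2 * (E + B * Fintype.card ι) ≤ V ^ 2) (hδ : 2 * V * δ ≤ ε) {a b b' : ℝ}
    (hbb : b' - b ≤ δ) {i j : ι} (hc : S.Contact a b' z i j) :
    S.Contact a b z i j ∨ S.Link b z i j := by
  obtain ⟨t, ht, hd⟩ := hc
  rcases le_or_gt t b with htb | htb
  · exact Or.inl ⟨t, ⟨ht.1, htb⟩, hd⟩
  · right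
    have h2 : 2 * (S.energy ι z + B * Fintype.card ι) ≤ V ^ 2 := by linarith
    have hi := S.lip ι z hz i b t V hV h2
    have hj := S.lip ι z hz j t b V hV h2
    have habs1 : |b - t| ≤ δ := by rw [abs_le]; constructor <;> linarith [ht.2]
    have habs2 : |t - b| ≤ δ := by rw [abs_le]; constructor <;> linarith [ht.2]
    have e1 : V * |b - t| ≤ V * δ := mul_le_mul_of_nonneg_left habs1 hV
    have e2 : V * |t - b| ≤ V * δ := mul_le_mul_of_nonneg_left habs2 hV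
    show dist (S.pos z b i) (S.pos z b j) ≤ 2 * ε
    calc dist (S.pos z b i) (S.pos z b j)
        ≤ dist (S.pos z b i) (S.pos z t i) + dist (S.pos z t i) (S.pos z t j) +
          dist (S.pos z t j) (S.pos z b j) := dist_triangle4 _ _ _ _
      _ ≤ V * δ + ε + V * δ := by
          refine add_le_add (add_le_add (le_trans hi e1) hd) (le_trans hj e2)
      _ ≤ 2 * ε := by linarith

theorem ext_left {z : ι → PhasePoint} (hz : z ∈ S.dom ι) {E V δ : ℝ} (hE : S.energy ι z ≤ E)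
    (hV : 0 ≤ V) (h : 2 * (E + B * Fintype.card ι) ≤ V ^ 2) (hδ : 2 * V * δ ≤ ε) {a a' b : ℝ}
    (haa : a - a' ≤ δ) {i j : ι} (hc : S.Contact a' b z i j) :
    S.Contact a b z i j ∨ S.Link a z i j := by
  obtain ⟨t, ht, hd⟩ := hc
  rcases le_or_gt a t with hta | hta
  · exact Or.inl ⟨t, ⟨hta, ht.2⟩, hd⟩
  · right
    have h2 : 2 * (S.energy ι z + B * Fintype.card ι) ≤ V ^ 2 := by linarith
    have hi := S.lip ι z hz i a t V hV h2
    have hj := S.lip ι z hz j t a V hV h2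
    have habs1 : |a - t| ≤ δ := by rw [abs_le]; constructor <;> linarith [ht.1]
    have habs2 : |t - a| ≤ δ := by rw [abs_le]; constructor <;> linarith [ht.1]
    have e1 : V * |a - t| ≤ V * δ := mul_le_mul_of_nonneg_left habs1 hV
    have e2 : V * |t - a| ≤ V * δ := mul_le_mul_of_nonneg_left habs2 hV
    show dist (S.pos z a i) (S.pos z a j) ≤ 2 * ε
    calc dist (S.pos z a i) (S.pos z a j)
        ≤ dist (S.pos z a i) (S.pos z t i) + dist (S.pos z t i) (S.pos z t j) +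
          dist (S.pos z t j) (S.pos z a j) := dist_triangle4 _ _ _ _
      _ ≤ V * δ + ε + V * δ := by
          refine add_le_add (add_le_add (le_trans hi e1) hd) (le_trans hj e2)
      _ ≤ 2 * ε := by linarith

/-- section bound for a `SSet` block whose root must be near `q` at time `σ`. -/
theorem near_S {k : ℕ} {C : ℝ≥0∞} {q' : ℕ} (hBd : Bd k C q') {K : ℕ} {E V T : ℝ} (hε : ε ≤ 1)
    (hV : 1 ≤ V) (hT : 1 ≤ T) (hEV : 2 * (E + B * K * (k + 1)) ≤ V ^ 2)
    (hk : Fintype.card ι ≤ k) (hK : Fintype.card ι ≤ K) (y : ι) {a b σ : ℝ} (hσ : σ ∈ Icc a b)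
    (hT' : b - a ≤ T) (q : Space3) :
    volume {z : ι → PhasePoint | z ∈ S.SSet ι a b E y univ ∧ dist (S.pos z σ y) q ≤ 2 * ε} ≤
      C * ENNReal.ofReal (V * T) ^ q' * ENNReal.ofReal ε ^ (2 * (Fintype.card ι - 1)) *
        volume (cell q (2 * ε) V) := by
  have hV0 : (0 : ℝ) ≤ V := by linarith
  have hBK : B * Fintype.card ι ≤ B * K * (k + 1) := by
    have h1 : B * (Fintype.card ι : ℝ) ≤ B * K := mul_le_mul_of_nonneg_left (by exact_mod_cast hK) S.B_nonneg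
    have h2 : B * K ≤ B * K * (k + 1) := by
      have : 0 ≤ B * K * k := by have := S.B_nonneg; positivity
      linarith
    linarith
  have hsub : {z : ι → PhasePoint | z ∈ S.SSet ι a b E y univ ∧ dist (S.pos z σ y) q ≤ 2 * ε} ⊆
      S.flow ι σ ⁻¹' (S.SSet ι (a - σ) (b - σ) E y (cell q (2 * ε) V)) := by
    refine Subset.trans ?_ (S.SSet_shift a b E σ y (cell q (2 * ε) V))
    rintro z ⟨⟨h1, h2, h3, -⟩, h5⟩
    refine ⟨h1, h2, h3, ?_, ?_⟩
    · exact h5
    · rw [mem_closedBall_zero_iff]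
      exact S.speed (S.flow_dom ι σ z h1) (E := E) (by rw [S.energy_flow ι σ z h1]; exact h2) hV0
        (by linarith) y
  refine (measure_mono hsub).trans ?_
  rw [(S.flow_mp ι σ).measure_preimage (S.measurableSet_SSet _ _ _ _ (measurableSet_cell _ _ _)).nullMeasurableSet]
  exact (hBd ε B S K E V T hε hV hT hEV ι hk hK y _ (measurableSet_cell _ _ _) (a - σ) (b - σ)
    (by linarith [hσ.1]) (by linarith [hσ.2]) (by linarith)).1

theorem near_R {k : ℕ} {C : ℝ≥0∞} {q' : ℕ} (hBd : Bd k C q') {K : ℕ} {E V T : ℝ} (hε : ε ≤ 1)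
    (hV : 1 ≤ V) (hT : 1 ≤ T) (hEV : 2 * (E + B * K * (k + 1)) ≤ V ^ 2)
    (hk : Fintype.card ι ≤ k) (hK : Fintype.card ι ≤ K) (y : ι) {a b σ : ℝ} (hσ : σ ∈ Icc a b)
    (hT' : b - a ≤ T) (q : Space3) :
    volume {z : ι → PhasePoint | z ∈ S.RSet ι a b σ E y univ ∧ dist (S.pos z σ y) q ≤ 2 * ε} ≤
      C * ENNReal.ofReal (V * T) ^ q' * ENNReal.ofReal ε ^ (2 * (Fintype.card ι - 1)) *
        volume (cell q (2 * ε) V) := by
  have hV0 : (0 : ℝ) ≤ V := by linarith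
  have hBK : B * Fintype.card ι ≤ B * K * (k + 1) := by
    have h1 : B * (Fintype.card ι : ℝ) ≤ B * K := mul_le_mul_of_nonneg_left (by exact_mod_cast hK) S.B_nonneg
    have h2 : B * K ≤ B * K * (k + 1) := by
      have : 0 ≤ B * K * k := by have := S.B_nonneg; positivity
      linarith
    linarith
  have hsub : {z : ι → PhasePoint | z ∈ S.RSet ι a b σ E y univ ∧ dist (S.pos z σ y) q ≤ 2 * ε} ⊆
      S.flow ι σ ⁻¹' (S.RSet ι (a - σ) (b - σ) 0 E y (cell q (2 * ε) V)) := by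
    refine Subset.trans ?_ (S.RSet_shift a b E σ y (cell q (2 * ε) V))
    rintro z ⟨⟨h1, h2, h3, -⟩, h5⟩
    refine ⟨h1, h2, h3, ?_, ?_⟩
    · exact h5
    · rw [mem_closedBall_zero_iff]
      exact S.speed (S.flow_dom ι σ z h1) (E := E) (by rw [S.energy_flow ι σ z h1]; exact h2) hV0
        (by linarith) y
  refine (measure_mono hsub).trans ?_
  rw [(S.flow_mp ι σ).measure_preimage (S.measurableSet_RSet _ _ _ _ _ (measurableSet_cell _ _ _)).nullMeasurableSet]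
  exact (hBd ε B S K E V T hε hV hT hEV ι hk hK y _ (measurableSet_cell _ _ _) (a - σ) (b - σ)
    (by linarith [hσ.1]) (by linarith [hσ.2]) (by linarith)).2 0 ⟨by linarith [hσ.1], by linarith [hσ.2]⟩

theorem res_contact {z : ι → PhasePoint} {p : ι → Prop} {a b : ℝ}
    (h : ∀ t ∈ Icc a b, ∀ i : {i // p i}, S.flow ι t z i = S.flow {i // p i} t (res p z) i)
    (i j : {i // p i}) : S.Contact a b (res p z) i j ↔ S.Contact a b z i j := by
  unfold Contact pos
  constructor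
  · rintro ⟨t, ht, hd⟩; exact ⟨t, ht, by rw [h t ht i, h t ht j]; exact hd⟩
  · rintro ⟨t, ht, hd⟩; exact ⟨t, ht, by rw [h t ht i, h t ht j] at hd; exact hd⟩

theorem res_link {z : ι → PhasePoint} {p : ι → Prop} {σ : ℝ}
    (h : ∀ i : {i // p i}, S.flow ι σ z i = S.flow {i // p i} σ (res p z) i)
    (i j : {i // p i}) : S.Link σ (res p z) i j ↔ S.Link σ z i j := by
  unfold Link pos; rw [h i, h j]

/-- Decomposition of a configuration of `DSet` in a linked block and a contact block. -/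
theorem D_sub {a b σ E : ℝ} (ha : a ≤ 0) (hb : 0 ≤ b) (hσ : σ ∈ Icc a b) {i : ι} {A : Set PhasePoint}
    {z : ι → PhasePoint} (hz : z ∈ S.DSet ι a b σ E i A) :
    ∃ (P : Set ι) (x y : ι) (hx : x ∈ P) (hy : ¬ y ∈ P),
      ((∃ hi : i ∈ P, res (fun j => j ∈ P) z ∈
            S.RSet {j // j ∈ P} a b σ (E + B * Fintype.card ι) ⟨i, hi⟩ A ∧
          res (fun j => ¬ j ∈ P) z ∈
            S.SSet {j // ¬ j ∈ P} a b (E + B * Fintype.card ι) ⟨y, hy⟩ univ) ∨
        (∃ hi : ¬ i ∈ P, res (fun j => j ∈ P) z ∈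
            S.RSet {j // j ∈ P} a b σ (E + B * Fintype.card ι) ⟨x, hx⟩ univ ∧
          res (fun j => ¬ j ∈ P) z ∈
            S.SSet {j // ¬ j ∈ P} a b (E + B * Fintype.card ι) ⟨i, hi⟩ A)) ∧
      dist (S.pos (res (fun j => j ∈ P) z) σ ⟨x, hx⟩) (S.pos (res (fun j => ¬ j ∈ P) z) σ ⟨y, hy⟩)
        ≤ 2 * ε := by
  obtain ⟨hdom, hE, hR, hN, hiA⟩ := hz
  obtain ⟨P, -, -, hno, hC, hD, x, y, hx, hy, hl⟩ :=
    VolGraph365.split (c := S.Contact a b z) (l := S.Link σ z)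
      (fun i j h => S.contact_symm h) (fun i j h => S.link_symm h) hR hN
  have hsep : ∀ t ∈ Icc a b, ∀ i j, i ∈ P → ¬ j ∈ P →
      ε < dist (S.flow ι t z i).1 (S.flow ι t z j).1 := by
    intro t ht i j hi hj
    by_contra hcon
    exact hno i hi j hj ⟨t, ht, not_lt.1 hcon⟩
  have hsep' : ∀ t ∈ Icc a b, ∀ i j, ¬ i ∈ P → ¬ ¬ j ∈ P →
      ε < dist (S.flow ι t z i).1 (S.flow ι t z j).1 := by
    intro t ht i j hi hj
    rw [dist_comm]; exact hsep t ht j i (not_not.1 hj) hi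
  have h0 : (0 : ℝ) ∈ Icc a b := ⟨ha, hb⟩
  have hsep0 : ∀ i j, i ∈ P → ¬ j ∈ P → ε < dist (z i).1 (z j).1 := by
    intro i j hi hj
    have := hsep 0 h0 i j hi hj
    rwa [S.flow_zero ι z hdom] at this
  have hsep0' : ∀ i j, ¬ i ∈ P → ¬ ¬ j ∈ P → ε < dist (z i).1 (z j).1 := by
    intro i j hi hj
    rw [dist_comm]; exact hsep0 j i (not_not.1 hj) hi
  have hloc := S.flow_local ι (fun j => j ∈ P) z hdom a b ha hb hsep
  have hloc' := S.flow_local ι (fun j => ¬ j ∈ P) z hdom a b ha hb hsep'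
  have hdC := S.dom_restrict ι (fun j => j ∈ P) z hdom
  have hdD := S.dom_restrict ι (fun j => ¬ j ∈ P) z hdom
  have hEC := S.energy_restrict ι (fun j => j ∈ P) z hdom hsep0
  have hED := S.energy_restrict ι (fun j => ¬ j ∈ P) z hdom hsep0'
  have hCC : AllConn (fun j k => S.Contact a b (res (fun j => j ∈ P) z) j k ∨
      S.Link σ (res (fun j => j ∈ P) z) j k) := by
    intro j k
    refine Relation.ReflTransGen.mono (r := fun x y : {i // i ∈ P} => S.Contact a b z x y ∨ S.Link σ z x y)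
      (p := fun j k => S.Contact a b (res (fun j => j ∈ P) z) j k ∨
      S.Link σ (res (fun j => j ∈ P) z) j k) ?_ _ _ (hC j k)
    intro u v huv
    rcases huv with h | h
    · exact Or.inl ((S.res_contact hloc u v).2 h)
    · exact Or.inr ((S.res_link (fun i => hloc σ hσ i) u v).2 h)
  have hDD : AllConn (S.Contact a b (res (fun j => ¬ j ∈ P) z)) := by
    intro j k
    refine Relation.ReflTransGen.mono (r := fun x y : {i // ¬ i ∈ P} => S.Contact a b z x y)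
      (p := S.Contact a b (res (fun j => ¬ j ∈ P) z)) ?_ _ _ (hD j k)
    intro u v huv
    exact (S.res_contact hloc' u v).2 huv
  have hlink : dist (S.pos (res (fun j => j ∈ P) z) σ ⟨x, hx⟩)
      (S.pos (res (fun j => ¬ j ∈ P) z) σ ⟨y, hy⟩) ≤ 2 * ε := by
    have e1 : S.pos (res (fun j => j ∈ P) z) σ ⟨x, hx⟩ = S.pos z σ x := by
      unfold pos; rw [← hloc σ hσ ⟨x, hx⟩]
    have e2 : S.pos (res (fun j => ¬ j ∈ P) z) σ ⟨y, hy⟩ = S.pos z σ y := by
      unfold pos; rw [← hloc' σ hσ ⟨y, hy⟩]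
    rw [e1, e2]; exact hl
  refine ⟨P, x, y, hx, hy, ?_, hlink⟩
  by_cases hi : i ∈ P
  · left
    exact ⟨hi, ⟨hdC, by linarith, hCC, hiA⟩, ⟨hdD, by linarith, hDD, trivial⟩⟩
  · right
    exact ⟨hi, ⟨hdC, by linarith, hCC, trivial⟩, ⟨hdD, by linarith, hDD, hiA⟩⟩

end Bodies

end Crest.Agent.R122.Vol365
end
end

-- ▼ part R122/VolInd_365
section

/-!
Row 122, helper365: induction step of the crude cluster volume bound.
-/

set_option autoImplicit false

open MeasureTheory Set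
open Crest.AnalysisR.Kinetic
open scoped ENNReal Classical

noncomputable section

namespace Crest.Agent.R122.Vol365

theorem arith1 {C X α e v κ : ℝ≥0∞} {q c d n : ℕ} (hc : 1 ≤ c) (hd : 1 ≤ d) (hn : c + d = n) (hv : v ≤ X) :
    (C * X ^ q * e ^ (2 * (c - 1)) * α) * (C * X ^ q * e ^ (2 * (d - 1)) * (((2 * e) ^ 3 * κ) * (v ^ 3 * κ)))
      ≤ (C ^ 2 * 8 * κ ^ 2) * X ^ (2 * q + 3) * e ^ (2 * (n - 1) + 1) * α := by
  obtain ⟨c', rfl⟩ := Nat.exists_eq_add_of_le' hc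
  obtain ⟨d', rfl⟩ := Nat.exists_eq_add_of_le' hd
  subst hn
  have e1 : c' + 1 - 1 = c' := by omega
  have e2 : d' + 1 - 1 = d' := by omega
  have e3 : 2 * (c' + 1 + (d' + 1) - 1) + 1 = 2 * c' + 2 * d' + 3 := by omega
  rw [e1, e2, e3]
  calc (C * X ^ q * e ^ (2 * c') * α) * (C * X ^ q * e ^ (2 * d') * (((2 * e) ^ 3 * κ) * (v ^ 3 * κ)))
      = (C ^ 2 * 8 * κ ^ 2) * (X ^ (2 * q) * v ^ 3) * e ^ (2 * c' + 2 * d' + 3) * α := by ring
    _ ≤ (C ^ 2 * 8 * κ ^ 2) * (X ^ (2 * q) * X ^ 3) * e ^ (2 * c' + 2 * d' + 3) * α := by gcongr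
    _ = _ := by ring

namespace Bodies

variable {ε B : ℝ} (S : Bodies ε B) {ι : Type} [Fintype ι]

/-- The pieces in which `DSet` is decomposed. -/
def ZSet (a b σ E : ℝ) (i : ι) (A : Set PhasePoint) (P : Set ι) (x y : ι) : Set (ι → PhasePoint) :=
  {z | ∃ (hx : x ∈ P) (hy : ¬ y ∈ P),
      ((∃ hi : i ∈ P, res (fun j => j ∈ P) z ∈
            S.RSet {j // j ∈ P} a b σ (E + B * Fintype.card ι) ⟨i, hi⟩ A ∧
          res (fun j => ¬ j ∈ P) z ∈
            S.SSet {j // ¬ j ∈ P} a b (E + B * Fintype.card ι) ⟨y, hy⟩ univ) ∨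
        (∃ hi : ¬ i ∈ P, res (fun j => j ∈ P) z ∈
            S.RSet {j // j ∈ P} a b σ (E + B * Fintype.card ι) ⟨x, hx⟩ univ ∧
          res (fun j => ¬ j ∈ P) z ∈
            S.SSet {j // ¬ j ∈ P} a b (E + B * Fintype.card ι) ⟨i, hi⟩ A)) ∧
      dist (S.pos (res (fun j => j ∈ P) z) σ ⟨x, hx⟩) (S.pos (res (fun j => ¬ j ∈ P) z) σ ⟨y, hy⟩)
        ≤ 2 * ε}

theorem vol_ZSet {k : ℕ} {C : ℝ≥0∞} {q : ℕ} (hBd : Bd k C q) {K : ℕ} {E V T : ℝ} (hε : ε ≤ 1)
    (hV : 1 ≤ V) (hT : 1 ≤ T) (hEV : 2 * (E + B * K * (k + 1 + 1)) ≤ V ^ 2)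
    (hk : Fintype.card ι ≤ k + 1) (hK : Fintype.card ι ≤ K) (i : ι) {A : Set PhasePoint}
    (hA : MeasurableSet A) {a b σ : ℝ} (ha : a ≤ 0) (hb : 0 ≤ b) (hσ : σ ∈ Icc a b)
    (hT' : b - a ≤ T) (P : Set ι) (x y : ι) :
    volume (S.ZSet a b σ E i A P x y) ≤ (C ^ 2 * 8 * kap ^ 2) * ENNReal.ofReal (V * T) ^ (2 * q + 3) *
      ENNReal.ofReal ε ^ (2 * (Fintype.card ι - 1) + 1) * volume A := by
  by_cases hx : x ∈ P
  swap
  · have : S.ZSet a b σ E i A P x y = ∅ := by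
      ext z; constructor
      · rintro ⟨hx', -⟩; exact absurd hx' hx
      · intro h; exact absurd h (notMem_empty _)
    rw [this]; simp
  by_cases hy : ¬ y ∈ P
  swap
  · have : S.ZSet a b σ E i A P x y = ∅ := by
      ext z; constructor
      · rintro ⟨-, hy', -⟩; exact absurd hy' hy
      · intro h; exact absurd h (notMem_empty _)
    rw [this]; simp
  have hV0 : (0 : ℝ) ≤ V := by linarith
  have hε0 : 0 ≤ ε := S.eps_pos.le
  set p : ι → Prop := fun j => j ∈ P with hp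
  set E' : ℝ := E + B * Fintype.card ι with hE'
  set c := Fintype.card {j // p j} with hcdef
  set d := Fintype.card {j // ¬ p j} with hddef
  have hcd : c + d = Fintype.card ι := by
    have h1 : c ≤ Fintype.card ι := Fintype.card_subtype_le _
    have h2 : d = Fintype.card ι - c := Fintype.card_subtype_compl _
    omega
  have hc1 : 1 ≤ c := Fintype.card_pos_iff.2 ⟨⟨x, hx⟩⟩
  have hd1 : 1 ≤ d := Fintype.card_pos_iff.2 ⟨⟨y, hy⟩⟩
  have hck : c ≤ k := by omega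
  have hdk : d ≤ k := by omega
  have hcK : c ≤ K := by omega
  have hdK : d ≤ K := by omega
  have hBn : B * (Fintype.card ι : ℝ) ≤ B * K := mul_le_mul_of_nonneg_left (by exact_mod_cast hK) S.B_nonneg
  have hEV' : 2 * (E' + B * K * (k + 1)) ≤ V ^ 2 := by
    have : 2 * (E' + B * K * (k + 1)) ≤ 2 * (E + B * K * (k + 1 + 1)) := by rw [hE']; linarith
    linarith
  have hvX : ENNReal.ofReal V ≤ ENNReal.ofReal (V * T) := ENNReal.ofReal_le_ofReal (by nlinarith)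
  have h2e : ENNReal.ofReal (2 * ε) = 2 * ENNReal.ofReal ε := by
    rw [ENNReal.ofReal_mul (by norm_num)]; simp
  have hcell : ∀ q' : Space3, volume (cell q' (2 * ε) V) =
      ((2 * ENNReal.ofReal ε) ^ 3 * kap) * (ENNReal.ofReal V ^ 3 * kap) := by
    intro q'; rw [vol_cell _ (by linarith) hV0, h2e]
  by_cases hi : i ∈ P
  · -- root in the linked block
    set X : Set ({j // p j} → PhasePoint) := S.RSet {j // p j} a b σ E' ⟨i, hi⟩ A with hXdef
    set Y : Set ({j // ¬ p j} → PhasePoint) := S.SSet {j // ¬ p j} a b E' ⟨y, hy⟩ univ with hYdef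
    have hX : MeasurableSet X := S.measurableSet_RSet _ _ _ _ _ hA
    have hY : MeasurableSet Y := S.measurableSet_SSet _ _ _ _ MeasurableSet.univ
    set W : Set (({j // p j} → PhasePoint) × ({j // ¬ p j} → PhasePoint)) :=
      {w | w.1 ∈ X ∧ w.2 ∈ Y ∧ dist (S.pos w.1 σ ⟨x, hx⟩) (S.pos w.2 σ ⟨y, hy⟩) ≤ 2 * ε} with hWdef
    have hW : MeasurableSet W := by
      have h3 : MeasurableSet {w : ({j // p j} → PhasePoint) × ({j // ¬ p j} → PhasePoint) |
          dist (S.pos w.1 σ ⟨x, hx⟩) (S.pos w.2 σ ⟨y, hy⟩) ≤ 2 * ε} :=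
        measurableSet_le (((S.measurable_pos σ _).comp measurable_fst).dist
          ((S.measurable_pos σ _).comp measurable_snd)) measurable_const
      exact (measurable_fst hX).inter ((measurable_snd hY).inter h3)
    have hsub : S.ZSet a b σ E i A P x y ⊆
        {z : ι → PhasePoint | (res p z, res (fun j => ¬ p j) z) ∈ W} := by
      rintro z ⟨_, _, h, hl⟩
      rcases h with ⟨hi', h1, h2⟩ | ⟨hi', h1, h2⟩
      · exact ⟨h1, h2, hl⟩
      · exact absurd hi hi'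
    refine (measure_mono hsub).trans ((fub1 p hX hW (fun w hw => hw.1)
      (M := C * ENNReal.ofReal (V * T) ^ q * ENNReal.ofReal ε ^ (2 * (d - 1)) *
        (((2 * ENNReal.ofReal ε) ^ 3 * kap) * (ENNReal.ofReal V ^ 3 * kap))) ?_).trans ?_)
    · intro w hw
      have hs : {y' | (w, y') ∈ W} ⊆ {z | z ∈ S.SSet {j // ¬ p j} a b E' ⟨y, hy⟩ univ ∧
          dist (S.pos z σ ⟨y, hy⟩) (S.pos w σ ⟨x, hx⟩) ≤ 2 * ε} := by
        rintro z ⟨-, h2, h3⟩
        exact ⟨h2, by rw [dist_comm]; exact h3⟩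
      refine (measure_mono hs).trans ?_
      have := S.near_S hBd hε hV hT hEV' hdk hdK ⟨y, hy⟩ hσ hT' (S.pos w σ ⟨x, hx⟩)
      rwa [hcell] at this
    · refine le_trans ?_ (arith1 hc1 hd1 hcd hvX)
      gcongr
      exact (hBd ε B S K E' V T hε hV hT hEV' {j // p j} hck hcK ⟨i, hi⟩ A hA a b ha hb hT').2 σ hσ
  · -- root in the contact block
    set X : Set ({j // p j} → PhasePoint) := S.RSet {j // p j} a b σ E' ⟨x, hx⟩ univ with hXdef
    set Y : Set ({j // ¬ p j} → PhasePoint) := S.SSet {j // ¬ p j} a b E' ⟨i, hi⟩ A with hYdef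
    have hX : MeasurableSet X := S.measurableSet_RSet _ _ _ _ _ MeasurableSet.univ
    have hY : MeasurableSet Y := S.measurableSet_SSet _ _ _ _ hA
    set W : Set (({j // p j} → PhasePoint) × ({j // ¬ p j} → PhasePoint)) :=
      {w | w.1 ∈ X ∧ w.2 ∈ Y ∧ dist (S.pos w.1 σ ⟨x, hx⟩) (S.pos w.2 σ ⟨y, hy⟩) ≤ 2 * ε} with hWdef
    have hW : MeasurableSet W := by
      have h3 : MeasurableSet {w : ({j // p j} → PhasePoint) × ({j // ¬ p j} → PhasePoint) |
          dist (S.pos w.1 σ ⟨x, hx⟩) (S.pos w.2 σ ⟨y, hy⟩) ≤ 2 * ε} :=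
        measurableSet_le (((S.measurable_pos σ _).comp measurable_fst).dist
          ((S.measurable_pos σ _).comp measurable_snd)) measurable_const
      exact (measurable_fst hX).inter ((measurable_snd hY).inter h3)
    have hsub : S.ZSet a b σ E i A P x y ⊆
        {z : ι → PhasePoint | (res p z, res (fun j => ¬ p j) z) ∈ W} := by
      rintro z ⟨_, _, h, hl⟩
      rcases h with ⟨hi', h1, h2⟩ | ⟨hi', h1, h2⟩
      · exact absurd hi' hi
      · exact ⟨h1, h2, hl⟩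
    refine (measure_mono hsub).trans ((fub2 p hY hW (fun w hw => hw.2.1)
      (M := C * ENNReal.ofReal (V * T) ^ q * ENNReal.ofReal ε ^ (2 * (c - 1)) *
        (((2 * ENNReal.ofReal ε) ^ 3 * kap) * (ENNReal.ofReal V ^ 3 * kap))) ?_).trans ?_)
    · intro w hw
      have hs : {x' | (x', w) ∈ W} ⊆ {z | z ∈ S.RSet {j // p j} a b σ E' ⟨x, hx⟩ univ ∧
          dist (S.pos z σ ⟨x, hx⟩) (S.pos w σ ⟨y, hy⟩) ≤ 2 * ε} := by
        rintro z ⟨h1, -, h3⟩
        exact ⟨h1, h3⟩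
      refine (measure_mono hs).trans ?_
      have := S.near_R hBd hε hV hT hEV' hck hcK ⟨x, hx⟩ hσ hT' (S.pos w σ ⟨y, hy⟩)
      rwa [hcell] at this
    · refine le_trans ?_ (arith1 hd1 hc1 (by omega) hvX)
      gcongr
      exact (hBd ε B S K E' V T hε hV hT hEV' {j // ¬ p j} hdk hdK ⟨i, hi⟩ A hA a b ha hb hT').1

/-- Volume of `DSet`. -/
theorem vol_DSet {k : ℕ} {C : ℝ≥0∞} {q : ℕ} (hBd : Bd k C q) {K : ℕ} {E V T : ℝ} (hε : ε ≤ 1)
    (hV : 1 ≤ V) (hT : 1 ≤ T) (hEV : 2 * (E + B * K * (k + 1 + 1)) ≤ V ^ 2)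
    (hk : Fintype.card ι ≤ k + 1) (hK : Fintype.card ι ≤ K) (i : ι) {A : Set PhasePoint}
    (hA : MeasurableSet A) {a b σ : ℝ} (ha : a ≤ 0) (hb : 0 ≤ b) (hσ : σ ∈ Icc a b)
    (hT' : b - a ≤ T) :
    volume (S.DSet ι a b σ E i A) ≤ ((2 ^ (k + 1) * ((k + 1) * (k + 1)) : ℕ) : ℝ≥0∞) *
      ((C ^ 2 * 8 * kap ^ 2) * ENNReal.ofReal (V * T) ^ (2 * q + 3) *
      ENNReal.ofReal ε ^ (2 * (Fintype.card ι - 1) + 1) * volume A) := by
  have hsub : S.DSet ι a b σ E i A ⊆ ⋃ w : Set ι × ι × ι, S.ZSet a b σ E i A w.1 w.2.1 w.2.2 := by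
    intro z hz
    obtain ⟨P, x, y, hx, hy, h⟩ := S.D_sub ha hb hσ hz
    exact mem_iUnion.2 ⟨(P, x, y), hx, hy, h⟩
  refine (measure_mono hsub).trans ((measure_iUnion_fintype_le _ _).trans ?_)
  refine (Finset.sum_le_card_nsmul _ _ _ (fun w _ =>
    S.vol_ZSet hBd hε hV hT hEV hk hK i hA ha hb hσ hT' w.1 w.2.1 w.2.2)).trans ?_
  rw [nsmul_eq_mul]
  gcongr
  rw [Finset.card_univ, Fintype.card_prod, Fintype.card_prod, Fintype.card_set]
  exact Nat.mul_le_mul (Nat.pow_le_pow_right (by norm_num) hk) (Nat.mul_le_mul hk hk)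

end Bodies

end Crest.Agent.R122.Vol365
end
end

-- ▼ part R122/VolMain_365

/-!
Row 122, helper365: the crude undamped cluster volume bound, conclusion of the induction.
-/

set_option autoImplicit false

open MeasureTheory Set
open Crest.AnalysisR.Kinetic
open scoped ENNReal Classical

noncomputable section

namespace Crest.Agent.R122.Vol365

namespace Bodies

variable {ε B : ℝ} (S : Bodies ε B) {ι : Type} [Fintype ι]

/-- One step of the exhaustion of the time interval. -/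
theorem step {z : ι → PhasePoint} (hz : z ∈ S.dom ι) {E V δ : ℝ} (hE : S.energy ι z ≤ E)
    (hV : 0 ≤ V) (h : 2 * (E + B * Fintype.card ι) ≤ V ^ 2) (hδ : 2 * V * δ ≤ ε) {i : ι}
    {A : Set PhasePoint} (hi : z i ∈ A) {a a' b b' : ℝ} (haa : a - a' ≤ δ) (hbb : b' - b ≤ δ)
    (hc : AllConn (S.Contact a' b' z)) :
    AllConn (S.Contact a b z) ∨ z ∈ S.DSet ι a' b b E i A ∨ z ∈ S.DSet ι a b a E i A := by
  have h1 : AllConn (fun j k => S.Contact a' b z j k ∨ S.Link b z j k) := fun j k =>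
    Relation.ReflTransGen.mono (r := S.Contact a' b' z)
      (p := fun j k => S.Contact a' b z j k ∨ S.Link b z j k)
      (fun u v huv => S.ext_right hz hE hV h hδ hbb huv) _ _ (hc j k)
  by_cases h2 : AllConn (S.Contact a' b z)
  · have h3 : AllConn (fun j k => S.Contact a b z j k ∨ S.Link a z j k) := fun j k =>
      Relation.ReflTransGen.mono (r := S.Contact a' b z)
        (p := fun j k => S.Contact a b z j k ∨ S.Link a z j k)
        (fun u v huv => S.ext_left hz hE hV h hδ haa huv) _ _ (h2 j k)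
    by_cases h4 : AllConn (S.Contact a b z)
    · exact Or.inl h4
    · exact Or.inr (Or.inr ⟨hz, hE, h3, h4, hi⟩)
  · exact Or.inr (Or.inl ⟨hz, hE, h1, h2, hi⟩)

/-- lower end of the `m`-th interval -/
def lo (a δ : ℝ) (m : ℕ) : ℝ := max a (-(m * δ))
/-- upper end of the `m`-th interval -/
def hi (b δ : ℝ) (m : ℕ) : ℝ := min b (m * δ)

theorem lo_step (a : ℝ) {δ : ℝ} (hδ : 0 ≤ δ) (m : ℕ) : lo a δ m - lo a δ (m + 1) ≤ δ := by
  unfold lo; push_cast
  rcases le_total a (-(m * δ)) with h | h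
  · rw [max_eq_right h]; have := le_max_right a (-((m + 1 : ℝ) * δ)); linarith
  · rw [max_eq_left h]; have := le_max_left a (-((m + 1 : ℝ) * δ)); linarith

theorem hi_step (b : ℝ) {δ : ℝ} (hδ : 0 ≤ δ) (m : ℕ) : hi b δ (m + 1) - hi b δ m ≤ δ := by
  unfold hi; push_cast
  rcases le_total b (m * δ) with h | h
  · rw [min_eq_left h]; have := min_le_left b ((m + 1 : ℝ) * δ); linarith
  · rw [min_eq_right h]; have := min_le_right b ((m + 1 : ℝ) * δ); linarith

theorem lo_le {a δ : ℝ} (ha : a ≤ 0) (hδ : 0 ≤ δ) (m : ℕ) : lo a δ m ≤ 0 :=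
  max_le ha (by have : 0 ≤ (m : ℝ) * δ := by positivity
                linarith)

theorem le_hi {b δ : ℝ} (hb : 0 ≤ b) (hδ : 0 ≤ δ) (m : ℕ) : 0 ≤ hi b δ m :=
  le_min hb (by positivity)

/-- Static part. -/
theorem vol_static {k : ℕ} {E V : ℝ} (hV : 0 ≤ V) (hE : 2 * (E + B * Fintype.card ι) ≤ V ^ 2)
    (hk : Fintype.card ι ≤ k + 1) (i : ι) {A : Set PhasePoint} (hA : MeasurableSet A) :
    volume {z : ι → PhasePoint | z ∈ S.dom ι ∧ S.energy ι z ≤ E ∧ AllConn (S.Contact 0 0 z) ∧ z i ∈ A}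
      ≤ volume A * ((ENNReal.ofReal ((k + 1 : ℕ) * ε) ^ 3 * kap) * (ENNReal.ofReal V ^ 3 * kap)) ^
        (Fintype.card ι - 1) := by
  have hε := S.eps_pos
  refine le_trans (measure_mono ?_) (static_bound i hA (r := ((k + 1 : ℕ) : ℝ) * ε) (V := V)
    (by positivity) hV)
  rintro z ⟨h1, h2, h3, h4⟩
  refine ⟨h4, fun j => ⟨?_, ?_⟩⟩
  · have hch : AllConn (fun i j => dist (z i).1 (z j).1 ≤ ε) := by
      intro u v
      refine Relation.ReflTransGen.mono (r := S.Contact 0 0 z)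
        (p := fun i j => dist (z i).1 (z j).1 ≤ ε) ?_ _ _ (h3 u v)
      rintro x y ⟨t, ht, hd⟩
      have ht0 : t = 0 := le_antisymm ht.2 ht.1
      subst ht0
      unfold pos at hd
      rwa [S.flow_zero ι z h1] at hd
    have := dist_le_of_chain hε.le hch j i
    show dist (z j).1 (z i).1 ≤ _
    refine this.trans ?_
    gcongr
  · rw [mem_closedBall_zero_iff]
    exact S.speed h1 h2 hV hE j

end Bodies

theorem arith_static {X α e v κ : ℝ≥0∞} {k n : ℕ} (hn : n ≤ k + 1) (he : e ≤ 1) (hv : v ≤ X) (hX : 1 ≤ X) :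
    α * (((((k + 1 : ℕ) : ℝ≥0∞) * e) ^ 3 * κ) * (v ^ 3 * κ)) ^ (n - 1) ≤
      ((((k + 1 : ℕ) : ℝ≥0∞) ^ 3 * κ ^ 2 + 1) ^ k) * X ^ (3 * k) * e ^ (2 * (n - 1)) * α := by
  set c : ℝ≥0∞ := ((k + 1 : ℕ) : ℝ≥0∞) with hc
  have h1 : (((c * e) ^ 3 * κ) * (v ^ 3 * κ)) ^ (n - 1) = (c ^ 3 * κ ^ 2) ^ (n - 1) *
      (v ^ 3) ^ (n - 1) * (e ^ 3) ^ (n - 1) := by
    rw [← mul_pow, ← mul_pow]; congr 1; ring
  rw [h1]
  have hn1 : n - 1 ≤ k := by omega
  have h2 : (c ^ 3 * κ ^ 2) ^ (n - 1) ≤ (c ^ 3 * κ ^ 2 + 1) ^ k :=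
    (pow_le_pow_left' le_self_add _).trans (pow_le_pow_right₀ le_add_self hn1)
  have h3 : (v ^ 3) ^ (n - 1) ≤ X ^ (3 * k) := by
    rw [pow_mul]
    exact (pow_le_pow_left' (pow_le_pow_left' hv 3) _).trans
      (pow_le_pow_right₀ (one_le_pow₀ hX) hn1)
  have h4 : (e ^ 3) ^ (n - 1) ≤ e ^ (2 * (n - 1)) := by
    rw [← pow_mul]
    exact pow_le_pow_right_of_le_one' he (by omega)
  calc α * ((c ^ 3 * κ ^ 2) ^ (n - 1) * (v ^ 3) ^ (n - 1) * (e ^ 3) ^ (n - 1))
      ≤ α * ((c ^ 3 * κ ^ 2 + 1) ^ k * X ^ (3 * k) * e ^ (2 * (n - 1))) := by gcongr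
    _ = _ := by ring

/-- Induction step. -/
theorem Bd_step {k : ℕ} {C : ℝ≥0∞} {q : ℕ} (hBd : Bd k C q) :
    Bd (k + 1) (((((k + 1 : ℕ) : ℝ≥0∞) ^ 3 * kap ^ 2 + 1) ^ k) +
      7 * (((2 ^ (k + 1) * ((k + 1) * (k + 1)) : ℕ) : ℝ≥0∞) * (C ^ 2 * 8 * kap ^ 2)))
      (2 * q + 4 + 3 * k) := by
  intro ε B S K E V T hε hV hT hEV ι _ hk hK i A hA a b ha hb hT'
  push_cast at hEV
  have hε0 := S.eps_pos
  have hV0 : (0 : ℝ) ≤ V := by linarith
  set X := ENNReal.ofReal (V * T) with hX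
  set e := ENNReal.ofReal ε with he
  set n := Fintype.card ι with hn
  have hVT : 1 ≤ V * T := by nlinarith
  have hX1 : 1 ≤ X := by
    rw [hX, ← ENNReal.ofReal_one]; exact ENNReal.ofReal_le_ofReal hVT
  have he1 : e ≤ 1 := by rw [he, ← ENNReal.ofReal_one]; exact ENNReal.ofReal_le_ofReal hε
  have hvX : ENNReal.ofReal V ≤ X := ENNReal.ofReal_le_ofReal (by nlinarith)
  set N : ℝ≥0∞ := ((2 ^ (k + 1) * ((k + 1) * (k + 1)) : ℕ) : ℝ≥0∞) with hN
  set D : ℝ≥0∞ := C ^ 2 * 8 * kap ^ 2 with hD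
  set c0 : ℝ≥0∞ := (((k + 1 : ℕ) : ℝ≥0∞) ^ 3 * kap ^ 2 + 1) ^ k with hc0
  have hBn : B * (n : ℝ) ≤ B * K := mul_le_mul_of_nonneg_left (by exact_mod_cast hK) S.B_nonneg
  have hBK : B * K ≤ B * K * (k + 1 + 1) := by
    have h0 : 0 ≤ B * K := mul_nonneg S.B_nonneg (by positivity)
    have h1 : 0 ≤ B * K * k := mul_nonneg h0 (by positivity)
    linarith
  have hE1 : 2 * (E + B * (n : ℝ)) ≤ V ^ 2 := by linarith
  -- bound for the D sets
  have hDbd : ∀ (a' b' σ : ℝ), a' ≤ 0 → 0 ≤ b' → b' - a' ≤ T → σ ∈ Icc a' b' →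
      volume (S.DSet ι a' b' σ E i A) ≤ N * (D * X ^ (2 * q + 3) * e ^ (2 * (n - 1) + 1) * volume A) :=
    fun a' b' σ ha' hb' hT'' hσ => S.vol_DSet hBd hε hV hT hEV hk hK i hA ha' hb' hσ hT''
  -- bound for the S set
  have hS : volume (S.SSet ι a b E i A) ≤
      (c0 + 6 * (N * D)) * X ^ (2 * q + 4 + 3 * k) * e ^ (2 * (n - 1)) * volume A := by
    set δ : ℝ := ε / (2 * V) with hδdef
    have hδ0 : 0 < δ := by positivity
    have hδ : 2 * V * δ ≤ ε := by
      rw [hδdef]; field_simp; exact le_refl _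
    obtain ⟨M, hM1, hM2⟩ : ∃ M : ℕ, T ≤ M * δ ∧ (M : ℝ) * ε ≤ 3 * (V * T) := by
      refine ⟨⌈T / δ⌉₊, ?_, ?_⟩
      · have := Nat.le_ceil (T / δ)
        rwa [div_le_iff₀ hδ0] at this
      · have h1 : (⌈T / δ⌉₊ : ℝ) < T / δ + 1 := Nat.ceil_lt_add_one (by positivity)
        have h2 : T / δ * ε = 2 * (V * T) := by
          rw [hδdef]; field_simp
        calc (⌈T / δ⌉₊ : ℝ) * ε ≤ (T / δ + 1) * ε := by
              exact mul_le_mul_of_nonneg_right h1.le hε0.le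
          _ = 2 * (V * T) + ε := by rw [add_mul, h2, one_mul]
          _ ≤ 3 * (V * T) := by linarith
    have hloM : Bodies.lo a δ M = a := by
      unfold Bodies.lo; exact max_eq_left (by linarith)
    have hhiM : Bodies.hi b δ M = b := by
      unfold Bodies.hi; exact min_eq_left (by linarith)
    have hlo0 : Bodies.lo a δ 0 = 0 := by
      unfold Bodies.lo; simp; exact ha
    have hhi0 : Bodies.hi b δ 0 = 0 := by
      unfold Bodies.hi; simp; exact hb
    have hkey : ∀ m : ℕ, ∀ z : ι → PhasePoint, z ∈ S.dom ι → S.energy ι z ≤ E → z i ∈ A →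
        AllConn (S.Contact (Bodies.lo a δ m) (Bodies.hi b δ m) z) →
        AllConn (S.Contact 0 0 z) ∨ ∃ m' < m,
          z ∈ S.DSet ι (Bodies.lo a δ (m' + 1)) (Bodies.hi b δ m') (Bodies.hi b δ m') E i A ∨
          z ∈ S.DSet ι (Bodies.lo a δ m') (Bodies.hi b δ m') (Bodies.lo a δ m') E i A := by
      intro m
      induction m with
      | zero => intro z _ _ _ h; left; rwa [hlo0, hhi0] at h
      | succ m ih =>
        intro z hz hEz hiz h
        rcases S.step hz hEz hV0 hE1 hδ hiz (Bodies.lo_step a hδ0.le m) (Bodies.hi_step b hδ0.le m) h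
          with h' | h' | h'
        · rcases ih z hz hEz hiz h' with h'' | ⟨m', hm', h''⟩
          · exact Or.inl h''
          · exact Or.inr ⟨m', Nat.lt_succ_of_lt hm', h''⟩
        · exact Or.inr ⟨m, Nat.lt_succ_self m, Or.inl h'⟩
        · exact Or.inr ⟨m, Nat.lt_succ_self m, Or.inr h'⟩
    have hsub : S.SSet ι a b E i A ⊆
        {z : ι → PhasePoint | z ∈ S.dom ι ∧ S.energy ι z ≤ E ∧ AllConn (S.Contact 0 0 z) ∧ z i ∈ A} ∪
        ⋃ m' : Fin M,
          (S.DSet ι (Bodies.lo a δ (m' + 1)) (Bodies.hi b δ m') (Bodies.hi b δ m') E i A ∪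
          S.DSet ι (Bodies.lo a δ m') (Bodies.hi b δ m') (Bodies.lo a δ m') E i A) := by
      rintro z ⟨h1, h2, h3, h4⟩
      rw [← hloM, ← hhiM] at h3
      rcases hkey M z h1 h2 h4 h3 with h | ⟨m', hm', h⟩
      · exact Or.inl ⟨h1, h2, h, h4⟩
      · exact Or.inr (mem_iUnion.2 ⟨⟨m', hm'⟩, h⟩)
    have hlen : ∀ m m' : ℕ, Bodies.hi b δ m' - Bodies.lo a δ m ≤ T := by
      intro m m'
      have h1 : Bodies.hi b δ m' ≤ b := min_le_left _ _
      have h2 : a ≤ Bodies.lo a δ m := le_max_left _ _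
      linarith
    have hU : volume (⋃ m' : Fin M,
          (S.DSet ι (Bodies.lo a δ (m' + 1)) (Bodies.hi b δ m') (Bodies.hi b δ m') E i A ∪
          S.DSet ι (Bodies.lo a δ m') (Bodies.hi b δ m') (Bodies.lo a δ m') E i A)) ≤
        (M : ℝ≥0∞) * (2 * (N * (D * X ^ (2 * q + 3) * e ^ (2 * (n - 1) + 1) * volume A))) := by
      refine (measure_iUnion_fintype_le _ _).trans ?_
      refine (Finset.sum_le_card_nsmul _ _
        (2 * (N * (D * X ^ (2 * q + 3) * e ^ (2 * (n - 1) + 1) * volume A))) (fun m' _ => ?_)).trans ?_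
      · refine (measure_union_le _ _).trans ?_
        rw [two_mul]
        refine add_le_add ?_ ?_
        · exact hDbd _ _ _ (Bodies.lo_le ha hδ0.le _) (Bodies.le_hi hb hδ0.le _) (hlen _ _)
            ⟨(Bodies.lo_le ha hδ0.le _).trans (Bodies.le_hi hb hδ0.le _), le_refl _⟩
        · exact hDbd _ _ _ (Bodies.lo_le ha hδ0.le _) (Bodies.le_hi hb hδ0.le _) (hlen _ _)
            ⟨le_refl _, (Bodies.lo_le ha hδ0.le _).trans (Bodies.le_hi hb hδ0.le _)⟩
      · rw [nsmul_eq_mul, Finset.card_univ, Fintype.card_fin]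
    have hMe : (M : ℝ≥0∞) * e ≤ 3 * X := by
      rw [he, hX, ← ENNReal.ofReal_natCast, ← ENNReal.ofReal_mul (by positivity)]
      refine (ENNReal.ofReal_le_ofReal hM2).trans ?_
      rw [ENNReal.ofReal_mul (by norm_num)]; simp
    refine (measure_mono hsub).trans ((measure_union_le _ _).trans ?_)
    have hst := S.vol_static (k := k) (E := E) hV0 hE1 hk i hA
    have h2e : ENNReal.ofReal (((k + 1 : ℕ) : ℝ) * ε) = ((k + 1 : ℕ) : ℝ≥0∞) * e := by
      rw [ENNReal.ofReal_mul (by positivity), ENNReal.ofReal_natCast]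
    rw [h2e] at hst
    have hst2 := hst.trans (arith_static (X := X) hk he1 hvX hX1)
    calc _ ≤ c0 * X ^ (3 * k) * e ^ (2 * (n - 1)) * volume A +
          (M : ℝ≥0∞) * (2 * (N * (D * X ^ (2 * q + 3) * e ^ (2 * (n - 1) + 1) * volume A))) :=
          add_le_add hst2 hU
      _ = c0 * X ^ (3 * k) * e ^ (2 * (n - 1)) * volume A +
          2 * (N * D) * X ^ (2 * q + 3) * ((M : ℝ≥0∞) * e) * e ^ (2 * (n - 1)) * volume A := by ring
      _ ≤ c0 * X ^ (2 * q + 4 + 3 * k) * e ^ (2 * (n - 1)) * volume A +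
          2 * (N * D) * X ^ (2 * q + 3) * (3 * X) * e ^ (2 * (n - 1)) * volume A := by
          have hp : X ^ (3 * k) ≤ X ^ (2 * q + 4 + 3 * k) := pow_le_pow_right₀ hX1 (by omega)
          exact add_le_add (mul_le_mul' (mul_le_mul' (mul_le_mul' le_rfl hp) le_rfl) le_rfl)
            (mul_le_mul' (mul_le_mul' (mul_le_mul' le_rfl hMe) le_rfl) le_rfl)
      _ = c0 * X ^ (2 * q + 4 + 3 * k) * e ^ (2 * (n - 1)) * volume A +
          6 * (N * D) * X ^ (2 * q + 4) * e ^ (2 * (n - 1)) * volume A := by ring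
      _ ≤ c0 * X ^ (2 * q + 4 + 3 * k) * e ^ (2 * (n - 1)) * volume A +
          6 * (N * D) * X ^ (2 * q + 4 + 3 * k) * e ^ (2 * (n - 1)) * volume A := by
          have hp : X ^ (2 * q + 4) ≤ X ^ (2 * q + 4 + 3 * k) :=
            pow_le_pow_right₀ hX1 (by omega)
          exact add_le_add le_rfl
            (mul_le_mul' (mul_le_mul' (mul_le_mul' le_rfl hp) le_rfl) le_rfl)
      _ = _ := by ring
  constructor
  · refine hS.trans ?_
    gcongr
    norm_num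
  · intro σ hσ
    have hsub : S.RSet ι a b σ E i A ⊆ S.SSet ι a b E i A ∪ S.DSet ι a b σ E i A := by
      rintro z ⟨h1, h2, h3, h4⟩
      by_cases h5 : AllConn (S.Contact a b z)
      · exact Or.inl ⟨h1, h2, h5, h4⟩
      · exact Or.inr ⟨h1, h2, h3, h5, h4⟩
    refine (measure_mono hsub).trans ((measure_union_le _ _).trans ?_)
    calc _ ≤ (c0 + 6 * (N * D)) * X ^ (2 * q + 4 + 3 * k) * e ^ (2 * (n - 1)) * volume A +
          N * (D * X ^ (2 * q + 3) * e ^ (2 * (n - 1) + 1) * volume A) :=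
          add_le_add hS (hDbd a b σ ha hb hT' hσ)
      _ = (c0 + 6 * (N * D)) * X ^ (2 * q + 4 + 3 * k) * e ^ (2 * (n - 1)) * volume A +
          N * D * X ^ (2 * q + 3) * e * e ^ (2 * (n - 1)) * volume A := by ring
      _ ≤ (c0 + 6 * (N * D)) * X ^ (2 * q + 4 + 3 * k) * e ^ (2 * (n - 1)) * volume A +
          N * D * X ^ (2 * q + 4 + 3 * k) * 1 * e ^ (2 * (n - 1)) * volume A := by
          have hp : X ^ (2 * q + 3) ≤ X ^ (2 * q + 4 + 3 * k) :=
            pow_le_pow_right₀ hX1 (by omega)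
          exact add_le_add le_rfl (mul_le_mul' (mul_le_mul' (mul_le_mul'
            (mul_le_mul' le_rfl hp) he1) le_rfl) le_rfl)
      _ = _ := by ring

/-- **Crude cluster volume bound**: finite constants for every cluster size. -/
theorem Bd_all (k : ℕ) : ∃ (C : ℝ≥0∞) (q : ℕ), C ≠ ∞ ∧ Bd k C q := by
  induction k with
  | zero =>
    refine ⟨0, 0, by simp, ?_⟩
    intro ε B S K E V T hε hV hT hEV ι _ hk hK i
    exact absurd (Fintype.card_pos_iff.2 ⟨i⟩) (by omega)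
  | succ k ih =>
    obtain ⟨C, q, hC, hBd⟩ := ih
    refine ⟨_, _, ?_, Bd_step hBd⟩
    have hκ := kap_ne_top
    refine ENNReal.add_ne_top.2 ⟨ENNReal.pow_ne_top (ENNReal.add_ne_top.2
      ⟨ENNReal.mul_ne_top (ENNReal.pow_ne_top (ENNReal.natCast_ne_top _)) (ENNReal.pow_ne_top hκ),
        ENNReal.one_ne_top⟩), ?_⟩
    refine ENNReal.mul_ne_top (by norm_num) (ENNReal.mul_ne_top (ENNReal.natCast_ne_top _) ?_)
    exact ENNReal.mul_ne_top (ENNReal.mul_ne_top (ENNReal.pow_ne_top hC) (by norm_num))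
      (ENNReal.pow_ne_top hκ)

end Crest.Agent.R122.Vol365
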